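import Vale.Agent.Lib.P154.PChain.BT.R0_0

set_option linter.all false

namespace Vale.Agent.Lib.P154.PChain.BT.S1

open Vale.Agent.Lib.P154.Chain

noncomputable def pc0 : PT := (PT.nd (nat_lit 3042000) (PT.nd (nat_lit 2948166) (PT.nd (nat_lit 2854488) (PT.nd (nat_lit 2823132) (PT.nd (nat_lit 2791932) (PT.nd (nat_lit 2760732) PT.nil (PT.lf (nat_lit 76) (nat_lit 3) (nat_lit 1) (nat_lit 1) (nat_lit 106) (nat_lit 88) (nat_lit 106))) (PT.nd (nat_lit 78) (PT.lf (nat_lit 152) (nat_lit 6) (nat_lit 2) (nat_lit 3) (nat_lit 105) (nat_lit 89) (nat_lit 106)) (PT.lf (nat_lit 152) (nat_lit 6) (nat_lit 2) (nat_lit 1) (nat_lit 106) (nat_lit 89) (nat_lit 105)))) (PT.nd (nat_lit 156) (PT.nd (nat_lit 78) (PT.lf (nat_lit 228) (nat_lit 6) (nat_lit 3) (nat_lit 3) (nat_lit 104) (nat_lit 90) (nat_lit 106)) (PT.lf (nat_lit 304) (nat_lit 3) (nat_lit 4) (nat_lit 1) (nat_lit 105) (nat_lit 90) (nat_lit 105))) (PT.nd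 (nat_lit 31122) (PT.lf (nat_lit 228) (nat_lit 6) (nat_lit 3) (nat_lit 1) (nat_lit 106) (nat_lit 90) (nat_lit 104)) (PT.lf (nat_lit 380) (nat_lit 6) (nat_lit 5) (nat_lit 3) (nat_lit 104) (nat_lit 91) (nat_lit 105))))) (PT.nd (nat_lit 31278) (PT.nd (nat_lit 31122) (PT.lf (nat_lit 380) (nat_lit 6) (nat_lit 5) (nat_lit 1) (nat_lit 105) (nat_lit 91) (nat_lit 104)) (PT.nd (nat_lit 78) (PT.lf (nat_lit 456) (nat_lit 6) (nat_lit 6) (nat_lit 3) (nat_lit 103) (nat_lit 92) (nat_lit 105)) (PT.lf (nat_lit 532) (nat_lit 3) (nat_lit 7) (nat_lit 1) (nat_lit 104) (nat_lit 92) (nat_lit 104)))) (PT.nd (nat_lit 31200) (PT.nd (nat_lit 31122) (PT.lf (nat_lit 456) (nat_lit 6) (nat_lit 6) (nat_lit 1) (nat_lit 105) (nat_lit 92) (nat_lit 103)) (PT.lf (nat_lit 608) (nat_lit 6) (nat_lit 8) (nat_lit 3) (nat_lit 103) (nat_lit 93) (nat_lit 104))) (PT.nd (nat_lit 31122) (PT.lf (nat_lit 608) (nat_lit 6) (nat_lit 8) (nat_lit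 1) (nat_lit 104) (nat_lit 93) (nat_lit 103)) (PT.lf (nat_lit 684) (nat_lit 6) (nat_lit 9) (nat_lit 3) (nat_lit 102) (nat_lit 94) (nat_lit 104)))))) (PT.nd (nat_lit 62400) (PT.nd (nat_lit 31200) (PT.nd (nat_lit 78) (PT.lf (nat_lit 760) (nat_lit 3) (nat_lit 10) (nat_lit 1) (nat_lit 103) (nat_lit 94) (nat_lit 103)) (PT.nd (nat_lit 31044) (PT.lf (nat_lit 684) (nat_lit 6) (nat_lit 9) (nat_lit 1) (nat_lit 104) (nat_lit 94) (nat_lit 102)) (PT.lf (nat_lit 836) (nat_lit 6) (nat_lit 11) (nat_lit 3) (nat_lit 101) (nat_lit 95) (nat_lit 104)))) (PT.nd (nat_lit 156) (PT.nd (nat_lit 78) (PT.lf (nat_lit 912) (nat_lit 6) (nat_lit 12) (nat_lit 3) (nat_lit 102) (nat_lit 95) (nat_lit 103)) (PT.lf (nat_lit 912) (nat_lit 6) (nat_lit 12) (nat_lit 1) (nat_lit 103) (nat_lit 95) (nat_lit 102))) (PT.nd (nat_lit 30966) (PT.lf (nat_lit 836) (nat_lit 6) (nat_lit 11) (nat_lit 1) (nat_lit 104) (nat_lit 95) (nat_lit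 101)) (PT.lf (nat_lit 1064) (nat_lit 6) (nat_lit 14) (nat_lit 3) (nat_lit 100) (nat_lit 96) (nat_lit 104))))) (PT.nd (nat_lit 31122) (PT.nd (nat_lit 156) (PT.nd (nat_lit 78) (PT.lf (nat_lit 1140) (nat_lit 6) (nat_lit 15) (nat_lit 3) (nat_lit 101) (nat_lit 96) (nat_lit 103)) (PT.lf (nat_lit 1216) (nat_lit 3) (nat_lit 16) (nat_lit 1) (nat_lit 102) (nat_lit 96) (nat_lit 102))) (PT.nd (nat_lit 78) (PT.lf (nat_lit 1140) (nat_lit 6) (nat_lit 15) (nat_lit 1) (nat_lit 103) (nat_lit 96) (nat_lit 101)) (PT.lf (nat_lit 1064) (nat_lit 6) (nat_lit 14) (nat_lit 1) (nat_lit 104) (nat_lit 96) (nat_lit 100)))) (PT.nd (nat_lit 156) (PT.nd (nat_lit 78) (PT.lf (nat_lit 988) (nat_lit 6) (nat_lit 13) (nat_lit 3) (nat_lit 99) (nat_lit 97) (nat_lit 104)) (PT.lf (nat_lit 1368) (nat_lit 6) (nat_lit 18) (nat_lit 3) (nat_lit 100) (nat_lit 97) (nat_lit 103))) (PT.nd (nat_lit 78) (PT.lf (nat_lit 1444) (nat_lit 6)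 (nat_lit 19) (nat_lit 3) (nat_lit 101) (nat_lit 97) (nat_lit 102)) (PT.lf (nat_lit 1444) (nat_lit 6) (nat_lit 19) (nat_lit 1) (nat_lit 102) (nat_lit 97) (nat_lit 101))))))) (PT.nd (nat_lit 93288) (PT.nd (nat_lit 62088) (PT.nd (nat_lit 31044) (PT.nd (nat_lit 78) (PT.lf (nat_lit 1368) (nat_lit 6) (nat_lit 18) (nat_lit 1) (nat_lit 103) (nat_lit 97) (nat_lit 100)) (PT.nd (nat_lit 30888) (PT.lf (nat_lit 988) (nat_lit 6) (nat_lit 13) (nat_lit 1) (nat_lit 104) (nat_lit 97) (nat_lit 99)) (PT.lf (nat_lit 1292) (nat_lit 6) (nat_lit 17) (nat_lit 3) (nat_lit 99) (nat_lit 98) (nat_lit 103)))) (PT.nd (nat_lit 156) (PT.nd (nat_lit 78) (PT.lf (nat_lit 1596) (nat_lit 6) (nat_lit 21) (nat_lit 3) (nat_lit 100) (nat_lit 98) (nat_lit 102)) (PT.lf (nat_lit 1672) (nat_lit 3) (nat_lit 22) (nat_lit 1) (nat_lit 101) (nat_lit 98) (nat_lit 101))) (PT.nd (nat_lit 78) (PT.lf (nat_lit 1596) (nat_lit 6) (nat_lit 21)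 (nat_lit 1) (nat_lit 102) (nat_lit 98) (nat_lit 100)) (PT.lf (nat_lit 1292) (nat_lit 6) (nat_lit 17) (nat_lit 1) (nat_lit 103) (nat_lit 98) (nat_lit 99))))) (PT.nd (nat_lit 312) (PT.nd (nat_lit 156) (PT.nd (nat_lit 78) (PT.lf (nat_lit 988) (nat_lit 6) (nat_lit 13) (nat_lit 5) (nat_lit 97) (nat_lit 99) (nat_lit 104)) (PT.lf (nat_lit 1292) (nat_lit 6) (nat_lit 17) (nat_lit 5) (nat_lit 98) (nat_lit 99) (nat_lit 103))) (PT.nd (nat_lit 78) (PT.lf (nat_lit 1520) (nat_lit 3) (nat_lit 20) (nat_lit 3) (nat_lit 99) (nat_lit 99) (nat_lit 102)) (PT.lf (nat_lit 1748) (nat_lit 6) (nat_lit 23) (nat_lit 3) (nat_lit 100) (nat_lit 99) (nat_lit 101)))) (PT.nd (nat_lit 156) (PT.nd (nat_lit 78) (PT.lf (nat_lit 1748) (nat_lit 6) (nat_lit 23) (nat_lit 1) (nat_lit 101) (nat_lit 99) (nat_lit 100)) (PT.lf (nat_lit 1520) (nat_lit 3) (nat_lit 20) (nat_lit 0) (nat_lit 102) (nat_lit 99) (nat_lit 99))) (PT.nd (nat_lit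 78) (PT.lf (nat_lit 1292) (nat_lit 6) (nat_lit 17) (nat_lit 0) (nat_lit 103) (nat_lit 99) (nat_lit 98)) (PT.lf (nat_lit 988) (nat_lit 6) (nat_lit 13) (nat_lit 0) (nat_lit 104) (nat_lit 99) (nat_lit 97)))))) (PT.nd (nat_lit 546) (PT.nd (nat_lit 234) (PT.nd (nat_lit 78) (PT.lf (nat_lit 1064) (nat_lit 6) (nat_lit 14) (nat_lit 5) (nat_lit 96) (nat_lit 100) (nat_lit 104)) (PT.nd (nat_lit 78) (PT.lf (nat_lit 1368) (nat_lit 6) (nat_lit 18) (nat_lit 5) (nat_lit 97) (nat_lit 100) (nat_lit 103)) (PT.lf (nat_lit 1596) (nat_lit 6) (nat_lit 21) (nat_lit 5) (nat_lit 98) (nat_lit 100) (nat_lit 102)))) (PT.nd (nat_lit 156) (PT.nd (nat_lit 78) (PT.lf (nat_lit 1748) (nat_lit 6) (nat_lit 23) (nat_lit 5) (nat_lit 99) (nat_lit 100) (nat_lit 101)) (PT.lf (nat_lit 1824) (nat_lit 1) (nat_lit 24) (nat_lit 0) (nat_lit 100) (nat_lit 100) (nat_lit 100))) (PT.nd (nat_lit 78) (PT.lf (nat_lit 1748) (nat_lit 6) (nat_lit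 23) (nat_lit 0) (nat_lit 101) (nat_lit 100) (nat_lit 99)) (PT.lf (nat_lit 1596) (nat_lit 6) (nat_lit 21) (nat_lit 0) (nat_lit 102) (nat_lit 100) (nat_lit 98))))) (PT.nd (nat_lit 30810) (PT.nd (nat_lit 30654) (PT.nd (nat_lit 78) (PT.lf (nat_lit 1368) (nat_lit 6) (nat_lit 18) (nat_lit 0) (nat_lit 103) (nat_lit 100) (nat_lit 97)) (PT.lf (nat_lit 1064) (nat_lit 6) (nat_lit 14) (nat_lit 0) (nat_lit 104) (nat_lit 100) (nat_lit 96))) (PT.nd (nat_lit 78) (PT.lf (nat_lit 836) (nat_lit 6) (nat_lit 11) (nat_lit 5) (nat_lit 95) (nat_lit 101) (nat_lit 104)) (PT.lf (nat_lit 1140) (nat_lit 6) (nat_lit 15) (nat_lit 5) (nat_lit 96) (nat_lit 101) (nat_lit 103)))) (PT.nd (nat_lit 156) (PT.nd (nat_lit 78) (PT.lf (nat_lit 1444) (nat_lit 6) (nat_lit 19) (nat_lit 5) (nat_lit 97) (nat_lit 101) (nat_lit 102)) (PT.lf (nat_lit 1672) (nat_lit 3) (nat_lit 22) (nat_lit 4) (nat_lit 98) (nat_lit 101) (nat_lit 101)))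 (PT.nd (nat_lit 78) (PT.lf (nat_lit 1748) (nat_lit 6) (nat_lit 23) (nat_lit 4) (nat_lit 99) (nat_lit 101) (nat_lit 100)) (PT.lf (nat_lit 1748) (nat_lit 6) (nat_lit 23) (nat_lit 2) (nat_lit 100) (nat_lit 101) (nat_lit 99))))))))
noncomputable def pc1 : PT := (PT.nd (nat_lit 92976) (PT.nd (nat_lit 31512) (PT.nd (nat_lit 30966) (PT.nd (nat_lit 234) (PT.nd (nat_lit 78) (PT.lf (nat_lit 1672) (nat_lit 3) (nat_lit 22) (nat_lit 0) (nat_lit 101) (nat_lit 101) (nat_lit 98)) (PT.nd (nat_lit 78) (PT.lf (nat_lit 1444) (nat_lit 6) (nat_lit 19) (nat_lit 0) (nat_lit 102) (nat_lit 101) (nat_lit 97)) (PT.lf (nat_lit 1140) (nat_lit 6) (nat_lit 15) (nat_lit 0) (nat_lit 103) (nat_lit 101) (nat_lit 96)))) (PT.nd (nat_lit 30576) (PT.nd (nat_lit 30498) (PT.lf (nat_lit 836) (nat_lit 6) (nat_lit 11) (nat_lit 0) (nat_lit 104) (nat_lit 101) (nat_lit 95)) (PT.lf (nat_lit 684) (nat_lit 6) (nat_lit 9) (nat_lit 5) (nat_lit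 94) (nat_lit 102) (nat_lit 104))) (PT.nd (nat_lit 78) (PT.lf (nat_lit 912) (nat_lit 6) (nat_lit 12) (nat_lit 5) (nat_lit 95) (nat_lit 102) (nat_lit 103)) (PT.lf (nat_lit 1216) (nat_lit 3) (nat_lit 16) (nat_lit 4) (nat_lit 96) (nat_lit 102) (nat_lit 102))))) (PT.nd (nat_lit 234) (PT.nd (nat_lit 78) (PT.lf (nat_lit 1444) (nat_lit 6) (nat_lit 19) (nat_lit 4) (nat_lit 97) (nat_lit 102) (nat_lit 101)) (PT.nd (nat_lit 78) (PT.lf (nat_lit 1596) (nat_lit 6) (nat_lit 21) (nat_lit 4) (nat_lit 98) (nat_lit 102) (nat_lit 100)) (PT.lf (nat_lit 1520) (nat_lit 3) (nat_lit 20) (nat_lit 2) (nat_lit 99) (nat_lit 102) (nat_lit 99)))) (PT.nd (nat_lit 156) (PT.nd (nat_lit 78) (PT.lf (nat_lit 1596) (nat_lit 6) (nat_lit 21) (nat_lit 2) (nat_lit 100) (nat_lit 102) (nat_lit 98)) (PT.lf (nat_lit 1444) (nat_lit 6) (nat_lit 19) (nat_lit 2) (nat_lit 101) (nat_lit 102) (nat_lit 97))) (PT.nd (nat_lit 78) (PT.lf (nat_lit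 1216) (nat_lit 3) (nat_lit 16) (nat_lit 0) (nat_lit 102) (nat_lit 102) (nat_lit 96)) (PT.lf (nat_lit 912) (nat_lit 6) (nat_lit 12) (nat_lit 0) (nat_lit 103) (nat_lit 102) (nat_lit 95)))))) (PT.nd (nat_lit 30810) (PT.nd (nat_lit 30498) (PT.nd (nat_lit 30342) (PT.lf (nat_lit 684) (nat_lit 6) (nat_lit 9) (nat_lit 0) (nat_lit 104) (nat_lit 102) (nat_lit 94)) (PT.nd (nat_lit 78) (PT.lf (nat_lit 456) (nat_lit 6) (nat_lit 6) (nat_lit 5) (nat_lit 92) (nat_lit 103) (nat_lit 105)) (PT.lf (nat_lit 608) (nat_lit 6) (nat_lit 8) (nat_lit 5) (nat_lit 93) (nat_lit 103) (nat_lit 104)))) (PT.nd (nat_lit 156) (PT.nd (nat_lit 78) (PT.lf (nat_lit 760) (nat_lit 3) (nat_lit 10) (nat_lit 4) (nat_lit 94) (nat_lit 103) (nat_lit 103)) (PT.lf (nat_lit 912) (nat_lit 6) (nat_lit 12) (nat_lit 4) (nat_lit 95) (nat_lit 103) (nat_lit 102))) (PT.nd (nat_lit 78) (PT.lf (nat_lit 1140) (nat_lit 6) (nat_lit 15) (nat_lit 4)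 (nat_lit 96) (nat_lit 103) (nat_lit 101)) (PT.lf (nat_lit 1368) (nat_lit 6) (nat_lit 18) (nat_lit 4) (nat_lit 97) (nat_lit 103) (nat_lit 100))))) (PT.nd (nat_lit 312) (PT.nd (nat_lit 156) (PT.nd (nat_lit 78) (PT.lf (nat_lit 1292) (nat_lit 6) (nat_lit 17) (nat_lit 4) (nat_lit 98) (nat_lit 103) (nat_lit 99)) (PT.lf (nat_lit 1292) (nat_lit 6) (nat_lit 17) (nat_lit 2) (nat_lit 99) (nat_lit 103) (nat_lit 98))) (PT.nd (nat_lit 78) (PT.lf (nat_lit 1368) (nat_lit 6) (nat_lit 18) (nat_lit 2) (nat_lit 100) (nat_lit 103) (nat_lit 97)) (PT.lf (nat_lit 1140) (nat_lit 6) (nat_lit 15) (nat_lit 2) (nat_lit 101) (nat_lit 103) (nat_lit 96)))) (PT.nd (nat_lit 156) (PT.nd (nat_lit 78) (PT.lf (nat_lit 912) (nat_lit 6) (nat_lit 12) (nat_lit 2) (nat_lit 102) (nat_lit 103) (nat_lit 95)) (PT.lf (nat_lit 760) (nat_lit 3) (nat_lit 10) (nat_lit 0) (nat_lit 103) (nat_lit 103) (nat_lit 94))) (PT.nd (nat_lit 78) (PT.lf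 (nat_lit 608) (nat_lit 6) (nat_lit 8) (nat_lit 0) (nat_lit 104) (nat_lit 103) (nat_lit 93)) (PT.lf (nat_lit 456) (nat_lit 6) (nat_lit 6) (nat_lit 0) (nat_lit 105) (nat_lit 103) (nat_lit 92))))))) (PT.nd (nat_lit 1248) (PT.nd (nat_lit 546) (PT.nd (nat_lit 234) (PT.nd (nat_lit 78) (PT.lf (nat_lit 228) (nat_lit 6) (nat_lit 3) (nat_lit 5) (nat_lit 90) (nat_lit 104) (nat_lit 106)) (PT.nd (nat_lit 78) (PT.lf (nat_lit 380) (nat_lit 6) (nat_lit 5) (nat_lit 5) (nat_lit 91) (nat_lit 104) (nat_lit 105)) (PT.lf (nat_lit 532) (nat_lit 3) (nat_lit 7) (nat_lit 4) (nat_lit 92) (nat_lit 104) (nat_lit 104)))) (PT.nd (nat_lit 156) (PT.nd (nat_lit 78) (PT.lf (nat_lit 608) (nat_lit 6) (nat_lit 8) (nat_lit 4) (nat_lit 93) (nat_lit 104) (nat_lit 103)) (PT.lf (nat_lit 684) (nat_lit 6) (nat_lit 9) (nat_lit 4) (nat_lit 94) (nat_lit 104) (nat_lit 102))) (PT.nd (nat_lit 78) (PT.lf (nat_lit 836) (nat_lit 6) (nat_lit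 11) (nat_lit 4) (nat_lit 95) (nat_lit 104) (nat_lit 101)) (PT.lf (nat_lit 1064) (nat_lit 6) (nat_lit 14) (nat_lit 4) (nat_lit 96) (nat_lit 104) (nat_lit 100))))) (PT.nd (nat_lit 390) (PT.nd (nat_lit 234) (PT.nd (nat_lit 156) (PT.lf (nat_lit 988) (nat_lit 6) (nat_lit 13) (nat_lit 4) (nat_lit 97) (nat_lit 104) (nat_lit 99)) (PT.lf (nat_lit 988) (nat_lit 6) (nat_lit 13) (nat_lit 2) (nat_lit 99) (nat_lit 104) (nat_lit 97))) (PT.nd (nat_lit 78) (PT.lf (nat_lit 1064) (nat_lit 6) (nat_lit 14) (nat_lit 2) (nat_lit 100) (nat_lit 104) (nat_lit 96)) (PT.lf (nat_lit 836) (nat_lit 6) (nat_lit 11) (nat_lit 2) (nat_lit 101) (nat_lit 104) (nat_lit 95)))) (PT.nd (nat_lit 156) (PT.nd (nat_lit 78) (PT.lf (nat_lit 684) (nat_lit 6) (nat_lit 9) (nat_lit 2) (nat_lit 102) (nat_lit 104) (nat_lit 94)) (PT.lf (nat_lit 608) (nat_lit 6) (nat_lit 8) (nat_lit 2) (nat_lit 103) (nat_lit 104) (nat_lit 93))) (PT.nd (nat_lit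 78) (PT.lf (nat_lit 532) (nat_lit 3) (nat_lit 7) (nat_lit 0) (nat_lit 104) (nat_lit 104) (nat_lit 92)) (PT.lf (nat_lit 380) (nat_lit 6) (nat_lit 5) (nat_lit 0) (nat_lit 105) (nat_lit 104) (nat_lit 91)))))) (PT.nd (nat_lit 31200) (PT.nd (nat_lit 30108) (PT.nd (nat_lit 29952) (PT.lf (nat_lit 228) (nat_lit 6) (nat_lit 3) (nat_lit 0) (nat_lit 106) (nat_lit 104) (nat_lit 90)) (PT.nd (nat_lit 78) (PT.lf (nat_lit 152) (nat_lit 6) (nat_lit 2) (nat_lit 5) (nat_lit 89) (nat_lit 105) (nat_lit 106)) (PT.lf (nat_lit 304) (nat_lit 3) (nat_lit 4) (nat_lit 4) (nat_lit 90) (nat_lit 105) (nat_lit 105)))) (PT.nd (nat_lit 936) (PT.nd (nat_lit 78) (PT.lf (nat_lit 380) (nat_lit 6) (nat_lit 5) (nat_lit 4) (nat_lit 91) (nat_lit 105) (nat_lit 104)) (PT.lf (nat_lit 456) (nat_lit 6) (nat_lit 6) (nat_lit 4) (nat_lit 92) (nat_lit 105) (nat_lit 103))) (PT.nd (nat_lit 78) (PT.lf (nat_lit 456) (nat_lit 6) (nat_lit 6)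 (nat_lit 2) (nat_lit 103) (nat_lit 105) (nat_lit 92)) (PT.lf (nat_lit 380) (nat_lit 6) (nat_lit 5) (nat_lit 2) (nat_lit 104) (nat_lit 105) (nat_lit 91))))) (PT.nd (nat_lit 30108) (PT.nd (nat_lit 29952) (PT.nd (nat_lit 78) (PT.lf (nat_lit 304) (nat_lit 3) (nat_lit 4) (nat_lit 0) (nat_lit 105) (nat_lit 105) (nat_lit 90)) (PT.lf (nat_lit 152) (nat_lit 6) (nat_lit 2) (nat_lit 0) (nat_lit 106) (nat_lit 105) (nat_lit 89))) (PT.nd (nat_lit 78) (PT.lf (nat_lit 76) (nat_lit 3) (nat_lit 1) (nat_lit 4) (nat_lit 88) (nat_lit 106) (nat_lit 106)) (PT.lf (nat_lit 152) (nat_lit 6) (nat_lit 2) (nat_lit 4) (nat_lit 89) (nat_lit 106) (nat_lit 105)))) (PT.nd (nat_lit 1170) (PT.nd (nat_lit 1092) (PT.lf (nat_lit 228) (nat_lit 6) (nat_lit 3) (nat_lit 4) (nat_lit 90) (nat_lit 106) (nat_lit 104)) (PT.lf (nat_lit 228) (nat_lit 6) (nat_lit 3) (nat_lit 2) (nat_lit 104) (nat_lit 106) (nat_lit 90))) (PT.nd (nat_lit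 78) (PT.lf (nat_lit 152) (nat_lit 6) (nat_lit 2) (nat_lit 2) (nat_lit 105) (nat_lit 106) (nat_lit 89)) (PT.lf (nat_lit 76) (nat_lit 3) (nat_lit 1) (nat_lit 0) (nat_lit 106) (nat_lit 106) (nat_lit 88))))))))
noncomputable def xc0 : XT := (XT.nd (nat_lit 93912) (nat_lit 0) (nat_lit 0) (XT.nd (nat_lit 62478) (nat_lit 0) (nat_lit 0) (XT.nd (nat_lit 31278) (nat_lit 0) (nat_lit 0) (XT.nd (nat_lit 31122) (nat_lit 0) (nat_lit 0) (XT.nd (nat_lit 78) (nat_lit 0) (nat_lit 0) (XT.lf (nat_lit 0) (nat_lit 1557606373480) (nat_lit 76) (nat_lit 700744223978) (nat_lit 76) (nat_lit 700744223978) (nat_lit 1) (nat_lit 4) (nat_lit 2) (nat_lit 5) (nat_lit 2) (nat_lit 4) (nat_lit 260) (nat_lit 170) (nat_lit 170)) (XT.lf (nat_lit 0) (nat_lit 3583350798518) (nat_lit 76) (nat_lit 1611280922333) (nat_lit 76) (nat_lit 1611248590192) (nat_lit 1) (nat_lit 4) (nat_lit 2) (nat_lit 5) (nat_lit 2) (nat_lit 4) (nat_lit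 261) (nat_lit 170) (nat_lit 169))) (XT.nd (nat_lit 78) (nat_lit 0) (nat_lit 0) (XT.lf (nat_lit 0) (nat_lit 1176990810873) (nat_lit 76) (nat_lit 530272283572) (nat_lit 76) (nat_lit 530272283572) (nat_lit 1) (nat_lit 4) (nat_lit 2) (nat_lit 5) (nat_lit 2) (nat_lit 4) (nat_lit 258) (nat_lit 171) (nat_lit 171)) (XT.lf (nat_lit 0) (nat_lit 2708063425450) (nat_lit 76) (nat_lit 1219130840476) (nat_lit 76) (nat_lit 1219093658514) (nat_lit 1) (nat_lit 4) (nat_lit 2) (nat_lit 5) (nat_lit 2) (nat_lit 4) (nat_lit 259) (nat_lit 171) (nat_lit 170)))) (XT.nd (nat_lit 30966) (nat_lit 0) (nat_lit 0) (XT.nd (nat_lit 78) (nat_lit 0) (nat_lit 0) (XT.lf (nat_lit 0) (nat_lit 3115173831528) (nat_lit 76) (nat_lit 1401543521322) (nat_lit 76) (nat_lit 1401474007219) (nat_lit 1) (nat_lit 4) (nat_lit 2) (nat_lit 5) (nat_lit 2) (nat_lit 4) (nat_lit 260) (nat_lit 171) (nat_lit 169)) (XT.lf (nat_lit 0) (nat_lit 3583278043579)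 (nat_lit 76) (nat_lit 1611351553439) (nat_lit 76) (nat_lit 1611253924430) (nat_lit 1) (nat_lit 4) (nat_lit 2) (nat_lit 5) (nat_lit 2) (nat_lit 4) (nat_lit 261) (nat_lit 171) (nat_lit 168))) (XT.nd (nat_lit 78) (nat_lit 0) (nat_lit 0) (XT.lf (nat_lit 0) (nat_lit 889073255847) (nat_lit 76) (nat_lit 401432351815) (nat_lit 76) (nat_lit 401432351815) (nat_lit 1) (nat_lit 4) (nat_lit 2) (nat_lit 5) (nat_lit 2) (nat_lit 4) (nat_lit 256) (nat_lit 172) (nat_lit 172)) (XT.nd (nat_lit 78) (nat_lit 0) (nat_lit 0) (XT.lf (nat_lit 0) (nat_lit 2046000732956) (nat_lit 76) (nat_lit 922724685673) (nat_lit 76) (nat_lit 922681926416) (nat_lit 1) (nat_lit 4) (nat_lit 2) (nat_lit 5) (nat_lit 2) (nat_lit 4) (nat_lit 257) (nat_lit 172) (nat_lit 171)) (XT.lf (nat_lit 0) (nat_lit 2353936869000) (nat_lit 76) (nat_lit 1060607901514) (nat_lit 76) (nat_lit 1060527960296) (nat_lit 1) (nat_lit 4) (nat_lit 2) (nat_lit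 5) (nat_lit 2) (nat_lit 4) (nat_lit 258) (nat_lit 172) (nat_lit 170)))))) (XT.nd (nat_lit 31044) (nat_lit 0) (nat_lit 0) (XT.nd (nat_lit 156) (nat_lit 0) (nat_lit 0) (XT.nd (nat_lit 78) (nat_lit 0) (nat_lit 0) (XT.lf (nat_lit 0) (nat_lit 2707979757270) (nat_lit 76) (nat_lit 1219212066248) (nat_lit 76) (nat_lit 1219099792888) (nat_lit 1) (nat_lit 4) (nat_lit 2) (nat_lit 5) (nat_lit 2) (nat_lit 4) (nat_lit 259) (nat_lit 172) (nat_lit 169)) (XT.lf (nat_lit 0) (nat_lit 3115056323842) (nat_lit 76) (nat_lit 1401640304835) (nat_lit 76) (nat_lit 1401499916571) (nat_lit 1) (nat_lit 4) (nat_lit 2) (nat_lit 5) (nat_lit 2) (nat_lit 4) (nat_lit 260) (nat_lit 172) (nat_lit 168))) (XT.nd (nat_lit 30732) (nat_lit 0) (nat_lit 0) (XT.lf (nat_lit 0) (nat_lit 3583131110235) (nat_lit 76) (nat_lit 1611461865423) (nat_lit 76) (nat_lit 1611297029414) (nat_lit 1) (nat_lit 4) (nat_lit 2) (nat_lit 5) (nat_lit 2)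 (nat_lit 4) (nat_lit 261) (nat_lit 172) (nat_lit 167)) (XT.nd (nat_lit 78) (nat_lit 0) (nat_lit 0) (XT.lf (nat_lit 0) (nat_lit 671231086072) (nat_lit 76) (nat_lit 304081401719) (nat_lit 76) (nat_lit 304081401719) (nat_lit 1) (nat_lit 4) (nat_lit 2) (nat_lit 5) (nat_lit 2) (nat_lit 4) (nat_lit 254) (nat_lit 173) (nat_lit 173)) (XT.lf (nat_lit 0) (nat_lit 1545133579149) (nat_lit 76) (nat_lit 698732041927) (nat_lit 76) (nat_lit 698682868782) (nat_lit 1) (nat_lit 4) (nat_lit 2) (nat_lit 5) (nat_lit 2) (nat_lit 4) (nat_lit 255) (nat_lit 173) (nat_lit 172))))) (XT.nd (nat_lit 156) (nat_lit 0) (nat_lit 0) (XT.nd (nat_lit 78) (nat_lit 0) (nat_lit 0) (XT.lf (nat_lit 0) (nat_lit 1778095046036) (nat_lit 76) (nat_lit 802937538155) (nat_lit 76) (nat_lit 802845605754) (nat_lit 1) (nat_lit 4) (nat_lit 2) (nat_lit 5) (nat_lit 2) (nat_lit 4) (nat_lit 256) (nat_lit 173) (nat_lit 171)) (XT.lf (nat_lit 0)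 (nat_lit 2045904514550) (nat_lit 76) (nat_lit 922818095310) (nat_lit 76) (nat_lit 922688980947) (nat_lit 1) (nat_lit 4) (nat_lit 2) (nat_lit 5) (nat_lit 2) (nat_lit 4) (nat_lit 257) (nat_lit 173) (nat_lit 170))) (XT.nd (nat_lit 78) (nat_lit 0) (nat_lit 0) (XT.lf (nat_lit 0) (nat_lit 2353801735161) (nat_lit 76) (nat_lit 1060719202555) (nat_lit 76) (nat_lit 1060557756050) (nat_lit 1) (nat_lit 4) (nat_lit 2) (nat_lit 5) (nat_lit 2) (nat_lit 4) (nat_lit 258) (nat_lit 173) (nat_lit 169)) (XT.nd (nat_lit 78) (nat_lit 0) (nat_lit 0) (XT.lf (nat_lit 0) (nat_lit 2707810783924) (nat_lit 76) (nat_lit 1219338925029) (nat_lit 76) (nat_lit 1219149363620) (nat_lit 1) (nat_lit 4) (nat_lit 2) (nat_lit 5) (nat_lit 2) (nat_lit 4) (nat_lit 259) (nat_lit 173) (nat_lit 168)) (XT.lf (nat_lit 0) (nat_lit 3114857924838) (nat_lit 76) (nat_lit 1401780692087) (nat_lit 76) (nat_lit 1401566682934) (nat_lit 1) (nat_lit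 4) (nat_lit 2) (nat_lit 5) (nat_lit 2) (nat_lit 4) (nat_lit 260) (nat_lit 173) (nat_lit 167))))))) (XT.nd (nat_lit 31278) (nat_lit 0) (nat_lit 0) (XT.nd (nat_lit 30888) (nat_lit 0) (nat_lit 0) (XT.nd (nat_lit 30654) (nat_lit 0) (nat_lit 0) (XT.nd (nat_lit 30576) (nat_lit 0) (nat_lit 0) (XT.lf (nat_lit 0) (nat_lit 3582907123703) (nat_lit 76) (nat_lit 1611614016562) (nat_lit 76) (nat_lit 1611378748502) (nat_lit 1) (nat_lit 4) (nat_lit 2) (nat_lit 5) (nat_lit 2) (nat_lit 4) (nat_lit 261) (nat_lit 173) (nat_lit 166)) (XT.lf (nat_lit 0) (nat_lit 506355705011) (nat_lit 76) (nat_lit 230551227955) (nat_lit 76) (nat_lit 230551227955) (nat_lit 1) (nat_lit 4) (nat_lit 2) (nat_lit 5) (nat_lit 2) (nat_lit 4) (nat_lit 252) (nat_lit 174) (nat_lit 174))) (XT.nd (nat_lit 78) (nat_lit 0) (nat_lit 0) (XT.lf (nat_lit 0) (nat_lit 1166115514886) (nat_lit 76) (nat_lit 529514364967) (nat_lit 76) (nat_lit 529457815850)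 (nat_lit 1) (nat_lit 4) (nat_lit 2) (nat_lit 5) (nat_lit 2) (nat_lit 4) (nat_lit 253) (nat_lit 174) (nat_lit 173)) (XT.nd (nat_lit 78) (nat_lit 0) (nat_lit 0) (XT.lf (nat_lit 0) (nat_lit 1342402986636) (nat_lit 76) (nat_lit 608246563142) (nat_lit 76) (nat_lit 608140840880) (nat_lit 1) (nat_lit 4) (nat_lit 2) (nat_lit 5) (nat_lit 2) (nat_lit 4) (nat_lit 254) (nat_lit 174) (nat_lit 172)) (XT.lf (nat_lit 0) (nat_lit 1545022927981) (nat_lit 76) (nat_lit 698839463010) (nat_lit 76) (nat_lit 698690981492) (nat_lit 1) (nat_lit 4) (nat_lit 2) (nat_lit 5) (nat_lit 2) (nat_lit 4) (nat_lit 255) (nat_lit 174) (nat_lit 171))))) (XT.nd (nat_lit 156) (nat_lit 0) (nat_lit 0) (XT.nd (nat_lit 78) (nat_lit 0) (nat_lit 0) (XT.lf (nat_lit 0) (nat_lit 1777939642121) (nat_lit 76) (nat_lit 803065534351) (nat_lit 76) (nat_lit 802879870871) (nat_lit 1) (nat_lit 4) (nat_lit 2) (nat_lit 5) (nat_lit 2) (nat_lit 4)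 (nat_lit 256) (nat_lit 174) (nat_lit 170)) (XT.lf (nat_lit 0) (nat_lit 2045710195202) (nat_lit 76) (nat_lit 922963982909) (nat_lit 76) (nat_lit 922745987289) (nat_lit 1) (nat_lit 4) (nat_lit 2) (nat_lit 5) (nat_lit 2) (nat_lit 4) (nat_lit 257) (nat_lit 174) (nat_lit 169))) (XT.nd (nat_lit 78) (nat_lit 0) (nat_lit 0) (XT.lf (nat_lit 0) (nat_lit 2353573576307) (nat_lit 76) (nat_lit 1060880647895) (nat_lit 76) (nat_lit 1060634537369) (nat_lit 1) (nat_lit 4) (nat_lit 2) (nat_lit 5) (nat_lit 2) (nat_lit 4) (nat_lit 258) (nat_lit 174) (nat_lit 168)) (XT.nd (nat_lit 78) (nat_lit 0) (nat_lit 0) (XT.lf (nat_lit 0) (nat_lit 2707553199413) (nat_lit 76) (nat_lit 1219513898840) (nat_lit 76) (nat_lit 1219243340571) (nat_lit 1) (nat_lit 4) (nat_lit 2) (nat_lit 5) (nat_lit 2) (nat_lit 4) (nat_lit 259) (nat_lit 174) (nat_lit 167)) (XT.lf (nat_lit 0) (nat_lit 3114574752798) (nat_lit 76) (nat_lit 1401967429786)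 (nat_lit 76) (nat_lit 1401675612609) (nat_lit 1) (nat_lit 4) (nat_lit 2) (nat_lit 5) (nat_lit 2) (nat_lit 4) (nat_lit 260) (nat_lit 174) (nat_lit 166)))))) (XT.nd (nat_lit 30732) (nat_lit 0) (nat_lit 0) (XT.nd (nat_lit 30498) (nat_lit 0) (nat_lit 0) (XT.nd (nat_lit 30420) (nat_lit 0) (nat_lit 0) (XT.lf (nat_lit 0) (nat_lit 3582601701638) (nat_lit 76) (nat_lit 1611810983728) (nat_lit 76) (nat_lit 1611500680545) (nat_lit 1) (nat_lit 4) (nat_lit 2) (nat_lit 5) (nat_lit 2) (nat_lit 4) (nat_lit 261) (nat_lit 174) (nat_lit 165)) (XT.lf (nat_lit 0) (nat_lit 381507515226) (nat_lit 76) (nat_lit 175045152964) (nat_lit 76) (nat_lit 175045152964) (nat_lit 1) (nat_lit 4) (nat_lit 2) (nat_lit 5) (nat_lit 2) (nat_lit 4) (nat_lit 250) (nat_lit 175) (nat_lit 175))) (XT.nd (nat_lit 78) (nat_lit 0) (nat_lit 0) (XT.lf (nat_lit 0) (nat_lit 879189287385) (nat_lit 76) (nat_lit 401737373588) (nat_lit 76) (nat_lit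 401672342104) (nat_lit 1) (nat_lit 4) (nat_lit 2) (nat_lit 5) (nat_lit 2) (nat_lit 4) (nat_lit 251) (nat_lit 175) (nat_lit 174)) (XT.nd (nat_lit 78) (nat_lit 0) (nat_lit 0) (XT.lf (nat_lit 0) (nat_lit 1012643346688) (nat_lit 76) (nat_lit 461198779570) (nat_lit 76) (nat_lit 461077198970) (nat_lit 1) (nat_lit 4) (nat_lit 2) (nat_lit 5) (nat_lit 2) (nat_lit 4) (nat_lit 252) (nat_lit 175) (nat_lit 173)) (XT.lf (nat_lit 0) (nat_lit 1165988266043) (nat_lit 76) (nat_lit 529637899212) (nat_lit 76) (nat_lit 529467145467) (nat_lit 1) (nat_lit 4) (nat_lit 2) (nat_lit 5) (nat_lit 2) (nat_lit 4) (nat_lit 253) (nat_lit 175) (nat_lit 172))))) (XT.nd (nat_lit 156) (nat_lit 0) (nat_lit 0) (XT.nd (nat_lit 78) (nat_lit 0) (nat_lit 0) (XT.lf (nat_lit 0) (nat_lit 1342224272134) (nat_lit 76) (nat_lit 608393758767) (nat_lit 76) (nat_lit 608180245766) (nat_lit 1) (nat_lit 4) (nat_lit 2) (nat_lit 5) (nat_lit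 2) (nat_lit 4) (nat_lit 254) (nat_lit 175) (nat_lit 171)) (XT.lf (nat_lit 0) (nat_lit 1544799460731) (nat_lit 76) (nat_lit 699007233749) (nat_lit 76) (nat_lit 698756538785) (nat_lit 1) (nat_lit 4) (nat_lit 2) (nat_lit 5) (nat_lit 2) (nat_lit 4) (nat_lit 255) (nat_lit 175) (nat_lit 170))) (XT.nd (nat_lit 78) (nat_lit 0) (nat_lit 0) (XT.lf (nat_lit 0) (nat_lit 1777677259439) (nat_lit 76) (nat_lit 803251196492) (nat_lit 76) (nat_lit 802968169388) (nat_lit 1) (nat_lit 4) (nat_lit 2) (nat_lit 5) (nat_lit 2) (nat_lit 4) (nat_lit 256) (nat_lit 175) (nat_lit 169)) (XT.nd (nat_lit 78) (nat_lit 0) (nat_lit 0) (XT.lf (nat_lit 0) (nat_lit 2045413973014) (nat_lit 76) (nat_lit 923165202792) (nat_lit 76) (nat_lit 922854060782) (nat_lit 1) (nat_lit 4) (nat_lit 2) (nat_lit 5) (nat_lit 2) (nat_lit 4) (nat_lit 257) (nat_lit 175) (nat_lit 168)) (XT.lf (nat_lit 0) (nat_lit 2353247928460) (nat_lit 76) (nat_lit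 1061095396248) (nat_lit 76) (nat_lit 1060759806495) (nat_lit 1) (nat_lit 4) (nat_lit 2) (nat_lit 5) (nat_lit 2) (nat_lit 4) (nat_lit 258) (nat_lit 175) (nat_lit 167))))))))
noncomputable def xc1 : XT := (XT.nd (nat_lit 61698) (nat_lit 0) (nat_lit 0) (XT.nd (nat_lit 30888) (nat_lit 0) (nat_lit 0) (XT.nd (nat_lit 30498) (nat_lit 0) (nat_lit 0) (XT.nd (nat_lit 156) (nat_lit 0) (nat_lit 0) (XT.nd (nat_lit 78) (nat_lit 0) (nat_lit 0) (XT.lf (nat_lit 0) (nat_lit 2707201964038) (nat_lit 76) (nat_lit 1219740411081) (nat_lit 76) (nat_lit 1219383562420) (nat_lit 1) (nat_lit 4) (nat_lit 2) (nat_lit 5) (nat_lit 2) (nat_lit 4) (nat_lit 259) (nat_lit 175) (nat_lit 166)) (XT.lf (nat_lit 0) (nat_lit 3114201267399) (nat_lit 76) (nat_lit 1402204171494) (nat_lit 76) (nat_lit 1401828836827) (nat_lit 1) (nat_lit 4) (nat_lit 2) (nat_lit 5) (nat_lit 2) (nat_lit 4) (nat_lit 260) (nat_lit 175) (nat_lit 165)))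 (XT.nd (nat_lit 30264) (nat_lit 0) (nat_lit 0) (XT.lf (nat_lit 0) (nat_lit 3582208868391) (nat_lit 76) (nat_lit 1612056620626) (nat_lit 76) (nat_lit 1611665211170) (nat_lit 1) (nat_lit 4) (nat_lit 2) (nat_lit 5) (nat_lit 2) (nat_lit 4) (nat_lit 261) (nat_lit 175) (nat_lit 164)) (XT.lf (nat_lit 0) (nat_lit 286898825470) (nat_lit 76) (nat_lit 133181881157) (nat_lit 76) (nat_lit 133181881157) (nat_lit 1) (nat_lit 4) (nat_lit 2) (nat_lit 5) (nat_lit 2) (nat_lit 4) (nat_lit 248) (nat_lit 176) (nat_lit 176)))) (XT.nd (nat_lit 156) (nat_lit 0) (nat_lit 0) (XT.nd (nat_lit 78) (nat_lit 0) (nat_lit 0) (XT.lf (nat_lit 0) (nat_lit 661847601299) (nat_lit 76) (nat_lit 305321876696) (nat_lit 76) (nat_lit 305247090490) (nat_lit 1) (nat_lit 4) (nat_lit 2) (nat_lit 5) (nat_lit 2) (nat_lit 4) (nat_lit 249) (nat_lit 176) (nat_lit 175)) (XT.lf (nat_lit 0) (nat_lit 762936757618) (nat_lit 76) (nat_lit 350201078137)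 (nat_lit 76) (nat_lit 350061260447) (nat_lit 1) (nat_lit 4) (nat_lit 2) (nat_lit 5) (nat_lit 2) (nat_lit 4) (nat_lit 250) (nat_lit 176) (nat_lit 174))) (XT.nd (nat_lit 78) (nat_lit 0) (nat_lit 0) (XT.lf (nat_lit 0) (nat_lit 879042951216) (nat_lit 76) (nat_lit 401879437970) (nat_lit 76) (nat_lit 401683071163) (nat_lit 1) (nat_lit 4) (nat_lit 2) (nat_lit 5) (nat_lit 2) (nat_lit 4) (nat_lit 251) (nat_lit 176) (nat_lit 173)) (XT.nd (nat_lit 78) (nat_lit 0) (nat_lit 0) (XT.lf (nat_lit 0) (nat_lit 1012437825010) (nat_lit 76) (nat_lit 461368054540) (nat_lit 76) (nat_lit 461122514588) (nat_lit 1) (nat_lit 4) (nat_lit 2) (nat_lit 5) (nat_lit 2) (nat_lit 4) (nat_lit 252) (nat_lit 176) (nat_lit 172)) (XT.lf (nat_lit 0) (nat_lit 1165731278706) (nat_lit 76) (nat_lit 529830835562) (nat_lit 76) (nat_lit 529542536353) (nat_lit 1) (nat_lit 4) (nat_lit 2) (nat_lit 5) (nat_lit 2) (nat_lit 4) (nat_lit 253)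 (nat_lit 176) (nat_lit 171)))))) (XT.nd (nat_lit 390) (nat_lit 0) (nat_lit 0) (XT.nd (nat_lit 156) (nat_lit 0) (nat_lit 0) (XT.nd (nat_lit 78) (nat_lit 0) (nat_lit 0) (XT.lf (nat_lit 0) (nat_lit 1341922532049) (nat_lit 76) (nat_lit 608607270230) (nat_lit 76) (nat_lit 608281789059) (nat_lit 1) (nat_lit 4) (nat_lit 2) (nat_lit 5) (nat_lit 2) (nat_lit 4) (nat_lit 254) (nat_lit 176) (nat_lit 170)) (XT.lf (nat_lit 0) (nat_lit 1544458805215) (nat_lit 76) (nat_lit 699238636614) (nat_lit 76) (nat_lit 698880823302) (nat_lit 1) (nat_lit 4) (nat_lit 2) (nat_lit 5) (nat_lit 2) (nat_lit 4) (nat_lit 255) (nat_lit 176) (nat_lit 169))) (XT.nd (nat_lit 78) (nat_lit 0) (nat_lit 0) (XT.lf (nat_lit 0) (nat_lit 1777302764416) (nat_lit 76) (nat_lit 803498157099) (nat_lit 76) (nat_lit 803112228882) (nat_lit 1) (nat_lit 4) (nat_lit 2) (nat_lit 5) (nat_lit 2) (nat_lit 4) (nat_lit 256) (nat_lit 176) (nat_lit 168))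 (XT.nd (nat_lit 78) (nat_lit 0) (nat_lit 0) (XT.lf (nat_lit 0) (nat_lit 2045010052333) (nat_lit 76) (nat_lit 923425691869) (nat_lit 76) (nat_lit 923015315909) (nat_lit 1) (nat_lit 4) (nat_lit 2) (nat_lit 5) (nat_lit 2) (nat_lit 4) (nat_lit 257) (nat_lit 176) (nat_lit 167)) (XT.lf (nat_lit 0) (nat_lit 2352818420251) (nat_lit 76) (nat_lit 1061367649213) (nat_lit 76) (nat_lit 1060936014345) (nat_lit 1) (nat_lit 4) (nat_lit 2) (nat_lit 5) (nat_lit 2) (nat_lit 4) (nat_lit 258) (nat_lit 176) (nat_lit 166))))) (XT.nd (nat_lit 156) (nat_lit 0) (nat_lit 0) (XT.nd (nat_lit 78) (nat_lit 0) (nat_lit 0) (XT.lf (nat_lit 0) (nat_lit 2706750205804) (nat_lit 76) (nat_lit 1220022893513) (nat_lit 76) (nat_lit 1219572772639) (nat_lit 1) (nat_lit 4) (nat_lit 2) (nat_lit 5) (nat_lit 2) (nat_lit 4) (nat_lit 259) (nat_lit 176) (nat_lit 165)) (XT.lf (nat_lit 0) (nat_lit 3113730161317) (nat_lit 76) (nat_lit 1402495549115)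 (nat_lit 76) (nat_lit 1402029353453) (nat_lit 1) (nat_lit 4) (nat_lit 2) (nat_lit 5) (nat_lit 2) (nat_lit 4) (nat_lit 260) (nat_lit 176) (nat_lit 164))) (XT.nd (nat_lit 30108) (nat_lit 0) (nat_lit 0) (XT.lf (nat_lit 0) (nat_lit 3581720938094) (nat_lit 76) (nat_lit 1612355733194) (nat_lit 76) (nat_lit 1611875559455) (nat_lit 1) (nat_lit 4) (nat_lit 2) (nat_lit 5) (nat_lit 2) (nat_lit 4) (nat_lit 261) (nat_lit 176) (nat_lit 163)) (XT.nd (nat_lit 78) (nat_lit 0) (nat_lit 0) (XT.lf (nat_lit 0) (nat_lit 215124713910) (nat_lit 76) (nat_lit 101650622876) (nat_lit 76) (nat_lit 101650622876) (nat_lit 1) (nat_lit 4) (nat_lit 2) (nat_lit 5) (nat_lit 2) (nat_lit 4) (nat_lit 246) (nat_lit 177) (nat_lit 177)) (XT.lf (nat_lit 0) (nat_lit 497064190119) (nat_lit 76) (nat_lit 232650515154) (nat_lit 76) (nat_lit 232564511016) (nat_lit 1) (nat_lit 4) (nat_lit 2) (nat_lit 5) (nat_lit 2) (nat_lit 4) (nat_lit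 247) (nat_lit 177) (nat_lit 176))))))) (XT.nd (nat_lit 780) (nat_lit 0) (nat_lit 0) (XT.nd (nat_lit 390) (nat_lit 0) (nat_lit 0) (XT.nd (nat_lit 156) (nat_lit 0) (nat_lit 0) (XT.nd (nat_lit 78) (nat_lit 0) (nat_lit 0) (XT.lf (nat_lit 0) (nat_lit 573707637180) (nat_lit 76) (nat_lit 266491150354) (nat_lit 76) (nat_lit 266330360010) (nat_lit 1) (nat_lit 4) (nat_lit 2) (nat_lit 5) (nat_lit 2) (nat_lit 4) (nat_lit 248) (nat_lit 177) (nat_lit 175)) (XT.lf (nat_lit 0) (nat_lit 661679314705) (nat_lit 76) (nat_lit 305485250736) (nat_lit 76) (nat_lit 305259428908) (nat_lit 1) (nat_lit 4) (nat_lit 2) (nat_lit 5) (nat_lit 2) (nat_lit 4) (nat_lit 249) (nat_lit 177) (nat_lit 174))) (XT.nd (nat_lit 78) (nat_lit 0) (nat_lit 0) (XT.lf (nat_lit 0) (nat_lit 762700407689) (nat_lit 76) (nat_lit 350395744352) (nat_lit 76) (nat_lit 350113373407) (nat_lit 1) (nat_lit 4) (nat_lit 2) (nat_lit 5) (nat_lit 2) (nat_lit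 4) (nat_lit 250) (nat_lit 177) (nat_lit 173)) (XT.nd (nat_lit 78) (nat_lit 0) (nat_lit 0) (XT.lf (nat_lit 0) (nat_lit 878747415778) (nat_lit 76) (nat_lit 402101314772) (nat_lit 76) (nat_lit 401769770682) (nat_lit 1) (nat_lit 4) (nat_lit 2) (nat_lit 5) (nat_lit 2) (nat_lit 4) (nat_lit 251) (nat_lit 177) (nat_lit 172)) (XT.lf (nat_lit 0) (nat_lit 1012090823913) (nat_lit 76) (nat_lit 461613592722) (nat_lit 76) (nat_lit 461239289376) (nat_lit 1) (nat_lit 4) (nat_lit 2) (nat_lit 5) (nat_lit 2) (nat_lit 4) (nat_lit 252) (nat_lit 177) (nat_lit 171))))) (XT.nd (nat_lit 156) (nat_lit 0) (nat_lit 0) (XT.nd (nat_lit 78) (nat_lit 0) (nat_lit 0) (XT.lf (nat_lit 0) (nat_lit 1165339524862) (nat_lit 76) (nat_lit 530096948856) (nat_lit 76) (nat_lit 529685463548) (nat_lit 1) (nat_lit 4) (nat_lit 2) (nat_lit 5) (nat_lit 2) (nat_lit 4) (nat_lit 253) (nat_lit 177) (nat_lit 170)) (XT.lf (nat_lit 0) (nat_lit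 1341491862773) (nat_lit 76) (nat_lit 608891274927) (nat_lit 76) (nat_lit 608447457478) (nat_lit 1) (nat_lit 4) (nat_lit 2) (nat_lit 5) (nat_lit 2) (nat_lit 4) (nat_lit 254) (nat_lit 177) (nat_lit 169))) (XT.nd (nat_lit 78) (nat_lit 0) (nat_lit 0) (XT.lf (nat_lit 0) (nat_lit 1543994296431) (nat_lit 76) (nat_lit 699538199052) (nat_lit 76) (nat_lit 699066266698) (nat_lit 1) (nat_lit 4) (nat_lit 2) (nat_lit 5) (nat_lit 2) (nat_lit 4) (nat_lit 255) (nat_lit 177) (nat_lit 168)) (XT.nd (nat_lit 78) (nat_lit 0) (nat_lit 0) (XT.lf (nat_lit 0) (nat_lit 1776808829975) (nat_lit 76) (nat_lit 803811248008) (nat_lit 76) (nat_lit 803314867910) (nat_lit 1) (nat_lit 4) (nat_lit 2) (nat_lit 5) (nat_lit 2) (nat_lit 4) (nat_lit 256) (nat_lit 177) (nat_lit 167)) (XT.lf (nat_lit 0) (nat_lit 2044490530363) (nat_lit 76) (nat_lit 923750546666) (nat_lit 76) (nat_lit 923232907660) (nat_lit 1) (nat_lit 4) (nat_lit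 2) (nat_lit 5) (nat_lit 2) (nat_lit 4) (nat_lit 257) (nat_lit 177) (nat_lit 166)))))) (XT.nd (nat_lit 30264) (nat_lit 0) (nat_lit 0) (XT.nd (nat_lit 156) (nat_lit 0) (nat_lit 0) (XT.nd (nat_lit 78) (nat_lit 0) (nat_lit 0) (XT.lf (nat_lit 0) (nat_lit 2352276648257) (nat_lit 76) (nat_lit 1061702733477) (nat_lit 76) (nat_lit 1061166608465) (nat_lit 1) (nat_lit 4) (nat_lit 2) (nat_lit 5) (nat_lit 2) (nat_lit 4) (nat_lit 258) (nat_lit 177) (nat_lit 165)) (XT.lf (nat_lit 0) (nat_lit 2706189085962) (nat_lit 76) (nat_lit 1220366872967) (nat_lit 76) (nat_lit 1219814673167) (nat_lit 1) (nat_lit 4) (nat_lit 2) (nat_lit 5) (nat_lit 2) (nat_lit 4) (nat_lit 259) (nat_lit 177) (nat_lit 164))) (XT.nd (nat_lit 78) (nat_lit 0) (nat_lit 0) (XT.lf (nat_lit 0) (nat_lit 3113152217259) (nat_lit 76) (nat_lit 1402847263516) (nat_lit 76) (nat_lit 1402281085639) (nat_lit 1) (nat_lit 4) (nat_lit 2) (nat_lit 5) (nat_lit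 2) (nat_lit 4) (nat_lit 260) (nat_lit 177) (nat_lit 163)) (XT.nd (nat_lit 29952) (nat_lit 0) (nat_lit 0) (XT.lf (nat_lit 0) (nat_lit 3581128364284) (nat_lit 76) (nat_lit 1612714173636) (nat_lit 76) (nat_lit 1612135840909) (nat_lit 1) (nat_lit 4) (nat_lit 2) (nat_lit 5) (nat_lit 2) (nat_lit 4) (nat_lit 261) (nat_lit 177) (nat_lit 162)) (XT.lf (nat_lit 0) (nat_lit 160581371559) (nat_lit 76) (nat_lit 77950359630) (nat_lit 76) (nat_lit 77950359630) (nat_lit 1) (nat_lit 4) (nat_lit 2) (nat_lit 5) (nat_lit 2) (nat_lit 4) (nat_lit 244) (nat_lit 178) (nat_lit 178))))) (XT.nd (nat_lit 156) (nat_lit 0) (nat_lit 0) (XT.nd (nat_lit 78) (nat_lit 0) (nat_lit 0) (XT.lf (nat_lit 0) (nat_lit 371956104932) (nat_lit 76) (nat_lit 177968022070) (nat_lit 76) (nat_lit 177869117312) (nat_lit 1) (nat_lit 4) (nat_lit 2) (nat_lit 5) (nat_lit 2) (nat_lit 4) (nat_lit 245) (nat_lit 178) (nat_lit 177)) (XT.lf (nat_lit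 0) (nat_lit 430145911996) (nat_lit 76) (nat_lit 203447741997) (nat_lit 76) (nat_lit 203262833101) (nat_lit 1) (nat_lit 4) (nat_lit 2) (nat_lit 5) (nat_lit 2) (nat_lit 4) (nat_lit 246) (nat_lit 178) (nat_lit 176))) (XT.nd (nat_lit 78) (nat_lit 0) (nat_lit 0) (XT.lf (nat_lit 0) (nat_lit 496870660535) (nat_lit 76) (nat_lit 232838395300) (nat_lit 76) (nat_lit 232578700198) (nat_lit 1) (nat_lit 4) (nat_lit 2) (nat_lit 5) (nat_lit 2) (nat_lit 4) (nat_lit 247) (nat_lit 178) (nat_lit 175)) (XT.nd (nat_lit 78) (nat_lit 0) (nat_lit 0) (XT.lf (nat_lit 0) (nat_lit 573435834761) (nat_lit 76) (nat_lit 266715016501) (nat_lit 76) (nat_lit 266390289915) (nat_lit 1) (nat_lit 4) (nat_lit 2) (nat_lit 5) (nat_lit 2) (nat_lit 4) (nat_lit 248) (nat_lit 178) (nat_lit 174)) (XT.lf (nat_lit 0) (nat_lit 661339448952) (nat_lit 76) (nat_lit 305740409058) (nat_lit 76) (nat_lit 305359133355) (nat_lit 1) (nat_lit 4)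 (nat_lit 2) (nat_lit 5) (nat_lit 2) (nat_lit 4) (nat_lit 249) (nat_lit 178) (nat_lit 173))))))))
noncomputable def xc2 : XT := (XT.nd (nat_lit 31200) (nat_lit 0) (nat_lit 0) (XT.nd (nat_lit 702) (nat_lit 0) (nat_lit 0) (XT.nd (nat_lit 312) (nat_lit 0) (nat_lit 0) (XT.nd (nat_lit 156) (nat_lit 0) (nat_lit 0) (XT.nd (nat_lit 78) (nat_lit 0) (nat_lit 0) (XT.lf (nat_lit 0) (nat_lit 762301356428) (nat_lit 76) (nat_lit 350678113261) (nat_lit 76) (nat_lit 350247664413) (nat_lit 1) (nat_lit 4) (nat_lit 2) (nat_lit 5) (nat_lit 2) (nat_lit 4) (nat_lit 250) (nat_lit 178) (nat_lit 172)) (XT.lf (nat_lit 0) (nat_lit 878296898858) (nat_lit 76) (nat_lit 402407345061) (nat_lit 76) (nat_lit 401934136957) (nat_lit 1) (nat_lit 4) (nat_lit 2) (nat_lit 5) (nat_lit 2) (nat_lit 4) (nat_lit 251) (nat_lit 178) (nat_lit 171))) (XT.nd (nat_lit 78) (nat_lit 0) (nat_lit 0) (XT.lf (nat_lit 0) (nat_lit 1011595554245)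 (nat_lit 76) (nat_lit 461940198123) (nat_lit 76) (nat_lit 461429808057) (nat_lit 1) (nat_lit 4) (nat_lit 2) (nat_lit 5) (nat_lit 2) (nat_lit 4) (nat_lit 252) (nat_lit 178) (nat_lit 170)) (XT.lf (nat_lit 0) (nat_lit 1164805339761) (nat_lit 76) (nat_lit 530441445661) (nat_lit 76) (nat_lit 529898723453) (nat_lit 1) (nat_lit 4) (nat_lit 2) (nat_lit 5) (nat_lit 2) (nat_lit 4) (nat_lit 253) (nat_lit 178) (nat_lit 169)))) (XT.nd (nat_lit 156) (nat_lit 0) (nat_lit 0) (XT.nd (nat_lit 78) (nat_lit 0) (nat_lit 0) (XT.lf (nat_lit 0) (nat_lit 1340923838166) (nat_lit 76) (nat_lit 609251329473) (nat_lit 76) (nat_lit 608680492360) (nat_lit 1) (nat_lit 4) (nat_lit 2) (nat_lit 5) (nat_lit 2) (nat_lit 4) (nat_lit 254) (nat_lit 178) (nat_lit 168)) (XT.lf (nat_lit 0) (nat_lit 1543396846167) (nat_lit 76) (nat_lit 699911782068) (nat_lit 76) (nat_lit 699316497212) (nat_lit 1) (nat_lit 4) (nat_lit 2) (nat_lit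 5) (nat_lit 2) (nat_lit 4) (nat_lit 255) (nat_lit 178) (nat_lit 167))) (XT.nd (nat_lit 78) (nat_lit 0) (nat_lit 0) (XT.lf (nat_lit 0) (nat_lit 1776185792181) (nat_lit 76) (nat_lit 804196594912) (nat_lit 76) (nat_lit 803580051148) (nat_lit 1) (nat_lit 4) (nat_lit 2) (nat_lit 5) (nat_lit 2) (nat_lit 4) (nat_lit 256) (nat_lit 178) (nat_lit 166)) (XT.nd (nat_lit 78) (nat_lit 0) (nat_lit 0) (XT.lf (nat_lit 0) (nat_lit 2043845242545) (nat_lit 76) (nat_lit 924146123037) (nat_lit 76) (nat_lit 923511093267) (nat_lit 1) (nat_lit 4) (nat_lit 2) (nat_lit 5) (nat_lit 2) (nat_lit 4) (nat_lit 257) (nat_lit 178) (nat_lit 165)) (XT.lf (nat_lit 0) (nat_lit 2351612012591) (nat_lit 76) (nat_lit 1062107205038) (nat_lit 76) (nat_lit 1061456100479) (nat_lit 1) (nat_lit 4) (nat_lit 2) (nat_lit 5) (nat_lit 2) (nat_lit 4) (nat_lit 258) (nat_lit 178) (nat_lit 164)))))) (XT.nd (nat_lit 30108) (nat_lit 0) (nat_lit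 0) (XT.nd (nat_lit 156) (nat_lit 0) (nat_lit 0) (XT.nd (nat_lit 78) (nat_lit 0) (nat_lit 0) (XT.lf (nat_lit 0) (nat_lit 2705507626081) (nat_lit 76) (nat_lit 1220779079474) (nat_lit 76) (nat_lit 1220113996839) (nat_lit 1) (nat_lit 4) (nat_lit 2) (nat_lit 5) (nat_lit 2) (nat_lit 4) (nat_lit 259) (nat_lit 178) (nat_lit 163)) (XT.lf (nat_lit 0) (nat_lit 3112456127626) (nat_lit 76) (nat_lit 1403266196064) (nat_lit 76) (nat_lit 1402588958580) (nat_lit 1) (nat_lit 4) (nat_lit 2) (nat_lit 5) (nat_lit 2) (nat_lit 4) (nat_lit 260) (nat_lit 178) (nat_lit 162))) (XT.nd (nat_lit 29796) (nat_lit 0) (nat_lit 0) (XT.lf (nat_lit 0) (nat_lit 3580419553127) (nat_lit 76) (nat_lit 1613138954915) (nat_lit 76) (nat_lit 1612451147997) (nat_lit 1) (nat_lit 4) (nat_lit 2) (nat_lit 5) (nat_lit 2) (nat_lit 4) (nat_lit 261) (nat_lit 178) (nat_lit 161)) (XT.nd (nat_lit 78) (nat_lit 0) (nat_lit 0) (XT.lf (nat_lit 0)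 (nat_lit 119026195866) (nat_lit 76) (nat_lit 60192738394) (nat_lit 76) (nat_lit 60192738394) (nat_lit 1) (nat_lit 4) (nat_lit 2) (nat_lit 5) (nat_lit 2) (nat_lit 4) (nat_lit 242) (nat_lit 179) (nat_lit 179)) (XT.lf (nat_lit 0) (nat_lit 276772043390) (nat_lit 76) (nat_lit 136927822465) (nat_lit 76) (nat_lit 136814081993) (nat_lit 1) (nat_lit 4) (nat_lit 2) (nat_lit 5) (nat_lit 2) (nat_lit 4) (nat_lit 243) (nat_lit 179) (nat_lit 178))))) (XT.nd (nat_lit 156) (nat_lit 0) (nat_lit 0) (XT.nd (nat_lit 78) (nat_lit 0) (nat_lit 0) (XT.lf (nat_lit 0) (nat_lit 321043699921) (nat_lit 76) (nat_lit 156069189943) (nat_lit 76) (nat_lit 155856544713) (nat_lit 1) (nat_lit 4) (nat_lit 2) (nat_lit 5) (nat_lit 2) (nat_lit 4) (nat_lit 244) (nat_lit 179) (nat_lit 177)) (XT.lf (nat_lit 0) (nat_lit 371733545911) (nat_lit 76) (nat_lit 178184084238) (nat_lit 76) (nat_lit 177885434870) (nat_lit 1) (nat_lit 4) (nat_lit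 2) (nat_lit 5) (nat_lit 2) (nat_lit 4) (nat_lit 245) (nat_lit 179) (nat_lit 176))) (XT.nd (nat_lit 78) (nat_lit 0) (nat_lit 0) (XT.lf (nat_lit 0) (nat_lit 429833339215) (nat_lit 76) (nat_lit 203705188066) (nat_lit 76) (nat_lit 203331752492) (nat_lit 1) (nat_lit 4) (nat_lit 2) (nat_lit 5) (nat_lit 2) (nat_lit 4) (nat_lit 246) (nat_lit 179) (nat_lit 175)) (XT.nd (nat_lit 78) (nat_lit 0) (nat_lit 0) (XT.lf (nat_lit 0) (nat_lit 496479814919) (nat_lit 76) (nat_lit 233131827370) (nat_lit 76) (nat_lit 232693360312) (nat_lit 1) (nat_lit 4) (nat_lit 2) (nat_lit 5) (nat_lit 2) (nat_lit 4) (nat_lit 247) (nat_lit 179) (nat_lit 174)) (XT.lf (nat_lit 0) (nat_lit 572976925811) (nat_lit 76) (nat_lit 267039740746) (nat_lit 76) (nat_lit 266544724571) (nat_lit 1) (nat_lit 4) (nat_lit 2) (nat_lit 5) (nat_lit 2) (nat_lit 4) (nat_lit 248) (nat_lit 179) (nat_lit 173))))))) (XT.nd (nat_lit 780) (nat_lit 0) (nat_lit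 0) (XT.nd (nat_lit 390) (nat_lit 0) (nat_lit 0) (XT.nd (nat_lit 156) (nat_lit 0) (nat_lit 0) (XT.nd (nat_lit 78) (nat_lit 0) (nat_lit 0) (XT.lf (nat_lit 0) (nat_lit 660821354493) (nat_lit 76) (nat_lit 306092343891) (nat_lit 76) (nat_lit 305548154571) (nat_lit 1) (nat_lit 4) (nat_lit 2) (nat_lit 5) (nat_lit 2) (nat_lit 4) (nat_lit 249) (nat_lit 179) (nat_lit 172)) (XT.lf (nat_lit 0) (nat_lit 761731796309) (nat_lit 76) (nat_lit 351053709473) (nat_lit 76) (nat_lit 350466760897) (nat_lit 1) (nat_lit 4) (nat_lit 2) (nat_lit 5) (nat_lit 2) (nat_lit 4) (nat_lit 250) (nat_lit 179) (nat_lit 171))) (XT.nd (nat_lit 78) (nat_lit 0) (nat_lit 0) (XT.lf (nat_lit 0) (nat_lit 877682585992) (nat_lit 76) (nat_lit 402803516386) (nat_lit 76) (nat_lit 402179385847) (nat_lit 1) (nat_lit 4) (nat_lit 2) (nat_lit 5) (nat_lit 2) (nat_lit 4) (nat_lit 251) (nat_lit 179) (nat_lit 170)) (XT.nd (nat_lit 78) (nat_lit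 0) (nat_lit 0) (XT.lf (nat_lit 0) (nat_lit 1010942325947) (nat_lit 76) (nat_lit 462354260851) (nat_lit 76) (nat_lit 461697798172) (nat_lit 1) (nat_lit 4) (nat_lit 2) (nat_lit 5) (nat_lit 2) (nat_lit 4) (nat_lit 252) (nat_lit 179) (nat_lit 169)) (XT.lf (nat_lit 0) (nat_lit 1164118271957) (nat_lit 76) (nat_lit 530871066130) (nat_lit 76) (nat_lit 530186488545) (nat_lit 1) (nat_lit 4) (nat_lit 2) (nat_lit 5) (nat_lit 2) (nat_lit 4) (nat_lit 253) (nat_lit 179) (nat_lit 168))))) (XT.nd (nat_lit 156) (nat_lit 0) (nat_lit 0) (XT.nd (nat_lit 78) (nat_lit 0) (nat_lit 0) (XT.lf (nat_lit 0) (nat_lit 1340207344703) (nat_lit 76) (nat_lit 609694478412) (nat_lit 76) (nat_lit 608985453084) (nat_lit 1) (nat_lit 4) (nat_lit 2) (nat_lit 5) (nat_lit 2) (nat_lit 4) (nat_lit 254) (nat_lit 179) (nat_lit 167)) (XT.lf (nat_lit 0) (nat_lit 1542654765176) (nat_lit 76) (nat_lit 700366694896) (nat_lit 76) (nat_lit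 699636410660) (nat_lit 1) (nat_lit 4) (nat_lit 2) (nat_lit 5) (nat_lit 2) (nat_lit 4) (nat_lit 255) (nat_lit 179) (nat_lit 166))) (XT.nd (nat_lit 78) (nat_lit 0) (nat_lit 0) (XT.lf (nat_lit 0) (nat_lit 1775421461166) (nat_lit 76) (nat_lit 804661737207) (nat_lit 76) (nat_lit 803912966965) (nat_lit 1) (nat_lit 4) (nat_lit 2) (nat_lit 5) (nat_lit 2) (nat_lit 4) (nat_lit 256) (nat_lit 179) (nat_lit 165)) (XT.nd (nat_lit 78) (nat_lit 0) (nat_lit 0) (XT.lf (nat_lit 0) (nat_lit 2043061563682) (nat_lit 76) (nat_lit 924620160521) (nat_lit 76) (nat_lit 923855315491) (nat_lit 1) (nat_lit 4) (nat_lit 2) (nat_lit 5) (nat_lit 2) (nat_lit 4) (nat_lit 257) (nat_lit 179) (nat_lit 164)) (XT.lf (nat_lit 0) (nat_lit 2350811509512) (nat_lit 76) (nat_lit 1062588977468) (nat_lit 76) (nat_lit 1061810154361) (nat_lit 1) (nat_lit 4) (nat_lit 2) (nat_lit 5) (nat_lit 2) (nat_lit 4) (nat_lit 258) (nat_lit 179) (nat_lit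 163)))))) (XT.nd (nat_lit 29952) (nat_lit 0) (nat_lit 0) (XT.nd (nat_lit 156) (nat_lit 0) (nat_lit 0) (XT.nd (nat_lit 78) (nat_lit 0) (nat_lit 0) (XT.lf (nat_lit 0) (nat_lit 2704692493249) (nat_lit 76) (nat_lit 1221267577946) (nat_lit 76) (nat_lit 1220476599990) (nat_lit 1) (nat_lit 4) (nat_lit 2) (nat_lit 5) (nat_lit 2) (nat_lit 4) (nat_lit 259) (nat_lit 179) (nat_lit 162)) (XT.lf (nat_lit 0) (nat_lit 3111628273271) (nat_lit 76) (nat_lit 1403760543267) (nat_lit 76) (nat_lit 1402958995877) (nat_lit 1) (nat_lit 4) (nat_lit 2) (nat_lit 5) (nat_lit 2) (nat_lit 4) (nat_lit 260) (nat_lit 179) (nat_lit 161))) (XT.nd (nat_lit 29640) (nat_lit 0) (nat_lit 0) (XT.lf (nat_lit 0) (nat_lit 3579580636577) (nat_lit 76) (nat_lit 1613638387972) (nat_lit 76) (nat_lit 1612827649769) (nat_lit 1) (nat_lit 4) (nat_lit 2) (nat_lit 5) (nat_lit 2) (nat_lit 4) (nat_lit 261) (nat_lit 179) (nat_lit 160)) (XT.nd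 (nat_lit 78) (nat_lit 0) (nat_lit 0) (XT.lf (nat_lit 0) (nat_lit 87245054224) (nat_lit 76) (nat_lit 46953085689) (nat_lit 76) (nat_lit 46953085689) (nat_lit 1) (nat_lit 4) (nat_lit 2) (nat_lit 5) (nat_lit 2) (nat_lit 4) (nat_lit 240) (nat_lit 180) (nat_lit 180)) (XT.lf (nat_lit 0) (nat_lit 204127186548) (nat_lit 76) (nat_lit 106249299868) (nat_lit 76) (nat_lit 106118498325) (nat_lit 1) (nat_lit 4) (nat_lit 2) (nat_lit 5) (nat_lit 2) (nat_lit 4) (nat_lit 241) (nat_lit 180) (nat_lit 179))))) (XT.nd (nat_lit 156) (nat_lit 0) (nat_lit 0) (XT.nd (nat_lit 78) (nat_lit 0) (nat_lit 0) (XT.lf (nat_lit 0) (nat_lit 237915492056) (nat_lit 76) (nat_lit 120579218072) (nat_lit 76) (nat_lit 120334676057) (nat_lit 1) (nat_lit 4) (nat_lit 2) (nat_lit 5) (nat_lit 2) (nat_lit 4) (nat_lit 242) (nat_lit 180) (nat_lit 178)) (XT.lf (nat_lit 0) (nat_lit 276516100515) (nat_lit 76) (nat_lit 137176293958) (nat_lit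 76) (nat_lit 136832847185) (nat_lit 1) (nat_lit 4) (nat_lit 2) (nat_lit 5) (nat_lit 2) (nat_lit 4) (nat_lit 243) (nat_lit 180) (nat_lit 177))) (XT.nd (nat_lit 78) (nat_lit 0) (nat_lit 0) (XT.lf (nat_lit 0) (nat_lit 320684241223) (nat_lit 76) (nat_lit 156365252922) (nat_lit 76) (nat_lit 155935802012) (nat_lit 1) (nat_lit 4) (nat_lit 2) (nat_lit 5) (nat_lit 2) (nat_lit 4) (nat_lit 244) (nat_lit 180) (nat_lit 176)) (XT.nd (nat_lit 78) (nat_lit 0) (nat_lit 0) (XT.lf (nat_lit 0) (nat_lit 371284073452) (nat_lit 76) (nat_lit 178521531119) (nat_lit 76) (nat_lit 178017294002) (nat_lit 1) (nat_lit 4) (nat_lit 2) (nat_lit 5) (nat_lit 2) (nat_lit 4) (nat_lit 245) (nat_lit 180) (nat_lit 175)) (XT.lf (nat_lit 0) (nat_lit 429305593921) (nat_lit 76) (nat_lit 204078620948) (nat_lit 76) (nat_lit 203509352347) (nat_lit 1) (nat_lit 4) (nat_lit 2) (nat_lit 5) (nat_lit 2) (nat_lit 4) (nat_lit 246) (nat_lit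 180) (nat_lit 174))))))))
noncomputable def xc3 : XT := (XT.nd (nat_lit 30888) (nat_lit 0) (nat_lit 0) (XT.nd (nat_lit 702) (nat_lit 0) (nat_lit 0) (XT.nd (nat_lit 312) (nat_lit 0) (nat_lit 0) (XT.nd (nat_lit 156) (nat_lit 0) (nat_lit 0) (XT.nd (nat_lit 78) (nat_lit 0) (nat_lit 0) (XT.lf (nat_lit 0) (nat_lit 495884006292) (nat_lit 76) (nat_lit 233536552427) (nat_lit 76) (nat_lit 232910734709) (nat_lit 1) (nat_lit 4) (nat_lit 2) (nat_lit 5) (nat_lit 2) (nat_lit 4) (nat_lit 247) (nat_lit 180) (nat_lit 173)) (XT.lf (nat_lit 0) (nat_lit 572321931674) (nat_lit 76) (nat_lit 267471676390) (nat_lit 76) (nat_lit 266796685528) (nat_lit 1) (nat_lit 4) (nat_lit 2) (nat_lit 5) (nat_lit 2) (nat_lit 4) (nat_lit 248) (nat_lit 180) (nat_lit 172))) (XT.nd (nat_lit 78) (nat_lit 0) (nat_lit 0) (XT.lf (nat_lit 0) (nat_lit 660114894697) (nat_lit 76) (nat_lit 306547940914) (nat_lit 76) (nat_lit 305830190795)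 (nat_lit 1) (nat_lit 4) (nat_lit 2) (nat_lit 5) (nat_lit 2) (nat_lit 4) (nat_lit 249) (nat_lit 180) (nat_lit 171)) (XT.lf (nat_lit 0) (nat_lit 760980583767) (nat_lit 76) (nat_lit 351529881610) (nat_lit 76) (nat_lit 350774949529) (nat_lit 1) (nat_lit 4) (nat_lit 2) (nat_lit 5) (nat_lit 2) (nat_lit 4) (nat_lit 250) (nat_lit 180) (nat_lit 170)))) (XT.nd (nat_lit 156) (nat_lit 0) (nat_lit 0) (XT.nd (nat_lit 78) (nat_lit 0) (nat_lit 0) (XT.lf (nat_lit 0) (nat_lit 876892458017) (nat_lit 76) (nat_lit 403297579925) (nat_lit 76) (nat_lit 402510315703) (nat_lit 1) (nat_lit 4) (nat_lit 2) (nat_lit 5) (nat_lit 2) (nat_lit 4) (nat_lit 251) (nat_lit 180) (nat_lit 169)) (XT.lf (nat_lit 0) (nat_lit 1010118358465) (nat_lit 76) (nat_lit 462863882131) (nat_lit 76) (nat_lit 462048503004) (nat_lit 1) (nat_lit 4) (nat_lit 2) (nat_lit 5) (nat_lit 2) (nat_lit 4) (nat_lit 252) (nat_lit 180) (nat_lit 168))) (XT.nd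 (nat_lit 78) (nat_lit 0) (nat_lit 0) (XT.lf (nat_lit 0) (nat_lit 1163264878817) (nat_lit 76) (nat_lit 531394215881) (nat_lit 76) (nat_lit 530554389010) (nat_lit 1) (nat_lit 4) (nat_lit 2) (nat_lit 5) (nat_lit 2) (nat_lit 4) (nat_lit 253) (nat_lit 180) (nat_lit 167)) (XT.nd (nat_lit 78) (nat_lit 0) (nat_lit 0) (XT.lf (nat_lit 0) (nat_lit 1339328364035) (nat_lit 76) (nat_lit 610229392051) (nat_lit 76) (nat_lit 609368306273) (nat_lit 1) (nat_lit 4) (nat_lit 2) (nat_lit 5) (nat_lit 2) (nat_lit 4) (nat_lit 254) (nat_lit 180) (nat_lit 166)) (XT.lf (nat_lit 0) (nat_lit 1541753534483) (nat_lit 76) (nat_lit 700911838002) (nat_lit 76) (nat_lit 700032266217) (nat_lit 1) (nat_lit 4) (nat_lit 2) (nat_lit 5) (nat_lit 2) (nat_lit 4) (nat_lit 255) (nat_lit 180) (nat_lit 165)))))) (XT.nd (nat_lit 390) (nat_lit 0) (nat_lit 0) (XT.nd (nat_lit 156) (nat_lit 0) (nat_lit 0) (XT.nd (nat_lit 78) (nat_lit 0)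 (nat_lit 0) (XT.lf (nat_lit 0) (nat_lit 1774500882625) (nat_lit 76) (nat_lit 805215775502) (nat_lit 76) (nat_lit 804320128929) (nat_lit 1) (nat_lit 4) (nat_lit 2) (nat_lit 5) (nat_lit 2) (nat_lit 4) (nat_lit 256) (nat_lit 180) (nat_lit 164)) (XT.lf (nat_lit 0) (nat_lit 2042124160926) (nat_lit 76) (nat_lit 925181933763) (nat_lit 76) (nat_lit 924272309114) (nat_lit 1) (nat_lit 4) (nat_lit 2) (nat_lit 5) (nat_lit 2) (nat_lit 4) (nat_lit 257) (nat_lit 180) (nat_lit 163))) (XT.nd (nat_lit 78) (nat_lit 0) (nat_lit 0) (XT.lf (nat_lit 0) (nat_lit 2349859477004) (nat_lit 76) (nat_lit 1063157476752) (nat_lit 76) (nat_lit 1062235697253) (nat_lit 1) (nat_lit 4) (nat_lit 2) (nat_lit 5) (nat_lit 2) (nat_lit 4) (nat_lit 258) (nat_lit 180) (nat_lit 162)) (XT.nd (nat_lit 78) (nat_lit 0) (nat_lit 0) (XT.lf (nat_lit 0) (nat_lit 2703727739217) (nat_lit 76) (nat_lit 1221841925961) (nat_lit 76) (nat_lit 1220909577027)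 (nat_lit 1) (nat_lit 4) (nat_lit 2) (nat_lit 5) (nat_lit 2) (nat_lit 4) (nat_lit 259) (nat_lit 180) (nat_lit 161)) (XT.lf (nat_lit 0) (nat_lit 3110652457044) (nat_lit 76) (nat_lit 1404339977135) (nat_lit 76) (nat_lit 1403398437390) (nat_lit 1) (nat_lit 4) (nat_lit 2) (nat_lit 5) (nat_lit 2) (nat_lit 4) (nat_lit 260) (nat_lit 180) (nat_lit 160))))) (XT.nd (nat_lit 29562) (nat_lit 0) (nat_lit 0) (XT.nd (nat_lit 29484) (nat_lit 0) (nat_lit 0) (XT.lf (nat_lit 0) (nat_lit 3578595201050) (nat_lit 76) (nat_lit 1614222244321) (nat_lit 76) (nat_lit 1613272712564) (nat_lit 1) (nat_lit 4) (nat_lit 2) (nat_lit 5) (nat_lit 2) (nat_lit 4) (nat_lit 261) (nat_lit 180) (nat_lit 159)) (XT.lf (nat_lit 0) (nat_lit 62800567728) (nat_lit 76) (nat_lit 37157815300) (nat_lit 76) (nat_lit 37157815300) (nat_lit 1) (nat_lit 4) (nat_lit 2) (nat_lit 5) (nat_lit 2) (nat_lit 4) (nat_lit 238) (nat_lit 181) (nat_lit 181)))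 (XT.nd (nat_lit 78) (nat_lit 0) (nat_lit 0) (XT.lf (nat_lit 0) (nat_lit 148424401883) (nat_lit 76) (nat_lit 83458758389) (nat_lit 76) (nat_lit 83308336615) (nat_lit 1) (nat_lit 4) (nat_lit 2) (nat_lit 5) (nat_lit 2) (nat_lit 4) (nat_lit 239) (nat_lit 181) (nat_lit 180)) (XT.nd (nat_lit 78) (nat_lit 0) (nat_lit 0) (XT.lf (nat_lit 0) (nat_lit 174332673820) (nat_lit 76) (nat_lit 94128973855) (nat_lit 76) (nat_lit 93847750538) (nat_lit 1) (nat_lit 4) (nat_lit 2) (nat_lit 5) (nat_lit 2) (nat_lit 4) (nat_lit 240) (nat_lit 181) (nat_lit 179)) (XT.lf (nat_lit 0) (nat_lit 203832852242) (nat_lit 76) (nat_lit 106535042085) (nat_lit 76) (nat_lit 106140078296) (nat_lit 1) (nat_lit 4) (nat_lit 2) (nat_lit 5) (nat_lit 2) (nat_lit 4) (nat_lit 241) (nat_lit 181) (nat_lit 178))))))) (XT.nd (nat_lit 780) (nat_lit 0) (nat_lit 0) (XT.nd (nat_lit 390) (nat_lit 0) (nat_lit 0) (XT.nd (nat_lit 156) (nat_lit 0)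 (nat_lit 0) (XT.nd (nat_lit 78) (nat_lit 0) (nat_lit 0) (XT.lf (nat_lit 0) (nat_lit 237502114552) (nat_lit 76) (nat_lit 120919690499) (nat_lit 76) (nat_lit 120425821952) (nat_lit 1) (nat_lit 4) (nat_lit 2) (nat_lit 5) (nat_lit 2) (nat_lit 4) (nat_lit 242) (nat_lit 181) (nat_lit 177)) (XT.lf (nat_lit 0) (nat_lit 275999207188) (nat_lit 76) (nat_lit 137564357871) (nat_lit 76) (nat_lit 136984485186) (nat_lit 1) (nat_lit 4) (nat_lit 2) (nat_lit 5) (nat_lit 2) (nat_lit 4) (nat_lit 243) (nat_lit 181) (nat_lit 176))) (XT.nd (nat_lit 78) (nat_lit 0) (nat_lit 0) (XT.lf (nat_lit 0) (nat_lit 320077334135) (nat_lit 76) (nat_lit 156794700737) (nat_lit 76) (nat_lit 156140041845) (nat_lit 1) (nat_lit 4) (nat_lit 2) (nat_lit 5) (nat_lit 2) (nat_lit 4) (nat_lit 244) (nat_lit 181) (nat_lit 175)) (XT.nd (nat_lit 78) (nat_lit 0) (nat_lit 0) (XT.lf (nat_lit 0) (nat_lit 370598893530) (nat_lit 76) (nat_lit 178986964935)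 (nat_lit 76) (nat_lit 178267274559) (nat_lit 1) (nat_lit 4) (nat_lit 2) (nat_lit 5) (nat_lit 2) (nat_lit 4) (nat_lit 245) (nat_lit 181) (nat_lit 174)) (XT.lf (nat_lit 0) (nat_lit 428552350665) (nat_lit 76) (nat_lit 204575346939) (nat_lit 76) (nat_lit 203799107446) (nat_lit 1) (nat_lit 4) (nat_lit 2) (nat_lit 5) (nat_lit 2) (nat_lit 4) (nat_lit 246) (nat_lit 181) (nat_lit 173))))) (XT.nd (nat_lit 156) (nat_lit 0) (nat_lit 0) (XT.nd (nat_lit 78) (nat_lit 0) (nat_lit 0) (XT.lf (nat_lit 0) (nat_lit 495071577527) (nat_lit 76) (nat_lit 234060489005) (nat_lit 76) (nat_lit 233235076368) (nat_lit 1) (nat_lit 4) (nat_lit 2) (nat_lit 5) (nat_lit 2) (nat_lit 4) (nat_lit 247) (nat_lit 181) (nat_lit 172)) (XT.lf (nat_lit 0) (nat_lit 571458037250) (nat_lit 76) (nat_lit 268019274347) (nat_lit 76) (nat_lit 267151102454) (nat_lit 1) (nat_lit 4) (nat_lit 2) (nat_lit 5) (nat_lit 2) (nat_lit 4) (nat_lit 248)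 (nat_lit 181) (nat_lit 171))) (XT.nd (nat_lit 78) (nat_lit 0) (nat_lit 0) (XT.lf (nat_lit 0) (nat_lit 659206247526) (nat_lit 76) (nat_lit 307116113984) (nat_lit 76) (nat_lit 306210760129) (nat_lit 1) (nat_lit 4) (nat_lit 2) (nat_lit 5) (nat_lit 2) (nat_lit 4) (nat_lit 249) (nat_lit 181) (nat_lit 170)) (XT.nd (nat_lit 78) (nat_lit 0) (nat_lit 0) (XT.lf (nat_lit 0) (nat_lit 760033021163) (nat_lit 76) (nat_lit 352115946082) (nat_lit 76) (nat_lit 351178260086) (nat_lit 1) (nat_lit 4) (nat_lit 2) (nat_lit 5) (nat_lit 2) (nat_lit 4) (nat_lit 250) (nat_lit 181) (nat_lit 169)) (XT.lf (nat_lit 0) (nat_lit 875911055906) (nat_lit 76) (nat_lit 403899202139) (nat_lit 76) (nat_lit 402933401237) (nat_lit 1) (nat_lit 4) (nat_lit 2) (nat_lit 5) (nat_lit 2) (nat_lit 4) (nat_lit 251) (nat_lit 181) (nat_lit 168)))))) (XT.nd (nat_lit 390) (nat_lit 0) (nat_lit 0) (XT.nd (nat_lit 156) (nat_lit 0) (nat_lit 0)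 (XT.nd (nat_lit 78) (nat_lit 0) (nat_lit 0) (XT.lf (nat_lit 0) (nat_lit 1009107530697) (nat_lit 76) (nat_lit 463479032816) (nat_lit 76) (nat_lit 462488784171) (nat_lit 1) (nat_lit 4) (nat_lit 2) (nat_lit 5) (nat_lit 2) (nat_lit 4) (nat_lit 252) (nat_lit 181) (nat_lit 167)) (XT.lf (nat_lit 0) (nat_lit 1162228463520) (nat_lit 76) (nat_lit 532021130453) (nat_lit 76) (nat_lit 531009622901) (nat_lit 1) (nat_lit 4) (nat_lit 2) (nat_lit 5) (nat_lit 2) (nat_lit 4) (nat_lit 253) (nat_lit 181) (nat_lit 166))) (XT.nd (nat_lit 78) (nat_lit 0) (nat_lit 0) (XT.lf (nat_lit 0) (nat_lit 1338269698714) (nat_lit 76) (nat_lit 610866536091) (nat_lit 76) (nat_lit 609836542532) (nat_lit 1) (nat_lit 4) (nat_lit 2) (nat_lit 5) (nat_lit 2) (nat_lit 4) (nat_lit 254) (nat_lit 181) (nat_lit 165)) (XT.nd (nat_lit 78) (nat_lit 0) (nat_lit 0) (XT.lf (nat_lit 0) (nat_lit 1540675521314) (nat_lit 76) (nat_lit 701557877231)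 (nat_lit 76) (nat_lit 700511808884) (nat_lit 1) (nat_lit 4) (nat_lit 2) (nat_lit 5) (nat_lit 2) (nat_lit 4) (nat_lit 255) (nat_lit 181) (nat_lit 164)) (XT.lf (nat_lit 0) (nat_lit 1773406045241) (nat_lit 76) (nat_lit 805869549678) (nat_lit 76) (nat_lit 804809503254) (nat_lit 1) (nat_lit 4) (nat_lit 2) (nat_lit 5) (nat_lit 2) (nat_lit 4) (nat_lit 256) (nat_lit 181) (nat_lit 163))))) (XT.nd (nat_lit 156) (nat_lit 0) (nat_lit 0) (XT.nd (nat_lit 78) (nat_lit 0) (nat_lit 0) (XT.lf (nat_lit 0) (nat_lit 2041014693789) (nat_lit 76) (nat_lit 925842433980) (nat_lit 76) (nat_lit 924770232707) (nat_lit 1) (nat_lit 4) (nat_lit 2) (nat_lit 5) (nat_lit 2) (nat_lit 4) (nat_lit 257) (nat_lit 181) (nat_lit 162)) (XT.lf (nat_lit 0) (nat_lit 2348737288343) (nat_lit 76) (nat_lit 1063823825700) (nat_lit 76) (nat_lit 1062741054992) (nat_lit 1) (nat_lit 4) (nat_lit 2) (nat_lit 5) (nat_lit 2) (nat_lit 4) (nat_lit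 258) (nat_lit 181) (nat_lit 161))) (XT.nd (nat_lit 78) (nat_lit 0) (nat_lit 0) (XT.lf (nat_lit 0) (nat_lit 2702594488362) (nat_lit 76) (nat_lit 1222513360762) (nat_lit 76) (nat_lit 1221421399242) (nat_lit 1) (nat_lit 4) (nat_lit 2) (nat_lit 5) (nat_lit 2) (nat_lit 4) (nat_lit 259) (nat_lit 181) (nat_lit 160)) (XT.nd (nat_lit 78) (nat_lit 0) (nat_lit 0) (XT.lf (nat_lit 0) (nat_lit 3109509586889) (nat_lit 76) (nat_lit 1405015834418) (nat_lit 76) (nat_lit 1403915880887) (nat_lit 1) (nat_lit 4) (nat_lit 2) (nat_lit 5) (nat_lit 2) (nat_lit 4) (nat_lit 260) (nat_lit 181) (nat_lit 159)) (XT.lf (nat_lit 0) (nat_lit 3577443966287) (nat_lit 76) (nat_lit 1614901947239) (nat_lit 76) (nat_lit 1613795044133) (nat_lit 1) (nat_lit 4) (nat_lit 2) (nat_lit 5) (nat_lit 2) (nat_lit 4) (nat_lit 261) (nat_lit 181) (nat_lit 158))))))))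
noncomputable def xc4 : XT := (XT.nd (nat_lit 1482) (nat_lit 0) (nat_lit 0) (XT.nd (nat_lit 702) (nat_lit 0) (nat_lit 0) (XT.nd (nat_lit 312) (nat_lit 0) (nat_lit 0) (XT.nd (nat_lit 156) (nat_lit 0) (nat_lit 0) (XT.nd (nat_lit 78) (nat_lit 0) (nat_lit 0) (XT.lf (nat_lit 0) (nat_lit 43841639936) (nat_lit 76) (nat_lit 29999364160) (nat_lit 76) (nat_lit 29999364160) (nat_lit 1) (nat_lit 4) (nat_lit 2) (nat_lit 5) (nat_lit 2) (nat_lit 4) (nat_lit 236) (nat_lit 182) (nat_lit 182)) (XT.lf (nat_lit 0) (nat_lit 105416332375) (nat_lit 76) (nat_lit 66693688247) (nat_lit 76) (nat_lit 66520703206) (nat_lit 1) (nat_lit 4) (nat_lit 2) (nat_lit 5) (nat_lit 2) (nat_lit 4) (nat_lit 237) (nat_lit 182) (nat_lit 181))) (XT.nd (nat_lit 78) (nat_lit 0) (nat_lit 0) (XT.lf (nat_lit 0) (nat_lit 125420085634) (nat_lit 76) (nat_lit 74571853448) (nat_lit 76) (nat_lit 74248446633) (nat_lit 1) (nat_lit 4) (nat_lit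 2) (nat_lit 5) (nat_lit 2) (nat_lit 4) (nat_lit 238) (nat_lit 182) (nat_lit 180)) (XT.lf (nat_lit 0) (nat_lit 148085917431) (nat_lit 76) (nat_lit 83787361939) (nat_lit 76) (nat_lit 83333153581) (nat_lit 1) (nat_lit 4) (nat_lit 2) (nat_lit 5) (nat_lit 2) (nat_lit 4) (nat_lit 239) (nat_lit 182) (nat_lit 179)))) (XT.nd (nat_lit 156) (nat_lit 0) (nat_lit 0) (XT.nd (nat_lit 78) (nat_lit 0) (nat_lit 0) (XT.lf (nat_lit 0) (nat_lit 173857289691) (nat_lit 76) (nat_lit 94520517146) (nat_lit 76) (nat_lit 93952568317) (nat_lit 1) (nat_lit 4) (nat_lit 2) (nat_lit 5) (nat_lit 2) (nat_lit 4) (nat_lit 240) (nat_lit 182) (nat_lit 178)) (XT.lf (nat_lit 0) (nat_lit 203238424915) (nat_lit 76) (nat_lit 106981315585) (nat_lit 76) (nat_lit 106314461997) (nat_lit 1) (nat_lit 4) (nat_lit 2) (nat_lit 5) (nat_lit 2) (nat_lit 4) (nat_lit 241) (nat_lit 182) (nat_lit 177))) (XT.nd (nat_lit 78) (nat_lit 0) (nat_lit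 0) (XT.lf (nat_lit 0) (nat_lit 236804171402) (nat_lit 76) (nat_lit 121413555485) (nat_lit 76) (nat_lit 120660697760) (nat_lit 1) (nat_lit 4) (nat_lit 2) (nat_lit 5) (nat_lit 2) (nat_lit 4) (nat_lit 242) (nat_lit 182) (nat_lit 176)) (XT.nd (nat_lit 78) (nat_lit 0) (nat_lit 0) (XT.lf (nat_lit 0) (nat_lit 275211250278) (nat_lit 76) (nat_lit 138099606759) (nat_lit 76) (nat_lit 137271962827) (nat_lit 1) (nat_lit 4) (nat_lit 2) (nat_lit 5) (nat_lit 2) (nat_lit 4) (nat_lit 243) (nat_lit 182) (nat_lit 175)) (XT.lf (nat_lit 0) (nat_lit 319211104390) (nat_lit 76) (nat_lit 157365935626) (nat_lit 76) (nat_lit 156473260210) (nat_lit 1) (nat_lit 4) (nat_lit 2) (nat_lit 5) (nat_lit 2) (nat_lit 4) (nat_lit 244) (nat_lit 182) (nat_lit 174)))))) (XT.nd (nat_lit 390) (nat_lit 0) (nat_lit 0) (XT.nd (nat_lit 156) (nat_lit 0) (nat_lit 0) (XT.nd (nat_lit 78) (nat_lit 0) (nat_lit 0) (XT.lf (nat_lit 0) (nat_lit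 369664600451) (nat_lit 76) (nat_lit 179589491999) (nat_lit 76) (nat_lit 178640267466) (nat_lit 1) (nat_lit 4) (nat_lit 2) (nat_lit 5) (nat_lit 2) (nat_lit 4) (nat_lit 245) (nat_lit 182) (nat_lit 173)) (XT.lf (nat_lit 0) (nat_lit 427558872077) (nat_lit 76) (nat_lit 205205084589) (nat_lit 76) (nat_lit 204206686912) (nat_lit 1) (nat_lit 4) (nat_lit 2) (nat_lit 5) (nat_lit 2) (nat_lit 4) (nat_lit 246) (nat_lit 182) (nat_lit 172))) (XT.nd (nat_lit 78) (nat_lit 0) (nat_lit 0) (XT.lf (nat_lit 0) (nat_lit 494026633279) (nat_lit 76) (nat_lit 234713888035) (nat_lit 76) (nat_lit 233672731102) (nat_lit 1) (nat_lit 4) (nat_lit 2) (nat_lit 5) (nat_lit 2) (nat_lit 4) (nat_lit 247) (nat_lit 182) (nat_lit 171)) (XT.nd (nat_lit 78) (nat_lit 0) (nat_lit 0) (XT.lf (nat_lit 0) (nat_lit 570368340256) (nat_lit 76) (nat_lit 268693248491) (nat_lit 76) (nat_lit 267614909595) (nat_lit 1) (nat_lit 4) (nat_lit 2)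 (nat_lit 5) (nat_lit 2) (nat_lit 4) (nat_lit 248) (nat_lit 182) (nat_lit 170)) (XT.lf (nat_lit 0) (nat_lit 658077635099) (nat_lit 76) (nat_lit 307807979530) (nat_lit 76) (nat_lit 306697308494) (nat_lit 1) (nat_lit 4) (nat_lit 2) (nat_lit 5) (nat_lit 2) (nat_lit 4) (nat_lit 249) (nat_lit 182) (nat_lit 169))))) (XT.nd (nat_lit 156) (nat_lit 0) (nat_lit 0) (XT.nd (nat_lit 78) (nat_lit 0) (nat_lit 0) (XT.lf (nat_lit 0) (nat_lit 758870569229) (nat_lit 76) (nat_lit 352823369370) (nat_lit 76) (nat_lit 351684583428) (nat_lit 1) (nat_lit 4) (nat_lit 2) (nat_lit 5) (nat_lit 2) (nat_lit 4) (nat_lit 250) (nat_lit 182) (nat_lit 168)) (XT.lf (nat_lit 0) (nat_lit 874719178315) (nat_lit 76) (nat_lit 404620153897) (nat_lit 76) (nat_lit 403456920212) (nat_lit 1) (nat_lit 4) (nat_lit 2) (nat_lit 5) (nat_lit 2) (nat_lit 4) (nat_lit 251) (nat_lit 182) (nat_lit 167))) (XT.nd (nat_lit 78) (nat_lit 0) (nat_lit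 0) (XT.lf (nat_lit 0) (nat_lit 1007890065577) (nat_lit 76) (nat_lit 464211748462) (nat_lit 76) (nat_lit 463027255869) (nat_lit 1) (nat_lit 4) (nat_lit 2) (nat_lit 5) (nat_lit 2) (nat_lit 4) (nat_lit 252) (nat_lit 182) (nat_lit 166)) (XT.nd (nat_lit 78) (nat_lit 0) (nat_lit 0) (XT.lf (nat_lit 0) (nat_lit 1160988748376) (nat_lit 76) (nat_lit 532764075566) (nat_lit 76) (nat_lit 531561096967) (nat_lit 1) (nat_lit 4) (nat_lit 2) (nat_lit 5) (nat_lit 2) (nat_lit 4) (nat_lit 253) (nat_lit 182) (nat_lit 165)) (XT.lf (nat_lit 0) (nat_lit 1337010635722) (nat_lit 76) (nat_lit 611618376393) (nat_lit 76) (nat_lit 610399323006) (nat_lit 1) (nat_lit 4) (nat_lit 2) (nat_lit 5) (nat_lit 2) (nat_lit 4) (nat_lit 254) (nat_lit 182) (nat_lit 164))))))) (XT.nd (nat_lit 29874) (nat_lit 0) (nat_lit 0) (XT.nd (nat_lit 390) (nat_lit 0) (nat_lit 0) (XT.nd (nat_lit 156) (nat_lit 0) (nat_lit 0) (XT.nd (nat_lit 78)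 (nat_lit 0) (nat_lit 0) (XT.lf (nat_lit 0) (nat_lit 1539399634106) (nat_lit 76) (nat_lit 702317452480) (nat_lit 76) (nat_lit 701084421016) (nat_lit 1) (nat_lit 4) (nat_lit 2) (nat_lit 5) (nat_lit 2) (nat_lit 4) (nat_lit 255) (nat_lit 182) (nat_lit 163)) (XT.lf (nat_lit 0) (nat_lit 1772115528281) (nat_lit 76) (nat_lit 806635850968) (nat_lit 76) (nat_lit 805390664655) (nat_lit 1) (nat_lit 4) (nat_lit 2) (nat_lit 5) (nat_lit 2) (nat_lit 4) (nat_lit 256) (nat_lit 182) (nat_lit 162))) (XT.nd (nat_lit 78) (nat_lit 0) (nat_lit 0) (XT.lf (nat_lit 0) (nat_lit 2039711455305) (nat_lit 76) (nat_lit 926614584002) (nat_lit 76) (nat_lit 925358828254) (nat_lit 1) (nat_lit 4) (nat_lit 2) (nat_lit 5) (nat_lit 2) (nat_lit 4) (nat_lit 257) (nat_lit 182) (nat_lit 161)) (XT.nd (nat_lit 78) (nat_lit 0) (nat_lit 0) (XT.lf (nat_lit 0) (nat_lit 2347422987665) (nat_lit 76) (nat_lit 1064601061575) (nat_lit 76) (nat_lit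 1063336115014) (nat_lit 1) (nat_lit 4) (nat_lit 2) (nat_lit 5) (nat_lit 2) (nat_lit 4) (nat_lit 258) (nat_lit 182) (nat_lit 160)) (XT.lf (nat_lit 0) (nat_lit 2701270568383) (nat_lit 76) (nat_lit 1223295019118) (nat_lit 76) (nat_lit 1222022080547) (nat_lit 1) (nat_lit 4) (nat_lit 2) (nat_lit 5) (nat_lit 2) (nat_lit 4) (nat_lit 259) (nat_lit 182) (nat_lit 159))))) (XT.nd (nat_lit 29250) (nat_lit 0) (nat_lit 0) (XT.nd (nat_lit 78) (nat_lit 0) (nat_lit 0) (XT.lf (nat_lit 0) (nat_lit 3108177302302) (nat_lit 76) (nat_lit 1405801338409) (nat_lit 76) (nat_lit 1404521450264) (nat_lit 1) (nat_lit 4) (nat_lit 2) (nat_lit 5) (nat_lit 2) (nat_lit 4) (nat_lit 260) (nat_lit 182) (nat_lit 158)) (XT.lf (nat_lit 0) (nat_lit 3576104408127) (nat_lit 76) (nat_lit 1615690795261) (nat_lit 76) (nat_lit 1614404864007) (nat_lit 1) (nat_lit 4) (nat_lit 2) (nat_lit 5) (nat_lit 2) (nat_lit 4) (nat_lit 261) (nat_lit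 182) (nat_lit 157))) (XT.nd (nat_lit 78) (nat_lit 0) (nat_lit 0) (XT.lf (nat_lit 0) (nat_lit 28959274998) (nat_lit 76) (nat_lit 24871954277) (nat_lit 76) (nat_lit 24871954277) (nat_lit 1) (nat_lit 4) (nat_lit 2) (nat_lit 5) (nat_lit 2) (nat_lit 4) (nat_lit 234) (nat_lit 183) (nat_lit 183)) (XT.nd (nat_lit 78) (nat_lit 0) (nat_lit 0) (XT.lf (nat_lit 0) (nat_lit 71873977097) (nat_lit 76) (nat_lit 54554918118) (nat_lit 76) (nat_lit 54355985322) (nat_lit 1) (nat_lit 4) (nat_lit 2) (nat_lit 5) (nat_lit 2) (nat_lit 4) (nat_lit 235) (nat_lit 183) (nat_lit 182)) (XT.lf (nat_lit 0) (nat_lit 87475072575) (nat_lit 76) (nat_lit 60293384595) (nat_lit 76) (nat_lit 59921466758) (nat_lit 1) (nat_lit 4) (nat_lit 2) (nat_lit 5) (nat_lit 2) (nat_lit 4) (nat_lit 236) (nat_lit 183) (nat_lit 181)))))) (XT.nd (nat_lit 390) (nat_lit 0) (nat_lit 0) (XT.nd (nat_lit 156) (nat_lit 0) (nat_lit 0) (XT.nd (nat_lit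 78) (nat_lit 0) (nat_lit 0) (XT.lf (nat_lit 0) (nat_lit 105027075255) (nat_lit 76) (nat_lit 67071582329) (nat_lit 76) (nat_lit 66549242718) (nat_lit 1) (nat_lit 4) (nat_lit 2) (nat_lit 5) (nat_lit 2) (nat_lit 4) (nat_lit 237) (nat_lit 183) (nat_lit 180)) (XT.lf (nat_lit 0) (nat_lit 124873393886) (nat_lit 76) (nat_lit 75022128232) (nat_lit 76) (nat_lit 74368987078) (nat_lit 1) (nat_lit 4) (nat_lit 2) (nat_lit 5) (nat_lit 2) (nat_lit 4) (nat_lit 238) (nat_lit 183) (nat_lit 179))) (XT.nd (nat_lit 78) (nat_lit 0) (nat_lit 0) (XT.lf (nat_lit 0) (nat_lit 147402326005) (nat_lit 76) (nat_lit 84300576464) (nat_lit 76) (nat_lit 83533694838) (nat_lit 1) (nat_lit 4) (nat_lit 2) (nat_lit 5) (nat_lit 2) (nat_lit 4) (nat_lit 239) (nat_lit 183) (nat_lit 178)) (XT.nd (nat_lit 78) (nat_lit 0) (nat_lit 0) (XT.lf (nat_lit 0) (nat_lit 173054655068) (nat_lit 76) (nat_lit 95088461881) (nat_lit 76) (nat_lit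 94222675496) (nat_lit 1) (nat_lit 4) (nat_lit 2) (nat_lit 5) (nat_lit 2) (nat_lit 4) (nat_lit 240) (nat_lit 183) (nat_lit 177)) (XT.lf (nat_lit 0) (nat_lit 202332274469) (nat_lit 76) (nat_lit 107596851806) (nat_lit 76) (nat_lit 106645061284) (nat_lit 1) (nat_lit 4) (nat_lit 2) (nat_lit 5) (nat_lit 2) (nat_lit 4) (nat_lit 241) (nat_lit 183) (nat_lit 176))))) (XT.nd (nat_lit 156) (nat_lit 0) (nat_lit 0) (XT.nd (nat_lit 78) (nat_lit 0) (nat_lit 0) (XT.lf (nat_lit 0) (nat_lit 235808007195) (nat_lit 76) (nat_lit 122070475608) (nat_lit 76) (nat_lit 121043898879) (nat_lit 1) (nat_lit 4) (nat_lit 2) (nat_lit 5) (nat_lit 2) (nat_lit 4) (nat_lit 242) (nat_lit 183) (nat_lit 175)) (XT.lf (nat_lit 0) (nat_lit 274136813236) (nat_lit 76) (nat_lit 138792512882) (nat_lit 76) (nat_lit 137700904670) (nat_lit 1) (nat_lit 4) (nat_lit 2) (nat_lit 5) (nat_lit 2) (nat_lit 4) (nat_lit 243) (nat_lit 183) (nat_lit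 174))) (XT.nd (nat_lit 78) (nat_lit 0) (nat_lit 0) (XT.lf (nat_lit 0) (nat_lit 318068604014) (nat_lit 76) (nat_lit 158090133924) (nat_lit 76) (nat_lit 156941976595) (nat_lit 1) (nat_lit 4) (nat_lit 2) (nat_lit 5) (nat_lit 2) (nat_lit 4) (nat_lit 244) (nat_lit 183) (nat_lit 173)) (XT.nd (nat_lit 78) (nat_lit 0) (nat_lit 0) (XT.lf (nat_lit 0) (nat_lit 368462914566) (nat_lit 76) (nat_lit 180340900884) (nat_lit 76) (nat_lit 179143570410) (nat_lit 1) (nat_lit 4) (nat_lit 2) (nat_lit 5) (nat_lit 2) (nat_lit 4) (nat_lit 245) (nat_lit 183) (nat_lit 172)) (XT.lf (nat_lit 0) (nat_lit 426305720533) (nat_lit 76) (nat_lit 205980154854) (nat_lit 76) (nat_lit 204740065124) (nat_lit 1) (nat_lit 4) (nat_lit 2) (nat_lit 5) (nat_lit 2) (nat_lit 4) (nat_lit 246) (nat_lit 183) (nat_lit 171))))))))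
noncomputable def xc5 : XT := (XT.nd (nat_lit 30420) (nat_lit 0) (nat_lit 0) (XT.nd (nat_lit 702) (nat_lit 0) (nat_lit 0) (XT.nd (nat_lit 312) (nat_lit 0) (nat_lit 0) (XT.nd (nat_lit 156) (nat_lit 0) (nat_lit 0) (XT.nd (nat_lit 78) (nat_lit 0) (nat_lit 0) (XT.lf (nat_lit 0) (nat_lit 492728728988) (nat_lit 76) (nat_lit 235509533413) (nat_lit 76) (nat_lit 234232261721) (nat_lit 1) (nat_lit 4) (nat_lit 2) (nat_lit 5) (nat_lit 2) (nat_lit 4) (nat_lit 247) (nat_lit 183) (nat_lit 170)) (XT.lf (nat_lit 0) (nat_lit 569031520532) (nat_lit 76) (nat_lit 269506785271) (nat_lit 76) (nat_lit 268197181438) (nat_lit 1) (nat_lit 4) (nat_lit 2) (nat_lit 5) (nat_lit 2) (nat_lit 4) (nat_lit 248) (nat_lit 183) (nat_lit 169))) (XT.nd (nat_lit 78) (nat_lit 0) (nat_lit 0) (XT.lf (nat_lit 0) (nat_lit 656706975869) (nat_lit 76) (nat_lit 308637074052) (nat_lit 76) (nat_lit 307299355314) (nat_lit 1) (nat_lit 4)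 (nat_lit 2) (nat_lit 5) (nat_lit 2) (nat_lit 4) (nat_lit 249) (nat_lit 183) (nat_lit 168)) (XT.lf (nat_lit 0) (nat_lit 757470484342) (nat_lit 76) (nat_lit 353665992362) (nat_lit 76) (nat_lit 352303825880) (nat_lit 1) (nat_lit 4) (nat_lit 2) (nat_lit 5) (nat_lit 2) (nat_lit 4) (nat_lit 250) (nat_lit 183) (nat_lit 167)))) (XT.nd (nat_lit 156) (nat_lit 0) (nat_lit 0) (XT.nd (nat_lit 78) (nat_lit 0) (nat_lit 0) (XT.lf (nat_lit 0) (nat_lit 873293505899) (nat_lit 76) (nat_lit 405474540777) (nat_lit 76) (nat_lit 404091115388) (nat_lit 1) (nat_lit 4) (nat_lit 2) (nat_lit 5) (nat_lit 2) (nat_lit 4) (nat_lit 251) (nat_lit 183) (nat_lit 166)) (XT.lf (nat_lit 0) (nat_lit 1006442143136) (nat_lit 76) (nat_lit 465076364810) (nat_lit 76) (nat_lit 463674453414) (nat_lit 1) (nat_lit 4) (nat_lit 2) (nat_lit 5) (nat_lit 2) (nat_lit 4) (nat_lit 252) (nat_lit 183) (nat_lit 165))) (XT.nd (nat_lit 78) (nat_lit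 0) (nat_lit 0) (XT.lf (nat_lit 0) (nat_lit 1159521478087) (nat_lit 76) (nat_lit 533637587103) (nat_lit 76) (nat_lit 532219600919) (nat_lit 1) (nat_lit 4) (nat_lit 2) (nat_lit 5) (nat_lit 2) (nat_lit 4) (nat_lit 253) (nat_lit 183) (nat_lit 164)) (XT.nd (nat_lit 78) (nat_lit 0) (nat_lit 0) (XT.lf (nat_lit 0) (nat_lit 1335526541218) (nat_lit 76) (nat_lit 612499622877) (nat_lit 76) (nat_lit 611067658616) (nat_lit 1) (nat_lit 4) (nat_lit 2) (nat_lit 5) (nat_lit 2) (nat_lit 4) (nat_lit 254) (nat_lit 183) (nat_lit 163)) (XT.lf (nat_lit 0) (nat_lit 1537900909850) (nat_lit 76) (nat_lit 703205425005) (nat_lit 76) (nat_lit 701761305895) (nat_lit 1) (nat_lit 4) (nat_lit 2) (nat_lit 5) (nat_lit 2) (nat_lit 4) (nat_lit 255) (nat_lit 183) (nat_lit 162)))))) (XT.nd (nat_lit 390) (nat_lit 0) (nat_lit 0) (XT.nd (nat_lit 156) (nat_lit 0) (nat_lit 0) (XT.nd (nat_lit 78) (nat_lit 0) (nat_lit 0) (XT.lf (nat_lit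 0) (nat_lit 1770604082500) (nat_lit 76) (nat_lit 807529672224) (nat_lit 76) (nat_lit 806074983680) (nat_lit 1) (nat_lit 4) (nat_lit 2) (nat_lit 5) (nat_lit 2) (nat_lit 4) (nat_lit 256) (nat_lit 183) (nat_lit 161)) (XT.lf (nat_lit 0) (nat_lit 2038188947330) (nat_lit 76) (nat_lit 927513491111) (nat_lit 76) (nat_lit 926049611754) (nat_lit 1) (nat_lit 4) (nat_lit 2) (nat_lit 5) (nat_lit 2) (nat_lit 4) (nat_lit 257) (nat_lit 183) (nat_lit 160))) (XT.nd (nat_lit 78) (nat_lit 0) (nat_lit 0) (XT.lf (nat_lit 0) (nat_lit 2345890860390) (nat_lit 76) (nat_lit 1065504391165) (nat_lit 76) (nat_lit 1064032519798) (nat_lit 1) (nat_lit 4) (nat_lit 2) (nat_lit 5) (nat_lit 2) (nat_lit 4) (nat_lit 258) (nat_lit 183) (nat_lit 159)) (XT.nd (nat_lit 78) (nat_lit 0) (nat_lit 0) (XT.lf (nat_lit 0) (nat_lit 2699730076500) (nat_lit 76) (nat_lit 1224202194344) (nat_lit 76) (nat_lit 1222723373402) (nat_lit 1) (nat_lit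 4) (nat_lit 2) (nat_lit 5) (nat_lit 2) (nat_lit 4) (nat_lit 259) (nat_lit 183) (nat_lit 158)) (XT.lf (nat_lit 0) (nat_lit 3106629536846) (nat_lit 76) (nat_lit 1406711857667) (nat_lit 76) (nat_lit 1405226993616) (nat_lit 1) (nat_lit 4) (nat_lit 2) (nat_lit 5) (nat_lit 2) (nat_lit 4) (nat_lit 260) (nat_lit 183) (nat_lit 157))))) (XT.nd (nat_lit 29094) (nat_lit 0) (nat_lit 0) (XT.nd (nat_lit 29016) (nat_lit 0) (nat_lit 0) (XT.lf (nat_lit 0) (nat_lit 3574550317826) (nat_lit 76) (nat_lit 1616604222372) (nat_lit 76) (nat_lit 1615114103444) (nat_lit 1) (nat_lit 4) (nat_lit 2) (nat_lit 5) (nat_lit 2) (nat_lit 4) (nat_lit 261) (nat_lit 183) (nat_lit 156)) (XT.lf (nat_lit 0) (nat_lit 17077373486) (nat_lit 76) (nat_lit 21323114521) (nat_lit 76) (nat_lit 21323114521) (nat_lit 1) (nat_lit 4) (nat_lit 2) (nat_lit 5) (nat_lit 2) (nat_lit 4) (nat_lit 232) (nat_lit 184) (nat_lit 184))) (XT.nd (nat_lit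 78) (nat_lit 0) (nat_lit 0) (XT.lf (nat_lit 0) (nat_lit 45335750309) (nat_lit 76) (nat_lit 45995000172) (nat_lit 76) (nat_lit 45766227456) (nat_lit 1) (nat_lit 4) (nat_lit 2) (nat_lit 5) (nat_lit 2) (nat_lit 4) (nat_lit 233) (nat_lit 184) (nat_lit 183)) (XT.nd (nat_lit 78) (nat_lit 0) (nat_lit 0) (XT.lf (nat_lit 0) (nat_lit 57679111606) (nat_lit 76) (nat_lit 50082763271) (nat_lit 76) (nat_lit 49655057758) (nat_lit 1) (nat_lit 4) (nat_lit 2) (nat_lit 5) (nat_lit 2) (nat_lit 4) (nat_lit 234) (nat_lit 184) (nat_lit 182)) (XT.lf (nat_lit 0) (nat_lit 71426331410) (nat_lit 76) (nat_lit 54989496313) (nat_lit 76) (nat_lit 54388805760) (nat_lit 1) (nat_lit 4) (nat_lit 2) (nat_lit 5) (nat_lit 2) (nat_lit 4) (nat_lit 235) (nat_lit 184) (nat_lit 181))))))) (XT.nd (nat_lit 780) (nat_lit 0) (nat_lit 0) (XT.nd (nat_lit 390) (nat_lit 0) (nat_lit 0) (XT.nd (nat_lit 156) (nat_lit 0) (nat_lit 0) (XT.nd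 (nat_lit 78) (nat_lit 0) (nat_lit 0) (XT.lf (nat_lit 0) (nat_lit 86846377065) (nat_lit 76) (nat_lit 60811200597) (nat_lit 76) (nat_lit 60060088270) (nat_lit 1) (nat_lit 4) (nat_lit 2) (nat_lit 5) (nat_lit 2) (nat_lit 4) (nat_lit 236) (nat_lit 184) (nat_lit 180)) (XT.lf (nat_lit 0) (nat_lit 104240945116) (nat_lit 76) (nat_lit 67661779032) (nat_lit 76) (nat_lit 66779865163) (nat_lit 1) (nat_lit 4) (nat_lit 2) (nat_lit 5) (nat_lit 2) (nat_lit 4) (nat_lit 237) (nat_lit 184) (nat_lit 179))) (XT.nd (nat_lit 78) (nat_lit 0) (nat_lit 0) (XT.lf (nat_lit 0) (nat_lit 123950364070) (nat_lit 76) (nat_lit 75675264677) (nat_lit 76) (nat_lit 74679610335) (nat_lit 1) (nat_lit 4) (nat_lit 2) (nat_lit 5) (nat_lit 2) (nat_lit 4) (nat_lit 238) (nat_lit 184) (nat_lit 178)) (XT.nd (nat_lit 78) (nat_lit 0) (nat_lit 0) (XT.lf (nat_lit 0) (nat_lit 146360252992) (nat_lit 76) (nat_lit 85008443118) (nat_lit 76) (nat_lit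 83913884018) (nat_lit 1) (nat_lit 4) (nat_lit 2) (nat_lit 5) (nat_lit 2) (nat_lit 4) (nat_lit 239) (nat_lit 184) (nat_lit 177)) (XT.lf (nat_lit 0) (nat_lit 171909066230) (nat_lit 76) (nat_lit 95843920021) (nat_lit 76) (nat_lit 94663356784) (nat_lit 1) (nat_lit 4) (nat_lit 2) (nat_lit 5) (nat_lit 2) (nat_lit 4) (nat_lit 240) (nat_lit 184) (nat_lit 176))))) (XT.nd (nat_lit 156) (nat_lit 0) (nat_lit 0) (XT.nd (nat_lit 78) (nat_lit 0) (nat_lit 0) (XT.lf (nat_lit 0) (nat_lit 201096671871) (nat_lit 76) (nat_lit 108393693848) (nat_lit 76) (nat_lit 107138344403) (nat_lit 1) (nat_lit 4) (nat_lit 2) (nat_lit 5) (nat_lit 2) (nat_lit 4) (nat_lit 241) (nat_lit 184) (nat_lit 175)) (XT.lf (nat_lit 0) (nat_lit 234494131763) (nat_lit 76) (nat_lit 122903303651) (nat_lit 76) (nat_lit 121582922722) (nat_lit 1) (nat_lit 4) (nat_lit 2) (nat_lit 5) (nat_lit 2) (nat_lit 4) (nat_lit 242) (nat_lit 184) (nat_lit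 174))) (XT.nd (nat_lit 78) (nat_lit 0) (nat_lit 0) (XT.lf (nat_lit 0) (nat_lit 272754874469) (nat_lit 76) (nat_lit 139656633100) (nat_lit 76) (nat_lit 138279703055) (nat_lit 1) (nat_lit 4) (nat_lit 2) (nat_lit 5) (nat_lit 2) (nat_lit 4) (nat_lit 243) (nat_lit 184) (nat_lit 173)) (XT.nd (nat_lit 78) (nat_lit 0) (nat_lit 0) (XT.lf (nat_lit 0) (nat_lit 316627479739) (nat_lit 76) (nat_lit 158981464729) (nat_lit 76) (nat_lit 157555361539) (nat_lit 1) (nat_lit 4) (nat_lit 2) (nat_lit 5) (nat_lit 2) (nat_lit 4) (nat_lit 244) (nat_lit 184) (nat_lit 172)) (XT.lf (nat_lit 0) (nat_lit 366970324632) (nat_lit 76) (nat_lit 181255893069) (nat_lit 76) (nat_lit 179787030622) (nat_lit 1) (nat_lit 4) (nat_lit 2) (nat_lit 5) (nat_lit 2) (nat_lit 4) (nat_lit 245) (nat_lit 184) (nat_lit 171)))))) (XT.nd (nat_lit 390) (nat_lit 0) (nat_lit 0) (XT.nd (nat_lit 156) (nat_lit 0) (nat_lit 0) (XT.nd (nat_lit 78) (nat_lit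 0) (nat_lit 0) (XT.lf (nat_lit 0) (nat_lit 424768377851) (nat_lit 76) (nat_lit 206915722152) (nat_lit 76) (nat_lit 205409677744) (nat_lit 1) (nat_lit 4) (nat_lit 2) (nat_lit 5) (nat_lit 2) (nat_lit 4) (nat_lit 246) (nat_lit 184) (nat_lit 170)) (XT.lf (nat_lit 0) (nat_lit 491152470874) (nat_lit 76) (nat_lit 236462992113) (nat_lit 76) (nat_lit 234924615564) (nat_lit 1) (nat_lit 4) (nat_lit 2) (nat_lit 5) (nat_lit 2) (nat_lit 4) (nat_lit 247) (nat_lit 184) (nat_lit 169))) (XT.nd (nat_lit 78) (nat_lit 0) (nat_lit 0) (XT.lf (nat_lit 0) (nat_lit 567421422911) (nat_lit 76) (nat_lit 270475801713) (nat_lit 76) (nat_lit 268909310259) (nat_lit 1) (nat_lit 4) (nat_lit 2) (nat_lit 5) (nat_lit 2) (nat_lit 4) (nat_lit 248) (nat_lit 184) (nat_lit 168)) (XT.nd (nat_lit 78) (nat_lit 0) (nat_lit 0) (XT.lf (nat_lit 0) (nat_lit 655067452590) (nat_lit 76) (nat_lit 309619618965) (nat_lit 76) (nat_lit 308028679767)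 (nat_lit 1) (nat_lit 4) (nat_lit 2) (nat_lit 5) (nat_lit 2) (nat_lit 4) (nat_lit 249) (nat_lit 184) (nat_lit 167)) (XT.lf (nat_lit 0) (nat_lit 755805373534) (nat_lit 76) (nat_lit 354660301162) (nat_lit 76) (nat_lit 353048103057) (nat_lit 1) (nat_lit 4) (nat_lit 2) (nat_lit 5) (nat_lit 2) (nat_lit 4) (nat_lit 250) (nat_lit 184) (nat_lit 166))))) (XT.nd (nat_lit 156) (nat_lit 0) (nat_lit 0) (XT.nd (nat_lit 78) (nat_lit 0) (nat_lit 0) (XT.lf (nat_lit 0) (nat_lit 871606145067) (nat_lit 76) (nat_lit 406479079045) (nat_lit 76) (nat_lit 404848394933) (nat_lit 1) (nat_lit 4) (nat_lit 2) (nat_lit 5) (nat_lit 2) (nat_lit 4) (nat_lit 251) (nat_lit 184) (nat_lit 165)) (XT.lf (nat_lit 0) (nat_lit 1004735434457) (nat_lit 76) (nat_lit 466089798266) (nat_lit 76) (nat_lit 464443039366) (nat_lit 1) (nat_lit 4) (nat_lit 2) (nat_lit 5) (nat_lit 2) (nat_lit 4) (nat_lit 252) (nat_lit 184) (nat_lit 164))) (XT.nd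 (nat_lit 78) (nat_lit 0) (nat_lit 0) (XT.lf (nat_lit 0) (nat_lit 1157797945192) (nat_lit 76) (nat_lit 534658755507) (nat_lit 76) (nat_lit 532998018530) (nat_lit 1) (nat_lit 4) (nat_lit 2) (nat_lit 5) (nat_lit 2) (nat_lit 4) (nat_lit 253) (nat_lit 184) (nat_lit 163)) (XT.nd (nat_lit 78) (nat_lit 0) (nat_lit 0) (XT.lf (nat_lit 0) (nat_lit 1333788378570) (nat_lit 76) (nat_lit 613527517322) (nat_lit 76) (nat_lit 611854625495) (nat_lit 1) (nat_lit 4) (nat_lit 2) (nat_lit 5) (nat_lit 2) (nat_lit 4) (nat_lit 254) (nat_lit 184) (nat_lit 162)) (XT.lf (nat_lit 0) (nat_lit 1536150025678) (nat_lit 76) (nat_lit 704239168181) (nat_lit 76) (nat_lit 702555706920) (nat_lit 1) (nat_lit 4) (nat_lit 2) (nat_lit 5) (nat_lit 2) (nat_lit 4) (nat_lit 255) (nat_lit 184) (nat_lit 161))))))))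
noncomputable def xc6 : XT := (XT.nd (nat_lit 30264) (nat_lit 0) (nat_lit 0) (XT.nd (nat_lit 29484) (nat_lit 0) (nat_lit 0) (XT.nd (nat_lit 312) (nat_lit 0) (nat_lit 0) (XT.nd (nat_lit 156) (nat_lit 0) (nat_lit 0) (XT.nd (nat_lit 78) (nat_lit 0) (nat_lit 0) (XT.lf (nat_lit 0) (nat_lit 1768842136134) (nat_lit 76) (nat_lit 808568501253) (nat_lit 76) (nat_lit 806875849181) (nat_lit 1) (nat_lit 4) (nat_lit 2) (nat_lit 5) (nat_lit 2) (nat_lit 4) (nat_lit 256) (nat_lit 184) (nat_lit 160)) (XT.lf (nat_lit 0) (nat_lit 2036417381664) (nat_lit 76) (nat_lit 928556742621) (nat_lit 76) (nat_lit 926856098538) (nat_lit 1) (nat_lit 4) (nat_lit 2) (nat_lit 5) (nat_lit 2) (nat_lit 4) (nat_lit 257) (nat_lit 184) (nat_lit 159))) (XT.nd (nat_lit 78) (nat_lit 0) (nat_lit 0) (XT.lf (nat_lit 0) (nat_lit 2344110930116) (nat_lit 76) (nat_lit 1066551488311) (nat_lit 76) (nat_lit 1064843894653) (nat_lit 1) (nat_lit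 4) (nat_lit 2) (nat_lit 5) (nat_lit 2) (nat_lit 4) (nat_lit 258) (nat_lit 184) (nat_lit 158)) (XT.lf (nat_lit 0) (nat_lit 2697942872653) (nat_lit 76) (nat_lit 1225252635521) (nat_lit 76) (nat_lit 1223538998754) (nat_lit 1) (nat_lit 4) (nat_lit 2) (nat_lit 5) (nat_lit 2) (nat_lit 4) (nat_lit 259) (nat_lit 184) (nat_lit 157)))) (XT.nd (nat_lit 28938) (nat_lit 0) (nat_lit 0) (XT.nd (nat_lit 78) (nat_lit 0) (nat_lit 0) (XT.lf (nat_lit 0) (nat_lit 3104836008154) (nat_lit 76) (nat_lit 1407765206696) (nat_lit 76) (nat_lit 1406046315053) (nat_lit 1) (nat_lit 4) (nat_lit 2) (nat_lit 5) (nat_lit 2) (nat_lit 4) (nat_lit 260) (nat_lit 184) (nat_lit 156)) (XT.lf (nat_lit 0) (nat_lit 3572751289267) (nat_lit 76) (nat_lit 1617660099969) (nat_lit 76) (nat_lit 1615936638868) (nat_lit 1) (nat_lit 4) (nat_lit 2) (nat_lit 5) (nat_lit 2) (nat_lit 4) (nat_lit 261) (nat_lit 184) (nat_lit 155))) (XT.nd (nat_lit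 78) (nat_lit 0) (nat_lit 0) (XT.lf (nat_lit 0) (nat_lit 7369949065) (nat_lit 76) (nat_lit 19017133384) (nat_lit 76) (nat_lit 19017133384) (nat_lit 1) (nat_lit 4) (nat_lit 2) (nat_lit 5) (nat_lit 2) (nat_lit 4) (nat_lit 230) (nat_lit 185) (nat_lit 185)) (XT.nd (nat_lit 78) (nat_lit 0) (nat_lit 0) (XT.lf (nat_lit 0) (nat_lit 23917342834) (nat_lit 76) (nat_lit 40234019072) (nat_lit 76) (nat_lit 39970930449) (nat_lit 1) (nat_lit 4) (nat_lit 2) (nat_lit 5) (nat_lit 2) (nat_lit 4) (nat_lit 231) (nat_lit 185) (nat_lit 184)) (XT.lf (nat_lit 0) (nat_lit 33879392822) (nat_lit 76) (nat_lit 43035911967) (nat_lit 76) (nat_lit 42544050627) (nat_lit 1) (nat_lit 4) (nat_lit 2) (nat_lit 5) (nat_lit 2) (nat_lit 4) (nat_lit 232) (nat_lit 185) (nat_lit 183)))))) (XT.nd (nat_lit 390) (nat_lit 0) (nat_lit 0) (XT.nd (nat_lit 156) (nat_lit 0) (nat_lit 0) (XT.nd (nat_lit 78) (nat_lit 0) (nat_lit 0) (XT.lf (nat_lit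 0) (nat_lit 44820957768) (nat_lit 76) (nat_lit 46494765096) (nat_lit 76) (nat_lit 45803970960) (nat_lit 1) (nat_lit 4) (nat_lit 2) (nat_lit 5) (nat_lit 2) (nat_lit 4) (nat_lit 233) (nat_lit 185) (nat_lit 182)) (XT.lf (nat_lit 0) (nat_lit 56956111769) (nat_lit 76) (nat_lit 50678251673) (nat_lit 76) (nat_lit 49814472497) (nat_lit 1) (nat_lit 4) (nat_lit 2) (nat_lit 5) (nat_lit 2) (nat_lit 4) (nat_lit 234) (nat_lit 185) (nat_lit 181))) (XT.nd (nat_lit 78) (nat_lit 0) (nat_lit 0) (XT.lf (nat_lit 0) (nat_lit 70522281750) (nat_lit 76) (nat_lit 55668222522) (nat_lit 76) (nat_lit 54654021572) (nat_lit 1) (nat_lit 4) (nat_lit 2) (nat_lit 5) (nat_lit 2) (nat_lit 4) (nat_lit 235) (nat_lit 185) (nat_lit 180)) (XT.nd (nat_lit 78) (nat_lit 0) (nat_lit 0) (XT.lf (nat_lit 0) (nat_lit 85784892776) (nat_lit 76) (nat_lit 61562307508) (nat_lit 76) (nat_lit 60417305015) (nat_lit 1) (nat_lit 4) (nat_lit 2)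 (nat_lit 5) (nat_lit 2) (nat_lit 4) (nat_lit 236) (nat_lit 185) (nat_lit 179)) (XT.lf (nat_lit 0) (nat_lit 103042561150) (nat_lit 76) (nat_lit 68475825685) (nat_lit 76) (nat_lit 67217082720) (nat_lit 1) (nat_lit 4) (nat_lit 2) (nat_lit 5) (nat_lit 2) (nat_lit 4) (nat_lit 237) (nat_lit 185) (nat_lit 178))))) (XT.nd (nat_lit 156) (nat_lit 0) (nat_lit 0) (XT.nd (nat_lit 78) (nat_lit 0) (nat_lit 0) (XT.lf (nat_lit 0) (nat_lit 122632936906) (nat_lit 76) (nat_lit 76544041538) (nat_lit 76) (nat_lit 75186393815) (nat_lit 1) (nat_lit 4) (nat_lit 2) (nat_lit 5) (nat_lit 2) (nat_lit 4) (nat_lit 238) (nat_lit 185) (nat_lit 177)) (XT.lf (nat_lit 0) (nat_lit 144939310004) (nat_lit 76) (nat_lit 85924811466) (nat_lit 76) (nat_lit 84481159605) (nat_lit 1) (nat_lit 4) (nat_lit 2) (nat_lit 5) (nat_lit 2) (nat_lit 4) (nat_lit 239) (nat_lit 185) (nat_lit 176))) (XT.nd (nat_lit 78) (nat_lit 0) (nat_lit 0)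 (XT.lf (nat_lit 0) (nat_lit 170398109483) (nat_lit 76) (nat_lit 96801672271) (nat_lit 76) (nat_lit 95283234203) (nat_lit 1) (nat_lit 4) (nat_lit 2) (nat_lit 5) (nat_lit 2) (nat_lit 4) (nat_lit 240) (nat_lit 185) (nat_lit 175)) (XT.nd (nat_lit 78) (nat_lit 0) (nat_lit 0) (XT.lf (nat_lit 0) (nat_lit 199507442289) (nat_lit 76) (nat_lit 109387432098) (nat_lit 76) (nat_lit 107803962547) (nat_lit 1) (nat_lit 4) (nat_lit 2) (nat_lit 5) (nat_lit 2) (nat_lit 4) (nat_lit 241) (nat_lit 185) (nat_lit 174)) (XT.lf (nat_lit 0) (nat_lit 232836838846) (nat_lit 76) (nat_lit 123928334076) (nat_lit 76) (nat_lit 122288315408) (nat_lit 1) (nat_lit 4) (nat_lit 2) (nat_lit 5) (nat_lit 2) (nat_lit 4) (nat_lit 242) (nat_lit 185) (nat_lit 173))))))) (XT.nd (nat_lit 780) (nat_lit 0) (nat_lit 0) (XT.nd (nat_lit 390) (nat_lit 0) (nat_lit 0) (XT.nd (nat_lit 156) (nat_lit 0) (nat_lit 0) (XT.nd (nat_lit 78) (nat_lit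 0) (nat_lit 0) (XT.lf (nat_lit 0) (nat_lit 271038396045) (nat_lit 76) (nat_lit 140708874113) (nat_lit 76) (nat_lit 139019682300) (nat_lit 1) (nat_lit 4) (nat_lit 2) (nat_lit 5) (nat_lit 2) (nat_lit 4) (nat_lit 243) (nat_lit 185) (nat_lit 172)) (XT.lf (nat_lit 0) (nat_lit 314859535655) (nat_lit 76) (nat_lit 160057367121) (nat_lit 76) (nat_lit 158325416052) (nat_lit 1) (nat_lit 4) (nat_lit 2) (nat_lit 5) (nat_lit 2) (nat_lit 4) (nat_lit 244) (nat_lit 185) (nat_lit 171))) (XT.nd (nat_lit 78) (nat_lit 0) (nat_lit 0) (XT.lf (nat_lit 0) (nat_lit 365157627800) (nat_lit 76) (nat_lit 182352370574) (nat_lit 76) (nat_lit 180583237542) (nat_lit 1) (nat_lit 4) (nat_lit 2) (nat_lit 5) (nat_lit 2) (nat_lit 4) (nat_lit 245) (nat_lit 185) (nat_lit 170)) (XT.nd (nat_lit 78) (nat_lit 0) (nat_lit 0) (XT.lf (nat_lit 0) (nat_lit 422916765587) (nat_lit 76) (nat_lit 208030091060) (nat_lit 76) (nat_lit 206228625887)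 (nat_lit 1) (nat_lit 4) (nat_lit 2) (nat_lit 5) (nat_lit 2) (nat_lit 4) (nat_lit 246) (nat_lit 185) (nat_lit 169)) (XT.lf (nat_lit 0) (nat_lit 489267019104) (nat_lit 76) (nat_lit 237592918762) (nat_lit 76) (nat_lit 235763338685) (nat_lit 1) (nat_lit 4) (nat_lit 2) (nat_lit 5) (nat_lit 2) (nat_lit 4) (nat_lit 247) (nat_lit 185) (nat_lit 168))))) (XT.nd (nat_lit 156) (nat_lit 0) (nat_lit 0) (XT.nd (nat_lit 78) (nat_lit 0) (nat_lit 0) (XT.lf (nat_lit 0) (nat_lit 565506545483) (nat_lit 76) (nat_lit 271619256833) (nat_lit 76) (nat_lit 269765229012) (nat_lit 1) (nat_lit 4) (nat_lit 2) (nat_lit 5) (nat_lit 2) (nat_lit 4) (nat_lit 248) (nat_lit 185) (nat_lit 167)) (XT.lf (nat_lit 0) (nat_lit 653126987633) (nat_lit 76) (nat_lit 310774837972) (nat_lit 76) (nat_lit 308899551243) (nat_lit 1) (nat_lit 4) (nat_lit 2) (nat_lit 5) (nat_lit 2) (nat_lit 4) (nat_lit 249) (nat_lit 185) (nat_lit 166))) (XT.nd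 (nat_lit 78) (nat_lit 0) (nat_lit 0) (XT.lf (nat_lit 0) (nat_lit 753842658553) (nat_lit 76) (nat_lit 355825749637) (nat_lit 76) (nat_lit 353931976902) (nat_lit 1) (nat_lit 4) (nat_lit 2) (nat_lit 5) (nat_lit 2) (nat_lit 4) (nat_lit 250) (nat_lit 185) (nat_lit 165)) (XT.nd (nat_lit 78) (nat_lit 0) (nat_lit 0) (XT.lf (nat_lit 0) (nat_lit 869624082238) (nat_lit 76) (nat_lit 407653422709) (nat_lit 76) (nat_lit 405743575185) (nat_lit 1) (nat_lit 4) (nat_lit 2) (nat_lit 5) (nat_lit 2) (nat_lit 4) (nat_lit 251) (nat_lit 185) (nat_lit 164)) (XT.lf (nat_lit 0) (nat_lit 1002736547412) (nat_lit 76) (nat_lit 467271876877) (nat_lit 76) (nat_lit 465348051277) (nat_lit 1) (nat_lit 4) (nat_lit 2) (nat_lit 5) (nat_lit 2) (nat_lit 4) (nat_lit 252) (nat_lit 185) (nat_lit 163)))))) (XT.nd (nat_lit 390) (nat_lit 0) (nat_lit 0) (XT.nd (nat_lit 156) (nat_lit 0) (nat_lit 0) (XT.nd (nat_lit 78) (nat_lit 0) (nat_lit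 0) (XT.lf (nat_lit 0) (nat_lit 1155784428395) (nat_lit 76) (nat_lit 535847560159) (nat_lit 76) (nat_lit 533911579709) (nat_lit 1) (nat_lit 4) (nat_lit 2) (nat_lit 5) (nat_lit 2) (nat_lit 4) (nat_lit 253) (nat_lit 185) (nat_lit 162)) (XT.lf (nat_lit 0) (nat_lit 1331762140249) (nat_lit 76) (nat_lit 614722170705) (nat_lit 76) (nat_lit 612775620821) (nat_lit 1) (nat_lit 4) (nat_lit 2) (nat_lit 5) (nat_lit 2) (nat_lit 4) (nat_lit 254) (nat_lit 185) (nat_lit 161))) (XT.nd (nat_lit 78) (nat_lit 0) (nat_lit 0) (XT.lf (nat_lit 0) (nat_lit 1534112725163) (nat_lit 76) (nat_lit 705438907417) (nat_lit 76) (nat_lit 703483166721) (nat_lit 1) (nat_lit 4) (nat_lit 2) (nat_lit 5) (nat_lit 2) (nat_lit 4) (nat_lit 255) (nat_lit 185) (nat_lit 160)) (XT.nd (nat_lit 78) (nat_lit 0) (nat_lit 0) (XT.lf (nat_lit 0) (nat_lit 1766795216319) (nat_lit 76) (nat_lit 809772662971) (nat_lit 76) (nat_lit 807808930264)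 (nat_lit 1) (nat_lit 4) (nat_lit 2) (nat_lit 5) (nat_lit 2) (nat_lit 4) (nat_lit 256) (nat_lit 185) (nat_lit 159)) (XT.lf (nat_lit 0) (nat_lit 2034362097241) (nat_lit 76) (nat_lit 929764749974) (nat_lit 76) (nat_lit 927794067693) (nat_lit 1) (nat_lit 4) (nat_lit 2) (nat_lit 5) (nat_lit 2) (nat_lit 4) (nat_lit 257) (nat_lit 185) (nat_lit 158))))) (XT.nd (nat_lit 156) (nat_lit 0) (nat_lit 0) (XT.nd (nat_lit 78) (nat_lit 0) (nat_lit 0) (XT.lf (nat_lit 0) (nat_lit 2342048372119) (nat_lit 76) (nat_lit 1067762839695) (nat_lit 76) (nat_lit 1065786114306) (nat_lit 1) (nat_lit 4) (nat_lit 2) (nat_lit 5) (nat_lit 2) (nat_lit 4) (nat_lit 258) (nat_lit 185) (nat_lit 157)) (XT.lf (nat_lit 0) (nat_lit 2695873989811) (nat_lit 76) (nat_lit 1226466894758) (nat_lit 76) (nat_lit 1224484914492) (nat_lit 1) (nat_lit 4) (nat_lit 2) (nat_lit 5) (nat_lit 2) (nat_lit 4) (nat_lit 259) (nat_lit 185) (nat_lit 156)))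 (XT.nd (nat_lit 78) (nat_lit 0) (nat_lit 0) (XT.lf (nat_lit 0) (nat_lit 3102761625446) (nat_lit 76) (nat_lit 1408981994502) (nat_lit 76) (nat_lit 1406995444777) (nat_lit 1) (nat_lit 4) (nat_lit 2) (nat_lit 5) (nat_lit 2) (nat_lit 4) (nat_lit 260) (nat_lit 185) (nat_lit 155)) (XT.nd (nat_lit 28704) (nat_lit 0) (nat_lit 76) (XT.lf (nat_lit 0) (nat_lit 3570672124067) (nat_lit 76) (nat_lit 1618879086530) (nat_lit 76) (nat_lit 1616888563363) (nat_lit 1) (nat_lit 4) (nat_lit 2) (nat_lit 5) (nat_lit 2) (nat_lit 4) (nat_lit 261) (nat_lit 185) (nat_lit 154)) (XT.lf (nat_lit 0) (nat_lit 16925122509) (nat_lit 152) (nat_lit 761603555) (nat_lit 0) (nat_lit 16925122509) (nat_lit 2) (nat_lit 5) (nat_lit 4) (nat_lit 4) (nat_lit 2) (nat_lit 4) (nat_lit 228) (nat_lit 186) (nat_lit 186))))))))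
noncomputable def xc7 : XT := (XT.nd (nat_lit 1560) (nat_lit 0) (nat_lit 0) (XT.nd (nat_lit 780) (nat_lit 0) (nat_lit 0) (XT.nd (nat_lit 390) (nat_lit 0) (nat_lit 0) (XT.nd (nat_lit 156) (nat_lit 0) (nat_lit 0) (XT.nd (nat_lit 78) (nat_lit 0) (nat_lit 0) (XT.lf (nat_lit 0) (nat_lit 6167500009) (nat_lit 76) (nat_lit 36696168341) (nat_lit 76) (nat_lit 36393616424) (nat_lit 1) (nat_lit 4) (nat_lit 2) (nat_lit 5) (nat_lit 2) (nat_lit 4) (nat_lit 229) (nat_lit 186) (nat_lit 185)) (XT.lf (nat_lit 0) (nat_lit 14423240858) (nat_lit 76) (nat_lit 38482402130) (nat_lit 76) (nat_lit 37916761590) (nat_lit 1) (nat_lit 4) (nat_lit 2) (nat_lit 5) (nat_lit 2) (nat_lit 4) (nat_lit 230) (nat_lit 186) (nat_lit 184))) (XT.nd (nat_lit 78) (nat_lit 0) (nat_lit 0) (XT.lf (nat_lit 0) (nat_lit 23325331412) (nat_lit 76) (nat_lit 40808748734) (nat_lit 76) (nat_lit 40014335478) (nat_lit 1) (nat_lit 4) (nat_lit 2)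 (nat_lit 5) (nat_lit 2) (nat_lit 4) (nat_lit 231) (nat_lit 186) (nat_lit 183)) (XT.nd (nat_lit 78) (nat_lit 0) (nat_lit 0) (XT.lf (nat_lit 0) (nat_lit 33047943010) (nat_lit 76) (nat_lit 43720723629) (nat_lit 76) (nat_lit 42727377577) (nat_lit 1) (nat_lit 4) (nat_lit 2) (nat_lit 5) (nat_lit 2) (nat_lit 4) (nat_lit 232) (nat_lit 186) (nat_lit 182)) (XT.lf (nat_lit 0) (nat_lit 43781300659) (nat_lit 76) (nat_lit 47275300236) (nat_lit 76) (nat_lit 46108969144) (nat_lit 1) (nat_lit 4) (nat_lit 2) (nat_lit 5) (nat_lit 2) (nat_lit 4) (nat_lit 233) (nat_lit 186) (nat_lit 181))))) (XT.nd (nat_lit 156) (nat_lit 0) (nat_lit 0) (XT.nd (nat_lit 78) (nat_lit 0) (nat_lit 0) (XT.lf (nat_lit 0) (nat_lit 55735404837) (nat_lit 76) (nat_lit 51542024621) (nat_lit 76) (nat_lit 50225271754) (nat_lit 1) (nat_lit 4) (nat_lit 2) (nat_lit 5) (nat_lit 2) (nat_lit 4) (nat_lit 234) (nat_lit 186) (nat_lit 180)) (XT.lf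 (nat_lit 0) (nat_lit 69144140189) (nat_lit 76) (nat_lit 56604376172) (nat_lit 76) (nat_lit 55156821762) (nat_lit 1) (nat_lit 4) (nat_lit 2) (nat_lit 5) (nat_lit 2) (nat_lit 4) (nat_lit 235) (nat_lit 186) (nat_lit 179))) (XT.nd (nat_lit 78) (nat_lit 0) (nat_lit 0) (XT.lf (nat_lit 0) (nat_lit 84269851538) (nat_lit 76) (nat_lit 62561400899) (nat_lit 76) (nat_lit 61000106017) (nat_lit 1) (nat_lit 4) (nat_lit 2) (nat_lit 5) (nat_lit 2) (nat_lit 4) (nat_lit 236) (nat_lit 186) (nat_lit 178)) (XT.nd (nat_lit 78) (nat_lit 0) (nat_lit 0) (XT.lf (nat_lit 0) (nat_lit 101408476715) (nat_lit 76) (nat_lit 69529649285) (nat_lit 76) (nat_lit 67869449645) (nat_lit 1) (nat_lit 4) (nat_lit 2) (nat_lit 5) (nat_lit 2) (nat_lit 4) (nat_lit 237) (nat_lit 186) (nat_lit 177)) (XT.lf (nat_lit 0) (nat_lit 120895336647) (nat_lit 76) (nat_lit 77645456625) (nat_lit 76) (nat_lit 75899252848) (nat_lit 1) (nat_lit 4)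 (nat_lit 2) (nat_lit 5) (nat_lit 2) (nat_lit 4) (nat_lit 238) (nat_lit 186) (nat_lit 176)))))) (XT.nd (nat_lit 390) (nat_lit 0) (nat_lit 0) (XT.nd (nat_lit 156) (nat_lit 0) (nat_lit 0) (XT.nd (nat_lit 78) (nat_lit 0) (nat_lit 0) (XT.lf (nat_lit 0) (nat_lit 143111695985) (nat_lit 76) (nat_lit 87067610454) (nat_lit 76) (nat_lit 85246620470) (nat_lit 1) (nat_lit 4) (nat_lit 2) (nat_lit 5) (nat_lit 2) (nat_lit 4) (nat_lit 239) (nat_lit 186) (nat_lit 175)) (XT.lf (nat_lit 0) (nat_lit 168492222629) (nat_lit 76) (nat_lit 97980457260) (nat_lit 76) (nat_lit 96094435792) (nat_lit 1) (nat_lit 4) (nat_lit 2) (nat_lit 5) (nat_lit 2) (nat_lit 4) (nat_lit 240) (nat_lit 186) (nat_lit 174))) (XT.nd (nat_lit 78) (nat_lit 0) (nat_lit 0) (XT.lf (nat_lit 0) (nat_lit 197533492100) (nat_lit 76) (nat_lit 110597509263) (nat_lit 76) (nat_lit 108654938678) (nat_lit 1) (nat_lit 4) (nat_lit 2) (nat_lit 5) (nat_lit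 2) (nat_lit 4) (nat_lit 241) (nat_lit 186) (nat_lit 173)) (XT.nd (nat_lit 78) (nat_lit 0) (nat_lit 0) (XT.lf (nat_lit 0) (nat_lit 230803703149) (nat_lit 76) (nat_lit 125165621827) (nat_lit 76) (nat_lit 123173878098) (nat_lit 1) (nat_lit 4) (nat_lit 2) (nat_lit 5) (nat_lit 2) (nat_lit 4) (nat_lit 242) (nat_lit 186) (nat_lit 172)) (XT.lf (nat_lit 0) (nat_lit 268953794688) (nat_lit 76) (nat_lit 141969823244) (nat_lit 76) (nat_lit 139935320257) (nat_lit 1) (nat_lit 4) (nat_lit 2) (nat_lit 5) (nat_lit 2) (nat_lit 4) (nat_lit 243) (nat_lit 186) (nat_lit 171))))) (XT.nd (nat_lit 156) (nat_lit 0) (nat_lit 0) (XT.nd (nat_lit 78) (nat_lit 0) (nat_lit 0) (XT.lf (nat_lit 0) (nat_lit 312730181551) (nat_lit 76) (nat_lit 161338891365) (nat_lit 76) (nat_lit 159267206417) (nat_lit 1) (nat_lit 4) (nat_lit 2) (nat_lit 5) (nat_lit 2) (nat_lit 4) (nat_lit 244) (nat_lit 186) (nat_lit 170)) (XT.lf (nat_lit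 0) (nat_lit 362989358264) (nat_lit 76) (nat_lit 183651786220) (nat_lit 76) (nat_lit 181547769131) (nat_lit 1) (nat_lit 4) (nat_lit 2) (nat_lit 5) (nat_lit 2) (nat_lit 4) (nat_lit 245) (nat_lit 186) (nat_lit 169))) (XT.nd (nat_lit 78) (nat_lit 0) (nat_lit 0) (XT.lf (nat_lit 0) (nat_lit 420714656545) (nat_lit 76) (nat_lit 209345064448) (nat_lit 76) (nat_lit 207212932453) (nat_lit 1) (nat_lit 4) (nat_lit 2) (nat_lit 5) (nat_lit 2) (nat_lit 4) (nat_lit 246) (nat_lit 186) (nat_lit 168)) (XT.nd (nat_lit 78) (nat_lit 0) (nat_lit 0) (XT.lf (nat_lit 0) (nat_lit 487035484403) (nat_lit 76) (nat_lit 238921420621) (nat_lit 76) (nat_lit 236764840883) (nat_lit 1) (nat_lit 4) (nat_lit 2) (nat_lit 5) (nat_lit 2) (nat_lit 4) (nat_lit 247) (nat_lit 186) (nat_lit 167)) (XT.lf (nat_lit 0) (nat_lit 563249423254) (nat_lit 76) (nat_lit 272959522579) (nat_lit 76) (nat_lit 270781683934) (nat_lit 1) (nat_lit 4)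 (nat_lit 2) (nat_lit 5) (nat_lit 2) (nat_lit 4) (nat_lit 248) (nat_lit 186) (nat_lit 166))))))) (XT.nd (nat_lit 780) (nat_lit 0) (nat_lit 0) (XT.nd (nat_lit 390) (nat_lit 0) (nat_lit 0) (XT.nd (nat_lit 156) (nat_lit 0) (nat_lit 0) (XT.nd (nat_lit 78) (nat_lit 0) (nat_lit 0) (XT.lf (nat_lit 0) (nat_lit 650847615380) (nat_lit 76) (nat_lit 312125333186) (nat_lit 76) (nat_lit 309929008534) (nat_lit 1) (nat_lit 4) (nat_lit 2) (nat_lit 5) (nat_lit 2) (nat_lit 4) (nat_lit 249) (nat_lit 186) (nat_lit 165)) (XT.lf (nat_lit 0) (nat_lit 751543938452) (nat_lit 76) (nat_lit 357185140040) (nat_lit 76) (nat_lit 354972740600) (nat_lit 1) (nat_lit 4) (nat_lit 2) (nat_lit 5) (nat_lit 2) (nat_lit 4) (nat_lit 250) (nat_lit 186) (nat_lit 164))) (XT.nd (nat_lit 78) (nat_lit 0) (nat_lit 0) (XT.lf (nat_lit 0) (nat_lit 867308537921) (nat_lit 76) (nat_lit 409020548059) (nat_lit 76) (nat_lit 406794170542) (nat_lit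 1) (nat_lit 4) (nat_lit 2) (nat_lit 5) (nat_lit 2) (nat_lit 4) (nat_lit 251) (nat_lit 186) (nat_lit 163)) (XT.nd (nat_lit 78) (nat_lit 0) (nat_lit 0) (XT.lf (nat_lit 0) (nat_lit 1000406373343) (nat_lit 76) (nat_lit 468645728268) (nat_lit 76) (nat_lit 466407195902) (nat_lit 1) (nat_lit 4) (nat_lit 2) (nat_lit 5) (nat_lit 2) (nat_lit 4) (nat_lit 252) (nat_lit 186) (nat_lit 162)) (XT.lf (nat_lit 0) (nat_lit 1153441532802) (nat_lit 76) (nat_lit 537227260281) (nat_lit 76) (nat_lit 534978158480) (nat_lit 1) (nat_lit 4) (nat_lit 2) (nat_lit 5) (nat_lit 2) (nat_lit 4) (nat_lit 253) (nat_lit 186) (nat_lit 161))))) (XT.nd (nat_lit 156) (nat_lit 0) (nat_lit 0) (XT.nd (nat_lit 78) (nat_lit 0) (nat_lit 0) (XT.lf (nat_lit 0) (nat_lit 1329408182462) (nat_lit 76) (nat_lit 616106956680) (nat_lit 76) (nat_lit 613848664067) (nat_lit 1) (nat_lit 4) (nat_lit 2) (nat_lit 5) (nat_lit 2) (nat_lit 4) (nat_lit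 254) (nat_lit 186) (nat_lit 160)) (XT.lf (nat_lit 0) (nat_lit 1531749148076) (nat_lit 76) (nat_lit 706828115874) (nat_lit 76) (nat_lit 704561831250) (nat_lit 1) (nat_lit 4) (nat_lit 2) (nat_lit 5) (nat_lit 2) (nat_lit 4) (nat_lit 255) (nat_lit 186) (nat_lit 159))) (XT.nd (nat_lit 78) (nat_lit 0) (nat_lit 0) (XT.lf (nat_lit 0) (nat_lit 1764423274623) (nat_lit 76) (nat_lit 811165717063) (nat_lit 76) (nat_lit 808892482865) (nat_lit 1) (nat_lit 4) (nat_lit 2) (nat_lit 5) (nat_lit 2) (nat_lit 4) (nat_lit 256) (nat_lit 186) (nat_lit 158)) (XT.nd (nat_lit 78) (nat_lit 0) (nat_lit 0) (XT.lf (nat_lit 0) (nat_lit 2031982881972) (nat_lit 76) (nat_lit 931161148097) (nat_lit 76) (nat_lit 928881870791) (nat_lit 1) (nat_lit 4) (nat_lit 2) (nat_lit 5) (nat_lit 2) (nat_lit 4) (nat_lit 257) (nat_lit 186) (nat_lit 157)) (XT.lf (nat_lit 0) (nat_lit 2339662832005) (nat_lit 76) (nat_lit 1069162145671) (nat_lit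 76) (nat_lit 1066877613488) (nat_lit 1) (nat_lit 4) (nat_lit 2) (nat_lit 5) (nat_lit 2) (nat_lit 4) (nat_lit 258) (nat_lit 186) (nat_lit 156)))))) (XT.nd (nat_lit 28860) (nat_lit 0) (nat_lit 0) (XT.nd (nat_lit 156) (nat_lit 0) (nat_lit 0) (XT.nd (nat_lit 78) (nat_lit 0) (nat_lit 0) (XT.lf (nat_lit 0) (nat_lit 2693482949831) (nat_lit 76) (nat_lit 1227868729302) (nat_lit 76) (nat_lit 1225579627661) (nat_lit 1) (nat_lit 4) (nat_lit 2) (nat_lit 5) (nat_lit 2) (nat_lit 4) (nat_lit 259) (nat_lit 186) (nat_lit 155)) (XT.lf (nat_lit 0) (nat_lit 3100365802974) (nat_lit 76) (nat_lit 1410386027801) (nat_lit 76) (nat_lit 1408092952718) (nat_lit 1) (nat_lit 4) (nat_lit 2) (nat_lit 5) (nat_lit 2) (nat_lit 4) (nat_lit 260) (nat_lit 186) (nat_lit 154))) (XT.nd (nat_lit 28548) (nat_lit 0) (nat_lit 76) (XT.lf (nat_lit 0) (nat_lit 3568272142907) (nat_lit 76) (nat_lit 1620285031789) (nat_lit 76) (nat_lit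 1617988501539) (nat_lit 1) (nat_lit 4) (nat_lit 2) (nat_lit 5) (nat_lit 2) (nat_lit 4) (nat_lit 261) (nat_lit 186) (nat_lit 153)) (XT.nd (nat_lit 78) (nat_lit 0) (nat_lit 0) (XT.lf (nat_lit 0) (nat_lit 9470554223) (nat_lit 152) (nat_lit 7539790459) (nat_lit 0) (nat_lit 9470554223) (nat_lit 2) (nat_lit 5) (nat_lit 4) (nat_lit 4) (nat_lit 2) (nat_lit 4) (nat_lit 226) (nat_lit 187) (nat_lit 187)) (XT.lf (nat_lit 0) (nat_lit 26137966475) (nat_lit 152) (nat_lit 8589253469) (nat_lit 0) (nat_lit 25790031771) (nat_lit 2) (nat_lit 5) (nat_lit 4) (nat_lit 4) (nat_lit 2) (nat_lit 4) (nat_lit 227) (nat_lit 187) (nat_lit 186))))) (XT.nd (nat_lit 156) (nat_lit 0) (nat_lit 0) (XT.nd (nat_lit 78) (nat_lit 76) (nat_lit 0) (XT.lf (nat_lit 0) (nat_lit 34010202780) (nat_lit 152) (nat_lit 1869146422) (nat_lit 0) (nat_lit 33359716159) (nat_lit 2) (nat_lit 5) (nat_lit 4) (nat_lit 4) (nat_lit 2) (nat_lit 4)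 (nat_lit 228) (nat_lit 187) (nat_lit 185)) (XT.lf (nat_lit 0) (nat_lit 5486686874) (nat_lit 76) (nat_lit 37357107452) (nat_lit 76) (nat_lit 36443532208) (nat_lit 1) (nat_lit 4) (nat_lit 2) (nat_lit 5) (nat_lit 2) (nat_lit 4) (nat_lit 229) (nat_lit 187) (nat_lit 184))) (XT.nd (nat_lit 78) (nat_lit 0) (nat_lit 0) (XT.lf (nat_lit 0) (nat_lit 13467073573) (nat_lit 76) (nat_lit 39269935542) (nat_lit 76) (nat_lit 38127587582) (nat_lit 1) (nat_lit 4) (nat_lit 2) (nat_lit 5) (nat_lit 2) (nat_lit 4) (nat_lit 230) (nat_lit 187) (nat_lit 183)) (XT.nd (nat_lit 78) (nat_lit 0) (nat_lit 0) (XT.lf (nat_lit 0) (nat_lit 22129725737) (nat_lit 76) (nat_lit 41706364146) (nat_lit 76) (nat_lit 40365083389) (nat_lit 1) (nat_lit 4) (nat_lit 2) (nat_lit 5) (nat_lit 2) (nat_lit 4) (nat_lit 231) (nat_lit 187) (nat_lit 182)) (XT.lf (nat_lit 0) (nat_lit 31644130038) (nat_lit 76) (nat_lit 44714062519) (nat_lit 76)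 (nat_lit 43199796722) (nat_lit 1) (nat_lit 4) (nat_lit 2) (nat_lit 5) (nat_lit 2) (nat_lit 4) (nat_lit 232) (nat_lit 187) (nat_lit 181))))))))
noncomputable def xc8 : XT := (XT.nd (nat_lit 1482) (nat_lit 0) (nat_lit 0) (XT.nd (nat_lit 702) (nat_lit 0) (nat_lit 0) (XT.nd (nat_lit 312) (nat_lit 0) (nat_lit 0) (XT.nd (nat_lit 156) (nat_lit 0) (nat_lit 0) (XT.nd (nat_lit 78) (nat_lit 0) (nat_lit 0) (XT.lf (nat_lit 0) (nat_lit 42196437864) (nat_lit 76) (nat_lit 48351876934) (nat_lit 76) (nat_lit 46687189363) (nat_lit 1) (nat_lit 4) (nat_lit 2) (nat_lit 5) (nat_lit 2) (nat_lit 4) (nat_lit 233) (nat_lit 187) (nat_lit 180)) (XT.lf (nat_lit 0) (nat_lit 53993107413) (nat_lit 76) (nat_lit 52690982020) (nat_lit 76) (nat_lit 50895492906) (nat_lit 1) (nat_lit 4) (nat_lit 2) (nat_lit 5) (nat_lit 2) (nat_lit 4) (nat_lit 234) (nat_lit 187) (nat_lit 179))) (XT.nd (nat_lit 78) (nat_lit 0) (nat_lit 0) (XT.lf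 (nat_lit 0) (nat_lit 67264943088) (nat_lit 76) (nat_lit 57816273313) (nat_lit 76) (nat_lit 55907043726) (nat_lit 1) (nat_lit 4) (nat_lit 2) (nat_lit 5) (nat_lit 2) (nat_lit 4) (nat_lit 235) (nat_lit 187) (nat_lit 178)) (XT.lf (nat_lit 0) (nat_lit 82271611240) (nat_lit 76) (nat_lit 63828028249) (nat_lit 76) (nat_lit 61819893905) (nat_lit 1) (nat_lit 4) (nat_lit 2) (nat_lit 5) (nat_lit 2) (nat_lit 4) (nat_lit 236) (nat_lit 187) (nat_lit 177)))) (XT.nd (nat_lit 156) (nat_lit 0) (nat_lit 0) (XT.nd (nat_lit 78) (nat_lit 0) (nat_lit 0) (XT.lf (nat_lit 0) (nat_lit 99306720593) (nat_lit 76) (nat_lit 70843868122) (nat_lit 76) (nat_lit 68749729640) (nat_lit 1) (nat_lit 4) (nat_lit 2) (nat_lit 5) (nat_lit 2) (nat_lit 4) (nat_lit 237) (nat_lit 187) (nat_lit 176)) (XT.lf (nat_lit 0) (nat_lit 118703566765) (nat_lit 76) (nat_lit 79001059363) (nat_lit 76) (nat_lit 76832134674) (nat_lit 1) (nat_lit 4)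 (nat_lit 2) (nat_lit 5) (nat_lit 2) (nat_lit 4) (nat_lit 238) (nat_lit 187) (nat_lit 175))) (XT.nd (nat_lit 78) (nat_lit 0) (nat_lit 0) (XT.lf (nat_lit 0) (nat_lit 140841653268) (nat_lit 76) (nat_lit 88459199193) (nat_lit 76) (nat_lit 86225243021) (nat_lit 1) (nat_lit 4) (nat_lit 2) (nat_lit 5) (nat_lit 2) (nat_lit 4) (nat_lit 239) (nat_lit 187) (nat_lit 174)) (XT.nd (nat_lit 78) (nat_lit 0) (nat_lit 0) (XT.lf (nat_lit 0) (nat_lit 166154116578) (nat_lit 76) (nat_lit 99403338174) (nat_lit 76) (nat_lit 97112832885) (nat_lit 1) (nat_lit 4) (nat_lit 2) (nat_lit 5) (nat_lit 2) (nat_lit 4) (nat_lit 240) (nat_lit 187) (nat_lit 173)) (XT.lf (nat_lit 0) (nat_lit 195136200541) (nat_lit 76) (nat_lit 112047600763) (nat_lit 76) (nat_lit 109707922329) (nat_lit 1) (nat_lit 4) (nat_lit 2) (nat_lit 5) (nat_lit 2) (nat_lit 4) (nat_lit 241) (nat_lit 187) (nat_lit 172)))))) (XT.nd (nat_lit 390) (nat_lit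 0) (nat_lit 0) (XT.nd (nat_lit 156) (nat_lit 0) (nat_lit 0) (XT.nd (nat_lit 78) (nat_lit 0) (nat_lit 0) (XT.lf (nat_lit 0) (nat_lit 228354945930) (nat_lit 76) (nat_lit 126639374708) (nat_lit 76) (nat_lit 124256937018) (nat_lit 1) (nat_lit 4) (nat_lit 2) (nat_lit 5) (nat_lit 2) (nat_lit 4) (nat_lit 242) (nat_lit 187) (nat_lit 171)) (XT.lf (nat_lit 0) (nat_lit 266460284722) (nat_lit 76) (nat_lit 143464151237) (nat_lit 76) (nat_lit 141044531585) (nat_lit 1) (nat_lit 4) (nat_lit 2) (nat_lit 5) (nat_lit 2) (nat_lit 4) (nat_lit 243) (nat_lit 187) (nat_lit 170))) (XT.nd (nat_lit 78) (nat_lit 0) (nat_lit 0) (XT.lf (nat_lit 0) (nat_lit 310197756152) (nat_lit 76) (nat_lit 162851110761) (nat_lit 76) (nat_lit 160399158968) (nat_lit 1) (nat_lit 4) (nat_lit 2) (nat_lit 5) (nat_lit 2) (nat_lit 4) (nat_lit 244) (nat_lit 187) (nat_lit 169)) (XT.nd (nat_lit 78) (nat_lit 0) (nat_lit 0) (XT.lf (nat_lit 0)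 (nat_lit 360423093359) (nat_lit 76) (nat_lit 185179563358) (nat_lit 76) (nat_lit 182699496659) (nat_lit 1) (nat_lit 4) (nat_lit 2) (nat_lit 5) (nat_lit 2) (nat_lit 4) (nat_lit 245) (nat_lit 187) (nat_lit 168)) (XT.lf (nat_lit 0) (nat_lit 418118965982) (nat_lit 76) (nat_lit 210886370056) (nat_lit 76) (nat_lit 208381855614) (nat_lit 1) (nat_lit 4) (nat_lit 2) (nat_lit 5) (nat_lit 2) (nat_lit 4) (nat_lit 246) (nat_lit 187) (nat_lit 167))))) (XT.nd (nat_lit 156) (nat_lit 0) (nat_lit 0) (XT.nd (nat_lit 78) (nat_lit 0) (nat_lit 0) (XT.lf (nat_lit 0) (nat_lit 484414206312) (nat_lit 76) (nat_lit 240474490117) (nat_lit 76) (nat_lit 237948716767) (nat_lit 1) (nat_lit 4) (nat_lit 2) (nat_lit 5) (nat_lit 2) (nat_lit 4) (nat_lit 247) (nat_lit 187) (nat_lit 166)) (XT.lf (nat_lit 0) (nat_lit 560605895138) (nat_lit 76) (nat_lit 274522821542) (nat_lit 76) (nat_lit 271978562186) (nat_lit 1) (nat_lit 4)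 (nat_lit 2) (nat_lit 5) (nat_lit 2) (nat_lit 4) (nat_lit 248) (nat_lit 187) (nat_lit 165))) (XT.nd (nat_lit 78) (nat_lit 0) (nat_lit 0) (XT.lf (nat_lit 0) (nat_lit 648184739416) (nat_lit 76) (nat_lit 313697527338) (nat_lit 76) (nat_lit 311137193194) (nat_lit 1) (nat_lit 4) (nat_lit 2) (nat_lit 5) (nat_lit 2) (nat_lit 4) (nat_lit 249) (nat_lit 187) (nat_lit 164)) (XT.nd (nat_lit 78) (nat_lit 0) (nat_lit 0) (XT.lf (nat_lit 0) (nat_lit 748864238272) (nat_lit 76) (nat_lit 358765069139) (nat_lit 76) (nat_lit 356190756918) (nat_lit 1) (nat_lit 4) (nat_lit 2) (nat_lit 5) (nat_lit 2) (nat_lit 4) (nat_lit 250) (nat_lit 187) (nat_lit 163)) (XT.lf (nat_lit 0) (nat_lit 864614207989) (nat_lit 76) (nat_lit 410607203199) (nat_lit 76) (nat_lit 408020736128) (nat_lit 1) (nat_lit 4) (nat_lit 2) (nat_lit 5) (nat_lit 2) (nat_lit 4) (nat_lit 251) (nat_lit 187) (nat_lit 162))))))) (XT.nd (nat_lit 29094) (nat_lit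 0) (nat_lit 0) (XT.nd (nat_lit 390) (nat_lit 0) (nat_lit 0) (XT.nd (nat_lit 156) (nat_lit 0) (nat_lit 0) (XT.nd (nat_lit 78) (nat_lit 0) (nat_lit 0) (XT.lf (nat_lit 0) (nat_lit 997699321887) (nat_lit 76) (nat_lit 470238232139) (nat_lit 76) (nat_lit 467641195635) (nat_lit 1) (nat_lit 4) (nat_lit 2) (nat_lit 5) (nat_lit 2) (nat_lit 4) (nat_lit 252) (nat_lit 187) (nat_lit 161)) (XT.lf (nat_lit 0) (nat_lit 1150723419152) (nat_lit 76) (nat_lit 538824850005) (nat_lit 76) (nat_lit 536218622688) (nat_lit 1) (nat_lit 4) (nat_lit 2) (nat_lit 5) (nat_lit 2) (nat_lit 4) (nat_lit 253) (nat_lit 187) (nat_lit 160))) (XT.nd (nat_lit 78) (nat_lit 0) (nat_lit 0) (XT.lf (nat_lit 0) (nat_lit 1326680449511) (nat_lit 76) (nat_lit 617708968886) (nat_lit 76) (nat_lit 615094749558) (nat_lit 1) (nat_lit 4) (nat_lit 2) (nat_lit 5) (nat_lit 2) (nat_lit 4) (nat_lit 254) (nat_lit 187) (nat_lit 159)) (XT.nd (nat_lit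 78) (nat_lit 0) (nat_lit 0) (XT.lf (nat_lit 0) (nat_lit 1529013050517) (nat_lit 76) (nat_lit 708433973715) (nat_lit 76) (nat_lit 705812804813) (nat_lit 1) (nat_lit 4) (nat_lit 2) (nat_lit 5) (nat_lit 2) (nat_lit 4) (nat_lit 255) (nat_lit 187) (nat_lit 158)) (XT.lf (nat_lit 0) (nat_lit 1761679903492) (nat_lit 76) (nat_lit 812774918936) (nat_lit 76) (nat_lit 810147706925) (nat_lit 1) (nat_lit 4) (nat_lit 2) (nat_lit 5) (nat_lit 2) (nat_lit 4) (nat_lit 256) (nat_lit 187) (nat_lit 157))))) (XT.nd (nat_lit 156) (nat_lit 0) (nat_lit 0) (XT.nd (nat_lit 78) (nat_lit 0) (nat_lit 0) (XT.lf (nat_lit 0) (nat_lit 2029233185995) (nat_lit 76) (nat_lit 932773257823) (nat_lit 76) (nat_lit 930140790936) (nat_lit 1) (nat_lit 4) (nat_lit 2) (nat_lit 5) (nat_lit 2) (nat_lit 4) (nat_lit 257) (nat_lit 187) (nat_lit 156)) (XT.lf (nat_lit 0) (nat_lit 2336907636162) (nat_lit 76) (nat_lit 1070776783965) (nat_lit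 76) (nat_lit 1068139747619) (nat_lit 1) (nat_lit 4) (nat_lit 2) (nat_lit 5) (nat_lit 2) (nat_lit 4) (nat_lit 258) (nat_lit 187) (nat_lit 155))) (XT.nd (nat_lit 78) (nat_lit 0) (nat_lit 0) (XT.lf (nat_lit 0) (nat_lit 2690722971496) (nat_lit 76) (nat_lit 1229485566351) (nat_lit 76) (nat_lit 1226844556563) (nat_lit 1) (nat_lit 4) (nat_lit 2) (nat_lit 5) (nat_lit 2) (nat_lit 4) (nat_lit 259) (nat_lit 187) (nat_lit 154)) (XT.nd (nat_lit 78) (nat_lit 0) (nat_lit 0) (XT.lf (nat_lit 0) (nat_lit 3097601665950) (nat_lit 76) (nat_lit 1412004776810) (nat_lit 76) (nat_lit 1409360311855) (nat_lit 1) (nat_lit 4) (nat_lit 2) (nat_lit 5) (nat_lit 2) (nat_lit 4) (nat_lit 260) (nat_lit 187) (nat_lit 153)) (XT.lf (nat_lit 0) (nat_lit 3565504389632) (nat_lit 76) (nat_lit 1621905443372) (nat_lit 76) (nat_lit 1619257973925) (nat_lit 1) (nat_lit 4) (nat_lit 2) (nat_lit 5) (nat_lit 2) (nat_lit 4) (nat_lit 261)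 (nat_lit 187) (nat_lit 152)))))) (XT.nd (nat_lit 390) (nat_lit 76) (nat_lit 0) (XT.nd (nat_lit 156) (nat_lit 0) (nat_lit 0) (XT.nd (nat_lit 78) (nat_lit 0) (nat_lit 0) (XT.lf (nat_lit 0) (nat_lit 3334739123) (nat_lit 152) (nat_lit 13709659875) (nat_lit 0) (nat_lit 3334739123) (nat_lit 2) (nat_lit 5) (nat_lit 4) (nat_lit 4) (nat_lit 2) (nat_lit 4) (nat_lit 224) (nat_lit 188) (nat_lit 188)) (XT.lf (nat_lit 0) (nat_lit 12678945510) (nat_lit 152) (nat_lit 21467113437) (nat_lit 0) (nat_lit 12278820600) (nat_lit 2) (nat_lit 5) (nat_lit 4) (nat_lit 4) (nat_lit 2) (nat_lit 4) (nat_lit 225) (nat_lit 188) (nat_lit 187))) (XT.nd (nat_lit 78) (nat_lit 0) (nat_lit 0) (XT.lf (nat_lit 0) (nat_lit 19125059871) (nat_lit 152) (nat_lit 15477411126) (nat_lit 0) (nat_lit 18377000256) (nat_lit 2) (nat_lit 5) (nat_lit 4) (nat_lit 4) (nat_lit 2) (nat_lit 4) (nat_lit 226) (nat_lit 188) (nat_lit 186)) (XT.nd (nat_lit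 78) (nat_lit 0) (nat_lit 0) (XT.lf (nat_lit 0) (nat_lit 26133940956) (nat_lit 152) (nat_lit 9333022989) (nat_lit 0) (nat_lit 25083329425) (nat_lit 2) (nat_lit 5) (nat_lit 4) (nat_lit 4) (nat_lit 2) (nat_lit 4) (nat_lit 227) (nat_lit 188) (nat_lit 185)) (XT.lf (nat_lit 0) (nat_lit 33842719049) (nat_lit 152) (nat_lit 2913732735) (nat_lit 0) (nat_lit 32529018895) (nat_lit 2) (nat_lit 5) (nat_lit 4) (nat_lit 4) (nat_lit 2) (nat_lit 4) (nat_lit 228) (nat_lit 188) (nat_lit 184))))) (XT.nd (nat_lit 156) (nat_lit 0) (nat_lit 0) (XT.nd (nat_lit 78) (nat_lit 0) (nat_lit 0) (XT.lf (nat_lit 0) (nat_lit 4111740347) (nat_lit 76) (nat_lit 38389365176) (nat_lit 76) (nat_lit 36846892306) (nat_lit 1) (nat_lit 4) (nat_lit 2) (nat_lit 5) (nat_lit 2) (nat_lit 4) (nat_lit 229) (nat_lit 188) (nat_lit 183)) (XT.lf (nat_lit 0) (nat_lit 11852688656) (nat_lit 76) (nat_lit 40412275266) (nat_lit 76) (nat_lit 38670869599)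 (nat_lit 1) (nat_lit 4) (nat_lit 2) (nat_lit 5) (nat_lit 2) (nat_lit 4) (nat_lit 230) (nat_lit 188) (nat_lit 182))) (XT.nd (nat_lit 78) (nat_lit 0) (nat_lit 0) (XT.lf (nat_lit 0) (nat_lit 20307133523) (nat_lit 76) (nat_lit 42944427348) (nat_lit 76) (nat_lit 41030036641) (nat_lit 1) (nat_lit 4) (nat_lit 2) (nat_lit 5) (nat_lit 2) (nat_lit 4) (nat_lit 231) (nat_lit 188) (nat_lit 181)) (XT.nd (nat_lit 78) (nat_lit 0) (nat_lit 0) (XT.lf (nat_lit 0) (nat_lit 29640488001) (nat_lit 76) (nat_lit 46035363529) (nat_lit 76) (nat_lit 43970551048) (nat_lit 1) (nat_lit 4) (nat_lit 2) (nat_lit 5) (nat_lit 2) (nat_lit 4) (nat_lit 232) (nat_lit 188) (nat_lit 180)) (XT.lf (nat_lit 0) (nat_lit 40035361198) (nat_lit 76) (nat_lit 49745558646) (nat_lit 76) (nat_lit 47549944622) (nat_lit 1) (nat_lit 4) (nat_lit 2) (nat_lit 5) (nat_lit 2) (nat_lit 4) (nat_lit 233) (nat_lit 188) (nat_lit 179))))))))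
noncomputable def xc9 : XT := (XT.nd (nat_lit 1482) (nat_lit 0) (nat_lit 0) (XT.nd (nat_lit 702) (nat_lit 0) (nat_lit 0) (XT.nd (nat_lit 312) (nat_lit 0) (nat_lit 0) (XT.nd (nat_lit 156) (nat_lit 0) (nat_lit 0) (XT.nd (nat_lit 78) (nat_lit 0) (nat_lit 0) (XT.lf (nat_lit 0) (nat_lit 51695131070) (nat_lit 76) (nat_lit 54147603473) (nat_lit 76) (nat_lit 51838248977) (nat_lit 1) (nat_lit 4) (nat_lit 2) (nat_lit 5) (nat_lit 2) (nat_lit 4) (nat_lit 234) (nat_lit 188) (nat_lit 178)) (XT.lf (nat_lit 0) (nat_lit 64847923547) (nat_lit 76) (nat_lit 59327624974) (nat_lit 76) (nat_lit 56919365720) (nat_lit 1) (nat_lit 4) (nat_lit 2) (nat_lit 5) (nat_lit 2) (nat_lit 4) (nat_lit 235) (nat_lit 188) (nat_lit 177))) (XT.nd (nat_lit 78) (nat_lit 0) (nat_lit 0) (XT.lf (nat_lit 0) (nat_lit 79751075875) (nat_lit 76) (nat_lit 65386971397) (nat_lit 76) (nat_lit 62892708005) (nat_lit 1) (nat_lit 4) (nat_lit 2)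 (nat_lit 5) (nat_lit 2) (nat_lit 4) (nat_lit 236) (nat_lit 188) (nat_lit 176)) (XT.lf (nat_lit 0) (nat_lit 96696171468) (nat_lit 76) (nat_lit 72444195171) (nat_lit 76) (nat_lit 69875145573) (nat_lit 1) (nat_lit 4) (nat_lit 2) (nat_lit 5) (nat_lit 2) (nat_lit 4) (nat_lit 237) (nat_lit 188) (nat_lit 175)))) (XT.nd (nat_lit 156) (nat_lit 0) (nat_lit 0) (XT.nd (nat_lit 78) (nat_lit 0) (nat_lit 0) (XT.lf (nat_lit 0) (nat_lit 116014744806) (nat_lit 76) (nat_lit 80637372414) (nat_lit 76) (nat_lit 78003291331) (nat_lit 1) (nat_lit 4) (nat_lit 2) (nat_lit 5) (nat_lit 2) (nat_lit 4) (nat_lit 238) (nat_lit 188) (nat_lit 174)) (XT.lf (nat_lit 0) (nat_lit 138084767974) (nat_lit 76) (nat_lit 90126804419) (nat_lit 76) (nat_lit 87436174220) (nat_lit 1) (nat_lit 4) (nat_lit 2) (nat_lit 5) (nat_lit 2) (nat_lit 4) (nat_lit 239) (nat_lit 188) (nat_lit 173))) (XT.nd (nat_lit 78) (nat_lit 0) (nat_lit 0) (XT.lf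 (nat_lit 0) (nat_lit 163338045776) (nat_lit 76) (nat_lit 101098153986) (nat_lit 76) (nat_lit 98358350642) (nat_lit 1) (nat_lit 4) (nat_lit 2) (nat_lit 5) (nat_lit 2) (nat_lit 4) (nat_lit 240) (nat_lit 188) (nat_lit 172)) (XT.nd (nat_lit 78) (nat_lit 0) (nat_lit 0) (XT.lf (nat_lit 0) (nat_lit 192268664079) (nat_lit 76) (nat_lit 113766077956) (nat_lit 76) (nat_lit 110983515355) (nat_lit 1) (nat_lit 4) (nat_lit 2) (nat_lit 5) (nat_lit 2) (nat_lit 4) (nat_lit 241) (nat_lit 188) (nat_lit 171)) (XT.lf (nat_lit 0) (nat_lit 225442656722) (nat_lit 76) (nat_lit 128378427013) (nat_lit 76) (nat_lit 125558682451) (nat_lit 1) (nat_lit 4) (nat_lit 2) (nat_lit 5) (nat_lit 2) (nat_lit 4) (nat_lit 242) (nat_lit 188) (nat_lit 170)))))) (XT.nd (nat_lit 390) (nat_lit 0) (nat_lit 0) (XT.nd (nat_lit 156) (nat_lit 0) (nat_lit 0) (XT.nd (nat_lit 78) (nat_lit 0) (nat_lit 0) (XT.lf (nat_lit 0) (nat_lit 263509080081)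 (nat_lit 76) (nat_lit 145221094945) (nat_lit 76) (nat_lit 142369018242) (nat_lit 1) (nat_lit 4) (nat_lit 2) (nat_lit 5) (nat_lit 2) (nat_lit 4) (nat_lit 243) (nat_lit 188) (nat_lit 169)) (XT.lf (nat_lit 0) (nat_lit 307212712005) (nat_lit 76) (nat_lit 164623612210) (nat_lit 76) (nat_lit 161743420602) (nat_lit 1) (nat_lit 4) (nat_lit 2) (nat_lit 5) (nat_lit 2) (nat_lit 4) (nat_lit 244) (nat_lit 188) (nat_lit 168))) (XT.nd (nat_lit 78) (nat_lit 0) (nat_lit 0) (XT.lf (nat_lit 0) (nat_lit 357408623553) (nat_lit 76) (nat_lit 186965593278) (nat_lit 76) (nat_lit 184060953926) (nat_lit 1) (nat_lit 4) (nat_lit 2) (nat_lit 5) (nat_lit 2) (nat_lit 4) (nat_lit 245) (nat_lit 188) (nat_lit 167)) (XT.nd (nat_lit 78) (nat_lit 0) (nat_lit 0) (XT.lf (nat_lit 0) (nat_lit 415078908648) (nat_lit 76) (nat_lit 212684163863) (nat_lit 76) (nat_lit 209758265604) (nat_lit 1) (nat_lit 4) (nat_lit 2) (nat_lit 5) (nat_lit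 2) (nat_lit 4) (nat_lit 246) (nat_lit 188) (nat_lit 166)) (XT.lf (nat_lit 0) (nat_lit 481351898953) (nat_lit 76) (nat_lit 242282513392) (nat_lit 76) (nat_lit 239338129126) (nat_lit 1) (nat_lit 4) (nat_lit 2) (nat_lit 5) (nat_lit 2) (nat_lit 4) (nat_lit 247) (nat_lit 188) (nat_lit 165))))) (XT.nd (nat_lit 156) (nat_lit 0) (nat_lit 0) (XT.nd (nat_lit 78) (nat_lit 0) (nat_lit 0) (XT.lf (nat_lit 0) (nat_lit 557524239932) (nat_lit 76) (nat_lit 276339740006) (nat_lit 76) (nat_lit 273379280952) (nat_lit 1) (nat_lit 4) (nat_lit 2) (nat_lit 5) (nat_lit 2) (nat_lit 4) (nat_lit 248) (nat_lit 188) (nat_lit 164)) (XT.lf (nat_lit 0) (nat_lit 645086259994) (nat_lit 76) (nat_lit 315522180749) (nat_lit 76) (nat_lit 312547743618) (nat_lit 1) (nat_lit 4) (nat_lit 2) (nat_lit 5) (nat_lit 2) (nat_lit 4) (nat_lit 249) (nat_lit 188) (nat_lit 163))) (XT.nd (nat_lit 78) (nat_lit 0) (nat_lit 0) (XT.lf (nat_lit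 0) (nat_lit 745751129098) (nat_lit 76) (nat_lit 360596448591) (nat_lit 76) (nat_lit 357609856611) (nat_lit 1) (nat_lit 4) (nat_lit 2) (nat_lit 5) (nat_lit 2) (nat_lit 4) (nat_lit 250) (nat_lit 188) (nat_lit 162)) (XT.nd (nat_lit 78) (nat_lit 0) (nat_lit 0) (XT.lf (nat_lit 0) (nat_lit 861488377291) (nat_lit 76) (nat_lit 412444431382) (nat_lit 76) (nat_lit 409447269968) (nat_lit 1) (nat_lit 4) (nat_lit 2) (nat_lit 5) (nat_lit 2) (nat_lit 4) (nat_lit 251) (nat_lit 188) (nat_lit 161)) (XT.lf (nat_lit 0) (nat_lit 994562428995) (nat_lit 76) (nat_lit 472080546176) (nat_lit 76) (nat_lit 469074193949) (nat_lit 1) (nat_lit 4) (nat_lit 2) (nat_lit 5) (nat_lit 2) (nat_lit 4) (nat_lit 252) (nat_lit 188) (nat_lit 160))))))) (XT.nd (nat_lit 28938) (nat_lit 0) (nat_lit 0) (XT.nd (nat_lit 390) (nat_lit 0) (nat_lit 0) (XT.nd (nat_lit 156) (nat_lit 0) (nat_lit 0) (XT.nd (nat_lit 78) (nat_lit 0) (nat_lit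 0) (XT.lf (nat_lit 0) (nat_lit 1147576906959) (nat_lit 76) (nat_lit 540671586523) (nat_lit 76) (nat_lit 537657242286) (nat_lit 1) (nat_lit 4) (nat_lit 2) (nat_lit 5) (nat_lit 2) (nat_lit 4) (nat_lit 253) (nat_lit 188) (nat_lit 159)) (XT.lf (nat_lit 0) (nat_lit 1323525572711) (nat_lit 76) (nat_lit 619559551039) (nat_lit 76) (nat_lit 616538257227) (nat_lit 1) (nat_lit 4) (nat_lit 2) (nat_lit 5) (nat_lit 2) (nat_lit 4) (nat_lit 254) (nat_lit 188) (nat_lit 158))) (XT.nd (nat_lit 78) (nat_lit 0) (nat_lit 0) (XT.lf (nat_lit 0) (nat_lit 1525850900143) (nat_lit 76) (nat_lit 710287899900) (nat_lit 76) (nat_lit 707260562979) (nat_lit 1) (nat_lit 4) (nat_lit 2) (nat_lit 5) (nat_lit 2) (nat_lit 4) (nat_lit 255) (nat_lit 188) (nat_lit 157)) (XT.nd (nat_lit 78) (nat_lit 0) (nat_lit 0) (XT.lf (nat_lit 0) (nat_lit 1758511428273) (nat_lit 76) (nat_lit 814631752973) (nat_lit 76) (nat_lit 811599161176)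 (nat_lit 1) (nat_lit 4) (nat_lit 2) (nat_lit 5) (nat_lit 2) (nat_lit 4) (nat_lit 256) (nat_lit 188) (nat_lit 156)) (XT.lf (nat_lit 0) (nat_lit 2026059210910) (nat_lit 76) (nat_lit 934632620429) (nat_lit 76) (nat_lit 931595459173) (nat_lit 1) (nat_lit 4) (nat_lit 2) (nat_lit 5) (nat_lit 2) (nat_lit 4) (nat_lit 257) (nat_lit 188) (nat_lit 155))))) (XT.nd (nat_lit 156) (nat_lit 0) (nat_lit 0) (XT.nd (nat_lit 78) (nat_lit 0) (nat_lit 0) (XT.lf (nat_lit 0) (nat_lit 2333728878585) (nat_lit 76) (nat_lit 1072638345325) (nat_lit 76) (nat_lit 1069597210628) (nat_lit 1) (nat_lit 4) (nat_lit 2) (nat_lit 5) (nat_lit 2) (nat_lit 4) (nat_lit 258) (nat_lit 188) (nat_lit 154)) (XT.lf (nat_lit 0) (nat_lit 2687540055231) (nat_lit 76) (nat_lit 1231349039672) (nat_lit 76) (nat_lit 1228304449807) (nat_lit 1) (nat_lit 4) (nat_lit 2) (nat_lit 5) (nat_lit 2) (nat_lit 4) (nat_lit 259) (nat_lit 188) (nat_lit 153)))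 (XT.nd (nat_lit 78) (nat_lit 0) (nat_lit 0) (XT.lf (nat_lit 0) (nat_lit 3094415133433) (nat_lit 76) (nat_lit 1413869912705) (nat_lit 76) (nat_lit 1410822318348) (nat_lit 1) (nat_lit 4) (nat_lit 2) (nat_lit 5) (nat_lit 2) (nat_lit 4) (nat_lit 260) (nat_lit 188) (nat_lit 152)) (XT.nd (nat_lit 28236) (nat_lit 0) (nat_lit 228) (XT.lf (nat_lit 0) (nat_lit 3562314712549) (nat_lit 76) (nat_lit 1623772024985) (nat_lit 76) (nat_lit 1620721818025) (nat_lit 1) (nat_lit 4) (nat_lit 2) (nat_lit 5) (nat_lit 2) (nat_lit 4) (nat_lit 261) (nat_lit 188) (nat_lit 151)) (XT.lf (nat_lit 0) (nat_lit 12141622118) (nat_lit 76) (nat_lit 1831208814) (nat_lit 76) (nat_lit 1831208814) (nat_lit 4) (nat_lit 4) (nat_lit 5) (nat_lit 5) (nat_lit 5) (nat_lit 4) (nat_lit 222) (nat_lit 189) (nat_lit 189)))))) (XT.nd (nat_lit 390) (nat_lit 76) (nat_lit 0) (XT.nd (nat_lit 156) (nat_lit 0) (nat_lit 0) (XT.nd (nat_lit 78) (nat_lit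 0) (nat_lit 0) (XT.lf (nat_lit 0) (nat_lit 1439225193) (nat_lit 152) (nat_lit 33450486274) (nat_lit 0) (nat_lit 979081546) (nat_lit 2) (nat_lit 5) (nat_lit 4) (nat_lit 4) (nat_lit 2) (nat_lit 4) (nat_lit 223) (nat_lit 189) (nat_lit 188)) (XT.lf (nat_lit 0) (nat_lit 6881022385) (nat_lit 152) (nat_lit 27876824490) (nat_lit 0) (nat_lit 6020753829) (nat_lit 2) (nat_lit 5) (nat_lit 4) (nat_lit 4) (nat_lit 2) (nat_lit 4) (nat_lit 224) (nat_lit 189) (nat_lit 187))) (XT.nd (nat_lit 78) (nat_lit 0) (nat_lit 0) (XT.lf (nat_lit 0) (nat_lit 12674316164) (nat_lit 152) (nat_lit 22322448386) (nat_lit 0) (nat_lit 11466112903) (nat_lit 2) (nat_lit 5) (nat_lit 4) (nat_lit 4) (nat_lit 2) (nat_lit 4) (nat_lit 225) (nat_lit 189) (nat_lit 186)) (XT.nd (nat_lit 78) (nat_lit 0) (nat_lit 0) (XT.lf (nat_lit 0) (nat_lit 18932453581) (nat_lit 152) (nat_lit 16678685386) (nat_lit 0) (nat_lit 17421698403) (nat_lit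 2) (nat_lit 5) (nat_lit 4) (nat_lit 4) (nat_lit 2) (nat_lit 4) (nat_lit 226) (nat_lit 189) (nat_lit 185)) (XT.lf (nat_lit 0) (nat_lit 25777876454) (nat_lit 152) (nat_lit 10835114042) (nat_lit 0) (nat_lit 24004032654) (nat_lit 2) (nat_lit 5) (nat_lit 4) (nat_lit 4) (nat_lit 2) (nat_lit 4) (nat_lit 227) (nat_lit 189) (nat_lit 184))))) (XT.nd (nat_lit 156) (nat_lit 0) (nat_lit 0) (XT.nd (nat_lit 78) (nat_lit 76) (nat_lit 0) (XT.lf (nat_lit 0) (nat_lit 33344516972) (nat_lit 152) (nat_lit 4677403608) (nat_lit 0) (nat_lit 31341900456) (nat_lit 2) (nat_lit 5) (nat_lit 4) (nat_lit 4) (nat_lit 2) (nat_lit 4) (nat_lit 228) (nat_lit 189) (nat_lit 183)) (XT.lf (nat_lit 0) (nat_lit 2015759301) (nat_lit 76) (nat_lit 39813137858) (nat_lit 76) (nat_lit 37611588545) (nat_lit 1) (nat_lit 4) (nat_lit 2) (nat_lit 5) (nat_lit 2) (nat_lit 4) (nat_lit 229) (nat_lit 189) (nat_lit 182))) (XT.nd (nat_lit 78) (nat_lit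 0) (nat_lit 0) (XT.lf (nat_lit 0) (nat_lit 9548500313) (nat_lit 76) (nat_lit 41931771427) (nat_lit 76) (nat_lit 39557237074) (nat_lit 1) (nat_lit 4) (nat_lit 2) (nat_lit 5) (nat_lit 2) (nat_lit 4) (nat_lit 230) (nat_lit 189) (nat_lit 181)) (XT.nd (nat_lit 78) (nat_lit 0) (nat_lit 0) (XT.lf (nat_lit 0) (nat_lit 17821895357) (nat_lit 76) (nat_lit 44547161317) (nat_lit 76) (nat_lit 42022205189) (nat_lit 1) (nat_lit 4) (nat_lit 2) (nat_lit 5) (nat_lit 2) (nat_lit 4) (nat_lit 231) (nat_lit 189) (nat_lit 180)) (XT.lf (nat_lit 0) (nat_lit 26997815206) (nat_lit 76) (nat_lit 47710478199) (nat_lit 76) (nat_lit 45054720529) (nat_lit 1) (nat_lit 4) (nat_lit 2) (nat_lit 5) (nat_lit 2) (nat_lit 4) (nat_lit 232) (nat_lit 189) (nat_lit 179))))))))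
noncomputable def xc10 : XT := (XT.nd (nat_lit 1482) (nat_lit 0) (nat_lit 0) (XT.nd (nat_lit 702) (nat_lit 0) (nat_lit 0) (XT.nd (nat_lit 312) (nat_lit 0) (nat_lit 0) (XT.nd (nat_lit 156) (nat_lit 0) (nat_lit 0) (XT.nd (nat_lit 78) (nat_lit 0) (nat_lit 0) (XT.lf (nat_lit 0) (nat_lit 37255788727) (nat_lit 76) (nat_lit 51483613057) (nat_lit 76) (nat_lit 48714114914) (nat_lit 1) (nat_lit 4) (nat_lit 2) (nat_lit 5) (nat_lit 2) (nat_lit 4) (nat_lit 233) (nat_lit 189) (nat_lit 178)) (XT.lf (nat_lit 0) (nat_lit 48796515401) (nat_lit 76) (nat_lit 55940388093) (nat_lit 76) (nat_lit 53071985193) (nat_lit 1) (nat_lit 4) (nat_lit 2) (nat_lit 5) (nat_lit 2) (nat_lit 4) (nat_lit 234) (nat_lit 189) (nat_lit 177))) (XT.nd (nat_lit 78) (nat_lit 0) (nat_lit 0) (XT.lf (nat_lit 0) (nat_lit 61845792054) (nat_lit 76) (nat_lit 61168001082) (nat_lit 76) (nat_lit 58213594043) (nat_lit 1) (nat_lit 4) (nat_lit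 2) (nat_lit 5) (nat_lit 2) (nat_lit 4) (nat_lit 235) (nat_lit 189) (nat_lit 176)) (XT.lf (nat_lit 0) (nat_lit 76658930622) (nat_lit 76) (nat_lit 67268731406) (nat_lit 76) (nat_lit 64239538161) (nat_lit 1) (nat_lit 4) (nat_lit 2) (nat_lit 5) (nat_lit 2) (nat_lit 4) (nat_lit 236) (nat_lit 189) (nat_lit 175)))) (XT.nd (nat_lit 156) (nat_lit 0) (nat_lit 0) (XT.nd (nat_lit 78) (nat_lit 0) (nat_lit 0) (XT.lf (nat_lit 0) (nat_lit 93525753381) (nat_lit 76) (nat_lit 74361941181) (nat_lit 76) (nat_lit 71267716452) (nat_lit 1) (nat_lit 4) (nat_lit 2) (nat_lit 5) (nat_lit 2) (nat_lit 4) (nat_lit 237) (nat_lit 189) (nat_lit 174)) (XT.lf (nat_lit 0) (nat_lit 112776263383) (nat_lit 76) (nat_lit 82586410598) (nat_lit 76) (nat_lit 79435636753) (nat_lit 1) (nat_lit 4) (nat_lit 2) (nat_lit 5) (nat_lit 2) (nat_lit 4) (nat_lit 238) (nat_lit 189) (nat_lit 173))) (XT.nd (nat_lit 78) (nat_lit 0) (nat_lit 0)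 (XT.lf (nat_lit 0) (nat_lit 134787101044) (nat_lit 76) (nat_lit 92103053190) (nat_lit 76) (nat_lit 88903106200) (nat_lit 1) (nat_lit 4) (nat_lit 2) (nat_lit 5) (nat_lit 2) (nat_lit 4) (nat_lit 239) (nat_lit 189) (nat_lit 172)) (XT.nd (nat_lit 78) (nat_lit 0) (nat_lit 0) (XT.lf (nat_lit 0) (nat_lit 159988913186) (nat_lit 76) (nat_lit 103098064138) (nat_lit 76) (nat_lit 99855357891) (nat_lit 1) (nat_lit 4) (nat_lit 2) (nat_lit 5) (nat_lit 2) (nat_lit 4) (nat_lit 240) (nat_lit 189) (nat_lit 171)) (XT.lf (nat_lit 0) (nat_lit 188874778742) (nat_lit 76) (nat_lit 115786563220) (nat_lit 76) (nat_lit 112506675011) (nat_lit 1) (nat_lit 4) (nat_lit 2) (nat_lit 5) (nat_lit 2) (nat_lit 4) (nat_lit 241) (nat_lit 189) (nat_lit 170)))))) (XT.nd (nat_lit 390) (nat_lit 0) (nat_lit 0) (XT.nd (nat_lit 156) (nat_lit 0) (nat_lit 0) (XT.nd (nat_lit 78) (nat_lit 0) (nat_lit 0) (XT.lf (nat_lit 0) (nat_lit 222009855952)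 (nat_lit 76) (nat_lit 130416803680) (nat_lit 76) (nat_lit 127104583330) (nat_lit 1) (nat_lit 4) (nat_lit 2) (nat_lit 5) (nat_lit 2) (nat_lit 4) (nat_lit 242) (nat_lit 189) (nat_lit 169)) (XT.lf (nat_lit 0) (nat_lit 260042439805) (nat_lit 76) (nat_lit 147275029353) (nat_lit 76) (nat_lit 143934694098) (nat_lit 1) (nat_lit 4) (nat_lit 2) (nat_lit 5) (nat_lit 2) (nat_lit 4) (nat_lit 243) (nat_lit 189) (nat_lit 168))) (XT.nd (nat_lit 78) (nat_lit 0) (nat_lit 0) (XT.lf (nat_lit 0) (nat_lit 303716646071) (nat_lit 76) (nat_lit 166691075089) (nat_lit 76) (nat_lit 163326292091) (nat_lit 1) (nat_lit 4) (nat_lit 2) (nat_lit 5) (nat_lit 2) (nat_lit 4) (nat_lit 244) (nat_lit 189) (nat_lit 167)) (XT.nd (nat_lit 78) (nat_lit 0) (nat_lit 0) (XT.lf (nat_lit 0) (nat_lit 353886970091) (nat_lit 76) (nat_lit 189044820044) (nat_lit 76) (nat_lit 185658778138) (nat_lit 1) (nat_lit 4) (nat_lit 2) (nat_lit 5) (nat_lit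 2) (nat_lit 4) (nat_lit 245) (nat_lit 189) (nat_lit 166)) (XT.lf (nat_lit 0) (nat_lit 411535005160) (nat_lit 76) (nat_lit 214773620097) (nat_lit 76) (nat_lit 211369092185) (nat_lit 1) (nat_lit 4) (nat_lit 2) (nat_lit 5) (nat_lit 2) (nat_lit 4) (nat_lit 246) (nat_lit 189) (nat_lit 165))))) (XT.nd (nat_lit 156) (nat_lit 0) (nat_lit 0) (XT.nd (nat_lit 78) (nat_lit 0) (nat_lit 0) (XT.lf (nat_lit 0) (nat_lit 477788647618) (nat_lit 76) (nat_lit 244380864815) (nat_lit 76) (nat_lit 240960262114) (nat_lit 1) (nat_lit 4) (nat_lit 2) (nat_lit 5) (nat_lit 2) (nat_lit 4) (nat_lit 247) (nat_lit 189) (nat_lit 164)) (XT.lf (nat_lit 0) (nat_lit 553944164381) (nat_lit 76) (nat_lit 278445826376) (nat_lit 76) (nat_lit 275011245599) (nat_lit 1) (nat_lit 4) (nat_lit 2) (nat_lit 5) (nat_lit 2) (nat_lit 4) (nat_lit 248) (nat_lit 189) (nat_lit 163))) (XT.nd (nat_lit 78) (nat_lit 0) (nat_lit 0) (XT.lf (nat_lit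 0) (nat_lit 641491554691) (nat_lit 76) (nat_lit 317634993160) (nat_lit 76) (nat_lit 314188257533) (nat_lit 1) (nat_lit 4) (nat_lit 2) (nat_lit 5) (nat_lit 2) (nat_lit 4) (nat_lit 249) (nat_lit 189) (nat_lit 162)) (XT.nd (nat_lit 78) (nat_lit 0) (nat_lit 0) (XT.lf (nat_lit 0) (nat_lit 742143702271) (nat_lit 76) (nat_lit 362715109734) (nat_lit 76) (nat_lit 359257804673) (nat_lit 1) (nat_lit 4) (nat_lit 2) (nat_lit 5) (nat_lit 2) (nat_lit 4) (nat_lit 250) (nat_lit 189) (nat_lit 161)) (XT.lf (nat_lit 0) (nat_lit 857869888270) (nat_lit 76) (nat_lit 414568178378) (nat_lit 76) (nat_lit 411101682504) (nat_lit 1) (nat_lit 4) (nat_lit 2) (nat_lit 5) (nat_lit 2) (nat_lit 4) (nat_lit 251) (nat_lit 189) (nat_lit 160))))))) (XT.nd (nat_lit 28782) (nat_lit 0) (nat_lit 76) (XT.nd (nat_lit 390) (nat_lit 0) (nat_lit 0) (XT.nd (nat_lit 156) (nat_lit 0) (nat_lit 0) (XT.nd (nat_lit 78) (nat_lit 0) (nat_lit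 0) (XT.lf (nat_lit 0) (nat_lit 990934320674) (nat_lit 76) (nat_lit 474208715653) (nat_lit 76) (nat_lit 470734227768) (nat_lit 1) (nat_lit 4) (nat_lit 2) (nat_lit 5) (nat_lit 2) (nat_lit 4) (nat_lit 252) (nat_lit 189) (nat_lit 159)) (XT.lf (nat_lit 0) (nat_lit 1143940434030) (nat_lit 76) (nat_lit 542803601635) (nat_lit 76) (nat_lit 539322164177) (nat_lit 1) (nat_lit 4) (nat_lit 2) (nat_lit 5) (nat_lit 2) (nat_lit 4) (nat_lit 253) (nat_lit 189) (nat_lit 158))) (XT.nd (nat_lit 78) (nat_lit 0) (nat_lit 0) (XT.lf (nat_lit 0) (nat_lit 1319881826208) (nat_lit 76) (nat_lit 621694910183) (nat_lit 76) (nat_lit 618207429616) (nat_lit 1) (nat_lit 4) (nat_lit 2) (nat_lit 5) (nat_lit 2) (nat_lit 4) (nat_lit 254) (nat_lit 189) (nat_lit 157)) (XT.nd (nat_lit 78) (nat_lit 0) (nat_lit 0) (XT.lf (nat_lit 0) (nat_lit 1522200828796) (nat_lit 76) (nat_lit 712426166896) (nat_lit 76) (nat_lit 708933431452) (nat_lit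 1) (nat_lit 4) (nat_lit 2) (nat_lit 5) (nat_lit 2) (nat_lit 4) (nat_lit 255) (nat_lit 189) (nat_lit 156)) (XT.lf (nat_lit 0) (nat_lit 1754855857059) (nat_lit 76) (nat_lit 816772548538) (nat_lit 76) (nat_lit 813275243636) (nat_lit 1) (nat_lit 4) (nat_lit 2) (nat_lit 5) (nat_lit 2) (nat_lit 4) (nat_lit 256) (nat_lit 189) (nat_lit 155))))) (XT.nd (nat_lit 156) (nat_lit 0) (nat_lit 0) (XT.nd (nat_lit 78) (nat_lit 0) (nat_lit 0) (XT.lf (nat_lit 0) (nat_lit 2022398857204) (nat_lit 76) (nat_lit 936775614748) (nat_lit 76) (nat_lit 933274336404) (nat_lit 1) (nat_lit 4) (nat_lit 2) (nat_lit 5) (nat_lit 2) (nat_lit 4) (nat_lit 257) (nat_lit 189) (nat_lit 154)) (XT.lf (nat_lit 0) (nat_lit 2330064366191) (nat_lit 76) (nat_lit 1074783251605) (nat_lit 76) (nat_lit 1071278518094) (nat_lit 1) (nat_lit 4) (nat_lit 2) (nat_lit 5) (nat_lit 2) (nat_lit 4) (nat_lit 258) (nat_lit 189) (nat_lit 153))) (XT.nd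 (nat_lit 78) (nat_lit 0) (nat_lit 0) (XT.lf (nat_lit 0) (nat_lit 2683871926585) (nat_lit 76) (nat_lit 1233495608526) (nat_lit 76) (nat_lit 1229987870522) (nat_lit 1) (nat_lit 4) (nat_lit 2) (nat_lit 5) (nat_lit 2) (nat_lit 4) (nat_lit 259) (nat_lit 189) (nat_lit 152)) (XT.nd (nat_lit 78) (nat_lit 0) (nat_lit 0) (XT.lf (nat_lit 0) (nat_lit 3090743860222) (nat_lit 76) (nat_lit 1416017927276) (nat_lit 76) (nat_lit 1412507576670) (nat_lit 1) (nat_lit 4) (nat_lit 2) (nat_lit 5) (nat_lit 2) (nat_lit 4) (nat_lit 260) (nat_lit 189) (nat_lit 151)) (XT.lf (nat_lit 0) (nat_lit 3558640704932) (nat_lit 76) (nat_lit 1625921296701) (nat_lit 76) (nat_lit 1622408674267) (nat_lit 1) (nat_lit 4) (nat_lit 2) (nat_lit 5) (nat_lit 2) (nat_lit 4) (nat_lit 261) (nat_lit 189) (nat_lit 150)))))) (XT.nd (nat_lit 390) (nat_lit 0) (nat_lit 0) (XT.nd (nat_lit 156) (nat_lit 152) (nat_lit 0) (XT.nd (nat_lit 78) (nat_lit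 76) (nat_lit 0) (XT.lf (nat_lit 0) (nat_lit 6070327009) (nat_lit 152) (nat_lit 240018710) (nat_lit 0) (nat_lit 6070327009) (nat_lit 5) (nat_lit 5) (nat_lit 7) (nat_lit 4) (nat_lit 5) (nat_lit 4) (nat_lit 220) (nat_lit 190) (nat_lit 190)) (XT.lf (nat_lit 0) (nat_lit 11274902974) (nat_lit 76) (nat_lit 8615767706) (nat_lit 76) (nat_lit 8044269297) (nat_lit 4) (nat_lit 4) (nat_lit 5) (nat_lit 5) (nat_lit 5) (nat_lit 4) (nat_lit 221) (nat_lit 190) (nat_lit 189))) (XT.nd (nat_lit 78) (nat_lit 152) (nat_lit 0) (XT.lf (nat_lit 0) (nat_lit 23814627018) (nat_lit 76) (nat_lit 4441659045) (nat_lit 76) (nat_lit 3373205498) (nat_lit 4) (nat_lit 4) (nat_lit 5) (nat_lit 5) (nat_lit 5) (nat_lit 4) (nat_lit 222) (nat_lit 190) (nat_lit 188)) (XT.nd (nat_lit 78) (nat_lit 0) (nat_lit 0) (XT.lf (nat_lit 0) (nat_lit 1433901444) (nat_lit 152) (nat_lit 34434121465) (nat_lit 0) (nat_lit 44467694) (nat_lit 2) (nat_lit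 5) (nat_lit 4) (nat_lit 4) (nat_lit 2) (nat_lit 4) (nat_lit 223) (nat_lit 190) (nat_lit 187)) (XT.lf (nat_lit 0) (nat_lit 6659525152) (nat_lit 152) (nat_lit 29258289889) (nat_lit 0) (nat_lit 4922156698) (nat_lit 2) (nat_lit 5) (nat_lit 4) (nat_lit 4) (nat_lit 2) (nat_lit 4) (nat_lit 224) (nat_lit 190) (nat_lit 186))))) (XT.nd (nat_lit 156) (nat_lit 0) (nat_lit 0) (XT.nd (nat_lit 78) (nat_lit 0) (nat_lit 0) (XT.lf (nat_lit 0) (nat_lit 12264841987) (nat_lit 152) (nat_lit 24049853096) (nat_lit 0) (nat_lit 10224921616) (nat_lit 2) (nat_lit 5) (nat_lit 4) (nat_lit 4) (nat_lit 2) (nat_lit 4) (nat_lit 225) (nat_lit 190) (nat_lit 185)) (XT.lf (nat_lit 0) (nat_lit 18359521192) (nat_lit 152) (nat_lit 18706906890) (nat_lit 0) (nat_lit 16056512198) (nat_lit 2) (nat_lit 5) (nat_lit 4) (nat_lit 4) (nat_lit 2) (nat_lit 4) (nat_lit 226) (nat_lit 190) (nat_lit 184))) (XT.nd (nat_lit 78) (nat_lit 0) (nat_lit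 0) (XT.lf (nat_lit 0) (nat_lit 25062806490) (nat_lit 152) (nat_lit 13124915365) (nat_lit 0) (nat_lit 22531024780) (nat_lit 2) (nat_lit 5) (nat_lit 4) (nat_lit 4) (nat_lit 2) (nat_lit 4) (nat_lit 227) (nat_lit 190) (nat_lit 183)) (XT.nd (nat_lit 78) (nat_lit 0) (nat_lit 0) (XT.lf (nat_lit 0) (nat_lit 32505849116) (nat_lit 152) (nat_lit 7194665644) (nat_lit 0) (nat_lit 29775134610) (nat_lit 2) (nat_lit 5) (nat_lit 4) (nat_lit 4) (nat_lit 2) (nat_lit 4) (nat_lit 228) (nat_lit 190) (nat_lit 182)) (XT.lf (nat_lit 0) (nat_lit 40834273816) (nat_lit 152) (nat_lit 800131103) (nat_lit 0) (nat_lit 37930574270) (nat_lit 2) (nat_lit 5) (nat_lit 4) (nat_lit 4) (nat_lit 2) (nat_lit 4) (nat_lit 229) (nat_lit 190) (nat_lit 181))))))))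
noncomputable def xc11 : XT := (XT.nd (nat_lit 1560) (nat_lit 0) (nat_lit 0) (XT.nd (nat_lit 780) (nat_lit 0) (nat_lit 0) (XT.nd (nat_lit 390) (nat_lit 0) (nat_lit 0) (XT.nd (nat_lit 156) (nat_lit 0) (nat_lit 0) (XT.nd (nat_lit 78) (nat_lit 0) (nat_lit 0) (XT.lf (nat_lit 0) (nat_lit 6509426599) (nat_lit 76) (nat_lit 43858153298) (nat_lit 76) (nat_lit 40804031977) (nat_lit 1) (nat_lit 4) (nat_lit 2) (nat_lit 5) (nat_lit 2) (nat_lit 4) (nat_lit 230) (nat_lit 190) (nat_lit 180)) (XT.lf (nat_lit 0) (nat_lit 14625387015) (nat_lit 76) (nat_lit 46545923890) (nat_lit 76) (nat_lit 43361001026) (nat_lit 1) (nat_lit 4) (nat_lit 2) (nat_lit 5) (nat_lit 2) (nat_lit 4) (nat_lit 231) (nat_lit 190) (nat_lit 179))) (XT.nd (nat_lit 78) (nat_lit 0) (nat_lit 0) (XT.lf (nat_lit 0) (nat_lit 23664407187) (nat_lit 76) (nat_lit 49772180513) (nat_lit 76) (nat_lit 46473517177) (nat_lit 1) (nat_lit 4) (nat_lit 2)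 (nat_lit 5) (nat_lit 2) (nat_lit 4) (nat_lit 232) (nat_lit 190) (nat_lit 178)) (XT.nd (nat_lit 78) (nat_lit 0) (nat_lit 0) (XT.lf (nat_lit 0) (nat_lit 33803337510) (nat_lit 76) (nat_lit 53600045580) (nat_lit 76) (nat_lit 50202477486) (nat_lit 1) (nat_lit 4) (nat_lit 2) (nat_lit 5) (nat_lit 2) (nat_lit 4) (nat_lit 233) (nat_lit 190) (nat_lit 177)) (XT.lf (nat_lit 0) (nat_lit 45240548360) (nat_lit 76) (nat_lit 58104412103) (nat_lit 76) (nat_lit 54620839871) (nat_lit 1) (nat_lit 4) (nat_lit 2) (nat_lit 5) (nat_lit 2) (nat_lit 4) (nat_lit 234) (nat_lit 190) (nat_lit 176))))) (XT.nd (nat_lit 156) (nat_lit 0) (nat_lit 0) (XT.nd (nat_lit 78) (nat_lit 0) (nat_lit 0) (XT.lf (nat_lit 0) (nat_lit 58199811253) (nat_lit 76) (nat_lit 63373408993) (nat_lit 76) (nat_lit 59815050554) (nat_lit 1) (nat_lit 4) (nat_lit 2) (nat_lit 5) (nat_lit 2) (nat_lit 4) (nat_lit 235) (nat_lit 190) (nat_lit 175)) (XT.lf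 (nat_lit 0) (nat_lit 72934676987) (nat_lit 76) (nat_lit 69510125318) (nat_lit 76) (nat_lit 65886735396) (nat_lit 1) (nat_lit 4) (nat_lit 2) (nat_lit 5) (nat_lit 2) (nat_lit 4) (nat_lit 236) (nat_lit 190) (nat_lit 174))) (XT.nd (nat_lit 78) (nat_lit 0) (nat_lit 0) (XT.lf (nat_lit 0) (nat_lit 89733436410) (nat_lit 76) (nat_lit 76634627268) (nat_lit 76) (nat_lit 72954688229) (nat_lit 1) (nat_lit 4) (nat_lit 2) (nat_lit 5) (nat_lit 2) (nat_lit 4) (nat_lit 237) (nat_lit 190) (nat_lit 173)) (XT.nd (nat_lit 78) (nat_lit 0) (nat_lit 0) (XT.lf (nat_lit 0) (nat_lit 108924760905) (nat_lit 76) (nat_lit 84886307272) (nat_lit 76) (nat_lit 81157195089) (nat_lit 1) (nat_lit 4) (nat_lit 2) (nat_lit 5) (nat_lit 2) (nat_lit 4) (nat_lit 238) (nat_lit 190) (nat_lit 172)) (XT.lf (nat_lit 0) (nat_lit 130884132906) (nat_lit 76) (nat_lit 94426611244) (nat_lit 76) (nat_lit 90654739804) (nat_lit 1) (nat_lit 4)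 (nat_lit 2) (nat_lit 5) (nat_lit 2) (nat_lit 4) (nat_lit 239) (nat_lit 190) (nat_lit 171)))))) (XT.nd (nat_lit 390) (nat_lit 0) (nat_lit 0) (XT.nd (nat_lit 156) (nat_lit 0) (nat_lit 0) (XT.nd (nat_lit 78) (nat_lit 0) (nat_lit 0) (XT.lf (nat_lit 0) (nat_lit 156041192300) (nat_lit 76) (nat_lit 105442197304) (nat_lit 76) (nat_lit 101633143902) (nat_lit 1) (nat_lit 4) (nat_lit 2) (nat_lit 5) (nat_lit 2) (nat_lit 4) (nat_lit 240) (nat_lit 190) (nat_lit 170)) (XT.lf (nat_lit 0) (nat_lit 184888142424) (nat_lit 76) (nat_lit 118148587789) (nat_lit 76) (nat_lit 114307202246) (nat_lit 1) (nat_lit 4) (nat_lit 2) (nat_lit 5) (nat_lit 2) (nat_lit 4) (nat_lit 241) (nat_lit 190) (nat_lit 169))) (XT.nd (nat_lit 78) (nat_lit 0) (nat_lit 0) (XT.lf (nat_lit 0) (nat_lit 217989380128) (nat_lit 76) (nat_lit 132794385991) (nat_lit 76) (nat_lit 128924885542) (nat_lit 1) (nat_lit 4) (nat_lit 2) (nat_lit 5) (nat_lit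 2) (nat_lit 4) (nat_lit 242) (nat_lit 190) (nat_lit 168)) (XT.nd (nat_lit 78) (nat_lit 0) (nat_lit 0) (XT.lf (nat_lit 0) (nat_lit 255992538323) (nat_lit 76) (nat_lit 149666140134) (nat_lit 76) (nat_lit 145772191943) (nat_lit 1) (nat_lit 4) (nat_lit 2) (nat_lit 5) (nat_lit 2) (nat_lit 4) (nat_lit 243) (nat_lit 190) (nat_lit 167)) (XT.lf (nat_lit 0) (nat_lit 299641157061) (nat_lit 76) (nat_lit 169093949758) (nat_lit 76) (nat_lit 165178742659) (nat_lit 1) (nat_lit 4) (nat_lit 2) (nat_lit 5) (nat_lit 2) (nat_lit 4) (nat_lit 244) (nat_lit 190) (nat_lit 166))))) (XT.nd (nat_lit 156) (nat_lit 0) (nat_lit 0) (XT.nd (nat_lit 78) (nat_lit 0) (nat_lit 0) (XT.lf (nat_lit 0) (nat_lit 349789231056) (nat_lit 76) (nat_lit 191457924180) (nat_lit 76) (nat_lit 187524231075) (nat_lit 1) (nat_lit 4) (nat_lit 2) (nat_lit 5) (nat_lit 2) (nat_lit 4) (nat_lit 245) (nat_lit 190) (nat_lit 165)) (XT.lf (nat_lit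 0) (nat_lit 407417918278) (nat_lit 76) (nat_lit 217195619423) (nat_lit 76) (nat_lit 213245851529) (nat_lit 1) (nat_lit 4) (nat_lit 2) (nat_lit 5) (nat_lit 2) (nat_lit 4) (nat_lit 246) (nat_lit 190) (nat_lit 164))) (XT.nd (nat_lit 78) (nat_lit 0) (nat_lit 0) (XT.lf (nat_lit 0) (nat_lit 473654736520) (nat_lit 76) (nat_lit 246810599087) (nat_lit 76) (nat_lit 242846853117) (nat_lit 1) (nat_lit 4) (nat_lit 2) (nat_lit 5) (nat_lit 2) (nat_lit 4) (nat_lit 247) (nat_lit 190) (nat_lit 163)) (XT.nd (nat_lit 78) (nat_lit 0) (nat_lit 0) (XT.lf (nat_lit 0) (nat_lit 549795623531) (nat_lit 76) (nat_lit 280882286690) (nat_lit 76) (nat_lit 276906385870) (nat_lit 1) (nat_lit 4) (nat_lit 2) (nat_lit 5) (nat_lit 2) (nat_lit 4) (nat_lit 248) (nat_lit 190) (nat_lit 162)) (XT.lf (nat_lit 0) (nat_lit 637330292317) (nat_lit 76) (nat_lit 320077302205) (nat_lit 76) (nat_lit 316090831951) (nat_lit 1) (nat_lit 4)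 (nat_lit 2) (nat_lit 5) (nat_lit 2) (nat_lit 4) (nat_lit 249) (nat_lit 190) (nat_lit 161))))))) (XT.nd (nat_lit 780) (nat_lit 0) (nat_lit 0) (XT.nd (nat_lit 390) (nat_lit 0) (nat_lit 0) (XT.nd (nat_lit 156) (nat_lit 0) (nat_lit 0) (XT.nd (nat_lit 78) (nat_lit 0) (nat_lit 0) (XT.lf (nat_lit 0) (nat_lit 737971377702) (nat_lit 76) (nat_lit 365162504632) (nat_lit 76) (nat_lit 361166843565) (nat_lit 1) (nat_lit 4) (nat_lit 2) (nat_lit 5) (nat_lit 2) (nat_lit 4) (nat_lit 250) (nat_lit 190) (nat_lit 160)) (XT.lf (nat_lit 0) (nat_lit 853687944401) (nat_lit 76) (nat_lit 417019995757) (nat_lit 76) (nat_lit 413016342679) (nat_lit 1) (nat_lit 4) (nat_lit 2) (nat_lit 5) (nat_lit 2) (nat_lit 4) (nat_lit 251) (nat_lit 190) (nat_lit 159))) (XT.nd (nat_lit 78) (nat_lit 0) (nat_lit 0) (XT.lf (nat_lit 0) (nat_lit 986744012196) (nat_lit 76) (nat_lit 476664378667) (nat_lit 76) (nat_lit 472653776015) (nat_lit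 1) (nat_lit 4) (nat_lit 2) (nat_lit 5) (nat_lit 2) (nat_lit 4) (nat_lit 252) (nat_lit 190) (nat_lit 158)) (XT.nd (nat_lit 78) (nat_lit 0) (nat_lit 0) (XT.lf (nat_lit 0) (nat_lit 1139742851980) (nat_lit 76) (nat_lit 545262608681) (nat_lit 76) (nat_lit 541245962921) (nat_lit 1) (nat_lit 4) (nat_lit 2) (nat_lit 5) (nat_lit 2) (nat_lit 4) (nat_lit 253) (nat_lit 190) (nat_lit 157)) (XT.lf (nat_lit 0) (nat_lit 1315677919313) (nat_lit 76) (nat_lit 624156825082) (nat_lit 76) (nat_lit 620134924444) (nat_lit 1) (nat_lit 4) (nat_lit 2) (nat_lit 5) (nat_lit 2) (nat_lit 4) (nat_lit 254) (nat_lit 190) (nat_lit 156))))) (XT.nd (nat_lit 156) (nat_lit 0) (nat_lit 0) (XT.nd (nat_lit 78) (nat_lit 0) (nat_lit 0) (XT.lf (nat_lit 0) (nat_lit 1517991422034) (nat_lit 76) (nat_lit 714890610363) (nat_lit 76) (nat_lit 710864140268) (nat_lit 1) (nat_lit 4) (nat_lit 2) (nat_lit 5) (nat_lit 2) (nat_lit 4) (nat_lit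 255) (nat_lit 190) (nat_lit 155)) (XT.lf (nat_lit 0) (nat_lit 1750641667806) (nat_lit 76) (nat_lit 819239190759) (nat_lit 76) (nat_lit 815208747222) (nat_lit 1) (nat_lit 4) (nat_lit 2) (nat_lit 5) (nat_lit 2) (nat_lit 4) (nat_lit 256) (nat_lit 190) (nat_lit 154))) (XT.nd (nat_lit 78) (nat_lit 0) (nat_lit 0) (XT.lf (nat_lit 0) (nat_lit 2018180509262) (nat_lit 76) (nat_lit 939244168930) (nat_lit 76) (nat_lit 935210270226) (nat_lit 1) (nat_lit 4) (nat_lit 2) (nat_lit 5) (nat_lit 2) (nat_lit 4) (nat_lit 257) (nat_lit 190) (nat_lit 153)) (XT.nd (nat_lit 78) (nat_lit 0) (nat_lit 0) (XT.lf (nat_lit 0) (nat_lit 2325842401997) (nat_lit 76) (nat_lit 1077253468362) (nat_lit 76) (nat_lit 1073216565165) (nat_lit 1) (nat_lit 4) (nat_lit 2) (nat_lit 5) (nat_lit 2) (nat_lit 4) (nat_lit 258) (nat_lit 190) (nat_lit 152)) (XT.lf (nat_lit 0) (nat_lit 2679646817826) (nat_lit 76) (nat_lit 1235967270999) (nat_lit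 76) (nat_lit 1231927755200) (nat_lit 1) (nat_lit 4) (nat_lit 2) (nat_lit 5) (nat_lit 2) (nat_lit 4) (nat_lit 259) (nat_lit 190) (nat_lit 151)))))) (XT.nd (nat_lit 28236) (nat_lit 0) (nat_lit 76) (XT.nd (nat_lit 28002) (nat_lit 0) (nat_lit 304) (XT.nd (nat_lit 78) (nat_lit 0) (nat_lit 0) (XT.lf (nat_lit 0) (nat_lit 3086516017057) (nat_lit 76) (nat_lit 1418490846895) (nat_lit 76) (nat_lit 1414449059267) (nat_lit 1) (nat_lit 4) (nat_lit 2) (nat_lit 5) (nat_lit 2) (nat_lit 4) (nat_lit 260) (nat_lit 190) (nat_lit 150)) (XT.lf (nat_lit 0) (nat_lit 3554410484023) (nat_lit 76) (nat_lit 1628395309489) (nat_lit 76) (nat_lit 1624351546359) (nat_lit 1) (nat_lit 4) (nat_lit 2) (nat_lit 5) (nat_lit 2) (nat_lit 4) (nat_lit 261) (nat_lit 190) (nat_lit 149))) (XT.nd (nat_lit 78) (nat_lit 152) (nat_lit 0) (XT.lf (nat_lit 0) (nat_lit 9199416211) (nat_lit 76) (nat_lit 317214516) (nat_lit 76) (nat_lit 317214516)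 (nat_lit 7) (nat_lit 4) (nat_lit 8) (nat_lit 5) (nat_lit 8) (nat_lit 4) (nat_lit 218) (nat_lit 191) (nat_lit 191)) (XT.nd (nat_lit 78) (nat_lit 0) (nat_lit 0) (XT.lf (nat_lit 0) (nat_lit 5757876536) (nat_lit 152) (nat_lit 11168402192) (nat_lit 0) (nat_lit 5100653366) (nat_lit 5) (nat_lit 5) (nat_lit 7) (nat_lit 4) (nat_lit 5) (nat_lit 4) (nat_lit 219) (nat_lit 191) (nat_lit 190)) (XT.lf (nat_lit 0) (nat_lit 12510832642) (nat_lit 152) (nat_lit 991988770) (nat_lit 0) (nat_lit 11282111063) (nat_lit 5) (nat_lit 5) (nat_lit 7) (nat_lit 4) (nat_lit 5) (nat_lit 4) (nat_lit 220) (nat_lit 191) (nat_lit 189))))) (XT.nd (nat_lit 156) (nat_lit 152) (nat_lit 0) (XT.nd (nat_lit 78) (nat_lit 0) (nat_lit 0) (XT.lf (nat_lit 0) (nat_lit 10267375955) (nat_lit 76) (nat_lit 9719638344) (nat_lit 76) (nat_lit 7993961627) (nat_lit 4) (nat_lit 4) (nat_lit 5) (nat_lit 5) (nat_lit 5) (nat_lit 4) (nat_lit 221) (nat_lit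 191) (nat_lit 188)) (XT.lf (nat_lit 0) (nat_lit 22399606766) (nat_lit 76) (nat_lit 5726175778) (nat_lit 76) (nat_lit 3568364158) (nat_lit 4) (nat_lit 4) (nat_lit 5) (nat_lit 5) (nat_lit 5) (nat_lit 4) (nat_lit 222) (nat_lit 191) (nat_lit 187))) (XT.nd (nat_lit 78) (nat_lit 76) (nat_lit 0) (XT.lf (nat_lit 0) (nat_lit 1009024193) (nat_lit 152) (nat_lit 434810778) (nat_lit 76) (nat_lit 34553224321) (nat_lit 3) (nat_lit 5) (nat_lit 5) (nat_lit 5) (nat_lit 4) (nat_lit 4) (nat_lit 223) (nat_lit 191) (nat_lit 186)) (XT.nd (nat_lit 78) (nat_lit 0) (nat_lit 0) (XT.lf (nat_lit 0) (nat_lit 6000652904) (nat_lit 152) (nat_lit 31590744618) (nat_lit 0) (nat_lit 3352192561) (nat_lit 2) (nat_lit 5) (nat_lit 4) (nat_lit 4) (nat_lit 2) (nat_lit 4) (nat_lit 224) (nat_lit 191) (nat_lit 185)) (XT.lf (nat_lit 0) (nat_lit 11442511527) (nat_lit 152) (nat_lit 26683124618) (nat_lit 0) (nat_lit 8530962561) (nat_lit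 2) (nat_lit 5) (nat_lit 4) (nat_lit 4) (nat_lit 2) (nat_lit 4) (nat_lit 225) (nat_lit 191) (nat_lit 184))))))))
noncomputable def xc12 : XT := (XT.nd (nat_lit 1482) (nat_lit 0) (nat_lit 0) (XT.nd (nat_lit 702) (nat_lit 0) (nat_lit 0) (XT.nd (nat_lit 312) (nat_lit 76) (nat_lit 0) (XT.nd (nat_lit 156) (nat_lit 0) (nat_lit 0) (XT.nd (nat_lit 78) (nat_lit 0) (nat_lit 0) (XT.lf (nat_lit 0) (nat_lit 17395053157) (nat_lit 152) (nat_lit 21601758232) (nat_lit 0) (nat_lit 14254731475) (nat_lit 2) (nat_lit 5) (nat_lit 4) (nat_lit 4) (nat_lit 2) (nat_lit 4) (nat_lit 226) (nat_lit 191) (nat_lit 183)) (XT.lf (nat_lit 0) (nat_lit 23974740564) (nat_lit 152) (nat_lit 16247227420) (nat_lit 0) (nat_lit 20635486085) (nat_lit 2) (nat_lit 5) (nat_lit 4) (nat_lit 4) (nat_lit 2) (nat_lit 4) (nat_lit 227) (nat_lit 191) (nat_lit 182))) (XT.nd (nat_lit 78) (nat_lit 0) (nat_lit 0) (XT.lf (nat_lit 0) (nat_lit 31310306762)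 (nat_lit 152) (nat_lit 10514769623) (nat_lit 0) (nat_lit 27798067243) (nat_lit 2) (nat_lit 5) (nat_lit 4) (nat_lit 4) (nat_lit 2) (nat_lit 4) (nat_lit 228) (nat_lit 191) (nat_lit 181)) (XT.lf (nat_lit 0) (nat_lit 39545273699) (nat_lit 152) (nat_lit 4292228059) (nat_lit 0) (nat_lit 35882612406) (nat_lit 2) (nat_lit 5) (nat_lit 4) (nat_lit 4) (nat_lit 2) (nat_lit 4) (nat_lit 229) (nat_lit 191) (nat_lit 180)))) (XT.nd (nat_lit 156) (nat_lit 0) (nat_lit 0) (XT.nd (nat_lit 78) (nat_lit 0) (nat_lit 0) (XT.lf (nat_lit 0) (nat_lit 2676007377) (nat_lit 76) (nat_lit 46229110959) (nat_lit 76) (nat_lit 42435648123) (nat_lit 1) (nat_lit 4) (nat_lit 2) (nat_lit 5) (nat_lit 2) (nat_lit 4) (nat_lit 230) (nat_lit 191) (nat_lit 179)) (XT.lf (nat_lit 0) (nat_lit 10655068115) (nat_lit 76) (nat_lit 48979821291) (nat_lit 76) (nat_lit 45072617983) (nat_lit 1) (nat_lit 4) (nat_lit 2) (nat_lit 5) (nat_lit 2)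 (nat_lit 4) (nat_lit 231) (nat_lit 191) (nat_lit 178))) (XT.nd (nat_lit 78) (nat_lit 0) (nat_lit 0) (XT.lf (nat_lit 0) (nat_lit 19575045090) (nat_lit 76) (nat_lit 52260808124) (nat_lit 76) (nat_lit 48254700058) (nat_lit 1) (nat_lit 4) (nat_lit 2) (nat_lit 5) (nat_lit 2) (nat_lit 4) (nat_lit 232) (nat_lit 191) (nat_lit 177)) (XT.nd (nat_lit 78) (nat_lit 0) (nat_lit 0) (XT.lf (nat_lit 0) (nat_lit 29610459589) (nat_lit 76) (nat_lit 56136264678) (nat_lit 76) (nat_lit 52044152474) (nat_lit 1) (nat_lit 4) (nat_lit 2) (nat_lit 5) (nat_lit 2) (nat_lit 4) (nat_lit 233) (nat_lit 191) (nat_lit 176)) (XT.lf (nat_lit 0) (nat_lit 40957656679) (nat_lit 76) (nat_lit 60682015102) (nat_lit 76) (nat_lit 56515116691) (nat_lit 1) (nat_lit 4) (nat_lit 2) (nat_lit 5) (nat_lit 2) (nat_lit 4) (nat_lit 234) (nat_lit 191) (nat_lit 175)))))) (XT.nd (nat_lit 390) (nat_lit 0) (nat_lit 0) (XT.nd (nat_lit 156) (nat_lit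 0) (nat_lit 0) (XT.nd (nat_lit 78) (nat_lit 0) (nat_lit 0) (XT.lf (nat_lit 0) (nat_lit 53838646738) (nat_lit 76) (nat_lit 65986997993) (nat_lit 76) (nat_lit 61755068098) (nat_lit 1) (nat_lit 4) (nat_lit 2) (nat_lit 5) (nat_lit 2) (nat_lit 4) (nat_lit 235) (nat_lit 191) (nat_lit 174)) (XT.lf (nat_lit 0) (nat_lit 68505449136) (nat_lit 76) (nat_lit 72155006493) (nat_lit 76) (nat_lit 67866527482) (nat_lit 1) (nat_lit 4) (nat_lit 2) (nat_lit 5) (nat_lit 2) (nat_lit 4) (nat_lit 236) (nat_lit 191) (nat_lit 173))) (XT.nd (nat_lit 78) (nat_lit 0) (nat_lit 0) (XT.lf (nat_lit 0) (nat_lit 85245023052) (nat_lit 76) (nat_lit 79306719030) (nat_lit 76) (nat_lit 74969066874) (nat_lit 1) (nat_lit 4) (nat_lit 2) (nat_lit 5) (nat_lit 2) (nat_lit 4) (nat_lit 237) (nat_lit 191) (nat_lit 172)) (XT.nd (nat_lit 78) (nat_lit 0) (nat_lit 0) (XT.lf (nat_lit 0) (nat_lit 104384881887) (nat_lit 76) (nat_lit 87582060414)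 (nat_lit 76) (nat_lit 83201649002) (nat_lit 1) (nat_lit 4) (nat_lit 2) (nat_lit 5) (nat_lit 2) (nat_lit 4) (nat_lit 238) (nat_lit 191) (nat_lit 171)) (XT.lf (nat_lit 0) (nat_lit 126299501141) (nat_lit 76) (nat_lit 97142939499) (nat_lit 76) (nat_lit 92725346124) (nat_lit 1) (nat_lit 4) (nat_lit 2) (nat_lit 5) (nat_lit 2) (nat_lit 4) (nat_lit 239) (nat_lit 191) (nat_lit 170))))) (XT.nd (nat_lit 156) (nat_lit 0) (nat_lit 0) (XT.nd (nat_lit 78) (nat_lit 0) (nat_lit 0) (XT.lf (nat_lit 0) (nat_lit 151417645103) (nat_lit 76) (nat_lit 108176416961) (nat_lit 76) (nat_lit 103726491446) (nat_lit 1) (nat_lit 4) (nat_lit 2) (nat_lit 5) (nat_lit 2) (nat_lit 4) (nat_lit 240) (nat_lit 191) (nat_lit 169)) (XT.lf (nat_lit 0) (nat_lit 180230755720) (nat_lit 76) (nat_lit 120898365188) (nat_lit 76) (nat_lit 116420324767) (nat_lit 1) (nat_lit 4) (nat_lit 2) (nat_lit 5) (nat_lit 2) (nat_lit 4) (nat_lit 241)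 (nat_lit 191) (nat_lit 168))) (XT.nd (nat_lit 78) (nat_lit 0) (nat_lit 0) (XT.lf (nat_lit 0) (nat_lit 213302567766) (nat_lit 76) (nat_lit 135557691860) (nat_lit 76) (nat_lit 131055203696) (nat_lit 1) (nat_lit 4) (nat_lit 2) (nat_lit 5) (nat_lit 2) (nat_lit 4) (nat_lit 242) (nat_lit 191) (nat_lit 167)) (XT.nd (nat_lit 78) (nat_lit 0) (nat_lit 0) (XT.lf (nat_lit 0) (nat_lit 251280138432) (nat_lit 76) (nat_lit 152441209891) (nat_lit 76) (nat_lit 147917462820) (nat_lit 1) (nat_lit 4) (nat_lit 2) (nat_lit 5) (nat_lit 2) (nat_lit 4) (nat_lit 243) (nat_lit 191) (nat_lit 166)) (XT.lf (nat_lit 0) (nat_lit 294906507145) (nat_lit 76) (nat_lit 171879248982) (nat_lit 76) (nat_lit 167337015904) (nat_lit 1) (nat_lit 4) (nat_lit 2) (nat_lit 5) (nat_lit 2) (nat_lit 4) (nat_lit 244) (nat_lit 191) (nat_lit 165))))))) (XT.nd (nat_lit 780) (nat_lit 0) (nat_lit 0) (XT.nd (nat_lit 390) (nat_lit 0) (nat_lit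 0) (XT.nd (nat_lit 156) (nat_lit 0) (nat_lit 0) (XT.nd (nat_lit 78) (nat_lit 0) (nat_lit 0) (XT.lf (nat_lit 0) (nat_lit 345035233293) (nat_lit 76) (nat_lit 194252118594) (nat_lit 76) (nat_lit 189693810727) (nat_lit 1) (nat_lit 4) (nat_lit 2) (nat_lit 5) (nat_lit 2) (nat_lit 4) (nat_lit 245) (nat_lit 191) (nat_lit 164)) (XT.lf (nat_lit 0) (nat_lit 402647096299) (nat_lit 76) (nat_lit 219997548783) (nat_lit 76) (nat_lit 215425262840) (nat_lit 1) (nat_lit 4) (nat_lit 2) (nat_lit 5) (nat_lit 2) (nat_lit 4) (nat_lit 246) (nat_lit 191) (nat_lit 163))) (XT.nd (nat_lit 78) (nat_lit 0) (nat_lit 0) (XT.lf (nat_lit 0) (nat_lit 468869284789) (nat_lit 76) (nat_lit 249619254489) (nat_lit 76) (nat_lit 245034813696) (nat_lit 1) (nat_lit 4) (nat_lit 2) (nat_lit 5) (nat_lit 2) (nat_lit 4) (nat_lit 247) (nat_lit 191) (nat_lit 162)) (XT.nd (nat_lit 78) (nat_lit 0) (nat_lit 0) (XT.lf (nat_lit 0) (nat_lit 544997450276)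 (nat_lit 76) (nat_lit 283696790823) (nat_lit 76) (nat_lit 279101780596) (nat_lit 1) (nat_lit 4) (nat_lit 2) (nat_lit 5) (nat_lit 2) (nat_lit 4) (nat_lit 248) (nat_lit 191) (nat_lit 161)) (XT.lf (nat_lit 0) (nat_lit 632521056867) (nat_lit 76) (nat_lit 322896892191) (nat_lit 76) (nat_lit 318292691152) (nat_lit 1) (nat_lit 4) (nat_lit 2) (nat_lit 5) (nat_lit 2) (nat_lit 4) (nat_lit 249) (nat_lit 191) (nat_lit 160))))) (XT.nd (nat_lit 156) (nat_lit 0) (nat_lit 0) (XT.nd (nat_lit 78) (nat_lit 0) (nat_lit 0) (XT.lf (nat_lit 0) (nat_lit 733152522953) (nat_lit 76) (nat_lit 367986517099) (nat_lit 76) (nat_lit 363374324049) (nat_lit 1) (nat_lit 4) (nat_lit 2) (nat_lit 5) (nat_lit 2) (nat_lit 4) (nat_lit 250) (nat_lit 191) (nat_lit 159)) (XT.lf (nat_lit 0) (nat_lit 848860725043) (nat_lit 76) (nat_lit 419847853859) (nat_lit 76) (nat_lit 415228711235) (nat_lit 1) (nat_lit 4) (nat_lit 2) (nat_lit 5)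 (nat_lit 2) (nat_lit 4) (nat_lit 251) (nat_lit 191) (nat_lit 158))) (XT.nd (nat_lit 78) (nat_lit 0) (nat_lit 0) (XT.lf (nat_lit 0) (nat_lit 981909519266) (nat_lit 76) (nat_lit 479495580801) (nat_lit 76) (nat_lit 474870395068) (nat_lit 1) (nat_lit 4) (nat_lit 2) (nat_lit 5) (nat_lit 2) (nat_lit 4) (nat_lit 252) (nat_lit 191) (nat_lit 157)) (XT.nd (nat_lit 78) (nat_lit 0) (nat_lit 0) (XT.lf (nat_lit 0) (nat_lit 1134902034204) (nat_lit 76) (nat_lit 548096718668) (nat_lit 76) (nat_lit 543466278059) (nat_lit 1) (nat_lit 4) (nat_lit 2) (nat_lit 5) (nat_lit 2) (nat_lit 4) (nat_lit 253) (nat_lit 191) (nat_lit 156)) (XT.lf (nat_lit 0) (nat_lit 1310831601671) (nat_lit 76) (nat_lit 626993463636) (nat_lit 76) (nat_lit 622358453569) (nat_lit 1) (nat_lit 4) (nat_lit 2) (nat_lit 5) (nat_lit 2) (nat_lit 4) (nat_lit 254) (nat_lit 191) (nat_lit 155)))))) (XT.nd (nat_lit 390) (nat_lit 0) (nat_lit 0) (XT.nd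 (nat_lit 156) (nat_lit 0) (nat_lit 0) (XT.nd (nat_lit 78) (nat_lit 0) (nat_lit 0) (XT.lf (nat_lit 0) (nat_lit 1513140321900) (nat_lit 76) (nat_lit 717729447672) (nat_lit 76) (nat_lit 713090464163) (nat_lit 1) (nat_lit 4) (nat_lit 2) (nat_lit 5) (nat_lit 2) (nat_lit 4) (nat_lit 255) (nat_lit 191) (nat_lit 154)) (XT.lf (nat_lit 0) (nat_lit 1745786408983) (nat_lit 76) (nat_lit 822079940029) (nat_lit 76) (nat_lit 817437501353) (nat_lit 1) (nat_lit 4) (nat_lit 2) (nat_lit 5) (nat_lit 2) (nat_lit 4) (nat_lit 256) (nat_lit 191) (nat_lit 153))) (XT.nd (nat_lit 78) (nat_lit 0) (nat_lit 0) (XT.lf (nat_lit 0) (nat_lit 2013321634189) (nat_lit 76) (nat_lit 942086580775) (nat_lit 76) (nat_lit 937441137605) (nat_lit 1) (nat_lit 4) (nat_lit 2) (nat_lit 5) (nat_lit 2) (nat_lit 4) (nat_lit 257) (nat_lit 191) (nat_lit 152)) (XT.nd (nat_lit 78) (nat_lit 0) (nat_lit 0) (XT.lf (nat_lit 0) (nat_lit 2320980382358)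 (nat_lit 76) (nat_lit 1080097325923) (nat_lit 76) (nat_lit 1075449270151) (nat_lit 1) (nat_lit 4) (nat_lit 2) (nat_lit 5) (nat_lit 2) (nat_lit 4) (nat_lit 258) (nat_lit 191) (nat_lit 151)) (XT.lf (nat_lit 0) (nat_lit 2674782063781) (nat_lit 76) (nat_lit 1238812385706) (nat_lit 76) (nat_lit 1234162058106) (nat_lit 1) (nat_lit 4) (nat_lit 2) (nat_lit 5) (nat_lit 2) (nat_lit 4) (nat_lit 259) (nat_lit 191) (nat_lit 150))))) (XT.nd (nat_lit 27846) (nat_lit 0) (nat_lit 456) (XT.nd (nat_lit 78) (nat_lit 0) (nat_lit 0) (XT.lf (nat_lit 0) (nat_lit 3081648885268) (nat_lit 76) (nat_lit 1421337054771) (nat_lit 76) (nat_lit 1416684751668) (nat_lit 1) (nat_lit 4) (nat_lit 2) (nat_lit 5) (nat_lit 2) (nat_lit 4) (nat_lit 260) (nat_lit 191) (nat_lit 149)) (XT.lf (nat_lit 0) (nat_lit 3549541284631) (nat_lit 76) (nat_lit 1631242467948) (nat_lit 76) (nat_lit 1626588447017) (nat_lit 1) (nat_lit 4) (nat_lit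 2) (nat_lit 5) (nat_lit 2) (nat_lit 4) (nat_lit 261) (nat_lit 191) (nat_lit 148))) (XT.nd (nat_lit 78) (nat_lit 76) (nat_lit 0) (XT.lf (nat_lit 0) (nat_lit 2273824397) (nat_lit 152) (nat_lit 3383239451) (nat_lit 0) (nat_lit 2273824397) (nat_lit 8) (nat_lit 5) (nat_lit 10) (nat_lit 4) (nat_lit 8) (nat_lit 4) (nat_lit 216) (nat_lit 192) (nat_lit 192)) (XT.nd (nat_lit 78) (nat_lit 0) (nat_lit 0) (XT.lf (nat_lit 0) (nat_lit 5027190978) (nat_lit 76) (nat_lit 6707521210) (nat_lit 76) (nat_lit 5891250033) (nat_lit 7) (nat_lit 4) (nat_lit 8) (nat_lit 5) (nat_lit 8) (nat_lit 4) (nat_lit 217) (nat_lit 192) (nat_lit 191)) (XT.lf (nat_lit 0) (nat_lit 17876366054) (nat_lit 76) (nat_lit 1671165523) (nat_lit 76) (nat_lit 145093322) (nat_lit 7) (nat_lit 4) (nat_lit 8) (nat_lit 5) (nat_lit 8) (nat_lit 4) (nat_lit 218) (nat_lit 192) (nat_lit 190))))))))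
noncomputable def xc13 : XT := (XT.nd (nat_lit 1482) (nat_lit 0) (nat_lit 0) (XT.nd (nat_lit 702) (nat_lit 76) (nat_lit 0) (XT.nd (nat_lit 312) (nat_lit 152) (nat_lit 0) (XT.nd (nat_lit 156) (nat_lit 76) (nat_lit 0) (XT.nd (nat_lit 78) (nat_lit 0) (nat_lit 0) (XT.lf (nat_lit 0) (nat_lit 5896537405) (nat_lit 152) (nat_lit 12269097594) (nat_lit 0) (nat_lit 3912009181) (nat_lit 5) (nat_lit 5) (nat_lit 7) (nat_lit 4) (nat_lit 5) (nat_lit 4) (nat_lit 219) (nat_lit 192) (nat_lit 189)) (XT.lf (nat_lit 0) (nat_lit 12399889556) (nat_lit 152) (nat_lit 2537859259) (nat_lit 0) (nat_lit 9918406194) (nat_lit 5) (nat_lit 5) (nat_lit 7) (nat_lit 4) (nat_lit 5) (nat_lit 4) (nat_lit 220) (nat_lit 192) (nat_lit 188))) (XT.nd (nat_lit 78) (nat_lit 0) (nat_lit 0) (XT.lf (nat_lit 0) (nat_lit 8232609433) (nat_lit 76) (nat_lit 11377478681) (nat_lit 76) (nat_lit 8463860415) (nat_lit 4) (nat_lit 4) (nat_lit 5)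 (nat_lit 5) (nat_lit 5) (nat_lit 4) (nat_lit 221) (nat_lit 192) (nat_lit 187)) (XT.lf (nat_lit 0) (nat_lit 20010498302) (nat_lit 76) (nat_lit 7541099675) (nat_lit 76) (nat_lit 4251711929) (nat_lit 4) (nat_lit 4) (nat_lit 5) (nat_lit 5) (nat_lit 5) (nat_lit 4) (nat_lit 222) (nat_lit 192) (nat_lit 186)))) (XT.nd (nat_lit 156) (nat_lit 0) (nat_lit 0) (XT.nd (nat_lit 78) (nat_lit 76) (nat_lit 0) (XT.lf (nat_lit 0) (nat_lit 183537288) (nat_lit 152) (nat_lit 3234386255) (nat_lit 76) (nat_lit 32704049608) (nat_lit 3) (nat_lit 5) (nat_lit 5) (nat_lit 5) (nat_lit 4) (nat_lit 4) (nat_lit 223) (nat_lit 192) (nat_lit 185)) (XT.lf (nat_lit 0) (nat_lit 4891514664) (nat_lit 152) (nat_lit 34919823661) (nat_lit 0) (nat_lit 1280144730) (nat_lit 2) (nat_lit 5) (nat_lit 4) (nat_lit 4) (nat_lit 2) (nat_lit 4) (nat_lit 224) (nat_lit 192) (nat_lit 184))) (XT.nd (nat_lit 78) (nat_lit 0) (nat_lit 0) (XT.lf (nat_lit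 0) (nat_lit 10191235712) (nat_lit 152) (nat_lit 30273783481) (nat_lit 0) (nat_lit 6351093062) (nat_lit 2) (nat_lit 5) (nat_lit 4) (nat_lit 4) (nat_lit 2) (nat_lit 4) (nat_lit 225) (nat_lit 192) (nat_lit 183)) (XT.nd (nat_lit 78) (nat_lit 0) (nat_lit 0) (XT.lf (nat_lit 0) (nat_lit 16020179450) (nat_lit 152) (nat_lit 25419877807) (nat_lit 0) (nat_lit 11981104003) (nat_lit 2) (nat_lit 5) (nat_lit 4) (nat_lit 4) (nat_lit 2) (nat_lit 4) (nat_lit 226) (nat_lit 192) (nat_lit 182)) (XT.lf (nat_lit 0) (nat_lit 22492390429) (nat_lit 152) (nat_lit 20263138920) (nat_lit 0) (nat_lit 18280329942) (nat_lit 2) (nat_lit 5) (nat_lit 4) (nat_lit 4) (nat_lit 2) (nat_lit 4) (nat_lit 227) (nat_lit 192) (nat_lit 181)))))) (XT.nd (nat_lit 390) (nat_lit 0) (nat_lit 0) (XT.nd (nat_lit 156) (nat_lit 76) (nat_lit 0) (XT.nd (nat_lit 78) (nat_lit 0) (nat_lit 0) (XT.lf (nat_lit 0) (nat_lit 29734498864) (nat_lit 152)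 (nat_lit 14702674101) (nat_lit 0) (nat_lit 25372016603) (nat_lit 2) (nat_lit 5) (nat_lit 4) (nat_lit 4) (nat_lit 2) (nat_lit 4) (nat_lit 228) (nat_lit 192) (nat_lit 180)) (XT.lf (nat_lit 0) (nat_lit 37888198182) (nat_lit 152) (nat_lit 8629691648) (nat_lit 0) (nat_lit 33394914377) (nat_lit 2) (nat_lit 5) (nat_lit 4) (nat_lit 4) (nat_lit 2) (nat_lit 4) (nat_lit 229) (nat_lit 192) (nat_lit 179))) (XT.nd (nat_lit 78) (nat_lit 76) (nat_lit 0) (XT.lf (nat_lit 0) (nat_lit 47113017281) (nat_lit 152) (nat_lit 1925372339) (nat_lit 0) (nat_lit 42505993004) (nat_lit 2) (nat_lit 5) (nat_lit 4) (nat_lit 4) (nat_lit 2) (nat_lit 4) (nat_lit 230) (nat_lit 192) (nat_lit 178)) (XT.nd (nat_lit 78) (nat_lit 0) (nat_lit 0) (XT.lf (nat_lit 0) (nat_lit 5833258506) (nat_lit 76) (nat_lit 51896473254) (nat_lit 76) (nat_lit 47190544219) (nat_lit 1) (nat_lit 4) (nat_lit 2) (nat_lit 5) (nat_lit 2) (nat_lit 4) (nat_lit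 231) (nat_lit 192) (nat_lit 177)) (XT.lf (nat_lit 0) (nat_lit 14649719656) (nat_lit 76) (nat_lit 55225051573) (nat_lit 76) (nat_lit 50433118401) (nat_lit 1) (nat_lit 4) (nat_lit 2) (nat_lit 5) (nat_lit 2) (nat_lit 4) (nat_lit 232) (nat_lit 192) (nat_lit 176))))) (XT.nd (nat_lit 156) (nat_lit 0) (nat_lit 0) (XT.nd (nat_lit 78) (nat_lit 0) (nat_lit 0) (XT.lf (nat_lit 0) (nat_lit 24595120396) (nat_lit 76) (nat_lit 59141892028) (nat_lit 76) (nat_lit 54275172649) (nat_lit 1) (nat_lit 4) (nat_lit 2) (nat_lit 5) (nat_lit 2) (nat_lit 4) (nat_lit 233) (nat_lit 192) (nat_lit 175)) (XT.lf (nat_lit 0) (nat_lit 35864044651) (nat_lit 76) (nat_lit 63723628453) (nat_lit 76) (nat_lit 58791877590) (nat_lit 1) (nat_lit 4) (nat_lit 2) (nat_lit 5) (nat_lit 2) (nat_lit 4) (nat_lit 234) (nat_lit 192) (nat_lit 174))) (XT.nd (nat_lit 78) (nat_lit 0) (nat_lit 0) (XT.lf (nat_lit 0) (nat_lit 48676971375) (nat_lit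 76) (nat_lit 69059903519) (nat_lit 76) (nat_lit 64071603539) (nat_lit 1) (nat_lit 4) (nat_lit 2) (nat_lit 5) (nat_lit 2) (nat_lit 4) (nat_lit 235) (nat_lit 192) (nat_lit 173)) (XT.nd (nat_lit 78) (nat_lit 0) (nat_lit 0) (XT.lf (nat_lit 0) (nat_lit 63284588266) (nat_lit 76) (nat_lit 75255122606) (nat_lit 76) (nat_lit 70217649481) (nat_lit 1) (nat_lit 4) (nat_lit 2) (nat_lit 5) (nat_lit 2) (nat_lit 4) (nat_lit 236) (nat_lit 192) (nat_lit 172)) (XT.lf (nat_lit 0) (nat_lit 79972696522) (nat_lit 76) (nat_lit 82430496523) (nat_lit 76) (nat_lit 77350264142) (nat_lit 1) (nat_lit 4) (nat_lit 2) (nat_lit 5) (nat_lit 2) (nat_lit 4) (nat_lit 237) (nat_lit 192) (nat_lit 171))))))) (XT.nd (nat_lit 780) (nat_lit 0) (nat_lit 0) (XT.nd (nat_lit 390) (nat_lit 0) (nat_lit 0) (XT.nd (nat_lit 156) (nat_lit 0) (nat_lit 0) (XT.nd (nat_lit 78) (nat_lit 0) (nat_lit 0) (XT.lf (nat_lit 0) (nat_lit 99067802610)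 (nat_lit 76) (nat_lit 90726413020) (nat_lit 76) (nat_lit 85608998677) (nat_lit 1) (nat_lit 4) (nat_lit 2) (nat_lit 5) (nat_lit 2) (nat_lit 4) (nat_lit 238) (nat_lit 192) (nat_lit 170)) (XT.lf (nat_lit 0) (nat_lit 120943506431) (nat_lit 76) (nat_lit 100305183507) (nat_lit 76) (nat_lit 95155437023) (nat_lit 1) (nat_lit 4) (nat_lit 2) (nat_lit 5) (nat_lit 2) (nat_lit 4) (nat_lit 239) (nat_lit 192) (nat_lit 169))) (XT.nd (nat_lit 78) (nat_lit 0) (nat_lit 0) (XT.lf (nat_lit 0) (nat_lit 146027810886) (nat_lit 76) (nat_lit 111354218711) (nat_lit 76) (nat_lit 106176357322) (nat_lit 1) (nat_lit 4) (nat_lit 2) (nat_lit 5) (nat_lit 2) (nat_lit 4) (nat_lit 240) (nat_lit 192) (nat_lit 168)) (XT.nd (nat_lit 78) (nat_lit 0) (nat_lit 0) (XT.lf (nat_lit 0) (nat_lit 174811495846) (nat_lit 76) (nat_lit 124089695408) (nat_lit 76) (nat_lit 118887386276) (nat_lit 1) (nat_lit 4) (nat_lit 2) (nat_lit 5) (nat_lit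 2) (nat_lit 4) (nat_lit 241) (nat_lit 192) (nat_lit 167)) (XT.lf (nat_lit 0) (nat_lit 207857720363) (nat_lit 76) (nat_lit 138760785968) (nat_lit 76) (nat_lit 133537217928) (nat_lit 1) (nat_lit 4) (nat_lit 2) (nat_lit 5) (nat_lit 2) (nat_lit 4) (nat_lit 242) (nat_lit 192) (nat_lit 166))))) (XT.nd (nat_lit 156) (nat_lit 0) (nat_lit 0) (XT.nd (nat_lit 78) (nat_lit 0) (nat_lit 0) (XT.lf (nat_lit 0) (nat_lit 245813041005) (nat_lit 76) (nat_lit 155654533467) (nat_lit 76) (nat_lit 150412479420) (nat_lit 1) (nat_lit 4) (nat_lit 2) (nat_lit 5) (nat_lit 2) (nat_lit 4) (nat_lit 243) (nat_lit 192) (nat_lit 165)) (XT.lf (nat_lit 0) (nat_lit 289420061870) (nat_lit 76) (nat_lit 175101467747) (nat_lit 76) (nat_lit 169843338912) (nat_lit 1) (nat_lit 4) (nat_lit 2) (nat_lit 5) (nat_lit 2) (nat_lit 4) (nat_lit 244) (nat_lit 192) (nat_lit 164))) (XT.nd (nat_lit 78) (nat_lit 0) (nat_lit 0) (XT.lf (nat_lit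 0) (nat_lit 339531963802) (nat_lit 76) (nat_lit 197482072306) (nat_lit 76) (nat_lit 192209965394) (nat_lit 1) (nat_lit 4) (nat_lit 2) (nat_lit 5) (nat_lit 2) (nat_lit 4) (nat_lit 245) (nat_lit 192) (nat_lit 163)) (XT.nd (nat_lit 78) (nat_lit 0) (nat_lit 0) (XT.lf (nat_lit 0) (nat_lit 397129197057) (nat_lit 76) (nat_lit 223234228536) (nat_lit 76) (nat_lit 217949966775) (nat_lit 1) (nat_lit 4) (nat_lit 2) (nat_lit 5) (nat_lit 2) (nat_lit 4) (nat_lit 246) (nat_lit 192) (nat_lit 162)) (XT.lf (nat_lit 0) (nat_lit 463338664022) (nat_lit 76) (nat_lit 252861782973) (nat_lit 76) (nat_lit 247566951778) (nat_lit 1) (nat_lit 4) (nat_lit 2) (nat_lit 5) (nat_lit 2) (nat_lit 4) (nat_lit 247) (nat_lit 192) (nat_lit 161)))))) (XT.nd (nat_lit 390) (nat_lit 0) (nat_lit 0) (XT.nd (nat_lit 156) (nat_lit 0) (nat_lit 0) (XT.nd (nat_lit 78) (nat_lit 0) (nat_lit 0) (XT.lf (nat_lit 0) (nat_lit 539455767315) (nat_lit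 76) (nat_lit 286944405160) (nat_lit 76) (nat_lit 281640383152) (nat_lit 1) (nat_lit 4) (nat_lit 2) (nat_lit 5) (nat_lit 2) (nat_lit 4) (nat_lit 248) (nat_lit 192) (nat_lit 160)) (XT.lf (nat_lit 0) (nat_lit 626969754606) (nat_lit 76) (nat_lit 326148929009) (nat_lit 76) (nat_lit 320836914991) (nat_lit 1) (nat_lit 4) (nat_lit 2) (nat_lit 5) (nat_lit 2) (nat_lit 4) (nat_lit 249) (nat_lit 192) (nat_lit 159))) (XT.nd (nat_lit 78) (nat_lit 0) (nat_lit 0) (XT.lf (nat_lit 0) (nat_lit 727592856083) (nat_lit 76) (nat_lit 371242399553) (nat_lit 76) (nat_lit 365923435960) (nat_lit 1) (nat_lit 4) (nat_lit 2) (nat_lit 5) (nat_lit 2) (nat_lit 4) (nat_lit 250) (nat_lit 192) (nat_lit 158)) (XT.nd (nat_lit 78) (nat_lit 0) (nat_lit 0) (XT.lf (nat_lit 0) (nat_lit 843293784601) (nat_lit 76) (nat_lit 423107080344) (nat_lit 76) (nat_lit 417782073643) (nat_lit 1) (nat_lit 4) (nat_lit 2) (nat_lit 5) (nat_lit 2)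 (nat_lit 4) (nat_lit 251) (nat_lit 192) (nat_lit 157)) (XT.lf (nat_lit 0) (nat_lit 976336253978) (nat_lit 76) (nat_lit 482757715139) (nat_lit 76) (nat_lit 477427453561) (nat_lit 1) (nat_lit 4) (nat_lit 2) (nat_lit 5) (nat_lit 2) (nat_lit 4) (nat_lit 252) (nat_lit 192) (nat_lit 156))))) (XT.nd (nat_lit 156) (nat_lit 0) (nat_lit 0) (XT.nd (nat_lit 78) (nat_lit 0) (nat_lit 0) (XT.lf (nat_lit 0) (nat_lit 1129323269050) (nat_lit 76) (nat_lit 551361381574) (nat_lit 76) (nat_lit 546026550538) (nat_lit 1) (nat_lit 4) (nat_lit 2) (nat_lit 5) (nat_lit 2) (nat_lit 4) (nat_lit 253) (nat_lit 192) (nat_lit 155)) (XT.lf (nat_lit 0) (nat_lit 1305248054025) (nat_lit 76) (nat_lit 630260325297) (nat_lit 76) (nat_lit 624921520819) (nat_lit 1) (nat_lit 4) (nat_lit 2) (nat_lit 5) (nat_lit 2) (nat_lit 4) (nat_lit 254) (nat_lit 192) (nat_lit 154))) (XT.nd (nat_lit 78) (nat_lit 0) (nat_lit 0) (XT.lf (nat_lit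 0) (nat_lit 1507552615566) (nat_lit 76) (nat_lit 720998221294) (nat_lit 76) (nat_lit 715655961649) (nat_lit 1) (nat_lit 4) (nat_lit 2) (nat_lit 5) (nat_lit 2) (nat_lit 4) (nat_lit 255) (nat_lit 192) (nat_lit 153)) (XT.nd (nat_lit 78) (nat_lit 0) (nat_lit 0) (XT.lf (nat_lit 0) (nat_lit 1740195086398) (nat_lit 76) (nat_lit 825350376225) (nat_lit 76) (nat_lit 820005112088) (nat_lit 1) (nat_lit 4) (nat_lit 2) (nat_lit 5) (nat_lit 2) (nat_lit 4) (nat_lit 256) (nat_lit 192) (nat_lit 152)) (XT.lf (nat_lit 0) (nat_lit 2007727167037) (nat_lit 76) (nat_lit 945358462687) (nat_lit 76) (nat_lit 940010585947) (nat_lit 1) (nat_lit 4) (nat_lit 2) (nat_lit 5) (nat_lit 2) (nat_lit 4) (nat_lit 257) (nat_lit 192) (nat_lit 151))))))))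
noncomputable def xc14 : XT := (XT.nd (nat_lit 29016) (nat_lit 0) (nat_lit 0) (XT.nd (nat_lit 28236) (nat_lit 0) (nat_lit 76) (XT.nd (nat_lit 27846) (nat_lit 0) (nat_lit 456) (XT.nd (nat_lit 156) (nat_lit 0) (nat_lit 0) (XT.nd (nat_lit 78) (nat_lit 0) (nat_lit 0) (XT.lf (nat_lit 0) (nat_lit 2315383180801) (nat_lit 76) (nat_lit 1083370464981) (nat_lit 76) (nat_lit 1078020316413) (nat_lit 1) (nat_lit 4) (nat_lit 2) (nat_lit 5) (nat_lit 2) (nat_lit 4) (nat_lit 258) (nat_lit 192) (nat_lit 150)) (XT.lf (nat_lit 0) (nat_lit 2669182484480) (nat_lit 76) (nat_lit 1242086617933) (nat_lit 76) (nat_lit 1236734493862) (nat_lit 1) (nat_lit 4) (nat_lit 2) (nat_lit 5) (nat_lit 2) (nat_lit 4) (nat_lit 259) (nat_lit 192) (nat_lit 149))) (XT.nd (nat_lit 78) (nat_lit 0) (nat_lit 0) (XT.lf (nat_lit 0) (nat_lit 3076047238364) (nat_lit 76) (nat_lit 1424612237581) (nat_lit 76) (nat_lit 1419258395681) (nat_lit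 1) (nat_lit 4) (nat_lit 2) (nat_lit 5) (nat_lit 2) (nat_lit 4) (nat_lit 260) (nat_lit 192) (nat_lit 148)) (XT.lf (nat_lit 0) (nat_lit 3543937839811) (nat_lit 76) (nat_lit 1634518477351) (nat_lit 76) (nat_lit 1629163141687) (nat_lit 1) (nat_lit 4) (nat_lit 2) (nat_lit 5) (nat_lit 2) (nat_lit 4) (nat_lit 261) (nat_lit 192) (nat_lit 147)))) (XT.nd (nat_lit 156) (nat_lit 228) (nat_lit 0) (XT.nd (nat_lit 78) (nat_lit 152) (nat_lit 0) (XT.lf (nat_lit 0) (nat_lit 2886707272) (nat_lit 152) (nat_lit 746680296) (nat_lit 0) (nat_lit 2886707272) (nat_lit 12) (nat_lit 5) (nat_lit 14) (nat_lit 4) (nat_lit 12) (nat_lit 4) (nat_lit 214) (nat_lit 193) (nat_lit 193)) (XT.lf (nat_lit 0) (nat_lit 10946147593) (nat_lit 152) (nat_lit 2212374928) (nat_lit 152) (nat_lit 1198566126) (nat_lit 10) (nat_lit 4) (nat_lit 12) (nat_lit 5) (nat_lit 12) (nat_lit 4) (nat_lit 215) (nat_lit 193) (nat_lit 192))) (XT.nd (nat_lit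 78) (nat_lit 76) (nat_lit 0) (XT.lf (nat_lit 0) (nat_lit 5153509563) (nat_lit 152) (nat_lit 7337258959) (nat_lit 0) (nat_lit 3398526532) (nat_lit 8) (nat_lit 5) (nat_lit 10) (nat_lit 4) (nat_lit 8) (nat_lit 4) (nat_lit 216) (nat_lit 193) (nat_lit 191)) (XT.nd (nat_lit 78) (nat_lit 0) (nat_lit 0) (XT.lf (nat_lit 0) (nat_lit 3903888286) (nat_lit 76) (nat_lit 8120233489) (nat_lit 76) (nat_lit 5655449434) (nat_lit 7) (nat_lit 4) (nat_lit 8) (nat_lit 5) (nat_lit 8) (nat_lit 4) (nat_lit 217) (nat_lit 193) (nat_lit 190)) (XT.lf (nat_lit 0) (nat_lit 16298744781) (nat_lit 76) (nat_lit 3275586770) (nat_lit 76) (nat_lit 193584434) (nat_lit 7) (nat_lit 4) (nat_lit 8) (nat_lit 5) (nat_lit 8) (nat_lit 4) (nat_lit 218) (nat_lit 193) (nat_lit 189)))))) (XT.nd (nat_lit 390) (nat_lit 152) (nat_lit 0) (XT.nd (nat_lit 156) (nat_lit 76) (nat_lit 0) (XT.nd (nat_lit 78) (nat_lit 0) (nat_lit 0) (XT.lf (nat_lit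 0) (nat_lit 5519348903) (nat_lit 152) (nat_lit 14492023744) (nat_lit 0) (nat_lit 2168687898) (nat_lit 5) (nat_lit 5) (nat_lit 7) (nat_lit 4) (nat_lit 5) (nat_lit 4) (nat_lit 219) (nat_lit 193) (nat_lit 188)) (XT.lf (nat_lit 0) (nat_lit 11805654137) (nat_lit 152) (nat_lit 5147894180) (nat_lit 0) (nat_lit 8022858229) (nat_lit 5) (nat_lit 5) (nat_lit 7) (nat_lit 4) (nat_lit 5) (nat_lit 4) (nat_lit 220) (nat_lit 193) (nat_lit 187))) (XT.nd (nat_lit 78) (nat_lit 0) (nat_lit 0) (XT.lf (nat_lit 0) (nat_lit 5130792757) (nat_lit 76) (nat_lit 13621724723) (nat_lit 76) (nat_lit 9463159334) (nat_lit 4) (nat_lit 4) (nat_lit 5) (nat_lit 5) (nat_lit 5) (nat_lit 4) (nat_lit 221) (nat_lit 193) (nat_lit 186)) (XT.nd (nat_lit 78) (nat_lit 0) (nat_lit 0) (XT.lf (nat_lit 0) (nat_lit 16600558198) (nat_lit 76) (nat_lit 9921940117) (nat_lit 76) (nat_lit 5436618659) (nat_lit 4) (nat_lit 4) (nat_lit 5) (nat_lit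 5) (nat_lit 5) (nat_lit 4) (nat_lit 222) (nat_lit 193) (nat_lit 185)) (XT.lf (nat_lit 0) (nat_lit 29214731612) (nat_lit 76) (nat_lit 5922559960) (nat_lit 76) (nat_lit 1153102788) (nat_lit 4) (nat_lit 4) (nat_lit 5) (nat_lit 5) (nat_lit 5) (nat_lit 4) (nat_lit 223) (nat_lit 193) (nat_lit 184))))) (XT.nd (nat_lit 156) (nat_lit 0) (nat_lit 0) (XT.nd (nat_lit 78) (nat_lit 0) (nat_lit 0) (XT.lf (nat_lit 0) (nat_lit 1939394710) (nat_lit 76) (nat_lit 1404800681) (nat_lit 152) (nat_lit 37939645981) (nat_lit 2) (nat_lit 5) (nat_lit 3) (nat_lit 5) (nat_lit 4) (nat_lit 4) (nat_lit 224) (nat_lit 193) (nat_lit 183)) (XT.lf (nat_lit 0) (nat_lit 8486533057) (nat_lit 152) (nat_lit 34892081706) (nat_lit 0) (nat_lit 3642663497) (nat_lit 2) (nat_lit 5) (nat_lit 4) (nat_lit 4) (nat_lit 2) (nat_lit 4) (nat_lit 225) (nat_lit 193) (nat_lit 182))) (XT.nd (nat_lit 78) (nat_lit 0) (nat_lit 0) (XT.lf (nat_lit 0)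 (nat_lit 14208000368) (nat_lit 152) (nat_lit 30235967957) (nat_lit 0) (nat_lit 9191145767) (nat_lit 2) (nat_lit 5) (nat_lit 4) (nat_lit 4) (nat_lit 2) (nat_lit 4) (nat_lit 226) (nat_lit 193) (nat_lit 181)) (XT.nd (nat_lit 78) (nat_lit 0) (nat_lit 0) (XT.lf (nat_lit 0) (nat_lit 20586753584) (nat_lit 152) (nat_lit 25251222047) (nat_lit 0) (nat_lit 15419477209) (nat_lit 2) (nat_lit 5) (nat_lit 4) (nat_lit 4) (nat_lit 2) (nat_lit 4) (nat_lit 227) (nat_lit 193) (nat_lit 180)) (XT.lf (nat_lit 0) (nat_lit 27747594399) (nat_lit 152) (nat_lit 19840316339) (nat_lit 0) (nat_lit 22449516481) (nat_lit 2) (nat_lit 5) (nat_lit 4) (nat_lit 4) (nat_lit 2) (nat_lit 4) (nat_lit 228) (nat_lit 193) (nat_lit 179))))))) (XT.nd (nat_lit 780) (nat_lit 0) (nat_lit 0) (XT.nd (nat_lit 390) (nat_lit 0) (nat_lit 0) (XT.nd (nat_lit 156) (nat_lit 76) (nat_lit 0) (XT.nd (nat_lit 78) (nat_lit 0) (nat_lit 0) (XT.lf (nat_lit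 0) (nat_lit 35830626220) (nat_lit 152) (nat_lit 13897385287) (nat_lit 0) (nat_lit 30418807830) (nat_lit 2) (nat_lit 5) (nat_lit 4) (nat_lit 4) (nat_lit 2) (nat_lit 4) (nat_lit 229) (nat_lit 193) (nat_lit 178)) (XT.lf (nat_lit 0) (nat_lit 44993995323) (nat_lit 152) (nat_lit 7306154152) (nat_lit 0) (nat_lit 39483272175) (nat_lit 2) (nat_lit 5) (nat_lit 4) (nat_lit 4) (nat_lit 2) (nat_lit 4) (nat_lit 230) (nat_lit 193) (nat_lit 177))) (XT.nd (nat_lit 78) (nat_lit 0) (nat_lit 0) (XT.lf (nat_lit 0) (nat_lit 65618434) (nat_lit 76) (nat_lit 55352944706) (nat_lit 76) (nat_lit 49756217420) (nat_lit 1) (nat_lit 4) (nat_lit 2) (nat_lit 5) (nat_lit 2) (nat_lit 4) (nat_lit 231) (nat_lit 193) (nat_lit 176)) (XT.nd (nat_lit 78) (nat_lit 0) (nat_lit 0) (XT.lf (nat_lit 0) (nat_lit 8792065824) (nat_lit 76) (nat_lit 58722906927) (nat_lit 76) (nat_lit 53051393434) (nat_lit 1) (nat_lit 4) (nat_lit 2) (nat_lit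 5) (nat_lit 2) (nat_lit 4) (nat_lit 232) (nat_lit 193) (nat_lit 175)) (XT.lf (nat_lit 0) (nat_lit 18659193729) (nat_lit 76) (nat_lit 62675733383) (nat_lit 76) (nat_lit 56939188406) (nat_lit 1) (nat_lit 4) (nat_lit 2) (nat_lit 5) (nat_lit 2) (nat_lit 4) (nat_lit 233) (nat_lit 193) (nat_lit 174))))) (XT.nd (nat_lit 156) (nat_lit 0) (nat_lit 0) (XT.nd (nat_lit 78) (nat_lit 0) (nat_lit 0) (XT.lf (nat_lit 0) (nat_lit 29860054650) (nat_lit 76) (nat_lit 67288761983) (nat_lit 76) (nat_lit 61495667890) (nat_lit 1) (nat_lit 4) (nat_lit 2) (nat_lit 5) (nat_lit 2) (nat_lit 4) (nat_lit 234) (nat_lit 193) (nat_lit 173)) (XT.lf (nat_lit 0) (nat_lit 42613795866) (nat_lit 76) (nat_lit 72652247636) (nat_lit 76) (nat_lit 66809980398) (nat_lit 1) (nat_lit 4) (nat_lit 2) (nat_lit 5) (nat_lit 2) (nat_lit 4) (nat_lit 235) (nat_lit 193) (nat_lit 172))) (XT.nd (nat_lit 78) (nat_lit 0) (nat_lit 0) (XT.lf (nat_lit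 0) (nat_lit 57169947097) (nat_lit 76) (nat_lit 78871128102) (nat_lit 76) (nat_lit 72986101608) (nat_lit 1) (nat_lit 4) (nat_lit 2) (nat_lit 5) (nat_lit 2) (nat_lit 4) (nat_lit 236) (nat_lit 193) (nat_lit 171)) (XT.nd (nat_lit 78) (nat_lit 0) (nat_lit 0) (XT.lf (nat_lit 0) (nat_lit 73813302606) (nat_lit 76) (nat_lit 86067077132) (nat_lit 76) (nat_lit 80144868676) (nat_lit 1) (nat_lit 4) (nat_lit 2) (nat_lit 5) (nat_lit 2) (nat_lit 4) (nat_lit 237) (nat_lit 193) (nat_lit 170)) (XT.lf (nat_lit 0) (nat_lit 92869493261) (nat_lit 76) (nat_lit 94380885032) (nat_lit 76) (nat_lit 88426344435) (nat_lit 1) (nat_lit 4) (nat_lit 2) (nat_lit 5) (nat_lit 2) (nat_lit 4) (nat_lit 238) (nat_lit 193) (nat_lit 169)))))) (XT.nd (nat_lit 390) (nat_lit 0) (nat_lit 0) (XT.nd (nat_lit 156) (nat_lit 0) (nat_lit 0) (XT.nd (nat_lit 78) (nat_lit 0) (nat_lit 0) (XT.lf (nat_lit 0) (nat_lit 114711357576) (nat_lit 76)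 (nat_lit 103975213260) (nat_lit 76) (nat_lit 97992557758) (nat_lit 1) (nat_lit 4) (nat_lit 2) (nat_lit 5) (nat_lit 2) (nat_lit 4) (nat_lit 239) (nat_lit 193) (nat_lit 168)) (XT.lf (nat_lit 0) (nat_lit 139766236374) (nat_lit 76) (nat_lit 115037776935) (nat_lit 76) (nat_lit 109030673690) (nat_lit 1) (nat_lit 4) (nat_lit 2) (nat_lit 5) (nat_lit 2) (nat_lit 4) (nat_lit 240) (nat_lit 193) (nat_lit 167))) (XT.nd (nat_lit 78) (nat_lit 0) (nat_lit 0) (XT.lf (nat_lit 0) (nat_lit 168524333805) (nat_lit 76) (nat_lit 127785017520) (nat_lit 76) (nat_lit 121756655367) (nat_lit 1) (nat_lit 4) (nat_lit 2) (nat_lit 5) (nat_lit 2) (nat_lit 4) (nat_lit 241) (nat_lit 193) (nat_lit 166)) (XT.nd (nat_lit 78) (nat_lit 0) (nat_lit 0) (XT.lf (nat_lit 0) (nat_lit 201548308297) (nat_lit 76) (nat_lit 142466337547) (nat_lit 76) (nat_lit 136419489387) (nat_lit 1) (nat_lit 4) (nat_lit 2) (nat_lit 5) (nat_lit 2) (nat_lit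 4) (nat_lit 242) (nat_lit 193) (nat_lit 165)) (XT.lf (nat_lit 0) (nat_lit 239484281091) (nat_lit 76) (nat_lit 159368980235) (nat_lit 76) (nat_lit 153306057287) (nat_lit 1) (nat_lit 4) (nat_lit 2) (nat_lit 5) (nat_lit 2) (nat_lit 4) (nat_lit 243) (nat_lit 193) (nat_lit 164))))) (XT.nd (nat_lit 156) (nat_lit 0) (nat_lit 0) (XT.nd (nat_lit 78) (nat_lit 0) (nat_lit 0) (XT.lf (nat_lit 0) (nat_lit 283074477741) (nat_lit 76) (nat_lit 178823649463) (nat_lit 76) (nat_lit 172746748438) (nat_lit 1) (nat_lit 4) (nat_lit 2) (nat_lit 5) (nat_lit 2) (nat_lit 4) (nat_lit 244) (nat_lit 193) (nat_lit 163)) (XT.lf (nat_lit 0) (nat_lit 333171749921) (nat_lit 76) (nat_lit 201210980062) (nat_lit 76) (nat_lit 195121924188) (nat_lit 1) (nat_lit 4) (nat_lit 2) (nat_lit 5) (nat_lit 2) (nat_lit 4) (nat_lit 245) (nat_lit 193) (nat_lit 162))) (XT.nd (nat_lit 78) (nat_lit 0) (nat_lit 0) (XT.lf (nat_lit 0) (nat_lit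 390756261651) (nat_lit 76) (nat_lit 226968985023) (nat_lit 76) (nat_lit 220869359715) (nat_lit 1) (nat_lit 4) (nat_lit 2) (nat_lit 5) (nat_lit 2) (nat_lit 4) (nat_lit 246) (nat_lit 193) (nat_lit 161)) (XT.nd (nat_lit 78) (nat_lit 0) (nat_lit 0) (XT.lf (nat_lit 0) (nat_lit 456954666422) (nat_lit 76) (nat_lit 256601625314) (nat_lit 76) (nat_lit 250492809193) (nat_lit 1) (nat_lit 4) (nat_lit 2) (nat_lit 5) (nat_lit 2) (nat_lit 4) (nat_lit 247) (nat_lit 193) (nat_lit 160)) (XT.lf (nat_lit 0) (nat_lit 533062150415) (nat_lit 76) (nat_lit 290688669982) (nat_lit 76) (nat_lit 284571861850) (nat_lit 1) (nat_lit 4) (nat_lit 2) (nat_lit 5) (nat_lit 2) (nat_lit 4) (nat_lit 248) (nat_lit 193) (nat_lit 159))))))))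
noncomputable def xc15 : XT := (XT.nd (nat_lit 28938) (nat_lit 0) (nat_lit 0) (XT.nd (nat_lit 780) (nat_lit 0) (nat_lit 0) (XT.nd (nat_lit 390) (nat_lit 0) (nat_lit 0) (XT.nd (nat_lit 156) (nat_lit 0) (nat_lit 0) (XT.nd (nat_lit 78) (nat_lit 0) (nat_lit 0) (XT.lf (nat_lit 0) (nat_lit 620567773098) (nat_lit 76) (nat_lit 329897039467) (nat_lit 76) (nat_lit 323773281761) (nat_lit 1) (nat_lit 4) (nat_lit 2) (nat_lit 5) (nat_lit 2) (nat_lit 4) (nat_lit 249) (nat_lit 193) (nat_lit 158)) (XT.lf (nat_lit 0) (nat_lit 721183601002) (nat_lit 76) (nat_lit 374993854041) (nat_lit 76) (nat_lit 368864053227) (nat_lit 1) (nat_lit 4) (nat_lit 2) (nat_lit 5) (nat_lit 2) (nat_lit 4) (nat_lit 250) (nat_lit 193) (nat_lit 157))) (XT.nd (nat_lit 78) (nat_lit 0) (nat_lit 0) (XT.lf (nat_lit 0) (nat_lit 836878204674) (nat_lit 76) (nat_lit 426861442686) (nat_lit 76) (nat_lit 420726386995) (nat_lit 1) (nat_lit 4)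 (nat_lit 2) (nat_lit 5) (nat_lit 2) (nat_lit 4) (nat_lit 251) (nat_lit 193) (nat_lit 156)) (XT.nd (nat_lit 78) (nat_lit 0) (nat_lit 0) (XT.lf (nat_lit 0) (nat_lit 969915174186) (nat_lit 76) (nat_lit 486514606049) (nat_lit 76) (nat_lit 480374980900) (nat_lit 1) (nat_lit 4) (nat_lit 2) (nat_lit 5) (nat_lit 2) (nat_lit 4) (nat_lit 252) (nat_lit 193) (nat_lit 155)) (XT.lf (nat_lit 0) (nat_lit 1122897406766) (nat_lit 76) (nat_lit 555120471239) (nat_lit 76) (nat_lit 548976872648) (nat_lit 1) (nat_lit 4) (nat_lit 2) (nat_lit 5) (nat_lit 2) (nat_lit 4) (nat_lit 253) (nat_lit 193) (nat_lit 154))))) (XT.nd (nat_lit 156) (nat_lit 0) (nat_lit 0) (XT.nd (nat_lit 78) (nat_lit 0) (nat_lit 0) (XT.lf (nat_lit 0) (nat_lit 1298818033052) (nat_lit 76) (nat_lit 634021326922) (nat_lit 76) (nat_lit 627874273164) (nat_lit 1) (nat_lit 4) (nat_lit 2) (nat_lit 5) (nat_lit 2) (nat_lit 4) (nat_lit 254) (nat_lit 193)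 (nat_lit 153)) (XT.lf (nat_lit 0) (nat_lit 1501118978341) (nat_lit 76) (nat_lit 724760885493) (nat_lit 76) (nat_lit 718610827242) (nat_lit 1) (nat_lit 4) (nat_lit 2) (nat_lit 5) (nat_lit 2) (nat_lit 4) (nat_lit 255) (nat_lit 193) (nat_lit 152))) (XT.nd (nat_lit 78) (nat_lit 0) (nat_lit 0) (XT.lf (nat_lit 0) (nat_lit 1733758304607) (nat_lit 76) (nat_lit 829114486141) (nat_lit 76) (nat_lit 822961815288) (nat_lit 1) (nat_lit 4) (nat_lit 2) (nat_lit 5) (nat_lit 2) (nat_lit 4) (nat_lit 256) (nat_lit 193) (nat_lit 151)) (XT.nd (nat_lit 78) (nat_lit 0) (nat_lit 0) (XT.lf (nat_lit 0) (nat_lit 2001287650841) (nat_lit 76) (nat_lit 949123829749) (nat_lit 76) (nat_lit 942968887067) (nat_lit 1) (nat_lit 4) (nat_lit 2) (nat_lit 5) (nat_lit 2) (nat_lit 4) (nat_lit 257) (nat_lit 193) (nat_lit 150)) (XT.lf (nat_lit 0) (nat_lit 2308941286861) (nat_lit 76) (nat_lit 1087136925212) (nat_lit 76) (nat_lit 1080980007028)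 (nat_lit 1) (nat_lit 4) (nat_lit 2) (nat_lit 5) (nat_lit 2) (nat_lit 4) (nat_lit 258) (nat_lit 193) (nat_lit 149)))))) (XT.nd (nat_lit 27768) (nat_lit 0) (nat_lit 456) (XT.nd (nat_lit 156) (nat_lit 0) (nat_lit 0) (XT.nd (nat_lit 78) (nat_lit 0) (nat_lit 0) (XT.lf (nat_lit 0) (nat_lit 2662738522937) (nat_lit 76) (nat_lit 1245854028747) (nat_lit 76) (nat_lit 1239695392734) (nat_lit 1) (nat_lit 4) (nat_lit 2) (nat_lit 5) (nat_lit 2) (nat_lit 4) (nat_lit 259) (nat_lit 193) (nat_lit 148)) (XT.lf (nat_lit 0) (nat_lit 3069601478905) (nat_lit 76) (nat_lit 1428380474988) (nat_lit 76) (nat_lit 1422220345211) (nat_lit 1) (nat_lit 4) (nat_lit 2) (nat_lit 5) (nat_lit 2) (nat_lit 4) (nat_lit 260) (nat_lit 193) (nat_lit 147))) (XT.nd (nat_lit 27456) (nat_lit 0) (nat_lit 912) (XT.lf (nat_lit 0) (nat_lit 3537490516947) (nat_lit 76) (nat_lit 1638287433535) (nat_lit 76) (nat_lit 1632126004833) (nat_lit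 1) (nat_lit 4) (nat_lit 2) (nat_lit 5) (nat_lit 2) (nat_lit 4) (nat_lit 261) (nat_lit 193) (nat_lit 146)) (XT.nd (nat_lit 78) (nat_lit 228) (nat_lit 0) (XT.lf (nat_lit 0) (nat_lit 2484646827) (nat_lit 152) (nat_lit 501355559) (nat_lit 0) (nat_lit 2484646827) (nat_lit 16) (nat_lit 5) (nat_lit 18) (nat_lit 4) (nat_lit 16) (nat_lit 4) (nat_lit 212) (nat_lit 194) (nat_lit 194)) (XT.lf (nat_lit 0) (nat_lit 165432729) (nat_lit 228) (nat_lit 915050456) (nat_lit 76) (nat_lit 10844806961) (nat_lit 13) (nat_lit 5) (nat_lit 16) (nat_lit 5) (nat_lit 14) (nat_lit 4) (nat_lit 213) (nat_lit 194) (nat_lit 193))))) (XT.nd (nat_lit 156) (nat_lit 228) (nat_lit 0) (XT.nd (nat_lit 78) (nat_lit 152) (nat_lit 0) (XT.lf (nat_lit 0) (nat_lit 6601943721) (nat_lit 152) (nat_lit 2044085212) (nat_lit 0) (nat_lit 4422254796) (nat_lit 12) (nat_lit 5) (nat_lit 14) (nat_lit 4) (nat_lit 12) (nat_lit 4) (nat_lit 214) (nat_lit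 194) (nat_lit 192)) (XT.lf (nat_lit 0) (nat_lit 9862314267) (nat_lit 152) (nat_lit 3805322566) (nat_lit 152) (nat_lit 744060769) (nat_lit 10) (nat_lit 4) (nat_lit 12) (nat_lit 5) (nat_lit 12) (nat_lit 4) (nat_lit 215) (nat_lit 194) (nat_lit 191))) (XT.nd (nat_lit 78) (nat_lit 76) (nat_lit 0) (XT.lf (nat_lit 0) (nat_lit 5227962637) (nat_lit 152) (nat_lit 9060766567) (nat_lit 0) (nat_lit 1683659950) (nat_lit 8) (nat_lit 5) (nat_lit 10) (nat_lit 4) (nat_lit 8) (nat_lit 4) (nat_lit 216) (nat_lit 194) (nat_lit 190)) (XT.nd (nat_lit 78) (nat_lit 0) (nat_lit 0) (XT.lf (nat_lit 0) (nat_lit 1635305240) (nat_lit 76) (nat_lit 10157026892) (nat_lit 76) (nat_lit 5995505923) (nat_lit 7) (nat_lit 4) (nat_lit 8) (nat_lit 5) (nat_lit 8) (nat_lit 4) (nat_lit 217) (nat_lit 194) (nat_lit 189)) (XT.lf (nat_lit 0) (nat_lit 13635102099) (nat_lit 76) (nat_lit 5479083624) (nat_lit 76) (nat_lit 780851106) (nat_lit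 7) (nat_lit 4) (nat_lit 8) (nat_lit 5) (nat_lit 8) (nat_lit 4) (nat_lit 218) (nat_lit 194) (nat_lit 188))))))) (XT.nd (nat_lit 780) (nat_lit 76) (nat_lit 0) (XT.nd (nat_lit 390) (nat_lit 152) (nat_lit 0) (XT.nd (nat_lit 156) (nat_lit 76) (nat_lit 0) (XT.nd (nat_lit 78) (nat_lit 0) (nat_lit 0) (XT.lf (nat_lit 0) (nat_lit 4451044149) (nat_lit 76) (nat_lit 172024293) (nat_lit 152) (nat_lit 17712785568) (nat_lit 5) (nat_lit 5) (nat_lit 6) (nat_lit 5) (nat_lit 7) (nat_lit 4) (nat_lit 219) (nat_lit 194) (nat_lit 187)) (XT.lf (nat_lit 0) (nat_lit 10716500040) (nat_lit 152) (nat_lit 8873159433) (nat_lit 0) (nat_lit 5558380362) (nat_lit 5) (nat_lit 5) (nat_lit 7) (nat_lit 4) (nat_lit 5) (nat_lit 4) (nat_lit 220) (nat_lit 194) (nat_lit 186))) (XT.nd (nat_lit 78) (nat_lit 0) (nat_lit 0) (XT.lf (nat_lit 0) (nat_lit 901238210) (nat_lit 76) (nat_lit 16496285632) (nat_lit 76) (nat_lit 11011409884) (nat_lit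 4) (nat_lit 4) (nat_lit 5) (nat_lit 5) (nat_lit 5) (nat_lit 4) (nat_lit 221) (nat_lit 194) (nat_lit 185)) (XT.nd (nat_lit 78) (nat_lit 0) (nat_lit 0) (XT.lf (nat_lit 0) (nat_lit 12103070236) (nat_lit 76) (nat_lit 12915278766) (nat_lit 76) (nat_lit 7146267305) (nat_lit 4) (nat_lit 4) (nat_lit 5) (nat_lit 5) (nat_lit 5) (nat_lit 4) (nat_lit 222) (nat_lit 194) (nat_lit 184)) (XT.lf (nat_lit 0) (nat_lit 24484258072) (nat_lit 76) (nat_lit 9019183599) (nat_lit 76) (nat_lit 3003097605) (nat_lit 4) (nat_lit 4) (nat_lit 5) (nat_lit 5) (nat_lit 5) (nat_lit 4) (nat_lit 223) (nat_lit 194) (nat_lit 183))))) (XT.nd (nat_lit 156) (nat_lit 0) (nat_lit 0) (XT.nd (nat_lit 78) (nat_lit 76) (nat_lit 0) (XT.lf (nat_lit 0) (nat_lit 1424167112) (nat_lit 152) (nat_lit 3268665819) (nat_lit 76) (nat_lit 36823935983) (nat_lit 3) (nat_lit 5) (nat_lit 5) (nat_lit 5) (nat_lit 4) (nat_lit 4) (nat_lit 224) (nat_lit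 194) (nat_lit 182)) (XT.lf (nat_lit 0) (nat_lit 6295050685) (nat_lit 152) (nat_lit 40628377302) (nat_lit 0) (nat_lit 352682854) (nat_lit 2) (nat_lit 5) (nat_lit 4) (nat_lit 4) (nat_lit 2) (nat_lit 4) (nat_lit 225) (nat_lit 194) (nat_lit 181))) (XT.nd (nat_lit 78) (nat_lit 0) (nat_lit 0) (XT.lf (nat_lit 0) (nat_lit 11923060232) (nat_lit 152) (nat_lit 36144256530) (nat_lit 0) (nat_lit 5830270627) (nat_lit 2) (nat_lit 5) (nat_lit 4) (nat_lit 4) (nat_lit 2) (nat_lit 4) (nat_lit 226) (nat_lit 194) (nat_lit 180)) (XT.nd (nat_lit 78) (nat_lit 0) (nat_lit 0) (XT.lf (nat_lit 0) (nat_lit 18220545828) (nat_lit 152) (nat_lit 31309069731) (nat_lit 0) (nat_lit 11996954680) (nat_lit 2) (nat_lit 5) (nat_lit 4) (nat_lit 4) (nat_lit 2) (nat_lit 4) (nat_lit 227) (nat_lit 194) (nat_lit 179)) (XT.lf (nat_lit 0) (nat_lit 25310719147) (nat_lit 152) (nat_lit 26028215424) (nat_lit 0) (nat_lit 18973387527) (nat_lit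 2) (nat_lit 5) (nat_lit 4) (nat_lit 4) (nat_lit 2) (nat_lit 4) (nat_lit 228) (nat_lit 194) (nat_lit 178)))))) (XT.nd (nat_lit 390) (nat_lit 0) (nat_lit 0) (XT.nd (nat_lit 156) (nat_lit 76) (nat_lit 0) (XT.nd (nat_lit 78) (nat_lit 0) (nat_lit 0) (XT.lf (nat_lit 0) (nat_lit 33332300973) (nat_lit 152) (nat_lit 20198372547) (nat_lit 0) (nat_lit 26896064594) (nat_lit 2) (nat_lit 5) (nat_lit 4) (nat_lit 4) (nat_lit 2) (nat_lit 4) (nat_lit 229) (nat_lit 194) (nat_lit 177)) (XT.lf (nat_lit 0) (nat_lit 42442235296) (nat_lit 152) (nat_lit 13705478955) (nat_lit 0) (nat_lit 35919994780) (nat_lit 2) (nat_lit 5) (nat_lit 4) (nat_lit 4) (nat_lit 2) (nat_lit 4) (nat_lit 230) (nat_lit 194) (nat_lit 176))) (XT.nd (nat_lit 78) (nat_lit 76) (nat_lit 0) (XT.lf (nat_lit 0) (nat_lit 52818759963) (nat_lit 152) (nat_lit 6422499775) (nat_lit 0) (nat_lit 46221733240) (nat_lit 2) (nat_lit 5) (nat_lit 4) (nat_lit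 4) (nat_lit 2) (nat_lit 4) (nat_lit 231) (nat_lit 194) (nat_lit 175)) (XT.nd (nat_lit 78) (nat_lit 0) (nat_lit 0) (XT.lf (nat_lit 0) (nat_lit 1887477323) (nat_lit 76) (nat_lit 62822810486) (nat_lit 76) (nat_lit 56160752279) (nat_lit 1) (nat_lit 4) (nat_lit 2) (nat_lit 5) (nat_lit 2) (nat_lit 4) (nat_lit 232) (nat_lit 194) (nat_lit 174)) (XT.lf (nat_lit 0) (nat_lit 11686541893) (nat_lit 76) (nat_lit 66806929117) (nat_lit 76) (nat_lit 60088321794) (nat_lit 1) (nat_lit 4) (nat_lit 2) (nat_lit 5) (nat_lit 2) (nat_lit 4) (nat_lit 233) (nat_lit 194) (nat_lit 173))))) (XT.nd (nat_lit 156) (nat_lit 0) (nat_lit 0) (XT.nd (nat_lit 78) (nat_lit 0) (nat_lit 0) (XT.lf (nat_lit 0) (nat_lit 22828217306) (nat_lit 76) (nat_lit 71447168304) (nat_lit 76) (nat_lit 64679387836) (nat_lit 1) (nat_lit 4) (nat_lit 2) (nat_lit 5) (nat_lit 2) (nat_lit 4) (nat_lit 234) (nat_lit 194) (nat_lit 172)) (XT.lf (nat_lit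 0) (nat_lit 35530492862) (nat_lit 76) (nat_lit 76834315337) (nat_lit 76) (nat_lit 70023775612) (nat_lit 1) (nat_lit 4) (nat_lit 2) (nat_lit 5) (nat_lit 2) (nat_lit 4) (nat_lit 235) (nat_lit 194) (nat_lit 171))) (XT.nd (nat_lit 78) (nat_lit 0) (nat_lit 0) (XT.lf (nat_lit 0) (nat_lit 50041891346) (nat_lit 76) (nat_lit 83073770916) (nat_lit 76) (nat_lit 76226049230) (nat_lit 1) (nat_lit 4) (nat_lit 2) (nat_lit 5) (nat_lit 2) (nat_lit 4) (nat_lit 236) (nat_lit 194) (nat_lit 170)) (XT.nd (nat_lit 78) (nat_lit 0) (nat_lit 0) (XT.lf (nat_lit 0) (nat_lit 66646331422) (nat_lit 76) (nat_lit 90287611349) (nat_lit 76) (nat_lit 83407557521) (nat_lit 1) (nat_lit 4) (nat_lit 2) (nat_lit 5) (nat_lit 2) (nat_lit 4) (nat_lit 237) (nat_lit 194) (nat_lit 169)) (XT.lf (nat_lit 0) (nat_lit 85668682571) (nat_lit 76) (nat_lit 98616976990) (nat_lit 76) (nat_lit 91708808257) (nat_lit 1) (nat_lit 4) (nat_lit 2)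 (nat_lit 5) (nat_lit 2) (nat_lit 4) (nat_lit 238) (nat_lit 194) (nat_lit 168))))))))
noncomputable def xc16 : XT := (XT.nd (nat_lit 1482) (nat_lit 0) (nat_lit 0) (XT.nd (nat_lit 702) (nat_lit 0) (nat_lit 0) (XT.nd (nat_lit 312) (nat_lit 0) (nat_lit 0) (XT.nd (nat_lit 156) (nat_lit 0) (nat_lit 0) (XT.nd (nat_lit 78) (nat_lit 0) (nat_lit 0) (XT.lf (nat_lit 0) (nat_lit 107481121228) (nat_lit 76) (nat_lit 108224833689) (nat_lit 76) (nat_lit 101292217213) (nat_lit 1) (nat_lit 4) (nat_lit 2) (nat_lit 5) (nat_lit 2) (nat_lit 4) (nat_lit 239) (nat_lit 194) (nat_lit 167)) (XT.lf (nat_lit 0) (nat_lit 132510412497) (nat_lit 76) (nat_lit 119299161252) (nat_lit 76) (nat_lit 112345285868) (nat_lit 1) (nat_lit 4) (nat_lit 2) (nat_lit 5) (nat_lit 2) (nat_lit 4) (nat_lit 240) (nat_lit 194) (nat_lit 166))) (XT.nd (nat_lit 78) (nat_lit 0) (nat_lit 0) (XT.lf (nat_lit 0) (nat_lit 161246259904) (nat_lit 76)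 (nat_lit 132056631304) (nat_lit 76) (nat_lit 125084269913) (nat_lit 1) (nat_lit 4) (nat_lit 2) (nat_lit 5) (nat_lit 2) (nat_lit 4) (nat_lit 241) (nat_lit 194) (nat_lit 165)) (XT.lf (nat_lit 0) (nat_lit 194250886549) (nat_lit 76) (nat_lit 146746846520) (nat_lit 76) (nat_lit 139758410341) (nat_lit 1) (nat_lit 4) (nat_lit 2) (nat_lit 5) (nat_lit 2) (nat_lit 4) (nat_lit 242) (nat_lit 194) (nat_lit 164)))) (XT.nd (nat_lit 156) (nat_lit 0) (nat_lit 0) (XT.nd (nat_lit 78) (nat_lit 0) (nat_lit 0) (XT.lf (nat_lit 0) (nat_lit 232170035127) (nat_lit 76) (nat_lit 163657224155) (nat_lit 76) (nat_lit 156654809900) (nat_lit 1) (nat_lit 4) (nat_lit 2) (nat_lit 5) (nat_lit 2) (nat_lit 4) (nat_lit 243) (nat_lit 194) (nat_lit 163)) (XT.lf (nat_lit 0) (nat_lit 275745602025) (nat_lit 76) (nat_lit 183118619423) (nat_lit 76) (nat_lit 176104050319) (nat_lit 1) (nat_lit 4) (nat_lit 2) (nat_lit 5) (nat_lit 2)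 (nat_lit 4) (nat_lit 244) (nat_lit 194) (nat_lit 162))) (XT.nd (nat_lit 78) (nat_lit 0) (nat_lit 0) (XT.lf (nat_lit 0) (nat_lit 325830152680) (nat_lit 76) (nat_lit 205511798754) (nat_lit 76) (nat_lit 198486660215) (nat_lit 1) (nat_lit 4) (nat_lit 2) (nat_lit 5) (nat_lit 2) (nat_lit 4) (nat_lit 245) (nat_lit 194) (nat_lit 161)) (XT.nd (nat_lit 78) (nat_lit 0) (nat_lit 0) (XT.lf (nat_lit 0) (nat_lit 383403602216) (nat_lit 76) (nat_lit 231274889569) (nat_lit 76) (nat_lit 224240560217) (nat_lit 1) (nat_lit 4) (nat_lit 2) (nat_lit 5) (nat_lit 2) (nat_lit 4) (nat_lit 246) (nat_lit 194) (nat_lit 160)) (XT.lf (nat_lit 0) (nat_lit 449592387687) (nat_lit 76) (nat_lit 260911952340) (nat_lit 76) (nat_lit 253869630978) (nat_lit 1) (nat_lit 4) (nat_lit 2) (nat_lit 5) (nat_lit 2) (nat_lit 4) (nat_lit 247) (nat_lit 194) (nat_lit 159)))))) (XT.nd (nat_lit 390) (nat_lit 0) (nat_lit 0) (XT.nd (nat_lit 156)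 (nat_lit 0) (nat_lit 0) (XT.nd (nat_lit 78) (nat_lit 0) (nat_lit 0) (XT.lf (nat_lit 0) (nat_lit 525691507071) (nat_lit 76) (nat_lit 295002842644) (nat_lit 76) (nat_lit 287953571707) (nat_lit 1) (nat_lit 4) (nat_lit 2) (nat_lit 5) (nat_lit 2) (nat_lit 4) (nat_lit 248) (nat_lit 194) (nat_lit 158)) (XT.lf (nat_lit 0) (nat_lit 613189856182) (nat_lit 76) (nat_lit 334214556160) (nat_lit 76) (nat_lit 327159242115) (nat_lit 1) (nat_lit 4) (nat_lit 2) (nat_lit 5) (nat_lit 2) (nat_lit 4) (nat_lit 249) (nat_lit 194) (nat_lit 157))) (XT.nd (nat_lit 78) (nat_lit 0) (nat_lit 0) (XT.lf (nat_lit 0) (nat_lit 713799359241) (nat_lit 76) (nat_lit 379314278588) (nat_lit 76) (nat_lit 372253709666) (nat_lit 1) (nat_lit 4) (nat_lit 2) (nat_lit 5) (nat_lit 2) (nat_lit 4) (nat_lit 250) (nat_lit 194) (nat_lit 156)) (XT.nd (nat_lit 78) (nat_lit 0) (nat_lit 0) (XT.lf (nat_lit 0) (nat_lit 829488463047) (nat_lit 76)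 (nat_lit 431184395800) (nat_lit 76) (nat_lit 424119257421) (nat_lit 1) (nat_lit 4) (nat_lit 2) (nat_lit 5) (nat_lit 2) (nat_lit 4) (nat_lit 251) (nat_lit 194) (nat_lit 155)) (XT.lf (nat_lit 0) (nat_lit 962520650066) (nat_lit 76) (nat_lit 490839757918) (nat_lit 76) (nat_lit 483770646096) (nat_lit 1) (nat_lit 4) (nat_lit 2) (nat_lit 5) (nat_lit 2) (nat_lit 4) (nat_lit 252) (nat_lit 194) (nat_lit 154))))) (XT.nd (nat_lit 156) (nat_lit 0) (nat_lit 0) (XT.nd (nat_lit 78) (nat_lit 0) (nat_lit 0) (XT.lf (nat_lit 0) (nat_lit 1115498723958) (nat_lit 76) (nat_lit 559447535068) (nat_lit 76) (nat_lit 552374968080) (nat_lit 1) (nat_lit 4) (nat_lit 2) (nat_lit 5) (nat_lit 2) (nat_lit 4) (nat_lit 253) (nat_lit 194) (nat_lit 153)) (XT.lf (nat_lit 0) (nat_lit 1291415733993) (nat_lit 76) (nat_lit 638350053326) (nat_lit 76) (nat_lit 631274481845) (nat_lit 1) (nat_lit 4) (nat_lit 2) (nat_lit 5) (nat_lit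 2) (nat_lit 4) (nat_lit 254) (nat_lit 194) (nat_lit 152))) (XT.nd (nat_lit 78) (nat_lit 0) (nat_lit 0) (XT.lf (nat_lit 0) (nat_lit 1493713534716) (nat_lit 76) (nat_lit 729091057614) (nat_lit 76) (nat_lit 722012873530) (nat_lit 1) (nat_lit 4) (nat_lit 2) (nat_lit 5) (nat_lit 2) (nat_lit 4) (nat_lit 255) (nat_lit 194) (nat_lit 151)) (XT.nd (nat_lit 78) (nat_lit 0) (nat_lit 0) (XT.lf (nat_lit 0) (nat_lit 1726350126576) (nat_lit 76) (nat_lit 833445915407) (nat_lit 76) (nat_lit 826365459495) (nat_lit 1) (nat_lit 4) (nat_lit 2) (nat_lit 5) (nat_lit 2) (nat_lit 4) (nat_lit 256) (nat_lit 194) (nat_lit 150)) (XT.lf (nat_lit 0) (nat_lit 1993877095067) (nat_lit 76) (nat_lit 953456352184) (nat_lit 76) (nat_lit 946373920770) (nat_lit 1) (nat_lit 4) (nat_lit 2) (nat_lit 5) (nat_lit 2) (nat_lit 4) (nat_lit 257) (nat_lit 194) (nat_lit 149))))))) (XT.nd (nat_lit 28080) (nat_lit 0) (nat_lit 76) (XT.nd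 (nat_lit 27690) (nat_lit 0) (nat_lit 532) (XT.nd (nat_lit 156) (nat_lit 0) (nat_lit 0) (XT.nd (nat_lit 78) (nat_lit 0) (nat_lit 0) (XT.lf (nat_lit 0) (nat_lit 2301528663483) (nat_lit 76) (nat_lit 1091470398230) (nat_lit 76) (nat_lit 1084386248987) (nat_lit 1) (nat_lit 4) (nat_lit 2) (nat_lit 5) (nat_lit 2) (nat_lit 4) (nat_lit 258) (nat_lit 194) (nat_lit 148)) (XT.lf (nat_lit 0) (nat_lit 2655324101643) (nat_lit 76) (nat_lit 1250188328358) (nat_lit 76) (nat_lit 1243102685351) (nat_lit 1) (nat_lit 4) (nat_lit 2) (nat_lit 5) (nat_lit 2) (nat_lit 4) (nat_lit 259) (nat_lit 194) (nat_lit 147))) (XT.nd (nat_lit 27378) (nat_lit 0) (nat_lit 1292) (XT.lf (nat_lit 0) (nat_lit 3062185494206) (nat_lit 76) (nat_lit 1432715493376) (nat_lit 76) (nat_lit 1425628551443) (nat_lit 1) (nat_lit 4) (nat_lit 2) (nat_lit 5) (nat_lit 2) (nat_lit 4) (nat_lit 260) (nat_lit 194) (nat_lit 146)) (XT.nd (nat_lit 78)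 (nat_lit 152) (nat_lit 0) (XT.lf (nat_lit 0) (nat_lit 1662656971) (nat_lit 228) (nat_lit 1365635826) (nat_lit 0) (nat_lit 1662656971) (nat_lit 20) (nat_lit 5) (nat_lit 23) (nat_lit 4) (nat_lit 20) (nat_lit 4) (nat_lit 210) (nat_lit 195) (nat_lit 195)) (XT.lf (nat_lit 0) (nat_lit 8320548084) (nat_lit 152) (nat_lit 1678547138) (nat_lit 152) (nat_lit 114682177) (nat_lit 18) (nat_lit 4) (nat_lit 20) (nat_lit 5) (nat_lit 20) (nat_lit 4) (nat_lit 211) (nat_lit 195) (nat_lit 194))))) (XT.nd (nat_lit 156) (nat_lit 380) (nat_lit 0) (XT.nd (nat_lit 78) (nat_lit 228) (nat_lit 0) (XT.lf (nat_lit 0) (nat_lit 6073307702) (nat_lit 152) (nat_lit 1530751012) (nat_lit 0) (nat_lit 3366134057) (nat_lit 16) (nat_lit 5) (nat_lit 18) (nat_lit 4) (nat_lit 16) (nat_lit 4) (nat_lit 212) (nat_lit 195) (nat_lit 193)) (XT.lf (nat_lit 0) (nat_lit 853086058) (nat_lit 228) (nat_lit 2027668148) (nat_lit 76) (nat_lit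 9099162486) (nat_lit 13) (nat_lit 5) (nat_lit 16) (nat_lit 5) (nat_lit 14) (nat_lit 4) (nat_lit 213) (nat_lit 195) (nat_lit 192))) (XT.nd (nat_lit 78) (nat_lit 304) (nat_lit 0) (XT.lf (nat_lit 0) (nat_lit 6924052680) (nat_lit 152) (nat_lit 3707034119) (nat_lit 0) (nat_lit 2522028743) (nat_lit 12) (nat_lit 5) (nat_lit 14) (nat_lit 4) (nat_lit 12) (nat_lit 4) (nat_lit 214) (nat_lit 195) (nat_lit 191)) (XT.nd (nat_lit 78) (nat_lit 152) (nat_lit 0) (XT.lf (nat_lit 0) (nat_lit 7673442179) (nat_lit 152) (nat_lit 6008575405) (nat_lit 152) (nat_lit 839966362) (nat_lit 10) (nat_lit 4) (nat_lit 12) (nat_lit 5) (nat_lit 12) (nat_lit 4) (nat_lit 215) (nat_lit 195) (nat_lit 190)) (XT.lf (nat_lit 0) (nat_lit 4124722957) (nat_lit 76) (nat_lit 663703843) (nat_lit 152) (nat_lit 11322980777) (nat_lit 8) (nat_lit 5) (nat_lit 9) (nat_lit 5) (nat_lit 10) (nat_lit 4) (nat_lit 216) (nat_lit 195) (nat_lit 189))))))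 (XT.nd (nat_lit 390) (nat_lit 228) (nat_lit 0) (XT.nd (nat_lit 156) (nat_lit 152) (nat_lit 0) (XT.nd (nat_lit 78) (nat_lit 76) (nat_lit 0) (XT.lf (nat_lit 0) (nat_lit 11078650080) (nat_lit 152) (nat_lit 1731752463) (nat_lit 0) (nat_lit 5138971135) (nat_lit 8) (nat_lit 5) (nat_lit 10) (nat_lit 4) (nat_lit 8) (nat_lit 4) (nat_lit 217) (nat_lit 195) (nat_lit 188)) (XT.lf (nat_lit 0) (nat_lit 9833323261) (nat_lit 76) (nat_lit 8324767979) (nat_lit 76) (nat_lit 1918383340) (nat_lit 7) (nat_lit 4) (nat_lit 8) (nat_lit 5) (nat_lit 8) (nat_lit 4) (nat_lit 218) (nat_lit 195) (nat_lit 187))) (XT.nd (nat_lit 78) (nat_lit 76) (nat_lit 0) (XT.lf (nat_lit 0) (nat_lit 3257816862) (nat_lit 152) (nat_lit 35956605) (nat_lit 76) (nat_lit 19248886705) (nat_lit 6) (nat_lit 5) (nat_lit 8) (nat_lit 5) (nat_lit 7) (nat_lit 4) (nat_lit 219) (nat_lit 195) (nat_lit 186)) (XT.nd (nat_lit 78) (nat_lit 0) (nat_lit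 0) (XT.lf (nat_lit 0) (nat_lit 9111117726) (nat_lit 152) (nat_lit 13786540642) (nat_lit 0) (nat_lit 2476754546) (nat_lit 5) (nat_lit 5) (nat_lit 7) (nat_lit 4) (nat_lit 5) (nat_lit 4) (nat_lit 220) (nat_lit 195) (nat_lit 185)) (XT.lf (nat_lit 0) (nat_lit 15627754858) (nat_lit 152) (nat_lit 4311756885) (nat_lit 0) (nat_lit 8709255964) (nat_lit 5) (nat_lit 5) (nat_lit 7) (nat_lit 4) (nat_lit 5) (nat_lit 4) (nat_lit 221) (nat_lit 195) (nat_lit 184))))) (XT.nd (nat_lit 156) (nat_lit 152) (nat_lit 0) (XT.nd (nat_lit 78) (nat_lit 0) (nat_lit 0) (XT.lf (nat_lit 0) (nat_lit 6430040085) (nat_lit 76) (nat_lit 16579680941) (nat_lit 76) (nat_lit 9414107515) (nat_lit 4) (nat_lit 4) (nat_lit 5) (nat_lit 5) (nat_lit 5) (nat_lit 4) (nat_lit 222) (nat_lit 195) (nat_lit 183)) (XT.lf (nat_lit 0) (nat_lit 18608631766) (nat_lit 76) (nat_lit 12773398811) (nat_lit 76) (nat_lit 5392977964) (nat_lit 4) (nat_lit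 4) (nat_lit 5) (nat_lit 5) (nat_lit 5) (nat_lit 4) (nat_lit 223) (nat_lit 195) (nat_lit 182))) (XT.nd (nat_lit 78) (nat_lit 152) (nat_lit 0) (XT.lf (nat_lit 0) (nat_lit 32235245473) (nat_lit 76) (nat_lit 8564085687) (nat_lit 76) (nat_lit 996840997) (nat_lit 4) (nat_lit 4) (nat_lit 5) (nat_lit 5) (nat_lit 5) (nat_lit 4) (nat_lit 224) (nat_lit 195) (nat_lit 181)) (XT.nd (nat_lit 78) (nat_lit 76) (nat_lit 0) (XT.lf (nat_lit 0) (nat_lit 3667206182) (nat_lit 152) (nat_lit 101911347) (nat_lit 76) (nat_lit 43809014770) (nat_lit 3) (nat_lit 5) (nat_lit 5) (nat_lit 5) (nat_lit 4) (nat_lit 4) (nat_lit 225) (nat_lit 195) (nat_lit 180)) (XT.lf (nat_lit 0) (nat_lit 9120653693) (nat_lit 152) (nat_lit 43260340478) (nat_lit 0) (nat_lit 1832722330) (nat_lit 2) (nat_lit 5) (nat_lit 4) (nat_lit 4) (nat_lit 2) (nat_lit 4) (nat_lit 226) (nat_lit 195) (nat_lit 179))))))))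
noncomputable def xc17 : XT := (XT.nd (nat_lit 1482) (nat_lit 0) (nat_lit 0) (XT.nd (nat_lit 702) (nat_lit 0) (nat_lit 0) (XT.nd (nat_lit 312) (nat_lit 76) (nat_lit 0) (XT.nd (nat_lit 156) (nat_lit 0) (nat_lit 0) (XT.nd (nat_lit 78) (nat_lit 0) (nat_lit 0) (XT.lf (nat_lit 0) (nat_lit 15347471793) (nat_lit 152) (nat_lit 38555205080) (nat_lit 0) (nat_lit 7945799958) (nat_lit 2) (nat_lit 5) (nat_lit 4) (nat_lit 4) (nat_lit 2) (nat_lit 4) (nat_lit 227) (nat_lit 195) (nat_lit 178)) (XT.lf (nat_lit 0) (nat_lit 22376195117) (nat_lit 152) (nat_lit 33387438948) (nat_lit 0) (nat_lit 14875618523) (nat_lit 2) (nat_lit 5) (nat_lit 4) (nat_lit 4) (nat_lit 2) (nat_lit 4) (nat_lit 228) (nat_lit 195) (nat_lit 177))) (XT.nd (nat_lit 78) (nat_lit 0) (nat_lit 0) (XT.lf (nat_lit 0) (nat_lit 30344342162) (nat_lit 152) (nat_lit 27655933613) (nat_lit 0) (nat_lit 22757761431) (nat_lit 2) (nat_lit 5) (nat_lit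 4) (nat_lit 4) (nat_lit 2) (nat_lit 4) (nat_lit 229) (nat_lit 195) (nat_lit 176)) (XT.lf (nat_lit 0) (nat_lit 39407811460) (nat_lit 152) (nat_lit 21248550929) (nat_lit 0) (nat_lit 31746444522) (nat_lit 2) (nat_lit 5) (nat_lit 4) (nat_lit 4) (nat_lit 2) (nat_lit 4) (nat_lit 230) (nat_lit 195) (nat_lit 175)))) (XT.nd (nat_lit 156) (nat_lit 76) (nat_lit 0) (XT.nd (nat_lit 78) (nat_lit 0) (nat_lit 0) (XT.lf (nat_lit 0) (nat_lit 49743931757) (nat_lit 152) (nat_lit 14039929060) (nat_lit 0) (nat_lit 42017533335) (nat_lit 2) (nat_lit 5) (nat_lit 4) (nat_lit 4) (nat_lit 2) (nat_lit 4) (nat_lit 231) (nat_lit 195) (nat_lit 174)) (XT.lf (nat_lit 0) (nat_lit 61554931494) (nat_lit 152) (nat_lit 5889029751) (nat_lit 0) (nat_lit 53771983955) (nat_lit 2) (nat_lit 5) (nat_lit 4) (nat_lit 4) (nat_lit 2) (nat_lit 4) (nat_lit 232) (nat_lit 195) (nat_lit 173))) (XT.nd (nat_lit 78) (nat_lit 0) (nat_lit 0) (XT.lf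 (nat_lit 0) (nat_lit 3540743439) (nat_lit 76) (nat_lit 71616306973) (nat_lit 76) (nat_lit 63784186290) (nat_lit 1) (nat_lit 4) (nat_lit 2) (nat_lit 5) (nat_lit 2) (nat_lit 4) (nat_lit 233) (nat_lit 195) (nat_lit 172)) (XT.nd (nat_lit 78) (nat_lit 0) (nat_lit 0) (XT.lf (nat_lit 0) (nat_lit 14630953192) (nat_lit 76) (nat_lit 76280207540) (nat_lit 76) (nat_lit 68405327601) (nat_lit 1) (nat_lit 4) (nat_lit 2) (nat_lit 5) (nat_lit 2) (nat_lit 4) (nat_lit 234) (nat_lit 195) (nat_lit 171)) (XT.lf (nat_lit 0) (nat_lit 27288476001) (nat_lit 76) (nat_lit 81687929686) (nat_lit 76) (nat_lit 73775867784) (nat_lit 1) (nat_lit 4) (nat_lit 2) (nat_lit 5) (nat_lit 2) (nat_lit 4) (nat_lit 235) (nat_lit 195) (nat_lit 170)))))) (XT.nd (nat_lit 390) (nat_lit 0) (nat_lit 0) (XT.nd (nat_lit 156) (nat_lit 0) (nat_lit 0) (XT.nd (nat_lit 78) (nat_lit 0) (nat_lit 0) (XT.lf (nat_lit 0) (nat_lit 41760959052) (nat_lit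 76) (nat_lit 87945276668) (nat_lit 76) (nat_lit 80000882625) (nat_lit 1) (nat_lit 4) (nat_lit 2) (nat_lit 5) (nat_lit 2) (nat_lit 4) (nat_lit 236) (nat_lit 195) (nat_lit 169)) (XT.lf (nat_lit 0) (nat_lit 58331559622) (nat_lit 76) (nat_lit 95174674842) (nat_lit 76) (nat_lit 87202165894) (nat_lit 1) (nat_lit 4) (nat_lit 2) (nat_lit 5) (nat_lit 2) (nat_lit 4) (nat_lit 237) (nat_lit 195) (nat_lit 168))) (XT.nd (nat_lit 78) (nat_lit 0) (nat_lit 0) (XT.lf (nat_lit 0) (nat_lit 77324485114) (nat_lit 76) (nat_lit 103517568953) (nat_lit 76) (nat_lit 95520612262) (nat_lit 1) (nat_lit 4) (nat_lit 2) (nat_lit 5) (nat_lit 2) (nat_lit 4) (nat_lit 238) (nat_lit 195) (nat_lit 167)) (XT.nd (nat_lit 78) (nat_lit 0) (nat_lit 0) (XT.lf (nat_lit 0) (nat_lit 99111336242) (nat_lit 76) (nat_lit 113137189540) (nat_lit 76) (nat_lit 105118973941) (nat_lit 1) (nat_lit 4) (nat_lit 2) (nat_lit 5) (nat_lit 2) (nat_lit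 4) (nat_lit 239) (nat_lit 195) (nat_lit 166)) (XT.lf (nat_lit 0) (nat_lit 124118377486) (nat_lit 76) (nat_lit 124221746570) (nat_lit 76) (nat_lit 116185044965) (nat_lit 1) (nat_lit 4) (nat_lit 2) (nat_lit 5) (nat_lit 2) (nat_lit 4) (nat_lit 240) (nat_lit 195) (nat_lit 165))))) (XT.nd (nat_lit 156) (nat_lit 0) (nat_lit 0) (XT.nd (nat_lit 78) (nat_lit 0) (nat_lit 0) (XT.lf (nat_lit 0) (nat_lit 152834877045) (nat_lit 76) (nat_lit 136988111812) (nat_lit 76) (nat_lit 128935335418) (nat_lit 1) (nat_lit 4) (nat_lit 2) (nat_lit 5) (nat_lit 2) (nat_lit 4) (nat_lit 241) (nat_lit 195) (nat_lit 164)) (XT.lf (nat_lit 0) (nat_lit 185822679475) (nat_lit 76) (nat_lit 151686061975) (nat_lit 76) (nat_lit 143619307505) (nat_lit 1) (nat_lit 4) (nat_lit 2) (nat_lit 5) (nat_lit 2) (nat_lit 4) (nat_lit 242) (nat_lit 195) (nat_lit 163))) (XT.nd (nat_lit 78) (nat_lit 0) (nat_lit 0) (XT.lf (nat_lit 0) (nat_lit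 223727198301) (nat_lit 76) (nat_lit 168603165651) (nat_lit 76) (nat_lit 160524256331) (nat_lit 1) (nat_lit 4) (nat_lit 2) (nat_lit 5) (nat_lit 2) (nat_lit 4) (nat_lit 243) (nat_lit 195) (nat_lit 162)) (XT.nd (nat_lit 78) (nat_lit 0) (nat_lit 0) (XT.lf (nat_lit 0) (nat_lit 267290043674) (nat_lit 76) (nat_lit 188070409650) (nat_lit 76) (nat_lit 179980930896) (nat_lit 1) (nat_lit 4) (nat_lit 2) (nat_lit 5) (nat_lit 2) (nat_lit 4) (nat_lit 244) (nat_lit 195) (nat_lit 161)) (XT.lf (nat_lit 0) (nat_lit 317363532135) (nat_lit 76) (nat_lit 210468674834) (nat_lit 76) (nat_lit 202370005268) (nat_lit 1) (nat_lit 4) (nat_lit 2) (nat_lit 5) (nat_lit 2) (nat_lit 4) (nat_lit 245) (nat_lit 195) (nat_lit 160))))))) (XT.nd (nat_lit 780) (nat_lit 0) (nat_lit 0) (XT.nd (nat_lit 390) (nat_lit 0) (nat_lit 0) (XT.nd (nat_lit 156) (nat_lit 0) (nat_lit 0) (XT.nd (nat_lit 78) (nat_lit 0) (nat_lit 0) (XT.lf (nat_lit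 0) (nat_lit 374927362371) (nat_lit 76) (nat_lit 236236188130) (nat_lit 76) (nat_lit 228129526553) (nat_lit 1) (nat_lit 4) (nat_lit 2) (nat_lit 5) (nat_lit 2) (nat_lit 4) (nat_lit 246) (nat_lit 195) (nat_lit 159)) (XT.lf (nat_lit 0) (nat_lit 441107783234) (nat_lit 76) (nat_lit 265877096537) (nat_lit 76) (nat_lit 257763485385) (nat_lit 1) (nat_lit 4) (nat_lit 2) (nat_lit 5) (nat_lit 2) (nat_lit 4) (nat_lit 247) (nat_lit 195) (nat_lit 158))) (XT.nd (nat_lit 78) (nat_lit 0) (nat_lit 0) (XT.lf (nat_lit 0) (nat_lit 517199629046) (nat_lit 76) (nat_lit 299971330872) (nat_lit 76) (nat_lit 291851676612) (nat_lit 1) (nat_lit 4) (nat_lit 2) (nat_lit 5) (nat_lit 2) (nat_lit 4) (nat_lit 248) (nat_lit 195) (nat_lit 157)) (XT.nd (nat_lit 78) (nat_lit 0) (nat_lit 0) (XT.lf (nat_lit 0) (nat_lit 604691653311) (nat_lit 76) (nat_lit 339185952241) (nat_lit 76) (nat_lit 331061043104) (nat_lit 1) (nat_lit 4)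 (nat_lit 2) (nat_lit 5) (nat_lit 2) (nat_lit 4) (nat_lit 249) (nat_lit 195) (nat_lit 156)) (XT.lf (nat_lit 0) (nat_lit 705295656504) (nat_lit 76) (nat_lit 384288203237) (nat_lit 76) (nat_lit 376158724642) (nat_lit 1) (nat_lit 4) (nat_lit 2) (nat_lit 5) (nat_lit 2) (nat_lit 4) (nat_lit 250) (nat_lit 195) (nat_lit 155))))) (XT.nd (nat_lit 156) (nat_lit 0) (nat_lit 0) (XT.nd (nat_lit 78) (nat_lit 0) (nat_lit 0) (XT.lf (nat_lit 0) (nat_lit 820979977818) (nat_lit 76) (nat_lit 436160519204) (nat_lit 76) (nat_lit 428027067168) (nat_lit 1) (nat_lit 4) (nat_lit 2) (nat_lit 5) (nat_lit 2) (nat_lit 4) (nat_lit 251) (nat_lit 195) (nat_lit 154)) (XT.lf (nat_lit 0) (nat_lit 954008006148) (nat_lit 76) (nat_lit 495817793282) (nat_lit 76) (nat_lit 487680886079) (nat_lit 1) (nat_lit 4) (nat_lit 2) (nat_lit 5) (nat_lit 2) (nat_lit 4) (nat_lit 252) (nat_lit 195) (nat_lit 153))) (XT.nd (nat_lit 78) (nat_lit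 0) (nat_lit 0) (XT.lf (nat_lit 0) (nat_lit 1106982463788) (nat_lit 76) (nat_lit 564427233007) (nat_lit 76) (nat_lit 556287321311) (nat_lit 1) (nat_lit 4) (nat_lit 2) (nat_lit 5) (nat_lit 2) (nat_lit 4) (nat_lit 253) (nat_lit 195) (nat_lit 152)) (XT.nd (nat_lit 78) (nat_lit 0) (nat_lit 0) (XT.lf (nat_lit 0) (nat_lit 1282896329258) (nat_lit 76) (nat_lit 643331196982) (nat_lit 76) (nat_lit 635188672683) (nat_lit 1) (nat_lit 4) (nat_lit 2) (nat_lit 5) (nat_lit 2) (nat_lit 4) (nat_lit 254) (nat_lit 195) (nat_lit 151)) (XT.lf (nat_lit 0) (nat_lit 1485191395575) (nat_lit 76) (nat_lit 734073458415) (nat_lit 76) (nat_lit 725928662288) (nat_lit 1) (nat_lit 4) (nat_lit 2) (nat_lit 5) (nat_lit 2) (nat_lit 4) (nat_lit 255) (nat_lit 195) (nat_lit 150)))))) (XT.nd (nat_lit 27534) (nat_lit 0) (nat_lit 1140) (XT.nd (nat_lit 156) (nat_lit 0) (nat_lit 0) (XT.nd (nat_lit 78) (nat_lit 0) (nat_lit 0) (XT.lf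 (nat_lit 0) (nat_lit 1717825609692) (nat_lit 76) (nat_lit 838429409378) (nat_lit 76) (nat_lit 830282637748) (nat_lit 1) (nat_lit 4) (nat_lit 2) (nat_lit 5) (nat_lit 2) (nat_lit 4) (nat_lit 256) (nat_lit 195) (nat_lit 149)) (XT.lf (nat_lit 0) (nat_lit 1985350510579) (nat_lit 76) (nat_lit 958440796738) (nat_lit 76) (nat_lit 950292307279) (nat_lit 1) (nat_lit 4) (nat_lit 2) (nat_lit 5) (nat_lit 2) (nat_lit 4) (nat_lit 257) (nat_lit 195) (nat_lit 148))) (XT.nd (nat_lit 78) (nat_lit 0) (nat_lit 0) (XT.lf (nat_lit 0) (nat_lit 2293000281080) (nat_lit 76) (nat_lit 1096455669376) (nat_lit 76) (nat_lit 1088305686154) (nat_lit 1) (nat_lit 4) (nat_lit 2) (nat_lit 5) (nat_lit 2) (nat_lit 4) (nat_lit 258) (nat_lit 195) (nat_lit 147)) (XT.nd (nat_lit 78) (nat_lit 0) (nat_lit 0) (XT.lf (nat_lit 0) (nat_lit 2646794155835) (nat_lit 76) (nat_lit 1255174318281) (nat_lit 76) (nat_lit 1247023036134) (nat_lit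 1) (nat_lit 4) (nat_lit 2) (nat_lit 5) (nat_lit 2) (nat_lit 4) (nat_lit 259) (nat_lit 195) (nat_lit 146)) (XT.lf (nat_lit 0) (nat_lit 3053654188915) (nat_lit 76) (nat_lit 1437702108322) (nat_lit 76) (nat_lit 1429549696675) (nat_lit 1) (nat_lit 4) (nat_lit 2) (nat_lit 5) (nat_lit 2) (nat_lit 4) (nat_lit 260) (nat_lit 195) (nat_lit 145))))) (XT.nd (nat_lit 156) (nat_lit 532) (nat_lit 0) (XT.nd (nat_lit 78) (nat_lit 228) (nat_lit 0) (XT.lf (nat_lit 0) (nat_lit 781828923) (nat_lit 228) (nat_lit 2554302468) (nat_lit 0) (nat_lit 781828923) (nat_lit 26) (nat_lit 5) (nat_lit 29) (nat_lit 4) (nat_lit 26) (nat_lit 4) (nat_lit 208) (nat_lit 196) (nat_lit 196)) (XT.lf (nat_lit 0) (nat_lit 4745416123) (nat_lit 228) (nat_lit 2984195655) (nat_lit 228) (nat_lit 1041875373) (nat_lit 23) (nat_lit 4) (nat_lit 26) (nat_lit 5) (nat_lit 26) (nat_lit 4) (nat_lit 209) (nat_lit 196) (nat_lit 195))) (XT.nd (nat_lit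 78) (nat_lit 304) (nat_lit 0) (XT.lf (nat_lit 0) (nat_lit 4770425943) (nat_lit 228) (nat_lit 3233329970) (nat_lit 0) (nat_lit 1408116277) (nat_lit 20) (nat_lit 5) (nat_lit 23) (nat_lit 4) (nat_lit 20) (nat_lit 4) (nat_lit 210) (nat_lit 196) (nat_lit 194)) (XT.nd (nat_lit 78) (nat_lit 76) (nat_lit 0) (XT.lf (nat_lit 0) (nat_lit 894387478) (nat_lit 228) (nat_lit 2861866286) (nat_lit 76) (nat_lit 6413649068) (nat_lit 17) (nat_lit 5) (nat_lit 20) (nat_lit 5) (nat_lit 18) (nat_lit 4) (nat_lit 211) (nat_lit 196) (nat_lit 193)) (XT.lf (nat_lit 0) (nat_lit 6699776475) (nat_lit 152) (nat_lit 3125201907) (nat_lit 0) (nat_lit 1232462745) (nat_lit 16) (nat_lit 5) (nat_lit 18) (nat_lit 4) (nat_lit 16) (nat_lit 4) (nat_lit 212) (nat_lit 196) (nat_lit 192))))))))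
noncomputable def xc18 : XT := (XT.nd (nat_lit 1482) (nat_lit 76) (nat_lit 0) (XT.nd (nat_lit 702) (nat_lit 228) (nat_lit 0) (XT.nd (nat_lit 312) (nat_lit 228) (nat_lit 0) (XT.nd (nat_lit 156) (nat_lit 304) (nat_lit 0) (XT.nd (nat_lit 78) (nat_lit 76) (nat_lit 0) (XT.lf (nat_lit 0) (nat_lit 1045684082) (nat_lit 228) (nat_lit 4244389539) (nat_lit 76) (nat_lit 6802587554) (nat_lit 13) (nat_lit 5) (nat_lit 16) (nat_lit 5) (nat_lit 14) (nat_lit 4) (nat_lit 213) (nat_lit 196) (nat_lit 191)) (XT.lf (nat_lit 0) (nat_lit 6746043554) (nat_lit 152) (nat_lit 6514743270) (nat_lit 0) (nat_lit 35558048) (nat_lit 12) (nat_lit 5) (nat_lit 14) (nat_lit 4) (nat_lit 12) (nat_lit 4) (nat_lit 214) (nat_lit 196) (nat_lit 190))) (XT.nd (nat_lit 78) (nat_lit 152) (nat_lit 0) (XT.lf (nat_lit 0) (nat_lit 4336705572) (nat_lit 152) (nat_lit 8865240567) (nat_lit 152) (nat_lit 1488159317) (nat_lit 10) (nat_lit 4)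 (nat_lit 12) (nat_lit 5) (nat_lit 12) (nat_lit 4) (nat_lit 215) (nat_lit 196) (nat_lit 189)) (XT.lf (nat_lit 0) (nat_lit 90729233) (nat_lit 76) (nat_lit 3778241418) (nat_lit 152) (nat_lit 12436686138) (nat_lit 8) (nat_lit 5) (nat_lit 9) (nat_lit 5) (nat_lit 10) (nat_lit 4) (nat_lit 216) (nat_lit 196) (nat_lit 188)))) (XT.nd (nat_lit 156) (nat_lit 152) (nat_lit 0) (XT.nd (nat_lit 78) (nat_lit 76) (nat_lit 0) (XT.lf (nat_lit 0) (nat_lit 9893980540) (nat_lit 152) (nat_lit 6211436046) (nat_lit 0) (nat_lit 2059932510) (nat_lit 8) (nat_lit 5) (nat_lit 10) (nat_lit 4) (nat_lit 8) (nat_lit 4) (nat_lit 217) (nat_lit 196) (nat_lit 187)) (XT.lf (nat_lit 0) (nat_lit 4819025638) (nat_lit 76) (nat_lit 11868316269) (nat_lit 76) (nat_lit 3628437199) (nat_lit 7) (nat_lit 4) (nat_lit 8) (nat_lit 5) (nat_lit 8) (nat_lit 4) (nat_lit 218) (nat_lit 196) (nat_lit 186))) (XT.nd (nat_lit 78) (nat_lit 76) (nat_lit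 0) (XT.lf (nat_lit 0) (nat_lit 1478893258) (nat_lit 152) (nat_lit 5516677647) (nat_lit 76) (nat_lit 15802393485) (nat_lit 6) (nat_lit 5) (nat_lit 8) (nat_lit 5) (nat_lit 7) (nat_lit 4) (nat_lit 219) (nat_lit 196) (nat_lit 185)) (XT.nd (nat_lit 78) (nat_lit 0) (nat_lit 0) (XT.lf (nat_lit 0) (nat_lit 5640724968) (nat_lit 76) (nat_lit 1349836168) (nat_lit 152) (nat_lit 18666796604) (nat_lit 5) (nat_lit 5) (nat_lit 6) (nat_lit 5) (nat_lit 7) (nat_lit 4) (nat_lit 220) (nat_lit 196) (nat_lit 184)) (XT.lf (nat_lit 0) (nat_lit 13350637396) (nat_lit 152) (nat_lit 10730716118) (nat_lit 0) (nat_lit 4863153422) (nat_lit 5) (nat_lit 5) (nat_lit 7) (nat_lit 4) (nat_lit 5) (nat_lit 4) (nat_lit 221) (nat_lit 196) (nat_lit 183)))))) (XT.nd (nat_lit 390) (nat_lit 0) (nat_lit 0) (XT.nd (nat_lit 156) (nat_lit 152) (nat_lit 0) (XT.nd (nat_lit 78) (nat_lit 76) (nat_lit 0) (XT.lf (nat_lit 0) (nat_lit 20470050269)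 (nat_lit 152) (nat_lit 503037269) (nat_lit 0) (nat_lit 11767718876) (nat_lit 5) (nat_lit 5) (nat_lit 7) (nat_lit 4) (nat_lit 5) (nat_lit 4) (nat_lit 222) (nat_lit 196) (nat_lit 182)) (XT.lf (nat_lit 0) (nat_lit 11472894789) (nat_lit 76) (nat_lit 17258657630) (nat_lit 76) (nat_lit 8369502393) (nat_lit 4) (nat_lit 4) (nat_lit 5) (nat_lit 5) (nat_lit 5) (nat_lit 4) (nat_lit 223) (nat_lit 196) (nat_lit 181))) (XT.nd (nat_lit 78) (nat_lit 152) (nat_lit 0) (XT.lf (nat_lit 0) (nat_lit 24946316697) (nat_lit 76) (nat_lit 13117256065) (nat_lit 76) (nat_lit 4065645312) (nat_lit 4) (nat_lit 4) (nat_lit 5) (nat_lit 5) (nat_lit 5) (nat_lit 4) (nat_lit 224) (nat_lit 196) (nat_lit 180)) (XT.nd (nat_lit 78) (nat_lit 76) (nat_lit 0) (XT.lf (nat_lit 0) (nat_lit 675686608) (nat_lit 152) (nat_lit 7787448274) (nat_lit 76) (nat_lit 39460188753) (nat_lit 3) (nat_lit 5) (nat_lit 5) (nat_lit 5) (nat_lit 4) (nat_lit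 4) (nat_lit 225) (nat_lit 196) (nat_lit 179)) (XT.lf (nat_lit 0) (nat_lit 2787502603) (nat_lit 76) (nat_lit 3031352556) (nat_lit 152) (nat_lit 48764999076) (nat_lit 2) (nat_lit 5) (nat_lit 3) (nat_lit 5) (nat_lit 4) (nat_lit 4) (nat_lit 226) (nat_lit 196) (nat_lit 178))))) (XT.nd (nat_lit 156) (nat_lit 0) (nat_lit 0) (XT.nd (nat_lit 78) (nat_lit 0) (nat_lit 0) (XT.lf (nat_lit 0) (nat_lit 11911319162) (nat_lit 152) (nat_lit 47131400307) (nat_lit 0) (nat_lit 3186751321) (nat_lit 2) (nat_lit 5) (nat_lit 4) (nat_lit 4) (nat_lit 2) (nat_lit 4) (nat_lit 227) (nat_lit 196) (nat_lit 177)) (XT.lf (nat_lit 0) (nat_lit 18886607705) (nat_lit 152) (nat_lit 42061971718) (nat_lit 0) (nat_lit 10076035727) (nat_lit 2) (nat_lit 5) (nat_lit 4) (nat_lit 4) (nat_lit 2) (nat_lit 4) (nat_lit 228) (nat_lit 196) (nat_lit 176))) (XT.nd (nat_lit 78) (nat_lit 0) (nat_lit 0) (XT.lf (nat_lit 0) (nat_lit 26808289726)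 (nat_lit 152) (nat_lit 36415977291) (nat_lit 0) (nat_lit 17922931540) (nat_lit 2) (nat_lit 5) (nat_lit 4) (nat_lit 4) (nat_lit 2) (nat_lit 4) (nat_lit 229) (nat_lit 196) (nat_lit 175)) (XT.nd (nat_lit 78) (nat_lit 0) (nat_lit 0) (XT.lf (nat_lit 0) (nat_lit 35831354653) (nat_lit 152) (nat_lit 30082951917) (nat_lit 0) (nat_lit 26880964984) (nat_lit 2) (nat_lit 5) (nat_lit 4) (nat_lit 4) (nat_lit 2) (nat_lit 4) (nat_lit 230) (nat_lit 196) (nat_lit 174)) (XT.lf (nat_lit 0) (nat_lit 46132340716) (nat_lit 152) (nat_lit 22938988578) (nat_lit 0) (nat_lit 37125401930) (nat_lit 2) (nat_lit 5) (nat_lit 4) (nat_lit 4) (nat_lit 2) (nat_lit 4) (nat_lit 231) (nat_lit 196) (nat_lit 173))))))) (XT.nd (nat_lit 780) (nat_lit 0) (nat_lit 0) (XT.nd (nat_lit 390) (nat_lit 0) (nat_lit 0) (XT.nd (nat_lit 156) (nat_lit 76) (nat_lit 0) (XT.nd (nat_lit 78) (nat_lit 0) (nat_lit 0) (XT.lf (nat_lit 0) (nat_lit 57912788944)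 (nat_lit 152) (nat_lit 14844314079) (nat_lit 0) (nat_lit 48856677013) (nat_lit 2) (nat_lit 5) (nat_lit 4) (nat_lit 4) (nat_lit 2) (nat_lit 4) (nat_lit 232) (nat_lit 196) (nat_lit 172)) (XT.lf (nat_lit 0) (nat_lit 71403186368) (nat_lit 152) (nat_lit 5640554354) (nat_lit 0) (nat_lit 62304315181) (nat_lit 2) (nat_lit 5) (nat_lit 4) (nat_lit 4) (nat_lit 2) (nat_lit 4) (nat_lit 233) (nat_lit 196) (nat_lit 171))) (XT.nd (nat_lit 78) (nat_lit 0) (nat_lit 0) (XT.lf (nat_lit 0) (nat_lit 5107881055) (nat_lit 76) (nat_lit 81882439155) (nat_lit 76) (nat_lit 72746386006) (nat_lit 1) (nat_lit 4) (nat_lit 2) (nat_lit 5) (nat_lit 2) (nat_lit 4) (nat_lit 234) (nat_lit 196) (nat_lit 170)) (XT.nd (nat_lit 78) (nat_lit 0) (nat_lit 0) (XT.lf (nat_lit 0) (nat_lit 17726488432) (nat_lit 76) (nat_lit 87308052702) (nat_lit 76) (nat_lit 78139667412) (nat_lit 1) (nat_lit 4) (nat_lit 2) (nat_lit 5) (nat_lit 2) (nat_lit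 4) (nat_lit 235) (nat_lit 196) (nat_lit 169)) (XT.lf (nat_lit 0) (nat_lit 32165131976) (nat_lit 76) (nat_lit 93580957426) (nat_lit 76) (nat_lit 84384457231) (nat_lit 1) (nat_lit 4) (nat_lit 2) (nat_lit 5) (nat_lit 2) (nat_lit 4) (nat_lit 236) (nat_lit 196) (nat_lit 168))))) (XT.nd (nat_lit 156) (nat_lit 0) (nat_lit 0) (XT.nd (nat_lit 78) (nat_lit 0) (nat_lit 0) (XT.lf (nat_lit 0) (nat_lit 48706306888) (nat_lit 76) (nat_lit 100823884071) (nat_lit 76) (nat_lit 91602936132) (nat_lit 1) (nat_lit 4) (nat_lit 2) (nat_lit 5) (nat_lit 2) (nat_lit 4) (nat_lit 237) (nat_lit 196) (nat_lit 167)) (XT.lf (nat_lit 0) (nat_lit 67673644851) (nat_lit 76) (nat_lit 109178542070) (nat_lit 76) (nat_lit 99936335224) (nat_lit 1) (nat_lit 4) (nat_lit 2) (nat_lit 5) (nat_lit 2) (nat_lit 4) (nat_lit 238) (nat_lit 196) (nat_lit 166))) (XT.nd (nat_lit 78) (nat_lit 0) (nat_lit 0) (XT.lf (nat_lit 0) (nat_lit 89438245955)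 (nat_lit 76) (nat_lit 118808392124) (nat_lit 76) (nat_lit 109547699272) (nat_lit 1) (nat_lit 4) (nat_lit 2) (nat_lit 5) (nat_lit 2) (nat_lit 4) (nat_lit 239) (nat_lit 196) (nat_lit 165)) (XT.nd (nat_lit 78) (nat_lit 0) (nat_lit 0) (XT.lf (nat_lit 0) (nat_lit 114425939351) (nat_lit 76) (nat_lit 129901844344) (nat_lit 76) (nat_lit 120625076703) (nat_lit 1) (nat_lit 4) (nat_lit 2) (nat_lit 5) (nat_lit 2) (nat_lit 4) (nat_lit 240) (nat_lit 196) (nat_lit 164)) (XT.lf (nat_lit 0) (nat_lit 143125614695) (nat_lit 76) (nat_lit 142675944532) (nat_lit 76) (nat_lit 133385198814) (nat_lit 1) (nat_lit 4) (nat_lit 2) (nat_lit 5) (nat_lit 2) (nat_lit 4) (nat_lit 241) (nat_lit 196) (nat_lit 163)))))) (XT.nd (nat_lit 390) (nat_lit 0) (nat_lit 0) (XT.nd (nat_lit 156) (nat_lit 0) (nat_lit 0) (XT.nd (nat_lit 78) (nat_lit 0) (nat_lit 0) (XT.lf (nat_lit 0) (nat_lit 176098787372) (nat_lit 76) (nat_lit 157380620736)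 (nat_lit 76) (nat_lit 148077720169) (nat_lit 1) (nat_lit 4) (nat_lit 2) (nat_lit 5) (nat_lit 2) (nat_lit 4) (nat_lit 242) (nat_lit 196) (nat_lit 162)) (XT.lf (nat_lit 0) (nat_lit 213990584674) (nat_lit 76) (nat_lit 174303573143) (nat_lit 76) (nat_lit 164990103142) (nat_lit 1) (nat_lit 4) (nat_lit 2) (nat_lit 5) (nat_lit 2) (nat_lit 4) (nat_lit 243) (nat_lit 196) (nat_lit 161))) (XT.nd (nat_lit 78) (nat_lit 0) (nat_lit 0) (XT.lf (nat_lit 0) (nat_lit 257542367853) (nat_lit 76) (nat_lit 193775902996) (nat_lit 76) (nat_lit 184453242182) (nat_lit 1) (nat_lit 4) (nat_lit 2) (nat_lit 5) (nat_lit 2) (nat_lit 4) (nat_lit 244) (nat_lit 196) (nat_lit 160)) (XT.nd (nat_lit 78) (nat_lit 0) (nat_lit 0) (XT.lf (nat_lit 0) (nat_lit 307606237014) (nat_lit 76) (nat_lit 216178590661) (nat_lit 76) (nat_lit 206847937837) (nat_lit 1) (nat_lit 4) (nat_lit 2) (nat_lit 5) (nat_lit 2) (nat_lit 4) (nat_lit 245)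 (nat_lit 196) (nat_lit 159)) (XT.lf (nat_lit 0) (nat_lit 365161702642) (nat_lit 76) (nat_lit 241949949593) (nat_lit 76) (nat_lit 232612347194) (nat_lit 1) (nat_lit 4) (nat_lit 2) (nat_lit 5) (nat_lit 2) (nat_lit 4) (nat_lit 246) (nat_lit 196) (nat_lit 158))))) (XT.nd (nat_lit 156) (nat_lit 0) (nat_lit 0) (XT.nd (nat_lit 78) (nat_lit 0) (nat_lit 0) (XT.lf (nat_lit 0) (nat_lit 431334849932) (nat_lit 76) (nat_lit 271594202031) (nat_lit 76) (nat_lit 262250556523) (nat_lit 1) (nat_lit 4) (nat_lit 2) (nat_lit 5) (nat_lit 2) (nat_lit 4) (nat_lit 247) (nat_lit 196) (nat_lit 157)) (XT.lf (nat_lit 0) (nat_lit 507420370898) (nat_lit 76) (nat_lit 305691344219) (nat_lit 76) (nat_lit 296342443834) (nat_lit 1) (nat_lit 4) (nat_lit 2) (nat_lit 5) (nat_lit 2) (nat_lit 4) (nat_lit 248) (nat_lit 196) (nat_lit 156))) (XT.nd (nat_lit 78) (nat_lit 0) (nat_lit 0) (XT.lf (nat_lit 0) (nat_lit 594906895297) (nat_lit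 76) (nat_lit 344908494156) (nat_lit 76) (nat_lit 335555024313) (nat_lit 1) (nat_lit 4) (nat_lit 2) (nat_lit 5) (nat_lit 2) (nat_lit 4) (nat_lit 249) (nat_lit 196) (nat_lit 155)) (XT.nd (nat_lit 78) (nat_lit 0) (nat_lit 0) (XT.lf (nat_lit 0) (nat_lit 695506115998) (nat_lit 76) (nat_lit 390012943906) (nat_lit 76) (nat_lit 380655500622) (nat_lit 1) (nat_lit 4) (nat_lit 2) (nat_lit 5) (nat_lit 2) (nat_lit 4) (nat_lit 250) (nat_lit 196) (nat_lit 154)) (XT.lf (nat_lit 0) (nat_lit 811186278623) (nat_lit 76) (nat_lit 441887171834) (nat_lit 76) (nat_lit 432526273383) (nat_lit 1) (nat_lit 4) (nat_lit 2) (nat_lit 5) (nat_lit 2) (nat_lit 4) (nat_lit 251) (nat_lit 196) (nat_lit 153))))))))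
noncomputable def xc19 : XT := (XT.nd (nat_lit 28548) (nat_lit 0) (nat_lit 0) (XT.nd (nat_lit 27768) (nat_lit 0) (nat_lit 608) (XT.nd (nat_lit 390) (nat_lit 0) (nat_lit 0) (XT.nd (nat_lit 156) (nat_lit 0) (nat_lit 0) (XT.nd (nat_lit 78) (nat_lit 0) (nat_lit 0) (XT.lf (nat_lit 0) (nat_lit 944210690703) (nat_lit 76) (nat_lit 501546108487) (nat_lit 76) (nat_lit 492182205543) (nat_lit 1) (nat_lit 4) (nat_lit 2) (nat_lit 5) (nat_lit 2) (nat_lit 4) (nat_lit 252) (nat_lit 196) (nat_lit 152)) (XT.lf (nat_lit 0) (nat_lit 1097182003777) (nat_lit 76) (nat_lit 570156993928) (nat_lit 76) (nat_lit 560790478382) (nat_lit 1) (nat_lit 4) (nat_lit 2) (nat_lit 5) (nat_lit 2) (nat_lit 4) (nat_lit 253) (nat_lit 196) (nat_lit 151))) (XT.nd (nat_lit 78) (nat_lit 0) (nat_lit 0) (XT.lf (nat_lit 0) (nat_lit 1273093134840) (nat_lit 76) (nat_lit 649062215048) (nat_lit 76) (nat_lit 639693427674) (nat_lit 1) (nat_lit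 4) (nat_lit 2) (nat_lit 5) (nat_lit 2) (nat_lit 4) (nat_lit 254) (nat_lit 196) (nat_lit 150)) (XT.nd (nat_lit 78) (nat_lit 0) (nat_lit 0) (XT.lf (nat_lit 0) (nat_lit 1475385823415) (nat_lit 76) (nat_lit 739805569651) (nat_lit 76) (nat_lit 730434806774) (nat_lit 1) (nat_lit 4) (nat_lit 2) (nat_lit 5) (nat_lit 2) (nat_lit 4) (nat_lit 255) (nat_lit 196) (nat_lit 149)) (XT.lf (nat_lit 0) (nat_lit 1708017969928) (nat_lit 76) (nat_lit 844162471196) (nat_lit 76) (nat_lit 834789990491) (nat_lit 1) (nat_lit 4) (nat_lit 2) (nat_lit 5) (nat_lit 2) (nat_lit 4) (nat_lit 256) (nat_lit 196) (nat_lit 148))))) (XT.nd (nat_lit 156) (nat_lit 0) (nat_lit 0) (XT.nd (nat_lit 78) (nat_lit 0) (nat_lit 0) (XT.lf (nat_lit 0) (nat_lit 1975541072899) (nat_lit 76) (nat_lit 964174685149) (nat_lit 76) (nat_lit 954800710679) (nat_lit 1) (nat_lit 4) (nat_lit 2) (nat_lit 5) (nat_lit 2) (nat_lit 4) (nat_lit 257) (nat_lit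 196) (nat_lit 147)) (XT.lf (nat_lit 0) (nat_lit 2283189279995) (nat_lit 76) (nat_lit 1102190276565) (nat_lit 76) (nat_lit 1092815003170) (nat_lit 1) (nat_lit 4) (nat_lit 2) (nat_lit 5) (nat_lit 2) (nat_lit 4) (nat_lit 258) (nat_lit 196) (nat_lit 146))) (XT.nd (nat_lit 78) (nat_lit 0) (nat_lit 0) (XT.lf (nat_lit 0) (nat_lit 2636981795267) (nat_lit 76) (nat_lit 1260909550493) (nat_lit 76) (nat_lit 1251533147598) (nat_lit 1) (nat_lit 4) (nat_lit 2) (nat_lit 5) (nat_lit 2) (nat_lit 4) (nat_lit 259) (nat_lit 196) (nat_lit 145)) (XT.nd (nat_lit 27066) (nat_lit 0) (nat_lit 2356) (XT.lf (nat_lit 0) (nat_lit 3043840646188) (nat_lit 76) (nat_lit 1443437884033) (nat_lit 76) (nat_lit 1434060498964) (nat_lit 1) (nat_lit 4) (nat_lit 2) (nat_lit 5) (nat_lit 2) (nat_lit 4) (nat_lit 260) (nat_lit 196) (nat_lit 144)) (XT.lf (nat_lit 0) (nat_lit 60770110) (nat_lit 532) (nat_lit 3586979881) (nat_lit 0) (nat_lit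 60770110) (nat_lit 32) (nat_lit 5) (nat_lit 39) (nat_lit 4) (nat_lit 32) (nat_lit 4) (nat_lit 206) (nat_lit 197) (nat_lit 197)))))) (XT.nd (nat_lit 390) (nat_lit 608) (nat_lit 0) (XT.nd (nat_lit 156) (nat_lit 684) (nat_lit 0) (XT.nd (nat_lit 78) (nat_lit 228) (nat_lit 0) (XT.lf (nat_lit 0) (nat_lit 1428586241) (nat_lit 228) (nat_lit 4389631065) (nat_lit 228) (nat_lit 1977269275) (nat_lit 29) (nat_lit 4) (nat_lit 32) (nat_lit 5) (nat_lit 32) (nat_lit 4) (nat_lit 207) (nat_lit 197) (nat_lit 196)) (XT.lf (nat_lit 0) (nat_lit 2666400453) (nat_lit 152) (nat_lit 783824617) (nat_lit 228) (nat_lit 4815582542) (nat_lit 26) (nat_lit 5) (nat_lit 28) (nat_lit 5) (nat_lit 29) (nat_lit 4) (nat_lit 208) (nat_lit 197) (nat_lit 195))) (XT.nd (nat_lit 78) (nat_lit 380) (nat_lit 0) (XT.lf (nat_lit 0) (nat_lit 403551377) (nat_lit 304) (nat_lit 5025575898) (nat_lit 76) (nat_lit 3402024699) (nat_lit 22) (nat_lit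 5) (nat_lit 26) (nat_lit 5) (nat_lit 23) (nat_lit 4) (nat_lit 209) (nat_lit 197) (nat_lit 194)) (XT.nd (nat_lit 78) (nat_lit 228) (nat_lit 0) (XT.lf (nat_lit 0) (nat_lit 4725196317) (nat_lit 152) (nat_lit 1072319193) (nat_lit 228) (nat_lit 3702797910) (nat_lit 20) (nat_lit 5) (nat_lit 22) (nat_lit 5) (nat_lit 23) (nat_lit 4) (nat_lit 210) (nat_lit 197) (nat_lit 193)) (XT.lf (nat_lit 0) (nat_lit 1435049378) (nat_lit 228) (nat_lit 4988007532) (nat_lit 76) (nat_lit 3862758157) (nat_lit 17) (nat_lit 5) (nat_lit 20) (nat_lit 5) (nat_lit 18) (nat_lit 4) (nat_lit 211) (nat_lit 197) (nat_lit 192))))) (XT.nd (nat_lit 156) (nat_lit 304) (nat_lit 0) (XT.nd (nat_lit 78) (nat_lit 228) (nat_lit 0) (XT.lf (nat_lit 0) (nat_lit 5347203774) (nat_lit 76) (nat_lit 1551056135) (nat_lit 152) (nat_lit 4303506384) (nat_lit 16) (nat_lit 5) (nat_lit 17) (nat_lit 5) (nat_lit 18) (nat_lit 4) (nat_lit 212) (nat_lit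 197) (nat_lit 191)) (XT.lf (nat_lit 0) (nat_lit 746995021) (nat_lit 228) (nat_lit 7608585266) (nat_lit 76) (nat_lit 3910149178) (nat_lit 13) (nat_lit 5) (nat_lit 16) (nat_lit 5) (nat_lit 14) (nat_lit 4) (nat_lit 213) (nat_lit 197) (nat_lit 190))) (XT.nd (nat_lit 78) (nat_lit 228) (nat_lit 0) (XT.lf (nat_lit 0) (nat_lit 2894256533) (nat_lit 76) (nat_lit 3248298682) (nat_lit 152) (nat_lit 7351969083) (nat_lit 12) (nat_lit 5) (nat_lit 13) (nat_lit 5) (nat_lit 14) (nat_lit 4) (nat_lit 214) (nat_lit 197) (nat_lit 189)) (XT.nd (nat_lit 78) (nat_lit 228) (nat_lit 0) (XT.lf (nat_lit 0) (nat_lit 12223156768) (nat_lit 152) (nat_lit 202515427) (nat_lit 0) (nat_lit 2493269114) (nat_lit 12) (nat_lit 5) (nat_lit 14) (nat_lit 4) (nat_lit 12) (nat_lit 4) (nat_lit 215) (nat_lit 197) (nat_lit 188)) (XT.lf (nat_lit 0) (nat_lit 2534599826) (nat_lit 228) (nat_lit 4961962164) (nat_lit 76) (nat_lit 9055735731)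 (nat_lit 9) (nat_lit 5) (nat_lit 12) (nat_lit 5) (nat_lit 10) (nat_lit 4) (nat_lit 216) (nat_lit 197) (nat_lit 187))))))) (XT.nd (nat_lit 780) (nat_lit 152) (nat_lit 0) (XT.nd (nat_lit 390) (nat_lit 152) (nat_lit 0) (XT.nd (nat_lit 156) (nat_lit 228) (nat_lit 0) (XT.nd (nat_lit 78) (nat_lit 0) (nat_lit 0) (XT.lf (nat_lit 0) (nat_lit 6423298493) (nat_lit 76) (nat_lit 1795704304) (nat_lit 152) (nat_lit 10220678509) (nat_lit 8) (nat_lit 5) (nat_lit 9) (nat_lit 5) (nat_lit 10) (nat_lit 4) (nat_lit 217) (nat_lit 197) (nat_lit 186)) (XT.lf (nat_lit 0) (nat_lit 14709379041) (nat_lit 152) (nat_lit 1430565547) (nat_lit 0) (nat_lit 4474790516) (nat_lit 8) (nat_lit 5) (nat_lit 10) (nat_lit 4) (nat_lit 8) (nat_lit 4) (nat_lit 218) (nat_lit 197) (nat_lit 185))) (XT.nd (nat_lit 78) (nat_lit 152) (nat_lit 0) (XT.lf (nat_lit 0) (nat_lit 10770923445) (nat_lit 76) (nat_lit 11442062224) (nat_lit 76) (nat_lit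 900607129) (nat_lit 7) (nat_lit 4) (nat_lit 8) (nat_lit 5) (nat_lit 8) (nat_lit 4) (nat_lit 219) (nat_lit 197) (nat_lit 184)) (XT.nd (nat_lit 78) (nat_lit 76) (nat_lit 0) (XT.lf (nat_lit 0) (nat_lit 4403694355) (nat_lit 152) (nat_lit 1648611332) (nat_lit 76) (nat_lit 19942876239) (nat_lit 6) (nat_lit 5) (nat_lit 8) (nat_lit 5) (nat_lit 7) (nat_lit 4) (nat_lit 220) (nat_lit 197) (nat_lit 183)) (XT.lf (nat_lit 0) (nat_lit 10499944358) (nat_lit 152) (nat_lit 18526311409) (nat_lit 0) (nat_lit 277415835) (nat_lit 5) (nat_lit 5) (nat_lit 7) (nat_lit 4) (nat_lit 5) (nat_lit 4) (nat_lit 221) (nat_lit 197) (nat_lit 182))))) (XT.nd (nat_lit 156) (nat_lit 76) (nat_lit 0) (XT.nd (nat_lit 78) (nat_lit 76) (nat_lit 0) (XT.lf (nat_lit 0) (nat_lit 17525521860) (nat_lit 152) (nat_lit 8465990364) (nat_lit 0) (nat_lit 7116169494) (nat_lit 5) (nat_lit 5) (nat_lit 7) (nat_lit 4) (nat_lit 5) (nat_lit 4) (nat_lit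 222) (nat_lit 197) (nat_lit 181)) (XT.lf (nat_lit 0) (nat_lit 2937434896) (nat_lit 76) (nat_lit 22562715123) (nat_lit 76) (nat_lit 11990907240) (nat_lit 4) (nat_lit 4) (nat_lit 5) (nat_lit 5) (nat_lit 5) (nat_lit 4) (nat_lit 223) (nat_lit 197) (nat_lit 180))) (XT.nd (nat_lit 78) (nat_lit 76) (nat_lit 0) (XT.lf (nat_lit 0) (nat_lit 16277646543) (nat_lit 76) (nat_lit 18480367086) (nat_lit 76) (nat_lit 7767293537) (nat_lit 4) (nat_lit 4) (nat_lit 5) (nat_lit 5) (nat_lit 5) (nat_lit 4) (nat_lit 224) (nat_lit 197) (nat_lit 179)) (XT.nd (nat_lit 78) (nat_lit 76) (nat_lit 0) (XT.lf (nat_lit 0) (nat_lit 31369844667) (nat_lit 76) (nat_lit 13896071267) (nat_lit 76) (nat_lit 3060158009) (nat_lit 4) (nat_lit 4) (nat_lit 5) (nat_lit 5) (nat_lit 5) (nat_lit 4) (nat_lit 225) (nat_lit 197) (nat_lit 178)) (XT.lf (nat_lit 0) (nat_lit 2111412248) (nat_lit 152) (nat_lit 6550992921) (nat_lit 76) (nat_lit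 46340169405) (nat_lit 3) (nat_lit 5) (nat_lit 5) (nat_lit 5) (nat_lit 4) (nat_lit 4) (nat_lit 226) (nat_lit 197) (nat_lit 177)))))) (XT.nd (nat_lit 390) (nat_lit 76) (nat_lit 0) (XT.nd (nat_lit 156) (nat_lit 0) (nat_lit 0) (XT.nd (nat_lit 78) (nat_lit 0) (nat_lit 0) (XT.lf (nat_lit 0) (nat_lit 5406665494) (nat_lit 76) (nat_lit 2498276986) (nat_lit 152) (nat_lit 54767257171) (nat_lit 2) (nat_lit 5) (nat_lit 3) (nat_lit 5) (nat_lit 4) (nat_lit 4) (nat_lit 227) (nat_lit 197) (nat_lit 176)) (XT.lf (nat_lit 0) (nat_lit 14773682377) (nat_lit 152) (nat_lit 52221532854) (nat_lit 0) (nat_lit 4480734258) (nat_lit 2) (nat_lit 5) (nat_lit 4) (nat_lit 4) (nat_lit 2) (nat_lit 4) (nat_lit 228) (nat_lit 197) (nat_lit 175))) (XT.nd (nat_lit 78) (nat_lit 0) (nat_lit 0) (XT.lf (nat_lit 0) (nat_lit 22654960028) (nat_lit 152) (nat_lit 46649895737) (nat_lit 0) (nat_lit 12296980424) (nat_lit 2) (nat_lit 5)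 (nat_lit 4) (nat_lit 4) (nat_lit 2) (nat_lit 4) (nat_lit 229) (nat_lit 197) (nat_lit 174)) (XT.nd (nat_lit 78) (nat_lit 0) (nat_lit 0) (XT.lf (nat_lit 0) (nat_lit 31642890721) (nat_lit 152) (nat_lit 40381528894) (nat_lit 0) (nat_lit 21228362000) (nat_lit 2) (nat_lit 5) (nat_lit 4) (nat_lit 4) (nat_lit 2) (nat_lit 4) (nat_lit 230) (nat_lit 197) (nat_lit 173)) (XT.lf (nat_lit 0) (nat_lit 41913325274) (nat_lit 152) (nat_lit 33293790365) (nat_lit 0) (nat_lit 31449623409) (nat_lit 2) (nat_lit 5) (nat_lit 4) (nat_lit 4) (nat_lit 2) (nat_lit 4) (nat_lit 231) (nat_lit 197) (nat_lit 172))))) (XT.nd (nat_lit 156) (nat_lit 76) (nat_lit 0) (XT.nd (nat_lit 78) (nat_lit 0) (nat_lit 0) (XT.lf (nat_lit 0) (nat_lit 53667206973) (nat_lit 152) (nat_lit 25248007005) (nat_lit 0) (nat_lit 43160745852) (nat_lit 2) (nat_lit 5) (nat_lit 4) (nat_lit 4) (nat_lit 2) (nat_lit 4) (nat_lit 232) (nat_lit 197) (nat_lit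 171)) (XT.lf (nat_lit 0) (nat_lit 67134503068) (nat_lit 152) (nat_lit 16086761313) (nat_lit 0) (nat_lit 56590859985) (nat_lit 2) (nat_lit 5) (nat_lit 4) (nat_lit 4) (nat_lit 2) (nat_lit 4) (nat_lit 233) (nat_lit 197) (nat_lit 170))) (XT.nd (nat_lit 78) (nat_lit 76) (nat_lit 0) (XT.lf (nat_lit 0) (nat_lit 82578704135) (nat_lit 152) (nat_lit 5630811526) (nat_lit 0) (nat_lit 72002728910) (nat_lit 2) (nat_lit 5) (nat_lit 4) (nat_lit 4) (nat_lit 2) (nat_lit 4) (nat_lit 234) (nat_lit 197) (nat_lit 169)) (XT.nd (nat_lit 78) (nat_lit 0) (nat_lit 0) (XT.lf (nat_lit 0) (nat_lit 6657447787) (nat_lit 76) (nat_lit 93804643316) (nat_lit 76) (nat_lit 83200553186) (nat_lit 1) (nat_lit 4) (nat_lit 2) (nat_lit 5) (nat_lit 2) (nat_lit 4) (nat_lit 235) (nat_lit 197) (nat_lit 168)) (XT.lf (nat_lit 0) (nat_lit 21066665674) (nat_lit 76) (nat_lit 100091076510) (nat_lit 76) (nat_lit 89462538637) (nat_lit 1) (nat_lit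 4) (nat_lit 2) (nat_lit 5) (nat_lit 2) (nat_lit 4) (nat_lit 236) (nat_lit 197) (nat_lit 167))))))))
noncomputable def xc20 : XT := (XT.nd (nat_lit 1482) (nat_lit 0) (nat_lit 0) (XT.nd (nat_lit 702) (nat_lit 0) (nat_lit 0) (XT.nd (nat_lit 312) (nat_lit 0) (nat_lit 0) (XT.nd (nat_lit 156) (nat_lit 0) (nat_lit 0) (XT.nd (nat_lit 78) (nat_lit 0) (nat_lit 0) (XT.lf (nat_lit 0) (nat_lit 37582253058) (nat_lit 76) (nat_lit 107345767042) (nat_lit 76) (nat_lit 96695970262) (nat_lit 1) (nat_lit 4) (nat_lit 2) (nat_lit 5) (nat_lit 2) (nat_lit 4) (nat_lit 237) (nat_lit 197) (nat_lit 166)) (XT.lf (nat_lit 0) (nat_lit 56527340996) (nat_lit 76) (nat_lit 115710654509) (nat_lit 76) (nat_lit 105042371722) (nat_lit 1) (nat_lit 4) (nat_lit 2) (nat_lit 5) (nat_lit 2) (nat_lit 4) (nat_lit 238) (nat_lit 197) (nat_lit 165))) (XT.nd (nat_lit 78) (nat_lit 0) (nat_lit 0) (XT.lf (nat_lit 0) (nat_lit 78272594252)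 (nat_lit 76) (nat_lit 125349399753) (nat_lit 76) (nat_lit 114665042177) (nat_lit 1) (nat_lit 4) (nat_lit 2) (nat_lit 5) (nat_lit 2) (nat_lit 4) (nat_lit 239) (nat_lit 197) (nat_lit 164)) (XT.lf (nat_lit 0) (nat_lit 103243463433) (nat_lit 76) (nat_lit 136450586919) (nat_lit 76) (nat_lit 125752251267) (nat_lit 1) (nat_lit 4) (nat_lit 2) (nat_lit 5) (nat_lit 2) (nat_lit 4) (nat_lit 240) (nat_lit 197) (nat_lit 163)))) (XT.nd (nat_lit 156) (nat_lit 0) (nat_lit 0) (XT.nd (nat_lit 78) (nat_lit 0) (nat_lit 0) (XT.lf (nat_lit 0) (nat_lit 131928509024) (nat_lit 76) (nat_lit 149231413148) (nat_lit 76) (nat_lit 138520922646) (nat_lit 1) (nat_lit 4) (nat_lit 2) (nat_lit 5) (nat_lit 2) (nat_lit 4) (nat_lit 241) (nat_lit 197) (nat_lit 162)) (XT.lf (nat_lit 0) (nat_lit 164888960177) (nat_lit 76) (nat_lit 163941938084) (nat_lit 76) (nat_lit 153220878148) (nat_lit 1) (nat_lit 4) (nat_lit 2) (nat_lit 5)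 (nat_lit 2) (nat_lit 4) (nat_lit 242) (nat_lit 197) (nat_lit 161))) (XT.nd (nat_lit 78) (nat_lit 0) (nat_lit 0) (XT.lf (nat_lit 0) (nat_lit 202769695285) (nat_lit 76) (nat_lit 180869976344) (nat_lit 76) (nat_lit 170139725596) (nat_lit 1) (nat_lit 4) (nat_lit 2) (nat_lit 5) (nat_lit 2) (nat_lit 4) (nat_lit 243) (nat_lit 197) (nat_lit 160)) (XT.nd (nat_lit 78) (nat_lit 0) (nat_lit 0) (XT.lf (nat_lit 0) (nat_lit 246311859164) (nat_lit 76) (nat_lit 200346728678) (nat_lit 76) (nat_lit 189608485919) (nat_lit 1) (nat_lit 4) (nat_lit 2) (nat_lit 5) (nat_lit 2) (nat_lit 4) (nat_lit 244) (nat_lit 197) (nat_lit 159)) (XT.lf (nat_lit 0) (nat_lit 296367363717) (nat_lit 76) (nat_lit 222753261978) (nat_lit 76) (nat_lit 212008069645) (nat_lit 1) (nat_lit 4) (nat_lit 2) (nat_lit 5) (nat_lit 2) (nat_lit 4) (nat_lit 245) (nat_lit 197) (nat_lit 158)))))) (XT.nd (nat_lit 390) (nat_lit 0) (nat_lit 0) (XT.nd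 (nat_lit 156) (nat_lit 0) (nat_lit 0) (XT.nd (nat_lit 78) (nat_lit 0) (nat_lit 0) (XT.lf (nat_lit 0) (nat_lit 353915555772) (nat_lit 76) (nat_lit 248527964941) (nat_lit 76) (nat_lit 237776729499) (nat_lit 1) (nat_lit 4) (nat_lit 2) (nat_lit 5) (nat_lit 2) (nat_lit 4) (nat_lit 246) (nat_lit 197) (nat_lit 157)) (XT.lf (nat_lit 0) (nat_lit 420082378216) (nat_lit 76) (nat_lit 278175125232) (nat_lit 76) (nat_lit 267418634914) (nat_lit 1) (nat_lit 4) (nat_lit 2) (nat_lit 5) (nat_lit 2) (nat_lit 4) (nat_lit 247) (nat_lit 197) (nat_lit 156))) (XT.nd (nat_lit 78) (nat_lit 0) (nat_lit 0) (XT.lf (nat_lit 0) (nat_lit 496162399316) (nat_lit 76) (nat_lit 312274795988) (nat_lit 76) (nat_lit 301513736211) (nat_lit 1) (nat_lit 4) (nat_lit 2) (nat_lit 5) (nat_lit 2) (nat_lit 4) (nat_lit 248) (nat_lit 197) (nat_lit 155)) (XT.nd (nat_lit 78) (nat_lit 0) (nat_lit 0) (XT.lf (nat_lit 0) (nat_lit 583644141223)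 (nat_lit 76) (nat_lit 351494144680) (nat_lit 76) (nat_lit 340729111461) (nat_lit 1) (nat_lit 4) (nat_lit 2) (nat_lit 5) (nat_lit 2) (nat_lit 4) (nat_lit 249) (nat_lit 197) (nat_lit 154)) (XT.lf (nat_lit 0) (nat_lit 684239203235) (nat_lit 76) (nat_lit 396600506391) (nat_lit 76) (nat_lit 385832018006) (nat_lit 1) (nat_lit 4) (nat_lit 2) (nat_lit 5) (nat_lit 2) (nat_lit 4) (nat_lit 250) (nat_lit 197) (nat_lit 153))))) (XT.nd (nat_lit 156) (nat_lit 0) (nat_lit 0) (XT.nd (nat_lit 78) (nat_lit 0) (nat_lit 0) (XT.lf (nat_lit 0) (nat_lit 799915749610) (nat_lit 76) (nat_lit 448476396893) (nat_lit 76) (nat_lit 437704904015) (nat_lit 1) (nat_lit 4) (nat_lit 2) (nat_lit 5) (nat_lit 2) (nat_lit 4) (nat_lit 251) (nat_lit 197) (nat_lit 152)) (XT.lf (nat_lit 0) (nat_lit 932937017123) (nat_lit 76) (nat_lit 508136779263) (nat_lit 76) (nat_lit 497362673782) (nat_lit 1) (nat_lit 4) (nat_lit 2) (nat_lit 5)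 (nat_lit 2) (nat_lit 4) (nat_lit 252) (nat_lit 197) (nat_lit 151))) (XT.nd (nat_lit 78) (nat_lit 0) (nat_lit 0) (XT.lf (nat_lit 0) (nat_lit 1085905595792) (nat_lit 76) (nat_lit 576748921850) (nat_lit 76) (nat_lit 565972544541) (nat_lit 1) (nat_lit 4) (nat_lit 2) (nat_lit 5) (nat_lit 2) (nat_lit 4) (nat_lit 253) (nat_lit 197) (nat_lit 150)) (XT.nd (nat_lit 78) (nat_lit 0) (nat_lit 0) (XT.lf (nat_lit 0) (nat_lit 1261814349112) (nat_lit 76) (nat_lit 655655236139) (nat_lit 76) (nat_lit 644876883328) (nat_lit 1) (nat_lit 4) (nat_lit 2) (nat_lit 5) (nat_lit 2) (nat_lit 4) (nat_lit 254) (nat_lit 197) (nat_lit 149)) (XT.lf (nat_lit 0) (nat_lit 1464104970083) (nat_lit 76) (nat_lit 746399541325) (nat_lit 76) (nat_lit 735619470684) (nat_lit 1) (nat_lit 4) (nat_lit 2) (nat_lit 5) (nat_lit 2) (nat_lit 4) (nat_lit 255) (nat_lit 197) (nat_lit 148))))))) (XT.nd (nat_lit 27612) (nat_lit 0) (nat_lit 532)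 (XT.nd (nat_lit 27222) (nat_lit 0) (nat_lit 1900) (XT.nd (nat_lit 156) (nat_lit 0) (nat_lit 0) (XT.nd (nat_lit 78) (nat_lit 0) (nat_lit 0) (XT.lf (nat_lit 0) (nat_lit 1696735318680) (nat_lit 76) (nat_lit 850757269463) (nat_lit 76) (nat_lit 839975705059) (nat_lit 1) (nat_lit 4) (nat_lit 2) (nat_lit 5) (nat_lit 2) (nat_lit 4) (nat_lit 256) (nat_lit 197) (nat_lit 147)) (XT.lf (nat_lit 0) (nat_lit 1964256858246) (nat_lit 76) (nat_lit 970770202193) (nat_lit 76) (nat_lit 959987338863) (nat_lit 1) (nat_lit 4) (nat_lit 2) (nat_lit 5) (nat_lit 2) (nat_lit 4) (nat_lit 257) (nat_lit 197) (nat_lit 146))) (XT.nd (nat_lit 78) (nat_lit 0) (nat_lit 0) (XT.lf (nat_lit 0) (nat_lit 2271903705859) (nat_lit 76) (nat_lit 1108786418632) (nat_lit 76) (nat_lit 1098002425802) (nat_lit 1) (nat_lit 4) (nat_lit 2) (nat_lit 5) (nat_lit 2) (nat_lit 4) (nat_lit 258) (nat_lit 197) (nat_lit 145)) (XT.nd (nat_lit 78) (nat_lit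 0) (nat_lit 0) (XT.lf (nat_lit 0) (nat_lit 2625695038972) (nat_lit 76) (nat_lit 1267506236059) (nat_lit 76) (nat_lit 1256721261055) (nat_lit 1) (nat_lit 4) (nat_lit 2) (nat_lit 5) (nat_lit 2) (nat_lit 4) (nat_lit 259) (nat_lit 197) (nat_lit 144)) (XT.lf (nat_lit 0) (nat_lit 3032552861929) (nat_lit 76) (nat_lit 1450035042206) (nat_lit 76) (nat_lit 1439249213138) (nat_lit 1) (nat_lit 4) (nat_lit 2) (nat_lit 5) (nat_lit 2) (nat_lit 4) (nat_lit 260) (nat_lit 197) (nat_lit 143))))) (XT.nd (nat_lit 156) (nat_lit 1368) (nat_lit 0) (XT.nd (nat_lit 78) (nat_lit 380) (nat_lit 0) (XT.lf (nat_lit 0) (nat_lit 2717939623) (nat_lit 228) (nat_lit 356417779) (nat_lit 228) (nat_lit 356417779) (nat_lit 49) (nat_lit 4) (nat_lit 52) (nat_lit 5) (nat_lit 52) (nat_lit 4) (nat_lit 204) (nat_lit 198) (nat_lit 198)) (XT.lf (nat_lit 0) (nat_lit 4610162957) (nat_lit 380) (nat_lit 889520496) (nat_lit 0) (nat_lit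 1614009614) (nat_lit 44) (nat_lit 5) (nat_lit 49) (nat_lit 4) (nat_lit 44) (nat_lit 4) (nat_lit 205) (nat_lit 198) (nat_lit 197))) (XT.nd (nat_lit 78) (nat_lit 912) (nat_lit 0) (XT.lf (nat_lit 0) (nat_lit 2586403695) (nat_lit 456) (nat_lit 221784390) (nat_lit 76) (nat_lit 4636231992) (nat_lit 38) (nat_lit 5) (nat_lit 44) (nat_lit 5) (nat_lit 39) (nat_lit 4) (nat_lit 206) (nat_lit 198) (nat_lit 196)) (XT.nd (nat_lit 78) (nat_lit 228) (nat_lit 0) (XT.lf (nat_lit 0) (nat_lit 569174884) (nat_lit 228) (nat_lit 7287200097) (nat_lit 228) (nat_lit 2916344) (nat_lit 29) (nat_lit 4) (nat_lit 32) (nat_lit 5) (nat_lit 32) (nat_lit 4) (nat_lit 207) (nat_lit 198) (nat_lit 195)) (XT.lf (nat_lit 0) (nat_lit 1259719753) (nat_lit 152) (nat_lit 3724941591) (nat_lit 228) (nat_lit 3370286994) (nat_lit 26) (nat_lit 5) (nat_lit 28) (nat_lit 5) (nat_lit 29) (nat_lit 4) (nat_lit 208) (nat_lit 198) (nat_lit 194))))))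 (XT.nd (nat_lit 390) (nat_lit 456) (nat_lit 0) (XT.nd (nat_lit 156) (nat_lit 456) (nat_lit 0) (XT.nd (nat_lit 78) (nat_lit 152) (nat_lit 0) (XT.lf (nat_lit 0) (nat_lit 1372270045) (nat_lit 304) (nat_lit 7048032823) (nat_lit 76) (nat_lit 531034775) (nat_lit 22) (nat_lit 5) (nat_lit 26) (nat_lit 5) (nat_lit 23) (nat_lit 4) (nat_lit 209) (nat_lit 198) (nat_lit 193)) (XT.lf (nat_lit 0) (nat_lit 2236820673) (nat_lit 152) (nat_lit 4213315050) (nat_lit 228) (nat_lit 3196941250) (nat_lit 20) (nat_lit 5) (nat_lit 22) (nat_lit 5) (nat_lit 23) (nat_lit 4) (nat_lit 210) (nat_lit 198) (nat_lit 192))) (XT.nd (nat_lit 78) (nat_lit 228) (nat_lit 0) (XT.lf (nat_lit 0) (nat_lit 1523618557) (nat_lit 228) (nat_lit 8210493361) (nat_lit 76) (nat_lit 729890685) (nat_lit 17) (nat_lit 5) (nat_lit 20) (nat_lit 5) (nat_lit 18) (nat_lit 4) (nat_lit 211) (nat_lit 198) (nat_lit 191)) (XT.nd (nat_lit 78) (nat_lit 152)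 (nat_lit 0) (XT.lf (nat_lit 0) (nat_lit 1624042260) (nat_lit 76) (nat_lit 5057595762) (nat_lit 152) (nat_lit 4723634267) (nat_lit 16) (nat_lit 5) (nat_lit 17) (nat_lit 5) (nat_lit 18) (nat_lit 4) (nat_lit 212) (nat_lit 198) (nat_lit 190)) (XT.lf (nat_lit 0) (nat_lit 315096168) (nat_lit 152) (nat_lit 12135916545) (nat_lit 152) (nat_lit 51396079) (nat_lit 14) (nat_lit 4) (nat_lit 16) (nat_lit 5) (nat_lit 16) (nat_lit 4) (nat_lit 213) (nat_lit 198) (nat_lit 189))))) (XT.nd (nat_lit 156) (nat_lit 304) (nat_lit 0) (XT.nd (nat_lit 78) (nat_lit 76) (nat_lit 0) (XT.lf (nat_lit 0) (nat_lit 5094184780) (nat_lit 228) (nat_lit 2114636472) (nat_lit 76) (nat_lit 6543317633) (nat_lit 13) (nat_lit 5) (nat_lit 16) (nat_lit 5) (nat_lit 14) (nat_lit 4) (nat_lit 214) (nat_lit 198) (nat_lit 188)) (XT.lf (nat_lit 0) (nat_lit 9401991868) (nat_lit 76) (nat_lit 1490747654) (nat_lit 152) (nat_lit 4306929984) (nat_lit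 12) (nat_lit 5) (nat_lit 13) (nat_lit 5) (nat_lit 14) (nat_lit 4) (nat_lit 215) (nat_lit 198) (nat_lit 187))) (XT.nd (nat_lit 78) (nat_lit 76) (nat_lit 0) (XT.lf (nat_lit 0) (nat_lit 666596195) (nat_lit 228) (nat_lit 11324838861) (nat_lit 76) (nat_lit 4872129771) (nat_lit 9) (nat_lit 5) (nat_lit 12) (nat_lit 5) (nat_lit 10) (nat_lit 4) (nat_lit 216) (nat_lit 198) (nat_lit 186)) (XT.nd (nat_lit 78) (nat_lit 76) (nat_lit 0) (XT.lf (nat_lit 0) (nat_lit 6060629288) (nat_lit 228) (nat_lit 486378307) (nat_lit 76) (nat_lit 12227555384) (nat_lit 9) (nat_lit 5) (nat_lit 12) (nat_lit 5) (nat_lit 10) (nat_lit 4) (nat_lit 217) (nat_lit 198) (nat_lit 185)) (XT.lf (nat_lit 0) (nat_lit 12164834759) (nat_lit 76) (nat_lit 137443068) (nat_lit 152) (nat_lit 8667571930) (nat_lit 8) (nat_lit 5) (nat_lit 9) (nat_lit 5) (nat_lit 10) (nat_lit 4) (nat_lit 218) (nat_lit 198) (nat_lit 184))))))))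
noncomputable def xc21 : XT := (XT.nd (nat_lit 1482) (nat_lit 0) (nat_lit 0) (XT.nd (nat_lit 702) (nat_lit 152) (nat_lit 0) (XT.nd (nat_lit 312) (nat_lit 152) (nat_lit 0) (XT.nd (nat_lit 156) (nat_lit 76) (nat_lit 0) (XT.nd (nat_lit 78) (nat_lit 76) (nat_lit 0) (XT.lf (nat_lit 0) (nat_lit 2815213666) (nat_lit 76) (nat_lit 16687220660) (nat_lit 76) (nat_lit 3990840235) (nat_lit 7) (nat_lit 4) (nat_lit 8) (nat_lit 5) (nat_lit 8) (nat_lit 4) (nat_lit 219) (nat_lit 198) (nat_lit 183)) (XT.lf (nat_lit 0) (nat_lit 1366517800) (nat_lit 152) (nat_lit 10086058614) (nat_lit 76) (nat_lit 14936589621) (nat_lit 6) (nat_lit 5) (nat_lit 8) (nat_lit 5) (nat_lit 7) (nat_lit 4) (nat_lit 220) (nat_lit 198) (nat_lit 182))) (XT.nd (nat_lit 78) (nat_lit 0) (nat_lit 0) (XT.lf (nat_lit 0) (nat_lit 1741750353) (nat_lit 76) (nat_lit 5408218753) (nat_lit 152) (nat_lit 22572914309) (nat_lit 5) (nat_lit 5) (nat_lit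 6) (nat_lit 5) (nat_lit 7) (nat_lit 4) (nat_lit 221) (nat_lit 198) (nat_lit 181)) (XT.lf (nat_lit 0) (nat_lit 13963882842) (nat_lit 152) (nat_lit 17936272753) (nat_lit 0) (nat_lit 1643848261) (nat_lit 5) (nat_lit 5) (nat_lit 7) (nat_lit 4) (nat_lit 5) (nat_lit 4) (nat_lit 222) (nat_lit 198) (nat_lit 180)))) (XT.nd (nat_lit 156) (nat_lit 76) (nat_lit 0) (XT.nd (nat_lit 78) (nat_lit 76) (nat_lit 0) (XT.lf (nat_lit 0) (nat_lit 21796912600) (nat_lit 152) (nat_lit 6806336426) (nat_lit 0) (nat_lit 9335612353) (nat_lit 5) (nat_lit 5) (nat_lit 7) (nat_lit 4) (nat_lit 5) (nat_lit 4) (nat_lit 223) (nat_lit 198) (nat_lit 179)) (XT.lf (nat_lit 0) (nat_lit 6059630597) (nat_lit 76) (nat_lit 24758349184) (nat_lit 76) (nat_lit 12174209227) (nat_lit 4) (nat_lit 4) (nat_lit 5) (nat_lit 5) (nat_lit 5) (nat_lit 4) (nat_lit 224) (nat_lit 198) (nat_lit 178))) (XT.nd (nat_lit 78) (nat_lit 76) (nat_lit 0) (XT.lf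 (nat_lit 0) (nat_lit 21051102626) (nat_lit 76) (nat_lit 20218706316) (nat_lit 76) (nat_lit 7527749220) (nat_lit 4) (nat_lit 4) (nat_lit 5) (nat_lit 5) (nat_lit 5) (nat_lit 4) (nat_lit 225) (nat_lit 198) (nat_lit 177)) (XT.nd (nat_lit 78) (nat_lit 76) (nat_lit 0) (XT.lf (nat_lit 0) (nat_lit 38102981455) (nat_lit 76) (nat_lit 15081598625) (nat_lit 76) (nat_lit 2297757060) (nat_lit 4) (nat_lit 4) (nat_lit 5) (nat_lit 5) (nat_lit 5) (nat_lit 4) (nat_lit 226) (nat_lit 198) (nat_lit 176)) (XT.lf (nat_lit 0) (nat_lit 3437101513) (nat_lit 152) (nat_lit 5715439519) (nat_lit 76) (nat_lit 54017812841) (nat_lit 3) (nat_lit 5) (nat_lit 5) (nat_lit 5) (nat_lit 4) (nat_lit 4) (nat_lit 227) (nat_lit 198) (nat_lit 175)))))) (XT.nd (nat_lit 390) (nat_lit 76) (nat_lit 0) (XT.nd (nat_lit 156) (nat_lit 0) (nat_lit 0) (XT.nd (nat_lit 78) (nat_lit 0) (nat_lit 0) (XT.lf (nat_lit 0) (nat_lit 7881965886) (nat_lit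 76) (nat_lit 2126116111) (nat_lit 152) (nat_lit 61989913409) (nat_lit 2) (nat_lit 5) (nat_lit 3) (nat_lit 5) (nat_lit 4) (nat_lit 4) (nat_lit 228) (nat_lit 198) (nat_lit 174)) (XT.lf (nat_lit 0) (nat_lit 17803092270) (nat_lit 152) (nat_lit 58557917792) (nat_lit 0) (nat_lit 5769835125) (nat_lit 2) (nat_lit 5) (nat_lit 4) (nat_lit 4) (nat_lit 2) (nat_lit 4) (nat_lit 229) (nat_lit 198) (nat_lit 173))) (XT.nd (nat_lit 78) (nat_lit 0) (nat_lit 0) (XT.lf (nat_lit 0) (nat_lit 26760471455) (nat_lit 152) (nat_lit 52345775758) (nat_lit 0) (nat_lit 14678041165) (nat_lit 2) (nat_lit 5) (nat_lit 4) (nat_lit 4) (nat_lit 2) (nat_lit 4) (nat_lit 230) (nat_lit 198) (nat_lit 172)) (XT.nd (nat_lit 78) (nat_lit 0) (nat_lit 0) (XT.lf (nat_lit 0) (nat_lit 37004339479) (nat_lit 152) (nat_lit 45306928368) (nat_lit 0) (nat_lit 24879149933) (nat_lit 2) (nat_lit 5) (nat_lit 4) (nat_lit 4) (nat_lit 2) (nat_lit 4)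 (nat_lit 231) (nat_lit 198) (nat_lit 171)) (XT.lf (nat_lit 0) (nat_lit 48735119848) (nat_lit 152) (nat_lit 37303659041) (nat_lit 0) (nat_lit 36572748340) (nat_lit 2) (nat_lit 5) (nat_lit 4) (nat_lit 4) (nat_lit 2) (nat_lit 4) (nat_lit 232) (nat_lit 198) (nat_lit 170))))) (XT.nd (nat_lit 156) (nat_lit 76) (nat_lit 0) (XT.nd (nat_lit 78) (nat_lit 0) (nat_lit 0) (XT.lf (nat_lit 0) (nat_lit 62182327830) (nat_lit 152) (nat_lit 28179382074) (nat_lit 0) (nat_lit 49987624181) (nat_lit 2) (nat_lit 5) (nat_lit 4) (nat_lit 4) (nat_lit 2) (nat_lit 4) (nat_lit 233) (nat_lit 198) (nat_lit 169)) (XT.lf (nat_lit 0) (nat_lit 77609060973) (nat_lit 152) (nat_lit 17755579005) (nat_lit 0) (nat_lit 65386242419) (nat_lit 2) (nat_lit 5) (nat_lit 4) (nat_lit 4) (nat_lit 2) (nat_lit 4) (nat_lit 234) (nat_lit 198) (nat_lit 168))) (XT.nd (nat_lit 78) (nat_lit 76) (nat_lit 0) (XT.lf (nat_lit 0) (nat_lit 95317146663)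 (nat_lit 152) (nat_lit 5828305859) (nat_lit 0) (nat_lit 83069880365) (nat_lit 2) (nat_lit 5) (nat_lit 4) (nat_lit 4) (nat_lit 2) (nat_lit 4) (nat_lit 235) (nat_lit 198) (nat_lit 167)) (XT.nd (nat_lit 78) (nat_lit 0) (nat_lit 0) (XT.lf (nat_lit 0) (nat_lit 8248416241) (nat_lit 76) (nat_lit 107603005815) (nat_lit 76) (nat_lit 95334480610) (nat_lit 1) (nat_lit 4) (nat_lit 2) (nat_lit 5) (nat_lit 2) (nat_lit 4) (nat_lit 236) (nat_lit 198) (nat_lit 166)) (XT.lf (nat_lit 0) (nat_lit 24741753600) (nat_lit 76) (nat_lit 114867925815) (nat_lit 76) (nat_lit 102580914603) (nat_lit 1) (nat_lit 4) (nat_lit 2) (nat_lit 5) (nat_lit 2) (nat_lit 4) (nat_lit 237) (nat_lit 198) (nat_lit 165))))))) (XT.nd (nat_lit 780) (nat_lit 0) (nat_lit 0) (XT.nd (nat_lit 390) (nat_lit 0) (nat_lit 0) (XT.nd (nat_lit 156) (nat_lit 0) (nat_lit 0) (XT.nd (nat_lit 78) (nat_lit 0) (nat_lit 0) (XT.lf (nat_lit 0) (nat_lit 43667493690)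 (nat_lit 76) (nat_lit 123241708471) (nat_lit 76) (nat_lit 110938622471) (nat_lit 1) (nat_lit 4) (nat_lit 2) (nat_lit 5) (nat_lit 2) (nat_lit 4) (nat_lit 238) (nat_lit 198) (nat_lit 164)) (XT.lf (nat_lit 0) (nat_lit 65395922730) (nat_lit 76) (nat_lit 132888188661) (nat_lit 76) (nat_lit 120571124584) (nat_lit 1) (nat_lit 4) (nat_lit 2) (nat_lit 5) (nat_lit 2) (nat_lit 4) (nat_lit 239) (nat_lit 198) (nat_lit 163))) (XT.nd (nat_lit 78) (nat_lit 0) (nat_lit 0) (XT.lf (nat_lit 0) (nat_lit 90352162159) (nat_lit 76) (nat_lit 143996101868) (nat_lit 76) (nat_lit 131666882942) (nat_lit 1) (nat_lit 4) (nat_lit 2) (nat_lit 5) (nat_lit 2) (nat_lit 4) (nat_lit 240) (nat_lit 198) (nat_lit 162)) (XT.nd (nat_lit 78) (nat_lit 0) (nat_lit 0) (XT.lf (nat_lit 0) (nat_lit 119024486226) (nat_lit 76) (nat_lit 156782776829) (nat_lit 76) (nat_lit 144442988468) (nat_lit 1) (nat_lit 4) (nat_lit 2) (nat_lit 5) (nat_lit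 2) (nat_lit 4) (nat_lit 241) (nat_lit 198) (nat_lit 161)) (XT.lf (nat_lit 0) (nat_lit 151973875185) (nat_lit 76) (nat_lit 171498387618) (nat_lit 76) (nat_lit 159149408445) (nat_lit 1) (nat_lit 4) (nat_lit 2) (nat_lit 5) (nat_lit 2) (nat_lit 4) (nat_lit 242) (nat_lit 198) (nat_lit 160))))) (XT.nd (nat_lit 156) (nat_lit 0) (nat_lit 0) (XT.nd (nat_lit 78) (nat_lit 0) (nat_lit 0) (XT.lf (nat_lit 0) (nat_lit 189844990993) (nat_lit 76) (nat_lit 188430848359) (nat_lit 76) (nat_lit 176073877176) (nat_lit 1) (nat_lit 4) (nat_lit 2) (nat_lit 5) (nat_lit 2) (nat_lit 4) (nat_lit 243) (nat_lit 198) (nat_lit 159)) (XT.lf (nat_lit 0) (nat_lit 233378790263) (nat_lit 76) (nat_lit 207911446329) (nat_lit 76) (nat_lit 195547525571) (nat_lit 1) (nat_lit 4) (nat_lit 2) (nat_lit 5) (nat_lit 2) (nat_lit 4) (nat_lit 244) (nat_lit 198) (nat_lit 158))) (XT.nd (nat_lit 78) (nat_lit 0) (nat_lit 0) (XT.lf (nat_lit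 0) (nat_lit 283427021244) (nat_lit 76) (nat_lit 230321323660) (nat_lit 76) (nat_lit 217951359794) (nat_lit 1) (nat_lit 4) (nat_lit 2) (nat_lit 5) (nat_lit 2) (nat_lit 4) (nat_lit 245) (nat_lit 198) (nat_lit 157)) (XT.nd (nat_lit 78) (nat_lit 0) (nat_lit 0) (XT.lf (nat_lit 0) (nat_lit 340968888453) (nat_lit 76) (nat_lit 256098934476) (nat_lit 76) (nat_lit 243723715733) (nat_lit 1) (nat_lit 4) (nat_lit 2) (nat_lit 5) (nat_lit 2) (nat_lit 4) (nat_lit 246) (nat_lit 198) (nat_lit 156)) (XT.lf (nat_lit 0) (nat_lit 407130211032) (nat_lit 76) (nat_lit 285748623335) (nat_lit 76) (nat_lit 273368835134) (nat_lit 1) (nat_lit 4) (nat_lit 2) (nat_lit 5) (nat_lit 2) (nat_lit 4) (nat_lit 247) (nat_lit 198) (nat_lit 155)))))) (XT.nd (nat_lit 390) (nat_lit 0) (nat_lit 0) (XT.nd (nat_lit 156) (nat_lit 0) (nat_lit 0) (XT.nd (nat_lit 78) (nat_lit 0) (nat_lit 0) (XT.lf (nat_lit 0) (nat_lit 483205449640) (nat_lit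 76) (nat_lit 319850492846) (nat_lit 76) (nat_lit 307466731203) (nat_lit 1) (nat_lit 4) (nat_lit 2) (nat_lit 5) (nat_lit 2) (nat_lit 4) (nat_lit 248) (nat_lit 198) (nat_lit 154)) (XT.lf (nat_lit 0) (nat_lit 570683032858) (nat_lit 76) (nat_lit 359071753498) (nat_lit 76) (nat_lit 346684536688) (nat_lit 1) (nat_lit 4) (nat_lit 2) (nat_lit 5) (nat_lit 2) (nat_lit 4) (nat_lit 249) (nat_lit 198) (nat_lit 153))) (XT.nd (nat_lit 78) (nat_lit 0) (nat_lit 0) (XT.lf (nat_lit 0) (nat_lit 671274478619) (nat_lit 76) (nat_lit 404179777784) (nat_lit 76) (nat_lit 391789556481) (nat_lit 1) (nat_lit 4) (nat_lit 2) (nat_lit 5) (nat_lit 2) (nat_lit 4) (nat_lit 250) (nat_lit 198) (nat_lit 152)) (XT.nd (nat_lit 78) (nat_lit 0) (nat_lit 0) (XT.lf (nat_lit 0) (nat_lit 786947880427) (nat_lit 76) (nat_lit 456057114003) (nat_lit 76) (nat_lit 443664280098) (nat_lit 1) (nat_lit 4) (nat_lit 2) (nat_lit 5) (nat_lit 2)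 (nat_lit 4) (nat_lit 251) (nat_lit 198) (nat_lit 151)) (XT.lf (nat_lit 0) (nat_lit 919966413535) (nat_lit 76) (nat_lit 515718753518) (nat_lit 76) (nat_lit 503323647784) (nat_lit 1) (nat_lit 4) (nat_lit 2) (nat_lit 5) (nat_lit 2) (nat_lit 4) (nat_lit 252) (nat_lit 198) (nat_lit 150))))) (XT.nd (nat_lit 156) (nat_lit 0) (nat_lit 0) (XT.nd (nat_lit 78) (nat_lit 0) (nat_lit 0) (XT.lf (nat_lit 0) (nat_lit 1072932614460) (nat_lit 76) (nat_lit 584331989274) (nat_lit 76) (nat_lit 571934908038) (nat_lit 1) (nat_lit 4) (nat_lit 2) (nat_lit 5) (nat_lit 2) (nat_lit 4) (nat_lit 253) (nat_lit 198) (nat_lit 149)) (XT.lf (nat_lit 0) (nat_lit 1248839300177) (nat_lit 76) (nat_lit 663239254146) (nat_lit 76) (nat_lit 650840455081) (nat_lit 1) (nat_lit 4) (nat_lit 2) (nat_lit 5) (nat_lit 2) (nat_lit 4) (nat_lit 254) (nat_lit 198) (nat_lit 148))) (XT.nd (nat_lit 78) (nat_lit 0) (nat_lit 0) (XT.lf (nat_lit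 0) (nat_lit 1451128123232) (nat_lit 76) (nat_lit 753984385925) (nat_lit 76) (nat_lit 741584093096) (nat_lit 1) (nat_lit 4) (nat_lit 2) (nat_lit 5) (nat_lit 2) (nat_lit 4) (nat_lit 255) (nat_lit 198) (nat_lit 147)) (XT.nd (nat_lit 78) (nat_lit 0) (nat_lit 0) (XT.lf (nat_lit 0) (nat_lit 1683756908424) (nat_lit 76) (nat_lit 858342832840) (nat_lit 76) (nat_lit 845941241086) (nat_lit 1) (nat_lit 4) (nat_lit 2) (nat_lit 5) (nat_lit 2) (nat_lit 4) (nat_lit 256) (nat_lit 198) (nat_lit 146)) (XT.lf (nat_lit 0) (nat_lit 1951277088507) (nat_lit 76) (nat_lit 978356390593) (nat_lit 76) (nat_lit 965953669339) (nat_lit 1) (nat_lit 4) (nat_lit 2) (nat_lit 5) (nat_lit 2) (nat_lit 4) (nat_lit 257) (nat_lit 198) (nat_lit 145))))))))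
noncomputable def xc22 : XT := (XT.nd (nat_lit 28158) (nat_lit 0) (nat_lit 0) (XT.nd (nat_lit 27378) (nat_lit 0) (nat_lit 608) (XT.nd (nat_lit 26988) (nat_lit 0) (nat_lit 2280) (XT.nd (nat_lit 156) (nat_lit 0) (nat_lit 0) (XT.nd (nat_lit 78) (nat_lit 0) (nat_lit 0) (XT.lf (nat_lit 0) (nat_lit 2258922753961) (nat_lit 76) (nat_lit 1116373150531) (nat_lit 76) (nat_lit 1103969447102) (nat_lit 1) (nat_lit 4) (nat_lit 2) (nat_lit 5) (nat_lit 2) (nat_lit 4) (nat_lit 258) (nat_lit 198) (nat_lit 144)) (XT.lf (nat_lit 0) (nat_lit 2612713059110) (nat_lit 76) (nat_lit 1275093440565) (nat_lit 76) (nat_lit 1262688883072) (nat_lit 1) (nat_lit 4) (nat_lit 2) (nat_lit 5) (nat_lit 2) (nat_lit 4) (nat_lit 259) (nat_lit 198) (nat_lit 143))) (XT.nd (nat_lit 26754) (nat_lit 0) (nat_lit 4104) (XT.lf (nat_lit 0) (nat_lit 3019569988185) (nat_lit 76) (nat_lit 1457622657675) (nat_lit 76) (nat_lit 1445217357517)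 (nat_lit 1) (nat_lit 4) (nat_lit 2) (nat_lit 5) (nat_lit 2) (nat_lit 4) (nat_lit 260) (nat_lit 198) (nat_lit 142)) (XT.lf (nat_lit 0) (nat_lit 2475122157) (nat_lit 76) (nat_lit 398200060) (nat_lit 76) (nat_lit 398200060) (nat_lit 55) (nat_lit 4) (nat_lit 56) (nat_lit 5) (nat_lit 56) (nat_lit 4) (nat_lit 202) (nat_lit 199) (nat_lit 199)))) (XT.nd (nat_lit 156) (nat_lit 1292) (nat_lit 0) (XT.nd (nat_lit 78) (nat_lit 304) (nat_lit 0) (XT.lf (nat_lit 0) (nat_lit 4293936845) (nat_lit 228) (nat_lit 1814831758) (nat_lit 0) (nat_lit 572714392) (nat_lit 52) (nat_lit 5) (nat_lit 55) (nat_lit 4) (nat_lit 52) (nat_lit 4) (nat_lit 203) (nat_lit 199) (nat_lit 198)) (XT.lf (nat_lit 0) (nat_lit 2460969100) (nat_lit 304) (nat_lit 1838252333) (nat_lit 76) (nat_lit 2591563408) (nat_lit 48) (nat_lit 5) (nat_lit 52) (nat_lit 5) (nat_lit 49) (nat_lit 4) (nat_lit 204) (nat_lit 199) (nat_lit 197))) (XT.nd (nat_lit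 78) (nat_lit 912) (nat_lit 0) (XT.lf (nat_lit 0) (nat_lit 158813785) (nat_lit 380) (nat_lit 1676251236) (nat_lit 76) (nat_lit 5341362229) (nat_lit 43) (nat_lit 5) (nat_lit 48) (nat_lit 5) (nat_lit 44) (nat_lit 5) (nat_lit 205) (nat_lit 199) (nat_lit 196)) (XT.nd (nat_lit 78) (nat_lit 532) (nat_lit 0) (XT.lf (nat_lit 0) (nat_lit 4735110636) (nat_lit 456) (nat_lit 1463572673) (nat_lit 76) (nat_lit 1337014581) (nat_lit 38) (nat_lit 5) (nat_lit 44) (nat_lit 5) (nat_lit 39) (nat_lit 4) (nat_lit 206) (nat_lit 199) (nat_lit 195)) (XT.lf (nat_lit 0) (nat_lit 1592599550) (nat_lit 532) (nat_lit 1217049577) (nat_lit 76) (nat_lit 5167540698) (nat_lit 31) (nat_lit 5) (nat_lit 38) (nat_lit 5) (nat_lit 32) (nat_lit 5) (nat_lit 207) (nat_lit 199) (nat_lit 194)))))) (XT.nd (nat_lit 390) (nat_lit 608) (nat_lit 0) (XT.nd (nat_lit 156) (nat_lit 608) (nat_lit 0) (XT.nd (nat_lit 78) (nat_lit 228) (nat_lit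 0) (XT.lf (nat_lit 0) (nat_lit 6183315757) (nat_lit 304) (nat_lit 1023594570) (nat_lit 76) (nat_lit 1299270334) (nat_lit 28) (nat_lit 5) (nat_lit 32) (nat_lit 5) (nat_lit 29) (nat_lit 4) (nat_lit 208) (nat_lit 199) (nat_lit 193)) (XT.lf (nat_lit 0) (nat_lit 2034222627) (nat_lit 228) (nat_lit 998457291) (nat_lit 76) (nat_lit 6095810672) (nat_lit 25) (nat_lit 5) (nat_lit 28) (nat_lit 5) (nat_lit 26) (nat_lit 5) (nat_lit 209) (nat_lit 199) (nat_lit 192))) (XT.nd (nat_lit 78) (nat_lit 380) (nat_lit 0) (XT.lf (nat_lit 0) (nat_lit 6736594072) (nat_lit 304) (nat_lit 1231900245) (nat_lit 76) (nat_lit 1886896887) (nat_lit 22) (nat_lit 5) (nat_lit 26) (nat_lit 5) (nat_lit 23) (nat_lit 4) (nat_lit 210) (nat_lit 199) (nat_lit 191)) (XT.nd (nat_lit 78) (nat_lit 152) (nat_lit 0) (XT.lf (nat_lit 0) (nat_lit 1286271592) (nat_lit 228) (nat_lit 1869277675) (nat_lit 76) (nat_lit 7542446953) (nat_lit 19)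 (nat_lit 5) (nat_lit 22) (nat_lit 5) (nat_lit 20) (nat_lit 5) (nat_lit 211) (nat_lit 199) (nat_lit 190)) (XT.lf (nat_lit 0) (nat_lit 6093268281) (nat_lit 228) (nat_lit 3112493668) (nat_lit 76) (nat_lit 2462371151) (nat_lit 17) (nat_lit 5) (nat_lit 20) (nat_lit 5) (nat_lit 18) (nat_lit 4) (nat_lit 212) (nat_lit 199) (nat_lit 189))))) (XT.nd (nat_lit 156) (nat_lit 304) (nat_lit 0) (XT.nd (nat_lit 78) (nat_lit 228) (nat_lit 0) (XT.lf (nat_lit 0) (nat_lit 7661455409) (nat_lit 76) (nat_lit 3936645111) (nat_lit 152) (nat_lit 1189015411) (nat_lit 16) (nat_lit 5) (nat_lit 17) (nat_lit 5) (nat_lit 18) (nat_lit 4) (nat_lit 213) (nat_lit 199) (nat_lit 188)) (XT.lf (nat_lit 0) (nat_lit 3626582079) (nat_lit 228) (nat_lit 8244217088) (nat_lit 76) (nat_lit 2199736839) (nat_lit 13) (nat_lit 5) (nat_lit 16) (nat_lit 5) (nat_lit 14) (nat_lit 4) (nat_lit 214) (nat_lit 199) (nat_lit 187))) (XT.nd (nat_lit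 78) (nat_lit 228) (nat_lit 0) (XT.lf (nat_lit 0) (nat_lit 2721500665) (nat_lit 76) (nat_lit 6404638662) (nat_lit 152) (nat_lit 6416325240) (nat_lit 12) (nat_lit 5) (nat_lit 13) (nat_lit 5) (nat_lit 14) (nat_lit 4) (nat_lit 215) (nat_lit 199) (nat_lit 186)) (XT.nd (nat_lit 78) (nat_lit 228) (nat_lit 0) (XT.lf (nat_lit 0) (nat_lit 15404802448) (nat_lit 76) (nat_lit 16971651) (nat_lit 152) (nat_lit 1816610719) (nat_lit 12) (nat_lit 5) (nat_lit 13) (nat_lit 5) (nat_lit 14) (nat_lit 4) (nat_lit 216) (nat_lit 199) (nat_lit 185)) (XT.lf (nat_lit 0) (nat_lit 3502098223) (nat_lit 228) (nat_lit 8484540184) (nat_lit 76) (nat_lit 7179870361) (nat_lit 9) (nat_lit 5) (nat_lit 12) (nat_lit 5) (nat_lit 10) (nat_lit 4) (nat_lit 217) (nat_lit 199) (nat_lit 184))))))) (XT.nd (nat_lit 780) (nat_lit 228) (nat_lit 0) (XT.nd (nat_lit 390) (nat_lit 76) (nat_lit 0) (XT.nd (nat_lit 156) (nat_lit 228) (nat_lit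 0) (XT.nd (nat_lit 78) (nat_lit 0) (nat_lit 0) (XT.lf (nat_lit 0) (nat_lit 3566030043) (nat_lit 76) (nat_lit 5868163354) (nat_lit 152) (nat_lit 11952657517) (nat_lit 8) (nat_lit 5) (nat_lit 9) (nat_lit 5) (nat_lit 10) (nat_lit 4) (nat_lit 218) (nat_lit 199) (nat_lit 183)) (XT.lf (nat_lit 0) (nat_lit 16334202926) (nat_lit 152) (nat_lit 6365847951) (nat_lit 0) (nat_lit 1234489727) (nat_lit 8) (nat_lit 5) (nat_lit 10) (nat_lit 4) (nat_lit 8) (nat_lit 4) (nat_lit 219) (nat_lit 199) (nat_lit 182))) (XT.nd (nat_lit 78) (nat_lit 152) (nat_lit 0) (XT.lf (nat_lit 0) (nat_lit 6675677000) (nat_lit 76) (nat_lit 17739493216) (nat_lit 76) (nat_lit 2438010266) (nat_lit 7) (nat_lit 4) (nat_lit 8) (nat_lit 5) (nat_lit 8) (nat_lit 4) (nat_lit 220) (nat_lit 199) (nat_lit 181)) (XT.nd (nat_lit 78) (nat_lit 76) (nat_lit 0) (XT.lf (nat_lit 0) (nat_lit 3348740219) (nat_lit 152) (nat_lit 8511555251) (nat_lit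 76) (nat_lit 18340963151) (nat_lit 6) (nat_lit 5) (nat_lit 8) (nat_lit 5) (nat_lit 7) (nat_lit 4) (nat_lit 221) (nat_lit 199) (nat_lit 180)) (XT.lf (nat_lit 0) (nat_lit 4829091000) (nat_lit 76) (nat_lit 5006770935) (nat_lit 152) (nat_lit 24212814595) (nat_lit 5) (nat_lit 5) (nat_lit 6) (nat_lit 5) (nat_lit 7) (nat_lit 4) (nat_lit 222) (nat_lit 199) (nat_lit 179))))) (XT.nd (nat_lit 156) (nat_lit 76) (nat_lit 0) (XT.nd (nat_lit 78) (nat_lit 0) (nat_lit 0) (XT.lf (nat_lit 0) (nat_lit 17486780452) (nat_lit 152) (nat_lit 18079276715) (nat_lit 0) (nat_lit 2892179792) (nat_lit 5) (nat_lit 5) (nat_lit 7) (nat_lit 4) (nat_lit 5) (nat_lit 4) (nat_lit 223) (nat_lit 199) (nat_lit 178)) (XT.lf (nat_lit 0) (nat_lit 26308462693) (nat_lit 152) (nat_lit 5612124324) (nat_lit 0) (nat_lit 11607044894) (nat_lit 5) (nat_lit 5) (nat_lit 7) (nat_lit 4) (nat_lit 5) (nat_lit 4) (nat_lit 224) (nat_lit 199) (nat_lit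 177))) (XT.nd (nat_lit 78) (nat_lit 0) (nat_lit 0) (XT.lf (nat_lit 0) (nat_lit 8996235274) (nat_lit 76) (nat_lit 27573218229) (nat_lit 76) (nat_lit 12778915961) (nat_lit 4) (nat_lit 4) (nat_lit 5) (nat_lit 5) (nat_lit 5) (nat_lit 4) (nat_lit 225) (nat_lit 199) (nat_lit 176)) (XT.nd (nat_lit 78) (nat_lit 0) (nat_lit 0) (XT.lf (nat_lit 0) (nat_lit 25971950704) (nat_lit 76) (nat_lit 22469874583) (nat_lit 76) (nat_lit 7594803212) (nat_lit 4) (nat_lit 4) (nat_lit 5) (nat_lit 5) (nat_lit 5) (nat_lit 4) (nat_lit 226) (nat_lit 199) (nat_lit 175)) (XT.lf (nat_lit 0) (nat_lit 45351631008) (nat_lit 76) (nat_lit 16664153478) (nat_lit 76) (nat_lit 1718848105) (nat_lit 4) (nat_lit 4) (nat_lit 5) (nat_lit 5) (nat_lit 5) (nat_lit 4) (nat_lit 227) (nat_lit 199) (nat_lit 174)))))) (XT.nd (nat_lit 390) (nat_lit 76) (nat_lit 0) (XT.nd (nat_lit 156) (nat_lit 0) (nat_lit 0) (XT.nd (nat_lit 78) (nat_lit 76)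 (nat_lit 0) (XT.lf (nat_lit 0) (nat_lit 4715598633) (nat_lit 152) (nat_lit 5197933262) (nat_lit 76) (nat_lit 62669912386) (nat_lit 3) (nat_lit 5) (nat_lit 5) (nat_lit 5) (nat_lit 4) (nat_lit 4) (nat_lit 228) (nat_lit 199) (nat_lit 173)) (XT.lf (nat_lit 0) (nat_lit 10322711104) (nat_lit 76) (nat_lit 1880267991) (nat_lit 152) (nat_lit 70537978994) (nat_lit 2) (nat_lit 5) (nat_lit 3) (nat_lit 5) (nat_lit 4) (nat_lit 4) (nat_lit 229) (nat_lit 199) (nat_lit 172))) (XT.nd (nat_lit 78) (nat_lit 0) (nat_lit 0) (XT.lf (nat_lit 0) (nat_lit 21088571261) (nat_lit 152) (nat_lit 66209775600) (nat_lit 0) (nat_lit 7101844027) (nat_lit 2) (nat_lit 5) (nat_lit 4) (nat_lit 4) (nat_lit 2) (nat_lit 4) (nat_lit 230) (nat_lit 199) (nat_lit 171)) (XT.nd (nat_lit 78) (nat_lit 0) (nat_lit 0) (XT.lf (nat_lit 0) (nat_lit 31309337956) (nat_lit 152) (nat_lit 59213442244) (nat_lit 0) (nat_lit 17285428759) (nat_lit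 2) (nat_lit 5) (nat_lit 4) (nat_lit 4) (nat_lit 2) (nat_lit 4) (nat_lit 231) (nat_lit 199) (nat_lit 170)) (XT.lf (nat_lit 0) (nat_lit 43020030212) (nat_lit 152) (nat_lit 51247141642) (nat_lit 0) (nat_lit 28963788875) (nat_lit 2) (nat_lit 5) (nat_lit 4) (nat_lit 4) (nat_lit 2) (nat_lit 4) (nat_lit 232) (nat_lit 199) (nat_lit 169))))) (XT.nd (nat_lit 156) (nat_lit 76) (nat_lit 0) (XT.nd (nat_lit 78) (nat_lit 0) (nat_lit 0) (XT.lf (nat_lit 0) (nat_lit 56449770270) (nat_lit 152) (nat_lit 42155011392) (nat_lit 0) (nat_lit 42365414028) (nat_lit 2) (nat_lit 5) (nat_lit 4) (nat_lit 4) (nat_lit 2) (nat_lit 4) (nat_lit 233) (nat_lit 199) (nat_lit 168)) (XT.lf (nat_lit 0) (nat_lit 71861313913) (nat_lit 152) (nat_lit 31759161990) (nat_lit 0) (nat_lit 57752509927) (nat_lit 2) (nat_lit 5) (nat_lit 4) (nat_lit 4) (nat_lit 2) (nat_lit 4) (nat_lit 234) (nat_lit 199) (nat_lit 167))) (XT.nd (nat_lit 78)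 (nat_lit 76) (nat_lit 0) (XT.lf (nat_lit 0) (nat_lit 89556191343) (nat_lit 152) (nat_lit 19856196380) (nat_lit 0) (nat_lit 75426128450) (nat_lit 2) (nat_lit 5) (nat_lit 4) (nat_lit 4) (nat_lit 2) (nat_lit 4) (nat_lit 235) (nat_lit 199) (nat_lit 166)) (XT.nd (nat_lit 78) (nat_lit 76) (nat_lit 0) (XT.lf (nat_lit 0) (nat_lit 109880606684) (nat_lit 152) (nat_lit 6213230455) (nat_lit 0) (nat_lit 95732057784) (nat_lit 2) (nat_lit 5) (nat_lit 4) (nat_lit 4) (nat_lit 2) (nat_lit 4) (nat_lit 236) (nat_lit 199) (nat_lit 165)) (XT.lf (nat_lit 0) (nat_lit 9933581350) (nat_lit 76) (nat_lit 123537533060) (nat_lit 76) (nat_lit 109372909371) (nat_lit 1) (nat_lit 4) (nat_lit 2) (nat_lit 5) (nat_lit 2) (nat_lit 4) (nat_lit 237) (nat_lit 199) (nat_lit 164))))))))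
noncomputable def xc23 : XT := (XT.nd (nat_lit 1560) (nat_lit 0) (nat_lit 0) (XT.nd (nat_lit 780) (nat_lit 0) (nat_lit 0) (XT.nd (nat_lit 390) (nat_lit 0) (nat_lit 0) (XT.nd (nat_lit 156) (nat_lit 0) (nat_lit 0) (XT.nd (nat_lit 78) (nat_lit 0) (nat_lit 0) (XT.lf (nat_lit 0) (nat_lit 28842497225) (nat_lit 76) (nat_lit 131919050663) (nat_lit 76) (nat_lit 117740448898) (nat_lit 1) (nat_lit 4) (nat_lit 2) (nat_lit 5) (nat_lit 2) (nat_lit 4) (nat_lit 238) (nat_lit 199) (nat_lit 163)) (XT.lf (nat_lit 0) (nat_lit 50556296513) (nat_lit 76) (nat_lit 141572256894) (nat_lit 76) (nat_lit 127381500280) (nat_lit 1) (nat_lit 4) (nat_lit 2) (nat_lit 5) (nat_lit 2) (nat_lit 4) (nat_lit 239) (nat_lit 199) (nat_lit 162))) (XT.nd (nat_lit 78) (nat_lit 0) (nat_lit 0) (XT.lf (nat_lit 0) (nat_lit 75499814418) (nat_lit 76) (nat_lit 152686018833) (nat_lit 76) (nat_lit 138484692784) (nat_lit 1) (nat_lit 4) (nat_lit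 2) (nat_lit 5) (nat_lit 2) (nat_lit 4) (nat_lit 240) (nat_lit 199) (nat_lit 161)) (XT.nd (nat_lit 78) (nat_lit 0) (nat_lit 0) (XT.lf (nat_lit 0) (nat_lit 104161076290) (nat_lit 76) (nat_lit 165477779646) (nat_lit 76) (nat_lit 151267262785) (nat_lit 1) (nat_lit 4) (nat_lit 2) (nat_lit 5) (nat_lit 2) (nat_lit 4) (nat_lit 241) (nat_lit 199) (nat_lit 160)) (XT.lf (nat_lit 0) (nat_lit 137100845949) (nat_lit 76) (nat_lit 180197812916) (nat_lit 76) (nat_lit 165979304044) (nat_lit 1) (nat_lit 4) (nat_lit 2) (nat_lit 5) (nat_lit 2) (nat_lit 4) (nat_lit 242) (nat_lit 199) (nat_lit 159))))) (XT.nd (nat_lit 156) (nat_lit 0) (nat_lit 0) (XT.nd (nat_lit 78) (nat_lit 0) (nat_lit 0) (XT.lf (nat_lit 0) (nat_lit 174963597149) (nat_lit 76) (nat_lit 197134119293) (nat_lit 76) (nat_lit 182908660847) (nat_lit 1) (nat_lit 4) (nat_lit 2) (nat_lit 5) (nat_lit 2) (nat_lit 4) (nat_lit 243) (nat_lit 199) (nat_lit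 158)) (XT.lf (nat_lit 0) (nat_lit 218490122847) (nat_lit 76) (nat_lit 216618061294) (nat_lit 76) (nat_lit 202386559739) (nat_lit 1) (nat_lit 4) (nat_lit 2) (nat_lit 5) (nat_lit 2) (nat_lit 4) (nat_lit 244) (nat_lit 199) (nat_lit 157))) (XT.nd (nat_lit 78) (nat_lit 0) (nat_lit 0) (XT.lf (nat_lit 0) (nat_lit 268532028981) (nat_lit 76) (nat_lit 239030846479) (nat_lit 76) (nat_lit 224794090047) (nat_lit 1) (nat_lit 4) (nat_lit 2) (nat_lit 5) (nat_lit 2) (nat_lit 4) (nat_lit 245) (nat_lit 199) (nat_lit 156)) (XT.nd (nat_lit 78) (nat_lit 0) (nat_lit 0) (XT.lf (nat_lit 0) (nat_lit 326068396325) (nat_lit 76) (nat_lit 264810985862) (nat_lit 76) (nat_lit 250569659973) (nat_lit 1) (nat_lit 4) (nat_lit 2) (nat_lit 5) (nat_lit 2) (nat_lit 4) (nat_lit 246) (nat_lit 199) (nat_lit 155)) (XT.lf (nat_lit 0) (nat_lit 392224936411) (nat_lit 76) (nat_lit 294462873476) (nat_lit 76) (nat_lit 280217574145) (nat_lit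 1) (nat_lit 4) (nat_lit 2) (nat_lit 5) (nat_lit 2) (nat_lit 4) (nat_lit 247) (nat_lit 199) (nat_lit 154)))))) (XT.nd (nat_lit 390) (nat_lit 0) (nat_lit 0) (XT.nd (nat_lit 156) (nat_lit 0) (nat_lit 0) (XT.nd (nat_lit 78) (nat_lit 0) (nat_lit 0) (XT.lf (nat_lit 0) (nat_lit 468296016330) (nat_lit 76) (nat_lit 328566654947) (nat_lit 76) (nat_lit 314317900449) (nat_lit 1) (nat_lit 4) (nat_lit 2) (nat_lit 5) (nat_lit 2) (nat_lit 4) (nat_lit 248) (nat_lit 199) (nat_lit 153)) (XT.lf (nat_lit 0) (nat_lit 555769983298) (nat_lit 76) (nat_lit 367789578174) (nat_lit 76) (nat_lit 353537819183) (nat_lit 1) (nat_lit 4) (nat_lit 2) (nat_lit 5) (nat_lit 2) (nat_lit 4) (nat_lit 249) (nat_lit 199) (nat_lit 152))) (XT.nd (nat_lit 78) (nat_lit 0) (nat_lit 0) (XT.lf (nat_lit 0) (nat_lit 656358284493) (nat_lit 76) (nat_lit 412899048176) (nat_lit 76) (nat_lit 398644676583) (nat_lit 1) (nat_lit 4) (nat_lit 2)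 (nat_lit 5) (nat_lit 2) (nat_lit 4) (nat_lit 250) (nat_lit 199) (nat_lit 151)) (XT.nd (nat_lit 78) (nat_lit 0) (nat_lit 0) (XT.lf (nat_lit 0) (nat_lit 772028951896) (nat_lit 76) (nat_lit 464777641541) (nat_lit 76) (nat_lit 450520998119) (nat_lit 1) (nat_lit 4) (nat_lit 2) (nat_lit 5) (nat_lit 2) (nat_lit 4) (nat_lit 251) (nat_lit 199) (nat_lit 150)) (XT.lf (nat_lit 0) (nat_lit 905045107260) (nat_lit 76) (nat_lit 524440374225) (nat_lit 76) (nat_lit 510181755301) (nat_lit 1) (nat_lit 4) (nat_lit 2) (nat_lit 5) (nat_lit 2) (nat_lit 4) (nat_lit 252) (nat_lit 199) (nat_lit 149))))) (XT.nd (nat_lit 156) (nat_lit 0) (nat_lit 0) (XT.nd (nat_lit 78) (nat_lit 0) (nat_lit 0) (XT.lf (nat_lit 0) (nat_lit 1058009240581) (nat_lit 76) (nat_lit 593054560564) (nat_lit 76) (nat_lit 578794223811) (nat_lit 1) (nat_lit 4) (nat_lit 2) (nat_lit 5) (nat_lit 2) (nat_lit 4) (nat_lit 253) (nat_lit 199) (nat_lit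 148)) (XT.lf (nat_lit 0) (nat_lit 1233914128382) (nat_lit 76) (nat_lit 671962652030) (nat_lit 76) (nat_lit 657700821512) (nat_lit 1) (nat_lit 4) (nat_lit 2) (nat_lit 5) (nat_lit 2) (nat_lit 4) (nat_lit 254) (nat_lit 199) (nat_lit 147))) (XT.nd (nat_lit 78) (nat_lit 0) (nat_lit 0) (XT.lf (nat_lit 0) (nat_lit 1436201388032) (nat_lit 76) (nat_lit 762708502585) (nat_lit 76) (nat_lit 748445373143) (nat_lit 1) (nat_lit 4) (nat_lit 2) (nat_lit 5) (nat_lit 2) (nat_lit 4) (nat_lit 255) (nat_lit 199) (nat_lit 146)) (XT.nd (nat_lit 78) (nat_lit 0) (nat_lit 0) (XT.lf (nat_lit 0) (nat_lit 1668828813742) (nat_lit 76) (nat_lit 867067574524) (nat_lit 76) (nat_lit 852803315581) (nat_lit 1) (nat_lit 4) (nat_lit 2) (nat_lit 5) (nat_lit 2) (nat_lit 4) (nat_lit 256) (nat_lit 199) (nat_lit 145)) (XT.lf (nat_lit 0) (nat_lit 1936347811666) (nat_lit 76) (nat_lit 987081675775) (nat_lit 76) (nat_lit 972816434659)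 (nat_lit 1) (nat_lit 4) (nat_lit 2) (nat_lit 5) (nat_lit 2) (nat_lit 4) (nat_lit 257) (nat_lit 199) (nat_lit 144))))))) (XT.nd (nat_lit 27300) (nat_lit 0) (nat_lit 836) (XT.nd (nat_lit 26910) (nat_lit 0) (nat_lit 2812) (XT.nd (nat_lit 156) (nat_lit 0) (nat_lit 0) (XT.nd (nat_lit 78) (nat_lit 0) (nat_lit 0) (XT.lf (nat_lit 0) (nat_lit 2243992449156) (nat_lit 76) (nat_lit 1125098908320) (nat_lit 76) (nat_lit 1110832813139) (nat_lit 1) (nat_lit 4) (nat_lit 2) (nat_lit 5) (nat_lit 2) (nat_lit 4) (nat_lit 258) (nat_lit 199) (nat_lit 143)) (XT.lf (nat_lit 0) (nat_lit 2597781860423) (nat_lit 76) (nat_lit 1283819609317) (nat_lit 76) (nat_lit 1269552771472) (nat_lit 1) (nat_lit 4) (nat_lit 2) (nat_lit 5) (nat_lit 2) (nat_lit 4) (nat_lit 259) (nat_lit 199) (nat_lit 142))) (XT.nd (nat_lit 26598) (nat_lit 0) (nat_lit 4180) (XT.lf (nat_lit 0) (nat_lit 3004638012209) (nat_lit 76) (nat_lit 1466349183786)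 (nat_lit 76) (nat_lit 1452081700145) (nat_lit 1) (nat_lit 4) (nat_lit 2) (nat_lit 5) (nat_lit 2) (nat_lit 4) (nat_lit 260) (nat_lit 199) (nat_lit 141)) (XT.nd (nat_lit 78) (nat_lit 76) (nat_lit 0) (XT.lf (nat_lit 0) (nat_lit 1073741823) (nat_lit 0) (nat_lit 0) (nat_lit 0) (nat_lit 0) (nat_lit 57) (nat_lit 0) (nat_lit 1) (nat_lit 0) (nat_lit 1) (nat_lit 0) (nat_lit 200) (nat_lit 200) (nat_lit 200)) (XT.lf (nat_lit 0) (nat_lit 4984896436) (nat_lit 76) (nat_lit 1125868321) (nat_lit 0) (nat_lit 363138151) (nat_lit 56) (nat_lit 5) (nat_lit 57) (nat_lit 0) (nat_lit 56) (nat_lit 4) (nat_lit 201) (nat_lit 200) (nat_lit 199))))) (XT.nd (nat_lit 156) (nat_lit 988) (nat_lit 0) (XT.nd (nat_lit 78) (nat_lit 228) (nat_lit 0) (XT.lf (nat_lit 0) (nat_lit 3205697238) (nat_lit 152) (nat_lit 1972828277) (nat_lit 76) (nat_lit 1395482641) (nat_lit 54) (nat_lit 5) (nat_lit 56) (nat_lit 5) (nat_lit 55) (nat_lit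 4) (nat_lit 202) (nat_lit 200) (nat_lit 198)) (XT.lf (nat_lit 0) (nat_lit 1050767291) (nat_lit 228) (nat_lit 2574855887) (nat_lit 76) (nat_lit 3118963528) (nat_lit 51) (nat_lit 5) (nat_lit 54) (nat_lit 5) (nat_lit 52) (nat_lit 5) (nat_lit 203) (nat_lit 200) (nat_lit 197))) (XT.nd (nat_lit 78) (nat_lit 760) (nat_lit 0) (XT.lf (nat_lit 0) (nat_lit 3984024994) (nat_lit 228) (nat_lit 1376845655) (nat_lit 304) (nat_lit 1624784634) (nat_lit 48) (nat_lit 5) (nat_lit 51) (nat_lit 5) (nat_lit 52) (nat_lit 5) (nat_lit 204) (nat_lit 200) (nat_lit 196)) (XT.nd (nat_lit 78) (nat_lit 380) (nat_lit 0) (XT.lf (nat_lit 0) (nat_lit 2443236292) (nat_lit 380) (nat_lit 3321488365) (nat_lit 76) (nat_lit 1533887724) (nat_lit 43) (nat_lit 5) (nat_lit 48) (nat_lit 5) (nat_lit 44) (nat_lit 5) (nat_lit 205) (nat_lit 200) (nat_lit 195)) (XT.lf (nat_lit 0) (nat_lit 4111550086) (nat_lit 380) (nat_lit 2550487175) (nat_lit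 456) (nat_lit 1026435349) (nat_lit 38) (nat_lit 5) (nat_lit 43) (nat_lit 5) (nat_lit 44) (nat_lit 5) (nat_lit 206) (nat_lit 200) (nat_lit 194)))))) (XT.nd (nat_lit 390) (nat_lit 532) (nat_lit 0) (XT.nd (nat_lit 156) (nat_lit 684) (nat_lit 0) (XT.nd (nat_lit 78) (nat_lit 228) (nat_lit 0) (XT.lf (nat_lit 0) (nat_lit 2902347311) (nat_lit 532) (nat_lit 3859588215) (nat_lit 76) (nat_lit 1396270045) (nat_lit 31) (nat_lit 5) (nat_lit 38) (nat_lit 5) (nat_lit 32) (nat_lit 5) (nat_lit 207) (nat_lit 200) (nat_lit 193)) (XT.lf (nat_lit 0) (nat_lit 4479288801) (nat_lit 228) (nat_lit 2682213369) (nat_lit 304) (nat_lit 1553612354) (nat_lit 28) (nat_lit 5) (nat_lit 31) (nat_lit 5) (nat_lit 32) (nat_lit 5) (nat_lit 208) (nat_lit 200) (nat_lit 192))) (XT.nd (nat_lit 78) (nat_lit 456) (nat_lit 0) (XT.lf (nat_lit 0) (nat_lit 2402340263) (nat_lit 228) (nat_lit 4812643245) (nat_lit 76) (nat_lit 2151094950)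 (nat_lit 25) (nat_lit 5) (nat_lit 28) (nat_lit 5) (nat_lit 26) (nat_lit 5) (nat_lit 209) (nat_lit 200) (nat_lit 191)) (XT.nd (nat_lit 78) (nat_lit 228) (nat_lit 0) (XT.lf (nat_lit 0) (nat_lit 4417035942) (nat_lit 228) (nat_lit 2350794099) (nat_lit 304) (nat_lit 3353074994) (nat_lit 22) (nat_lit 5) (nat_lit 25) (nat_lit 5) (nat_lit 26) (nat_lit 5) (nat_lit 210) (nat_lit 200) (nat_lit 190)) (XT.lf (nat_lit 0) (nat_lit 711517709) (nat_lit 228) (nat_lit 7032753812) (nat_lit 76) (nat_lit 3248650296) (nat_lit 19) (nat_lit 5) (nat_lit 22) (nat_lit 5) (nat_lit 20) (nat_lit 5) (nat_lit 211) (nat_lit 200) (nat_lit 189))))) (XT.nd (nat_lit 156) (nat_lit 304) (nat_lit 0) (XT.nd (nat_lit 78) (nat_lit 76) (nat_lit 0) (XT.lf (nat_lit 0) (nat_lit 2961897603) (nat_lit 152) (nat_lit 2202039165) (nat_lit 228) (nat_lit 6828171071) (nat_lit 17) (nat_lit 5) (nat_lit 19) (nat_lit 5) (nat_lit 20) (nat_lit 5)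 (nat_lit 212) (nat_lit 200) (nat_lit 188)) (XT.lf (nat_lit 0) (nat_lit 1270241998) (nat_lit 76) (nat_lit 9050066399) (nat_lit 152) (nat_lit 2819252975) (nat_lit 16) (nat_lit 5) (nat_lit 17) (nat_lit 5) (nat_lit 18) (nat_lit 4) (nat_lit 213) (nat_lit 200) (nat_lit 187))) (XT.nd (nat_lit 78) (nat_lit 228) (nat_lit 0) (XT.lf (nat_lit 0) (nat_lit 1748975891) (nat_lit 152) (nat_lit 1309105798) (nat_lit 76) (nat_lit 11394828056) (nat_lit 15) (nat_lit 5) (nat_lit 17) (nat_lit 5) (nat_lit 16) (nat_lit 5) (nat_lit 214) (nat_lit 200) (nat_lit 186)) (XT.nd (nat_lit 78) (nat_lit 76) (nat_lit 0) (XT.lf (nat_lit 0) (nat_lit 6955243020) (nat_lit 228) (nat_lit 5118073891) (nat_lit 76) (nat_lit 3875400383) (nat_lit 13) (nat_lit 5) (nat_lit 16) (nat_lit 5) (nat_lit 14) (nat_lit 4) (nat_lit 215) (nat_lit 200) (nat_lit 185)) (XT.lf (nat_lit 0) (nat_lit 7123214286) (nat_lit 76) (nat_lit 5889344765) (nat_lit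 152) (nat_lit 4651505538) (nat_lit 12) (nat_lit 5) (nat_lit 13) (nat_lit 5) (nat_lit 14) (nat_lit 4) (nat_lit 216) (nat_lit 200) (nat_lit 184))))))))
noncomputable def xc24 : XT := (XT.nd (nat_lit 1482) (nat_lit 76) (nat_lit 0) (XT.nd (nat_lit 702) (nat_lit 228) (nat_lit 0) (XT.nd (nat_lit 312) (nat_lit 228) (nat_lit 0) (XT.nd (nat_lit 156) (nat_lit 76) (nat_lit 0) (XT.nd (nat_lit 78) (nat_lit 0) (nat_lit 0) (XT.lf (nat_lit 0) (nat_lit 338870901) (nat_lit 228) (nat_lit 18048992318) (nat_lit 76) (nat_lit 1247682395) (nat_lit 9) (nat_lit 5) (nat_lit 12) (nat_lit 5) (nat_lit 10) (nat_lit 4) (nat_lit 217) (nat_lit 200) (nat_lit 183)) (XT.lf (nat_lit 0) (nat_lit 6095853484) (nat_lit 228) (nat_lit 6325066575) (nat_lit 76) (nat_lit 9449229837) (nat_lit 9) (nat_lit 5) (nat_lit 12) (nat_lit 5) (nat_lit 10) (nat_lit 4) (nat_lit 218) (nat_lit 200) (nat_lit 182))) (XT.nd (nat_lit 78) (nat_lit 0)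 (nat_lit 0) (XT.lf (nat_lit 0) (nat_lit 7242574390) (nat_lit 76) (nat_lit 5480948467) (nat_lit 152) (nat_lit 11716324054) (nat_lit 8) (nat_lit 5) (nat_lit 9) (nat_lit 5) (nat_lit 10) (nat_lit 4) (nat_lit 219) (nat_lit 200) (nat_lit 181)) (XT.lf (nat_lit 0) (nat_lit 20440578929) (nat_lit 152) (nat_lit 4480560333) (nat_lit 0) (nat_lit 2466651828) (nat_lit 8) (nat_lit 5) (nat_lit 10) (nat_lit 4) (nat_lit 8) (nat_lit 4) (nat_lit 220) (nat_lit 200) (nat_lit 180)))) (XT.nd (nat_lit 156) (nat_lit 76) (nat_lit 0) (XT.nd (nat_lit 78) (nat_lit 76) (nat_lit 0) (XT.lf (nat_lit 0) (nat_lit 10276787556) (nat_lit 76) (nat_lit 19303395993) (nat_lit 76) (nat_lit 1176901973) (nat_lit 7) (nat_lit 4) (nat_lit 8) (nat_lit 5) (nat_lit 8) (nat_lit 4) (nat_lit 221) (nat_lit 200) (nat_lit 179)) (XT.lf (nat_lit 0) (nat_lit 5194903614) (nat_lit 152) (nat_lit 7453761389) (nat_lit 76) (nat_lit 21972171961) (nat_lit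 6) (nat_lit 5) (nat_lit 8) (nat_lit 5) (nat_lit 7) (nat_lit 4) (nat_lit 222) (nat_lit 200) (nat_lit 178))) (XT.nd (nat_lit 78) (nat_lit 0) (nat_lit 0) (XT.lf (nat_lit 0) (nat_lit 7690375705) (nat_lit 76) (nat_lit 4840825795) (nat_lit 152) (nat_lit 26524482070) (nat_lit 5) (nat_lit 5) (nat_lit 6) (nat_lit 5) (nat_lit 7) (nat_lit 4) (nat_lit 223) (nat_lit 200) (nat_lit 177)) (XT.nd (nat_lit 78) (nat_lit 0) (nat_lit 0) (XT.lf (nat_lit 0) (nat_lit 21189809001) (nat_lit 152) (nat_lit 18864939905) (nat_lit 0) (nat_lit 4083476924) (nat_lit 5) (nat_lit 5) (nat_lit 7) (nat_lit 4) (nat_lit 5) (nat_lit 4) (nat_lit 224) (nat_lit 200) (nat_lit 176)) (XT.lf (nat_lit 0) (nat_lit 31193872515) (nat_lit 152) (nat_lit 4778961827) (nat_lit 0) (nat_lit 14006771335) (nat_lit 5) (nat_lit 5) (nat_lit 7) (nat_lit 4) (nat_lit 5) (nat_lit 4) (nat_lit 225) (nat_lit 200) (nat_lit 175)))))) (XT.nd (nat_lit 390) (nat_lit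 0) (nat_lit 0) (XT.nd (nat_lit 156) (nat_lit 152) (nat_lit 0) (XT.nd (nat_lit 78) (nat_lit 0) (nat_lit 0) (XT.lf (nat_lit 0) (nat_lit 11878872900) (nat_lit 76) (nat_lit 31029516023) (nat_lit 76) (nat_lit 13772180840) (nat_lit 4) (nat_lit 4) (nat_lit 5) (nat_lit 5) (nat_lit 5) (nat_lit 4) (nat_lit 226) (nat_lit 200) (nat_lit 174)) (XT.lf (nat_lit 0) (nat_lit 31200962732) (nat_lit 76) (nat_lit 25249325388) (nat_lit 76) (nat_lit 7930917160) (nat_lit 4) (nat_lit 4) (nat_lit 5) (nat_lit 5) (nat_lit 5) (nat_lit 4) (nat_lit 227) (nat_lit 200) (nat_lit 173))) (XT.nd (nat_lit 78) (nat_lit 152) (nat_lit 0) (XT.lf (nat_lit 0) (nat_lit 53313696895) (nat_lit 76) (nat_lit 18649837037) (nat_lit 76) (nat_lit 1278321812) (nat_lit 4) (nat_lit 4) (nat_lit 5) (nat_lit 5) (nat_lit 5) (nat_lit 4) (nat_lit 228) (nat_lit 200) (nat_lit 172)) (XT.nd (nat_lit 78) (nat_lit 76) (nat_lit 0) (XT.lf (nat_lit 0) (nat_lit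 5999824547) (nat_lit 152) (nat_lit 4938060162) (nat_lit 76) (nat_lit 72485845459) (nat_lit 3) (nat_lit 5) (nat_lit 5) (nat_lit 5) (nat_lit 4) (nat_lit 4) (nat_lit 229) (nat_lit 200) (nat_lit 171)) (XT.lf (nat_lit 0) (nat_lit 12822687021) (nat_lit 76) (nat_lit 1735264306) (nat_lit 152) (nat_lit 80551249433) (nat_lit 2) (nat_lit 5) (nat_lit 3) (nat_lit 5) (nat_lit 4) (nat_lit 4) (nat_lit 230) (nat_lit 200) (nat_lit 170))))) (XT.nd (nat_lit 156) (nat_lit 0) (nat_lit 0) (XT.nd (nat_lit 78) (nat_lit 0) (nat_lit 0) (XT.lf (nat_lit 0) (nat_lit 24716896761) (nat_lit 152) (nat_lit 75285415959) (nat_lit 0) (nat_lit 8519887083) (nat_lit 2) (nat_lit 5) (nat_lit 4) (nat_lit 4) (nat_lit 2) (nat_lit 4) (nat_lit 231) (nat_lit 200) (nat_lit 169)) (XT.lf (nat_lit 0) (nat_lit 36410121094) (nat_lit 152) (nat_lit 67351262075) (nat_lit 0) (nat_lit 20184996510) (nat_lit 2) (nat_lit 5) (nat_lit 4) (nat_lit 4)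 (nat_lit 2) (nat_lit 4) (nat_lit 232) (nat_lit 200) (nat_lit 168))) (XT.nd (nat_lit 78) (nat_lit 0) (nat_lit 0) (XT.lf (nat_lit 0) (nat_lit 49824671652) (nat_lit 152) (nat_lit 58287085492) (nat_lit 0) (nat_lit 33575099325) (nat_lit 2) (nat_lit 5) (nat_lit 4) (nat_lit 4) (nat_lit 2) (nat_lit 4) (nat_lit 233) (nat_lit 200) (nat_lit 167)) (XT.nd (nat_lit 78) (nat_lit 0) (nat_lit 0) (XT.lf (nat_lit 0) (nat_lit 65223007035) (nat_lit 152) (nat_lit 47915543626) (nat_lit 0) (nat_lit 48952175800) (nat_lit 2) (nat_lit 5) (nat_lit 4) (nat_lit 4) (nat_lit 2) (nat_lit 4) (nat_lit 234) (nat_lit 200) (nat_lit 166)) (XT.lf (nat_lit 0) (nat_lit 82906399022) (nat_lit 152) (nat_lit 36033715006) (nat_lit 0) (nat_lit 66617081780) (nat_lit 2) (nat_lit 5) (nat_lit 4) (nat_lit 4) (nat_lit 2) (nat_lit 4) (nat_lit 235) (nat_lit 200) (nat_lit 165))))))) (XT.nd (nat_lit 780) (nat_lit 0) (nat_lit 0) (XT.nd (nat_lit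 390) (nat_lit 0) (nat_lit 0) (XT.nd (nat_lit 156) (nat_lit 76) (nat_lit 0) (XT.nd (nat_lit 78) (nat_lit 0) (nat_lit 0) (XT.lf (nat_lit 0) (nat_lit 103220827020) (nat_lit 152) (nat_lit 22409129070) (nat_lit 0) (nat_lit 86915434990) (nat_lit 2) (nat_lit 5) (nat_lit 4) (nat_lit 4) (nat_lit 2) (nat_lit 4) (nat_lit 236) (nat_lit 200) (nat_lit 164)) (XT.lf (nat_lit 0) (nat_lit 126563747230) (nat_lit 152) (nat_lit 6775217834) (nat_lit 0) (nat_lit 110244377124) (nat_lit 2) (nat_lit 5) (nat_lit 4) (nat_lit 4) (nat_lit 2) (nat_lit 4) (nat_lit 237) (nat_lit 200) (nat_lit 163))) (XT.nd (nat_lit 78) (nat_lit 0) (nat_lit 0) (XT.lf (nat_lit 0) (nat_lit 11762297322) (nat_lit 76) (nat_lit 141912455171) (nat_lit 76) (nat_lit 125580930215) (nat_lit 1) (nat_lit 4) (nat_lit 2) (nat_lit 5) (nat_lit 2) (nat_lit 4) (nat_lit 238) (nat_lit 200) (nat_lit 162)) (XT.nd (nat_lit 78) (nat_lit 0) (nat_lit 0) (XT.lf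 (nat_lit 0) (nat_lit 33463375087) (nat_lit 76) (nat_lit 151571510134) (nat_lit 76) (nat_lit 135229415744) (nat_lit 1) (nat_lit 4) (nat_lit 2) (nat_lit 5) (nat_lit 2) (nat_lit 4) (nat_lit 239) (nat_lit 200) (nat_lit 161)) (XT.lf (nat_lit 0) (nat_lit 58395830797) (nat_lit 76) (nat_lit 162690357926) (nat_lit 76) (nat_lit 146339072723) (nat_lit 1) (nat_lit 4) (nat_lit 2) (nat_lit 5) (nat_lit 2) (nat_lit 4) (nat_lit 240) (nat_lit 200) (nat_lit 160))))) (XT.nd (nat_lit 156) (nat_lit 0) (nat_lit 0) (XT.nd (nat_lit 78) (nat_lit 0) (nat_lit 0) (XT.lf (nat_lit 0) (nat_lit 87047473370) (nat_lit 76) (nat_lit 175486541220) (nat_lit 76) (nat_lit 159127264007) (nat_lit 1) (nat_lit 4) (nat_lit 2) (nat_lit 5) (nat_lit 2) (nat_lit 4) (nat_lit 241) (nat_lit 200) (nat_lit 159)) (XT.lf (nat_lit 0) (nat_lit 119978878420) (nat_lit 76) (nat_lit 190210420126) (nat_lit 76) (nat_lit 173844193338) (nat_lit 1) (nat_lit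 4) (nat_lit 2) (nat_lit 5) (nat_lit 2) (nat_lit 4) (nat_lit 242) (nat_lit 200) (nat_lit 158))) (XT.nd (nat_lit 78) (nat_lit 0) (nat_lit 0) (XT.lf (nat_lit 0) (nat_lit 157834356047) (nat_lit 76) (nat_lit 207150070534) (nat_lit 76) (nat_lit 190777800638) (nat_lit 1) (nat_lit 4) (nat_lit 2) (nat_lit 5) (nat_lit 2) (nat_lit 4) (nat_lit 243) (nat_lit 200) (nat_lit 157)) (XT.nd (nat_lit 78) (nat_lit 0) (nat_lit 0) (XT.lf (nat_lit 0) (nat_lit 201354556899) (nat_lit 76) (nat_lit 226636920388) (nat_lit 76) (nat_lit 210259395615) (nat_lit 1) (nat_lit 4) (nat_lit 2) (nat_lit 5) (nat_lit 2) (nat_lit 4) (nat_lit 244) (nat_lit 200) (nat_lit 156)) (XT.lf (nat_lit 0) (nat_lit 251390963168) (nat_lit 76) (nat_lit 249052234141) (nat_lit 76) (nat_lit 232670139910) (nat_lit 1) (nat_lit 4) (nat_lit 2) (nat_lit 5) (nat_lit 2) (nat_lit 4) (nat_lit 245) (nat_lit 200) (nat_lit 155)))))) (XT.nd (nat_lit 390) (nat_lit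 0) (nat_lit 0) (XT.nd (nat_lit 156) (nat_lit 0) (nat_lit 0) (XT.nd (nat_lit 78) (nat_lit 0) (nat_lit 0) (XT.lf (nat_lit 0) (nat_lit 308922548019) (nat_lit 76) (nat_lit 274834572279) (nat_lit 76) (nat_lit 258448504606) (nat_lit 1) (nat_lit 4) (nat_lit 2) (nat_lit 5) (nat_lit 2) (nat_lit 4) (nat_lit 246) (nat_lit 200) (nat_lit 154)) (XT.lf (nat_lit 0) (nat_lit 375074929417) (nat_lit 76) (nat_lit 304488371854) (nat_lit 76) (nat_lit 288098849014) (nat_lit 1) (nat_lit 4) (nat_lit 2) (nat_lit 5) (nat_lit 2) (nat_lit 4) (nat_lit 247) (nat_lit 200) (nat_lit 153))) (XT.nd (nat_lit 78) (nat_lit 0) (nat_lit 0) (XT.lf (nat_lit 0) (nat_lit 451142393085) (nat_lit 76) (nat_lit 338593815899) (nat_lit 76) (nat_lit 322201288567) (nat_lit 1) (nat_lit 4) (nat_lit 2) (nat_lit 5) (nat_lit 2) (nat_lit 4) (nat_lit 248) (nat_lit 200) (nat_lit 152)) (XT.nd (nat_lit 78) (nat_lit 0) (nat_lit 0) (XT.lf (nat_lit 0)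 (nat_lit 538613215486) (nat_lit 76) (nat_lit 377818184843) (nat_lit 76) (nat_lit 361423044908) (nat_lit 1) (nat_lit 4) (nat_lit 2) (nat_lit 5) (nat_lit 2) (nat_lit 4) (nat_lit 249) (nat_lit 200) (nat_lit 151)) (XT.lf (nat_lit 0) (nat_lit 639198782276) (nat_lit 76) (nat_lit 422928911990) (nat_lit 76) (nat_lit 406531500227) (nat_lit 1) (nat_lit 4) (nat_lit 2) (nat_lit 5) (nat_lit 2) (nat_lit 4) (nat_lit 250) (nat_lit 200) (nat_lit 150))))) (XT.nd (nat_lit 156) (nat_lit 0) (nat_lit 0) (XT.nd (nat_lit 78) (nat_lit 0) (nat_lit 0) (XT.lf (nat_lit 0) (nat_lit 754867071935) (nat_lit 76) (nat_lit 474808598525) (nat_lit 76) (nat_lit 458409211259) (nat_lit 1) (nat_lit 4) (nat_lit 2) (nat_lit 5) (nat_lit 2) (nat_lit 4) (nat_lit 251) (nat_lit 200) (nat_lit 149)) (XT.lf (nat_lit 0) (nat_lit 887881159696) (nat_lit 76) (nat_lit 534472281791) (nat_lit 76) (nat_lit 518071176697) (nat_lit 1) (nat_lit 4)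 (nat_lit 2) (nat_lit 5) (nat_lit 2) (nat_lit 4) (nat_lit 252) (nat_lit 200) (nat_lit 148))) (XT.nd (nat_lit 78) (nat_lit 0) (nat_lit 0) (XT.lf (nat_lit 0) (nat_lit 1040843495102) (nat_lit 76) (nat_lit 603087294723) (nat_lit 76) (nat_lit 586684695865) (nat_lit 1) (nat_lit 4) (nat_lit 2) (nat_lit 5) (nat_lit 2) (nat_lit 4) (nat_lit 253) (nat_lit 200) (nat_lit 147)) (XT.nd (nat_lit 78) (nat_lit 0) (nat_lit 0) (XT.lf (nat_lit 0) (nat_lit 1216746819497) (nat_lit 76) (nat_lit 681996104966) (nat_lit 76) (nat_lit 665592207182) (nat_lit 1) (nat_lit 4) (nat_lit 2) (nat_lit 5) (nat_lit 2) (nat_lit 4) (nat_lit 254) (nat_lit 200) (nat_lit 146)) (XT.lf (nat_lit 0) (nat_lit 1419032719665) (nat_lit 76) (nat_lit 772742580544) (nat_lit 76) (nat_lit 756337553260) (nat_lit 1) (nat_lit 4) (nat_lit 2) (nat_lit 5) (nat_lit 2) (nat_lit 4) (nat_lit 255) (nat_lit 200) (nat_lit 145))))))))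
noncomputable def xc25 : XT := (XT.nd (nat_lit 28080) (nat_lit 0) (nat_lit 76) (XT.nd (nat_lit 27300) (nat_lit 0) (nat_lit 1140) (XT.nd (nat_lit 312) (nat_lit 0) (nat_lit 0) (XT.nd (nat_lit 156) (nat_lit 0) (nat_lit 0) (XT.nd (nat_lit 78) (nat_lit 0) (nat_lit 0) (XT.lf (nat_lit 0) (nat_lit 1651658963215) (nat_lit 76) (nat_lit 877102195982) (nat_lit 76) (nat_lit 860696186524) (nat_lit 1) (nat_lit 4) (nat_lit 2) (nat_lit 5) (nat_lit 2) (nat_lit 4) (nat_lit 256) (nat_lit 200) (nat_lit 144)) (XT.lf (nat_lit 0) (nat_lit 1919176933175) (nat_lit 76) (nat_lit 997116769840) (nat_lit 76) (nat_lit 980709906318) (nat_lit 1) (nat_lit 4) (nat_lit 2) (nat_lit 5) (nat_lit 2) (nat_lit 4) (nat_lit 257) (nat_lit 200) (nat_lit 143))) (XT.nd (nat_lit 78) (nat_lit 0) (nat_lit 0) (XT.lf (nat_lit 0) (nat_lit 2226820676783) (nat_lit 76) (nat_lit 1135134413348) (nat_lit 76) (nat_lit 1118726807161) (nat_lit 1)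 (nat_lit 4) (nat_lit 2) (nat_lit 5) (nat_lit 2) (nat_lit 4) (nat_lit 258) (nat_lit 200) (nat_lit 142)) (XT.lf (nat_lit 0) (nat_lit 2580609310761) (nat_lit 76) (nat_lit 1293855471705) (nat_lit 76) (nat_lit 1277447219722) (nat_lit 1) (nat_lit 4) (nat_lit 2) (nat_lit 5) (nat_lit 2) (nat_lit 4) (nat_lit 259) (nat_lit 200) (nat_lit 141)))) (XT.nd (nat_lit 26754) (nat_lit 0) (nat_lit 3496) (XT.nd (nat_lit 26676) (nat_lit 0) (nat_lit 3952) (XT.lf (nat_lit 0) (nat_lit 2987464786645) (nat_lit 76) (nat_lit 1476385356921) (nat_lit 76) (nat_lit 1459976543377) (nat_lit 1) (nat_lit 4) (nat_lit 2) (nat_lit 5) (nat_lit 2) (nat_lit 4) (nat_lit 260) (nat_lit 200) (nat_lit 140)) (XT.lf (nat_lit 0) (nat_lit 1422666984) (nat_lit 228) (nat_lit 923269685) (nat_lit 228) (nat_lit 923269685) (nat_lit 53) (nat_lit 3) (nat_lit 56) (nat_lit 3) (nat_lit 56) (nat_lit 5) (nat_lit 201) (nat_lit 201) (nat_lit 198))) (XT.nd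 (nat_lit 78) (nat_lit 228) (nat_lit 0) (XT.lf (nat_lit 0) (nat_lit 352423991) (nat_lit 228) (nat_lit 3061636359) (nat_lit 304) (nat_lit 3258141325) (nat_lit 50) (nat_lit 5) (nat_lit 53) (nat_lit 3) (nat_lit 54) (nat_lit 5) (nat_lit 202) (nat_lit 201) (nat_lit 197)) (XT.nd (nat_lit 78) (nat_lit 228) (nat_lit 0) (XT.lf (nat_lit 76) (nat_lit 2768803183) (nat_lit 0) (nat_lit 1417051731) (nat_lit 304) (nat_lit 2686658934) (nat_lit 51) (nat_lit 5) (nat_lit 50) (nat_lit 5) (nat_lit 54) (nat_lit 5) (nat_lit 203) (nat_lit 201) (nat_lit 196)) (XT.lf (nat_lit 0) (nat_lit 927355125) (nat_lit 304) (nat_lit 4987781977) (nat_lit 76) (nat_lit 1228943531) (nat_lit 47) (nat_lit 5) (nat_lit 51) (nat_lit 5) (nat_lit 48) (nat_lit 5) (nat_lit 204) (nat_lit 201) (nat_lit 195)))))) (XT.nd (nat_lit 390) (nat_lit 836) (nat_lit 0) (XT.nd (nat_lit 156) (nat_lit 760) (nat_lit 0) (XT.nd (nat_lit 78) (nat_lit 456)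 (nat_lit 0) (XT.lf (nat_lit 0) (nat_lit 1660543271) (nat_lit 304) (nat_lit 2886627201) (nat_lit 380) (nat_lit 2938085269) (nat_lit 43) (nat_lit 5) (nat_lit 47) (nat_lit 5) (nat_lit 48) (nat_lit 5) (nat_lit 205) (nat_lit 201) (nat_lit 194)) (XT.lf (nat_lit 0) (nat_lit 458622244) (nat_lit 456) (nat_lit 6599627484) (nat_lit 76) (nat_lit 847767945) (nat_lit 37) (nat_lit 5) (nat_lit 43) (nat_lit 5) (nat_lit 38) (nat_lit 5) (nat_lit 206) (nat_lit 201) (nat_lit 193))) (XT.nd (nat_lit 78) (nat_lit 304) (nat_lit 0) (XT.lf (nat_lit 0) (nat_lit 904124712) (nat_lit 456) (nat_lit 3093832168) (nat_lit 532) (nat_lit 4404260225) (nat_lit 31) (nat_lit 5) (nat_lit 37) (nat_lit 5) (nat_lit 38) (nat_lit 5) (nat_lit 207) (nat_lit 201) (nat_lit 192)) (XT.nd (nat_lit 78) (nat_lit 76) (nat_lit 0) (XT.lf (nat_lit 0) (nat_lit 503919605) (nat_lit 228) (nat_lit 7387017067) (nat_lit 304) (nat_lit 1098694876) (nat_lit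 28) (nat_lit 5) (nat_lit 31) (nat_lit 5) (nat_lit 32) (nat_lit 5) (nat_lit 208) (nat_lit 201) (nat_lit 191)) (XT.lf (nat_lit 0) (nat_lit 2488314930) (nat_lit 304) (nat_lit 84225096) (nat_lit 76) (nat_lit 7095850503) (nat_lit 27) (nat_lit 5) (nat_lit 31) (nat_lit 5) (nat_lit 28) (nat_lit 5) (nat_lit 209) (nat_lit 201) (nat_lit 190))))) (XT.nd (nat_lit 156) (nat_lit 456) (nat_lit 0) (XT.nd (nat_lit 78) (nat_lit 228) (nat_lit 0) (XT.lf (nat_lit 0) (nat_lit 6521164520) (nat_lit 228) (nat_lit 887319035) (nat_lit 76) (nat_lit 3042192969) (nat_lit 25) (nat_lit 5) (nat_lit 28) (nat_lit 5) (nat_lit 26) (nat_lit 5) (nat_lit 210) (nat_lit 201) (nat_lit 189)) (XT.lf (nat_lit 0) (nat_lit 9333447944) (nat_lit 228) (nat_lit 1820099537) (nat_lit 304) (nat_lit 198775226) (nat_lit 22) (nat_lit 5) (nat_lit 25) (nat_lit 5) (nat_lit 26) (nat_lit 5) (nat_lit 211) (nat_lit 201) (nat_lit 188))) (XT.nd (nat_lit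 78) (nat_lit 228) (nat_lit 0) (XT.lf (nat_lit 0) (nat_lit 3960411217) (nat_lit 228) (nat_lit 3771666174) (nat_lit 76) (nat_lit 4644661728) (nat_lit 19) (nat_lit 5) (nat_lit 22) (nat_lit 5) (nat_lit 20) (nat_lit 5) (nat_lit 212) (nat_lit 201) (nat_lit 187)) (XT.nd (nat_lit 78) (nat_lit 76) (nat_lit 0) (XT.lf (nat_lit 0) (nat_lit 7356854990) (nat_lit 152) (nat_lit 1409004199) (nat_lit 228) (nat_lit 4786923748) (nat_lit 17) (nat_lit 5) (nat_lit 19) (nat_lit 5) (nat_lit 20) (nat_lit 5) (nat_lit 213) (nat_lit 201) (nat_lit 186)) (XT.lf (nat_lit 0) (nat_lit 5270300322) (nat_lit 76) (nat_lit 9171715413) (nat_lit 152) (nat_lit 452191717) (nat_lit 16) (nat_lit 5) (nat_lit 17) (nat_lit 5) (nat_lit 18) (nat_lit 4) (nat_lit 214) (nat_lit 201) (nat_lit 185))))))) (XT.nd (nat_lit 780) (nat_lit 228) (nat_lit 0) (XT.nd (nat_lit 390) (nat_lit 304) (nat_lit 0) (XT.nd (nat_lit 156) (nat_lit 304) (nat_lit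 0) (XT.nd (nat_lit 78) (nat_lit 0) (nat_lit 0) (XT.lf (nat_lit 0) (nat_lit 2038879429) (nat_lit 152) (nat_lit 2326160246) (nat_lit 228) (nat_lit 12059139383) (nat_lit 13) (nat_lit 5) (nat_lit 15) (nat_lit 5) (nat_lit 16) (nat_lit 5) (nat_lit 215) (nat_lit 201) (nat_lit 184)) (XT.lf (nat_lit 0) (nat_lit 10104142803) (nat_lit 228) (nat_lit 2586899713) (nat_lit 76) (nat_lit 5474255256) (nat_lit 13) (nat_lit 5) (nat_lit 16) (nat_lit 5) (nat_lit 14) (nat_lit 4) (nat_lit 216) (nat_lit 201) (nat_lit 183))) (XT.nd (nat_lit 78) (nat_lit 228) (nat_lit 0) (XT.lf (nat_lit 0) (nat_lit 11211347485) (nat_lit 76) (nat_lit 5656686218) (nat_lit 152) (nat_lit 3287024572) (nat_lit 12) (nat_lit 5) (nat_lit 13) (nat_lit 5) (nat_lit 14) (nat_lit 4) (nat_lit 217) (nat_lit 201) (nat_lit 182)) (XT.nd (nat_lit 78) (nat_lit 0) (nat_lit 0) (XT.lf (nat_lit 0) (nat_lit 2188345473) (nat_lit 228) (nat_lit 17771858873)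 (nat_lit 76) (nat_lit 2471685991) (nat_lit 9) (nat_lit 5) (nat_lit 12) (nat_lit 5) (nat_lit 10) (nat_lit 4) (nat_lit 218) (nat_lit 201) (nat_lit 181)) (XT.lf (nat_lit 0) (nat_lit 8574269713) (nat_lit 228) (nat_lit 4678624569) (nat_lit 76) (nat_lit 11768224083) (nat_lit 9) (nat_lit 5) (nat_lit 12) (nat_lit 5) (nat_lit 10) (nat_lit 4) (nat_lit 219) (nat_lit 201) (nat_lit 180))))) (XT.nd (nat_lit 156) (nat_lit 228) (nat_lit 0) (XT.nd (nat_lit 78) (nat_lit 0) (nat_lit 0) (XT.lf (nat_lit 0) (nat_lit 10704491619) (nat_lit 76) (nat_lit 5344724469) (nat_lit 152) (nat_lit 11939381667) (nat_lit 8) (nat_lit 5) (nat_lit 9) (nat_lit 5) (nat_lit 10) (nat_lit 4) (nat_lit 220) (nat_lit 201) (nat_lit 179)) (XT.lf (nat_lit 0) (nat_lit 24759025363) (nat_lit 152) (nat_lit 3005071747) (nat_lit 0) (nat_lit 3628323434) (nat_lit 8) (nat_lit 5) (nat_lit 10) (nat_lit 4) (nat_lit 8) (nat_lit 4) (nat_lit 221) (nat_lit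 201) (nat_lit 178))) (XT.nd (nat_lit 78) (nat_lit 152) (nat_lit 0) (XT.lf (nat_lit 0) (nat_lit 13784096998) (nat_lit 76) (nat_lit 21369399755) (nat_lit 76) (nat_lit 123335316) (nat_lit 7) (nat_lit 4) (nat_lit 8) (nat_lit 5) (nat_lit 8) (nat_lit 4) (nat_lit 222) (nat_lit 201) (nat_lit 177)) (XT.nd (nat_lit 78) (nat_lit 76) (nat_lit 0) (XT.lf (nat_lit 0) (nat_lit 6990284609) (nat_lit 152) (nat_lit 6806587677) (nat_lit 76) (nat_lit 25933452831) (nat_lit 6) (nat_lit 5) (nat_lit 8) (nat_lit 5) (nat_lit 7) (nat_lit 4) (nat_lit 223) (nat_lit 201) (nat_lit 176)) (XT.lf (nat_lit 0) (nat_lit 10459751383) (nat_lit 76) (nat_lit 4873595578) (nat_lit 152) (nat_lit 29504852139) (nat_lit 5) (nat_lit 5) (nat_lit 6) (nat_lit 5) (nat_lit 7) (nat_lit 4) (nat_lit 224) (nat_lit 201) (nat_lit 175)))))) (XT.nd (nat_lit 390) (nat_lit 152) (nat_lit 0) (XT.nd (nat_lit 156) (nat_lit 76) (nat_lit 0) (XT.nd (nat_lit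 78) (nat_lit 0) (nat_lit 0) (XT.lf (nat_lit 0) (nat_lit 25184924193) (nat_lit 152) (nat_lit 20238175546) (nat_lit 0) (nat_lit 5268754730) (nat_lit 5) (nat_lit 5) (nat_lit 7) (nat_lit 4) (nat_lit 5) (nat_lit 4) (nat_lit 225) (nat_lit 201) (nat_lit 174)) (XT.lf (nat_lit 0) (nat_lit 36583078473) (nat_lit 152) (nat_lit 4229279714) (nat_lit 0) (nat_lit 16605835964) (nat_lit 5) (nat_lit 5) (nat_lit 7) (nat_lit 4) (nat_lit 5) (nat_lit 4) (nat_lit 226) (nat_lit 201) (nat_lit 173))) (XT.nd (nat_lit 78) (nat_lit 0) (nat_lit 0) (XT.lf (nat_lit 0) (nat_lit 14820025071) (nat_lit 76) (nat_lit 35170003964) (nat_lit 76) (nat_lit 15139654459) (nat_lit 4) (nat_lit 4) (nat_lit 5) (nat_lit 5) (nat_lit 5) (nat_lit 4) (nat_lit 227) (nat_lit 201) (nat_lit 172)) (XT.nd (nat_lit 78) (nat_lit 0) (nat_lit 0) (XT.lf (nat_lit 0) (nat_lit 36889212564) (nat_lit 76) (nat_lit 28589820316) (nat_lit 76) (nat_lit 8513290814)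 (nat_lit 4) (nat_lit 4) (nat_lit 5) (nat_lit 5) (nat_lit 5) (nat_lit 4) (nat_lit 228) (nat_lit 201) (nat_lit 171)) (XT.lf (nat_lit 0) (nat_lit 62187364841) (nat_lit 76) (nat_lit 21058700523) (nat_lit 76) (nat_lit 942014502) (nat_lit 4) (nat_lit 4) (nat_lit 5) (nat_lit 5) (nat_lit 5) (nat_lit 4) (nat_lit 229) (nat_lit 201) (nat_lit 170))))) (XT.nd (nat_lit 156) (nat_lit 0) (nat_lit 0) (XT.nd (nat_lit 78) (nat_lit 76) (nat_lit 0) (XT.lf (nat_lit 0) (nat_lit 7336007015) (nat_lit 152) (nat_lit 4892710140) (nat_lit 76) (nat_lit 83672859302) (nat_lit 3) (nat_lit 5) (nat_lit 5) (nat_lit 5) (nat_lit 4) (nat_lit 4) (nat_lit 230) (nat_lit 201) (nat_lit 169)) (XT.lf (nat_lit 0) (nat_lit 15465613138) (nat_lit 76) (nat_lit 1672647423) (nat_lit 152) (nat_lit 92204880961) (nat_lit 2) (nat_lit 5) (nat_lit 3) (nat_lit 5) (nat_lit 4) (nat_lit 4) (nat_lit 231) (nat_lit 201) (nat_lit 168))) (XT.nd (nat_lit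 78) (nat_lit 0) (nat_lit 0) (XT.lf (nat_lit 0) (nat_lit 28776068184) (nat_lit 152) (nat_lit 85931100957) (nat_lit 0) (nat_lit 10064612264) (nat_lit 2) (nat_lit 5) (nat_lit 4) (nat_lit 4) (nat_lit 2) (nat_lit 4) (nat_lit 232) (nat_lit 201) (nat_lit 167)) (XT.nd (nat_lit 78) (nat_lit 0) (nat_lit 0) (XT.lf (nat_lit 0) (nat_lit 42177410482) (nat_lit 152) (nat_lit 76891231911) (nat_lit 0) (nat_lit 23444695654) (nat_lit 2) (nat_lit 5) (nat_lit 4) (nat_lit 4) (nat_lit 2) (nat_lit 4) (nat_lit 233) (nat_lit 201) (nat_lit 166)) (XT.lf (nat_lit 0) (nat_lit 57564260421) (nat_lit 152) (nat_lit 66540827034) (nat_lit 0) (nat_lit 38813059587) (nat_lit 2) (nat_lit 5) (nat_lit 4) (nat_lit 4) (nat_lit 2) (nat_lit 4) (nat_lit 234) (nat_lit 201) (nat_lit 165))))))))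
noncomputable def xc26 : XT := (XT.nd (nat_lit 1482) (nat_lit 0) (nat_lit 0) (XT.nd (nat_lit 702) (nat_lit 0) (nat_lit 0) (XT.nd (nat_lit 312) (nat_lit 76) (nat_lit 0) (XT.nd (nat_lit 156) (nat_lit 0) (nat_lit 0) (XT.nd (nat_lit 78) (nat_lit 0) (nat_lit 0) (XT.lf (nat_lit 0) (nat_lit 75237665066) (nat_lit 152) (nat_lit 54677378403) (nat_lit 0) (nat_lit 56470389443) (nat_lit 2) (nat_lit 5) (nat_lit 4) (nat_lit 4) (nat_lit 2) (nat_lit 4) (nat_lit 235) (nat_lit 201) (nat_lit 164)) (XT.lf (nat_lit 0) (nat_lit 95543408418) (nat_lit 152) (nat_lit 41068775067) (nat_lit 0) (nat_lit 76762154719) (nat_lit 2) (nat_lit 5) (nat_lit 4) (nat_lit 4) (nat_lit 2) (nat_lit 4) (nat_lit 236) (nat_lit 201) (nat_lit 163))) (XT.nd (nat_lit 78) (nat_lit 0) (nat_lit 0) (XT.lf (nat_lit 0) (nat_lit 118878776763) (nat_lit 152) (nat_lit 25448761745) (nat_lit 0) (nat_lit 100085368214) (nat_lit 2) (nat_lit 5) (nat_lit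 4) (nat_lit 4) (nat_lit 2) (nat_lit 4) (nat_lit 237) (nat_lit 201) (nat_lit 162)) (XT.lf (nat_lit 0) (nat_lit 145700331654) (nat_lit 152) (nat_lit 7511729478) (nat_lit 0) (nat_lit 126896353671) (nat_lit 2) (nat_lit 5) (nat_lit 4) (nat_lit 4) (nat_lit 2) (nat_lit 4) (nat_lit 238) (nat_lit 201) (nat_lit 161)))) (XT.nd (nat_lit 156) (nat_lit 0) (nat_lit 0) (XT.nd (nat_lit 78) (nat_lit 0) (nat_lit 0) (XT.lf (nat_lit 0) (nat_lit 13782731728) (nat_lit 76) (nat_lit 163081585945) (nat_lit 76) (nat_lit 144268417149) (nat_lit 1) (nat_lit 4) (nat_lit 2) (nat_lit 5) (nat_lit 2) (nat_lit 4) (nat_lit 239) (nat_lit 201) (nat_lit 160)) (XT.lf (nat_lit 0) (nat_lit 38705568139) (nat_lit 76) (nat_lit 174204856217) (nat_lit 76) (nat_lit 155383695411) (nat_lit 1) (nat_lit 4) (nat_lit 2) (nat_lit 5) (nat_lit 2) (nat_lit 4) (nat_lit 240) (nat_lit 201) (nat_lit 159))) (XT.nd (nat_lit 78) (nat_lit 0) (nat_lit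 0) (XT.lf (nat_lit 0) (nat_lit 67348846103) (nat_lit 76) (nat_lit 187004885148) (nat_lit 76) (nat_lit 168176774767) (nat_lit 1) (nat_lit 4) (nat_lit 2) (nat_lit 5) (nat_lit 2) (nat_lit 4) (nat_lit 241) (nat_lit 201) (nat_lit 158)) (XT.nd (nat_lit 78) (nat_lit 0) (nat_lit 0) (XT.lf (nat_lit 0) (nat_lit 100272977580) (nat_lit 76) (nat_lit 201732108084) (nat_lit 76) (nat_lit 182897954595) (nat_lit 1) (nat_lit 4) (nat_lit 2) (nat_lit 5) (nat_lit 2) (nat_lit 4) (nat_lit 242) (nat_lit 201) (nat_lit 157)) (XT.lf (nat_lit 0) (nat_lit 138122130361) (nat_lit 76) (nat_lit 218674666346) (nat_lit 76) (nat_lit 199835257980) (nat_lit 1) (nat_lit 4) (nat_lit 2) (nat_lit 5) (nat_lit 2) (nat_lit 4) (nat_lit 243) (nat_lit 201) (nat_lit 156)))))) (XT.nd (nat_lit 390) (nat_lit 0) (nat_lit 0) (XT.nd (nat_lit 156) (nat_lit 0) (nat_lit 0) (XT.nd (nat_lit 78) (nat_lit 0) (nat_lit 0) (XT.lf (nat_lit 0) (nat_lit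 181636831348) (nat_lit 76) (nat_lit 238164044767) (nat_lit 76) (nat_lit 219320066944) (nat_lit 1) (nat_lit 4) (nat_lit 2) (nat_lit 5) (nat_lit 2) (nat_lit 4) (nat_lit 244) (nat_lit 201) (nat_lit 155)) (XT.lf (nat_lit 0) (nat_lit 231668455125) (nat_lit 76) (nat_lit 260581557275) (nat_lit 76) (nat_lit 241733606009) (nat_lit 1) (nat_lit 4) (nat_lit 2) (nat_lit 5) (nat_lit 2) (nat_lit 4) (nat_lit 245) (nat_lit 201) (nat_lit 154))) (XT.nd (nat_lit 78) (nat_lit 0) (nat_lit 0) (XT.lf (nat_lit 0) (nat_lit 289195881287) (nat_lit 76) (nat_lit 286365807374) (nat_lit 76) (nat_lit 267514400941) (nat_lit 1) (nat_lit 4) (nat_lit 2) (nat_lit 5) (nat_lit 2) (nat_lit 4) (nat_lit 246) (nat_lit 201) (nat_lit 153)) (XT.nd (nat_lit 78) (nat_lit 0) (nat_lit 0) (XT.lf (nat_lit 0) (nat_lit 355344646434) (nat_lit 76) (nat_lit 316021269523) (nat_lit 76) (nat_lit 297166858597) (nat_lit 1) (nat_lit 4) (nat_lit 2)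 (nat_lit 5) (nat_lit 2) (nat_lit 4) (nat_lit 247) (nat_lit 201) (nat_lit 152)) (XT.lf (nat_lit 0) (nat_lit 431408965536) (nat_lit 76) (nat_lit 350128159285) (nat_lit 76) (nat_lit 331271135757) (nat_lit 1) (nat_lit 4) (nat_lit 2) (nat_lit 5) (nat_lit 2) (nat_lit 4) (nat_lit 248) (nat_lit 201) (nat_lit 151))))) (XT.nd (nat_lit 156) (nat_lit 0) (nat_lit 0) (XT.nd (nat_lit 78) (nat_lit 0) (nat_lit 0) (XT.lf (nat_lit 0) (nat_lit 518877053532) (nat_lit 76) (nat_lit 389353785374) (nat_lit 76) (nat_lit 370494490018) (nat_lit 1) (nat_lit 4) (nat_lit 2) (nat_lit 5) (nat_lit 2) (nat_lit 4) (nat_lit 249) (nat_lit 201) (nat_lit 150)) (XT.lf (nat_lit 0) (nat_lit 619460242578) (nat_lit 76) (nat_lit 434465605691) (nat_lit 76) (nat_lit 415604334832) (nat_lit 1) (nat_lit 4) (nat_lit 2) (nat_lit 5) (nat_lit 2) (nat_lit 4) (nat_lit 250) (nat_lit 201) (nat_lit 149))) (XT.nd (nat_lit 78) (nat_lit 0) (nat_lit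 0) (XT.lf (nat_lit 0) (nat_lit 735126464634) (nat_lit 76) (nat_lit 486346242808) (nat_lit 76) (nat_lit 467483254121) (nat_lit 1) (nat_lit 4) (nat_lit 2) (nat_lit 5) (nat_lit 2) (nat_lit 4) (nat_lit 251) (nat_lit 201) (nat_lit 148)) (XT.nd (nat_lit 78) (nat_lit 0) (nat_lit 0) (XT.lf (nat_lit 0) (nat_lit 868138754479) (nat_lit 76) (nat_lit 546010752668) (nat_lit 76) (nat_lit 527146270216) (nat_lit 1) (nat_lit 4) (nat_lit 2) (nat_lit 5) (nat_lit 2) (nat_lit 4) (nat_lit 252) (nat_lit 201) (nat_lit 147)) (XT.lf (nat_lit 0) (nat_lit 1021099526479) (nat_lit 76) (nat_lit 614626484377) (nat_lit 76) (nat_lit 595760703000) (nat_lit 1) (nat_lit 4) (nat_lit 2) (nat_lit 5) (nat_lit 2) (nat_lit 4) (nat_lit 253) (nat_lit 201) (nat_lit 146))))))) (XT.nd (nat_lit 27456) (nat_lit 0) (nat_lit 1216) (XT.nd (nat_lit 390) (nat_lit 0) (nat_lit 0) (XT.nd (nat_lit 156) (nat_lit 0) (nat_lit 0) (XT.nd (nat_lit 78)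 (nat_lit 0) (nat_lit 0) (XT.lf (nat_lit 0) (nat_lit 1197001491392) (nat_lit 76) (nat_lit 693535919642) (nat_lit 76) (nat_lit 674669008766) (nat_lit 1) (nat_lit 4) (nat_lit 2) (nat_lit 5) (nat_lit 2) (nat_lit 4) (nat_lit 254) (nat_lit 201) (nat_lit 145)) (XT.lf (nat_lit 0) (nat_lit 1399286209400) (nat_lit 76) (nat_lit 784282938719) (nat_lit 76) (nat_lit 765415045669) (nat_lit 1) (nat_lit 4) (nat_lit 2) (nat_lit 5) (nat_lit 2) (nat_lit 4) (nat_lit 255) (nat_lit 201) (nat_lit 144))) (XT.nd (nat_lit 78) (nat_lit 0) (nat_lit 0) (XT.lf (nat_lit 0) (nat_lit 1631911424987) (nat_lit 76) (nat_lit 888643026764) (nat_lit 76) (nat_lit 869774279649) (nat_lit 1) (nat_lit 4) (nat_lit 2) (nat_lit 5) (nat_lit 2) (nat_lit 4) (nat_lit 256) (nat_lit 201) (nat_lit 143)) (XT.nd (nat_lit 78) (nat_lit 0) (nat_lit 0) (XT.lf (nat_lit 0) (nat_lit 1899428501065) (nat_lit 76) (nat_lit 1008658011586) (nat_lit 76) (nat_lit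 989788521806) (nat_lit 1) (nat_lit 4) (nat_lit 2) (nat_lit 5) (nat_lit 2) (nat_lit 4) (nat_lit 257) (nat_lit 201) (nat_lit 142)) (XT.lf (nat_lit 0) (nat_lit 2207071467384) (nat_lit 76) (nat_lit 1146676012453) (nat_lit 76) (nat_lit 1127805876878) (nat_lit 1) (nat_lit 4) (nat_lit 2) (nat_lit 5) (nat_lit 2) (nat_lit 4) (nat_lit 258) (nat_lit 201) (nat_lit 141))))) (XT.nd (nat_lit 26832) (nat_lit 0) (nat_lit 3420) (XT.nd (nat_lit 78) (nat_lit 0) (nat_lit 0) (XT.lf (nat_lit 0) (nat_lit 2560859425459) (nat_lit 76) (nat_lit 1305397381557) (nat_lit 76) (nat_lit 1286526684420) (nat_lit 1) (nat_lit 4) (nat_lit 2) (nat_lit 5) (nat_lit 2) (nat_lit 4) (nat_lit 259) (nat_lit 201) (nat_lit 140)) (XT.lf (nat_lit 0) (nat_lit 2967714313601) (nat_lit 76) (nat_lit 1487927536987) (nat_lit 76) (nat_lit 1469056351537) (nat_lit 1) (nat_lit 4) (nat_lit 2) (nat_lit 5) (nat_lit 2) (nat_lit 4) (nat_lit 260) (nat_lit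 201) (nat_lit 139))) (XT.nd (nat_lit 78) (nat_lit 304) (nat_lit 0) (XT.lf (nat_lit 0) (nat_lit 949161717) (nat_lit 0) (nat_lit 949161717) (nat_lit 228) (nat_lit 1519201725) (nat_lit 50) (nat_lit 5) (nat_lit 50) (nat_lit 3) (nat_lit 53) (nat_lit 3) (nat_lit 202) (nat_lit 202) (nat_lit 196)) (XT.nd (nat_lit 78) (nat_lit 0) (nat_lit 0) (XT.lf (nat_lit 0) (nat_lit 161445753) (nat_lit 304) (nat_lit 6418547451) (nat_lit 380) (nat_lit 488795021) (nat_lit 46) (nat_lit 5) (nat_lit 50) (nat_lit 5) (nat_lit 51) (nat_lit 5) (nat_lit 203) (nat_lit 202) (nat_lit 195)) (XT.lf (nat_lit 0) (nat_lit 3288446863) (nat_lit 304) (nat_lit 479051415) (nat_lit 380) (nat_lit 3597886743) (nat_lit 46) (nat_lit 5) (nat_lit 50) (nat_lit 5) (nat_lit 51) (nat_lit 5) (nat_lit 204) (nat_lit 202) (nat_lit 194)))))) (XT.nd (nat_lit 390) (nat_lit 760) (nat_lit 0) (XT.nd (nat_lit 156) (nat_lit 1140) (nat_lit 0) (XT.nd (nat_lit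 78) (nat_lit 304) (nat_lit 0) (XT.lf (nat_lit 76) (nat_lit 6331671190) (nat_lit 0) (nat_lit 202497841) (nat_lit 380) (nat_lit 1204048918) (nat_lit 47) (nat_lit 5) (nat_lit 46) (nat_lit 5) (nat_lit 51) (nat_lit 5) (nat_lit 205) (nat_lit 202) (nat_lit 193)) (XT.lf (nat_lit 0) (nat_lit 1794888406) (nat_lit 380) (nat_lit 2353971597) (nat_lit 76) (nat_lit 4033058930) (nat_lit 42) (nat_lit 5) (nat_lit 47) (nat_lit 5) (nat_lit 43) (nat_lit 5) (nat_lit 206) (nat_lit 202) (nat_lit 192))) (XT.nd (nat_lit 78) (nat_lit 760) (nat_lit 0) (XT.lf (nat_lit 0) (nat_lit 4960080704) (nat_lit 456) (nat_lit 3290468153) (nat_lit 76) (nat_lit 458712381) (nat_lit 37) (nat_lit 5) (nat_lit 43) (nat_lit 5) (nat_lit 38) (nat_lit 5) (nat_lit 207) (nat_lit 202) (nat_lit 191)) (XT.nd (nat_lit 78) (nat_lit 304) (nat_lit 0) (XT.lf (nat_lit 0) (nat_lit 4974949178) (nat_lit 456) (nat_lit 3571834438) (nat_lit 532) (nat_lit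 775447679) (nat_lit 31) (nat_lit 5) (nat_lit 37) (nat_lit 5) (nat_lit 38) (nat_lit 5) (nat_lit 208) (nat_lit 202) (nat_lit 190)) (XT.lf (nat_lit 0) (nat_lit 2439352720) (nat_lit 304) (nat_lit 5602959456) (nat_lit 76) (nat_lit 1987387515) (nat_lit 27) (nat_lit 5) (nat_lit 31) (nat_lit 5) (nat_lit 28) (nat_lit 5) (nat_lit 209) (nat_lit 202) (nat_lit 189))))) (XT.nd (nat_lit 156) (nat_lit 380) (nat_lit 0) (XT.nd (nat_lit 78) (nat_lit 228) (nat_lit 0) (XT.lf (nat_lit 0) (nat_lit 3674083314) (nat_lit 152) (nat_lit 2440750636) (nat_lit 228) (nat_lit 4726478769) (nat_lit 25) (nat_lit 5) (nat_lit 27) (nat_lit 5) (nat_lit 28) (nat_lit 5) (nat_lit 210) (nat_lit 202) (nat_lit 188)) (XT.lf (nat_lit 0) (nat_lit 2624855512) (nat_lit 228) (nat_lit 7779557245) (nat_lit 304) (nat_lit 1366611840) (nat_lit 22) (nat_lit 5) (nat_lit 25) (nat_lit 5) (nat_lit 26) (nat_lit 5) (nat_lit 211) (nat_lit 202) (nat_lit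 187))) (XT.nd (nat_lit 78) (nat_lit 152) (nat_lit 0) (XT.lf (nat_lit 0) (nat_lit 1105933431) (nat_lit 152) (nat_lit 1330585368) (nat_lit 228) (nat_lit 10394843581) (nat_lit 19) (nat_lit 5) (nat_lit 21) (nat_lit 5) (nat_lit 22) (nat_lit 5) (nat_lit 212) (nat_lit 202) (nat_lit 186)) (XT.nd (nat_lit 78) (nat_lit 152) (nat_lit 0) (XT.lf (nat_lit 0) (nat_lit 6930401709) (nat_lit 228) (nat_lit 1073899496) (nat_lit 76) (nat_lit 6028479238) (nat_lit 19) (nat_lit 5) (nat_lit 22) (nat_lit 5) (nat_lit 20) (nat_lit 5) (nat_lit 213) (nat_lit 202) (nat_lit 185)) (XT.lf (nat_lit 0) (nat_lit 11447659418) (nat_lit 152) (nat_lit 770947766) (nat_lit 228) (nat_lit 3187024326) (nat_lit 17) (nat_lit 5) (nat_lit 19) (nat_lit 5) (nat_lit 20) (nat_lit 5) (nat_lit 214) (nat_lit 202) (nat_lit 184))))))))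
noncomputable def xc27 : XT := (XT.nd (nat_lit 1560) (nat_lit 76) (nat_lit 0) (XT.nd (nat_lit 780) (nat_lit 304) (nat_lit 0) (XT.nd (nat_lit 390) (nat_lit 228) (nat_lit 0) (XT.nd (nat_lit 156) (nat_lit 304) (nat_lit 0) (XT.nd (nat_lit 78) (nat_lit 152) (nat_lit 0) (XT.lf (nat_lit 0) (nat_lit 1510064621) (nat_lit 152) (nat_lit 8061631833) (nat_lit 76) (nat_lit 7390038860) (nat_lit 15) (nat_lit 5) (nat_lit 17) (nat_lit 5) (nat_lit 16) (nat_lit 5) (nat_lit 215) (nat_lit 202) (nat_lit 183)) (XT.lf (nat_lit 0) (nat_lit 5084693625) (nat_lit 152) (nat_lit 1743669568) (nat_lit 228) (nat_lit 11908428579) (nat_lit 13) (nat_lit 5) (nat_lit 15) (nat_lit 5) (nat_lit 16) (nat_lit 5) (nat_lit 216) (nat_lit 202) (nat_lit 182))) (XT.nd (nat_lit 78) (nat_lit 304) (nat_lit 0) (XT.lf (nat_lit 0) (nat_lit 13211910409) (nat_lit 228) (nat_lit 480503469) (nat_lit 76) (nat_lit 7064803613) (nat_lit 13) (nat_lit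 5) (nat_lit 16) (nat_lit 5) (nat_lit 14) (nat_lit 4) (nat_lit 217) (nat_lit 202) (nat_lit 181)) (XT.nd (nat_lit 78) (nat_lit 228) (nat_lit 0) (XT.lf (nat_lit 0) (nat_lit 15176339631) (nat_lit 76) (nat_lit 5661287251) (nat_lit 152) (nat_lit 2220753648) (nat_lit 12) (nat_lit 5) (nat_lit 13) (nat_lit 5) (nat_lit 14) (nat_lit 4) (nat_lit 218) (nat_lit 202) (nat_lit 180)) (XT.lf (nat_lit 0) (nat_lit 3876630517) (nat_lit 228) (nat_lit 18180940319) (nat_lit 76) (nat_lit 3626447386) (nat_lit 9) (nat_lit 5) (nat_lit 12) (nat_lit 5) (nat_lit 10) (nat_lit 4) (nat_lit 219) (nat_lit 202) (nat_lit 179))))) (XT.nd (nat_lit 156) (nat_lit 152) (nat_lit 0) (XT.nd (nat_lit 78) (nat_lit 76) (nat_lit 0) (XT.lf (nat_lit 0) (nat_lit 11043047755) (nat_lit 228) (nat_lit 3418072701) (nat_lit 76) (nat_lit 14215204215) (nat_lit 9) (nat_lit 5) (nat_lit 12) (nat_lit 5) (nat_lit 10) (nat_lit 4) (nat_lit 220) (nat_lit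 202) (nat_lit 178)) (XT.lf (nat_lit 0) (nat_lit 14106408137) (nat_lit 76) (nat_lit 5421770555) (nat_lit 152) (nat_lit 12570068884) (nat_lit 8) (nat_lit 5) (nat_lit 9) (nat_lit 5) (nat_lit 10) (nat_lit 4) (nat_lit 221) (nat_lit 202) (nat_lit 177))) (XT.nd (nat_lit 78) (nat_lit 152) (nat_lit 0) (XT.lf (nat_lit 0) (nat_lit 29419842944) (nat_lit 152) (nat_lit 1831959060) (nat_lit 0) (nat_lit 4771191103) (nat_lit 8) (nat_lit 5) (nat_lit 10) (nat_lit 4) (nat_lit 8) (nat_lit 4) (nat_lit 222) (nat_lit 202) (nat_lit 176)) (XT.nd (nat_lit 78) (nat_lit 0) (nat_lit 0) (XT.lf (nat_lit 0) (nat_lit 748864320) (nat_lit 152) (nat_lit 23178244686) (nat_lit 76) (nat_lit 16568792600) (nat_lit 6) (nat_lit 5) (nat_lit 8) (nat_lit 5) (nat_lit 7) (nat_lit 4) (nat_lit 223) (nat_lit 202) (nat_lit 175)) (XT.lf (nat_lit 0) (nat_lit 8807179250) (nat_lit 152) (nat_lit 6492802353) (nat_lit 76) (nat_lit 30326650397)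 (nat_lit 6) (nat_lit 5) (nat_lit 8) (nat_lit 5) (nat_lit 7) (nat_lit 4) (nat_lit 224) (nat_lit 202) (nat_lit 174)))))) (XT.nd (nat_lit 390) (nat_lit 152) (nat_lit 0) (XT.nd (nat_lit 156) (nat_lit 76) (nat_lit 0) (XT.nd (nat_lit 78) (nat_lit 0) (nat_lit 0) (XT.lf (nat_lit 0) (nat_lit 13250505639) (nat_lit 76) (nat_lit 5080359612) (nat_lit 152) (nat_lit 33175720042) (nat_lit 5) (nat_lit 5) (nat_lit 6) (nat_lit 5) (nat_lit 7) (nat_lit 4) (nat_lit 225) (nat_lit 202) (nat_lit 173)) (XT.lf (nat_lit 0) (nat_lit 29580162891) (nat_lit 152) (nat_lit 22172574586) (nat_lit 0) (nat_lit 6492153964) (nat_lit 5) (nat_lit 5) (nat_lit 7) (nat_lit 4) (nat_lit 5) (nat_lit 4) (nat_lit 226) (nat_lit 202) (nat_lit 172))) (XT.nd (nat_lit 78) (nat_lit 76) (nat_lit 0) (XT.lf (nat_lit 0) (nat_lit 42607496826) (nat_lit 152) (nat_lit 3905995765) (nat_lit 0) (nat_lit 19473307901) (nat_lit 5) (nat_lit 5) (nat_lit 7)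 (nat_lit 4) (nat_lit 5) (nat_lit 4) (nat_lit 227) (nat_lit 202) (nat_lit 171)) (XT.nd (nat_lit 78) (nat_lit 0) (nat_lit 0) (XT.lf (nat_lit 0) (nat_lit 17919642242) (nat_lit 76) (nat_lit 40056892488) (nat_lit 76) (nat_lit 16882547045) (nat_lit 4) (nat_lit 4) (nat_lit 5) (nat_lit 5) (nat_lit 5) (nat_lit 4) (nat_lit 228) (nat_lit 202) (nat_lit 170)) (XT.lf (nat_lit 0) (nat_lit 43184866980) (nat_lit 76) (nat_lit 32540369824) (nat_lit 76) (nat_lit 9331105669) (nat_lit 4) (nat_lit 4) (nat_lit 5) (nat_lit 5) (nat_lit 5) (nat_lit 4) (nat_lit 229) (nat_lit 202) (nat_lit 169))))) (XT.nd (nat_lit 156) (nat_lit 76) (nat_lit 0) (XT.nd (nat_lit 78) (nat_lit 76) (nat_lit 0) (XT.lf (nat_lit 0) (nat_lit 72178315246) (nat_lit 76) (nat_lit 23923659045) (nat_lit 76) (nat_lit 684030792) (nat_lit 4) (nat_lit 4) (nat_lit 5) (nat_lit 5) (nat_lit 5) (nat_lit 4) (nat_lit 230) (nat_lit 202) (nat_lit 168)) (XT.lf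 (nat_lit 0) (nat_lit 8766244578) (nat_lit 152) (nat_lit 5032243091) (nat_lit 76) (nat_lit 96461320919) (nat_lit 3) (nat_lit 5) (nat_lit 5) (nat_lit 5) (nat_lit 4) (nat_lit 4) (nat_lit 231) (nat_lit 202) (nat_lit 167))) (XT.nd (nat_lit 78) (nat_lit 0) (nat_lit 0) (XT.lf (nat_lit 0) (nat_lit 18329517916) (nat_lit 76) (nat_lit 1679380810) (nat_lit 152) (nat_lit 105711185214) (nat_lit 2) (nat_lit 5) (nat_lit 3) (nat_lit 5) (nat_lit 4) (nat_lit 4) (nat_lit 232) (nat_lit 202) (nat_lit 166)) (XT.nd (nat_lit 78) (nat_lit 0) (nat_lit 0) (XT.lf (nat_lit 0) (nat_lit 33358366433) (nat_lit 152) (nat_lit 98331444818) (nat_lit 0) (nat_lit 11775999467) (nat_lit 2) (nat_lit 5) (nat_lit 4) (nat_lit 4) (nat_lit 2) (nat_lit 4) (nat_lit 233) (nat_lit 202) (nat_lit 165)) (XT.lf (nat_lit 0) (nat_lit 48735229030) (nat_lit 152) (nat_lit 87999419931) (nat_lit 0) (nat_lit 27136787276) (nat_lit 2) (nat_lit 5) (nat_lit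 4) (nat_lit 4) (nat_lit 2) (nat_lit 4) (nat_lit 234) (nat_lit 202) (nat_lit 164))))))) (XT.nd (nat_lit 780) (nat_lit 0) (nat_lit 0) (XT.nd (nat_lit 390) (nat_lit 76) (nat_lit 0) (XT.nd (nat_lit 156) (nat_lit 0) (nat_lit 0) (XT.nd (nat_lit 78) (nat_lit 0) (nat_lit 0) (XT.lf (nat_lit 0) (nat_lit 66399949028) (nat_lit 152) (nat_lit 76151953900) (nat_lit 0) (nat_lit 44787529197) (nat_lit 2) (nat_lit 5) (nat_lit 4) (nat_lit 4) (nat_lit 2) (nat_lit 4) (nat_lit 235) (nat_lit 202) (nat_lit 163)) (XT.lf (nat_lit 0) (nat_lit 86698140516) (nat_lit 152) (nat_lit 62557248477) (nat_lit 0) (nat_lit 65073565835) (nat_lit 2) (nat_lit 5) (nat_lit 4) (nat_lit 4) (nat_lit 2) (nat_lit 4) (nat_lit 236) (nat_lit 202) (nat_lit 162))) (XT.nd (nat_lit 78) (nat_lit 0) (nat_lit 0) (XT.lf (nat_lit 0) (nat_lit 110026942020) (nat_lit 152) (nat_lit 46949320296) (nat_lit 0) (nat_lit 88391797906) (nat_lit 2) (nat_lit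 5) (nat_lit 4) (nat_lit 4) (nat_lit 2) (nat_lit 4) (nat_lit 237) (nat_lit 202) (nat_lit 161)) (XT.nd (nat_lit 78) (nat_lit 0) (nat_lit 0) (XT.lf (nat_lit 0) (nat_lit 136842786616) (nat_lit 152) (nat_lit 29022796849) (nat_lit 0) (nat_lit 115198451689) (nat_lit 2) (nat_lit 5) (nat_lit 4) (nat_lit 4) (nat_lit 2) (nat_lit 4) (nat_lit 238) (nat_lit 202) (nat_lit 160)) (XT.lf (nat_lit 0) (nat_lit 167670332131) (nat_lit 152) (nat_lit 8426941806) (nat_lit 0) (nat_lit 146018005194) (nat_lit 2) (nat_lit 5) (nat_lit 4) (nat_lit 4) (nat_lit 2) (nat_lit 4) (nat_lit 239) (nat_lit 202) (nat_lit 159))))) (XT.nd (nat_lit 156) (nat_lit 0) (nat_lit 0) (XT.nd (nat_lit 78) (nat_lit 0) (nat_lit 0) (XT.lf (nat_lit 0) (nat_lit 16043782173) (nat_lit 76) (nat_lit 187454797369) (nat_lit 76) (nat_lit 165795520857) (nat_lit 1) (nat_lit 4) (nat_lit 2) (nat_lit 5) (nat_lit 2) (nat_lit 4) (nat_lit 240) (nat_lit 202)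 (nat_lit 158)) (XT.lf (nat_lit 0) (nat_lit 44679786565) (nat_lit 76) (nat_lit 200258170331) (nat_lit 76) (nat_lit 178592850710) (nat_lit 1) (nat_lit 4) (nat_lit 2) (nat_lit 5) (nat_lit 2) (nat_lit 4) (nat_lit 241) (nat_lit 202) (nat_lit 157))) (XT.nd (nat_lit 78) (nat_lit 0) (nat_lit 0) (XT.lf (nat_lit 0) (nat_lit 77597593197) (nat_lit 76) (nat_lit 214988301121) (nat_lit 76) (nat_lit 193317726623) (nat_lit 1) (nat_lit 4) (nat_lit 2) (nat_lit 5) (nat_lit 2) (nat_lit 4) (nat_lit 242) (nat_lit 202) (nat_lit 156)) (XT.nd (nat_lit 78) (nat_lit 0) (nat_lit 0) (XT.lf (nat_lit 0) (nat_lit 115441246112) (nat_lit 76) (nat_lit 231933387950) (nat_lit 76) (nat_lit 210258243994) (nat_lit 1) (nat_lit 4) (nat_lit 2) (nat_lit 5) (nat_lit 2) (nat_lit 4) (nat_lit 243) (nat_lit 202) (nat_lit 155)) (XT.lf (nat_lit 0) (nat_lit 158951164606) (nat_lit 76) (nat_lit 251424965126) (nat_lit 76) (nat_lit 229745847729)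 (nat_lit 1) (nat_lit 4) (nat_lit 2) (nat_lit 5) (nat_lit 2) (nat_lit 4) (nat_lit 244) (nat_lit 202) (nat_lit 154)))))) (XT.nd (nat_lit 390) (nat_lit 0) (nat_lit 0) (XT.nd (nat_lit 156) (nat_lit 0) (nat_lit 0) (XT.nd (nat_lit 78) (nat_lit 0) (nat_lit 0) (XT.lf (nat_lit 0) (nat_lit 208978629694) (nat_lit 76) (nat_lit 273844389594) (nat_lit 76) (nat_lit 252161817030) (nat_lit 1) (nat_lit 4) (nat_lit 2) (nat_lit 5) (nat_lit 2) (nat_lit 4) (nat_lit 245) (nat_lit 202) (nat_lit 153)) (XT.lf (nat_lit 0) (nat_lit 266502439606) (nat_lit 76) (nat_lit 299630302268) (nat_lit 76) (nat_lit 277944725211) (nat_lit 1) (nat_lit 4) (nat_lit 2) (nat_lit 5) (nat_lit 2) (nat_lit 4) (nat_lit 246) (nat_lit 202) (nat_lit 152))) (XT.nd (nat_lit 78) (nat_lit 0) (nat_lit 0) (XT.lf (nat_lit 0) (nat_lit 332648060187) (nat_lit 76) (nat_lit 329287210133) (nat_lit 76) (nat_lit 307599020474) (nat_lit 1) (nat_lit 4) (nat_lit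 2) (nat_lit 5) (nat_lit 2) (nat_lit 4) (nat_lit 247) (nat_lit 202) (nat_lit 151)) (XT.nd (nat_lit 78) (nat_lit 0) (nat_lit 0) (XT.lf (nat_lit 0) (nat_lit 408709644883) (nat_lit 76) (nat_lit 363395357041) (nat_lit 76) (nat_lit 341704895553) (nat_lit 1) (nat_lit 4) (nat_lit 2) (nat_lit 5) (nat_lit 2) (nat_lit 4) (nat_lit 248) (nat_lit 202) (nat_lit 150)) (XT.lf (nat_lit 0) (nat_lit 496175355135) (nat_lit 76) (nat_lit 402622076300) (nat_lit 76) (nat_lit 380929639309) (nat_lit 1) (nat_lit 4) (nat_lit 2) (nat_lit 5) (nat_lit 2) (nat_lit 4) (nat_lit 249) (nat_lit 202) (nat_lit 149))))) (XT.nd (nat_lit 156) (nat_lit 0) (nat_lit 0) (XT.nd (nat_lit 78) (nat_lit 0) (nat_lit 0) (XT.lf (nat_lit 0) (nat_lit 596756476578) (nat_lit 76) (nat_lit 447734847199) (nat_lit 76) (nat_lit 426040692380) (nat_lit 1) (nat_lit 4) (nat_lit 2) (nat_lit 5) (nat_lit 2) (nat_lit 4) (nat_lit 250) (nat_lit 202) (nat_lit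 148)) (XT.lf (nat_lit 0) (nat_lit 712420900718) (nat_lit 76) (nat_lit 499616310909) (nat_lit 76) (nat_lit 477920662326) (nat_lit 1) (nat_lit 4) (nat_lit 2) (nat_lit 5) (nat_lit 2) (nat_lit 4) (nat_lit 251) (nat_lit 202) (nat_lit 147))) (XT.nd (nat_lit 78) (nat_lit 0) (nat_lit 0) (XT.lf (nat_lit 0) (nat_lit 845431627158) (nat_lit 76) (nat_lit 559281539546) (nat_lit 76) (nat_lit 537584592038) (nat_lit 1) (nat_lit 4) (nat_lit 2) (nat_lit 5) (nat_lit 2) (nat_lit 4) (nat_lit 252) (nat_lit 202) (nat_lit 146)) (XT.nd (nat_lit 78) (nat_lit 0) (nat_lit 0) (XT.lf (nat_lit 0) (nat_lit 998391039675) (nat_lit 76) (nat_lit 627897896278) (nat_lit 76) (nat_lit 606199819270) (nat_lit 1) (nat_lit 4) (nat_lit 2) (nat_lit 5) (nat_lit 2) (nat_lit 4) (nat_lit 253) (nat_lit 202) (nat_lit 145)) (XT.lf (nat_lit 0) (nat_lit 1174291822429) (nat_lit 76) (nat_lit 706807875042) (nat_lit 76) (nat_lit 685108815860)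 (nat_lit 1) (nat_lit 4) (nat_lit 2) (nat_lit 5) (nat_lit 2) (nat_lit 4) (nat_lit 254) (nat_lit 202) (nat_lit 144))))))))
noncomputable def xc28 : XT := (XT.nd (nat_lit 28236) (nat_lit 0) (nat_lit 76) (XT.nd (nat_lit 27456) (nat_lit 0) (nat_lit 1216) (XT.nd (nat_lit 312) (nat_lit 0) (nat_lit 0) (XT.nd (nat_lit 156) (nat_lit 0) (nat_lit 0) (XT.nd (nat_lit 78) (nat_lit 0) (nat_lit 0) (XT.lf (nat_lit 0) (nat_lit 1376575512473) (nat_lit 76) (nat_lit 797555366727) (nat_lit 76) (nat_lit 775855453480) (nat_lit 1) (nat_lit 4) (nat_lit 2) (nat_lit 5) (nat_lit 2) (nat_lit 4) (nat_lit 255) (nat_lit 202) (nat_lit 143)) (XT.lf (nat_lit 0) (nat_lit 1609199834178) (nat_lit 76) (nat_lit 901915865735) (nat_lit 76) (nat_lit 880215209823) (nat_lit 1) (nat_lit 4) (nat_lit 2) (nat_lit 5) (nat_lit 2) (nat_lit 4) (nat_lit 256) (nat_lit 202) (nat_lit 142))) (XT.nd (nat_lit 78) (nat_lit 0) (nat_lit 0) (XT.lf (nat_lit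 0) (nat_lit 1876716132967) (nat_lit 76) (nat_lit 1021931207916) (nat_lit 76) (nat_lit 1000229906209) (nat_lit 1) (nat_lit 4) (nat_lit 2) (nat_lit 5) (nat_lit 2) (nat_lit 4) (nat_lit 257) (nat_lit 202) (nat_lit 141)) (XT.lf (nat_lit 0) (nat_lit 2184358423383) (nat_lit 76) (nat_lit 1159949519530) (nat_lit 76) (nat_lit 1138247656262) (nat_lit 1) (nat_lit 4) (nat_lit 2) (nat_lit 5) (nat_lit 2) (nat_lit 4) (nat_lit 258) (nat_lit 202) (nat_lit 140)))) (XT.nd (nat_lit 26910) (nat_lit 0) (nat_lit 3040) (XT.nd (nat_lit 78) (nat_lit 0) (nat_lit 0) (XT.lf (nat_lit 0) (nat_lit 2538145793717) (nat_lit 76) (nat_lit 1318671158848) (nat_lit 76) (nat_lit 1296968807266) (nat_lit 1) (nat_lit 4) (nat_lit 2) (nat_lit 5) (nat_lit 2) (nat_lit 4) (nat_lit 259) (nat_lit 202) (nat_lit 139)) (XT.lf (nat_lit 0) (nat_lit 2945000170778) (nat_lit 76) (nat_lit 1501201549248) (nat_lit 76) (nat_lit 1479498773045) (nat_lit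 1) (nat_lit 4) (nat_lit 2) (nat_lit 5) (nat_lit 2) (nat_lit 4) (nat_lit 260) (nat_lit 202) (nat_lit 138))) (XT.nd (nat_lit 78) (nat_lit 304) (nat_lit 0) (XT.lf (nat_lit 0) (nat_lit 1442320614) (nat_lit 380) (nat_lit 1110000441) (nat_lit 380) (nat_lit 1110000441) (nat_lit 45) (nat_lit 3) (nat_lit 50) (nat_lit 3) (nat_lit 50) (nat_lit 5) (nat_lit 203) (nat_lit 203) (nat_lit 194)) (XT.nd (nat_lit 78) (nat_lit 304) (nat_lit 0) (XT.lf (nat_lit 76) (nat_lit 3850821794) (nat_lit 0) (nat_lit 1789662636) (nat_lit 380) (nat_lit 2012178355) (nat_lit 46) (nat_lit 5) (nat_lit 45) (nat_lit 3) (nat_lit 50) (nat_lit 5) (nat_lit 204) (nat_lit 203) (nat_lit 193)) (XT.lf (nat_lit 0) (nat_lit 474784897) (nat_lit 380) (nat_lit 5329662095) (nat_lit 456) (nat_lit 2248215500) (nat_lit 41) (nat_lit 5) (nat_lit 46) (nat_lit 5) (nat_lit 47) (nat_lit 5) (nat_lit 205) (nat_lit 203) (nat_lit 192)))))) (XT.nd (nat_lit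 390) (nat_lit 760) (nat_lit 0) (XT.nd (nat_lit 156) (nat_lit 760) (nat_lit 0) (XT.nd (nat_lit 78) (nat_lit 304) (nat_lit 0) (XT.lf (nat_lit 76) (nat_lit 1635357884) (nat_lit 0) (nat_lit 1386874895) (nat_lit 456) (nat_lit 5504326231) (nat_lit 42) (nat_lit 5) (nat_lit 41) (nat_lit 5) (nat_lit 47) (nat_lit 5) (nat_lit 206) (nat_lit 203) (nat_lit 191)) (XT.lf (nat_lit 0) (nat_lit 543713707) (nat_lit 380) (nat_lit 5317730263) (nat_lit 456) (nat_lit 3219589299) (nat_lit 37) (nat_lit 5) (nat_lit 42) (nat_lit 5) (nat_lit 43) (nat_lit 5) (nat_lit 207) (nat_lit 203) (nat_lit 190))) (XT.nd (nat_lit 78) (nat_lit 760) (nat_lit 0) (XT.lf (nat_lit 0) (nat_lit 9055824471) (nat_lit 456) (nat_lit 533298524) (nat_lit 76) (nat_lit 137182182) (nat_lit 37) (nat_lit 5) (nat_lit 43) (nat_lit 5) (nat_lit 38) (nat_lit 5) (nat_lit 208) (nat_lit 203) (nat_lit 189)) (XT.nd (nat_lit 78) (nat_lit 228) (nat_lit 0) (XT.lf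 (nat_lit 0) (nat_lit 2234036418) (nat_lit 532) (nat_lit 1823021820) (nat_lit 76) (nat_lit 6401653536) (nat_lit 30) (nat_lit 5) (nat_lit 37) (nat_lit 5) (nat_lit 31) (nat_lit 5) (nat_lit 209) (nat_lit 203) (nat_lit 188)) (XT.lf (nat_lit 0) (nat_lit 5557351270) (nat_lit 304) (nat_lit 3324142811) (nat_lit 76) (nat_lit 2417645393) (nat_lit 27) (nat_lit 5) (nat_lit 31) (nat_lit 5) (nat_lit 28) (nat_lit 5) (nat_lit 210) (nat_lit 203) (nat_lit 187))))) (XT.nd (nat_lit 156) (nat_lit 304) (nat_lit 0) (XT.nd (nat_lit 78) (nat_lit 304) (nat_lit 0) (XT.lf (nat_lit 0) (nat_lit 7080426504) (nat_lit 152) (nat_lit 2413427550) (nat_lit 228) (nat_lit 2763801085) (nat_lit 25) (nat_lit 5) (nat_lit 27) (nat_lit 5) (nat_lit 28) (nat_lit 5) (nat_lit 211) (nat_lit 203) (nat_lit 186)) (XT.lf (nat_lit 0) (nat_lit 791429588) (nat_lit 304) (nat_lit 7552629075) (nat_lit 76) (nat_lit 5002494935) (nat_lit 21) (nat_lit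 5) (nat_lit 25) (nat_lit 5) (nat_lit 22) (nat_lit 5) (nat_lit 212) (nat_lit 203) (nat_lit 185))) (XT.nd (nat_lit 78) (nat_lit 152) (nat_lit 0) (XT.lf (nat_lit 0) (nat_lit 3951679177) (nat_lit 152) (nat_lit 901216061) (nat_lit 228) (nat_lit 9730060272) (nat_lit 19) (nat_lit 5) (nat_lit 21) (nat_lit 5) (nat_lit 22) (nat_lit 5) (nat_lit 213) (nat_lit 203) (nat_lit 184)) (XT.nd (nat_lit 78) (nat_lit 0) (nat_lit 0) (XT.lf (nat_lit 0) (nat_lit 1297614948) (nat_lit 152) (nat_lit 8500098212) (nat_lit 228) (nat_lit 6185903959) (nat_lit 17) (nat_lit 5) (nat_lit 19) (nat_lit 5) (nat_lit 20) (nat_lit 5) (nat_lit 214) (nat_lit 203) (nat_lit 183)) (XT.lf (nat_lit 0) (nat_lit 15423618296) (nat_lit 152) (nat_lit 244316160) (nat_lit 228) (nat_lit 1912383848) (nat_lit 17) (nat_lit 5) (nat_lit 19) (nat_lit 5) (nat_lit 20) (nat_lit 5) (nat_lit 215) (nat_lit 203) (nat_lit 182))))))) (XT.nd (nat_lit 780) (nat_lit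 304) (nat_lit 0) (XT.nd (nat_lit 390) (nat_lit 228) (nat_lit 0) (XT.nd (nat_lit 156) (nat_lit 304) (nat_lit 0) (XT.nd (nat_lit 78) (nat_lit 152) (nat_lit 0) (XT.lf (nat_lit 0) (nat_lit 3251940338) (nat_lit 152) (nat_lit 7007470285) (nat_lit 76) (nat_lit 9119852455) (nat_lit 15) (nat_lit 5) (nat_lit 17) (nat_lit 5) (nat_lit 16) (nat_lit 5) (nat_lit 216) (nat_lit 203) (nat_lit 181)) (XT.lf (nat_lit 0) (nat_lit 7919217920) (nat_lit 152) (nat_lit 1300936665) (nat_lit 228) (nat_lit 12212967564) (nat_lit 13) (nat_lit 5) (nat_lit 15) (nat_lit 5) (nat_lit 16) (nat_lit 5) (nat_lit 217) (nat_lit 203) (nat_lit 180))) (XT.nd (nat_lit 78) (nat_lit 228) (nat_lit 0) (XT.lf (nat_lit 0) (nat_lit 1403792764) (nat_lit 76) (nat_lit 15027556711) (nat_lit 152) (nat_lit 7336277191) (nat_lit 12) (nat_lit 5) (nat_lit 13) (nat_lit 5) (nat_lit 14) (nat_lit 4) (nat_lit 218) (nat_lit 203) (nat_lit 179)) (XT.nd (nat_lit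 78) (nat_lit 228) (nat_lit 0) (XT.lf (nat_lit 0) (nat_lit 19179285867) (nat_lit 76) (nat_lit 5872369262) (nat_lit 152) (nat_lit 1374793267) (nat_lit 12) (nat_lit 5) (nat_lit 13) (nat_lit 5) (nat_lit 14) (nat_lit 4) (nat_lit 219) (nat_lit 203) (nat_lit 178)) (XT.lf (nat_lit 0) (nat_lit 5486505604) (nat_lit 228) (nat_lit 19201693930) (nat_lit 76) (nat_lit 4763237553) (nat_lit 9) (nat_lit 5) (nat_lit 12) (nat_lit 5) (nat_lit 10) (nat_lit 4) (nat_lit 220) (nat_lit 203) (nat_lit 177))))) (XT.nd (nat_lit 156) (nat_lit 152) (nat_lit 0) (XT.nd (nat_lit 78) (nat_lit 76) (nat_lit 0) (XT.lf (nat_lit 0) (nat_lit 13593748839) (nat_lit 228) (nat_lit 2446968444) (nat_lit 76) (nat_lit 16862983160) (nat_lit 9) (nat_lit 5) (nat_lit 12) (nat_lit 5) (nat_lit 10) (nat_lit 4) (nat_lit 221) (nat_lit 203) (nat_lit 176)) (XT.lf (nat_lit 0) (nat_lit 17580586957) (nat_lit 76) (nat_lit 5687087114) (nat_lit 152)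 (nat_lit 13578286185) (nat_lit 8) (nat_lit 5) (nat_lit 9) (nat_lit 5) (nat_lit 10) (nat_lit 4) (nat_lit 222) (nat_lit 203) (nat_lit 175))) (XT.nd (nat_lit 78) (nat_lit 152) (nat_lit 0) (XT.lf (nat_lit 0) (nat_lit 34548860049) (nat_lit 152) (nat_lit 878871295) (nat_lit 0) (nat_lit 5939511851) (nat_lit 8) (nat_lit 5) (nat_lit 10) (nat_lit 4) (nat_lit 8) (nat_lit 4) (nat_lit 223) (nat_lit 203) (nat_lit 174)) (XT.nd (nat_lit 78) (nat_lit 0) (nat_lit 0) (XT.lf (nat_lit 0) (nat_lit 1529326098) (nat_lit 152) (nat_lit 25494308803) (nat_lit 76) (nat_lit 19491659004) (nat_lit 6) (nat_lit 5) (nat_lit 8) (nat_lit 5) (nat_lit 7) (nat_lit 4) (nat_lit 224) (nat_lit 203) (nat_lit 173)) (XT.lf (nat_lit 0) (nat_lit 10709240599) (nat_lit 152) (nat_lit 6457442196) (nat_lit 76) (nat_lit 35256124056) (nat_lit 6) (nat_lit 5) (nat_lit 8) (nat_lit 5) (nat_lit 7) (nat_lit 4) (nat_lit 225) (nat_lit 203) (nat_lit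 172)))))) (XT.nd (nat_lit 390) (nat_lit 152) (nat_lit 0) (XT.nd (nat_lit 156) (nat_lit 76) (nat_lit 0) (XT.nd (nat_lit 78) (nat_lit 0) (nat_lit 0) (XT.lf (nat_lit 0) (nat_lit 16161931427) (nat_lit 76) (nat_lit 5445986105) (nat_lit 152) (nat_lit 37581295502) (nat_lit 5) (nat_lit 5) (nat_lit 6) (nat_lit 5) (nat_lit 7) (nat_lit 4) (nat_lit 226) (nat_lit 203) (nat_lit 171)) (XT.lf (nat_lit 0) (nat_lit 34484106092) (nat_lit 152) (nat_lit 24665699116) (nat_lit 0) (nat_lit 7793452314) (nat_lit 5) (nat_lit 5) (nat_lit 7) (nat_lit 4) (nat_lit 5) (nat_lit 4) (nat_lit 227) (nat_lit 203) (nat_lit 170))) (XT.nd (nat_lit 78) (nat_lit 76) (nat_lit 0) (XT.lf (nat_lit 0) (nat_lit 49404637669) (nat_lit 152) (nat_lit 3767754558) (nat_lit 0) (nat_lit 22679065178) (nat_lit 5) (nat_lit 5) (nat_lit 7) (nat_lit 4) (nat_lit 5) (nat_lit 4) (nat_lit 228) (nat_lit 203) (nat_lit 169)) (XT.nd (nat_lit 78) (nat_lit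 0) (nat_lit 0) (XT.lf (nat_lit 0) (nat_lit 21270434258) (nat_lit 76) (nat_lit 45771579805) (nat_lit 76) (nat_lit 19015643217) (nat_lit 4) (nat_lit 4) (nat_lit 5) (nat_lit 5) (nat_lit 5) (nat_lit 4) (nat_lit 229) (nat_lit 203) (nat_lit 168)) (XT.lf (nat_lit 0) (nat_lit 50238984574) (nat_lit 76) (nat_lit 37165906553) (nat_lit 76) (nat_lit 10383566402) (nat_lit 4) (nat_lit 4) (nat_lit 5) (nat_lit 5) (nat_lit 5) (nat_lit 4) (nat_lit 230) (nat_lit 203) (nat_lit 167))))) (XT.nd (nat_lit 156) (nat_lit 76) (nat_lit 0) (XT.nd (nat_lit 78) (nat_lit 76) (nat_lit 0) (XT.lf (nat_lit 0) (nat_lit 83506269096) (nat_lit 76) (nat_lit 27290017690) (nat_lit 76) (nat_lit 484717918) (nat_lit 4) (nat_lit 4) (nat_lit 5) (nat_lit 5) (nat_lit 5) (nat_lit 4) (nat_lit 231) (nat_lit 203) (nat_lit 166)) (XT.lf (nat_lit 0) (nat_lit 10330585054) (nat_lit 152) (nat_lit 5337647744) (nat_lit 76) (nat_lit 111110127920)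 (nat_lit 3) (nat_lit 5) (nat_lit 5) (nat_lit 5) (nat_lit 4) (nat_lit 4) (nat_lit 232) (nat_lit 203) (nat_lit 165))) (XT.nd (nat_lit 78) (nat_lit 0) (nat_lit 0) (XT.lf (nat_lit 0) (nat_lit 21490335251) (nat_lit 76) (nat_lit 1746665076) (nat_lit 152) (nat_lit 121322548900) (nat_lit 2) (nat_lit 5) (nat_lit 3) (nat_lit 5) (nat_lit 4) (nat_lit 4) (nat_lit 233) (nat_lit 203) (nat_lit 164)) (XT.nd (nat_lit 78) (nat_lit 0) (nat_lit 0) (XT.lf (nat_lit 0) (nat_lit 38563170941) (nat_lit 152) (nat_lit 112711164352) (nat_lit 0) (nat_lit 13694910059) (nat_lit 2) (nat_lit 5) (nat_lit 4) (nat_lit 4) (nat_lit 2) (nat_lit 4) (nat_lit 234) (nat_lit 203) (nat_lit 163)) (XT.lf (nat_lit 0) (nat_lit 56220339074) (nat_lit 152) (nat_lit 100877596234) (nat_lit 0) (nat_lit 31339923343) (nat_lit 2) (nat_lit 5) (nat_lit 4) (nat_lit 4) (nat_lit 2) (nat_lit 4) (nat_lit 235) (nat_lit 203) (nat_lit 162))))))))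
noncomputable def xc29 : XT := (XT.nd (nat_lit 1482) (nat_lit 0) (nat_lit 0) (XT.nd (nat_lit 702) (nat_lit 0) (nat_lit 0) (XT.nd (nat_lit 312) (nat_lit 76) (nat_lit 0) (XT.nd (nat_lit 156) (nat_lit 0) (nat_lit 0) (XT.nd (nat_lit 78) (nat_lit 0) (nat_lit 0) (XT.lf (nat_lit 0) (nat_lit 76511963722) (nat_lit 152) (nat_lit 87294975953) (nat_lit 0) (nat_lit 51620978556) (nat_lit 2) (nat_lit 5) (nat_lit 4) (nat_lit 4) (nat_lit 2) (nat_lit 4) (nat_lit 236) (nat_lit 203) (nat_lit 161)) (XT.lf (nat_lit 0) (nat_lit 99835054931) (nat_lit 152) (nat_lit 71697556591) (nat_lit 0) (nat_lit 74934878953) (nat_lit 2) (nat_lit 5) (nat_lit 4) (nat_lit 4) (nat_lit 2) (nat_lit 4) (nat_lit 237) (nat_lit 203) (nat_lit 160))) (XT.nd (nat_lit 78) (nat_lit 0) (nat_lit 0) (XT.lf (nat_lit 0) (nat_lit 126645934053) (nat_lit 152) (nat_lit 53780171247) (nat_lit 0) (nat_lit 101737766064) (nat_lit 2) (nat_lit 5) (nat_lit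 4) (nat_lit 4) (nat_lit 2) (nat_lit 4) (nat_lit 238) (nat_lit 203) (nat_lit 159)) (XT.lf (nat_lit 0) (nat_lit 157469161764) (nat_lit 152) (nat_lit 33192262382) (nat_lit 0) (nat_lit 132554044201) (nat_lit 2) (nat_lit 5) (nat_lit 4) (nat_lit 4) (nat_lit 2) (nat_lit 4) (nat_lit 239) (nat_lit 203) (nat_lit 158)))) (XT.nd (nat_lit 156) (nat_lit 0) (nat_lit 0) (XT.nd (nat_lit 78) (nat_lit 76) (nat_lit 0) (XT.lf (nat_lit 0) (nat_lit 192907801217) (nat_lit 152) (nat_lit 9531023082) (nat_lit 0) (nat_lit 167986640545) (nat_lit 2) (nat_lit 5) (nat_lit 4) (nat_lit 4) (nat_lit 2) (nat_lit 4) (nat_lit 240) (nat_lit 203) (nat_lit 157)) (XT.lf (nat_lit 0) (nat_lit 18596769677) (nat_lit 76) (nat_lit 215505700176) (nat_lit 76) (nat_lit 190579284627) (nat_lit 1) (nat_lit 4) (nat_lit 2) (nat_lit 5) (nat_lit 2) (nat_lit 4) (nat_lit 241) (nat_lit 203) (nat_lit 156))) (XT.nd (nat_lit 78) (nat_lit 0) (nat_lit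 0) (XT.lf (nat_lit 0) (nat_lit 51509076444) (nat_lit 76) (nat_lit 230238359533) (nat_lit 76) (nat_lit 205307374526) (nat_lit 1) (nat_lit 4) (nat_lit 2) (nat_lit 5) (nat_lit 2) (nat_lit 4) (nat_lit 242) (nat_lit 203) (nat_lit 155)) (XT.nd (nat_lit 78) (nat_lit 0) (nat_lit 0) (XT.lf (nat_lit 0) (nat_lit 89347946867) (nat_lit 76) (nat_lit 247185645117) (nat_lit 76) (nat_lit 222250686669) (nat_lit 1) (nat_lit 4) (nat_lit 2) (nat_lit 5) (nat_lit 2) (nat_lit 4) (nat_lit 243) (nat_lit 203) (nat_lit 154)) (XT.lf (nat_lit 0) (nat_lit 132853706673) (nat_lit 76) (nat_lit 266679134254) (nat_lit 76) (nat_lit 241740720639) (nat_lit 1) (nat_lit 4) (nat_lit 2) (nat_lit 5) (nat_lit 2) (nat_lit 4) (nat_lit 244) (nat_lit 203) (nat_lit 153)))))) (XT.nd (nat_lit 390) (nat_lit 0) (nat_lit 0) (XT.nd (nat_lit 156) (nat_lit 0) (nat_lit 0) (XT.nd (nat_lit 78) (nat_lit 0) (nat_lit 0) (XT.lf (nat_lit 0) (nat_lit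 182877555510) (nat_lit 76) (nat_lit 289100221297) (nat_lit 76) (nat_lit 264158803189) (nat_lit 1) (nat_lit 4) (nat_lit 2) (nat_lit 5) (nat_lit 2) (nat_lit 4) (nat_lit 245) (nat_lit 203) (nat_lit 152)) (XT.lf (nat_lit 0) (nat_lit 240398220855) (nat_lit 76) (nat_lit 314887579687) (nat_lit 76) (nat_lit 289943548976) (nat_lit 1) (nat_lit 4) (nat_lit 2) (nat_lit 5) (nat_lit 2) (nat_lit 4) (nat_lit 246) (nat_lit 203) (nat_lit 151))) (XT.nd (nat_lit 78) (nat_lit 0) (nat_lit 0) (XT.lf (nat_lit 0) (nat_lit 306541107030) (nat_lit 76) (nat_lit 344545744698) (nat_lit 76) (nat_lit 319599442159) (nat_lit 1) (nat_lit 4) (nat_lit 2) (nat_lit 5) (nat_lit 2) (nat_lit 4) (nat_lit 247) (nat_lit 203) (nat_lit 150)) (XT.nd (nat_lit 78) (nat_lit 0) (nat_lit 0) (XT.lf (nat_lit 0) (nat_lit 382600313983) (nat_lit 76) (nat_lit 378654984775) (nat_lit 76) (nat_lit 353706706733) (nat_lit 1) (nat_lit 4) (nat_lit 2)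 (nat_lit 5) (nat_lit 2) (nat_lit 4) (nat_lit 248) (nat_lit 203) (nat_lit 149)) (XT.lf (nat_lit 0) (nat_lit 470063956632) (nat_lit 76) (nat_lit 417882654616) (nat_lit 76) (nat_lit 392932658746) (nat_lit 1) (nat_lit 4) (nat_lit 2) (nat_lit 5) (nat_lit 2) (nat_lit 4) (nat_lit 249) (nat_lit 203) (nat_lit 148))))) (XT.nd (nat_lit 156) (nat_lit 0) (nat_lit 0) (XT.nd (nat_lit 78) (nat_lit 0) (nat_lit 0) (XT.lf (nat_lit 0) (nat_lit 570643280159) (nat_lit 76) (nat_lit 462996252109) (nat_lit 76) (nat_lit 438044762475) (nat_lit 1) (nat_lit 4) (nat_lit 2) (nat_lit 5) (nat_lit 2) (nat_lit 4) (nat_lit 250) (nat_lit 203) (nat_lit 147)) (XT.lf (nat_lit 0) (nat_lit 686306140893) (nat_lit 76) (nat_lit 514878434596) (nat_lit 76) (nat_lit 489925646036) (nat_lit 1) (nat_lit 4) (nat_lit 2) (nat_lit 5) (nat_lit 2) (nat_lit 4) (nat_lit 251) (nat_lit 203) (nat_lit 146))) (XT.nd (nat_lit 78) (nat_lit 0) (nat_lit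 0) (XT.lf (nat_lit 0) (nat_lit 819315507850) (nat_lit 76) (nat_lit 574544288256) (nat_lit 76) (nat_lit 549590370196) (nat_lit 1) (nat_lit 4) (nat_lit 2) (nat_lit 5) (nat_lit 2) (nat_lit 4) (nat_lit 252) (nat_lit 203) (nat_lit 145)) (XT.nd (nat_lit 78) (nat_lit 0) (nat_lit 0) (XT.lf (nat_lit 0) (nat_lit 972273738209) (nat_lit 76) (nat_lit 643161188487) (nat_lit 76) (nat_lit 618206288253) (nat_lit 1) (nat_lit 4) (nat_lit 2) (nat_lit 5) (nat_lit 2) (nat_lit 4) (nat_lit 253) (nat_lit 203) (nat_lit 144)) (XT.lf (nat_lit 0) (nat_lit 1148173492999) (nat_lit 76) (nat_lit 722071639858) (nat_lit 76) (nat_lit 697115885560) (nat_lit 1) (nat_lit 4) (nat_lit 2) (nat_lit 5) (nat_lit 2) (nat_lit 4) (nat_lit 254) (nat_lit 203) (nat_lit 143))))))) (XT.nd (nat_lit 27612) (nat_lit 0) (nat_lit 1064) (XT.nd (nat_lit 390) (nat_lit 0) (nat_lit 0) (XT.nd (nat_lit 156) (nat_lit 0) (nat_lit 0) (XT.nd (nat_lit 78)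 (nat_lit 0) (nat_lit 0) (XT.lf (nat_lit 0) (nat_lit 1350456289161) (nat_lit 76) (nat_lit 812819542506) (nat_lit 76) (nat_lit 787863045543) (nat_lit 1) (nat_lit 4) (nat_lit 2) (nat_lit 5) (nat_lit 2) (nat_lit 4) (nat_lit 255) (nat_lit 203) (nat_lit 142)) (XT.lf (nat_lit 0) (nat_lit 1583079833577) (nat_lit 76) (nat_lit 917180398873) (nat_lit 76) (nat_lit 892223256114) (nat_lit 1) (nat_lit 4) (nat_lit 2) (nat_lit 5) (nat_lit 2) (nat_lit 4) (nat_lit 256) (nat_lit 203) (nat_lit 141))) (XT.nd (nat_lit 78) (nat_lit 0) (nat_lit 0) (XT.lf (nat_lit 0) (nat_lit 1850595456463) (nat_lit 76) (nat_lit 1037196051801) (nat_lit 76) (nat_lit 1012238347481) (nat_lit 1) (nat_lit 4) (nat_lit 2) (nat_lit 5) (nat_lit 2) (nat_lit 4) (nat_lit 257) (nat_lit 203) (nat_lit 140)) (XT.nd (nat_lit 78) (nat_lit 0) (nat_lit 0) (XT.lf (nat_lit 0) (nat_lit 2158237159137) (nat_lit 76) (nat_lit 1175214633630) (nat_lit 76)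 (nat_lit 1150256440996) (nat_lit 1) (nat_lit 4) (nat_lit 2) (nat_lit 5) (nat_lit 2) (nat_lit 4) (nat_lit 258) (nat_lit 203) (nat_lit 139)) (XT.lf (nat_lit 0) (nat_lit 2512024018391) (nat_lit 76) (nat_lit 1333936507917) (nat_lit 76) (nat_lit 1308977890663) (nat_lit 1) (nat_lit 4) (nat_lit 2) (nat_lit 5) (nat_lit 2) (nat_lit 4) (nat_lit 259) (nat_lit 203) (nat_lit 138))))) (XT.nd (nat_lit 26988) (nat_lit 0) (nat_lit 2964) (XT.nd (nat_lit 26910) (nat_lit 0) (nat_lit 3344) (XT.lf (nat_lit 0) (nat_lit 2918877951035) (nat_lit 76) (nat_lit 1516467102639) (nat_lit 76) (nat_lit 1491508116149) (nat_lit 1) (nat_lit 4) (nat_lit 2) (nat_lit 5) (nat_lit 2) (nat_lit 4) (nat_lit 260) (nat_lit 203) (nat_lit 137)) (XT.lf (nat_lit 0) (nat_lit 4004231263) (nat_lit 380) (nat_lit 1188481) (nat_lit 380) (nat_lit 1188481) (nat_lit 45) (nat_lit 3) (nat_lit 50) (nat_lit 3) (nat_lit 50) (nat_lit 5) (nat_lit 204)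 (nat_lit 204) (nat_lit 192))) (XT.nd (nat_lit 78) (nat_lit 0) (nat_lit 76) (XT.lf (nat_lit 0) (nat_lit 2073327310) (nat_lit 380) (nat_lit 1728759305) (nat_lit 456) (nat_lit 4633155740) (nat_lit 40) (nat_lit 5) (nat_lit 45) (nat_lit 3) (nat_lit 46) (nat_lit 5) (nat_lit 205) (nat_lit 204) (nat_lit 191)) (XT.nd (nat_lit 78) (nat_lit 0) (nat_lit 0) (XT.lf (nat_lit 0) (nat_lit 4283648306) (nat_lit 380) (nat_lit 3400608437) (nat_lit 456) (nat_lit 1252905748) (nat_lit 41) (nat_lit 5) (nat_lit 46) (nat_lit 5) (nat_lit 47) (nat_lit 5) (nat_lit 206) (nat_lit 204) (nat_lit 190)) (XT.lf (nat_lit 76) (nat_lit 4378210353) (nat_lit 0) (nat_lit 2407550127) (nat_lit 456) (nat_lit 2733760248) (nat_lit 42) (nat_lit 5) (nat_lit 41) (nat_lit 5) (nat_lit 47) (nat_lit 5) (nat_lit 207) (nat_lit 204) (nat_lit 189)))))) (XT.nd (nat_lit 390) (nat_lit 760) (nat_lit 0) (XT.nd (nat_lit 156) (nat_lit 380) (nat_lit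 0) (XT.nd (nat_lit 78) (nat_lit 532) (nat_lit 0) (XT.lf (nat_lit 0) (nat_lit 3191116067) (nat_lit 380) (nat_lit 6472686771) (nat_lit 456) (nat_lit 527093420) (nat_lit 37) (nat_lit 5) (nat_lit 42) (nat_lit 5) (nat_lit 43) (nat_lit 5) (nat_lit 208) (nat_lit 204) (nat_lit 188)) (XT.lf (nat_lit 0) (nat_lit 1887936533) (nat_lit 456) (nat_lit 44007533) (nat_lit 532) (nat_lit 9026788819) (nat_lit 30) (nat_lit 5) (nat_lit 36) (nat_lit 5) (nat_lit 37) (nat_lit 5) (nat_lit 209) (nat_lit 204) (nat_lit 187))) (XT.nd (nat_lit 78) (nat_lit 152) (nat_lit 0) (XT.lf (nat_lit 0) (nat_lit 304309635) (nat_lit 228) (nat_lit 4601974387) (nat_lit 304) (nat_lit 6921352261) (nat_lit 27) (nat_lit 5) (nat_lit 30) (nat_lit 5) (nat_lit 31) (nat_lit 5) (nat_lit 210) (nat_lit 204) (nat_lit 186)) (XT.nd (nat_lit 78) (nat_lit 152) (nat_lit 0) (XT.lf (nat_lit 0) (nat_lit 8471933652) (nat_lit 304) (nat_lit 1464155111)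 (nat_lit 76) (nat_lit 2880216398) (nat_lit 27) (nat_lit 5) (nat_lit 31) (nat_lit 5) (nat_lit 28) (nat_lit 5) (nat_lit 211) (nat_lit 204) (nat_lit 185)) (XT.lf (nat_lit 0) (nat_lit 10301455087) (nat_lit 152) (nat_lit 2477947784) (nat_lit 228) (nat_lit 1158220397) (nat_lit 25) (nat_lit 5) (nat_lit 27) (nat_lit 5) (nat_lit 28) (nat_lit 5) (nat_lit 212) (nat_lit 204) (nat_lit 184))))) (XT.nd (nat_lit 156) (nat_lit 304) (nat_lit 0) (XT.nd (nat_lit 78) (nat_lit 152) (nat_lit 0) (XT.lf (nat_lit 0) (nat_lit 2637490135) (nat_lit 304) (nat_lit 6471785615) (nat_lit 76) (nat_lit 6093212906) (nat_lit 21) (nat_lit 5) (nat_lit 25) (nat_lit 5) (nat_lit 22) (nat_lit 5) (nat_lit 213) (nat_lit 204) (nat_lit 183)) (XT.lf (nat_lit 0) (nat_lit 6570786995) (nat_lit 152) (nat_lit 560816532) (nat_lit 228) (nat_lit 9507898351) (nat_lit 19) (nat_lit 5) (nat_lit 21) (nat_lit 5) (nat_lit 22) (nat_lit 5) (nat_lit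 214) (nat_lit 204) (nat_lit 182))) (XT.nd (nat_lit 78) (nat_lit 152) (nat_lit 0) (XT.lf (nat_lit 0) (nat_lit 3456439769) (nat_lit 152) (nat_lit 9216614012) (nat_lit 228) (nat_lit 5589707703) (nat_lit 17) (nat_lit 5) (nat_lit 19) (nat_lit 5) (nat_lit 20) (nat_lit 5) (nat_lit 215) (nat_lit 204) (nat_lit 181)) (XT.nd (nat_lit 78) (nat_lit 152) (nat_lit 0) (XT.lf (nat_lit 0) (nat_lit 19245380974) (nat_lit 228) (nat_lit 674187942) (nat_lit 76) (nat_lit 194448354) (nat_lit 17) (nat_lit 5) (nat_lit 20) (nat_lit 5) (nat_lit 18) (nat_lit 4) (nat_lit 216) (nat_lit 204) (nat_lit 180)) (XT.lf (nat_lit 0) (nat_lit 4885565811) (nat_lit 152) (nat_lit 6347130470) (nat_lit 76) (nat_lit 10957628256) (nat_lit 15) (nat_lit 5) (nat_lit 17) (nat_lit 5) (nat_lit 16) (nat_lit 5) (nat_lit 217) (nat_lit 204) (nat_lit 179))))))))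
noncomputable def xc30 : XT := (XT.nd (nat_lit 1482) (nat_lit 76) (nat_lit 0) (XT.nd (nat_lit 702) (nat_lit 304) (nat_lit 0) (XT.nd (nat_lit 312) (nat_lit 228) (nat_lit 0) (XT.nd (nat_lit 156) (nat_lit 228) (nat_lit 0) (XT.nd (nat_lit 78) (nat_lit 76) (nat_lit 0) (XT.lf (nat_lit 0) (nat_lit 10673694371) (nat_lit 152) (nat_lit 963537779) (nat_lit 228) (nat_lit 12924515495) (nat_lit 13) (nat_lit 5) (nat_lit 15) (nat_lit 5) (nat_lit 16) (nat_lit 5) (nat_lit 218) (nat_lit 204) (nat_lit 178)) (XT.lf (nat_lit 0) (nat_lit 3115661933) (nat_lit 76) (nat_lit 16726811020) (nat_lit 152) (nat_lit 7411437527) (nat_lit 12) (nat_lit 5) (nat_lit 13) (nat_lit 5) (nat_lit 14) (nat_lit 4) (nat_lit 219) (nat_lit 204) (nat_lit 177))) (XT.nd (nat_lit 78) (nat_lit 228) (nat_lit 0) (XT.lf (nat_lit 0) (nat_lit 23361657229) (nat_lit 76) (nat_lit 6270721001) (nat_lit 152) (nat_lit 689463350) (nat_lit 12) (nat_lit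 5) (nat_lit 13) (nat_lit 5) (nat_lit 14) (nat_lit 4) (nat_lit 220) (nat_lit 204) (nat_lit 176)) (XT.lf (nat_lit 0) (nat_lit 7087084854) (nat_lit 228) (nat_lit 20791673965) (nat_lit 76) (nat_lit 5925982589) (nat_lit 9) (nat_lit 5) (nat_lit 12) (nat_lit 5) (nat_lit 10) (nat_lit 4) (nat_lit 221) (nat_lit 204) (nat_lit 175)))) (XT.nd (nat_lit 156) (nat_lit 152) (nat_lit 0) (XT.nd (nat_lit 78) (nat_lit 76) (nat_lit 0) (XT.lf (nat_lit 0) (nat_lit 16308988043) (nat_lit 228) (nat_lit 1692036272) (nat_lit 76) (nat_lit 19782221418) (nat_lit 9) (nat_lit 5) (nat_lit 12) (nat_lit 5) (nat_lit 10) (nat_lit 4) (nat_lit 222) (nat_lit 204) (nat_lit 174)) (XT.lf (nat_lit 0) (nat_lit 21244682638) (nat_lit 76) (nat_lit 6125821997) (nat_lit 152) (nat_lit 14951669543) (nat_lit 8) (nat_lit 5) (nat_lit 9) (nat_lit 5) (nat_lit 10) (nat_lit 4) (nat_lit 223) (nat_lit 204) (nat_lit 173))) (XT.nd (nat_lit 78) (nat_lit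 152) (nat_lit 0) (XT.lf (nat_lit 0) (nat_lit 40272618670) (nat_lit 152) (nat_lit 82247075) (nat_lit 0) (nat_lit 7172701073) (nat_lit 8) (nat_lit 5) (nat_lit 10) (nat_lit 4) (nat_lit 8) (nat_lit 4) (nat_lit 224) (nat_lit 204) (nat_lit 172)) (XT.nd (nat_lit 78) (nat_lit 0) (nat_lit 0) (XT.lf (nat_lit 0) (nat_lit 2263928892) (nat_lit 152) (nat_lit 28440819897) (nat_lit 76) (nat_lit 22746256636) (nat_lit 6) (nat_lit 5) (nat_lit 8) (nat_lit 5) (nat_lit 7) (nat_lit 4) (nat_lit 225) (nat_lit 204) (nat_lit 171)) (XT.lf (nat_lit 0) (nat_lit 12754934410) (nat_lit 152) (nat_lit 6662897459) (nat_lit 76) (nat_lit 40832237258) (nat_lit 6) (nat_lit 5) (nat_lit 8) (nat_lit 5) (nat_lit 7) (nat_lit 4) (nat_lit 226) (nat_lit 204) (nat_lit 170)))))) (XT.nd (nat_lit 390) (nat_lit 152) (nat_lit 0) (XT.nd (nat_lit 156) (nat_lit 76) (nat_lit 0) (XT.nd (nat_lit 78) (nat_lit 0) (nat_lit 0) (XT.lf (nat_lit 0) (nat_lit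 19284784424) (nat_lit 76) (nat_lit 5963127915) (nat_lit 152) (nat_lit 42786896220) (nat_lit 5) (nat_lit 5) (nat_lit 6) (nat_lit 5) (nat_lit 7) (nat_lit 4) (nat_lit 227) (nat_lit 204) (nat_lit 169)) (XT.lf (nat_lit 0) (nat_lit 40009779675) (nat_lit 152) (nat_lit 27735866529) (nat_lit 0) (nat_lit 9210088501) (nat_lit 5) (nat_lit 5) (nat_lit 7) (nat_lit 4) (nat_lit 5) (nat_lit 4) (nat_lit 228) (nat_lit 204) (nat_lit 168))) (XT.nd (nat_lit 78) (nat_lit 76) (nat_lit 0) (XT.lf (nat_lit 0) (nat_lit 57122339988) (nat_lit 152) (nat_lit 3785363434) (nat_lit 0) (nat_lit 26296245250) (nat_lit 5) (nat_lit 5) (nat_lit 7) (nat_lit 4) (nat_lit 5) (nat_lit 4) (nat_lit 229) (nat_lit 204) (nat_lit 167)) (XT.nd (nat_lit 78) (nat_lit 0) (nat_lit 0) (XT.lf (nat_lit 0) (nat_lit 24962205960) (nat_lit 76) (nat_lit 52415126564) (nat_lit 76) (nat_lit 21566072206) (nat_lit 4) (nat_lit 4) (nat_lit 5) (nat_lit 5)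 (nat_lit 5) (nat_lit 4) (nat_lit 230) (nat_lit 204) (nat_lit 166)) (XT.lf (nat_lit 0) (nat_lit 58210664054) (nat_lit 76) (nat_lit 42547583656) (nat_lit 76) (nat_lit 11678564411) (nat_lit 4) (nat_lit 4) (nat_lit 5) (nat_lit 5) (nat_lit 5) (nat_lit 4) (nat_lit 231) (nat_lit 204) (nat_lit 165))))) (XT.nd (nat_lit 156) (nat_lit 76) (nat_lit 0) (XT.nd (nat_lit 78) (nat_lit 76) (nat_lit 0) (XT.lf (nat_lit 0) (nat_lit 96411193629) (nat_lit 76) (nat_lit 31215512621) (nat_lit 76) (nat_lit 329132605) (nat_lit 4) (nat_lit 4) (nat_lit 5) (nat_lit 5) (nat_lit 5) (nat_lit 4) (nat_lit 232) (nat_lit 204) (nat_lit 164)) (XT.lf (nat_lit 0) (nat_lit 12068757908) (nat_lit 152) (nat_lit 5798459888) (nat_lit 76) (nat_lit 127912457213) (nat_lit 3) (nat_lit 5) (nat_lit 5) (nat_lit 5) (nat_lit 4) (nat_lit 4) (nat_lit 233) (nat_lit 204) (nat_lit 163))) (XT.nd (nat_lit 78) (nat_lit 0) (nat_lit 0) (XT.lf (nat_lit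 0) (nat_lit 25024955215) (nat_lit 76) (nat_lit 1869063434) (nat_lit 152) (nat_lit 139335438535) (nat_lit 2) (nat_lit 5) (nat_lit 3) (nat_lit 5) (nat_lit 4) (nat_lit 4) (nat_lit 234) (nat_lit 204) (nat_lit 162)) (XT.nd (nat_lit 78) (nat_lit 0) (nat_lit 0) (XT.lf (nat_lit 0) (nat_lit 44499668922) (nat_lit 152) (nat_lit 129338067973) (nat_lit 0) (nat_lit 15864466547) (nat_lit 2) (nat_lit 5) (nat_lit 4) (nat_lit 4) (nat_lit 2) (nat_lit 4) (nat_lit 235) (nat_lit 204) (nat_lit 161)) (XT.lf (nat_lit 0) (nat_lit 64785583274) (nat_lit 152) (nat_lit 115765956512) (nat_lit 0) (nat_lit 36141190086) (nat_lit 2) (nat_lit 5) (nat_lit 4) (nat_lit 4) (nat_lit 2) (nat_lit 4) (nat_lit 236) (nat_lit 204) (nat_lit 160))))))) (XT.nd (nat_lit 780) (nat_lit 0) (nat_lit 0) (XT.nd (nat_lit 390) (nat_lit 76) (nat_lit 0) (XT.nd (nat_lit 156) (nat_lit 0) (nat_lit 0) (XT.nd (nat_lit 78) (nat_lit 0) (nat_lit 0) (XT.lf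 (nat_lit 0) (nat_lit 88103709009) (nat_lit 152) (nat_lit 100177675253) (nat_lit 0) (nat_lit 59451323811) (nat_lit 2) (nat_lit 5) (nat_lit 4) (nat_lit 4) (nat_lit 2) (nat_lit 4) (nat_lit 237) (nat_lit 204) (nat_lit 159)) (XT.lf (nat_lit 0) (nat_lit 114910270327) (nat_lit 152) (nat_lit 82268236086) (nat_lit 0) (nat_lit 86250935554) (nat_lit 2) (nat_lit 5) (nat_lit 4) (nat_lit 4) (nat_lit 2) (nat_lit 4) (nat_lit 238) (nat_lit 204) (nat_lit 158))) (XT.nd (nat_lit 78) (nat_lit 0) (nat_lit 0) (XT.lf (nat_lit 0) (nat_lit 145729743426) (nat_lit 152) (nat_lit 61687236939) (nat_lit 0) (nat_lit 117064365545) (nat_lit 2) (nat_lit 5) (nat_lit 4) (nat_lit 4) (nat_lit 2) (nat_lit 4) (nat_lit 239) (nat_lit 204) (nat_lit 157)) (XT.nd (nat_lit 78) (nat_lit 0) (nat_lit 0) (XT.lf (nat_lit 0) (nat_lit 181165117999) (nat_lit 152) (nat_lit 38032006091) (nat_lit 0) (nat_lit 152494485241) (nat_lit 2) (nat_lit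 5) (nat_lit 4) (nat_lit 4) (nat_lit 2) (nat_lit 4) (nat_lit 240) (nat_lit 204) (nat_lit 156)) (XT.lf (nat_lit 0) (nat_lit 221909694852) (nat_lit 152) (nat_lit 10839723807) (nat_lit 0) (nat_lit 193234492636) (nat_lit 2) (nat_lit 5) (nat_lit 4) (nat_lit 4) (nat_lit 2) (nat_lit 4) (nat_lit 241) (nat_lit 204) (nat_lit 155))))) (XT.nd (nat_lit 156) (nat_lit 0) (nat_lit 0) (XT.nd (nat_lit 78) (nat_lit 0) (nat_lit 0) (XT.lf (nat_lit 0) (nat_lit 21496999820) (nat_lit 76) (nat_lit 247780654031) (nat_lit 76) (nat_lit 219101478373) (nat_lit 1) (nat_lit 4) (nat_lit 2) (nat_lit 5) (nat_lit 2) (nat_lit 4) (nat_lit 242) (nat_lit 204) (nat_lit 154)) (XT.lf (nat_lit 0) (nat_lit 59331711554) (nat_lit 76) (nat_lit 264729851575) (nat_lit 76) (nat_lit 236047220751) (nat_lit 1) (nat_lit 4) (nat_lit 2) (nat_lit 5) (nat_lit 2) (nat_lit 4) (nat_lit 243) (nat_lit 204) (nat_lit 153))) (XT.nd (nat_lit 78) (nat_lit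 0) (nat_lit 0) (XT.lf (nat_lit 0) (nat_lit 102833855109) (nat_lit 76) (nat_lit 284225003287) (nat_lit 76) (nat_lit 255539367969) (nat_lit 1) (nat_lit 4) (nat_lit 2) (nat_lit 5) (nat_lit 2) (nat_lit 4) (nat_lit 244) (nat_lit 204) (nat_lit 152)) (XT.nd (nat_lit 78) (nat_lit 0) (nat_lit 0) (XT.lf (nat_lit 0) (nat_lit 152854559380) (nat_lit 76) (nat_lit 306647536046) (nat_lit 76) (nat_lit 277959288126) (nat_lit 1) (nat_lit 4) (nat_lit 2) (nat_lit 5) (nat_lit 2) (nat_lit 4) (nat_lit 245) (nat_lit 204) (nat_lit 151)) (XT.lf (nat_lit 0) (nat_lit 210372490320) (nat_lit 76) (nat_lit 332436151581) (nat_lit 76) (nat_lit 303745631833) (nat_lit 1) (nat_lit 4) (nat_lit 2) (nat_lit 5) (nat_lit 2) (nat_lit 4) (nat_lit 246) (nat_lit 204) (nat_lit 150)))))) (XT.nd (nat_lit 390) (nat_lit 0) (nat_lit 0) (XT.nd (nat_lit 156) (nat_lit 0) (nat_lit 0) (XT.nd (nat_lit 78) (nat_lit 0) (nat_lit 0) (XT.lf (nat_lit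 0) (nat_lit 276512998752) (nat_lit 76) (nat_lit 362095409762) (nat_lit 76) (nat_lit 333402914511) (nat_lit 1) (nat_lit 4) (nat_lit 2) (nat_lit 5) (nat_lit 2) (nat_lit 4) (nat_lit 247) (nat_lit 204) (nat_lit 149)) (XT.lf (nat_lit 0) (nat_lit 352570138101) (nat_lit 76) (nat_lit 396205600422) (nat_lit 76) (nat_lit 367511387342) (nat_lit 1) (nat_lit 4) (nat_lit 2) (nat_lit 5) (nat_lit 2) (nat_lit 4) (nat_lit 248) (nat_lit 204) (nat_lit 148))) (XT.nd (nat_lit 78) (nat_lit 0) (nat_lit 0) (XT.lf (nat_lit 0) (nat_lit 440031982834) (nat_lit 76) (nat_lit 435434096856) (nat_lit 76) (nat_lit 406738390012) (nat_lit 1) (nat_lit 4) (nat_lit 2) (nat_lit 5) (nat_lit 2) (nat_lit 4) (nat_lit 249) (nat_lit 204) (nat_lit 147)) (XT.nd (nat_lit 78) (nat_lit 0) (nat_lit 0) (XT.lf (nat_lit 0) (nat_lit 540609742955) (nat_lit 76) (nat_lit 480548413126) (nat_lit 76) (nat_lit 451851407357) (nat_lit 1) (nat_lit 4)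 (nat_lit 2) (nat_lit 5) (nat_lit 2) (nat_lit 4) (nat_lit 250) (nat_lit 204) (nat_lit 146)) (XT.lf (nat_lit 0) (nat_lit 656271244207) (nat_lit 76) (nat_lit 532431220636) (nat_lit 76) (nat_lit 503733085367) (nat_lit 1) (nat_lit 4) (nat_lit 2) (nat_lit 5) (nat_lit 2) (nat_lit 4) (nat_lit 251) (nat_lit 204) (nat_lit 145))))) (XT.nd (nat_lit 156) (nat_lit 0) (nat_lit 0) (XT.nd (nat_lit 78) (nat_lit 0) (nat_lit 0) (XT.lf (nat_lit 0) (nat_lit 789279429006) (nat_lit 76) (nat_lit 592097617794) (nat_lit 76) (nat_lit 563398500351) (nat_lit 1) (nat_lit 4) (nat_lit 2) (nat_lit 5) (nat_lit 2) (nat_lit 4) (nat_lit 252) (nat_lit 204) (nat_lit 144)) (XT.lf (nat_lit 0) (nat_lit 942236631400) (nat_lit 76) (nat_lit 660714990633) (nat_lit 76) (nat_lit 632015019125) (nat_lit 1) (nat_lit 4) (nat_lit 2) (nat_lit 5) (nat_lit 2) (nat_lit 4) (nat_lit 253) (nat_lit 204) (nat_lit 143))) (XT.nd (nat_lit 78) (nat_lit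 0) (nat_lit 0) (XT.lf (nat_lit 0) (nat_lit 1118135492308) (nat_lit 76) (nat_lit 739625852967) (nat_lit 76) (nat_lit 710925138795) (nat_lit 1) (nat_lit 4) (nat_lit 2) (nat_lit 5) (nat_lit 2) (nat_lit 4) (nat_lit 254) (nat_lit 204) (nat_lit 142)) (XT.nd (nat_lit 78) (nat_lit 0) (nat_lit 0) (XT.lf (nat_lit 0) (nat_lit 1320417511182) (nat_lit 76) (nat_lit 830374112974) (nat_lit 76) (nat_lit 801672753006) (nat_lit 1) (nat_lit 4) (nat_lit 2) (nat_lit 5) (nat_lit 2) (nat_lit 4) (nat_lit 255) (nat_lit 204) (nat_lit 141)) (XT.lf (nat_lit 0) (nat_lit 1553040379694) (nat_lit 76) (nat_lit 934735280088) (nat_lit 76) (nat_lit 906033358559) (nat_lit 1) (nat_lit 4) (nat_lit 2) (nat_lit 5) (nat_lit 2) (nat_lit 4) (nat_lit 256) (nat_lit 204) (nat_lit 140))))))))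
noncomputable def xc31 : XT := (XT.nd (nat_lit 28470) (nat_lit 0) (nat_lit 76) (XT.nd (nat_lit 27690) (nat_lit 0) (nat_lit 836) (XT.nd (nat_lit 27300) (nat_lit 0) (nat_lit 2204) (XT.nd (nat_lit 156) (nat_lit 0) (nat_lit 0) (XT.nd (nat_lit 78) (nat_lit 0) (nat_lit 0) (XT.lf (nat_lit 0) (nat_lit 1820555414839) (nat_lit 76) (nat_lit 1054751203230) (nat_lit 76) (nat_lit 1026048793388) (nat_lit 1) (nat_lit 4) (nat_lit 2) (nat_lit 5) (nat_lit 2) (nat_lit 4) (nat_lit 257) (nat_lit 204) (nat_lit 139)) (XT.lf (nat_lit 0) (nat_lit 2128196606433) (nat_lit 76) (nat_lit 1192770020029) (nat_lit 76) (nat_lit 1164067185565) (nat_lit 1) (nat_lit 4) (nat_lit 2) (nat_lit 5) (nat_lit 2) (nat_lit 4) (nat_lit 258) (nat_lit 204) (nat_lit 138))) (XT.nd (nat_lit 78) (nat_lit 0) (nat_lit 0) (XT.lf (nat_lit 0) (nat_lit 2481983021269) (nat_lit 76) (nat_lit 1351492098638) (nat_lit 76) (nat_lit 1322788894938) (nat_lit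 1) (nat_lit 4) (nat_lit 2) (nat_lit 5) (nat_lit 2) (nat_lit 4) (nat_lit 259) (nat_lit 204) (nat_lit 137)) (XT.nd (nat_lit 26988) (nat_lit 0) (nat_lit 2964) (XT.lf (nat_lit 0) (nat_lit 2888836567463) (nat_lit 76) (nat_lit 1534022871030) (nat_lit 76) (nat_lit 1505319346256) (nat_lit 1) (nat_lit 4) (nat_lit 2) (nat_lit 5) (nat_lit 2) (nat_lit 4) (nat_lit 260) (nat_lit 204) (nat_lit 136)) (XT.lf (nat_lit 0) (nat_lit 938573817) (nat_lit 0) (nat_lit 938573817) (nat_lit 380) (nat_lit 2567883672) (nat_lit 40) (nat_lit 5) (nat_lit 40) (nat_lit 3) (nat_lit 45) (nat_lit 3) (nat_lit 205) (nat_lit 205) (nat_lit 190))))) (XT.nd (nat_lit 156) (nat_lit 760) (nat_lit 0) (XT.nd (nat_lit 78) (nat_lit 0) (nat_lit 76) (XT.lf (nat_lit 0) (nat_lit 5614251936) (nat_lit 380) (nat_lit 31395729) (nat_lit 456) (nat_lit 3775280289) (nat_lit 40) (nat_lit 5) (nat_lit 45) (nat_lit 3) (nat_lit 46) (nat_lit 5) (nat_lit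 206) (nat_lit 205) (nat_lit 189)) (XT.lf (nat_lit 0) (nat_lit 7752392661) (nat_lit 380) (nat_lit 1847559459) (nat_lit 456) (nat_lit 433248358) (nat_lit 41) (nat_lit 5) (nat_lit 46) (nat_lit 5) (nat_lit 47) (nat_lit 5) (nat_lit 207) (nat_lit 205) (nat_lit 188))) (XT.nd (nat_lit 78) (nat_lit 836) (nat_lit 0) (XT.lf (nat_lit 76) (nat_lit 6923447604) (nat_lit 0) (nat_lit 3383158257) (nat_lit 456) (nat_lit 424569149) (nat_lit 42) (nat_lit 5) (nat_lit 41) (nat_lit 5) (nat_lit 47) (nat_lit 5) (nat_lit 208) (nat_lit 205) (nat_lit 187)) (XT.nd (nat_lit 78) (nat_lit 456) (nat_lit 0) (XT.lf (nat_lit 0) (nat_lit 1705137560) (nat_lit 456) (nat_lit 5961998583) (nat_lit 76) (nat_lit 3858172111) (nat_lit 36) (nat_lit 5) (nat_lit 42) (nat_lit 5) (nat_lit 37) (nat_lit 5) (nat_lit 209) (nat_lit 205) (nat_lit 186)) (XT.lf (nat_lit 0) (nat_lit 4068813990) (nat_lit 456) (nat_lit 182015491) (nat_lit 532) (nat_lit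 8178158975) (nat_lit 30) (nat_lit 5) (nat_lit 36) (nat_lit 5) (nat_lit 37) (nat_lit 5) (nat_lit 210) (nat_lit 205) (nat_lit 185)))))) (XT.nd (nat_lit 390) (nat_lit 532) (nat_lit 0) (XT.nd (nat_lit 156) (nat_lit 456) (nat_lit 0) (XT.nd (nat_lit 78) (nat_lit 152) (nat_lit 0) (XT.lf (nat_lit 0) (nat_lit 2248769987) (nat_lit 228) (nat_lit 5200804434) (nat_lit 304) (nat_lit 5997856995) (nat_lit 27) (nat_lit 5) (nat_lit 30) (nat_lit 5) (nat_lit 31) (nat_lit 5) (nat_lit 211) (nat_lit 205) (nat_lit 184)) (XT.lf (nat_lit 0) (nat_lit 104917364) (nat_lit 152) (nat_lit 11213849216) (nat_lit 228) (nat_lit 3285411807) (nat_lit 25) (nat_lit 5) (nat_lit 27) (nat_lit 5) (nat_lit 28) (nat_lit 5) (nat_lit 212) (nat_lit 205) (nat_lit 183))) (XT.nd (nat_lit 78) (nat_lit 380) (nat_lit 0) (XT.lf (nat_lit 0) (nat_lit 185787571) (nat_lit 228) (nat_lit 2433824492) (nat_lit 76) (nat_lit 13288293433) (nat_lit 24)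 (nat_lit 5) (nat_lit 27) (nat_lit 5) (nat_lit 25) (nat_lit 5) (nat_lit 213) (nat_lit 205) (nat_lit 182)) (XT.nd (nat_lit 78) (nat_lit 152) (nat_lit 0) (XT.lf (nat_lit 0) (nat_lit 4339235475) (nat_lit 304) (nat_lit 5768649622) (nat_lit 76) (nat_lit 7264543598) (nat_lit 21) (nat_lit 5) (nat_lit 25) (nat_lit 5) (nat_lit 22) (nat_lit 5) (nat_lit 214) (nat_lit 205) (nat_lit 181)) (XT.lf (nat_lit 0) (nat_lit 9088621257) (nat_lit 152) (nat_lit 285330741) (nat_lit 228) (nat_lit 9662498256) (nat_lit 19) (nat_lit 5) (nat_lit 21) (nat_lit 5) (nat_lit 22) (nat_lit 5) (nat_lit 215) (nat_lit 205) (nat_lit 180))))) (XT.nd (nat_lit 156) (nat_lit 228) (nat_lit 0) (XT.nd (nat_lit 78) (nat_lit 152) (nat_lit 0) (XT.lf (nat_lit 0) (nat_lit 5460109952) (nat_lit 152) (nat_lit 10176800683) (nat_lit 228) (nat_lit 5275739019) (nat_lit 17) (nat_lit 5) (nat_lit 19) (nat_lit 5) (nat_lit 20) (nat_lit 5) (nat_lit 216)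 (nat_lit 205) (nat_lit 179)) (XT.lf (nat_lit 0) (nat_lit 27278546) (nat_lit 152) (nat_lit 22436072475) (nat_lit 76) (nat_lit 587973135) (nat_lit 15) (nat_lit 5) (nat_lit 17) (nat_lit 5) (nat_lit 16) (nat_lit 5) (nat_lit 217) (nat_lit 205) (nat_lit 178))) (XT.nd (nat_lit 78) (nat_lit 228) (nat_lit 0) (XT.lf (nat_lit 0) (nat_lit 6484816126) (nat_lit 152) (nat_lit 6005090130) (nat_lit 76) (nat_lit 12956507226) (nat_lit 15) (nat_lit 5) (nat_lit 17) (nat_lit 5) (nat_lit 16) (nat_lit 5) (nat_lit 218) (nat_lit 205) (nat_lit 177)) (XT.nd (nat_lit 78) (nat_lit 76) (nat_lit 0) (XT.lf (nat_lit 0) (nat_lit 13459318479) (nat_lit 152) (nat_lit 705392161) (nat_lit 228) (nat_lit 14016011569) (nat_lit 13) (nat_lit 5) (nat_lit 15) (nat_lit 5) (nat_lit 16) (nat_lit 5) (nat_lit 219) (nat_lit 205) (nat_lit 176)) (XT.lf (nat_lit 0) (nat_lit 4718209902) (nat_lit 76) (nat_lit 18816264282) (nat_lit 152) (nat_lit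 7747893237) (nat_lit 12) (nat_lit 5) (nat_lit 13) (nat_lit 5) (nat_lit 14) (nat_lit 4) (nat_lit 220) (nat_lit 205) (nat_lit 175))))))) (XT.nd (nat_lit 780) (nat_lit 228) (nat_lit 0) (XT.nd (nat_lit 390) (nat_lit 152) (nat_lit 0) (XT.nd (nat_lit 156) (nat_lit 152) (nat_lit 0) (XT.nd (nat_lit 78) (nat_lit 228) (nat_lit 0) (XT.lf (nat_lit 0) (nat_lit 27853035100) (nat_lit 76) (nat_lit 6846487072) (nat_lit 152) (nat_lit 118743793) (nat_lit 12) (nat_lit 5) (nat_lit 13) (nat_lit 5) (nat_lit 14) (nat_lit 4) (nat_lit 221) (nat_lit 205) (nat_lit 174)) (XT.lf (nat_lit 0) (nat_lit 8738127475) (nat_lit 228) (nat_lit 22934792505) (nat_lit 76) (nat_lit 7153828486) (nat_lit 9) (nat_lit 5) (nat_lit 12) (nat_lit 5) (nat_lit 10) (nat_lit 4) (nat_lit 222) (nat_lit 205) (nat_lit 173))) (XT.nd (nat_lit 78) (nat_lit 152) (nat_lit 0) (XT.lf (nat_lit 0) (nat_lit 19266623113) (nat_lit 228) (nat_lit 1097465578)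 (nat_lit 76) (nat_lit 23044292464) (nat_lit 9) (nat_lit 5) (nat_lit 12) (nat_lit 5) (nat_lit 10) (nat_lit 4) (nat_lit 223) (nat_lit 205) (nat_lit 172)) (XT.nd (nat_lit 78) (nat_lit 76) (nat_lit 0) (XT.lf (nat_lit 0) (nat_lit 25207950354) (nat_lit 76) (nat_lit 6731403663) (nat_lit 152) (nat_lit 16692824837) (nat_lit 8) (nat_lit 5) (nat_lit 9) (nat_lit 5) (nat_lit 10) (nat_lit 4) (nat_lit 224) (nat_lit 205) (nat_lit 171)) (XT.lf (nat_lit 0) (nat_lit 639448996) (nat_lit 76) (nat_lit 46098839810) (nat_lit 76) (nat_lit 7883335581) (nat_lit 7) (nat_lit 4) (nat_lit 8) (nat_lit 5) (nat_lit 8) (nat_lit 4) (nat_lit 225) (nat_lit 205) (nat_lit 170))))) (XT.nd (nat_lit 156) (nat_lit 76) (nat_lit 0) (XT.nd (nat_lit 78) (nat_lit 0) (nat_lit 0) (XT.lf (nat_lit 0) (nat_lit 2985524940) (nat_lit 152) (nat_lit 32043324563) (nat_lit 76) (nat_lit 26408364343) (nat_lit 6) (nat_lit 5) (nat_lit 8) (nat_lit 5)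 (nat_lit 7) (nat_lit 4) (nat_lit 226) (nat_lit 205) (nat_lit 169)) (XT.lf (nat_lit 0) (nat_lit 15000354323) (nat_lit 152) (nat_lit 7085272671) (nat_lit 76) (nat_lit 47174611291) (nat_lit 6) (nat_lit 5) (nat_lit 8) (nat_lit 5) (nat_lit 7) (nat_lit 4) (nat_lit 227) (nat_lit 205) (nat_lit 168))) (XT.nd (nat_lit 78) (nat_lit 0) (nat_lit 0) (XT.lf (nat_lit 0) (nat_lit 22705716291) (nat_lit 76) (nat_lit 6630938421) (nat_lit 152) (nat_lit 48878583879) (nat_lit 5) (nat_lit 5) (nat_lit 6) (nat_lit 5) (nat_lit 7) (nat_lit 4) (nat_lit 228) (nat_lit 205) (nat_lit 167)) (XT.nd (nat_lit 78) (nat_lit 0) (nat_lit 0) (XT.lf (nat_lit 0) (nat_lit 46278208947) (nat_lit 152) (nat_lit 31420112328) (nat_lit 0) (nat_lit 10778836816) (nat_lit 5) (nat_lit 5) (nat_lit 7) (nat_lit 4) (nat_lit 5) (nat_lit 4) (nat_lit 229) (nat_lit 205) (nat_lit 166)) (XT.lf (nat_lit 0) (nat_lit 65922832134) (nat_lit 152) (nat_lit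 3939138226) (nat_lit 0) (nat_lit 30403495116) (nat_lit 5) (nat_lit 5) (nat_lit 7) (nat_lit 4) (nat_lit 5) (nat_lit 4) (nat_lit 230) (nat_lit 205) (nat_lit 165)))))) (XT.nd (nat_lit 390) (nat_lit 0) (nat_lit 0) (XT.nd (nat_lit 156) (nat_lit 152) (nat_lit 0) (XT.nd (nat_lit 78) (nat_lit 0) (nat_lit 0) (XT.lf (nat_lit 0) (nat_lit 29085521023) (nat_lit 76) (nat_lit 60109387826) (nat_lit 76) (nat_lit 24572690037) (nat_lit 4) (nat_lit 4) (nat_lit 5) (nat_lit 5) (nat_lit 5) (nat_lit 4) (nat_lit 231) (nat_lit 205) (nat_lit 164)) (XT.lf (nat_lit 0) (nat_lit 67271815114) (nat_lit 76) (nat_lit 48783627533) (nat_lit 76) (nat_lit 13231833421) (nat_lit 4) (nat_lit 4) (nat_lit 5) (nat_lit 5) (nat_lit 5) (nat_lit 4) (nat_lit 232) (nat_lit 205) (nat_lit 163))) (XT.nd (nat_lit 78) (nat_lit 152) (nat_lit 0) (XT.lf (nat_lit 0) (nat_lit 111159439153) (nat_lit 76) (nat_lit 35770801539) (nat_lit 76) (nat_lit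 205880189) (nat_lit 4) (nat_lit 4) (nat_lit 5) (nat_lit 5) (nat_lit 5) (nat_lit 4) (nat_lit 233) (nat_lit 205) (nat_lit 162)) (XT.nd (nat_lit 78) (nat_lit 76) (nat_lit 0) (XT.lf (nat_lit 0) (nat_lit 14021669021) (nat_lit 152) (nat_lit 6411264775) (nat_lit 76) (nat_lit 147202017745) (nat_lit 3) (nat_lit 5) (nat_lit 5) (nat_lit 5) (nat_lit 4) (nat_lit 4) (nat_lit 234) (nat_lit 205) (nat_lit 161)) (XT.lf (nat_lit 0) (nat_lit 29013911863) (nat_lit 76) (nat_lit 2043864232) (nat_lit 152) (nat_lit 160095495185) (nat_lit 2) (nat_lit 5) (nat_lit 3) (nat_lit 5) (nat_lit 4) (nat_lit 4) (nat_lit 235) (nat_lit 205) (nat_lit 160))))) (XT.nd (nat_lit 156) (nat_lit 0) (nat_lit 0) (XT.nd (nat_lit 78) (nat_lit 0) (nat_lit 0) (XT.lf (nat_lit 0) (nat_lit 51289569989) (nat_lit 152) (nat_lit 148527231076) (nat_lit 0) (nat_lit 18331335001) (nat_lit 2) (nat_lit 5) (nat_lit 4) (nat_lit 4) (nat_lit 2) (nat_lit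 4) (nat_lit 236) (nat_lit 205) (nat_lit 159)) (XT.lf (nat_lit 0) (nat_lit 74603377921) (nat_lit 152) (nat_lit 132946895994) (nat_lit 0) (nat_lit 41638193358) (nat_lit 2) (nat_lit 5) (nat_lit 4) (nat_lit 4) (nat_lit 2) (nat_lit 4) (nat_lit 237) (nat_lit 205) (nat_lit 158))) (XT.nd (nat_lit 78) (nat_lit 0) (nat_lit 0) (XT.lf (nat_lit 0) (nat_lit 101406184626) (nat_lit 152) (nat_lit 115044366546) (nat_lit 0) (nat_lit 68434956955) (nat_lit 2) (nat_lit 5) (nat_lit 4) (nat_lit 4) (nat_lit 2) (nat_lit 4) (nat_lit 238) (nat_lit 205) (nat_lit 157)) (XT.nd (nat_lit 78) (nat_lit 0) (nat_lit 0) (XT.lf (nat_lit 0) (nat_lit 132222392846) (nat_lit 152) (nat_lit 94469375850) (nat_lit 0) (nat_lit 99245910298) (nat_lit 2) (nat_lit 5) (nat_lit 4) (nat_lit 4) (nat_lit 2) (nat_lit 4) (nat_lit 239) (nat_lit 205) (nat_lit 156)) (XT.lf (nat_lit 0) (nat_lit 167654928393) (nat_lit 152) (nat_lit 70819369743) (nat_lit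 0) (nat_lit 134673876386) (nat_lit 2) (nat_lit 5) (nat_lit 4) (nat_lit 4) (nat_lit 2) (nat_lit 4) (nat_lit 240) (nat_lit 205) (nat_lit 155))))))))
noncomputable def xc32 : XT := (XT.nd (nat_lit 28548) (nat_lit 0) (nat_lit 532) (XT.nd (nat_lit 702) (nat_lit 0) (nat_lit 0) (XT.nd (nat_lit 312) (nat_lit 0) (nat_lit 0) (XT.nd (nat_lit 156) (nat_lit 76) (nat_lit 0) (XT.nd (nat_lit 78) (nat_lit 0) (nat_lit 0) (XT.lf (nat_lit 0) (nat_lit 208397036527) (nat_lit 152) (nat_lit 43631630711) (nat_lit 0) (nat_lit 175412011079) (nat_lit 2) (nat_lit 5) (nat_lit 4) (nat_lit 4) (nat_lit 2) (nat_lit 4) (nat_lit 241) (nat_lit 205) (nat_lit 154)) (XT.lf (nat_lit 0) (nat_lit 255245845452) (nat_lit 152) (nat_lit 12374224732) (nat_lit 0) (nat_lit 222257364837) (nat_lit 2) (nat_lit 5) (nat_lit 4) (nat_lit 4) (nat_lit 2) (nat_lit 4) (nat_lit 242) (nat_lit 205) (nat_lit 153))) (XT.nd (nat_lit 78) (nat_lit 0) (nat_lit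 0) (XT.lf (nat_lit 0) (nat_lit 24805266005) (nat_lit 76) (nat_lit 284909263537) (nat_lit 76) (nat_lit 251917778429) (nat_lit 1) (nat_lit 4) (nat_lit 2) (nat_lit 5) (nat_lit 2) (nat_lit 4) (nat_lit 243) (nat_lit 205) (nat_lit 152)) (XT.lf (nat_lit 0) (nat_lit 68304264994) (nat_lit 76) (nat_lit 304405860965) (nat_lit 76) (nat_lit 271411763255) (nat_lit 1) (nat_lit 4) (nat_lit 2) (nat_lit 5) (nat_lit 2) (nat_lit 4) (nat_lit 244) (nat_lit 205) (nat_lit 151)))) (XT.nd (nat_lit 156) (nat_lit 0) (nat_lit 0) (XT.nd (nat_lit 78) (nat_lit 0) (nat_lit 0) (XT.lf (nat_lit 0) (nat_lit 118322234859) (nat_lit 76) (nat_lit 326829650870) (nat_lit 76) (nat_lit 293833281331) (nat_lit 1) (nat_lit 4) (nat_lit 2) (nat_lit 5) (nat_lit 2) (nat_lit 4) (nat_lit 245) (nat_lit 205) (nat_lit 150)) (XT.lf (nat_lit 0) (nat_lit 175837788055) (nat_lit 76) (nat_lit 352619359575) (nat_lit 76) (nat_lit 319621014533) (nat_lit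 1) (nat_lit 4) (nat_lit 2) (nat_lit 5) (nat_lit 2) (nat_lit 4) (nat_lit 246) (nat_lit 205) (nat_lit 149))) (XT.nd (nat_lit 78) (nat_lit 0) (nat_lit 0) (XT.lf (nat_lit 0) (nat_lit 241976228884) (nat_lit 76) (nat_lit 382279568338) (nat_lit 76) (nat_lit 349279505468) (nat_lit 1) (nat_lit 4) (nat_lit 2) (nat_lit 5) (nat_lit 2) (nat_lit 4) (nat_lit 247) (nat_lit 205) (nat_lit 148)) (XT.nd (nat_lit 78) (nat_lit 0) (nat_lit 0) (XT.lf (nat_lit 0) (nat_lit 318031570317) (nat_lit 76) (nat_lit 416390585591) (nat_lit 76) (nat_lit 383389028957) (nat_lit 1) (nat_lit 4) (nat_lit 2) (nat_lit 5) (nat_lit 2) (nat_lit 4) (nat_lit 248) (nat_lit 205) (nat_lit 147)) (XT.lf (nat_lit 0) (nat_lit 405491851645) (nat_lit 76) (nat_lit 455619800802) (nat_lit 76) (nat_lit 422616945243) (nat_lit 1) (nat_lit 4) (nat_lit 2) (nat_lit 5) (nat_lit 2) (nat_lit 4) (nat_lit 249) (nat_lit 205) (nat_lit 146)))))) (XT.nd (nat_lit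 390) (nat_lit 0) (nat_lit 0) (XT.nd (nat_lit 156) (nat_lit 0) (nat_lit 0) (XT.nd (nat_lit 78) (nat_lit 0) (nat_lit 0) (XT.lf (nat_lit 0) (nat_lit 506068252284) (nat_lit 76) (nat_lit 500734742095) (nat_lit 76) (nat_lit 467730757035) (nat_lit 1) (nat_lit 4) (nat_lit 2) (nat_lit 5) (nat_lit 2) (nat_lit 4) (nat_lit 250) (nat_lit 205) (nat_lit 145)) (XT.lf (nat_lit 0) (nat_lit 621728571377) (nat_lit 76) (nat_lit 552618093103) (nat_lit 76) (nat_lit 519613125870) (nat_lit 1) (nat_lit 4) (nat_lit 2) (nat_lit 5) (nat_lit 2) (nat_lit 4) (nat_lit 251) (nat_lit 205) (nat_lit 144))) (XT.nd (nat_lit 78) (nat_lit 0) (nat_lit 0) (XT.lf (nat_lit 0) (nat_lit 754735728211) (nat_lit 76) (nat_lit 612284962869) (nat_lit 76) (nat_lit 579279141572) (nat_lit 1) (nat_lit 4) (nat_lit 2) (nat_lit 5) (nat_lit 2) (nat_lit 4) (nat_lit 252) (nat_lit 205) (nat_lit 143)) (XT.nd (nat_lit 78) (nat_lit 0) (nat_lit 0) (XT.lf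 (nat_lit 0) (nat_lit 907692036724) (nat_lit 76) (nat_lit 680902746671) (nat_lit 76) (nat_lit 647896182708) (nat_lit 1) (nat_lit 4) (nat_lit 2) (nat_lit 5) (nat_lit 2) (nat_lit 4) (nat_lit 253) (nat_lit 205) (nat_lit 142)) (XT.lf (nat_lit 0) (nat_lit 1083590120343) (nat_lit 76) (nat_lit 759813966364) (nat_lit 76) (nat_lit 726806756606) (nat_lit 1) (nat_lit 4) (nat_lit 2) (nat_lit 5) (nat_lit 2) (nat_lit 4) (nat_lit 254) (nat_lit 205) (nat_lit 141))))) (XT.nd (nat_lit 156) (nat_lit 0) (nat_lit 0) (XT.nd (nat_lit 78) (nat_lit 0) (nat_lit 0) (XT.lf (nat_lit 0) (nat_lit 1285871463313) (nat_lit 76) (nat_lit 850562537118) (nat_lit 76) (nat_lit 817554765799) (nat_lit 1) (nat_lit 4) (nat_lit 2) (nat_lit 5) (nat_lit 2) (nat_lit 4) (nat_lit 255) (nat_lit 205) (nat_lit 140)) (XT.lf (nat_lit 0) (nat_lit 1518493744084) (nat_lit 76) (nat_lit 954923974447) (nat_lit 76) (nat_lit 921915714813) (nat_lit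 1) (nat_lit 4) (nat_lit 2) (nat_lit 5) (nat_lit 2) (nat_lit 4) (nat_lit 256) (nat_lit 205) (nat_lit 139))) (XT.nd (nat_lit 78) (nat_lit 0) (nat_lit 0) (XT.lf (nat_lit 0) (nat_lit 1786008268148) (nat_lit 76) (nat_lit 1074940132559) (nat_lit 76) (nat_lit 1041931448305) (nat_lit 1) (nat_lit 4) (nat_lit 2) (nat_lit 5) (nat_lit 2) (nat_lit 4) (nat_lit 257) (nat_lit 205) (nat_lit 138)) (XT.nd (nat_lit 78) (nat_lit 0) (nat_lit 0) (XT.lf (nat_lit 0) (nat_lit 2093649015325) (nat_lit 76) (nat_lit 1212959153678) (nat_lit 76) (nat_lit 1179950100189) (nat_lit 1) (nat_lit 4) (nat_lit 2) (nat_lit 5) (nat_lit 2) (nat_lit 4) (nat_lit 258) (nat_lit 205) (nat_lit 137)) (XT.lf (nat_lit 0) (nat_lit 2447435043711) (nat_lit 76) (nat_lit 1371681409958) (nat_lit 76) (nat_lit 1338672035394) (nat_lit 1) (nat_lit 4) (nat_lit 2) (nat_lit 5) (nat_lit 2) (nat_lit 4) (nat_lit 259) (nat_lit 205) (nat_lit 136))))))) (XT.nd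 (nat_lit 780) (nat_lit 988) (nat_lit 0) (XT.nd (nat_lit 390) (nat_lit 1064) (nat_lit 0) (XT.nd (nat_lit 156) (nat_lit 380) (nat_lit 0) (XT.nd (nat_lit 78) (nat_lit 0) (nat_lit 0) (XT.lf (nat_lit 0) (nat_lit 1790063837) (nat_lit 0) (nat_lit 1790063837) (nat_lit 380) (nat_lit 1408725387) (nat_lit 40) (nat_lit 5) (nat_lit 40) (nat_lit 3) (nat_lit 45) (nat_lit 3) (nat_lit 206) (nat_lit 206) (nat_lit 188)) (XT.lf (nat_lit 76) (nat_lit 1519432351) (nat_lit 0) (nat_lit 7415787494) (nat_lit 456) (nat_lit 1684505571) (nat_lit 41) (nat_lit 5) (nat_lit 40) (nat_lit 5) (nat_lit 46) (nat_lit 5) (nat_lit 207) (nat_lit 206) (nat_lit 187))) (XT.nd (nat_lit 78) (nat_lit 380) (nat_lit 0) (XT.lf (nat_lit 76) (nat_lit 10781404311) (nat_lit 0) (nat_lit 277532968) (nat_lit 456) (nat_lit 293804653) (nat_lit 41) (nat_lit 5) (nat_lit 40) (nat_lit 5) (nat_lit 46) (nat_lit 5) (nat_lit 208) (nat_lit 206) (nat_lit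 186)) (XT.nd (nat_lit 78) (nat_lit 0) (nat_lit 76) (XT.lf (nat_lit 0) (nat_lit 1489460670) (nat_lit 456) (nat_lit 2825078674) (nat_lit 532) (nat_lit 7859761204) (nat_lit 35) (nat_lit 5) (nat_lit 41) (nat_lit 5) (nat_lit 42) (nat_lit 5) (nat_lit 209) (nat_lit 206) (nat_lit 185)) (XT.lf (nat_lit 0) (nat_lit 3685651140) (nat_lit 456) (nat_lit 5288683598) (nat_lit 76) (nat_lit 4132027834) (nat_lit 36) (nat_lit 5) (nat_lit 42) (nat_lit 5) (nat_lit 37) (nat_lit 5) (nat_lit 210) (nat_lit 206) (nat_lit 184))))) (XT.nd (nat_lit 156) (nat_lit 456) (nat_lit 0) (XT.nd (nat_lit 78) (nat_lit 228) (nat_lit 0) (XT.lf (nat_lit 0) (nat_lit 6114060078) (nat_lit 456) (nat_lit 308680255) (nat_lit 532) (nat_lit 7739364359) (nat_lit 30) (nat_lit 5) (nat_lit 36) (nat_lit 5) (nat_lit 37) (nat_lit 5) (nat_lit 211) (nat_lit 206) (nat_lit 183)) (XT.lf (nat_lit 0) (nat_lit 4021861596) (nat_lit 228) (nat_lit 5911763578)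 (nat_lit 304) (nat_lit 5414209946) (nat_lit 27) (nat_lit 5) (nat_lit 30) (nat_lit 5) (nat_lit 31) (nat_lit 5) (nat_lit 212) (nat_lit 206) (nat_lit 182))) (XT.nd (nat_lit 78) (nat_lit 304) (nat_lit 0) (XT.lf (nat_lit 0) (nat_lit 1540209243) (nat_lit 152) (nat_lit 12700319531) (nat_lit 228) (nat_lit 2449941602) (nat_lit 25) (nat_lit 5) (nat_lit 27) (nat_lit 5) (nat_lit 28) (nat_lit 5) (nat_lit 213) (nat_lit 206) (nat_lit 181)) (XT.nd (nat_lit 78) (nat_lit 228) (nat_lit 0) (XT.lf (nat_lit 0) (nat_lit 1310904343) (nat_lit 228) (nat_lit 1501555704) (nat_lit 76) (nat_lit 15388683110) (nat_lit 24) (nat_lit 5) (nat_lit 27) (nat_lit 5) (nat_lit 25) (nat_lit 5) (nat_lit 214) (nat_lit 206) (nat_lit 180)) (XT.lf (nat_lit 0) (nat_lit 5977736540) (nat_lit 304) (nat_lit 5368235281) (nat_lit 76) (nat_lit 8548817771) (nat_lit 21) (nat_lit 5) (nat_lit 25) (nat_lit 5) (nat_lit 22) (nat_lit 5) (nat_lit 215)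 (nat_lit 206) (nat_lit 179)))))) (XT.nd (nat_lit 390) (nat_lit 380) (nat_lit 0) (XT.nd (nat_lit 156) (nat_lit 304) (nat_lit 0) (XT.nd (nat_lit 78) (nat_lit 152) (nat_lit 0) (XT.lf (nat_lit 0) (nat_lit 11610490031) (nat_lit 152) (nat_lit 56214835) (nat_lit 228) (nat_lit 10150372164) (nat_lit 19) (nat_lit 5) (nat_lit 21) (nat_lit 5) (nat_lit 22) (nat_lit 5) (nat_lit 216) (nat_lit 206) (nat_lit 178)) (XT.lf (nat_lit 0) (nat_lit 7402154210) (nat_lit 152) (nat_lit 11383997209) (nat_lit 228) (nat_lit 5195701128) (nat_lit 17) (nat_lit 5) (nat_lit 19) (nat_lit 5) (nat_lit 20) (nat_lit 5) (nat_lit 217) (nat_lit 206) (nat_lit 177))) (XT.nd (nat_lit 78) (nat_lit 152) (nat_lit 0) (XT.lf (nat_lit 0) (nat_lit 784775061) (nat_lit 152) (nat_lit 24676170380) (nat_lit 76) (nat_lit 985068872) (nat_lit 15) (nat_lit 5) (nat_lit 17) (nat_lit 5) (nat_lit 16) (nat_lit 5) (nat_lit 218) (nat_lit 206) (nat_lit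 176)) (XT.nd (nat_lit 78) (nat_lit 152) (nat_lit 0) (XT.lf (nat_lit 0) (nat_lit 8112673094) (nat_lit 152) (nat_lit 5927320635) (nat_lit 76) (nat_lit 15168591803) (nat_lit 15) (nat_lit 5) (nat_lit 17) (nat_lit 5) (nat_lit 16) (nat_lit 5) (nat_lit 219) (nat_lit 206) (nat_lit 175)) (XT.lf (nat_lit 0) (nat_lit 16373921319) (nat_lit 152) (nat_lit 506719863) (nat_lit 228) (nat_lit 15477822567) (nat_lit 13) (nat_lit 5) (nat_lit 15) (nat_lit 5) (nat_lit 16) (nat_lit 5) (nat_lit 220) (nat_lit 206) (nat_lit 174))))) (XT.nd (nat_lit 156) (nat_lit 228) (nat_lit 0) (XT.nd (nat_lit 78) (nat_lit 76) (nat_lit 0) (XT.lf (nat_lit 0) (nat_lit 6284314680) (nat_lit 76) (nat_lit 21321449942) (nat_lit 152) (nat_lit 8323869345) (nat_lit 12) (nat_lit 5) (nat_lit 13) (nat_lit 5) (nat_lit 14) (nat_lit 4) (nat_lit 221) (nat_lit 206) (nat_lit 173)) (XT.lf (nat_lit 0) (nat_lit 354522112) (nat_lit 152) (nat_lit 7233371729)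 (nat_lit 76) (nat_lit 32413186548) (nat_lit 11) (nat_lit 5) (nat_lit 13) (nat_lit 5) (nat_lit 12) (nat_lit 5) (nat_lit 222) (nat_lit 206) (nat_lit 172))) (XT.nd (nat_lit 78) (nat_lit 76) (nat_lit 0) (XT.lf (nat_lit 0) (nat_lit 10493443870) (nat_lit 228) (nat_lit 25637293002) (nat_lit 76) (nat_lit 8483196527) (nat_lit 9) (nat_lit 5) (nat_lit 12) (nat_lit 5) (nat_lit 10) (nat_lit 4) (nat_lit 223) (nat_lit 206) (nat_lit 171)) (XT.nd (nat_lit 78) (nat_lit 76) (nat_lit 0) (XT.lf (nat_lit 0) (nat_lit 22543222905) (nat_lit 228) (nat_lit 620591173) (nat_lit 76) (nat_lit 26723800480) (nat_lit 9) (nat_lit 5) (nat_lit 12) (nat_lit 5) (nat_lit 10) (nat_lit 4) (nat_lit 224) (nat_lit 206) (nat_lit 170)) (XT.lf (nat_lit 0) (nat_lit 29576337857) (nat_lit 76) (nat_lit 7504220729) (nat_lit 152) (nat_lit 18817470575) (nat_lit 8) (nat_lit 5) (nat_lit 9) (nat_lit 5) (nat_lit 10) (nat_lit 4) (nat_lit 225)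 (nat_lit 206) (nat_lit 169))))))))
noncomputable def xc33 : XT := (XT.nd (nat_lit 1482) (nat_lit 0) (nat_lit 0) (XT.nd (nat_lit 702) (nat_lit 228) (nat_lit 0) (XT.nd (nat_lit 312) (nat_lit 76) (nat_lit 0) (XT.nd (nat_lit 156) (nat_lit 76) (nat_lit 0) (XT.nd (nat_lit 78) (nat_lit 76) (nat_lit 0) (XT.lf (nat_lit 0) (nat_lit 1294166924) (nat_lit 76) (nat_lit 52777868509) (nat_lit 76) (nat_lit 8716164170) (nat_lit 7) (nat_lit 4) (nat_lit 8) (nat_lit 5) (nat_lit 8) (nat_lit 4) (nat_lit 226) (nat_lit 206) (nat_lit 168)) (XT.lf (nat_lit 0) (nat_lit 3722205638) (nat_lit 152) (nat_lit 36348032458) (nat_lit 76) (nat_lit 30558782860) (nat_lit 6) (nat_lit 5) (nat_lit 8) (nat_lit 5) (nat_lit 7) (nat_lit 4) (nat_lit 227) (nat_lit 206) (nat_lit 167))) (XT.nd (nat_lit 78) (nat_lit 76) (nat_lit 0) (XT.lf (nat_lit 0) (nat_lit 17501583087) (nat_lit 152) (nat_lit 7711723755) (nat_lit 76) (nat_lit 54415293302)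 (nat_lit 6) (nat_lit 5) (nat_lit 8) (nat_lit 5) (nat_lit 7) (nat_lit 4) (nat_lit 228) (nat_lit 206) (nat_lit 166)) (XT.lf (nat_lit 0) (nat_lit 26510979559) (nat_lit 76) (nat_lit 7454192658) (nat_lit 152) (nat_lit 55963606415) (nat_lit 5) (nat_lit 5) (nat_lit 6) (nat_lit 5) (nat_lit 7) (nat_lit 4) (nat_lit 229) (nat_lit 206) (nat_lit 165)))) (XT.nd (nat_lit 156) (nat_lit 76) (nat_lit 0) (XT.nd (nat_lit 78) (nat_lit 0) (nat_lit 0) (XT.lf (nat_lit 0) (nat_lit 53421802157) (nat_lit 152) (nat_lit 35773103332) (nat_lit 0) (nat_lit 12537238928) (nat_lit 5) (nat_lit 5) (nat_lit 7) (nat_lit 4) (nat_lit 5) (nat_lit 4) (nat_lit 230) (nat_lit 206) (nat_lit 164)) (XT.lf (nat_lit 0) (nat_lit 75986789014) (nat_lit 152) (nat_lit 4216943008) (nat_lit 0) (nat_lit 35087129461) (nat_lit 5) (nat_lit 5) (nat_lit 7) (nat_lit 4) (nat_lit 5) (nat_lit 4) (nat_lit 231) (nat_lit 206) (nat_lit 163))) (XT.nd (nat_lit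 78) (nat_lit 0) (nat_lit 0) (XT.lf (nat_lit 0) (nat_lit 33734915655) (nat_lit 76) (nat_lit 68998758025) (nat_lit 76) (nat_lit 28085971236) (nat_lit 4) (nat_lit 4) (nat_lit 5) (nat_lit 5) (nat_lit 5) (nat_lit 4) (nat_lit 232) (nat_lit 206) (nat_lit 162)) (XT.nd (nat_lit 78) (nat_lit 0) (nat_lit 0) (XT.lf (nat_lit 0) (nat_lit 77611775623) (nat_lit 76) (nat_lit 55990703859) (nat_lit 76) (nat_lit 15066502080) (nat_lit 4) (nat_lit 4) (nat_lit 5) (nat_lit 5) (nat_lit 5) (nat_lit 4) (nat_lit 233) (nat_lit 206) (nat_lit 161)) (XT.lf (nat_lit 0) (nat_lit 128050040454) (nat_lit 76) (nat_lit 41040362810) (nat_lit 76) (nat_lit 106234954) (nat_lit 4) (nat_lit 4) (nat_lit 5) (nat_lit 5) (nat_lit 5) (nat_lit 4) (nat_lit 234) (nat_lit 206) (nat_lit 160)))))) (XT.nd (nat_lit 390) (nat_lit 76) (nat_lit 0) (XT.nd (nat_lit 156) (nat_lit 0) (nat_lit 0) (XT.nd (nat_lit 78) (nat_lit 76) (nat_lit 0) (XT.lf (nat_lit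 0) (nat_lit 16232743514) (nat_lit 152) (nat_lit 7178652716) (nat_lit 76) (nat_lit 169359970275) (nat_lit 3) (nat_lit 5) (nat_lit 5) (nat_lit 5) (nat_lit 4) (nat_lit 4) (nat_lit 235) (nat_lit 206) (nat_lit 159)) (XT.lf (nat_lit 0) (nat_lit 33543853739) (nat_lit 76) (nat_lit 2270626312) (nat_lit 152) (nat_lit 184003763410) (nat_lit 2) (nat_lit 5) (nat_lit 3) (nat_lit 5) (nat_lit 4) (nat_lit 4) (nat_lit 236) (nat_lit 206) (nat_lit 158))) (XT.nd (nat_lit 78) (nat_lit 0) (nat_lit 0) (XT.lf (nat_lit 0) (nat_lit 59069924753) (nat_lit 152) (nat_lit 170646355742) (nat_lit 0) (nat_lit 21146969823) (nat_lit 2) (nat_lit 5) (nat_lit 4) (nat_lit 4) (nat_lit 2) (nat_lit 4) (nat_lit 237) (nat_lit 206) (nat_lit 157)) (XT.nd (nat_lit 78) (nat_lit 0) (nat_lit 0) (XT.lf (nat_lit 0) (nat_lit 85869466579) (nat_lit 152) (nat_lit 152749834745) (nat_lit 0) (nat_lit 47941256772) (nat_lit 2) (nat_lit 5) (nat_lit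 4) (nat_lit 4) (nat_lit 2) (nat_lit 4) (nat_lit 238) (nat_lit 206) (nat_lit 156)) (XT.lf (nat_lit 0) (nat_lit 116682835773) (nat_lit 152) (nat_lit 132180068790) (nat_lit 0) (nat_lit 78750056507) (nat_lit 2) (nat_lit 5) (nat_lit 4) (nat_lit 4) (nat_lit 2) (nat_lit 4) (nat_lit 239) (nat_lit 206) (nat_lit 155))))) (XT.nd (nat_lit 156) (nat_lit 76) (nat_lit 0) (XT.nd (nat_lit 78) (nat_lit 0) (nat_lit 0) (XT.lf (nat_lit 0) (nat_lit 152112902601) (nat_lit 152) (nat_lit 108534605935) (nat_lit 0) (nat_lit 114176149894) (nat_lit 2) (nat_lit 5) (nat_lit 4) (nat_lit 4) (nat_lit 2) (nat_lit 4) (nat_lit 240) (nat_lit 206) (nat_lit 154)) (XT.lf (nat_lit 0) (nat_lit 192852864024) (nat_lit 152) (nat_lit 81350817558) (nat_lit 0) (nat_lit 154912656150) (nat_lit 2) (nat_lit 5) (nat_lit 4) (nat_lit 4) (nat_lit 2) (nat_lit 4) (nat_lit 241) (nat_lit 206) (nat_lit 153))) (XT.nd (nat_lit 78) (nat_lit 76) (nat_lit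 0) (XT.lf (nat_lit 0) (nat_lit 239699806243) (nat_lit 152) (nat_lit 50096846930) (nat_lit 0) (nat_lit 201756593876) (nat_lit 2) (nat_lit 5) (nat_lit 4) (nat_lit 4) (nat_lit 2) (nat_lit 4) (nat_lit 242) (nat_lit 206) (nat_lit 152)) (XT.nd (nat_lit 78) (nat_lit 76) (nat_lit 0) (XT.lf (nat_lit 0) (nat_lit 293570299867) (nat_lit 152) (nat_lit 14161203322) (nat_lit 0) (nat_lit 255624474898) (nat_lit 2) (nat_lit 5) (nat_lit 4) (nat_lit 4) (nat_lit 2) (nat_lit 4) (nat_lit 243) (nat_lit 206) (nat_lit 151)) (XT.lf (nat_lit 0) (nat_lit 28589357390) (nat_lit 76) (nat_lit 327616550157) (nat_lit 76) (nat_lit 289668453360) (nat_lit 1) (nat_lit 4) (nat_lit 2) (nat_lit 5) (nat_lit 2) (nat_lit 4) (nat_lit 244) (nat_lit 206) (nat_lit 150))))))) (XT.nd (nat_lit 780) (nat_lit 0) (nat_lit 0) (XT.nd (nat_lit 390) (nat_lit 0) (nat_lit 0) (XT.nd (nat_lit 156) (nat_lit 0) (nat_lit 0) (XT.nd (nat_lit 78) (nat_lit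 0) (nat_lit 0) (XT.lf (nat_lit 0) (nat_lit 78604949511) (nat_lit 76) (nat_lit 350041433232) (nat_lit 76) (nat_lit 312091360931) (nat_lit 1) (nat_lit 4) (nat_lit 2) (nat_lit 5) (nat_lit 2) (nat_lit 4) (nat_lit 245) (nat_lit 206) (nat_lit 149)) (XT.lf (nat_lit 0) (nat_lit 136118435104) (nat_lit 76) (nat_lit 375832092519) (nat_lit 76) (nat_lit 337880302390) (nat_lit 1) (nat_lit 4) (nat_lit 2) (nat_lit 5) (nat_lit 2) (nat_lit 4) (nat_lit 246) (nat_lit 206) (nat_lit 148))) (XT.nd (nat_lit 78) (nat_lit 0) (nat_lit 0) (XT.lf (nat_lit 0) (nat_lit 202255078017) (nat_lit 76) (nat_lit 405493127875) (nat_lit 76) (nat_lit 367539843982) (nat_lit 1) (nat_lit 4) (nat_lit 2) (nat_lit 5) (nat_lit 2) (nat_lit 4) (nat_lit 247) (nat_lit 206) (nat_lit 147)) (XT.nd (nat_lit 78) (nat_lit 0) (nat_lit 0) (XT.lf (nat_lit 0) (nat_lit 278308856045) (nat_lit 76) (nat_lit 439604863905) (nat_lit 76) (nat_lit 401650281087)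 (nat_lit 1) (nat_lit 4) (nat_lit 2) (nat_lit 5) (nat_lit 2) (nat_lit 4) (nat_lit 248) (nat_lit 206) (nat_lit 146)) (XT.lf (nat_lit 0) (nat_lit 365767777890) (nat_lit 76) (nat_lit 478834704140) (nat_lit 76) (nat_lit 440878991821) (nat_lit 1) (nat_lit 4) (nat_lit 2) (nat_lit 5) (nat_lit 2) (nat_lit 4) (nat_lit 249) (nat_lit 206) (nat_lit 145))))) (XT.nd (nat_lit 156) (nat_lit 0) (nat_lit 0) (XT.nd (nat_lit 78) (nat_lit 0) (nat_lit 0) (XT.lf (nat_lit 0) (nat_lit 466342996370) (nat_lit 76) (nat_lit 523950188931) (nat_lit 76) (nat_lit 485993494439) (nat_lit 1) (nat_lit 4) (nat_lit 2) (nat_lit 5) (nat_lit 2) (nat_lit 4) (nat_lit 250) (nat_lit 206) (nat_lit 144)) (XT.lf (nat_lit 0) (nat_lit 582002287499) (nat_lit 76) (nat_lit 575834012547) (nat_lit 76) (nat_lit 537876463990) (nat_lit 1) (nat_lit 4) (nat_lit 2) (nat_lit 5) (nat_lit 2) (nat_lit 4) (nat_lit 251) (nat_lit 206) (nat_lit 143))) (XT.nd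 (nat_lit 78) (nat_lit 0) (nat_lit 0) (XT.lf (nat_lit 0) (nat_lit 715008550451) (nat_lit 76) (nat_lit 635501293276) (nat_lit 76) (nat_lit 597543002055) (nat_lit 1) (nat_lit 4) (nat_lit 2) (nat_lit 5) (nat_lit 2) (nat_lit 4) (nat_lit 252) (nat_lit 206) (nat_lit 142)) (XT.nd (nat_lit 78) (nat_lit 0) (nat_lit 0) (XT.lf (nat_lit 0) (nat_lit 867964081675) (nat_lit 76) (nat_lit 704119434436) (nat_lit 76) (nat_lit 666160497420) (nat_lit 1) (nat_lit 4) (nat_lit 2) (nat_lit 5) (nat_lit 2) (nat_lit 4) (nat_lit 253) (nat_lit 206) (nat_lit 141)) (XT.lf (nat_lit 0) (nat_lit 1043861489391) (nat_lit 76) (nat_lit 783030964877) (nat_lit 76) (nat_lit 745071466299) (nat_lit 1) (nat_lit 4) (nat_lit 2) (nat_lit 5) (nat_lit 2) (nat_lit 4) (nat_lit 254) (nat_lit 206) (nat_lit 140)))))) (XT.nd (nat_lit 27534) (nat_lit 0) (nat_lit 2508) (XT.nd (nat_lit 156) (nat_lit 0) (nat_lit 0) (XT.nd (nat_lit 78) (nat_lit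 0) (nat_lit 0) (XT.lf (nat_lit 0) (nat_lit 1246142244619) (nat_lit 76) (nat_lit 873779805846) (nat_lit 76) (nat_lit 835819818953) (nat_lit 1) (nat_lit 4) (nat_lit 2) (nat_lit 5) (nat_lit 2) (nat_lit 4) (nat_lit 255) (nat_lit 206) (nat_lit 139)) (XT.lf (nat_lit 0) (nat_lit 1478764014310) (nat_lit 76) (nat_lit 978141478144) (nat_lit 76) (nat_lit 940181066631) (nat_lit 1) (nat_lit 4) (nat_lit 2) (nat_lit 5) (nat_lit 2) (nat_lit 4) (nat_lit 256) (nat_lit 206) (nat_lit 138))) (XT.nd (nat_lit 78) (nat_lit 0) (nat_lit 0) (XT.lf (nat_lit 0) (nat_lit 1746278093957) (nat_lit 76) (nat_lit 1098157840577) (nat_lit 76) (nat_lit 1060197059828) (nat_lit 1) (nat_lit 4) (nat_lit 2) (nat_lit 5) (nat_lit 2) (nat_lit 4) (nat_lit 257) (nat_lit 206) (nat_lit 137)) (XT.nd (nat_lit 78) (nat_lit 0) (nat_lit 0) (XT.lf (nat_lit 0) (nat_lit 2053918454684) (nat_lit 76) (nat_lit 1236177039367) (nat_lit 76) (nat_lit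 1198215937544) (nat_lit 1) (nat_lit 4) (nat_lit 2) (nat_lit 5) (nat_lit 2) (nat_lit 4) (nat_lit 258) (nat_lit 206) (nat_lit 136)) (XT.lf (nat_lit 0) (nat_lit 2407704147027) (nat_lit 76) (nat_lit 1394899450143) (nat_lit 76) (nat_lit 1356938069125) (nat_lit 1) (nat_lit 4) (nat_lit 2) (nat_lit 5) (nat_lit 2) (nat_lit 4) (nat_lit 259) (nat_lit 206) (nat_lit 135))))) (XT.nd (nat_lit 156) (nat_lit 0) (nat_lit 0) (XT.nd (nat_lit 78) (nat_lit 456) (nat_lit 0) (XT.lf (nat_lit 0) (nat_lit 2595967702) (nat_lit 0) (nat_lit 2595967702) (nat_lit 380) (nat_lit 452290652) (nat_lit 40) (nat_lit 5) (nat_lit 40) (nat_lit 3) (nat_lit 45) (nat_lit 3) (nat_lit 207) (nat_lit 207) (nat_lit 186)) (XT.lf (nat_lit 0) (nat_lit 94987981) (nat_lit 456) (nat_lit 9127965962) (nat_lit 532) (nat_lit 2827409469) (nat_lit 34) (nat_lit 5) (nat_lit 40) (nat_lit 5) (nat_lit 41) (nat_lit 5) (nat_lit 208) (nat_lit 207) (nat_lit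 185))) (XT.nd (nat_lit 78) (nat_lit 0) (nat_lit 76) (XT.lf (nat_lit 76) (nat_lit 498440623) (nat_lit 0) (nat_lit 875411452) (nat_lit 532) (nat_lit 11537102692) (nat_lit 35) (nat_lit 5) (nat_lit 34) (nat_lit 5) (nat_lit 41) (nat_lit 5) (nat_lit 209) (nat_lit 207) (nat_lit 184)) (XT.nd (nat_lit 78) (nat_lit 0) (nat_lit 76) (XT.lf (nat_lit 0) (nat_lit 3189848182) (nat_lit 456) (nat_lit 2082817556) (nat_lit 532) (nat_lit 8601133303) (nat_lit 35) (nat_lit 5) (nat_lit 41) (nat_lit 5) (nat_lit 42) (nat_lit 5) (nat_lit 210) (nat_lit 207) (nat_lit 183)) (XT.lf (nat_lit 0) (nat_lit 5542652266) (nat_lit 456) (nat_lit 4896644154) (nat_lit 76) (nat_lit 4521306419) (nat_lit 36) (nat_lit 5) (nat_lit 42) (nat_lit 5) (nat_lit 37) (nat_lit 5) (nat_lit 211) (nat_lit 207) (nat_lit 182))))))))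
noncomputable def xc34 : XT := (XT.nd (nat_lit 1482) (nat_lit 304) (nat_lit 0) (XT.nd (nat_lit 702) (nat_lit 760) (nat_lit 0) (XT.nd (nat_lit 312) (nat_lit 684) (nat_lit 0) (XT.nd (nat_lit 156) (nat_lit 228) (nat_lit 0) (XT.nd (nat_lit 78) (nat_lit 228) (nat_lit 0) (XT.lf (nat_lit 0) (nat_lit 8116177778) (nat_lit 456) (nat_lit 430114573) (nat_lit 532) (nat_lit 7640897774) (nat_lit 30) (nat_lit 5) (nat_lit 36) (nat_lit 5) (nat_lit 37) (nat_lit 5) (nat_lit 212) (nat_lit 207) (nat_lit 181)) (XT.lf (nat_lit 0) (nat_lit 5710793849) (nat_lit 228) (nat_lit 6746232069) (nat_lit 304) (nat_lit 5104734179) (nat_lit 27) (nat_lit 5) (nat_lit 30) (nat_lit 5) (nat_lit 31) (nat_lit 5) (nat_lit 213) (nat_lit 207) (nat_lit 180))) (XT.nd (nat_lit 78) (nat_lit 76) (nat_lit 0) (XT.lf (nat_lit 0) (nat_lit 2844627605) (nat_lit 152) (nat_lit 14457460416) (nat_lit 228) (nat_lit 1813060837) (nat_lit 25) (nat_lit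 5) (nat_lit 27) (nat_lit 5) (nat_lit 28) (nat_lit 5) (nat_lit 214) (nat_lit 207) (nat_lit 179)) (XT.lf (nat_lit 0) (nat_lit 2337217603) (nat_lit 228) (nat_lit 745811774) (nat_lit 76) (nat_lit 17778003091) (nat_lit 24) (nat_lit 5) (nat_lit 27) (nat_lit 5) (nat_lit 25) (nat_lit 5) (nat_lit 215) (nat_lit 207) (nat_lit 178)))) (XT.nd (nat_lit 156) (nat_lit 304) (nat_lit 0) (XT.nd (nat_lit 78) (nat_lit 152) (nat_lit 0) (XT.lf (nat_lit 0) (nat_lit 7621176411) (nat_lit 304) (nat_lit 5216410623) (nat_lit 76) (nat_lit 9978280424) (nat_lit 21) (nat_lit 5) (nat_lit 25) (nat_lit 5) (nat_lit 22) (nat_lit 5) (nat_lit 216) (nat_lit 207) (nat_lit 177)) (XT.lf (nat_lit 0) (nat_lit 14090543088) (nat_lit 228) (nat_lit 10808325184) (nat_lit 76) (nat_lit 133908738) (nat_lit 19) (nat_lit 5) (nat_lit 22) (nat_lit 5) (nat_lit 20) (nat_lit 5) (nat_lit 217) (nat_lit 207) (nat_lit 176))) (XT.nd (nat_lit 78) (nat_lit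 152) (nat_lit 0) (XT.lf (nat_lit 0) (nat_lit 9361647673) (nat_lit 152) (nat_lit 12850142290) (nat_lit 228) (nat_lit 5316153655) (nat_lit 17) (nat_lit 5) (nat_lit 19) (nat_lit 5) (nat_lit 20) (nat_lit 5) (nat_lit 218) (nat_lit 207) (nat_lit 175)) (XT.nd (nat_lit 78) (nat_lit 0) (nat_lit 0) (XT.lf (nat_lit 0) (nat_lit 1472173537) (nat_lit 152) (nat_lit 27526697663) (nat_lit 76) (nat_lit 1366401805) (nat_lit 15) (nat_lit 5) (nat_lit 17) (nat_lit 5) (nat_lit 16) (nat_lit 5) (nat_lit 219) (nat_lit 207) (nat_lit 174)) (XT.lf (nat_lit 0) (nat_lit 9824949900) (nat_lit 152) (nat_lit 6076507189) (nat_lit 76) (nat_lit 17646987184) (nat_lit 15) (nat_lit 5) (nat_lit 17) (nat_lit 5) (nat_lit 16) (nat_lit 5) (nat_lit 220) (nat_lit 207) (nat_lit 173)))))) (XT.nd (nat_lit 390) (nat_lit 304) (nat_lit 0) (XT.nd (nat_lit 156) (nat_lit 228) (nat_lit 0) (XT.nd (nat_lit 78) (nat_lit 76) (nat_lit 0) (XT.lf (nat_lit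 0) (nat_lit 19507291233) (nat_lit 152) (nat_lit 352496370) (nat_lit 228) (nat_lit 17315117323) (nat_lit 13) (nat_lit 5) (nat_lit 15) (nat_lit 5) (nat_lit 16) (nat_lit 5) (nat_lit 221) (nat_lit 207) (nat_lit 172)) (XT.lf (nat_lit 0) (nat_lit 7876015412) (nat_lit 76) (nat_lit 24279777844) (nat_lit 152) (nat_lit 9129192372) (nat_lit 12) (nat_lit 5) (nat_lit 13) (nat_lit 5) (nat_lit 14) (nat_lit 4) (nat_lit 222) (nat_lit 207) (nat_lit 171))) (XT.nd (nat_lit 78) (nat_lit 152) (nat_lit 0) (XT.lf (nat_lit 0) (nat_lit 773860295) (nat_lit 152) (nat_lit 7733606520) (nat_lit 76) (nat_lit 37463387579) (nat_lit 11) (nat_lit 5) (nat_lit 13) (nat_lit 5) (nat_lit 12) (nat_lit 5) (nat_lit 223) (nat_lit 207) (nat_lit 170)) (XT.nd (nat_lit 78) (nat_lit 0) (nat_lit 0) (XT.lf (nat_lit 0) (nat_lit 12403639863) (nat_lit 228) (nat_lit 28925065872) (nat_lit 76) (nat_lit 9949470916) (nat_lit 9) (nat_lit 5) (nat_lit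 12) (nat_lit 5) (nat_lit 10) (nat_lit 4) (nat_lit 224) (nat_lit 207) (nat_lit 169)) (XT.lf (nat_lit 0) (nat_lit 26217036265) (nat_lit 228) (nat_lit 228618040) (nat_lit 76) (nat_lit 30900887865) (nat_lit 9) (nat_lit 5) (nat_lit 12) (nat_lit 5) (nat_lit 10) (nat_lit 4) (nat_lit 225) (nat_lit 207) (nat_lit 168))))) (XT.nd (nat_lit 156) (nat_lit 152) (nat_lit 0) (XT.nd (nat_lit 78) (nat_lit 76) (nat_lit 0) (XT.lf (nat_lit 0) (nat_lit 34456792278) (nat_lit 76) (nat_lit 8450728330) (nat_lit 152) (nat_lit 21353302514) (nat_lit 8) (nat_lit 5) (nat_lit 9) (nat_lit 5) (nat_lit 10) (nat_lit 4) (nat_lit 226) (nat_lit 207) (nat_lit 167)) (XT.lf (nat_lit 0) (nat_lit 1910825482) (nat_lit 76) (nat_lit 60516252171) (nat_lit 76) (nat_lit 9759186718) (nat_lit 7) (nat_lit 4) (nat_lit 8) (nat_lit 5) (nat_lit 8) (nat_lit 4) (nat_lit 227) (nat_lit 207) (nat_lit 166))) (XT.nd (nat_lit 78) (nat_lit 76) (nat_lit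 0) (XT.lf (nat_lit 0) (nat_lit 4498950063) (nat_lit 152) (nat_lit 41420811399) (nat_lit 76) (nat_lit 35285635347) (nat_lit 6) (nat_lit 5) (nat_lit 8) (nat_lit 5) (nat_lit 7) (nat_lit 4) (nat_lit 228) (nat_lit 207) (nat_lit 165)) (XT.nd (nat_lit 78) (nat_lit 76) (nat_lit 0) (XT.lf (nat_lit 0) (nat_lit 20316745401) (nat_lit 152) (nat_lit 8538546729) (nat_lit 76) (nat_lit 62701965610) (nat_lit 6) (nat_lit 5) (nat_lit 8) (nat_lit 5) (nat_lit 7) (nat_lit 4) (nat_lit 229) (nat_lit 207) (nat_lit 164)) (XT.lf (nat_lit 0) (nat_lit 30789634677) (nat_lit 76) (nat_lit 8442728721) (nat_lit 152) (nat_lit 64171557550) (nat_lit 5) (nat_lit 5) (nat_lit 6) (nat_lit 5) (nat_lit 7) (nat_lit 4) (nat_lit 230) (nat_lit 207) (nat_lit 163))))))) (XT.nd (nat_lit 780) (nat_lit 76) (nat_lit 0) (XT.nd (nat_lit 390) (nat_lit 152) (nat_lit 0) (XT.nd (nat_lit 156) (nat_lit 76) (nat_lit 0) (XT.nd (nat_lit 78) (nat_lit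 0) (nat_lit 0) (XT.lf (nat_lit 0) (nat_lit 61587709054) (nat_lit 152) (nat_lit 40866837568) (nat_lit 0) (nat_lit 14524877009) (nat_lit 5) (nat_lit 5) (nat_lit 7) (nat_lit 4) (nat_lit 5) (nat_lit 4) (nat_lit 231) (nat_lit 207) (nat_lit 162)) (XT.lf (nat_lit 0) (nat_lit 87517534821) (nat_lit 152) (nat_lit 4612761621) (nat_lit 0) (nat_lit 40443287787) (nat_lit 5) (nat_lit 5) (nat_lit 7) (nat_lit 4) (nat_lit 5) (nat_lit 4) (nat_lit 232) (nat_lit 207) (nat_lit 161))) (XT.nd (nat_lit 78) (nat_lit 0) (nat_lit 0) (XT.lf (nat_lit 0) (nat_lit 39011838432) (nat_lit 76) (nat_lit 79252512769) (nat_lit 76) (nat_lit 32168339657) (nat_lit 4) (nat_lit 4) (nat_lit 5) (nat_lit 5) (nat_lit 5) (nat_lit 4) (nat_lit 233) (nat_lit 207) (nat_lit 160)) (XT.nd (nat_lit 78) (nat_lit 0) (nat_lit 0) (XT.lf (nat_lit 0) (nat_lit 89441964079) (nat_lit 76) (nat_lit 64305779907) (nat_lit 76) (nat_lit 17212975424) (nat_lit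 4) (nat_lit 4) (nat_lit 5) (nat_lit 5) (nat_lit 5) (nat_lit 4) (nat_lit 234) (nat_lit 207) (nat_lit 159)) (XT.lf (nat_lit 0) (nat_lit 147421391837) (nat_lit 76) (nat_lit 47123782857) (nat_lit 76) (nat_lit 23472833) (nat_lit 4) (nat_lit 4) (nat_lit 5) (nat_lit 5) (nat_lit 5) (nat_lit 4) (nat_lit 235) (nat_lit 207) (nat_lit 158))))) (XT.nd (nat_lit 156) (nat_lit 0) (nat_lit 0) (XT.nd (nat_lit 78) (nat_lit 76) (nat_lit 0) (XT.lf (nat_lit 0) (nat_lit 18749185582) (nat_lit 152) (nat_lit 8108530568) (nat_lit 76) (nat_lit 194822680272) (nat_lit 3) (nat_lit 5) (nat_lit 5) (nat_lit 5) (nat_lit 4) (nat_lit 4) (nat_lit 236) (nat_lit 207) (nat_lit 157)) (XT.lf (nat_lit 0) (nat_lit 38709915805) (nat_lit 76) (nat_lit 2550866719) (nat_lit 152) (nat_lit 211524134309) (nat_lit 2) (nat_lit 5) (nat_lit 3) (nat_lit 5) (nat_lit 4) (nat_lit 4) (nat_lit 237) (nat_lit 207) (nat_lit 156))) (XT.nd (nat_lit 78)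 (nat_lit 0) (nat_lit 0) (XT.lf (nat_lit 0) (nat_lit 67996136919) (nat_lit 152) (nat_lit 196122356366) (nat_lit 0) (nat_lit 24368871306) (nat_lit 2) (nat_lit 5) (nat_lit 4) (nat_lit 4) (nat_lit 2) (nat_lit 4) (nat_lit 238) (nat_lit 207) (nat_lit 155)) (XT.nd (nat_lit 78) (nat_lit 0) (nat_lit 0) (XT.lf (nat_lit 0) (nat_lit 98807037394) (nat_lit 152) (nat_lit 175557133663) (nat_lit 0) (nat_lit 55175798339) (nat_lit 2) (nat_lit 5) (nat_lit 4) (nat_lit 4) (nat_lit 2) (nat_lit 4) (nat_lit 239) (nat_lit 207) (nat_lit 154)) (XT.lf (nat_lit 0) (nat_lit 134234957511) (nat_lit 152) (nat_lit 151915621462) (nat_lit 0) (nat_lit 90600263289) (nat_lit 2) (nat_lit 5) (nat_lit 4) (nat_lit 4) (nat_lit 2) (nat_lit 4) (nat_lit 240) (nat_lit 207) (nat_lit 153)))))) (XT.nd (nat_lit 390) (nat_lit 0) (nat_lit 0) (XT.nd (nat_lit 156) (nat_lit 76) (nat_lit 0) (XT.nd (nat_lit 78) (nat_lit 0) (nat_lit 0) (XT.lf (nat_lit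 0) (nat_lit 174973052228) (nat_lit 152) (nat_lit 124735268437) (nat_lit 0) (nat_lit 131335353514) (nat_lit 2) (nat_lit 5) (nat_lit 4) (nat_lit 4) (nat_lit 2) (nat_lit 4) (nat_lit 241) (nat_lit 207) (nat_lit 152)) (XT.lf (nat_lit 0) (nat_lit 221818371225) (nat_lit 152) (nat_lit 93484285071) (nat_lit 0) (nat_lit 178178059908) (nat_lit 2) (nat_lit 5) (nat_lit 4) (nat_lit 4) (nat_lit 2) (nat_lit 4) (nat_lit 242) (nat_lit 207) (nat_lit 151))) (XT.nd (nat_lit 78) (nat_lit 76) (nat_lit 0) (XT.lf (nat_lit 0) (nat_lit 275687453351) (nat_lit 152) (nat_lit 57551239082) (nat_lit 0) (nat_lit 232044870206) (nat_lit 2) (nat_lit 5) (nat_lit 4) (nat_lit 4) (nat_lit 2) (nat_lit 4) (nat_lit 243) (nat_lit 207) (nat_lit 150)) (XT.nd (nat_lit 78) (nat_lit 76) (nat_lit 0) (XT.lf (nat_lit 0) (nat_lit 337634258909) (nat_lit 152) (nat_lit 16233092614) (nat_lit 0) (nat_lit 293989700261) (nat_lit 2) (nat_lit 5)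 (nat_lit 4) (nat_lit 4) (nat_lit 2) (nat_lit 4) (nat_lit 244) (nat_lit 207) (nat_lit 149)) (XT.lf (nat_lit 0) (nat_lit 32925626014) (nat_lit 76) (nat_lit 376737026700) (nat_lit 76) (nat_lit 333090750223) (nat_lit 1) (nat_lit 4) (nat_lit 2) (nat_lit 5) (nat_lit 2) (nat_lit 4) (nat_lit 245) (nat_lit 207) (nat_lit 148))))) (XT.nd (nat_lit 156) (nat_lit 0) (nat_lit 0) (XT.nd (nat_lit 78) (nat_lit 0) (nat_lit 0) (XT.lf (nat_lit 0) (nat_lit 90437313691) (nat_lit 76) (nat_lit 402528512581) (nat_lit 76) (nat_lit 358880742340) (nat_lit 1) (nat_lit 4) (nat_lit 2) (nat_lit 5) (nat_lit 2) (nat_lit 4) (nat_lit 246) (nat_lit 207) (nat_lit 147)) (XT.lf (nat_lit 0) (nat_lit 156572393199) (nat_lit 76) (nat_lit 432190266714) (nat_lit 76) (nat_lit 388541197548) (nat_lit 1) (nat_lit 4) (nat_lit 2) (nat_lit 5) (nat_lit 2) (nat_lit 4) (nat_lit 247) (nat_lit 207) (nat_lit 146))) (XT.nd (nat_lit 78) (nat_lit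 0) (nat_lit 0) (XT.lf (nat_lit 0) (nat_lit 232624811744) (nat_lit 76) (nat_lit 466302627767) (nat_lit 76) (nat_lit 422652429101) (nat_lit 1) (nat_lit 4) (nat_lit 2) (nat_lit 5) (nat_lit 2) (nat_lit 4) (nat_lit 248) (nat_lit 207) (nat_lit 145)) (XT.nd (nat_lit 78) (nat_lit 0) (nat_lit 0) (XT.lf (nat_lit 0) (nat_lit 320082551430) (nat_lit 76) (nat_lit 505533011500) (nat_lit 76) (nat_lit 461881830660) (nat_lit 1) (nat_lit 4) (nat_lit 2) (nat_lit 5) (nat_lit 2) (nat_lit 4) (nat_lit 249) (nat_lit 207) (nat_lit 144)) (XT.lf (nat_lit 0) (nat_lit 420656741946) (nat_lit 76) (nat_lit 550648968899) (nat_lit 76) (nat_lit 506996933994) (nat_lit 1) (nat_lit 4) (nat_lit 2) (nat_lit 5) (nat_lit 2) (nat_lit 4) (nat_lit 250) (nat_lit 207) (nat_lit 143))))))))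
noncomputable def xc35 : XT := (XT.nd (nat_lit 28782) (nat_lit 0) (nat_lit 76) (XT.nd (nat_lit 28002) (nat_lit 0) (nat_lit 1368) (XT.nd (nat_lit 390) (nat_lit 0) (nat_lit 0) (XT.nd (nat_lit 156) (nat_lit 0) (nat_lit 0) (XT.nd (nat_lit 78) (nat_lit 0) (nat_lit 0) (XT.lf (nat_lit 0) (nat_lit 536315139193) (nat_lit 76) (nat_lit 602533203478) (nat_lit 76) (nat_lit 558880425908) (nat_lit 1) (nat_lit 4) (nat_lit 2) (nat_lit 5) (nat_lit 2) (nat_lit 4) (nat_lit 251) (nat_lit 207) (nat_lit 142)) (XT.lf (nat_lit 0) (nat_lit 669320624856) (nat_lit 76) (nat_lit 662200841566) (nat_lit 76) (nat_lit 618547418201) (nat_lit 1) (nat_lit 4) (nat_lit 2) (nat_lit 5) (nat_lit 2) (nat_lit 4) (nat_lit 252) (nat_lit 207) (nat_lit 141))) (XT.nd (nat_lit 78) (nat_lit 0) (nat_lit 0) (XT.lf (nat_lit 0) (nat_lit 822275480177) (nat_lit 76) (nat_lit 730819293473) (nat_lit 76) (nat_lit 687165308547) (nat_lit 1) (nat_lit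 4) (nat_lit 2) (nat_lit 5) (nat_lit 2) (nat_lit 4) (nat_lit 253) (nat_lit 207) (nat_lit 140)) (XT.nd (nat_lit 78) (nat_lit 0) (nat_lit 0) (XT.lf (nat_lit 0) (nat_lit 998172300151) (nat_lit 76) (nat_lit 809731094129) (nat_lit 76) (nat_lit 766076620889) (nat_lit 1) (nat_lit 4) (nat_lit 2) (nat_lit 5) (nat_lit 2) (nat_lit 4) (nat_lit 254) (nat_lit 207) (nat_lit 139)) (XT.lf (nat_lit 0) (nat_lit 1200452544300) (nat_lit 76) (nat_lit 900480170067) (nat_lit 76) (nat_lit 856825272206) (nat_lit 1) (nat_lit 4) (nat_lit 2) (nat_lit 5) (nat_lit 2) (nat_lit 4) (nat_lit 255) (nat_lit 207) (nat_lit 138))))) (XT.nd (nat_lit 156) (nat_lit 0) (nat_lit 0) (XT.nd (nat_lit 78) (nat_lit 0) (nat_lit 0) (XT.lf (nat_lit 0) (nat_lit 1433073869573) (nat_lit 76) (nat_lit 1004842046686) (nat_lit 76) (nat_lit 961186779589) (nat_lit 1) (nat_lit 4) (nat_lit 2) (nat_lit 5) (nat_lit 2) (nat_lit 4) (nat_lit 256) (nat_lit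 207) (nat_lit 137)) (XT.lf (nat_lit 0) (nat_lit 1700587562771) (nat_lit 76) (nat_lit 1124858586790) (nat_lit 76) (nat_lit 1081202998619) (nat_lit 1) (nat_lit 4) (nat_lit 2) (nat_lit 5) (nat_lit 2) (nat_lit 4) (nat_lit 257) (nat_lit 207) (nat_lit 136))) (XT.nd (nat_lit 78) (nat_lit 0) (nat_lit 0) (XT.lf (nat_lit 0) (nat_lit 2008227587454) (nat_lit 76) (nat_lit 1262877940077) (nat_lit 76) (nat_lit 1219222072710) (nat_lit 1) (nat_lit 4) (nat_lit 2) (nat_lit 5) (nat_lit 2) (nat_lit 4) (nat_lit 258) (nat_lit 207) (nat_lit 135)) (XT.nd (nat_lit 27300) (nat_lit 0) (nat_lit 2432) (XT.lf (nat_lit 0) (nat_lit 2362012987586) (nat_lit 76) (nat_lit 1421600485197) (nat_lit 76) (nat_lit 1377944375052) (nat_lit 1) (nat_lit 4) (nat_lit 2) (nat_lit 5) (nat_lit 2) (nat_lit 4) (nat_lit 259) (nat_lit 207) (nat_lit 134)) (XT.lf (nat_lit 0) (nat_lit 344696527) (nat_lit 532) (nat_lit 3037589005) (nat_lit 532)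 (nat_lit 3037589005) (nat_lit 33) (nat_lit 3) (nat_lit 40) (nat_lit 3) (nat_lit 40) (nat_lit 5) (nat_lit 208) (nat_lit 208) (nat_lit 184)))))) (XT.nd (nat_lit 390) (nat_lit 836) (nat_lit 0) (XT.nd (nat_lit 156) (nat_lit 304) (nat_lit 0) (XT.nd (nat_lit 78) (nat_lit 0) (nat_lit 0) (XT.lf (nat_lit 0) (nat_lit 1572573592) (nat_lit 456) (nat_lit 9521144370) (nat_lit 532) (nat_lit 2638643852) (nat_lit 34) (nat_lit 5) (nat_lit 40) (nat_lit 5) (nat_lit 41) (nat_lit 5) (nat_lit 209) (nat_lit 208) (nat_lit 183)) (XT.lf (nat_lit 76) (nat_lit 1466608269) (nat_lit 0) (nat_lit 1407275262) (nat_lit 532) (nat_lit 11862816318) (nat_lit 35) (nat_lit 5) (nat_lit 34) (nat_lit 5) (nat_lit 41) (nat_lit 5) (nat_lit 210) (nat_lit 208) (nat_lit 182))) (XT.nd (nat_lit 78) (nat_lit 380) (nat_lit 0) (XT.lf (nat_lit 0) (nat_lit 4785125720) (nat_lit 456) (nat_lit 1513559343) (nat_lit 532) (nat_lit 9560420816) (nat_lit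 35) (nat_lit 5) (nat_lit 41) (nat_lit 5) (nat_lit 42) (nat_lit 5) (nat_lit 211) (nat_lit 208) (nat_lit 181)) (XT.nd (nat_lit 78) (nat_lit 456) (nat_lit 0) (XT.lf (nat_lit 0) (nat_lit 7360177483) (nat_lit 456) (nat_lit 4734851944) (nat_lit 76) (nat_lit 5025191916) (nat_lit 36) (nat_lit 5) (nat_lit 42) (nat_lit 5) (nat_lit 37) (nat_lit 5) (nat_lit 212) (nat_lit 208) (nat_lit 180)) (XT.lf (nat_lit 0) (nat_lit 10154026893) (nat_lit 456) (nat_lit 551442557) (nat_lit 532) (nat_lit 7834766854) (nat_lit 30) (nat_lit 5) (nat_lit 36) (nat_lit 5) (nat_lit 37) (nat_lit 5) (nat_lit 213) (nat_lit 208) (nat_lit 179))))) (XT.nd (nat_lit 156) (nat_lit 456) (nat_lit 0) (XT.nd (nat_lit 78) (nat_lit 152) (nat_lit 0) (XT.lf (nat_lit 0) (nat_lit 7388322578) (nat_lit 228) (nat_lit 7718623556) (nat_lit 304) (nat_lit 5022348081) (nat_lit 27) (nat_lit 5) (nat_lit 30) (nat_lit 5) (nat_lit 31) (nat_lit 5) (nat_lit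 214) (nat_lit 208) (nat_lit 178)) (XT.lf (nat_lit 0) (nat_lit 4082956510) (nat_lit 152) (nat_lit 16514240503) (nat_lit 228) (nat_lit 1325570432) (nat_lit 25) (nat_lit 5) (nat_lit 27) (nat_lit 5) (nat_lit 28) (nat_lit 5) (nat_lit 215) (nat_lit 208) (nat_lit 177))) (XT.nd (nat_lit 78) (nat_lit 380) (nat_lit 0) (XT.lf (nat_lit 0) (nat_lit 3315155713) (nat_lit 228) (nat_lit 115923777) (nat_lit 76) (nat_lit 20505964435) (nat_lit 24) (nat_lit 5) (nat_lit 27) (nat_lit 5) (nat_lit 25) (nat_lit 5) (nat_lit 216) (nat_lit 208) (nat_lit 176)) (XT.nd (nat_lit 78) (nat_lit 152) (nat_lit 0) (XT.lf (nat_lit 0) (nat_lit 9329025380) (nat_lit 304) (nat_lit 5275197396) (nat_lit 76) (nat_lit 11586281457) (nat_lit 21) (nat_lit 5) (nat_lit 25) (nat_lit 5) (nat_lit 22) (nat_lit 5) (nat_lit 217) (nat_lit 208) (nat_lit 175)) (XT.lf (nat_lit 0) (nat_lit 16714814346) (nat_lit 228) (nat_lit 11728103185) (nat_lit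 76) (nat_lit 301686460) (nat_lit 19) (nat_lit 5) (nat_lit 22) (nat_lit 5) (nat_lit 20) (nat_lit 5) (nat_lit 218) (nat_lit 208) (nat_lit 174))))))) (XT.nd (nat_lit 780) (nat_lit 380) (nat_lit 0) (XT.nd (nat_lit 390) (nat_lit 380) (nat_lit 0) (XT.nd (nat_lit 156) (nat_lit 228) (nat_lit 0) (XT.nd (nat_lit 78) (nat_lit 152) (nat_lit 0) (XT.lf (nat_lit 0) (nat_lit 11407989593) (nat_lit 152) (nat_lit 14595089342) (nat_lit 228) (nat_lit 5615351643) (nat_lit 17) (nat_lit 5) (nat_lit 19) (nat_lit 5) (nat_lit 20) (nat_lit 5) (nat_lit 219) (nat_lit 208) (nat_lit 173)) (XT.lf (nat_lit 0) (nat_lit 2123761169) (nat_lit 152) (nat_lit 31012300972) (nat_lit 76) (nat_lit 1747976520) (nat_lit 15) (nat_lit 5) (nat_lit 17) (nat_lit 5) (nat_lit 16) (nat_lit 5) (nat_lit 220) (nat_lit 208) (nat_lit 172))) (XT.nd (nat_lit 78) (nat_lit 228) (nat_lit 0) (XT.lf (nat_lit 0) (nat_lit 11673267690) (nat_lit 152) (nat_lit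 6428503840) (nat_lit 76) (nat_lit 20447613039) (nat_lit 15) (nat_lit 5) (nat_lit 17) (nat_lit 5) (nat_lit 16) (nat_lit 5) (nat_lit 221) (nat_lit 208) (nat_lit 171)) (XT.nd (nat_lit 78) (nat_lit 76) (nat_lit 0) (XT.lf (nat_lit 0) (nat_lit 22945507197) (nat_lit 152) (nat_lit 231282755) (nat_lit 228) (nat_lit 19546125088) (nat_lit 13) (nat_lit 5) (nat_lit 15) (nat_lit 5) (nat_lit 16) (nat_lit 5) (nat_lit 222) (nat_lit 208) (nat_lit 170)) (XT.lf (nat_lit 0) (nat_lit 9548195440) (nat_lit 76) (nat_lit 27740353527) (nat_lit 152) (nat_lit 10163404971) (nat_lit 12) (nat_lit 5) (nat_lit 13) (nat_lit 5) (nat_lit 14) (nat_lit 4) (nat_lit 223) (nat_lit 208) (nat_lit 169))))) (XT.nd (nat_lit 156) (nat_lit 152) (nat_lit 0) (XT.nd (nat_lit 78) (nat_lit 152) (nat_lit 0) (XT.lf (nat_lit 0) (nat_lit 1166808803) (nat_lit 152) (nat_lit 8451476633) (nat_lit 76) (nat_lit 43225219381) (nat_lit 11) (nat_lit 5)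 (nat_lit 13) (nat_lit 5) (nat_lit 12) (nat_lit 5) (nat_lit 224) (nat_lit 208) (nat_lit 168)) (XT.lf (nat_lit 0) (nat_lit 14518385776) (nat_lit 228) (nat_lit 32842032876) (nat_lit 76) (nat_lit 11588428347) (nat_lit 9) (nat_lit 5) (nat_lit 12) (nat_lit 5) (nat_lit 10) (nat_lit 4) (nat_lit 225) (nat_lit 208) (nat_lit 167))) (XT.nd (nat_lit 78) (nat_lit 76) (nat_lit 0) (XT.lf (nat_lit 0) (nat_lit 109335050) (nat_lit 76) (nat_lit 30263929586) (nat_lit 152) (nat_lit 35556738805) (nat_lit 8) (nat_lit 5) (nat_lit 9) (nat_lit 5) (nat_lit 10) (nat_lit 4) (nat_lit 226) (nat_lit 208) (nat_lit 166)) (XT.nd (nat_lit 78) (nat_lit 76) (nat_lit 0) (XT.lf (nat_lit 0) (nat_lit 39961041738) (nat_lit 76) (nat_lit 9582892961) (nat_lit 152) (nat_lit 24339444470) (nat_lit 8) (nat_lit 5) (nat_lit 9) (nat_lit 5) (nat_lit 10) (nat_lit 4) (nat_lit 227) (nat_lit 208) (nat_lit 165)) (XT.lf (nat_lit 0) (nat_lit 2516945349)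 (nat_lit 76) (nat_lit 69458872140) (nat_lit 76) (nat_lit 11023138768) (nat_lit 7) (nat_lit 4) (nat_lit 8) (nat_lit 5) (nat_lit 8) (nat_lit 4) (nat_lit 228) (nat_lit 208) (nat_lit 164)))))) (XT.nd (nat_lit 390) (nat_lit 228) (nat_lit 0) (XT.nd (nat_lit 156) (nat_lit 76) (nat_lit 0) (XT.nd (nat_lit 78) (nat_lit 0) (nat_lit 0) (XT.lf (nat_lit 0) (nat_lit 5338944616) (nat_lit 152) (nat_lit 47347032597) (nat_lit 76) (nat_lit 40686635703) (nat_lit 6) (nat_lit 5) (nat_lit 8) (nat_lit 5) (nat_lit 7) (nat_lit 4) (nat_lit 229) (nat_lit 208) (nat_lit 163)) (XT.lf (nat_lit 0) (nat_lit 23507867684) (nat_lit 152) (nat_lit 9569850033) (nat_lit 76) (nat_lit 72201308324) (nat_lit 6) (nat_lit 5) (nat_lit 8) (nat_lit 5) (nat_lit 7) (nat_lit 4) (nat_lit 230) (nat_lit 208) (nat_lit 162))) (XT.nd (nat_lit 78) (nat_lit 0) (nat_lit 0) (XT.lf (nat_lit 0) (nat_lit 35636441456) (nat_lit 76) (nat_lit 9611147226)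 (nat_lit 152) (nat_lit 73656202466) (nat_lit 5) (nat_lit 5) (nat_lit 6) (nat_lit 5) (nat_lit 7) (nat_lit 4) (nat_lit 231) (nat_lit 208) (nat_lit 161)) (XT.nd (nat_lit 78) (nat_lit 0) (nat_lit 0) (XT.lf (nat_lit 0) (nat_lit 70941280591) (nat_lit 152) (nat_lit 46791017258) (nat_lit 0) (nat_lit 16784555435) (nat_lit 5) (nat_lit 5) (nat_lit 7) (nat_lit 4) (nat_lit 5) (nat_lit 4) (nat_lit 232) (nat_lit 208) (nat_lit 160)) (XT.lf (nat_lit 0) (nat_lit 100745526069) (nat_lit 152) (nat_lit 5125679390) (nat_lit 0) (nat_lit 46580169541) (nat_lit 5) (nat_lit 5) (nat_lit 7) (nat_lit 4) (nat_lit 5) (nat_lit 4) (nat_lit 233) (nat_lit 208) (nat_lit 159))))) (XT.nd (nat_lit 156) (nat_lit 152) (nat_lit 0) (XT.nd (nat_lit 78) (nat_lit 0) (nat_lit 0) (XT.lf (nat_lit 0) (nat_lit 45027459511) (nat_lit 76) (nat_lit 91067755310) (nat_lit 76) (nat_lit 36894893242) (nat_lit 4) (nat_lit 4) (nat_lit 5) (nat_lit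 5) (nat_lit 5) (nat_lit 4) (nat_lit 234) (nat_lit 208) (nat_lit 158)) (XT.lf (nat_lit 0) (nat_lit 103000732877) (nat_lit 76) (nat_lit 73888486567) (nat_lit 76) (nat_lit 19709097942) (nat_lit 4) (nat_lit 4) (nat_lit 5) (nat_lit 5) (nat_lit 5) (nat_lit 4) (nat_lit 235) (nat_lit 208) (nat_lit 157))) (XT.nd (nat_lit 78) (nat_lit 76) (nat_lit 0) (XT.lf (nat_lit 0) (nat_lit 45252701) (nat_lit 152) (nat_lit 54090938273) (nat_lit 76) (nat_lit 169612001219) (nat_lit 3) (nat_lit 5) (nat_lit 5) (nat_lit 5) (nat_lit 4) (nat_lit 4) (nat_lit 236) (nat_lit 208) (nat_lit 156)) (XT.nd (nat_lit 78) (nat_lit 76) (nat_lit 0) (XT.lf (nat_lit 0) (nat_lit 21623212222) (nat_lit 152) (nat_lit 9213717483) (nat_lit 76) (nat_lit 224090478877) (nat_lit 3) (nat_lit 5) (nat_lit 5) (nat_lit 5) (nat_lit 4) (nat_lit 4) (nat_lit 237) (nat_lit 208) (nat_lit 155)) (XT.lf (nat_lit 0) (nat_lit 44618092405) (nat_lit 76) (nat_lit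 2887860781) (nat_lit 152) (nat_lit 243192116562) (nat_lit 2) (nat_lit 5) (nat_lit 3) (nat_lit 5) (nat_lit 4) (nat_lit 4) (nat_lit 238) (nat_lit 208) (nat_lit 154))))))))
noncomputable def xc36 : XT := (XT.nd (nat_lit 1482) (nat_lit 0) (nat_lit 0) (XT.nd (nat_lit 702) (nat_lit 0) (nat_lit 0) (XT.nd (nat_lit 312) (nat_lit 76) (nat_lit 0) (XT.nd (nat_lit 156) (nat_lit 0) (nat_lit 0) (XT.nd (nat_lit 78) (nat_lit 0) (nat_lit 0) (XT.lf (nat_lit 0) (nat_lit 78245253829) (nat_lit 152) (nat_lit 225449252174) (nat_lit 0) (nat_lit 28061900307) (nat_lit 2) (nat_lit 5) (nat_lit 4) (nat_lit 4) (nat_lit 2) (nat_lit 4) (nat_lit 239) (nat_lit 208) (nat_lit 153)) (XT.lf (nat_lit 0) (nat_lit 113671307240) (nat_lit 152) (nat_lit 201811175325) (nat_lit 0) (nat_lit 63484949225) (nat_lit 2) (nat_lit 5) (nat_lit 4) (nat_lit 4) (nat_lit 2) (nat_lit 4) (nat_lit 240) (nat_lit 208) (nat_lit 152))) (XT.nd (nat_lit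 78) (nat_lit 0) (nat_lit 0) (XT.lf (nat_lit 0) (nat_lit 154407778735) (nat_lit 152) (nat_lit 174633809561) (nat_lit 0) (nat_lit 104218808118) (nat_lit 2) (nat_lit 5) (nat_lit 4) (nat_lit 4) (nat_lit 2) (nat_lit 4) (nat_lit 241) (nat_lit 208) (nat_lit 151)) (XT.lf (nat_lit 0) (nat_lit 201251686234) (nat_lit 152) (nat_lit 143385423815) (nat_lit 0) (nat_lit 151060443789) (nat_lit 2) (nat_lit 5) (nat_lit 4) (nat_lit 4) (nat_lit 2) (nat_lit 4) (nat_lit 242) (nat_lit 208) (nat_lit 150)))) (XT.nd (nat_lit 156) (nat_lit 76) (nat_lit 0) (XT.nd (nat_lit 78) (nat_lit 0) (nat_lit 0) (XT.lf (nat_lit 0) (nat_lit 255119540971) (nat_lit 152) (nat_lit 107454636626) (nat_lit 0) (nat_lit 204926323023) (nat_lit 2) (nat_lit 5) (nat_lit 4) (nat_lit 4) (nat_lit 2) (nat_lit 4) (nat_lit 243) (nat_lit 208) (nat_lit 149)) (XT.lf (nat_lit 0) (nat_lit 317065279234) (nat_lit 152) (nat_lit 66138454331) (nat_lit 0)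 (nat_lit 266870343457) (nat_lit 2) (nat_lit 5) (nat_lit 4) (nat_lit 4) (nat_lit 2) (nat_lit 4) (nat_lit 244) (nat_lit 208) (nat_lit 148))) (XT.nd (nat_lit 78) (nat_lit 76) (nat_lit 0) (XT.lf (nat_lit 0) (nat_lit 388300882859) (nat_lit 152) (nat_lit 18628516841) (nat_lit 0) (nat_lit 338104453318) (nat_lit 2) (nat_lit 5) (nat_lit 4) (nat_lit 4) (nat_lit 2) (nat_lit 4) (nat_lit 245) (nat_lit 208) (nat_lit 147)) (XT.nd (nat_lit 78) (nat_lit 0) (nat_lit 0) (XT.lf (nat_lit 0) (nat_lit 37900662745) (nat_lit 76) (nat_lit 433230941022) (nat_lit 76) (nat_lit 383033212556) (nat_lit 1) (nat_lit 4) (nat_lit 2) (nat_lit 5) (nat_lit 2) (nat_lit 4) (nat_lit 246) (nat_lit 208) (nat_lit 146)) (XT.lf (nat_lit 0) (nat_lit 104034382770) (nat_lit 76) (nat_lit 462893320178) (nat_lit 76) (nat_lit 412694462212) (nat_lit 1) (nat_lit 4) (nat_lit 2) (nat_lit 5) (nat_lit 2) (nat_lit 4) (nat_lit 247) (nat_lit 208)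 (nat_lit 145)))))) (XT.nd (nat_lit 390) (nat_lit 0) (nat_lit 0) (XT.nd (nat_lit 156) (nat_lit 0) (nat_lit 0) (XT.nd (nat_lit 78) (nat_lit 0) (nat_lit 0) (XT.lf (nat_lit 0) (nat_lit 180085619157) (nat_lit 76) (nat_lit 497006224730) (nat_lit 76) (nat_lit 446806384589) (nat_lit 1) (nat_lit 4) (nat_lit 2) (nat_lit 5) (nat_lit 2) (nat_lit 4) (nat_lit 248) (nat_lit 208) (nat_lit 144)) (XT.lf (nat_lit 0) (nat_lit 267542330878) (nat_lit 76) (nat_lit 536237081070) (nat_lit 76) (nat_lit 486036386865) (nat_lit 1) (nat_lit 4) (nat_lit 2) (nat_lit 5) (nat_lit 2) (nat_lit 4) (nat_lit 249) (nat_lit 208) (nat_lit 143))) (XT.nd (nat_lit 78) (nat_lit 0) (nat_lit 0) (XT.lf (nat_lit 0) (nat_lit 368115627512) (nat_lit 76) (nat_lit 581353449432) (nat_lit 76) (nat_lit 531152012563) (nat_lit 1) (nat_lit 4) (nat_lit 2) (nat_lit 5) (nat_lit 2) (nat_lit 4) (nat_lit 250) (nat_lit 208) (nat_lit 142)) (XT.nd (nat_lit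 78) (nat_lit 0) (nat_lit 0) (XT.lf (nat_lit 0) (nat_lit 483773247471) (nat_lit 76) (nat_lit 633238041370) (nat_lit 76) (nat_lit 583035958705) (nat_lit 1) (nat_lit 4) (nat_lit 2) (nat_lit 5) (nat_lit 2) (nat_lit 4) (nat_lit 251) (nat_lit 208) (nat_lit 141)) (XT.lf (nat_lit 0) (nat_lit 616778057231) (nat_lit 76) (nat_lit 692905990205) (nat_lit 76) (nat_lit 642703345979) (nat_lit 1) (nat_lit 4) (nat_lit 2) (nat_lit 5) (nat_lit 2) (nat_lit 4) (nat_lit 252) (nat_lit 208) (nat_lit 140))))) (XT.nd (nat_lit 156) (nat_lit 0) (nat_lit 0) (XT.nd (nat_lit 78) (nat_lit 0) (nat_lit 0) (XT.lf (nat_lit 0) (nat_lit 769732324810) (nat_lit 76) (nat_lit 761524712328) (nat_lit 76) (nat_lit 711321579787) (nat_lit 1) (nat_lit 4) (nat_lit 2) (nat_lit 5) (nat_lit 2) (nat_lit 4) (nat_lit 253) (nat_lit 208) (nat_lit 139)) (XT.lf (nat_lit 0) (nat_lit 945628633704) (nat_lit 76) (nat_lit 840436747952) (nat_lit 76)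 (nat_lit 790233190791) (nat_lit 1) (nat_lit 4) (nat_lit 2) (nat_lit 5) (nat_lit 2) (nat_lit 4) (nat_lit 254) (nat_lit 208) (nat_lit 138))) (XT.nd (nat_lit 78) (nat_lit 0) (nat_lit 0) (XT.lf (nat_lit 0) (nat_lit 1147908433435) (nat_lit 76) (nat_lit 931186028212) (nat_lit 76) (nat_lit 880982101815) (nat_lit 1) (nat_lit 4) (nat_lit 2) (nat_lit 5) (nat_lit 2) (nat_lit 4) (nat_lit 255) (nat_lit 208) (nat_lit 137)) (XT.nd (nat_lit 78) (nat_lit 0) (nat_lit 0) (XT.lf (nat_lit 0) (nat_lit 1380529372259) (nat_lit 76) (nat_lit 1035548082502) (nat_lit 76) (nat_lit 985343835030) (nat_lit 1) (nat_lit 4) (nat_lit 2) (nat_lit 5) (nat_lit 2) (nat_lit 4) (nat_lit 256) (nat_lit 208) (nat_lit 136)) (XT.lf (nat_lit 0) (nat_lit 1648042729413) (nat_lit 76) (nat_lit 1155564777102) (nat_lit 76) (nat_lit 1105360250436) (nat_lit 1) (nat_lit 4) (nat_lit 2) (nat_lit 5) (nat_lit 2) (nat_lit 4) (nat_lit 257) (nat_lit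 208) (nat_lit 135))))))) (XT.nd (nat_lit 28080) (nat_lit 0) (nat_lit 608) (XT.nd (nat_lit 27690) (nat_lit 0) (nat_lit 1824) (XT.nd (nat_lit 27456) (nat_lit 0) (nat_lit 2432) (XT.nd (nat_lit 78) (nat_lit 0) (nat_lit 0) (XT.lf (nat_lit 0) (nat_lit 1955682461885) (nat_lit 76) (nat_lit 1293584264733) (nat_lit 76) (nat_lit 1243379495288) (nat_lit 1) (nat_lit 4) (nat_lit 2) (nat_lit 5) (nat_lit 2) (nat_lit 4) (nat_lit 258) (nat_lit 208) (nat_lit 134)) (XT.lf (nat_lit 0) (nat_lit 2309467607919) (nat_lit 76) (nat_lit 1452306926674) (nat_lit 76) (nat_lit 1402101946118) (nat_lit 1) (nat_lit 4) (nat_lit 2) (nat_lit 5) (nat_lit 2) (nat_lit 4) (nat_lit 259) (nat_lit 208) (nat_lit 133))) (XT.nd (nat_lit 78) (nat_lit 0) (nat_lit 76) (XT.lf (nat_lit 0) (nat_lit 1030663051) (nat_lit 532) (nat_lit 3148880390) (nat_lit 532) (nat_lit 3148880390) (nat_lit 33) (nat_lit 3) (nat_lit 40) (nat_lit 3) (nat_lit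 40) (nat_lit 5) (nat_lit 209) (nat_lit 209) (nat_lit 182)) (XT.nd (nat_lit 78) (nat_lit 0) (nat_lit 0) (XT.lf (nat_lit 0) (nat_lit 2914952949) (nat_lit 456) (nat_lit 10211307339) (nat_lit 532) (nat_lit 2571017340) (nat_lit 34) (nat_lit 5) (nat_lit 40) (nat_lit 5) (nat_lit 41) (nat_lit 5) (nat_lit 210) (nat_lit 209) (nat_lit 181)) (XT.lf (nat_lit 76) (nat_lit 2362139436) (nat_lit 0) (nat_lit 1921241480) (nat_lit 532) (nat_lit 12579968991) (nat_lit 35) (nat_lit 5) (nat_lit 34) (nat_lit 5) (nat_lit 41) (nat_lit 5) (nat_lit 211) (nat_lit 209) (nat_lit 180))))) (XT.nd (nat_lit 156) (nat_lit 760) (nat_lit 0) (XT.nd (nat_lit 78) (nat_lit 0) (nat_lit 76) (XT.lf (nat_lit 0) (nat_lit 6347356060) (nat_lit 456) (nat_lit 1073915856) (nat_lit 532) (nat_lit 10744289245) (nat_lit 35) (nat_lit 5) (nat_lit 41) (nat_lit 5) (nat_lit 42) (nat_lit 5) (nat_lit 212) (nat_lit 209) (nat_lit 179)) (XT.lf (nat_lit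 0) (nat_lit 9209858076) (nat_lit 456) (nat_lit 4767356609) (nat_lit 76) (nat_lit 5647166949) (nat_lit 36) (nat_lit 5) (nat_lit 42) (nat_lit 5) (nat_lit 37) (nat_lit 5) (nat_lit 213) (nat_lit 209) (nat_lit 178))) (XT.nd (nat_lit 78) (nat_lit 380) (nat_lit 0) (XT.lf (nat_lit 0) (nat_lit 12297488166) (nat_lit 456) (nat_lit 677116066) (nat_lit 532) (nat_lit 8289932289) (nat_lit 30) (nat_lit 5) (nat_lit 36) (nat_lit 5) (nat_lit 37) (nat_lit 5) (nat_lit 214) (nat_lit 209) (nat_lit 177)) (XT.nd (nat_lit 78) (nat_lit 152) (nat_lit 0) (XT.lf (nat_lit 0) (nat_lit 9117296599) (nat_lit 228) (nat_lit 8846516655) (nat_lit 304) (nat_lit 5134417703) (nat_lit 27) (nat_lit 5) (nat_lit 30) (nat_lit 5) (nat_lit 31) (nat_lit 5) (nat_lit 215) (nat_lit 209) (nat_lit 176)) (XT.lf (nat_lit 0) (nat_lit 5309112473) (nat_lit 152) (nat_lit 18906810245) (nat_lit 228) (nat_lit 950153044) (nat_lit 25) (nat_lit 5) (nat_lit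 27) (nat_lit 5) (nat_lit 28) (nat_lit 5) (nat_lit 216) (nat_lit 209) (nat_lit 175)))))) (XT.nd (nat_lit 390) (nat_lit 456) (nat_lit 0) (XT.nd (nat_lit 156) (nat_lit 456) (nat_lit 0) (XT.nd (nat_lit 78) (nat_lit 0) (nat_lit 0) (XT.lf (nat_lit 0) (nat_lit 450079397) (nat_lit 228) (nat_lit 3847544958) (nat_lit 304) (nat_lit 23188926149) (nat_lit 21) (nat_lit 5) (nat_lit 24) (nat_lit 5) (nat_lit 25) (nat_lit 5) (nat_lit 217) (nat_lit 209) (nat_lit 174)) (XT.lf (nat_lit 0) (nat_lit 11155352727) (nat_lit 304) (nat_lit 5519274873) (nat_lit 76) (nat_lit 13408351440) (nat_lit 21) (nat_lit 5) (nat_lit 25) (nat_lit 5) (nat_lit 22) (nat_lit 5) (nat_lit 218) (nat_lit 209) (nat_lit 173))) (XT.nd (nat_lit 78) (nat_lit 304) (nat_lit 0) (XT.lf (nat_lit 0) (nat_lit 19608191353) (nat_lit 228) (nat_lit 12956905978) (nat_lit 76) (nat_lit 458615354) (nat_lit 19) (nat_lit 5) (nat_lit 22) (nat_lit 5) (nat_lit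 20) (nat_lit 5) (nat_lit 219) (nat_lit 209) (nat_lit 172)) (XT.nd (nat_lit 78) (nat_lit 152) (nat_lit 0) (XT.lf (nat_lit 0) (nat_lit 13604703926) (nat_lit 152) (nat_lit 16646300349) (nat_lit 228) (nat_lit 6080924665) (nat_lit 17) (nat_lit 5) (nat_lit 19) (nat_lit 5) (nat_lit 20) (nat_lit 5) (nat_lit 220) (nat_lit 209) (nat_lit 171)) (XT.lf (nat_lit 0) (nat_lit 2768043001) (nat_lit 152) (nat_lit 35177642269) (nat_lit 76) (nat_lit 2143718892) (nat_lit 15) (nat_lit 5) (nat_lit 17) (nat_lit 5) (nat_lit 16) (nat_lit 5) (nat_lit 221) (nat_lit 209) (nat_lit 170))))) (XT.nd (nat_lit 156) (nat_lit 304) (nat_lit 0) (XT.nd (nat_lit 78) (nat_lit 152) (nat_lit 0) (XT.lf (nat_lit 0) (nat_lit 13707490589) (nat_lit 152) (nat_lit 6969732591) (nat_lit 76) (nat_lit 23630881859) (nat_lit 15) (nat_lit 5) (nat_lit 17) (nat_lit 5) (nat_lit 16) (nat_lit 5) (nat_lit 222) (nat_lit 209) (nat_lit 169)) (XT.lf (nat_lit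 0) (nat_lit 26774571296) (nat_lit 152) (nat_lit 134339577) (nat_lit 228) (nat_lit 22201098797) (nat_lit 13) (nat_lit 5) (nat_lit 15) (nat_lit 5) (nat_lit 16) (nat_lit 5) (nat_lit 223) (nat_lit 209) (nat_lit 168))) (XT.nd (nat_lit 78) (nat_lit 228) (nat_lit 0) (XT.lf (nat_lit 0) (nat_lit 11351523218) (nat_lit 76) (nat_lit 31764248905) (nat_lit 152) (nat_lit 11434481874) (nat_lit 12) (nat_lit 5) (nat_lit 13) (nat_lit 5) (nat_lit 14) (nat_lit 4) (nat_lit 224) (nat_lit 209) (nat_lit 167)) (XT.nd (nat_lit 78) (nat_lit 152) (nat_lit 0) (XT.lf (nat_lit 0) (nat_lit 1551183215) (nat_lit 152) (nat_lit 9384853429) (nat_lit 76) (nat_lit 49816619427) (nat_lit 11) (nat_lit 5) (nat_lit 13) (nat_lit 5) (nat_lit 12) (nat_lit 5) (nat_lit 225) (nat_lit 209) (nat_lit 166)) (XT.lf (nat_lit 0) (nat_lit 16888355313) (nat_lit 228) (nat_lit 37449401795) (nat_lit 76) (nat_lit 13437495468) (nat_lit 9) (nat_lit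 5) (nat_lit 12) (nat_lit 5) (nat_lit 10) (nat_lit 4) (nat_lit 226) (nat_lit 209) (nat_lit 165))))))))
noncomputable def xc37 : XT := (XT.nd (nat_lit 1482) (nat_lit 76) (nat_lit 0) (XT.nd (nat_lit 702) (nat_lit 152) (nat_lit 0) (XT.nd (nat_lit 312) (nat_lit 152) (nat_lit 0) (XT.nd (nat_lit 156) (nat_lit 152) (nat_lit 0) (XT.nd (nat_lit 78) (nat_lit 0) (nat_lit 0) (XT.lf (nat_lit 0) (nat_lit 417674975) (nat_lit 76) (nat_lit 34685741094) (nat_lit 152) (nat_lit 40701681434) (nat_lit 8) (nat_lit 5) (nat_lit 9) (nat_lit 5) (nat_lit 10) (nat_lit 4) (nat_lit 227) (nat_lit 209) (nat_lit 164)) (XT.lf (nat_lit 0) (nat_lit 46209058580) (nat_lit 76) (nat_lit 10917911315) (nat_lit 152) (nat_lit 27826388801) (nat_lit 8) (nat_lit 5) (nat_lit 9) (nat_lit 5) (nat_lit 10) (nat_lit 4) (nat_lit 228) (nat_lit 209) (nat_lit 163))) (XT.nd (nat_lit 78) (nat_lit 76) (nat_lit 0) (XT.lf (nat_lit 0) (nat_lit 3136072062)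 (nat_lit 76) (nat_lit 79775761293) (nat_lit 76) (nat_lit 12525436837) (nat_lit 7) (nat_lit 4) (nat_lit 8) (nat_lit 5) (nat_lit 8) (nat_lit 4) (nat_lit 229) (nat_lit 209) (nat_lit 162)) (XT.lf (nat_lit 0) (nat_lit 6264664981) (nat_lit 152) (nat_lit 54232149481) (nat_lit 76) (nat_lit 46871411818) (nat_lit 6) (nat_lit 5) (nat_lit 8) (nat_lit 5) (nat_lit 7) (nat_lit 4) (nat_lit 230) (nat_lit 209) (nat_lit 161)))) (XT.nd (nat_lit 156) (nat_lit 76) (nat_lit 0) (XT.nd (nat_lit 78) (nat_lit 76) (nat_lit 0) (XT.lf (nat_lit 0) (nat_lit 27142637986) (nat_lit 152) (nat_lit 10816685794) (nat_lit 76) (nat_lit 83102618276) (nat_lit 6) (nat_lit 5) (nat_lit 8) (nat_lit 5) (nat_lit 7) (nat_lit 4) (nat_lit 231) (nat_lit 209) (nat_lit 160)) (XT.lf (nat_lit 0) (nat_lit 41154581834) (nat_lit 76) (nat_lit 10978724186) (nat_lit 152) (nat_lit 84597949497) (nat_lit 5) (nat_lit 5) (nat_lit 6) (nat_lit 5) (nat_lit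 7) (nat_lit 4) (nat_lit 232) (nat_lit 209) (nat_lit 159))) (XT.nd (nat_lit 78) (nat_lit 76) (nat_lit 0) (XT.lf (nat_lit 0) (nat_lit 81669743135) (nat_lit 152) (nat_lit 53654020739) (nat_lit 0) (nat_lit 19363446217) (nat_lit 5) (nat_lit 5) (nat_lit 7) (nat_lit 4) (nat_lit 5) (nat_lit 4) (nat_lit 233) (nat_lit 209) (nat_lit 158)) (XT.nd (nat_lit 78) (nat_lit 76) (nat_lit 0) (XT.lf (nat_lit 0) (nat_lit 115933242332) (nat_lit 152) (nat_lit 5759184248) (nat_lit 0) (nat_lit 53620418857) (nat_lit 5) (nat_lit 5) (nat_lit 7) (nat_lit 4) (nat_lit 5) (nat_lit 4) (nat_lit 234) (nat_lit 209) (nat_lit 157)) (XT.lf (nat_lit 0) (nat_lit 51905469035) (nat_lit 76) (nat_lit 104672996584) (nat_lit 76) (nat_lit 42354497841) (nat_lit 4) (nat_lit 4) (nat_lit 5) (nat_lit 5) (nat_lit 5) (nat_lit 4) (nat_lit 235) (nat_lit 209) (nat_lit 156)))))) (XT.nd (nat_lit 390) (nat_lit 0) (nat_lit 0) (XT.nd (nat_lit 156)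 (nat_lit 76) (nat_lit 0) (XT.nd (nat_lit 78) (nat_lit 76) (nat_lit 0) (XT.lf (nat_lit 0) (nat_lit 118558573762) (nat_lit 76) (nat_lit 84924001272) (nat_lit 76) (nat_lit 22600567515) (nat_lit 4) (nat_lit 4) (nat_lit 5) (nat_lit 5) (nat_lit 5) (nat_lit 4) (nat_lit 236) (nat_lit 209) (nat_lit 155)) (XT.lf (nat_lit 0) (nat_lit 105648260) (nat_lit 152) (nat_lit 62107976692) (nat_lit 76) (nat_lit 195092407110) (nat_lit 3) (nat_lit 5) (nat_lit 5) (nat_lit 5) (nat_lit 4) (nat_lit 4) (nat_lit 237) (nat_lit 209) (nat_lit 154))) (XT.nd (nat_lit 78) (nat_lit 76) (nat_lit 0) (XT.lf (nat_lit 0) (nat_lit 24913309407) (nat_lit 152) (nat_lit 10511773086) (nat_lit 76) (nat_lit 257737620890) (nat_lit 3) (nat_lit 5) (nat_lit 5) (nat_lit 5) (nat_lit 4) (nat_lit 4) (nat_lit 238) (nat_lit 209) (nat_lit 153)) (XT.nd (nat_lit 78) (nat_lit 0) (nat_lit 0) (XT.lf (nat_lit 0) (nat_lit 51387697932) (nat_lit 76) (nat_lit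 3286532567) (nat_lit 152) (nat_lit 279625083088) (nat_lit 2) (nat_lit 5) (nat_lit 3) (nat_lit 5) (nat_lit 4) (nat_lit 4) (nat_lit 239) (nat_lit 209) (nat_lit 152)) (XT.lf (nat_lit 0) (nat_lit 90019619501) (nat_lit 152) (nat_lit 259197484880) (nat_lit 0) (nat_lit 32299690688) (nat_lit 2) (nat_lit 5) (nat_lit 4) (nat_lit 4) (nat_lit 2) (nat_lit 4) (nat_lit 240) (nat_lit 209) (nat_lit 151))))) (XT.nd (nat_lit 156) (nat_lit 0) (nat_lit 0) (XT.nd (nat_lit 78) (nat_lit 0) (nat_lit 0) (XT.lf (nat_lit 0) (nat_lit 130754679498) (nat_lit 152) (nat_lit 232022716736) (nat_lit 0) (nat_lit 73032478857) (nat_lit 2) (nat_lit 5) (nat_lit 4) (nat_lit 4) (nat_lit 2) (nat_lit 4) (nat_lit 241) (nat_lit 209) (nat_lit 150)) (XT.lf (nat_lit 0) (nat_lit 177597359608) (nat_lit 152) (nat_lit 200776589790) (nat_lit 0) (nat_lit 119873183464) (nat_lit 2) (nat_lit 5) (nat_lit 4) (nat_lit 4) (nat_lit 2) (nat_lit 4)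 (nat_lit 242) (nat_lit 209) (nat_lit 149))) (XT.nd (nat_lit 78) (nat_lit 0) (nat_lit 0) (XT.lf (nat_lit 0) (nat_lit 231464147050) (nat_lit 152) (nat_lit 164847766773) (nat_lit 0) (nat_lit 173738253077) (nat_lit 2) (nat_lit 5) (nat_lit 4) (nat_lit 4) (nat_lit 2) (nat_lit 4) (nat_lit 243) (nat_lit 209) (nat_lit 148)) (XT.nd (nat_lit 78) (nat_lit 0) (nat_lit 0) (XT.lf (nat_lit 0) (nat_lit 293408957230) (nat_lit 152) (nat_lit 123533292455) (nat_lit 0) (nat_lit 235681569494) (nat_lit 2) (nat_lit 5) (nat_lit 4) (nat_lit 4) (nat_lit 2) (nat_lit 4) (nat_lit 244) (nat_lit 209) (nat_lit 147)) (XT.lf (nat_lit 0) (nat_lit 364643753827) (nat_lit 152) (nat_lit 76024840163) (nat_lit 0) (nat_lit 306915067165) (nat_lit 2) (nat_lit 5) (nat_lit 4) (nat_lit 4) (nat_lit 2) (nat_lit 4) (nat_lit 245) (nat_lit 209) (nat_lit 146))))))) (XT.nd (nat_lit 780) (nat_lit 0) (nat_lit 0) (XT.nd (nat_lit 390) (nat_lit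 0) (nat_lit 0) (XT.nd (nat_lit 156) (nat_lit 0) (nat_lit 0) (XT.nd (nat_lit 78) (nat_lit 76) (nat_lit 0) (XT.lf (nat_lit 0) (nat_lit 446562261120) (nat_lit 152) (nat_lit 21392896701) (nat_lit 0) (nat_lit 388832444959) (nat_lit 2) (nat_lit 5) (nat_lit 4) (nat_lit 4) (nat_lit 2) (nat_lit 4) (nat_lit 246) (nat_lit 209) (nat_lit 145)) (XT.lf (nat_lit 0) (nat_lit 43613129135) (nat_lit 76) (nat_lit 498203000184) (nat_lit 76) (nat_lit 440472201848) (nat_lit 1) (nat_lit 4) (nat_lit 2) (nat_lit 5) (nat_lit 2) (nat_lit 4) (nat_lit 247) (nat_lit 209) (nat_lit 144))) (XT.nd (nat_lit 78) (nat_lit 0) (nat_lit 0) (XT.lf (nat_lit 0) (nat_lit 119663337558) (nat_lit 76) (nat_lit 532316377343) (nat_lit 76) (nat_lit 474584724943) (nat_lit 1) (nat_lit 4) (nat_lit 2) (nat_lit 5) (nat_lit 2) (nat_lit 4) (nat_lit 248) (nat_lit 209) (nat_lit 143)) (XT.nd (nat_lit 78) (nat_lit 0) (nat_lit 0) (XT.lf (nat_lit 0)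 (nat_lit 207119155398) (nat_lit 76) (nat_lit 571547644646) (nat_lit 76) (nat_lit 513815249582) (nat_lit 1) (nat_lit 4) (nat_lit 2) (nat_lit 5) (nat_lit 2) (nat_lit 4) (nat_lit 249) (nat_lit 209) (nat_lit 142)) (XT.lf (nat_lit 0) (nat_lit 307691674743) (nat_lit 76) (nat_lit 616664370367) (nat_lit 76) (nat_lit 558931329507) (nat_lit 1) (nat_lit 4) (nat_lit 2) (nat_lit 5) (nat_lit 2) (nat_lit 4) (nat_lit 250) (nat_lit 209) (nat_lit 141))))) (XT.nd (nat_lit 156) (nat_lit 0) (nat_lit 0) (XT.nd (nat_lit 78) (nat_lit 0) (nat_lit 0) (XT.lf (nat_lit 0) (nat_lit 423348618798) (nat_lit 76) (nat_lit 668549273053) (nat_lit 76) (nat_lit 610815670631) (nat_lit 1) (nat_lit 4) (nat_lit 2) (nat_lit 5) (nat_lit 2) (nat_lit 4) (nat_lit 251) (nat_lit 209) (nat_lit 140)) (XT.lf (nat_lit 0) (nat_lit 556352840816) (nat_lit 76) (nat_lit 728217492103) (nat_lit 76) (nat_lit 670483401367) (nat_lit 1) (nat_lit 4)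 (nat_lit 2) (nat_lit 5) (nat_lit 2) (nat_lit 4) (nat_lit 252) (nat_lit 209) (nat_lit 139))) (XT.nd (nat_lit 78) (nat_lit 0) (nat_lit 0) (XT.lf (nat_lit 0) (nat_lit 709306597315) (nat_lit 76) (nat_lit 796836449194) (nat_lit 76) (nat_lit 739101933838) (nat_lit 1) (nat_lit 4) (nat_lit 2) (nat_lit 5) (nat_lit 2) (nat_lit 4) (nat_lit 253) (nat_lit 209) (nat_lit 138)) (XT.nd (nat_lit 78) (nat_lit 0) (nat_lit 0) (XT.lf (nat_lit 0) (nat_lit 885202461792) (nat_lit 76) (nat_lit 875748689140) (nat_lit 76) (nat_lit 818013804548) (nat_lit 1) (nat_lit 4) (nat_lit 2) (nat_lit 5) (nat_lit 2) (nat_lit 4) (nat_lit 254) (nat_lit 209) (nat_lit 137)) (XT.lf (nat_lit 0) (nat_lit 1087481875073) (nat_lit 76) (nat_lit 966498147070) (nat_lit 76) (nat_lit 908762941404) (nat_lit 1) (nat_lit 4) (nat_lit 2) (nat_lit 5) (nat_lit 2) (nat_lit 4) (nat_lit 255) (nat_lit 209) (nat_lit 136)))))) (XT.nd (nat_lit 27768) (nat_lit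 0) (nat_lit 2204) (XT.nd (nat_lit 156) (nat_lit 0) (nat_lit 0) (XT.nd (nat_lit 78) (nat_lit 0) (nat_lit 0) (XT.lf (nat_lit 0) (nat_lit 1320102477854) (nat_lit 76) (nat_lit 1070860355856) (nat_lit 76) (nat_lit 1013124870995) (nat_lit 1) (nat_lit 4) (nat_lit 2) (nat_lit 5) (nat_lit 2) (nat_lit 4) (nat_lit 256) (nat_lit 209) (nat_lit 135)) (XT.lf (nat_lit 0) (nat_lit 1587615542796) (nat_lit 76) (nat_lit 1190877184801) (nat_lit 76) (nat_lit 1133141457161) (nat_lit 1) (nat_lit 4) (nat_lit 2) (nat_lit 5) (nat_lit 2) (nat_lit 4) (nat_lit 257) (nat_lit 209) (nat_lit 134))) (XT.nd (nat_lit 78) (nat_lit 0) (nat_lit 0) (XT.lf (nat_lit 0) (nat_lit 1895255021171) (nat_lit 76) (nat_lit 1328896789253) (nat_lit 76) (nat_lit 1271160850502) (nat_lit 1) (nat_lit 4) (nat_lit 2) (nat_lit 5) (nat_lit 2) (nat_lit 4) (nat_lit 258) (nat_lit 209) (nat_lit 133)) (XT.nd (nat_lit 27456) (nat_lit 0) (nat_lit 2432)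 (XT.lf (nat_lit 0) (nat_lit 2249039946251) (nat_lit 76) (nat_lit 1487619552779) (nat_lit 76) (nat_lit 1429883430452) (nat_lit 1) (nat_lit 4) (nat_lit 2) (nat_lit 5) (nat_lit 2) (nat_lit 4) (nat_lit 259) (nat_lit 209) (nat_lit 132)) (XT.lf (nat_lit 0) (nat_lit 1664855738) (nat_lit 532) (nat_lit 3360836672) (nat_lit 532) (nat_lit 3360836672) (nat_lit 33) (nat_lit 3) (nat_lit 40) (nat_lit 3) (nat_lit 40) (nat_lit 5) (nat_lit 210) (nat_lit 210) (nat_lit 180))))) (XT.nd (nat_lit 156) (nat_lit 304) (nat_lit 0) (XT.nd (nat_lit 78) (nat_lit 0) (nat_lit 0) (XT.lf (nat_lit 0) (nat_lit 4188863806) (nat_lit 456) (nat_lit 11184962846) (nat_lit 532) (nat_lit 2606255506) (nat_lit 34) (nat_lit 5) (nat_lit 40) (nat_lit 5) (nat_lit 41) (nat_lit 5) (nat_lit 211) (nat_lit 210) (nat_lit 179)) (XT.lf (nat_lit 76) (nat_lit 3227265588) (nat_lit 0) (nat_lit 2438444661) (nat_lit 532) (nat_lit 13663735776) (nat_lit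 35) (nat_lit 5) (nat_lit 34) (nat_lit 5) (nat_lit 41) (nat_lit 5) (nat_lit 212) (nat_lit 210) (nat_lit 178))) (XT.nd (nat_lit 78) (nat_lit 380) (nat_lit 0) (XT.lf (nat_lit 0) (nat_lit 7937993672) (nat_lit 456) (nat_lit 730899349) (nat_lit 532) (nat_lit 12166749499) (nat_lit 35) (nat_lit 5) (nat_lit 41) (nat_lit 5) (nat_lit 42) (nat_lit 5) (nat_lit 213) (nat_lit 210) (nat_lit 177)) (XT.nd (nat_lit 78) (nat_lit 456) (nat_lit 0) (XT.lf (nat_lit 0) (nat_lit 11155158316) (nat_lit 456) (nat_lit 4970004051) (nat_lit 76) (nat_lit 6394579417) (nat_lit 36) (nat_lit 5) (nat_lit 42) (nat_lit 5) (nat_lit 37) (nat_lit 5) (nat_lit 214) (nat_lit 210) (nat_lit 176)) (XT.lf (nat_lit 0) (nat_lit 14611190589) (nat_lit 456) (nat_lit 811165234) (nat_lit 532) (nat_lit 8988961192) (nat_lit 30) (nat_lit 5) (nat_lit 36) (nat_lit 5) (nat_lit 37) (nat_lit 5) (nat_lit 215) (nat_lit 210) (nat_lit 175))))))))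
noncomputable def xc38 : XT := (XT.nd (nat_lit 1482) (nat_lit 304) (nat_lit 0) (XT.nd (nat_lit 702) (nat_lit 608) (nat_lit 0) (XT.nd (nat_lit 312) (nat_lit 608) (nat_lit 0) (XT.nd (nat_lit 156) (nat_lit 304) (nat_lit 0) (XT.nd (nat_lit 78) (nat_lit 152) (nat_lit 0) (XT.lf (nat_lit 0) (nat_lit 10954248846) (nat_lit 228) (nat_lit 10150885129) (nat_lit 304) (nat_lit 5419678589) (nat_lit 27) (nat_lit 5) (nat_lit 30) (nat_lit 5) (nat_lit 31) (nat_lit 5) (nat_lit 216) (nat_lit 210) (nat_lit 174)) (XT.lf (nat_lit 0) (nat_lit 6569534154) (nat_lit 152) (nat_lit 21678887485) (nat_lit 228) (nat_lit 658458266) (nat_lit 25) (nat_lit 5) (nat_lit 27) (nat_lit 5) (nat_lit 28) (nat_lit 5) (nat_lit 217) (nat_lit 210) (nat_lit 173))) (XT.nd (nat_lit 78) (nat_lit 0) (nat_lit 0) (XT.lf (nat_lit 0) (nat_lit 964027400) (nat_lit 228) (nat_lit 4347669933) (nat_lit 304) (nat_lit 26266591885) (nat_lit 21) (nat_lit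 5) (nat_lit 24) (nat_lit 5) (nat_lit 25) (nat_lit 5) (nat_lit 218) (nat_lit 210) (nat_lit 172)) (XT.lf (nat_lit 0) (nat_lit 13151508974) (nat_lit 304) (nat_lit 5933402676) (nat_lit 76) (nat_lit 15483216833) (nat_lit 21) (nat_lit 5) (nat_lit 25) (nat_lit 5) (nat_lit 22) (nat_lit 5) (nat_lit 219) (nat_lit 210) (nat_lit 171)))) (XT.nd (nat_lit 156) (nat_lit 304) (nat_lit 0) (XT.nd (nat_lit 78) (nat_lit 152) (nat_lit 0) (XT.lf (nat_lit 0) (nat_lit 22841408604) (nat_lit 228) (nat_lit 14499373681) (nat_lit 76) (nat_lit 611850701) (nat_lit 19) (nat_lit 5) (nat_lit 22) (nat_lit 5) (nat_lit 20) (nat_lit 5) (nat_lit 220) (nat_lit 210) (nat_lit 170)) (XT.lf (nat_lit 0) (nat_lit 16012529283) (nat_lit 152) (nat_lit 19038857958) (nat_lit 228) (nat_lit 6708201569) (nat_lit 17) (nat_lit 5) (nat_lit 19) (nat_lit 5) (nat_lit 20) (nat_lit 5) (nat_lit 221) (nat_lit 210) (nat_lit 169))) (XT.nd (nat_lit 78)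 (nat_lit 152) (nat_lit 0) (XT.lf (nat_lit 0) (nat_lit 3429538795) (nat_lit 152) (nat_lit 40086421804) (nat_lit 76) (nat_lit 2566256607) (nat_lit 15) (nat_lit 5) (nat_lit 17) (nat_lit 5) (nat_lit 16) (nat_lit 5) (nat_lit 222) (nat_lit 210) (nat_lit 168)) (XT.nd (nat_lit 78) (nat_lit 152) (nat_lit 0) (XT.lf (nat_lit 0) (nat_lit 15977778823) (nat_lit 152) (nat_lit 7695308302) (nat_lit 76) (nat_lit 27263322731) (nat_lit 15) (nat_lit 5) (nat_lit 17) (nat_lit 5) (nat_lit 16) (nat_lit 5) (nat_lit 223) (nat_lit 210) (nat_lit 167)) (XT.lf (nat_lit 0) (nat_lit 31083564566) (nat_lit 152) (nat_lit 54955095) (nat_lit 228) (nat_lit 25321853369) (nat_lit 13) (nat_lit 5) (nat_lit 15) (nat_lit 5) (nat_lit 16) (nat_lit 5) (nat_lit 224) (nat_lit 210) (nat_lit 166)))))) (XT.nd (nat_lit 390) (nat_lit 228) (nat_lit 0) (XT.nd (nat_lit 156) (nat_lit 228) (nat_lit 0) (XT.nd (nat_lit 78) (nat_lit 76) (nat_lit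 0) (XT.lf (nat_lit 0) (nat_lit 13334855452) (nat_lit 76) (nat_lit 36425175351) (nat_lit 152) (nat_lit 12958021760) (nat_lit 12) (nat_lit 5) (nat_lit 13) (nat_lit 5) (nat_lit 14) (nat_lit 4) (nat_lit 225) (nat_lit 210) (nat_lit 165)) (XT.lf (nat_lit 0) (nat_lit 1942161712) (nat_lit 152) (nat_lit 10539768817) (nat_lit 76) (nat_lit 57370486359) (nat_lit 11) (nat_lit 5) (nat_lit 13) (nat_lit 5) (nat_lit 12) (nat_lit 5) (nat_lit 226) (nat_lit 210) (nat_lit 164))) (XT.nd (nat_lit 78) (nat_lit 76) (nat_lit 0) (XT.lf (nat_lit 0) (nat_lit 19566948247) (nat_lit 228) (nat_lit 42825650618) (nat_lit 76) (nat_lit 15536902675) (nat_lit 9) (nat_lit 5) (nat_lit 12) (nat_lit 5) (nat_lit 10) (nat_lit 4) (nat_lit 227) (nat_lit 210) (nat_lit 163)) (XT.nd (nat_lit 78) (nat_lit 0) (nat_lit 0) (XT.lf (nat_lit 0) (nat_lit 701074553) (nat_lit 76) (nat_lit 39799545223) (nat_lit 152) (nat_lit 46664349006) (nat_lit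 8) (nat_lit 5) (nat_lit 9) (nat_lit 5) (nat_lit 10) (nat_lit 4) (nat_lit 228) (nat_lit 210) (nat_lit 162)) (XT.lf (nat_lit 0) (nat_lit 53332372437) (nat_lit 76) (nat_lit 12478157112) (nat_lit 152) (nat_lit 31876360474) (nat_lit 8) (nat_lit 5) (nat_lit 9) (nat_lit 5) (nat_lit 10) (nat_lit 4) (nat_lit 229) (nat_lit 210) (nat_lit 161))))) (XT.nd (nat_lit 156) (nat_lit 76) (nat_lit 0) (XT.nd (nat_lit 78) (nat_lit 76) (nat_lit 0) (XT.lf (nat_lit 0) (nat_lit 3789155772) (nat_lit 76) (nat_lit 91665042940) (nat_lit 76) (nat_lit 14289944048) (nat_lit 7) (nat_lit 4) (nat_lit 8) (nat_lit 5) (nat_lit 8) (nat_lit 4) (nat_lit 230) (nat_lit 210) (nat_lit 160)) (XT.lf (nat_lit 0) (nat_lit 7298790946) (nat_lit 152) (nat_lit 62202935604) (nat_lit 76) (nat_lit 53963961593) (nat_lit 6) (nat_lit 5) (nat_lit 8) (nat_lit 5) (nat_lit 7) (nat_lit 4) (nat_lit 231) (nat_lit 210) (nat_lit 159))) (XT.nd (nat_lit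 78) (nat_lit 76) (nat_lit 0) (XT.lf (nat_lit 0) (nat_lit 31296143439) (nat_lit 152) (nat_lit 12296548403) (nat_lit 76) (nat_lit 95621783194) (nat_lit 6) (nat_lit 5) (nat_lit 8) (nat_lit 5) (nat_lit 7) (nat_lit 4) (nat_lit 232) (nat_lit 210) (nat_lit 158)) (XT.nd (nat_lit 78) (nat_lit 0) (nat_lit 0) (XT.lf (nat_lit 0) (nat_lit 47458335582) (nat_lit 76) (nat_lit 12569506254) (nat_lit 152) (nat_lit 97206973991) (nat_lit 5) (nat_lit 5) (nat_lit 6) (nat_lit 5) (nat_lit 7) (nat_lit 4) (nat_lit 233) (nat_lit 210) (nat_lit 157)) (XT.lf (nat_lit 0) (nat_lit 93986193608) (nat_lit 152) (nat_lit 61584430762) (nat_lit 0) (nat_lit 22314244788) (nat_lit 5) (nat_lit 5) (nat_lit 7) (nat_lit 4) (nat_lit 5) (nat_lit 4) (nat_lit 234) (nat_lit 210) (nat_lit 156))))))) (XT.nd (nat_lit 780) (nat_lit 76) (nat_lit 0) (XT.nd (nat_lit 390) (nat_lit 76) (nat_lit 0) (XT.nd (nat_lit 156) (nat_lit 76) (nat_lit 0) (XT.nd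 (nat_lit 78) (nat_lit 76) (nat_lit 0) (XT.lf (nat_lit 0) (nat_lit 133380610424) (nat_lit 152) (nat_lit 6520720070) (nat_lit 0) (nat_lit 61703726588) (nat_lit 5) (nat_lit 5) (nat_lit 7) (nat_lit 4) (nat_lit 5) (nat_lit 4) (nat_lit 235) (nat_lit 210) (nat_lit 155)) (XT.lf (nat_lit 0) (nat_lit 59784968480) (nat_lit 76) (nat_lit 120332417132) (nat_lit 76) (nat_lit 48651241979) (nat_lit 4) (nat_lit 4) (nat_lit 5) (nat_lit 5) (nat_lit 5) (nat_lit 4) (nat_lit 236) (nat_lit 210) (nat_lit 154))) (XT.nd (nat_lit 78) (nat_lit 76) (nat_lit 0) (XT.lf (nat_lit 0) (nat_lit 136423819905) (nat_lit 76) (nat_lit 97626489342) (nat_lit 76) (nat_lit 25941582609) (nat_lit 4) (nat_lit 4) (nat_lit 5) (nat_lit 5) (nat_lit 5) (nat_lit 4) (nat_lit 237) (nat_lit 210) (nat_lit 153)) (XT.nd (nat_lit 78) (nat_lit 0) (nat_lit 0) (XT.lf (nat_lit 0) (nat_lit 162030587) (nat_lit 152) (nat_lit 71351127962) (nat_lit 76) (nat_lit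 224385459638) (nat_lit 3) (nat_lit 5) (nat_lit 5) (nat_lit 5) (nat_lit 4) (nat_lit 4) (nat_lit 238) (nat_lit 210) (nat_lit 152)) (XT.lf (nat_lit 0) (nat_lit 28685553721) (nat_lit 152) (nat_lit 12025021455) (nat_lit 76) (nat_lit 296423647903) (nat_lit 3) (nat_lit 5) (nat_lit 5) (nat_lit 5) (nat_lit 4) (nat_lit 4) (nat_lit 239) (nat_lit 210) (nat_lit 151))))) (XT.nd (nat_lit 156) (nat_lit 0) (nat_lit 0) (XT.nd (nat_lit 78) (nat_lit 0) (nat_lit 0) (XT.lf (nat_lit 0) (nat_lit 59153993769) (nat_lit 76) (nat_lit 3753419951) (nat_lit 152) (nat_lit 321534175639) (nat_lit 2) (nat_lit 5) (nat_lit 3) (nat_lit 5) (nat_lit 4) (nat_lit 4) (nat_lit 240) (nat_lit 210) (nat_lit 150)) (XT.lf (nat_lit 0) (nat_lit 103550976488) (nat_lit 152) (nat_lit 298024816406) (nat_lit 0) (nat_lit 37166198420) (nat_lit 2) (nat_lit 5) (nat_lit 4) (nat_lit 4) (nat_lit 2) (nat_lit 4) (nat_lit 241) (nat_lit 210) (nat_lit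 149))) (XT.nd (nat_lit 78) (nat_lit 0) (nat_lit 0) (XT.lf (nat_lit 0) (nat_lit 150392589303) (nat_lit 152) (nat_lit 266780653633) (nat_lit 0) (nat_lit 84006093406) (nat_lit 2) (nat_lit 5) (nat_lit 4) (nat_lit 4) (nat_lit 2) (nat_lit 4) (nat_lit 242) (nat_lit 210) (nat_lit 148)) (XT.nd (nat_lit 78) (nat_lit 0) (nat_lit 0) (XT.lf (nat_lit 0) (nat_lit 204258448662) (nat_lit 152) (nat_lit 230853538594) (nat_lit 0) (nat_lit 137870459002) (nat_lit 2) (nat_lit 5) (nat_lit 4) (nat_lit 4) (nat_lit 2) (nat_lit 4) (nat_lit 243) (nat_lit 210) (nat_lit 147)) (XT.lf (nat_lit 0) (nat_lit 266202451814) (nat_lit 152) (nat_lit 189540549473) (nat_lit 0) (nat_lit 199813163229) (nat_lit 2) (nat_lit 5) (nat_lit 4) (nat_lit 4) (nat_lit 2) (nat_lit 4) (nat_lit 244) (nat_lit 210) (nat_lit 146)))))) (XT.nd (nat_lit 390) (nat_lit 0) (nat_lit 0) (XT.nd (nat_lit 156) (nat_lit 76) (nat_lit 0) (XT.nd (nat_lit 78) (nat_lit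 0) (nat_lit 0) (XT.lf (nat_lit 0) (nat_lit 337436546647) (nat_lit 152) (nat_lit 142033388657) (nat_lit 0) (nat_lit 271046128561) (nat_lit 2) (nat_lit 5) (nat_lit 4) (nat_lit 4) (nat_lit 2) (nat_lit 4) (nat_lit 245) (nat_lit 210) (nat_lit 145)) (XT.lf (nat_lit 0) (nat_lit 419354443711) (nat_lit 152) (nat_lit 87402568217) (nat_lit 0) (nat_lit 352963043451) (nat_lit 2) (nat_lit 5) (nat_lit 4) (nat_lit 4) (nat_lit 2) (nat_lit 4) (nat_lit 246) (nat_lit 210) (nat_lit 144))) (XT.nd (nat_lit 78) (nat_lit 76) (nat_lit 0) (XT.lf (nat_lit 0) (nat_lit 513558884472) (nat_lit 152) (nat_lit 24579224275) (nat_lit 0) (nat_lit 447166630147) (nat_lit 2) (nat_lit 5) (nat_lit 4) (nat_lit 4) (nat_lit 2) (nat_lit 4) (nat_lit 247) (nat_lit 210) (nat_lit 143)) (XT.nd (nat_lit 78) (nat_lit 0) (nat_lit 0) (XT.lf (nat_lit 0) (nat_lit 50175791873) (nat_lit 76) (nat_lit 572923936419) (nat_lit 76) (nat_lit 506530939430)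 (nat_lit 1) (nat_lit 4) (nat_lit 2) (nat_lit 5) (nat_lit 2) (nat_lit 4) (nat_lit 248) (nat_lit 210) (nat_lit 142)) (XT.lf (nat_lit 0) (nat_lit 137630832424) (nat_lit 76) (nat_lit 612155561081) (nat_lit 76) (nat_lit 545761918297) (nat_lit 1) (nat_lit 4) (nat_lit 2) (nat_lit 5) (nat_lit 2) (nat_lit 4) (nat_lit 249) (nat_lit 210) (nat_lit 141))))) (XT.nd (nat_lit 156) (nat_lit 0) (nat_lit 0) (XT.nd (nat_lit 78) (nat_lit 0) (nat_lit 0) (XT.lf (nat_lit 0) (nat_lit 238202675866) (nat_lit 76) (nat_lit 657272597549) (nat_lit 76) (nat_lit 590878393204) (nat_lit 1) (nat_lit 4) (nat_lit 2) (nat_lit 5) (nat_lit 2) (nat_lit 4) (nat_lit 250) (nat_lit 210) (nat_lit 140)) (XT.lf (nat_lit 0) (nat_lit 353859032179) (nat_lit 76) (nat_lit 709157770449) (nat_lit 76) (nat_lit 642763077790) (nat_lit 1) (nat_lit 4) (nat_lit 2) (nat_lit 5) (nat_lit 2) (nat_lit 4) (nat_lit 251) (nat_lit 210) (nat_lit 139))) (XT.nd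 (nat_lit 78) (nat_lit 0) (nat_lit 0) (XT.lf (nat_lit 0) (nat_lit 486862743117) (nat_lit 76) (nat_lit 768826224469) (nat_lit 76) (nat_lit 702431107188) (nat_lit 1) (nat_lit 4) (nat_lit 2) (nat_lit 5) (nat_lit 2) (nat_lit 4) (nat_lit 252) (nat_lit 210) (nat_lit 138)) (XT.nd (nat_lit 78) (nat_lit 0) (nat_lit 0) (XT.lf (nat_lit 0) (nat_lit 639816055199) (nat_lit 76) (nat_lit 837445385882) (nat_lit 76) (nat_lit 771049899365) (nat_lit 1) (nat_lit 4) (nat_lit 2) (nat_lit 5) (nat_lit 2) (nat_lit 4) (nat_lit 253) (nat_lit 210) (nat_lit 137)) (XT.lf (nat_lit 0) (nat_lit 815711533226) (nat_lit 76) (nat_lit 916357803498) (nat_lit 76) (nat_lit 849961995908) (nat_lit 1) (nat_lit 4) (nat_lit 2) (nat_lit 5) (nat_lit 2) (nat_lit 4) (nat_lit 254) (nat_lit 210) (nat_lit 136))))))))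
noncomputable def xc39 : XT := (XT.nd (nat_lit 29016) (nat_lit 0) (nat_lit 76) (XT.nd (nat_lit 28236) (nat_lit 0) (nat_lit 912) (XT.nd (nat_lit 27846) (nat_lit 0) (nat_lit 2432) (XT.nd (nat_lit 156) (nat_lit 0) (nat_lit 0) (XT.nd (nat_lit 78) (nat_lit 0) (nat_lit 0) (XT.lf (nat_lit 0) (nat_lit 1017990610464) (nat_lit 76) (nat_lit 1007107415924) (nat_lit 76) (nat_lit 940711329138) (nat_lit 1) (nat_lit 4) (nat_lit 2) (nat_lit 5) (nat_lit 2) (nat_lit 4) (nat_lit 255) (nat_lit 210) (nat_lit 135)) (XT.lf (nat_lit 0) (nat_lit 1250610921033) (nat_lit 76) (nat_lit 1111469759055) (nat_lit 76) (nat_lit 1045073429491) (nat_lit 1) (nat_lit 4) (nat_lit 2) (nat_lit 5) (nat_lit 2) (nat_lit 4) (nat_lit 256) (nat_lit 210) (nat_lit 134))) (XT.nd (nat_lit 78) (nat_lit 0) (nat_lit 0) (XT.lf (nat_lit 0) (nat_lit 1518123731878) (nat_lit 76) (nat_lit 1231486704821) (nat_lit 76) (nat_lit 1165090164145) (nat_lit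 1) (nat_lit 4) (nat_lit 2) (nat_lit 5) (nat_lit 2) (nat_lit 4) (nat_lit 257) (nat_lit 210) (nat_lit 133)) (XT.nd (nat_lit 78) (nat_lit 0) (nat_lit 0) (XT.lf (nat_lit 0) (nat_lit 1825762989299) (nat_lit 76) (nat_lit 1369506410857) (nat_lit 76) (nat_lit 1303109686606) (nat_lit 1) (nat_lit 4) (nat_lit 2) (nat_lit 5) (nat_lit 2) (nat_lit 4) (nat_lit 258) (nat_lit 210) (nat_lit 132)) (XT.lf (nat_lit 0) (nat_lit 2179547722246) (nat_lit 76) (nat_lit 1528229262716) (nat_lit 76) (nat_lit 1461832378834) (nat_lit 1) (nat_lit 4) (nat_lit 2) (nat_lit 5) (nat_lit 2) (nat_lit 4) (nat_lit 259) (nat_lit 210) (nat_lit 131))))) (XT.nd (nat_lit 156) (nat_lit 0) (nat_lit 76) (XT.nd (nat_lit 78) (nat_lit 0) (nat_lit 76) (XT.lf (nat_lit 0) (nat_lit 2277225482) (nat_lit 532) (nat_lit 3668080678) (nat_lit 532) (nat_lit 3668080678) (nat_lit 33) (nat_lit 3) (nat_lit 40) (nat_lit 3) (nat_lit 40) (nat_lit 5) (nat_lit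 211) (nat_lit 211) (nat_lit 178)) (XT.lf (nat_lit 0) (nat_lit 5449834523) (nat_lit 456) (nat_lit 12440748412) (nat_lit 532) (nat_lit 2732230175) (nat_lit 34) (nat_lit 5) (nat_lit 40) (nat_lit 5) (nat_lit 41) (nat_lit 5) (nat_lit 212) (nat_lit 211) (nat_lit 177))) (XT.nd (nat_lit 78) (nat_lit 0) (nat_lit 76) (XT.lf (nat_lit 76) (nat_lit 4097597572) (nat_lit 0) (nat_lit 2977381083) (nat_lit 532) (nat_lit 15105939950) (nat_lit 35) (nat_lit 5) (nat_lit 34) (nat_lit 5) (nat_lit 41) (nat_lit 5) (nat_lit 213) (nat_lit 211) (nat_lit 176)) (XT.nd (nat_lit 78) (nat_lit 0) (nat_lit 76) (XT.lf (nat_lit 0) (nat_lit 9611516316) (nat_lit 456) (nat_lit 459359291) (nat_lit 532) (nat_lit 13848712296) (nat_lit 35) (nat_lit 5) (nat_lit 41) (nat_lit 5) (nat_lit 42) (nat_lit 5) (nat_lit 214) (nat_lit 211) (nat_lit 175)) (XT.lf (nat_lit 0) (nat_lit 13254762141) (nat_lit 456) (nat_lit 5328014262) (nat_lit 76)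 (nat_lit 7278407105) (nat_lit 36) (nat_lit 5) (nat_lit 42) (nat_lit 5) (nat_lit 37) (nat_lit 5) (nat_lit 215) (nat_lit 211) (nat_lit 174)))))) (XT.nd (nat_lit 390) (nat_lit 608) (nat_lit 0) (XT.nd (nat_lit 156) (nat_lit 456) (nat_lit 0) (XT.nd (nat_lit 78) (nat_lit 228) (nat_lit 0) (XT.lf (nat_lit 0) (nat_lit 17157560442) (nat_lit 456) (nat_lit 957400895) (nat_lit 532) (nat_lit 9925614680) (nat_lit 30) (nat_lit 5) (nat_lit 36) (nat_lit 5) (nat_lit 37) (nat_lit 5) (nat_lit 216) (nat_lit 211) (nat_lit 173)) (XT.lf (nat_lit 0) (nat_lit 12952288069) (nat_lit 228) (nat_lit 11656422229) (nat_lit 304) (nat_lit 5865974975) (nat_lit 27) (nat_lit 5) (nat_lit 30) (nat_lit 5) (nat_lit 31) (nat_lit 5) (nat_lit 217) (nat_lit 211) (nat_lit 172))) (XT.nd (nat_lit 78) (nat_lit 304) (nat_lit 0) (XT.lf (nat_lit 0) (nat_lit 7905856384) (nat_lit 152) (nat_lit 24882369532) (nat_lit 228) (nat_lit 428896016)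 (nat_lit 25) (nat_lit 5) (nat_lit 27) (nat_lit 5) (nat_lit 28) (nat_lit 5) (nat_lit 218) (nat_lit 211) (nat_lit 171)) (XT.nd (nat_lit 78) (nat_lit 0) (nat_lit 0) (XT.lf (nat_lit 0) (nat_lit 1446201334) (nat_lit 228) (nat_lit 4941592243) (nat_lit 304) (nat_lit 29903614174) (nat_lit 21) (nat_lit 5) (nat_lit 24) (nat_lit 5) (nat_lit 25) (nat_lit 5) (nat_lit 219) (nat_lit 211) (nat_lit 170)) (XT.lf (nat_lit 0) (nat_lit 15368358827) (nat_lit 304) (nat_lit 6510548482) (nat_lit 76) (nat_lit 17853799681) (nat_lit 21) (nat_lit 5) (nat_lit 25) (nat_lit 5) (nat_lit 22) (nat_lit 5) (nat_lit 220) (nat_lit 211) (nat_lit 169))))) (XT.nd (nat_lit 156) (nat_lit 304) (nat_lit 0) (XT.nd (nat_lit 78) (nat_lit 152) (nat_lit 0) (XT.lf (nat_lit 0) (nat_lit 26488405186) (nat_lit 228) (nat_lit 16371014559) (nat_lit 76) (nat_lit 767479379) (nat_lit 19) (nat_lit 5) (nat_lit 22) (nat_lit 5) (nat_lit 20) (nat_lit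 5) (nat_lit 221) (nat_lit 211) (nat_lit 168)) (XT.lf (nat_lit 0) (nat_lit 18692003963) (nat_lit 152) (nat_lit 21815754747) (nat_lit 228) (nat_lit 7499035362) (nat_lit 17) (nat_lit 5) (nat_lit 19) (nat_lit 5) (nat_lit 20) (nat_lit 5) (nat_lit 222) (nat_lit 211) (nat_lit 167))) (XT.nd (nat_lit 78) (nat_lit 152) (nat_lit 0) (XT.lf (nat_lit 0) (nat_lit 4130199741) (nat_lit 152) (nat_lit 45821224920) (nat_lit 76) (nat_lit 3027550397) (nat_lit 15) (nat_lit 5) (nat_lit 17) (nat_lit 5) (nat_lit 16) (nat_lit 5) (nat_lit 223) (nat_lit 211) (nat_lit 166)) (XT.nd (nat_lit 78) (nat_lit 152) (nat_lit 0) (XT.lf (nat_lit 0) (nat_lit 18536384888) (nat_lit 152) (nat_lit 8607726151) (nat_lit 76) (nat_lit 31419217052) (nat_lit 15) (nat_lit 5) (nat_lit 17) (nat_lit 5) (nat_lit 16) (nat_lit 5) (nat_lit 224) (nat_lit 211) (nat_lit 165)) (XT.lf (nat_lit 0) (nat_lit 35955729284) (nat_lit 228) (nat_lit 28950012580)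 (nat_lit 76) (nat_lit 11461191) (nat_lit 13) (nat_lit 5) (nat_lit 16) (nat_lit 5) (nat_lit 14) (nat_lit 4) (nat_lit 225) (nat_lit 211) (nat_lit 164))))))) (XT.nd (nat_lit 780) (nat_lit 228) (nat_lit 0) (XT.nd (nat_lit 390) (nat_lit 228) (nat_lit 0) (XT.nd (nat_lit 156) (nat_lit 228) (nat_lit 0) (XT.nd (nat_lit 78) (nat_lit 76) (nat_lit 0) (XT.lf (nat_lit 0) (nat_lit 15547260520) (nat_lit 76) (nat_lit 41810531322) (nat_lit 152) (nat_lit 14756823402) (nat_lit 12) (nat_lit 5) (nat_lit 13) (nat_lit 5) (nat_lit 14) (nat_lit 4) (nat_lit 226) (nat_lit 211) (nat_lit 163)) (XT.lf (nat_lit 0) (nat_lit 2353184279) (nat_lit 152) (nat_lit 11929571473) (nat_lit 76) (nat_lit 66037589762) (nat_lit 11) (nat_lit 5) (nat_lit 13) (nat_lit 5) (nat_lit 12) (nat_lit 5) (nat_lit 227) (nat_lit 211) (nat_lit 162))) (XT.nd (nat_lit 78) (nat_lit 76) (nat_lit 0) (XT.lf (nat_lit 0) (nat_lit 22611888131) (nat_lit 228)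 (nat_lit 49067145510) (nat_lit 76) (nat_lit 17930789977) (nat_lit 9) (nat_lit 5) (nat_lit 12) (nat_lit 5) (nat_lit 10) (nat_lit 4) (nat_lit 228) (nat_lit 211) (nat_lit 161)) (XT.nd (nat_lit 78) (nat_lit 0) (nat_lit 0) (XT.lf (nat_lit 0) (nat_lit 973153188) (nat_lit 76) (nat_lit 45702137094) (nat_lit 152) (nat_lit 53556186881) (nat_lit 8) (nat_lit 5) (nat_lit 9) (nat_lit 5) (nat_lit 10) (nat_lit 4) (nat_lit 229) (nat_lit 211) (nat_lit 160)) (XT.lf (nat_lit 0) (nat_lit 61477373914) (nat_lit 76) (nat_lit 14291324232) (nat_lit 152) (nat_lit 36564062828) (nat_lit 8) (nat_lit 5) (nat_lit 9) (nat_lit 5) (nat_lit 10) (nat_lit 4) (nat_lit 230) (nat_lit 211) (nat_lit 159))))) (XT.nd (nat_lit 156) (nat_lit 76) (nat_lit 0) (XT.nd (nat_lit 78) (nat_lit 76) (nat_lit 0) (XT.lf (nat_lit 0) (nat_lit 4495656095) (nat_lit 76) (nat_lit 105356513901) (nat_lit 76) (nat_lit 16347002147) (nat_lit 7) (nat_lit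 4) (nat_lit 8) (nat_lit 5) (nat_lit 8) (nat_lit 4) (nat_lit 231) (nat_lit 211) (nat_lit 158)) (XT.lf (nat_lit 0) (nat_lit 8465009374) (nat_lit 152) (nat_lit 71409340936) (nat_lit 76) (nat_lit 62105314247) (nat_lit 6) (nat_lit 5) (nat_lit 8) (nat_lit 5) (nat_lit 7) (nat_lit 4) (nat_lit 232) (nat_lit 211) (nat_lit 157))) (XT.nd (nat_lit 78) (nat_lit 76) (nat_lit 0) (XT.lf (nat_lit 0) (nat_lit 36052651725) (nat_lit 152) (nat_lit 14033174134) (nat_lit 76) (nat_lit 110005710164) (nat_lit 6) (nat_lit 5) (nat_lit 8) (nat_lit 5) (nat_lit 7) (nat_lit 4) (nat_lit 233) (nat_lit 211) (nat_lit 156)) (XT.nd (nat_lit 78) (nat_lit 0) (nat_lit 0) (XT.lf (nat_lit 0) (nat_lit 54675812930) (nat_lit 76) (nat_lit 14412568064) (nat_lit 152) (nat_lit 111727023544) (nat_lit 5) (nat_lit 5) (nat_lit 6) (nat_lit 5) (nat_lit 7) (nat_lit 4) (nat_lit 234) (nat_lit 211) (nat_lit 155)) (XT.lf (nat_lit 0) (nat_lit 108134019816)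 (nat_lit 152) (nat_lit 70733102493) (nat_lit 0) (nat_lit 25696377073) (nat_lit 5) (nat_lit 5) (nat_lit 7) (nat_lit 4) (nat_lit 5) (nat_lit 4) (nat_lit 235) (nat_lit 211) (nat_lit 154)))))) (XT.nd (nat_lit 390) (nat_lit 76) (nat_lit 0) (XT.nd (nat_lit 156) (nat_lit 76) (nat_lit 0) (XT.nd (nat_lit 78) (nat_lit 76) (nat_lit 0) (XT.lf (nat_lit 0) (nat_lit 153431090828) (nat_lit 152) (nat_lit 7421442965) (nat_lit 0) (nat_lit 70989716505) (nat_lit 5) (nat_lit 5) (nat_lit 7) (nat_lit 4) (nat_lit 5) (nat_lit 4) (nat_lit 236) (nat_lit 211) (nat_lit 153)) (XT.lf (nat_lit 0) (nat_lit 68823548603) (nat_lit 76) (nat_lit 138350877857) (nat_lit 76) (nat_lit 55906258682) (nat_lit 4) (nat_lit 4) (nat_lit 5) (nat_lit 5) (nat_lit 5) (nat_lit 4) (nat_lit 237) (nat_lit 211) (nat_lit 152))) (XT.nd (nat_lit 78) (nat_lit 76) (nat_lit 0) (XT.lf (nat_lit 0) (nat_lit 156948988414) (nat_lit 76) (nat_lit 112243156791)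 (nat_lit 76) (nat_lit 29795716005) (nat_lit 4) (nat_lit 4) (nat_lit 5) (nat_lit 5) (nat_lit 5) (nat_lit 4) (nat_lit 238) (nat_lit 211) (nat_lit 151)) (XT.nd (nat_lit 78) (nat_lit 0) (nat_lit 0) (XT.lf (nat_lit 0) (nat_lit 216985526) (nat_lit 152) (nat_lit 81998564465) (nat_lit 76) (nat_lit 258065351523) (nat_lit 3) (nat_lit 5) (nat_lit 5) (nat_lit 5) (nat_lit 4) (nat_lit 4) (nat_lit 239) (nat_lit 211) (nat_lit 150)) (XT.lf (nat_lit 0) (nat_lit 33015039258) (nat_lit 152) (nat_lit 13780746246) (nat_lit 76) (nat_lit 340906388948) (nat_lit 3) (nat_lit 5) (nat_lit 5) (nat_lit 5) (nat_lit 4) (nat_lit 4) (nat_lit 240) (nat_lit 211) (nat_lit 149))))) (XT.nd (nat_lit 156) (nat_lit 0) (nat_lit 0) (XT.nd (nat_lit 78) (nat_lit 0) (nat_lit 0) (XT.lf (nat_lit 0) (nat_lit 68071055894) (nat_lit 76) (nat_lit 4296703265) (nat_lit 152) (nat_lit 369738086551) (nat_lit 2) (nat_lit 5) (nat_lit 3) (nat_lit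 5) (nat_lit 4) (nat_lit 4) (nat_lit 241) (nat_lit 211) (nat_lit 148)) (XT.lf (nat_lit 0) (nat_lit 119105108075) (nat_lit 152) (nat_lit 342688999203) (nat_lit 0) (nat_lit 42757426201) (nat_lit 2) (nat_lit 5) (nat_lit 4) (nat_lit 4) (nat_lit 2) (nat_lit 4) (nat_lit 242) (nat_lit 211) (nat_lit 147))) (XT.nd (nat_lit 78) (nat_lit 0) (nat_lit 0) (XT.lf (nat_lit 0) (nat_lit 172970160406) (nat_lit 152) (nat_lit 306763369361) (nat_lit 0) (nat_lit 96621179607) (nat_lit 2) (nat_lit 5) (nat_lit 4) (nat_lit 4) (nat_lit 2) (nat_lit 4) (nat_lit 243) (nat_lit 211) (nat_lit 146)) (XT.nd (nat_lit 78) (nat_lit 0) (nat_lit 0) (XT.lf (nat_lit 0) (nat_lit 234913461794) (nat_lit 152) (nat_lit 265451671716) (nat_lit 0) (nat_lit 158563351495) (nat_lit 2) (nat_lit 5) (nat_lit 4) (nat_lit 4) (nat_lit 2) (nat_lit 4) (nat_lit 244) (nat_lit 211) (nat_lit 145)) (XT.lf (nat_lit 0) (nat_lit 306146946397) (nat_lit 152)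 (nat_lit 217945633923) (nat_lit 0) (nat_lit 229795853924) (nat_lit 2) (nat_lit 5) (nat_lit 4) (nat_lit 4) (nat_lit 2) (nat_lit 4) (nat_lit 245) (nat_lit 211) (nat_lit 144))))))))
noncomputable def xc40 : XT := (XT.nd (nat_lit 29016) (nat_lit 0) (nat_lit 304) (XT.nd (nat_lit 702) (nat_lit 0) (nat_lit 0) (XT.nd (nat_lit 312) (nat_lit 0) (nat_lit 0) (XT.nd (nat_lit 156) (nat_lit 76) (nat_lit 0) (XT.nd (nat_lit 78) (nat_lit 0) (nat_lit 0) (XT.lf (nat_lit 0) (nat_lit 388064312827) (nat_lit 152) (nat_lit 163315790024) (nat_lit 0) (nat_lit 311712366290) (nat_lit 2) (nat_lit 5) (nat_lit 4) (nat_lit 4) (nat_lit 2) (nat_lit 4) (nat_lit 246) (nat_lit 211) (nat_lit 143)) (XT.lf (nat_lit 0) (nat_lit 482268292167) (nat_lit 152) (nat_lit 100493295248) (nat_lit 0) (nat_lit 405915602965) (nat_lit 2) (nat_lit 5) (nat_lit 4) (nat_lit 4) (nat_lit 2) (nat_lit 4) (nat_lit 247) (nat_lit 211) (nat_lit 142)))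 (XT.nd (nat_lit 78) (nat_lit 76) (nat_lit 0) (XT.lf (nat_lit 0) (nat_lit 590602005750) (nat_lit 152) (nat_lit 28249013828) (nat_lit 0) (nat_lit 514248670752) (nat_lit 2) (nat_lit 5) (nat_lit 4) (nat_lit 4) (nat_lit 2) (nat_lit 4) (nat_lit 248) (nat_lit 211) (nat_lit 141)) (XT.lf (nat_lit 0) (nat_lit 57717807812) (nat_lit 76) (nat_lit 658855333087) (nat_lit 76) (nat_lit 582501436529) (nat_lit 1) (nat_lit 4) (nat_lit 2) (nat_lit 5) (nat_lit 2) (nat_lit 4) (nat_lit 249) (nat_lit 211) (nat_lit 140)))) (XT.nd (nat_lit 156) (nat_lit 0) (nat_lit 0) (XT.nd (nat_lit 78) (nat_lit 0) (nat_lit 0) (XT.lf (nat_lit 0) (nat_lit 158289063513) (nat_lit 76) (nat_lit 703972639770) (nat_lit 76) (nat_lit 627618254898) (nat_lit 1) (nat_lit 4) (nat_lit 2) (nat_lit 5) (nat_lit 2) (nat_lit 4) (nat_lit 250) (nat_lit 211) (nat_lit 139)) (XT.lf (nat_lit 0) (nat_lit 273944908746) (nat_lit 76) (nat_lit 755858047640)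 (nat_lit 76) (nat_lit 679503238146) (nat_lit 1) (nat_lit 4) (nat_lit 2) (nat_lit 5) (nat_lit 2) (nat_lit 4) (nat_lit 251) (nat_lit 211) (nat_lit 138))) (XT.nd (nat_lit 78) (nat_lit 0) (nat_lit 0) (XT.lf (nat_lit 0) (nat_lit 406948175267) (nat_lit 76) (nat_lit 815526705980) (nat_lit 76) (nat_lit 739171527251) (nat_lit 1) (nat_lit 4) (nat_lit 2) (nat_lit 5) (nat_lit 2) (nat_lit 4) (nat_lit 252) (nat_lit 211) (nat_lit 137)) (XT.nd (nat_lit 78) (nat_lit 0) (nat_lit 0) (XT.lf (nat_lit 0) (nat_lit 559901100899) (nat_lit 76) (nat_lit 884146045064) (nat_lit 76) (nat_lit 807790545260) (nat_lit 1) (nat_lit 4) (nat_lit 2) (nat_lit 5) (nat_lit 2) (nat_lit 4) (nat_lit 253) (nat_lit 211) (nat_lit 136)) (XT.lf (nat_lit 0) (nat_lit 735796242883) (nat_lit 76) (nat_lit 963058617177) (nat_lit 76) (nat_lit 886702838178) (nat_lit 1) (nat_lit 4) (nat_lit 2) (nat_lit 5) (nat_lit 2) (nat_lit 4) (nat_lit 254)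 (nat_lit 211) (nat_lit 135)))))) (XT.nd (nat_lit 27924) (nat_lit 0) (nat_lit 2432) (XT.nd (nat_lit 156) (nat_lit 0) (nat_lit 0) (XT.nd (nat_lit 78) (nat_lit 0) (nat_lit 0) (XT.lf (nat_lit 0) (nat_lit 938075027909) (nat_lit 76) (nat_lit 1053808363947) (nat_lit 76) (nat_lit 977452342170) (nat_lit 1) (nat_lit 4) (nat_lit 2) (nat_lit 5) (nat_lit 2) (nat_lit 4) (nat_lit 255) (nat_lit 211) (nat_lit 134)) (XT.lf (nat_lit 0) (nat_lit 1170695084381) (nat_lit 76) (nat_lit 1158170823899) (nat_lit 76) (nat_lit 1081814591010) (nat_lit 1) (nat_lit 4) (nat_lit 2) (nat_lit 5) (nat_lit 2) (nat_lit 4) (nat_lit 256) (nat_lit 211) (nat_lit 133))) (XT.nd (nat_lit 78) (nat_lit 0) (nat_lit 0) (XT.lf (nat_lit 0) (nat_lit 1438207674272) (nat_lit 76) (nat_lit 1278187871249) (nat_lit 76) (nat_lit 1201831454785) (nat_lit 1) (nat_lit 4) (nat_lit 2) (nat_lit 5) (nat_lit 2) (nat_lit 4) (nat_lit 257) (nat_lit 211) (nat_lit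 132)) (XT.nd (nat_lit 78) (nat_lit 0) (nat_lit 0) (XT.lf (nat_lit 0) (nat_lit 1745846739559) (nat_lit 76) (nat_lit 1416207665619) (nat_lit 76) (nat_lit 1339851089524) (nat_lit 1) (nat_lit 4) (nat_lit 2) (nat_lit 5) (nat_lit 2) (nat_lit 4) (nat_lit 258) (nat_lit 211) (nat_lit 131)) (XT.lf (nat_lit 0) (nat_lit 2099631305433) (nat_lit 76) (nat_lit 1574930594290) (nat_lit 76) (nat_lit 1498573879386) (nat_lit 1) (nat_lit 4) (nat_lit 2) (nat_lit 5) (nat_lit 2) (nat_lit 4) (nat_lit 259) (nat_lit 211) (nat_lit 130))))) (XT.nd (nat_lit 156) (nat_lit 0) (nat_lit 76) (XT.nd (nat_lit 78) (nat_lit 0) (nat_lit 76) (XT.lf (nat_lit 0) (nat_lit 2893018290) (nat_lit 532) (nat_lit 4069422084) (nat_lit 532) (nat_lit 4069422084) (nat_lit 33) (nat_lit 3) (nat_lit 40) (nat_lit 3) (nat_lit 40) (nat_lit 5) (nat_lit 212) (nat_lit 212) (nat_lit 176)) (XT.lf (nat_lit 0) (nat_lit 6745677298) (nat_lit 456) (nat_lit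 13987799153) (nat_lit 532) (nat_lit 2941714111) (nat_lit 34) (nat_lit 5) (nat_lit 40) (nat_lit 5) (nat_lit 41) (nat_lit 5) (nat_lit 213) (nat_lit 212) (nat_lit 175))) (XT.nd (nat_lit 78) (nat_lit 0) (nat_lit 76) (XT.lf (nat_lit 76) (nat_lit 5004291760) (nat_lit 0) (nat_lit 3554929435) (nat_lit 532) (nat_lit 16912582405) (nat_lit 35) (nat_lit 5) (nat_lit 34) (nat_lit 5) (nat_lit 41) (nat_lit 5) (nat_lit 214) (nat_lit 212) (nat_lit 174)) (XT.nd (nat_lit 78) (nat_lit 0) (nat_lit 76) (XT.lf (nat_lit 0) (nat_lit 11418327766) (nat_lit 456) (nat_lit 240040152) (nat_lit 532) (nat_lit 15817853070) (nat_lit 35) (nat_lit 5) (nat_lit 41) (nat_lit 5) (nat_lit 42) (nat_lit 5) (nat_lit 215) (nat_lit 212) (nat_lit 173)) (XT.lf (nat_lit 0) (nat_lit 15565343251) (nat_lit 456) (nat_lit 5834217992) (nat_lit 76) (nat_lit 8313185770) (nat_lit 36) (nat_lit 5) (nat_lit 42) (nat_lit 5) (nat_lit 37) (nat_lit 5)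 (nat_lit 216) (nat_lit 212) (nat_lit 172))))))) (XT.nd (nat_lit 780) (nat_lit 608) (nat_lit 0) (XT.nd (nat_lit 390) (nat_lit 608) (nat_lit 0) (XT.nd (nat_lit 156) (nat_lit 456) (nat_lit 0) (XT.nd (nat_lit 78) (nat_lit 228) (nat_lit 0) (XT.lf (nat_lit 0) (nat_lit 19999392062) (nat_lit 456) (nat_lit 1119582580) (nat_lit 532) (nat_lit 11103159572) (nat_lit 30) (nat_lit 5) (nat_lit 36) (nat_lit 5) (nat_lit 37) (nat_lit 5) (nat_lit 217) (nat_lit 212) (nat_lit 171)) (XT.lf (nat_lit 0) (nat_lit 15163488101) (nat_lit 228) (nat_lit 13391958780) (nat_lit 304) (nat_lit 6468627061) (nat_lit 27) (nat_lit 5) (nat_lit 30) (nat_lit 5) (nat_lit 31) (nat_lit 5) (nat_lit 218) (nat_lit 212) (nat_lit 170))) (XT.nd (nat_lit 78) (nat_lit 304) (nat_lit 0) (XT.lf (nat_lit 0) (nat_lit 9357059685) (nat_lit 152) (nat_lit 28578164602) (nat_lit 228) (nat_lit 244965020) (nat_lit 25) (nat_lit 5) (nat_lit 27) (nat_lit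 5) (nat_lit 28) (nat_lit 5) (nat_lit 219) (nat_lit 212) (nat_lit 169)) (XT.nd (nat_lit 78) (nat_lit 0) (nat_lit 0) (XT.lf (nat_lit 0) (nat_lit 1918382820) (nat_lit 228) (nat_lit 5638802209) (nat_lit 304) (nat_lit 34160070105) (nat_lit 21) (nat_lit 5) (nat_lit 24) (nat_lit 5) (nat_lit 25) (nat_lit 5) (nat_lit 220) (nat_lit 212) (nat_lit 168)) (XT.lf (nat_lit 0) (nat_lit 17858205096) (nat_lit 304) (nat_lit 7250560172) (nat_lit 76) (nat_lit 20568240388) (nat_lit 21) (nat_lit 5) (nat_lit 25) (nat_lit 5) (nat_lit 22) (nat_lit 5) (nat_lit 221) (nat_lit 212) (nat_lit 167))))) (XT.nd (nat_lit 156) (nat_lit 304) (nat_lit 0) (XT.nd (nat_lit 78) (nat_lit 152) (nat_lit 0) (XT.lf (nat_lit 0) (nat_lit 30628611364) (nat_lit 228) (nat_lit 18597354702) (nat_lit 76) (nat_lit 930881870) (nat_lit 19) (nat_lit 5) (nat_lit 22) (nat_lit 5) (nat_lit 20) (nat_lit 5) (nat_lit 222) (nat_lit 212) (nat_lit 166))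 (XT.lf (nat_lit 0) (nat_lit 21705706477) (nat_lit 152) (nat_lit 25028434099) (nat_lit 228) (nat_lit 8461020011) (nat_lit 17) (nat_lit 5) (nat_lit 19) (nat_lit 5) (nat_lit 20) (nat_lit 5) (nat_lit 223) (nat_lit 212) (nat_lit 165))) (XT.nd (nat_lit 78) (nat_lit 152) (nat_lit 0) (XT.lf (nat_lit 0) (nat_lit 4890546434) (nat_lit 152) (nat_lit 52484079619) (nat_lit 76) (nat_lit 3539418531) (nat_lit 15) (nat_lit 5) (nat_lit 17) (nat_lit 5) (nat_lit 16) (nat_lit 5) (nat_lit 224) (nat_lit 212) (nat_lit 164)) (XT.nd (nat_lit 78) (nat_lit 152) (nat_lit 0) (XT.lf (nat_lit 0) (nat_lit 21439291953) (nat_lit 152) (nat_lit 9715990257) (nat_lit 76) (nat_lit 36182304458) (nat_lit 15) (nat_lit 5) (nat_lit 17) (nat_lit 5) (nat_lit 16) (nat_lit 5) (nat_lit 225) (nat_lit 212) (nat_lit 163)) (XT.lf (nat_lit 0) (nat_lit 41460961340) (nat_lit 228) (nat_lit 33117242459) (nat_lit 76) (nat_lit 67243215) (nat_lit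 13) (nat_lit 5) (nat_lit 16) (nat_lit 5) (nat_lit 14) (nat_lit 4) (nat_lit 226) (nat_lit 212) (nat_lit 162)))))) (XT.nd (nat_lit 390) (nat_lit 228) (nat_lit 0) (XT.nd (nat_lit 156) (nat_lit 228) (nat_lit 0) (XT.nd (nat_lit 78) (nat_lit 76) (nat_lit 0) (XT.lf (nat_lit 0) (nat_lit 18039785704) (nat_lit 76) (nat_lit 48022813982) (nat_lit 152) (nat_lit 16860780468) (nat_lit 12) (nat_lit 5) (nat_lit 13) (nat_lit 5) (nat_lit 14) (nat_lit 4) (nat_lit 227) (nat_lit 212) (nat_lit 161)) (XT.lf (nat_lit 0) (nat_lit 2796671039) (nat_lit 152) (nat_lit 13574460754) (nat_lit 76) (nat_lit 75989754085) (nat_lit 11) (nat_lit 5) (nat_lit 13) (nat_lit 5) (nat_lit 12) (nat_lit 5) (nat_lit 228) (nat_lit 212) (nat_lit 160))) (XT.nd (nat_lit 78) (nat_lit 76) (nat_lit 0) (XT.lf (nat_lit 0) (nat_lit 26086769760) (nat_lit 228) (nat_lit 56289332497) (nat_lit 76) (nat_lit 20668311611) (nat_lit 9) (nat_lit 5) (nat_lit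 12) (nat_lit 5) (nat_lit 10) (nat_lit 4) (nat_lit 229) (nat_lit 212) (nat_lit 159)) (XT.nd (nat_lit 78) (nat_lit 0) (nat_lit 0) (XT.lf (nat_lit 0) (nat_lit 1245339741) (nat_lit 76) (nat_lit 52506539009) (nat_lit 152) (nat_lit 61508091680) (nat_lit 8) (nat_lit 5) (nat_lit 9) (nat_lit 5) (nat_lit 10) (nat_lit 4) (nat_lit 230) (nat_lit 212) (nat_lit 158)) (XT.lf (nat_lit 0) (nat_lit 70808730936) (nat_lit 76) (nat_lit 16390745781) (nat_lit 152) (nat_lit 41977782484) (nat_lit 8) (nat_lit 5) (nat_lit 9) (nat_lit 5) (nat_lit 10) (nat_lit 4) (nat_lit 231) (nat_lit 212) (nat_lit 157))))) (XT.nd (nat_lit 156) (nat_lit 76) (nat_lit 0) (XT.nd (nat_lit 78) (nat_lit 76) (nat_lit 0) (XT.lf (nat_lit 0) (nat_lit 5274448333) (nat_lit 76) (nat_lit 121115918790) (nat_lit 76) (nat_lit 18733696320) (nat_lit 7) (nat_lit 4) (nat_lit 8) (nat_lit 5) (nat_lit 8) (nat_lit 4) (nat_lit 232) (nat_lit 212) (nat_lit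 156)) (XT.lf (nat_lit 0) (nat_lit 9788749276) (nat_lit 152) (nat_lit 82026953791) (nat_lit 76) (nat_lit 71456467463) (nat_lit 6) (nat_lit 5) (nat_lit 8) (nat_lit 5) (nat_lit 7) (nat_lit 4) (nat_lit 233) (nat_lit 212) (nat_lit 155))) (XT.nd (nat_lit 78) (nat_lit 76) (nat_lit 0) (XT.lf (nat_lit 0) (nat_lit 41507496003) (nat_lit 152) (nat_lit 16056595222) (nat_lit 76) (nat_lit 126537311105) (nat_lit 6) (nat_lit 5) (nat_lit 8) (nat_lit 5) (nat_lit 7) (nat_lit 4) (nat_lit 234) (nat_lit 212) (nat_lit 154)) (XT.nd (nat_lit 78) (nat_lit 0) (nat_lit 0) (XT.lf (nat_lit 0) (nat_lit 62951836674) (nat_lit 76) (nat_lit 16542419907) (nat_lit 152) (nat_lit 128439954924) (nat_lit 5) (nat_lit 5) (nat_lit 6) (nat_lit 5) (nat_lit 7) (nat_lit 4) (nat_lit 235) (nat_lit 212) (nat_lit 153)) (XT.lf (nat_lit 0) (nat_lit 124391852215) (nat_lit 152) (nat_lit 81275776463) (nat_lit 0) (nat_lit 29577295311) (nat_lit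 5) (nat_lit 5) (nat_lit 7) (nat_lit 4) (nat_lit 5) (nat_lit 4) (nat_lit 236) (nat_lit 212) (nat_lit 152))))))))
noncomputable def xc41 : XT := (XT.nd (nat_lit 1482) (nat_lit 0) (nat_lit 0) (XT.nd (nat_lit 702) (nat_lit 76) (nat_lit 0) (XT.nd (nat_lit 312) (nat_lit 76) (nat_lit 0) (XT.nd (nat_lit 156) (nat_lit 76) (nat_lit 0) (XT.nd (nat_lit 78) (nat_lit 76) (nat_lit 0) (XT.lf (nat_lit 0) (nat_lit 176478562649) (nat_lit 152) (nat_lit 8476145145) (nat_lit 0) (nat_lit 81661184134) (nat_lit 5) (nat_lit 5) (nat_lit 7) (nat_lit 4) (nat_lit 5) (nat_lit 4) (nat_lit 237) (nat_lit 212) (nat_lit 151)) (XT.lf (nat_lit 0) (nat_lit 79200642218) (nat_lit 76) (nat_lit 159079765230) (nat_lit 76) (nat_lit 64259933141) (nat_lit 4) (nat_lit 4) (nat_lit 5) (nat_lit 5) (nat_lit 5) (nat_lit 4) (nat_lit 238) (nat_lit 212) (nat_lit 150))) (XT.nd (nat_lit 78) (nat_lit 76) (nat_lit 0) (XT.lf (nat_lit 0) (nat_lit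 180537911740) (nat_lit 76) (nat_lit 129058983088) (nat_lit 76) (nat_lit 34237017455) (nat_lit 4) (nat_lit 4) (nat_lit 5) (nat_lit 5) (nat_lit 5) (nat_lit 4) (nat_lit 239) (nat_lit 212) (nat_lit 149)) (XT.lf (nat_lit 0) (nat_lit 272709423) (nat_lit 152) (nat_lit 94256585285) (nat_lit 76) (nat_lit 296791844564) (nat_lit 3) (nat_lit 5) (nat_lit 5) (nat_lit 5) (nat_lit 4) (nat_lit 4) (nat_lit 240) (nat_lit 212) (nat_lit 148)))) (XT.nd (nat_lit 156) (nat_lit 0) (nat_lit 0) (XT.nd (nat_lit 78) (nat_lit 76) (nat_lit 0) (XT.lf (nat_lit 0) (nat_lit 37987448249) (nat_lit 152) (nat_lit 15811541792) (nat_lit 76) (nat_lit 392056860606) (nat_lit 3) (nat_lit 5) (nat_lit 5) (nat_lit 5) (nat_lit 4) (nat_lit 4) (nat_lit 241) (nat_lit 212) (nat_lit 147)) (XT.lf (nat_lit 0) (nat_lit 78314956668) (nat_lit 76) (nat_lit 4926290283) (nat_lit 152) (nat_lit 425178976899) (nat_lit 2) (nat_lit 5) (nat_lit 3) (nat_lit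 5) (nat_lit 4) (nat_lit 4) (nat_lit 242) (nat_lit 212) (nat_lit 146))) (XT.nd (nat_lit 78) (nat_lit 0) (nat_lit 0) (XT.lf (nat_lit 0) (nat_lit 136987120118) (nat_lit 152) (nat_lit 394062451417) (nat_lit 0) (nat_lit 49183363775) (nat_lit 2) (nat_lit 5) (nat_lit 4) (nat_lit 4) (nat_lit 2) (nat_lit 4) (nat_lit 243) (nat_lit 212) (nat_lit 145)) (XT.nd (nat_lit 78) (nat_lit 0) (nat_lit 0) (XT.lf (nat_lit 0) (nat_lit 198929811277) (nat_lit 152) (nat_lit 352751876794) (nat_lit 0) (nat_lit 111125072759) (nat_lit 2) (nat_lit 5) (nat_lit 4) (nat_lit 4) (nat_lit 2) (nat_lit 4) (nat_lit 244) (nat_lit 212) (nat_lit 144)) (XT.lf (nat_lit 0) (nat_lit 270162765246) (nat_lit 152) (nat_lit 305246815542) (nat_lit 0) (nat_lit 182357172664) (nat_lit 2) (nat_lit 5) (nat_lit 4) (nat_lit 4) (nat_lit 2) (nat_lit 4) (nat_lit 245) (nat_lit 212) (nat_lit 143)))))) (XT.nd (nat_lit 390) (nat_lit 0) (nat_lit 0) (XT.nd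 (nat_lit 156) (nat_lit 76) (nat_lit 0) (XT.nd (nat_lit 78) (nat_lit 0) (nat_lit 0) (XT.lf (nat_lit 0) (nat_lit 352079670255) (nat_lit 152) (nat_lit 250617820810) (nat_lit 0) (nat_lit 264273335008) (nat_lit 2) (nat_lit 5) (nat_lit 4) (nat_lit 4) (nat_lit 2) (nat_lit 4) (nat_lit 246) (nat_lit 212) (nat_lit 142)) (XT.lf (nat_lit 0) (nat_lit 446283248359) (nat_lit 152) (nat_lit 187796064439) (nat_lit 0) (nat_lit 358476267316) (nat_lit 2) (nat_lit 5) (nat_lit 4) (nat_lit 4) (nat_lit 2) (nat_lit 4) (nat_lit 247) (nat_lit 212) (nat_lit 141))) (XT.nd (nat_lit 78) (nat_lit 76) (nat_lit 0) (XT.lf (nat_lit 0) (nat_lit 554616613041) (nat_lit 152) (nat_lit 115552425111) (nat_lit 0) (nat_lit 466809070438) (nat_lit 2) (nat_lit 5) (nat_lit 4) (nat_lit 4) (nat_lit 2) (nat_lit 4) (nat_lit 248) (nat_lit 212) (nat_lit 140)) (XT.nd (nat_lit 78) (nat_lit 76) (nat_lit 0) (XT.lf (nat_lit 0) (nat_lit 679199330134)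 (nat_lit 152) (nat_lit 32473440316) (nat_lit 0) (nat_lit 591391299216) (nat_lit 2) (nat_lit 5) (nat_lit 4) (nat_lit 4) (nat_lit 2) (nat_lit 4) (nat_lit 249) (nat_lit 212) (nat_lit 139)) (XT.lf (nat_lit 0) (nat_lit 66387310484) (nat_lit 76) (nat_lit 757678193509) (nat_lit 76) (nat_lit 669869737970) (nat_lit 1) (nat_lit 4) (nat_lit 2) (nat_lit 5) (nat_lit 2) (nat_lit 4) (nat_lit 250) (nat_lit 212) (nat_lit 138))))) (XT.nd (nat_lit 156) (nat_lit 0) (nat_lit 0) (XT.nd (nat_lit 78) (nat_lit 0) (nat_lit 0) (XT.lf (nat_lit 0) (nat_lit 182042711300) (nat_lit 76) (nat_lit 809563805699) (nat_lit 76) (nat_lit 721754980925) (nat_lit 1) (nat_lit 4) (nat_lit 2) (nat_lit 5) (nat_lit 2) (nat_lit 4) (nat_lit 251) (nat_lit 212) (nat_lit 137)) (XT.lf (nat_lit 0) (nat_lit 315045591372) (nat_lit 76) (nat_lit 869232641710) (nat_lit 76) (nat_lit 781423495862) (nat_lit 1) (nat_lit 4) (nat_lit 2) (nat_lit 5)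 (nat_lit 2) (nat_lit 4) (nat_lit 252) (nat_lit 212) (nat_lit 136))) (XT.nd (nat_lit 78) (nat_lit 0) (nat_lit 0) (XT.lf (nat_lit 0) (nat_lit 467998180960) (nat_lit 76) (nat_lit 937852135290) (nat_lit 76) (nat_lit 850042710246) (nat_lit 1) (nat_lit 4) (nat_lit 2) (nat_lit 5) (nat_lit 2) (nat_lit 4) (nat_lit 253) (nat_lit 212) (nat_lit 135)) (XT.nd (nat_lit 78) (nat_lit 0) (nat_lit 0) (XT.lf (nat_lit 0) (nat_lit 643893030732) (nat_lit 76) (nat_lit 1016764841748) (nat_lit 76) (nat_lit 928955173925) (nat_lit 1) (nat_lit 4) (nat_lit 2) (nat_lit 5) (nat_lit 2) (nat_lit 4) (nat_lit 254) (nat_lit 212) (nat_lit 134)) (XT.lf (nat_lit 0) (nat_lit 846171561662) (nat_lit 76) (nat_lit 1107514705340) (nat_lit 76) (nat_lit 1019704826406) (nat_lit 1) (nat_lit 4) (nat_lit 2) (nat_lit 5) (nat_lit 2) (nat_lit 4) (nat_lit 255) (nat_lit 212) (nat_lit 133))))))) (XT.nd (nat_lit 28470) (nat_lit 0) (nat_lit 760)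 (XT.nd (nat_lit 28080) (nat_lit 0) (nat_lit 1976) (XT.nd (nat_lit 156) (nat_lit 0) (nat_lit 0) (XT.nd (nat_lit 78) (nat_lit 0) (nat_lit 0) (XT.lf (nat_lit 0) (nat_lit 1078791397179) (nat_lit 76) (nat_lit 1211877266875) (nat_lit 76) (nat_lit 1124067204366) (nat_lit 1) (nat_lit 4) (nat_lit 2) (nat_lit 5) (nat_lit 2) (nat_lit 4) (nat_lit 256) (nat_lit 212) (nat_lit 132)) (XT.lf (nat_lit 0) (nat_lit 1346303794937) (nat_lit 76) (nat_lit 1331894402559) (nat_lit 76) (nat_lit 1244084180419) (nat_lit 1) (nat_lit 4) (nat_lit 2) (nat_lit 5) (nat_lit 2) (nat_lit 4) (nat_lit 257) (nat_lit 212) (nat_lit 131))) (XT.nd (nat_lit 27768) (nat_lit 0) (nat_lit 2432) (XT.lf (nat_lit 0) (nat_lit 1653942693151) (nat_lit 76) (nat_lit 1469914273741) (nat_lit 76) (nat_lit 1382103912791) (nat_lit 1) (nat_lit 4) (nat_lit 2) (nat_lit 5) (nat_lit 2) (nat_lit 4) (nat_lit 258) (nat_lit 212) (nat_lit 130)) (XT.nd (nat_lit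 78) (nat_lit 0) (nat_lit 76) (XT.lf (nat_lit 0) (nat_lit 3534312421) (nat_lit 532) (nat_lit 4567267764) (nat_lit 532) (nat_lit 4567267764) (nat_lit 33) (nat_lit 3) (nat_lit 40) (nat_lit 3) (nat_lit 40) (nat_lit 5) (nat_lit 213) (nat_lit 213) (nat_lit 174)) (XT.lf (nat_lit 0) (nat_lit 8119243521) (nat_lit 456) (nat_lit 15844712677) (nat_lit 532) (nat_lit 3231477397) (nat_lit 34) (nat_lit 5) (nat_lit 40) (nat_lit 5) (nat_lit 41) (nat_lit 5) (nat_lit 214) (nat_lit 213) (nat_lit 173))))) (XT.nd (nat_lit 156) (nat_lit 532) (nat_lit 0) (XT.nd (nat_lit 78) (nat_lit 0) (nat_lit 76) (XT.lf (nat_lit 76) (nat_lit 5975770725) (nat_lit 0) (nat_lit 4187179201) (nat_lit 532) (nat_lit 19102211892) (nat_lit 35) (nat_lit 5) (nat_lit 34) (nat_lit 5) (nat_lit 41) (nat_lit 5) (nat_lit 215) (nat_lit 213) (nat_lit 172)) (XT.lf (nat_lit 0) (nat_lit 13407132887) (nat_lit 456) (nat_lit 58108154) (nat_lit 532)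 (nat_lit 18108741942) (nat_lit 35) (nat_lit 5) (nat_lit 41) (nat_lit 5) (nat_lit 42) (nat_lit 5) (nat_lit 216) (nat_lit 213) (nat_lit 171))) (XT.nd (nat_lit 78) (nat_lit 684) (nat_lit 0) (XT.lf (nat_lit 0) (nat_lit 18143900345) (nat_lit 456) (nat_lit 6487801799) (nat_lit 76) (nat_lit 9517076755) (nat_lit 36) (nat_lit 5) (nat_lit 42) (nat_lit 5) (nat_lit 37) (nat_lit 5) (nat_lit 217) (nat_lit 213) (nat_lit 170)) (XT.nd (nat_lit 78) (nat_lit 228) (nat_lit 0) (XT.lf (nat_lit 0) (nat_lit 23202096754) (nat_lit 456) (nat_lit 1301562727) (nat_lit 532) (nat_lit 12533248019) (nat_lit 30) (nat_lit 5) (nat_lit 36) (nat_lit 5) (nat_lit 37) (nat_lit 5) (nat_lit 218) (nat_lit 213) (nat_lit 169)) (XT.lf (nat_lit 0) (nat_lit 17640927627) (nat_lit 228) (nat_lit 15390978093) (nat_lit 304) (nat_lit 7229284704) (nat_lit 27) (nat_lit 5) (nat_lit 30) (nat_lit 5) (nat_lit 31) (nat_lit 5) (nat_lit 219) (nat_lit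 213) (nat_lit 168)))))) (XT.nd (nat_lit 390) (nat_lit 456) (nat_lit 0) (XT.nd (nat_lit 156) (nat_lit 304) (nat_lit 0) (XT.nd (nat_lit 78) (nat_lit 304) (nat_lit 0) (XT.lf (nat_lit 0) (nat_lit 10961242338) (nat_lit 152) (nat_lit 32837244408) (nat_lit 228) (nat_lit 93985463) (nat_lit 25) (nat_lit 5) (nat_lit 27) (nat_lit 5) (nat_lit 28) (nat_lit 5) (nat_lit 220) (nat_lit 213) (nat_lit 167)) (XT.lf (nat_lit 0) (nat_lit 2399146886) (nat_lit 228) (nat_lit 6451330390) (nat_lit 304) (nat_lit 39110858545) (nat_lit 21) (nat_lit 5) (nat_lit 24) (nat_lit 5) (nat_lit 25) (nat_lit 5) (nat_lit 221) (nat_lit 213) (nat_lit 166))) (XT.nd (nat_lit 78) (nat_lit 304) (nat_lit 0) (XT.lf (nat_lit 0) (nat_lit 20676514268) (nat_lit 304) (nat_lit 8159262850) (nat_lit 76) (nat_lit 23680977962) (nat_lit 21) (nat_lit 5) (nat_lit 25) (nat_lit 5) (nat_lit 22) (nat_lit 5) (nat_lit 222) (nat_lit 213) (nat_lit 165))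 (XT.nd (nat_lit 78) (nat_lit 152) (nat_lit 0) (XT.lf (nat_lit 0) (nat_lit 35349137776) (nat_lit 228) (nat_lit 21213565060) (nat_lit 76) (nat_lit 1107021209) (nat_lit 19) (nat_lit 5) (nat_lit 22) (nat_lit 5) (nat_lit 20) (nat_lit 5) (nat_lit 223) (nat_lit 213) (nat_lit 164)) (XT.lf (nat_lit 0) (nat_lit 25120278455) (nat_lit 152) (nat_lit 28737569642) (nat_lit 228) (nat_lit 9607019397) (nat_lit 17) (nat_lit 5) (nat_lit 19) (nat_lit 5) (nat_lit 20) (nat_lit 5) (nat_lit 224) (nat_lit 213) (nat_lit 163))))) (XT.nd (nat_lit 156) (nat_lit 304) (nat_lit 0) (XT.nd (nat_lit 78) (nat_lit 0) (nat_lit 0) (XT.lf (nat_lit 0) (nat_lit 5730606079) (nat_lit 152) (nat_lit 60197652590) (nat_lit 76) (nat_lit 4113987700) (nat_lit 15) (nat_lit 5) (nat_lit 17) (nat_lit 5) (nat_lit 16) (nat_lit 5) (nat_lit 225) (nat_lit 213) (nat_lit 162)) (XT.lf (nat_lit 0) (nat_lit 24747775033) (nat_lit 152) (nat_lit 11035094038)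 (nat_lit 76) (nat_lit 41647612204) (nat_lit 15) (nat_lit 5) (nat_lit 17) (nat_lit 5) (nat_lit 16) (nat_lit 5) (nat_lit 226) (nat_lit 213) (nat_lit 161))) (XT.nd (nat_lit 78) (nat_lit 152) (nat_lit 0) (XT.lf (nat_lit 0) (nat_lit 47764697346) (nat_lit 228) (nat_lit 37952298009) (nat_lit 76) (nat_lit 118208975) (nat_lit 13) (nat_lit 5) (nat_lit 16) (nat_lit 5) (nat_lit 14) (nat_lit 4) (nat_lit 227) (nat_lit 213) (nat_lit 160)) (XT.nd (nat_lit 78) (nat_lit 76) (nat_lit 0) (XT.lf (nat_lit 0) (nat_lit 20867066306) (nat_lit 76) (nat_lit 55181399000) (nat_lit 152) (nat_lit 19307049566) (nat_lit 12) (nat_lit 5) (nat_lit 13) (nat_lit 5) (nat_lit 14) (nat_lit 4) (nat_lit 228) (nat_lit 213) (nat_lit 159)) (XT.lf (nat_lit 0) (nat_lit 3284609592) (nat_lit 152) (nat_lit 15501331992) (nat_lit 76) (nat_lit 87423397431) (nat_lit 11) (nat_lit 5) (nat_lit 13) (nat_lit 5) (nat_lit 12) (nat_lit 5) (nat_lit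 229) (nat_lit 213) (nat_lit 158))))))))
noncomputable def xc42 : XT := (XT.nd (nat_lit 1482) (nat_lit 76) (nat_lit 0) (XT.nd (nat_lit 702) (nat_lit 228) (nat_lit 0) (XT.nd (nat_lit 312) (nat_lit 152) (nat_lit 0) (XT.nd (nat_lit 156) (nat_lit 76) (nat_lit 0) (XT.nd (nat_lit 78) (nat_lit 76) (nat_lit 0) (XT.lf (nat_lit 0) (nat_lit 30062619560) (nat_lit 228) (nat_lit 64628471623) (nat_lit 76) (nat_lit 23804780007) (nat_lit 9) (nat_lit 5) (nat_lit 12) (nat_lit 5) (nat_lit 10) (nat_lit 4) (nat_lit 230) (nat_lit 213) (nat_lit 157)) (XT.lf (nat_lit 0) (nat_lit 1527576298) (nat_lit 76) (nat_lit 60344018046) (nat_lit 152) (nat_lit 70672662156) (nat_lit 8) (nat_lit 5) (nat_lit 9) (nat_lit 5) (nat_lit 10) (nat_lit 4) (nat_lit 231) (nat_lit 213) (nat_lit 156))) (XT.nd (nat_lit 78) (nat_lit 76) (nat_lit 0) (XT.lf (nat_lit 0) (nat_lit 81513028050) (nat_lit 76) (nat_lit 18815877810) (nat_lit 152) (nat_lit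 48220847008) (nat_lit 8) (nat_lit 5) (nat_lit 9) (nat_lit 5) (nat_lit 10) (nat_lit 4) (nat_lit 232) (nat_lit 213) (nat_lit 155)) (XT.lf (nat_lit 0) (nat_lit 6144590119) (nat_lit 76) (nat_lit 139249981697) (nat_lit 76) (nat_lit 21494332129) (nat_lit 7) (nat_lit 4) (nat_lit 8) (nat_lit 5) (nat_lit 8) (nat_lit 4) (nat_lit 233) (nat_lit 213) (nat_lit 154)))) (XT.nd (nat_lit 156) (nat_lit 76) (nat_lit 0) (XT.nd (nat_lit 78) (nat_lit 0) (nat_lit 0) (XT.lf (nat_lit 0) (nat_lit 11297884727) (nat_lit 152) (nat_lit 94260079440) (nat_lit 76) (nat_lit 82201671858) (nat_lit 6) (nat_lit 5) (nat_lit 8) (nat_lit 5) (nat_lit 7) (nat_lit 4) (nat_lit 234) (nat_lit 213) (nat_lit 153)) (XT.lf (nat_lit 0) (nat_lit 47769118716) (nat_lit 152) (nat_lit 18403417185) (nat_lit 76) (nat_lit 145541154967) (nat_lit 6) (nat_lit 5) (nat_lit 8) (nat_lit 5) (nat_lit 7) (nat_lit 4) (nat_lit 235) (nat_lit 213) (nat_lit 152)))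 (XT.nd (nat_lit 78) (nat_lit 0) (nat_lit 0) (XT.lf (nat_lit 0) (nat_lit 72451059665) (nat_lit 76) (nat_lit 18999561065) (nat_lit 152) (nat_lit 147671073190) (nat_lit 5) (nat_lit 5) (nat_lit 6) (nat_lit 5) (nat_lit 7) (nat_lit 4) (nat_lit 236) (nat_lit 213) (nat_lit 151)) (XT.nd (nat_lit 78) (nat_lit 0) (nat_lit 0) (XT.lf (nat_lit 0) (nat_lit 143079158915) (nat_lit 152) (nat_lit 93416260963) (nat_lit 0) (nat_lit 34033898438) (nat_lit 5) (nat_lit 5) (nat_lit 7) (nat_lit 4) (nat_lit 5) (nat_lit 4) (nat_lit 237) (nat_lit 213) (nat_lit 150)) (XT.lf (nat_lit 0) (nat_lit 202975154757) (nat_lit 152) (nat_lit 9703321726) (nat_lit 0) (nat_lit 93927760737) (nat_lit 5) (nat_lit 5) (nat_lit 7) (nat_lit 4) (nat_lit 5) (nat_lit 4) (nat_lit 238) (nat_lit 213) (nat_lit 149)))))) (XT.nd (nat_lit 390) (nat_lit 0) (nat_lit 0) (XT.nd (nat_lit 156) (nat_lit 152) (nat_lit 0) (XT.nd (nat_lit 78) (nat_lit 0)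 (nat_lit 0) (XT.lf (nat_lit 0) (nat_lit 91121238606) (nat_lit 76) (nat_lit 182923775908) (nat_lit 76) (nat_lit 73874526633) (nat_lit 4) (nat_lit 4) (nat_lit 5) (nat_lit 5) (nat_lit 5) (nat_lit 4) (nat_lit 239) (nat_lit 213) (nat_lit 148)) (XT.lf (nat_lit 0) (nat_lit 207653815941) (nat_lit 76) (nat_lit 148402218284) (nat_lit 76) (nat_lit 39351355744) (nat_lit 4) (nat_lit 4) (nat_lit 5) (nat_lit 5) (nat_lit 5) (nat_lit 4) (nat_lit 240) (nat_lit 213) (nat_lit 147))) (XT.nd (nat_lit 78) (nat_lit 76) (nat_lit 0) (XT.lf (nat_lit 0) (nat_lit 331140274) (nat_lit 152) (nat_lit 108363493608) (nat_lit 76) (nat_lit 341323241523) (nat_lit 3) (nat_lit 5) (nat_lit 5) (nat_lit 5) (nat_lit 4) (nat_lit 4) (nat_lit 241) (nat_lit 213) (nat_lit 146)) (XT.nd (nat_lit 78) (nat_lit 76) (nat_lit 0) (XT.lf (nat_lit 0) (nat_lit 43700804128) (nat_lit 152) (nat_lit 18155812652) (nat_lit 76) (nat_lit 450876363848)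 (nat_lit 3) (nat_lit 5) (nat_lit 5) (nat_lit 5) (nat_lit 4) (nat_lit 4) (nat_lit 242) (nat_lit 213) (nat_lit 145)) (XT.lf (nat_lit 0) (nat_lit 90087336190) (nat_lit 76) (nat_lit 5653953317) (nat_lit 152) (nat_lit 488940834674) (nat_lit 2) (nat_lit 5) (nat_lit 3) (nat_lit 5) (nat_lit 4) (nat_lit 4) (nat_lit 243) (nat_lit 213) (nat_lit 144))))) (XT.nd (nat_lit 156) (nat_lit 0) (nat_lit 0) (XT.nd (nat_lit 78) (nat_lit 0) (nat_lit 0) (XT.lf (nat_lit 0) (nat_lit 157547472319) (nat_lit 152) (nat_lit 453149212198) (nat_lit 0) (nat_lit 56570186785) (nat_lit 2) (nat_lit 5) (nat_lit 4) (nat_lit 4) (nat_lit 2) (nat_lit 4) (nat_lit 244) (nat_lit 213) (nat_lit 143)) (XT.lf (nat_lit 0) (nat_lit 228779964867) (nat_lit 152) (nat_lit 405645000112) (nat_lit 0) (nat_lit 127801936669) (nat_lit 2) (nat_lit 5) (nat_lit 4) (nat_lit 4) (nat_lit 2) (nat_lit 4) (nat_lit 245) (nat_lit 213) (nat_lit 142))) (XT.nd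 (nat_lit 78) (nat_lit 0) (nat_lit 0) (XT.lf (nat_lit 0) (nat_lit 310696468641) (nat_lit 152) (nat_lit 351016743785) (nat_lit 0) (nat_lit 209717794647) (nat_lit 2) (nat_lit 5) (nat_lit 4) (nat_lit 4) (nat_lit 2) (nat_lit 4) (nat_lit 246) (nat_lit 213) (nat_lit 141)) (XT.nd (nat_lit 78) (nat_lit 0) (nat_lit 0) (XT.lf (nat_lit 0) (nat_lit 404899697843) (nat_lit 152) (nat_lit 288195629507) (nat_lit 0) (nat_lit 303920462288) (nat_lit 2) (nat_lit 5) (nat_lit 4) (nat_lit 4) (nat_lit 2) (nat_lit 4) (nat_lit 247) (nat_lit 213) (nat_lit 140)) (XT.lf (nat_lit 0) (nat_lit 513232759134) (nat_lit 152) (nat_lit 215952548519) (nat_lit 0) (nat_lit 412253035265) (nat_lit 2) (nat_lit 5) (nat_lit 4) (nat_lit 4) (nat_lit 2) (nat_lit 4) (nat_lit 248) (nat_lit 213) (nat_lit 139))))))) (XT.nd (nat_lit 28548) (nat_lit 0) (nat_lit 1520) (XT.nd (nat_lit 390) (nat_lit 0) (nat_lit 0) (XT.nd (nat_lit 156) (nat_lit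 76) (nat_lit 0) (XT.nd (nat_lit 78) (nat_lit 0) (nat_lit 0) (XT.lf (nat_lit 0) (nat_lit 637815212408) (nat_lit 152) (nat_lit 132874049237) (nat_lit 0) (nat_lit 536835063918) (nat_lit 2) (nat_lit 5) (nat_lit 4) (nat_lit 4) (nat_lit 2) (nat_lit 4) (nat_lit 249) (nat_lit 213) (nat_lit 138)) (XT.lf (nat_lit 0) (nat_lit 781084540446) (nat_lit 152) (nat_lit 37334682763) (nat_lit 0) (nat_lit 680104022720) (nat_lit 2) (nat_lit 5) (nat_lit 4) (nat_lit 4) (nat_lit 2) (nat_lit 4) (nat_lit 250) (nat_lit 213) (nat_lit 137))) (XT.nd (nat_lit 78) (nat_lit 0) (nat_lit 0) (XT.lf (nat_lit 0) (nat_lit 76354353371) (nat_lit 76) (nat_lit 871325809460) (nat_lit 76) (nat_lit 770344970659) (nat_lit 1) (nat_lit 4) (nat_lit 2) (nat_lit 5) (nat_lit 2) (nat_lit 4) (nat_lit 251) (nat_lit 213) (nat_lit 136)) (XT.nd (nat_lit 78) (nat_lit 0) (nat_lit 0) (XT.lf (nat_lit 0) (nat_lit 209356897399) (nat_lit 76) (nat_lit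 930994799967) (nat_lit 76) (nat_lit 830013681972) (nat_lit 1) (nat_lit 4) (nat_lit 2) (nat_lit 5) (nat_lit 2) (nat_lit 4) (nat_lit 252) (nat_lit 213) (nat_lit 135)) (XT.lf (nat_lit 0) (nat_lit 362309194776) (nat_lit 76) (nat_lit 999614427891) (nat_lit 76) (nat_lit 898633067117) (nat_lit 1) (nat_lit 4) (nat_lit 2) (nat_lit 5) (nat_lit 2) (nat_lit 4) (nat_lit 253) (nat_lit 213) (nat_lit 134))))) (XT.nd (nat_lit 156) (nat_lit 0) (nat_lit 0) (XT.nd (nat_lit 78) (nat_lit 0) (nat_lit 0) (XT.lf (nat_lit 0) (nat_lit 538203790451) (nat_lit 76) (nat_lit 1078527251170) (nat_lit 76) (nat_lit 977545679285) (nat_lit 1) (nat_lit 4) (nat_lit 2) (nat_lit 5) (nat_lit 2) (nat_lit 4) (nat_lit 254) (nat_lit 213) (nat_lit 133)) (XT.lf (nat_lit 0) (nat_lit 740482100426) (nat_lit 76) (nat_lit 1169277216346) (nat_lit 76) (nat_lit 1068295460885) (nat_lit 1) (nat_lit 4) (nat_lit 2) (nat_lit 5) (nat_lit 2) (nat_lit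 4) (nat_lit 255) (nat_lit 213) (nat_lit 132))) (XT.nd (nat_lit 78) (nat_lit 0) (nat_lit 0) (XT.lf (nat_lit 0) (nat_lit 973101743810) (nat_lit 76) (nat_lit 1273639866215) (nat_lit 76) (nat_lit 1172657951124) (nat_lit 1) (nat_lit 4) (nat_lit 2) (nat_lit 5) (nat_lit 2) (nat_lit 4) (nat_lit 256) (nat_lit 213) (nat_lit 131)) (XT.nd (nat_lit 78) (nat_lit 0) (nat_lit 0) (XT.lf (nat_lit 0) (nat_lit 1240613974495) (nat_lit 76) (nat_lit 1393657078711) (nat_lit 76) (nat_lit 1292675024810) (nat_lit 1) (nat_lit 4) (nat_lit 2) (nat_lit 5) (nat_lit 2) (nat_lit 4) (nat_lit 257) (nat_lit 213) (nat_lit 130)) (XT.lf (nat_lit 0) (nat_lit 1548252727428) (nat_lit 76) (nat_lit 1531677016686) (nat_lit 76) (nat_lit 1430694842081) (nat_lit 1) (nat_lit 4) (nat_lit 2) (nat_lit 5) (nat_lit 2) (nat_lit 4) (nat_lit 258) (nat_lit 213) (nat_lit 129)))))) (XT.nd (nat_lit 390) (nat_lit 912) (nat_lit 0) (XT.nd (nat_lit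 156) (nat_lit 0) (nat_lit 76) (XT.nd (nat_lit 78) (nat_lit 0) (nat_lit 76) (XT.lf (nat_lit 0) (nat_lit 4221239162) (nat_lit 532) (nat_lit 5167240625) (nat_lit 532) (nat_lit 5167240625) (nat_lit 33) (nat_lit 3) (nat_lit 40) (nat_lit 3) (nat_lit 40) (nat_lit 5) (nat_lit 214) (nat_lit 214) (nat_lit 172)) (XT.lf (nat_lit 0) (nat_lit 9610638275) (nat_lit 456) (nat_lit 18038995119) (nat_lit 532) (nat_lit 3601647907) (nat_lit 34) (nat_lit 5) (nat_lit 40) (nat_lit 5) (nat_lit 41) (nat_lit 5) (nat_lit 215) (nat_lit 214) (nat_lit 171))) (XT.nd (nat_lit 78) (nat_lit 0) (nat_lit 76) (XT.lf (nat_lit 76) (nat_lit 7039119472) (nat_lit 0) (nat_lit 4890122131) (nat_lit 532) (nat_lit 21704966833) (nat_lit 35) (nat_lit 5) (nat_lit 34) (nat_lit 5) (nat_lit 41) (nat_lit 5) (nat_lit 216) (nat_lit 214) (nat_lit 170)) (XT.nd (nat_lit 78) (nat_lit 0) (nat_lit 76) (XT.lf (nat_lit 76) (nat_lit 103126901) (nat_lit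 0) (nat_lit 15526294087) (nat_lit 532) (nat_lit 20662562234) (nat_lit 36) (nat_lit 5) (nat_lit 35) (nat_lit 5) (nat_lit 42) (nat_lit 5) (nat_lit 217) (nat_lit 214) (nat_lit 169)) (XT.lf (nat_lit 0) (nat_lit 21049799654) (nat_lit 456) (nat_lit 7293449277) (nat_lit 76) (nat_lit 10912058396) (nat_lit 36) (nat_lit 5) (nat_lit 42) (nat_lit 5) (nat_lit 37) (nat_lit 5) (nat_lit 218) (nat_lit 214) (nat_lit 168))))) (XT.nd (nat_lit 156) (nat_lit 456) (nat_lit 0) (XT.nd (nat_lit 78) (nat_lit 228) (nat_lit 0) (XT.lf (nat_lit 0) (nat_lit 26835754088) (nat_lit 456) (nat_lit 1507415480) (nat_lit 532) (nat_lit 14235249975) (nat_lit 30) (nat_lit 5) (nat_lit 36) (nat_lit 5) (nat_lit 37) (nat_lit 5) (nat_lit 219) (nat_lit 214) (nat_lit 167)) (XT.lf (nat_lit 0) (nat_lit 20440500654) (nat_lit 228) (nat_lit 17692233877) (nat_lit 304) (nat_lit 8155162161) (nat_lit 27) (nat_lit 5) (nat_lit 30) (nat_lit 5) (nat_lit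 31) (nat_lit 5) (nat_lit 220) (nat_lit 214) (nat_lit 166))) (XT.nd (nat_lit 78) (nat_lit 228) (nat_lit 0) (XT.lf (nat_lit 0) (nat_lit 32169286) (nat_lit 228) (nat_lit 37708878714) (nat_lit 76) (nat_lit 12724080178) (nat_lit 24) (nat_lit 5) (nat_lit 27) (nat_lit 5) (nat_lit 25) (nat_lit 5) (nat_lit 221) (nat_lit 214) (nat_lit 165)) (XT.nd (nat_lit 78) (nat_lit 0) (nat_lit 0) (XT.lf (nat_lit 0) (nat_lit 2904959670) (nat_lit 228) (nat_lit 7393856299) (nat_lit 304) (nat_lit 44846506551) (nat_lit 21) (nat_lit 5) (nat_lit 24) (nat_lit 5) (nat_lit 25) (nat_lit 5) (nat_lit 222) (nat_lit 214) (nat_lit 164)) (XT.lf (nat_lit 0) (nat_lit 23883532737) (nat_lit 304) (nat_lit 9247892279) (nat_lit 76) (nat_lit 27253919753) (nat_lit 21) (nat_lit 5) (nat_lit 25) (nat_lit 5) (nat_lit 22) (nat_lit 5) (nat_lit 223) (nat_lit 214) (nat_lit 163))))))))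
noncomputable def xc43 : XT := (XT.nd (nat_lit 1560) (nat_lit 152) (nat_lit 0) (XT.nd (nat_lit 780) (nat_lit 380) (nat_lit 0) (XT.nd (nat_lit 390) (nat_lit 380) (nat_lit 0) (XT.nd (nat_lit 156) (nat_lit 304) (nat_lit 0) (XT.nd (nat_lit 78) (nat_lit 152) (nat_lit 0) (XT.lf (nat_lit 0) (nat_lit 40746960017) (nat_lit 228) (nat_lit 24264489915) (nat_lit 76) (nat_lit 1300678971) (nat_lit 19) (nat_lit 5) (nat_lit 22) (nat_lit 5) (nat_lit 20) (nat_lit 5) (nat_lit 224) (nat_lit 214) (nat_lit 162)) (XT.lf (nat_lit 0) (nat_lit 29008332327) (nat_lit 152) (nat_lit 33014080648) (nat_lit 228) (nat_lit 10954950481) (nat_lit 17) (nat_lit 5) (nat_lit 19) (nat_lit 5) (nat_lit 20) (nat_lit 5) (nat_lit 225) (nat_lit 214) (nat_lit 161))) (XT.nd (nat_lit 78) (nat_lit 152) (nat_lit 0) (XT.lf (nat_lit 0) (nat_lit 6670709414) (nat_lit 152) (nat_lit 69107044168) (nat_lit 76) (nat_lit 4764096358) (nat_lit 15) (nat_lit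 5) (nat_lit 17) (nat_lit 5) (nat_lit 16) (nat_lit 5) (nat_lit 226) (nat_lit 214) (nat_lit 160)) (XT.nd (nat_lit 78) (nat_lit 152) (nat_lit 0) (XT.lf (nat_lit 0) (nat_lit 28529952091) (nat_lit 152) (nat_lit 12585787439) (nat_lit 76) (nat_lit 47923458819) (nat_lit 15) (nat_lit 5) (nat_lit 17) (nat_lit 5) (nat_lit 16) (nat_lit 5) (nat_lit 227) (nat_lit 214) (nat_lit 159)) (XT.lf (nat_lit 0) (nat_lit 54993365506) (nat_lit 228) (nat_lit 43544930370) (nat_lit 76) (nat_lit 166850929) (nat_lit 13) (nat_lit 5) (nat_lit 16) (nat_lit 5) (nat_lit 14) (nat_lit 4) (nat_lit 228) (nat_lit 214) (nat_lit 158))))) (XT.nd (nat_lit 156) (nat_lit 228) (nat_lit 0) (XT.nd (nat_lit 78) (nat_lit 76) (nat_lit 0) (XT.lf (nat_lit 0) (nat_lit 24088856116) (nat_lit 76) (nat_lit 63424705576) (nat_lit 152) (nat_lit 22140462031) (nat_lit 12) (nat_lit 5) (nat_lit 13) (nat_lit 5) (nat_lit 14) (nat_lit 4) (nat_lit 229) (nat_lit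 214) (nat_lit 157)) (XT.lf (nat_lit 0) (nat_lit 3829049914) (nat_lit 152) (nat_lit 17743886894) (nat_lit 76) (nat_lit 100563508357) (nat_lit 11) (nat_lit 5) (nat_lit 13) (nat_lit 5) (nat_lit 12) (nat_lit 5) (nat_lit 230) (nat_lit 214) (nat_lit 156))) (XT.nd (nat_lit 78) (nat_lit 76) (nat_lit 0) (XT.lf (nat_lit 0) (nat_lit 34619524279) (nat_lit 228) (nat_lit 74243906262) (nat_lit 76) (nat_lit 27402885783) (nat_lit 9) (nat_lit 5) (nat_lit 12) (nat_lit 5) (nat_lit 10) (nat_lit 4) (nat_lit 231) (nat_lit 214) (nat_lit 155)) (XT.nd (nat_lit 78) (nat_lit 0) (nat_lit 0) (XT.lf (nat_lit 0) (nat_lit 1828875764) (nat_lit 76) (nat_lit 69366507851) (nat_lit 152) (nat_lit 81226950307) (nat_lit 8) (nat_lit 5) (nat_lit 9) (nat_lit 5) (nat_lit 10) (nat_lit 4) (nat_lit 232) (nat_lit 214) (nat_lit 154)) (XT.lf (nat_lit 0) (nat_lit 93802732711) (nat_lit 76) (nat_lit 21612943914) (nat_lit 152) (nat_lit 55413442604)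 (nat_lit 8) (nat_lit 5) (nat_lit 9) (nat_lit 5) (nat_lit 10) (nat_lit 4) (nat_lit 233) (nat_lit 214) (nat_lit 153)))))) (XT.nd (nat_lit 390) (nat_lit 152) (nat_lit 0) (XT.nd (nat_lit 156) (nat_lit 76) (nat_lit 0) (XT.nd (nat_lit 78) (nat_lit 76) (nat_lit 0) (XT.lf (nat_lit 0) (nat_lit 7125994732) (nat_lit 76) (nat_lit 160112280530) (nat_lit 76) (nat_lit 24681114357) (nat_lit 7) (nat_lit 4) (nat_lit 8) (nat_lit 5) (nat_lit 8) (nat_lit 4) (nat_lit 234) (nat_lit 214) (nat_lit 152)) (XT.lf (nat_lit 0) (nat_lit 13023435534) (nat_lit 152) (nat_lit 108345467599) (nat_lit 76) (nat_lit 94552137589) (nat_lit 6) (nat_lit 5) (nat_lit 8) (nat_lit 5) (nat_lit 7) (nat_lit 4) (nat_lit 235) (nat_lit 214) (nat_lit 151))) (XT.nd (nat_lit 78) (nat_lit 76) (nat_lit 0) (XT.lf (nat_lit 0) (nat_lit 54961328347) (nat_lit 152) (nat_lit 21117300409) (nat_lit 76) (nat_lit 167389906432) (nat_lit 6) (nat_lit 5) (nat_lit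 8) (nat_lit 5) (nat_lit 7) (nat_lit 4) (nat_lit 236) (nat_lit 214) (nat_lit 150)) (XT.nd (nat_lit 78) (nat_lit 0) (nat_lit 0) (XT.lf (nat_lit 0) (nat_lit 83361401026) (nat_lit 76) (nat_lit 21831180043) (nat_lit 152) (nat_lit 169795363679) (nat_lit 5) (nat_lit 5) (nat_lit 6) (nat_lit 5) (nat_lit 7) (nat_lit 4) (nat_lit 237) (nat_lit 214) (nat_lit 149)) (XT.lf (nat_lit 0) (nat_lit 164562604674) (nat_lit 152) (nat_lit 107390226028) (nat_lit 0) (nat_lit 39154112753) (nat_lit 5) (nat_lit 5) (nat_lit 7) (nat_lit 4) (nat_lit 5) (nat_lit 4) (nat_lit 238) (nat_lit 214) (nat_lit 148))))) (XT.nd (nat_lit 156) (nat_lit 76) (nat_lit 0) (XT.nd (nat_lit 78) (nat_lit 76) (nat_lit 0) (XT.lf (nat_lit 0) (nat_lit 233440186163) (nat_lit 152) (nat_lit 11125364264) (nat_lit 0) (nat_lit 108030080977) (nat_lit 5) (nat_lit 5) (nat_lit 7) (nat_lit 4) (nat_lit 5) (nat_lit 4) (nat_lit 239) (nat_lit 214) (nat_lit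 147)) (XT.lf (nat_lit 0) (nat_lit 104820048258) (nat_lit 76) (nat_lit 210348766410) (nat_lit 76) (nat_lit 84937258385) (nat_lit 4) (nat_lit 4) (nat_lit 5) (nat_lit 5) (nat_lit 5) (nat_lit 4) (nat_lit 240) (nat_lit 214) (nat_lit 146))) (XT.nd (nat_lit 78) (nat_lit 76) (nat_lit 0) (XT.lf (nat_lit 0) (nat_lit 238828517777) (nat_lit 76) (nat_lit 170650745910) (nat_lit 76) (nat_lit 45238018025) (nat_lit 4) (nat_lit 4) (nat_lit 5) (nat_lit 5) (nat_lit 5) (nat_lit 4) (nat_lit 241) (nat_lit 214) (nat_lit 145)) (XT.nd (nat_lit 78) (nat_lit 0) (nat_lit 0) (XT.lf (nat_lit 0) (nat_lit 394062307) (nat_lit 152) (nat_lit 124594139032) (nat_lit 76) (nat_lit 392531270492) (nat_lit 3) (nat_lit 5) (nat_lit 5) (nat_lit 5) (nat_lit 4) (nat_lit 4) (nat_lit 242) (nat_lit 214) (nat_lit 144)) (XT.lf (nat_lit 0) (nat_lit 50267447349) (nat_lit 152) (nat_lit 20858420535) (nat_lit 76) (nat_lit 518516116461) (nat_lit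 3) (nat_lit 5) (nat_lit 5) (nat_lit 5) (nat_lit 4) (nat_lit 4) (nat_lit 243) (nat_lit 214) (nat_lit 143))))))) (XT.nd (nat_lit 780) (nat_lit 0) (nat_lit 0) (XT.nd (nat_lit 390) (nat_lit 76) (nat_lit 0) (XT.nd (nat_lit 156) (nat_lit 0) (nat_lit 0) (XT.nd (nat_lit 78) (nat_lit 0) (nat_lit 0) (XT.lf (nat_lit 0) (nat_lit 103619443063) (nat_lit 76) (nat_lit 6493516630) (nat_lit 152) (nat_lit 562270626220) (nat_lit 2) (nat_lit 5) (nat_lit 3) (nat_lit 5) (nat_lit 4) (nat_lit 4) (nat_lit 244) (nat_lit 214) (nat_lit 142)) (XT.lf (nat_lit 0) (nat_lit 181188881775) (nat_lit 152) (nat_lit 521104499940) (nat_lit 0) (nat_lit 65062760886) (nat_lit 2) (nat_lit 5) (nat_lit 4) (nat_lit 4) (nat_lit 2) (nat_lit 4) (nat_lit 245) (nat_lit 214) (nat_lit 141))) (XT.nd (nat_lit 78) (nat_lit 0) (nat_lit 0) (XT.lf (nat_lit 0) (nat_lit 263105036647) (nat_lit 152) (nat_lit 466476885705) (nat_lit 0) (nat_lit 146978354198)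 (nat_lit 2) (nat_lit 5) (nat_lit 4) (nat_lit 4) (nat_lit 2) (nat_lit 4) (nat_lit 246) (nat_lit 214) (nat_lit 140)) (XT.nd (nat_lit 78) (nat_lit 0) (nat_lit 0) (XT.lf (nat_lit 0) (nat_lit 357307962458) (nat_lit 152) (nat_lit 403656329767) (nat_lit 0) (nat_lit 241180791695) (nat_lit 2) (nat_lit 5) (nat_lit 4) (nat_lit 4) (nat_lit 2) (nat_lit 4) (nat_lit 247) (nat_lit 214) (nat_lit 139)) (XT.lf (nat_lit 0) (nat_lit 465640759930) (nat_lit 152) (nat_lit 331413734293) (nat_lit 0) (nat_lit 349513164545) (nat_lit 2) (nat_lit 5) (nat_lit 4) (nat_lit 4) (nat_lit 2) (nat_lit 4) (nat_lit 248) (nat_lit 214) (nat_lit 138))))) (XT.nd (nat_lit 156) (nat_lit 76) (nat_lit 0) (XT.nd (nat_lit 78) (nat_lit 0) (nat_lit 0) (XT.lf (nat_lit 0) (nat_lit 590222983796) (nat_lit 152) (nat_lit 248335657197) (nat_lit 0) (nat_lit 474095019175) (nat_lit 2) (nat_lit 5) (nat_lit 4) (nat_lit 4) (nat_lit 2) (nat_lit 4) (nat_lit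 249) (nat_lit 214) (nat_lit 137)) (XT.lf (nat_lit 0) (nat_lit 733492112349) (nat_lit 152) (nat_lit 152796657840) (nat_lit 0) (nat_lit 617363826654) (nat_lit 2) (nat_lit 5) (nat_lit 4) (nat_lit 4) (nat_lit 2) (nat_lit 4) (nat_lit 250) (nat_lit 214) (nat_lit 136))) (XT.nd (nat_lit 78) (nat_lit 76) (nat_lit 0) (XT.lf (nat_lit 0) (nat_lit 898251237234) (nat_lit 152) (nat_lit 42927494931) (nat_lit 0) (nat_lit 782122672344) (nat_lit 2) (nat_lit 5) (nat_lit 4) (nat_lit 4) (nat_lit 2) (nat_lit 4) (nat_lit 251) (nat_lit 214) (nat_lit 135)) (XT.nd (nat_lit 78) (nat_lit 0) (nat_lit 0) (XT.lf (nat_lit 0) (nat_lit 87814271075) (nat_lit 76) (nat_lit 1002021570803) (nat_lit 76) (nat_lit 885892763135) (nat_lit 1) (nat_lit 4) (nat_lit 2) (nat_lit 5) (nat_lit 2) (nat_lit 4) (nat_lit 252) (nat_lit 214) (nat_lit 134)) (XT.lf (nat_lit 0) (nat_lit 240766314355) (nat_lit 76) (nat_lit 1070641315549) (nat_lit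 76) (nat_lit 954512296768) (nat_lit 1) (nat_lit 4) (nat_lit 2) (nat_lit 5) (nat_lit 2) (nat_lit 4) (nat_lit 253) (nat_lit 214) (nat_lit 133)))))) (XT.nd (nat_lit 28236) (nat_lit 0) (nat_lit 2432) (XT.nd (nat_lit 156) (nat_lit 0) (nat_lit 0) (XT.nd (nat_lit 78) (nat_lit 0) (nat_lit 0) (XT.lf (nat_lit 0) (nat_lit 416660689076) (nat_lit 76) (nat_lit 1149554240411) (nat_lit 76) (nat_lit 1033425038056) (nat_lit 1) (nat_lit 4) (nat_lit 2) (nat_lit 5) (nat_lit 2) (nat_lit 4) (nat_lit 254) (nat_lit 214) (nat_lit 132)) (XT.lf (nat_lit 0) (nat_lit 618938806918) (nat_lit 76) (nat_lit 1240304293920) (nat_lit 76) (nat_lit 1124174931934) (nat_lit 1) (nat_lit 4) (nat_lit 2) (nat_lit 5) (nat_lit 2) (nat_lit 4) (nat_lit 255) (nat_lit 214) (nat_lit 131))) (XT.nd (nat_lit 78) (nat_lit 0) (nat_lit 0) (XT.lf (nat_lit 0) (nat_lit 851558283228) (nat_lit 76) (nat_lit 1344667020602) (nat_lit 76) (nat_lit 1228537519806)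 (nat_lit 1) (nat_lit 4) (nat_lit 2) (nat_lit 5) (nat_lit 2) (nat_lit 4) (nat_lit 256) (nat_lit 214) (nat_lit 130)) (XT.nd (nat_lit 78) (nat_lit 0) (nat_lit 0) (XT.lf (nat_lit 0) (nat_lit 1119070368632) (nat_lit 76) (nat_lit 1464684299890) (nat_lit 76) (nat_lit 1348554678391) (nat_lit 1) (nat_lit 4) (nat_lit 2) (nat_lit 5) (nat_lit 2) (nat_lit 4) (nat_lit 257) (nat_lit 214) (nat_lit 129)) (XT.lf (nat_lit 0) (nat_lit 1426708995235) (nat_lit 76) (nat_lit 1602704295946) (nat_lit 76) (nat_lit 1486574569487) (nat_lit 1) (nat_lit 4) (nat_lit 2) (nat_lit 5) (nat_lit 2) (nat_lit 4) (nat_lit 258) (nat_lit 214) (nat_lit 128))))) (XT.nd (nat_lit 156) (nat_lit 0) (nat_lit 76) (XT.nd (nat_lit 78) (nat_lit 0) (nat_lit 76) (XT.lf (nat_lit 0) (nat_lit 4972973148) (nat_lit 532) (nat_lit 5877965809) (nat_lit 532) (nat_lit 5877965809) (nat_lit 33) (nat_lit 3) (nat_lit 40) (nat_lit 3) (nat_lit 40) (nat_lit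 5) (nat_lit 215) (nat_lit 215) (nat_lit 170)) (XT.lf (nat_lit 0) (nat_lit 11259045530) (nat_lit 456) (nat_lit 20606905287) (nat_lit 532) (nat_lit 4055278004) (nat_lit 34) (nat_lit 5) (nat_lit 40) (nat_lit 5) (nat_lit 41) (nat_lit 5) (nat_lit 216) (nat_lit 215) (nat_lit 169))) (XT.nd (nat_lit 78) (nat_lit 0) (nat_lit 76) (XT.lf (nat_lit 76) (nat_lit 8221250635) (nat_lit 0) (nat_lit 5680249941) (nat_lit 532) (nat_lit 24762166042) (nat_lit 35) (nat_lit 5) (nat_lit 34) (nat_lit 5) (nat_lit 41) (nat_lit 5) (nat_lit 217) (nat_lit 215) (nat_lit 168)) (XT.nd (nat_lit 78) (nat_lit 0) (nat_lit 76) (XT.lf (nat_lit 76) (nat_lit 249764279) (nat_lit 0) (nat_lit 17885060348) (nat_lit 532) (nat_lit 23587169652) (nat_lit 36) (nat_lit 5) (nat_lit 35) (nat_lit 5) (nat_lit 42) (nat_lit 5) (nat_lit 218) (nat_lit 215) (nat_lit 167)) (XT.lf (nat_lit 0) (nat_lit 24346637661) (nat_lit 456) (nat_lit 8260795370)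 (nat_lit 76) (nat_lit 12524232091) (nat_lit 36) (nat_lit 5) (nat_lit 42) (nat_lit 5) (nat_lit 37) (nat_lit 5) (nat_lit 219) (nat_lit 215) (nat_lit 166))))))))
noncomputable def xc44 : XT := (XT.nd (nat_lit 1482) (nat_lit 304) (nat_lit 0) (XT.nd (nat_lit 702) (nat_lit 760) (nat_lit 0) (XT.nd (nat_lit 312) (nat_lit 456) (nat_lit 0) (XT.nd (nat_lit 156) (nat_lit 456) (nat_lit 0) (XT.nd (nat_lit 78) (nat_lit 228) (nat_lit 0) (XT.lf (nat_lit 0) (nat_lit 30977066405) (nat_lit 456) (nat_lit 1741556796) (nat_lit 532) (nat_lit 16235955054) (nat_lit 30) (nat_lit 5) (nat_lit 36) (nat_lit 5) (nat_lit 37) (nat_lit 5) (nat_lit 220) (nat_lit 215) (nat_lit 165)) (XT.lf (nat_lit 0) (nat_lit 23622593812) (nat_lit 228) (nat_lit 20340480353) (nat_lit 304) (nat_lit 9258576183) (nat_lit 27) (nat_lit 5) (nat_lit 30) (nat_lit 5) (nat_lit 31) (nat_lit 5) (nat_lit 221) (nat_lit 215) (nat_lit 164))) (XT.nd (nat_lit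 78) (nat_lit 228) (nat_lit 0) (XT.lf (nat_lit 0) (nat_lit 138957481) (nat_lit 228) (nat_lit 43244653822) (nat_lit 76) (nat_lit 14642648811) (nat_lit 24) (nat_lit 5) (nat_lit 27) (nat_lit 5) (nat_lit 25) (nat_lit 5) (nat_lit 222) (nat_lit 215) (nat_lit 163)) (XT.lf (nat_lit 0) (nat_lit 3451055795) (nat_lit 228) (nat_lit 8483899848) (nat_lit 304) (nat_lit 51474442249) (nat_lit 21) (nat_lit 5) (nat_lit 24) (nat_lit 5) (nat_lit 25) (nat_lit 5) (nat_lit 223) (nat_lit 215) (nat_lit 162)))) (XT.nd (nat_lit 156) (nat_lit 304) (nat_lit 0) (XT.nd (nat_lit 78) (nat_lit 152) (nat_lit 0) (XT.lf (nat_lit 0) (nat_lit 27545867055) (nat_lit 304) (nat_lit 10532800130) (nat_lit 76) (nat_lit 31357731797) (nat_lit 21) (nat_lit 5) (nat_lit 25) (nat_lit 5) (nat_lit 22) (nat_lit 5) (nat_lit 224) (nat_lit 215) (nat_lit 161)) (XT.lf (nat_lit 0) (nat_lit 46931179123) (nat_lit 228) (nat_lit 27805025479) (nat_lit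 76) (nat_lit 1516653846) (nat_lit 19) (nat_lit 5) (nat_lit 22) (nat_lit 5) (nat_lit 20) (nat_lit 5) (nat_lit 225) (nat_lit 215) (nat_lit 160))) (XT.nd (nat_lit 78) (nat_lit 152) (nat_lit 0) (XT.lf (nat_lit 0) (nat_lit 33450328568) (nat_lit 152) (nat_lit 37940389765) (nat_lit 228) (nat_lit 12527779574) (nat_lit 17) (nat_lit 5) (nat_lit 19) (nat_lit 5) (nat_lit 20) (nat_lit 5) (nat_lit 226) (nat_lit 215) (nat_lit 159)) (XT.nd (nat_lit 78) (nat_lit 0) (nat_lit 0) (XT.lf (nat_lit 0) (nat_lit 7732194786) (nat_lit 152) (nat_lit 79382169745) (nat_lit 76) (nat_lit 5503671494) (nat_lit 15) (nat_lit 5) (nat_lit 17) (nat_lit 5) (nat_lit 16) (nat_lit 5) (nat_lit 227) (nat_lit 215) (nat_lit 158)) (XT.lf (nat_lit 0) (nat_lit 32862383130) (nat_lit 152) (nat_lit 14394585078) (nat_lit 76) (nat_lit 55133682584) (nat_lit 15) (nat_lit 5) (nat_lit 17) (nat_lit 5) (nat_lit 16) (nat_lit 5) (nat_lit 228) (nat_lit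 215) (nat_lit 157)))))) (XT.nd (nat_lit 390) (nat_lit 228) (nat_lit 0) (XT.nd (nat_lit 156) (nat_lit 304) (nat_lit 0) (XT.nd (nat_lit 78) (nat_lit 76) (nat_lit 0) (XT.lf (nat_lit 0) (nat_lit 63290735971) (nat_lit 228) (nat_lit 50000895000) (nat_lit 76) (nat_lit 215251428) (nat_lit 13) (nat_lit 5) (nat_lit 16) (nat_lit 5) (nat_lit 14) (nat_lit 4) (nat_lit 229) (nat_lit 215) (nat_lit 156)) (XT.lf (nat_lit 0) (nat_lit 27771545489) (nat_lit 76) (nat_lit 72912775667) (nat_lit 152) (nat_lit 25414162738) (nat_lit 12) (nat_lit 5) (nat_lit 13) (nat_lit 5) (nat_lit 14) (nat_lit 4) (nat_lit 230) (nat_lit 215) (nat_lit 155))) (XT.nd (nat_lit 78) (nat_lit 228) (nat_lit 0) (XT.lf (nat_lit 0) (nat_lit 4442536990) (nat_lit 152) (nat_lit 20342978513) (nat_lit 76) (nat_lit 115668149023) (nat_lit 11) (nat_lit 5) (nat_lit 13) (nat_lit 5) (nat_lit 12) (nat_lit 5) (nat_lit 231) (nat_lit 215) (nat_lit 154))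 (XT.nd (nat_lit 78) (nat_lit 76) (nat_lit 0) (XT.lf (nat_lit 0) (nat_lit 39848378656) (nat_lit 228) (nat_lit 85320880780) (nat_lit 76) (nat_lit 31534028498) (nat_lit 9) (nat_lit 5) (nat_lit 12) (nat_lit 5) (nat_lit 10) (nat_lit 4) (nat_lit 232) (nat_lit 215) (nat_lit 153)) (XT.lf (nat_lit 0) (nat_lit 2157772740) (nat_lit 76) (nat_lit 79749470491) (nat_lit 152) (nat_lit 93375748110) (nat_lit 8) (nat_lit 5) (nat_lit 9) (nat_lit 5) (nat_lit 10) (nat_lit 4) (nat_lit 233) (nat_lit 215) (nat_lit 152))))) (XT.nd (nat_lit 156) (nat_lit 152) (nat_lit 0) (XT.nd (nat_lit 78) (nat_lit 76) (nat_lit 0) (XT.lf (nat_lit 0) (nat_lit 107920590975) (nat_lit 76) (nat_lit 24835743295) (nat_lit 152) (nat_lit 63694811392) (nat_lit 8) (nat_lit 5) (nat_lit 9) (nat_lit 5) (nat_lit 10) (nat_lit 4) (nat_lit 234) (nat_lit 215) (nat_lit 151)) (XT.lf (nat_lit 0) (nat_lit 8240047890) (nat_lit 76) (nat_lit 184110068983)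 (nat_lit 76) (nat_lit 28355026244) (nat_lit 7) (nat_lit 4) (nat_lit 8) (nat_lit 5) (nat_lit 8) (nat_lit 4) (nat_lit 235) (nat_lit 215) (nat_lit 150))) (XT.nd (nat_lit 78) (nat_lit 76) (nat_lit 0) (XT.lf (nat_lit 0) (nat_lit 15000291581) (nat_lit 152) (nat_lit 124556740475) (nat_lit 76) (nat_lit 108750243636) (nat_lit 6) (nat_lit 5) (nat_lit 8) (nat_lit 5) (nat_lit 7) (nat_lit 4) (nat_lit 236) (nat_lit 215) (nat_lit 149)) (XT.nd (nat_lit 78) (nat_lit 76) (nat_lit 0) (XT.lf (nat_lit 0) (nat_lit 63225823875) (nat_lit 152) (nat_lit 24249636979) (nat_lit 76) (nat_lit 192511684056) (nat_lit 6) (nat_lit 5) (nat_lit 8) (nat_lit 5) (nat_lit 7) (nat_lit 4) (nat_lit 237) (nat_lit 215) (nat_lit 148)) (XT.lf (nat_lit 0) (nat_lit 95897885215) (nat_lit 76) (nat_lit 25092008141) (nat_lit 152) (nat_lit 195244728352) (nat_lit 5) (nat_lit 5) (nat_lit 6) (nat_lit 5) (nat_lit 7) (nat_lit 4) (nat_lit 238)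 (nat_lit 215) (nat_lit 147))))))) (XT.nd (nat_lit 780) (nat_lit 76) (nat_lit 0) (XT.nd (nat_lit 390) (nat_lit 76) (nat_lit 0) (XT.nd (nat_lit 156) (nat_lit 152) (nat_lit 0) (XT.nd (nat_lit 78) (nat_lit 0) (nat_lit 0) (XT.lf (nat_lit 0) (nat_lit 189263306847) (nat_lit 152) (nat_lit 123469668001) (nat_lit 0) (nat_lit 45038669779) (nat_lit 5) (nat_lit 5) (nat_lit 7) (nat_lit 4) (nat_lit 5) (nat_lit 4) (nat_lit 239) (nat_lit 215) (nat_lit 146)) (XT.lf (nat_lit 0) (nat_lit 268470397977) (nat_lit 152) (nat_lit 12768871573) (nat_lit 0) (nat_lit 124244541048) (nat_lit 5) (nat_lit 5) (nat_lit 7) (nat_lit 4) (nat_lit 5) (nat_lit 4) (nat_lit 240) (nat_lit 215) (nat_lit 145))) (XT.nd (nat_lit 78) (nat_lit 76) (nat_lit 0) (XT.lf (nat_lit 0) (nat_lit 120566211535) (nat_lit 76) (nat_lit 241890816053) (nat_lit 76) (nat_lit 97663898377) (nat_lit 4) (nat_lit 4) (nat_lit 5) (nat_lit 5) (nat_lit 5) (nat_lit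 4) (nat_lit 241) (nat_lit 215) (nat_lit 144)) (XT.nd (nat_lit 78) (nat_lit 76) (nat_lit 0) (XT.lf (nat_lit 0) (nat_lit 274672931129) (nat_lit 76) (nat_lit 196239431433) (nat_lit 76) (nat_lit 52011591367) (nat_lit 4) (nat_lit 4) (nat_lit 5) (nat_lit 5) (nat_lit 5) (nat_lit 4) (nat_lit 242) (nat_lit 215) (nat_lit 143)) (XT.lf (nat_lit 0) (nat_lit 463191307) (nat_lit 152) (nat_lit 143265204223) (nat_lit 76) (nat_lit 451418176749) (nat_lit 3) (nat_lit 5) (nat_lit 5) (nat_lit 5) (nat_lit 4) (nat_lit 4) (nat_lit 243) (nat_lit 215) (nat_lit 142))))) (XT.nd (nat_lit 156) (nat_lit 0) (nat_lit 0) (XT.nd (nat_lit 78) (nat_lit 76) (nat_lit 0) (XT.lf (nat_lit 0) (nat_lit 57816277194) (nat_lit 152) (nat_lit 23971483038) (nat_lit 76) (nat_lit 596299808437) (nat_lit 3) (nat_lit 5) (nat_lit 5) (nat_lit 5) (nat_lit 4) (nat_lit 4) (nat_lit 244) (nat_lit 215) (nat_lit 141)) (XT.lf (nat_lit 0) (nat_lit 119176731125)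 (nat_lit 76) (nat_lit 7461094458) (nat_lit 152) (nat_lit 646602650281) (nat_lit 2) (nat_lit 5) (nat_lit 3) (nat_lit 5) (nat_lit 4) (nat_lit 4) (nat_lit 245) (nat_lit 215) (nat_lit 140))) (XT.nd (nat_lit 78) (nat_lit 0) (nat_lit 0) (XT.lf (nat_lit 0) (nat_lit 208374237563) (nat_lit 152) (nat_lit 599257249344) (nat_lit 0) (nat_lit 74827502870) (nat_lit 2) (nat_lit 5) (nat_lit 4) (nat_lit 4) (nat_lit 2) (nat_lit 4) (nat_lit 246) (nat_lit 215) (nat_lit 139)) (XT.nd (nat_lit 78) (nat_lit 0) (nat_lit 0) (XT.lf (nat_lit 0) (nat_lit 302576899555) (nat_lit 152) (nat_lit 536437178920) (nat_lit 0) (nat_lit 169029740241) (nat_lit 2) (nat_lit 5) (nat_lit 4) (nat_lit 4) (nat_lit 2) (nat_lit 4) (nat_lit 247) (nat_lit 215) (nat_lit 138)) (XT.lf (nat_lit 0) (nat_lit 410909467619) (nat_lit 152) (nat_lit 464195005631) (nat_lit 0) (nat_lit 277361939070) (nat_lit 2) (nat_lit 5) (nat_lit 4) (nat_lit 4) (nat_lit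 2) (nat_lit 4) (nat_lit 248) (nat_lit 215) (nat_lit 137)))))) (XT.nd (nat_lit 390) (nat_lit 0) (nat_lit 0) (XT.nd (nat_lit 156) (nat_lit 76) (nat_lit 0) (XT.nd (nat_lit 78) (nat_lit 0) (nat_lit 0) (XT.lf (nat_lit 0) (nat_lit 535491491999) (nat_lit 152) (nat_lit 381117295654) (nat_lit 0) (nat_lit 401943642376) (nat_lit 2) (nat_lit 5) (nat_lit 4) (nat_lit 4) (nat_lit 2) (nat_lit 4) (nat_lit 249) (nat_lit 215) (nat_lit 136)) (XT.lf (nat_lit 0) (nat_lit 678760447087) (nat_lit 152) (nat_lit 285578615530) (nat_lit 0) (nat_lit 545212318268) (nat_lit 2) (nat_lit 5) (nat_lit 4) (nat_lit 4) (nat_lit 2) (nat_lit 4) (nat_lit 250) (nat_lit 215) (nat_lit 135))) (XT.nd (nat_lit 78) (nat_lit 76) (nat_lit 0) (XT.lf (nat_lit 0) (nat_lit 843519421132) (nat_lit 152) (nat_lit 175709730215) (nat_lit 0) (nat_lit 709971049535) (nat_lit 2) (nat_lit 5) (nat_lit 4) (nat_lit 4) (nat_lit 2) (nat_lit 4) (nat_lit 251)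 (nat_lit 215) (nat_lit 134)) (XT.nd (nat_lit 78) (nat_lit 76) (nat_lit 0) (XT.lf (nat_lit 0) (nat_lit 1032991959281) (nat_lit 152) (nat_lit 49361031083) (nat_lit 0) (nat_lit 899443376572) (nat_lit 2) (nat_lit 5) (nat_lit 4) (nat_lit 4) (nat_lit 2) (nat_lit 4) (nat_lit 252) (nat_lit 215) (nat_lit 133)) (XT.lf (nat_lit 0) (nat_lit 100991526820) (nat_lit 76) (nat_lit 1152322454759) (nat_lit 76) (nat_lit 1018773688475) (nat_lit 1) (nat_lit 4) (nat_lit 2) (nat_lit 5) (nat_lit 2) (nat_lit 4) (nat_lit 253) (nat_lit 215) (nat_lit 132))))) (XT.nd (nat_lit 156) (nat_lit 0) (nat_lit 0) (XT.nd (nat_lit 78) (nat_lit 0) (nat_lit 0) (XT.lf (nat_lit 0) (nat_lit 276885709407) (nat_lit 76) (nat_lit 1231235467956) (nat_lit 76) (nat_lit 1097686542041) (nat_lit 1) (nat_lit 4) (nat_lit 2) (nat_lit 5) (nat_lit 2) (nat_lit 4) (nat_lit 254) (nat_lit 215) (nat_lit 131)) (XT.lf (nat_lit 0) (nat_lit 479163660176)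 (nat_lit 76) (nat_lit 1321985598277) (nat_lit 76) (nat_lit 1188436533553) (nat_lit 1) (nat_lit 4) (nat_lit 2) (nat_lit 5) (nat_lit 2) (nat_lit 4) (nat_lit 255) (nat_lit 215) (nat_lit 130))) (XT.nd (nat_lit 78) (nat_lit 0) (nat_lit 0) (XT.lf (nat_lit 0) (nat_lit 711782991206) (nat_lit 76) (nat_lit 1426348391751) (nat_lit 76) (nat_lit 1292799206323) (nat_lit 1) (nat_lit 4) (nat_lit 2) (nat_lit 5) (nat_lit 2) (nat_lit 4) (nat_lit 256) (nat_lit 215) (nat_lit 129)) (XT.nd (nat_lit 78) (nat_lit 0) (nat_lit 0) (XT.lf (nat_lit 0) (nat_lit 979294950279) (nat_lit 76) (nat_lit 1546365729121) (nat_lit 76) (nat_lit 1412816438733) (nat_lit 1) (nat_lit 4) (nat_lit 2) (nat_lit 5) (nat_lit 2) (nat_lit 4) (nat_lit 257) (nat_lit 215) (nat_lit 128)) (XT.lf (nat_lit 0) (nat_lit 1286933467028) (nat_lit 76) (nat_lit 1684385775681) (nat_lit 76) (nat_lit 1550836394024) (nat_lit 1) (nat_lit 4) (nat_lit 2) (nat_lit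 5) (nat_lit 2) (nat_lit 4) (nat_lit 258) (nat_lit 215) (nat_lit 127))))))))
noncomputable def xc45 : XT := (XT.nd (nat_lit 1482) (nat_lit 532) (nat_lit 0) (XT.nd (nat_lit 702) (nat_lit 988) (nat_lit 0) (XT.nd (nat_lit 312) (nat_lit 912) (nat_lit 0) (XT.nd (nat_lit 156) (nat_lit 0) (nat_lit 76) (XT.nd (nat_lit 78) (nat_lit 0) (nat_lit 76) (XT.lf (nat_lit 0) (nat_lit 5808558524) (nat_lit 532) (nat_lit 6710994586) (nat_lit 532) (nat_lit 6710994586) (nat_lit 33) (nat_lit 3) (nat_lit 40) (nat_lit 3) (nat_lit 40) (nat_lit 5) (nat_lit 216) (nat_lit 216) (nat_lit 168)) (XT.lf (nat_lit 0) (nat_lit 13104281575) (nat_lit 456) (nat_lit 23593639302) (nat_lit 532) (nat_lit 4598074741) (nat_lit 34) (nat_lit 5) (nat_lit 40) (nat_lit 5) (nat_lit 41) (nat_lit 5) (nat_lit 217) (nat_lit 216) (nat_lit 167))) (XT.nd (nat_lit 78) (nat_lit 0) (nat_lit 76) (XT.lf (nat_lit 76) (nat_lit 9549911381) (nat_lit 0)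 (nat_lit 6575092339) (nat_lit 532) (nat_lit 28326361787) (nat_lit 35) (nat_lit 5) (nat_lit 34) (nat_lit 5) (nat_lit 41) (nat_lit 5) (nat_lit 218) (nat_lit 216) (nat_lit 166)) (XT.lf (nat_lit 76) (nat_lit 386411032) (nat_lit 0) (nat_lit 20590369229) (nat_lit 532) (nat_lit 26993088640) (nat_lit 36) (nat_lit 5) (nat_lit 35) (nat_lit 5) (nat_lit 42) (nat_lit 5) (nat_lit 219) (nat_lit 216) (nat_lit 165)))) (XT.nd (nat_lit 156) (nat_lit 684) (nat_lit 0) (XT.nd (nat_lit 78) (nat_lit 456) (nat_lit 0) (XT.lf (nat_lit 0) (nat_lit 28104015586) (nat_lit 456) (nat_lit 9404132976) (nat_lit 76) (nat_lit 14384239257) (nat_lit 36) (nat_lit 5) (nat_lit 42) (nat_lit 5) (nat_lit 37) (nat_lit 5) (nat_lit 220) (nat_lit 216) (nat_lit 164)) (XT.lf (nat_lit 0) (nat_lit 35711300622) (nat_lit 456) (nat_lit 2008861389) (nat_lit 532) (nat_lit 18569584669) (nat_lit 30) (nat_lit 5) (nat_lit 36) (nat_lit 5) (nat_lit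 37) (nat_lit 5) (nat_lit 221) (nat_lit 216) (nat_lit 163))) (XT.nd (nat_lit 78) (nat_lit 456) (nat_lit 0) (XT.lf (nat_lit 0) (nat_lit 27253709205) (nat_lit 228) (nat_lit 23387326618) (nat_lit 304) (nat_lit 10556731003) (nat_lit 27) (nat_lit 5) (nat_lit 30) (nat_lit 5) (nat_lit 31) (nat_lit 5) (nat_lit 222) (nat_lit 216) (nat_lit 162)) (XT.nd (nat_lit 78) (nat_lit 228) (nat_lit 0) (XT.lf (nat_lit 0) (nat_lit 236899631) (nat_lit 228) (nat_lit 49640193711) (nat_lit 76) (nat_lit 16846574757) (nat_lit 24) (nat_lit 5) (nat_lit 27) (nat_lit 5) (nat_lit 25) (nat_lit 5) (nat_lit 223) (nat_lit 216) (nat_lit 161)) (XT.lf (nat_lit 0) (nat_lit 4052156262) (nat_lit 228) (nat_lit 9742091710) (nat_lit 304) (nat_lit 59120719903) (nat_lit 21) (nat_lit 5) (nat_lit 24) (nat_lit 5) (nat_lit 25) (nat_lit 5) (nat_lit 224) (nat_lit 216) (nat_lit 160)))))) (XT.nd (nat_lit 390) (nat_lit 532) (nat_lit 0) (XT.nd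 (nat_lit 156) (nat_lit 304) (nat_lit 0) (XT.nd (nat_lit 78) (nat_lit 152) (nat_lit 0) (XT.lf (nat_lit 0) (nat_lit 31738090711) (nat_lit 304) (nat_lit 12035384807) (nat_lit 76) (nat_lit 36073281230) (nat_lit 21) (nat_lit 5) (nat_lit 25) (nat_lit 5) (nat_lit 22) (nat_lit 5) (nat_lit 225) (nat_lit 216) (nat_lit 159)) (XT.lf (nat_lit 0) (nat_lit 54025430739) (nat_lit 228) (nat_lit 31900816787) (nat_lit 76) (nat_lit 1759934931) (nat_lit 19) (nat_lit 5) (nat_lit 22) (nat_lit 5) (nat_lit 20) (nat_lit 5) (nat_lit 226) (nat_lit 216) (nat_lit 158))) (XT.nd (nat_lit 78) (nat_lit 152) (nat_lit 0) (XT.lf (nat_lit 0) (nat_lit 38536495163) (nat_lit 152) (nat_lit 43611937470) (nat_lit 228) (nat_lit 14353703804) (nat_lit 17) (nat_lit 5) (nat_lit 19) (nat_lit 5) (nat_lit 20) (nat_lit 5) (nat_lit 227) (nat_lit 216) (nat_lit 157)) (XT.nd (nat_lit 78) (nat_lit 0) (nat_lit 0) (XT.lf (nat_lit 0) (nat_lit 8938057243)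 (nat_lit 152) (nat_lit 91220738271) (nat_lit 76) (nat_lit 6348096080) (nat_lit 15) (nat_lit 5) (nat_lit 17) (nat_lit 5) (nat_lit 16) (nat_lit 5) (nat_lit 228) (nat_lit 216) (nat_lit 156)) (XT.lf (nat_lit 0) (nat_lit 37831769503) (nat_lit 152) (nat_lit 16493984200) (nat_lit 76) (nat_lit 63420147025) (nat_lit 15) (nat_lit 5) (nat_lit 17) (nat_lit 5) (nat_lit 16) (nat_lit 5) (nat_lit 229) (nat_lit 216) (nat_lit 155))))) (XT.nd (nat_lit 156) (nat_lit 304) (nat_lit 0) (XT.nd (nat_lit 78) (nat_lit 76) (nat_lit 0) (XT.lf (nat_lit 0) (nat_lit 72820917738) (nat_lit 228) (nat_lit 57443732519) (nat_lit 76) (nat_lit 265212383) (nat_lit 13) (nat_lit 5) (nat_lit 16) (nat_lit 5) (nat_lit 14) (nat_lit 4) (nat_lit 230) (nat_lit 216) (nat_lit 154)) (XT.lf (nat_lit 0) (nat_lit 31989724160) (nat_lit 76) (nat_lit 83830307710) (nat_lit 152) (nat_lit 29190469684) (nat_lit 12) (nat_lit 5) (nat_lit 13) (nat_lit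 5) (nat_lit 14) (nat_lit 4) (nat_lit 231) (nat_lit 216) (nat_lit 153))) (XT.nd (nat_lit 78) (nat_lit 228) (nat_lit 0) (XT.lf (nat_lit 0) (nat_lit 5138505130) (nat_lit 152) (nat_lit 23347172803) (nat_lit 76) (nat_lit 133033580762) (nat_lit 11) (nat_lit 5) (nat_lit 13) (nat_lit 5) (nat_lit 12) (nat_lit 5) (nat_lit 232) (nat_lit 216) (nat_lit 152)) (XT.nd (nat_lit 78) (nat_lit 76) (nat_lit 0) (XT.lf (nat_lit 0) (nat_lit 45852800472) (nat_lit 228) (nat_lit 98073938098) (nat_lit 76) (nat_lit 36279792394) (nat_lit 9) (nat_lit 5) (nat_lit 12) (nat_lit 5) (nat_lit 10) (nat_lit 4) (nat_lit 233) (nat_lit 216) (nat_lit 151)) (XT.lf (nat_lit 0) (nat_lit 2522698092) (nat_lit 76) (nat_lit 91695245668) (nat_lit 152) (nat_lit 107355460237) (nat_lit 8) (nat_lit 5) (nat_lit 9) (nat_lit 5) (nat_lit 10) (nat_lit 4) (nat_lit 234) (nat_lit 216) (nat_lit 150))))))) (XT.nd (nat_lit 780) (nat_lit 152) (nat_lit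 0) (XT.nd (nat_lit 390) (nat_lit 152) (nat_lit 0) (XT.nd (nat_lit 156) (nat_lit 152) (nat_lit 0) (XT.nd (nat_lit 78) (nat_lit 76) (nat_lit 0) (XT.lf (nat_lit 0) (nat_lit 124144557397) (nat_lit 76) (nat_lit 28546630532) (nat_lit 152) (nat_lit 73225859111) (nat_lit 8) (nat_lit 5) (nat_lit 9) (nat_lit 5) (nat_lit 10) (nat_lit 4) (nat_lit 235) (nat_lit 216) (nat_lit 149)) (XT.lf (nat_lit 0) (nat_lit 9510197944) (nat_lit 76) (nat_lit 211712172051) (nat_lit 76) (nat_lit 32586915139) (nat_lit 7) (nat_lit 4) (nat_lit 8) (nat_lit 5) (nat_lit 8) (nat_lit 4) (nat_lit 236) (nat_lit 216) (nat_lit 148))) (XT.nd (nat_lit 78) (nat_lit 76) (nat_lit 0) (XT.lf (nat_lit 0) (nat_lit 17267984254) (nat_lit 152) (nat_lit 143209591989) (nat_lit 76) (nat_lit 125074338147) (nat_lit 6) (nat_lit 5) (nat_lit 8) (nat_lit 5) (nat_lit 7) (nat_lit 4) (nat_lit 237) (nat_lit 216) (nat_lit 147)) (XT.nd (nat_lit 78) (nat_lit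 76) (nat_lit 0) (XT.lf (nat_lit 0) (nat_lit 72725044356) (nat_lit 152) (nat_lit 27860422042) (nat_lit 76) (nat_lit 221398487069) (nat_lit 6) (nat_lit 5) (nat_lit 8) (nat_lit 5) (nat_lit 7) (nat_lit 4) (nat_lit 238) (nat_lit 216) (nat_lit 146)) (XT.lf (nat_lit 0) (nat_lit 110306971804) (nat_lit 76) (nat_lit 28845337598) (nat_lit 152) (nat_lit 224516360191) (nat_lit 5) (nat_lit 5) (nat_lit 6) (nat_lit 5) (nat_lit 7) (nat_lit 4) (nat_lit 239) (nat_lit 216) (nat_lit 145))))) (XT.nd (nat_lit 156) (nat_lit 152) (nat_lit 0) (XT.nd (nat_lit 78) (nat_lit 0) (nat_lit 0) (XT.lf (nat_lit 0) (nat_lit 217665136691) (nat_lit 152) (nat_lit 141968120522) (nat_lit 0) (nat_lit 51803120615) (nat_lit 5) (nat_lit 5) (nat_lit 7) (nat_lit 4) (nat_lit 5) (nat_lit 4) (nat_lit 240) (nat_lit 216) (nat_lit 144)) (XT.lf (nat_lit 0) (nat_lit 308751682731) (nat_lit 152) (nat_lit 14665073891) (nat_lit 0) (nat_lit 142888744266)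 (nat_lit 5) (nat_lit 5) (nat_lit 7) (nat_lit 4) (nat_lit 5) (nat_lit 4) (nat_lit 241) (nat_lit 216) (nat_lit 143))) (XT.nd (nat_lit 78) (nat_lit 76) (nat_lit 0) (XT.lf (nat_lit 0) (nat_lit 138668652558) (nat_lit 76) (nat_lit 278166676406) (nat_lit 76) (nat_lit 112302935863) (nat_lit 4) (nat_lit 4) (nat_lit 5) (nat_lit 5) (nat_lit 5) (nat_lit 4) (nat_lit 242) (nat_lit 216) (nat_lit 142)) (XT.nd (nat_lit 78) (nat_lit 76) (nat_lit 0) (XT.lf (nat_lit 0) (nat_lit 315889096269) (nat_lit 76) (nat_lit 225668596534) (nat_lit 76) (nat_lit 59804158532) (nat_lit 4) (nat_lit 4) (nat_lit 5) (nat_lit 5) (nat_lit 5) (nat_lit 4) (nat_lit 243) (nat_lit 216) (nat_lit 141)) (XT.lf (nat_lit 0) (nat_lit 540246301) (nat_lit 152) (nat_lit 164741332180) (nat_lit 76) (nat_lit 519136359355) (nat_lit 3) (nat_lit 5) (nat_lit 5) (nat_lit 5) (nat_lit 4) (nat_lit 4) (nat_lit 244) (nat_lit 216) (nat_lit 140)))))) (XT.nd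 (nat_lit 390) (nat_lit 76) (nat_lit 0) (XT.nd (nat_lit 156) (nat_lit 0) (nat_lit 0) (XT.nd (nat_lit 78) (nat_lit 76) (nat_lit 0) (XT.lf (nat_lit 0) (nat_lit 66495306858) (nat_lit 152) (nat_lit 27555333601) (nat_lit 76) (nat_lit 685749524131) (nat_lit 3) (nat_lit 5) (nat_lit 5) (nat_lit 5) (nat_lit 4) (nat_lit 4) (nat_lit 245) (nat_lit 216) (nat_lit 139)) (XT.lf (nat_lit 0) (nat_lit 137064107789) (nat_lit 76) (nat_lit 8575381752) (nat_lit 152) (nat_lit 743586567769) (nat_lit 2) (nat_lit 5) (nat_lit 3) (nat_lit 5) (nat_lit 4) (nat_lit 4) (nat_lit 246) (nat_lit 216) (nat_lit 138))) (XT.nd (nat_lit 78) (nat_lit 0) (nat_lit 0) (XT.lf (nat_lit 0) (nat_lit 239635683989) (nat_lit 152) (nat_lit 689136063145) (nat_lit 0) (nat_lit 86055656921) (nat_lit 2) (nat_lit 5) (nat_lit 4) (nat_lit 4) (nat_lit 2) (nat_lit 4) (nat_lit 247) (nat_lit 216) (nat_lit 137)) (XT.nd (nat_lit 78) (nat_lit 0) (nat_lit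 0) (XT.lf (nat_lit 0) (nat_lit 347968052567) (nat_lit 152) (nat_lit 616894256975) (nat_lit 0) (nat_lit 194387704426) (nat_lit 2) (nat_lit 5) (nat_lit 4) (nat_lit 4) (nat_lit 2) (nat_lit 4) (nat_lit 248) (nat_lit 216) (nat_lit 136)) (XT.lf (nat_lit 0) (nat_lit 472549903483) (nat_lit 152) (nat_lit 533816866230) (nat_lit 0) (nat_lit 318969276146) (nat_lit 2) (nat_lit 5) (nat_lit 4) (nat_lit 4) (nat_lit 2) (nat_lit 4) (nat_lit 249) (nat_lit 216) (nat_lit 135))))) (XT.nd (nat_lit 156) (nat_lit 76) (nat_lit 0) (XT.nd (nat_lit 78) (nat_lit 0) (nat_lit 0) (XT.lf (nat_lit 0) (nat_lit 615818707731) (nat_lit 152) (nat_lit 438278463701) (nat_lit 0) (nat_lit 462237837616) (nat_lit 2) (nat_lit 5) (nat_lit 4) (nat_lit 4) (nat_lit 2) (nat_lit 4) (nat_lit 250) (nat_lit 216) (nat_lit 134)) (XT.lf (nat_lit 0) (nat_lit 780577550612) (nat_lit 152) (nat_lit 328409819772) (nat_lit 0) (nat_lit 626996469385)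 (nat_lit 2) (nat_lit 5) (nat_lit 4) (nat_lit 4) (nat_lit 2) (nat_lit 4) (nat_lit 251) (nat_lit 216) (nat_lit 133))) (XT.nd (nat_lit 78) (nat_lit 76) (nat_lit 0) (XT.lf (nat_lit 0) (nat_lit 970049974704) (nat_lit 152) (nat_lit 202061330541) (nat_lit 0) (nat_lit 816468709902) (nat_lit 2) (nat_lit 5) (nat_lit 4) (nat_lit 4) (nat_lit 2) (nat_lit 4) (nat_lit 252) (nat_lit 216) (nat_lit 132)) (XT.nd (nat_lit 78) (nat_lit 76) (nat_lit 0) (XT.lf (nat_lit 0) (nat_lit 1187943049175) (nat_lit 152) (nat_lit 56760960349) (nat_lit 0) (nat_lit 1034361624742) (nat_lit 2) (nat_lit 5) (nat_lit 4) (nat_lit 4) (nat_lit 2) (nat_lit 4) (nat_lit 253) (nat_lit 216) (nat_lit 131)) (XT.lf (nat_lit 0) (nat_lit 116144123582) (nat_lit 76) (nat_lit 1325169044777) (nat_lit 76) (nat_lit 1171587481535) (nat_lit 1) (nat_lit 4) (nat_lit 2) (nat_lit 5) (nat_lit 2) (nat_lit 4) (nat_lit 254) (nat_lit 216) (nat_lit 130))))))))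
noncomputable def xc46 : XT := (XT.nd (nat_lit 29484) (nat_lit 0) (nat_lit 76) (XT.nd (nat_lit 28704) (nat_lit 0) (nat_lit 912) (XT.nd (nat_lit 28314) (nat_lit 0) (nat_lit 2432) (XT.nd (nat_lit 156) (nat_lit 0) (nat_lit 0) (XT.nd (nat_lit 78) (nat_lit 0) (nat_lit 0) (XT.lf (nat_lit 0) (nat_lit 318421929069) (nat_lit 76) (nat_lit 1415919241892) (nat_lit 76) (nat_lit 1262337557946) (nat_lit 1) (nat_lit 4) (nat_lit 2) (nat_lit 5) (nat_lit 2) (nat_lit 4) (nat_lit 255) (nat_lit 216) (nat_lit 129)) (XT.lf (nat_lit 0) (nat_lit 551041133768) (nat_lit 76) (nat_lit 1520282093447) (nat_lit 76) (nat_lit 1366700304541) (nat_lit 1) (nat_lit 4) (nat_lit 2) (nat_lit 5) (nat_lit 2) (nat_lit 4) (nat_lit 256) (nat_lit 216) (nat_lit 128))) (XT.nd (nat_lit 78) (nat_lit 0) (nat_lit 0) (XT.lf (nat_lit 0) (nat_lit 818552982988) (nat_lit 76) (nat_lit 1640299481321) (nat_lit 76) (nat_lit 1486717601146) (nat_lit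 1) (nat_lit 4) (nat_lit 2) (nat_lit 5) (nat_lit 2) (nat_lit 4) (nat_lit 257) (nat_lit 216) (nat_lit 127)) (XT.lf (nat_lit 0) (nat_lit 1126191404212) (nat_lit 76) (nat_lit 1778319571799) (nat_lit 76) (nat_lit 1624737612260) (nat_lit 1) (nat_lit 4) (nat_lit 2) (nat_lit 5) (nat_lit 2) (nat_lit 4) (nat_lit 258) (nat_lit 216) (nat_lit 126)))) (XT.nd (nat_lit 156) (nat_lit 0) (nat_lit 76) (XT.nd (nat_lit 78) (nat_lit 0) (nat_lit 76) (XT.lf (nat_lit 0) (nat_lit 6747622570) (nat_lit 532) (nat_lit 7680845214) (nat_lit 532) (nat_lit 7680845214) (nat_lit 33) (nat_lit 3) (nat_lit 40) (nat_lit 3) (nat_lit 40) (nat_lit 5) (nat_lit 217) (nat_lit 217) (nat_lit 166)) (XT.lf (nat_lit 0) (nat_lit 15188168965) (nat_lit 456) (nat_lit 27053818070) (nat_lit 532) (nat_lit 5238262350) (nat_lit 34) (nat_lit 5) (nat_lit 40) (nat_lit 5) (nat_lit 41) (nat_lit 5) (nat_lit 218) (nat_lit 217) (nat_lit 165))) (XT.nd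 (nat_lit 78) (nat_lit 0) (nat_lit 76) (XT.lf (nat_lit 76) (nat_lit 11054589507) (nat_lit 0) (nat_lit 7593722849) (nat_lit 532) (nat_lit 32461796840) (nat_lit 35) (nat_lit 5) (nat_lit 34) (nat_lit 5) (nat_lit 41) (nat_lit 5) (nat_lit 219) (nat_lit 217) (nat_lit 164)) (XT.nd (nat_lit 78) (nat_lit 0) (nat_lit 76) (XT.lf (nat_lit 76) (nat_lit 519368613) (nat_lit 0) (nat_lit 23695975524) (nat_lit 532) (nat_lit 30942122666) (nat_lit 36) (nat_lit 5) (nat_lit 35) (nat_lit 5) (nat_lit 42) (nat_lit 5) (nat_lit 220) (nat_lit 217) (nat_lit 163)) (XT.lf (nat_lit 0) (nat_lit 32399302064) (nat_lit 456) (nat_lit 10742328197) (nat_lit 76) (nat_lit 16527789967) (nat_lit 36) (nat_lit 5) (nat_lit 42) (nat_lit 5) (nat_lit 37) (nat_lit 5) (nat_lit 221) (nat_lit 217) (nat_lit 162)))))) (XT.nd (nat_lit 390) (nat_lit 608) (nat_lit 0) (XT.nd (nat_lit 156) (nat_lit 456) (nat_lit 0) (XT.nd (nat_lit 78) (nat_lit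 228) (nat_lit 0) (XT.lf (nat_lit 0) (nat_lit 41134290049) (nat_lit 456) (nat_lit 2314781200) (nat_lit 532) (nat_lit 21278074436) (nat_lit 30) (nat_lit 5) (nat_lit 36) (nat_lit 5) (nat_lit 37) (nat_lit 5) (nat_lit 222) (nat_lit 217) (nat_lit 161)) (XT.lf (nat_lit 0) (nat_lit 31408099288) (nat_lit 228) (nat_lit 26892230308) (nat_lit 304) (nat_lit 12071710137) (nat_lit 27) (nat_lit 5) (nat_lit 30) (nat_lit 5) (nat_lit 31) (nat_lit 5) (nat_lit 223) (nat_lit 217) (nat_lit 160))) (XT.nd (nat_lit 78) (nat_lit 228) (nat_lit 0) (XT.lf (nat_lit 0) (nat_lit 330732139) (nat_lit 228) (nat_lit 57017294084) (nat_lit 76) (nat_lit 19379253692) (nat_lit 24) (nat_lit 5) (nat_lit 27) (nat_lit 5) (nat_lit 25) (nat_lit 5) (nat_lit 224) (nat_lit 217) (nat_lit 159)) (XT.nd (nat_lit 78) (nat_lit 0) (nat_lit 0) (XT.lf (nat_lit 0) (nat_lit 4723073915) (nat_lit 228) (nat_lit 11192522203) (nat_lit 304) (nat_lit 67932201285)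 (nat_lit 21) (nat_lit 5) (nat_lit 24) (nat_lit 5) (nat_lit 25) (nat_lit 5) (nat_lit 225) (nat_lit 217) (nat_lit 158)) (XT.lf (nat_lit 0) (nat_lit 36544432747) (nat_lit 304) (nat_lit 13782215898) (nat_lit 76) (nat_lit 41493263709) (nat_lit 21) (nat_lit 5) (nat_lit 25) (nat_lit 5) (nat_lit 22) (nat_lit 5) (nat_lit 226) (nat_lit 217) (nat_lit 157))))) (XT.nd (nat_lit 156) (nat_lit 304) (nat_lit 0) (XT.nd (nat_lit 78) (nat_lit 152) (nat_lit 0) (XT.lf (nat_lit 0) (nat_lit 62170511699) (nat_lit 228) (nat_lit 36629256876) (nat_lit 76) (nat_lit 2035859393) (nat_lit 19) (nat_lit 5) (nat_lit 22) (nat_lit 5) (nat_lit 20) (nat_lit 5) (nat_lit 227) (nat_lit 217) (nat_lit 156)) (XT.lf (nat_lit 0) (nat_lit 44368853982) (nat_lit 152) (nat_lit 50138975154) (nat_lit 228) (nat_lit 16466500239) (nat_lit 17) (nat_lit 5) (nat_lit 19) (nat_lit 5) (nat_lit 20) (nat_lit 5) (nat_lit 228) (nat_lit 217) (nat_lit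 155))) (XT.nd (nat_lit 78) (nat_lit 152) (nat_lit 0) (XT.lf (nat_lit 0) (nat_lit 10313573572) (nat_lit 152) (nat_lit 104851858890) (nat_lit 76) (nat_lit 7314581844) (nat_lit 15) (nat_lit 5) (nat_lit 17) (nat_lit 5) (nat_lit 16) (nat_lit 5) (nat_lit 229) (nat_lit 217) (nat_lit 154)) (XT.nd (nat_lit 78) (nat_lit 152) (nat_lit 0) (XT.lf (nat_lit 0) (nat_lit 43536802531) (nat_lit 152) (nat_lit 18922873028) (nat_lit 76) (nat_lit 72945578950) (nat_lit 15) (nat_lit 5) (nat_lit 17) (nat_lit 5) (nat_lit 16) (nat_lit 5) (nat_lit 230) (nat_lit 217) (nat_lit 153)) (XT.lf (nat_lit 0) (nat_lit 83771708610) (nat_lit 228) (nat_lit 66016967837) (nat_lit 76) (nat_lit 318357749) (nat_lit 13) (nat_lit 5) (nat_lit 16) (nat_lit 5) (nat_lit 14) (nat_lit 4) (nat_lit 231) (nat_lit 217) (nat_lit 152))))))) (XT.nd (nat_lit 780) (nat_lit 228) (nat_lit 0) (XT.nd (nat_lit 390) (nat_lit 228) (nat_lit 0) (XT.nd (nat_lit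 156) (nat_lit 228) (nat_lit 0) (XT.nd (nat_lit 78) (nat_lit 76) (nat_lit 0) (XT.lf (nat_lit 0) (nat_lit 36827840136) (nat_lit 76) (nat_lit 96390196546) (nat_lit 152) (nat_lit 33541956988) (nat_lit 12) (nat_lit 5) (nat_lit 13) (nat_lit 5) (nat_lit 14) (nat_lit 4) (nat_lit 232) (nat_lit 217) (nat_lit 151)) (XT.lf (nat_lit 0) (nat_lit 5931653370) (nat_lit 152) (nat_lit 26813519054) (nat_lit 76) (nat_lit 153000118357) (nat_lit 11) (nat_lit 5) (nat_lit 13) (nat_lit 5) (nat_lit 12) (nat_lit 5) (nat_lit 233) (nat_lit 217) (nat_lit 150))) (XT.nd (nat_lit 78) (nat_lit 76) (nat_lit 0) (XT.lf (nat_lit 0) (nat_lit 52751261199) (nat_lit 228) (nat_lit 112750945789) (nat_lit 76) (nat_lit 41733602176) (nat_lit 9) (nat_lit 5) (nat_lit 12) (nat_lit 5) (nat_lit 10) (nat_lit 4) (nat_lit 234) (nat_lit 217) (nat_lit 149)) (XT.nd (nat_lit 78) (nat_lit 0) (nat_lit 0) (XT.lf (nat_lit 0) (nat_lit 2932300872) (nat_lit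 76) (nat_lit 105436946207) (nat_lit 152) (nat_lit 123438627976) (nat_lit 8) (nat_lit 5) (nat_lit 9) (nat_lit 5) (nat_lit 10) (nat_lit 4) (nat_lit 235) (nat_lit 217) (nat_lit 148)) (XT.lf (nat_lit 0) (nat_lit 142793369759) (nat_lit 76) (nat_lit 32817680493) (nat_lit 152) (nat_lit 84192215111) (nat_lit 8) (nat_lit 5) (nat_lit 9) (nat_lit 5) (nat_lit 10) (nat_lit 4) (nat_lit 236) (nat_lit 217) (nat_lit 147))))) (XT.nd (nat_lit 156) (nat_lit 76) (nat_lit 0) (XT.nd (nat_lit 78) (nat_lit 76) (nat_lit 0) (XT.lf (nat_lit 0) (nat_lit 10962544552) (nat_lit 76) (nat_lit 243458103886) (nat_lit 76) (nat_lit 37458797369) (nat_lit 7) (nat_lit 4) (nat_lit 8) (nat_lit 5) (nat_lit 8) (nat_lit 4) (nat_lit 237) (nat_lit 217) (nat_lit 146)) (XT.lf (nat_lit 0) (nat_lit 19871527023) (nat_lit 152) (nat_lit 164667847758) (nat_lit 76) (nat_lit 143844228351) (nat_lit 6) (nat_lit 5) (nat_lit 8) (nat_lit 5) (nat_lit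 7) (nat_lit 4) (nat_lit 238) (nat_lit 217) (nat_lit 145))) (XT.nd (nat_lit 78) (nat_lit 76) (nat_lit 0) (XT.lf (nat_lit 0) (nat_lit 83645405471) (nat_lit 152) (nat_lit 32019326192) (nat_lit 76) (nat_lit 254615859679) (nat_lit 6) (nat_lit 5) (nat_lit 8) (nat_lit 5) (nat_lit 7) (nat_lit 4) (nat_lit 239) (nat_lit 217) (nat_lit 144)) (XT.nd (nat_lit 78) (nat_lit 0) (nat_lit 0) (XT.lf (nat_lit 0) (nat_lit 126871470359) (nat_lit 76) (nat_lit 33164220079) (nat_lit 152) (nat_lit 258182413530) (nat_lit 5) (nat_lit 5) (nat_lit 6) (nat_lit 5) (nat_lit 7) (nat_lit 4) (nat_lit 240) (nat_lit 217) (nat_lit 143)) (XT.lf (nat_lit 0) (nat_lit 250324233332) (nat_lit 152) (nat_lit 163246705194) (nat_lit 0) (nat_lit 59580129629) (nat_lit 5) (nat_lit 5) (nat_lit 7) (nat_lit 4) (nat_lit 5) (nat_lit 4) (nat_lit 241) (nat_lit 217) (nat_lit 142)))))) (XT.nd (nat_lit 390) (nat_lit 76) (nat_lit 0) (XT.nd (nat_lit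 156) (nat_lit 76) (nat_lit 0) (XT.nd (nat_lit 78) (nat_lit 76) (nat_lit 0) (XT.lf (nat_lit 0) (nat_lit 355072544825) (nat_lit 152) (nat_lit 16850371144) (nat_lit 0) (nat_lit 164327743664) (nat_lit 5) (nat_lit 5) (nat_lit 7) (nat_lit 4) (nat_lit 5) (nat_lit 4) (nat_lit 242) (nat_lit 217) (nat_lit 141)) (XT.lf (nat_lit 0) (nat_lit 159482189982) (nat_lit 76) (nat_lit 319885808637) (nat_lit 76) (nat_lit 129140400990) (nat_lit 4) (nat_lit 4) (nat_lit 5) (nat_lit 5) (nat_lit 5) (nat_lit 4) (nat_lit 243) (nat_lit 217) (nat_lit 140))) (XT.nd (nat_lit 78) (nat_lit 76) (nat_lit 0) (XT.lf (nat_lit 0) (nat_lit 363283973353) (nat_lit 76) (nat_lit 259513782337) (nat_lit 76) (nat_lit 68767847310) (nat_lit 4) (nat_lit 4) (nat_lit 5) (nat_lit 5) (nat_lit 5) (nat_lit 4) (nat_lit 244) (nat_lit 217) (nat_lit 139)) (XT.nd (nat_lit 78) (nat_lit 0) (nat_lit 0) (XT.lf (nat_lit 0) (nat_lit 627012016) (nat_lit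 152) (nat_lit 189442208622) (nat_lit 76) (nat_lit 597010938848) (nat_lit 3) (nat_lit 5) (nat_lit 5) (nat_lit 5) (nat_lit 4) (nat_lit 4) (nat_lit 245) (nat_lit 217) (nat_lit 138)) (XT.lf (nat_lit 0) (nat_lit 76474584426) (nat_lit 152) (nat_lit 31679656784) (nat_lit 76) (nat_lit 788615540221) (nat_lit 3) (nat_lit 5) (nat_lit 5) (nat_lit 5) (nat_lit 4) (nat_lit 4) (nat_lit 246) (nat_lit 217) (nat_lit 137))))) (XT.nd (nat_lit 156) (nat_lit 0) (nat_lit 0) (XT.nd (nat_lit 78) (nat_lit 0) (nat_lit 0) (XT.lf (nat_lit 0) (nat_lit 157631940968) (nat_lit 76) (nat_lit 9858001397) (nat_lit 152) (nat_lit 855119653082) (nat_lit 2) (nat_lit 5) (nat_lit 3) (nat_lit 5) (nat_lit 4) (nat_lit 4) (nat_lit 247) (nat_lit 217) (nat_lit 136)) (XT.lf (nat_lit 0) (nat_lit 275585052308) (nat_lit 152) (nat_lit 792499082371) (nat_lit 0) (nat_lit 98967051676) (nat_lit 2) (nat_lit 5) (nat_lit 4) (nat_lit 4) (nat_lit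 2) (nat_lit 4) (nat_lit 248) (nat_lit 217) (nat_lit 135))) (XT.nd (nat_lit 78) (nat_lit 0) (nat_lit 0) (XT.lf (nat_lit 0) (nat_lit 400166752384) (nat_lit 152) (nat_lit 709421969221) (nat_lit 0) (nat_lit 223548508973) (nat_lit 2) (nat_lit 5) (nat_lit 4) (nat_lit 4) (nat_lit 2) (nat_lit 4) (nat_lit 249) (nat_lit 217) (nat_lit 134)) (XT.nd (nat_lit 78) (nat_lit 0) (nat_lit 0) (XT.lf (nat_lit 0) (nat_lit 543435425467) (nat_lit 152) (nat_lit 613883808077) (nat_lit 0) (nat_lit 366816970945) (nat_lit 2) (nat_lit 5) (nat_lit 4) (nat_lit 4) (nat_lit 2) (nat_lit 4) (nat_lit 250) (nat_lit 217) (nat_lit 133)) (XT.lf (nat_lit 0) (nat_lit 708194154292) (nat_lit 152) (nat_lit 504015374049) (nat_lit 0) (nat_lit 531575516195) (nat_lit 2) (nat_lit 5) (nat_lit 4) (nat_lit 4) (nat_lit 2) (nat_lit 4) (nat_lit 251) (nat_lit 217) (nat_lit 132))))))))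
noncomputable def xc47 : XT := (XT.nd (nat_lit 29640) (nat_lit 0) (nat_lit 76) (XT.nd (nat_lit 28860) (nat_lit 0) (nat_lit 1064) (XT.nd (nat_lit 390) (nat_lit 0) (nat_lit 0) (XT.nd (nat_lit 156) (nat_lit 76) (nat_lit 0) (XT.nd (nat_lit 78) (nat_lit 0) (nat_lit 0) (XT.lf (nat_lit 0) (nat_lit 897666479205) (nat_lit 152) (nat_lit 377667067341) (nat_lit 0) (nat_lit 721047681477) (nat_lit 2) (nat_lit 5) (nat_lit 4) (nat_lit 4) (nat_lit 2) (nat_lit 4) (nat_lit 252) (nat_lit 217) (nat_lit 131)) (XT.lf (nat_lit 0) (nat_lit 1115559467433) (nat_lit 152) (nat_lit 232366855864) (nat_lit 0) (nat_lit 938940530895) (nat_lit 2) (nat_lit 5) (nat_lit 4) (nat_lit 4) (nat_lit 2) (nat_lit 4) (nat_lit 253) (nat_lit 217) (nat_lit 130))) (XT.nd (nat_lit 78) (nat_lit 76) (nat_lit 0) (XT.lf (nat_lit 0) (nat_lit 1366136242658) (nat_lit 152) (nat_lit 65271909394) (nat_lit 0) (nat_lit 1189517185417) (nat_lit 2) (nat_lit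 5) (nat_lit 4) (nat_lit 4) (nat_lit 2) (nat_lit 4) (nat_lit 254) (nat_lit 217) (nat_lit 129)) (XT.nd (nat_lit 78) (nat_lit 0) (nat_lit 0) (XT.lf (nat_lit 0) (nat_lit 133568666685) (nat_lit 76) (nat_lit 1523943056923) (nat_lit 76) (nat_lit 1347323894721) (nat_lit 1) (nat_lit 4) (nat_lit 2) (nat_lit 5) (nat_lit 2) (nat_lit 4) (nat_lit 255) (nat_lit 217) (nat_lit 128)) (XT.lf (nat_lit 0) (nat_lit 366187761531) (nat_lit 76) (nat_lit 1628305958983) (nat_lit 76) (nat_lit 1451686705512) (nat_lit 1) (nat_lit 4) (nat_lit 2) (nat_lit 5) (nat_lit 2) (nat_lit 4) (nat_lit 256) (nat_lit 217) (nat_lit 127))))) (XT.nd (nat_lit 28236) (nat_lit 0) (nat_lit 2432) (XT.nd (nat_lit 78) (nat_lit 0) (nat_lit 0) (XT.lf (nat_lit 0) (nat_lit 633699515226) (nat_lit 76) (nat_lit 1748323390775) (nat_lit 76) (nat_lit 1571704057939) (nat_lit 1) (nat_lit 4) (nat_lit 2) (nat_lit 5) (nat_lit 2) (nat_lit 4) (nat_lit 257)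 (nat_lit 217) (nat_lit 126)) (XT.lf (nat_lit 0) (nat_lit 941337853385) (nat_lit 76) (nat_lit 1886343519442) (nat_lit 76) (nat_lit 1709724117594) (nat_lit 1) (nat_lit 4) (nat_lit 2) (nat_lit 5) (nat_lit 2) (nat_lit 4) (nat_lit 258) (nat_lit 217) (nat_lit 125))) (XT.nd (nat_lit 78) (nat_lit 0) (nat_lit 76) (XT.lf (nat_lit 0) (nat_lit 7811017575) (nat_lit 532) (nat_lit 8805146999) (nat_lit 532) (nat_lit 8805146999) (nat_lit 33) (nat_lit 3) (nat_lit 40) (nat_lit 3) (nat_lit 40) (nat_lit 5) (nat_lit 218) (nat_lit 218) (nat_lit 164)) (XT.nd (nat_lit 78) (nat_lit 0) (nat_lit 0) (XT.lf (nat_lit 0) (nat_lit 17555804634) (nat_lit 456) (nat_lit 31052255901) (nat_lit 532) (nat_lit 5986554745) (nat_lit 34) (nat_lit 5) (nat_lit 40) (nat_lit 5) (nat_lit 41) (nat_lit 5) (nat_lit 219) (nat_lit 218) (nat_lit 163)) (XT.lf (nat_lit 76) (nat_lit 12767365018) (nat_lit 0) (nat_lit 8757255122) (nat_lit 532)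 (nat_lit 37245229530) (nat_lit 35) (nat_lit 5) (nat_lit 34) (nat_lit 5) (nat_lit 41) (nat_lit 5) (nat_lit 220) (nat_lit 218) (nat_lit 162)))))) (XT.nd (nat_lit 390) (nat_lit 684) (nat_lit 0) (XT.nd (nat_lit 156) (nat_lit 836) (nat_lit 0) (XT.nd (nat_lit 78) (nat_lit 0) (nat_lit 76) (XT.lf (nat_lit 76) (nat_lit 653981599) (nat_lit 0) (nat_lit 27263264790) (nat_lit 532) (nat_lit 35507880181) (nat_lit 36) (nat_lit 5) (nat_lit 35) (nat_lit 5) (nat_lit 42) (nat_lit 5) (nat_lit 221) (nat_lit 218) (nat_lit 161)) (XT.lf (nat_lit 0) (nat_lit 37319450031) (nat_lit 456) (nat_lit 12298913928) (nat_lit 76) (nat_lit 18996308045) (nat_lit 36) (nat_lit 5) (nat_lit 42) (nat_lit 5) (nat_lit 37) (nat_lit 5) (nat_lit 222) (nat_lit 218) (nat_lit 160))) (XT.nd (nat_lit 78) (nat_lit 456) (nat_lit 0) (XT.lf (nat_lit 0) (nat_lit 47354561597) (nat_lit 456) (nat_lit 2665469536) (nat_lit 532) (nat_lit 24411601908)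 (nat_lit 30) (nat_lit 5) (nat_lit 36) (nat_lit 5) (nat_lit 37) (nat_lit 5) (nat_lit 223) (nat_lit 218) (nat_lit 159)) (XT.nd (nat_lit 78) (nat_lit 228) (nat_lit 0) (XT.lf (nat_lit 0) (nat_lit 36169471989) (nat_lit 228) (nat_lit 30923648746) (nat_lit 304) (nat_lit 13830647742) (nat_lit 27) (nat_lit 5) (nat_lit 30) (nat_lit 5) (nat_lit 31) (nat_lit 5) (nat_lit 224) (nat_lit 218) (nat_lit 158)) (XT.lf (nat_lit 0) (nat_lit 424423293) (nat_lit 228) (nat_lit 65517768210) (nat_lit 76) (nat_lit 22290446261) (nat_lit 24) (nat_lit 5) (nat_lit 27) (nat_lit 5) (nat_lit 25) (nat_lit 5) (nat_lit 225) (nat_lit 218) (nat_lit 157))))) (XT.nd (nat_lit 156) (nat_lit 456) (nat_lit 0) (XT.nd (nat_lit 78) (nat_lit 0) (nat_lit 0) (XT.lf (nat_lit 0) (nat_lit 5479243293) (nat_lit 228) (nat_lit 12863171223) (nat_lit 304) (nat_lit 78079213630) (nat_lit 21) (nat_lit 5) (nat_lit 24) (nat_lit 5) (nat_lit 25) (nat_lit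 5) (nat_lit 226) (nat_lit 218) (nat_lit 156)) (XT.lf (nat_lit 0) (nat_lit 42060599306) (nat_lit 304) (nat_lit 15805331549) (nat_lit 76) (nat_lit 47724051220) (nat_lit 21) (nat_lit 5) (nat_lit 25) (nat_lit 5) (nat_lit 22) (nat_lit 5) (nat_lit 227) (nat_lit 218) (nat_lit 155))) (XT.nd (nat_lit 78) (nat_lit 304) (nat_lit 0) (XT.lf (nat_lit 0) (nat_lit 71527291743) (nat_lit 228) (nat_lit 42080785348) (nat_lit 76) (nat_lit 2350262289) (nat_lit 19) (nat_lit 5) (nat_lit 22) (nat_lit 5) (nat_lit 20) (nat_lit 5) (nat_lit 228) (nat_lit 218) (nat_lit 154)) (XT.nd (nat_lit 78) (nat_lit 152) (nat_lit 0) (XT.lf (nat_lit 0) (nat_lit 51063414249) (nat_lit 152) (nat_lit 57648666087) (nat_lit 228) (nat_lit 18906033585) (nat_lit 17) (nat_lit 5) (nat_lit 19) (nat_lit 5) (nat_lit 20) (nat_lit 5) (nat_lit 229) (nat_lit 218) (nat_lit 153)) (XT.lf (nat_lit 0) (nat_lit 11886929261) (nat_lit 152) (nat_lit 120540325722)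 (nat_lit 76) (nat_lit 8422560312) (nat_lit 15) (nat_lit 5) (nat_lit 17) (nat_lit 5) (nat_lit 16) (nat_lit 5) (nat_lit 230) (nat_lit 218) (nat_lit 152))))))) (XT.nd (nat_lit 780) (nat_lit 304) (nat_lit 0) (XT.nd (nat_lit 390) (nat_lit 228) (nat_lit 0) (XT.nd (nat_lit 156) (nat_lit 304) (nat_lit 0) (XT.nd (nat_lit 78) (nat_lit 152) (nat_lit 0) (XT.lf (nat_lit 0) (nat_lit 50090209566) (nat_lit 152) (nat_lit 21727119633) (nat_lit 76) (nat_lit 83896799437) (nat_lit 15) (nat_lit 5) (nat_lit 17) (nat_lit 5) (nat_lit 16) (nat_lit 5) (nat_lit 231) (nat_lit 218) (nat_lit 151)) (XT.lf (nat_lit 0) (nat_lit 96358374702) (nat_lit 228) (nat_lit 75886753421) (nat_lit 76) (nat_lit 376216143) (nat_lit 13) (nat_lit 5) (nat_lit 16) (nat_lit 5) (nat_lit 14) (nat_lit 4) (nat_lit 232) (nat_lit 218) (nat_lit 150))) (XT.nd (nat_lit 78) (nat_lit 228) (nat_lit 0) (XT.lf (nat_lit 0) (nat_lit 42382002812) (nat_lit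 76) (nat_lit 110837642988) (nat_lit 152) (nat_lit 38552771784) (nat_lit 12) (nat_lit 5) (nat_lit 13) (nat_lit 5) (nat_lit 14) (nat_lit 4) (nat_lit 233) (nat_lit 218) (nat_lit 149)) (XT.nd (nat_lit 78) (nat_lit 152) (nat_lit 0) (XT.lf (nat_lit 0) (nat_lit 6838318177) (nat_lit 152) (nat_lit 30808530149) (nat_lit 76) (nat_lit 175958832126) (nat_lit 11) (nat_lit 5) (nat_lit 13) (nat_lit 5) (nat_lit 12) (nat_lit 5) (nat_lit 234) (nat_lit 218) (nat_lit 148)) (XT.lf (nat_lit 0) (nat_lit 60679482066) (nat_lit 228) (nat_lit 129637815995) (nat_lit 76) (nat_lit 48002595942) (nat_lit 9) (nat_lit 5) (nat_lit 12) (nat_lit 5) (nat_lit 10) (nat_lit 4) (nat_lit 235) (nat_lit 218) (nat_lit 147))))) (XT.nd (nat_lit 156) (nat_lit 152) (nat_lit 0) (XT.nd (nat_lit 78) (nat_lit 0) (nat_lit 0) (XT.lf (nat_lit 0) (nat_lit 3395736222) (nat_lit 76) (nat_lit 121242971079) (nat_lit 152) (nat_lit 141939184897) (nat_lit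 8) (nat_lit 5) (nat_lit 9) (nat_lit 5) (nat_lit 10) (nat_lit 4) (nat_lit 236) (nat_lit 218) (nat_lit 146)) (XT.lf (nat_lit 0) (nat_lit 164232888457) (nat_lit 76) (nat_lit 37732056863) (nat_lit 152) (nat_lit 96807797573) (nat_lit 8) (nat_lit 5) (nat_lit 9) (nat_lit 5) (nat_lit 10) (nat_lit 4) (nat_lit 237) (nat_lit 218) (nat_lit 145))) (XT.nd (nat_lit 78) (nat_lit 76) (nat_lit 0) (XT.lf (nat_lit 0) (nat_lit 12626447532) (nat_lit 76) (nat_lit 279968582060) (nat_lit 76) (nat_lit 43065401443) (nat_lit 7) (nat_lit 4) (nat_lit 8) (nat_lit 5) (nat_lit 8) (nat_lit 4) (nat_lit 238) (nat_lit 218) (nat_lit 144)) (XT.nd (nat_lit 78) (nat_lit 0) (nat_lit 0) (XT.lf (nat_lit 0) (nat_lit 22862346912) (nat_lit 152) (nat_lit 189350495220) (nat_lit 76) (nat_lit 165427470907) (nat_lit 6) (nat_lit 5) (nat_lit 8) (nat_lit 5) (nat_lit 7) (nat_lit 4) (nat_lit 239) (nat_lit 218) (nat_lit 143)) (XT.lf (nat_lit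 0) (nat_lit 96200990932) (nat_lit 152) (nat_lit 36806981902) (nat_lit 76) (nat_lit 292813984982) (nat_lit 6) (nat_lit 5) (nat_lit 8) (nat_lit 5) (nat_lit 7) (nat_lit 4) (nat_lit 240) (nat_lit 218) (nat_lit 142)))))) (XT.nd (nat_lit 390) (nat_lit 152) (nat_lit 0) (XT.nd (nat_lit 156) (nat_lit 76) (nat_lit 0) (XT.nd (nat_lit 78) (nat_lit 0) (nat_lit 0) (XT.lf (nat_lit 0) (nat_lit 145916143869) (nat_lit 76) (nat_lit 38132865826) (nat_lit 152) (nat_lit 296901154999) (nat_lit 5) (nat_lit 5) (nat_lit 6) (nat_lit 5) (nat_lit 7) (nat_lit 4) (nat_lit 241) (nat_lit 218) (nat_lit 141)) (XT.lf (nat_lit 0) (nat_lit 287879920231) (nat_lit 152) (nat_lit 187721133729) (nat_lit 0) (nat_lit 68522094951) (nat_lit 5) (nat_lit 5) (nat_lit 7) (nat_lit 4) (nat_lit 5) (nat_lit 4) (nat_lit 242) (nat_lit 218) (nat_lit 140))) (XT.nd (nat_lit 78) (nat_lit 76) (nat_lit 0) (XT.lf (nat_lit 0) (nat_lit 408339558636)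 (nat_lit 152) (nat_lit 19366990081) (nat_lit 0) (nat_lit 188981205976) (nat_lit 5) (nat_lit 5) (nat_lit 7) (nat_lit 4) (nat_lit 5) (nat_lit 4) (nat_lit 243) (nat_lit 218) (nat_lit 139)) (XT.nd (nat_lit 78) (nat_lit 0) (nat_lit 0) (XT.lf (nat_lit 0) (nat_lit 183414529473) (nat_lit 76) (nat_lit 367864241952) (nat_lit 76) (nat_lit 148505430702) (nat_lit 4) (nat_lit 4) (nat_lit 5) (nat_lit 5) (nat_lit 5) (nat_lit 4) (nat_lit 244) (nat_lit 218) (nat_lit 138)) (XT.lf (nat_lit 0) (nat_lit 417785274569) (nat_lit 76) (nat_lit 298436990574) (nat_lit 76) (nat_lit 79077780549) (nat_lit 4) (nat_lit 4) (nat_lit 5) (nat_lit 5) (nat_lit 5) (nat_lit 4) (nat_lit 245) (nat_lit 218) (nat_lit 137))))) (XT.nd (nat_lit 156) (nat_lit 76) (nat_lit 0) (XT.nd (nat_lit 78) (nat_lit 0) (nat_lit 0) (XT.lf (nat_lit 0) (nat_lit 725395592) (nat_lit 152) (nat_lit 217850733953) (nat_lit 76) (nat_lit 686565699214) (nat_lit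 3) (nat_lit 5) (nat_lit 5) (nat_lit 5) (nat_lit 4) (nat_lit 4) (nat_lit 246) (nat_lit 218) (nat_lit 136)) (XT.lf (nat_lit 0) (nat_lit 87949538849) (nat_lit 152) (nat_lit 36424817509) (nat_lit 76) (nat_lit 906910583896) (nat_lit 3) (nat_lit 5) (nat_lit 5) (nat_lit 5) (nat_lit 4) (nat_lit 4) (nat_lit 247) (nat_lit 218) (nat_lit 135))) (XT.nd (nat_lit 78) (nat_lit 0) (nat_lit 0) (XT.lf (nat_lit 0) (nat_lit 181282945354) (nat_lit 76) (nat_lit 11333913237) (nat_lit 152) (nat_lit 983383896052) (nat_lit 2) (nat_lit 5) (nat_lit 3) (nat_lit 5) (nat_lit 4) (nat_lit 4) (nat_lit 248) (nat_lit 218) (nat_lit 134)) (XT.nd (nat_lit 78) (nat_lit 0) (nat_lit 0) (XT.lf (nat_lit 0) (nat_lit 316925846617) (nat_lit 152) (nat_lit 911368356639) (nat_lit 0) (nat_lit 113814412804) (nat_lit 2) (nat_lit 5) (nat_lit 4) (nat_lit 4) (nat_lit 2) (nat_lit 4) (nat_lit 249) (nat_lit 218) (nat_lit 133)) (XT.lf (nat_lit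 0) (nat_lit 460194405644) (nat_lit 152) (nat_lit 815830405397) (nat_lit 0) (nat_lit 257082788256) (nat_lit 2) (nat_lit 5) (nat_lit 4) (nat_lit 4) (nat_lit 2) (nat_lit 4) (nat_lit 250) (nat_lit 218) (nat_lit 132))))))))
noncomputable def xc48 : XT := (XT.nd (nat_lit 29640) (nat_lit 0) (nat_lit 76) (XT.nd (nat_lit 28860) (nat_lit 0) (nat_lit 1368) (XT.nd (nat_lit 312) (nat_lit 76) (nat_lit 0) (XT.nd (nat_lit 156) (nat_lit 0) (nat_lit 0) (XT.nd (nat_lit 78) (nat_lit 0) (nat_lit 0) (XT.lf (nat_lit 0) (nat_lit 624953035289) (nat_lit 152) (nat_lit 705962153892) (nat_lit 0) (nat_lit 421841258271) (nat_lit 2) (nat_lit 5) (nat_lit 4) (nat_lit 4) (nat_lit 2) (nat_lit 4) (nat_lit 251) (nat_lit 218) (nat_lit 131)) (XT.lf (nat_lit 0) (nat_lit 814425273959) (nat_lit 152) (nat_lit 579614005898) (nat_lit 0) (nat_lit 611313358132) (nat_lit 2) (nat_lit 5) (nat_lit 4) (nat_lit 4) (nat_lit 2) (nat_lit 4)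 (nat_lit 252) (nat_lit 218) (nat_lit 130))) (XT.nd (nat_lit 78) (nat_lit 0) (nat_lit 0) (XT.lf (nat_lit 0) (nat_lit 1032318187193) (nat_lit 152) (nat_lit 434313932435) (nat_lit 0) (nat_lit 829206150662) (nat_lit 2) (nat_lit 5) (nat_lit 4) (nat_lit 4) (nat_lit 2) (nat_lit 4) (nat_lit 253) (nat_lit 218) (nat_lit 129)) (XT.lf (nat_lit 0) (nat_lit 1282894897207) (nat_lit 152) (nat_lit 267219105976) (nat_lit 0) (nat_lit 1079782755715) (nat_lit 2) (nat_lit 5) (nat_lit 4) (nat_lit 4) (nat_lit 2) (nat_lit 4) (nat_lit 254) (nat_lit 218) (nat_lit 128)))) (XT.nd (nat_lit 156) (nat_lit 0) (nat_lit 0) (XT.nd (nat_lit 78) (nat_lit 76) (nat_lit 0) (XT.lf (nat_lit 0) (nat_lit 1571057991804) (nat_lit 152) (nat_lit 75060279918) (nat_lit 0) (nat_lit 1367945759043) (nat_lit 2) (nat_lit 5) (nat_lit 4) (nat_lit 4) (nat_lit 2) (nat_lit 4) (nat_lit 255) (nat_lit 218) (nat_lit 127)) (XT.lf (nat_lit 0) (nat_lit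 153606178080) (nat_lit 76) (nat_lit 1752533498772) (nat_lit 76) (nat_lit 1549421186646) (nat_lit 1) (nat_lit 4) (nat_lit 2) (nat_lit 5) (nat_lit 2) (nat_lit 4) (nat_lit 256) (nat_lit 218) (nat_lit 126))) (XT.nd (nat_lit 78) (nat_lit 0) (nat_lit 0) (XT.lf (nat_lit 0) (nat_lit 421117848710) (nat_lit 76) (nat_lit 1872550968753) (nat_lit 76) (nat_lit 1669438587614) (nat_lit 1) (nat_lit 4) (nat_lit 2) (nat_lit 5) (nat_lit 2) (nat_lit 4) (nat_lit 257) (nat_lit 218) (nat_lit 125)) (XT.nd (nat_lit 28236) (nat_lit 0) (nat_lit 2432) (XT.lf (nat_lit 0) (nat_lit 728756114639) (nat_lit 76) (nat_lit 2010571130628) (nat_lit 76) (nat_lit 1807458689478) (nat_lit 1) (nat_lit 4) (nat_lit 2) (nat_lit 5) (nat_lit 2) (nat_lit 4) (nat_lit 258) (nat_lit 218) (nat_lit 124)) (XT.lf (nat_lit 0) (nat_lit 9021423799) (nat_lit 532) (nat_lit 10104879353) (nat_lit 532) (nat_lit 10104879353) (nat_lit 33) (nat_lit 3)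 (nat_lit 40) (nat_lit 3) (nat_lit 40) (nat_lit 5) (nat_lit 219) (nat_lit 219) (nat_lit 162)))))) (XT.nd (nat_lit 390) (nat_lit 836) (nat_lit 0) (XT.nd (nat_lit 156) (nat_lit 304) (nat_lit 0) (XT.nd (nat_lit 78) (nat_lit 0) (nat_lit 0) (XT.lf (nat_lit 0) (nat_lit 20256782379) (nat_lit 456) (nat_lit 35665001749) (nat_lit 532) (nat_lit 6856222676) (nat_lit 34) (nat_lit 5) (nat_lit 40) (nat_lit 5) (nat_lit 41) (nat_lit 5) (nat_lit 220) (nat_lit 219) (nat_lit 161)) (XT.lf (nat_lit 76) (nat_lit 14723745448) (nat_lit 0) (nat_lit 10089349132) (nat_lit 532) (nat_lit 42767108981) (nat_lit 35) (nat_lit 5) (nat_lit 34) (nat_lit 5) (nat_lit 41) (nat_lit 5) (nat_lit 221) (nat_lit 219) (nat_lit 160))) (XT.nd (nat_lit 78) (nat_lit 380) (nat_lit 0) (XT.lf (nat_lit 76) (nat_lit 794958003) (nat_lit 0) (nat_lit 31362503422) (nat_lit 532) (nat_lit 40776927324) (nat_lit 36) (nat_lit 5) (nat_lit 35) (nat_lit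 5) (nat_lit 42) (nat_lit 5) (nat_lit 222) (nat_lit 219) (nat_lit 159)) (XT.nd (nat_lit 78) (nat_lit 456) (nat_lit 0) (XT.lf (nat_lit 0) (nat_lit 42962927201) (nat_lit 456) (nat_lit 14102341946) (nat_lit 76) (nat_lit 21837701005) (nat_lit 36) (nat_lit 5) (nat_lit 42) (nat_lit 5) (nat_lit 37) (nat_lit 5) (nat_lit 223) (nat_lit 219) (nat_lit 158)) (XT.lf (nat_lit 0) (nat_lit 54495649837) (nat_lit 456) (nat_lit 3067914659) (nat_lit 532) (nat_lit 28029346964) (nat_lit 30) (nat_lit 5) (nat_lit 36) (nat_lit 5) (nat_lit 37) (nat_lit 5) (nat_lit 224) (nat_lit 219) (nat_lit 157))))) (XT.nd (nat_lit 156) (nat_lit 380) (nat_lit 0) (XT.nd (nat_lit 78) (nat_lit 228) (nat_lit 0) (XT.lf (nat_lit 0) (nat_lit 41632819297) (nat_lit 228) (nat_lit 35560369133) (nat_lit 304) (nat_lit 15866062358) (nat_lit 27) (nat_lit 5) (nat_lit 30) (nat_lit 5) (nat_lit 31) (nat_lit 5) (nat_lit 225) (nat_lit 219) (nat_lit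 156)) (XT.lf (nat_lit 0) (nat_lit 521418608) (nat_lit 228) (nat_lit 75306023242) (nat_lit 76) (nat_lit 25637268033) (nat_lit 24) (nat_lit 5) (nat_lit 27) (nat_lit 5) (nat_lit 25) (nat_lit 5) (nat_lit 226) (nat_lit 219) (nat_lit 155))) (XT.nd (nat_lit 78) (nat_lit 152) (nat_lit 0) (XT.lf (nat_lit 0) (nat_lit 6337204109) (nat_lit 228) (nat_lit 14786424366) (nat_lit 304) (nat_lit 89758719230) (nat_lit 21) (nat_lit 5) (nat_lit 24) (nat_lit 5) (nat_lit 25) (nat_lit 5) (nat_lit 227) (nat_lit 219) (nat_lit 154)) (XT.nd (nat_lit 78) (nat_lit 152) (nat_lit 0) (XT.lf (nat_lit 0) (nat_lit 48395777405) (nat_lit 304) (nat_lit 18142697079) (nat_lit 76) (nat_lit 54887799133) (nat_lit 21) (nat_lit 5) (nat_lit 25) (nat_lit 5) (nat_lit 22) (nat_lit 5) (nat_lit 228) (nat_lit 219) (nat_lit 153)) (XT.lf (nat_lit 0) (nat_lit 82279979674) (nat_lit 228) (nat_lit 48360494787) (nat_lit 76) (nat_lit 2709625062)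 (nat_lit 19) (nat_lit 5) (nat_lit 22) (nat_lit 5) (nat_lit 20) (nat_lit 5) (nat_lit 229) (nat_lit 219) (nat_lit 152))))))) (XT.nd (nat_lit 780) (nat_lit 380) (nat_lit 0) (XT.nd (nat_lit 390) (nat_lit 380) (nat_lit 0) (XT.nd (nat_lit 156) (nat_lit 228) (nat_lit 0) (XT.nd (nat_lit 78) (nat_lit 152) (nat_lit 0) (XT.lf (nat_lit 0) (nat_lit 58752591543) (nat_lit 152) (nat_lit 66287530960) (nat_lit 228) (nat_lit 21718920331) (nat_lit 17) (nat_lit 5) (nat_lit 19) (nat_lit 5) (nat_lit 20) (nat_lit 5) (nat_lit 230) (nat_lit 219) (nat_lit 151)) (XT.lf (nat_lit 0) (nat_lit 13689870090) (nat_lit 152) (nat_lit 138591649060) (nat_lit 76) (nat_lit 9694104050) (nat_lit 15) (nat_lit 5) (nat_lit 17) (nat_lit 5) (nat_lit 16) (nat_lit 5) (nat_lit 231) (nat_lit 219) (nat_lit 150))) (XT.nd (nat_lit 78) (nat_lit 228) (nat_lit 0) (XT.lf (nat_lit 0) (nat_lit 57621046601) (nat_lit 152) (nat_lit 24960339299) (nat_lit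 76) (nat_lit 96488414736) (nat_lit 15) (nat_lit 5) (nat_lit 17) (nat_lit 5) (nat_lit 16) (nat_lit 5) (nat_lit 232) (nat_lit 219) (nat_lit 149)) (XT.nd (nat_lit 78) (nat_lit 76) (nat_lit 0) (XT.lf (nat_lit 0) (nat_lit 110827941721) (nat_lit 228) (nat_lit 87244995477) (nat_lit 76) (nat_lit 440289194) (nat_lit 13) (nat_lit 5) (nat_lit 16) (nat_lit 5) (nat_lit 14) (nat_lit 4) (nat_lit 233) (nat_lit 219) (nat_lit 148)) (XT.lf (nat_lit 0) (nat_lit 48761977453) (nat_lit 76) (nat_lit 127454909065) (nat_lit 152) (nat_lit 44320202674) (nat_lit 12) (nat_lit 5) (nat_lit 13) (nat_lit 5) (nat_lit 14) (nat_lit 4) (nat_lit 234) (nat_lit 219) (nat_lit 147))))) (XT.nd (nat_lit 156) (nat_lit 152) (nat_lit 0) (XT.nd (nat_lit 78) (nat_lit 152) (nat_lit 0) (XT.lf (nat_lit 0) (nat_lit 7876857436) (nat_lit 152) (nat_lit 35409381117) (nat_lit 76) (nat_lit 202359232383) (nat_lit 11) (nat_lit 5) (nat_lit 13) (nat_lit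 5) (nat_lit 12) (nat_lit 5) (nat_lit 235) (nat_lit 219) (nat_lit 146)) (XT.lf (nat_lit 0) (nat_lit 69793148563) (nat_lit 228) (nat_lit 149064001315) (nat_lit 76) (nat_lit 55209755419) (nat_lit 9) (nat_lit 5) (nat_lit 12) (nat_lit 5) (nat_lit 10) (nat_lit 4) (nat_lit 236) (nat_lit 219) (nat_lit 145))) (XT.nd (nat_lit 78) (nat_lit 76) (nat_lit 0) (XT.lf (nat_lit 0) (nat_lit 3922934251) (nat_lit 76) (nat_lit 139422220476) (nat_lit 152) (nat_lit 163218541063) (nat_lit 8) (nat_lit 5) (nat_lit 9) (nat_lit 5) (nat_lit 10) (nat_lit 4) (nat_lit 237) (nat_lit 219) (nat_lit 144)) (XT.nd (nat_lit 78) (nat_lit 76) (nat_lit 0) (XT.lf (nat_lit 0) (nat_lit 188883332678) (nat_lit 76) (nat_lit 43385607771) (nat_lit 152) (nat_lit 111318948453) (nat_lit 8) (nat_lit 5) (nat_lit 9) (nat_lit 5) (nat_lit 10) (nat_lit 4) (nat_lit 238) (nat_lit 219) (nat_lit 143)) (XT.lf (nat_lit 0) (nat_lit 14535175568) (nat_lit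 76) (nat_lit 321957640705) (nat_lit 76) (nat_lit 49515974962) (nat_lit 7) (nat_lit 4) (nat_lit 8) (nat_lit 5) (nat_lit 8) (nat_lit 4) (nat_lit 239) (nat_lit 219) (nat_lit 142)))))) (XT.nd (nat_lit 390) (nat_lit 228) (nat_lit 0) (XT.nd (nat_lit 156) (nat_lit 76) (nat_lit 0) (XT.nd (nat_lit 78) (nat_lit 0) (nat_lit 0) (XT.lf (nat_lit 0) (nat_lit 26299329071) (nat_lit 152) (nat_lit 217739814530) (nat_lit 76) (nat_lit 190246588371) (nat_lit 6) (nat_lit 5) (nat_lit 8) (nat_lit 5) (nat_lit 7) (nat_lit 4) (nat_lit 240) (nat_lit 219) (nat_lit 141)) (XT.lf (nat_lit 0) (nat_lit 110637774460) (nat_lit 152) (nat_lit 42316503124) (nat_lit 76) (nat_lit 336740427797) (nat_lit 6) (nat_lit 5) (nat_lit 8) (nat_lit 5) (nat_lit 7) (nat_lit 4) (nat_lit 241) (nat_lit 219) (nat_lit 140))) (XT.nd (nat_lit 78) (nat_lit 0) (nat_lit 0) (XT.lf (nat_lit 0) (nat_lit 167814115889) (nat_lit 76) (nat_lit 43848268467)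 (nat_lit 152) (nat_lit 341429809867) (nat_lit 5) (nat_lit 5) (nat_lit 6) (nat_lit 5) (nat_lit 7) (nat_lit 4) (nat_lit 242) (nat_lit 219) (nat_lit 139)) (XT.nd (nat_lit 78) (nat_lit 0) (nat_lit 0) (XT.lf (nat_lit 0) (nat_lit 331067240515) (nat_lit 152) (nat_lit 215869793584) (nat_lit 0) (nat_lit 78804148986) (nat_lit 5) (nat_lit 5) (nat_lit 7) (nat_lit 4) (nat_lit 5) (nat_lit 4) (nat_lit 243) (nat_lit 219) (nat_lit 138)) (XT.lf (nat_lit 0) (nat_lit 469595129170) (nat_lit 152) (nat_lit 22263768851) (nat_lit 0) (nat_lit 217331638866) (nat_lit 5) (nat_lit 5) (nat_lit 7) (nat_lit 4) (nat_lit 5) (nat_lit 4) (nat_lit 244) (nat_lit 219) (nat_lit 137))))) (XT.nd (nat_lit 156) (nat_lit 152) (nat_lit 0) (XT.nd (nat_lit 78) (nat_lit 0) (nat_lit 0) (XT.lf (nat_lit 0) (nat_lit 210934278644) (nat_lit 76) (nat_lit 423040522494) (nat_lit 76) (nat_lit 170776685431) (nat_lit 4) (nat_lit 4) (nat_lit 5) (nat_lit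 5) (nat_lit 5) (nat_lit 4) (nat_lit 245) (nat_lit 219) (nat_lit 136)) (XT.lf (nat_lit 0) (nat_lit 480459648146) (nat_lit 76) (nat_lit 343199621116) (nat_lit 76) (nat_lit 90935482522) (nat_lit 4) (nat_lit 4) (nat_lit 5) (nat_lit 5) (nat_lit 5) (nat_lit 4) (nat_lit 246) (nat_lit 219) (nat_lit 135))) (XT.nd (nat_lit 78) (nat_lit 76) (nat_lit 0) (XT.lf (nat_lit 0) (nat_lit 837480373) (nat_lit 152) (nat_lit 250522441617) (nat_lit 76) (nat_lit 789552912916) (nat_lit 3) (nat_lit 5) (nat_lit 5) (nat_lit 5) (nat_lit 4) (nat_lit 4) (nat_lit 247) (nat_lit 219) (nat_lit 134)) (XT.nd (nat_lit 78) (nat_lit 76) (nat_lit 0) (XT.lf (nat_lit 0) (nat_lit 101144817887) (nat_lit 152) (nat_lit 41883407589) (nat_lit 76) (nat_lit 1042949222628) (nat_lit 3) (nat_lit 5) (nat_lit 5) (nat_lit 5) (nat_lit 4) (nat_lit 4) (nat_lit 248) (nat_lit 219) (nat_lit 133)) (XT.lf (nat_lit 0) (nat_lit 208480085259) (nat_lit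 76) (nat_lit 13031891815) (nat_lit 152) (nat_lit 1130888678954) (nat_lit 2) (nat_lit 5) (nat_lit 3) (nat_lit 5) (nat_lit 4) (nat_lit 4) (nat_lit 249) (nat_lit 219) (nat_lit 132))))))))
noncomputable def xc49 : XT := (XT.nd (nat_lit 29796) (nat_lit 0) (nat_lit 76) (XT.nd (nat_lit 29016) (nat_lit 0) (nat_lit 1368) (XT.nd (nat_lit 312) (nat_lit 76) (nat_lit 0) (XT.nd (nat_lit 156) (nat_lit 0) (nat_lit 0) (XT.nd (nat_lit 78) (nat_lit 0) (nat_lit 0) (XT.lf (nat_lit 0) (nat_lit 364467019611) (nat_lit 152) (nat_lit 1048069384738) (nat_lit 0) (nat_lit 130888316409) (nat_lit 2) (nat_lit 5) (nat_lit 4) (nat_lit 4) (nat_lit 2) (nat_lit 4) (nat_lit 250) (nat_lit 219) (nat_lit 131)) (XT.lf (nat_lit 0) (nat_lit 529225563014) (nat_lit 152) (nat_lit 938201291948) (nat_lit 0) (nat_lit 295646721002) (nat_lit 2) (nat_lit 5) (nat_lit 4) (nat_lit 4) (nat_lit 2) (nat_lit 4) (nat_lit 251) (nat_lit 219) (nat_lit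 130))) (XT.nd (nat_lit 78) (nat_lit 0) (nat_lit 0) (XT.lf (nat_lit 0) (nat_lit 718697726690) (nat_lit 152) (nat_lit 811853281968) (nat_lit 0) (nat_lit 485118763975) (nat_lit 2) (nat_lit 5) (nat_lit 4) (nat_lit 4) (nat_lit 2) (nat_lit 4) (nat_lit 252) (nat_lit 219) (nat_lit 129)) (XT.lf (nat_lit 0) (nat_lit 936590574712) (nat_lit 152) (nat_lit 666553328516) (nat_lit 0) (nat_lit 703011507037) (nat_lit 2) (nat_lit 5) (nat_lit 4) (nat_lit 4) (nat_lit 2) (nat_lit 4) (nat_lit 253) (nat_lit 219) (nat_lit 128)))) (XT.nd (nat_lit 156) (nat_lit 76) (nat_lit 0) (XT.nd (nat_lit 78) (nat_lit 0) (nat_lit 0) (XT.lf (nat_lit 0) (nat_lit 1187167228019) (nat_lit 152) (nat_lit 499458606416) (nat_lit 0) (nat_lit 953588069075) (nat_lit 2) (nat_lit 5) (nat_lit 4) (nat_lit 4) (nat_lit 2) (nat_lit 4) (nat_lit 254) (nat_lit 219) (nat_lit 127)) (XT.lf (nat_lit 0) (nat_lit 1475330273306) (nat_lit 152) (nat_lit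 307299871104) (nat_lit 0) (nat_lit 1241751034997) (nat_lit 2) (nat_lit 5) (nat_lit 4) (nat_lit 4) (nat_lit 2) (nat_lit 4) (nat_lit 255) (nat_lit 219) (nat_lit 126))) (XT.nd (nat_lit 78) (nat_lit 76) (nat_lit 0) (XT.lf (nat_lit 0) (nat_lit 1806717683199) (nat_lit 152) (nat_lit 86317495150) (nat_lit 0) (nat_lit 1573138375878) (nat_lit 2) (nat_lit 5) (nat_lit 4) (nat_lit 4) (nat_lit 2) (nat_lit 4) (nat_lit 256) (nat_lit 219) (nat_lit 125)) (XT.nd (nat_lit 28392) (nat_lit 0) (nat_lit 2432) (XT.lf (nat_lit 0) (nat_lit 176648776922) (nat_lit 76) (nat_lit 2015412754824) (nat_lit 76) (nat_lit 1781833387491) (nat_lit 1) (nat_lit 4) (nat_lit 2) (nat_lit 5) (nat_lit 2) (nat_lit 4) (nat_lit 257) (nat_lit 219) (nat_lit 124)) (XT.lf (nat_lit 0) (nat_lit 10403940649) (nat_lit 532) (nat_lit 11604702224) (nat_lit 532) (nat_lit 11604702224) (nat_lit 33) (nat_lit 3) (nat_lit 40) (nat_lit 3) (nat_lit 40)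 (nat_lit 5) (nat_lit 220) (nat_lit 220) (nat_lit 160)))))) (XT.nd (nat_lit 390) (nat_lit 836) (nat_lit 0) (XT.nd (nat_lit 156) (nat_lit 304) (nat_lit 0) (XT.nd (nat_lit 78) (nat_lit 0) (nat_lit 0) (XT.lf (nat_lit 0) (nat_lit 23346420379) (nat_lit 456) (nat_lit 40980655576) (nat_lit 532) (nat_lit 7863245658) (nat_lit 34) (nat_lit 5) (nat_lit 40) (nat_lit 5) (nat_lit 41) (nat_lit 5) (nat_lit 221) (nat_lit 220) (nat_lit 159)) (XT.lf (nat_lit 76) (nat_lit 16963517608) (nat_lit 0) (nat_lit 11616744502) (nat_lit 532) (nat_lit 49133097838) (nat_lit 35) (nat_lit 5) (nat_lit 34) (nat_lit 5) (nat_lit 41) (nat_lit 5) (nat_lit 222) (nat_lit 220) (nat_lit 158))) (XT.nd (nat_lit 78) (nat_lit 380) (nat_lit 0) (XT.lf (nat_lit 76) (nat_lit 946624512) (nat_lit 0) (nat_lit 36074250515) (nat_lit 532) (nat_lit 46850264241) (nat_lit 36) (nat_lit 5) (nat_lit 35) (nat_lit 5) (nat_lit 42) (nat_lit 5) (nat_lit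 223) (nat_lit 220) (nat_lit 157)) (XT.nd (nat_lit 78) (nat_lit 456) (nat_lit 0) (XT.lf (nat_lit 0) (nat_lit 49441815934) (nat_lit 456) (nat_lit 16186382030) (nat_lit 76) (nat_lit 25107266745) (nat_lit 36) (nat_lit 5) (nat_lit 42) (nat_lit 5) (nat_lit 37) (nat_lit 5) (nat_lit 224) (nat_lit 220) (nat_lit 156)) (XT.lf (nat_lit 0) (nat_lit 62698658182) (nat_lit 456) (nat_lit 3530086502) (nat_lit 532) (nat_lit 32200482293) (nat_lit 30) (nat_lit 5) (nat_lit 36) (nat_lit 5) (nat_lit 37) (nat_lit 5) (nat_lit 225) (nat_lit 220) (nat_lit 155))))) (XT.nd (nat_lit 156) (nat_lit 380) (nat_lit 0) (XT.nd (nat_lit 78) (nat_lit 228) (nat_lit 0) (XT.lf (nat_lit 0) (nat_lit 47906420082) (nat_lit 228) (nat_lit 40893043086) (nat_lit 304) (nat_lit 18216344079) (nat_lit 27) (nat_lit 5) (nat_lit 30) (nat_lit 5) (nat_lit 31) (nat_lit 5) (nat_lit 226) (nat_lit 220) (nat_lit 154)) (XT.lf (nat_lit 0) (nat_lit 624835045)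 (nat_lit 228) (nat_lit 86572126957) (nat_lit 76) (nat_lit 29485319358) (nat_lit 24) (nat_lit 5) (nat_lit 27) (nat_lit 5) (nat_lit 25) (nat_lit 5) (nat_lit 227) (nat_lit 220) (nat_lit 153))) (XT.nd (nat_lit 78) (nat_lit 152) (nat_lit 0) (XT.lf (nat_lit 0) (nat_lit 7315062095) (nat_lit 228) (nat_lit 16999682886) (nat_lit 304) (nat_lit 103198045871) (nat_lit 21) (nat_lit 5) (nat_lit 24) (nat_lit 5) (nat_lit 25) (nat_lit 5) (nat_lit 228) (nat_lit 220) (nat_lit 152)) (XT.nd (nat_lit 78) (nat_lit 152) (nat_lit 0) (XT.lf (nat_lit 0) (nat_lit 55674870445) (nat_lit 304) (nat_lit 20838820580) (nat_lit 76) (nat_lit 63124855755) (nat_lit 21) (nat_lit 5) (nat_lit 25) (nat_lit 5) (nat_lit 22) (nat_lit 5) (nat_lit 229) (nat_lit 220) (nat_lit 151)) (XT.lf (nat_lit 0) (nat_lit 94639817207) (nat_lit 228) (nat_lit 55590063626) (nat_lit 76) (nat_lit 3121228315) (nat_lit 19) (nat_lit 5) (nat_lit 22) (nat_lit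 5) (nat_lit 20) (nat_lit 5) (nat_lit 230) (nat_lit 220) (nat_lit 150))))))) (XT.nd (nat_lit 780) (nat_lit 380) (nat_lit 0) (XT.nd (nat_lit 390) (nat_lit 380) (nat_lit 0) (XT.nd (nat_lit 156) (nat_lit 228) (nat_lit 0) (XT.nd (nat_lit 78) (nat_lit 152) (nat_lit 0) (XT.lf (nat_lit 0) (nat_lit 67587911395) (nat_lit 152) (nat_lit 76224282502) (nat_lit 228) (nat_lit 24959353246) (nat_lit 17) (nat_lit 5) (nat_lit 19) (nat_lit 5) (nat_lit 20) (nat_lit 5) (nat_lit 231) (nat_lit 220) (nat_lit 149)) (XT.lf (nat_lit 0) (nat_lit 15758398952) (nat_lit 152) (nat_lit 159357919654) (nat_lit 76) (nat_lit 11154389557) (nat_lit 15) (nat_lit 5) (nat_lit 17) (nat_lit 5) (nat_lit 16) (nat_lit 5) (nat_lit 232) (nat_lit 220) (nat_lit 148))) (XT.nd (nat_lit 78) (nat_lit 228) (nat_lit 0) (XT.lf (nat_lit 0) (nat_lit 66277289110) (nat_lit 152) (nat_lit 28684845182) (nat_lit 76) (nat_lit 110967042077) (nat_lit 15)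 (nat_lit 5) (nat_lit 17) (nat_lit 5) (nat_lit 16) (nat_lit 5) (nat_lit 233) (nat_lit 220) (nat_lit 147)) (XT.nd (nat_lit 78) (nat_lit 76) (nat_lit 0) (XT.lf (nat_lit 0) (nat_lit 127464088225) (nat_lit 228) (nat_lit 100313014396) (nat_lit 76) (nat_lit 512109987) (nat_lit 13) (nat_lit 5) (nat_lit 16) (nat_lit 5) (nat_lit 14) (nat_lit 4) (nat_lit 234) (nat_lit 220) (nat_lit 146)) (XT.lf (nat_lit 0) (nat_lit 56093419039) (nat_lit 76) (nat_lit 146566808661) (nat_lit 152) (nat_lit 50956524282) (nat_lit 12) (nat_lit 5) (nat_lit 13) (nat_lit 5) (nat_lit 14) (nat_lit 4) (nat_lit 235) (nat_lit 220) (nat_lit 145))))) (XT.nd (nat_lit 156) (nat_lit 152) (nat_lit 0) (XT.nd (nat_lit 78) (nat_lit 152) (nat_lit 0) (XT.lf (nat_lit 0) (nat_lit 9068058288) (nat_lit 152) (nat_lit 40705341363) (nat_lit 76) (nat_lit 232718089215) (nat_lit 11) (nat_lit 5) (nat_lit 13) (nat_lit 5) (nat_lit 12) (nat_lit 5) (nat_lit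 236) (nat_lit 220) (nat_lit 144)) (XT.lf (nat_lit 0) (nat_lit 80271001139) (nat_lit 228) (nat_lit 171408866481) (nat_lit 76) (nat_lit 63496337890) (nat_lit 9) (nat_lit 5) (nat_lit 12) (nat_lit 5) (nat_lit 10) (nat_lit 4) (nat_lit 237) (nat_lit 220) (nat_lit 143))) (XT.nd (nat_lit 78) (nat_lit 76) (nat_lit 0) (XT.lf (nat_lit 0) (nat_lit 4524862173) (nat_lit 76) (nat_lit 160330112138) (nat_lit 152) (nat_lit 187692610261) (nat_lit 8) (nat_lit 5) (nat_lit 9) (nat_lit 5) (nat_lit 10) (nat_lit 4) (nat_lit 238) (nat_lit 220) (nat_lit 142)) (XT.nd (nat_lit 78) (nat_lit 76) (nat_lit 0) (XT.lf (nat_lit 0) (nat_lit 217227561088) (nat_lit 76) (nat_lit 49888717277) (nat_lit 152) (nat_lit 128009215103) (nat_lit 8) (nat_lit 5) (nat_lit 9) (nat_lit 5) (nat_lit 10) (nat_lit 4) (nat_lit 239) (nat_lit 220) (nat_lit 141)) (XT.lf (nat_lit 0) (nat_lit 16726613268) (nat_lit 76) (nat_lit 370246577046) (nat_lit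 76) (nat_lit 56936386937) (nat_lit 7) (nat_lit 4) (nat_lit 8) (nat_lit 5) (nat_lit 8) (nat_lit 4) (nat_lit 240) (nat_lit 220) (nat_lit 140)))))) (XT.nd (nat_lit 390) (nat_lit 228) (nat_lit 0) (XT.nd (nat_lit 156) (nat_lit 76) (nat_lit 0) (XT.nd (nat_lit 78) (nat_lit 0) (nat_lit 0) (XT.lf (nat_lit 0) (nat_lit 30249997899) (nat_lit 152) (nat_lit 250390764046) (nat_lit 76) (nat_lit 218787354946) (nat_lit 6) (nat_lit 5) (nat_lit 8) (nat_lit 5) (nat_lit 7) (nat_lit 4) (nat_lit 241) (nat_lit 220) (nat_lit 139)) (XT.lf (nat_lit 0) (nat_lit 127238457559) (nat_lit 152) (nat_lit 48655263233) (nat_lit 76) (nat_lit 387254777461) (nat_lit 6) (nat_lit 5) (nat_lit 8) (nat_lit 5) (nat_lit 7) (nat_lit 4) (nat_lit 242) (nat_lit 220) (nat_lit 138))) (XT.nd (nat_lit 78) (nat_lit 0) (nat_lit 0) (XT.lf (nat_lit 0) (nat_lit 192994210921) (nat_lit 76) (nat_lit 50422085499) (nat_lit 152) (nat_lit 392639352515)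 (nat_lit 5) (nat_lit 5) (nat_lit 6) (nat_lit 5) (nat_lit 7) (nat_lit 4) (nat_lit 243) (nat_lit 220) (nat_lit 137)) (XT.nd (nat_lit 78) (nat_lit 0) (nat_lit 0) (XT.lf (nat_lit 0) (nat_lit 380731358539) (nat_lit 152) (nat_lit 248243071541) (nat_lit 0) (nat_lit 90627599156) (nat_lit 5) (nat_lit 5) (nat_lit 7) (nat_lit 4) (nat_lit 5) (nat_lit 4) (nat_lit 244) (nat_lit 220) (nat_lit 136)) (XT.lf (nat_lit 0) (nat_lit 540037904585) (nat_lit 152) (nat_lit 25597081065) (nat_lit 0) (nat_lit 249933843671) (nat_lit 5) (nat_lit 5) (nat_lit 7) (nat_lit 4) (nat_lit 5) (nat_lit 4) (nat_lit 245) (nat_lit 220) (nat_lit 135))))) (XT.nd (nat_lit 156) (nat_lit 152) (nat_lit 0) (XT.nd (nat_lit 78) (nat_lit 0) (nat_lit 0) (XT.lf (nat_lit 0) (nat_lit 242580144260) (nat_lit 76) (nat_lit 486494063439) (nat_lit 76) (nat_lit 196389740324) (nat_lit 4) (nat_lit 4) (nat_lit 5) (nat_lit 5) (nat_lit 5) (nat_lit 4) (nat_lit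 246) (nat_lit 220) (nat_lit 134)) (XT.lf (nat_lit 0) (nat_lit 552533572601) (nat_lit 76) (nat_lit 394677357823) (nat_lit 76) (nat_lit 104572806707) (nat_lit 4) (nat_lit 4) (nat_lit 5) (nat_lit 5) (nat_lit 5) (nat_lit 4) (nat_lit 247) (nat_lit 220) (nat_lit 133))) (XT.nd (nat_lit 78) (nat_lit 76) (nat_lit 0) (XT.lf (nat_lit 0) (nat_lit 965579135) (nat_lit 152) (nat_lit 288096344776) (nat_lit 76) (nat_lit 907987633460) (nat_lit 3) (nat_lit 5) (nat_lit 5) (nat_lit 5) (nat_lit 4) (nat_lit 4) (nat_lit 248) (nat_lit 220) (nat_lit 132)) (XT.nd (nat_lit 78) (nat_lit 76) (nat_lit 0) (XT.lf (nat_lit 0) (nat_lit 116318694227) (nat_lit 152) (nat_lit 48162037784) (nat_lit 76) (nat_lit 1199393156984) (nat_lit 3) (nat_lit 5) (nat_lit 5) (nat_lit 5) (nat_lit 4) (nat_lit 4) (nat_lit 249) (nat_lit 220) (nat_lit 131)) (XT.lf (nat_lit 0) (nat_lit 239755650488) (nat_lit 76) (nat_lit 14985081329) (nat_lit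 152) (nat_lit 1300519862456) (nat_lit 2) (nat_lit 5) (nat_lit 3) (nat_lit 5) (nat_lit 4) (nat_lit 4) (nat_lit 250) (nat_lit 220) (nat_lit 130))))))))
noncomputable def xc50 : XT := (XT.nd (nat_lit 29874) (nat_lit 0) (nat_lit 0) (XT.nd (nat_lit 29094) (nat_lit 0) (nat_lit 1140) (XT.nd (nat_lit 312) (nat_lit 0) (nat_lit 0) (XT.nd (nat_lit 156) (nat_lit 0) (nat_lit 0) (XT.nd (nat_lit 78) (nat_lit 0) (nat_lit 0) (XT.lf (nat_lit 0) (nat_lit 419138808660) (nat_lit 152) (nat_lit 1205276597442) (nat_lit 0) (nat_lit 150522880834) (nat_lit 2) (nat_lit 5) (nat_lit 4) (nat_lit 4) (nat_lit 2) (nat_lit 4) (nat_lit 251) (nat_lit 220) (nat_lit 129)) (XT.lf (nat_lit 0) (nat_lit 608610907124) (nat_lit 152) (nat_lit 1078928707473) (nat_lit 0) (nat_lit 339994874338) (nat_lit 2) (nat_lit 5) (nat_lit 4) (nat_lit 4) (nat_lit 2) (nat_lit 4) (nat_lit 252) (nat_lit 220) (nat_lit 128))) (XT.nd (nat_lit 78) (nat_lit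 0) (nat_lit 0) (XT.lf (nat_lit 0) (nat_lit 826503698440) (nat_lit 152) (nat_lit 933628858379) (nat_lit 0) (nat_lit 557887574385) (nat_lit 2) (nat_lit 5) (nat_lit 4) (nat_lit 4) (nat_lit 2) (nat_lit 4) (nat_lit 253) (nat_lit 220) (nat_lit 127)) (XT.lf (nat_lit 0) (nat_lit 1077080302437) (nat_lit 152) (nat_lit 766534227024) (nat_lit 0) (nat_lit 808464099017) (nat_lit 2) (nat_lit 5) (nat_lit 4) (nat_lit 4) (nat_lit 2) (nat_lit 4) (nat_lit 254) (nat_lit 220) (nat_lit 126)))) (XT.nd (nat_lit 156) (nat_lit 0) (nat_lit 0) (XT.nd (nat_lit 78) (nat_lit 0) (nat_lit 0) (XT.lf (nat_lit 0) (nat_lit 1365243304847) (nat_lit 152) (nat_lit 574375570622) (nat_lit 0) (nat_lit 1096627032414) (nat_lit 2) (nat_lit 5) (nat_lit 4) (nat_lit 4) (nat_lit 2) (nat_lit 4) (nat_lit 255) (nat_lit 220) (nat_lit 125)) (XT.lf (nat_lit 0) (nat_lit 1696630677454) (nat_lit 152) (nat_lit 353393263286) (nat_lit 0) (nat_lit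 1428014345011) (nat_lit 2) (nat_lit 5) (nat_lit 4) (nat_lit 4) (nat_lit 2) (nat_lit 4) (nat_lit 256) (nat_lit 220) (nat_lit 124))) (XT.nd (nat_lit 28470) (nat_lit 0) (nat_lit 2356) (XT.lf (nat_lit 0) (nat_lit 2077726086246) (nat_lit 152) (nat_lit 99263738133) (nat_lit 0) (nat_lit 1809109701619) (nat_lit 2) (nat_lit 5) (nat_lit 4) (nat_lit 4) (nat_lit 2) (nat_lit 4) (nat_lit 257) (nat_lit 220) (nat_lit 123)) (XT.nd (nat_lit 78) (nat_lit 0) (nat_lit 76) (XT.lf (nat_lit 0) (nat_lit 11986689237) (nat_lit 532) (nat_lit 13333378043) (nat_lit 532) (nat_lit 13333378043) (nat_lit 33) (nat_lit 3) (nat_lit 40) (nat_lit 3) (nat_lit 40) (nat_lit 5) (nat_lit 221) (nat_lit 221) (nat_lit 158)) (XT.lf (nat_lit 0) (nat_lit 26887037987) (nat_lit 456) (nat_lit 47101972108) (nat_lit 532) (nat_lit 9026543154) (nat_lit 34) (nat_lit 5) (nat_lit 40) (nat_lit 5) (nat_lit 41) (nat_lit 5) (nat_lit 222) (nat_lit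 221) (nat_lit 157)))))) (XT.nd (nat_lit 390) (nat_lit 760) (nat_lit 0) (XT.nd (nat_lit 156) (nat_lit 532) (nat_lit 0) (XT.nd (nat_lit 78) (nat_lit 0) (nat_lit 76) (XT.lf (nat_lit 76) (nat_lit 19531644752) (nat_lit 0) (nat_lit 13369836896) (nat_lit 532) (nat_lit 56465952882) (nat_lit 35) (nat_lit 5) (nat_lit 34) (nat_lit 5) (nat_lit 41) (nat_lit 5) (nat_lit 223) (nat_lit 221) (nat_lit 156)) (XT.lf (nat_lit 76) (nat_lit 1113134489) (nat_lit 0) (nat_lit 41490962065) (nat_lit 532) (nat_lit 53845136822) (nat_lit 36) (nat_lit 5) (nat_lit 35) (nat_lit 5) (nat_lit 42) (nat_lit 5) (nat_lit 224) (nat_lit 221) (nat_lit 155))) (XT.nd (nat_lit 78) (nat_lit 684) (nat_lit 0) (XT.lf (nat_lit 0) (nat_lit 56884137211) (nat_lit 456) (nat_lit 18590663563) (nat_lit 76) (nat_lit 28868752287) (nat_lit 36) (nat_lit 5) (nat_lit 42) (nat_lit 5) (nat_lit 37) (nat_lit 5) (nat_lit 225) (nat_lit 221) (nat_lit 154))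 (XT.nd (nat_lit 78) (nat_lit 228) (nat_lit 0) (XT.lf (nat_lit 0) (nat_lit 72125128645) (nat_lit 456) (nat_lit 4061100154) (nat_lit 532) (nat_lit 37005400221) (nat_lit 30) (nat_lit 5) (nat_lit 36) (nat_lit 5) (nat_lit 37) (nat_lit 5) (nat_lit 226) (nat_lit 221) (nat_lit 153)) (XT.lf (nat_lit 0) (nat_lit 55114067699) (nat_lit 228) (nat_lit 47025954999) (nat_lit 304) (nat_lit 20926392943) (nat_lit 27) (nat_lit 5) (nat_lit 30) (nat_lit 5) (nat_lit 31) (nat_lit 5) (nat_lit 227) (nat_lit 221) (nat_lit 152))))) (XT.nd (nat_lit 156) (nat_lit 304) (nat_lit 0) (XT.nd (nat_lit 78) (nat_lit 228) (nat_lit 0) (XT.lf (nat_lit 0) (nat_lit 737617879) (nat_lit 228) (nat_lit 99535413091) (nat_lit 76) (nat_lit 33909978223) (nat_lit 24) (nat_lit 5) (nat_lit 27) (nat_lit 5) (nat_lit 25) (nat_lit 5) (nat_lit 228) (nat_lit 221) (nat_lit 151)) (XT.lf (nat_lit 0) (nat_lit 8432947020) (nat_lit 228) (nat_lit 19546077560)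 (nat_lit 304) (nat_lit 118659241414) (nat_lit 21) (nat_lit 5) (nat_lit 24) (nat_lit 5) (nat_lit 25) (nat_lit 5) (nat_lit 229) (nat_lit 221) (nat_lit 150))) (XT.nd (nat_lit 78) (nat_lit 304) (nat_lit 0) (XT.lf (nat_lit 0) (nat_lit 64041017026) (nat_lit 304) (nat_lit 23945527553) (nat_lit 76) (nat_lit 72596523062) (nat_lit 21) (nat_lit 5) (nat_lit 25) (nat_lit 5) (nat_lit 22) (nat_lit 5) (nat_lit 230) (nat_lit 221) (nat_lit 149)) (XT.nd (nat_lit 78) (nat_lit 152) (nat_lit 0) (XT.lf (nat_lit 0) (nat_lit 108849279831) (nat_lit 228) (nat_lit 63910043584) (nat_lit 76) (nat_lit 3593313881) (nat_lit 19) (nat_lit 5) (nat_lit 22) (nat_lit 5) (nat_lit 20) (nat_lit 5) (nat_lit 231) (nat_lit 221) (nat_lit 148)) (XT.lf (nat_lit 0) (nat_lit 77743059254) (nat_lit 152) (nat_lit 87653102116) (nat_lit 228) (nat_lit 28690095450) (nat_lit 17) (nat_lit 5) (nat_lit 19) (nat_lit 5) (nat_lit 20) (nat_lit 5) (nat_lit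 232) (nat_lit 221) (nat_lit 147))))))) (XT.nd (nat_lit 780) (nat_lit 304) (nat_lit 0) (XT.nd (nat_lit 390) (nat_lit 380) (nat_lit 0) (XT.nd (nat_lit 156) (nat_lit 304) (nat_lit 0) (XT.nd (nat_lit 78) (nat_lit 0) (nat_lit 0) (XT.lf (nat_lit 0) (nat_lit 18133537507) (nat_lit 152) (nat_lit 183244611940) (nat_lit 76) (nat_lit 12832213320) (nat_lit 15) (nat_lit 5) (nat_lit 17) (nat_lit 5) (nat_lit 16) (nat_lit 5) (nat_lit 233) (nat_lit 221) (nat_lit 146)) (XT.lf (nat_lit 0) (nat_lit 76228777010) (nat_lit 152) (nat_lit 32972793122) (nat_lit 76) (nat_lit 127616155197) (nat_lit 15) (nat_lit 5) (nat_lit 17) (nat_lit 5) (nat_lit 16) (nat_lit 5) (nat_lit 234) (nat_lit 221) (nat_lit 145))) (XT.nd (nat_lit 78) (nat_lit 152) (nat_lit 0) (XT.lf (nat_lit 0) (nat_lit 146592741343) (nat_lit 228) (nat_lit 115345803680) (nat_lit 76) (nat_lit 593295040) (nat_lit 13) (nat_lit 5) (nat_lit 16) (nat_lit 5) (nat_lit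 14) (nat_lit 4) (nat_lit 235) (nat_lit 221) (nat_lit 144)) (XT.nd (nat_lit 78) (nat_lit 76) (nat_lit 0) (XT.lf (nat_lit 0) (nat_lit 64520395953) (nat_lit 76) (nat_lit 168547038456) (nat_lit 152) (nat_lit 58591149395) (nat_lit 12) (nat_lit 5) (nat_lit 13) (nat_lit 5) (nat_lit 14) (nat_lit 4) (nat_lit 236) (nat_lit 221) (nat_lit 143)) (XT.lf (nat_lit 0) (nat_lit 10435580631) (nat_lit 152) (nat_lit 46799462475) (nat_lit 76) (nat_lit 267629562125) (nat_lit 11) (nat_lit 5) (nat_lit 13) (nat_lit 5) (nat_lit 12) (nat_lit 5) (nat_lit 237) (nat_lit 221) (nat_lit 142))))) (XT.nd (nat_lit 156) (nat_lit 152) (nat_lit 0) (XT.nd (nat_lit 78) (nat_lit 76) (nat_lit 0) (XT.lf (nat_lit 0) (nat_lit 92318366087) (nat_lit 228) (nat_lit 197109054653) (nat_lit 76) (nat_lit 73024659392) (nat_lit 9) (nat_lit 5) (nat_lit 12) (nat_lit 5) (nat_lit 10) (nat_lit 4) (nat_lit 238) (nat_lit 221) (nat_lit 141)) (XT.lf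 (nat_lit 0) (nat_lit 5213790202) (nat_lit 76) (nat_lit 184375514472) (nat_lit 152) (nat_lit 215839914306) (nat_lit 8) (nat_lit 5) (nat_lit 9) (nat_lit 5) (nat_lit 10) (nat_lit 4) (nat_lit 239) (nat_lit 221) (nat_lit 140))) (XT.nd (nat_lit 78) (nat_lit 152) (nat_lit 0) (XT.lf (nat_lit 0) (nat_lit 249820563689) (nat_lit 76) (nat_lit 57368447053) (nat_lit 152) (nat_lit 147204869112) (nat_lit 8) (nat_lit 5) (nat_lit 9) (nat_lit 5) (nat_lit 10) (nat_lit 4) (nat_lit 240) (nat_lit 221) (nat_lit 139)) (XT.nd (nat_lit 78) (nat_lit 76) (nat_lit 0) (XT.lf (nat_lit 0) (nat_lit 19244044854) (nat_lit 76) (nat_lit 425780002344) (nat_lit 76) (nat_lit 65471563866) (nat_lit 7) (nat_lit 4) (nat_lit 8) (nat_lit 5) (nat_lit 8) (nat_lit 4) (nat_lit 241) (nat_lit 221) (nat_lit 138)) (XT.lf (nat_lit 0) (nat_lit 34791860131) (nat_lit 152) (nat_lit 287941800080) (nat_lit 76) (nat_lit 251608315140) (nat_lit 6)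 (nat_lit 5) (nat_lit 8) (nat_lit 5) (nat_lit 7) (nat_lit 4) (nat_lit 242) (nat_lit 221) (nat_lit 137)))))) (XT.nd (nat_lit 390) (nat_lit 152) (nat_lit 0) (XT.nd (nat_lit 156) (nat_lit 76) (nat_lit 0) (XT.nd (nat_lit 78) (nat_lit 76) (nat_lit 0) (XT.lf (nat_lit 0) (nat_lit 146328019711) (nat_lit 152) (nat_lit 55946962654) (nat_lit 76) (nat_lit 445345478387) (nat_lit 6) (nat_lit 5) (nat_lit 8) (nat_lit 5) (nat_lit 7) (nat_lit 4) (nat_lit 243) (nat_lit 221) (nat_lit 136)) (XT.lf (nat_lit 0) (nat_lit 221949374807) (nat_lit 76) (nat_lit 57982809863) (nat_lit 152) (nat_lit 451531528486) (nat_lit 5) (nat_lit 5) (nat_lit 6) (nat_lit 5) (nat_lit 7) (nat_lit 4) (nat_lit 244) (nat_lit 221) (nat_lit 135))) (XT.nd (nat_lit 78) (nat_lit 76) (nat_lit 0) (XT.lf (nat_lit 0) (nat_lit 437844111051) (nat_lit 152) (nat_lit 285474094782) (nat_lit 0) (nat_lit 104223877268) (nat_lit 5) (nat_lit 5) (nat_lit 7)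 (nat_lit 4) (nat_lit 5) (nat_lit 4) (nat_lit 245) (nat_lit 221) (nat_lit 134)) (XT.nd (nat_lit 78) (nat_lit 76) (nat_lit 0) (XT.lf (nat_lit 0) (nat_lit 621046241344) (nat_lit 152) (nat_lit 29431914972) (nat_lit 0) (nat_lit 287425779560) (nat_lit 5) (nat_lit 5) (nat_lit 7) (nat_lit 4) (nat_lit 5) (nat_lit 4) (nat_lit 246) (nat_lit 221) (nat_lit 133)) (XT.lf (nat_lit 0) (nat_lit 278971493928) (nat_lit 76) (nat_lit 559466254293) (nat_lit 76) (nat_lit 225845594248) (nat_lit 4) (nat_lit 4) (nat_lit 5) (nat_lit 5) (nat_lit 5) (nat_lit 4) (nat_lit 247) (nat_lit 221) (nat_lit 132))))) (XT.nd (nat_lit 156) (nat_lit 76) (nat_lit 0) (XT.nd (nat_lit 78) (nat_lit 76) (nat_lit 0) (XT.lf (nat_lit 0) (nat_lit 635417371995) (nat_lit 76) (nat_lit 453877293095) (nat_lit 76) (nat_lit 120256460649) (nat_lit 4) (nat_lit 4) (nat_lit 5) (nat_lit 5) (nat_lit 5) (nat_lit 4) (nat_lit 248) (nat_lit 221) (nat_lit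 131)) (XT.lf (nat_lit 0) (nat_lit 1112288750) (nat_lit 152) (nat_lit 331307421759) (nat_lit 76) (nat_lit 1044187127141) (nat_lit 3) (nat_lit 5) (nat_lit 5) (nat_lit 5) (nat_lit 4) (nat_lit 4) (nat_lit 249) (nat_lit 221) (nat_lit 130))) (XT.nd (nat_lit 78) (nat_lit 76) (nat_lit 0) (XT.lf (nat_lit 0) (nat_lit 133768126835) (nat_lit 152) (nat_lit 55383408902) (nat_lit 76) (nat_lit 1379303303282) (nat_lit 3) (nat_lit 5) (nat_lit 5) (nat_lit 5) (nat_lit 4) (nat_lit 4) (nat_lit 250) (nat_lit 221) (nat_lit 129)) (XT.nd (nat_lit 78) (nat_lit 0) (nat_lit 0) (XT.lf (nat_lit 0) (nat_lit 275721684217) (nat_lit 76) (nat_lit 17231638039) (nat_lit 152) (nat_lit 1495596240054) (nat_lit 2) (nat_lit 5) (nat_lit 3) (nat_lit 5) (nat_lit 4) (nat_lit 4) (nat_lit 251) (nat_lit 221) (nat_lit 128)) (XT.lf (nat_lit 0) (nat_lit 482010942705) (nat_lit 152) (nat_lit 1386065671174) (nat_lit 0) (nat_lit 173102308772)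 (nat_lit 2) (nat_lit 5) (nat_lit 4) (nat_lit 4) (nat_lit 2) (nat_lit 4) (nat_lit 252) (nat_lit 221) (nat_lit 127))))))))
noncomputable def xc51 : XT := (XT.nd (nat_lit 30030) (nat_lit 0) (nat_lit 0) (XT.nd (nat_lit 29250) (nat_lit 0) (nat_lit 836) (XT.nd (nat_lit 28860) (nat_lit 0) (nat_lit 2356) (XT.nd (nat_lit 156) (nat_lit 0) (nat_lit 0) (XT.nd (nat_lit 78) (nat_lit 0) (nat_lit 0) (XT.lf (nat_lit 0) (nat_lit 699903684711) (nat_lit 152) (nat_lit 1240765912825) (nat_lit 0) (nat_lit 390994971414) (nat_lit 2) (nat_lit 5) (nat_lit 4) (nat_lit 4) (nat_lit 2) (nat_lit 4) (nat_lit 253) (nat_lit 221) (nat_lit 126)) (XT.lf (nat_lit 0) (nat_lit 950480245831) (nat_lit 152) (nat_lit 1073671360380) (nat_lit 0) (nat_lit 641571463520) (nat_lit 2) (nat_lit 5) (nat_lit 4) (nat_lit 4) (nat_lit 2) (nat_lit 4) (nat_lit 254) (nat_lit 221) (nat_lit 125))) (XT.nd (nat_lit 78) (nat_lit 0) (nat_lit 0) (XT.lf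 (nat_lit 0) (nat_lit 1238643210955) (nat_lit 152) (nat_lit 881512772595) (nat_lit 0) (nat_lit 929734368633) (nat_lit 2) (nat_lit 5) (nat_lit 4) (nat_lit 4) (nat_lit 2) (nat_lit 4) (nat_lit 255) (nat_lit 221) (nat_lit 124)) (XT.nd (nat_lit 78) (nat_lit 0) (nat_lit 0) (XT.lf (nat_lit 0) (nat_lit 1570030551141) (nat_lit 152) (nat_lit 660530524926) (nat_lit 0) (nat_lit 1261121656636) (nat_lit 2) (nat_lit 5) (nat_lit 4) (nat_lit 4) (nat_lit 2) (nat_lit 4) (nat_lit 256) (nat_lit 221) (nat_lit 123)) (XT.lf (nat_lit 0) (nat_lit 1951125931740) (nat_lit 152) (nat_lit 406401051657) (nat_lit 0) (nat_lit 1642216991857) (nat_lit 2) (nat_lit 5) (nat_lit 4) (nat_lit 4) (nat_lit 2) (nat_lit 4) (nat_lit 257) (nat_lit 221) (nat_lit 122))))) (XT.nd (nat_lit 156) (nat_lit 0) (nat_lit 76) (XT.nd (nat_lit 78) (nat_lit 0) (nat_lit 76) (XT.lf (nat_lit 0) (nat_lit 13801446868) (nat_lit 532) (nat_lit 15324288709)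 (nat_lit 532) (nat_lit 15324288709) (nat_lit 33) (nat_lit 3) (nat_lit 40) (nat_lit 3) (nat_lit 40) (nat_lit 5) (nat_lit 222) (nat_lit 222) (nat_lit 156)) (XT.lf (nat_lit 0) (nat_lit 30949322078) (nat_lit 456) (nat_lit 54147773176) (nat_lit 532) (nat_lit 10368283150) (nat_lit 34) (nat_lit 5) (nat_lit 40) (nat_lit 5) (nat_lit 41) (nat_lit 5) (nat_lit 223) (nat_lit 222) (nat_lit 155))) (XT.nd (nat_lit 78) (nat_lit 0) (nat_lit 76) (XT.lf (nat_lit 76) (nat_lit 22479236080) (nat_lit 0) (nat_lit 15383312974) (nat_lit 532) (nat_lit 64907785600) (nat_lit 35) (nat_lit 5) (nat_lit 34) (nat_lit 5) (nat_lit 41) (nat_lit 5) (nat_lit 224) (nat_lit 222) (nat_lit 154)) (XT.nd (nat_lit 78) (nat_lit 0) (nat_lit 76) (XT.lf (nat_lit 76) (nat_lit 1298642509) (nat_lit 0) (nat_lit 47718821099) (nat_lit 532) (nat_lit 61897206358) (nat_lit 36) (nat_lit 5) (nat_lit 35) (nat_lit 5) (nat_lit 42) (nat_lit 5) (nat_lit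 225) (nat_lit 222) (nat_lit 153)) (XT.lf (nat_lit 0) (nat_lit 65436454494) (nat_lit 456) (nat_lit 21361360813) (nat_lit 76) (nat_lit 33195583490) (nat_lit 36) (nat_lit 5) (nat_lit 42) (nat_lit 5) (nat_lit 37) (nat_lit 5) (nat_lit 226) (nat_lit 222) (nat_lit 152)))))) (XT.nd (nat_lit 390) (nat_lit 608) (nat_lit 0) (XT.nd (nat_lit 156) (nat_lit 456) (nat_lit 0) (XT.nd (nat_lit 78) (nat_lit 228) (nat_lit 0) (XT.lf (nat_lit 0) (nat_lit 82960284887) (nat_lit 456) (nat_lit 4671399904) (nat_lit 532) (nat_lit 42537189902) (nat_lit 30) (nat_lit 5) (nat_lit 36) (nat_lit 5) (nat_lit 37) (nat_lit 5) (nat_lit 227) (nat_lit 222) (nat_lit 151)) (XT.lf (nat_lit 0) (nat_lit 63397574531) (nat_lit 228) (nat_lit 54079058418) (nat_lit 304) (nat_lit 24048412189) (nat_lit 27) (nat_lit 5) (nat_lit 30) (nat_lit 5) (nat_lit 31) (nat_lit 5) (nat_lit 228) (nat_lit 222) (nat_lit 150))) (XT.nd (nat_lit 78) (nat_lit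 228) (nat_lit 0) (XT.lf (nat_lit 0) (nat_lit 862670827) (nat_lit 228) (nat_lit 114448686939) (nat_lit 76) (nat_lit 38997882110) (nat_lit 24) (nat_lit 5) (nat_lit 27) (nat_lit 5) (nat_lit 25) (nat_lit 5) (nat_lit 229) (nat_lit 222) (nat_lit 149)) (XT.nd (nat_lit 78) (nat_lit 0) (nat_lit 0) (XT.lf (nat_lit 0) (nat_lit 9713484997) (nat_lit 228) (nat_lit 22475299018) (nat_lit 304) (nat_lit 136444130396) (nat_lit 21) (nat_lit 5) (nat_lit 24) (nat_lit 5) (nat_lit 25) (nat_lit 5) (nat_lit 230) (nat_lit 222) (nat_lit 148)) (XT.lf (nat_lit 0) (nat_lit 73658448229) (nat_lit 304) (nat_lit 27522902157) (nat_lit 76) (nat_lit 83488223784) (nat_lit 21) (nat_lit 5) (nat_lit 25) (nat_lit 5) (nat_lit 22) (nat_lit 5) (nat_lit 231) (nat_lit 222) (nat_lit 147))))) (XT.nd (nat_lit 156) (nat_lit 304) (nat_lit 0) (XT.nd (nat_lit 78) (nat_lit 152) (nat_lit 0) (XT.lf (nat_lit 0) (nat_lit 125186872216) (nat_lit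 228) (nat_lit 73482539092) (nat_lit 76) (nat_lit 4135260920) (nat_lit 19) (nat_lit 5) (nat_lit 22) (nat_lit 5) (nat_lit 20) (nat_lit 5) (nat_lit 232) (nat_lit 222) (nat_lit 146)) (XT.lf (nat_lit 0) (nat_lit 89417343207) (nat_lit 152) (nat_lit 100797420733) (nat_lit 228) (nat_lit 32983658325) (nat_lit 17) (nat_lit 5) (nat_lit 19) (nat_lit 5) (nat_lit 20) (nat_lit 5) (nat_lit 233) (nat_lit 222) (nat_lit 145))) (XT.nd (nat_lit 78) (nat_lit 152) (nat_lit 0) (XT.lf (nat_lit 0) (nat_lit 20862172075) (nat_lit 152) (nat_lit 210718452568) (nat_lit 76) (nat_lit 14760572978) (nat_lit 15) (nat_lit 5) (nat_lit 17) (nat_lit 5) (nat_lit 16) (nat_lit 5) (nat_lit 234) (nat_lit 222) (nat_lit 144)) (XT.nd (nat_lit 78) (nat_lit 152) (nat_lit 0) (XT.lf (nat_lit 0) (nat_lit 87670575250) (nat_lit 152) (nat_lit 37907537166) (nat_lit 76) (nat_lit 146761646007) (nat_lit 15) (nat_lit 5) (nat_lit 17) (nat_lit 5)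 (nat_lit 16) (nat_lit 5) (nat_lit 235) (nat_lit 222) (nat_lit 143)) (XT.lf (nat_lit 0) (nat_lit 168588487996) (nat_lit 228) (nat_lit 132636965063) (nat_lit 76) (nat_lit 685592551) (nat_lit 13) (nat_lit 5) (nat_lit 16) (nat_lit 5) (nat_lit 14) (nat_lit 4) (nat_lit 236) (nat_lit 222) (nat_lit 142))))))) (XT.nd (nat_lit 780) (nat_lit 228) (nat_lit 0) (XT.nd (nat_lit 390) (nat_lit 228) (nat_lit 0) (XT.nd (nat_lit 156) (nat_lit 228) (nat_lit 0) (XT.nd (nat_lit 78) (nat_lit 76) (nat_lit 0) (XT.lf (nat_lit 0) (nat_lit 74208258037) (nat_lit 76) (nat_lit 193825471159) (nat_lit 152) (nat_lit 67373127264) (nat_lit 12) (nat_lit 5) (nat_lit 13) (nat_lit 5) (nat_lit 14) (nat_lit 4) (nat_lit 237) (nat_lit 222) (nat_lit 141)) (XT.lf (nat_lit 0) (nat_lit 12006447858) (nat_lit 152) (nat_lit 53810550019) (nat_lit 76) (nat_lit 307776839187) (nat_lit 11) (nat_lit 5) (nat_lit 13) (nat_lit 5) (nat_lit 12) (nat_lit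 5) (nat_lit 238) (nat_lit 222) (nat_lit 140))) (XT.nd (nat_lit 78) (nat_lit 76) (nat_lit 0) (XT.lf (nat_lit 0) (nat_lit 106171198336) (nat_lit 228) (nat_lit 226666988048) (nat_lit 76) (nat_lit 83981285196) (nat_lit 9) (nat_lit 5) (nat_lit 12) (nat_lit 5) (nat_lit 10) (nat_lit 4) (nat_lit 239) (nat_lit 222) (nat_lit 139)) (XT.nd (nat_lit 78) (nat_lit 0) (nat_lit 0) (XT.lf (nat_lit 0) (nat_lit 6003570417) (nat_lit 76) (nat_lit 212028730499) (nat_lit 152) (nat_lit 248210920359) (nat_lit 8) (nat_lit 5) (nat_lit 9) (nat_lit 5) (nat_lit 10) (nat_lit 4) (nat_lit 240) (nat_lit 222) (nat_lit 138)) (XT.lf (nat_lit 0) (nat_lit 287300354055) (nat_lit 76) (nat_lit 65971008769) (nat_lit 152) (nat_lit 169281268094) (nat_lit 8) (nat_lit 5) (nat_lit 9) (nat_lit 5) (nat_lit 10) (nat_lit 4) (nat_lit 241) (nat_lit 222) (nat_lit 137))))) (XT.nd (nat_lit 156) (nat_lit 76) (nat_lit 0) (XT.nd (nat_lit 78) (nat_lit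 76) (nat_lit 0) (XT.lf (nat_lit 0) (nat_lit 22137033129) (nat_lit 76) (nat_lit 489644309872) (nat_lit 76) (nat_lit 75288305167) (nat_lit 7) (nat_lit 4) (nat_lit 8) (nat_lit 5) (nat_lit 8) (nat_lit 4) (nat_lit 242) (nat_lit 222) (nat_lit 136)) (XT.lf (nat_lit 0) (nat_lit 40013937863) (nat_lit 152) (nat_lit 331127339601) (nat_lit 76) (nat_lit 289351722677) (nat_lit 6) (nat_lit 5) (nat_lit 8) (nat_lit 5) (nat_lit 7) (nat_lit 4) (nat_lit 243) (nat_lit 222) (nat_lit 135))) (XT.nd (nat_lit 78) (nat_lit 76) (nat_lit 0) (XT.lf (nat_lit 0) (nat_lit 168280091114) (nat_lit 152) (nat_lit 64334024017) (nat_lit 76) (nat_lit 512149178637) (nat_lit 6) (nat_lit 5) (nat_lit 8) (nat_lit 5) (nat_lit 7) (nat_lit 4) (nat_lit 244) (nat_lit 222) (nat_lit 134)) (XT.nd (nat_lit 78) (nat_lit 0) (nat_lit 0) (XT.lf (nat_lit 0) (nat_lit 255246342274) (nat_lit 76) (nat_lit 66678274095) (nat_lit 152) (nat_lit 519258439682)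 (nat_lit 5) (nat_lit 5) (nat_lit 6) (nat_lit 5) (nat_lit 7) (nat_lit 4) (nat_lit 245) (nat_lit 222) (nat_lit 133)) (XT.lf (nat_lit 0) (nat_lit 503523032987) (nat_lit 152) (nat_lit 328291097476) (nat_lit 0) (nat_lit 119859075674) (nat_lit 5) (nat_lit 5) (nat_lit 7) (nat_lit 4) (nat_lit 5) (nat_lit 4) (nat_lit 246) (nat_lit 222) (nat_lit 132)))))) (XT.nd (nat_lit 390) (nat_lit 76) (nat_lit 0) (XT.nd (nat_lit 156) (nat_lit 76) (nat_lit 0) (XT.nd (nat_lit 78) (nat_lit 76) (nat_lit 0) (XT.lf (nat_lit 0) (nat_lit 714205182135) (nat_lit 152) (nat_lit 33843126981) (nat_lit 0) (nat_lit 330541052421) (nat_lit 5) (nat_lit 5) (nat_lit 7) (nat_lit 4) (nat_lit 5) (nat_lit 4) (nat_lit 247) (nat_lit 222) (nat_lit 131)) (XT.lf (nat_lit 0) (nat_lit 320820490629) (nat_lit 76) (nat_lit 643384741654) (nat_lit 76) (nat_lit 259720462025) (nat_lit 4) (nat_lit 4) (nat_lit 5) (nat_lit 5) (nat_lit 5) (nat_lit 4)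 (nat_lit 248) (nat_lit 222) (nat_lit 130))) (XT.nd (nat_lit 78) (nat_lit 76) (nat_lit 0) (XT.lf (nat_lit 0) (nat_lit 730732823544) (nat_lit 76) (nat_lit 521957625508) (nat_lit 76) (nat_lit 138293215520) (nat_lit 4) (nat_lit 4) (nat_lit 5) (nat_lit 5) (nat_lit 5) (nat_lit 4) (nat_lit 249) (nat_lit 222) (nat_lit 129)) (XT.nd (nat_lit 78) (nat_lit 0) (nat_lit 0) (XT.lf (nat_lit 0) (nat_lit 1280548126) (nat_lit 152) (nat_lit 381000983240) (nat_lit 76) (nat_lit 1200816215995) (nat_lit 3) (nat_lit 5) (nat_lit 5) (nat_lit 5) (nat_lit 4) (nat_lit 4) (nat_lit 250) (nat_lit 222) (nat_lit 128)) (XT.lf (nat_lit 0) (nat_lit 153834577221) (nat_lit 152) (nat_lit 63688701295) (nat_lit 76) (nat_lit 1586199685542) (nat_lit 3) (nat_lit 5) (nat_lit 5) (nat_lit 5) (nat_lit 4) (nat_lit 4) (nat_lit 251) (nat_lit 222) (nat_lit 127))))) (XT.nd (nat_lit 156) (nat_lit 0) (nat_lit 0) (XT.nd (nat_lit 78) (nat_lit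 0) (nat_lit 0) (XT.lf (nat_lit 0) (nat_lit 317081967969) (nat_lit 76) (nat_lit 19815472222) (nat_lit 152) (nat_lit 1719934464894) (nat_lit 2) (nat_lit 5) (nat_lit 3) (nat_lit 5) (nat_lit 4) (nat_lit 4) (nat_lit 252) (nat_lit 222) (nat_lit 126)) (XT.lf (nat_lit 0) (nat_lit 554313576736) (nat_lit 152) (nat_lit 1593973695094) (nat_lit 0) (nat_lit 199068408066) (nat_lit 2) (nat_lit 5) (nat_lit 4) (nat_lit 4) (nat_lit 2) (nat_lit 4) (nat_lit 253) (nat_lit 222) (nat_lit 125))) (XT.nd (nat_lit 78) (nat_lit 0) (nat_lit 0) (XT.lf (nat_lit 0) (nat_lit 804890100570) (nat_lit 152) (nat_lit 1426879211266) (nat_lit 0) (nat_lit 449644871889) (nat_lit 2) (nat_lit 5) (nat_lit 4) (nat_lit 4) (nat_lit 2) (nat_lit 4) (nat_lit 254) (nat_lit 222) (nat_lit 124)) (XT.nd (nat_lit 78) (nat_lit 0) (nat_lit 0) (XT.lf (nat_lit 0) (nat_lit 1093053033273) (nat_lit 152) (nat_lit 1234720683148) (nat_lit 0) (nat_lit 737807752408)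 (nat_lit 2) (nat_lit 5) (nat_lit 4) (nat_lit 4) (nat_lit 2) (nat_lit 4) (nat_lit 255) (nat_lit 222) (nat_lit 123)) (XT.lf (nat_lit 0) (nat_lit 1424440345265) (nat_lit 152) (nat_lit 1013738487363) (nat_lit 0) (nat_lit 1069195019024) (nat_lit 2) (nat_lit 5) (nat_lit 4) (nat_lit 4) (nat_lit 2) (nat_lit 4) (nat_lit 256) (nat_lit 222) (nat_lit 122))))))))
noncomputable def xc52 : XT := (XT.nd (nat_lit 30030) (nat_lit 0) (nat_lit 0) (XT.nd (nat_lit 29250) (nat_lit 0) (nat_lit 532) (XT.nd (nat_lit 28860) (nat_lit 0) (nat_lit 1672) (XT.nd (nat_lit 28704) (nat_lit 0) (nat_lit 2432) (XT.nd (nat_lit 28626) (nat_lit 0) (nat_lit 2356) (XT.lf (nat_lit 0) (nat_lit 1805535701349) (nat_lit 152) (nat_lit 759609059211) (nat_lit 0) (nat_lit 1450290335649) (nat_lit 2) (nat_lit 5) (nat_lit 4) (nat_lit 4) (nat_lit 2) (nat_lit 4) (nat_lit 257) (nat_lit 222) (nat_lit 121)) (XT.lf (nat_lit 0) (nat_lit 15884332514)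 (nat_lit 532) (nat_lit 17616054102) (nat_lit 532) (nat_lit 17616054102) (nat_lit 33) (nat_lit 3) (nat_lit 40) (nat_lit 3) (nat_lit 40) (nat_lit 5) (nat_lit 223) (nat_lit 223) (nat_lit 154))) (XT.nd (nat_lit 78) (nat_lit 0) (nat_lit 0) (XT.lf (nat_lit 0) (nat_lit 35613821255) (nat_lit 456) (nat_lit 62255198323) (nat_lit 532) (nat_lit 11914269307) (nat_lit 34) (nat_lit 5) (nat_lit 40) (nat_lit 5) (nat_lit 41) (nat_lit 5) (nat_lit 224) (nat_lit 223) (nat_lit 153)) (XT.lf (nat_lit 76) (nat_lit 25864614584) (nat_lit 0) (nat_lit 17696859480) (nat_lit 532) (nat_lit 74622735887) (nat_lit 35) (nat_lit 5) (nat_lit 34) (nat_lit 5) (nat_lit 41) (nat_lit 5) (nat_lit 225) (nat_lit 223) (nat_lit 152)))) (XT.nd (nat_lit 156) (nat_lit 836) (nat_lit 0) (XT.nd (nat_lit 78) (nat_lit 0) (nat_lit 76) (XT.lf (nat_lit 76) (nat_lit 1507456160) (nat_lit 0) (nat_lit 54879831201) (nat_lit 532) (nat_lit 71163109817)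 (nat_lit 36) (nat_lit 5) (nat_lit 35) (nat_lit 5) (nat_lit 42) (nat_lit 5) (nat_lit 226) (nat_lit 223) (nat_lit 151)) (XT.lf (nat_lit 0) (nat_lit 75266816203) (nat_lit 456) (nat_lit 24552028236) (nat_lit 76) (nat_lit 38172288393) (nat_lit 36) (nat_lit 5) (nat_lit 42) (nat_lit 5) (nat_lit 37) (nat_lit 5) (nat_lit 227) (nat_lit 223) (nat_lit 150))) (XT.nd (nat_lit 78) (nat_lit 456) (nat_lit 0) (XT.lf (nat_lit 0) (nat_lit 95416718505) (nat_lit 456) (nat_lit 5372967906) (nat_lit 532) (nat_lit 48903386268) (nat_lit 30) (nat_lit 5) (nat_lit 36) (nat_lit 5) (nat_lit 37) (nat_lit 5) (nat_lit 228) (nat_lit 223) (nat_lit 149)) (XT.nd (nat_lit 78) (nat_lit 228) (nat_lit 0) (XT.lf (nat_lit 0) (nat_lit 72919608954) (nat_lit 228) (nat_lit 62190319956) (nat_lit 304) (nat_lit 27642865174) (nat_lit 27) (nat_lit 5) (nat_lit 30) (nat_lit 5) (nat_lit 31) (nat_lit 5) (nat_lit 229) (nat_lit 223) (nat_lit 148))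 (XT.lf (nat_lit 0) (nat_lit 1002967682) (nat_lit 228) (nat_lit 131603106716) (nat_lit 76) (nat_lit 44848628437) (nat_lit 24) (nat_lit 5) (nat_lit 27) (nat_lit 5) (nat_lit 25) (nat_lit 5) (nat_lit 230) (nat_lit 223) (nat_lit 147)))))) (XT.nd (nat_lit 390) (nat_lit 456) (nat_lit 0) (XT.nd (nat_lit 156) (nat_lit 456) (nat_lit 0) (XT.nd (nat_lit 78) (nat_lit 0) (nat_lit 0) (XT.lf (nat_lit 0) (nat_lit 11182300507) (nat_lit 228) (nat_lit 25844559711) (nat_lit 304) (nat_lit 156900166038) (nat_lit 21) (nat_lit 5) (nat_lit 24) (nat_lit 5) (nat_lit 25) (nat_lit 5) (nat_lit 231) (nat_lit 223) (nat_lit 146)) (XT.lf (nat_lit 0) (nat_lit 84715743744) (nat_lit 304) (nat_lit 31640407781) (nat_lit 76) (nat_lit 96013137702) (nat_lit 21) (nat_lit 5) (nat_lit 25) (nat_lit 5) (nat_lit 22) (nat_lit 5) (nat_lit 232) (nat_lit 223) (nat_lit 145))) (XT.nd (nat_lit 78) (nat_lit 304) (nat_lit 0) (XT.lf (nat_lit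 0) (nat_lit 143972616024) (nat_lit 228) (nat_lit 84494325604) (nat_lit 76) (nat_lit 4757780650) (nat_lit 19) (nat_lit 5) (nat_lit 22) (nat_lit 5) (nat_lit 20) (nat_lit 5) (nat_lit 233) (nat_lit 223) (nat_lit 144)) (XT.nd (nat_lit 78) (nat_lit 152) (nat_lit 0) (XT.lf (nat_lit 0) (nat_lit 102839642281) (nat_lit 152) (nat_lit 115914276414) (nat_lit 228) (nat_lit 37923682354) (nat_lit 17) (nat_lit 5) (nat_lit 19) (nat_lit 5) (nat_lit 20) (nat_lit 5) (nat_lit 234) (nat_lit 223) (nat_lit 143)) (XT.lf (nat_lit 0) (nat_lit 23998003702) (nat_lit 152) (nat_lit 242316503127) (nat_lit 76) (nat_lit 16977326343) (nat_lit 15) (nat_lit 5) (nat_lit 17) (nat_lit 5) (nat_lit 16) (nat_lit 5) (nat_lit 235) (nat_lit 223) (nat_lit 142))))) (XT.nd (nat_lit 156) (nat_lit 304) (nat_lit 0) (XT.nd (nat_lit 78) (nat_lit 152) (nat_lit 0) (XT.lf (nat_lit 0) (nat_lit 100826818768) (nat_lit 152) (nat_lit 43585217892)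 (nat_lit 76) (nat_lit 168778212401) (nat_lit 15) (nat_lit 5) (nat_lit 17) (nat_lit 5) (nat_lit 16) (nat_lit 5) (nat_lit 236) (nat_lit 223) (nat_lit 141)) (XT.lf (nat_lit 0) (nat_lit 193881929778) (nat_lit 228) (nat_lit 152524412153) (nat_lit 76) (nat_lit 790929169) (nat_lit 13) (nat_lit 5) (nat_lit 16) (nat_lit 5) (nat_lit 14) (nat_lit 4) (nat_lit 237) (nat_lit 223) (nat_lit 140))) (XT.nd (nat_lit 78) (nat_lit 228) (nat_lit 0) (XT.lf (nat_lit 0) (nat_lit 85346908986) (nat_lit 76) (nat_lit 222896552275) (nat_lit 152) (nat_lit 77474034319) (nat_lit 12) (nat_lit 5) (nat_lit 13) (nat_lit 5) (nat_lit 14) (nat_lit 4) (nat_lit 238) (nat_lit 223) (nat_lit 139)) (XT.nd (nat_lit 78) (nat_lit 152) (nat_lit 0) (XT.lf (nat_lit 0) (nat_lit 13811596612) (nat_lit 152) (nat_lit 61875454391) (nat_lit 76) (nat_lit 353945514587) (nat_lit 11) (nat_lit 5) (nat_lit 13) (nat_lit 5) (nat_lit 12) (nat_lit 5) (nat_lit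 239) (nat_lit 223) (nat_lit 138)) (XT.lf (nat_lit 0) (nat_lit 122100717282) (nat_lit 228) (nat_lit 260660665895) (nat_lit 76) (nat_lit 96580691129) (nat_lit 9) (nat_lit 5) (nat_lit 12) (nat_lit 5) (nat_lit 10) (nat_lit 4) (nat_lit 240) (nat_lit 223) (nat_lit 137))))))) (XT.nd (nat_lit 780) (nat_lit 152) (nat_lit 0) (XT.nd (nat_lit 390) (nat_lit 152) (nat_lit 0) (XT.nd (nat_lit 156) (nat_lit 152) (nat_lit 0) (XT.nd (nat_lit 78) (nat_lit 0) (nat_lit 0) (XT.lf (nat_lit 0) (nat_lit 6909937121) (nat_lit 76) (nat_lit 243830687602) (nat_lit 152) (nat_lit 285438791992) (nat_lit 8) (nat_lit 5) (nat_lit 9) (nat_lit 5) (nat_lit 10) (nat_lit 4) (nat_lit 241) (nat_lit 223) (nat_lit 136)) (XT.lf (nat_lit 0) (nat_lit 330400477721) (nat_lit 76) (nat_lit 75864614457) (nat_lit 152) (nat_lit 194670183160) (nat_lit 8) (nat_lit 5) (nat_lit 9) (nat_lit 5) (nat_lit 10) (nat_lit 4) (nat_lit 242) (nat_lit 223)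 (nat_lit 135))) (XT.nd (nat_lit 78) (nat_lit 76) (nat_lit 0) (XT.lf (nat_lit 0) (nat_lit 25462413464) (nat_lit 76) (nat_lit 563088920191) (nat_lit 76) (nat_lit 86578531449) (nat_lit 7) (nat_lit 4) (nat_lit 8) (nat_lit 5) (nat_lit 8) (nat_lit 4) (nat_lit 243) (nat_lit 223) (nat_lit 134)) (XT.nd (nat_lit 78) (nat_lit 0) (nat_lit 0) (XT.lf (nat_lit 0) (nat_lit 46018522843) (nat_lit 152) (nat_lit 380792107467) (nat_lit 76) (nat_lit 332756114550) (nat_lit 6) (nat_lit 5) (nat_lit 8) (nat_lit 5) (nat_lit 7) (nat_lit 4) (nat_lit 244) (nat_lit 223) (nat_lit 133)) (XT.lf (nat_lit 0) (nat_lit 193524273737) (nat_lit 152) (nat_lit 73980359729) (nat_lit 76) (nat_lit 588972975843) (nat_lit 6) (nat_lit 5) (nat_lit 8) (nat_lit 5) (nat_lit 7) (nat_lit 4) (nat_lit 245) (nat_lit 223) (nat_lit 132))))) (XT.nd (nat_lit 156) (nat_lit 76) (nat_lit 0) (XT.nd (nat_lit 78) (nat_lit 0) (nat_lit 0) (XT.lf (nat_lit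 0) (nat_lit 293536742572) (nat_lit 76) (nat_lit 76678535249) (nat_lit 152) (nat_lit 597145074764) (nat_lit 5) (nat_lit 5) (nat_lit 6) (nat_lit 5) (nat_lit 7) (nat_lit 4) (nat_lit 246) (nat_lit 223) (nat_lit 131)) (XT.lf (nat_lit 0) (nat_lit 579053231057) (nat_lit 152) (nat_lit 377531653195) (nat_lit 0) (nat_lit 137839159570) (nat_lit 5) (nat_lit 5) (nat_lit 7) (nat_lit 4) (nat_lit 5) (nat_lit 4) (nat_lit 247) (nat_lit 223) (nat_lit 130))) (XT.nd (nat_lit 78) (nat_lit 76) (nat_lit 0) (XT.lf (nat_lit 0) (nat_lit 821337475214) (nat_lit 152) (nat_lit 38916892634) (nat_lit 0) (nat_lit 380123273367) (nat_lit 5) (nat_lit 5) (nat_lit 7) (nat_lit 4) (nat_lit 5) (nat_lit 4) (nat_lit 248) (nat_lit 223) (nat_lit 129)) (XT.nd (nat_lit 78) (nat_lit 0) (nat_lit 0) (XT.lf (nat_lit 0) (nat_lit 368946038788) (nat_lit 76) (nat_lit 739891355901) (nat_lit 76) (nat_lit 298677040698) (nat_lit 4) (nat_lit 4)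 (nat_lit 5) (nat_lit 5) (nat_lit 5) (nat_lit 4) (nat_lit 249) (nat_lit 223) (nat_lit 128)) (XT.lf (nat_lit 0) (nat_lit 840344898871) (nat_lit 76) (nat_lit 600250315421) (nat_lit 76) (nat_lit 159035901647) (nat_lit 4) (nat_lit 4) (nat_lit 5) (nat_lit 5) (nat_lit 5) (nat_lit 4) (nat_lit 250) (nat_lit 223) (nat_lit 127)))))) (XT.nd (nat_lit 390) (nat_lit 0) (nat_lit 0) (XT.nd (nat_lit 156) (nat_lit 76) (nat_lit 0) (XT.nd (nat_lit 78) (nat_lit 0) (nat_lit 0) (XT.lf (nat_lit 0) (nat_lit 1473701094) (nat_lit 152) (nat_lit 438149201212) (nat_lit 76) (nat_lit 1380939419497) (nat_lit 3) (nat_lit 5) (nat_lit 5) (nat_lit 5) (nat_lit 4) (nat_lit 4) (nat_lit 251) (nat_lit 223) (nat_lit 126)) (XT.lf (nat_lit 0) (nat_lit 176910694889) (nat_lit 152) (nat_lit 73240328651) (nat_lit 76) (nat_lit 1824130308898) (nat_lit 3) (nat_lit 5) (nat_lit 5) (nat_lit 5) (nat_lit 4) (nat_lit 4) (nat_lit 252) (nat_lit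 223) (nat_lit 125))) (XT.nd (nat_lit 78) (nat_lit 0) (nat_lit 0) (XT.lf (nat_lit 0) (nat_lit 364645798982) (nat_lit 76) (nat_lit 22787103813) (nat_lit 152) (nat_lit 1977923718810) (nat_lit 2) (nat_lit 5) (nat_lit 3) (nat_lit 5) (nat_lit 4) (nat_lit 4) (nat_lit 253) (nat_lit 223) (nat_lit 124)) (XT.nd (nat_lit 78) (nat_lit 0) (nat_lit 0) (XT.lf (nat_lit 0) (nat_lit 637461363813) (nat_lit 152) (nat_lit 1833068368068) (nat_lit 0) (nat_lit 228929238636) (nat_lit 2) (nat_lit 5) (nat_lit 4) (nat_lit 4) (nat_lit 2) (nat_lit 4) (nat_lit 254) (nat_lit 223) (nat_lit 123)) (XT.lf (nat_lit 0) (nat_lit 925624268323) (nat_lit 152) (nat_lit 1640909891834) (nat_lit 0) (nat_lit 517092097768) (nat_lit 2) (nat_lit 5) (nat_lit 4) (nat_lit 4) (nat_lit 2) (nat_lit 4) (nat_lit 255) (nat_lit 223) (nat_lit 122))))) (XT.nd (nat_lit 28782) (nat_lit 0) (nat_lit 2356) (XT.nd (nat_lit 78) (nat_lit 0) (nat_lit 0) (XT.lf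 (nat_lit 0) (nat_lit 1257011555800) (nat_lit 152) (nat_lit 1419927741166) (nat_lit 0) (nat_lit 848479345787) (nat_lit 2) (nat_lit 5) (nat_lit 4) (nat_lit 4) (nat_lit 2) (nat_lit 4) (nat_lit 256) (nat_lit 223) (nat_lit 121)) (XT.lf (nat_lit 0) (nat_lit 1638106890565) (nat_lit 152) (nat_lit 1165798352247) (nat_lit 0) (nat_lit 1229574646241) (nat_lit 2) (nat_lit 5) (nat_lit 4) (nat_lit 4) (nat_lit 2) (nat_lit 4) (nat_lit 257) (nat_lit 223) (nat_lit 120))) (XT.nd (nat_lit 78) (nat_lit 0) (nat_lit 76) (XT.lf (nat_lit 0) (nat_lit 18276561686) (nat_lit 532) (nat_lit 20253261526) (nat_lit 532) (nat_lit 20253261526) (nat_lit 33) (nat_lit 3) (nat_lit 40) (nat_lit 3) (nat_lit 40) (nat_lit 5) (nat_lit 224) (nat_lit 224) (nat_lit 152)) (XT.nd (nat_lit 78) (nat_lit 0) (nat_lit 0) (XT.lf (nat_lit 0) (nat_lit 40972605872) (nat_lit 456) (nat_lit 71582331886) (nat_lit 532) (nat_lit 13694410599) (nat_lit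 34) (nat_lit 5) (nat_lit 40) (nat_lit 5) (nat_lit 41) (nat_lit 5) (nat_lit 225) (nat_lit 224) (nat_lit 151)) (XT.lf (nat_lit 76) (nat_lit 29754509488) (nat_lit 0) (nat_lit 20355962739) (nat_lit 532) (nat_lit 85800102752) (nat_lit 35) (nat_lit 5) (nat_lit 34) (nat_lit 5) (nat_lit 41) (nat_lit 5) (nat_lit 226) (nat_lit 224) (nat_lit 150))))))))
noncomputable def xc53 : XT := (XT.nd (nat_lit 1482) (nat_lit 304) (nat_lit 0) (XT.nd (nat_lit 702) (nat_lit 836) (nat_lit 0) (XT.nd (nat_lit 312) (nat_lit 760) (nat_lit 0) (XT.nd (nat_lit 156) (nat_lit 608) (nat_lit 0) (XT.nd (nat_lit 78) (nat_lit 0) (nat_lit 76) (XT.lf (nat_lit 76) (nat_lit 1744173657) (nat_lit 0) (nat_lit 63114215663) (nat_lit 532) (nat_lit 81823453420) (nat_lit 36) (nat_lit 5) (nat_lit 35) (nat_lit 5) (nat_lit 42) (nat_lit 5) (nat_lit 227) (nat_lit 224) (nat_lit 149)) (XT.lf (nat_lit 0) (nat_lit 86568100286) (nat_lit 456) (nat_lit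 28224596782) (nat_lit 76) (nat_lit 43896141013) (nat_lit 36) (nat_lit 5) (nat_lit 42) (nat_lit 5) (nat_lit 37) (nat_lit 5) (nat_lit 228) (nat_lit 224) (nat_lit 148))) (XT.nd (nat_lit 78) (nat_lit 228) (nat_lit 0) (XT.lf (nat_lit 0) (nat_lit 109738595570) (nat_lit 456) (nat_lit 6179561876) (nat_lit 532) (nat_lit 56228019260) (nat_lit 30) (nat_lit 5) (nat_lit 36) (nat_lit 5) (nat_lit 37) (nat_lit 5) (nat_lit 229) (nat_lit 224) (nat_lit 147)) (XT.lf (nat_lit 0) (nat_lit 83866925150) (nat_lit 228) (nat_lit 71518416362) (nat_lit 304) (nat_lit 31779609625) (nat_lit 27) (nat_lit 5) (nat_lit 30) (nat_lit 5) (nat_lit 31) (nat_lit 5) (nat_lit 230) (nat_lit 224) (nat_lit 146)))) (XT.nd (nat_lit 156) (nat_lit 304) (nat_lit 0) (XT.nd (nat_lit 78) (nat_lit 228) (nat_lit 0) (XT.lf (nat_lit 0) (nat_lit 1161651951) (nat_lit 228) (nat_lit 151333831125) (nat_lit 76) (nat_lit 51576727248) (nat_lit 24) (nat_lit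 5) (nat_lit 27) (nat_lit 5) (nat_lit 25) (nat_lit 5) (nat_lit 231) (nat_lit 224) (nat_lit 145)) (XT.lf (nat_lit 0) (nat_lit 12868562603) (nat_lit 228) (nat_lit 29719705551) (nat_lit 304) (nat_lit 180427187982) (nat_lit 21) (nat_lit 5) (nat_lit 24) (nat_lit 5) (nat_lit 25) (nat_lit 5) (nat_lit 232) (nat_lit 224) (nat_lit 144))) (XT.nd (nat_lit 78) (nat_lit 304) (nat_lit 0) (XT.lf (nat_lit 0) (nat_lit 97429553910) (nat_lit 304) (nat_lit 36378204524) (nat_lit 76) (nat_lit 110416378944) (nat_lit 21) (nat_lit 5) (nat_lit 25) (nat_lit 5) (nat_lit 22) (nat_lit 5) (nat_lit 233) (nat_lit 224) (nat_lit 143)) (XT.nd (nat_lit 78) (nat_lit 152) (nat_lit 0) (XT.lf (nat_lit 0) (nat_lit 165574340546) (nat_lit 228) (nat_lit 97160463593) (nat_lit 76) (nat_lit 5473134395) (nat_lit 19) (nat_lit 5) (nat_lit 22) (nat_lit 5) (nat_lit 20) (nat_lit 5) (nat_lit 234) (nat_lit 224) (nat_lit 142)) (XT.lf (nat_lit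 0) (nat_lit 118272921396) (nat_lit 152) (nat_lit 133299332863) (nat_lit 228) (nat_lit 43606544937) (nat_lit 17) (nat_lit 5) (nat_lit 19) (nat_lit 5) (nat_lit 20) (nat_lit 5) (nat_lit 235) (nat_lit 224) (nat_lit 141)))))) (XT.nd (nat_lit 390) (nat_lit 380) (nat_lit 0) (XT.nd (nat_lit 156) (nat_lit 304) (nat_lit 0) (XT.nd (nat_lit 78) (nat_lit 0) (nat_lit 0) (XT.lf (nat_lit 0) (nat_lit 27602623589) (nat_lit 152) (nat_lit 278656630902) (nat_lit 76) (nat_lit 19525942245) (nat_lit 15) (nat_lit 5) (nat_lit 17) (nat_lit 5) (nat_lit 16) (nat_lit 5) (nat_lit 236) (nat_lit 224) (nat_lit 140)) (XT.lf (nat_lit 0) (nat_lit 115955119263) (nat_lit 152) (nat_lit 50116611277) (nat_lit 76) (nat_lit 194096698132) (nat_lit 15) (nat_lit 5) (nat_lit 17) (nat_lit 5) (nat_lit 16) (nat_lit 5) (nat_lit 237) (nat_lit 224) (nat_lit 139))) (XT.nd (nat_lit 78) (nat_lit 152) (nat_lit 0) (XT.lf (nat_lit 0) (nat_lit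 222968127436) (nat_lit 228) (nat_lit 175396950974) (nat_lit 76) (nat_lit 911457191) (nat_lit 13) (nat_lit 5) (nat_lit 16) (nat_lit 5) (nat_lit 14) (nat_lit 4) (nat_lit 238) (nat_lit 224) (nat_lit 138)) (XT.nd (nat_lit 78) (nat_lit 76) (nat_lit 0) (XT.lf (nat_lit 0) (nat_lit 98154550054) (nat_lit 76) (nat_lit 256328963617) (nat_lit 152) (nat_lit 89091311842) (nat_lit 12) (nat_lit 5) (nat_lit 13) (nat_lit 5) (nat_lit 14) (nat_lit 4) (nat_lit 239) (nat_lit 224) (nat_lit 137)) (XT.lf (nat_lit 0) (nat_lit 15886497975) (nat_lit 152) (nat_lit 71151722923) (nat_lit 76) (nat_lit 407038967123) (nat_lit 11) (nat_lit 5) (nat_lit 13) (nat_lit 5) (nat_lit 12) (nat_lit 5) (nat_lit 240) (nat_lit 224) (nat_lit 136))))) (XT.nd (nat_lit 156) (nat_lit 152) (nat_lit 0) (XT.nd (nat_lit 78) (nat_lit 76) (nat_lit 0) (XT.lf (nat_lit 0) (nat_lit 140418727858) (nat_lit 228) (nat_lit 299754948871) (nat_lit 76) (nat_lit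 111069468260) (nat_lit 9) (nat_lit 5) (nat_lit 12) (nat_lit 5) (nat_lit 10) (nat_lit 4) (nat_lit 241) (nat_lit 224) (nat_lit 135)) (XT.lf (nat_lit 0) (nat_lit 7950836870) (nat_lit 76) (nat_lit 280403511936) (nat_lit 152) (nat_lit 328251762835) (nat_lit 8) (nat_lit 5) (nat_lit 9) (nat_lit 5) (nat_lit 10) (nat_lit 4) (nat_lit 242) (nat_lit 224) (nat_lit 134))) (XT.nd (nat_lit 78) (nat_lit 152) (nat_lit 0) (XT.lf (nat_lit 0) (nat_lit 379964383450) (nat_lit 76) (nat_lit 87242759837) (nat_lit 152) (nat_lit 223868234150) (nat_lit 8) (nat_lit 5) (nat_lit 9) (nat_lit 5) (nat_lit 10) (nat_lit 4) (nat_lit 243) (nat_lit 224) (nat_lit 133)) (XT.nd (nat_lit 78) (nat_lit 76) (nat_lit 0) (XT.lf (nat_lit 0) (nat_lit 29285424154) (nat_lit 76) (nat_lit 647550718590) (nat_lit 76) (nat_lit 99563027997) (nat_lit 7) (nat_lit 4) (nat_lit 8) (nat_lit 5) (nat_lit 8) (nat_lit 4) (nat_lit 244) (nat_lit 224) (nat_lit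 132)) (XT.lf (nat_lit 0) (nat_lit 52923187319) (nat_lit 152) (nat_lit 437907647161) (nat_lit 76) (nat_lit 382670766872) (nat_lit 6) (nat_lit 5) (nat_lit 8) (nat_lit 5) (nat_lit 7) (nat_lit 4) (nat_lit 245) (nat_lit 224) (nat_lit 131))))))) (XT.nd (nat_lit 780) (nat_lit 0) (nat_lit 0) (XT.nd (nat_lit 390) (nat_lit 152) (nat_lit 0) (XT.nd (nat_lit 156) (nat_lit 76) (nat_lit 0) (XT.nd (nat_lit 78) (nat_lit 76) (nat_lit 0) (XT.lf (nat_lit 0) (nat_lit 222554554841) (nat_lit 152) (nat_lit 85074564622) (nat_lit 76) (nat_lit 677319996254) (nat_lit 6) (nat_lit 5) (nat_lit 8) (nat_lit 5) (nat_lit 7) (nat_lit 4) (nat_lit 246) (nat_lit 224) (nat_lit 130)) (XT.lf (nat_lit 0) (nat_lit 337569861866) (nat_lit 76) (nat_lit 88179196474) (nat_lit 152) (nat_lit 686715224735) (nat_lit 5) (nat_lit 5) (nat_lit 6) (nat_lit 5) (nat_lit 7) (nat_lit 4) (nat_lit 247) (nat_lit 224) (nat_lit 129))) (XT.nd (nat_lit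 78) (nat_lit 76) (nat_lit 0) (XT.lf (nat_lit 0) (nat_lit 665912533766) (nat_lit 152) (nat_lit 434159050398) (nat_lit 0) (nat_lit 158515957926) (nat_lit 5) (nat_lit 5) (nat_lit 7) (nat_lit 4) (nat_lit 5) (nat_lit 4) (nat_lit 248) (nat_lit 224) (nat_lit 128)) (XT.nd (nat_lit 78) (nat_lit 76) (nat_lit 0) (XT.lf (nat_lit 0) (nat_lit 944539242626) (nat_lit 152) (nat_lit 44752382375) (nat_lit 0) (nat_lit 437142568215) (nat_lit 5) (nat_lit 5) (nat_lit 7) (nat_lit 4) (nat_lit 5) (nat_lit 4) (nat_lit 249) (nat_lit 224) (nat_lit 127)) (XT.lf (nat_lit 0) (nat_lit 424289815733) (nat_lit 76) (nat_lit 850874229796) (nat_lit 76) (nat_lit 343477469671) (nat_lit 4) (nat_lit 4) (nat_lit 5) (nat_lit 5) (nat_lit 5) (nat_lit 4) (nat_lit 250) (nat_lit 224) (nat_lit 126))))) (XT.nd (nat_lit 156) (nat_lit 76) (nat_lit 0) (XT.nd (nat_lit 78) (nat_lit 76) (nat_lit 0) (XT.lf (nat_lit 0) (nat_lit 966398260768) (nat_lit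 76) (nat_lit 690287141438) (nat_lit 76) (nat_lit 182890306779) (nat_lit 4) (nat_lit 4) (nat_lit 5) (nat_lit 5) (nat_lit 5) (nat_lit 4) (nat_lit 251) (nat_lit 224) (nat_lit 125)) (XT.lf (nat_lit 0) (nat_lit 1695565897) (nat_lit 152) (nat_lit 503870122404) (nat_lit 76) (nat_lit 1588080915486) (nat_lit 3) (nat_lit 5) (nat_lit 5) (nat_lit 5) (nat_lit 4) (nat_lit 4) (nat_lit 252) (nat_lit 224) (nat_lit 124))) (XT.nd (nat_lit 78) (nat_lit 76) (nat_lit 0) (XT.lf (nat_lit 0) (nat_lit 203448003157) (nat_lit 152) (nat_lit 84225109262) (nat_lit 76) (nat_lit 2097750362245) (nat_lit 3) (nat_lit 5) (nat_lit 5) (nat_lit 5) (nat_lit 4) (nat_lit 4) (nat_lit 253) (nat_lit 224) (nat_lit 123)) (XT.nd (nat_lit 78) (nat_lit 0) (nat_lit 0) (XT.lf (nat_lit 0) (nat_lit 419343830128) (nat_lit 76) (nat_lit 26204648219) (nat_lit 152) (nat_lit 2274611584143) (nat_lit 2) (nat_lit 5) (nat_lit 3) (nat_lit 5) (nat_lit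 4) (nat_lit 4) (nat_lit 254) (nat_lit 224) (nat_lit 122)) (XT.lf (nat_lit 0) (nat_lit 733081135922) (nat_lit 152) (nat_lit 2108027578825) (nat_lit 0) (nat_lit 263269054949) (nat_lit 2) (nat_lit 5) (nat_lit 4) (nat_lit 4) (nat_lit 2) (nat_lit 4) (nat_lit 255) (nat_lit 224) (nat_lit 121)))))) (XT.nd (nat_lit 29172) (nat_lit 0) (nat_lit 1444) (XT.nd (nat_lit 28938) (nat_lit 0) (nat_lit 2432) (XT.nd (nat_lit 28860) (nat_lit 0) (nat_lit 2356) (XT.lf (nat_lit 0) (nat_lit 1064468402081) (nat_lit 152) (nat_lit 1887045467389) (nat_lit 0) (nat_lit 594656286796) (nat_lit 2) (nat_lit 5) (nat_lit 4) (nat_lit 4) (nat_lit 2) (nat_lit 4) (nat_lit 256) (nat_lit 224) (nat_lit 120)) (XT.lf (nat_lit 0) (nat_lit 21025289262) (nat_lit 532) (nat_lit 23287318285) (nat_lit 532) (nat_lit 23287318285) (nat_lit 33) (nat_lit 3) (nat_lit 40) (nat_lit 3) (nat_lit 40) (nat_lit 5) (nat_lit 225) (nat_lit 225) (nat_lit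 150))) (XT.nd (nat_lit 78) (nat_lit 0) (nat_lit 0) (XT.lf (nat_lit 0) (nat_lit 47131132994) (nat_lit 456) (nat_lit 82311253551) (nat_lit 532) (nat_lit 15743279860) (nat_lit 34) (nat_lit 5) (nat_lit 40) (nat_lit 5) (nat_lit 41) (nat_lit 5) (nat_lit 226) (nat_lit 225) (nat_lit 149)) (XT.nd (nat_lit 78) (nat_lit 0) (nat_lit 76) (XT.lf (nat_lit 76) (nat_lit 34225400631) (nat_lit 0) (nat_lit 23412816005) (nat_lit 532) (nat_lit 98657986960) (nat_lit 35) (nat_lit 5) (nat_lit 34) (nat_lit 5) (nat_lit 41) (nat_lit 5) (nat_lit 227) (nat_lit 225) (nat_lit 148)) (XT.lf (nat_lit 76) (nat_lit 2013814128) (nat_lit 0) (nat_lit 72583170154) (nat_lit 532) (nat_lit 94086292514) (nat_lit 36) (nat_lit 5) (nat_lit 35) (nat_lit 5) (nat_lit 42) (nat_lit 5) (nat_lit 228) (nat_lit 225) (nat_lit 147))))) (XT.nd (nat_lit 156) (nat_lit 684) (nat_lit 0) (XT.nd (nat_lit 78) (nat_lit 456) (nat_lit 0) (XT.lf (nat_lit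 0) (nat_lit 99561830757) (nat_lit 456) (nat_lit 32450546648) (nat_lit 76) (nat_lit 50479056955) (nat_lit 36) (nat_lit 5) (nat_lit 42) (nat_lit 5) (nat_lit 37) (nat_lit 5) (nat_lit 229) (nat_lit 225) (nat_lit 146)) (XT.lf (nat_lit 0) (nat_lit 126206469435) (nat_lit 456) (nat_lit 7106986731) (nat_lit 532) (nat_lit 64653999126) (nat_lit 30) (nat_lit 5) (nat_lit 36) (nat_lit 5) (nat_lit 37) (nat_lit 5) (nat_lit 230) (nat_lit 225) (nat_lit 145))) (XT.nd (nat_lit 78) (nat_lit 456) (nat_lit 0) (XT.lf (nat_lit 0) (nat_lit 96454052658) (nat_lit 228) (nat_lit 82245837351) (nat_lit 304) (nat_lit 36539227571) (nat_lit 27) (nat_lit 5) (nat_lit 30) (nat_lit 5) (nat_lit 31) (nat_lit 5) (nat_lit 231) (nat_lit 225) (nat_lit 144)) (XT.nd (nat_lit 78) (nat_lit 228) (nat_lit 0) (XT.lf (nat_lit 0) (nat_lit 1342129700) (nat_lit 228) (nat_lit 174026539746) (nat_lit 76) (nat_lit 59313844686) (nat_lit 24) (nat_lit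 5) (nat_lit 27) (nat_lit 5) (nat_lit 25) (nat_lit 5) (nat_lit 232) (nat_lit 225) (nat_lit 143)) (XT.lf (nat_lit 0) (nat_lit 14805589543) (nat_lit 228) (nat_lit 34176498346) (nat_lit 304) (nat_lit 207485214791) (nat_lit 21) (nat_lit 5) (nat_lit 24) (nat_lit 5) (nat_lit 25) (nat_lit 5) (nat_lit 233) (nat_lit 225) (nat_lit 142))))))))
noncomputable def xc54 : XT := (XT.nd (nat_lit 1482) (nat_lit 152) (nat_lit 0) (XT.nd (nat_lit 702) (nat_lit 380) (nat_lit 0) (XT.nd (nat_lit 312) (nat_lit 456) (nat_lit 0) (XT.nd (nat_lit 156) (nat_lit 304) (nat_lit 0) (XT.nd (nat_lit 78) (nat_lit 152) (nat_lit 0) (XT.lf (nat_lit 0) (nat_lit 112048863068) (nat_lit 304) (nat_lit 41828686111) (nat_lit 76) (nat_lit 126979796531) (nat_lit 21) (nat_lit 5) (nat_lit 25) (nat_lit 5) (nat_lit 22) (nat_lit 5) (nat_lit 234) (nat_lit 225) (nat_lit 141)) (XT.lf (nat_lit 0) (nat_lit 190414901547) (nat_lit 228) (nat_lit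 111728475777) (nat_lit 76) (nat_lit 6295379902) (nat_lit 19) (nat_lit 5) (nat_lit 22) (nat_lit 5) (nat_lit 20) (nat_lit 5) (nat_lit 235) (nat_lit 225) (nat_lit 140))) (XT.nd (nat_lit 78) (nat_lit 152) (nat_lit 0) (XT.lf (nat_lit 0) (nat_lit 136019404236) (nat_lit 152) (nat_lit 153292656224) (nat_lit 228) (nat_lit 50143224395) (nat_lit 17) (nat_lit 5) (nat_lit 19) (nat_lit 5) (nat_lit 20) (nat_lit 5) (nat_lit 236) (nat_lit 225) (nat_lit 139)) (XT.lf (nat_lit 0) (nat_lit 31746736849) (nat_lit 152) (nat_lit 320449569625) (nat_lit 76) (nat_lit 22456358686) (nat_lit 15) (nat_lit 5) (nat_lit 17) (nat_lit 5) (nat_lit 16) (nat_lit 5) (nat_lit 237) (nat_lit 225) (nat_lit 138)))) (XT.nd (nat_lit 156) (nat_lit 304) (nat_lit 0) (XT.nd (nat_lit 78) (nat_lit 152) (nat_lit 0) (XT.lf (nat_lit 0) (nat_lit 133351621693) (nat_lit 152) (nat_lit 57629271740) (nat_lit 76) (nat_lit 223212529030) (nat_lit 15)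 (nat_lit 5) (nat_lit 17) (nat_lit 5) (nat_lit 16) (nat_lit 5) (nat_lit 238) (nat_lit 225) (nat_lit 137)) (XT.lf (nat_lit 0) (nat_lit 256416301705) (nat_lit 228) (nat_lit 201701863751) (nat_lit 76) (nat_lit 1049603858) (nat_lit 13) (nat_lit 5) (nat_lit 16) (nat_lit 5) (nat_lit 14) (nat_lit 4) (nat_lit 239) (nat_lit 225) (nat_lit 136))) (XT.nd (nat_lit 78) (nat_lit 228) (nat_lit 0) (XT.lf (nat_lit 0) (nat_lit 112881970536) (nat_lit 76) (nat_lit 294776741808) (nat_lit 152) (nat_lit 102452114384) (nat_lit 12) (nat_lit 5) (nat_lit 13) (nat_lit 5) (nat_lit 14) (nat_lit 4) (nat_lit 240) (nat_lit 225) (nat_lit 135)) (XT.nd (nat_lit 78) (nat_lit 152) (nat_lit 0) (XT.lf (nat_lit 0) (nat_lit 18271863500) (nat_lit 152) (nat_lit 81820663119) (nat_lit 76) (nat_lit 468096041188) (nat_lit 11) (nat_lit 5) (nat_lit 13) (nat_lit 5) (nat_lit 12) (nat_lit 5) (nat_lit 241) (nat_lit 225) (nat_lit 134)) (XT.lf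 (nat_lit 0) (nat_lit 161483732109) (nat_lit 228) (nat_lit 344714548927) (nat_lit 76) (nat_lit 127731153877) (nat_lit 9) (nat_lit 5) (nat_lit 12) (nat_lit 5) (nat_lit 10) (nat_lit 4) (nat_lit 242) (nat_lit 225) (nat_lit 133)))))) (XT.nd (nat_lit 390) (nat_lit 152) (nat_lit 0) (XT.nd (nat_lit 156) (nat_lit 152) (nat_lit 0) (XT.nd (nat_lit 78) (nat_lit 0) (nat_lit 0) (XT.lf (nat_lit 0) (nat_lit 9146796375) (nat_lit 76) (nat_lit 322462693693) (nat_lit 152) (nat_lit 377487373797) (nat_lit 8) (nat_lit 5) (nat_lit 9) (nat_lit 5) (nat_lit 10) (nat_lit 4) (nat_lit 243) (nat_lit 225) (nat_lit 132)) (XT.lf (nat_lit 0) (nat_lit 436961940075) (nat_lit 76) (nat_lit 100328004218) (nat_lit 152) (nat_lit 257446596696) (nat_lit 8) (nat_lit 5) (nat_lit 9) (nat_lit 5) (nat_lit 10) (nat_lit 4) (nat_lit 244) (nat_lit 225) (nat_lit 131))) (XT.nd (nat_lit 78) (nat_lit 76) (nat_lit 0) (XT.lf (nat_lit 0) (nat_lit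 33680996696) (nat_lit 76) (nat_lit 744682162196) (nat_lit 76) (nat_lit 114495755791) (nat_lit 7) (nat_lit 4) (nat_lit 8) (nat_lit 5) (nat_lit 8) (nat_lit 4) (nat_lit 245) (nat_lit 225) (nat_lit 130)) (XT.nd (nat_lit 78) (nat_lit 0) (nat_lit 0) (XT.lf (nat_lit 0) (nat_lit 60863091541) (nat_lit 152) (nat_lit 503591316786) (nat_lit 76) (nat_lit 440072315846) (nat_lit 6) (nat_lit 5) (nat_lit 8) (nat_lit 5) (nat_lit 7) (nat_lit 4) (nat_lit 246) (nat_lit 225) (nat_lit 129)) (XT.lf (nat_lit 0) (nat_lit 255938978175) (nat_lit 152) (nat_lit 97833595012) (nat_lit 76) (nat_lit 778918807816) (nat_lit 6) (nat_lit 5) (nat_lit 8) (nat_lit 5) (nat_lit 7) (nat_lit 4) (nat_lit 247) (nat_lit 225) (nat_lit 128))))) (XT.nd (nat_lit 156) (nat_lit 76) (nat_lit 0) (XT.nd (nat_lit 78) (nat_lit 0) (nat_lit 0) (XT.lf (nat_lit 0) (nat_lit 388207313098) (nat_lit 76) (nat_lit 101405229773) (nat_lit 152) (nat_lit 789721290113)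 (nat_lit 5) (nat_lit 5) (nat_lit 6) (nat_lit 5) (nat_lit 7) (nat_lit 4) (nat_lit 248) (nat_lit 225) (nat_lit 127)) (XT.lf (nat_lit 0) (nat_lit 765800410466) (nat_lit 152) (nat_lit 499281130432) (nat_lit 0) (nat_lit 182294050609) (nat_lit 5) (nat_lit 5) (nat_lit 7) (nat_lit 4) (nat_lit 5) (nat_lit 4) (nat_lit 249) (nat_lit 225) (nat_lit 126))) (XT.nd (nat_lit 78) (nat_lit 76) (nat_lit 0) (XT.lf (nat_lit 0) (nat_lit 1086220995660) (nat_lit 152) (nat_lit 51463694058) (nat_lit 0) (nat_lit 502714561269) (nat_lit 5) (nat_lit 5) (nat_lit 7) (nat_lit 4) (nat_lit 5) (nat_lit 4) (nat_lit 250) (nat_lit 225) (nat_lit 125)) (XT.nd (nat_lit 78) (nat_lit 0) (nat_lit 0) (XT.lf (nat_lit 0) (nat_lit 487934702933) (nat_lit 76) (nat_lit 978504737051) (nat_lit 76) (nat_lit 394998237848) (nat_lit 4) (nat_lit 4) (nat_lit 5) (nat_lit 5) (nat_lit 5) (nat_lit 4) (nat_lit 251) (nat_lit 225) (nat_lit 124)) (XT.lf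 (nat_lit 0) (nat_lit 1111359230180) (nat_lit 76) (nat_lit 793829667250) (nat_lit 76) (nat_lit 210323111689) (nat_lit 4) (nat_lit 4) (nat_lit 5) (nat_lit 5) (nat_lit 5) (nat_lit 4) (nat_lit 252) (nat_lit 225) (nat_lit 123))))))) (XT.nd (nat_lit 29640) (nat_lit 0) (nat_lit 760) (XT.nd (nat_lit 29250) (nat_lit 0) (nat_lit 2128) (XT.nd (nat_lit 156) (nat_lit 76) (nat_lit 0) (XT.nd (nat_lit 78) (nat_lit 0) (nat_lit 0) (XT.lf (nat_lit 0) (nat_lit 1950512985) (nat_lit 152) (nat_lit 579449537558) (nat_lit 76) (nat_lit 1826293493689) (nat_lit 3) (nat_lit 5) (nat_lit 5) (nat_lit 5) (nat_lit 4) (nat_lit 4) (nat_lit 253) (nat_lit 225) (nat_lit 122)) (XT.lf (nat_lit 0) (nat_lit 233965735981) (nat_lit 152) (nat_lit 96857916341) (nat_lit 76) (nat_lit 2412413299955) (nat_lit 3) (nat_lit 5) (nat_lit 5) (nat_lit 5) (nat_lit 4) (nat_lit 4) (nat_lit 254) (nat_lit 225) (nat_lit 121))) (XT.nd (nat_lit 78)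 (nat_lit 0) (nat_lit 0) (XT.lf (nat_lit 0) (nat_lit 482246282756) (nat_lit 76) (nat_lit 30134951376) (nat_lit 152) (nat_lit 2615802798142) (nat_lit 2) (nat_lit 5) (nat_lit 3) (nat_lit 5) (nat_lit 4) (nat_lit 4) (nat_lit 255) (nat_lit 225) (nat_lit 120)) (XT.nd (nat_lit 28938) (nat_lit 0) (nat_lit 2356) (XT.lf (nat_lit 0) (nat_lit 843043735449) (nat_lit 152) (nat_lit 2424230925892) (nat_lit 0) (nat_lit 302759738724) (nat_lit 2) (nat_lit 5) (nat_lit 4) (nat_lit 4) (nat_lit 2) (nat_lit 4) (nat_lit 256) (nat_lit 225) (nat_lit 119)) (XT.lf (nat_lit 0) (nat_lit 24184559643) (nat_lit 532) (nat_lit 26777442516) (nat_lit 532) (nat_lit 26777442516) (nat_lit 33) (nat_lit 3) (nat_lit 40) (nat_lit 3) (nat_lit 40) (nat_lit 5) (nat_lit 226) (nat_lit 226) (nat_lit 148))))) (XT.nd (nat_lit 156) (nat_lit 304) (nat_lit 0) (XT.nd (nat_lit 78) (nat_lit 0) (nat_lit 0) (XT.lf (nat_lit 0) (nat_lit 54210357757)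 (nat_lit 456) (nat_lit 94651568716) (nat_lit 532) (nat_lit 18100770079) (nat_lit 34) (nat_lit 5) (nat_lit 40) (nat_lit 5) (nat_lit 41) (nat_lit 5) (nat_lit 227) (nat_lit 226) (nat_lit 147)) (XT.lf (nat_lit 76) (nat_lit 39365044162) (nat_lit 0) (nat_lit 26927353798) (nat_lit 532) (nat_lit 113447512071) (nat_lit 35) (nat_lit 5) (nat_lit 34) (nat_lit 5) (nat_lit 41) (nat_lit 5) (nat_lit 228) (nat_lit 226) (nat_lit 146))) (XT.nd (nat_lit 78) (nat_lit 380) (nat_lit 0) (XT.lf (nat_lit 76) (nat_lit 2321946302) (nat_lit 0) (nat_lit 83472023478) (nat_lit 532) (nat_lit 108191161595) (nat_lit 36) (nat_lit 5) (nat_lit 35) (nat_lit 5) (nat_lit 42) (nat_lit 5) (nat_lit 229) (nat_lit 226) (nat_lit 145)) (XT.nd (nat_lit 78) (nat_lit 456) (nat_lit 0) (XT.lf (nat_lit 0) (nat_lit 114502544257) (nat_lit 456) (nat_lit 37312276357) (nat_lit 76) (nat_lit 58049777344) (nat_lit 36) (nat_lit 5) (nat_lit 42) (nat_lit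 5) (nat_lit 37) (nat_lit 5) (nat_lit 230) (nat_lit 226) (nat_lit 144)) (XT.lf (nat_lit 0) (nat_lit 145142796772) (nat_lit 456) (nat_lit 8173405685) (nat_lit 532) (nat_lit 74345881208) (nat_lit 30) (nat_lit 5) (nat_lit 36) (nat_lit 5) (nat_lit 37) (nat_lit 5) (nat_lit 231) (nat_lit 226) (nat_lit 143)))))) (XT.nd (nat_lit 390) (nat_lit 532) (nat_lit 0) (XT.nd (nat_lit 156) (nat_lit 380) (nat_lit 0) (XT.nd (nat_lit 78) (nat_lit 228) (nat_lit 0) (XT.lf (nat_lit 0) (nat_lit 110927520660) (nat_lit 228) (nat_lit 94582454757) (nat_lit 304) (nat_lit 42014574090) (nat_lit 27) (nat_lit 5) (nat_lit 30) (nat_lit 5) (nat_lit 31) (nat_lit 5) (nat_lit 232) (nat_lit 226) (nat_lit 142)) (XT.lf (nat_lit 0) (nat_lit 1548159896) (nat_lit 228) (nat_lit 200124950917) (nat_lit 76) (nat_lit 68211381390) (nat_lit 24) (nat_lit 5) (nat_lit 27) (nat_lit 5) (nat_lit 25) (nat_lit 5) (nat_lit 233) (nat_lit 226) (nat_lit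 141))) (XT.nd (nat_lit 78) (nat_lit 152) (nat_lit 0) (XT.lf (nat_lit 0) (nat_lit 17031526310) (nat_lit 228) (nat_lit 39302093675) (nat_lit 304) (nat_lit 238603421290) (nat_lit 21) (nat_lit 5) (nat_lit 24) (nat_lit 5) (nat_lit 25) (nat_lit 5) (nat_lit 234) (nat_lit 226) (nat_lit 140)) (XT.nd (nat_lit 78) (nat_lit 152) (nat_lit 0) (XT.lf (nat_lit 0) (nat_lit 128859879539) (nat_lit 304) (nat_lit 48098263817) (nat_lit 76) (nat_lit 146027492473) (nat_lit 21) (nat_lit 5) (nat_lit 25) (nat_lit 5) (nat_lit 22) (nat_lit 5) (nat_lit 235) (nat_lit 226) (nat_lit 139)) (XT.lf (nat_lit 0) (nat_lit 218980471311) (nat_lit 228) (nat_lit 128483166914) (nat_lit 76) (nat_lit 7240651233) (nat_lit 19) (nat_lit 5) (nat_lit 22) (nat_lit 5) (nat_lit 20) (nat_lit 5) (nat_lit 236) (nat_lit 226) (nat_lit 138))))) (XT.nd (nat_lit 156) (nat_lit 228) (nat_lit 0) (XT.nd (nat_lit 78) (nat_lit 152) (nat_lit 0) (XT.lf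 (nat_lit 0) (nat_lit 156426507408) (nat_lit 152) (nat_lit 176285362544) (nat_lit 228) (nat_lit 57661454910) (nat_lit 17) (nat_lit 5) (nat_lit 19) (nat_lit 5) (nat_lit 20) (nat_lit 5) (nat_lit 237) (nat_lit 226) (nat_lit 137)) (XT.lf (nat_lit 0) (nat_lit 36511560020) (nat_lit 152) (nat_lit 368512804001) (nat_lit 76) (nat_lit 25825965688) (nat_lit 15) (nat_lit 5) (nat_lit 17) (nat_lit 5) (nat_lit 16) (nat_lit 5) (nat_lit 238) (nat_lit 226) (nat_lit 136))) (XT.nd (nat_lit 78) (nat_lit 228) (nat_lit 0) (XT.lf (nat_lit 0) (nat_lit 153356810724) (nat_lit 152) (nat_lit 66270009399) (nat_lit 76) (nat_lit 256695411165) (nat_lit 15) (nat_lit 5) (nat_lit 17) (nat_lit 5) (nat_lit 16) (nat_lit 5) (nat_lit 239) (nat_lit 226) (nat_lit 135)) (XT.nd (nat_lit 78) (nat_lit 76) (nat_lit 0) (XT.lf (nat_lit 0) (nat_lit 294880981482) (nat_lit 228) (nat_lit 231953642467) (nat_lit 76) (nat_lit 1208124277) (nat_lit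 13) (nat_lit 5) (nat_lit 16) (nat_lit 5) (nat_lit 14) (nat_lit 4) (nat_lit 240) (nat_lit 226) (nat_lit 134)) (XT.lf (nat_lit 0) (nat_lit 129817470633) (nat_lit 76) (nat_lit 338992068693) (nat_lit 152) (nat_lit 117817743084) (nat_lit 12) (nat_lit 5) (nat_lit 13) (nat_lit 5) (nat_lit 14) (nat_lit 4) (nat_lit 241) (nat_lit 226) (nat_lit 133))))))))
noncomputable def xc55 : XT := (XT.nd (nat_lit 30498) (nat_lit 0) (nat_lit 228) (XT.nd (nat_lit 780) (nat_lit 228) (nat_lit 0) (XT.nd (nat_lit 390) (nat_lit 152) (nat_lit 0) (XT.nd (nat_lit 156) (nat_lit 152) (nat_lit 0) (XT.nd (nat_lit 78) (nat_lit 152) (nat_lit 0) (XT.lf (nat_lit 0) (nat_lit 21014450835) (nat_lit 152) (nat_lit 94090875447) (nat_lit 76) (nat_lit 538311376664) (nat_lit 11) (nat_lit 5) (nat_lit 13) (nat_lit 5) (nat_lit 12) (nat_lit 5) (nat_lit 242) (nat_lit 226) (nat_lit 132)) (XT.lf (nat_lit 0) (nat_lit 185707951716) (nat_lit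 228) (nat_lit 396418977184) (nat_lit 76) (nat_lit 146891783766) (nat_lit 9) (nat_lit 5) (nat_lit 12) (nat_lit 5) (nat_lit 10) (nat_lit 4) (nat_lit 243) (nat_lit 226) (nat_lit 131))) (XT.nd (nat_lit 78) (nat_lit 76) (nat_lit 0) (XT.lf (nat_lit 0) (nat_lit 10521336795) (nat_lit 76) (nat_lit 370831080709) (nat_lit 152) (nat_lit 434108851538) (nat_lit 8) (nat_lit 5) (nat_lit 9) (nat_lit 5) (nat_lit 10) (nat_lit 4) (nat_lit 244) (nat_lit 226) (nat_lit 130)) (XT.nd (nat_lit 78) (nat_lit 76) (nat_lit 0) (XT.lf (nat_lit 0) (nat_lit 502508423229) (nat_lit 76) (nat_lit 115376320470) (nat_lit 152) (nat_lit 296062170263) (nat_lit 8) (nat_lit 5) (nat_lit 9) (nat_lit 5) (nat_lit 10) (nat_lit 4) (nat_lit 245) (nat_lit 226) (nat_lit 129)) (XT.lf (nat_lit 0) (nat_lit 38735232339) (nat_lit 76) (nat_lit 856383606237) (nat_lit 76) (nat_lit 131668813750) (nat_lit 7) (nat_lit 4) (nat_lit 8) (nat_lit 5) (nat_lit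 8) (nat_lit 4) (nat_lit 246) (nat_lit 226) (nat_lit 128))))) (XT.nd (nat_lit 156) (nat_lit 76) (nat_lit 0) (XT.nd (nat_lit 78) (nat_lit 0) (nat_lit 0) (XT.lf (nat_lit 0) (nat_lit 69993633627) (nat_lit 152) (nat_lit 579128140997) (nat_lit 76) (nat_lit 506083869418) (nat_lit 6) (nat_lit 5) (nat_lit 8) (nat_lit 5) (nat_lit 7) (nat_lit 4) (nat_lit 247) (nat_lit 226) (nat_lit 127)) (XT.lf (nat_lit 0) (nat_lit 294330762602) (nat_lit 152) (nat_lit 112507005301) (nat_lit 76) (nat_lit 895757243071) (nat_lit 6) (nat_lit 5) (nat_lit 8) (nat_lit 5) (nat_lit 7) (nat_lit 4) (nat_lit 248) (nat_lit 226) (nat_lit 126))) (XT.nd (nat_lit 78) (nat_lit 0) (nat_lit 0) (XT.lf (nat_lit 0) (nat_lit 446439901142) (nat_lit 76) (nat_lit 116615374411) (nat_lit 152) (nat_lit 908178562396) (nat_lit 5) (nat_lit 5) (nat_lit 6) (nat_lit 5) (nat_lit 7) (nat_lit 4) (nat_lit 249) (nat_lit 226) (nat_lit 125)) (XT.nd (nat_lit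 78) (nat_lit 0) (nat_lit 0) (XT.lf (nat_lit 0) (nat_lit 880671225636) (nat_lit 152) (nat_lit 574171955933) (nat_lit 0) (nat_lit 209638686740) (nat_lit 5) (nat_lit 5) (nat_lit 7) (nat_lit 4) (nat_lit 5) (nat_lit 4) (nat_lit 250) (nat_lit 226) (nat_lit 124)) (XT.lf (nat_lit 0) (nat_lit 1249154800313) (nat_lit 152) (nat_lit 59182079415) (nat_lit 0) (nat_lit 578122205059) (nat_lit 5) (nat_lit 5) (nat_lit 7) (nat_lit 4) (nat_lit 5) (nat_lit 4) (nat_lit 251) (nat_lit 226) (nat_lit 123)))))) (XT.nd (nat_lit 29328) (nat_lit 0) (nat_lit 2356) (XT.nd (nat_lit 156) (nat_lit 152) (nat_lit 0) (XT.nd (nat_lit 78) (nat_lit 0) (nat_lit 0) (XT.lf (nat_lit 0) (nat_lit 561125978196) (nat_lit 76) (nat_lit 1125279973345) (nat_lit 76) (nat_lit 454247329084) (nat_lit 4) (nat_lit 4) (nat_lit 5) (nat_lit 5) (nat_lit 5) (nat_lit 4) (nat_lit 252) (nat_lit 226) (nat_lit 122)) (XT.lf (nat_lit 0) (nat_lit 1278064044987)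 (nat_lit 76) (nat_lit 912903704935) (nat_lit 76) (nat_lit 241871018058) (nat_lit 4) (nat_lit 4) (nat_lit 5) (nat_lit 5) (nat_lit 5) (nat_lit 4) (nat_lit 253) (nat_lit 226) (nat_lit 121))) (XT.nd (nat_lit 78) (nat_lit 76) (nat_lit 0) (XT.lf (nat_lit 0) (nat_lit 2243552847) (nat_lit 152) (nat_lit 666366134009) (nat_lit 76) (nat_lit 2100237851111) (nat_lit 3) (nat_lit 5) (nat_lit 5) (nat_lit 5) (nat_lit 4) (nat_lit 4) (nat_lit 254) (nat_lit 226) (nat_lit 120)) (XT.nd (nat_lit 78) (nat_lit 76) (nat_lit 0) (XT.lf (nat_lit 0) (nat_lit 269060998912) (nat_lit 152) (nat_lit 111385878417) (nat_lit 76) (nat_lit 2774275584835) (nat_lit 3) (nat_lit 5) (nat_lit 5) (nat_lit 5) (nat_lit 4) (nat_lit 4) (nat_lit 255) (nat_lit 226) (nat_lit 119)) (XT.lf (nat_lit 0) (nat_lit 554583889147) (nat_lit 76) (nat_lit 34654896104) (nat_lit 152) (nat_lit 3008172821931) (nat_lit 2) (nat_lit 5) (nat_lit 3) (nat_lit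 5) (nat_lit 4) (nat_lit 4) (nat_lit 256) (nat_lit 226) (nat_lit 118))))) (XT.nd (nat_lit 156) (nat_lit 0) (nat_lit 76) (XT.nd (nat_lit 78) (nat_lit 0) (nat_lit 76) (XT.lf (nat_lit 0) (nat_lit 27816384983) (nat_lit 532) (nat_lit 30791810491) (nat_lit 532) (nat_lit 30791810491) (nat_lit 33) (nat_lit 3) (nat_lit 40) (nat_lit 3) (nat_lit 40) (nat_lit 5) (nat_lit 227) (nat_lit 227) (nat_lit 146)) (XT.lf (nat_lit 0) (nat_lit 62349136232) (nat_lit 456) (nat_lit 108844485220) (nat_lit 532) (nat_lit 20812859685) (nat_lit 34) (nat_lit 5) (nat_lit 40) (nat_lit 5) (nat_lit 41) (nat_lit 5) (nat_lit 228) (nat_lit 227) (nat_lit 145))) (XT.nd (nat_lit 78) (nat_lit 0) (nat_lit 76) (XT.lf (nat_lit 76) (nat_lit 45274211702) (nat_lit 0) (nat_lit 30968434480) (nat_lit 532) (nat_lit 130457702826) (nat_lit 35) (nat_lit 5) (nat_lit 34) (nat_lit 5) (nat_lit 41) (nat_lit 5) (nat_lit 229) (nat_lit 227) (nat_lit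 144)) (XT.nd (nat_lit 78) (nat_lit 0) (nat_lit 76) (XT.lf (nat_lit 76) (nat_lit 2674820520) (nat_lit 0) (nat_lit 95993868816) (nat_lit 532) (nat_lit 124413730128) (nat_lit 36) (nat_lit 5) (nat_lit 35) (nat_lit 5) (nat_lit 42) (nat_lit 5) (nat_lit 230) (nat_lit 227) (nat_lit 143)) (XT.lf (nat_lit 0) (nat_lit 131682794618) (nat_lit 456) (nat_lit 42904692639) (nat_lit 76) (nat_lit 66756383337) (nat_lit 36) (nat_lit 5) (nat_lit 42) (nat_lit 5) (nat_lit 37) (nat_lit 5) (nat_lit 231) (nat_lit 227) (nat_lit 142))))))) (XT.nd (nat_lit 780) (nat_lit 608) (nat_lit 0) (XT.nd (nat_lit 390) (nat_lit 608) (nat_lit 0) (XT.nd (nat_lit 156) (nat_lit 456) (nat_lit 0) (XT.nd (nat_lit 78) (nat_lit 228) (nat_lit 0) (XT.lf (nat_lit 0) (nat_lit 166918266890) (nat_lit 456) (nat_lit 9399697026) (nat_lit 532) (nat_lit 85493061849) (nat_lit 30) (nat_lit 5) (nat_lit 36) (nat_lit 5) (nat_lit 37) (nat_lit 5) (nat_lit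 232) (nat_lit 227) (nat_lit 141)) (XT.lf (nat_lit 0) (nat_lit 127570701766) (nat_lit 228) (nat_lit 108769627737) (nat_lit 304) (nat_lit 48312572970) (nat_lit 27) (nat_lit 5) (nat_lit 30) (nat_lit 5) (nat_lit 31) (nat_lit 5) (nat_lit 233) (nat_lit 227) (nat_lit 140))) (XT.nd (nat_lit 78) (nat_lit 228) (nat_lit 0) (XT.lf (nat_lit 0) (nat_lit 1783945878) (nat_lit 228) (nat_lit 230139481993) (nat_lit 76) (nat_lit 78443436426) (nat_lit 24) (nat_lit 5) (nat_lit 27) (nat_lit 5) (nat_lit 25) (nat_lit 5) (nat_lit 234) (nat_lit 227) (nat_lit 139)) (XT.nd (nat_lit 78) (nat_lit 0) (nat_lit 0) (XT.lf (nat_lit 0) (nat_lit 19590110330) (nat_lit 228) (nat_lit 45196742756) (nat_lit 304) (nat_lit 274390474582) (nat_lit 21) (nat_lit 5) (nat_lit 24) (nat_lit 5) (nat_lit 25) (nat_lit 5) (nat_lit 235) (nat_lit 227) (nat_lit 138)) (XT.lf (nat_lit 0) (nat_lit 148191649379) (nat_lit 304) (nat_lit 55309430451)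 (nat_lit 76) (nat_lit 167932165653) (nat_lit 21) (nat_lit 5) (nat_lit 25) (nat_lit 5) (nat_lit 22) (nat_lit 5) (nat_lit 236) (nat_lit 227) (nat_lit 137))))) (XT.nd (nat_lit 156) (nat_lit 304) (nat_lit 0) (XT.nd (nat_lit 78) (nat_lit 152) (nat_lit 0) (XT.lf (nat_lit 0) (nat_lit 251830063393) (nat_lit 228) (nat_lit 147752178638) (nat_lit 76) (nat_lit 8327478103) (nat_lit 19) (nat_lit 5) (nat_lit 22) (nat_lit 5) (nat_lit 20) (nat_lit 5) (nat_lit 237) (nat_lit 227) (nat_lit 136)) (XT.lf (nat_lit 0) (nat_lit 179893653679) (nat_lit 152) (nat_lit 202727265517) (nat_lit 228) (nat_lit 66308213302) (nat_lit 17) (nat_lit 5) (nat_lit 19) (nat_lit 5) (nat_lit 20) (nat_lit 5) (nat_lit 238) (nat_lit 227) (nat_lit 135))) (XT.nd (nat_lit 78) (nat_lit 152) (nat_lit 0) (XT.lf (nat_lit 0) (nat_lit 41990420786) (nat_lit 152) (nat_lit 423786547991) (nat_lit 76) (nat_lit 29700732524) (nat_lit 15) (nat_lit 5)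 (nat_lit 17) (nat_lit 5) (nat_lit 16) (nat_lit 5) (nat_lit 239) (nat_lit 227) (nat_lit 134)) (XT.nd (nat_lit 78) (nat_lit 152) (nat_lit 0) (XT.lf (nat_lit 0) (nat_lit 176362181692) (nat_lit 152) (nat_lit 76207748538) (nat_lit 76) (nat_lit 295200481087) (nat_lit 15) (nat_lit 5) (nat_lit 17) (nat_lit 5) (nat_lit 16) (nat_lit 5) (nat_lit 240) (nat_lit 227) (nat_lit 133)) (XT.lf (nat_lit 0) (nat_lit 339114818324) (nat_lit 228) (nat_lit 266744041695) (nat_lit 76) (nat_lit 1390159433) (nat_lit 13) (nat_lit 5) (nat_lit 16) (nat_lit 5) (nat_lit 14) (nat_lit 4) (nat_lit 241) (nat_lit 227) (nat_lit 132)))))) (XT.nd (nat_lit 390) (nat_lit 228) (nat_lit 0) (XT.nd (nat_lit 156) (nat_lit 228) (nat_lit 0) (XT.nd (nat_lit 78) (nat_lit 76) (nat_lit 0) (XT.lf (nat_lit 0) (nat_lit 149292514304) (nat_lit 76) (nat_lit 389839983431) (nat_lit 152) (nat_lit 135488749759) (nat_lit 12) (nat_lit 5) (nat_lit 13)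 (nat_lit 5) (nat_lit 14) (nat_lit 4) (nat_lit 242) (nat_lit 227) (nat_lit 131)) (XT.lf (nat_lit 0) (nat_lit 24167985424) (nat_lit 152) (nat_lit 108202323671) (nat_lit 76) (nat_lit 619058785846) (nat_lit 11) (nat_lit 5) (nat_lit 13) (nat_lit 5) (nat_lit 12) (nat_lit 5) (nat_lit 243) (nat_lit 227) (nat_lit 130))) (XT.nd (nat_lit 78) (nat_lit 76) (nat_lit 0) (XT.lf (nat_lit 0) (nat_lit 213565399513) (nat_lit 228) (nat_lit 455879741279) (nat_lit 76) (nat_lit 168926274814) (nat_lit 9) (nat_lit 5) (nat_lit 12) (nat_lit 5) (nat_lit 10) (nat_lit 4) (nat_lit 244) (nat_lit 227) (nat_lit 129)) (XT.nd (nat_lit 78) (nat_lit 0) (nat_lit 0) (XT.lf (nat_lit 0) (nat_lit 12101443524) (nat_lit 76) (nat_lit 426454973788) (nat_lit 152) (nat_lit 499223948019) (nat_lit 8) (nat_lit 5) (nat_lit 9) (nat_lit 5) (nat_lit 10) (nat_lit 4) (nat_lit 245) (nat_lit 227) (nat_lit 128)) (XT.lf (nat_lit 0) (nat_lit 577886344287)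 (nat_lit 76) (nat_lit 132682099821) (nat_lit 152) (nat_lit 340470425151) (nat_lit 8) (nat_lit 5) (nat_lit 9) (nat_lit 5) (nat_lit 10) (nat_lit 4) (nat_lit 246) (nat_lit 227) (nat_lit 127))))) (XT.nd (nat_lit 156) (nat_lit 76) (nat_lit 0) (XT.nd (nat_lit 78) (nat_lit 76) (nat_lit 0) (XT.lf (nat_lit 0) (nat_lit 44547094611) (nat_lit 76) (nat_lit 984840481548) (nat_lit 76) (nat_lit 151418148735) (nat_lit 7) (nat_lit 4) (nat_lit 8) (nat_lit 5) (nat_lit 8) (nat_lit 4) (nat_lit 247) (nat_lit 227) (nat_lit 126)) (XT.lf (nat_lit 0) (nat_lit 80493494063) (nat_lit 152) (nat_lit 665995945657) (nat_lit 76) (nat_lit 581996983815) (nat_lit 6) (nat_lit 5) (nat_lit 8) (nat_lit 5) (nat_lit 7) (nat_lit 4) (nat_lit 248) (nat_lit 227) (nat_lit 125))) (XT.nd (nat_lit 78) (nat_lit 76) (nat_lit 0) (XT.lf (nat_lit 0) (nat_lit 338481086028) (nat_lit 152) (nat_lit 129381824366) (nat_lit 76) (nat_lit 1030121293866)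 (nat_lit 6) (nat_lit 5) (nat_lit 8) (nat_lit 5) (nat_lit 7) (nat_lit 4) (nat_lit 249) (nat_lit 227) (nat_lit 124)) (XT.nd (nat_lit 78) (nat_lit 0) (nat_lit 0) (XT.lf (nat_lit 0) (nat_lit 513407013784) (nat_lit 76) (nat_lit 134107196771) (nat_lit 152) (nat_lit 1044404650170) (nat_lit 5) (nat_lit 5) (nat_lit 6) (nat_lit 5) (nat_lit 7) (nat_lit 4) (nat_lit 250) (nat_lit 227) (nat_lit 123)) (XT.lf (nat_lit 0) (nat_lit 1012772479311) (nat_lit 152) (nat_lit 660296733017) (nat_lit 0) (nat_lit 241084889403) (nat_lit 5) (nat_lit 5) (nat_lit 7) (nat_lit 4) (nat_lit 5) (nat_lit 4) (nat_lit 251) (nat_lit 227) (nat_lit 122))))))))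
noncomputable def xc56 : XT := (XT.nd (nat_lit 30498) (nat_lit 0) (nat_lit 76) (XT.nd (nat_lit 29718) (nat_lit 0) (nat_lit 912) (XT.nd (nat_lit 312) (nat_lit 0) (nat_lit 0) (XT.nd (nat_lit 156) (nat_lit 76) (nat_lit 0) (XT.nd (nat_lit 78) (nat_lit 76) (nat_lit 0) (XT.lf (nat_lit 0) (nat_lit 1436528515864) (nat_lit 152) (nat_lit 68058507583) (nat_lit 0) (nat_lit 664840883342) (nat_lit 5) (nat_lit 5) (nat_lit 7) (nat_lit 4) (nat_lit 5) (nat_lit 4) (nat_lit 252) (nat_lit 227) (nat_lit 121)) (XT.lf (nat_lit 0) (nat_lit 645295683865) (nat_lit 76) (nat_lit 1294071610736) (nat_lit 76) (nat_lit 522383941156) (nat_lit 4) (nat_lit 4) (nat_lit 5) (nat_lit 5) (nat_lit 5) (nat_lit 4) (nat_lit 253) (nat_lit 227) (nat_lit 120))) (XT.nd (nat_lit 78) (nat_lit 76) (nat_lit 0) (XT.lf (nat_lit 0) (nat_lit 1469774355161) (nat_lit 76) (nat_lit 1049838948839) (nat_lit 76) (nat_lit 278151247037) (nat_lit 4)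 (nat_lit 4) (nat_lit 5) (nat_lit 5) (nat_lit 5) (nat_lit 4) (nat_lit 254) (nat_lit 227) (nat_lit 119)) (XT.lf (nat_lit 0) (nat_lit 2580435804) (nat_lit 152) (nat_lit 766320423349) (nat_lit 76) (nat_lit 2415273780852) (nat_lit 3) (nat_lit 5) (nat_lit 5) (nat_lit 5) (nat_lit 4) (nat_lit 4) (nat_lit 255) (nat_lit 227) (nat_lit 118)))) (XT.nd (nat_lit 29172) (nat_lit 0) (nat_lit 2356) (XT.nd (nat_lit 29094) (nat_lit 0) (nat_lit 2280) (XT.lf (nat_lit 0) (nat_lit 309420453123) (nat_lit 152) (nat_lit 128093211691) (nat_lit 76) (nat_lit 3190417141755) (nat_lit 3) (nat_lit 5) (nat_lit 5) (nat_lit 5) (nat_lit 4) (nat_lit 4) (nat_lit 256) (nat_lit 227) (nat_lit 117)) (XT.lf (nat_lit 0) (nat_lit 31991974219) (nat_lit 532) (nat_lit 35408881950) (nat_lit 532) (nat_lit 35408881950) (nat_lit 33) (nat_lit 3) (nat_lit 40) (nat_lit 3) (nat_lit 40) (nat_lit 5) (nat_lit 228) (nat_lit 228) (nat_lit 144)))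 (XT.nd (nat_lit 78) (nat_lit 0) (nat_lit 0) (XT.lf (nat_lit 0) (nat_lit 71706969663) (nat_lit 456) (nat_lit 125167514296) (nat_lit 532) (nat_lit 23932500618) (nat_lit 34) (nat_lit 5) (nat_lit 40) (nat_lit 5) (nat_lit 41) (nat_lit 5) (nat_lit 229) (nat_lit 228) (nat_lit 143)) (XT.nd (nat_lit 78) (nat_lit 0) (nat_lit 76) (XT.lf (nat_lit 76) (nat_lit 52068678743) (nat_lit 0) (nat_lit 35615195011) (nat_lit 532) (nat_lit 150021113595) (nat_lit 35) (nat_lit 5) (nat_lit 34) (nat_lit 5) (nat_lit 41) (nat_lit 5) (nat_lit 230) (nat_lit 228) (nat_lit 142)) (XT.lf (nat_lit 76) (nat_lit 3079508454) (nat_lit 0) (nat_lit 110393736900) (nat_lit 532) (nat_lit 143071172856) (nat_lit 36) (nat_lit 5) (nat_lit 35) (nat_lit 5) (nat_lit 42) (nat_lit 5) (nat_lit 231) (nat_lit 228) (nat_lit 141)))))) (XT.nd (nat_lit 390) (nat_lit 456) (nat_lit 0) (XT.nd (nat_lit 156) (nat_lit 684) (nat_lit 0) (XT.nd (nat_lit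 78) (nat_lit 456) (nat_lit 0) (XT.lf (nat_lit 0) (nat_lit 151438895265) (nat_lit 456) (nat_lit 49337050471) (nat_lit 76) (nat_lit 76769190095) (nat_lit 36) (nat_lit 5) (nat_lit 42) (nat_lit 5) (nat_lit 37) (nat_lit 5) (nat_lit 232) (nat_lit 228) (nat_lit 140)) (XT.lf (nat_lit 0) (nat_lit 191959069760) (nat_lit 456) (nat_lit 10809863668) (nat_lit 532) (nat_lit 98313466087) (nat_lit 30) (nat_lit 5) (nat_lit 36) (nat_lit 5) (nat_lit 37) (nat_lit 5) (nat_lit 233) (nat_lit 228) (nat_lit 139))) (XT.nd (nat_lit 78) (nat_lit 456) (nat_lit 0) (XT.lf (nat_lit 0) (nat_lit 146709371687) (nat_lit 228) (nat_lit 125084924272) (nat_lit 304) (nat_lit 55556292765) (nat_lit 27) (nat_lit 5) (nat_lit 30) (nat_lit 5) (nat_lit 31) (nat_lit 5) (nat_lit 234) (nat_lit 228) (nat_lit 138)) (XT.nd (nat_lit 78) (nat_lit 228) (nat_lit 0) (XT.lf (nat_lit 0) (nat_lit 2054231141) (nat_lit 228) (nat_lit 264657219746) (nat_lit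 76) (nat_lit 90210214897) (nat_lit 24) (nat_lit 5) (nat_lit 27) (nat_lit 5) (nat_lit 25) (nat_lit 5) (nat_lit 235) (nat_lit 228) (nat_lit 137)) (XT.lf (nat_lit 0) (nat_lit 22531541870) (nat_lit 228) (nat_lit 51975751356) (nat_lit 304) (nat_lit 315546429587) (nat_lit 21) (nat_lit 5) (nat_lit 24) (nat_lit 5) (nat_lit 25) (nat_lit 5) (nat_lit 236) (nat_lit 228) (nat_lit 136))))) (XT.nd (nat_lit 156) (nat_lit 304) (nat_lit 0) (XT.nd (nat_lit 78) (nat_lit 152) (nat_lit 0) (XT.lf (nat_lit 0) (nat_lit 170422504847) (nat_lit 304) (nat_lit 63603143365) (nat_lit 76) (nat_lit 193122405858) (nat_lit 21) (nat_lit 5) (nat_lit 25) (nat_lit 5) (nat_lit 22) (nat_lit 5) (nat_lit 237) (nat_lit 228) (nat_lit 135)) (XT.lf (nat_lit 0) (nat_lit 289606479432) (nat_lit 228) (nat_lit 169912386673) (nat_lit 76) (nat_lit 9577151186) (nat_lit 19) (nat_lit 5) (nat_lit 22) (nat_lit 5) (nat_lit 20) (nat_lit 5) (nat_lit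 238) (nat_lit 228) (nat_lit 134))) (XT.nd (nat_lit 78) (nat_lit 152) (nat_lit 0) (XT.lf (nat_lit 0) (nat_lit 206880098828) (nat_lit 152) (nat_lit 233135673751) (nat_lit 228) (nat_lit 76252585301) (nat_lit 17) (nat_lit 5) (nat_lit 19) (nat_lit 5) (nat_lit 20) (nat_lit 5) (nat_lit 239) (nat_lit 228) (nat_lit 133)) (XT.nd (nat_lit 78) (nat_lit 0) (nat_lit 0) (XT.lf (nat_lit 0) (nat_lit 48290592042) (nat_lit 152) (nat_lit 487352128215) (nat_lit 76) (nat_lit 34156501748) (nat_lit 15) (nat_lit 5) (nat_lit 17) (nat_lit 5) (nat_lit 16) (nat_lit 5) (nat_lit 240) (nat_lit 228) (nat_lit 132)) (XT.lf (nat_lit 0) (nat_lit 202817907327) (nat_lit 152) (nat_lit 87636822146) (nat_lit 76) (nat_lit 339481126593) (nat_lit 15) (nat_lit 5) (nat_lit 17) (nat_lit 5) (nat_lit 16) (nat_lit 5) (nat_lit 241) (nat_lit 228) (nat_lit 131))))))) (XT.nd (nat_lit 780) (nat_lit 76) (nat_lit 0) (XT.nd (nat_lit 390) (nat_lit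 228) (nat_lit 0) (XT.nd (nat_lit 156) (nat_lit 304) (nat_lit 0) (XT.nd (nat_lit 78) (nat_lit 76) (nat_lit 0) (XT.lf (nat_lit 0) (nat_lit 389983318667) (nat_lit 228) (nat_lit 306753646329) (nat_lit 76) (nat_lit 1599300749) (nat_lit 13) (nat_lit 5) (nat_lit 16) (nat_lit 5) (nat_lit 14) (nat_lit 4) (nat_lit 242) (nat_lit 228) (nat_lit 130)) (XT.lf (nat_lit 0) (nat_lit 171688223642) (nat_lit 76) (nat_lit 448315303768) (nat_lit 152) (nat_lit 155810810966) (nat_lit 12) (nat_lit 5) (nat_lit 13) (nat_lit 5) (nat_lit 14) (nat_lit 4) (nat_lit 243) (nat_lit 228) (nat_lit 129))) (XT.nd (nat_lit 78) (nat_lit 228) (nat_lit 0) (XT.lf (nat_lit 0) (nat_lit 27794216859) (nat_lit 152) (nat_lit 124431021490) (nat_lit 76) (nat_lit 711918135052) (nat_lit 11) (nat_lit 5) (nat_lit 13) (nat_lit 5) (nat_lit 12) (nat_lit 5) (nat_lit 244) (nat_lit 228) (nat_lit 128)) (XT.nd (nat_lit 78) (nat_lit 76) (nat_lit 0)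 (XT.lf (nat_lit 0) (nat_lit 245601158431) (nat_lit 228) (nat_lit 524260127815) (nat_lit 76) (nat_lit 194265763094) (nat_lit 9) (nat_lit 5) (nat_lit 12) (nat_lit 5) (nat_lit 10) (nat_lit 4) (nat_lit 245) (nat_lit 228) (nat_lit 127)) (XT.lf (nat_lit 0) (nat_lit 13918101422) (nat_lit 76) (nat_lit 490422638362) (nat_lit 152) (nat_lit 574106609221) (nat_lit 8) (nat_lit 5) (nat_lit 9) (nat_lit 5) (nat_lit 10) (nat_lit 4) (nat_lit 246) (nat_lit 228) (nat_lit 126))))) (XT.nd (nat_lit 156) (nat_lit 152) (nat_lit 0) (XT.nd (nat_lit 78) (nat_lit 76) (nat_lit 0) (XT.lf (nat_lit 0) (nat_lit 664570549295) (nat_lit 76) (nat_lit 152583909147) (nat_lit 152) (nat_lit 391540179356) (nat_lit 8) (nat_lit 5) (nat_lit 9) (nat_lit 5) (nat_lit 10) (nat_lit 4) (nat_lit 247) (nat_lit 228) (nat_lit 125)) (XT.lf (nat_lit 0) (nat_lit 51230351560) (nat_lit 76) (nat_lit 1132566050472) (nat_lit 76) (nat_lit 174130124673)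 (nat_lit 7) (nat_lit 4) (nat_lit 8) (nat_lit 5) (nat_lit 8) (nat_lit 4) (nat_lit 248) (nat_lit 228) (nat_lit 124))) (XT.nd (nat_lit 78) (nat_lit 76) (nat_lit 0) (XT.lf (nat_lit 0) (nat_lit 92568134725) (nat_lit 152) (nat_lit 765894266436) (nat_lit 76) (nat_lit 669296935157) (nat_lit 6) (nat_lit 5) (nat_lit 8) (nat_lit 5) (nat_lit 7) (nat_lit 4) (nat_lit 249) (nat_lit 228) (nat_lit 123)) (XT.nd (nat_lit 78) (nat_lit 76) (nat_lit 0) (XT.lf (nat_lit 0) (nat_lit 389253785065) (nat_lit 152) (nat_lit 148788166656) (nat_lit 76) (nat_lit 1184639839050) (nat_lit 6) (nat_lit 5) (nat_lit 8) (nat_lit 5) (nat_lit 7) (nat_lit 4) (nat_lit 250) (nat_lit 228) (nat_lit 122)) (XT.lf (nat_lit 0) (nat_lit 590418918381) (nat_lit 76) (nat_lit 154222910463) (nat_lit 152) (nat_lit 1201064820977) (nat_lit 5) (nat_lit 5) (nat_lit 6) (nat_lit 5) (nat_lit 7) (nat_lit 4) (nat_lit 251) (nat_lit 228) (nat_lit 121))))))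 (XT.nd (nat_lit 29562) (nat_lit 0) (nat_lit 1976) (XT.nd (nat_lit 156) (nat_lit 76) (nat_lit 0) (XT.nd (nat_lit 78) (nat_lit 0) (nat_lit 0) (XT.lf (nat_lit 0) (nat_lit 1164688782081) (nat_lit 152) (nat_lit 759340474497) (nat_lit 0) (nat_lit 277247925008) (nat_lit 5) (nat_lit 5) (nat_lit 7) (nat_lit 4) (nat_lit 5) (nat_lit 4) (nat_lit 252) (nat_lit 228) (nat_lit 120)) (XT.lf (nat_lit 0) (nat_lit 1652008167916) (nat_lit 152) (nat_lit 78266615483) (nat_lit 0) (nat_lit 764567278621) (nat_lit 5) (nat_lit 5) (nat_lit 7) (nat_lit 4) (nat_lit 5) (nat_lit 4) (nat_lit 253) (nat_lit 228) (nat_lit 119))) (XT.nd (nat_lit 78) (nat_lit 0) (nat_lit 0) (XT.lf (nat_lit 0) (nat_lit 742090648119) (nat_lit 76) (nat_lit 1488182081184) (nat_lit 76) (nat_lit 600741163869) (nat_lit 4) (nat_lit 4) (nat_lit 5) (nat_lit 5) (nat_lit 5) (nat_lit 4) (nat_lit 254) (nat_lit 228) (nat_lit 118)) (XT.nd (nat_lit 29250)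 (nat_lit 0) (nat_lit 2204) (XT.lf (nat_lit 0) (nat_lit 1690241040326) (nat_lit 76) (nat_lit 1207314555372) (nat_lit 76) (nat_lit 319873613691) (nat_lit 4) (nat_lit 4) (nat_lit 5) (nat_lit 5) (nat_lit 5) (nat_lit 4) (nat_lit 255) (nat_lit 228) (nat_lit 117)) (XT.lf (nat_lit 0) (nat_lit 36793138207) (nat_lit 532) (nat_lit 40718928712) (nat_lit 532) (nat_lit 40718928712) (nat_lit 33) (nat_lit 3) (nat_lit 40) (nat_lit 3) (nat_lit 40) (nat_lit 5) (nat_lit 229) (nat_lit 229) (nat_lit 142))))) (XT.nd (nat_lit 156) (nat_lit 304) (nat_lit 0) (XT.nd (nat_lit 78) (nat_lit 0) (nat_lit 0) (XT.lf (nat_lit 0) (nat_lit 82467145922) (nat_lit 456) (nat_lit 143939886273) (nat_lit 532) (nat_lit 27520645640) (nat_lit 34) (nat_lit 5) (nat_lit 40) (nat_lit 5) (nat_lit 41) (nat_lit 5) (nat_lit 230) (nat_lit 229) (nat_lit 141)) (XT.lf (nat_lit 76) (nat_lit 59881502510) (nat_lit 0) (nat_lit 40958604968) (nat_lit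 532) (nat_lit 172520314922) (nat_lit 35) (nat_lit 5) (nat_lit 34) (nat_lit 5) (nat_lit 41) (nat_lit 5) (nat_lit 231) (nat_lit 229) (nat_lit 140))) (XT.nd (nat_lit 78) (nat_lit 380) (nat_lit 0) (XT.lf (nat_lit 76) (nat_lit 3544054651) (nat_lit 0) (nat_lit 126953393097) (nat_lit 532) (nat_lit 164528357827) (nat_lit 36) (nat_lit 5) (nat_lit 35) (nat_lit 5) (nat_lit 42) (nat_lit 5) (nat_lit 232) (nat_lit 229) (nat_lit 139)) (XT.nd (nat_lit 78) (nat_lit 456) (nat_lit 0) (XT.lf (nat_lit 0) (nat_lit 174157513263) (nat_lit 456) (nat_lit 56735077935) (nat_lit 76) (nat_lit 88284076553) (nat_lit 36) (nat_lit 5) (nat_lit 42) (nat_lit 5) (nat_lit 37) (nat_lit 5) (nat_lit 233) (nat_lit 229) (nat_lit 138)) (XT.lf (nat_lit 0) (nat_lit 220755246170) (nat_lit 456) (nat_lit 12431503588) (nat_lit 532) (nat_lit 113057797879) (nat_lit 30) (nat_lit 5) (nat_lit 36) (nat_lit 5) (nat_lit 37) (nat_lit 5) (nat_lit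 234) (nat_lit 229) (nat_lit 137))))))))
noncomputable def xc57 : XT := (XT.nd (nat_lit 1482) (nat_lit 76) (nat_lit 0) (XT.nd (nat_lit 702) (nat_lit 608) (nat_lit 0) (XT.nd (nat_lit 312) (nat_lit 608) (nat_lit 0) (XT.nd (nat_lit 156) (nat_lit 228) (nat_lit 0) (XT.nd (nat_lit 78) (nat_lit 228) (nat_lit 0) (XT.lf (nat_lit 0) (nat_lit 168718094761) (nat_lit 228) (nat_lit 143847551288) (nat_lit 304) (nat_lit 63887342615) (nat_lit 27) (nat_lit 5) (nat_lit 30) (nat_lit 5) (nat_lit 31) (nat_lit 5) (nat_lit 235) (nat_lit 229) (nat_lit 136)) (XT.lf (nat_lit 0) (nat_lit 2364402396) (nat_lit 228) (nat_lit 304353394734) (nat_lit 76) (nat_lit 103741946003) (nat_lit 24) (nat_lit 5) (nat_lit 27) (nat_lit 5) (nat_lit 25) (nat_lit 5) (nat_lit 236) (nat_lit 229) (nat_lit 135))) (XT.nd (nat_lit 78) (nat_lit 0) (nat_lit 0) (XT.lf (nat_lit 0) (nat_lit 25913477301) (nat_lit 228) (nat_lit 59771733861) (nat_lit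 304) (nat_lit 362876415816) (nat_lit 21) (nat_lit 5) (nat_lit 24) (nat_lit 5) (nat_lit 25) (nat_lit 5) (nat_lit 237) (nat_lit 229) (nat_lit 134)) (XT.lf (nat_lit 0) (nat_lit 195987474570) (nat_lit 304) (nat_lit 73141572030) (nat_lit 76) (nat_lit 222091080806) (nat_lit 21) (nat_lit 5) (nat_lit 25) (nat_lit 5) (nat_lit 22) (nat_lit 5) (nat_lit 238) (nat_lit 229) (nat_lit 133)))) (XT.nd (nat_lit 156) (nat_lit 304) (nat_lit 0) (XT.nd (nat_lit 78) (nat_lit 152) (nat_lit 0) (XT.lf (nat_lit 0) (nat_lit 333048892957) (nat_lit 228) (nat_lit 195397264514) (nat_lit 76) (nat_lit 11014140778) (nat_lit 19) (nat_lit 5) (nat_lit 22) (nat_lit 5) (nat_lit 20) (nat_lit 5) (nat_lit 239) (nat_lit 229) (nat_lit 132)) (XT.lf (nat_lit 0) (nat_lit 237913926201) (nat_lit 152) (nat_lit 268105509430) (nat_lit 228) (nat_lit 87689066673) (nat_lit 17) (nat_lit 5) (nat_lit 19) (nat_lit 5) (nat_lit 20) (nat_lit 5) (nat_lit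 240) (nat_lit 229) (nat_lit 131))) (XT.nd (nat_lit 78) (nat_lit 152) (nat_lit 0) (XT.lf (nat_lit 0) (nat_lit 55535396832) (nat_lit 152) (nat_lit 560453131210) (nat_lit 76) (nat_lit 39280475570) (nat_lit 15) (nat_lit 5) (nat_lit 17) (nat_lit 5) (nat_lit 16) (nat_lit 5) (nat_lit 241) (nat_lit 229) (nat_lit 130)) (XT.nd (nat_lit 78) (nat_lit 152) (nat_lit 0) (XT.lf (nat_lit 0) (nat_lit 233241650803) (nat_lit 152) (nat_lit 100780766131) (nat_lit 76) (nat_lit 390403729112) (nat_lit 15) (nat_lit 5) (nat_lit 17) (nat_lit 5) (nat_lit 16) (nat_lit 5) (nat_lit 242) (nat_lit 229) (nat_lit 129)) (XT.lf (nat_lit 0) (nat_lit 448481782512) (nat_lit 228) (nat_lit 352765179766) (nat_lit 76) (nat_lit 1839662707) (nat_lit 13) (nat_lit 5) (nat_lit 16) (nat_lit 5) (nat_lit 14) (nat_lit 4) (nat_lit 243) (nat_lit 229) (nat_lit 128)))))) (XT.nd (nat_lit 390) (nat_lit 228) (nat_lit 0) (XT.nd (nat_lit 156) (nat_lit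 228) (nat_lit 0) (XT.nd (nat_lit 78) (nat_lit 76) (nat_lit 0) (XT.lf (nat_lit 0) (nat_lit 197442842590) (nat_lit 76) (nat_lit 515562087291) (nat_lit 152) (nat_lit 179181486480) (nat_lit 12) (nat_lit 5) (nat_lit 13) (nat_lit 5) (nat_lit 14) (nat_lit 4) (nat_lit 244) (nat_lit 229) (nat_lit 127)) (XT.lf (nat_lit 0) (nat_lit 31964130954) (nat_lit 152) (nat_lit 143094426523) (nat_lit 76) (nat_lit 818706257071) (nat_lit 11) (nat_lit 5) (nat_lit 13) (nat_lit 5) (nat_lit 12) (nat_lit 5) (nat_lit 245) (nat_lit 229) (nat_lit 126))) (XT.nd (nat_lit 78) (nat_lit 76) (nat_lit 0) (XT.lf (nat_lit 0) (nat_lit 282442049768) (nat_lit 228) (nat_lit 602897956322) (nat_lit 76) (nat_lit 223406041213) (nat_lit 9) (nat_lit 5) (nat_lit 12) (nat_lit 5) (nat_lit 10) (nat_lit 4) (nat_lit 246) (nat_lit 229) (nat_lit 125)) (XT.nd (nat_lit 78) (nat_lit 0) (nat_lit 0) (XT.lf (nat_lit 0) (nat_lit 16006906518) (nat_lit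 76) (nat_lit 563985594422) (nat_lit 152) (nat_lit 660221896633) (nat_lit 8) (nat_lit 5) (nat_lit 9) (nat_lit 5) (nat_lit 10) (nat_lit 4) (nat_lit 247) (nat_lit 229) (nat_lit 124)) (XT.lf (nat_lit 0) (nat_lit 764257079413) (nat_lit 76) (nat_lit 175471113177) (nat_lit 152) (nat_lit 450270594111) (nat_lit 8) (nat_lit 5) (nat_lit 9) (nat_lit 5) (nat_lit 10) (nat_lit 4) (nat_lit 248) (nat_lit 229) (nat_lit 123))))) (XT.nd (nat_lit 156) (nat_lit 76) (nat_lit 0) (XT.nd (nat_lit 78) (nat_lit 76) (nat_lit 0) (XT.lf (nat_lit 0) (nat_lit 58915806189) (nat_lit 76) (nat_lit 1302450577470) (nat_lit 76) (nat_lit 200249079010) (nat_lit 7) (nat_lit 4) (nat_lit 8) (nat_lit 5) (nat_lit 8) (nat_lit 4) (nat_lit 249) (nat_lit 229) (nat_lit 122)) (XT.lf (nat_lit 0) (nat_lit 106453821137) (nat_lit 152) (nat_lit 880777596519) (nat_lit 76) (nat_lit 769691780738) (nat_lit 6) (nat_lit 5) (nat_lit 8) (nat_lit 5)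 (nat_lit 7) (nat_lit 4) (nat_lit 250) (nat_lit 229) (nat_lit 121))) (XT.nd (nat_lit 78) (nat_lit 76) (nat_lit 0) (XT.lf (nat_lit 0) (nat_lit 447642258218) (nat_lit 152) (nat_lit 171105687409) (nat_lit 76) (nat_lit 1362336080392) (nat_lit 6) (nat_lit 5) (nat_lit 8) (nat_lit 5) (nat_lit 7) (nat_lit 4) (nat_lit 251) (nat_lit 229) (nat_lit 120)) (XT.nd (nat_lit 78) (nat_lit 0) (nat_lit 0) (XT.lf (nat_lit 0) (nat_lit 678982400773) (nat_lit 76) (nat_lit 177356070418) (nat_lit 152) (nat_lit 1381224145848) (nat_lit 5) (nat_lit 5) (nat_lit 6) (nat_lit 5) (nat_lit 7) (nat_lit 4) (nat_lit 252) (nat_lit 229) (nat_lit 119)) (XT.lf (nat_lit 0) (nat_lit 1339392425195) (nat_lit 152) (nat_lit 873240964595) (nat_lit 0) (nat_lit 318835342262) (nat_lit 5) (nat_lit 5) (nat_lit 7) (nat_lit 4) (nat_lit 5) (nat_lit 4) (nat_lit 253) (nat_lit 229) (nat_lit 118))))))) (XT.nd (nat_lit 30030) (nat_lit 0) (nat_lit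 380) (XT.nd (nat_lit 29640) (nat_lit 0) (nat_lit 1520) (XT.nd (nat_lit 29406) (nat_lit 0) (nat_lit 2204) (XT.nd (nat_lit 78) (nat_lit 76) (nat_lit 0) (XT.lf (nat_lit 0) (nat_lit 1899809676410) (nat_lit 152) (nat_lit 90006102522) (nat_lit 0) (nat_lit 879252569112) (nat_lit 5) (nat_lit 5) (nat_lit 7) (nat_lit 4) (nat_lit 5) (nat_lit 4) (nat_lit 254) (nat_lit 229) (nat_lit 117)) (XT.lf (nat_lit 0) (nat_lit 853404707851) (nat_lit 76) (nat_lit 1711409188325) (nat_lit 76) (nat_lit 690852059839) (nat_lit 4) (nat_lit 4) (nat_lit 5) (nat_lit 5) (nat_lit 5) (nat_lit 4) (nat_lit 255) (nat_lit 229) (nat_lit 116))) (XT.nd (nat_lit 78) (nat_lit 0) (nat_lit 76) (XT.lf (nat_lit 0) (nat_lit 42313899377) (nat_lit 532) (nat_lit 46825795972) (nat_lit 532) (nat_lit 46825795972) (nat_lit 33) (nat_lit 3) (nat_lit 40) (nat_lit 3) (nat_lit 40) (nat_lit 5) (nat_lit 230) (nat_lit 230) (nat_lit 140)) (XT.nd (nat_lit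 78) (nat_lit 0) (nat_lit 0) (XT.lf (nat_lit 0) (nat_lit 94840341296) (nat_lit 456) (nat_lit 165528785913) (nat_lit 532) (nat_lit 31647434303) (nat_lit 34) (nat_lit 5) (nat_lit 40) (nat_lit 5) (nat_lit 41) (nat_lit 5) (nat_lit 231) (nat_lit 230) (nat_lit 139)) (XT.lf (nat_lit 76) (nat_lit 68865634848) (nat_lit 0) (nat_lit 47103250690) (nat_lit 532) (nat_lit 198395363512) (nat_lit 35) (nat_lit 5) (nat_lit 34) (nat_lit 5) (nat_lit 41) (nat_lit 5) (nat_lit 232) (nat_lit 230) (nat_lit 138))))) (XT.nd (nat_lit 156) (nat_lit 836) (nat_lit 0) (XT.nd (nat_lit 78) (nat_lit 0) (nat_lit 76) (XT.lf (nat_lit 76) (nat_lit 4077643891) (nat_lit 0) (nat_lit 145996852467) (nat_lit 532) (nat_lit 189204971836) (nat_lit 36) (nat_lit 5) (nat_lit 35) (nat_lit 5) (nat_lit 42) (nat_lit 5) (nat_lit 233) (nat_lit 230) (nat_lit 137)) (XT.lf (nat_lit 0) (nat_lit 200283245136) (nat_lit 456) (nat_lit 65243426502) (nat_lit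 76) (nat_lit 101526315972) (nat_lit 36) (nat_lit 5) (nat_lit 42) (nat_lit 5) (nat_lit 37) (nat_lit 5) (nat_lit 234) (nat_lit 230) (nat_lit 136))) (XT.nd (nat_lit 78) (nat_lit 456) (nat_lit 0) (XT.lf (nat_lit 0) (nat_lit 253870284282) (nat_lit 456) (nat_lit 14296350388) (nat_lit 532) (nat_lit 130014434955) (nat_lit 30) (nat_lit 5) (nat_lit 36) (nat_lit 5) (nat_lit 37) (nat_lit 5) (nat_lit 235) (nat_lit 230) (nat_lit 135)) (XT.nd (nat_lit 78) (nat_lit 228) (nat_lit 0) (XT.lf (nat_lit 0) (nat_lit 194027561202) (nat_lit 228) (nat_lit 165424599576) (nat_lit 304) (nat_lit 73468633751) (nat_lit 27) (nat_lit 5) (nat_lit 30) (nat_lit 5) (nat_lit 31) (nat_lit 5) (nat_lit 236) (nat_lit 230) (nat_lit 134)) (XT.lf (nat_lit 0) (nat_lit 2720602706) (nat_lit 228) (nat_lit 350004583170) (nat_lit 76) (nat_lit 119303388278) (nat_lit 24) (nat_lit 5) (nat_lit 27) (nat_lit 5) (nat_lit 25) (nat_lit 5) (nat_lit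 237) (nat_lit 230) (nat_lit 133)))))) (XT.nd (nat_lit 390) (nat_lit 456) (nat_lit 0) (XT.nd (nat_lit 156) (nat_lit 456) (nat_lit 0) (XT.nd (nat_lit 78) (nat_lit 0) (nat_lit 0) (XT.lf (nat_lit 0) (nat_lit 29802165551) (nat_lit 228) (nat_lit 68737206455) (nat_lit 304) (nat_lit 417306382377) (nat_lit 21) (nat_lit 5) (nat_lit 24) (nat_lit 5) (nat_lit 25) (nat_lit 5) (nat_lit 238) (nat_lit 230) (nat_lit 132)) (XT.lf (nat_lit 0) (nat_lit 225386801046) (nat_lit 304) (nat_lit 84111263155) (nat_lit 76) (nat_lit 255404980409) (nat_lit 21) (nat_lit 5) (nat_lit 25) (nat_lit 5) (nat_lit 22) (nat_lit 5) (nat_lit 239) (nat_lit 230) (nat_lit 131))) (XT.nd (nat_lit 78) (nat_lit 304) (nat_lit 0) (XT.lf (nat_lit 0) (nat_lit 383007316965) (nat_lit 228) (nat_lit 224705356905) (nat_lit 76) (nat_lit 12666577141) (nat_lit 19) (nat_lit 5) (nat_lit 22) (nat_lit 5) (nat_lit 20) (nat_lit 5) (nat_lit 240) (nat_lit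 230) (nat_lit 130)) (XT.nd (nat_lit 78) (nat_lit 152) (nat_lit 0) (XT.lf (nat_lit 0) (nat_lit 273602385679) (nat_lit 152) (nat_lit 308320946141) (nat_lit 228) (nat_lit 100841363215) (nat_lit 17) (nat_lit 5) (nat_lit 19) (nat_lit 5) (nat_lit 20) (nat_lit 5) (nat_lit 241) (nat_lit 230) (nat_lit 129)) (XT.lf (nat_lit 0) (nat_lit 63866625815) (nat_lit 152) (nat_lit 644519727555) (nat_lit 76) (nat_lit 45172923888) (nat_lit 15) (nat_lit 5) (nat_lit 17) (nat_lit 5) (nat_lit 16) (nat_lit 5) (nat_lit 242) (nat_lit 230) (nat_lit 128))))) (XT.nd (nat_lit 156) (nat_lit 304) (nat_lit 0) (XT.nd (nat_lit 78) (nat_lit 152) (nat_lit 0) (XT.lf (nat_lit 0) (nat_lit 268228697952) (nat_lit 152) (nat_lit 115896686845) (nat_lit 76) (nat_lit 448964616290) (nat_lit 15) (nat_lit 5) (nat_lit 17) (nat_lit 5) (nat_lit 16) (nat_lit 5) (nat_lit 243) (nat_lit 230) (nat_lit 127)) (XT.lf (nat_lit 0) (nat_lit 515754780358)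 (nat_lit 228) (nat_lit 405678812298) (nat_lit 76) (nat_lit 2115965114) (nat_lit 13) (nat_lit 5) (nat_lit 16) (nat_lit 5) (nat_lit 14) (nat_lit 4) (nat_lit 244) (nat_lit 230) (nat_lit 126))) (XT.nd (nat_lit 78) (nat_lit 228) (nat_lit 0) (XT.lf (nat_lit 0) (nat_lit 227060316540) (nat_lit 76) (nat_lit 592896013206) (nat_lit 152) (nat_lit 206057994042) (nat_lit 12) (nat_lit 5) (nat_lit 13) (nat_lit 5) (nat_lit 14) (nat_lit 4) (nat_lit 245) (nat_lit 230) (nat_lit 125)) (XT.nd (nat_lit 78) (nat_lit 152) (nat_lit 0) (XT.lf (nat_lit 0) (nat_lit 36759341574) (nat_lit 152) (nat_lit 164557646691) (nat_lit 76) (nat_lit 941512499420) (nat_lit 11) (nat_lit 5) (nat_lit 13) (nat_lit 5) (nat_lit 12) (nat_lit 5) (nat_lit 246) (nat_lit 230) (nat_lit 124)) (XT.lf (nat_lit 0) (nat_lit 324808899822) (nat_lit 228) (nat_lit 693331749456) (nat_lit 76) (nat_lit 256917260177) (nat_lit 9) (nat_lit 5) (nat_lit 12)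 (nat_lit 5) (nat_lit 10) (nat_lit 4) (nat_lit 247) (nat_lit 230) (nat_lit 123))))))))
noncomputable def xc58 : XT := (XT.nd (nat_lit 30810) (nat_lit 0) (nat_lit 0) (XT.nd (nat_lit 30030) (nat_lit 0) (nat_lit 1064) (XT.nd (nat_lit 312) (nat_lit 76) (nat_lit 0) (XT.nd (nat_lit 156) (nat_lit 152) (nat_lit 0) (XT.nd (nat_lit 78) (nat_lit 0) (nat_lit 0) (XT.lf (nat_lit 0) (nat_lit 18408766603) (nat_lit 76) (nat_lit 648583101114) (nat_lit 152) (nat_lit 759254648824) (nat_lit 8) (nat_lit 5) (nat_lit 9) (nat_lit 5) (nat_lit 10) (nat_lit 4) (nat_lit 248) (nat_lit 230) (nat_lit 122)) (XT.lf (nat_lit 0) (nat_lit 878896357940) (nat_lit 76) (nat_lit 201791491047) (nat_lit 152) (nat_lit 517810720356) (nat_lit 8) (nat_lit 5) (nat_lit 9) (nat_lit 5) (nat_lit 10) (nat_lit 4) (nat_lit 249) (nat_lit 230) (nat_lit 121))) (XT.nd (nat_lit 78) (nat_lit 76) (nat_lit 0) (XT.lf (nat_lit 0) (nat_lit 67753859080)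 (nat_lit 76) (nat_lit 1497817876322) (nat_lit 76) (nat_lit 230286014120) (nat_lit 7) (nat_lit 4) (nat_lit 8) (nat_lit 5) (nat_lit 8) (nat_lit 4) (nat_lit 250) (nat_lit 230) (nat_lit 120)) (XT.lf (nat_lit 0) (nat_lit 122422246823) (nat_lit 152) (nat_lit 1012893623609) (nat_lit 76) (nat_lit 885145778705) (nat_lit 6) (nat_lit 5) (nat_lit 8) (nat_lit 5) (nat_lit 7) (nat_lit 4) (nat_lit 251) (nat_lit 230) (nat_lit 119)))) (XT.nd (nat_lit 156) (nat_lit 0) (nat_lit 0) (XT.nd (nat_lit 78) (nat_lit 76) (nat_lit 0) (XT.lf (nat_lit 0) (nat_lit 514788903487) (nat_lit 152) (nat_lit 196771008010) (nat_lit 76) (nat_lit 1566686693196) (nat_lit 6) (nat_lit 5) (nat_lit 8) (nat_lit 5) (nat_lit 7) (nat_lit 4) (nat_lit 252) (nat_lit 230) (nat_lit 118)) (XT.lf (nat_lit 0) (nat_lit 780830248326) (nat_lit 76) (nat_lit 203959271820) (nat_lit 152) (nat_lit 1588407466573) (nat_lit 5) (nat_lit 5) (nat_lit 6) (nat_lit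 5) (nat_lit 7) (nat_lit 4) (nat_lit 253) (nat_lit 230) (nat_lit 117))) (XT.nd (nat_lit 78) (nat_lit 0) (nat_lit 0) (XT.lf (nat_lit 0) (nat_lit 1540301535327) (nat_lit 152) (nat_lit 1004226669907) (nat_lit 0) (nat_lit 366660816382) (nat_lit 5) (nat_lit 5) (nat_lit 7) (nat_lit 4) (nat_lit 5) (nat_lit 4) (nat_lit 254) (nat_lit 230) (nat_lit 116)) (XT.nd (nat_lit 29406) (nat_lit 0) (nat_lit 2128) (XT.lf (nat_lit 0) (nat_lit 2184781342091) (nat_lit 152) (nat_lit 103506635834) (nat_lit 0) (nat_lit 1011140604722) (nat_lit 5) (nat_lit 5) (nat_lit 7) (nat_lit 4) (nat_lit 5) (nat_lit 4) (nat_lit 255) (nat_lit 230) (nat_lit 115)) (XT.lf (nat_lit 0) (nat_lit 48662338112) (nat_lit 532) (nat_lit 53848930361) (nat_lit 532) (nat_lit 53848930361) (nat_lit 33) (nat_lit 3) (nat_lit 40) (nat_lit 3) (nat_lit 40) (nat_lit 5) (nat_lit 231) (nat_lit 231) (nat_lit 138)))))) (XT.nd (nat_lit 390) (nat_lit 836)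 (nat_lit 0) (XT.nd (nat_lit 156) (nat_lit 304) (nat_lit 0) (XT.nd (nat_lit 78) (nat_lit 0) (nat_lit 0) (XT.lf (nat_lit 0) (nat_lit 109068754294) (nat_lit 456) (nat_lit 190356528524) (nat_lit 532) (nat_lit 36393560275) (nat_lit 34) (nat_lit 5) (nat_lit 40) (nat_lit 5) (nat_lit 41) (nat_lit 5) (nat_lit 232) (nat_lit 231) (nat_lit 137)) (XT.lf (nat_lit 76) (nat_lit 79196922011) (nat_lit 0) (nat_lit 54169384778) (nat_lit 532) (nat_lit 228152400630) (nat_lit 35) (nat_lit 5) (nat_lit 34) (nat_lit 5) (nat_lit 41) (nat_lit 5) (nat_lit 233) (nat_lit 231) (nat_lit 136))) (XT.nd (nat_lit 78) (nat_lit 380) (nat_lit 0) (XT.lf (nat_lit 76) (nat_lit 4690788428) (nat_lit 0) (nat_lit 167896720908) (nat_lit 532) (nat_lit 217583721645) (nat_lit 36) (nat_lit 5) (nat_lit 35) (nat_lit 5) (nat_lit 42) (nat_lit 5) (nat_lit 234) (nat_lit 231) (nat_lit 135)) (XT.nd (nat_lit 78) (nat_lit 456) (nat_lit 0) (XT.lf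 (nat_lit 0) (nat_lit 230327323501) (nat_lit 456) (nat_lit 75028493881) (nat_lit 76) (nat_lit 116754982033) (nat_lit 36) (nat_lit 5) (nat_lit 42) (nat_lit 5) (nat_lit 37) (nat_lit 5) (nat_lit 235) (nat_lit 231) (nat_lit 134)) (XT.lf (nat_lit 0) (nat_lit 291952151074) (nat_lit 456) (nat_lit 16440894638) (nat_lit 532) (nat_lit 149515063257) (nat_lit 30) (nat_lit 5) (nat_lit 36) (nat_lit 5) (nat_lit 37) (nat_lit 5) (nat_lit 236) (nat_lit 231) (nat_lit 133))))) (XT.nd (nat_lit 156) (nat_lit 380) (nat_lit 0) (XT.nd (nat_lit 78) (nat_lit 228) (nat_lit 0) (XT.lf (nat_lit 0) (nat_lit 223133020318) (nat_lit 228) (nat_lit 190238225690) (nat_lit 304) (nat_lit 84487560000) (nat_lit 27) (nat_lit 5) (nat_lit 30) (nat_lit 5) (nat_lit 31) (nat_lit 5) (nat_lit 237) (nat_lit 231) (nat_lit 132)) (XT.lf (nat_lit 0) (nat_lit 3129857535) (nat_lit 228) (nat_lit 402503893878) (nat_lit 76) (nat_lit 137199010225)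 (nat_lit 24) (nat_lit 5) (nat_lit 27) (nat_lit 5) (nat_lit 25) (nat_lit 5) (nat_lit 238) (nat_lit 231) (nat_lit 131))) (XT.nd (nat_lit 78) (nat_lit 152) (nat_lit 0) (XT.lf (nat_lit 0) (nat_lit 34273750615) (nat_lit 228) (nat_lit 79047570043) (nat_lit 304) (nat_lit 479901208686) (nat_lit 21) (nat_lit 5) (nat_lit 24) (nat_lit 5) (nat_lit 25) (nat_lit 5) (nat_lit 239) (nat_lit 231) (nat_lit 130)) (XT.nd (nat_lit 78) (nat_lit 152) (nat_lit 0) (XT.lf (nat_lit 0) (nat_lit 259195732576) (nat_lit 304) (nat_lit 96726784628) (nat_lit 76) (nat_lit 293715907041) (nat_lit 21) (nat_lit 5) (nat_lit 25) (nat_lit 5) (nat_lit 22) (nat_lit 5) (nat_lit 240) (nat_lit 231) (nat_lit 129)) (XT.lf (nat_lit 0) (nat_lit 440459238756) (nat_lit 228) (nat_lit 258410028278) (nat_lit 76) (nat_lit 14566802084) (nat_lit 19) (nat_lit 5) (nat_lit 22) (nat_lit 5) (nat_lit 20) (nat_lit 5) (nat_lit 241) (nat_lit 231) (nat_lit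 128))))))) (XT.nd (nat_lit 780) (nat_lit 152) (nat_lit 0) (XT.nd (nat_lit 390) (nat_lit 380) (nat_lit 0) (XT.nd (nat_lit 156) (nat_lit 228) (nat_lit 0) (XT.nd (nat_lit 78) (nat_lit 152) (nat_lit 0) (XT.lf (nat_lit 0) (nat_lit 314643779862) (nat_lit 152) (nat_lit 354568793390) (nat_lit 228) (nat_lit 115966763570) (nat_lit 17) (nat_lit 5) (nat_lit 19) (nat_lit 5) (nat_lit 20) (nat_lit 5) (nat_lit 242) (nat_lit 231) (nat_lit 127)) (XT.lf (nat_lit 0) (nat_lit 73447314930) (nat_lit 152) (nat_lit 741196648248) (nat_lit 76) (nat_lit 51949147524) (nat_lit 15) (nat_lit 5) (nat_lit 17) (nat_lit 5) (nat_lit 16) (nat_lit 5) (nat_lit 243) (nat_lit 231) (nat_lit 126))) (XT.nd (nat_lit 78) (nat_lit 228) (nat_lit 0) (XT.lf (nat_lit 0) (nat_lit 308463607204) (nat_lit 152) (nat_lit 133280286881) (nat_lit 76) (nat_lit 516309556605) (nat_lit 15) (nat_lit 5) (nat_lit 17) (nat_lit 5) (nat_lit 16) (nat_lit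 5) (nat_lit 244) (nat_lit 231) (nat_lit 125)) (XT.nd (nat_lit 78) (nat_lit 76) (nat_lit 0) (XT.lf (nat_lit 0) (nat_lit 593118549751) (nat_lit 228) (nat_lit 466529768787) (nat_lit 76) (nat_lit 2433626801) (nat_lit 13) (nat_lit 5) (nat_lit 16) (nat_lit 5) (nat_lit 14) (nat_lit 4) (nat_lit 245) (nat_lit 231) (nat_lit 124)) (XT.lf (nat_lit 0) (nat_lit 261120156129) (nat_lit 76) (nat_lit 681830122425) (nat_lit 152) (nat_lit 236966152195) (nat_lit 12) (nat_lit 5) (nat_lit 13) (nat_lit 5) (nat_lit 14) (nat_lit 4) (nat_lit 246) (nat_lit 231) (nat_lit 123))))) (XT.nd (nat_lit 156) (nat_lit 152) (nat_lit 0) (XT.nd (nat_lit 78) (nat_lit 152) (nat_lit 0) (XT.lf (nat_lit 0) (nat_lit 42273689673) (nat_lit 152) (nat_lit 189240580037) (nat_lit 76) (nat_lit 1082739604042) (nat_lit 11) (nat_lit 5) (nat_lit 13) (nat_lit 5) (nat_lit 12) (nat_lit 5) (nat_lit 247) (nat_lit 231) (nat_lit 122)) (XT.lf (nat_lit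 0) (nat_lit 373530645070) (nat_lit 228) (nat_lit 797330831107) (nat_lit 76) (nat_lit 295455085711) (nat_lit 9) (nat_lit 5) (nat_lit 12) (nat_lit 5) (nat_lit 10) (nat_lit 4) (nat_lit 248) (nat_lit 231) (nat_lit 121))) (XT.nd (nat_lit 78) (nat_lit 76) (nat_lit 0) (XT.lf (nat_lit 0) (nat_lit 21170704737) (nat_lit 76) (nat_lit 745870314885) (nat_lit 152) (nat_lit 873142443650) (nat_lit 8) (nat_lit 5) (nat_lit 9) (nat_lit 5) (nat_lit 10) (nat_lit 4) (nat_lit 249) (nat_lit 231) (nat_lit 120)) (XT.nd (nat_lit 78) (nat_lit 76) (nat_lit 0) (XT.lf (nat_lit 0) (nat_lit 1010731353495) (nat_lit 76) (nat_lit 232059996099) (nat_lit 152) (nat_lit 595481978411) (nat_lit 8) (nat_lit 5) (nat_lit 9) (nat_lit 5) (nat_lit 10) (nat_lit 4) (nat_lit 250) (nat_lit 231) (nat_lit 119)) (XT.lf (nat_lit 0) (nat_lit 77917453604) (nat_lit 76) (nat_lit 1722490340177) (nat_lit 76) (nat_lit 264828593561) (nat_lit 7) (nat_lit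 4) (nat_lit 8) (nat_lit 5) (nat_lit 8) (nat_lit 4) (nat_lit 251) (nat_lit 231) (nat_lit 118)))))) (XT.nd (nat_lit 29796) (nat_lit 0) (nat_lit 1900) (XT.nd (nat_lit 156) (nat_lit 76) (nat_lit 0) (XT.nd (nat_lit 78) (nat_lit 0) (nat_lit 0) (XT.lf (nat_lit 0) (nat_lit 140785850400) (nat_lit 152) (nat_lit 1164827204097) (nat_lit 76) (nat_lit 1017917820071) (nat_lit 6) (nat_lit 5) (nat_lit 8) (nat_lit 5) (nat_lit 7) (nat_lit 4) (nat_lit 252) (nat_lit 231) (nat_lit 117)) (XT.lf (nat_lit 0) (nat_lit 592007470795) (nat_lit 152) (nat_lit 226286256557) (nat_lit 76) (nat_lit 1801689848967) (nat_lit 6) (nat_lit 5) (nat_lit 8) (nat_lit 5) (nat_lit 7) (nat_lit 4) (nat_lit 253) (nat_lit 231) (nat_lit 116))) (XT.nd (nat_lit 78) (nat_lit 0) (nat_lit 0) (XT.lf (nat_lit 0) (nat_lit 897955154147) (nat_lit 76) (nat_lit 234553004437) (nat_lit 152) (nat_lit 1826668358844) (nat_lit 5) (nat_lit 5) (nat_lit 6)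 (nat_lit 5) (nat_lit 7) (nat_lit 4) (nat_lit 254) (nat_lit 231) (nat_lit 115)) (XT.nd (nat_lit 29484) (nat_lit 0) (nat_lit 2128) (XT.lf (nat_lit 0) (nat_lit 1771346951904) (nat_lit 152) (nat_lit 1154860338161) (nat_lit 0) (nat_lit 421660069486) (nat_lit 5) (nat_lit 5) (nat_lit 7) (nat_lit 4) (nat_lit 5) (nat_lit 4) (nat_lit 255) (nat_lit 231) (nat_lit 114)) (XT.lf (nat_lit 0) (nat_lit 55962712518) (nat_lit 532) (nat_lit 61925714145) (nat_lit 532) (nat_lit 61925714145) (nat_lit 33) (nat_lit 3) (nat_lit 40) (nat_lit 3) (nat_lit 40) (nat_lit 5) (nat_lit 232) (nat_lit 232) (nat_lit 136))))) (XT.nd (nat_lit 156) (nat_lit 304) (nat_lit 0) (XT.nd (nat_lit 78) (nat_lit 0) (nat_lit 0) (XT.lf (nat_lit 0) (nat_lit 125430853302) (nat_lit 456) (nat_lit 218908816669) (nat_lit 532) (nat_lit 41851846358) (nat_lit 34) (nat_lit 5) (nat_lit 40) (nat_lit 5) (nat_lit 41) (nat_lit 5) (nat_lit 233) (nat_lit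 232) (nat_lit 135)) (XT.lf (nat_lit 76) (nat_lit 91077550624) (nat_lit 0) (nat_lit 62295281330) (nat_lit 532) (nat_lit 262373546237) (nat_lit 35) (nat_lit 5) (nat_lit 34) (nat_lit 5) (nat_lit 41) (nat_lit 5) (nat_lit 234) (nat_lit 232) (nat_lit 134))) (XT.nd (nat_lit 78) (nat_lit 380) (nat_lit 0) (XT.lf (nat_lit 76) (nat_lit 5395539359) (nat_lit 0) (nat_lit 193081486565) (nat_lit 532) (nat_lit 250219770655) (nat_lit 36) (nat_lit 5) (nat_lit 35) (nat_lit 5) (nat_lit 42) (nat_lit 5) (nat_lit 235) (nat_lit 232) (nat_lit 133)) (XT.nd (nat_lit 78) (nat_lit 456) (nat_lit 0) (XT.lf (nat_lit 0) (nat_lit 264877625500) (nat_lit 456) (nat_lit 86281674129) (nat_lit 76) (nat_lit 134268016609) (nat_lit 36) (nat_lit 5) (nat_lit 42) (nat_lit 5) (nat_lit 37) (nat_lit 5) (nat_lit 236) (nat_lit 232) (nat_lit 132)) (XT.lf (nat_lit 0) (nat_lit 335745974982) (nat_lit 456) (nat_lit 18907098166) (nat_lit 532)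 (nat_lit 171941160597) (nat_lit 30) (nat_lit 5) (nat_lit 36) (nat_lit 5) (nat_lit 37) (nat_lit 5) (nat_lit 237) (nat_lit 232) (nat_lit 131))))))))
noncomputable def xc59 : XT := (XT.nd (nat_lit 31122) (nat_lit 0) (nat_lit 0) (XT.nd (nat_lit 780) (nat_lit 456) (nat_lit 0) (XT.nd (nat_lit 390) (nat_lit 532) (nat_lit 0) (XT.nd (nat_lit 156) (nat_lit 380) (nat_lit 0) (XT.nd (nat_lit 78) (nat_lit 228) (nat_lit 0) (XT.lf (nat_lit 0) (nat_lit 256603975207) (nat_lit 228) (nat_lit 218773911285) (nat_lit 304) (nat_lit 97159658980) (nat_lit 27) (nat_lit 5) (nat_lit 30) (nat_lit 5) (nat_lit 31) (nat_lit 5) (nat_lit 238) (nat_lit 232) (nat_lit 130)) (XT.lf (nat_lit 0) (nat_lit 3600216636) (nat_lit 228) (nat_lit 462878436926) (nat_lit 76) (nat_lit 157778947737) (nat_lit 24) (nat_lit 5) (nat_lit 27) (nat_lit 5) (nat_lit 25) (nat_lit 5) (nat_lit 239) (nat_lit 232) (nat_lit 129))) (XT.nd (nat_lit 78)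 (nat_lit 152) (nat_lit 0) (XT.lf (nat_lit 0) (nat_lit 39415766122) (nat_lit 228) (nat_lit 90904541179) (nat_lit 304) (nat_lit 551885534754) (nat_lit 21) (nat_lit 5) (nat_lit 24) (nat_lit 5) (nat_lit 25) (nat_lit 5) (nat_lit 240) (nat_lit 232) (nat_lit 128)) (XT.nd (nat_lit 78) (nat_lit 152) (nat_lit 0) (XT.lf (nat_lit 0) (nat_lit 298075781591) (nat_lit 304) (nat_lit 111234919147) (nat_lit 76) (nat_lit 337773428878) (nat_lit 21) (nat_lit 5) (nat_lit 25) (nat_lit 5) (nat_lit 22) (nat_lit 5) (nat_lit 241) (nat_lit 232) (nat_lit 127)) (XT.lf (nat_lit 0) (nat_lit 506528747817) (nat_lit 228) (nat_lit 297170676442) (nat_lit 76) (nat_lit 16752002640) (nat_lit 19) (nat_lit 5) (nat_lit 22) (nat_lit 5) (nat_lit 20) (nat_lit 5) (nat_lit 242) (nat_lit 232) (nat_lit 126))))) (XT.nd (nat_lit 156) (nat_lit 228) (nat_lit 0) (XT.nd (nat_lit 78) (nat_lit 152) (nat_lit 0) (XT.lf (nat_lit 0) (nat_lit 361841130456)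 (nat_lit 152) (nat_lit 407753889584) (nat_lit 228) (nat_lit 133361170069) (nat_lit 17) (nat_lit 5) (nat_lit 19) (nat_lit 5) (nat_lit 20) (nat_lit 5) (nat_lit 243) (nat_lit 232) (nat_lit 125)) (XT.lf (nat_lit 0) (nat_lit 84464937873) (nat_lit 152) (nat_lit 852375360276) (nat_lit 76) (nat_lit 59741735194) (nat_lit 15) (nat_lit 5) (nat_lit 17) (nat_lit 5) (nat_lit 16) (nat_lit 5) (nat_lit 244) (nat_lit 232) (nat_lit 124))) (XT.nd (nat_lit 78) (nat_lit 228) (nat_lit 0) (XT.lf (nat_lit 0) (nat_lit 354733605418) (nat_lit 152) (nat_lit 153271647122) (nat_lit 76) (nat_lit 593756177523) (nat_lit 15) (nat_lit 5) (nat_lit 17) (nat_lit 5) (nat_lit 16) (nat_lit 5) (nat_lit 245) (nat_lit 232) (nat_lit 123)) (XT.nd (nat_lit 78) (nat_lit 76) (nat_lit 0) (XT.lf (nat_lit 0) (nat_lit 682086749862) (nat_lit 228) (nat_lit 536508579772) (nat_lit 76) (nat_lit 2798872651) (nat_lit 13) (nat_lit 5) (nat_lit 16)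 (nat_lit 5) (nat_lit 14) (nat_lit 4) (nat_lit 246) (nat_lit 232) (nat_lit 122)) (XT.lf (nat_lit 0) (nat_lit 300288778496) (nat_lit 76) (nat_lit 784104419419) (nat_lit 152) (nat_lit 272510665986) (nat_lit 12) (nat_lit 5) (nat_lit 13) (nat_lit 5) (nat_lit 14) (nat_lit 4) (nat_lit 247) (nat_lit 232) (nat_lit 121)))))) (XT.nd (nat_lit 390) (nat_lit 76) (nat_lit 0) (XT.nd (nat_lit 156) (nat_lit 152) (nat_lit 0) (XT.nd (nat_lit 78) (nat_lit 152) (nat_lit 0) (XT.lf (nat_lit 0) (nat_lit 48615081017) (nat_lit 152) (nat_lit 217626127416) (nat_lit 76) (nat_lit 1245150718340) (nat_lit 11) (nat_lit 5) (nat_lit 13) (nat_lit 5) (nat_lit 12) (nat_lit 5) (nat_lit 248) (nat_lit 232) (nat_lit 120)) (XT.lf (nat_lit 0) (nat_lit 429560552057) (nat_lit 228) (nat_lit 916929941015) (nat_lit 76) (nat_lit 339773527402) (nat_lit 9) (nat_lit 5) (nat_lit 12) (nat_lit 5) (nat_lit 10) (nat_lit 4) (nat_lit 249) (nat_lit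 232) (nat_lit 119))) (XT.nd (nat_lit 78) (nat_lit 76) (nat_lit 0) (XT.lf (nat_lit 0) (nat_lit 24346781633) (nat_lit 76) (nat_lit 857750672026) (nat_lit 152) (nat_lit 1004113505852) (nat_lit 8) (nat_lit 5) (nat_lit 9) (nat_lit 5) (nat_lit 10) (nat_lit 4) (nat_lit 250) (nat_lit 232) (nat_lit 118)) (XT.nd (nat_lit 78) (nat_lit 76) (nat_lit 0) (XT.lf (nat_lit 0) (nat_lit 1162341466246) (nat_lit 76) (nat_lit 266868830217) (nat_lit 152) (nat_lit 684804010524) (nat_lit 8) (nat_lit 5) (nat_lit 9) (nat_lit 5) (nat_lit 10) (nat_lit 4) (nat_lit 251) (nat_lit 232) (nat_lit 117)) (XT.lf (nat_lit 0) (nat_lit 89605461559) (nat_lit 76) (nat_lit 1980863726671) (nat_lit 76) (nat_lit 304552638605) (nat_lit 7) (nat_lit 4) (nat_lit 8) (nat_lit 5) (nat_lit 8) (nat_lit 4) (nat_lit 252) (nat_lit 232) (nat_lit 116))))) (XT.nd (nat_lit 29718) (nat_lit 0) (nat_lit 2052) (XT.nd (nat_lit 78) (nat_lit 0) (nat_lit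 0) (XT.lf (nat_lit 0) (nat_lit 161903929512) (nat_lit 152) (nat_lit 1339550934577) (nat_lit 76) (nat_lit 1170605625075) (nat_lit 6) (nat_lit 5) (nat_lit 8) (nat_lit 5) (nat_lit 7) (nat_lit 4) (nat_lit 253) (nat_lit 232) (nat_lit 115)) (XT.lf (nat_lit 0) (nat_lit 680808766677) (nat_lit 152) (nat_lit 260228890575) (nat_lit 76) (nat_lit 2071943441088) (nat_lit 6) (nat_lit 5) (nat_lit 8) (nat_lit 5) (nat_lit 7) (nat_lit 4) (nat_lit 254) (nat_lit 232) (nat_lit 114))) (XT.nd (nat_lit 78) (nat_lit 0) (nat_lit 76) (XT.lf (nat_lit 0) (nat_lit 64357893452) (nat_lit 532) (nat_lit 71214151024) (nat_lit 532) (nat_lit 71214151024) (nat_lit 33) (nat_lit 3) (nat_lit 40) (nat_lit 3) (nat_lit 40) (nat_lit 5) (nat_lit 233) (nat_lit 233) (nat_lit 134)) (XT.nd (nat_lit 78) (nat_lit 0) (nat_lit 0) (XT.lf (nat_lit 0) (nat_lit 144246831666) (nat_lit 456) (nat_lit 251744238500) (nat_lit 532) (nat_lit 48129057749)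 (nat_lit 34) (nat_lit 5) (nat_lit 40) (nat_lit 5) (nat_lit 41) (nat_lit 5) (nat_lit 234) (nat_lit 233) (nat_lit 133)) (XT.lf (nat_lit 76) (nat_lit 104740007649) (nat_lit 0) (nat_lit 71639943160) (nat_lit 532) (nat_lit 301728281775) (nat_lit 35) (nat_lit 5) (nat_lit 34) (nat_lit 5) (nat_lit 41) (nat_lit 5) (nat_lit 235) (nat_lit 233) (nat_lit 132))))))) (XT.nd (nat_lit 780) (nat_lit 684) (nat_lit 0) (XT.nd (nat_lit 390) (nat_lit 684) (nat_lit 0) (XT.nd (nat_lit 156) (nat_lit 836) (nat_lit 0) (XT.nd (nat_lit 78) (nat_lit 0) (nat_lit 76) (XT.lf (nat_lit 76) (nat_lit 6205726723) (nat_lit 0) (nat_lit 222043904273) (nat_lit 532) (nat_lit 287751595053) (nat_lit 36) (nat_lit 5) (nat_lit 35) (nat_lit 5) (nat_lit 42) (nat_lit 5) (nat_lit 236) (nat_lit 233) (nat_lit 131)) (XT.lf (nat_lit 0) (nat_lit 304610179325) (nat_lit 456) (nat_lit 99223098152) (nat_lit 76) (nat_lit 154408058247) (nat_lit 36)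 (nat_lit 5) (nat_lit 42) (nat_lit 5) (nat_lit 37) (nat_lit 5) (nat_lit 237) (nat_lit 233) (nat_lit 130))) (XT.nd (nat_lit 78) (nat_lit 456) (nat_lit 0) (XT.lf (nat_lit 0) (nat_lit 386108628316) (nat_lit 456) (nat_lit 21743215316) (nat_lit 532) (nat_lit 197731455935) (nat_lit 30) (nat_lit 5) (nat_lit 36) (nat_lit 5) (nat_lit 37) (nat_lit 5) (nat_lit 238) (nat_lit 233) (nat_lit 129)) (XT.nd (nat_lit 78) (nat_lit 228) (nat_lit 0) (XT.lf (nat_lit 0) (nat_lit 295095329025) (nat_lit 228) (nat_lit 251589961487) (nat_lit 304) (nat_lit 111732825203) (nat_lit 27) (nat_lit 5) (nat_lit 30) (nat_lit 5) (nat_lit 31) (nat_lit 5) (nat_lit 239) (nat_lit 233) (nat_lit 128)) (XT.lf (nat_lit 0) (nat_lit 4140914895) (nat_lit 228) (nat_lit 532309415295) (nat_lit 76) (nat_lit 181445854908) (nat_lit 24) (nat_lit 5) (nat_lit 27) (nat_lit 5) (nat_lit 25) (nat_lit 5) (nat_lit 240) (nat_lit 233) (nat_lit 127)))))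 (XT.nd (nat_lit 156) (nat_lit 456) (nat_lit 0) (XT.nd (nat_lit 78) (nat_lit 0) (nat_lit 0) (XT.lf (nat_lit 0) (nat_lit 45328851582) (nat_lit 228) (nat_lit 104540098069) (nat_lit 304) (nat_lit 634667718287) (nat_lit 21) (nat_lit 5) (nat_lit 24) (nat_lit 5) (nat_lit 25) (nat_lit 5) (nat_lit 241) (nat_lit 233) (nat_lit 126)) (XT.lf (nat_lit 0) (nat_lit 342787669910) (nat_lit 304) (nat_lit 127919489211) (nat_lit 76) (nat_lit 388439545879) (nat_lit 21) (nat_lit 5) (nat_lit 25) (nat_lit 5) (nat_lit 22) (nat_lit 5) (nat_lit 242) (nat_lit 233) (nat_lit 125))) (XT.nd (nat_lit 78) (nat_lit 304) (nat_lit 0) (XT.lf (nat_lit 0) (nat_lit 582508531254) (nat_lit 228) (nat_lit 341745630591) (nat_lit 76) (nat_lit 19264939326) (nat_lit 19) (nat_lit 5) (nat_lit 22) (nat_lit 5) (nat_lit 20) (nat_lit 5) (nat_lit 243) (nat_lit 233) (nat_lit 124)) (XT.nd (nat_lit 78) (nat_lit 152) (nat_lit 0) (XT.lf (nat_lit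 0) (nat_lit 416117892550) (nat_lit 152) (nat_lit 468916804542) (nat_lit 228) (nat_lit 153364885817) (nat_lit 17) (nat_lit 5) (nat_lit 19) (nat_lit 5) (nat_lit 20) (nat_lit 5) (nat_lit 244) (nat_lit 233) (nat_lit 123)) (XT.lf (nat_lit 0) (nat_lit 97135076061) (nat_lit 152) (nat_lit 980231070586) (nat_lit 76) (nat_lit 68703158453) (nat_lit 15) (nat_lit 5) (nat_lit 17) (nat_lit 5) (nat_lit 16) (nat_lit 5) (nat_lit 245) (nat_lit 233) (nat_lit 122)))))) (XT.nd (nat_lit 390) (nat_lit 228) (nat_lit 0) (XT.nd (nat_lit 156) (nat_lit 304) (nat_lit 0) (XT.nd (nat_lit 78) (nat_lit 152) (nat_lit 0) (XT.lf (nat_lit 0) (nat_lit 407943991889) (nat_lit 152) (nat_lit 176261877902) (nat_lit 76) (nat_lit 682819745873) (nat_lit 15) (nat_lit 5) (nat_lit 17) (nat_lit 5) (nat_lit 16) (nat_lit 5) (nat_lit 246) (nat_lit 233) (nat_lit 121)) (XT.lf (nat_lit 0) (nat_lit 784400078143) (nat_lit 228) (nat_lit 616984371968)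 (nat_lit 76) (nat_lit 3218856161) (nat_lit 13) (nat_lit 5) (nat_lit 16) (nat_lit 5) (nat_lit 14) (nat_lit 4) (nat_lit 247) (nat_lit 233) (nat_lit 120))) (XT.nd (nat_lit 78) (nat_lit 228) (nat_lit 0) (XT.lf (nat_lit 0) (nat_lit 345332548160) (nat_lit 76) (nat_lit 901719914944) (nat_lit 152) (nat_lit 313386956593) (nat_lit 12) (nat_lit 5) (nat_lit 13) (nat_lit 5) (nat_lit 14) (nat_lit 4) (nat_lit 248) (nat_lit 233) (nat_lit 119)) (XT.nd (nat_lit 78) (nat_lit 152) (nat_lit 0) (XT.lf (nat_lit 0) (nat_lit 55907598665) (nat_lit 152) (nat_lit 250269638493) (nat_lit 76) (nat_lit 1431923457428) (nat_lit 11) (nat_lit 5) (nat_lit 13) (nat_lit 5) (nat_lit 12) (nat_lit 5) (nat_lit 249) (nat_lit 233) (nat_lit 118)) (XT.lf (nat_lit 0) (nat_lit 493994869442) (nat_lit 228) (nat_lit 1054469042937) (nat_lit 76) (nat_lit 390739691737) (nat_lit 9) (nat_lit 5) (nat_lit 12) (nat_lit 5) (nat_lit 10) (nat_lit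 4) (nat_lit 250) (nat_lit 233) (nat_lit 117))))) (XT.nd (nat_lit 156) (nat_lit 152) (nat_lit 0) (XT.nd (nat_lit 78) (nat_lit 0) (nat_lit 0) (XT.lf (nat_lit 0) (nat_lit 27999155163) (nat_lit 76) (nat_lit 986413129093) (nat_lit 152) (nat_lit 1154730301600) (nat_lit 8) (nat_lit 5) (nat_lit 9) (nat_lit 5) (nat_lit 10) (nat_lit 4) (nat_lit 251) (nat_lit 233) (nat_lit 116)) (XT.lf (nat_lit 0) (nat_lit 1336692995996) (nat_lit 76) (nat_lit 306899029761) (nat_lit 152) (nat_lit 787524411990) (nat_lit 8) (nat_lit 5) (nat_lit 9) (nat_lit 5) (nat_lit 10) (nat_lit 4) (nat_lit 252) (nat_lit 233) (nat_lit 115))) (XT.nd (nat_lit 78) (nat_lit 76) (nat_lit 0) (XT.lf (nat_lit 0) (nat_lit 103046575624) (nat_lit 76) (nat_lit 2277993161262) (nat_lit 76) (nat_lit 350235349904) (nat_lit 7) (nat_lit 4) (nat_lit 8) (nat_lit 5) (nat_lit 8) (nat_lit 4) (nat_lit 253) (nat_lit 233) (nat_lit 114)) (XT.nd (nat_lit 29718)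 (nat_lit 0) (nat_lit 2052) (XT.lf (nat_lit 0) (nat_lit 186189671341) (nat_lit 152) (nat_lit 1540483310012) (nat_lit 76) (nat_lit 1346196568642) (nat_lit 6) (nat_lit 5) (nat_lit 8) (nat_lit 5) (nat_lit 7) (nat_lit 4) (nat_lit 254) (nat_lit 233) (nat_lit 113)) (XT.lf (nat_lit 0) (nat_lit 74012162767) (nat_lit 532) (nat_lit 81895955914) (nat_lit 532) (nat_lit 81895955914) (nat_lit 33) (nat_lit 3) (nat_lit 40) (nat_lit 3) (nat_lit 40) (nat_lit 5) (nat_lit 234) (nat_lit 234) (nat_lit 132))))))))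
noncomputable def xc60 : XT := (XT.nd (nat_lit 1482) (nat_lit 76) (nat_lit 0) (XT.nd (nat_lit 702) (nat_lit 988) (nat_lit 0) (XT.nd (nat_lit 312) (nat_lit 988) (nat_lit 0) (XT.nd (nat_lit 156) (nat_lit 0) (nat_lit 76) (XT.nd (nat_lit 78) (nat_lit 0) (nat_lit 0) (XT.lf (nat_lit 0) (nat_lit 165884877489) (nat_lit 456) (nat_lit 289505193240) (nat_lit 532) (nat_lit 55347988764) (nat_lit 34) (nat_lit 5) (nat_lit 40) (nat_lit 5) (nat_lit 41) (nat_lit 5) (nat_lit 235) (nat_lit 234) (nat_lit 131)) (XT.lf (nat_lit 76) (nat_lit 120451632185) (nat_lit 0) (nat_lit 82386214127) (nat_lit 532) (nat_lit 346986543778) (nat_lit 35) (nat_lit 5) (nat_lit 34) (nat_lit 5) (nat_lit 41) (nat_lit 5) (nat_lit 236) (nat_lit 234) (nat_lit 130))) (XT.nd (nat_lit 78) (nat_lit 0) (nat_lit 76) (XT.lf (nat_lit 76) (nat_lit 7137233338) (nat_lit 0) (nat_lit 255350637152) (nat_lit 532) (nat_lit 330913471400) (nat_lit 36)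 (nat_lit 5) (nat_lit 35) (nat_lit 5) (nat_lit 42) (nat_lit 5) (nat_lit 237) (nat_lit 234) (nat_lit 129)) (XT.lf (nat_lit 0) (nat_lit 350302394313) (nat_lit 456) (nat_lit 114105937472) (nat_lit 76) (nat_lit 177569145355) (nat_lit 36) (nat_lit 5) (nat_lit 42) (nat_lit 5) (nat_lit 37) (nat_lit 5) (nat_lit 238) (nat_lit 234) (nat_lit 128)))) (XT.nd (nat_lit 156) (nat_lit 456) (nat_lit 0) (XT.nd (nat_lit 78) (nat_lit 228) (nat_lit 0) (XT.lf (nat_lit 0) (nat_lit 444025495029) (nat_lit 456) (nat_lit 25004737255) (nat_lit 532) (nat_lit 227390509863) (nat_lit 30) (nat_lit 5) (nat_lit 36) (nat_lit 5) (nat_lit 37) (nat_lit 5) (nat_lit 239) (nat_lit 234) (nat_lit 127)) (XT.lf (nat_lit 0) (nat_lit 339360201184) (nat_lit 228) (nat_lit 289328428118) (nat_lit 304) (nat_lit 128492157207) (nat_lit 27) (nat_lit 5) (nat_lit 30) (nat_lit 5) (nat_lit 31) (nat_lit 5) (nat_lit 240) (nat_lit 234) (nat_lit 126)))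 (XT.nd (nat_lit 78) (nat_lit 228) (nat_lit 0) (XT.lf (nat_lit 0) (nat_lit 4762555541) (nat_lit 228) (nat_lit 612155232374) (nat_lit 76) (nat_lit 208662782303) (nat_lit 24) (nat_lit 5) (nat_lit 27) (nat_lit 5) (nat_lit 25) (nat_lit 5) (nat_lit 241) (nat_lit 234) (nat_lit 125)) (XT.nd (nat_lit 78) (nat_lit 0) (nat_lit 0) (XT.lf (nat_lit 0) (nat_lit 52128724151) (nat_lit 228) (nat_lit 120221018800) (nat_lit 304) (nat_lit 729867387047) (nat_lit 21) (nat_lit 5) (nat_lit 24) (nat_lit 5) (nat_lit 25) (nat_lit 5) (nat_lit 242) (nat_lit 234) (nat_lit 124)) (XT.lf (nat_lit 0) (nat_lit 394206214408) (nat_lit 304) (nat_lit 147106907634) (nat_lit 76) (nat_lit 446705555395) (nat_lit 21) (nat_lit 5) (nat_lit 25) (nat_lit 5) (nat_lit 22) (nat_lit 5) (nat_lit 243) (nat_lit 234) (nat_lit 123)))))) (XT.nd (nat_lit 390) (nat_lit 380) (nat_lit 0) (XT.nd (nat_lit 156) (nat_lit 304) (nat_lit 0) (XT.nd (nat_lit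 78) (nat_lit 152) (nat_lit 0) (XT.lf (nat_lit 0) (nat_lit 669885167287) (nat_lit 228) (nat_lit 393006985714) (nat_lit 76) (nat_lit 22154783279) (nat_lit 19) (nat_lit 5) (nat_lit 22) (nat_lit 5) (nat_lit 20) (nat_lit 5) (nat_lit 244) (nat_lit 234) (nat_lit 122)) (XT.lf (nat_lit 0) (nat_lit 478536024468) (nat_lit 152) (nat_lit 539254197829) (nat_lit 228) (nat_lit 176369271044) (nat_lit 17) (nat_lit 5) (nat_lit 19) (nat_lit 5) (nat_lit 20) (nat_lit 5) (nat_lit 245) (nat_lit 234) (nat_lit 121))) (XT.nd (nat_lit 78) (nat_lit 152) (nat_lit 0) (XT.lf (nat_lit 0) (nat_lit 111705638043) (nat_lit 152) (nat_lit 1127265282228) (nat_lit 76) (nat_lit 79008755457) (nat_lit 15) (nat_lit 5) (nat_lit 17) (nat_lit 5) (nat_lit 16) (nat_lit 5) (nat_lit 246) (nat_lit 234) (nat_lit 120)) (XT.nd (nat_lit 78) (nat_lit 152) (nat_lit 0) (XT.lf (nat_lit 0) (nat_lit 469135852040) (nat_lit 152) (nat_lit 202700769199)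 (nat_lit 76) (nat_lit 785242814916) (nat_lit 15) (nat_lit 5) (nat_lit 17) (nat_lit 5) (nat_lit 16) (nat_lit 5) (nat_lit 247) (nat_lit 234) (nat_lit 119)) (XT.lf (nat_lit 0) (nat_lit 902060328656) (nat_lit 228) (nat_lit 709531653646) (nat_lit 76) (nat_lit 3701799983) (nat_lit 13) (nat_lit 5) (nat_lit 16) (nat_lit 5) (nat_lit 14) (nat_lit 4) (nat_lit 248) (nat_lit 234) (nat_lit 118))))) (XT.nd (nat_lit 156) (nat_lit 228) (nat_lit 0) (XT.nd (nat_lit 78) (nat_lit 76) (nat_lit 0) (XT.lf (nat_lit 0) (nat_lit 397132772834) (nat_lit 76) (nat_lit 1036977775616) (nat_lit 152) (nat_lit 360394766213) (nat_lit 12) (nat_lit 5) (nat_lit 13) (nat_lit 5) (nat_lit 14) (nat_lit 4) (nat_lit 249) (nat_lit 234) (nat_lit 117)) (XT.lf (nat_lit 0) (nat_lit 64293931656) (nat_lit 152) (nat_lit 287809775733) (nat_lit 76) (nat_lit 1646712075351) (nat_lit 11) (nat_lit 5) (nat_lit 13) (nat_lit 5) (nat_lit 12) (nat_lit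 5) (nat_lit 250) (nat_lit 234) (nat_lit 116))) (XT.nd (nat_lit 78) (nat_lit 76) (nat_lit 0) (XT.lf (nat_lit 0) (nat_lit 568094277232) (nat_lit 228) (nat_lit 1212639105063) (nat_lit 76) (nat_lit 449350747746) (nat_lit 9) (nat_lit 5) (nat_lit 12) (nat_lit 5) (nat_lit 10) (nat_lit 4) (nat_lit 251) (nat_lit 234) (nat_lit 115)) (XT.nd (nat_lit 78) (nat_lit 0) (nat_lit 0) (XT.lf (nat_lit 0) (nat_lit 32199297840) (nat_lit 76) (nat_lit 1134374989771) (nat_lit 152) (nat_lit 1327939672830) (nat_lit 8) (nat_lit 5) (nat_lit 9) (nat_lit 5) (nat_lit 10) (nat_lit 4) (nat_lit 252) (nat_lit 234) (nat_lit 114)) (XT.lf (nat_lit 0) (nat_lit 1537197179658) (nat_lit 76) (nat_lit 352933789716) (nat_lit 152) (nat_lit 905652922475) (nat_lit 8) (nat_lit 5) (nat_lit 9) (nat_lit 5) (nat_lit 10) (nat_lit 4) (nat_lit 253) (nat_lit 234) (nat_lit 113))))))) (XT.nd (nat_lit 30498) (nat_lit 0) (nat_lit 76) (XT.nd (nat_lit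 30108) (nat_lit 0) (nat_lit 1064) (XT.nd (nat_lit 29874) (nat_lit 0) (nat_lit 2052) (XT.nd (nat_lit 29796) (nat_lit 0) (nat_lit 1976) (XT.lf (nat_lit 0) (nat_lit 118503784902) (nat_lit 76) (nat_lit 2619692041379) (nat_lit 76) (nat_lit 402770512887) (nat_lit 7) (nat_lit 4) (nat_lit 8) (nat_lit 5) (nat_lit 8) (nat_lit 4) (nat_lit 254) (nat_lit 234) (nat_lit 112)) (XT.lf (nat_lit 0) (nat_lit 85114429752) (nat_lit 532) (nat_lit 94180109026) (nat_lit 532) (nat_lit 94180109026) (nat_lit 33) (nat_lit 3) (nat_lit 40) (nat_lit 3) (nat_lit 40) (nat_lit 5) (nat_lit 235) (nat_lit 235) (nat_lit 130))) (XT.nd (nat_lit 78) (nat_lit 0) (nat_lit 0) (XT.lf (nat_lit 0) (nat_lit 190768381190) (nat_lit 456) (nat_lit 332930457266) (nat_lit 532) (nat_lit 63649863716) (nat_lit 34) (nat_lit 5) (nat_lit 40) (nat_lit 5) (nat_lit 41) (nat_lit 5) (nat_lit 236) (nat_lit 235) (nat_lit 129)) (XT.nd (nat_lit 78) (nat_lit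 0) (nat_lit 76) (XT.lf (nat_lit 76) (nat_lit 138519848385) (nat_lit 0) (nat_lit 94744357583) (nat_lit 532) (nat_lit 399033784124) (nat_lit 35) (nat_lit 5) (nat_lit 34) (nat_lit 5) (nat_lit 41) (nat_lit 5) (nat_lit 237) (nat_lit 235) (nat_lit 128)) (XT.lf (nat_lit 76) (nat_lit 8208308022) (nat_lit 0) (nat_lit 293653344058) (nat_lit 532) (nat_lit 380549839625) (nat_lit 36) (nat_lit 5) (nat_lit 35) (nat_lit 5) (nat_lit 42) (nat_lit 5) (nat_lit 238) (nat_lit 235) (nat_lit 127))))) (XT.nd (nat_lit 156) (nat_lit 684) (nat_lit 0) (XT.nd (nat_lit 78) (nat_lit 456) (nat_lit 0) (XT.lf (nat_lit 0) (nat_lit 402848273756) (nat_lit 456) (nat_lit 131221355198) (nat_lit 76) (nat_lit 204204425190) (nat_lit 36) (nat_lit 5) (nat_lit 42) (nat_lit 5) (nat_lit 37) (nat_lit 5) (nat_lit 239) (nat_lit 235) (nat_lit 126)) (XT.lf (nat_lit 0) (nat_lit 510629752150) (nat_lit 456) (nat_lit 28755477817) (nat_lit 532)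 (nat_lit 261498583913) (nat_lit 30) (nat_lit 5) (nat_lit 36) (nat_lit 5) (nat_lit 37) (nat_lit 5) (nat_lit 240) (nat_lit 235) (nat_lit 125))) (XT.nd (nat_lit 78) (nat_lit 456) (nat_lit 0) (XT.lf (nat_lit 0) (nat_lit 390264664486) (nat_lit 228) (nat_lit 332727671472) (nat_lit 304) (nat_lit 147765533321) (nat_lit 27) (nat_lit 5) (nat_lit 30) (nat_lit 5) (nat_lit 31) (nat_lit 5) (nat_lit 241) (nat_lit 235) (nat_lit 124)) (XT.nd (nat_lit 78) (nat_lit 228) (nat_lit 0) (XT.lf (nat_lit 0) (nat_lit 5477319524) (nat_lit 228) (nat_lit 703978067163) (nat_lit 76) (nat_lit 239962236819) (nat_lit 24) (nat_lit 5) (nat_lit 27) (nat_lit 5) (nat_lit 25) (nat_lit 5) (nat_lit 242) (nat_lit 235) (nat_lit 123)) (XT.lf (nat_lit 0) (nat_lit 59948444746) (nat_lit 228) (nat_lit 138254100558) (nat_lit 304) (nat_lit 839347125363) (nat_lit 21) (nat_lit 5) (nat_lit 24) (nat_lit 5) (nat_lit 25) (nat_lit 5) (nat_lit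 243) (nat_lit 235) (nat_lit 122)))))) (XT.nd (nat_lit 390) (nat_lit 532) (nat_lit 0) (XT.nd (nat_lit 156) (nat_lit 304) (nat_lit 0) (XT.nd (nat_lit 78) (nat_lit 152) (nat_lit 0) (XT.lf (nat_lit 0) (nat_lit 453337444499) (nat_lit 304) (nat_lit 169172561958) (nat_lit 76) (nat_lit 513711447406) (nat_lit 21) (nat_lit 5) (nat_lit 25) (nat_lit 5) (nat_lit 22) (nat_lit 5) (nat_lit 244) (nat_lit 235) (nat_lit 121)) (XT.lf (nat_lit 0) (nat_lit 770368211827) (nat_lit 228) (nat_lit 451957663465) (nat_lit 76) (nat_lit 25478078695) (nat_lit 19) (nat_lit 5) (nat_lit 22) (nat_lit 5) (nat_lit 20) (nat_lit 5) (nat_lit 245) (nat_lit 235) (nat_lit 120))) (XT.nd (nat_lit 78) (nat_lit 152) (nat_lit 0) (XT.lf (nat_lit 0) (nat_lit 550316766916) (nat_lit 152) (nat_lit 620142231174) (nat_lit 228) (nat_lit 202824398829) (nat_lit 17) (nat_lit 5) (nat_lit 19) (nat_lit 5) (nat_lit 20) (nat_lit 5) (nat_lit 246) (nat_lit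 235) (nat_lit 119)) (XT.nd (nat_lit 78) (nat_lit 0) (nat_lit 0) (XT.lf (nat_lit 0) (nat_lit 128461711025) (nat_lit 152) (nat_lit 1296354735094) (nat_lit 76) (nat_lit 90860161960) (nat_lit 15) (nat_lit 5) (nat_lit 17) (nat_lit 5) (nat_lit 16) (nat_lit 5) (nat_lit 247) (nat_lit 235) (nat_lit 118)) (XT.lf (nat_lit 0) (nat_lit 539506427478) (nat_lit 152) (nat_lit 233105589390) (nat_lit 76) (nat_lit 903029318184) (nat_lit 15) (nat_lit 5) (nat_lit 17) (nat_lit 5) (nat_lit 16) (nat_lit 5) (nat_lit 248) (nat_lit 235) (nat_lit 117))))) (XT.nd (nat_lit 156) (nat_lit 304) (nat_lit 0) (XT.nd (nat_lit 78) (nat_lit 76) (nat_lit 0) (XT.lf (nat_lit 0) (nat_lit 1037369558515) (nat_lit 228) (nat_lit 815961118806) (nat_lit 76) (nat_lit 4257157237) (nat_lit 13) (nat_lit 5) (nat_lit 16) (nat_lit 5) (nat_lit 14) (nat_lit 4) (nat_lit 249) (nat_lit 235) (nat_lit 116)) (XT.lf (nat_lit 0) (nat_lit 456702947701)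 (nat_lit 76) (nat_lit 1192524346254) (nat_lit 152) (nat_lit 414453804306) (nat_lit 12) (nat_lit 5) (nat_lit 13) (nat_lit 5) (nat_lit 14) (nat_lit 4) (nat_lit 250) (nat_lit 235) (nat_lit 115))) (XT.nd (nat_lit 78) (nat_lit 228) (nat_lit 0) (XT.lf (nat_lit 0) (nat_lit 73938167484) (nat_lit 152) (nat_lit 330981008797) (nat_lit 76) (nat_lit 1893718961746) (nat_lit 11) (nat_lit 5) (nat_lit 13) (nat_lit 5) (nat_lit 12) (nat_lit 5) (nat_lit 251) (nat_lit 235) (nat_lit 114)) (XT.nd (nat_lit 78) (nat_lit 76) (nat_lit 0) (XT.lf (nat_lit 0) (nat_lit 653308552936) (nat_lit 228) (nat_lit 1394534748279) (nat_lit 76) (nat_lit 516753437223) (nat_lit 9) (nat_lit 5) (nat_lit 12) (nat_lit 5) (nat_lit 10) (nat_lit 4) (nat_lit 252) (nat_lit 235) (nat_lit 113)) (XT.lf (nat_lit 0) (nat_lit 37029396222) (nat_lit 76) (nat_lit 1304531156055) (nat_lit 152) (nat_lit 1527130492177) (nat_lit 8) (nat_lit 5) (nat_lit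 9) (nat_lit 5) (nat_lit 10) (nat_lit 4) (nat_lit 253) (nat_lit 235) (nat_lit 112))))))))
noncomputable def xc61 : XT := (XT.nd (nat_lit 31434) (nat_lit 0) (nat_lit 152) (XT.nd (nat_lit 702) (nat_lit 912) (nat_lit 0) (XT.nd (nat_lit 312) (nat_lit 912) (nat_lit 0) (XT.nd (nat_lit 156) (nat_lit 0) (nat_lit 76) (XT.nd (nat_lit 78) (nat_lit 0) (nat_lit 76) (XT.lf (nat_lit 0) (nat_lit 97881928860) (nat_lit 532) (nat_lit 108306943698) (nat_lit 532) (nat_lit 108306943698) (nat_lit 33) (nat_lit 3) (nat_lit 40) (nat_lit 3) (nat_lit 40) (nat_lit 5) (nat_lit 236) (nat_lit 236) (nat_lit 128)) (XT.lf (nat_lit 0) (nat_lit 219384222170) (nat_lit 456) (nat_lit 382869636472) (nat_lit 532) (nat_lit 73197098765) (nat_lit 34) (nat_lit 5) (nat_lit 40) (nat_lit 5) (nat_lit 41) (nat_lit 5) (nat_lit 237) (nat_lit 236) (nat_lit 127))) (XT.nd (nat_lit 78) (nat_lit 0) (nat_lit 76) (XT.lf (nat_lit 76) (nat_lit 159298182067)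 (nat_lit 0) (nat_lit 108956171022) (nat_lit 532) (nat_lit 458888291274) (nat_lit 35) (nat_lit 5) (nat_lit 34) (nat_lit 5) (nat_lit 41) (nat_lit 5) (nat_lit 238) (nat_lit 236) (nat_lit 126)) (XT.lf (nat_lit 76) (nat_lit 9439924496) (nat_lit 0) (nat_lit 337701429851) (nat_lit 532) (nat_lit 437631822197) (nat_lit 36) (nat_lit 5) (nat_lit 35) (nat_lit 5) (nat_lit 42) (nat_lit 5) (nat_lit 239) (nat_lit 236) (nat_lit 125)))) (XT.nd (nat_lit 156) (nat_lit 684) (nat_lit 0) (XT.nd (nat_lit 78) (nat_lit 456) (nat_lit 0) (XT.lf (nat_lit 0) (nat_lit 463275908237) (nat_lit 456) (nat_lit 150904200901) (nat_lit 76) (nat_lit 234835019427) (nat_lit 36) (nat_lit 5) (nat_lit 42) (nat_lit 5) (nat_lit 37) (nat_lit 5) (nat_lit 240) (nat_lit 236) (nat_lit 124)) (XT.lf (nat_lit 0) (nat_lit 587224542282) (nat_lit 456) (nat_lit 33068822155) (nat_lit 532) (nat_lit 300722991592) (nat_lit 30) (nat_lit 5) (nat_lit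 36) (nat_lit 5) (nat_lit 37) (nat_lit 5) (nat_lit 241) (nat_lit 236) (nat_lit 123))) (XT.nd (nat_lit 78) (nat_lit 456) (nat_lit 0) (XT.lf (nat_lit 0) (nat_lit 448804691663) (nat_lit 228) (nat_lit 382636806417) (nat_lit 304) (nat_lit 169930024969) (nat_lit 27) (nat_lit 5) (nat_lit 30) (nat_lit 5) (nat_lit 31) (nat_lit 5) (nat_lit 242) (nat_lit 236) (nat_lit 122)) (XT.nd (nat_lit 78) (nat_lit 228) (nat_lit 0) (XT.lf (nat_lit 0) (nat_lit 6299205281) (nat_lit 228) (nat_lit 809574436922) (nat_lit 76) (nat_lit 275956600448) (nat_lit 24) (nat_lit 5) (nat_lit 27) (nat_lit 5) (nat_lit 25) (nat_lit 5) (nat_lit 243) (nat_lit 236) (nat_lit 121)) (XT.lf (nat_lit 0) (nat_lit 68941022967) (nat_lit 228) (nat_lit 158992161908) (nat_lit 304) (nat_lit 965248914590) (nat_lit 21) (nat_lit 5) (nat_lit 24) (nat_lit 5) (nat_lit 25) (nat_lit 5) (nat_lit 244) (nat_lit 236) (nat_lit 120)))))) (XT.nd (nat_lit 390)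 (nat_lit 456) (nat_lit 0) (XT.nd (nat_lit 156) (nat_lit 304) (nat_lit 0) (XT.nd (nat_lit 78) (nat_lit 152) (nat_lit 0) (XT.lf (nat_lit 0) (nat_lit 521338286451) (nat_lit 304) (nat_lit 194548157541) (nat_lit 76) (nat_lit 590768208904) (nat_lit 21) (nat_lit 5) (nat_lit 25) (nat_lit 5) (nat_lit 22) (nat_lit 5) (nat_lit 245) (nat_lit 236) (nat_lit 119)) (XT.lf (nat_lit 0) (nat_lit 885923647342) (nat_lit 228) (nat_lit 519751033132) (nat_lit 76) (nat_lit 29299849422) (nat_lit 19) (nat_lit 5) (nat_lit 22) (nat_lit 5) (nat_lit 20) (nat_lit 5) (nat_lit 246) (nat_lit 236) (nat_lit 118))) (XT.nd (nat_lit 78) (nat_lit 152) (nat_lit 0) (XT.lf (nat_lit 0) (nat_lit 632864538119) (nat_lit 152) (nat_lit 713163493012) (nat_lit 228) (nat_lit 233247859886) (nat_lit 17) (nat_lit 5) (nat_lit 19) (nat_lit 5) (nat_lit 20) (nat_lit 5) (nat_lit 247) (nat_lit 236) (nat_lit 117)) (XT.nd (nat_lit 78) (nat_lit 0)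 (nat_lit 0) (XT.lf (nat_lit 0) (nat_lit 147731139532) (nat_lit 152) (nat_lit 1490807688672) (nat_lit 76) (nat_lit 104489256715) (nat_lit 15) (nat_lit 5) (nat_lit 17) (nat_lit 5) (nat_lit 16) (nat_lit 5) (nat_lit 248) (nat_lit 236) (nat_lit 116)) (XT.lf (nat_lit 0) (nat_lit 620432541037) (nat_lit 152) (nat_lit 268071204593) (nat_lit 76) (nat_lit 1038483777182) (nat_lit 15) (nat_lit 5) (nat_lit 17) (nat_lit 5) (nat_lit 16) (nat_lit 5) (nat_lit 249) (nat_lit 236) (nat_lit 115))))) (XT.nd (nat_lit 156) (nat_lit 228) (nat_lit 0) (XT.nd (nat_lit 78) (nat_lit 76) (nat_lit 0) (XT.lf (nat_lit 0) (nat_lit 1192975128822) (nat_lit 228) (nat_lit 938355072725) (nat_lit 76) (nat_lit 4895796801) (nat_lit 13) (nat_lit 5) (nat_lit 16) (nat_lit 5) (nat_lit 14) (nat_lit 4) (nat_lit 250) (nat_lit 236) (nat_lit 114)) (XT.lf (nat_lit 0) (nat_lit 525208585653) (nat_lit 76) (nat_lit 1371402925826) (nat_lit 152)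 (nat_lit 476621741237) (nat_lit 12) (nat_lit 5) (nat_lit 13) (nat_lit 5) (nat_lit 14) (nat_lit 4) (nat_lit 251) (nat_lit 236) (nat_lit 113))) (XT.nd (nat_lit 78) (nat_lit 152) (nat_lit 0) (XT.lf (nat_lit 0) (nat_lit 85029003065) (nat_lit 152) (nat_lit 380627983712) (nat_lit 76) (nat_lit 2177776862789) (nat_lit 11) (nat_lit 5) (nat_lit 13) (nat_lit 5) (nat_lit 12) (nat_lit 5) (nat_lit 252) (nat_lit 236) (nat_lit 112)) (XT.nd (nat_lit 30030) (nat_lit 0) (nat_lit 1824) (XT.lf (nat_lit 0) (nat_lit 751304937290) (nat_lit 228) (nat_lit 1603714792245) (nat_lit 76) (nat_lit 594266511268) (nat_lit 9) (nat_lit 5) (nat_lit 12) (nat_lit 5) (nat_lit 10) (nat_lit 4) (nat_lit 253) (nat_lit 236) (nat_lit 111)) (XT.lf (nat_lit 0) (nat_lit 112564471230) (nat_lit 532) (nat_lit 124552847875) (nat_lit 532) (nat_lit 124552847875) (nat_lit 33) (nat_lit 3) (nat_lit 40) (nat_lit 3) (nat_lit 40) (nat_lit 5) (nat_lit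 237) (nat_lit 237) (nat_lit 126))))))) (XT.nd (nat_lit 780) (nat_lit 608) (nat_lit 0) (XT.nd (nat_lit 390) (nat_lit 836) (nat_lit 0) (XT.nd (nat_lit 156) (nat_lit 304) (nat_lit 0) (XT.nd (nat_lit 78) (nat_lit 0) (nat_lit 0) (XT.lf (nat_lit 0) (nat_lit 252292296934) (nat_lit 456) (nat_lit 440299787512) (nat_lit 532) (nat_lit 84176478696) (nat_lit 34) (nat_lit 5) (nat_lit 40) (nat_lit 5) (nat_lit 41) (nat_lit 5) (nat_lit 238) (nat_lit 237) (nat_lit 125)) (XT.lf (nat_lit 76) (nat_lit 183193178885) (nat_lit 0) (nat_lit 125299717508) (nat_lit 532) (nat_lit 527721111170) (nat_lit 35) (nat_lit 5) (nat_lit 34) (nat_lit 5) (nat_lit 41) (nat_lit 5) (nat_lit 239) (nat_lit 237) (nat_lit 124))) (XT.nd (nat_lit 78) (nat_lit 380) (nat_lit 0) (XT.lf (nat_lit 76) (nat_lit 10856193149) (nat_lit 0) (nat_lit 388356707984) (nat_lit 532) (nat_lit 503276222466) (nat_lit 36) (nat_lit 5) (nat_lit 35) (nat_lit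 5) (nat_lit 42) (nat_lit 5) (nat_lit 240) (nat_lit 237) (nat_lit 123)) (XT.nd (nat_lit 78) (nat_lit 456) (nat_lit 0) (XT.lf (nat_lit 0) (nat_lit 532767591953) (nat_lit 456) (nat_lit 173539560657) (nat_lit 76) (nat_lit 270060219757) (nat_lit 36) (nat_lit 5) (nat_lit 42) (nat_lit 5) (nat_lit 37) (nat_lit 5) (nat_lit 241) (nat_lit 237) (nat_lit 122)) (XT.lf (nat_lit 0) (nat_lit 675308471118) (nat_lit 456) (nat_lit 38029162616) (nat_lit 532) (nat_lit 345831153065) (nat_lit 30) (nat_lit 5) (nat_lit 36) (nat_lit 5) (nat_lit 37) (nat_lit 5) (nat_lit 242) (nat_lit 237) (nat_lit 121))))) (XT.nd (nat_lit 156) (nat_lit 380) (nat_lit 0) (XT.nd (nat_lit 78) (nat_lit 228) (nat_lit 0) (XT.lf (nat_lit 0) (nat_lit 516125643052) (nat_lit 228) (nat_lit 440032315451) (nat_lit 304) (nat_lit 195419272873) (nat_lit 27) (nat_lit 5) (nat_lit 30) (nat_lit 5) (nat_lit 31) (nat_lit 5) (nat_lit 243) (nat_lit 237)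 (nat_lit 120)) (XT.lf (nat_lit 0) (nat_lit 7244303712) (nat_lit 228) (nat_lit 931010345133) (nat_lit 76) (nat_lit 317350111767) (nat_lit 24) (nat_lit 5) (nat_lit 27) (nat_lit 5) (nat_lit 25) (nat_lit 5) (nat_lit 244) (nat_lit 237) (nat_lit 119))) (XT.nd (nat_lit 78) (nat_lit 152) (nat_lit 0) (XT.lf (nat_lit 0) (nat_lit 79282411959) (nat_lit 228) (nat_lit 182840945565) (nat_lit 304) (nat_lit 1110036040377) (nat_lit 21) (nat_lit 5) (nat_lit 24) (nat_lit 5) (nat_lit 25) (nat_lit 5) (nat_lit 245) (nat_lit 237) (nat_lit 118)) (XT.nd (nat_lit 78) (nat_lit 152) (nat_lit 0) (XT.lf (nat_lit 0) (nat_lit 599539199761) (nat_lit 304) (nat_lit 223730162864) (nat_lit 76) (nat_lit 679383473802) (nat_lit 21) (nat_lit 5) (nat_lit 25) (nat_lit 5) (nat_lit 22) (nat_lit 5) (nat_lit 246) (nat_lit 237) (nat_lit 117)) (XT.lf (nat_lit 0) (nat_lit 1018812348501) (nat_lit 228) (nat_lit 597713476492) (nat_lit 76)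 (nat_lit 33694871388) (nat_lit 19) (nat_lit 5) (nat_lit 22) (nat_lit 5) (nat_lit 20) (nat_lit 5) (nat_lit 247) (nat_lit 237) (nat_lit 116)))))) (XT.nd (nat_lit 390) (nat_lit 76) (nat_lit 0) (XT.nd (nat_lit 156) (nat_lit 228) (nat_lit 0) (XT.nd (nat_lit 78) (nat_lit 152) (nat_lit 0) (XT.lf (nat_lit 0) (nat_lit 727794412534) (nat_lit 152) (nat_lit 820137961888) (nat_lit 228) (nat_lit 268234888572) (nat_lit 17) (nat_lit 5) (nat_lit 19) (nat_lit 5) (nat_lit 20) (nat_lit 5) (nat_lit 248) (nat_lit 237) (nat_lit 115)) (XT.lf (nat_lit 0) (nat_lit 169890940408) (nat_lit 152) (nat_lit 1714428647881) (nat_lit 76) (nat_lit 120162698501) (nat_lit 15) (nat_lit 5) (nat_lit 17) (nat_lit 5) (nat_lit 16) (nat_lit 5) (nat_lit 249) (nat_lit 237) (nat_lit 114))) (XT.nd (nat_lit 78) (nat_lit 228) (nat_lit 0) (XT.lf (nat_lit 0) (nat_lit 713497535189) (nat_lit 152) (nat_lit 308281716506) (nat_lit 76) (nat_lit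 1194256390088) (nat_lit 15) (nat_lit 5) (nat_lit 17) (nat_lit 5) (nat_lit 16) (nat_lit 5) (nat_lit 250) (nat_lit 237) (nat_lit 113)) (XT.nd (nat_lit 78) (nat_lit 76) (nat_lit 0) (XT.lf (nat_lit 0) (nat_lit 1371921501382) (nat_lit 228) (nat_lit 1079108171892) (nat_lit 76) (nat_lit 5630216210) (nat_lit 13) (nat_lit 5) (nat_lit 16) (nat_lit 5) (nat_lit 14) (nat_lit 4) (nat_lit 251) (nat_lit 237) (nat_lit 112)) (XT.lf (nat_lit 0) (nat_lit 603990021552) (nat_lit 76) (nat_lit 1577113309981) (nat_lit 152) (nat_lit 548114901314) (nat_lit 12) (nat_lit 5) (nat_lit 13) (nat_lit 5) (nat_lit 14) (nat_lit 4) (nat_lit 252) (nat_lit 237) (nat_lit 111))))) (XT.nd (nat_lit 30186) (nat_lit 0) (nat_lit 1748) (XT.nd (nat_lit 30108) (nat_lit 0) (nat_lit 1672) (XT.lf (nat_lit 0) (nat_lit 97783437046) (nat_lit 152) (nat_lit 437722047881) (nat_lit 76) (nat_lit 2504443435141) (nat_lit 11) (nat_lit 5) (nat_lit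 13) (nat_lit 5) (nat_lit 12) (nat_lit 5) (nat_lit 253) (nat_lit 237) (nat_lit 110)) (XT.lf (nat_lit 0) (nat_lit 129449333249) (nat_lit 532) (nat_lit 143235671179) (nat_lit 532) (nat_lit 143235671179) (nat_lit 33) (nat_lit 3) (nat_lit 40) (nat_lit 3) (nat_lit 40) (nat_lit 5) (nat_lit 238) (nat_lit 238) (nat_lit 124))) (XT.nd (nat_lit 78) (nat_lit 0) (nat_lit 0) (XT.lf (nat_lit 0) (nat_lit 290136475265) (nat_lit 456) (nat_lit 506344533008) (nat_lit 532) (nat_lit 96802810701) (nat_lit 34) (nat_lit 5) (nat_lit 40) (nat_lit 5) (nat_lit 41) (nat_lit 5) (nat_lit 239) (nat_lit 238) (nat_lit 123)) (XT.nd (nat_lit 78) (nat_lit 0) (nat_lit 76) (XT.lf (nat_lit 76) (nat_lit 210672359505) (nat_lit 0) (nat_lit 144094766501) (nat_lit 532) (nat_lit 606878957396) (nat_lit 35) (nat_lit 5) (nat_lit 34) (nat_lit 5) (nat_lit 41) (nat_lit 5) (nat_lit 240) (nat_lit 238) (nat_lit 122)) (XT.lf (nat_lit 76) (nat_lit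 12484833825) (nat_lit 0) (nat_lit 446610262314) (nat_lit 532) (nat_lit 578767373749) (nat_lit 36) (nat_lit 5) (nat_lit 35) (nat_lit 5) (nat_lit 42) (nat_lit 5) (nat_lit 241) (nat_lit 238) (nat_lit 121))))))))
noncomputable def xc62 : XT := (XT.nd (nat_lit 31668) (nat_lit 0) (nat_lit 152) (XT.nd (nat_lit 702) (nat_lit 152) (nat_lit 0) (XT.nd (nat_lit 312) (nat_lit 684) (nat_lit 0) (XT.nd (nat_lit 156) (nat_lit 456) (nat_lit 0) (XT.nd (nat_lit 78) (nat_lit 456) (nat_lit 0) (XT.lf (nat_lit 0) (nat_lit 612682955683) (nat_lit 456) (nat_lit 199570290310) (nat_lit 76) (nat_lit 310569212960) (nat_lit 36) (nat_lit 5) (nat_lit 42) (nat_lit 5) (nat_lit 37) (nat_lit 5) (nat_lit 242) (nat_lit 238) (nat_lit 120)) (XT.lf (nat_lit 0) (nat_lit 776604928926) (nat_lit 456) (nat_lit 43733549967) (nat_lit 532) (nat_lit 397705608811) (nat_lit 30) (nat_lit 5) (nat_lit 36) (nat_lit 5) (nat_lit 37) (nat_lit 5)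 (nat_lit 243) (nat_lit 238) (nat_lit 119))) (XT.nd (nat_lit 78) (nat_lit 228) (nat_lit 0) (XT.lf (nat_lit 0) (nat_lit 593544676761) (nat_lit 228) (nat_lit 506037153749) (nat_lit 304) (nat_lit 224731970351) (nat_lit 27) (nat_lit 5) (nat_lit 30) (nat_lit 5) (nat_lit 31) (nat_lit 5) (nat_lit 244) (nat_lit 238) (nat_lit 118)) (XT.lf (nat_lit 0) (nat_lit 8331113835) (nat_lit 228) (nat_lit 1070661702326) (nat_lit 76) (nat_lit 364952644602) (nat_lit 24) (nat_lit 5) (nat_lit 27) (nat_lit 5) (nat_lit 25) (nat_lit 5) (nat_lit 245) (nat_lit 238) (nat_lit 117)))) (XT.nd (nat_lit 156) (nat_lit 456) (nat_lit 0) (XT.nd (nat_lit 78) (nat_lit 0) (nat_lit 0) (XT.lf (nat_lit 0) (nat_lit 91174951859) (nat_lit 228) (nat_lit 210267056678) (nat_lit 304) (nat_lit 1276541286584) (nat_lit 21) (nat_lit 5) (nat_lit 24) (nat_lit 5) (nat_lit 25) (nat_lit 5) (nat_lit 246) (nat_lit 238) (nat_lit 116)) (XT.lf (nat_lit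 0) (nat_lit 689470208528) (nat_lit 304) (nat_lit 257289522222) (nat_lit 76) (nat_lit 781291020251) (nat_lit 21) (nat_lit 5) (nat_lit 25) (nat_lit 5) (nat_lit 22) (nat_lit 5) (nat_lit 247) (nat_lit 238) (nat_lit 115))) (XT.nd (nat_lit 78) (nat_lit 304) (nat_lit 0) (XT.lf (nat_lit 0) (nat_lit 1171634317266) (nat_lit 228) (nat_lit 687370337959) (nat_lit 76) (nat_lit 38749135785) (nat_lit 19) (nat_lit 5) (nat_lit 22) (nat_lit 5) (nat_lit 20) (nat_lit 5) (nat_lit 248) (nat_lit 238) (nat_lit 114)) (XT.nd (nat_lit 78) (nat_lit 152) (nat_lit 0) (XT.lf (nat_lit 0) (nat_lit 836963720878) (nat_lit 152) (nat_lit 943158614525) (nat_lit 228) (nat_lit 308470008211) (nat_lit 17) (nat_lit 5) (nat_lit 19) (nat_lit 5) (nat_lit 20) (nat_lit 5) (nat_lit 249) (nat_lit 238) (nat_lit 113)) (XT.lf (nat_lit 0) (nat_lit 195374679727) (nat_lit 152) (nat_lit 1971592798302) (nat_lit 76) (nat_lit 138187143562) (nat_lit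 15) (nat_lit 5) (nat_lit 17) (nat_lit 5) (nat_lit 16) (nat_lit 5) (nat_lit 250) (nat_lit 238) (nat_lit 112)))))) (XT.nd (nat_lit 30576) (nat_lit 0) (nat_lit 836) (XT.nd (nat_lit 30342) (nat_lit 0) (nat_lit 1520) (XT.nd (nat_lit 78) (nat_lit 152) (nat_lit 0) (XT.lf (nat_lit 0) (nat_lit 820522250909) (nat_lit 152) (nat_lit 354523846364) (nat_lit 76) (nat_lit 1373394883633) (nat_lit 15) (nat_lit 5) (nat_lit 17) (nat_lit 5) (nat_lit 16) (nat_lit 5) (nat_lit 251) (nat_lit 238) (nat_lit 111)) (XT.lf (nat_lit 0) (nat_lit 1577709804651) (nat_lit 228) (nat_lit 1240974275377) (nat_lit 76) (nat_lit 6474786365) (nat_lit 13) (nat_lit 5) (nat_lit 16) (nat_lit 5) (nat_lit 14) (nat_lit 4) (nat_lit 252) (nat_lit 238) (nat_lit 110))) (XT.nd (nat_lit 78) (nat_lit 0) (nat_lit 76) (XT.lf (nat_lit 0) (nat_lit 148866877913) (nat_lit 532) (nat_lit 164720943309) (nat_lit 532) (nat_lit 164720943309) (nat_lit 33)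 (nat_lit 3) (nat_lit 40) (nat_lit 3) (nat_lit 40) (nat_lit 5) (nat_lit 239) (nat_lit 239) (nat_lit 122)) (XT.nd (nat_lit 78) (nat_lit 0) (nat_lit 0) (XT.lf (nat_lit 0) (nat_lit 333657198948) (nat_lit 456) (nat_lit 582296044618) (nat_lit 532) (nat_lit 111323126599) (nat_lit 34) (nat_lit 5) (nat_lit 40) (nat_lit 5) (nat_lit 41) (nat_lit 5) (nat_lit 240) (nat_lit 239) (nat_lit 121)) (XT.lf (nat_lit 76) (nat_lit 242273367523) (nat_lit 0) (nat_lit 165709050563) (nat_lit 532) (nat_lit 697910558700) (nat_lit 35) (nat_lit 5) (nat_lit 34) (nat_lit 5) (nat_lit 41) (nat_lit 5) (nat_lit 241) (nat_lit 239) (nat_lit 120))))) (XT.nd (nat_lit 156) (nat_lit 836) (nat_lit 0) (XT.nd (nat_lit 78) (nat_lit 0) (nat_lit 76) (XT.lf (nat_lit 76) (nat_lit 14357718977) (nat_lit 0) (nat_lit 513601838056) (nat_lit 532) (nat_lit 665582266513) (nat_lit 36) (nat_lit 5) (nat_lit 35) (nat_lit 5) (nat_lit 42) (nat_lit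 5) (nat_lit 242) (nat_lit 239) (nat_lit 119)) (XT.lf (nat_lit 0) (nat_lit 704585569121) (nat_lit 456) (nat_lit 229505679267) (nat_lit 76) (nat_lit 357154564840) (nat_lit 36) (nat_lit 5) (nat_lit 42) (nat_lit 5) (nat_lit 37) (nat_lit 5) (nat_lit 243) (nat_lit 239) (nat_lit 118))) (XT.nd (nat_lit 78) (nat_lit 456) (nat_lit 0) (XT.lf (nat_lit 0) (nat_lit 893095809770) (nat_lit 456) (nat_lit 50293592261) (nat_lit 532) (nat_lit 457361285888) (nat_lit 30) (nat_lit 5) (nat_lit 36) (nat_lit 5) (nat_lit 37) (nat_lit 5) (nat_lit 244) (nat_lit 239) (nat_lit 117)) (XT.nd (nat_lit 78) (nat_lit 228) (nat_lit 0) (XT.lf (nat_lit 0) (nat_lit 682576519865) (nat_lit 228) (nat_lit 581942719991) (nat_lit 304) (nat_lit 258441619626) (nat_lit 27) (nat_lit 5) (nat_lit 30) (nat_lit 5) (nat_lit 31) (nat_lit 5) (nat_lit 245) (nat_lit 239) (nat_lit 116)) (XT.lf (nat_lit 0) (nat_lit 9580905346) (nat_lit 228) (nat_lit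 1231260810547) (nat_lit 76) (nat_lit 419695553444) (nat_lit 24) (nat_lit 5) (nat_lit 27) (nat_lit 5) (nat_lit 25) (nat_lit 5) (nat_lit 246) (nat_lit 239) (nat_lit 115))))))) (XT.nd (nat_lit 31044) (nat_lit 0) (nat_lit 0) (XT.nd (nat_lit 390) (nat_lit 0) (nat_lit 0) (XT.nd (nat_lit 156) (nat_lit 456) (nat_lit 0) (XT.nd (nat_lit 78) (nat_lit 0) (nat_lit 0) (XT.lf (nat_lit 0) (nat_lit 104851329313) (nat_lit 228) (nat_lit 241807091949) (nat_lit 304) (nat_lit 1468022358703) (nat_lit 21) (nat_lit 5) (nat_lit 24) (nat_lit 5) (nat_lit 25) (nat_lit 5) (nat_lit 247) (nat_lit 239) (nat_lit 114)) (XT.lf (nat_lit 0) (nat_lit 792890837201) (nat_lit 304) (nat_lit 295882825737) (nat_lit 76) (nat_lit 898484692479) (nat_lit 21) (nat_lit 5) (nat_lit 25) (nat_lit 5) (nat_lit 22) (nat_lit 5) (nat_lit 248) (nat_lit 239) (nat_lit 113))) (XT.nd (nat_lit 78) (nat_lit 304) (nat_lit 0) (XT.lf (nat_lit 0) (nat_lit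 1347379552938) (nat_lit 228) (nat_lit 790475767665) (nat_lit 76) (nat_lit 44561531627) (nat_lit 19) (nat_lit 5) (nat_lit 22) (nat_lit 5) (nat_lit 20) (nat_lit 5) (nat_lit 249) (nat_lit 239) (nat_lit 112)) (XT.nd (nat_lit 78) (nat_lit 152) (nat_lit 0) (XT.lf (nat_lit 0) (nat_lit 962508389757) (nat_lit 152) (nat_lit 1084632375214) (nat_lit 228) (nat_lit 354740423510) (nat_lit 17) (nat_lit 5) (nat_lit 19) (nat_lit 5) (nat_lit 20) (nat_lit 5) (nat_lit 250) (nat_lit 239) (nat_lit 111)) (XT.lf (nat_lit 0) (nat_lit 224680955983) (nat_lit 152) (nat_lit 2267331607074) (nat_lit 76) (nat_lit 158915245558) (nat_lit 15) (nat_lit 5) (nat_lit 17) (nat_lit 5) (nat_lit 16) (nat_lit 5) (nat_lit 251) (nat_lit 239) (nat_lit 110))))) (XT.nd (nat_lit 30420) (nat_lit 0) (nat_lit 1444) (XT.nd (nat_lit 30342) (nat_lit 0) (nat_lit 1368) (XT.lf (nat_lit 0) (nat_lit 943600653151) (nat_lit 152) (nat_lit 407702326821)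 (nat_lit 76) (nat_lit 1579404142667) (nat_lit 15) (nat_lit 5) (nat_lit 17) (nat_lit 5) (nat_lit 16) (nat_lit 5) (nat_lit 252) (nat_lit 239) (nat_lit 109)) (XT.lf (nat_lit 0) (nat_lit 171197018996) (nat_lit 532) (nat_lit 189429025413) (nat_lit 532) (nat_lit 189429025413) (nat_lit 33) (nat_lit 3) (nat_lit 40) (nat_lit 3) (nat_lit 40) (nat_lit 5) (nat_lit 240) (nat_lit 240) (nat_lit 120))) (XT.nd (nat_lit 78) (nat_lit 0) (nat_lit 0) (XT.lf (nat_lit 0) (nat_lit 383705969637) (nat_lit 456) (nat_lit 669640324020) (nat_lit 532) (nat_lit 128021515658) (nat_lit 34) (nat_lit 5) (nat_lit 40) (nat_lit 5) (nat_lit 41) (nat_lit 5) (nat_lit 241) (nat_lit 240) (nat_lit 119)) (XT.nd (nat_lit 78) (nat_lit 0) (nat_lit 76) (XT.lf (nat_lit 76) (nat_lit 278614489167) (nat_lit 0) (nat_lit 190565460386) (nat_lit 532) (nat_lit 802596959286) (nat_lit 35) (nat_lit 5) (nat_lit 34) (nat_lit 5) (nat_lit 41) (nat_lit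 5) (nat_lit 242) (nat_lit 240) (nat_lit 118)) (XT.lf (nat_lit 76) (nat_lit 16511497866) (nat_lit 0) (nat_lit 590642141285) (nat_lit 532) (nat_lit 765419445206) (nat_lit 36) (nat_lit 5) (nat_lit 35) (nat_lit 5) (nat_lit 42) (nat_lit 5) (nat_lit 243) (nat_lit 240) (nat_lit 117)))))) (XT.nd (nat_lit 390) (nat_lit 456) (nat_lit 0) (XT.nd (nat_lit 156) (nat_lit 684) (nat_lit 0) (XT.nd (nat_lit 78) (nat_lit 456) (nat_lit 0) (XT.lf (nat_lit 0) (nat_lit 810273533099) (nat_lit 456) (nat_lit 263931414264) (nat_lit 76) (nat_lit 410727726832) (nat_lit 36) (nat_lit 5) (nat_lit 42) (nat_lit 5) (nat_lit 37) (nat_lit 5) (nat_lit 244) (nat_lit 240) (nat_lit 116)) (XT.lf (nat_lit 0) (nat_lit 1027060288233) (nat_lit 456) (nat_lit 57837638509) (nat_lit 532) (nat_lit 525965354578) (nat_lit 30) (nat_lit 5) (nat_lit 36) (nat_lit 5) (nat_lit 37) (nat_lit 5) (nat_lit 245) (nat_lit 240) (nat_lit 115))) (XT.nd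 (nat_lit 78) (nat_lit 456) (nat_lit 0) (XT.lf (nat_lit 0) (nat_lit 784963104906) (nat_lit 228) (nat_lit 669234122832) (nat_lit 304) (nat_lit 297207751963) (nat_lit 27) (nat_lit 5) (nat_lit 30) (nat_lit 5) (nat_lit 31) (nat_lit 5) (nat_lit 246) (nat_lit 240) (nat_lit 114)) (XT.nd (nat_lit 78) (nat_lit 228) (nat_lit 0) (XT.lf (nat_lit 0) (nat_lit 11018135240) (nat_lit 228) (nat_lit 1415949820879) (nat_lit 76) (nat_lit 482649895648) (nat_lit 24) (nat_lit 5) (nat_lit 27) (nat_lit 5) (nat_lit 25) (nat_lit 5) (nat_lit 247) (nat_lit 240) (nat_lit 113)) (XT.lf (nat_lit 0) (nat_lit 120579130543) (nat_lit 228) (nat_lit 278078138176) (nat_lit 304) (nat_lit 1688225621114) (nat_lit 21) (nat_lit 5) (nat_lit 24) (nat_lit 5) (nat_lit 25) (nat_lit 5) (nat_lit 248) (nat_lit 240) (nat_lit 112))))) (XT.nd (nat_lit 234) (nat_lit 304) (nat_lit 0) (XT.nd (nat_lit 78) (nat_lit 152) (nat_lit 0) (XT.lf (nat_lit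 0) (nat_lit 911824536425) (nat_lit 304) (nat_lit 340265155218) (nat_lit 76) (nat_lit 1033257410861) (nat_lit 21) (nat_lit 5) (nat_lit 25) (nat_lit 5) (nat_lit 22) (nat_lit 5) (nat_lit 249) (nat_lit 240) (nat_lit 111)) (XT.lf (nat_lit 0) (nat_lit 1549486552482) (nat_lit 228) (nat_lit 909047041330) (nat_lit 76) (nat_lit 51245780633) (nat_lit 19) (nat_lit 5) (nat_lit 22) (nat_lit 5) (nat_lit 20) (nat_lit 5) (nat_lit 250) (nat_lit 240) (nat_lit 110))) (XT.nd (nat_lit 30420) (nat_lit 0) (nat_lit 1368) (XT.lf (nat_lit 0) (nat_lit 258383155560) (nat_lit 152) (nat_lit 2607431264224) (nat_lit 76) (nat_lit 182752555426) (nat_lit 15) (nat_lit 5) (nat_lit 17) (nat_lit 5) (nat_lit 16) (nat_lit 5) (nat_lit 252) (nat_lit 240) (nat_lit 108)) (XT.nd (nat_lit 78) (nat_lit 0) (nat_lit 76) (XT.lf (nat_lit 0) (nat_lit 196876654565) (nat_lit 532) (nat_lit 217843334316) (nat_lit 532) (nat_lit 217843334316)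 (nat_lit 33) (nat_lit 3) (nat_lit 40) (nat_lit 3) (nat_lit 40) (nat_lit 5) (nat_lit 241) (nat_lit 241) (nat_lit 118)) (XT.lf (nat_lit 0) (nat_lit 441262009389) (nat_lit 456) (nat_lit 770086276373) (nat_lit 532) (nat_lit 147224682568) (nat_lit 34) (nat_lit 5) (nat_lit 40) (nat_lit 5) (nat_lit 41) (nat_lit 5) (nat_lit 242) (nat_lit 241) (nat_lit 117))))))))
noncomputable def xc63 : XT := (XT.nd (nat_lit 62790) (nat_lit 0) (nat_lit 456) (XT.nd (nat_lit 31356) (nat_lit 0) (nat_lit 0) (XT.nd (nat_lit 390) (nat_lit 456) (nat_lit 0) (XT.nd (nat_lit 156) (nat_lit 532) (nat_lit 0) (XT.nd (nat_lit 78) (nat_lit 0) (nat_lit 76) (XT.lf (nat_lit 76) (nat_lit 320406750645) (nat_lit 0) (nat_lit 219150318945) (nat_lit 532) (nat_lit 922986364640) (nat_lit 35) (nat_lit 5) (nat_lit 34) (nat_lit 5) (nat_lit 41) (nat_lit 5) (nat_lit 243) (nat_lit 241) (nat_lit 116)) (XT.lf (nat_lit 76) (nat_lit 18988314071)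 (nat_lit 0) (nat_lit 679238483287) (nat_lit 532) (nat_lit 880232240032) (nat_lit 36) (nat_lit 5) (nat_lit 35) (nat_lit 5) (nat_lit 42) (nat_lit 5) (nat_lit 244) (nat_lit 241) (nat_lit 115))) (XT.nd (nat_lit 78) (nat_lit 684) (nat_lit 0) (XT.lf (nat_lit 0) (nat_lit 931814660310) (nat_lit 456) (nat_lit 303521038017) (nat_lit 76) (nat_lit 472336868668) (nat_lit 36) (nat_lit 5) (nat_lit 42) (nat_lit 5) (nat_lit 37) (nat_lit 5) (nat_lit 245) (nat_lit 241) (nat_lit 114)) (XT.nd (nat_lit 78) (nat_lit 228) (nat_lit 0) (XT.lf (nat_lit 0) (nat_lit 1181119412374) (nat_lit 456) (nat_lit 66513289888) (nat_lit 532) (nat_lit 604860063857) (nat_lit 30) (nat_lit 5) (nat_lit 36) (nat_lit 5) (nat_lit 37) (nat_lit 5) (nat_lit 246) (nat_lit 241) (nat_lit 113)) (XT.lf (nat_lit 0) (nat_lit 902707651596) (nat_lit 228) (nat_lit 769619237357) (nat_lit 304) (nat_lit 341788831123) (nat_lit 27) (nat_lit 5) (nat_lit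 30) (nat_lit 5) (nat_lit 31) (nat_lit 5) (nat_lit 247) (nat_lit 241) (nat_lit 112))))) (XT.nd (nat_lit 156) (nat_lit 0) (nat_lit 0) (XT.nd (nat_lit 78) (nat_lit 228) (nat_lit 0) (XT.lf (nat_lit 0) (nat_lit 12670926672) (nat_lit 228) (nat_lit 1628342209890) (nat_lit 76) (nat_lit 555047386943) (nat_lit 24) (nat_lit 5) (nat_lit 27) (nat_lit 5) (nat_lit 25) (nat_lit 5) (nat_lit 248) (nat_lit 241) (nat_lit 111)) (XT.lf (nat_lit 0) (nat_lit 138666077124) (nat_lit 228) (nat_lit 319789845621) (nat_lit 304) (nat_lit 1941459395174) (nat_lit 21) (nat_lit 5) (nat_lit 24) (nat_lit 5) (nat_lit 25) (nat_lit 5) (nat_lit 249) (nat_lit 241) (nat_lit 110))) (XT.nd (nat_lit 30654) (nat_lit 0) (nat_lit 912) (XT.lf (nat_lit 0) (nat_lit 1048598272573) (nat_lit 304) (nat_lit 391304857135) (nat_lit 76) (nat_lit 1188246033462) (nat_lit 21) (nat_lit 5) (nat_lit 25) (nat_lit 5) (nat_lit 22) (nat_lit 5) (nat_lit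 250) (nat_lit 241) (nat_lit 109)) (XT.nd (nat_lit 78) (nat_lit 0) (nat_lit 76) (XT.lf (nat_lit 0) (nat_lit 226408215298) (nat_lit 532) (nat_lit 250519800506) (nat_lit 532) (nat_lit 250519800506) (nat_lit 33) (nat_lit 3) (nat_lit 40) (nat_lit 3) (nat_lit 40) (nat_lit 5) (nat_lit 242) (nat_lit 242) (nat_lit 116)) (XT.lf (nat_lit 0) (nat_lit 507451419914) (nat_lit 456) (nat_lit 885599145051) (nat_lit 532) (nat_lit 169308339253) (nat_lit 34) (nat_lit 5) (nat_lit 40) (nat_lit 5) (nat_lit 41) (nat_lit 5) (nat_lit 243) (nat_lit 242) (nat_lit 115)))))) (XT.nd (nat_lit 390) (nat_lit 456) (nat_lit 0) (XT.nd (nat_lit 156) (nat_lit 532) (nat_lit 0) (XT.nd (nat_lit 78) (nat_lit 0) (nat_lit 76) (XT.lf (nat_lit 76) (nat_lit 368467829860) (nat_lit 0) (nat_lit 252022896655) (nat_lit 532) (nat_lit 1061434214580) (nat_lit 35) (nat_lit 5) (nat_lit 34) (nat_lit 5) (nat_lit 41) (nat_lit 5) (nat_lit 244) (nat_lit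 242) (nat_lit 114)) (XT.lf (nat_lit 76) (nat_lit 21836630389) (nat_lit 0) (nat_lit 781124271514) (nat_lit 532) (nat_lit 1012266983823) (nat_lit 36) (nat_lit 5) (nat_lit 35) (nat_lit 5) (nat_lit 42) (nat_lit 5) (nat_lit 245) (nat_lit 242) (nat_lit 113))) (XT.nd (nat_lit 78) (nat_lit 684) (nat_lit 0) (XT.lf (nat_lit 0) (nat_lit 1071586932890) (nat_lit 456) (nat_lit 349049126886) (nat_lit 76) (nat_lit 543187385970) (nat_lit 36) (nat_lit 5) (nat_lit 42) (nat_lit 5) (nat_lit 37) (nat_lit 5) (nat_lit 246) (nat_lit 242) (nat_lit 112)) (XT.nd (nat_lit 78) (nat_lit 228) (nat_lit 0) (XT.lf (nat_lit 0) (nat_lit 1358287385407) (nat_lit 456) (nat_lit 76490287607) (nat_lit 532) (nat_lit 695589002429) (nat_lit 30) (nat_lit 5) (nat_lit 36) (nat_lit 5) (nat_lit 37) (nat_lit 5) (nat_lit 247) (nat_lit 242) (nat_lit 111)) (XT.lf (nat_lit 0) (nat_lit 1038113860548) (nat_lit 228) (nat_lit 885062120012) (nat_lit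 304) (nat_lit 393057092551) (nat_lit 27) (nat_lit 5) (nat_lit 30) (nat_lit 5) (nat_lit 31) (nat_lit 5) (nat_lit 248) (nat_lit 242) (nat_lit 110))))) (XT.nd (nat_lit 30810) (nat_lit 0) (nat_lit 912) (XT.nd (nat_lit 156) (nat_lit 228) (nat_lit 0) (XT.lf (nat_lit 0) (nat_lit 14571619470) (nat_lit 228) (nat_lit 1872593477767) (nat_lit 76) (nat_lit 638304500238) (nat_lit 24) (nat_lit 5) (nat_lit 27) (nat_lit 5) (nat_lit 25) (nat_lit 5) (nat_lit 249) (nat_lit 242) (nat_lit 109)) (XT.lf (nat_lit 0) (nat_lit 1205888055566) (nat_lit 304) (nat_lit 450000531743) (nat_lit 76) (nat_lit 1366482946777) (nat_lit 21) (nat_lit 5) (nat_lit 25) (nat_lit 5) (nat_lit 22) (nat_lit 5) (nat_lit 251) (nat_lit 242) (nat_lit 107))) (XT.nd (nat_lit 78) (nat_lit 0) (nat_lit 76) (XT.lf (nat_lit 0) (nat_lit 260369494887) (nat_lit 532) (nat_lit 288097744905) (nat_lit 532) (nat_lit 288097744905) (nat_lit 33) (nat_lit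 3) (nat_lit 40) (nat_lit 3) (nat_lit 40) (nat_lit 5) (nat_lit 243) (nat_lit 243) (nat_lit 114)) (XT.nd (nat_lit 78) (nat_lit 0) (nat_lit 0) (XT.lf (nat_lit 0) (nat_lit 583569215409) (nat_lit 456) (nat_lit 1018438961777) (nat_lit 532) (nat_lit 194704555585) (nat_lit 34) (nat_lit 5) (nat_lit 40) (nat_lit 5) (nat_lit 41) (nat_lit 5) (nat_lit 244) (nat_lit 243) (nat_lit 113)) (XT.lf (nat_lit 76) (nat_lit 423738054712) (nat_lit 0) (nat_lit 289826353737) (nat_lit 532) (nat_lit 1220649267557) (nat_lit 35) (nat_lit 5) (nat_lit 34) (nat_lit 5) (nat_lit 41) (nat_lit 5) (nat_lit 245) (nat_lit 243) (nat_lit 112))))))) (XT.nd (nat_lit 62478) (nat_lit 0) (nat_lit 228) (XT.nd (nat_lit 31200) (nat_lit 0) (nat_lit 228) (XT.nd (nat_lit 156) (nat_lit 608) (nat_lit 0) (XT.nd (nat_lit 78) (nat_lit 0) (nat_lit 76) (XT.lf (nat_lit 76) (nat_lit 25112177277) (nat_lit 0) (nat_lit 898292924139) (nat_lit 532) (nat_lit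 1164106961668) (nat_lit 36) (nat_lit 5) (nat_lit 35) (nat_lit 5) (nat_lit 42) (nat_lit 5) (nat_lit 246) (nat_lit 243) (nat_lit 111)) (XT.lf (nat_lit 0) (nat_lit 1232325028424) (nat_lit 456) (nat_lit 401406445383) (nat_lit 76) (nat_lit 624665484038) (nat_lit 36) (nat_lit 5) (nat_lit 42) (nat_lit 5) (nat_lit 37) (nat_lit 5) (nat_lit 247) (nat_lit 243) (nat_lit 110))) (XT.nd (nat_lit 78) (nat_lit 228) (nat_lit 0) (XT.lf (nat_lit 0) (nat_lit 1562030539476) (nat_lit 456) (nat_lit 87963833952) (nat_lit 532) (nat_lit 799927299101) (nat_lit 30) (nat_lit 5) (nat_lit 36) (nat_lit 5) (nat_lit 37) (nat_lit 5) (nat_lit 248) (nat_lit 243) (nat_lit 109)) (XT.nd (nat_lit 30888) (nat_lit 0) (nat_lit 456) (XT.lf (nat_lit 0) (nat_lit 1193830985916) (nat_lit 228) (nat_lit 1017821435785) (nat_lit 304) (nat_lit 452015608615) (nat_lit 27) (nat_lit 5) (nat_lit 30) (nat_lit 5) (nat_lit 31) (nat_lit 5) (nat_lit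 249) (nat_lit 243) (nat_lit 108)) (XT.lf (nat_lit 0) (nat_lit 299424954882) (nat_lit 532) (nat_lit 331312387225) (nat_lit 532) (nat_lit 331312387225) (nat_lit 33) (nat_lit 3) (nat_lit 40) (nat_lit 3) (nat_lit 40) (nat_lit 5) (nat_lit 244) (nat_lit 244) (nat_lit 112))))) (XT.nd (nat_lit 156) (nat_lit 304) (nat_lit 0) (XT.nd (nat_lit 78) (nat_lit 0) (nat_lit 0) (XT.lf (nat_lit 0) (nat_lit 671104660108) (nat_lit 456) (nat_lit 1171204764432) (nat_lit 532) (nat_lit 223910212794) (nat_lit 34) (nat_lit 5) (nat_lit 40) (nat_lit 5) (nat_lit 41) (nat_lit 5) (nat_lit 245) (nat_lit 244) (nat_lit 111)) (XT.lf (nat_lit 76) (nat_lit 487298801009) (nat_lit 0) (nat_lit 333300323875) (nat_lit 532) (nat_lit 1403746597797) (nat_lit 35) (nat_lit 5) (nat_lit 34) (nat_lit 5) (nat_lit 41) (nat_lit 5) (nat_lit 246) (nat_lit 244) (nat_lit 110))) (XT.nd (nat_lit 78) (nat_lit 380) (nat_lit 0) (XT.lf (nat_lit 76)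 (nat_lit 28879043437) (nat_lit 0) (nat_lit 1033036871756) (nat_lit 532) (nat_lit 1338722953195) (nat_lit 36) (nat_lit 5) (nat_lit 35) (nat_lit 5) (nat_lit 42) (nat_lit 5) (nat_lit 247) (nat_lit 244) (nat_lit 109)) (XT.nd (nat_lit 78) (nat_lit 456) (nat_lit 0) (XT.lf (nat_lit 0) (nat_lit 1417173824730) (nat_lit 456) (nat_lit 461617373978) (nat_lit 76) (nat_lit 718365299212) (nat_lit 36) (nat_lit 5) (nat_lit 42) (nat_lit 5) (nat_lit 37) (nat_lit 5) (nat_lit 248) (nat_lit 244) (nat_lit 108)) (XT.lf (nat_lit 0) (nat_lit 1796335155375) (nat_lit 456) (nat_lit 101158411466) (nat_lit 532) (nat_lit 919916353367) (nat_lit 30) (nat_lit 5) (nat_lit 36) (nat_lit 5) (nat_lit 37) (nat_lit 5) (nat_lit 249) (nat_lit 244) (nat_lit 107)))))) (XT.nd (nat_lit 31356) (nat_lit 0) (nat_lit 228) (XT.nd (nat_lit 156) (nat_lit 228) (nat_lit 0) (XT.nd (nat_lit 78) (nat_lit 0) (nat_lit 76) (XT.lf (nat_lit 0) (nat_lit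 344338725156) (nat_lit 532) (nat_lit 381009230628) (nat_lit 532) (nat_lit 381009230628) (nat_lit 33) (nat_lit 3) (nat_lit 40) (nat_lit 3) (nat_lit 40) (nat_lit 5) (nat_lit 245) (nat_lit 245) (nat_lit 110)) (XT.lf (nat_lit 0) (nat_lit 771770406299) (nat_lit 456) (nat_lit 1346885447633) (nat_lit 532) (nat_lit 257496724955) (nat_lit 34) (nat_lit 5) (nat_lit 40) (nat_lit 5) (nat_lit 41) (nat_lit 5) (nat_lit 246) (nat_lit 245) (nat_lit 109))) (XT.nd (nat_lit 78) (nat_lit 304) (nat_lit 0) (XT.lf (nat_lit 76) (nat_lit 560393649961) (nat_lit 0) (nat_lit 383295385369) (nat_lit 532) (nat_lit 1614308542177) (nat_lit 35) (nat_lit 5) (nat_lit 34) (nat_lit 5) (nat_lit 41) (nat_lit 5) (nat_lit 247) (nat_lit 245) (nat_lit 108)) (XT.nd (nat_lit 156) (nat_lit 380) (nat_lit 0) (XT.lf (nat_lit 76) (nat_lit 33210929873) (nat_lit 0) (nat_lit 1187992409322) (nat_lit 532) (nat_lit 1539531356307) (nat_lit 36)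 (nat_lit 5) (nat_lit 35) (nat_lit 5) (nat_lit 42) (nat_lit 5) (nat_lit 248) (nat_lit 245) (nat_lit 107)) (XT.lf (nat_lit 0) (nat_lit 2065785455130) (nat_lit 456) (nat_lit 116332175018) (nat_lit 532) (nat_lit 1057903775674) (nat_lit 30) (nat_lit 5) (nat_lit 36) (nat_lit 5) (nat_lit 37) (nat_lit 5) (nat_lit 250) (nat_lit 245) (nat_lit 105))))) (XT.nd (nat_lit 156) (nat_lit 0) (nat_lit 76) (XT.nd (nat_lit 78) (nat_lit 0) (nat_lit 76) (XT.lf (nat_lit 0) (nat_lit 395989554376) (nat_lit 532) (nat_lit 438160604122) (nat_lit 532) (nat_lit 438160604122) (nat_lit 33) (nat_lit 3) (nat_lit 40) (nat_lit 3) (nat_lit 40) (nat_lit 5) (nat_lit 246) (nat_lit 246) (nat_lit 108)) (XT.lf (nat_lit 0) (nat_lit 887536002914) (nat_lit 456) (nat_lit 1548918240987) (nat_lit 532) (nat_lit 296121218759) (nat_lit 34) (nat_lit 5) (nat_lit 40) (nat_lit 5) (nat_lit 41) (nat_lit 5) (nat_lit 247) (nat_lit 246) (nat_lit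 107))) (XT.nd (nat_lit 78) (nat_lit 0) (nat_lit 0) (XT.lf (nat_lit 76) (nat_lit 644452719233) (nat_lit 0) (nat_lit 440789702939) (nat_lit 532) (nat_lit 1856454789259) (nat_lit 35) (nat_lit 5) (nat_lit 34) (nat_lit 5) (nat_lit 41) (nat_lit 5) (nat_lit 248) (nat_lit 246) (nat_lit 106)) (XT.nd (nat_lit 31278) (nat_lit 76) (nat_lit 0) (XT.lf (nat_lit 76) (nat_lit 38192591977) (nat_lit 0) (nat_lit 1366191275865) (nat_lit 532) (nat_lit 1770461029608) (nat_lit 36) (nat_lit 5) (nat_lit 35) (nat_lit 5) (nat_lit 42) (nat_lit 5) (nat_lit 249) (nat_lit 246) (nat_lit 105)) (XT.lf (nat_lit 76) (nat_lit 741120643585) (nat_lit 0) (nat_lit 506908165763) (nat_lit 532) (nat_lit 2134922981754) (nat_lit 35) (nat_lit 5) (nat_lit 34) (nat_lit 5) (nat_lit 41) (nat_lit 5) (nat_lit 249) (nat_lit 247) (nat_lit 104))))))))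

set_option maxRecDepth 10000000 in
noncomputable def Tp : PT := (PT.nd (nat_lit 3166956) pc0 pc1)

set_option maxRecDepth 10000000 in
noncomputable def Tx : XT := (XT.nd (nat_lit 5337540) (nat_lit 0) (nat_lit 76) XT.nil (XT.nd (nat_lit 2407626) (nat_lit 0) (nat_lit 0) (XT.nd (nat_lit 1093248) (nat_lit 0) (nat_lit 0) (XT.nd (nat_lit 749034) (nat_lit 0) (nat_lit 0) (XT.nd (nat_lit 529620) (nat_lit 0) (nat_lit 0) (XT.nd (nat_lit 373464) (nat_lit 0) (nat_lit 0) (XT.nd (nat_lit 249444) (nat_lit 0) (nat_lit 0) (XT.nd (nat_lit 156312) (nat_lit 0) (nat_lit 0) xc0 xc1) (XT.nd (nat_lit 62322) (nat_lit 0) (nat_lit 0) xc2 xc3)) (XT.nd (nat_lit 64116) (nat_lit 0) (nat_lit 0) (XT.nd (nat_lit 32136) (nat_lit 0) (nat_lit 0) xc4 xc5) (XT.nd (nat_lit 60450) (nat_lit 0) (nat_lit 0) xc6 xc7))) (XT.nd (nat_lit 124566) (nat_lit 0) (nat_lit 0) (XT.nd (nat_lit 62556) (nat_lit 0) (nat_lit 0) (XT.nd (nat_lit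 31356) (nat_lit 0) (nat_lit 0) xc8 xc9) (XT.nd (nat_lit 31044) (nat_lit 0) (nat_lit 0) xc10 xc11)) (XT.nd (nat_lit 33774) (nat_lit 0) (nat_lit 0) (XT.nd (nat_lit 30732) (nat_lit 0) (nat_lit 0) xc12 xc13) (XT.nd (nat_lit 30576) (nat_lit 0) (nat_lit 0) xc14 xc15)))) (XT.nd (nat_lit 185952) (nat_lit 0) (nat_lit 0) (XT.nd (nat_lit 93678) (nat_lit 0) (nat_lit 0) (XT.nd (nat_lit 60528) (nat_lit 0) (nat_lit 0) (XT.nd (nat_lit 30342) (nat_lit 0) (nat_lit 0) xc16 xc17) (XT.nd (nat_lit 3042) (nat_lit 0) (nat_lit 0) xc18 xc19)) (XT.nd (nat_lit 32916) (nat_lit 0) (nat_lit 0) (XT.nd (nat_lit 29874) (nat_lit 0) (nat_lit 0) xc20 xc21) (XT.nd (nat_lit 29718) (nat_lit 0) (nat_lit 0) xc22 xc23))) (XT.nd (nat_lit 65520) (nat_lit 0) (nat_lit 0) (XT.nd (nat_lit 32682) (nat_lit 0) (nat_lit 0) (XT.nd (nat_lit 3042) (nat_lit 0) (nat_lit 0) xc24 xc25) (XT.nd (nat_lit 29718) (nat_lit 0) (nat_lit 0) xc26 xc27))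 (XT.nd (nat_lit 59670) (nat_lit 0) (nat_lit 0) (XT.nd (nat_lit 29796) (nat_lit 0) (nat_lit 0) xc28 xc29) (XT.nd (nat_lit 3042) (nat_lit 0) (nat_lit 0) xc30 xc31))))) (XT.nd (nat_lit 407394) (nat_lit 0) (nat_lit 0) (XT.nd (nat_lit 188058) (nat_lit 0) (nat_lit 0) (XT.nd (nat_lit 93678) (nat_lit 0) (nat_lit 0) (XT.nd (nat_lit 60294) (nat_lit 0) (nat_lit 0) (XT.nd (nat_lit 30108) (nat_lit 0) (nat_lit 0) xc32 xc33) (XT.nd (nat_lit 3042) (nat_lit 0) (nat_lit 0) xc34 xc35)) (XT.nd (nat_lit 60762) (nat_lit 0) (nat_lit 0) (XT.nd (nat_lit 30342) (nat_lit 0) (nat_lit 0) xc36 xc37) (XT.nd (nat_lit 3042) (nat_lit 0) (nat_lit 0) xc38 xc39))) (XT.nd (nat_lit 123084) (nat_lit 0) (nat_lit 0) (XT.nd (nat_lit 61308) (nat_lit 0) (nat_lit 0) (XT.nd (nat_lit 30576) (nat_lit 0) (nat_lit 0) xc40 xc41) (XT.nd (nat_lit 30810) (nat_lit 0) (nat_lit 0) xc42 xc43)) (XT.nd (nat_lit 34008) (nat_lit 0) (nat_lit 0) (XT.nd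 (nat_lit 30966) (nat_lit 0) (nat_lit 0) xc44 xc45) (XT.nd (nat_lit 31044) (nat_lit 0) (nat_lit 0) xc46 xc47)))) (XT.nd (nat_lit 281580) (nat_lit 0) (nat_lit 152) (XT.nd (nat_lit 125580) (nat_lit 0) (nat_lit 76) (XT.nd (nat_lit 62556) (nat_lit 0) (nat_lit 76) (XT.nd (nat_lit 31200) (nat_lit 0) (nat_lit 0) xc48 xc49) (XT.nd (nat_lit 31434) (nat_lit 0) (nat_lit 0) xc50 xc51)) (XT.nd (nat_lit 92040) (nat_lit 0) (nat_lit 0) (XT.nd (nat_lit 60216) (nat_lit 0) (nat_lit 0) xc52 xc53) (XT.nd (nat_lit 31902) (nat_lit 0) (nat_lit 0) xc54 xc55))) (XT.nd (nat_lit 217620) (nat_lit 0) (nat_lit 304) (XT.nd (nat_lit 93522) (nat_lit 0) (nat_lit 152) (XT.nd (nat_lit 61230) (nat_lit 0) (nat_lit 76) xc56 xc57) (XT.nd (nat_lit 61776) (nat_lit 0) (nat_lit 76) xc58 xc59)) (XT.nd (nat_lit 125658) (nat_lit 0) (nat_lit 456) (XT.nd (nat_lit 62634) (nat_lit 0) (nat_lit 152) xc60 xc61) (XT.nd (nat_lit 93912) (nat_lit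 0) (nat_lit 608) xc62 xc63)))))) XT.nil))

set_option maxRecDepth 10000000 in
noncomputable def Te : XT := XT.nil

set_option maxRecDepth 10000000 in
noncomputable def Tz : ZL := (ZL.cons (nat_lit 76) (nat_lit 3) (nat_lit 88784708305885914068) (ZL.cons (nat_lit 152) (nat_lit 6) (nat_lit 167472867737695153290) (ZL.cons (nat_lit 228) (nat_lit 6) (nat_lit 158983327320513351348) (ZL.cons (nat_lit 304) (nat_lit 3) (nat_lit 78765735570022635179) (ZL.cons (nat_lit 380) (nat_lit 6) (nat_lit 149220355840754279116) (ZL.cons (nat_lit 456) (nat_lit 6) (nat_lit 142376913062227355818) (ZL.cons (nat_lit 532) (nat_lit 3) (nat_lit 70557214713518860088) (ZL.cons (nat_lit 608) (nat_lit 6) (nat_lit 134506953866921394030) (ZL.cons (nat_lit 684) (nat_lit 6) (nat_lit 129268652464663894298) (ZL.cons (nat_lit 760) (nat_lit 3) (nat_lit 64085420303988627302) (ZL.cons (nat_lit 836) (nat_lit 6) (nat_lit 125297036714568878594)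 (ZL.cons (nat_lit 912) (nat_lit 6) (nat_lit 123244605852067769606) (ZL.cons (nat_lit 988) (nat_lit 6) (nat_lit 120866302723336155254) (ZL.cons (nat_lit 1064) (nat_lit 6) (nat_lit 122514401091091009652) (ZL.cons (nat_lit 1140) (nat_lit 6) (nat_lit 119631866745272970840) (ZL.cons (nat_lit 1216) (nat_lit 3) (nat_lit 59338623869729250773) (ZL.cons (nat_lit 1292) (nat_lit 6) (nat_lit 116088455254600033884) (ZL.cons (nat_lit 1368) (nat_lit 6) (nat_lit 117261939261590351380) (ZL.cons (nat_lit 1444) (nat_lit 6) (nat_lit 115477216772458952262) (ZL.cons (nat_lit 1520) (nat_lit 3) (nat_lit 56477113078714884825) (ZL.cons (nat_lit 1596) (nat_lit 6) (nat_lit 113581903649540869704) (ZL.cons (nat_lit 1672) (nat_lit 3) (nat_lit 56375900083111969940) (ZL.cons (nat_lit 1748) (nat_lit 6) (nat_lit 111402293558185074764) (ZL.cons (nat_lit 1824) (nat_lit 1) (nat_lit 18446744073709551617) ZL.nil))))))))))))))))))))))))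

noncomputable def vl : XL := ⟨(nat_lit 0), (nat_lit 76), (nat_lit 355747224), (nat_lit 152), (nat_lit 159604478), (nat_lit 152), (nat_lit 159604478), (nat_lit 1), (nat_lit 4), (nat_lit 2), (nat_lit 5), (nat_lit 2), (nat_lit 4), (nat_lit 0), (nat_lit 0), (nat_lit 0)⟩

noncomputable def cp0 : Nat := (nat_lit 2936624652968347395563686801227606769208426085267428292360486260021403190902752701765133401062881686881927913900225925856699922072607741680059104898759881407620334138695490498649403664855303768908260598097857583507821848035527457406654698982627263930559400350787227359663920648779309250168846902188159310099987619375085734963641094938665582001894092584225863819727945799294566916626390002366710678705716766345670022719204666349660202432413422989511734872465719529732651291645539521195148853501630509167491842248987158349359118492806900250051996180445656814859013062656)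

noncomputable def cp1 : Nat := (nat_lit 239741288590557154044969383703117668777733271986260058166042127670313032746468022810848924070033615132902536055392548082472002569863622137466573841332465916206286667740373743125292457277711401768776501466154787958848610718394270260191438434288758253085859562223075846495368447561212657719396558827139153199702291976242248359951562755932095028054530154430254114114353992717197390803780740081891365062974770477765832923912739960944302129827729449700377813574347429263977370994880756860913867447620412970047180758334715714196386693079393302320820821698912693516428471743797829135951976345398243704422785930041861200447038000207756273185488874469054332753443793934768660883162548051859029845690590196475081290715460709269733584320627533841035108105508657192834779349468994874487388310135626022529986841490929572954784101803722603964766211548445929688059740250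812749968307350516547172799890957331465448437985246933157743302320618085110274898873980224627701213064559291110473320306537727824793820772964061839620152372793465878493210000486394097691170347361188922045911338625138873230633544693074682302896644574288590642412385845497040817303679955273300010632756692211930338560959220177394197816818707804743058519467866614259841726822491150173310214146342460780906667172247136125159832029718808504740793759226983840145586698321920)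

noncomputable def rc0 : Nat := (nat_lit 239741288590557154044969383703117668777733271986260058166042127670313032746468022810848924070033615132902536055392548082472002569863622137466573841332465916206286667740373743125292457277711401768776501466154787958848610718394270260191438434288758253085859562223075846495368447561212657719396558827139153199702291976242248359951562755932095028054530154430254114114353992717197390803780740081891365062974770477765832923912739960944302129827729449700377813574347429263977370994880756860913867447620412970047180758334715714196386693079393302320820821698912693516428471743797829135951976345398243704422785930041861200447038000207756273185488874469054332753443793934768660883162548051859029845690590196475081290715460709269733584320627533841035108105508657192834779349468994874487388310135626022529986841490929572954784101803722603964766211548445929688059740250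812749968307350516547172799890957331465448437985246933157743302320618085110274898873980224627701213064559291110473320306537727824793820772964061839620152372793465878493210000486394097691170347361188922045911338625138873230633544693074682302896644574288590642412385845497040817303679955273300010632756692211930338560959220177394197816818707804743058519467866614259841726822491150173310214146342460780906667172247136125159832029718808504740793759226983840145586698321920)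

end Vale.Agent.Lib.P154.PChain.BT.S1
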