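import Vale.Agent.Lib.P154.PChain.BT.R1_0

set_option linter.all false

namespace Vale.Agent.Lib.P154.PChain.BT.S2

open Vale.Agent.Lib.P154.Chain

noncomputable def pc0 : PT := (PT.nd (nat_lit 3949374) (PT.nd (nat_lit 3836898) (PT.nd (nat_lit 3761940) (PT.nd (nat_lit 3724500) (PT.nd (nat_lit 3724422) (PT.nd (nat_lit 3686982) PT.nil (PT.lf (nat_lit 76) (nat_lit 3) (nat_lit 1) (nat_lit 1) (nat_lit 131) (nat_lit 98) (nat_lit 131))) (PT.lf (nat_lit 152) (nat_lit 6) (nat_lit 2) (nat_lit 3) (nat_lit 130) (nat_lit 99) (nat_lit 131))) (PT.nd (nat_lit 37362) (PT.lf (nat_lit 152) (nat_lit 6) (nat_lit 2) (nat_lit 1) (nat_lit 131) (nat_lit 99) (nat_lit 130)) (PT.lf (nat_lit 228) (nat_lit 6) (nat_lit 3) (nat_lit 3) (nat_lit 129) (nat_lit 100) (nat_lit 131)))) (PT.nd (nat_lit 37440) (PT.nd (nat_lit 78) (PT.lf (nat_lit 304) (nat_lit 3) (nat_lit 4) (nat_lit 1) (nat_lit 130) (nat_lit 100) (nat_lit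 130)) (PT.lf (nat_lit 228) (nat_lit 6) (nat_lit 3) (nat_lit 1) (nat_lit 131) (nat_lit 100) (nat_lit 129))) (PT.nd (nat_lit 78) (PT.lf (nat_lit 380) (nat_lit 6) (nat_lit 5) (nat_lit 3) (nat_lit 129) (nat_lit 101) (nat_lit 130)) (PT.nd (nat_lit 37362) (PT.lf (nat_lit 380) (nat_lit 6) (nat_lit 5) (nat_lit 1) (nat_lit 130) (nat_lit 101) (nat_lit 129)) (PT.lf (nat_lit 456) (nat_lit 6) (nat_lit 6) (nat_lit 3) (nat_lit 128) (nat_lit 102) (nat_lit 130)))))) (PT.nd (nat_lit 74880) (PT.nd (nat_lit 37440) (PT.nd (nat_lit 78) (PT.lf (nat_lit 532) (nat_lit 3) (nat_lit 7) (nat_lit 1) (nat_lit 129) (nat_lit 102) (nat_lit 129)) (PT.lf (nat_lit 456) (nat_lit 6) (nat_lit 6) (nat_lit 1) (nat_lit 130) (nat_lit 102) (nat_lit 128))) (PT.nd (nat_lit 78) (PT.lf (nat_lit 608) (nat_lit 6) (nat_lit 8) (nat_lit 3) (nat_lit 128) (nat_lit 103) (nat_lit 129)) (PT.lf (nat_lit 608) (nat_lit 6) (nat_lit 8) (nat_lit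 1) (nat_lit 129) (nat_lit 103) (nat_lit 128)))) (PT.nd (nat_lit 156) (PT.nd (nat_lit 78) (PT.lf (nat_lit 684) (nat_lit 6) (nat_lit 9) (nat_lit 3) (nat_lit 127) (nat_lit 104) (nat_lit 129)) (PT.lf (nat_lit 760) (nat_lit 3) (nat_lit 10) (nat_lit 1) (nat_lit 128) (nat_lit 104) (nat_lit 128))) (PT.nd (nat_lit 37284) (PT.lf (nat_lit 684) (nat_lit 6) (nat_lit 9) (nat_lit 1) (nat_lit 129) (nat_lit 104) (nat_lit 127)) (PT.nd (nat_lit 78) (PT.lf (nat_lit 836) (nat_lit 6) (nat_lit 11) (nat_lit 3) (nat_lit 126) (nat_lit 105) (nat_lit 129)) (PT.lf (nat_lit 912) (nat_lit 6) (nat_lit 12) (nat_lit 3) (nat_lit 127) (nat_lit 105) (nat_lit 128))))))) (PT.nd (nat_lit 112320) (PT.nd (nat_lit 37518) (PT.nd (nat_lit 37362) (PT.nd (nat_lit 78) (PT.lf (nat_lit 912) (nat_lit 6) (nat_lit 12) (nat_lit 1) (nat_lit 128) (nat_lit 105) (nat_lit 127)) (PT.lf (nat_lit 836) (nat_lit 6) (nat_lit 11) (nat_lit 1) (nat_lit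 129) (nat_lit 105) (nat_lit 126))) (PT.nd (nat_lit 78) (PT.lf (nat_lit 988) (nat_lit 6) (nat_lit 13) (nat_lit 3) (nat_lit 126) (nat_lit 106) (nat_lit 128)) (PT.lf (nat_lit 1064) (nat_lit 3) (nat_lit 14) (nat_lit 1) (nat_lit 127) (nat_lit 106) (nat_lit 127)))) (PT.nd (nat_lit 37362) (PT.nd (nat_lit 37284) (PT.lf (nat_lit 988) (nat_lit 6) (nat_lit 13) (nat_lit 1) (nat_lit 128) (nat_lit 106) (nat_lit 126)) (PT.lf (nat_lit 1140) (nat_lit 6) (nat_lit 15) (nat_lit 3) (nat_lit 125) (nat_lit 107) (nat_lit 128))) (PT.nd (nat_lit 78) (PT.lf (nat_lit 1216) (nat_lit 6) (nat_lit 16) (nat_lit 3) (nat_lit 126) (nat_lit 107) (nat_lit 127)) (PT.nd (nat_lit 78) (PT.lf (nat_lit 1216) (nat_lit 6) (nat_lit 16) (nat_lit 1) (nat_lit 127) (nat_lit 107) (nat_lit 126)) (PT.lf (nat_lit 1140) (nat_lit 6) (nat_lit 15) (nat_lit 1) (nat_lit 128) (nat_lit 107) (nat_lit 125)))))) (PT.nd (nat_lit 37518) (PT.nd (nat_lit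 156) (PT.nd (nat_lit 78) (PT.lf (nat_lit 1292) (nat_lit 6) (nat_lit 17) (nat_lit 3) (nat_lit 125) (nat_lit 108) (nat_lit 127)) (PT.lf (nat_lit 1368) (nat_lit 3) (nat_lit 18) (nat_lit 1) (nat_lit 126) (nat_lit 108) (nat_lit 126))) (PT.nd (nat_lit 37284) (PT.lf (nat_lit 1292) (nat_lit 6) (nat_lit 17) (nat_lit 1) (nat_lit 127) (nat_lit 108) (nat_lit 125)) (PT.lf (nat_lit 1444) (nat_lit 6) (nat_lit 19) (nat_lit 3) (nat_lit 124) (nat_lit 109) (nat_lit 127)))) (PT.nd (nat_lit 156) (PT.nd (nat_lit 78) (PT.lf (nat_lit 1520) (nat_lit 6) (nat_lit 20) (nat_lit 3) (nat_lit 125) (nat_lit 109) (nat_lit 126)) (PT.lf (nat_lit 1520) (nat_lit 6) (nat_lit 20) (nat_lit 1) (nat_lit 126) (nat_lit 109) (nat_lit 125))) (PT.nd (nat_lit 37206) (PT.lf (nat_lit 1444) (nat_lit 6) (nat_lit 19) (nat_lit 1) (nat_lit 127) (nat_lit 109) (nat_lit 124)) (PT.nd (nat_lit 78) (PT.lf (nat_lit 1596) (nat_lit 6) (nat_lit 21)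 (nat_lit 3) (nat_lit 123) (nat_lit 110) (nat_lit 127)) (PT.lf (nat_lit 1672) (nat_lit 6) (nat_lit 22) (nat_lit 3) (nat_lit 124) (nat_lit 110) (nat_lit 126))))))))
noncomputable def pc1 : PT := (PT.nd (nat_lit 112554) (PT.nd (nat_lit 74802) (PT.nd (nat_lit 37362) (PT.nd (nat_lit 156) (PT.nd (nat_lit 78) (PT.lf (nat_lit 1748) (nat_lit 3) (nat_lit 23) (nat_lit 1) (nat_lit 125) (nat_lit 110) (nat_lit 125)) (PT.lf (nat_lit 1672) (nat_lit 6) (nat_lit 22) (nat_lit 1) (nat_lit 126) (nat_lit 110) (nat_lit 124))) (PT.nd (nat_lit 37128) (PT.lf (nat_lit 1596) (nat_lit 6) (nat_lit 21) (nat_lit 1) (nat_lit 127) (nat_lit 110) (nat_lit 123)) (PT.lf (nat_lit 1824) (nat_lit 6) (nat_lit 24) (nat_lit 3) (nat_lit 122) (nat_lit 111) (nat_lit 127)))) (PT.nd (nat_lit 156) (PT.nd (nat_lit 78) (PT.lf (nat_lit 1900) (nat_lit 6) (nat_lit 25) (nat_lit 3) (nat_lit 123) (nat_lit 111) (nat_lit 126)) (PT.lf (nat_lit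 1976) (nat_lit 6) (nat_lit 26) (nat_lit 3) (nat_lit 124) (nat_lit 111) (nat_lit 125))) (PT.nd (nat_lit 78) (PT.lf (nat_lit 1976) (nat_lit 6) (nat_lit 26) (nat_lit 1) (nat_lit 125) (nat_lit 111) (nat_lit 124)) (PT.nd (nat_lit 78) (PT.lf (nat_lit 1900) (nat_lit 6) (nat_lit 25) (nat_lit 1) (nat_lit 126) (nat_lit 111) (nat_lit 123)) (PT.lf (nat_lit 1824) (nat_lit 6) (nat_lit 24) (nat_lit 1) (nat_lit 127) (nat_lit 111) (nat_lit 122)))))) (PT.nd (nat_lit 312) (PT.nd (nat_lit 156) (PT.nd (nat_lit 78) (PT.lf (nat_lit 2052) (nat_lit 6) (nat_lit 27) (nat_lit 3) (nat_lit 122) (nat_lit 112) (nat_lit 126)) (PT.lf (nat_lit 2128) (nat_lit 6) (nat_lit 28) (nat_lit 3) (nat_lit 123) (nat_lit 112) (nat_lit 125))) (PT.nd (nat_lit 78) (PT.lf (nat_lit 2204) (nat_lit 3) (nat_lit 29) (nat_lit 1) (nat_lit 124) (nat_lit 112) (nat_lit 124)) (PT.lf (nat_lit 2128) (nat_lit 6) (nat_lit 28) (nat_lit 1) (nat_lit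 125) (nat_lit 112) (nat_lit 123)))) (PT.nd (nat_lit 37206) (PT.nd (nat_lit 37128) (PT.lf (nat_lit 2052) (nat_lit 6) (nat_lit 27) (nat_lit 1) (nat_lit 126) (nat_lit 112) (nat_lit 122)) (PT.lf (nat_lit 2280) (nat_lit 6) (nat_lit 30) (nat_lit 3) (nat_lit 121) (nat_lit 113) (nat_lit 126))) (PT.nd (nat_lit 78) (PT.lf (nat_lit 2356) (nat_lit 6) (nat_lit 31) (nat_lit 3) (nat_lit 122) (nat_lit 113) (nat_lit 125)) (PT.nd (nat_lit 78) (PT.lf (nat_lit 2432) (nat_lit 6) (nat_lit 32) (nat_lit 3) (nat_lit 123) (nat_lit 113) (nat_lit 124)) (PT.lf (nat_lit 2432) (nat_lit 6) (nat_lit 32) (nat_lit 1) (nat_lit 124) (nat_lit 113) (nat_lit 123))))))) (PT.nd (nat_lit 74568) (PT.nd (nat_lit 37284) (PT.nd (nat_lit 37128) (PT.nd (nat_lit 78) (PT.lf (nat_lit 2356) (nat_lit 6) (nat_lit 31) (nat_lit 1) (nat_lit 125) (nat_lit 113) (nat_lit 122)) (PT.lf (nat_lit 2280) (nat_lit 6) (nat_lit 30) (nat_lit 1) (nat_lit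 126) (nat_lit 113) (nat_lit 121))) (PT.nd (nat_lit 78) (PT.lf (nat_lit 2736) (nat_lit 6) (nat_lit 36) (nat_lit 3) (nat_lit 120) (nat_lit 114) (nat_lit 126)) (PT.lf (nat_lit 2812) (nat_lit 6) (nat_lit 37) (nat_lit 3) (nat_lit 121) (nat_lit 114) (nat_lit 125)))) (PT.nd (nat_lit 156) (PT.nd (nat_lit 78) (PT.lf (nat_lit 2888) (nat_lit 6) (nat_lit 38) (nat_lit 3) (nat_lit 122) (nat_lit 114) (nat_lit 124)) (PT.lf (nat_lit 2964) (nat_lit 3) (nat_lit 39) (nat_lit 1) (nat_lit 123) (nat_lit 114) (nat_lit 123))) (PT.nd (nat_lit 78) (PT.lf (nat_lit 2888) (nat_lit 6) (nat_lit 38) (nat_lit 1) (nat_lit 124) (nat_lit 114) (nat_lit 122)) (PT.nd (nat_lit 78) (PT.lf (nat_lit 2812) (nat_lit 6) (nat_lit 37) (nat_lit 1) (nat_lit 125) (nat_lit 114) (nat_lit 121)) (PT.lf (nat_lit 2736) (nat_lit 6) (nat_lit 36) (nat_lit 1) (nat_lit 126) (nat_lit 114) (nat_lit 120)))))) (PT.nd (nat_lit 390) (PT.nd (nat_lit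 156) (PT.nd (nat_lit 78) (PT.lf (nat_lit 2660) (nat_lit 6) (nat_lit 35) (nat_lit 3) (nat_lit 119) (nat_lit 115) (nat_lit 126)) (PT.lf (nat_lit 3192) (nat_lit 6) (nat_lit 42) (nat_lit 3) (nat_lit 120) (nat_lit 115) (nat_lit 125))) (PT.nd (nat_lit 78) (PT.lf (nat_lit 3268) (nat_lit 6) (nat_lit 43) (nat_lit 3) (nat_lit 121) (nat_lit 115) (nat_lit 124)) (PT.nd (nat_lit 78) (PT.lf (nat_lit 3344) (nat_lit 6) (nat_lit 44) (nat_lit 3) (nat_lit 122) (nat_lit 115) (nat_lit 123)) (PT.lf (nat_lit 3344) (nat_lit 6) (nat_lit 44) (nat_lit 1) (nat_lit 123) (nat_lit 115) (nat_lit 122))))) (PT.nd (nat_lit 156) (PT.nd (nat_lit 78) (PT.lf (nat_lit 3268) (nat_lit 6) (nat_lit 43) (nat_lit 1) (nat_lit 124) (nat_lit 115) (nat_lit 121)) (PT.lf (nat_lit 3192) (nat_lit 6) (nat_lit 42) (nat_lit 1) (nat_lit 125) (nat_lit 115) (nat_lit 120))) (PT.nd (nat_lit 36894) (PT.lf (nat_lit 2660) (nat_lit 6) (nat_lit 35)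 (nat_lit 1) (nat_lit 126) (nat_lit 115) (nat_lit 119)) (PT.nd (nat_lit 78) (PT.lf (nat_lit 2584) (nat_lit 6) (nat_lit 34) (nat_lit 3) (nat_lit 118) (nat_lit 116) (nat_lit 126)) (PT.lf (nat_lit 3116) (nat_lit 6) (nat_lit 41) (nat_lit 3) (nat_lit 119) (nat_lit 116) (nat_lit 125))))))))
noncomputable def pc2 : PT := (PT.nd (nat_lit 74802) (PT.nd (nat_lit 37440) (PT.nd (nat_lit 312) (PT.nd (nat_lit 156) (PT.nd (nat_lit 78) (PT.lf (nat_lit 3572) (nat_lit 6) (nat_lit 47) (nat_lit 3) (nat_lit 120) (nat_lit 116) (nat_lit 124)) (PT.lf (nat_lit 3648) (nat_lit 6) (nat_lit 48) (nat_lit 3) (nat_lit 121) (nat_lit 116) (nat_lit 123))) (PT.nd (nat_lit 78) (PT.lf (nat_lit 3724) (nat_lit 3) (nat_lit 49) (nat_lit 1) (nat_lit 122) (nat_lit 116) (nat_lit 122)) (PT.lf (nat_lit 3648) (nat_lit 6) (nat_lit 48) (nat_lit 1) (nat_lit 123) (nat_lit 116) (nat_lit 121)))) (PT.nd (nat_lit 156) (PT.nd (nat_lit 78)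 (PT.lf (nat_lit 3572) (nat_lit 6) (nat_lit 47) (nat_lit 1) (nat_lit 124) (nat_lit 116) (nat_lit 120)) (PT.lf (nat_lit 3116) (nat_lit 6) (nat_lit 41) (nat_lit 1) (nat_lit 125) (nat_lit 116) (nat_lit 119))) (PT.nd (nat_lit 36816) (PT.lf (nat_lit 2584) (nat_lit 6) (nat_lit 34) (nat_lit 1) (nat_lit 126) (nat_lit 116) (nat_lit 118)) (PT.nd (nat_lit 78) (PT.lf (nat_lit 2508) (nat_lit 3) (nat_lit 33) (nat_lit 3) (nat_lit 117) (nat_lit 117) (nat_lit 126)) (PT.lf (nat_lit 3040) (nat_lit 6) (nat_lit 40) (nat_lit 3) (nat_lit 118) (nat_lit 117) (nat_lit 125)))))) (PT.nd (nat_lit 312) (PT.nd (nat_lit 156) (PT.nd (nat_lit 78) (PT.lf (nat_lit 3496) (nat_lit 6) (nat_lit 46) (nat_lit 3) (nat_lit 119) (nat_lit 117) (nat_lit 124)) (PT.lf (nat_lit 3876) (nat_lit 6) (nat_lit 51) (nat_lit 3) (nat_lit 120) (nat_lit 117) (nat_lit 123))) (PT.nd (nat_lit 78) (PT.lf (nat_lit 3952) (nat_lit 6) (nat_lit 52) (nat_lit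 3) (nat_lit 121) (nat_lit 117) (nat_lit 122)) (PT.lf (nat_lit 3952) (nat_lit 6) (nat_lit 52) (nat_lit 1) (nat_lit 122) (nat_lit 117) (nat_lit 121)))) (PT.nd (nat_lit 156) (PT.nd (nat_lit 78) (PT.lf (nat_lit 3876) (nat_lit 6) (nat_lit 51) (nat_lit 1) (nat_lit 123) (nat_lit 117) (nat_lit 120)) (PT.lf (nat_lit 3496) (nat_lit 6) (nat_lit 46) (nat_lit 1) (nat_lit 124) (nat_lit 117) (nat_lit 119))) (PT.nd (nat_lit 78) (PT.lf (nat_lit 3040) (nat_lit 6) (nat_lit 40) (nat_lit 1) (nat_lit 125) (nat_lit 117) (nat_lit 118)) (PT.nd (nat_lit 36738) (PT.lf (nat_lit 2508) (nat_lit 3) (nat_lit 33) (nat_lit 0) (nat_lit 126) (nat_lit 117) (nat_lit 117)) (PT.lf (nat_lit 2584) (nat_lit 6) (nat_lit 34) (nat_lit 5) (nat_lit 116) (nat_lit 118) (nat_lit 126))))))) (PT.nd (nat_lit 702) (PT.nd (nat_lit 312) (PT.nd (nat_lit 156) (PT.nd (nat_lit 78) (PT.lf (nat_lit 3040) (nat_lit 6) (nat_lit 40) (nat_lit 5) (nat_lit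 117) (nat_lit 118) (nat_lit 125)) (PT.lf (nat_lit 3420) (nat_lit 3) (nat_lit 45) (nat_lit 3) (nat_lit 118) (nat_lit 118) (nat_lit 124))) (PT.nd (nat_lit 78) (PT.lf (nat_lit 3800) (nat_lit 6) (nat_lit 50) (nat_lit 3) (nat_lit 119) (nat_lit 118) (nat_lit 123)) (PT.lf (nat_lit 4104) (nat_lit 6) (nat_lit 54) (nat_lit 3) (nat_lit 120) (nat_lit 118) (nat_lit 122)))) (PT.nd (nat_lit 156) (PT.nd (nat_lit 78) (PT.lf (nat_lit 4180) (nat_lit 3) (nat_lit 55) (nat_lit 1) (nat_lit 121) (nat_lit 118) (nat_lit 121)) (PT.lf (nat_lit 4104) (nat_lit 6) (nat_lit 54) (nat_lit 1) (nat_lit 122) (nat_lit 118) (nat_lit 120))) (PT.nd (nat_lit 78) (PT.lf (nat_lit 3800) (nat_lit 6) (nat_lit 50) (nat_lit 1) (nat_lit 123) (nat_lit 118) (nat_lit 119)) (PT.nd (nat_lit 78) (PT.lf (nat_lit 3420) (nat_lit 3) (nat_lit 45) (nat_lit 0) (nat_lit 124) (nat_lit 118) (nat_lit 118)) (PT.lf (nat_lit 3040) (nat_lit 6) (nat_lit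 40) (nat_lit 0) (nat_lit 125) (nat_lit 118) (nat_lit 117)))))) (PT.nd (nat_lit 36972) (PT.nd (nat_lit 36738) (PT.nd (nat_lit 36660) (PT.lf (nat_lit 2584) (nat_lit 6) (nat_lit 34) (nat_lit 0) (nat_lit 126) (nat_lit 118) (nat_lit 116)) (PT.lf (nat_lit 2660) (nat_lit 6) (nat_lit 35) (nat_lit 5) (nat_lit 115) (nat_lit 119) (nat_lit 126))) (PT.nd (nat_lit 78) (PT.lf (nat_lit 3116) (nat_lit 6) (nat_lit 41) (nat_lit 5) (nat_lit 116) (nat_lit 119) (nat_lit 125)) (PT.nd (nat_lit 78) (PT.lf (nat_lit 3496) (nat_lit 6) (nat_lit 46) (nat_lit 5) (nat_lit 117) (nat_lit 119) (nat_lit 124)) (PT.lf (nat_lit 3800) (nat_lit 6) (nat_lit 50) (nat_lit 5) (nat_lit 118) (nat_lit 119) (nat_lit 123))))) (PT.nd (nat_lit 156) (PT.nd (nat_lit 78) (PT.lf (nat_lit 4028) (nat_lit 3) (nat_lit 53) (nat_lit 3) (nat_lit 119) (nat_lit 119) (nat_lit 122)) (PT.lf (nat_lit 4256) (nat_lit 6) (nat_lit 56) (nat_lit 3) (nat_lit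 120) (nat_lit 119) (nat_lit 121))) (PT.nd (nat_lit 78) (PT.lf (nat_lit 4256) (nat_lit 6) (nat_lit 56) (nat_lit 1) (nat_lit 121) (nat_lit 119) (nat_lit 120)) (PT.nd (nat_lit 78) (PT.lf (nat_lit 4028) (nat_lit 3) (nat_lit 53) (nat_lit 0) (nat_lit 122) (nat_lit 119) (nat_lit 119)) (PT.lf (nat_lit 3800) (nat_lit 6) (nat_lit 50) (nat_lit 0) (nat_lit 123) (nat_lit 119) (nat_lit 118))))))))
noncomputable def pc3 : PT := (PT.nd (nat_lit 74334) (PT.nd (nat_lit 37206) (PT.nd (nat_lit 36816) (PT.nd (nat_lit 156) (PT.nd (nat_lit 78) (PT.lf (nat_lit 3496) (nat_lit 6) (nat_lit 46) (nat_lit 0) (nat_lit 124) (nat_lit 119) (nat_lit 117)) (PT.lf (nat_lit 3116) (nat_lit 6) (nat_lit 41) (nat_lit 0) (nat_lit 125) (nat_lit 119) (nat_lit 116))) (PT.nd (nat_lit 36582) (PT.lf (nat_lit 2660) (nat_lit 6) (nat_lit 35) (nat_lit 0) (nat_lit 126) (nat_lit 119) (nat_lit 115)) (PT.lf (nat_lit 2736) (nat_lit 6) (nat_lit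 36) (nat_lit 5) (nat_lit 114) (nat_lit 120) (nat_lit 126)))) (PT.nd (nat_lit 156) (PT.nd (nat_lit 78) (PT.lf (nat_lit 3192) (nat_lit 6) (nat_lit 42) (nat_lit 5) (nat_lit 115) (nat_lit 120) (nat_lit 125)) (PT.lf (nat_lit 3572) (nat_lit 6) (nat_lit 47) (nat_lit 5) (nat_lit 116) (nat_lit 120) (nat_lit 124))) (PT.nd (nat_lit 78) (PT.lf (nat_lit 3876) (nat_lit 6) (nat_lit 51) (nat_lit 5) (nat_lit 117) (nat_lit 120) (nat_lit 123)) (PT.nd (nat_lit 78) (PT.lf (nat_lit 4104) (nat_lit 6) (nat_lit 54) (nat_lit 5) (nat_lit 118) (nat_lit 120) (nat_lit 122)) (PT.lf (nat_lit 4256) (nat_lit 6) (nat_lit 56) (nat_lit 5) (nat_lit 119) (nat_lit 120) (nat_lit 121)))))) (PT.nd (nat_lit 312) (PT.nd (nat_lit 156) (PT.nd (nat_lit 78) (PT.lf (nat_lit 4332) (nat_lit 1) (nat_lit 57) (nat_lit 0) (nat_lit 120) (nat_lit 120) (nat_lit 120)) (PT.lf (nat_lit 4256) (nat_lit 6) (nat_lit 56) (nat_lit 0) (nat_lit 121)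 (nat_lit 120) (nat_lit 119))) (PT.nd (nat_lit 78) (PT.lf (nat_lit 4104) (nat_lit 6) (nat_lit 54) (nat_lit 0) (nat_lit 122) (nat_lit 120) (nat_lit 118)) (PT.lf (nat_lit 3876) (nat_lit 6) (nat_lit 51) (nat_lit 0) (nat_lit 123) (nat_lit 120) (nat_lit 117)))) (PT.nd (nat_lit 156) (PT.nd (nat_lit 78) (PT.lf (nat_lit 3572) (nat_lit 6) (nat_lit 47) (nat_lit 0) (nat_lit 124) (nat_lit 120) (nat_lit 116)) (PT.lf (nat_lit 3192) (nat_lit 6) (nat_lit 42) (nat_lit 0) (nat_lit 125) (nat_lit 120) (nat_lit 115))) (PT.nd (nat_lit 36504) (PT.lf (nat_lit 2736) (nat_lit 6) (nat_lit 36) (nat_lit 0) (nat_lit 126) (nat_lit 120) (nat_lit 114)) (PT.nd (nat_lit 78) (PT.lf (nat_lit 2280) (nat_lit 6) (nat_lit 30) (nat_lit 5) (nat_lit 113) (nat_lit 121) (nat_lit 126)) (PT.lf (nat_lit 2812) (nat_lit 6) (nat_lit 37) (nat_lit 5) (nat_lit 114) (nat_lit 121) (nat_lit 125))))))) (PT.nd (nat_lit 702) (PT.nd (nat_lit 312)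 (PT.nd (nat_lit 156) (PT.nd (nat_lit 78) (PT.lf (nat_lit 3268) (nat_lit 6) (nat_lit 43) (nat_lit 5) (nat_lit 115) (nat_lit 121) (nat_lit 124)) (PT.lf (nat_lit 3648) (nat_lit 6) (nat_lit 48) (nat_lit 5) (nat_lit 116) (nat_lit 121) (nat_lit 123))) (PT.nd (nat_lit 78) (PT.lf (nat_lit 3952) (nat_lit 6) (nat_lit 52) (nat_lit 5) (nat_lit 117) (nat_lit 121) (nat_lit 122)) (PT.lf (nat_lit 4180) (nat_lit 3) (nat_lit 55) (nat_lit 4) (nat_lit 118) (nat_lit 121) (nat_lit 121)))) (PT.nd (nat_lit 156) (PT.nd (nat_lit 78) (PT.lf (nat_lit 4256) (nat_lit 6) (nat_lit 56) (nat_lit 4) (nat_lit 119) (nat_lit 121) (nat_lit 120)) (PT.lf (nat_lit 4256) (nat_lit 6) (nat_lit 56) (nat_lit 2) (nat_lit 120) (nat_lit 121) (nat_lit 119))) (PT.nd (nat_lit 78) (PT.lf (nat_lit 4180) (nat_lit 3) (nat_lit 55) (nat_lit 0) (nat_lit 121) (nat_lit 121) (nat_lit 118)) (PT.nd (nat_lit 78) (PT.lf (nat_lit 3952) (nat_lit 6)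 (nat_lit 52) (nat_lit 0) (nat_lit 122) (nat_lit 121) (nat_lit 117)) (PT.lf (nat_lit 3648) (nat_lit 6) (nat_lit 48) (nat_lit 0) (nat_lit 123) (nat_lit 121) (nat_lit 116)))))) (PT.nd (nat_lit 36660) (PT.nd (nat_lit 156) (PT.nd (nat_lit 78) (PT.lf (nat_lit 3268) (nat_lit 6) (nat_lit 43) (nat_lit 0) (nat_lit 124) (nat_lit 121) (nat_lit 115)) (PT.lf (nat_lit 2812) (nat_lit 6) (nat_lit 37) (nat_lit 0) (nat_lit 125) (nat_lit 121) (nat_lit 114))) (PT.nd (nat_lit 36348) (PT.lf (nat_lit 2280) (nat_lit 6) (nat_lit 30) (nat_lit 0) (nat_lit 126) (nat_lit 121) (nat_lit 113)) (PT.nd (nat_lit 78) (PT.lf (nat_lit 1824) (nat_lit 6) (nat_lit 24) (nat_lit 5) (nat_lit 111) (nat_lit 122) (nat_lit 127)) (PT.lf (nat_lit 2052) (nat_lit 6) (nat_lit 27) (nat_lit 5) (nat_lit 112) (nat_lit 122) (nat_lit 126))))) (PT.nd (nat_lit 156) (PT.nd (nat_lit 78) (PT.lf (nat_lit 2356) (nat_lit 6) (nat_lit 31) (nat_lit 5)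 (nat_lit 113) (nat_lit 122) (nat_lit 125)) (PT.lf (nat_lit 2888) (nat_lit 6) (nat_lit 38) (nat_lit 5) (nat_lit 114) (nat_lit 122) (nat_lit 124))) (PT.nd (nat_lit 78) (PT.lf (nat_lit 3344) (nat_lit 6) (nat_lit 44) (nat_lit 5) (nat_lit 115) (nat_lit 122) (nat_lit 123)) (PT.nd (nat_lit 78) (PT.lf (nat_lit 3724) (nat_lit 3) (nat_lit 49) (nat_lit 4) (nat_lit 116) (nat_lit 122) (nat_lit 122)) (PT.lf (nat_lit 3952) (nat_lit 6) (nat_lit 52) (nat_lit 4) (nat_lit 117) (nat_lit 122) (nat_lit 121))))))))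
noncomputable def pc4 : PT := (PT.nd (nat_lit 37518) (PT.nd (nat_lit 702) (PT.nd (nat_lit 312) (PT.nd (nat_lit 156) (PT.nd (nat_lit 78) (PT.lf (nat_lit 4104) (nat_lit 6) (nat_lit 54) (nat_lit 4) (nat_lit 118) (nat_lit 122) (nat_lit 120)) (PT.lf (nat_lit 4028) (nat_lit 3) (nat_lit 53) (nat_lit 2) (nat_lit 119) (nat_lit 122) (nat_lit 119))) (PT.nd (nat_lit 78) (PT.lf (nat_lit 4104) (nat_lit 6) (nat_lit 54) (nat_lit 2) (nat_lit 120) (nat_lit 122) (nat_lit 118)) (PT.lf (nat_lit 3952) (nat_lit 6) (nat_lit 52) (nat_lit 2) (nat_lit 121) (nat_lit 122) (nat_lit 117)))) (PT.nd (nat_lit 156) (PT.nd (nat_lit 78) (PT.lf (nat_lit 3724) (nat_lit 3) (nat_lit 49) (nat_lit 0) (nat_lit 122) (nat_lit 122) (nat_lit 116)) (PT.lf (nat_lit 3344) (nat_lit 6) (nat_lit 44) (nat_lit 0) (nat_lit 123) (nat_lit 122) (nat_lit 115))) (PT.nd (nat_lit 78) (PT.lf (nat_lit 2888) (nat_lit 6) (nat_lit 38) (nat_lit 0) (nat_lit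 124) (nat_lit 122) (nat_lit 114)) (PT.nd (nat_lit 78) (PT.lf (nat_lit 2356) (nat_lit 6) (nat_lit 31) (nat_lit 0) (nat_lit 125) (nat_lit 122) (nat_lit 113)) (PT.lf (nat_lit 2052) (nat_lit 6) (nat_lit 27) (nat_lit 0) (nat_lit 126) (nat_lit 122) (nat_lit 112)))))) (PT.nd (nat_lit 36426) (PT.nd (nat_lit 36270) (PT.nd (nat_lit 36192) (PT.lf (nat_lit 1824) (nat_lit 6) (nat_lit 24) (nat_lit 0) (nat_lit 127) (nat_lit 122) (nat_lit 111)) (PT.lf (nat_lit 1596) (nat_lit 6) (nat_lit 21) (nat_lit 5) (nat_lit 110) (nat_lit 123) (nat_lit 127))) (PT.nd (nat_lit 78) (PT.lf (nat_lit 1900) (nat_lit 6) (nat_lit 25) (nat_lit 5) (nat_lit 111) (nat_lit 123) (nat_lit 126)) (PT.lf (nat_lit 2128) (nat_lit 6) (nat_lit 28) (nat_lit 5) (nat_lit 112) (nat_lit 123) (nat_lit 125)))) (PT.nd (nat_lit 156) (PT.nd (nat_lit 78) (PT.lf (nat_lit 2432) (nat_lit 6) (nat_lit 32) (nat_lit 5) (nat_lit 113) (nat_lit 123) (nat_lit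 124)) (PT.lf (nat_lit 2964) (nat_lit 3) (nat_lit 39) (nat_lit 4) (nat_lit 114) (nat_lit 123) (nat_lit 123))) (PT.nd (nat_lit 78) (PT.lf (nat_lit 3344) (nat_lit 6) (nat_lit 44) (nat_lit 4) (nat_lit 115) (nat_lit 123) (nat_lit 122)) (PT.nd (nat_lit 78) (PT.lf (nat_lit 3648) (nat_lit 6) (nat_lit 48) (nat_lit 4) (nat_lit 116) (nat_lit 123) (nat_lit 121)) (PT.lf (nat_lit 3876) (nat_lit 6) (nat_lit 51) (nat_lit 4) (nat_lit 117) (nat_lit 123) (nat_lit 120))))))) (PT.nd (nat_lit 702) (PT.nd (nat_lit 312) (PT.nd (nat_lit 156) (PT.nd (nat_lit 78) (PT.lf (nat_lit 3800) (nat_lit 6) (nat_lit 50) (nat_lit 4) (nat_lit 118) (nat_lit 123) (nat_lit 119)) (PT.lf (nat_lit 3800) (nat_lit 6) (nat_lit 50) (nat_lit 2) (nat_lit 119) (nat_lit 123) (nat_lit 118))) (PT.nd (nat_lit 78) (PT.lf (nat_lit 3876) (nat_lit 6) (nat_lit 51) (nat_lit 2) (nat_lit 120) (nat_lit 123) (nat_lit 117)) (PT.lf (nat_lit 3648) (nat_lit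 6) (nat_lit 48) (nat_lit 2) (nat_lit 121) (nat_lit 123) (nat_lit 116)))) (PT.nd (nat_lit 156) (PT.nd (nat_lit 78) (PT.lf (nat_lit 3344) (nat_lit 6) (nat_lit 44) (nat_lit 2) (nat_lit 122) (nat_lit 123) (nat_lit 115)) (PT.lf (nat_lit 2964) (nat_lit 3) (nat_lit 39) (nat_lit 0) (nat_lit 123) (nat_lit 123) (nat_lit 114))) (PT.nd (nat_lit 78) (PT.lf (nat_lit 2432) (nat_lit 6) (nat_lit 32) (nat_lit 0) (nat_lit 124) (nat_lit 123) (nat_lit 113)) (PT.nd (nat_lit 78) (PT.lf (nat_lit 2128) (nat_lit 6) (nat_lit 28) (nat_lit 0) (nat_lit 125) (nat_lit 123) (nat_lit 112)) (PT.lf (nat_lit 1900) (nat_lit 6) (nat_lit 25) (nat_lit 0) (nat_lit 126) (nat_lit 123) (nat_lit 111)))))) (PT.nd (nat_lit 36426) (PT.nd (nat_lit 36192) (PT.nd (nat_lit 36114) (PT.lf (nat_lit 1596) (nat_lit 6) (nat_lit 21) (nat_lit 0) (nat_lit 127) (nat_lit 123) (nat_lit 110)) (PT.lf (nat_lit 1444) (nat_lit 6) (nat_lit 19) (nat_lit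 5) (nat_lit 109) (nat_lit 124) (nat_lit 127))) (PT.nd (nat_lit 78) (PT.lf (nat_lit 1672) (nat_lit 6) (nat_lit 22) (nat_lit 5) (nat_lit 110) (nat_lit 124) (nat_lit 126)) (PT.nd (nat_lit 78) (PT.lf (nat_lit 1976) (nat_lit 6) (nat_lit 26) (nat_lit 5) (nat_lit 111) (nat_lit 124) (nat_lit 125)) (PT.lf (nat_lit 2204) (nat_lit 3) (nat_lit 29) (nat_lit 4) (nat_lit 112) (nat_lit 124) (nat_lit 124))))) (PT.nd (nat_lit 156) (PT.nd (nat_lit 78) (PT.lf (nat_lit 2432) (nat_lit 6) (nat_lit 32) (nat_lit 4) (nat_lit 113) (nat_lit 124) (nat_lit 123)) (PT.lf (nat_lit 2888) (nat_lit 6) (nat_lit 38) (nat_lit 4) (nat_lit 114) (nat_lit 124) (nat_lit 122))) (PT.nd (nat_lit 78) (PT.lf (nat_lit 3268) (nat_lit 6) (nat_lit 43) (nat_lit 4) (nat_lit 115) (nat_lit 124) (nat_lit 121)) (PT.nd (nat_lit 78) (PT.lf (nat_lit 3572) (nat_lit 6) (nat_lit 47) (nat_lit 4) (nat_lit 116) (nat_lit 124) (nat_lit 120)) (PT.lf (nat_lit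 3496) (nat_lit 6) (nat_lit 46) (nat_lit 4) (nat_lit 117) (nat_lit 124) (nat_lit 119))))))))
noncomputable def pc5 : PT := (PT.nd (nat_lit 37284) (PT.nd (nat_lit 702) (PT.nd (nat_lit 312) (PT.nd (nat_lit 156) (PT.nd (nat_lit 78) (PT.lf (nat_lit 3420) (nat_lit 3) (nat_lit 45) (nat_lit 2) (nat_lit 118) (nat_lit 124) (nat_lit 118)) (PT.lf (nat_lit 3496) (nat_lit 6) (nat_lit 46) (nat_lit 2) (nat_lit 119) (nat_lit 124) (nat_lit 117))) (PT.nd (nat_lit 78) (PT.lf (nat_lit 3572) (nat_lit 6) (nat_lit 47) (nat_lit 2) (nat_lit 120) (nat_lit 124) (nat_lit 116)) (PT.lf (nat_lit 3268) (nat_lit 6) (nat_lit 43) (nat_lit 2) (nat_lit 121) (nat_lit 124) (nat_lit 115)))) (PT.nd (nat_lit 156) (PT.nd (nat_lit 78) (PT.lf (nat_lit 2888) (nat_lit 6) (nat_lit 38) (nat_lit 2) (nat_lit 122) (nat_lit 124) (nat_lit 114)) (PT.lf (nat_lit 2432) (nat_lit 6) (nat_lit 32) (nat_lit 2) (nat_lit 123) (nat_lit 124) (nat_lit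 113))) (PT.nd (nat_lit 78) (PT.lf (nat_lit 2204) (nat_lit 3) (nat_lit 29) (nat_lit 0) (nat_lit 124) (nat_lit 124) (nat_lit 112)) (PT.nd (nat_lit 78) (PT.lf (nat_lit 1976) (nat_lit 6) (nat_lit 26) (nat_lit 0) (nat_lit 125) (nat_lit 124) (nat_lit 111)) (PT.lf (nat_lit 1672) (nat_lit 6) (nat_lit 22) (nat_lit 0) (nat_lit 126) (nat_lit 124) (nat_lit 110)))))) (PT.nd (nat_lit 36192) (PT.nd (nat_lit 36036) (PT.nd (nat_lit 35958) (PT.lf (nat_lit 1444) (nat_lit 6) (nat_lit 19) (nat_lit 0) (nat_lit 127) (nat_lit 124) (nat_lit 109)) (PT.lf (nat_lit 1140) (nat_lit 6) (nat_lit 15) (nat_lit 5) (nat_lit 107) (nat_lit 125) (nat_lit 128))) (PT.nd (nat_lit 78) (PT.lf (nat_lit 1292) (nat_lit 6) (nat_lit 17) (nat_lit 5) (nat_lit 108) (nat_lit 125) (nat_lit 127)) (PT.lf (nat_lit 1520) (nat_lit 6) (nat_lit 20) (nat_lit 5) (nat_lit 109) (nat_lit 125) (nat_lit 126)))) (PT.nd (nat_lit 156) (PT.nd (nat_lit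 78) (PT.lf (nat_lit 1748) (nat_lit 3) (nat_lit 23) (nat_lit 4) (nat_lit 110) (nat_lit 125) (nat_lit 125)) (PT.lf (nat_lit 1976) (nat_lit 6) (nat_lit 26) (nat_lit 4) (nat_lit 111) (nat_lit 125) (nat_lit 124))) (PT.nd (nat_lit 78) (PT.lf (nat_lit 2128) (nat_lit 6) (nat_lit 28) (nat_lit 4) (nat_lit 112) (nat_lit 125) (nat_lit 123)) (PT.nd (nat_lit 78) (PT.lf (nat_lit 2356) (nat_lit 6) (nat_lit 31) (nat_lit 4) (nat_lit 113) (nat_lit 125) (nat_lit 122)) (PT.lf (nat_lit 2812) (nat_lit 6) (nat_lit 37) (nat_lit 4) (nat_lit 114) (nat_lit 125) (nat_lit 121))))))) (PT.nd (nat_lit 702) (PT.nd (nat_lit 312) (PT.nd (nat_lit 156) (PT.nd (nat_lit 78) (PT.lf (nat_lit 3192) (nat_lit 6) (nat_lit 42) (nat_lit 4) (nat_lit 115) (nat_lit 125) (nat_lit 120)) (PT.lf (nat_lit 3116) (nat_lit 6) (nat_lit 41) (nat_lit 4) (nat_lit 116) (nat_lit 125) (nat_lit 119))) (PT.nd (nat_lit 78) (PT.lf (nat_lit 3040) (nat_lit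 6) (nat_lit 40) (nat_lit 4) (nat_lit 117) (nat_lit 125) (nat_lit 118)) (PT.lf (nat_lit 3040) (nat_lit 6) (nat_lit 40) (nat_lit 2) (nat_lit 118) (nat_lit 125) (nat_lit 117)))) (PT.nd (nat_lit 156) (PT.nd (nat_lit 78) (PT.lf (nat_lit 3116) (nat_lit 6) (nat_lit 41) (nat_lit 2) (nat_lit 119) (nat_lit 125) (nat_lit 116)) (PT.lf (nat_lit 3192) (nat_lit 6) (nat_lit 42) (nat_lit 2) (nat_lit 120) (nat_lit 125) (nat_lit 115))) (PT.nd (nat_lit 78) (PT.lf (nat_lit 2812) (nat_lit 6) (nat_lit 37) (nat_lit 2) (nat_lit 121) (nat_lit 125) (nat_lit 114)) (PT.nd (nat_lit 78) (PT.lf (nat_lit 2356) (nat_lit 6) (nat_lit 31) (nat_lit 2) (nat_lit 122) (nat_lit 125) (nat_lit 113)) (PT.lf (nat_lit 2128) (nat_lit 6) (nat_lit 28) (nat_lit 2) (nat_lit 123) (nat_lit 125) (nat_lit 112)))))) (PT.nd (nat_lit 36036) (PT.nd (nat_lit 156) (PT.nd (nat_lit 78) (PT.lf (nat_lit 1976) (nat_lit 6) (nat_lit 26) (nat_lit 2)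 (nat_lit 124) (nat_lit 125) (nat_lit 111)) (PT.lf (nat_lit 1748) (nat_lit 3) (nat_lit 23) (nat_lit 0) (nat_lit 125) (nat_lit 125) (nat_lit 110))) (PT.nd (nat_lit 78) (PT.lf (nat_lit 1520) (nat_lit 6) (nat_lit 20) (nat_lit 0) (nat_lit 126) (nat_lit 125) (nat_lit 109)) (PT.nd (nat_lit 78) (PT.lf (nat_lit 1292) (nat_lit 6) (nat_lit 17) (nat_lit 0) (nat_lit 127) (nat_lit 125) (nat_lit 108)) (PT.lf (nat_lit 1140) (nat_lit 6) (nat_lit 15) (nat_lit 0) (nat_lit 128) (nat_lit 125) (nat_lit 107))))) (PT.nd (nat_lit 156) (PT.nd (nat_lit 78) (PT.lf (nat_lit 836) (nat_lit 6) (nat_lit 11) (nat_lit 5) (nat_lit 105) (nat_lit 126) (nat_lit 129)) (PT.lf (nat_lit 988) (nat_lit 6) (nat_lit 13) (nat_lit 5) (nat_lit 106) (nat_lit 126) (nat_lit 128))) (PT.nd (nat_lit 78) (PT.lf (nat_lit 1216) (nat_lit 6) (nat_lit 16) (nat_lit 5) (nat_lit 107) (nat_lit 126) (nat_lit 127)) (PT.nd (nat_lit 78) (PT.lf (nat_lit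 1368) (nat_lit 3) (nat_lit 18) (nat_lit 4) (nat_lit 108) (nat_lit 126) (nat_lit 126)) (PT.lf (nat_lit 1520) (nat_lit 6) (nat_lit 20) (nat_lit 4) (nat_lit 109) (nat_lit 126) (nat_lit 125))))))))
noncomputable def pc6 : PT := (PT.nd (nat_lit 1404) (PT.nd (nat_lit 702) (PT.nd (nat_lit 312) (PT.nd (nat_lit 156) (PT.nd (nat_lit 78) (PT.lf (nat_lit 1672) (nat_lit 6) (nat_lit 22) (nat_lit 4) (nat_lit 110) (nat_lit 126) (nat_lit 124)) (PT.lf (nat_lit 1900) (nat_lit 6) (nat_lit 25) (nat_lit 4) (nat_lit 111) (nat_lit 126) (nat_lit 123))) (PT.nd (nat_lit 78) (PT.lf (nat_lit 2052) (nat_lit 6) (nat_lit 27) (nat_lit 4) (nat_lit 112) (nat_lit 126) (nat_lit 122)) (PT.lf (nat_lit 2280) (nat_lit 6) (nat_lit 30) (nat_lit 4) (nat_lit 113) (nat_lit 126) (nat_lit 121)))) (PT.nd (nat_lit 156) (PT.nd (nat_lit 78) (PT.lf (nat_lit 2736) (nat_lit 6) (nat_lit 36) (nat_lit 4) (nat_lit 114) (nat_lit 126) (nat_lit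 120)) (PT.lf (nat_lit 2660) (nat_lit 6) (nat_lit 35) (nat_lit 4) (nat_lit 115) (nat_lit 126) (nat_lit 119))) (PT.nd (nat_lit 78) (PT.lf (nat_lit 2584) (nat_lit 6) (nat_lit 34) (nat_lit 4) (nat_lit 116) (nat_lit 126) (nat_lit 118)) (PT.nd (nat_lit 78) (PT.lf (nat_lit 2508) (nat_lit 3) (nat_lit 33) (nat_lit 2) (nat_lit 117) (nat_lit 126) (nat_lit 117)) (PT.lf (nat_lit 2584) (nat_lit 6) (nat_lit 34) (nat_lit 2) (nat_lit 118) (nat_lit 126) (nat_lit 116)))))) (PT.nd (nat_lit 312) (PT.nd (nat_lit 156) (PT.nd (nat_lit 78) (PT.lf (nat_lit 2660) (nat_lit 6) (nat_lit 35) (nat_lit 2) (nat_lit 119) (nat_lit 126) (nat_lit 115)) (PT.lf (nat_lit 2736) (nat_lit 6) (nat_lit 36) (nat_lit 2) (nat_lit 120) (nat_lit 126) (nat_lit 114))) (PT.nd (nat_lit 78) (PT.lf (nat_lit 2280) (nat_lit 6) (nat_lit 30) (nat_lit 2) (nat_lit 121) (nat_lit 126) (nat_lit 113)) (PT.lf (nat_lit 2052) (nat_lit 6) (nat_lit 27)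 (nat_lit 2) (nat_lit 122) (nat_lit 126) (nat_lit 112)))) (PT.nd (nat_lit 156) (PT.nd (nat_lit 78) (PT.lf (nat_lit 1900) (nat_lit 6) (nat_lit 25) (nat_lit 2) (nat_lit 123) (nat_lit 126) (nat_lit 111)) (PT.lf (nat_lit 1672) (nat_lit 6) (nat_lit 22) (nat_lit 2) (nat_lit 124) (nat_lit 126) (nat_lit 110))) (PT.nd (nat_lit 78) (PT.lf (nat_lit 1520) (nat_lit 6) (nat_lit 20) (nat_lit 2) (nat_lit 125) (nat_lit 126) (nat_lit 109)) (PT.nd (nat_lit 78) (PT.lf (nat_lit 1368) (nat_lit 3) (nat_lit 18) (nat_lit 0) (nat_lit 126) (nat_lit 126) (nat_lit 108)) (PT.lf (nat_lit 1216) (nat_lit 6) (nat_lit 16) (nat_lit 0) (nat_lit 127) (nat_lit 126) (nat_lit 107))))))) (PT.nd (nat_lit 36192) (PT.nd (nat_lit 35802) (PT.nd (nat_lit 35646) (PT.nd (nat_lit 78) (PT.lf (nat_lit 988) (nat_lit 6) (nat_lit 13) (nat_lit 0) (nat_lit 128) (nat_lit 126) (nat_lit 106)) (PT.lf (nat_lit 836) (nat_lit 6) (nat_lit 11) (nat_lit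 0) (nat_lit 129) (nat_lit 126) (nat_lit 105))) (PT.nd (nat_lit 78) (PT.lf (nat_lit 684) (nat_lit 6) (nat_lit 9) (nat_lit 5) (nat_lit 104) (nat_lit 127) (nat_lit 129)) (PT.lf (nat_lit 912) (nat_lit 6) (nat_lit 12) (nat_lit 5) (nat_lit 105) (nat_lit 127) (nat_lit 128)))) (PT.nd (nat_lit 156) (PT.nd (nat_lit 78) (PT.lf (nat_lit 1064) (nat_lit 3) (nat_lit 14) (nat_lit 4) (nat_lit 106) (nat_lit 127) (nat_lit 127)) (PT.lf (nat_lit 1216) (nat_lit 6) (nat_lit 16) (nat_lit 4) (nat_lit 107) (nat_lit 127) (nat_lit 126))) (PT.nd (nat_lit 78) (PT.lf (nat_lit 1292) (nat_lit 6) (nat_lit 17) (nat_lit 4) (nat_lit 108) (nat_lit 127) (nat_lit 125)) (PT.nd (nat_lit 78) (PT.lf (nat_lit 1444) (nat_lit 6) (nat_lit 19) (nat_lit 4) (nat_lit 109) (nat_lit 127) (nat_lit 124)) (PT.lf (nat_lit 1596) (nat_lit 6) (nat_lit 21) (nat_lit 4) (nat_lit 110) (nat_lit 127) (nat_lit 123)))))) (PT.nd (nat_lit 1170) (PT.nd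 (nat_lit 936) (PT.nd (nat_lit 858) (PT.lf (nat_lit 1824) (nat_lit 6) (nat_lit 24) (nat_lit 4) (nat_lit 111) (nat_lit 127) (nat_lit 122)) (PT.lf (nat_lit 1824) (nat_lit 6) (nat_lit 24) (nat_lit 2) (nat_lit 122) (nat_lit 127) (nat_lit 111))) (PT.nd (nat_lit 78) (PT.lf (nat_lit 1596) (nat_lit 6) (nat_lit 21) (nat_lit 2) (nat_lit 123) (nat_lit 127) (nat_lit 110)) (PT.nd (nat_lit 78) (PT.lf (nat_lit 1444) (nat_lit 6) (nat_lit 19) (nat_lit 2) (nat_lit 124) (nat_lit 127) (nat_lit 109)) (PT.lf (nat_lit 1292) (nat_lit 6) (nat_lit 17) (nat_lit 2) (nat_lit 125) (nat_lit 127) (nat_lit 108))))) (PT.nd (nat_lit 156) (PT.nd (nat_lit 78) (PT.lf (nat_lit 1216) (nat_lit 6) (nat_lit 16) (nat_lit 2) (nat_lit 126) (nat_lit 127) (nat_lit 107)) (PT.lf (nat_lit 1064) (nat_lit 3) (nat_lit 14) (nat_lit 0) (nat_lit 127) (nat_lit 127) (nat_lit 106))) (PT.nd (nat_lit 78) (PT.lf (nat_lit 912) (nat_lit 6) (nat_lit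 12) (nat_lit 0) (nat_lit 128) (nat_lit 127) (nat_lit 105)) (PT.nd (nat_lit 35412) (PT.lf (nat_lit 684) (nat_lit 6) (nat_lit 9) (nat_lit 0) (nat_lit 129) (nat_lit 127) (nat_lit 104)) (PT.lf (nat_lit 456) (nat_lit 6) (nat_lit 6) (nat_lit 5) (nat_lit 102) (nat_lit 128) (nat_lit 130))))))))
noncomputable def pc7 : PT := (PT.nd (nat_lit 39390) (PT.nd (nat_lit 2028) (PT.nd (nat_lit 312) (PT.nd (nat_lit 156) (PT.nd (nat_lit 78) (PT.lf (nat_lit 608) (nat_lit 6) (nat_lit 8) (nat_lit 5) (nat_lit 103) (nat_lit 128) (nat_lit 129)) (PT.lf (nat_lit 760) (nat_lit 3) (nat_lit 10) (nat_lit 4) (nat_lit 104) (nat_lit 128) (nat_lit 128))) (PT.nd (nat_lit 78) (PT.lf (nat_lit 912) (nat_lit 6) (nat_lit 12) (nat_lit 4) (nat_lit 105) (nat_lit 128) (nat_lit 127)) (PT.lf (nat_lit 988) (nat_lit 6) (nat_lit 13) (nat_lit 4) (nat_lit 106) (nat_lit 128) (nat_lit 126)))) (PT.nd (nat_lit 1482) (PT.nd (nat_lit 1404)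 (PT.lf (nat_lit 1140) (nat_lit 6) (nat_lit 15) (nat_lit 4) (nat_lit 107) (nat_lit 128) (nat_lit 125)) (PT.lf (nat_lit 1140) (nat_lit 6) (nat_lit 15) (nat_lit 2) (nat_lit 125) (nat_lit 128) (nat_lit 107))) (PT.nd (nat_lit 78) (PT.lf (nat_lit 988) (nat_lit 6) (nat_lit 13) (nat_lit 2) (nat_lit 126) (nat_lit 128) (nat_lit 106)) (PT.nd (nat_lit 78) (PT.lf (nat_lit 912) (nat_lit 6) (nat_lit 12) (nat_lit 2) (nat_lit 127) (nat_lit 128) (nat_lit 105)) (PT.lf (nat_lit 760) (nat_lit 3) (nat_lit 10) (nat_lit 0) (nat_lit 128) (nat_lit 128) (nat_lit 104)))))) (PT.nd (nat_lit 35412) (PT.nd (nat_lit 35256) (PT.nd (nat_lit 78) (PT.lf (nat_lit 608) (nat_lit 6) (nat_lit 8) (nat_lit 0) (nat_lit 129) (nat_lit 128) (nat_lit 103)) (PT.lf (nat_lit 456) (nat_lit 6) (nat_lit 6) (nat_lit 0) (nat_lit 130) (nat_lit 128) (nat_lit 102))) (PT.nd (nat_lit 78) (PT.lf (nat_lit 228) (nat_lit 6) (nat_lit 3) (nat_lit 5)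 (nat_lit 100) (nat_lit 129) (nat_lit 131)) (PT.lf (nat_lit 380) (nat_lit 6) (nat_lit 5) (nat_lit 5) (nat_lit 101) (nat_lit 129) (nat_lit 130)))) (PT.nd (nat_lit 156) (PT.nd (nat_lit 78) (PT.lf (nat_lit 532) (nat_lit 3) (nat_lit 7) (nat_lit 4) (nat_lit 102) (nat_lit 129) (nat_lit 129)) (PT.lf (nat_lit 608) (nat_lit 6) (nat_lit 8) (nat_lit 4) (nat_lit 103) (nat_lit 129) (nat_lit 128))) (PT.nd (nat_lit 78) (PT.lf (nat_lit 684) (nat_lit 6) (nat_lit 9) (nat_lit 4) (nat_lit 104) (nat_lit 129) (nat_lit 127)) (PT.nd (nat_lit 1638) (PT.lf (nat_lit 836) (nat_lit 6) (nat_lit 11) (nat_lit 4) (nat_lit 105) (nat_lit 129) (nat_lit 126)) (PT.lf (nat_lit 836) (nat_lit 6) (nat_lit 11) (nat_lit 2) (nat_lit 126) (nat_lit 129) (nat_lit 105))))))) (PT.nd (nat_lit 37596) (PT.nd (nat_lit 312) (PT.nd (nat_lit 156) (PT.nd (nat_lit 78) (PT.lf (nat_lit 684) (nat_lit 6) (nat_lit 9) (nat_lit 2) (nat_lit 127) (nat_lit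 129) (nat_lit 104)) (PT.lf (nat_lit 608) (nat_lit 6) (nat_lit 8) (nat_lit 2) (nat_lit 128) (nat_lit 129) (nat_lit 103))) (PT.nd (nat_lit 78) (PT.lf (nat_lit 532) (nat_lit 3) (nat_lit 7) (nat_lit 0) (nat_lit 129) (nat_lit 129) (nat_lit 102)) (PT.lf (nat_lit 380) (nat_lit 6) (nat_lit 5) (nat_lit 0) (nat_lit 130) (nat_lit 129) (nat_lit 101)))) (PT.nd (nat_lit 35100) (PT.nd (nat_lit 35022) (PT.lf (nat_lit 228) (nat_lit 6) (nat_lit 3) (nat_lit 0) (nat_lit 131) (nat_lit 129) (nat_lit 100)) (PT.lf (nat_lit 152) (nat_lit 6) (nat_lit 2) (nat_lit 5) (nat_lit 99) (nat_lit 130) (nat_lit 131))) (PT.nd (nat_lit 78) (PT.lf (nat_lit 304) (nat_lit 3) (nat_lit 4) (nat_lit 4) (nat_lit 100) (nat_lit 130) (nat_lit 130)) (PT.nd (nat_lit 78) (PT.lf (nat_lit 380) (nat_lit 6) (nat_lit 5) (nat_lit 4) (nat_lit 101) (nat_lit 130) (nat_lit 129)) (PT.lf (nat_lit 456) (nat_lit 6) (nat_lit 6) (nat_lit 4) (nat_lit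 102) (nat_lit 130) (nat_lit 128)))))) (PT.nd (nat_lit 35256) (PT.nd (nat_lit 156) (PT.nd (nat_lit 78) (PT.lf (nat_lit 456) (nat_lit 6) (nat_lit 6) (nat_lit 2) (nat_lit 128) (nat_lit 130) (nat_lit 102)) (PT.lf (nat_lit 380) (nat_lit 6) (nat_lit 5) (nat_lit 2) (nat_lit 129) (nat_lit 130) (nat_lit 101))) (PT.nd (nat_lit 78) (PT.lf (nat_lit 304) (nat_lit 3) (nat_lit 4) (nat_lit 0) (nat_lit 130) (nat_lit 130) (nat_lit 100)) (PT.nd (nat_lit 34944) (PT.lf (nat_lit 152) (nat_lit 6) (nat_lit 2) (nat_lit 0) (nat_lit 131) (nat_lit 130) (nat_lit 99)) (PT.lf (nat_lit 76) (nat_lit 3) (nat_lit 1) (nat_lit 4) (nat_lit 98) (nat_lit 131) (nat_lit 131))))) (PT.nd (nat_lit 2340) (PT.nd (nat_lit 78) (PT.lf (nat_lit 152) (nat_lit 6) (nat_lit 2) (nat_lit 4) (nat_lit 99) (nat_lit 131) (nat_lit 130)) (PT.lf (nat_lit 228) (nat_lit 6) (nat_lit 3) (nat_lit 4) (nat_lit 100) (nat_lit 131) (nat_lit 129))) (PT.nd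 (nat_lit 78) (PT.lf (nat_lit 228) (nat_lit 6) (nat_lit 3) (nat_lit 2) (nat_lit 129) (nat_lit 131) (nat_lit 100)) (PT.nd (nat_lit 78) (PT.lf (nat_lit 152) (nat_lit 6) (nat_lit 2) (nat_lit 2) (nat_lit 130) (nat_lit 131) (nat_lit 99)) (PT.lf (nat_lit 76) (nat_lit 3) (nat_lit 1) (nat_lit 0) (nat_lit 131) (nat_lit 131) (nat_lit 98))))))))
noncomputable def xc0 : XT := (XT.nd (nat_lit 149838) (nat_lit 0) (nat_lit 0) (XT.nd (nat_lit 112086) (nat_lit 0) (nat_lit 0) (XT.nd (nat_lit 74724) (nat_lit 0) (nat_lit 0) (XT.nd (nat_lit 37440) (nat_lit 0) (nat_lit 0) (XT.nd (nat_lit 78) (nat_lit 0) (nat_lit 0) (XT.lf (nat_lit 0) (nat_lit 779751041467) (nat_lit 76) (nat_lit 352557659870) (nat_lit 76) (nat_lit 352557659870) (nat_lit 1) (nat_lit 4) (nat_lit 2) (nat_lit 5) (nat_lit 2) (nat_lit 4) (nat_lit 340) (nat_lit 190) (nat_lit 190)) (XT.nd (nat_lit 37284) (nat_lit 0) (nat_lit 0) (XT.lf (nat_lit 0)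 (nat_lit 1684919510674) (nat_lit 76) (nat_lit 761194374106) (nat_lit 76) (nat_lit 761168452929) (nat_lit 1) (nat_lit 4) (nat_lit 2) (nat_lit 5) (nat_lit 2) (nat_lit 4) (nat_lit 341) (nat_lit 190) (nat_lit 189)) (XT.lf (nat_lit 0) (nat_lit 667885623400) (nat_lit 76) (nat_lit 302587769713) (nat_lit 76) (nat_lit 302587769713) (nat_lit 1) (nat_lit 4) (nat_lit 2) (nat_lit 5) (nat_lit 2) (nat_lit 4) (nat_lit 338) (nat_lit 191) (nat_lit 191)))) (XT.nd (nat_lit 78) (nat_lit 0) (nat_lit 0) (XT.lf (nat_lit 0) (nat_lit 1443342788539) (nat_lit 76) (nat_lit 653232997670) (nat_lit 76) (nat_lit 653205002800) (nat_lit 1) (nat_lit 4) (nat_lit 2) (nat_lit 5) (nat_lit 2) (nat_lit 4) (nat_lit 339) (nat_lit 191) (nat_lit 190)) (XT.nd (nat_lit 78) (nat_lit 0) (nat_lit 0) (XT.lf (nat_lit 0) (nat_lit 1559485443412) (nat_lit 76) (nat_lit 705150964645) (nat_lit 76) (nat_lit 705097048597) (nat_lit 1) (nat_lit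 4) (nat_lit 2) (nat_lit 5) (nat_lit 2) (nat_lit 4) (nat_lit 340) (nat_lit 191) (nat_lit 189)) (XT.lf (nat_lit 0) (nat_lit 1684887464188) (nat_lit 76) (nat_lit 761237102375) (nat_lit 76) (nat_lit 761159185238) (nat_lit 1) (nat_lit 4) (nat_lit 2) (nat_lit 5) (nat_lit 2) (nat_lit 4) (nat_lit 341) (nat_lit 191) (nat_lit 188))))) (XT.nd (nat_lit 234) (nat_lit 0) (nat_lit 0) (XT.nd (nat_lit 78) (nat_lit 0) (nat_lit 0) (XT.lf (nat_lit 0) (nat_lit 571929040673) (nat_lit 76) (nat_lit 259772755156) (nat_lit 76) (nat_lit 259772755156) (nat_lit 1) (nat_lit 4) (nat_lit 2) (nat_lit 5) (nat_lit 2) (nat_lit 4) (nat_lit 336) (nat_lit 192) (nat_lit 192)) (XT.nd (nat_lit 78) (nat_lit 0) (nat_lit 0) (XT.lf (nat_lit 0) (nat_lit 1236133357208) (nat_lit 76) (nat_lit 560724039435) (nat_lit 76) (nat_lit 560693804975) (nat_lit 1) (nat_lit 4) (nat_lit 2) (nat_lit 5) (nat_lit 2) (nat_lit 4) (nat_lit 337) (nat_lit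 192) (nat_lit 191)) (XT.lf (nat_lit 0) (nat_lit 1335753276117) (nat_lit 76) (nat_lit 605214035924) (nat_lit 76) (nat_lit 605155806592) (nat_lit 1) (nat_lit 4) (nat_lit 2) (nat_lit 5) (nat_lit 2) (nat_lit 4) (nat_lit 338) (nat_lit 192) (nat_lit 190)))) (XT.nd (nat_lit 78) (nat_lit 0) (nat_lit 0) (XT.lf (nat_lit 0) (nat_lit 1443308178334) (nat_lit 76) (nat_lit 653279144202) (nat_lit 76) (nat_lit 653194993694) (nat_lit 1) (nat_lit 4) (nat_lit 2) (nat_lit 5) (nat_lit 2) (nat_lit 4) (nat_lit 339) (nat_lit 192) (nat_lit 189)) (XT.nd (nat_lit 78) (nat_lit 0) (nat_lit 0) (XT.lf (nat_lit 0) (nat_lit 1559435426242) (nat_lit 76) (nat_lit 705204194541) (nat_lit 76) (nat_lit 705096042943) (nat_lit 1) (nat_lit 4) (nat_lit 2) (nat_lit 5) (nat_lit 2) (nat_lit 4) (nat_lit 340) (nat_lit 192) (nat_lit 188)) (XT.lf (nat_lit 0) (nat_lit 1684823181311) (nat_lit 76) (nat_lit 761296890942) (nat_lit 76) (nat_lit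 761166516114) (nat_lit 1) (nat_lit 4) (nat_lit 2) (nat_lit 5) (nat_lit 2) (nat_lit 4) (nat_lit 341) (nat_lit 192) (nat_lit 187)))))) (XT.nd (nat_lit 468) (nat_lit 0) (nat_lit 0) (XT.nd (nat_lit 234) (nat_lit 0) (nat_lit 0) (XT.nd (nat_lit 78) (nat_lit 0) (nat_lit 0) (XT.lf (nat_lit 0) (nat_lit 489607718694) (nat_lit 76) (nat_lit 223093982176) (nat_lit 76) (nat_lit 223093982176) (nat_lit 1) (nat_lit 4) (nat_lit 2) (nat_lit 5) (nat_lit 2) (nat_lit 4) (nat_lit 334) (nat_lit 193) (nat_lit 193)) (XT.nd (nat_lit 78) (nat_lit 0) (nat_lit 0) (XT.lf (nat_lit 0) (nat_lit 1058380632082) (nat_lit 76) (nat_lit 481467080861) (nat_lit 76) (nat_lit 481434427644) (nat_lit 1) (nat_lit 4) (nat_lit 2) (nat_lit 5) (nat_lit 2) (nat_lit 4) (nat_lit 335) (nat_lit 193) (nat_lit 192)) (XT.lf (nat_lit 0) (nat_lit 1143838673008) (nat_lit 76) (nat_lit 519587086530) (nat_lit 76) (nat_lit 519524198853) (nat_lit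 1) (nat_lit 4) (nat_lit 2) (nat_lit 5) (nat_lit 2) (nat_lit 4) (nat_lit 336) (nat_lit 193) (nat_lit 191)))) (XT.nd (nat_lit 78) (nat_lit 0) (nat_lit 0) (XT.lf (nat_lit 0) (nat_lit 1236095978186) (nat_lit 76) (nat_lit 560773877689) (nat_lit 76) (nat_lit 560682995141) (nat_lit 1) (nat_lit 4) (nat_lit 2) (nat_lit 5) (nat_lit 2) (nat_lit 4) (nat_lit 337) (nat_lit 193) (nat_lit 190)) (XT.nd (nat_lit 78) (nat_lit 0) (nat_lit 0) (XT.lf (nat_lit 0) (nat_lit 1335699257574) (nat_lit 76) (nat_lit 605271524211) (nat_lit 76) (nat_lit 605154720486) (nat_lit 1) (nat_lit 4) (nat_lit 2) (nat_lit 5) (nat_lit 2) (nat_lit 4) (nat_lit 338) (nat_lit 193) (nat_lit 189)) (XT.lf (nat_lit 0) (nat_lit 1443238752826) (nat_lit 76) (nat_lit 653343715854) (nat_lit 76) (nat_lit 653202911039) (nat_lit 1) (nat_lit 4) (nat_lit 2) (nat_lit 5) (nat_lit 2) (nat_lit 4) (nat_lit 339) (nat_lit 193) (nat_lit 188))))) (XT.nd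 (nat_lit 36972) (nat_lit 0) (nat_lit 0) (XT.nd (nat_lit 78) (nat_lit 0) (nat_lit 0) (XT.lf (nat_lit 0) (nat_lit 1559351735027) (nat_lit 76) (nat_lit 705275324864) (nat_lit 76) (nat_lit 705112296818) (nat_lit 1) (nat_lit 4) (nat_lit 2) (nat_lit 5) (nat_lit 2) (nat_lit 4) (nat_lit 340) (nat_lit 193) (nat_lit 187)) (XT.nd (nat_lit 36816) (nat_lit 0) (nat_lit 0) (XT.lf (nat_lit 0) (nat_lit 1684726281106) (nat_lit 76) (nat_lit 761374094110) (nat_lit 76) (nat_lit 761190488998) (nat_lit 1) (nat_lit 4) (nat_lit 2) (nat_lit 5) (nat_lit 2) (nat_lit 4) (nat_lit 341) (nat_lit 193) (nat_lit 186)) (XT.lf (nat_lit 0) (nat_lit 418972113596) (nat_lit 76) (nat_lit 191678303397) (nat_lit 76) (nat_lit 191678303397) (nat_lit 1) (nat_lit 4) (nat_lit 2) (nat_lit 5) (nat_lit 2) (nat_lit 4) (nat_lit 332) (nat_lit 194) (nat_lit 194)))) (XT.nd (nat_lit 156) (nat_lit 0) (nat_lit 0) (XT.nd (nat_lit 78) (nat_lit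 0) (nat_lit 0) (XT.lf (nat_lit 0) (nat_lit 905873961847) (nat_lit 76) (nat_lit 413575941047) (nat_lit 76) (nat_lit 413540675572) (nat_lit 1) (nat_lit 4) (nat_lit 2) (nat_lit 5) (nat_lit 2) (nat_lit 4) (nat_lit 333) (nat_lit 194) (nat_lit 193)) (XT.lf (nat_lit 0) (nat_lit 979194476383) (nat_lit 76) (nat_lit 446232866667) (nat_lit 76) (nat_lit 446164947975) (nat_lit 1) (nat_lit 4) (nat_lit 2) (nat_lit 5) (nat_lit 2) (nat_lit 4) (nat_lit 334) (nat_lit 194) (nat_lit 192))) (XT.nd (nat_lit 78) (nat_lit 0) (nat_lit 0) (XT.lf (nat_lit 0) (nat_lit 1058340262739) (nat_lit 76) (nat_lit 481520906175) (nat_lit 76) (nat_lit 481422753023) (nat_lit 1) (nat_lit 4) (nat_lit 2) (nat_lit 5) (nat_lit 2) (nat_lit 4) (nat_lit 335) (nat_lit 194) (nat_lit 191)) (XT.lf (nat_lit 0) (nat_lit 1143780332981) (nat_lit 76) (nat_lit 519649173881) (nat_lit 76) (nat_lit 519523025858) (nat_lit 1) (nat_lit 4) (nat_lit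 2) (nat_lit 5) (nat_lit 2) (nat_lit 4) (nat_lit 336) (nat_lit 194) (nat_lit 190))))))) (XT.nd (nat_lit 37518) (nat_lit 0) (nat_lit 0) (XT.nd (nat_lit 37050) (nat_lit 0) (nat_lit 0) (XT.nd (nat_lit 234) (nat_lit 0) (nat_lit 0) (XT.nd (nat_lit 78) (nat_lit 0) (nat_lit 0) (XT.lf (nat_lit 0) (nat_lit 1236020998638) (nat_lit 76) (nat_lit 560843615074) (nat_lit 76) (nat_lit 560691545874) (nat_lit 1) (nat_lit 4) (nat_lit 2) (nat_lit 5) (nat_lit 2) (nat_lit 4) (nat_lit 337) (nat_lit 194) (nat_lit 189)) (XT.nd (nat_lit 78) (nat_lit 0) (nat_lit 0) (XT.lf (nat_lit 0) (nat_lit 1335608871061) (nat_lit 76) (nat_lit 605348344961) (nat_lit 76) (nat_lit 605172274671) (nat_lit 1) (nat_lit 4) (nat_lit 2) (nat_lit 5) (nat_lit 2) (nat_lit 4) (nat_lit 338) (nat_lit 194) (nat_lit 188)) (XT.lf (nat_lit 0) (nat_lit 1443134100606) (nat_lit 76) (nat_lit 653427095275) (nat_lit 76) (nat_lit 653228801754) (nat_lit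 1) (nat_lit 4) (nat_lit 2) (nat_lit 5) (nat_lit 2) (nat_lit 4) (nat_lit 339) (nat_lit 194) (nat_lit 187)))) (XT.nd (nat_lit 78) (nat_lit 0) (nat_lit 0) (XT.lf (nat_lit 0) (nat_lit 1559233873817) (nat_lit 76) (nat_lit 705364777128) (nat_lit 76) (nat_lit 705145906542) (nat_lit 1) (nat_lit 4) (nat_lit 2) (nat_lit 5) (nat_lit 2) (nat_lit 4) (nat_lit 340) (nat_lit 194) (nat_lit 186)) (XT.nd (nat_lit 36660) (nat_lit 0) (nat_lit 0) (XT.lf (nat_lit 0) (nat_lit 1684596189352) (nat_lit 76) (nat_lit 761469169377) (nat_lit 76) (nat_lit 761231245952) (nat_lit 1) (nat_lit 4) (nat_lit 2) (nat_lit 5) (nat_lit 2) (nat_lit 4) (nat_lit 341) (nat_lit 194) (nat_lit 185)) (XT.lf (nat_lit 0) (nat_lit 358350460022) (nat_lit 76) (nat_lit 164777316165) (nat_lit 76) (nat_lit 164777316165) (nat_lit 1) (nat_lit 4) (nat_lit 2) (nat_lit 5) (nat_lit 2) (nat_lit 4) (nat_lit 330) (nat_lit 195) (nat_lit 195))))) (XT.nd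 (nat_lit 234) (nat_lit 0) (nat_lit 0) (XT.nd (nat_lit 78) (nat_lit 0) (nat_lit 0) (XT.lf (nat_lit 0) (nat_lit 775002725845) (nat_lit 76) (nat_lit 355433873084) (nat_lit 76) (nat_lit 355395786371) (nat_lit 1) (nat_lit 4) (nat_lit 2) (nat_lit 5) (nat_lit 2) (nat_lit 4) (nat_lit 331) (nat_lit 195) (nat_lit 194)) (XT.nd (nat_lit 78) (nat_lit 0) (nat_lit 0) (XT.lf (nat_lit 0) (nat_lit 837921589308) (nat_lit 76) (nat_lit 383405101293) (nat_lit 76) (nat_lit 383331749106) (nat_lit 1) (nat_lit 4) (nat_lit 2) (nat_lit 5) (nat_lit 2) (nat_lit 4) (nat_lit 332) (nat_lit 195) (nat_lit 193)) (XT.lf (nat_lit 0) (nat_lit 905830362957) (nat_lit 76) (nat_lit 413634072386) (nat_lit 76) (nat_lit 413528066981) (nat_lit 1) (nat_lit 4) (nat_lit 2) (nat_lit 5) (nat_lit 2) (nat_lit 4) (nat_lit 333) (nat_lit 195) (nat_lit 192)))) (XT.nd (nat_lit 78) (nat_lit 0) (nat_lit 0) (XT.lf (nat_lit 0) (nat_lit 979131469154)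 (nat_lit 76) (nat_lit 446299921005) (nat_lit 76) (nat_lit 446163681140) (nat_lit 1) (nat_lit 4) (nat_lit 2) (nat_lit 5) (nat_lit 2) (nat_lit 4) (nat_lit 334) (nat_lit 195) (nat_lit 191)) (XT.nd (nat_lit 78) (nat_lit 0) (nat_lit 0) (XT.lf (nat_lit 0) (nat_lit 1058259284827) (nat_lit 76) (nat_lit 481596222551) (nat_lit 76) (nat_lit 481431987815) (nat_lit 1) (nat_lit 4) (nat_lit 2) (nat_lit 5) (nat_lit 2) (nat_lit 4) (nat_lit 335) (nat_lit 195) (nat_lit 190)) (XT.lf (nat_lit 0) (nat_lit 1143682715547) (nat_lit 76) (nat_lit 519732140290) (nat_lit 76) (nat_lit 519541984378) (nat_lit 1) (nat_lit 4) (nat_lit 2) (nat_lit 5) (nat_lit 2) (nat_lit 4) (nat_lit 336) (nat_lit 195) (nat_lit 189)))))) (XT.nd (nat_lit 36894) (nat_lit 0) (nat_lit 0) (XT.nd (nat_lit 234) (nat_lit 0) (nat_lit 0) (XT.nd (nat_lit 78) (nat_lit 0) (nat_lit 0) (XT.lf (nat_lit 0) (nat_lit 1235907974240) (nat_lit 76) (nat_lit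 560933664848) (nat_lit 76) (nat_lit 560719507846) (nat_lit 1) (nat_lit 4) (nat_lit 2) (nat_lit 5) (nat_lit 2) (nat_lit 4) (nat_lit 337) (nat_lit 195) (nat_lit 188)) (XT.nd (nat_lit 78) (nat_lit 0) (nat_lit 0) (XT.lf (nat_lit 0) (nat_lit 1335481580955) (nat_lit 76) (nat_lit 605444953406) (nat_lit 76) (nat_lit 605208573173) (nat_lit 1) (nat_lit 4) (nat_lit 2) (nat_lit 5) (nat_lit 2) (nat_lit 4) (nat_lit 338) (nat_lit 195) (nat_lit 187)) (XT.lf (nat_lit 0) (nat_lit 1442993601511) (nat_lit 76) (nat_lit 653529776563) (nat_lit 76) (nat_lit 653272819265) (nat_lit 1) (nat_lit 4) (nat_lit 2) (nat_lit 5) (nat_lit 2) (nat_lit 4) (nat_lit 339) (nat_lit 195) (nat_lit 186)))) (XT.nd (nat_lit 78) (nat_lit 0) (nat_lit 0) (XT.lf (nat_lit 0) (nat_lit 1559081144177) (nat_lit 76) (nat_lit 705473081420) (nat_lit 76) (nat_lit 705197071283) (nat_lit 1) (nat_lit 4) (nat_lit 2) (nat_lit 5) (nat_lit 2) (nat_lit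 4) (nat_lit 340) (nat_lit 195) (nat_lit 185)) (XT.nd (nat_lit 36504) (nat_lit 0) (nat_lit 0) (XT.lf (nat_lit 0) (nat_lit 1684432135133) (nat_lit 76) (nat_lit 761582680154) (nat_lit 76) (nat_lit 761289028499) (nat_lit 1) (nat_lit 4) (nat_lit 2) (nat_lit 5) (nat_lit 2) (nat_lit 4) (nat_lit 341) (nat_lit 195) (nat_lit 184)) (XT.lf (nat_lit 0) (nat_lit 306309115255) (nat_lit 76) (nat_lit 141749580759) (nat_lit 76) (nat_lit 141749580759) (nat_lit 1) (nat_lit 4) (nat_lit 2) (nat_lit 5) (nat_lit 2) (nat_lit 4) (nat_lit 328) (nat_lit 196) (nat_lit 196))))) (XT.nd (nat_lit 234) (nat_lit 0) (nat_lit 0) (XT.nd (nat_lit 78) (nat_lit 0) (nat_lit 0) (XT.lf (nat_lit 0) (nat_lit 662670679723) (nat_lit 76) (nat_lit 305655154221) (nat_lit 76) (nat_lit 305614020571) (nat_lit 1) (nat_lit 4) (nat_lit 2) (nat_lit 5) (nat_lit 2) (nat_lit 4) (nat_lit 329) (nat_lit 196) (nat_lit 195)) (XT.nd (nat_lit 78) (nat_lit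 0) (nat_lit 0) (XT.lf (nat_lit 0) (nat_lit 716676471128) (nat_lit 76) (nat_lit 329607006390) (nat_lit 76) (nat_lit 329527786028) (nat_lit 1) (nat_lit 4) (nat_lit 2) (nat_lit 5) (nat_lit 2) (nat_lit 4) (nat_lit 330) (nat_lit 196) (nat_lit 194)) (XT.lf (nat_lit 0) (nat_lit 774955639043) (nat_lit 76) (nat_lit 355496654930) (nat_lit 76) (nat_lit 355382169093) (nat_lit 1) (nat_lit 4) (nat_lit 2) (nat_lit 5) (nat_lit 2) (nat_lit 4) (nat_lit 331) (nat_lit 196) (nat_lit 193)))) (XT.nd (nat_lit 156) (nat_lit 0) (nat_lit 0) (XT.nd (nat_lit 78) (nat_lit 0) (nat_lit 0) (XT.lf (nat_lit 0) (nat_lit 837853541500) (nat_lit 76) (nat_lit 383477519979) (nat_lit 76) (nat_lit 383330380925) (nat_lit 1) (nat_lit 4) (nat_lit 2) (nat_lit 5) (nat_lit 2) (nat_lit 4) (nat_lit 332) (nat_lit 196) (nat_lit 192)) (XT.lf (nat_lit 0) (nat_lit 905742906811) (nat_lit 76) (nat_lit 413715414071) (nat_lit 76) (nat_lit 413538040557)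 (nat_lit 1) (nat_lit 4) (nat_lit 2) (nat_lit 5) (nat_lit 2) (nat_lit 4) (nat_lit 333) (nat_lit 196) (nat_lit 191))) (XT.nd (nat_lit 78) (nat_lit 0) (nat_lit 0) (XT.lf (nat_lit 0) (nat_lit 979026042326) (nat_lit 76) (nat_lit 446389524728) (nat_lit 76) (nat_lit 446184156342) (nat_lit 1) (nat_lit 4) (nat_lit 2) (nat_lit 5) (nat_lit 2) (nat_lit 4) (nat_lit 334) (nat_lit 196) (nat_lit 190)) (XT.lf (nat_lit 0) (nat_lit 1058137218476) (nat_lit 76) (nat_lit 481693476307) (nat_lit 76) (nat_lit 481462186745) (nat_lit 1) (nat_lit 4) (nat_lit 2) (nat_lit 5) (nat_lit 2) (nat_lit 4) (nat_lit 335) (nat_lit 196) (nat_lit 189))))))))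
noncomputable def xc1 : XT := (XT.nd (nat_lit 74334) (nat_lit 0) (nat_lit 0) (XT.nd (nat_lit 37206) (nat_lit 0) (nat_lit 0) (XT.nd (nat_lit 36738) (nat_lit 0) (nat_lit 0) (XT.nd (nat_lit 234) (nat_lit 0) (nat_lit 0) (XT.nd (nat_lit 78) (nat_lit 0) (nat_lit 0) (XT.lf (nat_lit 0) (nat_lit 1143545242233) (nat_lit 76) (nat_lit 519836477411) (nat_lit 76) (nat_lit 519581186759) (nat_lit 1) (nat_lit 4) (nat_lit 2) (nat_lit 5) (nat_lit 2) (nat_lit 4) (nat_lit 336) (nat_lit 196) (nat_lit 188)) (XT.nd (nat_lit 78) (nat_lit 0) (nat_lit 0) (XT.lf (nat_lit 0) (nat_lit 1235756235217) (nat_lit 76) (nat_lit 561044560640) (nat_lit 76) (nat_lit 560767046757) (nat_lit 1) (nat_lit 4) (nat_lit 2) (nat_lit 5) (nat_lit 2) (nat_lit 4) (nat_lit 337) (nat_lit 196) (nat_lit 187)) (XT.lf (nat_lit 0) (nat_lit 1335316632944) (nat_lit 76) (nat_lit 605561922042) (nat_lit 76) (nat_lit 605263831093) (nat_lit 1) (nat_lit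 4) (nat_lit 2) (nat_lit 5) (nat_lit 2) (nat_lit 4) (nat_lit 338) (nat_lit 196) (nat_lit 186)))) (XT.nd (nat_lit 78) (nat_lit 0) (nat_lit 0) (XT.lf (nat_lit 0) (nat_lit 1442816422954) (nat_lit 76) (nat_lit 653652368202) (nat_lit 76) (nat_lit 653335224415) (nat_lit 1) (nat_lit 4) (nat_lit 2) (nat_lit 5) (nat_lit 2) (nat_lit 4) (nat_lit 339) (nat_lit 196) (nat_lit 185)) (XT.nd (nat_lit 78) (nat_lit 0) (nat_lit 0) (XT.lf (nat_lit 0) (nat_lit 1558892641042) (nat_lit 76) (nat_lit 705600879544) (nat_lit 76) (nat_lit 705266094240) (nat_lit 1) (nat_lit 4) (nat_lit 2) (nat_lit 5) (nat_lit 2) (nat_lit 4) (nat_lit 340) (nat_lit 196) (nat_lit 184)) (XT.lf (nat_lit 0) (nat_lit 1684233146276) (nat_lit 76) (nat_lit 761715299097) (nat_lit 76) (nat_lit 761364179054) (nat_lit 1) (nat_lit 4) (nat_lit 2) (nat_lit 5) (nat_lit 2) (nat_lit 4) (nat_lit 341) (nat_lit 196) (nat_lit 183))))) (XT.nd (nat_lit 234)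 (nat_lit 0) (nat_lit 0) (XT.nd (nat_lit 78) (nat_lit 0) (nat_lit 0) (XT.lf (nat_lit 0) (nat_lit 261618558493) (nat_lit 76) (nat_lit 122045376525) (nat_lit 76) (nat_lit 122045376525) (nat_lit 1) (nat_lit 4) (nat_lit 2) (nat_lit 5) (nat_lit 2) (nat_lit 4) (nat_lit 326) (nat_lit 197) (nat_lit 197)) (XT.nd (nat_lit 78) (nat_lit 0) (nat_lit 0) (XT.lf (nat_lit 0) (nat_lit 566222516381) (nat_lit 76) (nat_lit 263052157857) (nat_lit 76) (nat_lit 263007733515) (nat_lit 1) (nat_lit 4) (nat_lit 2) (nat_lit 5) (nat_lit 2) (nat_lit 4) (nat_lit 327) (nat_lit 197) (nat_lit 196)) (XT.lf (nat_lit 0) (nat_lit 612591825680) (nat_lit 76) (nat_lit 283555725504) (nat_lit 76) (nat_lit 283470167512) (nat_lit 1) (nat_lit 4) (nat_lit 2) (nat_lit 5) (nat_lit 2) (nat_lit 4) (nat_lit 328) (nat_lit 197) (nat_lit 195)))) (XT.nd (nat_lit 78) (nat_lit 0) (nat_lit 0) (XT.lf (nat_lit 0) (nat_lit 662619825977) (nat_lit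 76) (nat_lit 305722958615) (nat_lit 76) (nat_lit 305599313911) (nat_lit 1) (nat_lit 4) (nat_lit 2) (nat_lit 5) (nat_lit 2) (nat_lit 4) (nat_lit 329) (nat_lit 197) (nat_lit 194)) (XT.nd (nat_lit 78) (nat_lit 0) (nat_lit 0) (XT.lf (nat_lit 0) (nat_lit 716602979496) (nat_lit 76) (nat_lit 329685218571) (nat_lit 76) (nat_lit 329526308392) (nat_lit 1) (nat_lit 4) (nat_lit 2) (nat_lit 5) (nat_lit 2) (nat_lit 4) (nat_lit 330) (nat_lit 197) (nat_lit 193)) (XT.lf (nat_lit 0) (nat_lit 774861186406) (nat_lit 76) (nat_lit 355584503950) (nat_lit 76) (nat_lit 355392940554) (nat_lit 1) (nat_lit 4) (nat_lit 2) (nat_lit 5) (nat_lit 2) (nat_lit 4) (nat_lit 331) (nat_lit 197) (nat_lit 192)))))) (XT.nd (nat_lit 468) (nat_lit 0) (nat_lit 0) (XT.nd (nat_lit 234) (nat_lit 0) (nat_lit 0) (XT.nd (nat_lit 78) (nat_lit 0) (nat_lit 0) (XT.lf (nat_lit 0) (nat_lit 837739680526) (nat_lit 76) (nat_lit 383574291999)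 (nat_lit 76) (nat_lit 383352494143) (nat_lit 1) (nat_lit 4) (nat_lit 2) (nat_lit 5) (nat_lit 2) (nat_lit 4) (nat_lit 332) (nat_lit 197) (nat_lit 191)) (XT.nd (nat_lit 78) (nat_lit 0) (nat_lit 0) (XT.lf (nat_lit 0) (nat_lit 905611075153) (nat_lit 76) (nat_lit 413820448128) (nat_lit 76) (nat_lit 413570655401) (nat_lit 1) (nat_lit 4) (nat_lit 2) (nat_lit 5) (nat_lit 2) (nat_lit 4) (nat_lit 333) (nat_lit 197) (nat_lit 190)) (XT.lf (nat_lit 0) (nat_lit 978877571146) (nat_lit 76) (nat_lit 446502208818) (nat_lit 76) (nat_lit 446226494914) (nat_lit 1) (nat_lit 4) (nat_lit 2) (nat_lit 5) (nat_lit 2) (nat_lit 4) (nat_lit 334) (nat_lit 197) (nat_lit 189)))) (XT.nd (nat_lit 78) (nat_lit 0) (nat_lit 0) (XT.lf (nat_lit 0) (nat_lit 1057973340332) (nat_lit 76) (nat_lit 481813243762) (nat_lit 76) (nat_lit 481513528769) (nat_lit 1) (nat_lit 4) (nat_lit 2) (nat_lit 5) (nat_lit 2) (nat_lit 4) (nat_lit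 335) (nat_lit 197) (nat_lit 188)) (XT.nd (nat_lit 78) (nat_lit 0) (nat_lit 0) (XT.lf (nat_lit 0) (nat_lit 1143367098380) (nat_lit 76) (nat_lit 519962803538) (nat_lit 76) (nat_lit 519640865313) (nat_lit 1) (nat_lit 4) (nat_lit 2) (nat_lit 5) (nat_lit 2) (nat_lit 4) (nat_lit 336) (nat_lit 197) (nat_lit 187)) (XT.lf (nat_lit 0) (nat_lit 1235564882376) (nat_lit 76) (nat_lit 561176959610) (nat_lit 76) (nat_lit 560834444320) (nat_lit 1) (nat_lit 4) (nat_lit 2) (nat_lit 5) (nat_lit 2) (nat_lit 4) (nat_lit 337) (nat_lit 197) (nat_lit 186))))) (XT.nd (nat_lit 234) (nat_lit 0) (nat_lit 0) (XT.nd (nat_lit 78) (nat_lit 0) (nat_lit 0) (XT.lf (nat_lit 0) (nat_lit 1335113049557) (nat_lit 76) (nat_lit 605699944015) (nat_lit 76) (nat_lit 605338375886) (nat_lit 1) (nat_lit 4) (nat_lit 2) (nat_lit 5) (nat_lit 2) (nat_lit 4) (nat_lit 338) (nat_lit 197) (nat_lit 185)) (XT.nd (nat_lit 78) (nat_lit 0) (nat_lit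 0) (XT.lf (nat_lit 0) (nat_lit 1442601514989) (nat_lit 76) (nat_lit 653795596661) (nat_lit 76) (nat_lit 653416387014) (nat_lit 1) (nat_lit 4) (nat_lit 2) (nat_lit 5) (nat_lit 2) (nat_lit 4) (nat_lit 339) (nat_lit 197) (nat_lit 184)) (XT.lf (nat_lit 0) (nat_lit 1558667247355) (nat_lit 76) (nat_lit 705748928821) (nat_lit 76) (nat_lit 705353384437) (nat_lit 1) (nat_lit 4) (nat_lit 2) (nat_lit 5) (nat_lit 2) (nat_lit 4) (nat_lit 340) (nat_lit 197) (nat_lit 183)))) (XT.nd (nat_lit 36270) (nat_lit 0) (nat_lit 0) (XT.nd (nat_lit 36192) (nat_lit 0) (nat_lit 0) (XT.lf (nat_lit 0) (nat_lit 1683998043589) (nat_lit 76) (nat_lit 761867812095) (nat_lit 76) (nat_lit 761457142953) (nat_lit 1) (nat_lit 4) (nat_lit 2) (nat_lit 5) (nat_lit 2) (nat_lit 4) (nat_lit 341) (nat_lit 197) (nat_lit 182)) (XT.lf (nat_lit 0) (nat_lit 223224238319) (nat_lit 76) (nat_lit 105193633966) (nat_lit 76) (nat_lit 105193633966)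 (nat_lit 1) (nat_lit 4) (nat_lit 2) (nat_lit 5) (nat_lit 2) (nat_lit 4) (nat_lit 324) (nat_lit 198) (nat_lit 198))) (XT.nd (nat_lit 78) (nat_lit 0) (nat_lit 0) (XT.lf (nat_lit 0) (nat_lit 483380899206) (nat_lit 76) (nat_lit 226607125494) (nat_lit 76) (nat_lit 226559147205) (nat_lit 1) (nat_lit 4) (nat_lit 2) (nat_lit 5) (nat_lit 2) (nat_lit 4) (nat_lit 325) (nat_lit 198) (nat_lit 197)) (XT.lf (nat_lit 0) (nat_lit 523208599771) (nat_lit 76) (nat_lit 244151842153) (nat_lit 76) (nat_lit 244059439523) (nat_lit 1) (nat_lit 4) (nat_lit 2) (nat_lit 5) (nat_lit 2) (nat_lit 4) (nat_lit 326) (nat_lit 198) (nat_lit 196))))))) (XT.nd (nat_lit 936) (nat_lit 0) (nat_lit 0) (XT.nd (nat_lit 468) (nat_lit 0) (nat_lit 0) (XT.nd (nat_lit 234) (nat_lit 0) (nat_lit 0) (XT.nd (nat_lit 78) (nat_lit 0) (nat_lit 0) (XT.lf (nat_lit 0) (nat_lit 566167594335) (nat_lit 76) (nat_lit 263125386602) (nat_lit 76) (nat_lit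 262991850322) (nat_lit 1) (nat_lit 4) (nat_lit 2) (nat_lit 5) (nat_lit 2) (nat_lit 4) (nat_lit 327) (nat_lit 198) (nat_lit 195)) (XT.nd (nat_lit 78) (nat_lit 0) (nat_lit 0) (XT.lf (nat_lit 0) (nat_lit 612512454718) (nat_lit 76) (nat_lit 283640194659) (nat_lit 76) (nat_lit 283468571666) (nat_lit 1) (nat_lit 4) (nat_lit 2) (nat_lit 5) (nat_lit 2) (nat_lit 4) (nat_lit 328) (nat_lit 198) (nat_lit 194)) (XT.lf (nat_lit 0) (nat_lit 662517817129) (nat_lit 76) (nat_lit 305817835556) (nat_lit 76) (nat_lit 305610947089) (nat_lit 1) (nat_lit 4) (nat_lit 2) (nat_lit 5) (nat_lit 2) (nat_lit 4) (nat_lit 329) (nat_lit 198) (nat_lit 193)))) (XT.nd (nat_lit 78) (nat_lit 0) (nat_lit 0) (XT.lf (nat_lit 0) (nat_lit 716480009643) (nat_lit 76) (nat_lit 329789732352) (nat_lit 76) (nat_lit 329550190667) (nat_lit 1) (nat_lit 4) (nat_lit 2) (nat_lit 5) (nat_lit 2) (nat_lit 4) (nat_lit 330) (nat_lit 198) (nat_lit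 192)) (XT.nd (nat_lit 78) (nat_lit 0) (nat_lit 0) (XT.lf (nat_lit 0) (nat_lit 774718808215) (nat_lit 76) (nat_lit 355697940731) (nat_lit 76) (nat_lit 355428164586) (nat_lit 1) (nat_lit 4) (nat_lit 2) (nat_lit 5) (nat_lit 2) (nat_lit 4) (nat_lit 331) (nat_lit 198) (nat_lit 191)) (XT.lf (nat_lit 0) (nat_lit 837579331651) (nat_lit 76) (nat_lit 383695990817) (nat_lit 76) (nat_lit 383398219801) (nat_lit 1) (nat_lit 4) (nat_lit 2) (nat_lit 5) (nat_lit 2) (nat_lit 4) (nat_lit 332) (nat_lit 198) (nat_lit 190))))) (XT.nd (nat_lit 234) (nat_lit 0) (nat_lit 0) (XT.nd (nat_lit 78) (nat_lit 0) (nat_lit 0) (XT.lf (nat_lit 0) (nat_lit 905434086757) (nat_lit 76) (nat_lit 413949796980) (nat_lit 76) (nat_lit 413626104787) (nat_lit 1) (nat_lit 4) (nat_lit 2) (nat_lit 5) (nat_lit 2) (nat_lit 4) (nat_lit 333) (nat_lit 198) (nat_lit 189)) (XT.nd (nat_lit 78) (nat_lit 0) (nat_lit 0) (XT.lf (nat_lit 0) (nat_lit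 978685175785) (nat_lit 76) (nat_lit 446638641035) (nat_lit 76) (nat_lit 446290947752) (nat_lit 1) (nat_lit 4) (nat_lit 2) (nat_lit 5) (nat_lit 2) (nat_lit 4) (nat_lit 334) (nat_lit 198) (nat_lit 188)) (XT.lf (nat_lit 0) (nat_lit 1057766679264) (nat_lit 76) (nat_lit 481956234650) (nat_lit 76) (nat_lit 481586318137) (nat_lit 1) (nat_lit 4) (nat_lit 2) (nat_lit 5) (nat_lit 2) (nat_lit 4) (nat_lit 335) (nat_lit 198) (nat_lit 187)))) (XT.nd (nat_lit 78) (nat_lit 0) (nat_lit 0) (XT.lf (nat_lit 0) (nat_lit 1143147228323) (nat_lit 76) (nat_lit 520111867269) (nat_lit 76) (nat_lit 519721373690) (nat_lit 1) (nat_lit 4) (nat_lit 2) (nat_lit 5) (nat_lit 2) (nat_lit 4) (nat_lit 336) (nat_lit 198) (nat_lit 186)) (XT.nd (nat_lit 78) (nat_lit 0) (nat_lit 0) (XT.lf (nat_lit 0) (nat_lit 1235332781774) (nat_lit 76) (nat_lit 561331646345) (nat_lit 76) (nat_lit 560922099927) (nat_lit 1) (nat_lit 4) (nat_lit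 2) (nat_lit 5) (nat_lit 2) (nat_lit 4) (nat_lit 337) (nat_lit 198) (nat_lit 185)) (XT.lf (nat_lit 0) (nat_lit 1334869624376) (nat_lit 76) (nat_lit 605859837234) (nat_lit 76) (nat_lit 605432649299) (nat_lit 1) (nat_lit 4) (nat_lit 2) (nat_lit 5) (nat_lit 2) (nat_lit 4) (nat_lit 338) (nat_lit 198) (nat_lit 184)))))) (XT.nd (nat_lit 36426) (nat_lit 0) (nat_lit 0) (XT.nd (nat_lit 36192) (nat_lit 0) (nat_lit 0) (XT.nd (nat_lit 78) (nat_lit 0) (nat_lit 0) (XT.lf (nat_lit 0) (nat_lit 1442347604087) (nat_lit 76) (nat_lit 653960310699) (nat_lit 76) (nat_lit 653516788025) (nat_lit 1) (nat_lit 4) (nat_lit 2) (nat_lit 5) (nat_lit 2) (nat_lit 4) (nat_lit 339) (nat_lit 198) (nat_lit 183)) (XT.nd (nat_lit 78) (nat_lit 0) (nat_lit 0) (XT.lf (nat_lit 0) (nat_lit 1558403627452) (nat_lit 76) (nat_lit 705918106581) (nat_lit 76) (nat_lit 705459459150) (nat_lit 1) (nat_lit 4) (nat_lit 2) (nat_lit 5) (nat_lit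 2) (nat_lit 4) (nat_lit 340) (nat_lit 198) (nat_lit 182)) (XT.lf (nat_lit 0) (nat_lit 1683725433870) (nat_lit 76) (nat_lit 762041122930) (nat_lit 76) (nat_lit 761568471094) (nat_lit 1) (nat_lit 4) (nat_lit 2) (nat_lit 5) (nat_lit 2) (nat_lit 4) (nat_lit 341) (nat_lit 198) (nat_lit 181)))) (XT.nd (nat_lit 78) (nat_lit 0) (nat_lit 0) (XT.lf (nat_lit 0) (nat_lit 190221576515) (nat_lit 76) (nat_lit 90790732467) (nat_lit 76) (nat_lit 90790732467) (nat_lit 1) (nat_lit 4) (nat_lit 2) (nat_lit 5) (nat_lit 2) (nat_lit 4) (nat_lit 322) (nat_lit 199) (nat_lit 199)) (XT.nd (nat_lit 78) (nat_lit 0) (nat_lit 0) (XT.lf (nat_lit 0) (nat_lit 412192473265) (nat_lit 76) (nat_lit 195447968346) (nat_lit 76) (nat_lit 195396151794) (nat_lit 1) (nat_lit 4) (nat_lit 2) (nat_lit 5) (nat_lit 2) (nat_lit 4) (nat_lit 323) (nat_lit 199) (nat_lit 198)) (XT.lf (nat_lit 0) (nat_lit 446417678045) (nat_lit 76) (nat_lit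 210453244163) (nat_lit 76) (nat_lit 210353449322) (nat_lit 1) (nat_lit 4) (nat_lit 2) (nat_lit 5) (nat_lit 2) (nat_lit 4) (nat_lit 324) (nat_lit 199) (nat_lit 197))))) (XT.nd (nat_lit 234) (nat_lit 0) (nat_lit 0) (XT.nd (nat_lit 78) (nat_lit 0) (nat_lit 0) (XT.lf (nat_lit 0) (nat_lit 483321583397) (nat_lit 76) (nat_lit 226686212539) (nat_lit 76) (nat_lit 226541993356) (nat_lit 1) (nat_lit 4) (nat_lit 2) (nat_lit 5) (nat_lit 2) (nat_lit 4) (nat_lit 325) (nat_lit 199) (nat_lit 196)) (XT.nd (nat_lit 78) (nat_lit 0) (nat_lit 0) (XT.lf (nat_lit 0) (nat_lit 523122879132) (nat_lit 76) (nat_lit 244243068841) (nat_lit 76) (nat_lit 244057716008) (nat_lit 1) (nat_lit 4) (nat_lit 2) (nat_lit 5) (nat_lit 2) (nat_lit 4) (nat_lit 326) (nat_lit 199) (nat_lit 195)) (XT.lf (nat_lit 0) (nat_lit 566057424779) (nat_lit 76) (nat_lit 263227853699) (nat_lit 76) (nat_lit 263004414154) (nat_lit 1) (nat_lit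 4) (nat_lit 2) (nat_lit 5) (nat_lit 2) (nat_lit 4) (nat_lit 327) (nat_lit 199) (nat_lit 194)))) (XT.nd (nat_lit 156) (nat_lit 0) (nat_lit 0) (XT.nd (nat_lit 78) (nat_lit 0) (nat_lit 0) (XT.lf (nat_lit 0) (nat_lit 612379647277) (nat_lit 76) (nat_lit 283753069543) (nat_lit 76) (nat_lit 283494364523) (nat_lit 1) (nat_lit 4) (nat_lit 2) (nat_lit 5) (nat_lit 2) (nat_lit 4) (nat_lit 328) (nat_lit 199) (nat_lit 193)) (XT.lf (nat_lit 0) (nat_lit 662364048683) (nat_lit 76) (nat_lit 305940347280) (nat_lit 76) (nat_lit 305648989043) (nat_lit 1) (nat_lit 4) (nat_lit 2) (nat_lit 5) (nat_lit 2) (nat_lit 4) (nat_lit 329) (nat_lit 199) (nat_lit 192))) (XT.nd (nat_lit 78) (nat_lit 0) (nat_lit 0) (XT.lf (nat_lit 0) (nat_lit 716306832859) (nat_lit 76) (nat_lit 329921167076) (nat_lit 76) (nat_lit 329599574378) (nat_lit 1) (nat_lit 4) (nat_lit 2) (nat_lit 5) (nat_lit 2) (nat_lit 4) (nat_lit 330) (nat_lit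 199) (nat_lit 191)) (XT.lf (nat_lit 0) (nat_lit 774527660748) (nat_lit 76) (nat_lit 355837637491) (nat_lit 76) (nat_lit 355488049923) (nat_lit 1) (nat_lit 4) (nat_lit 2) (nat_lit 5) (nat_lit 2) (nat_lit 4) (nat_lit 331) (nat_lit 199) (nat_lit 190))))))))
noncomputable def xc2 : XT := (XT.nd (nat_lit 37752) (nat_lit 0) (nat_lit 0) (XT.nd (nat_lit 36738) (nat_lit 0) (nat_lit 0) (XT.nd (nat_lit 468) (nat_lit 0) (nat_lit 0) (XT.nd (nat_lit 234) (nat_lit 0) (nat_lit 0) (XT.nd (nat_lit 78) (nat_lit 0) (nat_lit 0) (XT.lf (nat_lit 0) (nat_lit 837371544662) (nat_lit 76) (nat_lit 383843337611) (nat_lit 76) (nat_lit 383467828866) (nat_lit 1) (nat_lit 4) (nat_lit 2) (nat_lit 5) (nat_lit 2) (nat_lit 4) (nat_lit 332) (nat_lit 199) (nat_lit 189)) (XT.nd (nat_lit 78) (nat_lit 0) (nat_lit 0) (XT.lf (nat_lit 0) (nat_lit 905210892803) (nat_lit 76) (nat_lit 414104227139) (nat_lit 76) (nat_lit 413704717304)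 (nat_lit 1) (nat_lit 4) (nat_lit 2) (nat_lit 5) (nat_lit 2) (nat_lit 4) (nat_lit 333) (nat_lit 199) (nat_lit 188)) (XT.lf (nat_lit 0) (nat_lit 978447716124) (nat_lit 76) (nat_lit 446799629865) (nat_lit 76) (nat_lit 446377896799) (nat_lit 1) (nat_lit 4) (nat_lit 2) (nat_lit 5) (nat_lit 2) (nat_lit 4) (nat_lit 334) (nat_lit 199) (nat_lit 187)))) (XT.nd (nat_lit 78) (nat_lit 0) (nat_lit 0) (XT.lf (nat_lit 0) (nat_lit 1057516010613) (nat_lit 76) (nat_lit 482123296323) (nat_lit 76) (nat_lit 481680986192) (nat_lit 1) (nat_lit 4) (nat_lit 2) (nat_lit 5) (nat_lit 2) (nat_lit 4) (nat_lit 335) (nat_lit 199) (nat_lit 186)) (XT.nd (nat_lit 78) (nat_lit 0) (nat_lit 0) (XT.lf (nat_lit 0) (nat_lit 1142884329128) (nat_lit 76) (nat_lit 520284551946) (nat_lit 76) (nat_lit 519823188976) (nat_lit 1) (nat_lit 4) (nat_lit 2) (nat_lit 5) (nat_lit 2) (nat_lit 4) (nat_lit 336) (nat_lit 199) (nat_lit 185))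 (XT.lf (nat_lit 0) (nat_lit 1235058557999) (nat_lit 76) (nat_lit 561509537506) (nat_lit 76) (nat_lit 561030533019) (nat_lit 1) (nat_lit 4) (nat_lit 2) (nat_lit 5) (nat_lit 2) (nat_lit 4) (nat_lit 337) (nat_lit 199) (nat_lit 184))))) (XT.nd (nat_lit 234) (nat_lit 0) (nat_lit 0) (XT.nd (nat_lit 78) (nat_lit 0) (nat_lit 0) (XT.lf (nat_lit 0) (nat_lit 1334584914880) (nat_lit 76) (nat_lit 606042549215) (nat_lit 76) (nat_lit 605547209989) (nat_lit 1) (nat_lit 4) (nat_lit 2) (nat_lit 5) (nat_lit 2) (nat_lit 4) (nat_lit 338) (nat_lit 199) (nat_lit 183)) (XT.nd (nat_lit 78) (nat_lit 0) (nat_lit 0) (XT.lf (nat_lit 0) (nat_lit 1442053185590) (nat_lit 76) (nat_lit 654147486401) (nat_lit 76) (nat_lit 653637022418) (nat_lit 1) (nat_lit 4) (nat_lit 2) (nat_lit 5) (nat_lit 2) (nat_lit 4) (nat_lit 339) (nat_lit 199) (nat_lit 182)) (XT.lf (nat_lit 0) (nat_lit 1558100219139) (nat_lit 76) (nat_lit 706109415358)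 (nat_lit 76) (nat_lit 705584946970) (nat_lit 1) (nat_lit 4) (nat_lit 2) (nat_lit 5) (nat_lit 2) (nat_lit 4) (nat_lit 340) (nat_lit 199) (nat_lit 181)))) (XT.nd (nat_lit 35880) (nat_lit 0) (nat_lit 0) (XT.lf (nat_lit 0) (nat_lit 1683413701654) (nat_lit 76) (nat_lit 762236258629) (nat_lit 76) (nat_lit 761698823199) (nat_lit 1) (nat_lit 4) (nat_lit 2) (nat_lit 5) (nat_lit 2) (nat_lit 4) (nat_lit 341) (nat_lit 199) (nat_lit 180)) (XT.nd (nat_lit 78) (nat_lit 0) (nat_lit 0) (XT.lf (nat_lit 0) (nat_lit 161834535087) (nat_lit 76) (nat_lit 78490897600) (nat_lit 76) (nat_lit 78490897600) (nat_lit 1) (nat_lit 4) (nat_lit 2) (nat_lit 5) (nat_lit 2) (nat_lit 4) (nat_lit 320) (nat_lit 200) (nat_lit 200)) (XT.lf (nat_lit 0) (nat_lit 350981573220) (nat_lit 76) (nat_lit 168827523932) (nat_lit 76) (nat_lit 168771562056) (nat_lit 1) (nat_lit 4) (nat_lit 2) (nat_lit 5) (nat_lit 2) (nat_lit 4) (nat_lit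 321) (nat_lit 200) (nat_lit 199)))))) (XT.nd (nat_lit 468) (nat_lit 0) (nat_lit 0) (XT.nd (nat_lit 234) (nat_lit 0) (nat_lit 0) (XT.nd (nat_lit 78) (nat_lit 0) (nat_lit 0) (XT.lf (nat_lit 0) (nat_lit 380409890550) (nat_lit 76) (nat_lit 181652719264) (nat_lit 76) (nat_lit 181544940835) (nat_lit 1) (nat_lit 4) (nat_lit 2) (nat_lit 5) (nat_lit 2) (nat_lit 4) (nat_lit 322) (nat_lit 200) (nat_lit 198)) (XT.nd (nat_lit 78) (nat_lit 0) (nat_lit 0) (XT.lf (nat_lit 0) (nat_lit 412128412191) (nat_lit 76) (nat_lit 195533382355) (nat_lit 76) (nat_lit 195377625637) (nat_lit 1) (nat_lit 4) (nat_lit 2) (nat_lit 5) (nat_lit 2) (nat_lit 4) (nat_lit 323) (nat_lit 200) (nat_lit 197)) (XT.lf (nat_lit 0) (nat_lit 446325099754) (nat_lit 76) (nat_lit 210551768986) (nat_lit 76) (nat_lit 210351587927) (nat_lit 1) (nat_lit 4) (nat_lit 2) (nat_lit 5) (nat_lit 2) (nat_lit 4) (nat_lit 324) (nat_lit 200) (nat_lit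 196)))) (XT.nd (nat_lit 78) (nat_lit 0) (nat_lit 0) (XT.lf (nat_lit 0) (nat_lit 483202600277) (nat_lit 76) (nat_lit 226796877004) (nat_lit 76) (nat_lit 226555562295) (nat_lit 1) (nat_lit 4) (nat_lit 2) (nat_lit 5) (nat_lit 2) (nat_lit 4) (nat_lit 325) (nat_lit 200) (nat_lit 195)) (XT.nd (nat_lit 78) (nat_lit 0) (nat_lit 0) (XT.lf (nat_lit 0) (nat_lit 522979447096) (nat_lit 76) (nat_lit 244364973716) (nat_lit 76) (nat_lit 244085572294) (nat_lit 1) (nat_lit 4) (nat_lit 2) (nat_lit 5) (nat_lit 2) (nat_lit 4) (nat_lit 326) (nat_lit 200) (nat_lit 194)) (XT.lf (nat_lit 0) (nat_lit 565891354858) (nat_lit 76) (nat_lit 263360166361) (nat_lit 76) (nat_lit 263045499465) (nat_lit 1) (nat_lit 4) (nat_lit 2) (nat_lit 5) (nat_lit 2) (nat_lit 4) (nat_lit 327) (nat_lit 200) (nat_lit 193))))) (XT.nd (nat_lit 234) (nat_lit 0) (nat_lit 0) (XT.nd (nat_lit 78) (nat_lit 0) (nat_lit 0) (XT.lf (nat_lit 0)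 (nat_lit 612192616350) (nat_lit 76) (nat_lit 283895019044) (nat_lit 76) (nat_lit 283547698930) (nat_lit 1) (nat_lit 4) (nat_lit 2) (nat_lit 5) (nat_lit 2) (nat_lit 4) (nat_lit 328) (nat_lit 200) (nat_lit 192)) (XT.nd (nat_lit 78) (nat_lit 0) (nat_lit 0) (XT.lf (nat_lit 0) (nat_lit 662157609418) (nat_lit 76) (nat_lit 306091219781) (nat_lit 76) (nat_lit 305713665207) (nat_lit 1) (nat_lit 4) (nat_lit 2) (nat_lit 5) (nat_lit 2) (nat_lit 4) (nat_lit 329) (nat_lit 200) (nat_lit 191)) (XT.lf (nat_lit 0) (nat_lit 716082422911) (nat_lit 76) (nat_lit 330080301613) (nat_lit 76) (nat_lit 329674752168) (nat_lit 1) (nat_lit 4) (nat_lit 2) (nat_lit 5) (nat_lit 2) (nat_lit 4) (nat_lit 330) (nat_lit 200) (nat_lit 190)))) (XT.nd (nat_lit 156) (nat_lit 0) (nat_lit 0) (XT.nd (nat_lit 78) (nat_lit 0) (nat_lit 0) (XT.lf (nat_lit 0) (nat_lit 774286611277) (nat_lit 76) (nat_lit 356004422063) (nat_lit 76)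 (nat_lit 355572951441) (nat_lit 1) (nat_lit 4) (nat_lit 2) (nat_lit 5) (nat_lit 2) (nat_lit 4) (nat_lit 331) (nat_lit 200) (nat_lit 189)) (XT.lf (nat_lit 0) (nat_lit 837115088227) (nat_lit 76) (nat_lit 384017205547) (nat_lit 76) (nat_lit 383561733836) (nat_lit 1) (nat_lit 4) (nat_lit 2) (nat_lit 5) (nat_lit 2) (nat_lit 4) (nat_lit 332) (nat_lit 200) (nat_lit 188))) (XT.nd (nat_lit 78) (nat_lit 0) (nat_lit 0) (XT.lf (nat_lit 0) (nat_lit 904940170661) (nat_lit 76) (nat_lit 414284653746) (nat_lit 76) (nat_lit 413806958804) (nat_lit 1) (nat_lit 4) (nat_lit 2) (nat_lit 5) (nat_lit 2) (nat_lit 4) (nat_lit 333) (nat_lit 200) (nat_lit 187)) (XT.lf (nat_lit 0) (nat_lit 978163784992) (nat_lit 76) (nat_lit 446986129316) (nat_lit 76) (nat_lit 446487857308) (nat_lit 1) (nat_lit 4) (nat_lit 2) (nat_lit 5) (nat_lit 2) (nat_lit 4) (nat_lit 334) (nat_lit 200) (nat_lit 186))))))) (XT.nd (nat_lit 36582)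 (nat_lit 0) (nat_lit 0) (XT.nd (nat_lit 468) (nat_lit 0) (nat_lit 0) (XT.nd (nat_lit 234) (nat_lit 0) (nat_lit 0) (XT.nd (nat_lit 78) (nat_lit 0) (nat_lit 0) (XT.lf (nat_lit 0) (nat_lit 1057219848937) (nat_lit 76) (nat_lit 482315418778) (nat_lit 76) (nat_lit 481798093931) (nat_lit 1) (nat_lit 4) (nat_lit 2) (nat_lit 5) (nat_lit 2) (nat_lit 4) (nat_lit 335) (nat_lit 200) (nat_lit 185)) (XT.nd (nat_lit 78) (nat_lit 0) (nat_lit 0) (XT.lf (nat_lit 0) (nat_lit 1142576842872) (nat_lit 76) (nat_lit 520481880885) (nat_lit 76) (nat_lit 519946914521) (nat_lit 1) (nat_lit 4) (nat_lit 2) (nat_lit 5) (nat_lit 2) (nat_lit 4) (nat_lit 336) (nat_lit 200) (nat_lit 184)) (XT.lf (nat_lit 0) (nat_lit 1234740586023) (nat_lit 76) (nat_lit 561711687264) (nat_lit 76) (nat_lit 561160386162) (nat_lit 1) (nat_lit 4) (nat_lit 2) (nat_lit 5) (nat_lit 2) (nat_lit 4) (nat_lit 337) (nat_lit 200) (nat_lit 183))))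 (XT.nd (nat_lit 78) (nat_lit 0) (nat_lit 0) (XT.lf (nat_lit 0) (nat_lit 1334257233903) (nat_lit 76) (nat_lit 606249162694) (nat_lit 76) (nat_lit 605682736835) (nat_lit 1) (nat_lit 4) (nat_lit 2) (nat_lit 5) (nat_lit 2) (nat_lit 4) (nat_lit 338) (nat_lit 200) (nat_lit 182)) (XT.nd (nat_lit 78) (nat_lit 0) (nat_lit 0) (XT.lf (nat_lit 0) (nat_lit 1441716514797) (nat_lit 76) (nat_lit 654358232955) (nat_lit 76) (nat_lit 653777802691) (nat_lit 1) (nat_lit 4) (nat_lit 2) (nat_lit 5) (nat_lit 2) (nat_lit 4) (nat_lit 339) (nat_lit 200) (nat_lit 181)) (XT.lf (nat_lit 0) (nat_lit 1557755224443) (nat_lit 76) (nat_lit 706323988834) (nat_lit 76) (nat_lit 705730591528) (nat_lit 1) (nat_lit 4) (nat_lit 2) (nat_lit 5) (nat_lit 2) (nat_lit 4) (nat_lit 340) (nat_lit 200) (nat_lit 180))))) (XT.nd (nat_lit 35880) (nat_lit 0) (nat_lit 0) (XT.nd (nat_lit 35724) (nat_lit 0) (nat_lit 0) (XT.lf (nat_lit 0)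 (nat_lit 1683060999639) (nat_lit 76) (nat_lit 762454375551) (nat_lit 76) (nat_lit 761848971724) (nat_lit 1) (nat_lit 4) (nat_lit 2) (nat_lit 5) (nat_lit 2) (nat_lit 4) (nat_lit 341) (nat_lit 200) (nat_lit 179)) (XT.nd (nat_lit 78) (nat_lit 0) (nat_lit 0) (XT.lf (nat_lit 0) (nat_lit 137397237924) (nat_lit 76) (nat_lit 67997969937) (nat_lit 76) (nat_lit 67997969937) (nat_lit 1) (nat_lit 4) (nat_lit 2) (nat_lit 5) (nat_lit 2) (nat_lit 4) (nat_lit 318) (nat_lit 201) (nat_lit 201)) (XT.lf (nat_lit 0) (nat_lit 298310529542) (nat_lit 76) (nat_lit 146105774987) (nat_lit 76) (nat_lit 146045336161) (nat_lit 1) (nat_lit 4) (nat_lit 2) (nat_lit 5) (nat_lit 2) (nat_lit 4) (nat_lit 319) (nat_lit 201) (nat_lit 200)))) (XT.nd (nat_lit 78) (nat_lit 0) (nat_lit 0) (XT.lf (nat_lit 0) (nat_lit 323633146695) (nat_lit 76) (nat_lit 157058749877) (nat_lit 76) (nat_lit 156942349174) (nat_lit 1) (nat_lit 4)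 (nat_lit 2) (nat_lit 5) (nat_lit 2) (nat_lit 4) (nat_lit 320) (nat_lit 201) (nat_lit 199)) (XT.nd (nat_lit 78) (nat_lit 0) (nat_lit 0) (XT.lf (nat_lit 0) (nat_lit 350912387260) (nat_lit 76) (nat_lit 168919771061) (nat_lit 76) (nat_lit 168751553806) (nat_lit 1) (nat_lit 4) (nat_lit 2) (nat_lit 5) (nat_lit 2) (nat_lit 4) (nat_lit 321) (nat_lit 201) (nat_lit 198)) (XT.lf (nat_lit 0) (nat_lit 380309905996) (nat_lit 76) (nat_lit 181759126072) (nat_lit 76) (nat_lit 181542930528) (nat_lit 1) (nat_lit 4) (nat_lit 2) (nat_lit 5) (nat_lit 2) (nat_lit 4) (nat_lit 322) (nat_lit 201) (nat_lit 197)))))) (XT.nd (nat_lit 468) (nat_lit 0) (nat_lit 0) (XT.nd (nat_lit 234) (nat_lit 0) (nat_lit 0) (XT.nd (nat_lit 78) (nat_lit 0) (nat_lit 0) (XT.lf (nat_lit 0) (nat_lit 411999910421) (nat_lit 76) (nat_lit 195652899977) (nat_lit 76) (nat_lit 195392280092) (nat_lit 1) (nat_lit 4) (nat_lit 2) (nat_lit 5) (nat_lit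 2) (nat_lit 4) (nat_lit 323) (nat_lit 201) (nat_lit 196)) (XT.nd (nat_lit 78) (nat_lit 0) (nat_lit 0) (XT.lf (nat_lit 0) (nat_lit 446170193155) (nat_lit 76) (nat_lit 210683426251) (nat_lit 76) (nat_lit 210381672716) (nat_lit 1) (nat_lit 4) (nat_lit 2) (nat_lit 5) (nat_lit 2) (nat_lit 4) (nat_lit 324) (nat_lit 201) (nat_lit 195)) (XT.lf (nat_lit 0) (nat_lit 483023244761) (nat_lit 76) (nat_lit 226939774678) (nat_lit 76) (nat_lit 226599934431) (nat_lit 1) (nat_lit 4) (nat_lit 2) (nat_lit 5) (nat_lit 2) (nat_lit 4) (nat_lit 325) (nat_lit 201) (nat_lit 194)))) (XT.nd (nat_lit 78) (nat_lit 0) (nat_lit 0) (XT.lf (nat_lit 0) (nat_lit 522777453694) (nat_lit 76) (nat_lit 244518279177) (nat_lit 76) (nat_lit 244143173454) (nat_lit 1) (nat_lit 4) (nat_lit 2) (nat_lit 5) (nat_lit 2) (nat_lit 4) (nat_lit 326) (nat_lit 201) (nat_lit 193)) (XT.nd (nat_lit 78) (nat_lit 0) (nat_lit 0) (XT.lf (nat_lit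 0) (nat_lit 565668400451) (nat_lit 76) (nat_lit 263523108662) (nat_lit 76) (nat_lit 263115349722) (nat_lit 1) (nat_lit 4) (nat_lit 2) (nat_lit 5) (nat_lit 2) (nat_lit 4) (nat_lit 327) (nat_lit 201) (nat_lit 192)) (XT.lf (nat_lit 0) (nat_lit 611950253605) (nat_lit 76) (nat_lit 284066884344) (nat_lit 76) (nat_lit 283628890944) (nat_lit 1) (nat_lit 4) (nat_lit 2) (nat_lit 5) (nat_lit 2) (nat_lit 4) (nat_lit 328) (nat_lit 201) (nat_lit 191))))) (XT.nd (nat_lit 234) (nat_lit 0) (nat_lit 0) (XT.nd (nat_lit 78) (nat_lit 0) (nat_lit 0) (XT.lf (nat_lit 0) (nat_lit 661897275991) (nat_lit 76) (nat_lit 306271347118) (nat_lit 76) (nat_lit 305805358847) (nat_lit 1) (nat_lit 4) (nat_lit 2) (nat_lit 5) (nat_lit 2) (nat_lit 4) (nat_lit 329) (nat_lit 201) (nat_lit 190)) (XT.nd (nat_lit 78) (nat_lit 0) (nat_lit 0) (XT.lf (nat_lit 0) (nat_lit 715805449961) (nat_lit 76) (nat_lit 330268078984) (nat_lit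 76) (nat_lit 329776169537) (nat_lit 1) (nat_lit 4) (nat_lit 2) (nat_lit 5) (nat_lit 2) (nat_lit 4) (nat_lit 330) (nat_lit 201) (nat_lit 189)) (XT.lf (nat_lit 0) (nat_lit 773994231364) (nat_lit 76) (nat_lit 356199282799) (nat_lit 76) (nat_lit 355683372261) (nat_lit 1) (nat_lit 4) (nat_lit 2) (nat_lit 5) (nat_lit 2) (nat_lit 4) (nat_lit 331) (nat_lit 201) (nat_lit 188)))) (XT.nd (nat_lit 156) (nat_lit 0) (nat_lit 0) (XT.nd (nat_lit 78) (nat_lit 0) (nat_lit 0) (XT.lf (nat_lit 0) (nat_lit 836808442606) (nat_lit 76) (nat_lit 384218624954) (nat_lit 76) (nat_lit 383680491186) (nat_lit 1) (nat_lit 4) (nat_lit 2) (nat_lit 5) (nat_lit 2) (nat_lit 4) (nat_lit 332) (nat_lit 201) (nat_lit 187)) (XT.lf (nat_lit 0) (nat_lit 904620316050) (nat_lit 76) (nat_lit 414492145997) (nat_lit 76) (nat_lit 413933435163) (nat_lit 1) (nat_lit 4) (nat_lit 2) (nat_lit 5) (nat_lit 2) (nat_lit 4) (nat_lit 333) (nat_lit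 201) (nat_lit 186))) (XT.nd (nat_lit 78) (nat_lit 0) (nat_lit 0) (XT.lf (nat_lit 0) (nat_lit 977831699837) (nat_lit 76) (nat_lit 447199244570) (nat_lit 76) (nat_lit 446621480897) (nat_lit 1) (nat_lit 4) (nat_lit 2) (nat_lit 5) (nat_lit 2) (nat_lit 4) (nat_lit 334) (nat_lit 201) (nat_lit 185)) (XT.lf (nat_lit 0) (nat_lit 1056876439202) (nat_lit 76) (nat_lit 482533740516) (nat_lit 76) (nat_lit 481938335326) (nat_lit 1) (nat_lit 4) (nat_lit 2) (nat_lit 5) (nat_lit 2) (nat_lit 4) (nat_lit 335) (nat_lit 201) (nat_lit 184))))))))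
noncomputable def xc3 : XT := (XT.nd (nat_lit 37440) (nat_lit 0) (nat_lit 0) (XT.nd (nat_lit 36426) (nat_lit 0) (nat_lit 0) (XT.nd (nat_lit 35958) (nat_lit 0) (nat_lit 0) (XT.nd (nat_lit 234) (nat_lit 0) (nat_lit 0) (XT.nd (nat_lit 78) (nat_lit 0) (nat_lit 0) (XT.lf (nat_lit 0) (nat_lit 1142222947416) (nat_lit 76) (nat_lit 520705023443) (nat_lit 76) (nat_lit 520093283514) (nat_lit 1) (nat_lit 4) (nat_lit 2) (nat_lit 5) (nat_lit 2) (nat_lit 4) (nat_lit 336) (nat_lit 201) (nat_lit 183)) (XT.nd (nat_lit 78) (nat_lit 0) (nat_lit 0) (XT.lf (nat_lit 0) (nat_lit 1234376981566) (nat_lit 76) (nat_lit 561939293543) (nat_lit 76) (nat_lit 561312428857) (nat_lit 1) (nat_lit 4) (nat_lit 2) (nat_lit 5) (nat_lit 2) (nat_lit 4) (nat_lit 337) (nat_lit 201) (nat_lit 182)) (XT.lf (nat_lit 0) (nat_lit 1333884639630) (nat_lit 76) (nat_lit 606480902049) (nat_lit 76) (nat_lit 605840032958) (nat_lit 1) (nat_lit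 4) (nat_lit 2) (nat_lit 5) (nat_lit 2) (nat_lit 4) (nat_lit 338) (nat_lit 201) (nat_lit 181)))) (XT.nd (nat_lit 78) (nat_lit 0) (nat_lit 0) (XT.lf (nat_lit 0) (nat_lit 1441335596620) (nat_lit 76) (nat_lit 654593799231) (nat_lit 76) (nat_lit 653939963098) (nat_lit 1) (nat_lit 4) (nat_lit 2) (nat_lit 5) (nat_lit 2) (nat_lit 4) (nat_lit 339) (nat_lit 201) (nat_lit 180)) (XT.nd (nat_lit 78) (nat_lit 0) (nat_lit 0) (XT.lf (nat_lit 0) (nat_lit 1557366598948) (nat_lit 76) (nat_lit 706563098556) (nat_lit 76) (nat_lit 705897255903) (nat_lit 1) (nat_lit 4) (nat_lit 2) (nat_lit 5) (nat_lit 2) (nat_lit 4) (nat_lit 340) (nat_lit 201) (nat_lit 179)) (XT.lf (nat_lit 0) (nat_lit 1682665237739) (nat_lit 76) (nat_lit 762696766241) (nat_lit 76) (nat_lit 762019806440) (nat_lit 1) (nat_lit 4) (nat_lit 2) (nat_lit 5) (nat_lit 2) (nat_lit 4) (nat_lit 341) (nat_lit 201) (nat_lit 178))))) (XT.nd (nat_lit 234)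 (nat_lit 0) (nat_lit 0) (XT.nd (nat_lit 78) (nat_lit 0) (nat_lit 0) (XT.lf (nat_lit 0) (nat_lit 116338211085) (nat_lit 76) (nat_lit 59058349823) (nat_lit 76) (nat_lit 59058349823) (nat_lit 1) (nat_lit 4) (nat_lit 2) (nat_lit 5) (nat_lit 2) (nat_lit 4) (nat_lit 316) (nat_lit 202) (nat_lit 202)) (XT.nd (nat_lit 78) (nat_lit 0) (nat_lit 0) (XT.lf (nat_lit 0) (nat_lit 252945631220) (nat_lit 76) (nat_lit 126734608335) (nat_lit 76) (nat_lit 126669334402) (nat_lit 1) (nat_lit 4) (nat_lit 2) (nat_lit 5) (nat_lit 2) (nat_lit 4) (nat_lit 317) (nat_lit 202) (nat_lit 201)) (XT.lf (nat_lit 0) (nat_lit 274755678491) (nat_lit 76) (nat_lit 136079050924) (nat_lit 76) (nat_lit 135953338165) (nat_lit 1) (nat_lit 4) (nat_lit 2) (nat_lit 5) (nat_lit 2) (nat_lit 4) (nat_lit 318) (nat_lit 202) (nat_lit 200)))) (XT.nd (nat_lit 78) (nat_lit 0) (nat_lit 0) (XT.lf (nat_lit 0) (nat_lit 298235808705) (nat_lit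 76) (nat_lit 146205401887) (nat_lit 76) (nat_lit 146023727252) (nat_lit 1) (nat_lit 4) (nat_lit 2) (nat_lit 5) (nat_lit 2) (nat_lit 4) (nat_lit 319) (nat_lit 202) (nat_lit 199)) (XT.nd (nat_lit 78) (nat_lit 0) (nat_lit 0) (XT.lf (nat_lit 0) (nat_lit 323525163377) (nat_lit 76) (nat_lit 157173669230) (nat_lit 76) (nat_lit 156940178043) (nat_lit 1) (nat_lit 4) (nat_lit 2) (nat_lit 5) (nat_lit 2) (nat_lit 4) (nat_lit 320) (nat_lit 202) (nat_lit 198)) (XT.lf (nat_lit 0) (nat_lit 350773605349) (nat_lit 76) (nat_lit 169048850093) (nat_lit 76) (nat_lit 168767380617) (nat_lit 1) (nat_lit 4) (nat_lit 2) (nat_lit 5) (nat_lit 2) (nat_lit 4) (nat_lit 321) (nat_lit 202) (nat_lit 197)))))) (XT.nd (nat_lit 468) (nat_lit 0) (nat_lit 0) (XT.nd (nat_lit 234) (nat_lit 0) (nat_lit 0) (XT.nd (nat_lit 78) (nat_lit 0) (nat_lit 0) (XT.lf (nat_lit 0) (nat_lit 380142606869) (nat_lit 76) (nat_lit 181901315918)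 (nat_lit 76) (nat_lit 181575422100) (nat_lit 1) (nat_lit 4) (nat_lit 2) (nat_lit 5) (nat_lit 2) (nat_lit 4) (nat_lit 322) (nat_lit 202) (nat_lit 196)) (XT.nd (nat_lit 78) (nat_lit 0) (nat_lit 0) (XT.lf (nat_lit 0) (nat_lit 411806206465) (nat_lit 76) (nat_lit 195807229465) (nat_lit 76) (nat_lit 195440201998) (nat_lit 1) (nat_lit 4) (nat_lit 2) (nat_lit 5) (nat_lit 2) (nat_lit 4) (nat_lit 323) (nat_lit 202) (nat_lit 195)) (XT.lf (nat_lit 0) (nat_lit 445952040282) (nat_lit 76) (nat_lit 210848996149) (nat_lit 76) (nat_lit 210443881969) (nat_lit 1) (nat_lit 4) (nat_lit 2) (nat_lit 5) (nat_lit 2) (nat_lit 4) (nat_lit 324) (nat_lit 202) (nat_lit 194)))) (XT.nd (nat_lit 78) (nat_lit 0) (nat_lit 0) (XT.lf (nat_lit 0) (nat_lit 482782454003) (nat_lit 76) (nat_lit 227115752363) (nat_lit 76) (nat_lit 226675372708) (nat_lit 1) (nat_lit 4) (nat_lit 2) (nat_lit 5) (nat_lit 2) (nat_lit 4) (nat_lit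 325) (nat_lit 202) (nat_lit 193)) (XT.nd (nat_lit 78) (nat_lit 0) (nat_lit 0) (XT.lf (nat_lit 0) (nat_lit 522515701930) (nat_lit 76) (nat_lit 244703893701) (nat_lit 76) (nat_lit 244230860829) (nat_lit 1) (nat_lit 4) (nat_lit 2) (nat_lit 5) (nat_lit 2) (nat_lit 4) (nat_lit 326) (nat_lit 202) (nat_lit 192)) (XT.lf (nat_lit 0) (nat_lit 565387240349) (nat_lit 76) (nat_lit 263717646186) (nat_lit 76) (nat_lit 263214378853) (nat_lit 1) (nat_lit 4) (nat_lit 2) (nat_lit 5) (nat_lit 2) (nat_lit 4) (nat_lit 327) (nat_lit 202) (nat_lit 191))))) (XT.nd (nat_lit 234) (nat_lit 0) (nat_lit 0) (XT.nd (nat_lit 78) (nat_lit 0) (nat_lit 0) (XT.lf (nat_lit 0) (nat_lit 611651122820) (nat_lit 76) (nat_lit 284269683905) (nat_lit 76) (nat_lit 283738421702) (nat_lit 1) (nat_lit 4) (nat_lit 2) (nat_lit 5) (nat_lit 2) (nat_lit 4) (nat_lit 328) (nat_lit 202) (nat_lit 190)) (XT.nd (nat_lit 78) (nat_lit 0) (nat_lit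 0) (XT.lf (nat_lit 0) (nat_lit 661581505683) (nat_lit 76) (nat_lit 306481796713) (nat_lit 76) (nat_lit 305924613333) (nat_lit 1) (nat_lit 4) (nat_lit 2) (nat_lit 5) (nat_lit 2) (nat_lit 4) (nat_lit 329) (nat_lit 202) (nat_lit 189)) (XT.lf (nat_lit 0) (nat_lit 715474272690) (nat_lit 76) (nat_lit 330485611944) (nat_lit 76) (nat_lit 329904427474) (nat_lit 1) (nat_lit 4) (nat_lit 2) (nat_lit 5) (nat_lit 2) (nat_lit 4) (nat_lit 330) (nat_lit 202) (nat_lit 188)))) (XT.nd (nat_lit 156) (nat_lit 0) (nat_lit 0) (XT.nd (nat_lit 78) (nat_lit 0) (nat_lit 0) (XT.lf (nat_lit 0) (nat_lit 773648788384) (nat_lit 76) (nat_lit 356423374429) (nat_lit 76) (nat_lit 355819966729) (nat_lit 1) (nat_lit 4) (nat_lit 2) (nat_lit 5) (nat_lit 2) (nat_lit 4) (nat_lit 331) (nat_lit 202) (nat_lit 187)) (XT.lf (nat_lit 0) (nat_lit 836449790637) (nat_lit 76) (nat_lit 384448789428) (nat_lit 76) (nat_lit 383824804662)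 (nat_lit 1) (nat_lit 4) (nat_lit 2) (nat_lit 5) (nat_lit 2) (nat_lit 4) (nat_lit 332) (nat_lit 202) (nat_lit 186))) (XT.nd (nat_lit 78) (nat_lit 0) (nat_lit 0) (XT.lf (nat_lit 0) (nat_lit 904249433537) (nat_lit 76) (nat_lit 414727933474) (nat_lit 76) (nat_lit 414084895869) (nat_lit 1) (nat_lit 4) (nat_lit 2) (nat_lit 5) (nat_lit 2) (nat_lit 4) (nat_lit 333) (nat_lit 202) (nat_lit 185)) (XT.lf (nat_lit 0) (nat_lit 977449492744) (nat_lit 76) (nat_lit 447440238532) (nat_lit 76) (nat_lit 446779559410) (nat_lit 1) (nat_lit 4) (nat_lit 2) (nat_lit 5) (nat_lit 2) (nat_lit 4) (nat_lit 334) (nat_lit 202) (nat_lit 184))))))) (XT.nd (nat_lit 36270) (nat_lit 0) (nat_lit 0) (XT.nd (nat_lit 468) (nat_lit 0) (nat_lit 0) (XT.nd (nat_lit 234) (nat_lit 0) (nat_lit 0) (XT.nd (nat_lit 78) (nat_lit 0) (nat_lit 0) (XT.lf (nat_lit 0) (nat_lit 1056483746389) (nat_lit 76) (nat_lit 482779555298) (nat_lit 76)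 (nat_lit 482102541437) (nat_lit 1) (nat_lit 4) (nat_lit 2) (nat_lit 5) (nat_lit 2) (nat_lit 4) (nat_lit 335) (nat_lit 202) (nat_lit 183)) (XT.nd (nat_lit 78) (nat_lit 0) (nat_lit 0) (XT.lf (nat_lit 0) (nat_lit 1141820545602) (nat_lit 76) (nat_lit 520955301945) (nat_lit 76) (nat_lit 520263163327) (nat_lit 1) (nat_lit 4) (nat_lit 2) (nat_lit 5) (nat_lit 2) (nat_lit 4) (nat_lit 336) (nat_lit 202) (nat_lit 182)) (XT.lf (nat_lit 0) (nat_lit 1233965589935) (nat_lit 76) (nat_lit 562193705121) (nat_lit 76) (nat_lit 561487562098) (nat_lit 1) (nat_lit 4) (nat_lit 2) (nat_lit 5) (nat_lit 2) (nat_lit 4) (nat_lit 337) (nat_lit 202) (nat_lit 181)))) (XT.nd (nat_lit 78) (nat_lit 0) (nat_lit 0) (XT.lf (nat_lit 0) (nat_lit 1333464924096) (nat_lit 76) (nat_lit 606739140548) (nat_lit 76) (nat_lit 606020030483) (nat_lit 1) (nat_lit 4) (nat_lit 2) (nat_lit 5) (nat_lit 2) (nat_lit 4) (nat_lit 338) (nat_lit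 202) (nat_lit 180)) (XT.nd (nat_lit 78) (nat_lit 0) (nat_lit 0) (XT.lf (nat_lit 0) (nat_lit 1440908173769) (nat_lit 76) (nat_lit 654855581177) (nat_lit 76) (nat_lit 654124464591) (nat_lit 1) (nat_lit 4) (nat_lit 2) (nat_lit 5) (nat_lit 2) (nat_lit 4) (nat_lit 339) (nat_lit 202) (nat_lit 179)) (XT.lf (nat_lit 0) (nat_lit 1556932039691) (nat_lit 76) (nat_lit 706828161470) (nat_lit 76) (nat_lit 706085927736) (nat_lit 1) (nat_lit 4) (nat_lit 2) (nat_lit 5) (nat_lit 2) (nat_lit 4) (nat_lit 340) (nat_lit 202) (nat_lit 178))))) (XT.nd (nat_lit 35568) (nat_lit 0) (nat_lit 0) (XT.nd (nat_lit 35412) (nat_lit 0) (nat_lit 0) (XT.lf (nat_lit 0) (nat_lit 1682224070698) (nat_lit 76) (nat_lit 762964867089) (nat_lit 76) (nat_lit 762212339699) (nat_lit 1) (nat_lit 4) (nat_lit 2) (nat_lit 5) (nat_lit 2) (nat_lit 4) (nat_lit 341) (nat_lit 202) (nat_lit 177)) (XT.nd (nat_lit 78) (nat_lit 0) (nat_lit 0)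 (XT.lf (nat_lit 0) (nat_lit 98166867875) (nat_lit 76) (nat_lit 51454950499) (nat_lit 76) (nat_lit 51454950499) (nat_lit 1) (nat_lit 4) (nat_lit 2) (nat_lit 5) (nat_lit 2) (nat_lit 4) (nat_lit 314) (nat_lit 203) (nat_lit 203)) (XT.lf (nat_lit 0) (nat_lit 213827937509) (nat_lit 76) (nat_lit 110244751614) (nat_lit 76) (nat_lit 110174255767) (nat_lit 1) (nat_lit 4) (nat_lit 2) (nat_lit 5) (nat_lit 2) (nat_lit 4) (nat_lit 315) (nat_lit 203) (nat_lit 202)))) (XT.nd (nat_lit 78) (nat_lit 0) (nat_lit 0) (XT.lf (nat_lit 0) (nat_lit 232634521024) (nat_lit 76) (nat_lit 118206459580) (nat_lit 76) (nat_lit 118070689800) (nat_lit 1) (nat_lit 4) (nat_lit 2) (nat_lit 5) (nat_lit 2) (nat_lit 4) (nat_lit 316) (nat_lit 203) (nat_lit 201)) (XT.nd (nat_lit 78) (nat_lit 0) (nat_lit 0) (XT.lf (nat_lit 0) (nat_lit 252864932717) (nat_lit 76) (nat_lit 126842205386) (nat_lit 76) (nat_lit 126645996780) (nat_lit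 1) (nat_lit 4) (nat_lit 2) (nat_lit 5) (nat_lit 2) (nat_lit 4) (nat_lit 317) (nat_lit 203) (nat_lit 200)) (XT.lf (nat_lit 0) (nat_lit 274639056507) (nat_lit 76) (nat_lit 136203163825) (nat_lit 76) (nat_lit 135950993343) (nat_lit 1) (nat_lit 4) (nat_lit 2) (nat_lit 5) (nat_lit 2) (nat_lit 4) (nat_lit 318) (nat_lit 203) (nat_lit 199)))))) (XT.nd (nat_lit 468) (nat_lit 0) (nat_lit 0) (XT.nd (nat_lit 234) (nat_lit 0) (nat_lit 0) (XT.nd (nat_lit 78) (nat_lit 0) (nat_lit 0) (XT.lf (nat_lit 0) (nat_lit 298085924241) (nat_lit 76) (nat_lit 146344807241) (nat_lit 76) (nat_lit 146040820207) (nat_lit 1) (nat_lit 4) (nat_lit 2) (nat_lit 5) (nat_lit 2) (nat_lit 4) (nat_lit 319) (nat_lit 203) (nat_lit 198)) (XT.nd (nat_lit 78) (nat_lit 0) (nat_lit 0) (XT.lf (nat_lit 0) (nat_lit 323344480320) (nat_lit 76) (nat_lit 157327234264) (nat_lit 76) (nat_lit 156975268940) (nat_lit 1) (nat_lit 4) (nat_lit 2)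 (nat_lit 5) (nat_lit 2) (nat_lit 4) (nat_lit 320) (nat_lit 203) (nat_lit 197)) (XT.lf (nat_lit 0) (nat_lit 350564405076) (nat_lit 76) (nat_lit 169215525941) (nat_lit 76) (nat_lit 168819136276) (nat_lit 1) (nat_lit 4) (nat_lit 2) (nat_lit 5) (nat_lit 2) (nat_lit 4) (nat_lit 321) (nat_lit 203) (nat_lit 196)))) (XT.nd (nat_lit 78) (nat_lit 0) (nat_lit 0) (XT.lf (nat_lit 0) (nat_lit 379907001766) (nat_lit 76) (nat_lit 182080131408) (nat_lit 76) (nat_lit 181642608093) (nat_lit 1) (nat_lit 4) (nat_lit 2) (nat_lit 5) (nat_lit 2) (nat_lit 4) (nat_lit 322) (nat_lit 203) (nat_lit 195)) (XT.nd (nat_lit 78) (nat_lit 0) (nat_lit 0) (XT.lf (nat_lit 0) (nat_lit 411546152445) (nat_lit 76) (nat_lit 195997285365) (nat_lit 76) (nat_lit 195521675338) (nat_lit 1) (nat_lit 4) (nat_lit 2) (nat_lit 5) (nat_lit 2) (nat_lit 4) (nat_lit 323) (nat_lit 203) (nat_lit 194)) (XT.lf (nat_lit 0) (nat_lit 445669348377)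 (nat_lit 76) (nat_lit 211049459835) (nat_lit 76) (nat_lit 210538584333) (nat_lit 1) (nat_lit 4) (nat_lit 2) (nat_lit 5) (nat_lit 2) (nat_lit 4) (nat_lit 324) (nat_lit 203) (nat_lit 193))))) (XT.nd (nat_lit 234) (nat_lit 0) (nat_lit 0) (XT.nd (nat_lit 78) (nat_lit 0) (nat_lit 0) (XT.lf (nat_lit 0) (nat_lit 482478801093) (nat_lit 76) (nat_lit 227325852889) (nat_lit 76) (nat_lit 226782324170) (nat_lit 1) (nat_lit 4) (nat_lit 2) (nat_lit 5) (nat_lit 2) (nat_lit 4) (nat_lit 325) (nat_lit 203) (nat_lit 192)) (XT.nd (nat_lit 78) (nat_lit 0) (nat_lit 0) (XT.lf (nat_lit 0) (nat_lit 522192640682) (nat_lit 76) (nat_lit 244922917227) (nat_lit 76) (nat_lit 244349154047) (nat_lit 1) (nat_lit 4) (nat_lit 2) (nat_lit 5) (nat_lit 2) (nat_lit 4) (nat_lit 326) (nat_lit 203) (nat_lit 191)) (XT.lf (nat_lit 0) (nat_lit 565046208418) (nat_lit 76) (nat_lit 263944931748) (nat_lit 76) (nat_lit 263343173698)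 (nat_lit 1) (nat_lit 4) (nat_lit 2) (nat_lit 5) (nat_lit 2) (nat_lit 4) (nat_lit 327) (nat_lit 203) (nat_lit 190)))) (XT.nd (nat_lit 156) (nat_lit 0) (nat_lit 0) (XT.nd (nat_lit 78) (nat_lit 0) (nat_lit 0) (XT.lf (nat_lit 0) (nat_lit 611293451367) (nat_lit 76) (nat_lit 284504619501) (nat_lit 76) (nat_lit 283876940274) (nat_lit 1) (nat_lit 4) (nat_lit 2) (nat_lit 5) (nat_lit 2) (nat_lit 4) (nat_lit 328) (nat_lit 203) (nat_lit 189)) (XT.lf (nat_lit 0) (nat_lit 661208427266) (nat_lit 76) (nat_lit 306723815674) (nat_lit 76) (nat_lit 306072135357) (nat_lit 1) (nat_lit 4) (nat_lit 2) (nat_lit 5) (nat_lit 2) (nat_lit 4) (nat_lit 329) (nat_lit 203) (nat_lit 188))) (XT.nd (nat_lit 78) (nat_lit 0) (nat_lit 0) (XT.lf (nat_lit 0) (nat_lit 715086928564) (nat_lit 76) (nat_lit 330734189576) (nat_lit 76) (nat_lit 330060286028) (nat_lit 1) (nat_lit 4) (nat_lit 2) (nat_lit 5) (nat_lit 2) (nat_lit 4)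 (nat_lit 330) (nat_lit 203) (nat_lit 187)) (XT.lf (nat_lit 0) (nat_lit 773248235270) (nat_lit 76) (nat_lit 356678024905) (nat_lit 76) (nat_lit 355983544292) (nat_lit 1) (nat_lit 4) (nat_lit 2) (nat_lit 5) (nat_lit 2) (nat_lit 4) (nat_lit 331) (nat_lit 203) (nat_lit 186))))))))
noncomputable def xc4 : XT := (XT.nd (nat_lit 37128) (nat_lit 0) (nat_lit 0) (XT.nd (nat_lit 36114) (nat_lit 0) (nat_lit 0) (XT.nd (nat_lit 468) (nat_lit 0) (nat_lit 0) (XT.nd (nat_lit 234) (nat_lit 0) (nat_lit 0) (XT.nd (nat_lit 78) (nat_lit 0) (nat_lit 0) (XT.lf (nat_lit 0) (nat_lit 836037006978) (nat_lit 76) (nat_lit 384709062908) (nat_lit 76) (nat_lit 383995529455) (nat_lit 1) (nat_lit 4) (nat_lit 2) (nat_lit 5) (nat_lit 2) (nat_lit 4) (nat_lit 332) (nat_lit 203) (nat_lit 185)) (XT.nd (nat_lit 78) (nat_lit 0) (nat_lit 0) (XT.lf (nat_lit 0) (nat_lit 903825325298) (nat_lit 76) (nat_lit 414993413438) (nat_lit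 76) (nat_lit 414262238469) (nat_lit 1) (nat_lit 4) (nat_lit 2) (nat_lit 5) (nat_lit 2) (nat_lit 4) (nat_lit 333) (nat_lit 203) (nat_lit 184)) (XT.lf (nat_lit 0) (nat_lit 977014898785) (nat_lit 76) (nat_lit 447710539315) (nat_lit 76) (nat_lit 446963029607) (nat_lit 1) (nat_lit 4) (nat_lit 2) (nat_lit 5) (nat_lit 2) (nat_lit 4) (nat_lit 334) (nat_lit 203) (nat_lit 183)))) (XT.nd (nat_lit 78) (nat_lit 0) (nat_lit 0) (XT.lf (nat_lit 0) (nat_lit 1056039443428) (nat_lit 76) (nat_lit 483054319802) (nat_lit 76) (nat_lit 482291685337) (nat_lit 1) (nat_lit 4) (nat_lit 2) (nat_lit 5) (nat_lit 2) (nat_lit 4) (nat_lit 335) (nat_lit 203) (nat_lit 182)) (XT.nd (nat_lit 78) (nat_lit 0) (nat_lit 0) (XT.lf (nat_lit 0) (nat_lit 1141367252825) (nat_lit 76) (nat_lit 521234199525) (nat_lit 76) (nat_lit 520457560654) (nat_lit 1) (nat_lit 4) (nat_lit 2) (nat_lit 5) (nat_lit 2) (nat_lit 4) (nat_lit 336) (nat_lit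 203) (nat_lit 181)) (XT.lf (nat_lit 0) (nat_lit 1233503973255) (nat_lit 76) (nat_lit 562476429622) (nat_lit 76) (nat_lit 561686823710) (nat_lit 1) (nat_lit 4) (nat_lit 2) (nat_lit 5) (nat_lit 2) (nat_lit 4) (nat_lit 337) (nat_lit 203) (nat_lit 180))))) (XT.nd (nat_lit 234) (nat_lit 0) (nat_lit 0) (XT.nd (nat_lit 78) (nat_lit 0) (nat_lit 0) (XT.lf (nat_lit 0) (nat_lit 1332995600098) (nat_lit 76) (nat_lit 607025408495) (nat_lit 76) (nat_lit 606223796063) (nat_lit 1) (nat_lit 4) (nat_lit 2) (nat_lit 5) (nat_lit 2) (nat_lit 4) (nat_lit 338) (nat_lit 203) (nat_lit 179)) (XT.nd (nat_lit 78) (nat_lit 0) (nat_lit 0) (XT.lf (nat_lit 0) (nat_lit 1440431713365) (nat_lit 76) (nat_lit 655145130092) (nat_lit 76) (nat_lit 654332400511) (nat_lit 1) (nat_lit 4) (nat_lit 2) (nat_lit 5) (nat_lit 2) (nat_lit 4) (nat_lit 339) (nat_lit 203) (nat_lit 178)) (XT.lf (nat_lit 0) (nat_lit 1556448971504) (nat_lit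 76) (nat_lit 707120748320) (nat_lit 76) (nat_lit 706297725083) (nat_lit 1) (nat_lit 4) (nat_lit 2) (nat_lit 5) (nat_lit 2) (nat_lit 4) (nat_lit 340) (nat_lit 203) (nat_lit 177)))) (XT.nd (nat_lit 35256) (nat_lit 0) (nat_lit 0) (XT.lf (nat_lit 0) (nat_lit 1681734884194) (nat_lit 76) (nat_lit 763260266840) (nat_lit 76) (nat_lit 762427712440) (nat_lit 1) (nat_lit 4) (nat_lit 2) (nat_lit 5) (nat_lit 2) (nat_lit 4) (nat_lit 341) (nat_lit 203) (nat_lit 176)) (XT.nd (nat_lit 78) (nat_lit 0) (nat_lit 0) (XT.lf (nat_lit 0) (nat_lit 82461918182) (nat_lit 76) (nat_lit 45002015856) (nat_lit 76) (nat_lit 45002015856) (nat_lit 1) (nat_lit 4) (nat_lit 2) (nat_lit 5) (nat_lit 2) (nat_lit 4) (nat_lit 312) (nat_lit 204) (nat_lit 204)) (XT.lf (nat_lit 0) (nat_lit 180048246405) (nat_lit 76) (nat_lit 96234577468) (nat_lit 76) (nat_lit 96158441953) (nat_lit 1) (nat_lit 4) (nat_lit 2) (nat_lit 5) (nat_lit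 2) (nat_lit 4) (nat_lit 313) (nat_lit 204) (nat_lit 203)))))) (XT.nd (nat_lit 468) (nat_lit 0) (nat_lit 0) (XT.nd (nat_lit 234) (nat_lit 0) (nat_lit 0) (XT.nd (nat_lit 78) (nat_lit 0) (nat_lit 0) (XT.lf (nat_lit 0) (nat_lit 196288482512) (nat_lit 76) (nat_lit 103006841728) (nat_lit 76) (nat_lit 102860210366) (nat_lit 1) (nat_lit 4) (nat_lit 2) (nat_lit 5) (nat_lit 2) (nat_lit 4) (nat_lit 314) (nat_lit 204) (nat_lit 202)) (XT.nd (nat_lit 78) (nat_lit 0) (nat_lit 0) (XT.lf (nat_lit 0) (nat_lit 213740783125) (nat_lit 76) (nat_lit 110360956430) (nat_lit 76) (nat_lit 110149051136) (nat_lit 1) (nat_lit 4) (nat_lit 2) (nat_lit 5) (nat_lit 2) (nat_lit 4) (nat_lit 315) (nat_lit 204) (nat_lit 201)) (XT.lf (nat_lit 0) (nat_lit 232508569282) (nat_lit 76) (nat_lit 118340501513) (nat_lit 76) (nat_lit 118068157392) (nat_lit 1) (nat_lit 4) (nat_lit 2) (nat_lit 5) (nat_lit 2) (nat_lit 4) (nat_lit 316)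 (nat_lit 204) (nat_lit 200)))) (XT.nd (nat_lit 78) (nat_lit 0) (nat_lit 0) (XT.lf (nat_lit 0) (nat_lit 252703057495) (nat_lit 76) (nat_lit 126992763169) (nat_lit 76) (nat_lit 126664457172) (nat_lit 1) (nat_lit 4) (nat_lit 2) (nat_lit 5) (nat_lit 2) (nat_lit 4) (nat_lit 317) (nat_lit 204) (nat_lit 199)) (XT.nd (nat_lit 78) (nat_lit 0) (nat_lit 0) (XT.lf (nat_lit 0) (nat_lit 274443918806) (nat_lit 76) (nat_lit 136369014061) (nat_lit 76) (nat_lit 135988891512) (nat_lit 1) (nat_lit 4) (nat_lit 2) (nat_lit 5) (nat_lit 2) (nat_lit 4) (nat_lit 318) (nat_lit 204) (nat_lit 198)) (XT.lf (nat_lit 0) (nat_lit 297859987946) (nat_lit 76) (nat_lit 146524817157) (nat_lit 76) (nat_lit 146096716319) (nat_lit 1) (nat_lit 4) (nat_lit 2) (nat_lit 5) (nat_lit 2) (nat_lit 4) (nat_lit 319) (nat_lit 204) (nat_lit 197))))) (XT.nd (nat_lit 234) (nat_lit 0) (nat_lit 0) (XT.nd (nat_lit 78) (nat_lit 0) (nat_lit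 0) (XT.lf (nat_lit 0) (nat_lit 323090026809) (nat_lit 76) (nat_lit 157520354993) (nat_lit 76) (nat_lit 157047829813) (nat_lit 1) (nat_lit 4) (nat_lit 2) (nat_lit 5) (nat_lit 2) (nat_lit 4) (nat_lit 320) (nat_lit 204) (nat_lit 196)) (XT.nd (nat_lit 78) (nat_lit 0) (nat_lit 0) (XT.lf (nat_lit 0) (nat_lit 350283546735) (nat_lit 76) (nat_lit 169420786312) (nat_lit 76) (nat_lit 168907127483) (nat_lit 1) (nat_lit 4) (nat_lit 2) (nat_lit 5) (nat_lit 2) (nat_lit 4) (nat_lit 321) (nat_lit 204) (nat_lit 195)) (XT.lf (nat_lit 0) (nat_lit 379601694508) (nat_lit 76) (nat_lit 182296632189) (nat_lit 76) (nat_lit 181744886647) (nat_lit 1) (nat_lit 4) (nat_lit 2) (nat_lit 5) (nat_lit 2) (nat_lit 4) (nat_lit 322) (nat_lit 204) (nat_lit 194)))) (XT.nd (nat_lit 156) (nat_lit 0) (nat_lit 0) (XT.nd (nat_lit 78) (nat_lit 0) (nat_lit 0) (XT.lf (nat_lit 0) (nat_lit 411218207302) (nat_lit 76) (nat_lit 196224193933)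 (nat_lit 76) (nat_lit 195637182916) (nat_lit 1) (nat_lit 4) (nat_lit 2) (nat_lit 5) (nat_lit 2) (nat_lit 4) (nat_lit 323) (nat_lit 204) (nat_lit 193)) (XT.lf (nat_lit 0) (nat_lit 445320442229) (nat_lit 76) (nat_lit 211286005243) (nat_lit 76) (nat_lit 210666341009) (nat_lit 1) (nat_lit 4) (nat_lit 2) (nat_lit 5) (nat_lit 2) (nat_lit 4) (nat_lit 324) (nat_lit 204) (nat_lit 192))) (XT.nd (nat_lit 78) (nat_lit 0) (nat_lit 0) (XT.lf (nat_lit 0) (nat_lit 482110486606) (nat_lit 76) (nat_lit 227571321297) (nat_lit 76) (nat_lit 226921422602) (nat_lit 1) (nat_lit 4) (nat_lit 2) (nat_lit 5) (nat_lit 2) (nat_lit 4) (nat_lit 325) (nat_lit 204) (nat_lit 191)) (XT.lf (nat_lit 0) (nat_lit 521806355513) (nat_lit 76) (nat_lit 245176647671) (nat_lit 76) (nat_lit 244498754106) (nat_lit 1) (nat_lit 4) (nat_lit 2) (nat_lit 5) (nat_lit 2) (nat_lit 4) (nat_lit 326) (nat_lit 204) (nat_lit 190))))))) (XT.nd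 (nat_lit 936) (nat_lit 0) (nat_lit 0) (XT.nd (nat_lit 468) (nat_lit 0) (nat_lit 0) (XT.nd (nat_lit 234) (nat_lit 0) (nat_lit 0) (XT.nd (nat_lit 78) (nat_lit 0) (nat_lit 0) (XT.lf (nat_lit 0) (nat_lit 564643283726) (nat_lit 76) (nat_lit 264206312226) (nat_lit 76) (nat_lit 263502497484) (nat_lit 1) (nat_lit 4) (nat_lit 2) (nat_lit 5) (nat_lit 2) (nat_lit 4) (nat_lit 327) (nat_lit 204) (nat_lit 189)) (XT.nd (nat_lit 78) (nat_lit 0) (nat_lit 0) (XT.lf (nat_lit 0) (nat_lit 610875119711) (nat_lit 76) (nat_lit 284773083344) (nat_lit 76) (nat_lit 284045267513) (nat_lit 1) (nat_lit 4) (nat_lit 2) (nat_lit 5) (nat_lit 2) (nat_lit 4) (nat_lit 328) (nat_lit 204) (nat_lit 188)) (XT.lf (nat_lit 0) (nat_lit 660775829902) (nat_lit 76) (nat_lit 306998838188) (nat_lit 76) (nat_lit 306248799125) (nat_lit 1) (nat_lit 4) (nat_lit 2) (nat_lit 5) (nat_lit 2) (nat_lit 4) (nat_lit 329) (nat_lit 204) (nat_lit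 187)))) (XT.nd (nat_lit 78) (nat_lit 0) (nat_lit 0) (XT.lf (nat_lit 0) (nat_lit 714641122212) (nat_lit 76) (nat_lit 331015284934) (nat_lit 76) (nat_lit 330244668805) (nat_lit 1) (nat_lit 4) (nat_lit 2) (nat_lit 5) (nat_lit 2) (nat_lit 4) (nat_lit 330) (nat_lit 204) (nat_lit 186)) (XT.nd (nat_lit 78) (nat_lit 0) (nat_lit 0) (XT.lf (nat_lit 0) (nat_lit 772790198372) (nat_lit 76) (nat_lit 356964743266) (nat_lit 76) (nat_lit 356175074299) (nat_lit 1) (nat_lit 4) (nat_lit 2) (nat_lit 5) (nat_lit 2) (nat_lit 4) (nat_lit 331) (nat_lit 204) (nat_lit 185)) (XT.lf (nat_lit 0) (nat_lit 835567645501) (nat_lit 76) (nat_lit 385000987753) (nat_lit 76) (nat_lit 384193677269) (nat_lit 1) (nat_lit 4) (nat_lit 2) (nat_lit 5) (nat_lit 2) (nat_lit 4) (nat_lit 332) (nat_lit 204) (nat_lit 184))))) (XT.nd (nat_lit 234) (nat_lit 0) (nat_lit 0) (XT.nd (nat_lit 78) (nat_lit 0) (nat_lit 0) (XT.lf (nat_lit 0)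 (nat_lit 903345478101) (nat_lit 76) (nat_lit 415290159103) (nat_lit 76) (nat_lit 414466513880) (nat_lit 1) (nat_lit 4) (nat_lit 2) (nat_lit 5) (nat_lit 2) (nat_lit 4) (nat_lit 333) (nat_lit 204) (nat_lit 183)) (XT.nd (nat_lit 78) (nat_lit 0) (nat_lit 0) (XT.lf (nat_lit 0) (nat_lit 976525342586) (nat_lit 76) (nat_lit 448011748701) (nat_lit 76) (nat_lit 447172978721) (nat_lit 1) (nat_lit 4) (nat_lit 2) (nat_lit 5) (nat_lit 2) (nat_lit 4) (nat_lit 334) (nat_lit 204) (nat_lit 182)) (XT.lf (nat_lit 0) (nat_lit 1055540897413) (nat_lit 76) (nat_lit 483359662263) (nat_lit 76) (nat_lit 482506887878) (nat_lit 1) (nat_lit 4) (nat_lit 2) (nat_lit 5) (nat_lit 2) (nat_lit 4) (nat_lit 335) (nat_lit 204) (nat_lit 181)))) (XT.nd (nat_lit 78) (nat_lit 0) (nat_lit 0) (XT.lf (nat_lit 0) (nat_lit 1140860382907) (nat_lit 76) (nat_lit 521543368908) (nat_lit 76) (nat_lit 520677627480) (nat_lit 1) (nat_lit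 4) (nat_lit 2) (nat_lit 5) (nat_lit 2) (nat_lit 4) (nat_lit 336) (nat_lit 204) (nat_lit 180)) (XT.nd (nat_lit 78) (nat_lit 0) (nat_lit 0) (XT.lf (nat_lit 0) (nat_lit 1232989396019) (nat_lit 76) (nat_lit 562789142451) (nat_lit 76) (nat_lit 561911394504) (nat_lit 1) (nat_lit 4) (nat_lit 2) (nat_lit 5) (nat_lit 2) (nat_lit 4) (nat_lit 337) (nat_lit 204) (nat_lit 179)) (XT.lf (nat_lit 0) (nat_lit 1332473886456) (nat_lit 76) (nat_lit 607341402293) (nat_lit 76) (nat_lit 606452537197) (nat_lit 1) (nat_lit 4) (nat_lit 2) (nat_lit 5) (nat_lit 2) (nat_lit 4) (nat_lit 338) (nat_lit 204) (nat_lit 178)))))) (XT.nd (nat_lit 35490) (nat_lit 0) (nat_lit 0) (XT.nd (nat_lit 35256) (nat_lit 0) (nat_lit 0) (XT.nd (nat_lit 78) (nat_lit 0) (nat_lit 0) (XT.lf (nat_lit 0) (nat_lit 1439903391940) (nat_lit 76) (nat_lit 655464161823) (nat_lit 76) (nat_lit 654565003072) (nat_lit 1) (nat_lit 4) (nat_lit 2) (nat_lit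 5) (nat_lit 2) (nat_lit 4) (nat_lit 339) (nat_lit 204) (nat_lit 177)) (XT.nd (nat_lit 78) (nat_lit 0) (nat_lit 0) (XT.lf (nat_lit 0) (nat_lit 1555914531762) (nat_lit 76) (nat_lit 707442592952) (nat_lit 76) (nat_lit 706533903038) (nat_lit 1) (nat_lit 4) (nat_lit 2) (nat_lit 5) (nat_lit 2) (nat_lit 4) (nat_lit 340) (nat_lit 204) (nat_lit 176)) (XT.lf (nat_lit 0) (nat_lit 1681194779343) (nat_lit 76) (nat_lit 763584716011) (nat_lit 76) (nat_lit 762667200946) (nat_lit 1) (nat_lit 4) (nat_lit 2) (nat_lit 5) (nat_lit 2) (nat_lit 4) (nat_lit 341) (nat_lit 204) (nat_lit 175)))) (XT.nd (nat_lit 78) (nat_lit 0) (nat_lit 0) (XT.lf (nat_lit 0) (nat_lit 68861427259) (nat_lit 76) (nat_lit 39540679626) (nat_lit 76) (nat_lit 39540679626) (nat_lit 1) (nat_lit 4) (nat_lit 2) (nat_lit 5) (nat_lit 2) (nat_lit 4) (nat_lit 310) (nat_lit 205) (nat_lit 205)) (XT.nd (nat_lit 78) (nat_lit 0) (nat_lit 0) (XT.lf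 (nat_lit 0) (nat_lit 150825626260) (nat_lit 76) (nat_lit 84360509067) (nat_lit 76) (nat_lit 84278282711) (nat_lit 1) (nat_lit 4) (nat_lit 2) (nat_lit 5) (nat_lit 2) (nat_lit 4) (nat_lit 311) (nat_lit 205) (nat_lit 204)) (XT.lf (nat_lit 0) (nat_lit 164874962868) (nat_lit 76) (nat_lit 90108727700) (nat_lit 76) (nat_lit 89950365829) (nat_lit 1) (nat_lit 4) (nat_lit 2) (nat_lit 5) (nat_lit 2) (nat_lit 4) (nat_lit 312) (nat_lit 205) (nat_lit 203))))) (XT.nd (nat_lit 234) (nat_lit 0) (nat_lit 0) (XT.nd (nat_lit 78) (nat_lit 0) (nat_lit 0) (XT.lf (nat_lit 0) (nat_lit 179954119670) (nat_lit 76) (nat_lit 96360078669) (nat_lit 76) (nat_lit 96131220951) (nat_lit 1) (nat_lit 4) (nat_lit 2) (nat_lit 5) (nat_lit 2) (nat_lit 4) (nat_lit 313) (nat_lit 205) (nat_lit 202)) (XT.nd (nat_lit 78) (nat_lit 0) (nat_lit 0) (XT.lf (nat_lit 0) (nat_lit 196152454631) (nat_lit 76) (nat_lit 103151607016) (nat_lit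 76) (nat_lit 102857475366) (nat_lit 1) (nat_lit 4) (nat_lit 2) (nat_lit 5) (nat_lit 2) (nat_lit 4) (nat_lit 314) (nat_lit 205) (nat_lit 201)) (XT.lf (nat_lit 0) (nat_lit 213565957886) (nat_lit 76) (nat_lit 110523558836) (nat_lit 76) (nat_lit 110168988359) (nat_lit 1) (nat_lit 4) (nat_lit 2) (nat_lit 5) (nat_lit 2) (nat_lit 4) (nat_lit 315) (nat_lit 205) (nat_lit 200)))) (XT.nd (nat_lit 156) (nat_lit 0) (nat_lit 0) (XT.nd (nat_lit 78) (nat_lit 0) (nat_lit 0) (XT.lf (nat_lit 0) (nat_lit 232297820564) (nat_lit 76) (nat_lit 118519619768) (nat_lit 76) (nat_lit 118109087415) (nat_lit 1) (nat_lit 4) (nat_lit 2) (nat_lit 5) (nat_lit 2) (nat_lit 4) (nat_lit 316) (nat_lit 205) (nat_lit 199)) (XT.lf (nat_lit 0) (nat_lit 252459046297) (nat_lit 76) (nat_lit 127187173878) (nat_lit 76) (nat_lit 126724824973) (nat_lit 1) (nat_lit 4) (nat_lit 2) (nat_lit 5) (nat_lit 2) (nat_lit 4) (nat_lit 317) (nat_lit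 205) (nat_lit 198))) (XT.nd (nat_lit 78) (nat_lit 0) (nat_lit 0) (XT.lf (nat_lit 0) (nat_lit 274169109013) (nat_lit 76) (nat_lit 136577584449) (nat_lit 76) (nat_lit 136067257254) (nat_lit 1) (nat_lit 4) (nat_lit 2) (nat_lit 5) (nat_lit 2) (nat_lit 4) (nat_lit 318) (nat_lit 205) (nat_lit 197)) (XT.lf (nat_lit 0) (nat_lit 297556660938) (nat_lit 76) (nat_lit 146746498358) (nat_lit 76) (nat_lit 146191746822) (nat_lit 1) (nat_lit 4) (nat_lit 2) (nat_lit 5) (nat_lit 2) (nat_lit 4) (nat_lit 319) (nat_lit 205) (nat_lit 196))))))))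
noncomputable def xc5 : XT := (XT.nd (nat_lit 36894) (nat_lit 0) (nat_lit 0) (XT.nd (nat_lit 936) (nat_lit 0) (nat_lit 0) (XT.nd (nat_lit 468) (nat_lit 0) (nat_lit 0) (XT.nd (nat_lit 234) (nat_lit 0) (nat_lit 0) (XT.nd (nat_lit 78) (nat_lit 0) (nat_lit 0) (XT.lf (nat_lit 0) (nat_lit 322760294971) (nat_lit 76) (nat_lit 157754175837) (nat_lit 76) (nat_lit 157158290651) (nat_lit 1) (nat_lit 4) (nat_lit 2) (nat_lit 5) (nat_lit 2) (nat_lit 4) (nat_lit 320) (nat_lit 205) (nat_lit 195)) (XT.nd (nat_lit 78) (nat_lit 0) (nat_lit 0) (XT.lf (nat_lit 0) (nat_lit 349929365980) (nat_lit 76) (nat_lit 169665847566) (nat_lit 76) (nat_lit 169031875668) (nat_lit 1) (nat_lit 4) (nat_lit 2) (nat_lit 5) (nat_lit 2) (nat_lit 4) (nat_lit 321) (nat_lit 205) (nat_lit 194)) (XT.lf (nat_lit 0) (nat_lit 379224875869) (nat_lit 76) (nat_lit 182552101230) (nat_lit 76) (nat_lit 181882863857) (nat_lit 1) (nat_lit 4)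 (nat_lit 2) (nat_lit 5) (nat_lit 2) (nat_lit 4) (nat_lit 322) (nat_lit 205) (nat_lit 193)))) (XT.nd (nat_lit 78) (nat_lit 0) (nat_lit 0) (XT.lf (nat_lit 0) (nat_lit 410820427657) (nat_lit 76) (nat_lit 196489299813) (nat_lit 76) (nat_lit 195787409223) (nat_lit 1) (nat_lit 4) (nat_lit 2) (nat_lit 5) (nat_lit 2) (nat_lit 4) (nat_lit 323) (nat_lit 205) (nat_lit 192)) (XT.nd (nat_lit 78) (nat_lit 0) (nat_lit 0) (XT.lf (nat_lit 0) (nat_lit 444903254246) (nat_lit 76) (nat_lit 211560034123) (nat_lit 76) (nat_lit 210827909072) (nat_lit 1) (nat_lit 4) (nat_lit 2) (nat_lit 5) (nat_lit 2) (nat_lit 4) (nat_lit 324) (nat_lit 205) (nat_lit 191)) (XT.lf (nat_lit 0) (nat_lit 481675327940) (nat_lit 76) (nat_lit 227853612213) (nat_lit 76) (nat_lit 227093492292) (nat_lit 1) (nat_lit 4) (nat_lit 2) (nat_lit 5) (nat_lit 2) (nat_lit 4) (nat_lit 325) (nat_lit 205) (nat_lit 190))))) (XT.nd (nat_lit 234) (nat_lit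 0) (nat_lit 0) (XT.nd (nat_lit 78) (nat_lit 0) (nat_lit 0) (XT.lf (nat_lit 0) (nat_lit 521354557325) (nat_lit 76) (nat_lit 245466588621) (nat_lit 76) (nat_lit 244680547523) (nat_lit 1) (nat_lit 4) (nat_lit 2) (nat_lit 5) (nat_lit 2) (nat_lit 4) (nat_lit 326) (nat_lit 205) (nat_lit 189)) (XT.nd (nat_lit 78) (nat_lit 0) (nat_lit 0) (XT.lf (nat_lit 0) (nat_lit 564176078574) (nat_lit 76) (nat_lit 264503336541) (nat_lit 76) (nat_lit 263693294354) (nat_lit 1) (nat_lit 4) (nat_lit 2) (nat_lit 5) (nat_lit 2) (nat_lit 4) (nat_lit 327) (nat_lit 205) (nat_lit 188)) (XT.lf (nat_lit 0) (nat_lit 610393648850) (nat_lit 76) (nat_lit 285076666331) (nat_lit 76) (nat_lit 284244400912) (nat_lit 1) (nat_lit 4) (nat_lit 2) (nat_lit 5) (nat_lit 2) (nat_lit 4) (nat_lit 328) (nat_lit 205) (nat_lit 187)))) (XT.nd (nat_lit 78) (nat_lit 0) (nat_lit 0) (XT.lf (nat_lit 0) (nat_lit 660281150053) (nat_lit 76) (nat_lit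 307308494018) (nat_lit 76) (nat_lit 306455651533) (nat_lit 1) (nat_lit 4) (nat_lit 2) (nat_lit 5) (nat_lit 2) (nat_lit 4) (nat_lit 329) (nat_lit 205) (nat_lit 186)) (XT.nd (nat_lit 78) (nat_lit 0) (nat_lit 0) (XT.lf (nat_lit 0) (nat_lit 714134211817) (nat_lit 76) (nat_lit 331330563767) (nat_lit 76) (nat_lit 330458668444) (nat_lit 1) (nat_lit 4) (nat_lit 2) (nat_lit 5) (nat_lit 2) (nat_lit 4) (nat_lit 330) (nat_lit 205) (nat_lit 185)) (XT.lf (nat_lit 0) (nat_lit 772271963399) (nat_lit 76) (nat_lit 357285228584) (nat_lit 76) (nat_lit 356395691744) (nat_lit 1) (nat_lit 4) (nat_lit 2) (nat_lit 5) (nat_lit 2) (nat_lit 4) (nat_lit 331) (nat_lit 205) (nat_lit 184)))))) (XT.nd (nat_lit 468) (nat_lit 0) (nat_lit 0) (XT.nd (nat_lit 234) (nat_lit 0) (nat_lit 0) (XT.nd (nat_lit 78) (nat_lit 0) (nat_lit 0) (XT.lf (nat_lit 0) (nat_lit 835038924807) (nat_lit 76) (nat_lit 385326293890) (nat_lit 76)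 (nat_lit 384420422311) (nat_lit 1) (nat_lit 4) (nat_lit 2) (nat_lit 5) (nat_lit 2) (nat_lit 4) (nat_lit 332) (nat_lit 205) (nat_lit 183)) (XT.nd (nat_lit 78) (nat_lit 0) (nat_lit 0) (XT.lf (nat_lit 0) (nat_lit 902807048405) (nat_lit 76) (nat_lit 415619928961) (nat_lit 76) (nat_lit 414698932625) (nat_lit 1) (nat_lit 4) (nat_lit 2) (nat_lit 5) (nat_lit 2) (nat_lit 4) (nat_lit 333) (nat_lit 205) (nat_lit 182)) (XT.lf (nat_lit 0) (nat_lit 975977923075) (nat_lit 76) (nat_lit 448345651634) (nat_lit 76) (nat_lit 447410650893) (nat_lit 1) (nat_lit 4) (nat_lit 2) (nat_lit 5) (nat_lit 2) (nat_lit 4) (nat_lit 334) (nat_lit 205) (nat_lit 181)))) (XT.nd (nat_lit 78) (nat_lit 0) (nat_lit 0) (XT.lf (nat_lit 0) (nat_lit 1054985153998) (nat_lit 76) (nat_lit 483697392118) (nat_lit 76) (nat_lit 482749424335) (nat_lit 1) (nat_lit 4) (nat_lit 2) (nat_lit 5) (nat_lit 2) (nat_lit 4) (nat_lit 335) (nat_lit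 205) (nat_lit 180)) (XT.nd (nat_lit 78) (nat_lit 0) (nat_lit 0) (XT.lf (nat_lit 0) (nat_lit 1140296932174) (nat_lit 76) (nat_lit 521884642209) (nat_lit 76) (nat_lit 520924667905) (nat_lit 1) (nat_lit 4) (nat_lit 2) (nat_lit 5) (nat_lit 2) (nat_lit 4) (nat_lit 336) (nat_lit 205) (nat_lit 179)) (XT.lf (nat_lit 0) (nat_lit 1232418808881) (nat_lit 76) (nat_lit 563133696721) (nat_lit 76) (nat_lit 562162605269) (nat_lit 1) (nat_lit 4) (nat_lit 2) (nat_lit 5) (nat_lit 2) (nat_lit 4) (nat_lit 337) (nat_lit 205) (nat_lit 178))))) (XT.nd (nat_lit 35178) (nat_lit 0) (nat_lit 0) (XT.nd (nat_lit 78) (nat_lit 0) (nat_lit 0) (XT.lf (nat_lit 0) (nat_lit 1331896691535) (nat_lit 76) (nat_lit 607688994496) (nat_lit 76) (nat_lit 606707609388) (nat_lit 1) (nat_lit 4) (nat_lit 2) (nat_lit 5) (nat_lit 2) (nat_lit 4) (nat_lit 338) (nat_lit 205) (nat_lit 177)) (XT.nd (nat_lit 78) (nat_lit 0) (nat_lit 0) (XT.lf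 (nat_lit 0) (nat_lit 1439320078701) (nat_lit 76) (nat_lit 655814566928) (nat_lit 76) (nat_lit 654823650658) (nat_lit 1) (nat_lit 4) (nat_lit 2) (nat_lit 5) (nat_lit 2) (nat_lit 4) (nat_lit 339) (nat_lit 205) (nat_lit 176)) (XT.lf (nat_lit 0) (nat_lit 1555325553413) (nat_lit 76) (nat_lit 707795602596) (nat_lit 76) (nat_lit 706795861174) (nat_lit 1) (nat_lit 4) (nat_lit 2) (nat_lit 5) (nat_lit 2) (nat_lit 4) (nat_lit 340) (nat_lit 205) (nat_lit 175)))) (XT.nd (nat_lit 156) (nat_lit 0) (nat_lit 0) (XT.nd (nat_lit 78) (nat_lit 0) (nat_lit 0) (XT.lf (nat_lit 0) (nat_lit 57054288303) (nat_lit 76) (nat_lit 34935160419) (nat_lit 76) (nat_lit 34935160419) (nat_lit 1) (nat_lit 4) (nat_lit 2) (nat_lit 5) (nat_lit 2) (nat_lit 4) (nat_lit 308) (nat_lit 206) (nat_lit 206)) (XT.lf (nat_lit 0) (nat_lit 125489001586) (nat_lit 76) (nat_lit 74328798868) (nat_lit 76) (nat_lit 74239994403) (nat_lit 1)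 (nat_lit 4) (nat_lit 2) (nat_lit 5) (nat_lit 2) (nat_lit 4) (nat_lit 309) (nat_lit 206) (nat_lit 205))) (XT.nd (nat_lit 78) (nat_lit 0) (nat_lit 0) (XT.lf (nat_lit 0) (nat_lit 137670071141) (nat_lit 76) (nat_lit 79194430918) (nat_lit 76) (nat_lit 79023400097) (nat_lit 1) (nat_lit 4) (nat_lit 2) (nat_lit 5) (nat_lit 2) (nat_lit 4) (nat_lit 310) (nat_lit 206) (nat_lit 204)) (XT.lf (nat_lit 0) (nat_lit 150723969386) (nat_lit 76) (nat_lit 84496050364) (nat_lit 76) (nat_lit 84248884029) (nat_lit 1) (nat_lit 4) (nat_lit 2) (nat_lit 5) (nat_lit 2) (nat_lit 4) (nat_lit 311) (nat_lit 206) (nat_lit 203))))))) (XT.nd (nat_lit 936) (nat_lit 0) (nat_lit 0) (XT.nd (nat_lit 468) (nat_lit 0) (nat_lit 0) (XT.nd (nat_lit 234) (nat_lit 0) (nat_lit 0) (XT.nd (nat_lit 78) (nat_lit 0) (nat_lit 0) (XT.lf (nat_lit 0) (nat_lit 164728052756) (nat_lit 76) (nat_lit 90265074211) (nat_lit 76) (nat_lit 89947412029)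 (nat_lit 1) (nat_lit 4) (nat_lit 2) (nat_lit 5) (nat_lit 2) (nat_lit 4) (nat_lit 312) (nat_lit 206) (nat_lit 202)) (XT.nd (nat_lit 78) (nat_lit 0) (nat_lit 0) (XT.lf (nat_lit 0) (nat_lit 179765308412) (nat_lit 76) (nat_lit 96535689267) (nat_lit 76) (nat_lit 96152753152) (nat_lit 1) (nat_lit 4) (nat_lit 2) (nat_lit 5) (nat_lit 2) (nat_lit 4) (nat_lit 313) (nat_lit 206) (nat_lit 201)) (XT.lf (nat_lit 0) (nat_lit 195924846016) (nat_lit 76) (nat_lit 103345054732) (nat_lit 76) (nat_lit 102901679790) (nat_lit 1) (nat_lit 4) (nat_lit 2) (nat_lit 5) (nat_lit 2) (nat_lit 4) (nat_lit 314) (nat_lit 206) (nat_lit 200)))) (XT.nd (nat_lit 78) (nat_lit 0) (nat_lit 0) (XT.lf (nat_lit 0) (nat_lit 213302425791) (nat_lit 76) (nat_lit 110733522401) (nat_lit 76) (nat_lit 110234185583) (nat_lit 1) (nat_lit 4) (nat_lit 2) (nat_lit 5) (nat_lit 2) (nat_lit 4) (nat_lit 315) (nat_lit 206) (nat_lit 199)) (XT.nd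 (nat_lit 78) (nat_lit 0) (nat_lit 0) (XT.lf (nat_lit 0) (nat_lit 232001025989) (nat_lit 76) (nat_lit 118744875786) (nat_lit 76) (nat_lit 118193722417) (nat_lit 1) (nat_lit 4) (nat_lit 2) (nat_lit 5) (nat_lit 2) (nat_lit 4) (nat_lit 316) (nat_lit 206) (nat_lit 198)) (XT.lf (nat_lit 0) (nat_lit 252131453128) (nat_lit 76) (nat_lit 127426589575) (nat_lit 76) (nat_lit 126827457917) (nat_lit 1) (nat_lit 4) (nat_lit 2) (nat_lit 5) (nat_lit 2) (nat_lit 4) (nat_lit 317) (nat_lit 206) (nat_lit 197))))) (XT.nd (nat_lit 234) (nat_lit 0) (nat_lit 0) (XT.nd (nat_lit 78) (nat_lit 0) (nat_lit 0) (XT.lf (nat_lit 0) (nat_lit 273812998628) (nat_lit 76) (nat_lit 136830110960) (nat_lit 76) (nat_lit 136186554960) (nat_lit 1) (nat_lit 4) (nat_lit 2) (nat_lit 5) (nat_lit 2) (nat_lit 4) (nat_lit 318) (nat_lit 206) (nat_lit 196)) (XT.nd (nat_lit 78) (nat_lit 0) (nat_lit 0) (XT.lf (nat_lit 0) (nat_lit 297174145723)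 (nat_lit 76) (nat_lit 147011164512) (nat_lit 76) (nat_lit 146326474862) (nat_lit 1) (nat_lit 4) (nat_lit 2) (nat_lit 5) (nat_lit 2) (nat_lit 4) (nat_lit 319) (nat_lit 206) (nat_lit 195)) (XT.lf (nat_lit 0) (nat_lit 322353330840) (nat_lit 76) (nat_lit 158030082400) (nat_lit 76) (nat_lit 157307306038) (nat_lit 1) (nat_lit 4) (nat_lit 2) (nat_lit 5) (nat_lit 2) (nat_lit 4) (nat_lit 320) (nat_lit 206) (nat_lit 194)))) (XT.nd (nat_lit 78) (nat_lit 0) (nat_lit 0) (XT.lf (nat_lit 0) (nat_lit 349499763964) (nat_lit 76) (nat_lit 169952161916) (nat_lit 76) (nat_lit 169194120079) (nat_lit 1) (nat_lit 4) (nat_lit 2) (nat_lit 5) (nat_lit 2) (nat_lit 4) (nat_lit 321) (nat_lit 206) (nat_lit 193)) (XT.nd (nat_lit 78) (nat_lit 0) (nat_lit 0) (XT.lf (nat_lit 0) (nat_lit 378774312847) (nat_lit 76) (nat_lit 182848052420) (nat_lit 76) (nat_lit 182057357365) (nat_lit 1) (nat_lit 4) (nat_lit 2) (nat_lit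 5) (nat_lit 2) (nat_lit 4) (nat_lit 322) (nat_lit 206) (nat_lit 192)) (XT.lf (nat_lit 0) (nat_lit 410350456297) (nat_lit 76) (nat_lit 196794174003) (nat_lit 76) (nat_lit 195973244488) (nat_lit 1) (nat_lit 4) (nat_lit 2) (nat_lit 5) (nat_lit 2) (nat_lit 4) (nat_lit 323) (nat_lit 206) (nat_lit 191)))))) (XT.nd (nat_lit 468) (nat_lit 0) (nat_lit 0) (XT.nd (nat_lit 234) (nat_lit 0) (nat_lit 0) (XT.nd (nat_lit 78) (nat_lit 0) (nat_lit 0) (XT.lf (nat_lit 0) (nat_lit 444415312203) (nat_lit 76) (nat_lit 211873170349) (nat_lit 76) (nat_lit 211024245963) (nat_lit 1) (nat_lit 4) (nat_lit 2) (nat_lit 5) (nat_lit 2) (nat_lit 4) (nat_lit 324) (nat_lit 206) (nat_lit 190)) (XT.nd (nat_lit 78) (nat_lit 0) (nat_lit 0) (XT.lf (nat_lit 0) (nat_lit 481170746375) (nat_lit 76) (nat_lit 228174398473) (nat_lit 76) (nat_lit 227299552911) (nat_lit 1) (nat_lit 4) (nat_lit 2) (nat_lit 5) (nat_lit 2) (nat_lit 4)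 (nat_lit 325) (nat_lit 206) (nat_lit 189)) (XT.lf (nat_lit 0) (nat_lit 520834568795) (nat_lit 76) (nat_lit 245794458247) (nat_lit 76) (nat_lit 244895611594) (nat_lit 1) (nat_lit 4) (nat_lit 2) (nat_lit 5) (nat_lit 2) (nat_lit 4) (nat_lit 326) (nat_lit 206) (nat_lit 188)))) (XT.nd (nat_lit 78) (nat_lit 0) (nat_lit 0) (XT.lf (nat_lit 0) (nat_lit 563641824336) (nat_lit 76) (nat_lit 264837764837) (nat_lit 76) (nat_lit 263916694954) (nat_lit 1) (nat_lit 4) (nat_lit 2) (nat_lit 5) (nat_lit 2) (nat_lit 4) (nat_lit 327) (nat_lit 206) (nat_lit 187)) (XT.nd (nat_lit 78) (nat_lit 0) (nat_lit 0) (XT.lf (nat_lit 0) (nat_lit 609846185624) (nat_lit 76) (nat_lit 285417167470) (nat_lit 76) (nat_lit 284475520522) (nat_lit 1) (nat_lit 4) (nat_lit 2) (nat_lit 5) (nat_lit 2) (nat_lit 4) (nat_lit 328) (nat_lit 206) (nat_lit 186)) (XT.lf (nat_lit 0) (nat_lit 659721456281) (nat_lit 76) (nat_lit 307654618161)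 (nat_lit 76) (nat_lit 306693918373) (nat_lit 1) (nat_lit 4) (nat_lit 2) (nat_lit 5) (nat_lit 2) (nat_lit 4) (nat_lit 329) (nat_lit 206) (nat_lit 185))))) (XT.nd (nat_lit 234) (nat_lit 0) (nat_lit 0) (XT.nd (nat_lit 78) (nat_lit 0) (nat_lit 0) (XT.lf (nat_lit 0) (nat_lit 713563193467) (nat_lit 76) (nat_lit 331681894395) (nat_lit 76) (nat_lit 330703553090) (nat_lit 1) (nat_lit 4) (nat_lit 2) (nat_lit 5) (nat_lit 2) (nat_lit 4) (nat_lit 330) (nat_lit 206) (nat_lit 184)) (XT.nd (nat_lit 78) (nat_lit 0) (nat_lit 0) (XT.lf (nat_lit 0) (nat_lit 771690459327) (nat_lit 76) (nat_lit 357641380031) (nat_lit 76) (nat_lit 356646703988) (nat_lit 1) (nat_lit 4) (nat_lit 2) (nat_lit 5) (nat_lit 2) (nat_lit 4) (nat_lit 331) (nat_lit 206) (nat_lit 183)) (XT.lf (nat_lit 0) (nat_lit 834447711734) (nat_lit 76) (nat_lit 385686909058) (nat_lit 76) (nat_lit 384677108258) (nat_lit 1) (nat_lit 4) (nat_lit 2)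 (nat_lit 5) (nat_lit 2) (nat_lit 4) (nat_lit 332) (nat_lit 206) (nat_lit 182)))) (XT.nd (nat_lit 156) (nat_lit 0) (nat_lit 0) (XT.nd (nat_lit 78) (nat_lit 0) (nat_lit 0) (XT.lf (nat_lit 0) (nat_lit 902206845517) (nat_lit 76) (nat_lit 415984677205) (nat_lit 76) (nat_lit 414960871999) (nat_lit 1) (nat_lit 4) (nat_lit 2) (nat_lit 5) (nat_lit 2) (nat_lit 4) (nat_lit 333) (nat_lit 206) (nat_lit 181)) (XT.lf (nat_lit 0) (nat_lit 975369396283) (nat_lit 76) (nat_lit 448714226799) (nat_lit 76) (nat_lit 447677454552) (nat_lit 1) (nat_lit 4) (nat_lit 2) (nat_lit 5) (nat_lit 2) (nat_lit 4) (nat_lit 334) (nat_lit 206) (nat_lit 180))) (XT.nd (nat_lit 78) (nat_lit 0) (nat_lit 0) (XT.lf (nat_lit 0) (nat_lit 1054368919889) (nat_lit 76) (nat_lit 484069510729) (nat_lit 76) (nat_lit 483020731961) (nat_lit 1) (nat_lit 4) (nat_lit 2) (nat_lit 5) (nat_lit 2) (nat_lit 4) (nat_lit 335) (nat_lit 206) (nat_lit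 179)) (XT.lf (nat_lit 0) (nat_lit 1139673561659) (nat_lit 76) (nat_lit 522260041788) (nat_lit 76) (nat_lit 521200145872) (nat_lit 1) (nat_lit 4) (nat_lit 2) (nat_lit 5) (nat_lit 2) (nat_lit 4) (nat_lit 336) (nat_lit 206) (nat_lit 178))))))))
noncomputable def xc6 : XT := (XT.nd (nat_lit 36738) (nat_lit 0) (nat_lit 0) (XT.nd (nat_lit 35724) (nat_lit 0) (nat_lit 0) (XT.nd (nat_lit 35256) (nat_lit 0) (nat_lit 0) (XT.nd (nat_lit 234) (nat_lit 0) (nat_lit 0) (XT.nd (nat_lit 78) (nat_lit 0) (nat_lit 0) (XT.lf (nat_lit 0) (nat_lit 1231788830582) (nat_lit 76) (nat_lit 563512134234) (nat_lit 76) (nat_lit 562441944662) (nat_lit 1) (nat_lit 4) (nat_lit 2) (nat_lit 5) (nat_lit 2) (nat_lit 4) (nat_lit 337) (nat_lit 206) (nat_lit 177)) (XT.nd (nat_lit 78) (nat_lit 0) (nat_lit 0) (XT.lf (nat_lit 0) (nat_lit 1331260594919) (nat_lit 76) (nat_lit 608070244911) (nat_lit 76) (nat_lit 606990524176) (nat_lit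 1) (nat_lit 4) (nat_lit 2) (nat_lit 5) (nat_lit 2) (nat_lit 4) (nat_lit 338) (nat_lit 206) (nat_lit 176)) (XT.lf (nat_lit 0) (nat_lit 1438678316976) (nat_lit 76) (nat_lit 656198421882) (nat_lit 76) (nat_lit 655109875996) (nat_lit 1) (nat_lit 4) (nat_lit 2) (nat_lit 5) (nat_lit 2) (nat_lit 4) (nat_lit 339) (nat_lit 206) (nat_lit 175)))) (XT.nd (nat_lit 34866) (nat_lit 0) (nat_lit 0) (XT.lf (nat_lit 0) (nat_lit 1554678546217) (nat_lit 76) (nat_lit 708181869159) (nat_lit 76) (nat_lit 707085151837) (nat_lit 1) (nat_lit 4) (nat_lit 2) (nat_lit 5) (nat_lit 2) (nat_lit 4) (nat_lit 340) (nat_lit 206) (nat_lit 174)) (XT.nd (nat_lit 78) (nat_lit 0) (nat_lit 0) (XT.lf (nat_lit 0) (nat_lit 46772906799) (nat_lit 76) (nat_lit 31069502080) (nat_lit 76) (nat_lit 31069502080) (nat_lit 1) (nat_lit 4) (nat_lit 2) (nat_lit 5) (nat_lit 2) (nat_lit 4) (nat_lit 306) (nat_lit 207) (nat_lit 207)) (XT.lf (nat_lit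 0) (nat_lit 103461356646) (nat_lit 76) (nat_lit 65888485044) (nat_lit 76) (nat_lit 65792576222) (nat_lit 1) (nat_lit 4) (nat_lit 2) (nat_lit 5) (nat_lit 2) (nat_lit 4) (nat_lit 307) (nat_lit 207) (nat_lit 206))))) (XT.nd (nat_lit 234) (nat_lit 0) (nat_lit 0) (XT.nd (nat_lit 78) (nat_lit 0) (nat_lit 0) (XT.lf (nat_lit 0) (nat_lit 114051570560) (nat_lit 76) (nat_lit 69992438239) (nat_lit 76) (nat_lit 69807724953) (nat_lit 1) (nat_lit 4) (nat_lit 2) (nat_lit 5) (nat_lit 2) (nat_lit 4) (nat_lit 308) (nat_lit 207) (nat_lit 205)) (XT.nd (nat_lit 78) (nat_lit 0) (nat_lit 0) (XT.lf (nat_lit 0) (nat_lit 125379212163) (nat_lit 76) (nat_lit 74475183469) (nat_lit 76) (nat_lit 74208243826) (nat_lit 1) (nat_lit 4) (nat_lit 2) (nat_lit 5) (nat_lit 2) (nat_lit 4) (nat_lit 309) (nat_lit 207) (nat_lit 204)) (XT.lf (nat_lit 0) (nat_lit 137511408220) (nat_lit 76) (nat_lit 79363285150) (nat_lit 76) (nat_lit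 79020209993) (nat_lit 1) (nat_lit 4) (nat_lit 2) (nat_lit 5) (nat_lit 2) (nat_lit 4) (nat_lit 310) (nat_lit 207) (nat_lit 203)))) (XT.nd (nat_lit 78) (nat_lit 0) (nat_lit 0) (XT.lf (nat_lit 0) (nat_lit 150520053228) (nat_lit 76) (nat_lit 84685709810) (nat_lit 76) (nat_lit 84272138806) (nat_lit 1) (nat_lit 4) (nat_lit 2) (nat_lit 5) (nat_lit 2) (nat_lit 4) (nat_lit 311) (nat_lit 207) (nat_lit 202)) (XT.nd (nat_lit 78) (nat_lit 0) (nat_lit 0) (XT.lf (nat_lit 0) (nat_lit 164482235452) (nat_lit 76) (nat_lit 90473997744) (nat_lit 76) (nat_lit 89995152807) (nat_lit 1) (nat_lit 4) (nat_lit 2) (nat_lit 5) (nat_lit 2) (nat_lit 4) (nat_lit 312) (nat_lit 207) (nat_lit 201)) (XT.lf (nat_lit 0) (nat_lit 179480693749) (nat_lit 76) (nat_lit 96762449917) (nat_lit 76) (nat_lit 96223166154) (nat_lit 1) (nat_lit 4) (nat_lit 2) (nat_lit 5) (nat_lit 2) (nat_lit 4) (nat_lit 313) (nat_lit 207) (nat_lit 200))))))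 (XT.nd (nat_lit 468) (nat_lit 0) (nat_lit 0) (XT.nd (nat_lit 234) (nat_lit 0) (nat_lit 0) (XT.nd (nat_lit 78) (nat_lit 0) (nat_lit 0) (XT.lf (nat_lit 0) (nat_lit 195604307874) (nat_lit 76) (nat_lit 103588331232) (nat_lit 76) (nat_lit 102993085592) (nat_lit 1) (nat_lit 4) (nat_lit 2) (nat_lit 5) (nat_lit 2) (nat_lit 4) (nat_lit 314) (nat_lit 207) (nat_lit 199)) (XT.nd (nat_lit 78) (nat_lit 0) (nat_lit 0) (XT.lf (nat_lit 0) (nat_lit 212948625169) (nat_lit 76) (nat_lit 110992091354) (nat_lit 76) (nat_lit 110345029163) (nat_lit 1) (nat_lit 4) (nat_lit 2) (nat_lit 5) (nat_lit 2) (nat_lit 4) (nat_lit 315) (nat_lit 207) (nat_lit 198)) (XT.lf (nat_lit 0) (nat_lit 231616426773) (nat_lit 76) (nat_lit 119017604419) (nat_lit 76) (nat_lit 118322563938) (nat_lit 1) (nat_lit 4) (nat_lit 2) (nat_lit 5) (nat_lit 2) (nat_lit 4) (nat_lit 316) (nat_lit 207) (nat_lit 197)))) (XT.nd (nat_lit 78) (nat_lit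 0) (nat_lit 0) (XT.lf (nat_lit 0) (nat_lit 251718336696) (nat_lit 76) (nat_lit 127712429021) (nat_lit 76) (nat_lit 126972964199) (nat_lit 1) (nat_lit 4) (nat_lit 2) (nat_lit 5) (nat_lit 2) (nat_lit 4) (nat_lit 317) (nat_lit 207) (nat_lit 196)) (XT.nd (nat_lit 78) (nat_lit 0) (nat_lit 0) (XT.lf (nat_lit 0) (nat_lit 273373477367) (nat_lit 76) (nat_lit 137128090049) (nat_lit 76) (nat_lit 136347491577) (nat_lit 1) (nat_lit 4) (nat_lit 2) (nat_lit 5) (nat_lit 2) (nat_lit 4) (nat_lit 318) (nat_lit 207) (nat_lit 195)) (XT.lf (nat_lit 0) (nat_lit 296710175545) (nat_lit 76) (nat_lit 147320384010) (nat_lit 76) (nat_lit 146501698826) (nat_lit 1) (nat_lit 4) (nat_lit 2) (nat_lit 5) (nat_lit 2) (nat_lit 4) (nat_lit 319) (nat_lit 207) (nat_lit 194))))) (XT.nd (nat_lit 234) (nat_lit 0) (nat_lit 0) (XT.nd (nat_lit 78) (nat_lit 0) (nat_lit 0) (XT.lf (nat_lit 0) (nat_lit 321866722776) (nat_lit 76) (nat_lit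 158349709686) (nat_lit 76) (nat_lit 157495759026) (nat_lit 1) (nat_lit 4) (nat_lit 2) (nat_lit 5) (nat_lit 2) (nat_lit 4) (nat_lit 320) (nat_lit 207) (nat_lit 193)) (XT.nd (nat_lit 78) (nat_lit 0) (nat_lit 0) (XT.lf (nat_lit 0) (nat_lit 348992194895) (nat_lit 76) (nat_lit 170281426041) (nat_lit 76) (nat_lit 169394822165) (nat_lit 1) (nat_lit 4) (nat_lit 2) (nat_lit 5) (nat_lit 2) (nat_lit 4) (nat_lit 321) (nat_lit 207) (nat_lit 192)) (XT.lf (nat_lit 0) (nat_lit 378247335440) (nat_lit 76) (nat_lit 183186239544) (nat_lit 76) (nat_lit 182269401207) (nat_lit 1) (nat_lit 4) (nat_lit 2) (nat_lit 5) (nat_lit 2) (nat_lit 4) (nat_lit 322) (nat_lit 207) (nat_lit 191)))) (XT.nd (nat_lit 156) (nat_lit 0) (nat_lit 0) (XT.nd (nat_lit 78) (nat_lit 0) (nat_lit 0) (XT.lf (nat_lit 0) (nat_lit 409805508207) (nat_lit 76) (nat_lit 197140623164) (nat_lit 76) (nat_lit 196195789956) (nat_lit 1) (nat_lit 4)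 (nat_lit 2) (nat_lit 5) (nat_lit 2) (nat_lit 4) (nat_lit 323) (nat_lit 207) (nat_lit 190)) (XT.lf (nat_lit 0) (nat_lit 443853724591) (nat_lit 76) (nat_lit 212227269544) (nat_lit 76) (nat_lit 211256515160) (nat_lit 1) (nat_lit 4) (nat_lit 2) (nat_lit 5) (nat_lit 2) (nat_lit 4) (nat_lit 324) (nat_lit 207) (nat_lit 189))) (XT.nd (nat_lit 78) (nat_lit 0) (nat_lit 0) (XT.lf (nat_lit 0) (nat_lit 480593751799) (nat_lit 76) (nat_lit 228535581033) (nat_lit 76) (nat_lit 227540825559) (nat_lit 1) (nat_lit 4) (nat_lit 2) (nat_lit 5) (nat_lit 2) (nat_lit 4) (nat_lit 325) (nat_lit 207) (nat_lit 188)) (XT.lf (nat_lit 0) (nat_lit 520243308511) (nat_lit 76) (nat_lit 246162199478) (nat_lit 76) (nat_lit 245145220773) (nat_lit 1) (nat_lit 4) (nat_lit 2) (nat_lit 5) (nat_lit 2) (nat_lit 4) (nat_lit 326) (nat_lit 207) (nat_lit 187))))))) (XT.nd (nat_lit 936) (nat_lit 0) (nat_lit 0) (XT.nd (nat_lit 468)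 (nat_lit 0) (nat_lit 0) (XT.nd (nat_lit 234) (nat_lit 0) (nat_lit 0) (XT.nd (nat_lit 78) (nat_lit 0) (nat_lit 0) (XT.lf (nat_lit 0) (nat_lit 563037355063) (nat_lit 76) (nat_lit 265211578912) (nat_lit 76) (nat_lit 264174023142) (nat_lit 1) (nat_lit 4) (nat_lit 2) (nat_lit 5) (nat_lit 2) (nat_lit 4) (nat_lit 327) (nat_lit 207) (nat_lit 186)) (XT.nd (nat_lit 78) (nat_lit 0) (nat_lit 0) (XT.lf (nat_lit 0) (nat_lit 609229485806) (nat_lit 76) (nat_lit 285796604548) (nat_lit 76) (nat_lit 284739995939) (nat_lit 1) (nat_lit 4) (nat_lit 2) (nat_lit 5) (nat_lit 2) (nat_lit 4) (nat_lit 328) (nat_lit 207) (nat_lit 185)) (XT.lf (nat_lit 0) (nat_lit 659093431884) (nat_lit 76) (nat_lit 308039261724) (nat_lit 76) (nat_lit 306965011597) (nat_lit 1) (nat_lit 4) (nat_lit 2) (nat_lit 5) (nat_lit 2) (nat_lit 4) (nat_lit 329) (nat_lit 207) (nat_lit 184)))) (XT.nd (nat_lit 78) (nat_lit 0) (nat_lit 0) (XT.lf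 (nat_lit 0) (nat_lit 712924683349) (nat_lit 76) (nat_lit 332071358776) (nat_lit 76) (nat_lit 330980773912) (nat_lit 1) (nat_lit 4) (nat_lit 2) (nat_lit 5) (nat_lit 2) (nat_lit 4) (nat_lit 330) (nat_lit 207) (nat_lit 183)) (XT.nd (nat_lit 78) (nat_lit 0) (nat_lit 0) (XT.lf (nat_lit 0) (nat_lit 771042240208) (nat_lit 76) (nat_lit 358035308134) (nat_lit 76) (nat_lit 356929598511) (nat_lit 1) (nat_lit 4) (nat_lit 2) (nat_lit 5) (nat_lit 2) (nat_lit 4) (nat_lit 331) (nat_lit 207) (nat_lit 182)) (XT.lf (nat_lit 0) (nat_lit 833790502799) (nat_lit 76) (nat_lit 386084970237) (nat_lit 76) (nat_lit 384965256209) (nat_lit 1) (nat_lit 4) (nat_lit 2) (nat_lit 5) (nat_lit 2) (nat_lit 4) (nat_lit 332) (nat_lit 207) (nat_lit 181))))) (XT.nd (nat_lit 234) (nat_lit 0) (nat_lit 0) (XT.nd (nat_lit 78) (nat_lit 0) (nat_lit 0) (XT.lf (nat_lit 0) (nat_lit 901541312678) (nat_lit 76) (nat_lit 416386565305)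 (nat_lit 76) (nat_lit 415253884235) (nat_lit 1) (nat_lit 4) (nat_lit 2) (nat_lit 5) (nat_lit 2) (nat_lit 4) (nat_lit 333) (nat_lit 207) (nat_lit 180)) (XT.nd (nat_lit 78) (nat_lit 0) (nat_lit 0) (XT.lf (nat_lit 0) (nat_lit 974696156126) (nat_lit 76) (nat_lit 449119658345) (nat_lit 76) (nat_lit 447974970756) (nat_lit 1) (nat_lit 4) (nat_lit 2) (nat_lit 5) (nat_lit 2) (nat_lit 4) (nat_lit 334) (nat_lit 207) (nat_lit 179)) (XT.lf (nat_lit 0) (nat_lit 1053688543326) (nat_lit 76) (nat_lit 484478223244) (nat_lit 76) (nat_lit 483322418506) (nat_lit 1) (nat_lit 4) (nat_lit 2) (nat_lit 5) (nat_lit 2) (nat_lit 4) (nat_lit 335) (nat_lit 207) (nat_lit 178)))) (XT.nd (nat_lit 78) (nat_lit 0) (nat_lit 0) (XT.lf (nat_lit 0) (nat_lit 1138986577314) (nat_lit 76) (nat_lit 522671792236) (nat_lit 76) (nat_lit 521505693842) (nat_lit 1) (nat_lit 4) (nat_lit 2) (nat_lit 5) (nat_lit 2) (nat_lit 4) (nat_lit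 336) (nat_lit 207) (nat_lit 177)) (XT.nd (nat_lit 78) (nat_lit 0) (nat_lit 0) (XT.lf (nat_lit 0) (nat_lit 1231095727919) (nat_lit 76) (nat_lit 563926697584) (nat_lit 76) (nat_lit 562751068027) (nat_lit 1) (nat_lit 4) (nat_lit 2) (nat_lit 5) (nat_lit 2) (nat_lit 4) (nat_lit 337) (nat_lit 207) (nat_lit 176)) (XT.lf (nat_lit 0) (nat_lit 1330561827147) (nat_lit 76) (nat_lit 608487412799) (nat_lit 76) (nat_lit 607302958091) (nat_lit 1) (nat_lit 4) (nat_lit 2) (nat_lit 5) (nat_lit 2) (nat_lit 4) (nat_lit 338) (nat_lit 207) (nat_lit 175)))))) (XT.nd (nat_lit 35100) (nat_lit 0) (nat_lit 0) (XT.nd (nat_lit 34866) (nat_lit 0) (nat_lit 0) (XT.nd (nat_lit 78) (nat_lit 0) (nat_lit 0) (XT.lf (nat_lit 0) (nat_lit 1437974303733) (nat_lit 76) (nat_lit 656618001380) (nat_lit 76) (nat_lit 655425375236) (nat_lit 1) (nat_lit 4) (nat_lit 2) (nat_lit 5) (nat_lit 2) (nat_lit 4) (nat_lit 339) (nat_lit 207)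 (nat_lit 174)) (XT.nd (nat_lit 34710) (nat_lit 0) (nat_lit 0) (XT.lf (nat_lit 0) (nat_lit 1553969676057) (nat_lit 76) (nat_lit 708603681629) (nat_lit 76) (nat_lit 707403489341) (nat_lit 1) (nat_lit 4) (nat_lit 2) (nat_lit 5) (nat_lit 2) (nat_lit 4) (nat_lit 340) (nat_lit 207) (nat_lit 173)) (XT.lf (nat_lit 0) (nat_lit 37786923355) (nat_lit 76) (nat_lit 27844781748) (nat_lit 76) (nat_lit 27844781748) (nat_lit 1) (nat_lit 4) (nat_lit 2) (nat_lit 5) (nat_lit 2) (nat_lit 4) (nat_lit 304) (nat_lit 208) (nat_lit 208)))) (XT.nd (nat_lit 78) (nat_lit 0) (nat_lit 0) (XT.lf (nat_lit 0) (nat_lit 84246182644) (nat_lit 76) (nat_lit 58825357971) (nat_lit 76) (nat_lit 58721776444) (nat_lit 1) (nat_lit 4) (nat_lit 2) (nat_lit 5) (nat_lit 2) (nat_lit 4) (nat_lit 305) (nat_lit 208) (nat_lit 207)) (XT.nd (nat_lit 78) (nat_lit 0) (nat_lit 0) (XT.lf (nat_lit 0) (nat_lit 93484247068) (nat_lit 76) (nat_lit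 62270890952) (nat_lit 76) (nat_lit 62071400603) (nat_lit 1) (nat_lit 4) (nat_lit 2) (nat_lit 5) (nat_lit 2) (nat_lit 4) (nat_lit 306) (nat_lit 208) (nat_lit 206)) (XT.lf (nat_lit 0) (nat_lit 103342784069) (nat_lit 76) (nat_lit 66046580413) (nat_lit 76) (nat_lit 65758285599) (nat_lit 1) (nat_lit 4) (nat_lit 2) (nat_lit 5) (nat_lit 2) (nat_lit 4) (nat_lit 307) (nat_lit 208) (nat_lit 205))))) (XT.nd (nat_lit 234) (nat_lit 0) (nat_lit 0) (XT.nd (nat_lit 78) (nat_lit 0) (nat_lit 0) (XT.lf (nat_lit 0) (nat_lit 113880214605) (nat_lit 76) (nat_lit 70174800809) (nat_lit 76) (nat_lit 69804279640) (nat_lit 1) (nat_lit 4) (nat_lit 2) (nat_lit 5) (nat_lit 2) (nat_lit 4) (nat_lit 308) (nat_lit 208) (nat_lit 204)) (XT.nd (nat_lit 78) (nat_lit 0) (nat_lit 0) (XT.lf (nat_lit 0) (nat_lit 125158982712) (nat_lit 76) (nat_lit 74680015670) (nat_lit 76) (nat_lit 74233358986) (nat_lit 1) (nat_lit 4) (nat_lit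 2) (nat_lit 5) (nat_lit 2) (nat_lit 4) (nat_lit 309) (nat_lit 208) (nat_lit 203)) (XT.lf (nat_lit 0) (nat_lit 137245925531) (nat_lit 76) (nat_lit 79588922565) (nat_lit 76) (nat_lit 79071770033) (nat_lit 1) (nat_lit 4) (nat_lit 2) (nat_lit 5) (nat_lit 2) (nat_lit 4) (nat_lit 310) (nat_lit 208) (nat_lit 202)))) (XT.nd (nat_lit 156) (nat_lit 0) (nat_lit 0) (XT.nd (nat_lit 78) (nat_lit 0) (nat_lit 0) (XT.lf (nat_lit 0) (nat_lit 150212669392) (nat_lit 76) (nat_lit 84930611312) (nat_lit 76) (nat_lit 84348184848) (nat_lit 1) (nat_lit 4) (nat_lit 2) (nat_lit 5) (nat_lit 2) (nat_lit 4) (nat_lit 311) (nat_lit 208) (nat_lit 201)) (XT.lf (nat_lit 0) (nat_lit 164136054259) (nat_lit 76) (nat_lit 90736736364) (nat_lit 76) (nat_lit 90093871074) (nat_lit 1) (nat_lit 4) (nat_lit 2) (nat_lit 5) (nat_lit 2) (nat_lit 4) (nat_lit 312) (nat_lit 208) (nat_lit 200))) (XT.nd (nat_lit 78) (nat_lit 0) (nat_lit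 0) (XT.lf (nat_lit 0) (nat_lit 179098589077) (nat_lit 76) (nat_lit 97041704387) (nat_lit 76) (nat_lit 96342877220) (nat_lit 1) (nat_lit 4) (nat_lit 2) (nat_lit 5) (nat_lit 2) (nat_lit 4) (nat_lit 313) (nat_lit 208) (nat_lit 199)) (XT.lf (nat_lit 0) (nat_lit 195188940721) (nat_lit 76) (nat_lit 103882878155) (nat_lit 76) (nat_lit 103132234436) (nat_lit 1) (nat_lit 4) (nat_lit 2) (nat_lit 5) (nat_lit 2) (nat_lit 4) (nat_lit 314) (nat_lit 208) (nat_lit 198))))))))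
noncomputable def xc7 : XT := (XT.nd (nat_lit 1950) (nat_lit 0) (nat_lit 0) (XT.nd (nat_lit 936) (nat_lit 0) (nat_lit 0) (XT.nd (nat_lit 468) (nat_lit 0) (nat_lit 0) (XT.nd (nat_lit 234) (nat_lit 0) (nat_lit 0) (XT.nd (nat_lit 78) (nat_lit 0) (nat_lit 0) (XT.lf (nat_lit 0) (nat_lit 212502459422) (nat_lit 76) (nat_lit 111300797956) (nat_lit 76) (nat_lit 110502175948) (nat_lit 1) (nat_lit 4) (nat_lit 2) (nat_lit 5) (nat_lit 2) (nat_lit 4) (nat_lit 315) (nat_lit 208) (nat_lit 197)) (XT.nd (nat_lit 78) (nat_lit 0) (nat_lit 0) (XT.lf (nat_lit 0) (nat_lit 231141743810) (nat_lit 76) (nat_lit 119339421835) (nat_lit 76) (nat_lit 118496375485) (nat_lit 1) (nat_lit 4) (nat_lit 2) (nat_lit 5) (nat_lit 2) (nat_lit 4) (nat_lit 316) (nat_lit 208) (nat_lit 196)) (XT.lf (nat_lit 0) (nat_lit 251217248903) (nat_lit 76) (nat_lit 128046386080) (nat_lit 76) (nat_lit 127162206081) (nat_lit 1) (nat_lit 4)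 (nat_lit 2) (nat_lit 5) (nat_lit 2) (nat_lit 4) (nat_lit 317) (nat_lit 208) (nat_lit 195)))) (XT.nd (nat_lit 78) (nat_lit 0) (nat_lit 0) (XT.lf (nat_lit 0) (nat_lit 272847940658) (nat_lit 76) (nat_lit 137473287517) (nat_lit 76) (nat_lit 136551020805) (nat_lit 1) (nat_lit 4) (nat_lit 2) (nat_lit 5) (nat_lit 2) (nat_lit 4) (nat_lit 318) (nat_lit 208) (nat_lit 194)) (XT.nd (nat_lit 78) (nat_lit 0) (nat_lit 0) (XT.lf (nat_lit 0) (nat_lit 296162000951) (nat_lit 76) (nat_lit 147675989265) (nat_lit 76) (nat_lit 146718457079) (nat_lit 1) (nat_lit 4) (nat_lit 2) (nat_lit 5) (nat_lit 2) (nat_lit 4) (nat_lit 319) (nat_lit 208) (nat_lit 193)) (XT.lf (nat_lit 0) (nat_lit 321297587177) (nat_lit 76) (nat_lit 158714951780) (nat_lit 76) (nat_lit 157724766376) (nat_lit 1) (nat_lit 4) (nat_lit 2) (nat_lit 5) (nat_lit 2) (nat_lit 4) (nat_lit 320) (nat_lit 208) (nat_lit 192))))) (XT.nd (nat_lit 234) (nat_lit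 0) (nat_lit 0) (XT.nd (nat_lit 78) (nat_lit 0) (nat_lit 0) (XT.lf (nat_lit 0) (nat_lit 348403650958) (nat_lit 76) (nat_lit 170655591135) (nat_lit 76) (nat_lit 169635171271) (nat_lit 1) (nat_lit 4) (nat_lit 2) (nat_lit 5) (nat_lit 2) (nat_lit 4) (nat_lit 321) (nat_lit 208) (nat_lit 191)) (XT.nd (nat_lit 78) (nat_lit 0) (nat_lit 0) (XT.lf (nat_lit 0) (nat_lit 377640820819) (nat_lit 76) (nat_lit 183568666675) (nat_lit 76) (nat_lit 182520251940) (nat_lit 1) (nat_lit 4) (nat_lit 2) (nat_lit 5) (nat_lit 2) (nat_lit 4) (nat_lit 322) (nat_lit 208) (nat_lit 190)) (XT.lf (nat_lit 0) (nat_lit 409182354065) (nat_lit 76) (nat_lit 197530700329) (nat_lit 76) (nat_lit 196456364417) (nat_lit 1) (nat_lit 4) (nat_lit 2) (nat_lit 5) (nat_lit 2) (nat_lit 4) (nat_lit 323) (nat_lit 208) (nat_lit 189)))) (XT.nd (nat_lit 78) (nat_lit 0) (nat_lit 0) (XT.lf (nat_lit 0) (nat_lit 443215163484) (nat_lit 76) (nat_lit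 212624430074) (nat_lit 76) (nat_lit 211526093072) (nat_lit 1) (nat_lit 4) (nat_lit 2) (nat_lit 5) (nat_lit 2) (nat_lit 4) (nat_lit 324) (nat_lit 208) (nat_lit 188)) (XT.nd (nat_lit 78) (nat_lit 0) (nat_lit 0) (XT.lf (nat_lit 0) (nat_lit 479940924984) (nat_lit 76) (nat_lit 228939300234) (nat_lit 76) (nat_lit 227818740002) (nat_lit 1) (nat_lit 4) (nat_lit 2) (nat_lit 5) (nat_lit 2) (nat_lit 4) (nat_lit 325) (nat_lit 208) (nat_lit 187)) (XT.lf (nat_lit 0) (nat_lit 519577272707) (nat_lit 76) (nat_lit 246571991522) (nat_lit 76) (nat_lit 245430854224) (nat_lit 1) (nat_lit 4) (nat_lit 2) (nat_lit 5) (nat_lit 2) (nat_lit 4) (nat_lit 326) (nat_lit 208) (nat_lit 186)))))) (XT.nd (nat_lit 468) (nat_lit 0) (nat_lit 0) (XT.nd (nat_lit 234) (nat_lit 0) (nat_lit 0) (XT.nd (nat_lit 78) (nat_lit 0) (nat_lit 0) (XT.lf (nat_lit 0) (nat_lit 562359088715) (nat_lit 76) (nat_lit 265626993960) (nat_lit 76)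 (nat_lit 264466803823) (nat_lit 1) (nat_lit 4) (nat_lit 2) (nat_lit 5) (nat_lit 2) (nat_lit 4) (nat_lit 327) (nat_lit 208) (nat_lit 185)) (XT.nd (nat_lit 78) (nat_lit 0) (nat_lit 0) (XT.lf (nat_lit 0) (nat_lit 608539894879) (nat_lit 76) (nat_lit 286217226081) (nat_lit 76) (nat_lit 285039394427) (nat_lit 1) (nat_lit 4) (nat_lit 2) (nat_lit 5) (nat_lit 2) (nat_lit 4) (nat_lit 328) (nat_lit 208) (nat_lit 184)) (XT.lf (nat_lit 0) (nat_lit 658393355236) (nat_lit 76) (nat_lit 308464704075) (nat_lit 76) (nat_lit 307270537683) (nat_lit 1) (nat_lit 4) (nat_lit 2) (nat_lit 5) (nat_lit 2) (nat_lit 4) (nat_lit 329) (nat_lit 208) (nat_lit 183)))) (XT.nd (nat_lit 78) (nat_lit 0) (nat_lit 0) (XT.lf (nat_lit 0) (nat_lit 712214897699) (nat_lit 76) (nat_lit 332501264849) (nat_lit 76) (nat_lit 331291973699) (nat_lit 1) (nat_lit 4) (nat_lit 2) (nat_lit 5) (nat_lit 2) (nat_lit 4) (nat_lit 330) (nat_lit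 208) (nat_lit 182)) (XT.nd (nat_lit 78) (nat_lit 0) (nat_lit 0) (XT.lf (nat_lit 0) (nat_lit 770323464742) (nat_lit 76) (nat_lit 358469347282) (nat_lit 76) (nat_lit 357246051727) (nat_lit 1) (nat_lit 4) (nat_lit 2) (nat_lit 5) (nat_lit 2) (nat_lit 4) (nat_lit 331) (nat_lit 208) (nat_lit 181)) (XT.lf (nat_lit 0) (nat_lit 833063403430) (nat_lit 76) (nat_lit 386522836306) (nat_lit 76) (nat_lit 385286573709) (nat_lit 1) (nat_lit 4) (nat_lit 2) (nat_lit 5) (nat_lit 2) (nat_lit 4) (nat_lit 332) (nat_lit 208) (nat_lit 180))))) (XT.nd (nat_lit 234) (nat_lit 0) (nat_lit 0) (XT.nd (nat_lit 78) (nat_lit 0) (nat_lit 0) (XT.lf (nat_lit 0) (nat_lit 900806505991) (nat_lit 76) (nat_lit 416827974820) (nat_lit 76) (nat_lit 415579705703) (nat_lit 1) (nat_lit 4) (nat_lit 2) (nat_lit 5) (nat_lit 2) (nat_lit 4) (nat_lit 333) (nat_lit 208) (nat_lit 179)) (XT.nd (nat_lit 78) (nat_lit 0) (nat_lit 0) (XT.lf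 (nat_lit 0) (nat_lit 973954213033) (nat_lit 76) (nat_lit 449564348829) (nat_lit 76) (nat_lit 448304962564) (nat_lit 1) (nat_lit 4) (nat_lit 2) (nat_lit 5) (nat_lit 2) (nat_lit 4) (nat_lit 334) (nat_lit 208) (nat_lit 178)) (XT.lf (nat_lit 0) (nat_lit 1052939992450) (nat_lit 76) (nat_lit 484925951661) (nat_lit 76) (nat_lit 483656271740) (nat_lit 1) (nat_lit 4) (nat_lit 2) (nat_lit 5) (nat_lit 2) (nat_lit 4) (nat_lit 335) (nat_lit 208) (nat_lit 177)))) (XT.nd (nat_lit 156) (nat_lit 0) (nat_lit 0) (XT.nd (nat_lit 78) (nat_lit 0) (nat_lit 0) (XT.lf (nat_lit 0) (nat_lit 1138231908120) (nat_lit 76) (nat_lit 523122333556) (nat_lit 76) (nat_lit 521843122471) (nat_lit 1) (nat_lit 4) (nat_lit 2) (nat_lit 5) (nat_lit 2) (nat_lit 4) (nat_lit 336) (nat_lit 208) (nat_lit 176)) (XT.lf (nat_lit 0) (nat_lit 1230335393617) (nat_lit 76) (nat_lit 564379843441) (nat_lit 76) (nat_lit 563091807206) (nat_lit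 1) (nat_lit 4) (nat_lit 2) (nat_lit 5) (nat_lit 2) (nat_lit 4) (nat_lit 337) (nat_lit 208) (nat_lit 175))) (XT.nd (nat_lit 78) (nat_lit 0) (nat_lit 0) (XT.lf (nat_lit 0) (nat_lit 1329796247373) (nat_lit 76) (nat_lit 608942970266) (nat_lit 76) (nat_lit 607646762595) (nat_lit 1) (nat_lit 4) (nat_lit 2) (nat_lit 5) (nat_lit 2) (nat_lit 4) (nat_lit 338) (nat_lit 208) (nat_lit 174)) (XT.lf (nat_lit 0) (nat_lit 1437203867042) (nat_lit 76) (nat_lit 657075791819) (nat_lit 76) (nat_lit 655772018004) (nat_lit 1) (nat_lit 4) (nat_lit 2) (nat_lit 5) (nat_lit 2) (nat_lit 4) (nat_lit 339) (nat_lit 208) (nat_lit 173))))))) (XT.nd (nat_lit 35490) (nat_lit 0) (nat_lit 0) (XT.nd (nat_lit 34944) (nat_lit 0) (nat_lit 0) (XT.nd (nat_lit 34710) (nat_lit 0) (nat_lit 0) (XT.nd (nat_lit 34554) (nat_lit 0) (nat_lit 0) (XT.lf (nat_lit 0) (nat_lit 1553194742219) (nat_lit 76) (nat_lit 709063539635) (nat_lit 76)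 (nat_lit 707752760130) (nat_lit 1) (nat_lit 4) (nat_lit 2) (nat_lit 5) (nat_lit 2) (nat_lit 4) (nat_lit 340) (nat_lit 208) (nat_lit 172)) (XT.nd (nat_lit 78) (nat_lit 0) (nat_lit 0) (XT.lf (nat_lit 0) (nat_lit 29897826480) (nat_lit 76) (nat_lit 25176719142) (nat_lit 76) (nat_lit 25176719142) (nat_lit 1) (nat_lit 4) (nat_lit 2) (nat_lit 5) (nat_lit 2) (nat_lit 4) (nat_lit 302) (nat_lit 209) (nat_lit 209)) (XT.lf (nat_lit 0) (nat_lit 67415847649) (nat_lit 76) (nat_lit 52956793094) (nat_lit 76) (nat_lit 52844925044) (nat_lit 1) (nat_lit 4) (nat_lit 2) (nat_lit 5) (nat_lit 2) (nat_lit 4) (nat_lit 303) (nat_lit 209) (nat_lit 208)))) (XT.nd (nat_lit 78) (nat_lit 0) (nat_lit 0) (XT.lf (nat_lit 0) (nat_lit 75507354858) (nat_lit 76) (nat_lit 55832001232) (nat_lit 76) (nat_lit 55616551655) (nat_lit 1) (nat_lit 4) (nat_lit 2) (nat_lit 5) (nat_lit 2) (nat_lit 4) (nat_lit 304) (nat_lit 209) (nat_lit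 207)) (XT.nd (nat_lit 78) (nat_lit 0) (nat_lit 0) (XT.lf (nat_lit 0) (nat_lit 84118124260) (nat_lit 76) (nat_lit 58996100970) (nat_lit 76) (nat_lit 58684742571) (nat_lit 1) (nat_lit 4) (nat_lit 2) (nat_lit 5) (nat_lit 2) (nat_lit 4) (nat_lit 305) (nat_lit 209) (nat_lit 206)) (XT.lf (nat_lit 0) (nat_lit 93299182638) (nat_lit 76) (nat_lit 62467842528) (nat_lit 76) (nat_lit 62067679665) (nat_lit 1) (nat_lit 4) (nat_lit 2) (nat_lit 5) (nat_lit 2) (nat_lit 4) (nat_lit 306) (nat_lit 209) (nat_lit 205))))) (XT.nd (nat_lit 234) (nat_lit 0) (nat_lit 0) (XT.nd (nat_lit 78) (nat_lit 0) (nat_lit 0) (XT.lf (nat_lit 0) (nat_lit 103104936261) (nat_lit 76) (nat_lit 66267799190) (nat_lit 76) (nat_lit 65785409971) (nat_lit 1) (nat_lit 4) (nat_lit 2) (nat_lit 5) (nat_lit 2) (nat_lit 4) (nat_lit 307) (nat_lit 209) (nat_lit 204)) (XT.nd (nat_lit 78) (nat_lit 0) (nat_lit 0) (XT.lf (nat_lit 0) (nat_lit 113593493301)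 (nat_lit 76) (nat_lit 70418489218) (nat_lit 76) (nat_lit 69859964484) (nat_lit 1) (nat_lit 4) (nat_lit 2) (nat_lit 5) (nat_lit 2) (nat_lit 4) (nat_lit 308) (nat_lit 209) (nat_lit 203)) (XT.lf (nat_lit 0) (nat_lit 124827008169) (nat_lit 76) (nat_lit 74944509293) (nat_lit 76) (nat_lit 74315488712) (nat_lit 1) (nat_lit 4) (nat_lit 2) (nat_lit 5) (nat_lit 2) (nat_lit 4) (nat_lit 309) (nat_lit 209) (nat_lit 202)))) (XT.nd (nat_lit 156) (nat_lit 0) (nat_lit 0) (XT.nd (nat_lit 78) (nat_lit 0) (nat_lit 0) (XT.lf (nat_lit 0) (nat_lit 136872049843) (nat_lit 76) (nat_lit 79872680275) (nat_lit 76) (nat_lit 79178385761) (nat_lit 1) (nat_lit 4) (nat_lit 2) (nat_lit 5) (nat_lit 2) (nat_lit 4) (nat_lit 310) (nat_lit 209) (nat_lit 201)) (XT.lf (nat_lit 0) (nat_lit 149799996346) (nat_lit 76) (nat_lit 85232206139) (nat_lit 76) (nat_lit 84477472799) (nat_lit 1) (nat_lit 4) (nat_lit 2) (nat_lit 5) (nat_lit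 2) (nat_lit 4) (nat_lit 311) (nat_lit 209) (nat_lit 200))) (XT.nd (nat_lit 78) (nat_lit 0) (nat_lit 0) (XT.lf (nat_lit 0) (nat_lit 163687457733) (nat_lit 76) (nat_lit 91054847041) (nat_lit 76) (nat_lit 90244151824) (nat_lit 1) (nat_lit 4) (nat_lit 2) (nat_lit 5) (nat_lit 2) (nat_lit 4) (nat_lit 312) (nat_lit 209) (nat_lit 199)) (XT.lf (nat_lit 0) (nat_lit 178616730071) (nat_lit 76) (nat_lit 97375107517) (nat_lit 76) (nat_lit 96512595749) (nat_lit 1) (nat_lit 4) (nat_lit 2) (nat_lit 5) (nat_lit 2) (nat_lit 4) (nat_lit 313) (nat_lit 209) (nat_lit 198)))))) (XT.nd (nat_lit 468) (nat_lit 0) (nat_lit 0) (XT.nd (nat_lit 234) (nat_lit 0) (nat_lit 0) (XT.nd (nat_lit 78) (nat_lit 0) (nat_lit 0) (XT.lf (nat_lit 0) (nat_lit 194676283122) (nat_lit 76) (nat_lit 104230440964) (nat_lit 76) (nat_lit 103319950906) (nat_lit 1) (nat_lit 4) (nat_lit 2) (nat_lit 5) (nat_lit 2) (nat_lit 4) (nat_lit 314)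 (nat_lit 209) (nat_lit 197)) (XT.nd (nat_lit 78) (nat_lit 0) (nat_lit 0) (XT.lf (nat_lit 0) (nat_lit 211961284607) (nat_lit 76) (nat_lit 111661471579) (nat_lit 76) (nat_lit 110706557180) (nat_lit 1) (nat_lit 4) (nat_lit 2) (nat_lit 5) (nat_lit 2) (nat_lit 4) (nat_lit 315) (nat_lit 209) (nat_lit 196)) (XT.lf (nat_lit 0) (nat_lit 230574164165) (nat_lit 76) (nat_lit 119712235100) (nat_lit 76) (nat_lit 118716187051) (nat_lit 1) (nat_lit 4) (nat_lit 2) (nat_lit 5) (nat_lit 2) (nat_lit 4) (nat_lit 316) (nat_lit 209) (nat_lit 195)))) (XT.nd (nat_lit 78) (nat_lit 0) (nat_lit 0) (XT.lf (nat_lit 0) (nat_lit 250625220342) (nat_lit 76) (nat_lit 128430439755) (nat_lit 76) (nat_lit 127396304994) (nat_lit 1) (nat_lit 4) (nat_lit 2) (nat_lit 5) (nat_lit 2) (nat_lit 4) (nat_lit 317) (nat_lit 209) (nat_lit 194)) (XT.nd (nat_lit 78) (nat_lit 0) (nat_lit 0) (XT.lf (nat_lit 0) (nat_lit 272233274211) (nat_lit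 76) (nat_lit 137867748979) (nat_lit 76) (nat_lit 136798348743) (nat_lit 1) (nat_lit 4) (nat_lit 2) (nat_lit 5) (nat_lit 2) (nat_lit 4) (nat_lit 318) (nat_lit 209) (nat_lit 193)) (XT.lf (nat_lit 0) (nat_lit 295526373499) (nat_lit 76) (nat_lit 148080087567) (nat_lit 76) (nat_lit 146978034113) (nat_lit 1) (nat_lit 4) (nat_lit 2) (nat_lit 5) (nat_lit 2) (nat_lit 4) (nat_lit 319) (nat_lit 209) (nat_lit 192))))) (XT.nd (nat_lit 234) (nat_lit 0) (nat_lit 0) (XT.nd (nat_lit 78) (nat_lit 0) (nat_lit 0) (XT.lf (nat_lit 0) (nat_lit 320642551387) (nat_lit 76) (nat_lit 159127973081) (nat_lit 76) (nat_lit 157995685167) (nat_lit 1) (nat_lit 4) (nat_lit 2) (nat_lit 5) (nat_lit 2) (nat_lit 4) (nat_lit 320) (nat_lit 209) (nat_lit 191)) (XT.nd (nat_lit 78) (nat_lit 0) (nat_lit 0) (XT.lf (nat_lit 0) (nat_lit 347730644484) (nat_lit 76) (nat_lit 171076874473) (nat_lit 76) (nat_lit 169916591688) (nat_lit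 1) (nat_lit 4) (nat_lit 2) (nat_lit 5) (nat_lit 2) (nat_lit 4) (nat_lit 321) (nat_lit 209) (nat_lit 190)) (XT.lf (nat_lit 0) (nat_lit 376951174824) (nat_lit 76) (nat_lit 183997600047) (nat_lit 76) (nat_lit 182811396085) (nat_lit 1) (nat_lit 4) (nat_lit 2) (nat_lit 5) (nat_lit 2) (nat_lit 4) (nat_lit 322) (nat_lit 209) (nat_lit 189)))) (XT.nd (nat_lit 156) (nat_lit 0) (nat_lit 0) (XT.nd (nat_lit 78) (nat_lit 0) (nat_lit 0) (XT.lf (nat_lit 0) (nat_lit 408477301105) (nat_lit 76) (nat_lit 197966717065) (nat_lit 76) (nat_lit 196756512015) (nat_lit 1) (nat_lit 4) (nat_lit 2) (nat_lit 5) (nat_lit 2) (nat_lit 4) (nat_lit 323) (nat_lit 209) (nat_lit 188)) (XT.lf (nat_lit 0) (nat_lit 442495844816) (nat_lit 76) (nat_lit 213067005481) (nat_lit 76) (nat_lit 211834577199) (nat_lit 1) (nat_lit 4) (nat_lit 2) (nat_lit 5) (nat_lit 2) (nat_lit 4) (nat_lit 324) (nat_lit 209) (nat_lit 187))) (XT.nd (nat_lit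 78) (nat_lit 0) (nat_lit 0) (XT.lf (nat_lit 0) (nat_lit 479208397327) (nat_lit 76) (nat_lit 229387948485) (nat_lit 76) (nat_lit 228134943138) (nat_lit 1) (nat_lit 4) (nat_lit 2) (nat_lit 5) (nat_lit 2) (nat_lit 4) (nat_lit 325) (nat_lit 209) (nat_lit 186)) (XT.lf (nat_lit 0) (nat_lit 518832514506) (nat_lit 76) (nat_lit 247026262777) (nat_lit 76) (nat_lit 245754204590) (nat_lit 1) (nat_lit 4) (nat_lit 2) (nat_lit 5) (nat_lit 2) (nat_lit 4) (nat_lit 326) (nat_lit 209) (nat_lit 185))))))))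
noncomputable def xc8 : XT := (XT.nd (nat_lit 36270) (nat_lit 0) (nat_lit 0) (XT.nd (nat_lit 936) (nat_lit 0) (nat_lit 0) (XT.nd (nat_lit 468) (nat_lit 0) (nat_lit 0) (XT.nd (nat_lit 234) (nat_lit 0) (nat_lit 0) (XT.nd (nat_lit 78) (nat_lit 0) (nat_lit 0) (XT.lf (nat_lit 0) (nat_lit 561603005934) (nat_lit 76) (nat_lit 266086471699) (nat_lit 76) (nat_lit 264796771996) (nat_lit 1) (nat_lit 4) (nat_lit 2) (nat_lit 5) (nat_lit 2) (nat_lit 4) (nat_lit 327) (nat_lit 209) (nat_lit 184)) (XT.nd (nat_lit 78) (nat_lit 0) (nat_lit 0) (XT.lf (nat_lit 0) (nat_lit 607773326377) (nat_lit 76) (nat_lit 286681524639) (nat_lit 76) (nat_lit 285375490197) (nat_lit 1) (nat_lit 4) (nat_lit 2) (nat_lit 5) (nat_lit 2) (nat_lit 4) (nat_lit 328) (nat_lit 209) (nat_lit 183)) (XT.lf (nat_lit 0) (nat_lit 657617077733) (nat_lit 76) (nat_lit 308933466355) (nat_lit 76) (nat_lit 307612307155) (nat_lit 1) (nat_lit 4)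 (nat_lit 2) (nat_lit 5) (nat_lit 2) (nat_lit 4) (nat_lit 329) (nat_lit 209) (nat_lit 182)))) (XT.nd (nat_lit 78) (nat_lit 0) (nat_lit 0) (XT.lf (nat_lit 0) (nat_lit 711429630380) (nat_lit 76) (nat_lit 332974160204) (nat_lit 76) (nat_lit 331638996599) (nat_lit 1) (nat_lit 4) (nat_lit 2) (nat_lit 5) (nat_lit 2) (nat_lit 4) (nat_lit 330) (nat_lit 209) (nat_lit 181)) (XT.nd (nat_lit 78) (nat_lit 0) (nat_lit 0) (XT.lf (nat_lit 0) (nat_lit 769529873520) (nat_lit 76) (nat_lit 358946069559) (nat_lit 76) (nat_lit 357597938912) (nat_lit 1) (nat_lit 4) (nat_lit 2) (nat_lit 5) (nat_lit 2) (nat_lit 4) (nat_lit 331) (nat_lit 209) (nat_lit 180)) (XT.lf (nat_lit 0) (nat_lit 832262104890) (nat_lit 76) (nat_lit 387003102029) (nat_lit 76) (nat_lit 385642964862) (nat_lit 1) (nat_lit 4) (nat_lit 2) (nat_lit 5) (nat_lit 2) (nat_lit 4) (nat_lit 332) (nat_lit 209) (nat_lit 179))))) (XT.nd (nat_lit 234) (nat_lit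 0) (nat_lit 0) (XT.nd (nat_lit 78) (nat_lit 0) (nat_lit 0) (XT.lf (nat_lit 0) (nat_lit 899998071045) (nat_lit 76) (nat_lit 417311521511) (nat_lit 76) (nat_lit 415940267196) (nat_lit 1) (nat_lit 4) (nat_lit 2) (nat_lit 5) (nat_lit 2) (nat_lit 4) (nat_lit 333) (nat_lit 209) (nat_lit 178)) (XT.nd (nat_lit 78) (nat_lit 0) (nat_lit 0) (XT.lf (nat_lit 0) (nat_lit 973139170304) (nat_lit 76) (nat_lit 450050933454) (nat_lit 76) (nat_lit 448669385483) (nat_lit 1) (nat_lit 4) (nat_lit 2) (nat_lit 5) (nat_lit 2) (nat_lit 4) (nat_lit 334) (nat_lit 209) (nat_lit 177)) (XT.lf (nat_lit 0) (nat_lit 1052118831404) (nat_lit 76) (nat_lit 485415349188) (nat_lit 76) (nat_lit 484024270054) (nat_lit 1) (nat_lit 4) (nat_lit 2) (nat_lit 5) (nat_lit 2) (nat_lit 4) (nat_lit 335) (nat_lit 209) (nat_lit 176)))) (XT.nd (nat_lit 78) (nat_lit 0) (nat_lit 0) (XT.lf (nat_lit 0) (nat_lit 1137405081965) (nat_lit 76) (nat_lit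 523614335621) (nat_lit 76) (nat_lit 522214431336) (nat_lit 1) (nat_lit 4) (nat_lit 2) (nat_lit 5) (nat_lit 2) (nat_lit 4) (nat_lit 336) (nat_lit 209) (nat_lit 175)) (XT.nd (nat_lit 78) (nat_lit 0) (nat_lit 0) (XT.lf (nat_lit 0) (nat_lit 1229503321990) (nat_lit 76) (nat_lit 564874257116) (nat_lit 76) (nat_lit 563466181396) (nat_lit 1) (nat_lit 4) (nat_lit 2) (nat_lit 5) (nat_lit 2) (nat_lit 4) (nat_lit 337) (nat_lit 209) (nat_lit 174)) (XT.lf (nat_lit 0) (nat_lit 1328959318829) (nat_lit 76) (nat_lit 609439616913) (nat_lit 76) (nat_lit 608023975048) (nat_lit 1) (nat_lit 4) (nat_lit 2) (nat_lit 5) (nat_lit 2) (nat_lit 4) (nat_lit 338) (nat_lit 209) (nat_lit 173)))))) (XT.nd (nat_lit 34788) (nat_lit 0) (nat_lit 0) (XT.nd (nat_lit 34554) (nat_lit 0) (nat_lit 0) (XT.nd (nat_lit 78) (nat_lit 0) (nat_lit 0) (XT.lf (nat_lit 0) (nat_lit 1436362441351) (nat_lit 76) (nat_lit 657574506033) (nat_lit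 76) (nat_lit 656151858478) (nat_lit 1) (nat_lit 4) (nat_lit 2) (nat_lit 5) (nat_lit 2) (nat_lit 4) (nat_lit 339) (nat_lit 209) (nat_lit 172)) (XT.nd (nat_lit 34398) (nat_lit 0) (nat_lit 0) (XT.lf (nat_lit 0) (nat_lit 1552349152505) (nat_lit 76) (nat_lit 709564168262) (nat_lit 76) (nat_lit 708135033958) (nat_lit 1) (nat_lit 4) (nat_lit 2) (nat_lit 5) (nat_lit 2) (nat_lit 4) (nat_lit 340) (nat_lit 209) (nat_lit 171)) (XT.lf (nat_lit 0) (nat_lit 22934327886) (nat_lit 76) (nat_lit 22993630040) (nat_lit 76) (nat_lit 22993630040) (nat_lit 1) (nat_lit 4) (nat_lit 2) (nat_lit 5) (nat_lit 2) (nat_lit 4) (nat_lit 300) (nat_lit 210) (nat_lit 210)))) (XT.nd (nat_lit 78) (nat_lit 0) (nat_lit 0) (XT.lf (nat_lit 0) (nat_lit 52601614083) (nat_lit 76) (nat_lit 48127327012) (nat_lit 76) (nat_lit 48006509518) (nat_lit 1) (nat_lit 4) (nat_lit 2) (nat_lit 5) (nat_lit 2) (nat_lit 4) (nat_lit 301) (nat_lit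 210) (nat_lit 209)) (XT.nd (nat_lit 78) (nat_lit 0) (nat_lit 0) (XT.lf (nat_lit 0) (nat_lit 59723841759) (nat_lit 76) (nat_lit 50507271039) (nat_lit 76) (nat_lit 50274585495) (nat_lit 1) (nat_lit 4) (nat_lit 2) (nat_lit 5) (nat_lit 2) (nat_lit 4) (nat_lit 302) (nat_lit 210) (nat_lit 208)) (XT.lf (nat_lit 0) (nat_lit 67277544594) (nat_lit 76) (nat_lit 53141195532) (nat_lit 76) (nat_lit 52804928462) (nat_lit 1) (nat_lit 4) (nat_lit 2) (nat_lit 5) (nat_lit 2) (nat_lit 4) (nat_lit 303) (nat_lit 210) (nat_lit 207))))) (XT.nd (nat_lit 234) (nat_lit 0) (nat_lit 0) (XT.nd (nat_lit 78) (nat_lit 0) (nat_lit 0) (XT.lf (nat_lit 0) (nat_lit 75307485273) (nat_lit 76) (nat_lit 56044708934) (nat_lit 76) (nat_lit 55612533042) (nat_lit 1) (nat_lit 4) (nat_lit 2) (nat_lit 5) (nat_lit 2) (nat_lit 4) (nat_lit 304) (nat_lit 210) (nat_lit 206)) (XT.nd (nat_lit 78) (nat_lit 0) (nat_lit 0) (XT.lf (nat_lit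 0) (nat_lit 83861248629) (nat_lit 76) (nat_lit 59235017249) (nat_lit 76) (nat_lit 58714036893) (nat_lit 1) (nat_lit 4) (nat_lit 2) (nat_lit 5) (nat_lit 2) (nat_lit 4) (nat_lit 305) (nat_lit 210) (nat_lit 205)) (XT.lf (nat_lit 0) (nat_lit 92989523629) (nat_lit 76) (nat_lit 62731026009) (nat_lit 76) (nat_lit 62127819296) (nat_lit 1) (nat_lit 4) (nat_lit 2) (nat_lit 5) (nat_lit 2) (nat_lit 4) (nat_lit 306) (nat_lit 210) (nat_lit 204)))) (XT.nd (nat_lit 156) (nat_lit 0) (nat_lit 0) (XT.nd (nat_lit 78) (nat_lit 0) (nat_lit 0) (XT.lf (nat_lit 0) (nat_lit 102746403756) (nat_lit 76) (nat_lit 66553452303) (nat_lit 76) (nat_lit 65874110075) (nat_lit 1) (nat_lit 4) (nat_lit 2) (nat_lit 5) (nat_lit 2) (nat_lit 4) (nat_lit 307) (nat_lit 210) (nat_lit 203)) (XT.lf (nat_lit 0) (nat_lit 113189707558) (nat_lit 76) (nat_lit 70724947544) (nat_lit 76) (nat_lit 69975109469) (nat_lit 1) (nat_lit 4) (nat_lit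 2) (nat_lit 5) (nat_lit 2) (nat_lit 4) (nat_lit 308) (nat_lit 210) (nat_lit 202))) (XT.nd (nat_lit 78) (nat_lit 0) (nat_lit 0) (XT.lf (nat_lit 0) (nat_lit 124381321280) (nat_lit 76) (nat_lit 75270231706) (nat_lit 76) (nat_lit 74455119699) (nat_lit 1) (nat_lit 4) (nat_lit 2) (nat_lit 5) (nat_lit 2) (nat_lit 4) (nat_lit 309) (nat_lit 210) (nat_lit 201)) (XT.lf (nat_lit 0) (nat_lit 136387565596) (nat_lit 76) (nat_lit 80216239805) (nat_lit 76) (nat_lit 79340688972) (nat_lit 1) (nat_lit 4) (nat_lit 2) (nat_lit 5) (nat_lit 2) (nat_lit 4) (nat_lit 310) (nat_lit 210) (nat_lit 200))))))) (XT.nd (nat_lit 936) (nat_lit 0) (nat_lit 0) (XT.nd (nat_lit 468) (nat_lit 0) (nat_lit 0) (XT.nd (nat_lit 234) (nat_lit 0) (nat_lit 0) (XT.nd (nat_lit 78) (nat_lit 0) (nat_lit 0) (XT.lf (nat_lit 0) (nat_lit 149279588620) (nat_lit 76) (nat_lit 85592281520) (nat_lit 76) (nat_lit 84660768810) (nat_lit 1) (nat_lit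 4) (nat_lit 2) (nat_lit 5) (nat_lit 2) (nat_lit 4) (nat_lit 311) (nat_lit 210) (nat_lit 199)) (XT.nd (nat_lit 78) (nat_lit 0) (nat_lit 0) (XT.lf (nat_lit 0) (nat_lit 163133787526) (nat_lit 76) (nat_lit 91430214874) (nat_lit 76) (nat_lit 90446885612) (nat_lit 1) (nat_lit 4) (nat_lit 2) (nat_lit 5) (nat_lit 2) (nat_lit 4) (nat_lit 312) (nat_lit 210) (nat_lit 198)) (XT.lf (nat_lit 0) (nat_lit 178032261270) (nat_lit 76) (nat_lit 97764635030) (nat_lit 76) (nat_lit 96733327479) (nat_lit 1) (nat_lit 4) (nat_lit 2) (nat_lit 5) (nat_lit 2) (nat_lit 4) (nat_lit 313) (nat_lit 210) (nat_lit 197)))) (XT.nd (nat_lit 78) (nat_lit 0) (nat_lit 0) (XT.lf (nat_lit 0) (nat_lit 194063297105) (nat_lit 76) (nat_lit 104633079290) (nat_lit 76) (nat_lit 103557347398) (nat_lit 1) (nat_lit 4) (nat_lit 2) (nat_lit 5) (nat_lit 2) (nat_lit 4) (nat_lit 314) (nat_lit 210) (nat_lit 196)) (XT.nd (nat_lit 78) (nat_lit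 0) (nat_lit 0) (XT.lf (nat_lit 0) (nat_lit 211321893760) (nat_lit 76) (nat_lit 112076249548) (nat_lit 76) (nat_lit 110959384006) (nat_lit 1) (nat_lit 4) (nat_lit 2) (nat_lit 5) (nat_lit 2) (nat_lit 4) (nat_lit 315) (nat_lit 210) (nat_lit 195)) (XT.lf (nat_lit 0) (nat_lit 229910324402) (nat_lit 76) (nat_lit 120138253479) (nat_lit 76) (nat_lit 118983301224) (nat_lit 1) (nat_lit 4) (nat_lit 2) (nat_lit 5) (nat_lit 2) (nat_lit 4) (nat_lit 316) (nat_lit 210) (nat_lit 194))))) (XT.nd (nat_lit 234) (nat_lit 0) (nat_lit 0) (XT.nd (nat_lit 78) (nat_lit 0) (nat_lit 0) (XT.lf (nat_lit 0) (nat_lit 249938742693) (nat_lit 76) (nat_lit 128866865921) (nat_lit 76) (nat_lit 127676648191) (nat_lit 1) (nat_lit 4) (nat_lit 2) (nat_lit 5) (nat_lit 2) (nat_lit 4) (nat_lit 317) (nat_lit 210) (nat_lit 193)) (XT.nd (nat_lit 78) (nat_lit 0) (nat_lit 0) (XT.lf (nat_lit 0) (nat_lit 271525835557) (nat_lit 76) (nat_lit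 138313811984) (nat_lit 76) (nat_lit 137090941037) (nat_lit 1) (nat_lit 4) (nat_lit 2) (nat_lit 5) (nat_lit 2) (nat_lit 4) (nat_lit 318) (nat_lit 210) (nat_lit 192)) (XT.lf (nat_lit 0) (nat_lit 294799526507) (nat_lit 76) (nat_lit 148535073572) (nat_lit 76) (nat_lit 147281968164) (nat_lit 1) (nat_lit 4) (nat_lit 2) (nat_lit 5) (nat_lit 2) (nat_lit 4) (nat_lit 319) (nat_lit 210) (nat_lit 191)))) (XT.nd (nat_lit 78) (nat_lit 0) (nat_lit 0) (XT.lf (nat_lit 0) (nat_lit 319897733711) (nat_lit 76) (nat_lit 159591221123) (nat_lit 76) (nat_lit 158310120844) (nat_lit 1) (nat_lit 4) (nat_lit 2) (nat_lit 5) (nat_lit 2) (nat_lit 4) (nat_lit 320) (nat_lit 210) (nat_lit 190)) (XT.nd (nat_lit 78) (nat_lit 0) (nat_lit 0) (XT.lf (nat_lit 0) (nat_lit 346969187287) (nat_lit 76) (nat_lit 171547772549) (nat_lit 76) (nat_lit 170240751094) (nat_lit 1) (nat_lit 4) (nat_lit 2) (nat_lit 5) (nat_lit 2) (nat_lit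 4) (nat_lit 321) (nat_lit 210) (nat_lit 189)) (XT.lf (nat_lit 0) (nat_lit 376174310663) (nat_lit 76) (nat_lit 184475581487) (nat_lit 76) (nat_lit 183144558943) (nat_lit 1) (nat_lit 4) (nat_lit 2) (nat_lit 5) (nat_lit 2) (nat_lit 4) (nat_lit 322) (nat_lit 210) (nat_lit 188)))))) (XT.nd (nat_lit 468) (nat_lit 0) (nat_lit 0) (XT.nd (nat_lit 234) (nat_lit 0) (nat_lit 0) (XT.nd (nat_lit 78) (nat_lit 0) (nat_lit 0) (XT.lf (nat_lit 0) (nat_lit 407686171236) (nat_lit 76) (nat_lit 198451257177) (nat_lit 76) (nat_lit 197098011401) (nat_lit 1) (nat_lit 4) (nat_lit 2) (nat_lit 5) (nat_lit 2) (nat_lit 4) (nat_lit 323) (nat_lit 210) (nat_lit 187)) (XT.nd (nat_lit 78) (nat_lit 0) (nat_lit 0) (XT.lf (nat_lit 0) (nat_lit 441691505958) (nat_lit 76) (nat_lit 213557618437) (nat_lit 76) (nat_lit 212183795595) (nat_lit 1) (nat_lit 4) (nat_lit 2) (nat_lit 5) (nat_lit 2) (nat_lit 4) (nat_lit 324) (nat_lit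 210) (nat_lit 186)) (XT.lf (nat_lit 0) (nat_lit 478391827924) (nat_lit 76) (nat_lit 229884184444) (nat_lit 76) (nat_lit 228491308764) (nat_lit 1) (nat_lit 4) (nat_lit 2) (nat_lit 5) (nat_lit 2) (nat_lit 4) (nat_lit 325) (nat_lit 210) (nat_lit 185)))) (XT.nd (nat_lit 78) (nat_lit 0) (nat_lit 0) (XT.lf (nat_lit 0) (nat_lit 518004620524) (nat_lit 76) (nat_lit 247527705220) (nat_lit 76) (nat_lit 246117188023) (nat_lit 1) (nat_lit 4) (nat_lit 2) (nat_lit 5) (nat_lit 2) (nat_lit 4) (nat_lit 326) (nat_lit 210) (nat_lit 184)) (XT.nd (nat_lit 78) (nat_lit 0) (nat_lit 0) (XT.lf (nat_lit 0) (nat_lit 560764626231) (nat_lit 76) (nat_lit 266592734961) (nat_lit 76) (nat_lit 265165883026) (nat_lit 1) (nat_lit 4) (nat_lit 2) (nat_lit 5) (nat_lit 2) (nat_lit 4) (nat_lit 327) (nat_lit 210) (nat_lit 183)) (XT.lf (nat_lit 0) (nat_lit 606925237673) (nat_lit 76) (nat_lit 287192251623) (nat_lit 76) (nat_lit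 285750274930) (nat_lit 1) (nat_lit 4) (nat_lit 2) (nat_lit 5) (nat_lit 2) (nat_lit 4) (nat_lit 328) (nat_lit 210) (nat_lit 182))))) (XT.nd (nat_lit 234) (nat_lit 0) (nat_lit 0) (XT.nd (nat_lit 78) (nat_lit 0) (nat_lit 0) (XT.lf (nat_lit 0) (nat_lit 656759999213) (nat_lit 76) (nat_lit 309448326413) (nat_lit 76) (nat_lit 307992345315) (nat_lit 1) (nat_lit 4) (nat_lit 2) (nat_lit 5) (nat_lit 2) (nat_lit 4) (nat_lit 329) (nat_lit 210) (nat_lit 181)) (XT.nd (nat_lit 78) (nat_lit 0) (nat_lit 0) (XT.lf (nat_lit 0) (nat_lit 710564227957) (nat_lit 76) (nat_lit 333492847185) (nat_lit 76) (nat_lit 332023899044) (nat_lit 1) (nat_lit 4) (nat_lit 2) (nat_lit 5) (nat_lit 2) (nat_lit 4) (nat_lit 330) (nat_lit 210) (nat_lit 180)) (XT.lf (nat_lit 0) (nat_lit 768656763779) (nat_lit 76) (nat_lit 359468299985) (nat_lit 76) (nat_lit 357987345325) (nat_lit 1) (nat_lit 4) (nat_lit 2) (nat_lit 5) (nat_lit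 2) (nat_lit 4) (nat_lit 331) (nat_lit 210) (nat_lit 179)))) (XT.nd (nat_lit 156) (nat_lit 0) (nat_lit 0) (XT.nd (nat_lit 78) (nat_lit 0) (nat_lit 0) (XT.lf (nat_lit 0) (nat_lit 831381858743) (nat_lit 76) (nat_lit 387528613424) (nat_lit 76) (nat_lit 386036541615) (nat_lit 1) (nat_lit 4) (nat_lit 2) (nat_lit 5) (nat_lit 2) (nat_lit 4) (nat_lit 332) (nat_lit 210) (nat_lit 178)) (XT.lf (nat_lit 0) (nat_lit 899111217115) (nat_lit 76) (nat_lit 417840070840) (nat_lit 76) (nat_lit 416337705375) (nat_lit 1) (nat_lit 4) (nat_lit 2) (nat_lit 5) (nat_lit 2) (nat_lit 4) (nat_lit 333) (nat_lit 210) (nat_lit 177))) (XT.nd (nat_lit 78) (nat_lit 0) (nat_lit 0) (XT.lf (nat_lit 0) (nat_lit 972246198057) (nat_lit 76) (nat_lit 450582295684) (nat_lit 76) (nat_lit 449070399057) (nat_lit 1) (nat_lit 4) (nat_lit 2) (nat_lit 5) (nat_lit 2) (nat_lit 4) (nat_lit 334) (nat_lit 210) (nat_lit 176)) (XT.lf (nat_lit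 0) (nat_lit 1051220194047) (nat_lit 76) (nat_lit 485949315957) (nat_lit 76) (nat_lit 484428594178) (nat_lit 1) (nat_lit 4) (nat_lit 2) (nat_lit 5) (nat_lit 2) (nat_lit 4) (nat_lit 335) (nat_lit 210) (nat_lit 175))))))))
noncomputable def xc9 : XT := (XT.nd (nat_lit 36114) (nat_lit 0) (nat_lit 0) (XT.nd (nat_lit 35100) (nat_lit 0) (nat_lit 0) (XT.nd (nat_lit 34632) (nat_lit 0) (nat_lit 0) (XT.nd (nat_lit 234) (nat_lit 0) (nat_lit 0) (XT.nd (nat_lit 78) (nat_lit 0) (nat_lit 0) (XT.lf (nat_lit 0) (nat_lit 1136501199137) (nat_lit 76) (nat_lit 524150713999) (nat_lit 76) (nat_lit 522621820785) (nat_lit 1) (nat_lit 4) (nat_lit 2) (nat_lit 5) (nat_lit 2) (nat_lit 4) (nat_lit 336) (nat_lit 210) (nat_lit 174)) (XT.nd (nat_lit 78) (nat_lit 0) (nat_lit 0) (XT.lf (nat_lit 0) (nat_lit 1228594582245) (nat_lit 76) (nat_lit 565412868467) (nat_lit 76) (nat_lit 563876409108) (nat_lit 1) (nat_lit 4) (nat_lit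 2) (nat_lit 5) (nat_lit 2) (nat_lit 4) (nat_lit 337) (nat_lit 210) (nat_lit 173)) (XT.lf (nat_lit 0) (nat_lit 1328046081937) (nat_lit 76) (nat_lit 609980295830) (nat_lit 76) (nat_lit 608436830783) (nat_lit 1) (nat_lit 4) (nat_lit 2) (nat_lit 5) (nat_lit 2) (nat_lit 4) (nat_lit 338) (nat_lit 210) (nat_lit 172)))) (XT.nd (nat_lit 78) (nat_lit 0) (nat_lit 0) (XT.lf (nat_lit 0) (nat_lit 1435445040435) (nat_lit 76) (nat_lit 658117099363) (nat_lit 76) (nat_lit 656567147566) (nat_lit 1) (nat_lit 4) (nat_lit 2) (nat_lit 5) (nat_lit 2) (nat_lit 4) (nat_lit 339) (nat_lit 210) (nat_lit 171)) (XT.nd (nat_lit 34242) (nat_lit 0) (nat_lit 0) (XT.lf (nat_lit 0) (nat_lit 1551427896011) (nat_lit 76) (nat_lit 710108534198) (nat_lit 76) (nat_lit 708552576151) (nat_lit 1) (nat_lit 4) (nat_lit 2) (nat_lit 5) (nat_lit 2) (nat_lit 4) (nat_lit 340) (nat_lit 210) (nat_lit 170)) (XT.lf (nat_lit 0) (nat_lit 16748391065)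 (nat_lit 76) (nat_lit 21234675112) (nat_lit 76) (nat_lit 21234675112) (nat_lit 1) (nat_lit 4) (nat_lit 2) (nat_lit 5) (nat_lit 2) (nat_lit 4) (nat_lit 298) (nat_lit 211) (nat_lit 211))))) (XT.nd (nat_lit 234) (nat_lit 0) (nat_lit 0) (XT.nd (nat_lit 78) (nat_lit 0) (nat_lit 0) (XT.lf (nat_lit 0) (nat_lit 39485067817) (nat_lit 76) (nat_lit 44204871258) (nat_lit 76) (nat_lit 44074388365) (nat_lit 1) (nat_lit 4) (nat_lit 2) (nat_lit 5) (nat_lit 2) (nat_lit 4) (nat_lit 299) (nat_lit 211) (nat_lit 210)) (XT.nd (nat_lit 78) (nat_lit 0) (nat_lit 0) (XT.lf (nat_lit 0) (nat_lit 45791099675) (nat_lit 76) (nat_lit 46153399454) (nat_lit 76) (nat_lit 45902099067) (nat_lit 1) (nat_lit 4) (nat_lit 2) (nat_lit 5) (nat_lit 2) (nat_lit 4) (nat_lit 300) (nat_lit 211) (nat_lit 209)) (XT.lf (nat_lit 0) (nat_lit 52452246784) (nat_lit 76) (nat_lit 48326481645) (nat_lit 76) (nat_lit 47963313209) (nat_lit 1)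 (nat_lit 4) (nat_lit 2) (nat_lit 5) (nat_lit 2) (nat_lit 4) (nat_lit 301) (nat_lit 211) (nat_lit 208)))) (XT.nd (nat_lit 78) (nat_lit 0) (nat_lit 0) (XT.lf (nat_lit 0) (nat_lit 59507982607) (nat_lit 76) (nat_lit 50736995357) (nat_lit 76) (nat_lit 50270245393) (nat_lit 1) (nat_lit 4) (nat_lit 2) (nat_lit 5) (nat_lit 2) (nat_lit 4) (nat_lit 302) (nat_lit 211) (nat_lit 207)) (XT.nd (nat_lit 78) (nat_lit 0) (nat_lit 0) (XT.lf (nat_lit 0) (nat_lit 67000118912) (nat_lit 76) (nat_lit 53399225114) (nat_lit 76) (nat_lit 52836566329) (nat_lit 1) (nat_lit 4) (nat_lit 2) (nat_lit 5) (nat_lit 2) (nat_lit 4) (nat_lit 303) (nat_lit 211) (nat_lit 206)) (XT.lf (nat_lit 0) (nat_lit 74973053544) (nat_lit 76) (nat_lit 56328947094) (nat_lit 76) (nat_lit 55677483844) (nat_lit 1) (nat_lit 4) (nat_lit 2) (nat_lit 5) (nat_lit 2) (nat_lit 4) (nat_lit 304) (nat_lit 211) (nat_lit 205)))))) (XT.nd (nat_lit 468)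 (nat_lit 0) (nat_lit 0) (XT.nd (nat_lit 234) (nat_lit 0) (nat_lit 0) (XT.nd (nat_lit 78) (nat_lit 0) (nat_lit 0) (XT.lf (nat_lit 0) (nat_lit 83474033523) (nat_lit 76) (nat_lit 59543522611) (nat_lit 76) (nat_lit 58809833005) (nat_lit 1) (nat_lit 4) (nat_lit 2) (nat_lit 5) (nat_lit 2) (nat_lit 4) (nat_lit 305) (nat_lit 211) (nat_lit 204)) (XT.nd (nat_lit 78) (nat_lit 0) (nat_lit 0) (XT.lf (nat_lit 0) (nat_lit 92553435026) (nat_lit 76) (nat_lit 63062001002) (nat_lit 76) (nat_lit 62252175881) (nat_lit 1) (nat_lit 4) (nat_lit 2) (nat_lit 5) (nat_lit 2) (nat_lit 4) (nat_lit 306) (nat_lit 211) (nat_lit 203)) (XT.lf (nat_lit 0) (nat_lit 102265061915) (nat_lit 76) (nat_lit 66905232509) (nat_lit 76) (nat_lit 66024911541) (nat_lit 1) (nat_lit 4) (nat_lit 2) (nat_lit 5) (nat_lit 2) (nat_lit 4) (nat_lit 307) (nat_lit 211) (nat_lit 202)))) (XT.nd (nat_lit 78) (nat_lit 0) (nat_lit 0) (XT.lf (nat_lit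 0) (nat_lit 112666464571) (nat_lit 76) (nat_lit 71095991838) (nat_lit 76) (nat_lit 70150396937) (nat_lit 1) (nat_lit 4) (nat_lit 2) (nat_lit 5) (nat_lit 2) (nat_lit 4) (nat_lit 308) (nat_lit 211) (nat_lit 201)) (XT.nd (nat_lit 78) (nat_lit 0) (nat_lit 0) (XT.lf (nat_lit 0) (nat_lit 123819280935) (nat_lit 76) (nat_lit 75659113117) (nat_lit 76) (nat_lit 74653079390) (nat_lit 1) (nat_lit 4) (nat_lit 2) (nat_lit 5) (nat_lit 2) (nat_lit 4) (nat_lit 309) (nat_lit 211) (nat_lit 200)) (XT.lf (nat_lit 0) (nat_lit 135789601771) (nat_lit 76) (nat_lit 80621637066) (nat_lit 76) (nat_lit 79559641463) (nat_lit 1) (nat_lit 4) (nat_lit 2) (nat_lit 5) (nat_lit 2) (nat_lit 4) (nat_lit 310) (nat_lit 211) (nat_lit 199))))) (XT.nd (nat_lit 234) (nat_lit 0) (nat_lit 0) (XT.nd (nat_lit 78) (nat_lit 0) (nat_lit 0) (XT.lf (nat_lit 0) (nat_lit 148648362315) (nat_lit 76) (nat_lit 86012971234) (nat_lit 76) (nat_lit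 84899159079) (nat_lit 1) (nat_lit 4) (nat_lit 2) (nat_lit 5) (nat_lit 2) (nat_lit 4) (nat_lit 311) (nat_lit 211) (nat_lit 198)) (XT.nd (nat_lit 78) (nat_lit 0) (nat_lit 0) (XT.lf (nat_lit 0) (nat_lit 162471762628) (nat_lit 76) (nat_lit 91865064267) (nat_lit 76) (nat_lit 90703273823) (nat_lit 1) (nat_lit 4) (nat_lit 2) (nat_lit 5) (nat_lit 2) (nat_lit 4) (nat_lit 312) (nat_lit 211) (nat_lit 197)) (XT.lf (nat_lit 0) (nat_lit 177341719156) (nat_lit 76) (nat_lit 98212595237) (nat_lit 76) (nat_lit 97006380451) (nat_lit 1) (nat_lit 4) (nat_lit 2) (nat_lit 5) (nat_lit 2) (nat_lit 4) (nat_lit 313) (nat_lit 211) (nat_lit 196)))) (XT.nd (nat_lit 156) (nat_lit 0) (nat_lit 0) (XT.nd (nat_lit 78) (nat_lit 0) (nat_lit 0) (XT.lf (nat_lit 0) (nat_lit 193346350161) (nat_lit 76) (nat_lit 105093179140) (nat_lit 76) (nat_lit 103845830704) (nat_lit 1) (nat_lit 4) (nat_lit 2) (nat_lit 5) (nat_lit 2) (nat_lit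 4) (nat_lit 314) (nat_lit 211) (nat_lit 195)) (XT.lf (nat_lit 0) (nat_lit 210580497900) (nat_lit 76) (nat_lit 112547589807) (nat_lit 76) (nat_lit 111262154659) (nat_lit 1) (nat_lit 4) (nat_lit 2) (nat_lit 5) (nat_lit 2) (nat_lit 4) (nat_lit 315) (nat_lit 211) (nat_lit 194))) (XT.nd (nat_lit 78) (nat_lit 0) (nat_lit 0) (XT.lf (nat_lit 0) (nat_lit 229146290656) (nat_lit 76) (nat_lit 120620001525) (nat_lit 76) (nat_lit 119299300902) (nat_lit 1) (nat_lit 4) (nat_lit 2) (nat_lit 5) (nat_lit 2) (nat_lit 4) (nat_lit 316) (nat_lit 211) (nat_lit 193)) (XT.lf (nat_lit 0) (nat_lit 249153747942) (nat_lit 76) (nat_lit 129358250806) (nat_lit 76) (nat_lit 128004896966) (nat_lit 1) (nat_lit 4) (nat_lit 2) (nat_lit 5) (nat_lit 2) (nat_lit 4) (nat_lit 317) (nat_lit 211) (nat_lit 192))))))) (XT.nd (nat_lit 936) (nat_lit 0) (nat_lit 0) (XT.nd (nat_lit 468) (nat_lit 0) (nat_lit 0) (XT.nd (nat_lit 234)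 (nat_lit 0) (nat_lit 0) (XT.nd (nat_lit 78) (nat_lit 0) (nat_lit 0) (XT.lf (nat_lit 0) (nat_lit 270721432468) (nat_lit 76) (nat_lit 138814119869) (nat_lit 76) (nat_lit 137430531568) (nat_lit 1) (nat_lit 4) (nat_lit 2) (nat_lit 5) (nat_lit 2) (nat_lit 4) (nat_lit 318) (nat_lit 211) (nat_lit 191)) (XT.nd (nat_lit 78) (nat_lit 0) (nat_lit 0) (XT.lf (nat_lit 0) (nat_lit 293977152735) (nat_lit 76) (nat_lit 149043643493) (nat_lit 76) (nat_lit 147632060322) (nat_lit 1) (nat_lit 4) (nat_lit 2) (nat_lit 5) (nat_lit 2) (nat_lit 4) (nat_lit 319) (nat_lit 211) (nat_lit 190)) (XT.lf (nat_lit 0) (nat_lit 319058720417) (nat_lit 76) (nat_lit 160107441078) (nat_lit 76) (nat_lit 158669936730) (nat_lit 1) (nat_lit 4) (nat_lit 2) (nat_lit 5) (nat_lit 2) (nat_lit 4) (nat_lit 320) (nat_lit 211) (nat_lit 189)))) (XT.nd (nat_lit 78) (nat_lit 0) (nat_lit 0) (XT.lf (nat_lit 0) (nat_lit 346114767028) (nat_lit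 76) (nat_lit 172071075869) (nat_lit 76) (nat_lit 170609570432) (nat_lit 1) (nat_lit 4) (nat_lit 2) (nat_lit 5) (nat_lit 2) (nat_lit 4) (nat_lit 321) (nat_lit 211) (nat_lit 188)) (XT.nd (nat_lit 78) (nat_lit 0) (nat_lit 0) (XT.lf (nat_lit 0) (nat_lit 375305624696) (nat_lit 76) (nat_lit 185005443479) (nat_lit 76) (nat_lit 183521714810) (nat_lit 1) (nat_lit 4) (nat_lit 2) (nat_lit 5) (nat_lit 2) (nat_lit 4) (nat_lit 322) (nat_lit 211) (nat_lit 187)) (XT.lf (nat_lit 0) (nat_lit 406804276280) (nat_lit 76) (nat_lit 198987192012) (nat_lit 76) (nat_lit 197482886278) (nat_lit 1) (nat_lit 4) (nat_lit 2) (nat_lit 5) (nat_lit 2) (nat_lit 4) (nat_lit 323) (nat_lit 211) (nat_lit 186))))) (XT.nd (nat_lit 234) (nat_lit 0) (nat_lit 0) (XT.nd (nat_lit 78) (nat_lit 0) (nat_lit 0) (XT.lf (nat_lit 0) (nat_lit 440797380457) (nat_lit 76) (nat_lit 214099176275) (nat_lit 76) (nat_lit 212575817702) (nat_lit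 1) (nat_lit 4) (nat_lit 2) (nat_lit 5) (nat_lit 2) (nat_lit 4) (nat_lit 324) (nat_lit 211) (nat_lit 185)) (XT.nd (nat_lit 78) (nat_lit 0) (nat_lit 0) (XT.lf (nat_lit 0) (nat_lit 477486377845) (nat_lit 76) (nat_lit 230430948767) (nat_lit 76) (nat_lit 228889948677) (nat_lit 1) (nat_lit 4) (nat_lit 2) (nat_lit 5) (nat_lit 2) (nat_lit 4) (nat_lit 325) (nat_lit 211) (nat_lit 184)) (XT.lf (nat_lit 0) (nat_lit 517088684723) (nat_lit 76) (nat_lit 248079290362) (nat_lit 76) (nat_lit 246521955533) (nat_lit 1) (nat_lit 4) (nat_lit 2) (nat_lit 5) (nat_lit 2) (nat_lit 4) (nat_lit 326) (nat_lit 211) (nat_lit 183)))) (XT.nd (nat_lit 78) (nat_lit 0) (nat_lit 0) (XT.lf (nat_lit 0) (nat_lit 559838981429) (nat_lit 76) (nat_lit 267148783825) (nat_lit 76) (nat_lit 265576324239) (nat_lit 1) (nat_lit 4) (nat_lit 2) (nat_lit 5) (nat_lit 2) (nat_lit 4) (nat_lit 327) (nat_lit 211) (nat_lit 182)) (XT.nd (nat_lit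 78) (nat_lit 0) (nat_lit 0) (XT.lf (nat_lit 0) (nat_lit 605990603055) (nat_lit 76) (nat_lit 287752433561) (nat_lit 76) (nat_lit 286165969570) (nat_lit 1) (nat_lit 4) (nat_lit 2) (nat_lit 5) (nat_lit 2) (nat_lit 4) (nat_lit 328) (nat_lit 211) (nat_lit 181)) (XT.lf (nat_lit 0) (nat_lit 655817040692) (nat_lit 76) (nat_lit 310012335274) (nat_lit 76) (nat_lit 308412904241) (nat_lit 1) (nat_lit 4) (nat_lit 2) (nat_lit 5) (nat_lit 2) (nat_lit 4) (nat_lit 329) (nat_lit 211) (nat_lit 180)))))) (XT.nd (nat_lit 468) (nat_lit 0) (nat_lit 0) (XT.nd (nat_lit 234) (nat_lit 0) (nat_lit 0) (XT.nd (nat_lit 78) (nat_lit 0) (nat_lit 0) (XT.lf (nat_lit 0) (nat_lit 709613562118) (nat_lit 76) (nat_lit 334060399491) (nat_lit 76) (nat_lit 332448961938) (nat_lit 1) (nat_lit 4) (nat_lit 2) (nat_lit 5) (nat_lit 2) (nat_lit 4) (nat_lit 330) (nat_lit 211) (nat_lit 179)) (XT.nd (nat_lit 78) (nat_lit 0) (nat_lit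 0) (XT.lf (nat_lit 0) (nat_lit 767698961534) (nat_lit 76) (nat_lit 360039133260) (nat_lit 76) (nat_lit 358416578558) (nat_lit 1) (nat_lit 4) (nat_lit 2) (nat_lit 5) (nat_lit 2) (nat_lit 4) (nat_lit 331) (nat_lit 211) (nat_lit 178)) (XT.lf (nat_lit 0) (nat_lit 830417448715) (nat_lit 76) (nat_lit 388102484632) (nat_lit 76) (nat_lit 386469636275) (nat_lit 1) (nat_lit 4) (nat_lit 2) (nat_lit 5) (nat_lit 2) (nat_lit 4) (nat_lit 332) (nat_lit 211) (nat_lit 177)))) (XT.nd (nat_lit 78) (nat_lit 0) (nat_lit 0) (XT.lf (nat_lit 0) (nat_lit 898140688770) (nat_lit 76) (nat_lit 418416754950) (nat_lit 76) (nat_lit 416774375429) (nat_lit 1) (nat_lit 4) (nat_lit 2) (nat_lit 5) (nat_lit 2) (nat_lit 4) (nat_lit 333) (nat_lit 211) (nat_lit 176)) (XT.nd (nat_lit 78) (nat_lit 0) (nat_lit 0) (XT.lf (nat_lit 0) (nat_lit 971270004602) (nat_lit 76) (nat_lit 451161584333) (nat_lit 76) (nat_lit 449510379662)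 (nat_lit 1) (nat_lit 4) (nat_lit 2) (nat_lit 5) (nat_lit 2) (nat_lit 4) (nat_lit 334) (nat_lit 211) (nat_lit 175)) (XT.lf (nat_lit 0) (nat_lit 1050238755122) (nat_lit 76) (nat_lit 486531016215) (nat_lit 76) (nat_lit 484871640108) (nat_lit 1) (nat_lit 4) (nat_lit 2) (nat_lit 5) (nat_lit 2) (nat_lit 4) (nat_lit 335) (nat_lit 211) (nat_lit 174))))) (XT.nd (nat_lit 234) (nat_lit 0) (nat_lit 0) (XT.nd (nat_lit 78) (nat_lit 0) (nat_lit 0) (XT.lf (nat_lit 0) (nat_lit 1135514903294) (nat_lit 76) (nat_lit 524734647230) (nat_lit 76) (nat_lit 523067704978) (nat_lit 1) (nat_lit 4) (nat_lit 2) (nat_lit 5) (nat_lit 2) (nat_lit 4) (nat_lit 336) (nat_lit 211) (nat_lit 173)) (XT.nd (nat_lit 78) (nat_lit 0) (nat_lit 0) (XT.lf (nat_lit 0) (nat_lit 1227603789255) (nat_lit 76) (nat_lit 565998869264) (nat_lit 76) (nat_lit 564324921323) (nat_lit 1) (nat_lit 4) (nat_lit 2) (nat_lit 5) (nat_lit 2) (nat_lit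 4) (nat_lit 337) (nat_lit 211) (nat_lit 172)) (XT.lf (nat_lit 0) (nat_lit 1327051124924) (nat_lit 76) (nat_lit 610568211041) (nat_lit 76) (nat_lit 608887776351) (nat_lit 1) (nat_lit 4) (nat_lit 2) (nat_lit 5) (nat_lit 2) (nat_lit 4) (nat_lit 338) (nat_lit 211) (nat_lit 171)))) (XT.nd (nat_lit 34164) (nat_lit 0) (nat_lit 0) (XT.nd (nat_lit 78) (nat_lit 0) (nat_lit 0) (XT.lf (nat_lit 0) (nat_lit 1434446227844) (nat_lit 76) (nat_lit 658706787179) (nat_lit 76) (nat_lit 657020346240) (nat_lit 1) (nat_lit 4) (nat_lit 2) (nat_lit 5) (nat_lit 2) (nat_lit 4) (nat_lit 339) (nat_lit 211) (nat_lit 170)) (XT.lf (nat_lit 0) (nat_lit 1550425513440) (nat_lit 76) (nat_lit 710699863315) (nat_lit 76) (nat_lit 709007861033) (nat_lit 1) (nat_lit 4) (nat_lit 2) (nat_lit 5) (nat_lit 2) (nat_lit 4) (nat_lit 340) (nat_lit 211) (nat_lit 169))) (XT.nd (nat_lit 78) (nat_lit 0) (nat_lit 0) (XT.lf (nat_lit 0) (nat_lit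 11211819404) (nat_lit 76) (nat_lit 19848362246) (nat_lit 76) (nat_lit 19848362246) (nat_lit 1) (nat_lit 4) (nat_lit 2) (nat_lit 5) (nat_lit 2) (nat_lit 4) (nat_lit 296) (nat_lit 212) (nat_lit 212)) (XT.lf (nat_lit 0) (nat_lit 27790756479) (nat_lit 76) (nat_lit 41077473309) (nat_lit 76) (nat_lit 40936551785) (nat_lit 1) (nat_lit 4) (nat_lit 2) (nat_lit 5) (nat_lit 2) (nat_lit 4) (nat_lit 297) (nat_lit 212) (nat_lit 211))))))))
noncomputable def xc10 : XT := (XT.nd (nat_lit 1950) (nat_lit 0) (nat_lit 0) (XT.nd (nat_lit 936) (nat_lit 0) (nat_lit 0) (XT.nd (nat_lit 468) (nat_lit 0) (nat_lit 0) (XT.nd (nat_lit 234) (nat_lit 0) (nat_lit 0) (XT.nd (nat_lit 78) (nat_lit 0) (nat_lit 0) (XT.lf (nat_lit 0) (nat_lit 33413021545) (nat_lit 76) (nat_lit 42648780748) (nat_lit 76) (nat_lit 42377376331) (nat_lit 1) (nat_lit 4) (nat_lit 2) (nat_lit 5) (nat_lit 2) (nat_lit 4) (nat_lit 298) (nat_lit 212)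 (nat_lit 210)) (XT.nd (nat_lit 78) (nat_lit 0) (nat_lit 0) (XT.lf (nat_lit 0) (nat_lit 39323751134) (nat_lit 76) (nat_lit 44419958262) (nat_lit 76) (nat_lit 44027736351) (nat_lit 1) (nat_lit 4) (nat_lit 2) (nat_lit 5) (nat_lit 2) (nat_lit 4) (nat_lit 299) (nat_lit 212) (nat_lit 209)) (XT.lf (nat_lit 0) (nat_lit 45557971792) (nat_lit 76) (nat_lit 46401501718) (nat_lit 76) (nat_lit 45897411757) (nat_lit 1) (nat_lit 4) (nat_lit 2) (nat_lit 5) (nat_lit 2) (nat_lit 4) (nat_lit 300) (nat_lit 212) (nat_lit 208)))) (XT.nd (nat_lit 78) (nat_lit 0) (nat_lit 0) (XT.lf (nat_lit 0) (nat_lit 52152627047) (nat_lit 76) (nat_lit 48605153594) (nat_lit 76) (nat_lit 47997482106) (nat_lit 1) (nat_lit 4) (nat_lit 2) (nat_lit 5) (nat_lit 2) (nat_lit 4) (nat_lit 301) (nat_lit 212) (nat_lit 207)) (XT.nd (nat_lit 78) (nat_lit 0) (nat_lit 0) (XT.lf (nat_lit 0) (nat_lit 59146796339) (nat_lit 76) (nat_lit 51043972570)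 (nat_lit 76) (nat_lit 50340392260) (nat_lit 1) (nat_lit 4) (nat_lit 2) (nat_lit 5) (nat_lit 2) (nat_lit 4) (nat_lit 302) (nat_lit 212) (nat_lit 206)) (XT.lf (nat_lit 0) (nat_lit 66581926597) (nat_lit 76) (nat_lit 53732410905) (nat_lit 76) (nat_lit 52940026130) (nat_lit 1) (nat_lit 4) (nat_lit 2) (nat_lit 5) (nat_lit 2) (nat_lit 4) (nat_lit 303) (nat_lit 212) (nat_lit 205))))) (XT.nd (nat_lit 234) (nat_lit 0) (nat_lit 0) (XT.nd (nat_lit 78) (nat_lit 0) (nat_lit 0) (XT.lf (nat_lit 0) (nat_lit 74502077852) (nat_lit 76) (nat_lit 56686400086) (nat_lit 76) (nat_lit 55811788955) (nat_lit 1) (nat_lit 4) (nat_lit 2) (nat_lit 5) (nat_lit 2) (nat_lit 4) (nat_lit 304) (nat_lit 212) (nat_lit 204)) (XT.nd (nat_lit 78) (nat_lit 0) (nat_lit 0) (XT.lf (nat_lit 0) (nat_lit 82954184334) (nat_lit 76) (nat_lit 59923445234) (nat_lit 76) (nat_lit 58972698588) (nat_lit 1) (nat_lit 4) (nat_lit 2) (nat_lit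 5) (nat_lit 2) (nat_lit 4) (nat_lit 305) (nat_lit 212) (nat_lit 203)) (XT.lf (nat_lit 0) (nat_lit 91988332600) (nat_lit 76) (nat_lit 63462728839) (nat_lit 76) (nat_lit 62441486346) (nat_lit 1) (nat_lit 4) (nat_lit 2) (nat_lit 5) (nat_lit 2) (nat_lit 4) (nat_lit 306) (nat_lit 212) (nat_lit 202)))) (XT.nd (nat_lit 78) (nat_lit 0) (nat_lit 0) (XT.lf (nat_lit 0) (nat_lit 101658058342) (nat_lit 76) (nat_lit 67325224433) (nat_lit 76) (nat_lit 66238708008) (nat_lit 1) (nat_lit 4) (nat_lit 2) (nat_lit 5) (nat_lit 2) (nat_lit 4) (nat_lit 307) (nat_lit 212) (nat_lit 201)) (XT.nd (nat_lit 78) (nat_lit 0) (nat_lit 0) (XT.lf (nat_lit 0) (nat_lit 112020663641) (nat_lit 76) (nat_lit 71533820879) (nat_lit 76) (nat_lit 70386865628) (nat_lit 1) (nat_lit 4) (nat_lit 2) (nat_lit 5) (nat_lit 2) (nat_lit 4) (nat_lit 308) (nat_lit 212) (nat_lit 200)) (XT.lf (nat_lit 0) (nat_lit 123137556526) (nat_lit 76)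 (nat_lit 76113458008) (nat_lit 76) (nat_lit 74910540880) (nat_lit 1) (nat_lit 4) (nat_lit 2) (nat_lit 5) (nat_lit 2) (nat_lit 4) (nat_lit 309) (nat_lit 212) (nat_lit 199)))))) (XT.nd (nat_lit 468) (nat_lit 0) (nat_lit 0) (XT.nd (nat_lit 234) (nat_lit 0) (nat_lit 0) (XT.nd (nat_lit 78) (nat_lit 0) (nat_lit 0) (XT.lf (nat_lit 0) (nat_lit 135074614881) (nat_lit 76) (nat_lit 81091274410) (nat_lit 76) (nat_lit 79836540731) (nat_lit 1) (nat_lit 4) (nat_lit 2) (nat_lit 5) (nat_lit 2) (nat_lit 4) (nat_lit 310) (nat_lit 212) (nat_lit 198)) (XT.nd (nat_lit 78) (nat_lit 0) (nat_lit 0) (XT.lf (nat_lit 0) (nat_lit 147902576831) (nat_lit 76) (nat_lit 86496768257) (nat_lit 76) (nat_lit 85194056288) (nat_lit 1) (nat_lit 4) (nat_lit 2) (nat_lit 5) (nat_lit 2) (nat_lit 4) (nat_lit 311) (nat_lit 212) (nat_lit 197)) (XT.lf (nat_lit 0) (nat_lit 161697459928) (nat_lit 76) (nat_lit 92361972104) (nat_lit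 76) (nat_lit 91014835794) (nat_lit 1) (nat_lit 4) (nat_lit 2) (nat_lit 5) (nat_lit 2) (nat_lit 4) (nat_lit 312) (nat_lit 212) (nat_lit 196)))) (XT.nd (nat_lit 78) (nat_lit 0) (nat_lit 0) (XT.lf (nat_lit 0) (nat_lit 176541011627) (nat_lit 76) (nat_lit 98721642716) (nat_lit 76) (nat_lit 97333372756) (nat_lit 1) (nat_lit 4) (nat_lit 2) (nat_lit 5) (nat_lit 2) (nat_lit 4) (nat_lit 313) (nat_lit 212) (nat_lit 195)) (XT.nd (nat_lit 78) (nat_lit 0) (nat_lit 0) (XT.lf (nat_lit 0) (nat_lit 192521193715) (nat_lit 76) (nat_lit 105613467029) (nat_lit 76) (nat_lit 104187110356) (nat_lit 1) (nat_lit 4) (nat_lit 2) (nat_lit 5) (nat_lit 2) (nat_lit 4) (nat_lit 314) (nat_lit 212) (nat_lit 194)) (XT.lf (nat_lit 0) (nat_lit 209732703569) (nat_lit 76) (nat_lit 113078285483) (nat_lit 76) (nat_lit 111616663336) (nat_lit 1) (nat_lit 4) (nat_lit 2) (nat_lit 5) (nat_lit 2) (nat_lit 4) (nat_lit 315) (nat_lit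 212) (nat_lit 193))))) (XT.nd (nat_lit 234) (nat_lit 0) (nat_lit 0) (XT.nd (nat_lit 78) (nat_lit 0) (nat_lit 0) (XT.lf (nat_lit 0) (nat_lit 228277535320) (nat_lit 76) (nat_lit 121160334040) (nat_lit 76) (nat_lit 119666058676) (nat_lit 1) (nat_lit 4) (nat_lit 2) (nat_lit 5) (nat_lit 2) (nat_lit 4) (nat_lit 316) (nat_lit 212) (nat_lit 192)) (XT.nd (nat_lit 78) (nat_lit 0) (nat_lit 0) (XT.lf (nat_lit 0) (nat_lit 248265584268) (nat_lit 76) (nat_lit 129907506321) (nat_lit 76) (nat_lit 128382996496) (nat_lit 1) (nat_lit 4) (nat_lit 2) (nat_lit 5) (nat_lit 2) (nat_lit 4) (nat_lit 317) (nat_lit 212) (nat_lit 191)) (XT.lf (nat_lit 0) (nat_lit 269815298110) (nat_lit 76) (nat_lit 139371637421) (nat_lit 76) (nat_lit 137819132725) (nat_lit 1) (nat_lit 4) (nat_lit 2) (nat_lit 5) (nat_lit 2) (nat_lit 4) (nat_lit 318) (nat_lit 212) (nat_lit 190)))) (XT.nd (nat_lit 156) (nat_lit 0) (nat_lit 0) (XT.nd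 (nat_lit 78) (nat_lit 0) (nat_lit 0) (XT.lf (nat_lit 0) (nat_lit 293054378855) (nat_lit 76) (nat_lit 149608811079) (nat_lit 76) (nat_lit 148030385207) (nat_lit 1) (nat_lit 4) (nat_lit 2) (nat_lit 5) (nat_lit 2) (nat_lit 4) (nat_lit 319) (nat_lit 212) (nat_lit 189)) (XT.lf (nat_lit 0) (nat_lit 318120539573) (nat_lit 76) (nat_lit 160679692029) (nat_lit 76) (nat_lit 159077265067) (nat_lit 1) (nat_lit 4) (nat_lit 2) (nat_lit 5) (nat_lit 2) (nat_lit 4) (nat_lit 320) (nat_lit 212) (nat_lit 188))) (XT.nd (nat_lit 78) (nat_lit 0) (nat_lit 0) (XT.lf (nat_lit 0) (nat_lit 345162320477) (nat_lit 76) (nat_lit 172649885491) (nat_lit 76) (nat_lit 171025235298) (nat_lit 1) (nat_lit 4) (nat_lit 2) (nat_lit 5) (nat_lit 2) (nat_lit 4) (nat_lit 321) (nat_lit 212) (nat_lit 187)) (XT.lf (nat_lit 0) (nat_lit 374339969155) (nat_lit 76) (nat_lit 185590325944) (nat_lit 76) (nat_lit 183945098686) (nat_lit 1)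 (nat_lit 4) (nat_lit 2) (nat_lit 5) (nat_lit 2) (nat_lit 4) (nat_lit 322) (nat_lit 212) (nat_lit 186))))))) (XT.nd (nat_lit 936) (nat_lit 0) (nat_lit 0) (XT.nd (nat_lit 468) (nat_lit 0) (nat_lit 0) (XT.nd (nat_lit 234) (nat_lit 0) (nat_lit 0) (XT.nd (nat_lit 78) (nat_lit 0) (nat_lit 0) (XT.lf (nat_lit 0) (nat_lit 405826390195) (nat_lit 76) (nat_lit 199577697481) (nat_lit 76) (nat_lit 197913417384) (nat_lit 1) (nat_lit 4) (nat_lit 2) (nat_lit 5) (nat_lit 2) (nat_lit 4) (nat_lit 323) (nat_lit 212) (nat_lit 185)) (XT.nd (nat_lit 78) (nat_lit 0) (nat_lit 0) (XT.lf (nat_lit 0) (nat_lit 439808169793) (nat_lit 76) (nat_lit 214694888229) (nat_lit 76) (nat_lit 213012966614) (nat_lit 1) (nat_lit 4) (nat_lit 2) (nat_lit 5) (nat_lit 2) (nat_lit 4) (nat_lit 324) (nat_lit 212) (nat_lit 184)) (XT.lf (nat_lit 0) (nat_lit 476486681459) (nat_lit 76) (nat_lit 231031481540) (nat_lit 76) (nat_lit 229333225187)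 (nat_lit 1) (nat_lit 4) (nat_lit 2) (nat_lit 5) (nat_lit 2) (nat_lit 4) (nat_lit 325) (nat_lit 212) (nat_lit 183)))) (XT.nd (nat_lit 78) (nat_lit 0) (nat_lit 0) (XT.lf (nat_lit 0) (nat_lit 516079279336) (nat_lit 76) (nat_lit 248684286856) (nat_lit 76) (nat_lit 246970905745) (nat_lit 1) (nat_lit 4) (nat_lit 2) (nat_lit 5) (nat_lit 2) (nat_lit 4) (nat_lit 326) (nat_lit 212) (nat_lit 182)) (XT.nd (nat_lit 78) (nat_lit 0) (nat_lit 0) (XT.lf (nat_lit 0) (nat_lit 558820586227) (nat_lit 76) (nat_lit 267757913394) (nat_lit 76) (nat_lit 266030527878) (nat_lit 1) (nat_lit 4) (nat_lit 2) (nat_lit 5) (nat_lit 2) (nat_lit 4) (nat_lit 327) (nat_lit 212) (nat_lit 181)) (XT.lf (nat_lit 0) (nat_lit 604963883949) (nat_lit 76) (nat_lit 288365390052) (nat_lit 76) (nat_lit 286625037495) (nat_lit 1) (nat_lit 4) (nat_lit 2) (nat_lit 5) (nat_lit 2) (nat_lit 4) (nat_lit 328) (nat_lit 212) (nat_lit 180)))))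 (XT.nd (nat_lit 234) (nat_lit 0) (nat_lit 0) (XT.nd (nat_lit 78) (nat_lit 0) (nat_lit 0) (XT.lf (nat_lit 0) (nat_lit 654782614267) (nat_lit 76) (nat_lit 310628835211) (nat_lit 76) (nat_lit 308876476133) (nat_lit 1) (nat_lit 4) (nat_lit 2) (nat_lit 5) (nat_lit 2) (nat_lit 4) (nat_lit 329) (nat_lit 212) (nat_lit 179)) (XT.nd (nat_lit 78) (nat_lit 0) (nat_lit 0) (XT.lf (nat_lit 0) (nat_lit 708571999288) (nat_lit 76) (nat_lit 334680180396) (nat_lit 76) (nat_lit 332916704170) (nat_lit 1) (nat_lit 4) (nat_lit 2) (nat_lit 5) (nat_lit 2) (nat_lit 4) (nat_lit 330) (nat_lit 212) (nat_lit 178)) (XT.lf (nat_lit 0) (nat_lit 766650790921) (nat_lit 76) (nat_lit 360661952099) (nat_lit 76) (nat_lit 358888182217) (nat_lit 1) (nat_lit 4) (nat_lit 2) (nat_lit 5) (nat_lit 2) (nat_lit 4) (nat_lit 331) (nat_lit 212) (nat_lit 177)))) (XT.nd (nat_lit 78) (nat_lit 0) (nat_lit 0) (XT.lf (nat_lit 0) (nat_lit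 829363159784) (nat_lit 76) (nat_lit 388728116373) (nat_lit 76) (nat_lit 386944815328) (nat_lit 1) (nat_lit 4) (nat_lit 2) (nat_lit 5) (nat_lit 2) (nat_lit 4) (nat_lit 332) (nat_lit 212) (nat_lit 176)) (XT.nd (nat_lit 78) (nat_lit 0) (nat_lit 0) (XT.lf (nat_lit 0) (nat_lit 897080734730) (nat_lit 76) (nat_lit 419044991229) (nat_lit 76) (nat_lit 417252865033) (nat_lit 1) (nat_lit 4) (nat_lit 2) (nat_lit 5) (nat_lit 2) (nat_lit 4) (nat_lit 333) (nat_lit 212) (nat_lit 175)) (XT.lf (nat_lit 0) (nat_lit 970204805092) (nat_lit 76) (nat_lit 451792232222) (nat_lit 76) (nat_lit 449991934590) (nat_lit 1) (nat_lit 4) (nat_lit 2) (nat_lit 5) (nat_lit 2) (nat_lit 4) (nat_lit 334) (nat_lit 212) (nat_lit 174)))))) (XT.nd (nat_lit 34320) (nat_lit 0) (nat_lit 0) (XT.nd (nat_lit 234) (nat_lit 0) (nat_lit 0) (XT.nd (nat_lit 78) (nat_lit 0) (nat_lit 0) (XT.lf (nat_lit 0) (nat_lit 1049168698693) (nat_lit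 76) (nat_lit 487163897076) (nat_lit 76) (nat_lit 485356033300) (nat_lit 1) (nat_lit 4) (nat_lit 2) (nat_lit 5) (nat_lit 2) (nat_lit 4) (nat_lit 335) (nat_lit 212) (nat_lit 173)) (XT.nd (nat_lit 78) (nat_lit 0) (nat_lit 0) (XT.lf (nat_lit 0) (nat_lit 1134440349719) (nat_lit 76) (nat_lit 525369595657) (nat_lit 76) (nat_lit 523554726192) (nat_lit 1) (nat_lit 4) (nat_lit 2) (nat_lit 5) (nat_lit 2) (nat_lit 4) (nat_lit 336) (nat_lit 212) (nat_lit 172)) (XT.lf (nat_lit 0) (nat_lit 1226525071657) (nat_lit 76) (nat_lit 566635732105) (nat_lit 76) (nat_lit 564814375890) (nat_lit 1) (nat_lit 4) (nat_lit 2) (nat_lit 5) (nat_lit 2) (nat_lit 4) (nat_lit 337) (nat_lit 212) (nat_lit 171)))) (XT.nd (nat_lit 78) (nat_lit 0) (nat_lit 0) (XT.lf (nat_lit 0) (nat_lit 1325968551748) (nat_lit 76) (nat_lit 611206846487) (nat_lit 76) (nat_lit 609379484023) (nat_lit 1) (nat_lit 4) (nat_lit 2) (nat_lit 5) (nat_lit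 2) (nat_lit 4) (nat_lit 338) (nat_lit 212) (nat_lit 170)) (XT.nd (nat_lit 78) (nat_lit 0) (nat_lit 0) (XT.lf (nat_lit 0) (nat_lit 1433360084688) (nat_lit 76) (nat_lit 659347063927) (nat_lit 76) (nat_lit 657514140121) (nat_lit 1) (nat_lit 4) (nat_lit 2) (nat_lit 5) (nat_lit 2) (nat_lit 4) (nat_lit 339) (nat_lit 212) (nat_lit 169)) (XT.lf (nat_lit 0) (nat_lit 1549336064747) (nat_lit 76) (nat_lit 711341659785) (nat_lit 76) (nat_lit 709503586589) (nat_lit 1) (nat_lit 4) (nat_lit 2) (nat_lit 5) (nat_lit 2) (nat_lit 4) (nat_lit 340) (nat_lit 212) (nat_lit 168))))) (XT.nd (nat_lit 234) (nat_lit 0) (nat_lit 0) (XT.nd (nat_lit 78) (nat_lit 0) (nat_lit 0) (XT.lf (nat_lit 0) (nat_lit 6213323474) (nat_lit 76) (nat_lit 18791266484) (nat_lit 76) (nat_lit 18791266484) (nat_lit 1) (nat_lit 4) (nat_lit 2) (nat_lit 5) (nat_lit 2) (nat_lit 4) (nat_lit 294) (nat_lit 213) (nat_lit 213)) (XT.nd (nat_lit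 78) (nat_lit 0) (nat_lit 0) (XT.lf (nat_lit 0) (nat_lit 17279863394) (nat_lit 76) (nat_lit 38650547332) (nat_lit 76) (nat_lit 38498352085) (nat_lit 1) (nat_lit 4) (nat_lit 2) (nat_lit 5) (nat_lit 2) (nat_lit 4) (nat_lit 295) (nat_lit 213) (nat_lit 212)) (XT.lf (nat_lit 0) (nat_lit 22333177377) (nat_lit 76) (nat_lit 39890509459) (nat_lit 76) (nat_lit 39597392688) (nat_lit 1) (nat_lit 4) (nat_lit 2) (nat_lit 5) (nat_lit 2) (nat_lit 4) (nat_lit 296) (nat_lit 213) (nat_lit 211)))) (XT.nd (nat_lit 156) (nat_lit 0) (nat_lit 0) (XT.nd (nat_lit 78) (nat_lit 0) (nat_lit 0) (XT.lf (nat_lit 0) (nat_lit 27616534462) (nat_lit 76) (nat_lit 41309767274) (nat_lit 76) (nat_lit 40886167610) (nat_lit 1) (nat_lit 4) (nat_lit 2) (nat_lit 5) (nat_lit 2) (nat_lit 4) (nat_lit 297) (nat_lit 213) (nat_lit 210)) (XT.lf (nat_lit 0) (nat_lit 33161243431) (nat_lit 76) (nat_lit 42916731193) (nat_lit 76) (nat_lit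 42372314036) (nat_lit 1) (nat_lit 4) (nat_lit 2) (nat_lit 5) (nat_lit 2) (nat_lit 4) (nat_lit 298) (nat_lit 213) (nat_lit 209))) (XT.nd (nat_lit 78) (nat_lit 0) (nat_lit 0) (XT.lf (nat_lit 0) (nat_lit 39000161818) (nat_lit 76) (nat_lit 44720923967) (nat_lit 76) (nat_lit 44064638760) (nat_lit 1) (nat_lit 4) (nat_lit 2) (nat_lit 5) (nat_lit 2) (nat_lit 4) (nat_lit 299) (nat_lit 213) (nat_lit 208)) (XT.lf (nat_lit 0) (nat_lit 45167890622) (nat_lit 76) (nat_lit 46733037107) (nat_lit 76) (nat_lit 45973170373) (nat_lit 1) (nat_lit 4) (nat_lit 2) (nat_lit 5) (nat_lit 2) (nat_lit 4) (nat_lit 300) (nat_lit 213) (nat_lit 207))))))))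
noncomputable def xc11 : XT := (XT.nd (nat_lit 1950) (nat_lit 0) (nat_lit 0) (XT.nd (nat_lit 936) (nat_lit 0) (nat_lit 0) (XT.nd (nat_lit 468) (nat_lit 0) (nat_lit 0) (XT.nd (nat_lit 234) (nat_lit 0) (nat_lit 0) (XT.nd (nat_lit 78) (nat_lit 0) (nat_lit 0) (XT.lf (nat_lit 0) (nat_lit 51700979347) (nat_lit 76) (nat_lit 48964994248) (nat_lit 76) (nat_lit 48109218691) (nat_lit 1) (nat_lit 4) (nat_lit 2) (nat_lit 5) (nat_lit 2) (nat_lit 4) (nat_lit 301) (nat_lit 213) (nat_lit 206)) (XT.nd (nat_lit 78) (nat_lit 0) (nat_lit 0) (XT.lf (nat_lit 0) (nat_lit 58638142593) (nat_lit 76) (nat_lit 51430021801) (nat_lit 76) (nat_lit 50485441780) (nat_lit 1) (nat_lit 4) (nat_lit 2) (nat_lit 5) (nat_lit 2) (nat_lit 4) (nat_lit 302) (nat_lit 213) (nat_lit 205)) (XT.lf (nat_lit 0) (nat_lit 66020489474) (nat_lit 76) (nat_lit 54142727337) (nat_lit 76) (nat_lit 53115920960) (nat_lit 1) (nat_lit 4) (nat_lit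 2) (nat_lit 5) (nat_lit 2) (nat_lit 4) (nat_lit 303) (nat_lit 213) (nat_lit 204)))) (XT.nd (nat_lit 78) (nat_lit 0) (nat_lit 0) (XT.lf (nat_lit 0) (nat_lit 73891767232) (nat_lit 76) (nat_lit 57119186149) (nat_lit 76) (nat_lit 56016244258) (nat_lit 1) (nat_lit 4) (nat_lit 2) (nat_lit 5) (nat_lit 2) (nat_lit 4) (nat_lit 304) (nat_lit 213) (nat_lit 203)) (XT.nd (nat_lit 78) (nat_lit 0) (nat_lit 0) (XT.lf (nat_lit 0) (nat_lit 82298620476) (nat_lit 76) (nat_lit 60377036511) (nat_lit 76) (nat_lit 59203598773) (nat_lit 1) (nat_lit 4) (nat_lit 2) (nat_lit 5) (nat_lit 2) (nat_lit 4) (nat_lit 305) (nat_lit 213) (nat_lit 202)) (XT.lf (nat_lit 0) (nat_lit 91290867595) (nat_lit 76) (nat_lit 63935584203) (nat_lit 76) (nat_lit 62696872532) (nat_lit 1) (nat_lit 4) (nat_lit 2) (nat_lit 5) (nat_lit 2) (nat_lit 4) (nat_lit 306) (nat_lit 213) (nat_lit 201))))) (XT.nd (nat_lit 234) (nat_lit 0) (nat_lit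 0) (XT.nd (nat_lit 78) (nat_lit 0) (nat_lit 0) (XT.lf (nat_lit 0) (nat_lit 100921795980) (nat_lit 76) (nat_lit 67815916915) (nat_lit 76) (nat_lit 66516766417) (nat_lit 1) (nat_lit 4) (nat_lit 2) (nat_lit 5) (nat_lit 2) (nat_lit 4) (nat_lit 307) (nat_lit 213) (nat_lit 200)) (XT.nd (nat_lit 78) (nat_lit 0) (nat_lit 0) (XT.lf (nat_lit 0) (nat_lit 111248477799) (nat_lit 76) (nat_lit 72041029211) (nat_lit 76) (nat_lit 70685916837) (nat_lit 1) (nat_lit 4) (nat_lit 2) (nat_lit 5) (nat_lit 2) (nat_lit 4) (nat_lit 308) (nat_lit 213) (nat_lit 199)) (XT.lf (nat_lit 0) (nat_lit 122332108203) (nat_lit 76) (nat_lit 76635958793) (nat_lit 76) (nat_lit 75229029867) (nat_lit 1) (nat_lit 4) (nat_lit 2) (nat_lit 5) (nat_lit 2) (nat_lit 4) (nat_lit 309) (nat_lit 213) (nat_lit 198)))) (XT.nd (nat_lit 78) (nat_lit 0) (nat_lit 0) (XT.lf (nat_lit 0) (nat_lit 134238367966) (nat_lit 76) (nat_lit 81627934874)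 (nat_lit 76) (nat_lit 80173027659) (nat_lit 1) (nat_lit 4) (nat_lit 2) (nat_lit 5) (nat_lit 2) (nat_lit 4) (nat_lit 310) (nat_lit 213) (nat_lit 197)) (XT.nd (nat_lit 78) (nat_lit 0) (nat_lit 0) (XT.lf (nat_lit 0) (nat_lit 147037812700) (nat_lit 76) (nat_lit 87046539535) (nat_lit 76) (nat_lit 85547207978) (nat_lit 1) (nat_lit 4) (nat_lit 2) (nat_lit 5) (nat_lit 2) (nat_lit 4) (nat_lit 311) (nat_lit 213) (nat_lit 196)) (XT.lf (nat_lit 0) (nat_lit 160806290967) (nat_lit 76) (nat_lit 92923883025) (nat_lit 76) (nat_lit 91383417819) (nat_lit 1) (nat_lit 4) (nat_lit 2) (nat_lit 5) (nat_lit 2) (nat_lit 4) (nat_lit 312) (nat_lit 213) (nat_lit 195)))))) (XT.nd (nat_lit 468) (nat_lit 0) (nat_lit 0) (XT.nd (nat_lit 234) (nat_lit 0) (nat_lit 0) (XT.nd (nat_lit 78) (nat_lit 0) (nat_lit 0) (XT.lf (nat_lit 0) (nat_lit 175625393749) (nat_lit 76) (nat_lit 99294794046) (nat_lit 76) (nat_lit 97716242127)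 (nat_lit 1) (nat_lit 4) (nat_lit 2) (nat_lit 5) (nat_lit 2) (nat_lit 4) (nat_lit 313) (nat_lit 213) (nat_lit 194)) (XT.nd (nat_lit 78) (nat_lit 0) (nat_lit 0) (XT.lf (nat_lit 0) (nat_lit 191582937952) (nat_lit 76) (nat_lit 106197026146) (nat_lit 76) (nat_lit 104583208752) (nat_lit 1) (nat_lit 4) (nat_lit 2) (nat_lit 5) (nat_lit 2) (nat_lit 4) (nat_lit 314) (nat_lit 213) (nat_lit 193)) (XT.lf (nat_lit 0) (nat_lit 208773486800) (nat_lit 76) (nat_lit 113671481440) (nat_lit 76) (nat_lit 112025010829) (nat_lit 1) (nat_lit 4) (nat_lit 2) (nat_lit 5) (nat_lit 2) (nat_lit 4) (nat_lit 315) (nat_lit 213) (nat_lit 192)))) (XT.nd (nat_lit 78) (nat_lit 0) (nat_lit 0) (XT.lf (nat_lit 0) (nat_lit 227298910214) (nat_lit 76) (nat_lit 121762452997) (nat_lit 76) (nat_lit 120085747925) (nat_lit 1) (nat_lit 4) (nat_lit 2) (nat_lit 5) (nat_lit 2) (nat_lit 4) (nat_lit 316) (nat_lit 213) (nat_lit 191)) (XT.nd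 (nat_lit 78) (nat_lit 0) (nat_lit 0) (XT.lf (nat_lit 0) (nat_lit 247268988478) (nat_lit 76) (nat_lit 130517887314) (nat_lit 76) (nat_lit 128813187372) (nat_lit 1) (nat_lit 4) (nat_lit 2) (nat_lit 5) (nat_lit 2) (nat_lit 4) (nat_lit 317) (nat_lit 213) (nat_lit 190)) (XT.lf (nat_lit 0) (nat_lit 268802062799) (nat_lit 76) (nat_lit 139989668448) (nat_lit 76) (nat_lit 138259047329) (nat_lit 1) (nat_lit 4) (nat_lit 2) (nat_lit 5) (nat_lit 2) (nat_lit 4) (nat_lit 318) (nat_lit 213) (nat_lit 189))))) (XT.nd (nat_lit 234) (nat_lit 0) (nat_lit 0) (XT.nd (nat_lit 78) (nat_lit 0) (nat_lit 0) (XT.lf (nat_lit 0) (nat_lit 292025736579) (nat_lit 76) (nat_lit 150233925471) (nat_lit 76) (nat_lit 148479303263) (nat_lit 1) (nat_lit 4) (nat_lit 2) (nat_lit 5) (nat_lit 2) (nat_lit 4) (nat_lit 319) (nat_lit 213) (nat_lit 188)) (XT.nd (nat_lit 78) (nat_lit 0) (nat_lit 0) (XT.lf (nat_lit 0) (nat_lit 317077631590)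 (nat_lit 76) (nat_lit 161311365092) (nat_lit 76) (nat_lit 159534519653) (nat_lit 1) (nat_lit 4) (nat_lit 2) (nat_lit 5) (nat_lit 2) (nat_lit 4) (nat_lit 320) (nat_lit 213) (nat_lit 187)) (XT.lf (nat_lit 0) (nat_lit 344106203504) (nat_lit 76) (nat_lit 173287631398) (nat_lit 76) (nat_lit 171490208892) (nat_lit 1) (nat_lit 4) (nat_lit 2) (nat_lit 5) (nat_lit 2) (nat_lit 4) (nat_lit 321) (nat_lit 213) (nat_lit 186)))) (XT.nd (nat_lit 156) (nat_lit 0) (nat_lit 0) (XT.nd (nat_lit 78) (nat_lit 0) (nat_lit 0) (XT.lf (nat_lit 0) (nat_lit 373271621638) (nat_lit 76) (nat_lit 186233694854) (nat_lit 76) (nat_lit 184417219510) (nat_lit 1) (nat_lit 4) (nat_lit 2) (nat_lit 5) (nat_lit 2) (nat_lit 4) (nat_lit 322) (nat_lit 213) (nat_lit 185)) (XT.lf (nat_lit 0) (nat_lit 404746718098) (nat_lit 76) (nat_lit 200226272876) (nat_lit 76) (nat_lit 198392156014) (nat_lit 1) (nat_lit 4) (nat_lit 2) (nat_lit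 5) (nat_lit 2) (nat_lit 4) (nat_lit 323) (nat_lit 213) (nat_lit 184))) (XT.nd (nat_lit 78) (nat_lit 0) (nat_lit 0) (XT.lf (nat_lit 0) (nat_lit 438718011975) (nat_lit 76) (nat_lit 215348284442) (nat_lit 76) (nat_lit 213497832843) (nat_lit 1) (nat_lit 4) (nat_lit 2) (nat_lit 5) (nat_lit 2) (nat_lit 4) (nat_lit 324) (nat_lit 213) (nat_lit 183)) (XT.lf (nat_lit 0) (nat_lit 475386814640) (nat_lit 76) (nat_lit 231689341474) (nat_lit 76) (nat_lit 229823765117) (nat_lit 1) (nat_lit 4) (nat_lit 2) (nat_lit 5) (nat_lit 2) (nat_lit 4) (nat_lit 325) (nat_lit 213) (nat_lit 182))))))) (XT.nd (nat_lit 1014) (nat_lit 0) (nat_lit 0) (XT.nd (nat_lit 468) (nat_lit 0) (nat_lit 0) (XT.nd (nat_lit 234) (nat_lit 0) (nat_lit 0) (XT.nd (nat_lit 78) (nat_lit 0) (nat_lit 0) (XT.lf (nat_lit 0) (nat_lit 514970422701) (nat_lit 76) (nat_lit 249346279866) (nat_lit 76) (nat_lit 247466699104) (nat_lit 1) (nat_lit 4)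 (nat_lit 2) (nat_lit 5) (nat_lit 2) (nat_lit 4) (nat_lit 326) (nat_lit 213) (nat_lit 181)) (XT.nd (nat_lit 78) (nat_lit 0) (nat_lit 0) (XT.lf (nat_lit 0) (nat_lit 557703405688) (nat_lit 76) (nat_lit 268423733326) (nat_lit 76) (nat_lit 266531185522) (nat_lit 1) (nat_lit 4) (nat_lit 2) (nat_lit 5) (nat_lit 2) (nat_lit 4) (nat_lit 327) (nat_lit 213) (nat_lit 180)) (XT.lf (nat_lit 0) (nat_lit 603838996093) (nat_lit 76) (nat_lit 289034753430) (nat_lit 76) (nat_lit 287130199106) (nat_lit 1) (nat_lit 4) (nat_lit 2) (nat_lit 5) (nat_lit 2) (nat_lit 4) (nat_lit 328) (nat_lit 213) (nat_lit 179)))) (XT.nd (nat_lit 78) (nat_lit 0) (nat_lit 0) (XT.lf (nat_lit 0) (nat_lit 653650590005) (nat_lit 76) (nat_lit 311301479557) (nat_lit 76) (nat_lit 309385808084) (nat_lit 1) (nat_lit 4) (nat_lit 2) (nat_lit 5) (nat_lit 2) (nat_lit 4) (nat_lit 329) (nat_lit 213) (nat_lit 178)) (XT.nd (nat_lit 78) (nat_lit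 0) (nat_lit 0) (XT.lf (nat_lit 0) (nat_lit 707433367243) (nat_lit 76) (nat_lit 335355862676) (nat_lit 76) (nat_lit 333429897548) (nat_lit 1) (nat_lit 4) (nat_lit 2) (nat_lit 5) (nat_lit 2) (nat_lit 4) (nat_lit 330) (nat_lit 213) (nat_lit 177)) (XT.lf (nat_lit 0) (nat_lit 765506040558) (nat_lit 76) (nat_lit 361340447280) (nat_lit 76) (nat_lit 359404950989) (nat_lit 1) (nat_lit 4) (nat_lit 2) (nat_lit 5) (nat_lit 2) (nat_lit 4) (nat_lit 331) (nat_lit 213) (nat_lit 176))))) (XT.nd (nat_lit 234) (nat_lit 0) (nat_lit 0) (XT.nd (nat_lit 78) (nat_lit 0) (nat_lit 0) (XT.lf (nat_lit 0) (nat_lit 828212744313) (nat_lit 76) (nat_lit 389409216093) (nat_lit 76) (nat_lit 387464894651) (nat_lit 1) (nat_lit 4) (nat_lit 2) (nat_lit 5) (nat_lit 2) (nat_lit 4) (nat_lit 332) (nat_lit 213) (nat_lit 175)) (XT.nd (nat_lit 78) (nat_lit 0) (nat_lit 0) (XT.lf (nat_lit 0) (nat_lit 895925073788) (nat_lit 76) (nat_lit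 419728502559) (nat_lit 76) (nat_lit 417776009681) (nat_lit 1) (nat_lit 4) (nat_lit 2) (nat_lit 5) (nat_lit 2) (nat_lit 4) (nat_lit 333) (nat_lit 213) (nat_lit 174)) (XT.lf (nat_lit 0) (nat_lit 969044287231) (nat_lit 76) (nat_lit 452477976524) (nat_lit 76) (nat_lit 450517917501) (nat_lit 1) (nat_lit 4) (nat_lit 2) (nat_lit 5) (nat_lit 2) (nat_lit 4) (nat_lit 334) (nat_lit 213) (nat_lit 173)))) (XT.nd (nat_lit 156) (nat_lit 0) (nat_lit 0) (XT.nd (nat_lit 78) (nat_lit 0) (nat_lit 0) (XT.lf (nat_lit 0) (nat_lit 1048003683687) (nat_lit 76) (nat_lit 487851708945) (nat_lit 76) (nat_lit 485884644233) (nat_lit 1) (nat_lit 4) (nat_lit 2) (nat_lit 5) (nat_lit 2) (nat_lit 4) (nat_lit 335) (nat_lit 213) (nat_lit 172)) (XT.lf (nat_lit 0) (nat_lit 1133271170689) (nat_lit 76) (nat_lit 526059321939) (nat_lit 76) (nat_lit 524085770478) (nat_lit 1) (nat_lit 4) (nat_lit 2) (nat_lit 5) (nat_lit 2) (nat_lit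 4) (nat_lit 336) (nat_lit 213) (nat_lit 171))) (XT.nd (nat_lit 78) (nat_lit 0) (nat_lit 0) (XT.lf (nat_lit 0) (nat_lit 1225352037048) (nat_lit 76) (nat_lit 567327230992) (nat_lit 76) (nat_lit 565347673282) (nat_lit 1) (nat_lit 4) (nat_lit 2) (nat_lit 5) (nat_lit 2) (nat_lit 4) (nat_lit 337) (nat_lit 213) (nat_lit 170)) (XT.lf (nat_lit 0) (nat_lit 1324791947160) (nat_lit 76) (nat_lit 611899986676) (nat_lit 76) (nat_lit 609914867623) (nat_lit 1) (nat_lit 4) (nat_lit 2) (nat_lit 5) (nat_lit 2) (nat_lit 4) (nat_lit 338) (nat_lit 213) (nat_lit 169)))))) (XT.nd (nat_lit 34164) (nat_lit 0) (nat_lit 0) (XT.nd (nat_lit 33930) (nat_lit 0) (nat_lit 0) (XT.nd (nat_lit 78) (nat_lit 0) (nat_lit 0) (XT.lf (nat_lit 0) (nat_lit 1432180174563) (nat_lit 76) (nat_lit 660041723838) (nat_lit 76) (nat_lit 658051455395) (nat_lit 1) (nat_lit 4) (nat_lit 2) (nat_lit 5) (nat_lit 2) (nat_lit 4) (nat_lit 339)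 (nat_lit 213) (nat_lit 168)) (XT.nd (nat_lit 33774) (nat_lit 0) (nat_lit 0) (XT.lf (nat_lit 0) (nat_lit 1548153093941) (nat_lit 76) (nat_lit 712037726848) (nat_lit 76) (nat_lit 710042690450) (nat_lit 1) (nat_lit 4) (nat_lit 2) (nat_lit 5) (nat_lit 2) (nat_lit 4) (nat_lit 340) (nat_lit 213) (nat_lit 167)) (XT.lf (nat_lit 0) (nat_lit 1655998505) (nat_lit 76) (nat_lit 18026936851) (nat_lit 76) (nat_lit 18026936851) (nat_lit 1) (nat_lit 4) (nat_lit 2) (nat_lit 5) (nat_lit 2) (nat_lit 4) (nat_lit 292) (nat_lit 214) (nat_lit 214)))) (XT.nd (nat_lit 78) (nat_lit 0) (nat_lit 0) (XT.lf (nat_lit 0) (nat_lit 7744768238) (nat_lit 76) (nat_lit 36844508263) (nat_lit 76) (nat_lit 36680137397) (nat_lit 1) (nat_lit 4) (nat_lit 2) (nat_lit 5) (nat_lit 2) (nat_lit 4) (nat_lit 293) (nat_lit 214) (nat_lit 213)) (XT.nd (nat_lit 78) (nat_lit 0) (nat_lit 0) (XT.lf (nat_lit 0) (nat_lit 12328948601) (nat_lit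 76) (nat_lit 37791820731) (nat_lit 76) (nat_lit 37475254619) (nat_lit 1) (nat_lit 4) (nat_lit 2) (nat_lit 5) (nat_lit 2) (nat_lit 4) (nat_lit 294) (nat_lit 214) (nat_lit 212)) (XT.lf (nat_lit 0) (nat_lit 17091703615) (nat_lit 76) (nat_lit 38901424813) (nat_lit 76) (nat_lit 38443937176) (nat_lit 1) (nat_lit 4) (nat_lit 2) (nat_lit 5) (nat_lit 2) (nat_lit 4) (nat_lit 295) (nat_lit 214) (nat_lit 211))))) (XT.nd (nat_lit 234) (nat_lit 0) (nat_lit 0) (XT.nd (nat_lit 78) (nat_lit 0) (nat_lit 0) (XT.lf (nat_lit 0) (nat_lit 22061257013) (nat_lit 76) (nat_lit 40179895939) (nat_lit 76) (nat_lit 39591925409) (nat_lit 1) (nat_lit 4) (nat_lit 2) (nat_lit 5) (nat_lit 2) (nat_lit 4) (nat_lit 296) (nat_lit 214) (nat_lit 210)) (XT.nd (nat_lit 78) (nat_lit 0) (nat_lit 0) (XT.lf (nat_lit 0) (nat_lit 27267058001) (nat_lit 76) (nat_lit 41634810235) (nat_lit 76) (nat_lit 40926022211) (nat_lit 1) (nat_lit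 4) (nat_lit 2) (nat_lit 5) (nat_lit 2) (nat_lit 4) (nat_lit 297) (nat_lit 214) (nat_lit 209)) (XT.lf (nat_lit 0) (nat_lit 32739955768) (nat_lit 76) (nat_lit 43274789414) (nat_lit 76) (nat_lit 42454133341) (nat_lit 1) (nat_lit 4) (nat_lit 2) (nat_lit 5) (nat_lit 2) (nat_lit 4) (nat_lit 298) (nat_lit 214) (nat_lit 208)))) (XT.nd (nat_lit 156) (nat_lit 0) (nat_lit 0) (XT.nd (nat_lit 78) (nat_lit 0) (nat_lit 0) (XT.lf (nat_lit 0) (nat_lit 38512382303) (nat_lit 76) (nat_lit 45109551873) (nat_lit 76) (nat_lit 44185314272) (nat_lit 1) (nat_lit 4) (nat_lit 2) (nat_lit 5) (nat_lit 2) (nat_lit 4) (nat_lit 299) (nat_lit 214) (nat_lit 207)) (XT.lf (nat_lit 0) (nat_lit 44618544576) (nat_lit 76) (nat_lit 47149970277) (nat_lit 76) (nat_lit 46129823854) (nat_lit 1) (nat_lit 4) (nat_lit 2) (nat_lit 5) (nat_lit 2) (nat_lit 4) (nat_lit 300) (nat_lit 214) (nat_lit 206))) (XT.nd (nat_lit 78) (nat_lit 0)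 (nat_lit 0) (XT.lf (nat_lit 0) (nat_lit 51094627254) (nat_lit 76) (nat_lit 49408135995) (nat_lit 76) (nat_lit 48299185108) (nat_lit 1) (nat_lit 4) (nat_lit 2) (nat_lit 5) (nat_lit 2) (nat_lit 4) (nat_lit 301) (nat_lit 214) (nat_lit 205)) (XT.lf (nat_lit 0) (nat_lit 57979007123) (nat_lit 76) (nat_lit 51897430750) (nat_lit 76) (nat_lit 50706253507) (nat_lit 1) (nat_lit 4) (nat_lit 2) (nat_lit 5) (nat_lit 2) (nat_lit 4) (nat_lit 302) (nat_lit 214) (nat_lit 204))))))))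
noncomputable def xc12 : XT := (XT.nd (nat_lit 1950) (nat_lit 0) (nat_lit 0) (XT.nd (nat_lit 936) (nat_lit 0) (nat_lit 0) (XT.nd (nat_lit 468) (nat_lit 0) (nat_lit 0) (XT.nd (nat_lit 234) (nat_lit 0) (nat_lit 0) (XT.nd (nat_lit 78) (nat_lit 0) (nat_lit 0) (XT.lf (nat_lit 0) (nat_lit 65312480507) (nat_lit 76) (nat_lit 54632605917) (nat_lit 76) (nat_lit 53365293159) (nat_lit 1) (nat_lit 4) (nat_lit 2) (nat_lit 5) (nat_lit 2) (nat_lit 4) (nat_lit 303) (nat_lit 214) (nat_lit 203)) (XT.nd (nat_lit 78) (nat_lit 0) (nat_lit 0) (XT.lf (nat_lit 0) (nat_lit 73138505028) (nat_lit 76) (nat_lit 57629869943) (nat_lit 76) (nat_lit 56292061338) (nat_lit 1) (nat_lit 4) (nat_lit 2) (nat_lit 5) (nat_lit 2) (nat_lit 4) (nat_lit 304) (nat_lit 214) (nat_lit 202)) (XT.lf (nat_lit 0) (nat_lit 81503457125) (nat_lit 76) (nat_lit 60906984392) (nat_lit 76) (nat_lit 59503901855) (nat_lit 1) (nat_lit 4) (nat_lit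 2) (nat_lit 5) (nat_lit 2) (nat_lit 4) (nat_lit 305) (nat_lit 214) (nat_lit 201)))) (XT.nd (nat_lit 78) (nat_lit 0) (nat_lit 0) (XT.lf (nat_lit 0) (nat_lit 90456906887) (nat_lit 76) (nat_lit 64483369201) (nat_lit 76) (nat_lit 63019847838) (nat_lit 1) (nat_lit 4) (nat_lit 2) (nat_lit 5) (nat_lit 2) (nat_lit 4) (nat_lit 306) (nat_lit 214) (nat_lit 200)) (XT.nd (nat_lit 78) (nat_lit 0) (nat_lit 0) (XT.lf (nat_lit 0) (nat_lit 100051911793) (nat_lit 76) (nat_lit 68380217763) (nat_lit 76) (nat_lit 66860734523) (nat_lit 1) (nat_lit 4) (nat_lit 2) (nat_lit 5) (nat_lit 2) (nat_lit 4) (nat_lit 307) (nat_lit 214) (nat_lit 199)) (XT.lf (nat_lit 0) (nat_lit 110345331131) (nat_lit 76) (nat_lit 72620622512) (nat_lit 76) (nat_lit 71049322720) (nat_lit 1) (nat_lit 4) (nat_lit 2) (nat_lit 5) (nat_lit 2) (nat_lit 4) (nat_lit 308) (nat_lit 214) (nat_lit 198))))) (XT.nd (nat_lit 234) (nat_lit 0) (nat_lit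 0) (XT.nd (nat_lit 78) (nat_lit 0) (nat_lit 0) (XT.lf (nat_lit 0) (nat_lit 121398162941) (nat_lit 76) (nat_lit 77229711773) (nat_lit 76) (nat_lit 75610433692) (nat_lit 1) (nat_lit 4) (nat_lit 2) (nat_lit 5) (nat_lit 2) (nat_lit 4) (nat_lit 309) (nat_lit 214) (nat_lit 197)) (XT.nd (nat_lit 78) (nat_lit 0) (nat_lit 0) (XT.lf (nat_lit 0) (nat_lit 133275905488) (nat_lit 76) (nat_lit 82234798668) (nat_lit 76) (nat_lit 80571096246) (nat_lit 1) (nat_lit 4) (nat_lit 2) (nat_lit 5) (nat_lit 2) (nat_lit 4) (nat_lit 310) (nat_lit 214) (nat_lit 196)) (XT.lf (nat_lit 0) (nat_lit 146048945392) (nat_lit 76) (nat_lit 87665542972) (nat_lit 76) (nat_lit 85960706899) (nat_lit 1) (nat_lit 4) (nat_lit 2) (nat_lit 5) (nat_lit 2) (nat_lit 4) (nat_lit 311) (nat_lit 214) (nat_lit 195)))) (XT.nd (nat_lit 78) (nat_lit 0) (nat_lit 0) (XT.lf (nat_lit 0) (nat_lit 159792974743) (nat_lit 76) (nat_lit 93554126871)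 (nat_lit 76) (nat_lit 91811204086) (nat_lit 1) (nat_lit 4) (nat_lit 2) (nat_lit 5) (nat_lit 2) (nat_lit 4) (nat_lit 312) (nat_lit 214) (nat_lit 194)) (XT.nd (nat_lit 78) (nat_lit 0) (nat_lit 0) (XT.lf (nat_lit 0) (nat_lit 174589439639) (nat_lit 76) (nat_lit 99935445680) (nat_lit 76) (nat_lit 98157257420) (nat_lit 1) (nat_lit 4) (nat_lit 2) (nat_lit 5) (nat_lit 2) (nat_lit 4) (nat_lit 313) (nat_lit 214) (nat_lit 193)) (XT.lf (nat_lit 0) (nat_lit 190526022837) (nat_lit 76) (nat_lit 106847314619) (nat_lit 76) (nat_lit 105036473142) (nat_lit 1) (nat_lit 4) (nat_lit 2) (nat_lit 5) (nat_lit 2) (nat_lit 4) (nat_lit 314) (nat_lit 214) (nat_lit 192)))))) (XT.nd (nat_lit 468) (nat_lit 0) (nat_lit 0) (XT.nd (nat_lit 234) (nat_lit 0) (nat_lit 0) (XT.nd (nat_lit 78) (nat_lit 0) (nat_lit 0) (XT.lf (nat_lit 0) (nat_lit 207697163347) (nat_lit 76) (nat_lit 114330692912) (nat_lit 76) (nat_lit 112489616975)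 (nat_lit 1) (nat_lit 4) (nat_lit 2) (nat_lit 5) (nat_lit 2) (nat_lit 4) (nat_lit 315) (nat_lit 214) (nat_lit 191)) (XT.nd (nat_lit 78) (nat_lit 0) (nat_lit 0) (XT.lf (nat_lit 0) (nat_lit 226204616077) (nat_lit 76) (nat_lit 122429926506) (nat_lit 76) (nat_lit 120560855697) (nat_lit 1) (nat_lit 4) (nat_lit 2) (nat_lit 5) (nat_lit 2) (nat_lit 4) (nat_lit 316) (nat_lit 214) (nat_lit 190)) (XT.lf (nat_lit 0) (nat_lit 246158054820) (nat_lit 76) (nat_lit 131193010857) (nat_lit 76) (nat_lit 129298018872) (nat_lit 1) (nat_lit 4) (nat_lit 2) (nat_lit 5) (nat_lit 2) (nat_lit 4) (nat_lit 317) (nat_lit 214) (nat_lit 189)))) (XT.nd (nat_lit 78) (nat_lit 0) (nat_lit 0) (XT.lf (nat_lit 0) (nat_lit 267675722176) (nat_lit 76) (nat_lit 140671875356) (nat_lit 76) (nat_lit 138752882281) (nat_lit 1) (nat_lit 4) (nat_lit 2) (nat_lit 5) (nat_lit 2) (nat_lit 4) (nat_lit 318) (nat_lit 214) (nat_lit 188)) (XT.nd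 (nat_lit 78) (nat_lit 0) (nat_lit 0) (XT.lf (nat_lit 0) (nat_lit 290885130249) (nat_lit 76) (nat_lit 150922691050) (nat_lit 76) (nat_lit 148981474745) (nat_lit 1) (nat_lit 4) (nat_lit 2) (nat_lit 5) (nat_lit 2) (nat_lit 4) (nat_lit 319) (nat_lit 214) (nat_lit 187)) (XT.lf (nat_lit 0) (nat_lit 315923816270) (nat_lit 76) (nat_lit 162006203515) (nat_lit 76) (nat_lit 160044410143) (nat_lit 1) (nat_lit 4) (nat_lit 2) (nat_lit 5) (nat_lit 2) (nat_lit 4) (nat_lit 320) (nat_lit 214) (nat_lit 186))))) (XT.nd (nat_lit 234) (nat_lit 0) (nat_lit 0) (XT.nd (nat_lit 78) (nat_lit 0) (nat_lit 0) (XT.lf (nat_lit 0) (nat_lit 342940157640) (nat_lit 76) (nat_lit 173988092824) (nat_lit 76) (nat_lit 172007246613) (nat_lit 1) (nat_lit 4) (nat_lit 2) (nat_lit 5) (nat_lit 2) (nat_lit 4) (nat_lit 321) (nat_lit 214) (nat_lit 185)) (XT.nd (nat_lit 78) (nat_lit 0) (nat_lit 0) (XT.lf (nat_lit 0) (nat_lit 372094251194)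 (nat_lit 76) (nat_lit 186939362765) (nat_lit 76) (nat_lit 184940875037) (nat_lit 1) (nat_lit 4) (nat_lit 2) (nat_lit 5) (nat_lit 2) (nat_lit 4) (nat_lit 322) (nat_lit 214) (nat_lit 184)) (XT.lf (nat_lit 0) (nat_lit 403558861934) (nat_lit 76) (nat_lit 200936761605) (nat_lit 76) (nat_lit 198921939140) (nat_lit 1) (nat_lit 4) (nat_lit 2) (nat_lit 5) (nat_lit 2) (nat_lit 4) (nat_lit 323) (nat_lit 214) (nat_lit 183)))) (XT.nd (nat_lit 156) (nat_lit 0) (nat_lit 0) (XT.nd (nat_lit 78) (nat_lit 0) (nat_lit 0) (XT.lf (nat_lit 0) (nat_lit 437520446810) (nat_lit 76) (nat_lit 216063236893) (nat_lit 76) (nat_lit 214033289670) (nat_lit 1) (nat_lit 4) (nat_lit 2) (nat_lit 5) (nat_lit 2) (nat_lit 4) (nat_lit 324) (nat_lit 214) (nat_lit 182)) (XT.lf (nat_lit 0) (nat_lit 474180259659) (nat_lit 76) (nat_lit 232408427001) (nat_lit 76) (nat_lit 230364475372) (nat_lit 1) (nat_lit 4) (nat_lit 2) (nat_lit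 5) (nat_lit 2) (nat_lit 4) (nat_lit 325) (nat_lit 214) (nat_lit 181))) (XT.nd (nat_lit 78) (nat_lit 0) (nat_lit 0) (XT.lf (nat_lit 0) (nat_lit 513755543817) (nat_lit 76) (nat_lit 250069192314) (nat_lit 76) (nat_lit 248012273644) (nat_lit 1) (nat_lit 4) (nat_lit 2) (nat_lit 5) (nat_lit 2) (nat_lit 4) (nat_lit 326) (nat_lit 214) (nat_lit 180)) (XT.lf (nat_lit 0) (nat_lit 556480819485) (nat_lit 76) (nat_lit 269150189220) (nat_lit 76) (nat_lit 267081264029) (nat_lit 1) (nat_lit 4) (nat_lit 2) (nat_lit 5) (nat_lit 2) (nat_lit 4) (nat_lit 327) (nat_lit 214) (nat_lit 179))))))) (XT.nd (nat_lit 936) (nat_lit 0) (nat_lit 0) (XT.nd (nat_lit 468) (nat_lit 0) (nat_lit 0) (XT.nd (nat_lit 234) (nat_lit 0) (nat_lit 0) (XT.nd (nat_lit 78) (nat_lit 0) (nat_lit 0) (XT.lf (nat_lit 0) (nat_lit 602609273484) (nat_lit 76) (nat_lit 289764490292) (nat_lit 76) (nat_lit 287684447953) (nat_lit 1) (nat_lit 4)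 (nat_lit 2) (nat_lit 5) (nat_lit 2) (nat_lit 4) (nat_lit 328) (nat_lit 214) (nat_lit 178)) (XT.nd (nat_lit 78) (nat_lit 0) (nat_lit 0) (XT.lf (nat_lit 0) (nat_lit 652414259614) (nat_lit 76) (nat_lit 312034254353) (nat_lit 76) (nat_lit 309943918358) (nat_lit 1) (nat_lit 4) (nat_lit 2) (nat_lit 5) (nat_lit 2) (nat_lit 4) (nat_lit 329) (nat_lit 214) (nat_lit 177)) (XT.lf (nat_lit 0) (nat_lit 706190918534) (nat_lit 76) (nat_lit 336091450374) (nat_lit 76) (nat_lit 333991583216) (nat_lit 1) (nat_lit 4) (nat_lit 2) (nat_lit 5) (nat_lit 2) (nat_lit 4) (nat_lit 330) (nat_lit 214) (nat_lit 176)))) (XT.nd (nat_lit 78) (nat_lit 0) (nat_lit 0) (XT.lf (nat_lit 0) (nat_lit 764257926740) (nat_lit 76) (nat_lit 362078639516) (nat_lit 76) (nat_lit 359969947208) (nat_lit 1) (nat_lit 4) (nat_lit 2) (nat_lit 5) (nat_lit 2) (nat_lit 4) (nat_lit 331) (nat_lit 214) (nat_lit 175)) (XT.nd (nat_lit 78) (nat_lit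 0) (nat_lit 0) (XT.lf (nat_lit 0) (nat_lit 826959385024) (nat_lit 76) (nat_lit 390149819939) (nat_lit 76) (nat_lit 388032956194) (nat_lit 1) (nat_lit 4) (nat_lit 2) (nat_lit 5) (nat_lit 2) (nat_lit 4) (nat_lit 332) (nat_lit 214) (nat_lit 174)) (XT.lf (nat_lit 0) (nat_lit 894666857581) (nat_lit 76) (nat_lit 420471339377) (nat_lit 76) (nat_lit 418346909488) (nat_lit 1) (nat_lit 4) (nat_lit 2) (nat_lit 5) (nat_lit 2) (nat_lit 4) (nat_lit 333) (nat_lit 214) (nat_lit 173))))) (XT.nd (nat_lit 234) (nat_lit 0) (nat_lit 0) (XT.nd (nat_lit 78) (nat_lit 0) (nat_lit 0) (XT.lf (nat_lit 0) (nat_lit 967781573878) (nat_lit 76) (nat_lit 453222880908) (nat_lit 76) (nat_lit 451091445330) (nat_lit 1) (nat_lit 4) (nat_lit 2) (nat_lit 5) (nat_lit 2) (nat_lit 4) (nat_lit 334) (nat_lit 214) (nat_lit 172)) (XT.nd (nat_lit 78) (nat_lit 0) (nat_lit 0) (XT.lf (nat_lit 0) (nat_lit 1046736806310) (nat_lit 76)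 (nat_lit 488598527743) (nat_lit 76) (nat_lit 486460605415) (nat_lit 1) (nat_lit 4) (nat_lit 2) (nat_lit 5) (nat_lit 2) (nat_lit 4) (nat_lit 335) (nat_lit 214) (nat_lit 171)) (XT.lf (nat_lit 0) (nat_lit 1132000437734) (nat_lit 76) (nat_lit 526807913343) (nat_lit 76) (nat_lit 524663984766) (nat_lit 1) (nat_lit 4) (nat_lit 2) (nat_lit 5) (nat_lit 2) (nat_lit 4) (nat_lit 336) (nat_lit 214) (nat_lit 170)))) (XT.nd (nat_lit 78) (nat_lit 0) (nat_lit 0) (XT.lf (nat_lit 0) (nat_lit 1224077734114) (nat_lit 76) (nat_lit 568077463697) (nat_lit 76) (nat_lit 565927973778) (nat_lit 1) (nat_lit 4) (nat_lit 2) (nat_lit 5) (nat_lit 2) (nat_lit 4) (nat_lit 337) (nat_lit 214) (nat_lit 169)) (XT.nd (nat_lit 78) (nat_lit 0) (nat_lit 0) (XT.lf (nat_lit 0) (nat_lit 1323514338688) (nat_lit 76) (nat_lit 612651739103) (nat_lit 76) (nat_lit 610497099794) (nat_lit 1) (nat_lit 4) (nat_lit 2) (nat_lit 5) (nat_lit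 2) (nat_lit 4) (nat_lit 338) (nat_lit 214) (nat_lit 168)) (XT.lf (nat_lit 0) (nat_lit 1430899505410) (nat_lit 76) (nat_lit 660794883417) (nat_lit 76) (nat_lit 658635476153) (nat_lit 1) (nat_lit 4) (nat_lit 2) (nat_lit 5) (nat_lit 2) (nat_lit 4) (nat_lit 339) (nat_lit 214) (nat_lit 167)))))) (XT.nd (nat_lit 34008) (nat_lit 0) (nat_lit 0) (XT.nd (nat_lit 33774) (nat_lit 0) (nat_lit 0) (XT.nd (nat_lit 33618) (nat_lit 0) (nat_lit 76) (XT.lf (nat_lit 0) (nat_lit 1546869590823) (nat_lit 76) (nat_lit 712792189344) (nat_lit 76) (nat_lit 710628367308) (nat_lit 1) (nat_lit 4) (nat_lit 2) (nat_lit 5) (nat_lit 2) (nat_lit 4) (nat_lit 340) (nat_lit 214) (nat_lit 166)) (XT.nd (nat_lit 78) (nat_lit 0) (nat_lit 0) (XT.lf (nat_lit 0) (nat_lit 15041320290) (nat_lit 152) (nat_lit 2417543540) (nat_lit 0) (nat_lit 15041320290) (nat_lit 2) (nat_lit 5) (nat_lit 4) (nat_lit 4) (nat_lit 2) (nat_lit 4) (nat_lit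 290) (nat_lit 215) (nat_lit 215)) (XT.lf (nat_lit 0) (nat_lit 34621064002) (nat_lit 152) (nat_lit 945827738) (nat_lit 0) (nat_lit 34443543466) (nat_lit 2) (nat_lit 5) (nat_lit 4) (nat_lit 4) (nat_lit 2) (nat_lit 4) (nat_lit 291) (nat_lit 215) (nat_lit 214)))) (XT.nd (nat_lit 78) (nat_lit 0) (nat_lit 0) (XT.lf (nat_lit 0) (nat_lit 3206482797) (nat_lit 76) (nat_lit 36279904487) (nat_lit 76) (nat_lit 35938013085) (nat_lit 1) (nat_lit 4) (nat_lit 2) (nat_lit 5) (nat_lit 2) (nat_lit 4) (nat_lit 292) (nat_lit 215) (nat_lit 213)) (XT.nd (nat_lit 78) (nat_lit 0) (nat_lit 0) (XT.lf (nat_lit 0) (nat_lit 7541555677) (nat_lit 76) (nat_lit 37115455943) (nat_lit 76) (nat_lit 36621369295) (nat_lit 1) (nat_lit 4) (nat_lit 2) (nat_lit 5) (nat_lit 2) (nat_lit 4) (nat_lit 293) (nat_lit 215) (nat_lit 212)) (XT.lf (nat_lit 0) (nat_lit 12035274608) (nat_lit 76) (nat_lit 38104358130) (nat_lit 76) (nat_lit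 37469349958) (nat_lit 1) (nat_lit 4) (nat_lit 2) (nat_lit 5) (nat_lit 2) (nat_lit 4) (nat_lit 294) (nat_lit 215) (nat_lit 211))))) (XT.nd (nat_lit 234) (nat_lit 0) (nat_lit 0) (XT.nd (nat_lit 78) (nat_lit 0) (nat_lit 0) (XT.lf (nat_lit 0) (nat_lit 16714269037) (nat_lit 76) (nat_lit 39252471211) (nat_lit 76) (nat_lit 38486980145) (nat_lit 1) (nat_lit 4) (nat_lit 2) (nat_lit 5) (nat_lit 2) (nat_lit 4) (nat_lit 295) (nat_lit 215) (nat_lit 210)) (XT.nd (nat_lit 78) (nat_lit 0) (nat_lit 0) (XT.lf (nat_lit 0) (nat_lit 21606266338) (nat_lit 76) (nat_lit 40566598818) (nat_lit 76) (nat_lit 39680290258) (nat_lit 1) (nat_lit 4) (nat_lit 2) (nat_lit 5) (nat_lit 2) (nat_lit 4) (nat_lit 296) (nat_lit 215) (nat_lit 209)) (XT.lf (nat_lit 0) (nat_lit 26740256124) (nat_lit 76) (nat_lit 42054528373) (nat_lit 76) (nat_lit 41056351764) (nat_lit 1) (nat_lit 4) (nat_lit 2) (nat_lit 5) (nat_lit 2) (nat_lit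 4) (nat_lit 297) (nat_lit 215) (nat_lit 208)))) (XT.nd (nat_lit 156) (nat_lit 0) (nat_lit 0) (XT.nd (nat_lit 78) (nat_lit 0) (nat_lit 0) (XT.lf (nat_lit 0) (nat_lit 32146662038) (nat_lit 76) (nat_lit 43725077237) (nat_lit 76) (nat_lit 42623319101) (nat_lit 1) (nat_lit 4) (nat_lit 2) (nat_lit 5) (nat_lit 2) (nat_lit 4) (nat_lit 298) (nat_lit 215) (nat_lit 207)) (XT.lf (nat_lit 0) (nat_lit 37857522042) (nat_lit 76) (nat_lit 45588144960) (nat_lit 76) (nat_lit 44390478002) (nat_lit 1) (nat_lit 4) (nat_lit 2) (nat_lit 5) (nat_lit 2) (nat_lit 4) (nat_lit 299) (nat_lit 215) (nat_lit 206))) (XT.nd (nat_lit 78) (nat_lit 0) (nat_lit 0) (XT.lf (nat_lit 0) (nat_lit 43906678269) (nat_lit 76) (nat_lit 47654771942) (nat_lit 76) (nat_lit 46368300519) (nat_lit 1) (nat_lit 4) (nat_lit 2) (nat_lit 5) (nat_lit 2) (nat_lit 4) (nat_lit 300) (nat_lit 215) (nat_lit 205)) (XT.lf (nat_lit 0) (nat_lit 50329977570)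 (nat_lit 76) (nat_lit 49937204861) (nat_lit 76) (nat_lit 48568507083) (nat_lit 1) (nat_lit 4) (nat_lit 2) (nat_lit 5) (nat_lit 2) (nat_lit 4) (nat_lit 301) (nat_lit 215) (nat_lit 204))))))))
noncomputable def xc13 : XT := (XT.nd (nat_lit 1950) (nat_lit 0) (nat_lit 0) (XT.nd (nat_lit 936) (nat_lit 0) (nat_lit 0) (XT.nd (nat_lit 468) (nat_lit 0) (nat_lit 0) (XT.nd (nat_lit 234) (nat_lit 0) (nat_lit 0) (XT.nd (nat_lit 78) (nat_lit 0) (nat_lit 0) (XT.lf (nat_lit 0) (nat_lit 57165483942) (nat_lit 76) (nat_lit 52448969247) (nat_lit 76) (nat_lit 51004135954) (nat_lit 1) (nat_lit 4) (nat_lit 2) (nat_lit 5) (nat_lit 2) (nat_lit 4) (nat_lit 302) (nat_lit 215) (nat_lit 203)) (XT.nd (nat_lit 78) (nat_lit 0) (nat_lit 0) (XT.lf (nat_lit 0) (nat_lit 64453704088) (nat_lit 76) (nat_lit 55204949628) (nat_lit 76) (nat_lit 53689620488) (nat_lit 1) (nat_lit 4) (nat_lit 2) (nat_lit 5) (nat_lit 2) (nat_lit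 4) (nat_lit 303) (nat_lit 215) (nat_lit 202)) (XT.lf (nat_lit 0) (nat_lit 72237827462) (nat_lit 76) (nat_lit 58221477741) (nat_lit 76) (nat_lit 56640874668) (nat_lit 1) (nat_lit 4) (nat_lit 2) (nat_lit 5) (nat_lit 2) (nat_lit 4) (nat_lit 304) (nat_lit 215) (nat_lit 201)))) (XT.nd (nat_lit 78) (nat_lit 0) (nat_lit 0) (XT.lf (nat_lit 0) (nat_lit 80563982202) (nat_lit 76) (nat_lit 61516429308) (nat_lit 76) (nat_lit 59875387409) (nat_lit 1) (nat_lit 4) (nat_lit 2) (nat_lit 5) (nat_lit 2) (nat_lit 4) (nat_lit 305) (nat_lit 215) (nat_lit 200)) (XT.nd (nat_lit 78) (nat_lit 0) (nat_lit 0) (XT.lf (nat_lit 0) (nat_lit 89481508485) (nat_lit 76) (nat_lit 65109329967) (nat_lit 76) (nat_lit 63412326191) (nat_lit 1) (nat_lit 4) (nat_lit 2) (nat_lit 5) (nat_lit 2) (nat_lit 4) (nat_lit 306) (nat_lit 215) (nat_lit 199)) (XT.lf (nat_lit 0) (nat_lit 99043250909) (nat_lit 76) (nat_lit 69021470981) (nat_lit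 76) (nat_lit 67272650654) (nat_lit 1) (nat_lit 4) (nat_lit 2) (nat_lit 5) (nat_lit 2) (nat_lit 4) (nat_lit 307) (nat_lit 215) (nat_lit 198))))) (XT.nd (nat_lit 234) (nat_lit 0) (nat_lit 0) (XT.nd (nat_lit 78) (nat_lit 0) (nat_lit 0) (XT.lf (nat_lit 0) (nat_lit 109305871654) (nat_lit 76) (nat_lit 73276035410) (nat_lit 76) (nat_lit 71479236793) (nat_lit 1) (nat_lit 4) (nat_lit 2) (nat_lit 5) (nat_lit 2) (nat_lit 4) (nat_lit 308) (nat_lit 215) (nat_lit 197)) (XT.nd (nat_lit 78) (nat_lit 0) (nat_lit 0) (XT.lf (nat_lit 0) (nat_lit 120330186249) (nat_lit 76) (nat_lit 77898235485) (nat_lit 76) (nat_lit 76057012527) (nat_lit 1) (nat_lit 4) (nat_lit 2) (nat_lit 5) (nat_lit 2) (nat_lit 4) (nat_lit 309) (nat_lit 215) (nat_lit 196)) (XT.lf (nat_lit 0) (nat_lit 132181523966) (nat_lit 76) (nat_lit 82915462023) (nat_lit 76) (nat_lit 81033105415) (nat_lit 1) (nat_lit 4) (nat_lit 2) (nat_lit 5) (nat_lit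 2) (nat_lit 4) (nat_lit 310) (nat_lit 215) (nat_lit 195)))) (XT.nd (nat_lit 78) (nat_lit 0) (nat_lit 0) (XT.lf (nat_lit 0) (nat_lit 144930114954) (nat_lit 76) (nat_lit 88357446736) (nat_lit 76) (nat_lit 86437003415) (nat_lit 1) (nat_lit 4) (nat_lit 2) (nat_lit 5) (nat_lit 2) (nat_lit 4) (nat_lit 311) (nat_lit 215) (nat_lit 194)) (XT.nd (nat_lit 78) (nat_lit 0) (nat_lit 0) (XT.lf (nat_lit 0) (nat_lit 158651506419) (nat_lit 76) (nat_lit 94256438422) (nat_lit 76) (nat_lit 92300729627) (nat_lit 1) (nat_lit 4) (nat_lit 2) (nat_lit 5) (nat_lit 2) (nat_lit 4) (nat_lit 312) (nat_lit 215) (nat_lit 193)) (XT.lf (nat_lit 0) (nat_lit 173427010310) (nat_lit 76) (nat_lit 100647394070) (nat_lit 76) (nat_lit 98659032057) (nat_lit 1) (nat_lit 4) (nat_lit 2) (nat_lit 5) (nat_lit 2) (nat_lit 4) (nat_lit 313) (nat_lit 215) (nat_lit 192)))))) (XT.nd (nat_lit 468) (nat_lit 0) (nat_lit 0) (XT.nd (nat_lit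 234) (nat_lit 0) (nat_lit 0) (XT.nd (nat_lit 78) (nat_lit 0) (nat_lit 0) (XT.lf (nat_lit 0) (nat_lit 189344185170) (nat_lit 76) (nat_lit 107568186009) (nat_lit 76) (nat_lit 105549589535) (nat_lit 1) (nat_lit 4) (nat_lit 2) (nat_lit 5) (nat_lit 2) (nat_lit 4) (nat_lit 314) (nat_lit 215) (nat_lit 191)) (XT.nd (nat_lit 78) (nat_lit 0) (nat_lit 0) (XT.lf (nat_lit 0) (nat_lit 206497354997) (nat_lit 76) (nat_lit 115059826339) (nat_lit 76) (nat_lit 113013234995) (nat_lit 1) (nat_lit 4) (nat_lit 2) (nat_lit 5) (nat_lit 2) (nat_lit 4) (nat_lit 315) (nat_lit 215) (nat_lit 190)) (XT.lf (nat_lit 0) (nat_lit 224988168205) (nat_lit 76) (nat_lit 123166709966) (nat_lit 76) (nat_lit 121094197446) (nat_lit 1) (nat_lit 4) (nat_lit 2) (nat_lit 5) (nat_lit 2) (nat_lit 4) (nat_lit 316) (nat_lit 215) (nat_lit 189)))) (XT.nd (nat_lit 78) (nat_lit 0) (nat_lit 0) (XT.lf (nat_lit 0) (nat_lit 244926199983) (nat_lit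 76) (nat_lit 131936877683) (nat_lit 76) (nat_lit 129840364073) (nat_lit 1) (nat_lit 4) (nat_lit 2) (nat_lit 5) (nat_lit 2) (nat_lit 4) (nat_lit 317) (nat_lit 215) (nat_lit 188)) (XT.nd (nat_lit 78) (nat_lit 0) (nat_lit 0) (XT.lf (nat_lit 0) (nat_lit 266429601632) (nat_lit 76) (nat_lit 141422300852) (nat_lit 76) (nat_lit 139303564011) (nat_lit 1) (nat_lit 4) (nat_lit 2) (nat_lit 5) (nat_lit 2) (nat_lit 4) (nat_lit 318) (nat_lit 215) (nat_lit 187)) (XT.lf (nat_lit 0) (nat_lit 289625800715) (nat_lit 76) (nat_lit 151679189390) (nat_lit 76) (nat_lit 149539875483) (nat_lit 1) (nat_lit 4) (nat_lit 2) (nat_lit 5) (nat_lit 2) (nat_lit 4) (nat_lit 319) (nat_lit 215) (nat_lit 186))))) (XT.nd (nat_lit 234) (nat_lit 0) (nat_lit 0) (XT.nd (nat_lit 78) (nat_lit 0) (nat_lit 0) (XT.lf (nat_lit 0) (nat_lit 314652256192) (nat_lit 76) (nat_lit 162768324858) (nat_lit 76) (nat_lit 160609958113) (nat_lit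 1) (nat_lit 4) (nat_lit 2) (nat_lit 5) (nat_lit 2) (nat_lit 4) (nat_lit 320) (nat_lit 215) (nat_lit 185)) (XT.nd (nat_lit 78) (nat_lit 0) (nat_lit 0) (XT.lf (nat_lit 0) (nat_lit 341657272982) (nat_lit 76) (nat_lit 174755420652) (nat_lit 76) (nat_lit 172579412389) (nat_lit 1) (nat_lit 4) (nat_lit 2) (nat_lit 5) (nat_lit 2) (nat_lit 4) (nat_lit 321) (nat_lit 215) (nat_lit 184)) (XT.lf (nat_lit 0) (nat_lit 370800880816) (nat_lit 76) (nat_lit 187711511412) (nat_lit 76) (nat_lit 185519168411) (nat_lit 1) (nat_lit 4) (nat_lit 2) (nat_lit 5) (nat_lit 2) (nat_lit 4) (nat_lit 322) (nat_lit 215) (nat_lit 183)))) (XT.nd (nat_lit 156) (nat_lit 0) (nat_lit 0) (XT.nd (nat_lit 78) (nat_lit 0) (nat_lit 0) (XT.lf (nat_lit 0) (nat_lit 402255782554) (nat_lit 76) (nat_lit 201713373974) (nat_lit 76) (nat_lit 199505906215) (nat_lit 1) (nat_lit 4) (nat_lit 2) (nat_lit 5) (nat_lit 2) (nat_lit 4) (nat_lit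 323) (nat_lit 215) (nat_lit 182)) (XT.lf (nat_lit 0) (nat_lit 436208377614) (nat_lit 76) (nat_lit 216843982337) (nat_lit 76) (nat_lit 214622510173) (nat_lit 1) (nat_lit 4) (nat_lit 2) (nat_lit 5) (nat_lit 2) (nat_lit 4) (nat_lit 324) (nat_lit 215) (nat_lit 181))) (XT.nd (nat_lit 78) (nat_lit 0) (nat_lit 0) (XT.lf (nat_lit 0) (nat_lit 472859866560) (nat_lit 76) (nat_lit 233192999366) (nat_lit 76) (nat_lit 230958560160) (nat_lit 1) (nat_lit 4) (nat_lit 2) (nat_lit 5) (nat_lit 2) (nat_lit 4) (nat_lit 325) (nat_lit 215) (nat_lit 180)) (XT.lf (nat_lit 0) (nat_lit 512427443399) (nat_lit 76) (nat_lit 250857308125) (nat_lit 76) (nat_lit 248610862399) (nat_lit 1) (nat_lit 4) (nat_lit 2) (nat_lit 5) (nat_lit 2) (nat_lit 4) (nat_lit 326) (nat_lit 215) (nat_lit 179))))))) (XT.nd (nat_lit 936) (nat_lit 0) (nat_lit 0) (XT.nd (nat_lit 468) (nat_lit 0) (nat_lit 0) (XT.nd (nat_lit 234) (nat_lit 0)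 (nat_lit 0) (XT.nd (nat_lit 78) (nat_lit 0) (nat_lit 0) (XT.lf (nat_lit 0) (nat_lit 555145582663) (nat_lit 76) (nat_lit 269941585999) (nat_lit 76) (nat_lit 267684023125) (nat_lit 1) (nat_lit 4) (nat_lit 2) (nat_lit 5) (nat_lit 2) (nat_lit 4) (nat_lit 327) (nat_lit 215) (nat_lit 178)) (XT.nd (nat_lit 78) (nat_lit 0) (nat_lit 0) (XT.lf (nat_lit 0) (nat_lit 601267428878) (nat_lit 76) (nat_lit 290558925006) (nat_lit 76) (nat_lit 288291068476) (nat_lit 1) (nat_lit 4) (nat_lit 2) (nat_lit 5) (nat_lit 2) (nat_lit 4) (nat_lit 328) (nat_lit 215) (nat_lit 177)) (XT.lf (nat_lit 0) (nat_lit 651066296691) (nat_lit 76) (nat_lit 312831501968) (nat_lit 76) (nat_lit 310554114275) (nat_lit 1) (nat_lit 4) (nat_lit 2) (nat_lit 5) (nat_lit 2) (nat_lit 4) (nat_lit 329) (nat_lit 215) (nat_lit 176)))) (XT.nd (nat_lit 78) (nat_lit 0) (nat_lit 0) (XT.lf (nat_lit 0) (nat_lit 704837290501) (nat_lit 76) (nat_lit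 336891302527) (nat_lit 76) (nat_lit 334605089683) (nat_lit 1) (nat_lit 4) (nat_lit 2) (nat_lit 5) (nat_lit 2) (nat_lit 4) (nat_lit 330) (nat_lit 215) (nat_lit 175)) (XT.nd (nat_lit 78) (nat_lit 0) (nat_lit 0) (XT.lf (nat_lit 0) (nat_lit 762899053237) (nat_lit 76) (nat_lit 362880903280) (nat_lit 76) (nat_lit 360586519000) (nat_lit 1) (nat_lit 4) (nat_lit 2) (nat_lit 5) (nat_lit 2) (nat_lit 4) (nat_lit 331) (nat_lit 215) (nat_lit 174)) (XT.lf (nat_lit 0) (nat_lit 825595654602) (nat_lit 76) (nat_lit 390954316674) (nat_lit 76) (nat_lit 388652366250) (nat_lit 1) (nat_lit 4) (nat_lit 2) (nat_lit 5) (nat_lit 2) (nat_lit 4) (nat_lit 332) (nat_lit 215) (nat_lit 173))))) (XT.nd (nat_lit 234) (nat_lit 0) (nat_lit 0) (XT.nd (nat_lit 78) (nat_lit 0) (nat_lit 0) (XT.lf (nat_lit 0) (nat_lit 893298630013) (nat_lit 76) (nat_lit 421277903679) (nat_lit 76) (nat_lit 418968947565) (nat_lit 1) (nat_lit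 4) (nat_lit 2) (nat_lit 5) (nat_lit 2) (nat_lit 4) (nat_lit 333) (nat_lit 215) (nat_lit 172)) (XT.nd (nat_lit 78) (nat_lit 0) (nat_lit 0) (XT.lf (nat_lit 0) (nat_lit 966409182287) (nat_lit 76) (nat_lit 454031359624) (nat_lit 76) (nat_lit 451715916761) (nat_lit 1) (nat_lit 4) (nat_lit 2) (nat_lit 5) (nat_lit 2) (nat_lit 4) (nat_lit 334) (nat_lit 215) (nat_lit 171)) (XT.lf (nat_lit 0) (nat_lit 1045360559140) (nat_lit 76) (nat_lit 489408779063) (nat_lit 76) (nat_lit 487087329951) (nat_lit 1) (nat_lit 4) (nat_lit 2) (nat_lit 5) (nat_lit 2) (nat_lit 4) (nat_lit 335) (nat_lit 215) (nat_lit 170)))) (XT.nd (nat_lit 78) (nat_lit 0) (nat_lit 0) (XT.lf (nat_lit 0) (nat_lit 1130620620585) (nat_lit 76) (nat_lit 527619805964) (nat_lit 76) (nat_lit 525292795510) (nat_lit 1) (nat_lit 4) (nat_lit 2) (nat_lit 5) (nat_lit 2) (nat_lit 4) (nat_lit 336) (nat_lit 215) (nat_lit 169)) (XT.nd (nat_lit 78) (nat_lit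 0) (nat_lit 0) (XT.lf (nat_lit 0) (nat_lit 1222694611428) (nat_lit 76) (nat_lit 568890876042) (nat_lit 76) (nat_lit 566558716197) (nat_lit 1) (nat_lit 4) (nat_lit 2) (nat_lit 5) (nat_lit 2) (nat_lit 4) (nat_lit 337) (nat_lit 215) (nat_lit 168)) (XT.lf (nat_lit 0) (nat_lit 1322128155321) (nat_lit 76) (nat_lit 613466558600) (nat_lit 76) (nat_lit 611129630800) (nat_lit 1) (nat_lit 4) (nat_lit 2) (nat_lit 5) (nat_lit 2) (nat_lit 4) (nat_lit 338) (nat_lit 215) (nat_lit 167)))))) (XT.nd (nat_lit 33852) (nat_lit 0) (nat_lit 0) (XT.nd (nat_lit 33618) (nat_lit 0) (nat_lit 76) (XT.nd (nat_lit 78) (nat_lit 0) (nat_lit 0) (XT.lf (nat_lit 0) (nat_lit 1429510488078) (nat_lit 76) (nat_lit 661611005831) (nat_lit 76) (nat_lit 659269663259) (nat_lit 1) (nat_lit 4) (nat_lit 2) (nat_lit 5) (nat_lit 2) (nat_lit 4) (nat_lit 339) (nat_lit 215) (nat_lit 166)) (XT.nd (nat_lit 33462) (nat_lit 0) (nat_lit 76)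 (XT.lf (nat_lit 0) (nat_lit 1545477949449) (nat_lit 76) (nat_lit 713609518164) (nat_lit 76) (nat_lit 711264087839) (nat_lit 1) (nat_lit 4) (nat_lit 2) (nat_lit 5) (nat_lit 2) (nat_lit 4) (nat_lit 340) (nat_lit 215) (nat_lit 165)) (XT.lf (nat_lit 0) (nat_lit 10952070230) (nat_lit 152) (nat_lit 6140229426) (nat_lit 0) (nat_lit 10952070230) (nat_lit 2) (nat_lit 5) (nat_lit 4) (nat_lit 4) (nat_lit 2) (nat_lit 4) (nat_lit 288) (nat_lit 216) (nat_lit 216)))) (XT.nd (nat_lit 78) (nat_lit 0) (nat_lit 0) (XT.lf (nat_lit 0) (nat_lit 25958828847) (nat_lit 152) (nat_lit 8644743948) (nat_lit 0) (nat_lit 25767106669) (nat_lit 2) (nat_lit 5) (nat_lit 4) (nat_lit 4) (nat_lit 2) (nat_lit 4) (nat_lit 289) (nat_lit 216) (nat_lit 215)) (XT.nd (nat_lit 78) (nat_lit 0) (nat_lit 0) (XT.lf (nat_lit 0) (nat_lit 30215539103) (nat_lit 152) (nat_lit 4943341924) (nat_lit 0) (nat_lit 29846296389) (nat_lit 2) (nat_lit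 5) (nat_lit 4) (nat_lit 4) (nat_lit 2) (nat_lit 4) (nat_lit 290) (nat_lit 216) (nat_lit 214)) (XT.lf (nat_lit 0) (nat_lit 34699496179) (nat_lit 152) (nat_lit 1154318548) (nat_lit 0) (nat_lit 34165882599) (nat_lit 2) (nat_lit 5) (nat_lit 4) (nat_lit 4) (nat_lit 2) (nat_lit 4) (nat_lit 291) (nat_lit 216) (nat_lit 213))))) (XT.nd (nat_lit 234) (nat_lit 0) (nat_lit 0) (XT.nd (nat_lit 78) (nat_lit 0) (nat_lit 0) (XT.lf (nat_lit 0) (nat_lit 2889314885) (nat_lit 76) (nat_lit 36617444878) (nat_lit 76) (nat_lit 35931636051) (nat_lit 1) (nat_lit 4) (nat_lit 2) (nat_lit 5) (nat_lit 2) (nat_lit 4) (nat_lit 292) (nat_lit 216) (nat_lit 212)) (XT.nd (nat_lit 78) (nat_lit 0) (nat_lit 0) (XT.lf (nat_lit 0) (nat_lit 7133926332) (nat_lit 76) (nat_lit 37494586053) (nat_lit 76) (nat_lit 36667855702) (nat_lit 1) (nat_lit 4) (nat_lit 2) (nat_lit 5) (nat_lit 2) (nat_lit 4) (nat_lit 293) (nat_lit 216) (nat_lit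 211)) (XT.lf (nat_lit 0) (nat_lit 11543884679) (nat_lit 76) (nat_lit 38521997239) (nat_lit 76) (nat_lit 37564783995) (nat_lit 1) (nat_lit 4) (nat_lit 2) (nat_lit 5) (nat_lit 2) (nat_lit 4) (nat_lit 294) (nat_lit 216) (nat_lit 210)))) (XT.nd (nat_lit 156) (nat_lit 0) (nat_lit 0) (XT.nd (nat_lit 78) (nat_lit 0) (nat_lit 0) (XT.lf (nat_lit 0) (nat_lit 16145323010) (nat_lit 76) (nat_lit 39705766800) (nat_lit 76) (nat_lit 38627736063) (nat_lit 1) (nat_lit 4) (nat_lit 2) (nat_lit 5) (nat_lit 2) (nat_lit 4) (nat_lit 295) (nat_lit 216) (nat_lit 209)) (XT.lf (nat_lit 0) (nat_lit 20965509110) (nat_lit 76) (nat_lit 41052909667) (nat_lit 76) (nat_lit 39863010879) (nat_lit 1) (nat_lit 4) (nat_lit 2) (nat_lit 5) (nat_lit 2) (nat_lit 4) (nat_lit 296) (nat_lit 216) (nat_lit 208))) (XT.nd (nat_lit 78) (nat_lit 0) (nat_lit 0) (XT.lf (nat_lit 0) (nat_lit 26033007042) (nat_lit 76) (nat_lit 42571408907)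 (nat_lit 76) (nat_lit 41277928592) (nat_lit 1) (nat_lit 4) (nat_lit 2) (nat_lit 5) (nat_lit 2) (nat_lit 4) (nat_lit 297) (nat_lit 216) (nat_lit 207)) (XT.lf (nat_lit 0) (nat_lit 31377846426) (nat_lit 76) (nat_lit 44270263035) (nat_lit 76) (nat_lit 42880873899) (nat_lit 1) (nat_lit 4) (nat_lit 2) (nat_lit 5) (nat_lit 2) (nat_lit 4) (nat_lit 298) (nat_lit 216) (nat_lit 206))))))))
noncomputable def xc14 : XT := (XT.nd (nat_lit 1950) (nat_lit 0) (nat_lit 0) (XT.nd (nat_lit 936) (nat_lit 0) (nat_lit 0) (XT.nd (nat_lit 468) (nat_lit 0) (nat_lit 0) (XT.nd (nat_lit 234) (nat_lit 0) (nat_lit 0) (XT.nd (nat_lit 78) (nat_lit 0) (nat_lit 0) (XT.lf (nat_lit 0) (nat_lit 37031700383) (nat_lit 76) (nat_lit 46159539335) (nat_lit 76) (nat_lit 44681345735) (nat_lit 1) (nat_lit 4) (nat_lit 2) (nat_lit 5) (nat_lit 2) (nat_lit 4) (nat_lit 299) (nat_lit 216) (nat_lit 205)) (XT.nd (nat_lit 78) (nat_lit 0)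 (nat_lit 0) (XT.lf (nat_lit 0) (nat_lit 43028073233) (nat_lit 76) (nat_lit 48250433519) (nat_lit 76) (nat_lit 46690013562) (nat_lit 1) (nat_lit 4) (nat_lit 2) (nat_lit 5) (nat_lit 2) (nat_lit 4) (nat_lit 300) (nat_lit 216) (nat_lit 204)) (XT.lf (nat_lit 0) (nat_lit 49402499037) (nat_lit 76) (nat_lit 50555336069) (nat_lit 76) (nat_lit 48918780598) (nat_lit 1) (nat_lit 4) (nat_lit 2) (nat_lit 5) (nat_lit 2) (nat_lit 4) (nat_lit 301) (nat_lit 216) (nat_lit 203)))) (XT.nd (nat_lit 78) (nat_lit 0) (nat_lit 0) (XT.lf (nat_lit 0) (nat_lit 56192752171) (nat_lit 76) (nat_lit 53087905669) (nat_lit 76) (nat_lit 51380854350) (nat_lit 1) (nat_lit 4) (nat_lit 2) (nat_lit 5) (nat_lit 2) (nat_lit 4) (nat_lit 302) (nat_lit 216) (nat_lit 202)) (XT.nd (nat_lit 78) (nat_lit 0) (nat_lit 0) (XT.lf (nat_lit 0) (nat_lit 63439071171) (nat_lit 76) (nat_lit 55863150137) (nat_lit 76) (nat_lit 54090824886) (nat_lit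 1) (nat_lit 4) (nat_lit 2) (nat_lit 5) (nat_lit 2) (nat_lit 4) (nat_lit 303) (nat_lit 216) (nat_lit 201)) (XT.lf (nat_lit 0) (nat_lit 71184397188) (nat_lit 76) (nat_lit 58897515368) (nat_lit 76) (nat_lit 57064751290) (nat_lit 1) (nat_lit 4) (nat_lit 2) (nat_lit 5) (nat_lit 2) (nat_lit 4) (nat_lit 304) (nat_lit 216) (nat_lit 200))))) (XT.nd (nat_lit 234) (nat_lit 0) (nat_lit 0) (XT.nd (nat_lit 78) (nat_lit 0) (nat_lit 0) (XT.lf (nat_lit 0) (nat_lit 79474628449) (nat_lit 76) (nat_lit 62208982784) (nat_lit 76) (nat_lit 60320256830) (nat_lit 1) (nat_lit 4) (nat_lit 2) (nat_lit 5) (nat_lit 2) (nat_lit 4) (nat_lit 305) (nat_lit 216) (nat_lit 199)) (XT.nd (nat_lit 78) (nat_lit 0) (nat_lit 0) (XT.lf (nat_lit 0) (nat_lit 88358892250) (nat_lit 76) (nat_lit 65817175896) (nat_lit 76) (nat_lit 63876633390) (nat_lit 1) (nat_lit 4) (nat_lit 2) (nat_lit 5) (nat_lit 2) (nat_lit 4) (nat_lit 306) (nat_lit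 216) (nat_lit 198)) (XT.lf (nat_lit 0) (nat_lit 97889836082) (nat_lit 76) (nat_lit 69743476590) (nat_lit 76) (nat_lit 67754955795) (nat_lit 1) (nat_lit 4) (nat_lit 2) (nat_lit 5) (nat_lit 2) (nat_lit 4) (nat_lit 307) (nat_lit 216) (nat_lit 197)))) (XT.nd (nat_lit 78) (nat_lit 0) (nat_lit 0) (XT.lf (nat_lit 0) (nat_lit 108123939610) (nat_lit 76) (nat_lit 74011151832) (nat_lit 76) (nat_lit 71978206695) (nat_lit 1) (nat_lit 4) (nat_lit 2) (nat_lit 5) (nat_lit 2) (nat_lit 4) (nat_lit 308) (nat_lit 216) (nat_lit 196)) (XT.nd (nat_lit 78) (nat_lit 0) (nat_lit 0) (XT.lf (nat_lit 0) (nat_lit 119121849375) (nat_lit 76) (nat_lit 78645491550) (nat_lit 76) (nat_lit 76571412763) (nat_lit 1) (nat_lit 4) (nat_lit 2) (nat_lit 5) (nat_lit 2) (nat_lit 4) (nat_lit 309) (nat_lit 216) (nat_lit 195)) (XT.lf (nat_lit 0) (nat_lit 130948738176) (nat_lit 76) (nat_lit 83673958497) (nat_lit 76) (nat_lit 81561792998)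 (nat_lit 1) (nat_lit 4) (nat_lit 2) (nat_lit 5) (nat_lit 2) (nat_lit 4) (nat_lit 310) (nat_lit 216) (nat_lit 194)))))) (XT.nd (nat_lit 468) (nat_lit 0) (nat_lit 0) (XT.nd (nat_lit 234) (nat_lit 0) (nat_lit 0) (XT.nd (nat_lit 78) (nat_lit 0) (nat_lit 0) (XT.lf (nat_lit 0) (nat_lit 143674691278) (nat_lit 76) (nat_lit 89126350997) (nat_lit 76) (nat_lit 86978920023) (nat_lit 1) (nat_lit 4) (nat_lit 2) (nat_lit 5) (nat_lit 2) (nat_lit 4) (nat_lit 311) (nat_lit 216) (nat_lit 193)) (XT.nd (nat_lit 78) (nat_lit 0) (nat_lit 0) (XT.lf (nat_lit 0) (nat_lit 157375121738) (nat_lit 76) (nat_lit 95034979523) (nat_lit 76) (nat_lit 92854895332) (nat_lit 1) (nat_lit 4) (nat_lit 2) (nat_lit 5) (nat_lit 2) (nat_lit 4) (nat_lit 312) (nat_lit 216) (nat_lit 192)) (XT.lf (nat_lit 0) (nat_lit 172131217291) (nat_lit 76) (nat_lit 101434858170) (nat_lit 76) (nat_lit 99224539519) (nat_lit 1) (nat_lit 4) (nat_lit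 2) (nat_lit 5) (nat_lit 2) (nat_lit 4) (nat_lit 313) (nat_lit 216) (nat_lit 191)))) (XT.nd (nat_lit 78) (nat_lit 0) (nat_lit 0) (XT.lf (nat_lit 0) (nat_lit 188030421468) (nat_lit 76) (nat_lit 108363912146) (nat_lit 76) (nat_lit 106125598624) (nat_lit 1) (nat_lit 4) (nat_lit 2) (nat_lit 5) (nat_lit 2) (nat_lit 4) (nat_lit 314) (nat_lit 216) (nat_lit 190)) (XT.nd (nat_lit 78) (nat_lit 0) (nat_lit 0) (XT.lf (nat_lit 0) (nat_lit 205166951773) (nat_lit 76) (nat_lit 115863202510) (nat_lit 76) (nat_lit 113598967811) (nat_lit 1) (nat_lit 4) (nat_lit 2) (nat_lit 5) (nat_lit 2) (nat_lit 4) (nat_lit 315) (nat_lit 216) (nat_lit 189)) (XT.lf (nat_lit 0) (nat_lit 223642358016) (nat_lit 76) (nat_lit 123977169503) (nat_lit 76) (nat_lit 121688933714) (nat_lit 1) (nat_lit 4) (nat_lit 2) (nat_lit 5) (nat_lit 2) (nat_lit 4) (nat_lit 316) (nat_lit 216) (nat_lit 188))))) (XT.nd (nat_lit 234) (nat_lit 0)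 (nat_lit 0) (XT.nd (nat_lit 78) (nat_lit 0) (nat_lit 0) (XT.lf (nat_lit 0) (nat_lit 243566124087) (nat_lit 76) (nat_lit 132753895890) (nat_lit 76) (nat_lit 130443436871) (nat_lit 1) (nat_lit 4) (nat_lit 2) (nat_lit 5) (nat_lit 2) (nat_lit 4) (nat_lit 317) (nat_lit 216) (nat_lit 187)) (XT.nd (nat_lit 78) (nat_lit 0) (nat_lit 0) (XT.lf (nat_lit 0) (nat_lit 265056316747) (nat_lit 76) (nat_lit 142245391903) (nat_lit 76) (nat_lit 139914355818) (nat_lit 1) (nat_lit 4) (nat_lit 2) (nat_lit 5) (nat_lit 2) (nat_lit 4) (nat_lit 318) (nat_lit 216) (nat_lit 186)) (XT.lf (nat_lit 0) (nat_lit 288240285285) (nat_lit 76) (nat_lit 152507903445) (nat_lit 76) (nat_lit 150157814521) (nat_lit 1) (nat_lit 4) (nat_lit 2) (nat_lit 5) (nat_lit 2) (nat_lit 4) (nat_lit 319) (nat_lit 216) (nat_lit 185)))) (XT.nd (nat_lit 156) (nat_lit 0) (nat_lit 0) (XT.nd (nat_lit 78) (nat_lit 0) (nat_lit 0) (XT.lf (nat_lit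 0) (nat_lit 313255416183) (nat_lit 76) (nat_lit 163602245397) (nat_lit 76) (nat_lit 161234514956) (nat_lit 1) (nat_lit 4) (nat_lit 2) (nat_lit 5) (nat_lit 2) (nat_lit 4) (nat_lit 320) (nat_lit 216) (nat_lit 184)) (XT.lf (nat_lit 0) (nat_lit 340249947252) (nat_lit 76) (nat_lit 175594162009) (nat_lit 76) (nat_lit 173210096830) (nat_lit 1) (nat_lit 4) (nat_lit 2) (nat_lit 5) (nat_lit 2) (nat_lit 4) (nat_lit 321) (nat_lit 216) (nat_lit 183))) (XT.nd (nat_lit 78) (nat_lit 0) (nat_lit 0) (XT.lf (nat_lit 0) (nat_lit 369383846084) (nat_lit 76) (nat_lit 188554716491) (nat_lit 76) (nat_lit 186155526554) (nat_lit 1) (nat_lit 4) (nat_lit 2) (nat_lit 5) (nat_lit 2) (nat_lit 4) (nat_lit 322) (nat_lit 216) (nat_lit 182)) (XT.lf (nat_lit 0) (nat_lit 400829758007) (nat_lit 76) (nat_lit 202560712128) (nat_lit 76) (nat_lit 200147517786) (nat_lit 1) (nat_lit 4) (nat_lit 2) (nat_lit 5) (nat_lit 2) (nat_lit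 4) (nat_lit 323) (nat_lit 216) (nat_lit 181))))))) (XT.nd (nat_lit 936) (nat_lit 0) (nat_lit 0) (XT.nd (nat_lit 468) (nat_lit 0) (nat_lit 0) (XT.nd (nat_lit 234) (nat_lit 0) (nat_lit 0) (XT.nd (nat_lit 78) (nat_lit 0) (nat_lit 0) (XT.lf (nat_lit 0) (nat_lit 434774029163) (nat_lit 76) (nat_lit 217695147413) (nat_lit 76) (nat_lit 215268986029) (nat_lit 1) (nat_lit 4) (nat_lit 2) (nat_lit 5) (nat_lit 2) (nat_lit 4) (nat_lit 324) (nat_lit 216) (nat_lit 180)) (XT.nd (nat_lit 78) (nat_lit 0) (nat_lit 0) (XT.lf (nat_lit 0) (nat_lit 471417810791) (nat_lit 76) (nat_lit 234047707888) (nat_lit 76) (nat_lit 231609539984) (nat_lit 1) (nat_lit 4) (nat_lit 2) (nat_lit 5) (nat_lit 2) (nat_lit 4) (nat_lit 325) (nat_lit 216) (nat_lit 179)) (XT.lf (nat_lit 0) (nat_lit 510978251225) (nat_lit 76) (nat_lit 251715297616) (nat_lit 76) (nat_lit 249266012563) (nat_lit 1) (nat_lit 4) (nat_lit 2) (nat_lit 5)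 (nat_lit 2) (nat_lit 4) (nat_lit 326) (nat_lit 216) (nat_lit 178)))) (XT.nd (nat_lit 78) (nat_lit 0) (nat_lit 0) (XT.lf (nat_lit 0) (nat_lit 553689782705) (nat_lit 76) (nat_lit 270802613424) (nat_lit 76) (nat_lit 268343034715) (nat_lit 1) (nat_lit 4) (nat_lit 2) (nat_lit 5) (nat_lit 2) (nat_lit 4) (nat_lit 327) (nat_lit 216) (nat_lit 177)) (XT.nd (nat_lit 78) (nat_lit 0) (nat_lit 0) (XT.lf (nat_lit 0) (nat_lit 599805510603) (nat_lit 76) (nat_lit 291422765332) (nat_lit 76) (nat_lit 288953655460) (nat_lit 1) (nat_lit 4) (nat_lit 2) (nat_lit 5) (nat_lit 2) (nat_lit 4) (nat_lit 328) (nat_lit 216) (nat_lit 176)) (XT.lf (nat_lit 0) (nat_lit 649598713307) (nat_lit 76) (nat_lit 313697946833) (nat_lit 76) (nat_lit 311220011810) (nat_lit 1) (nat_lit 4) (nat_lit 2) (nat_lit 5) (nat_lit 2) (nat_lit 4) (nat_lit 329) (nat_lit 216) (nat_lit 175))))) (XT.nd (nat_lit 234) (nat_lit 0) (nat_lit 0) (XT.nd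 (nat_lit 78) (nat_lit 0) (nat_lit 0) (XT.lf (nat_lit 0) (nat_lit 703364461646) (nat_lit 76) (nat_lit 337760159002) (nat_lit 76) (nat_lit 335274052543) (nat_lit 1) (nat_lit 4) (nat_lit 2) (nat_lit 5) (nat_lit 2) (nat_lit 4) (nat_lit 330) (nat_lit 216) (nat_lit 174)) (XT.nd (nat_lit 78) (nat_lit 0) (nat_lit 0) (XT.lf (nat_lit 0) (nat_lit 761421367464) (nat_lit 76) (nat_lit 363751992726) (nat_lit 76) (nat_lit 361258320123) (nat_lit 1) (nat_lit 4) (nat_lit 2) (nat_lit 5) (nat_lit 2) (nat_lit 4) (nat_lit 331) (nat_lit 216) (nat_lit 173)) (XT.lf (nat_lit 0) (nat_lit 824113471684) (nat_lit 76) (nat_lit 391827473687) (nat_lit 76) (nat_lit 389326795395) (nat_lit 1) (nat_lit 4) (nat_lit 2) (nat_lit 5) (nat_lit 2) (nat_lit 4) (nat_lit 332) (nat_lit 216) (nat_lit 172)))) (XT.nd (nat_lit 78) (nat_lit 0) (nat_lit 0) (XT.lf (nat_lit 0) (nat_lit 891812283070) (nat_lit 76) (nat_lit 422152975105) (nat_lit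 76) (nat_lit 419645810064) (nat_lit 1) (nat_lit 4) (nat_lit 2) (nat_lit 5) (nat_lit 2) (nat_lit 4) (nat_lit 333) (nat_lit 216) (nat_lit 171)) (XT.nd (nat_lit 78) (nat_lit 0) (nat_lit 0) (XT.lf (nat_lit 0) (nat_lit 964918979766) (nat_lit 76) (nat_lit 454908203656) (nat_lit 76) (nat_lit 452395032365) (nat_lit 1) (nat_lit 4) (nat_lit 2) (nat_lit 5) (nat_lit 2) (nat_lit 4) (nat_lit 334) (nat_lit 216) (nat_lit 170)) (XT.lf (nat_lit 0) (nat_lit 1043866786640) (nat_lit 76) (nat_lit 490287264396) (nat_lit 76) (nat_lit 487768531764) (nat_lit 1) (nat_lit 4) (nat_lit 2) (nat_lit 5) (nat_lit 2) (nat_lit 4) (nat_lit 335) (nat_lit 216) (nat_lit 169)))))) (XT.nd (nat_lit 33696) (nat_lit 0) (nat_lit 0) (XT.nd (nat_lit 234) (nat_lit 0) (nat_lit 0) (XT.nd (nat_lit 78) (nat_lit 0) (nat_lit 0) (XT.lf (nat_lit 0) (nat_lit 1129123542548) (nat_lit 76) (nat_lit 528499811020) (nat_lit 76) (nat_lit 525975928997)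 (nat_lit 1) (nat_lit 4) (nat_lit 2) (nat_lit 5) (nat_lit 2) (nat_lit 4) (nat_lit 336) (nat_lit 216) (nat_lit 168)) (XT.nd (nat_lit 78) (nat_lit 0) (nat_lit 0) (XT.lf (nat_lit 0) (nat_lit 1221194472709) (nat_lit 76) (nat_lit 569772288249) (nat_lit 76) (nat_lit 567243638271) (nat_lit 1) (nat_lit 4) (nat_lit 2) (nat_lit 5) (nat_lit 2) (nat_lit 4) (nat_lit 337) (nat_lit 216) (nat_lit 167)) (XT.lf (nat_lit 0) (nat_lit 1320625182637) (nat_lit 76) (nat_lit 614349273724) (nat_lit 76) (nat_lit 611816208974) (nat_lit 1) (nat_lit 4) (nat_lit 2) (nat_lit 5) (nat_lit 2) (nat_lit 4) (nat_lit 338) (nat_lit 216) (nat_lit 166)))) (XT.nd (nat_lit 78) (nat_lit 0) (nat_lit 0) (XT.lf (nat_lit 0) (nat_lit 1428004891352) (nat_lit 76) (nat_lit 662494927361) (nat_lit 76) (nat_lit 659957774858) (nat_lit 1) (nat_lit 4) (nat_lit 2) (nat_lit 5) (nat_lit 2) (nat_lit 4) (nat_lit 339) (nat_lit 216) (nat_lit 165))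 (XT.nd (nat_lit 33306) (nat_lit 0) (nat_lit 76) (XT.lf (nat_lit 0) (nat_lit 1543969923055) (nat_lit 76) (nat_lit 714494556736) (nat_lit 76) (nat_lit 711953619277) (nat_lit 1) (nat_lit 4) (nat_lit 2) (nat_lit 5) (nat_lit 2) (nat_lit 4) (nat_lit 340) (nat_lit 216) (nat_lit 164)) (XT.lf (nat_lit 0) (nat_lit 7290722403) (nat_lit 152) (nat_lit 9657238592) (nat_lit 0) (nat_lit 7290722403) (nat_lit 2) (nat_lit 5) (nat_lit 4) (nat_lit 4) (nat_lit 2) (nat_lit 4) (nat_lit 286) (nat_lit 217) (nat_lit 217))))) (XT.nd (nat_lit 234) (nat_lit 76) (nat_lit 0) (XT.nd (nat_lit 78) (nat_lit 0) (nat_lit 0) (XT.lf (nat_lit 0) (nat_lit 18234506113) (nat_lit 152) (nat_lit 15872031617) (nat_lit 0) (nat_lit 18027446161) (nat_lit 2) (nat_lit 5) (nat_lit 4) (nat_lit 4) (nat_lit 2) (nat_lit 4) (nat_lit 287) (nat_lit 217) (nat_lit 216)) (XT.nd (nat_lit 78) (nat_lit 0) (nat_lit 0) (XT.lf (nat_lit 0) (nat_lit 22047670866)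 (nat_lit 152) (nat_lit 12397374083) (nat_lit 0) (nat_lit 21648888735) (nat_lit 2) (nat_lit 5) (nat_lit 4) (nat_lit 4) (nat_lit 2) (nat_lit 4) (nat_lit 288) (nat_lit 217) (nat_lit 215)) (XT.lf (nat_lit 0) (nat_lit 26043535598) (nat_lit 152) (nat_lit 8869914022) (nat_lit 0) (nat_lit 25467232932) (nat_lit 2) (nat_lit 5) (nat_lit 4) (nat_lit 4) (nat_lit 2) (nat_lit 4) (nat_lit 289) (nat_lit 217) (nat_lit 214)))) (XT.nd (nat_lit 156) (nat_lit 76) (nat_lit 0) (XT.nd (nat_lit 78) (nat_lit 0) (nat_lit 0) (XT.lf (nat_lit 0) (nat_lit 30245779508) (nat_lit 152) (nat_lit 5268747964) (nat_lit 0) (nat_lit 29505105975) (nat_lit 2) (nat_lit 5) (nat_lit 4) (nat_lit 4) (nat_lit 2) (nat_lit 4) (nat_lit 290) (nat_lit 217) (nat_lit 213)) (XT.lf (nat_lit 0) (nat_lit 34679304780) (nat_lit 152) (nat_lit 1572535667) (nat_lit 0) (nat_lit 33786436001) (nat_lit 2) (nat_lit 5) (nat_lit 4) (nat_lit 4) (nat_lit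 2) (nat_lit 4) (nat_lit 291) (nat_lit 217) (nat_lit 212))) (XT.nd (nat_lit 78) (nat_lit 0) (nat_lit 0) (XT.lf (nat_lit 0) (nat_lit 2358613761) (nat_lit 76) (nat_lit 37068495115) (nat_lit 76) (nat_lit 36034704812) (nat_lit 1) (nat_lit 4) (nat_lit 2) (nat_lit 5) (nat_lit 2) (nat_lit 4) (nat_lit 292) (nat_lit 217) (nat_lit 211)) (XT.lf (nat_lit 0) (nat_lit 6519464623) (nat_lit 76) (nat_lit 37984145289) (nat_lit 76) (nat_lit 36819872092) (nat_lit 1) (nat_lit 4) (nat_lit 2) (nat_lit 5) (nat_lit 2) (nat_lit 4) (nat_lit 293) (nat_lit 217) (nat_lit 210))))))))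
noncomputable def xc15 : XT := (XT.nd (nat_lit 1950) (nat_lit 0) (nat_lit 0) (XT.nd (nat_lit 936) (nat_lit 0) (nat_lit 0) (XT.nd (nat_lit 468) (nat_lit 0) (nat_lit 0) (XT.nd (nat_lit 234) (nat_lit 0) (nat_lit 0) (XT.nd (nat_lit 78) (nat_lit 0) (nat_lit 0) (XT.lf (nat_lit 0) (nat_lit 10851866872) (nat_lit 76) (nat_lit 39047212956) (nat_lit 76) (nat_lit 37762122266) (nat_lit 1) (nat_lit 4) (nat_lit 2) (nat_lit 5) (nat_lit 2) (nat_lit 4) (nat_lit 294) (nat_lit 217) (nat_lit 209)) (XT.nd (nat_lit 78) (nat_lit 0) (nat_lit 0) (XT.lf (nat_lit 0) (nat_lit 15381494002) (nat_lit 76) (nat_lit 40263997777) (nat_lit 76) (nat_lit 38867039037) (nat_lit 1) (nat_lit 4) (nat_lit 2) (nat_lit 5) (nat_lit 2) (nat_lit 4) (nat_lit 295) (nat_lit 217) (nat_lit 208)) (XT.lf (nat_lit 0) (nat_lit 20135188249) (nat_lit 76) (nat_lit 41641710328) (nat_lit 76) (nat_lit 40141170061) (nat_lit 1) (nat_lit 4) (nat_lit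 2) (nat_lit 5) (nat_lit 2) (nat_lit 4) (nat_lit 296) (nat_lit 217) (nat_lit 207)))) (XT.nd (nat_lit 78) (nat_lit 0) (nat_lit 0) (XT.lf (nat_lit 0) (nat_lit 25141119651) (nat_lit 76) (nat_lit 43188514833) (nat_lit 76) (nat_lit 41592065744) (nat_lit 1) (nat_lit 4) (nat_lit 2) (nat_lit 5) (nat_lit 2) (nat_lit 4) (nat_lit 297) (nat_lit 217) (nat_lit 206)) (XT.nd (nat_lit 78) (nat_lit 0) (nat_lit 0) (XT.lf (nat_lit 0) (nat_lit 30428952988) (nat_lit 76) (nat_lit 44913577539) (nat_lit 76) (nat_lit 43228323985) (nat_lit 1) (nat_lit 4) (nat_lit 2) (nat_lit 5) (nat_lit 2) (nat_lit 4) (nat_lit 298) (nat_lit 217) (nat_lit 205)) (XT.lf (nat_lit 0) (nat_lit 36030023568) (nat_lit 76) (nat_lit 46827121040) (nat_lit 76) (nat_lit 45059641131) (nat_lit 1) (nat_lit 4) (nat_lit 2) (nat_lit 5) (nat_lit 2) (nat_lit 4) (nat_lit 299) (nat_lit 217) (nat_lit 204))))) (XT.nd (nat_lit 234) (nat_lit 0) (nat_lit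 0) (XT.nd (nat_lit 78) (nat_lit 0) (nat_lit 0) (XT.lf (nat_lit 0) (nat_lit 41977522921) (nat_lit 76) (nat_lit 48940484855) (nat_lit 76) (nat_lit 47096869430) (nat_lit 1) (nat_lit 4) (nat_lit 2) (nat_lit 5) (nat_lit 2) (nat_lit 4) (nat_lit 300) (nat_lit 217) (nat_lit 203)) (XT.nd (nat_lit 78) (nat_lit 0) (nat_lit 0) (XT.lf (nat_lit 0) (nat_lit 48306695487) (nat_lit 76) (nat_lit 51266192619) (nat_lit 76) (nat_lit 49352081348) (nat_lit 1) (nat_lit 4) (nat_lit 2) (nat_lit 5) (nat_lit 2) (nat_lit 4) (nat_lit 301) (nat_lit 217) (nat_lit 202)) (XT.lf (nat_lit 0) (nat_lit 55055047475) (nat_lit 76) (nat_lit 53818026306) (nat_lit 76) (nat_lit 51838641102) (nat_lit 1) (nat_lit 4) (nat_lit 2) (nat_lit 5) (nat_lit 2) (nat_lit 4) (nat_lit 302) (nat_lit 217) (nat_lit 201)))) (XT.nd (nat_lit 78) (nat_lit 0) (nat_lit 0) (XT.lf (nat_lit 0) (nat_lit 62262569117) (nat_lit 76) (nat_lit 56611107892) (nat_lit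 76) (nat_lit 54571283862) (nat_lit 1) (nat_lit 4) (nat_lit 2) (nat_lit 5) (nat_lit 2) (nat_lit 4) (nat_lit 303) (nat_lit 217) (nat_lit 200)) (XT.nd (nat_lit 78) (nat_lit 0) (nat_lit 0) (XT.lf (nat_lit 0) (nat_lit 69971971655) (nat_lit 76) (nat_lit 59661988972) (nat_lit 76) (nat_lit 57566203065) (nat_lit 1) (nat_lit 4) (nat_lit 2) (nat_lit 5) (nat_lit 2) (nat_lit 4) (nat_lit 304) (nat_lit 217) (nat_lit 199)) (XT.lf (nat_lit 0) (nat_lit 78228940435) (nat_lit 76) (nat_lit 62988748841) (nat_lit 76) (nat_lit 60841146383) (nat_lit 1) (nat_lit 4) (nat_lit 2) (nat_lit 5) (nat_lit 2) (nat_lit 4) (nat_lit 305) (nat_lit 217) (nat_lit 198)))))) (XT.nd (nat_lit 468) (nat_lit 0) (nat_lit 0) (XT.nd (nat_lit 234) (nat_lit 0) (nat_lit 0) (XT.nd (nat_lit 78) (nat_lit 0) (nat_lit 0) (XT.lf (nat_lit 0) (nat_lit 87082405643) (nat_lit 76) (nat_lit 66611101633) (nat_lit 76) (nat_lit 64415520885) (nat_lit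 1) (nat_lit 4) (nat_lit 2) (nat_lit 5) (nat_lit 2) (nat_lit 4) (nat_lit 306) (nat_lit 217) (nat_lit 197)) (XT.nd (nat_lit 78) (nat_lit 0) (nat_lit 0) (XT.lf (nat_lit 0) (nat_lit 96584832258) (nat_lit 76) (nat_lit 70550513140) (nat_lit 76) (nat_lit 68310508051) (nat_lit 1) (nat_lit 4) (nat_lit 2) (nat_lit 5) (nat_lit 2) (nat_lit 4) (nat_lit 307) (nat_lit 217) (nat_lit 196)) (XT.lf (nat_lit 0) (nat_lit 106792530957) (nat_lit 76) (nat_lit 74830328025) (nat_lit 76) (nat_lit 72549189286) (nat_lit 1) (nat_lit 4) (nat_lit 2) (nat_lit 5) (nat_lit 2) (nat_lit 4) (nat_lit 308) (nat_lit 217) (nat_lit 195)))) (XT.nd (nat_lit 78) (nat_lit 0) (nat_lit 0) (XT.lf (nat_lit 0) (nat_lit 117765991806) (nat_lit 76) (nat_lit 79475908152) (nat_lit 76) (nat_lit 77156682701) (nat_lit 1) (nat_lit 4) (nat_lit 2) (nat_lit 5) (nat_lit 2) (nat_lit 4) (nat_lit 309) (nat_lit 217) (nat_lit 194)) (XT.nd (nat_lit 78)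 (nat_lit 0) (nat_lit 0) (XT.lf (nat_lit 0) (nat_lit 129570242721) (nat_lit 76) (nat_lit 84514782886) (nat_lit 76) (nat_lit 82160291960) (nat_lit 1) (nat_lit 4) (nat_lit 2) (nat_lit 5) (nat_lit 2) (nat_lit 4) (nat_lit 310) (nat_lit 217) (nat_lit 193)) (XT.lf (nat_lit 0) (nat_lit 142275234818) (nat_lit 76) (nat_lit 89976812226) (nat_lit 76) (nat_lit 87589668082) (nat_lit 1) (nat_lit 4) (nat_lit 2) (nat_lit 5) (nat_lit 2) (nat_lit 4) (nat_lit 311) (nat_lit 217) (nat_lit 192))))) (XT.nd (nat_lit 234) (nat_lit 0) (nat_lit 0) (XT.nd (nat_lit 78) (nat_lit 0) (nat_lit 0) (XT.lf (nat_lit 0) (nat_lit 155956256940) (nat_lit 76) (nat_lit 95894363751) (nat_lit 76) (nat_lit 93476985147) (nat_lit 1) (nat_lit 4) (nat_lit 2) (nat_lit 5) (nat_lit 2) (nat_lit 4) (nat_lit 312) (nat_lit 217) (nat_lit 191)) (XT.nd (nat_lit 78) (nat_lit 0) (nat_lit 0) (XT.lf (nat_lit 0) (nat_lit 170694381810) (nat_lit 76)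 (nat_lit 102302504436) (nat_lit 76) (nat_lit 99857130961) (nat_lit 1) (nat_lit 4) (nat_lit 2) (nat_lit 5) (nat_lit 2) (nat_lit 4) (nat_lit 313) (nat_lit 217) (nat_lit 190)) (XT.lf (nat_lit 0) (nat_lit 186576946464) (nat_lit 76) (nat_lit 109239208445) (nat_lit 76) (nat_lit 106767913794) (nat_lit 1) (nat_lit 4) (nat_lit 2) (nat_lit 5) (nat_lit 2) (nat_lit 4) (nat_lit 314) (nat_lit 217) (nat_lit 189)))) (XT.nd (nat_lit 156) (nat_lit 0) (nat_lit 0) (XT.nd (nat_lit 78) (nat_lit 0) (nat_lit 0) (XT.lf (nat_lit 0) (nat_lit 203698069805) (nat_lit 76) (nat_lit 116745582174) (nat_lit 76) (nat_lit 114250286433) (nat_lit 1) (nat_lit 4) (nat_lit 2) (nat_lit 5) (nat_lit 2) (nat_lit 4) (nat_lit 315) (nat_lit 217) (nat_lit 188)) (XT.lf (nat_lit 0) (nat_lit 222159210341) (nat_lit 76) (nat_lit 124866107838) (nat_lit 76) (nat_lit 122348588865) (nat_lit 1) (nat_lit 4) (nat_lit 2) (nat_lit 5) (nat_lit 2)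 (nat_lit 4) (nat_lit 316) (nat_lit 217) (nat_lit 187))) (XT.nd (nat_lit 78) (nat_lit 0) (nat_lit 0) (XT.lf (nat_lit 0) (nat_lit 242069767423) (nat_lit 76) (nat_lit 133648907069) (nat_lit 76) (nat_lit 131110811031) (nat_lit 1) (nat_lit 4) (nat_lit 2) (nat_lit 5) (nat_lit 2) (nat_lit 4) (nat_lit 317) (nat_lit 217) (nat_lit 186)) (XT.lf (nat_lit 0) (nat_lit 263547729537) (nat_lit 76) (nat_lit 143146026085) (nat_lit 76) (nat_lit 140588877209) (nat_lit 1) (nat_lit 4) (nat_lit 2) (nat_lit 5) (nat_lit 2) (nat_lit 4) (nat_lit 318) (nat_lit 217) (nat_lit 185))))))) (XT.nd (nat_lit 1014) (nat_lit 0) (nat_lit 0) (XT.nd (nat_lit 468) (nat_lit 0) (nat_lit 0) (XT.nd (nat_lit 234) (nat_lit 0) (nat_lit 0) (XT.nd (nat_lit 78) (nat_lit 0) (nat_lit 0) (XT.lf (nat_lit 0) (nat_lit 286720373497) (nat_lit 76) (nat_lit 153413744111) (nat_lit 76) (nat_lit 150838953717) (nat_lit 1) (nat_lit 4) (nat_lit 2) (nat_lit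 5) (nat_lit 2) (nat_lit 4) (nat_lit 319) (nat_lit 217) (nat_lit 184)) (XT.nd (nat_lit 78) (nat_lit 0) (nat_lit 0) (XT.lf (nat_lit 0) (nat_lit 311725018673) (nat_lit 76) (nat_lit 164512906883) (nat_lit 76) (nat_lit 161921781751) (nat_lit 1) (nat_lit 4) (nat_lit 2) (nat_lit 5) (nat_lit 2) (nat_lit 4) (nat_lit 320) (nat_lit 217) (nat_lit 183)) (XT.lf (nat_lit 0) (nat_lit 338709840741) (nat_lit 76) (nat_lit 176509287216) (nat_lit 76) (nat_lit 173903037327) (nat_lit 1) (nat_lit 4) (nat_lit 2) (nat_lit 5) (nat_lit 2) (nat_lit 4) (nat_lit 321) (nat_lit 217) (nat_lit 182)))) (XT.nd (nat_lit 78) (nat_lit 0) (nat_lit 0) (XT.lf (nat_lit 0) (nat_lit 367834749758) (nat_lit 76) (nat_lit 189473974773) (nat_lit 76) (nat_lit 186853720479) (nat_lit 1) (nat_lit 4) (nat_lit 2) (nat_lit 5) (nat_lit 2) (nat_lit 4) (nat_lit 322) (nat_lit 217) (nat_lit 181)) (XT.nd (nat_lit 78) (nat_lit 0) (nat_lit 0) (XT.lf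 (nat_lit 0) (nat_lit 399272337776) (nat_lit 76) (nat_lit 203483797332) (nat_lit 76) (nat_lit 200850575995) (nat_lit 1) (nat_lit 4) (nat_lit 2) (nat_lit 5) (nat_lit 2) (nat_lit 4) (nat_lit 323) (nat_lit 217) (nat_lit 180)) (XT.lf (nat_lit 0) (nat_lit 433208901615) (nat_lit 76) (nat_lit 218621776063) (nat_lit 76) (nat_lit 215976548206) (nat_lit 1) (nat_lit 4) (nat_lit 2) (nat_lit 5) (nat_lit 2) (nat_lit 4) (nat_lit 324) (nat_lit 217) (nat_lit 179))))) (XT.nd (nat_lit 234) (nat_lit 0) (nat_lit 0) (XT.nd (nat_lit 78) (nat_lit 0) (nat_lit 0) (XT.lf (nat_lit 0) (nat_lit 469845546837) (nat_lit 76) (nat_lit 234977617506) (nat_lit 76) (nat_lit 232321272501) (nat_lit 1) (nat_lit 4) (nat_lit 2) (nat_lit 5) (nat_lit 2) (nat_lit 4) (nat_lit 325) (nat_lit 217) (nat_lit 178)) (XT.nd (nat_lit 78) (nat_lit 0) (nat_lit 0) (XT.lf (nat_lit 0) (nat_lit 509399379488) (nat_lit 76) (nat_lit 252648245168)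 (nat_lit 76) (nat_lit 249981606507) (nat_lit 1) (nat_lit 4) (nat_lit 2) (nat_lit 5) (nat_lit 2) (nat_lit 4) (nat_lit 326) (nat_lit 217) (nat_lit 177)) (XT.lf (nat_lit 0) (nat_lit 552104792651) (nat_lit 76) (nat_lit 271738373877) (nat_lit 76) (nat_lit 269062204053) (nat_lit 1) (nat_lit 4) (nat_lit 2) (nat_lit 5) (nat_lit 2) (nat_lit 4) (nat_lit 327) (nat_lit 217) (nat_lit 176)))) (XT.nd (nat_lit 156) (nat_lit 0) (nat_lit 0) (XT.nd (nat_lit 78) (nat_lit 0) (nat_lit 0) (XT.lf (nat_lit 0) (nat_lit 598214855440) (nat_lit 76) (nat_lit 292361130324) (nat_lit 76) (nat_lit 289676135349) (nat_lit 1) (nat_lit 4) (nat_lit 2) (nat_lit 5) (nat_lit 2) (nat_lit 4) (nat_lit 328) (nat_lit 217) (nat_lit 175)) (XT.lf (nat_lit 0) (nat_lit 648002812672) (nat_lit 76) (nat_lit 314638723434) (nat_lit 76) (nat_lit 311945557024) (nat_lit 1) (nat_lit 4) (nat_lit 2) (nat_lit 5) (nat_lit 2) (nat_lit 4) (nat_lit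 329) (nat_lit 217) (nat_lit 174))) (XT.nd (nat_lit 78) (nat_lit 0) (nat_lit 0) (XT.lf (nat_lit 0) (nat_lit 701763704094) (nat_lit 76) (nat_lit 338703168576) (nat_lit 76) (nat_lit 336002436020) (nat_lit 1) (nat_lit 4) (nat_lit 2) (nat_lit 5) (nat_lit 2) (nat_lit 4) (nat_lit 330) (nat_lit 217) (nat_lit 173)) (XT.lf (nat_lit 0) (nat_lit 759816112766) (nat_lit 76) (nat_lit 364697069867) (nat_lit 76) (nat_lit 361989331622) (nat_lit 1) (nat_lit 4) (nat_lit 2) (nat_lit 5) (nat_lit 2) (nat_lit 4) (nat_lit 331) (nat_lit 217) (nat_lit 172)))))) (XT.nd (nat_lit 468) (nat_lit 0) (nat_lit 0) (XT.nd (nat_lit 234) (nat_lit 0) (nat_lit 0) (XT.nd (nat_lit 78) (nat_lit 0) (nat_lit 0) (XT.lf (nat_lit 0) (nat_lit 822504052961) (nat_lit 76) (nat_lit 392774465241) (nat_lit 76) (nat_lit 390060240247) (nat_lit 1) (nat_lit 4) (nat_lit 2) (nat_lit 5) (nat_lit 2) (nat_lit 4) (nat_lit 332) (nat_lit 217) (nat_lit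 171)) (XT.nd (nat_lit 78) (nat_lit 0) (nat_lit 0) (XT.lf (nat_lit 0) (nat_lit 890199008770) (nat_lit 76) (nat_lit 423101739265) (nat_lit 76) (nat_lit 420381508021) (nat_lit 1) (nat_lit 4) (nat_lit 2) (nat_lit 5) (nat_lit 2) (nat_lit 4) (nat_lit 333) (nat_lit 217) (nat_lit 170)) (XT.lf (nat_lit 0) (nat_lit 963302135486) (nat_lit 76) (nat_lit 455858609116) (nat_lit 76) (nat_lit 453132816531) (nat_lit 1) (nat_lit 4) (nat_lit 2) (nat_lit 5) (nat_lit 2) (nat_lit 4) (nat_lit 334) (nat_lit 217) (nat_lit 169)))) (XT.nd (nat_lit 78) (nat_lit 0) (nat_lit 0) (XT.lf (nat_lit 0) (nat_lit 1042246636823) (nat_lit 76) (nat_lit 491239189580) (nat_lit 76) (nat_lit 488508247604) (nat_lit 1) (nat_lit 4) (nat_lit 2) (nat_lit 5) (nat_lit 2) (nat_lit 4) (nat_lit 335) (nat_lit 217) (nat_lit 168)) (XT.nd (nat_lit 78) (nat_lit 0) (nat_lit 0) (XT.lf (nat_lit 0) (nat_lit 1127500332049) (nat_lit 76) (nat_lit 529453143355)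 (nat_lit 76) (nat_lit 526717433425) (nat_lit 1) (nat_lit 4) (nat_lit 2) (nat_lit 5) (nat_lit 2) (nat_lit 4) (nat_lit 336) (nat_lit 217) (nat_lit 167)) (XT.lf (nat_lit 0) (nat_lit 1219568428246) (nat_lit 76) (nat_lit 570726923501) (nat_lit 76) (nat_lit 567986798798) (nat_lit 1) (nat_lit 4) (nat_lit 2) (nat_lit 5) (nat_lit 2) (nat_lit 4) (nat_lit 337) (nat_lit 217) (nat_lit 166))))) (XT.nd (nat_lit 33306) (nat_lit 0) (nat_lit 76) (XT.nd (nat_lit 78) (nat_lit 0) (nat_lit 0) (XT.lf (nat_lit 0) (nat_lit 1318996514132) (nat_lit 76) (nat_lit 615305115382) (nat_lit 76) (nat_lit 612560902927) (nat_lit 1) (nat_lit 4) (nat_lit 2) (nat_lit 5) (nat_lit 2) (nat_lit 4) (nat_lit 338) (nat_lit 217) (nat_lit 165)) (XT.nd (nat_lit 78) (nat_lit 0) (nat_lit 0) (XT.lf (nat_lit 0) (nat_lit 1426373793179) (nat_lit 76) (nat_lit 663451886061) (nat_lit 76) (nat_lit 660703888650) (nat_lit 1) (nat_lit 4) (nat_lit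 2) (nat_lit 5) (nat_lit 2) (nat_lit 4) (nat_lit 339) (nat_lit 217) (nat_lit 164)) (XT.lf (nat_lit 0) (nat_lit 1542336575189) (nat_lit 76) (nat_lit 715452549733) (nat_lit 76) (nat_lit 712701047734) (nat_lit 1) (nat_lit 4) (nat_lit 2) (nat_lit 5) (nat_lit 2) (nat_lit 4) (nat_lit 340) (nat_lit 217) (nat_lit 163)))) (XT.nd (nat_lit 156) (nat_lit 0) (nat_lit 0) (XT.nd (nat_lit 78) (nat_lit 0) (nat_lit 0) (XT.lf (nat_lit 0) (nat_lit 3983793771) (nat_lit 152) (nat_lit 13023945604) (nat_lit 0) (nat_lit 3983793771) (nat_lit 2) (nat_lit 5) (nat_lit 4) (nat_lit 4) (nat_lit 2) (nat_lit 4) (nat_lit 284) (nat_lit 218) (nat_lit 218)) (XT.lf (nat_lit 0) (nat_lit 11290463926) (nat_lit 152) (nat_lit 22745110464) (nat_lit 0) (nat_lit 11066839177) (nat_lit 2) (nat_lit 5) (nat_lit 4) (nat_lit 4) (nat_lit 2) (nat_lit 4) (nat_lit 285) (nat_lit 218) (nat_lit 217))) (XT.nd (nat_lit 78) (nat_lit 0) (nat_lit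 0) (XT.lf (nat_lit 0) (nat_lit 14736457645) (nat_lit 152) (nat_lit 19440745634) (nat_lit 0) (nat_lit 14305772944) (nat_lit 2) (nat_lit 5) (nat_lit 4) (nat_lit 4) (nat_lit 2) (nat_lit 4) (nat_lit 286) (nat_lit 218) (nat_lit 216)) (XT.lf (nat_lit 0) (nat_lit 18325989404) (nat_lit 152) (nat_lit 16115215297) (nat_lit 0) (nat_lit 17703582525) (nat_lit 2) (nat_lit 5) (nat_lit 4) (nat_lit 4) (nat_lit 2) (nat_lit 4) (nat_lit 287) (nat_lit 218) (nat_lit 215))))))))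
noncomputable def xc16 : XT := (XT.nd (nat_lit 1950) (nat_lit 0) (nat_lit 0) (XT.nd (nat_lit 936) (nat_lit 0) (nat_lit 0) (XT.nd (nat_lit 468) (nat_lit 0) (nat_lit 0) (XT.nd (nat_lit 234) (nat_lit 76) (nat_lit 0) (XT.nd (nat_lit 78) (nat_lit 0) (nat_lit 0) (XT.lf (nat_lit 0) (nat_lit 22080330503) (nat_lit 152) (nat_lit 12748812607) (nat_lit 0) (nat_lit 21280403088) (nat_lit 2) (nat_lit 5) (nat_lit 4) (nat_lit 4) (nat_lit 2) (nat_lit 4) (nat_lit 288) (nat_lit 218) (nat_lit 214)) (XT.nd (nat_lit 78) (nat_lit 0) (nat_lit 0) (XT.lf (nat_lit 0) (nat_lit 26021728888) (nat_lit 152) (nat_lit 9321588511) (nat_lit 0) (nat_lit 25057430607) (nat_lit 2) (nat_lit 5) (nat_lit 4) (nat_lit 4) (nat_lit 2) (nat_lit 4) (nat_lit 289) (nat_lit 218) (nat_lit 213)) (XT.lf (nat_lit 0) (nat_lit 30173540995) (nat_lit 152) (nat_lit 5813233533) (nat_lit 0) (nat_lit 29057047467) (nat_lit 2) (nat_lit 5) (nat_lit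 4) (nat_lit 4) (nat_lit 2) (nat_lit 4) (nat_lit 290) (nat_lit 218) (nat_lit 212)))) (XT.nd (nat_lit 78) (nat_lit 76) (nat_lit 0) (XT.lf (nat_lit 0) (nat_lit 34560370154) (nat_lit 152) (nat_lit 2202957421) (nat_lit 0) (nat_lit 33302955102) (nat_lit 2) (nat_lit 5) (nat_lit 4) (nat_lit 4) (nat_lit 2) (nat_lit 4) (nat_lit 291) (nat_lit 218) (nat_lit 211)) (XT.nd (nat_lit 78) (nat_lit 0) (nat_lit 0) (XT.lf (nat_lit 0) (nat_lit 1611234529) (nat_lit 76) (nat_lit 37635728090) (nat_lit 76) (nat_lit 36247830144) (nat_lit 1) (nat_lit 4) (nat_lit 2) (nat_lit 5) (nat_lit 2) (nat_lit 4) (nat_lit 292) (nat_lit 218) (nat_lit 210)) (XT.lf (nat_lit 0) (nat_lit 5694529295) (nat_lit 76) (nat_lit 38587034744) (nat_lit 76) (nat_lit 37078319305) (nat_lit 1) (nat_lit 4) (nat_lit 2) (nat_lit 5) (nat_lit 2) (nat_lit 4) (nat_lit 293) (nat_lit 218) (nat_lit 209))))) (XT.nd (nat_lit 234) (nat_lit 0) (nat_lit 0)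 (XT.nd (nat_lit 78) (nat_lit 0) (nat_lit 0) (XT.lf (nat_lit 0) (nat_lit 9955120342) (nat_lit 76) (nat_lit 39683117671) (nat_lit 76) (nat_lit 38062534182) (nat_lit 1) (nat_lit 4) (nat_lit 2) (nat_lit 5) (nat_lit 2) (nat_lit 4) (nat_lit 294) (nat_lit 218) (nat_lit 208)) (XT.nd (nat_lit 78) (nat_lit 0) (nat_lit 0) (XT.lf (nat_lit 0) (nat_lit 14418255619) (nat_lit 76) (nat_lit 40930472177) (nat_lit 76) (nat_lit 39206307161) (nat_lit 1) (nat_lit 4) (nat_lit 2) (nat_lit 5) (nat_lit 2) (nat_lit 4) (nat_lit 295) (nat_lit 218) (nat_lit 207)) (XT.lf (nat_lit 0) (nat_lit 19110383335) (nat_lit 76) (nat_lit 42336489992) (nat_lit 76) (nat_lit 40516416154) (nat_lit 1) (nat_lit 4) (nat_lit 2) (nat_lit 5) (nat_lit 2) (nat_lit 4) (nat_lit 296) (nat_lit 218) (nat_lit 206)))) (XT.nd (nat_lit 78) (nat_lit 0) (nat_lit 0) (XT.lf (nat_lit 0) (nat_lit 24059308690) (nat_lit 76) (nat_lit 43909503074) (nat_lit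 76) (nat_lit 42000624771) (nat_lit 1) (nat_lit 4) (nat_lit 2) (nat_lit 5) (nat_lit 2) (nat_lit 4) (nat_lit 297) (nat_lit 218) (nat_lit 205)) (XT.nd (nat_lit 78) (nat_lit 0) (nat_lit 0) (XT.lf (nat_lit 0) (nat_lit 29294358651) (nat_lit 76) (nat_lit 45658832981) (nat_lit 76) (nat_lit 43667728323) (nat_lit 1) (nat_lit 4) (nat_lit 2) (nat_lit 5) (nat_lit 2) (nat_lit 4) (nat_lit 298) (nat_lit 218) (nat_lit 204)) (XT.lf (nat_lit 0) (nat_lit 34846555734) (nat_lit 76) (nat_lit 47594846114) (nat_lit 76) (nat_lit 45527605941) (nat_lit 1) (nat_lit 4) (nat_lit 2) (nat_lit 5) (nat_lit 2) (nat_lit 4) (nat_lit 299) (nat_lit 218) (nat_lit 203)))))) (XT.nd (nat_lit 468) (nat_lit 0) (nat_lit 0) (XT.nd (nat_lit 234) (nat_lit 0) (nat_lit 0) (XT.nd (nat_lit 78) (nat_lit 0) (nat_lit 0) (XT.lf (nat_lit 0) (nat_lit 40748801849) (nat_lit 76) (nat_lit 49729015142) (nat_lit 76) (nat_lit 47591279122) (nat_lit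 1) (nat_lit 4) (nat_lit 2) (nat_lit 5) (nat_lit 2) (nat_lit 4) (nat_lit 300) (nat_lit 218) (nat_lit 202)) (XT.nd (nat_lit 78) (nat_lit 0) (nat_lit 0) (XT.lf (nat_lit 0) (nat_lit 47036073269) (nat_lit 76) (nat_lit 52073986994) (nat_lit 76) (nat_lit 49870977041) (nat_lit 1) (nat_lit 4) (nat_lit 2) (nat_lit 5) (nat_lit 2) (nat_lit 4) (nat_lit 301) (nat_lit 218) (nat_lit 201)) (XT.lf (nat_lit 0) (nat_lit 53745627899) (nat_lit 76) (nat_lit 54643657798) (nat_lit 76) (nat_lit 52380209019) (nat_lit 1) (nat_lit 4) (nat_lit 2) (nat_lit 5) (nat_lit 2) (nat_lit 4) (nat_lit 302) (nat_lit 218) (nat_lit 200)))) (XT.nd (nat_lit 78) (nat_lit 0) (nat_lit 0) (XT.lf (nat_lit 0) (nat_lit 60917226062) (nat_lit 76) (nat_lit 57453255234) (nat_lit 76) (nat_lit 55133844578) (nat_lit 1) (nat_lit 4) (nat_lit 2) (nat_lit 5) (nat_lit 2) (nat_lit 4) (nat_lit 303) (nat_lit 218) (nat_lit 199)) (XT.nd (nat_lit 78)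 (nat_lit 0) (nat_lit 0) (XT.lf (nat_lit 0) (nat_lit 68593366119) (nat_lit 76) (nat_lit 60519428767) (nat_lit 76) (nat_lit 58148201560) (nat_lit 1) (nat_lit 4) (nat_lit 2) (nat_lit 5) (nat_lit 2) (nat_lit 4) (nat_lit 304) (nat_lit 218) (nat_lit 198)) (XT.lf (nat_lit 0) (nat_lit 76819536305) (nat_lit 76) (nat_lit 63860348315) (nat_lit 76) (nat_lit 61441142819) (nat_lit 1) (nat_lit 4) (nat_lit 2) (nat_lit 5) (nat_lit 2) (nat_lit 4) (nat_lit 305) (nat_lit 218) (nat_lit 197))))) (XT.nd (nat_lit 234) (nat_lit 0) (nat_lit 0) (XT.nd (nat_lit 78) (nat_lit 0) (nat_lit 0) (XT.lf (nat_lit 0) (nat_lit 85644484297) (nat_lit 76) (nat_lit 67495811921) (nat_lit 76) (nat_lit 65032182083) (nat_lit 1) (nat_lit 4) (nat_lit 2) (nat_lit 5) (nat_lit 2) (nat_lit 4) (nat_lit 306) (nat_lit 218) (nat_lit 196)) (XT.nd (nat_lit 78) (nat_lit 0) (nat_lit 0) (XT.lf (nat_lit 0) (nat_lit 95120506083) (nat_lit 76) (nat_lit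 71447363071) (nat_lit 76) (nat_lit 68942599583) (nat_lit 1) (nat_lit 4) (nat_lit 2) (nat_lit 5) (nat_lit 2) (nat_lit 4) (nat_lit 307) (nat_lit 218) (nat_lit 195)) (XT.lf (nat_lit 0) (nat_lit 105303755866) (nat_lit 76) (nat_lit 75738418365) (nat_lit 76) (nat_lit 73195568164) (nat_lit 1) (nat_lit 4) (nat_lit 2) (nat_lit 5) (nat_lit 2) (nat_lit 4) (nat_lit 308) (nat_lit 218) (nat_lit 194)))) (XT.nd (nat_lit 156) (nat_lit 0) (nat_lit 0) (XT.nd (nat_lit 78) (nat_lit 0) (nat_lit 0) (XT.lf (nat_lit 0) (nat_lit 116254578829) (nat_lit 76) (nat_lit 80394406279) (nat_lit 76) (nat_lit 77816290604) (nat_lit 1) (nat_lit 4) (nat_lit 2) (nat_lit 5) (nat_lit 2) (nat_lit 4) (nat_lit 309) (nat_lit 218) (nat_lit 193)) (XT.lf (nat_lit 0) (nat_lit 128037868738) (nat_lit 76) (nat_lit 85442917853) (nat_lit 76) (nat_lit 82832148961) (nat_lit 1) (nat_lit 4) (nat_lit 2) (nat_lit 5) (nat_lit 2) (nat_lit 4) (nat_lit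 310) (nat_lit 218) (nat_lit 192))) (XT.nd (nat_lit 78) (nat_lit 0) (nat_lit 0) (XT.lf (nat_lit 0) (nat_lit 140723452498) (nat_lit 76) (nat_lit 90913870192) (nat_lit 76) (nat_lit 88272866839) (nat_lit 1) (nat_lit 4) (nat_lit 2) (nat_lit 5) (nat_lit 2) (nat_lit 4) (nat_lit 311) (nat_lit 218) (nat_lit 191)) (XT.lf (nat_lit 0) (nat_lit 154386503936) (nat_lit 76) (nat_lit 96839683754) (nat_lit 76) (nat_lit 94170685531) (nat_lit 1) (nat_lit 4) (nat_lit 2) (nat_lit 5) (nat_lit 2) (nat_lit 4) (nat_lit 312) (nat_lit 218) (nat_lit 190))))))) (XT.nd (nat_lit 936) (nat_lit 0) (nat_lit 0) (XT.nd (nat_lit 468) (nat_lit 0) (nat_lit 0) (XT.nd (nat_lit 234) (nat_lit 0) (nat_lit 0) (XT.nd (nat_lit 78) (nat_lit 0) (nat_lit 0) (XT.lf (nat_lit 0) (nat_lit 169107989284) (nat_lit 76) (nat_lit 103255474473) (nat_lit 76) (nat_lit 100560555072) (nat_lit 1) (nat_lit 4) (nat_lit 2) (nat_lit 5) (nat_lit 2) (nat_lit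 4) (nat_lit 313) (nat_lit 218) (nat_lit 189)) (XT.nd (nat_lit 78) (nat_lit 0) (nat_lit 0) (XT.lf (nat_lit 0) (nat_lit 184975146974) (nat_lit 76) (nat_lit 110199261847) (nat_lit 76) (nat_lit 107480341357) (nat_lit 1) (nat_lit 4) (nat_lit 2) (nat_lit 5) (nat_lit 2) (nat_lit 4) (nat_lit 314) (nat_lit 218) (nat_lit 188)) (XT.lf (nat_lit 0) (nat_lit 202082004607) (nat_lit 76) (nat_lit 117712194247) (nat_lit 76) (nat_lit 114971050526) (nat_lit 1) (nat_lit 4) (nat_lit 2) (nat_lit 5) (nat_lit 2) (nat_lit 4) (nat_lit 315) (nat_lit 218) (nat_lit 187)))) (XT.nd (nat_lit 78) (nat_lit 0) (nat_lit 0) (XT.lf (nat_lit 0) (nat_lit 220529936154) (nat_lit 76) (nat_lit 125838792754) (nat_lit 76) (nat_lit 123077071967) (nat_lit 1) (nat_lit 4) (nat_lit 2) (nat_lit 5) (nat_lit 2) (nat_lit 4) (nat_lit 316) (nat_lit 218) (nat_lit 186)) (XT.nd (nat_lit 78) (nat_lit 0) (nat_lit 0) (XT.lf (nat_lit 0) (nat_lit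 240428262691) (nat_lit 76) (nat_lit 134627214988) (nat_lit 76) (nat_lit 131846441363) (nat_lit 1) (nat_lit 4) (nat_lit 2) (nat_lit 5) (nat_lit 2) (nat_lit 4) (nat_lit 317) (nat_lit 218) (nat_lit 185)) (XT.lf (nat_lit 0) (nat_lit 261894900226) (nat_lit 76) (nat_lit 144129540490) (nat_lit 76) (nat_lit 141331125347) (nat_lit 1) (nat_lit 4) (nat_lit 2) (nat_lit 5) (nat_lit 2) (nat_lit 4) (nat_lit 318) (nat_lit 218) (nat_lit 184))))) (XT.nd (nat_lit 234) (nat_lit 0) (nat_lit 0) (XT.nd (nat_lit 78) (nat_lit 0) (nat_lit 0) (XT.lf (nat_lit 0) (nat_lit 285057058465) (nat_lit 76) (nat_lit 154402079335) (nat_lit 76) (nat_lit 151587329454) (nat_lit 1) (nat_lit 4) (nat_lit 2) (nat_lit 5) (nat_lit 2) (nat_lit 4) (nat_lit 319) (nat_lit 218) (nat_lit 183)) (XT.nd (nat_lit 78) (nat_lit 0) (nat_lit 0) (XT.lf (nat_lit 0) (nat_lit 310051994640) (nat_lit 76) (nat_lit 165505705828) (nat_lit 76) (nat_lit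 162675831189) (nat_lit 1) (nat_lit 4) (nat_lit 2) (nat_lit 5) (nat_lit 2) (nat_lit 4) (nat_lit 320) (nat_lit 218) (nat_lit 182)) (XT.lf (nat_lit 0) (nat_lit 337027826892) (nat_lit 76) (nat_lit 177506219237) (nat_lit 76) (nat_lit 174662340193) (nat_lit 1) (nat_lit 4) (nat_lit 2) (nat_lit 5) (nat_lit 2) (nat_lit 4) (nat_lit 321) (nat_lit 218) (nat_lit 181)))) (XT.nd (nat_lit 78) (nat_lit 0) (nat_lit 0) (XT.lf (nat_lit 0) (nat_lit 366144412006) (nat_lit 76) (nat_lit 190474733715) (nat_lit 76) (nat_lit 187617887630) (nat_lit 1) (nat_lit 4) (nat_lit 2) (nat_lit 5) (nat_lit 2) (nat_lit 4) (nat_lit 322) (nat_lit 218) (nat_lit 180)) (XT.nd (nat_lit 78) (nat_lit 0) (nat_lit 0) (XT.lf (nat_lit 0) (nat_lit 397574292706) (nat_lit 76) (nat_lit 204488099720) (nat_lit 76) (nat_lit 201619247114) (nat_lit 1) (nat_lit 4) (nat_lit 2) (nat_lit 5) (nat_lit 2) (nat_lit 4) (nat_lit 323) (nat_lit 218) (nat_lit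 179)) (XT.lf (nat_lit 0) (nat_lit 431503720139) (nat_lit 76) (nat_lit 219629359419) (nat_lit 76) (nat_lit 216749389665) (nat_lit 1) (nat_lit 4) (nat_lit 2) (nat_lit 5) (nat_lit 2) (nat_lit 4) (nat_lit 324) (nat_lit 218) (nat_lit 178)))))) (XT.nd (nat_lit 468) (nat_lit 0) (nat_lit 0) (XT.nd (nat_lit 234) (nat_lit 0) (nat_lit 0) (XT.nd (nat_lit 78) (nat_lit 0) (nat_lit 0) (XT.lf (nat_lit 0) (nat_lit 468133757578) (nat_lit 76) (nat_lit 235988238796) (nat_lit 76) (nat_lit 233097975386) (nat_lit 1) (nat_lit 4) (nat_lit 2) (nat_lit 5) (nat_lit 2) (nat_lit 4) (nat_lit 325) (nat_lit 218) (nat_lit 177)) (XT.nd (nat_lit 78) (nat_lit 0) (nat_lit 0) (XT.lf (nat_lit 0) (nat_lit 507681471912) (nat_lit 76) (nat_lit 253661679359) (nat_lit 76) (nat_lit 250761884786) (nat_lit 1) (nat_lit 4) (nat_lit 2) (nat_lit 5) (nat_lit 2) (nat_lit 4) (nat_lit 326) (nat_lit 218) (nat_lit 176)) (XT.lf (nat_lit 0)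 (nat_lit 550381219966) (nat_lit 76) (nat_lit 272754412607) (nat_lit 76) (nat_lit 269845792884) (nat_lit 1) (nat_lit 4) (nat_lit 2) (nat_lit 5) (nat_lit 2) (nat_lit 4) (nat_lit 327) (nat_lit 218) (nat_lit 175)))) (XT.nd (nat_lit 78) (nat_lit 0) (nat_lit 0) (XT.lf (nat_lit 0) (nat_lit 596486037283) (nat_lit 76) (nat_lit 293379580664) (nat_lit 76) (nat_lit 290462789504) (nat_lit 1) (nat_lit 4) (nat_lit 2) (nat_lit 5) (nat_lit 2) (nat_lit 4) (nat_lit 328) (nat_lit 218) (nat_lit 174)) (XT.nd (nat_lit 78) (nat_lit 0) (nat_lit 0) (XT.lf (nat_lit 0) (nat_lit 646269137598) (nat_lit 76) (nat_lit 315659406746) (nat_lit 76) (nat_lit 312735049442) (nat_lit 1) (nat_lit 4) (nat_lit 2) (nat_lit 5) (nat_lit 2) (nat_lit 4) (nat_lit 329) (nat_lit 218) (nat_lit 173)) (XT.lf (nat_lit 0) (nat_lit 700025531874) (nat_lit 76) (nat_lit 339725919454) (nat_lit 76) (nat_lit 336794556461) (nat_lit 1) (nat_lit 4)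 (nat_lit 2) (nat_lit 5) (nat_lit 2) (nat_lit 4) (nat_lit 330) (nat_lit 218) (nat_lit 172))))) (XT.nd (nat_lit 234) (nat_lit 0) (nat_lit 0) (XT.nd (nat_lit 78) (nat_lit 0) (nat_lit 0) (XT.lf (nat_lit 0) (nat_lit 758073776521) (nat_lit 76) (nat_lit 365721735159) (nat_lit 76) (nat_lit 362783885416) (nat_lit 1) (nat_lit 4) (nat_lit 2) (nat_lit 5) (nat_lit 2) (nat_lit 4) (nat_lit 331) (nat_lit 218) (nat_lit 171)) (XT.nd (nat_lit 78) (nat_lit 0) (nat_lit 0) (XT.lf (nat_lit 0) (nat_lit 820757861139) (nat_lit 76) (nat_lit 393800903138) (nat_lit 76) (nat_lit 390857047147) (nat_lit 1) (nat_lit 4) (nat_lit 2) (nat_lit 5) (nat_lit 2) (nat_lit 4) (nat_lit 332) (nat_lit 218) (nat_lit 170)) (XT.lf (nat_lit 0) (nat_lit 888449246968) (nat_lit 76) (nat_lit 424129818463) (nat_lit 76) (nat_lit 421180401129) (nat_lit 1) (nat_lit 4) (nat_lit 2) (nat_lit 5) (nat_lit 2) (nat_lit 4) (nat_lit 333) (nat_lit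 218) (nat_lit 169)))) (XT.nd (nat_lit 156) (nat_lit 0) (nat_lit 0) (XT.nd (nat_lit 78) (nat_lit 0) (nat_lit 0) (XT.lf (nat_lit 0) (nat_lit 961549068148) (nat_lit 76) (nat_lit 456888208037) (nat_lit 76) (nat_lit 453933641313) (nat_lit 1) (nat_lit 4) (nat_lit 2) (nat_lit 5) (nat_lit 2) (nat_lit 4) (nat_lit 334) (nat_lit 218) (nat_lit 168)) (XT.lf (nat_lit 0) (nat_lit 1040490508803) (nat_lit 76) (nat_lit 492270195652) (nat_lit 76) (nat_lit 489310860973) (nat_lit 1) (nat_lit 4) (nat_lit 2) (nat_lit 5) (nat_lit 2) (nat_lit 4) (nat_lit 335) (nat_lit 218) (nat_lit 167))) (XT.nd (nat_lit 78) (nat_lit 0) (nat_lit 0) (XT.lf (nat_lit 0) (nat_lit 1125741370064) (nat_lit 76) (nat_lit 530485452345) (nat_lit 76) (nat_lit 527521702894) (nat_lit 1) (nat_lit 4) (nat_lit 2) (nat_lit 5) (nat_lit 2) (nat_lit 4) (nat_lit 336) (nat_lit 218) (nat_lit 166)) (XT.lf (nat_lit 0) (nat_lit 1217806842219) (nat_lit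 76) (nat_lit 571760438897) (nat_lit 76) (nat_lit 568792601693) (nat_lit 1) (nat_lit 4) (nat_lit 2) (nat_lit 5) (nat_lit 2) (nat_lit 4) (nat_lit 337) (nat_lit 218) (nat_lit 165))))))))
noncomputable def xc17 : XT := (XT.nd (nat_lit 34866) (nat_lit 0) (nat_lit 0) (XT.nd (nat_lit 33852) (nat_lit 0) (nat_lit 0) (XT.nd (nat_lit 33384) (nat_lit 0) (nat_lit 76) (XT.nd (nat_lit 33150) (nat_lit 0) (nat_lit 76) (XT.nd (nat_lit 78) (nat_lit 0) (nat_lit 0) (XT.lf (nat_lit 0) (nat_lit 1317232498437) (nat_lit 76) (nat_lit 616339747820) (nat_lit 76) (nat_lit 613368125660) (nat_lit 1) (nat_lit 4) (nat_lit 2) (nat_lit 5) (nat_lit 2) (nat_lit 4) (nat_lit 338) (nat_lit 218) (nat_lit 164)) (XT.nd (nat_lit 78) (nat_lit 0) (nat_lit 0) (XT.lf (nat_lit 0) (nat_lit 1424607527791) (nat_lit 76) (nat_lit 664487552796) (nat_lit 76) (nat_lit 661512426048) (nat_lit 1) (nat_lit 4) (nat_lit 2) (nat_lit 5) (nat_lit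 2) (nat_lit 4) (nat_lit 339) (nat_lit 218) (nat_lit 163)) (XT.lf (nat_lit 0) (nat_lit 1540568226753) (nat_lit 76) (nat_lit 716489174153) (nat_lit 76) (nat_lit 713510802414) (nat_lit 1) (nat_lit 4) (nat_lit 2) (nat_lit 5) (nat_lit 2) (nat_lit 4) (nat_lit 340) (nat_lit 218) (nat_lit 162)))) (XT.nd (nat_lit 78) (nat_lit 0) (nat_lit 0) (XT.lf (nat_lit 0) (nat_lit 967289433) (nat_lit 152) (nat_lit 16289907828) (nat_lit 0) (nat_lit 967289433) (nat_lit 2) (nat_lit 5) (nat_lit 4) (nat_lit 4) (nat_lit 2) (nat_lit 4) (nat_lit 282) (nat_lit 219) (nat_lit 219)) (XT.nd (nat_lit 78) (nat_lit 0) (nat_lit 0) (XT.lf (nat_lit 0) (nat_lit 4989652106) (nat_lit 152) (nat_lit 29368659903) (nat_lit 0) (nat_lit 4748137377) (nat_lit 2) (nat_lit 5) (nat_lit 4) (nat_lit 4) (nat_lit 2) (nat_lit 4) (nat_lit 283) (nat_lit 219) (nat_lit 218)) (XT.lf (nat_lit 0) (nat_lit 8135001408) (nat_lit 152) (nat_lit 26184261134)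 (nat_lit 0) (nat_lit 7669861931) (nat_lit 2) (nat_lit 5) (nat_lit 4) (nat_lit 4) (nat_lit 2) (nat_lit 4) (nat_lit 284) (nat_lit 219) (nat_lit 217))))) (XT.nd (nat_lit 234) (nat_lit 0) (nat_lit 0) (XT.nd (nat_lit 78) (nat_lit 0) (nat_lit 0) (XT.lf (nat_lit 0) (nat_lit 11389265880) (nat_lit 152) (nat_lit 23007748838) (nat_lit 0) (nat_lit 10717066450) (nat_lit 2) (nat_lit 5) (nat_lit 4) (nat_lit 4) (nat_lit 2) (nat_lit 4) (nat_lit 285) (nat_lit 219) (nat_lit 216)) (XT.nd (nat_lit 78) (nat_lit 0) (nat_lit 0) (XT.lf (nat_lit 0) (nat_lit 14771730053) (nat_lit 152) (nat_lit 19820299239) (nat_lit 0) (nat_lit 13907808444) (nat_lit 2) (nat_lit 5) (nat_lit 4) (nat_lit 4) (nat_lit 2) (nat_lit 4) (nat_lit 286) (nat_lit 219) (nat_lit 215)) (XT.lf (nat_lit 0) (nat_lit 18302438158) (nat_lit 152) (nat_lit 16603023745) (nat_lit 0) (nat_lit 17260996014) (nat_lit 2) (nat_lit 5) (nat_lit 4) (nat_lit 4)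 (nat_lit 2) (nat_lit 4) (nat_lit 287) (nat_lit 219) (nat_lit 214)))) (XT.nd (nat_lit 78) (nat_lit 0) (nat_lit 0) (XT.lf (nat_lit 0) (nat_lit 22002312909) (nat_lit 152) (nat_lit 13336857021) (nat_lit 0) (nat_lit 20796499899) (nat_lit 2) (nat_lit 5) (nat_lit 4) (nat_lit 4) (nat_lit 2) (nat_lit 4) (nat_lit 288) (nat_lit 219) (nat_lit 213)) (XT.nd (nat_lit 78) (nat_lit 0) (nat_lit 0) (XT.lf (nat_lit 0) (nat_lit 25893279492) (nat_lit 152) (nat_lit 10002444005) (nat_lit 0) (nat_lit 24535271236) (nat_lit 2) (nat_lit 5) (nat_lit 4) (nat_lit 4) (nat_lit 2) (nat_lit 4) (nat_lit 289) (nat_lit 219) (nat_lit 212)) (XT.lf (nat_lit 0) (nat_lit 29998395485) (nat_lit 152) (nat_lit 6580025211) (nat_lit 0) (nat_lit 28499465704) (nat_lit 2) (nat_lit 5) (nat_lit 4) (nat_lit 4) (nat_lit 2) (nat_lit 4) (nat_lit 290) (nat_lit 219) (nat_lit 211)))))) (XT.nd (nat_lit 468) (nat_lit 0) (nat_lit 0) (XT.nd (nat_lit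 234) (nat_lit 0) (nat_lit 0) (XT.nd (nat_lit 78) (nat_lit 76) (nat_lit 0) (XT.lf (nat_lit 0) (nat_lit 34341987502) (nat_lit 152) (nat_lit 3049319641) (nat_lit 0) (nat_lit 32712574828) (nat_lit 2) (nat_lit 5) (nat_lit 4) (nat_lit 4) (nat_lit 2) (nat_lit 4) (nat_lit 291) (nat_lit 219) (nat_lit 210)) (XT.nd (nat_lit 78) (nat_lit 0) (nat_lit 0) (XT.lf (nat_lit 0) (nat_lit 642748277) (nat_lit 76) (nat_lit 38322505182) (nat_lit 76) (nat_lit 36572275014) (nat_lit 1) (nat_lit 4) (nat_lit 2) (nat_lit 5) (nat_lit 2) (nat_lit 4) (nat_lit 292) (nat_lit 219) (nat_lit 209)) (XT.lf (nat_lit 0) (nat_lit 4654231841) (nat_lit 76) (nat_lit 39306827096) (nat_lit 76) (nat_lit 37444728878) (nat_lit 1) (nat_lit 4) (nat_lit 2) (nat_lit 5) (nat_lit 2) (nat_lit 4) (nat_lit 293) (nat_lit 219) (nat_lit 208)))) (XT.nd (nat_lit 78) (nat_lit 0) (nat_lit 0) (XT.lf (nat_lit 0) (nat_lit 8848331036) (nat_lit 76) (nat_lit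 40433479708) (nat_lit 76) (nat_lit 38467799963) (nat_lit 1) (nat_lit 4) (nat_lit 2) (nat_lit 5) (nat_lit 2) (nat_lit 4) (nat_lit 294) (nat_lit 219) (nat_lit 207)) (XT.nd (nat_lit 78) (nat_lit 0) (nat_lit 0) (XT.lf (nat_lit 0) (nat_lit 13249899782) (nat_lit 76) (nat_lit 41709139477) (nat_lit 76) (nat_lit 39647550911) (nat_lit 1) (nat_lit 4) (nat_lit 2) (nat_lit 5) (nat_lit 2) (nat_lit 4) (nat_lit 295) (nat_lit 219) (nat_lit 206)) (XT.lf (nat_lit 0) (nat_lit 17885021451) (nat_lit 76) (nat_lit 43141365870) (nat_lit 76) (nat_lit 40990972839) (nat_lit 1) (nat_lit 4) (nat_lit 2) (nat_lit 5) (nat_lit 2) (nat_lit 4) (nat_lit 296) (nat_lit 219) (nat_lit 205))))) (XT.nd (nat_lit 234) (nat_lit 0) (nat_lit 0) (XT.nd (nat_lit 78) (nat_lit 0) (nat_lit 0) (XT.lf (nat_lit 0) (nat_lit 22781163430) (nat_lit 76) (nat_lit 44738646153) (nat_lit 76) (nat_lit 42506026766) (nat_lit 1) (nat_lit 4) (nat_lit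 2) (nat_lit 5) (nat_lit 2) (nat_lit 4) (nat_lit 297) (nat_lit 219) (nat_lit 204)) (XT.nd (nat_lit 78) (nat_lit 0) (nat_lit 0) (XT.lf (nat_lit 0) (nat_lit 27967339893) (nat_lit 76) (nat_lit 46510445692) (nat_lit 76) (nat_lit 44201690790) (nat_lit 1) (nat_lit 4) (nat_lit 2) (nat_lit 5) (nat_lit 2) (nat_lit 4) (nat_lit 298) (nat_lit 219) (nat_lit 203)) (XT.lf (nat_lit 0) (nat_lit 33474283738) (nat_lit 76) (nat_lit 48467264039) (nat_lit 76) (nat_lit 46088013290) (nat_lit 1) (nat_lit 4) (nat_lit 2) (nat_lit 5) (nat_lit 2) (nat_lit 4) (nat_lit 299) (nat_lit 219) (nat_lit 202)))) (XT.nd (nat_lit 156) (nat_lit 0) (nat_lit 0) (XT.nd (nat_lit 78) (nat_lit 0) (nat_lit 0) (XT.lf (nat_lit 0) (nat_lit 39334628707) (nat_lit 76) (nat_lit 50620697154) (nat_lit 76) (nat_lit 48176172473) (nat_lit 1) (nat_lit 4) (nat_lit 2) (nat_lit 5) (nat_lit 2) (nat_lit 4) (nat_lit 300) (nat_lit 219) (nat_lit 201))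 (XT.lf (nat_lit 0) (nat_lit 45583102769) (nat_lit 76) (nat_lit 52983506123) (nat_lit 76) (nat_lit 50478542615) (nat_lit 1) (nat_lit 4) (nat_lit 2) (nat_lit 5) (nat_lit 2) (nat_lit 4) (nat_lit 301) (nat_lit 219) (nat_lit 200))) (XT.nd (nat_lit 78) (nat_lit 0) (nat_lit 0) (XT.lf (nat_lit 0) (nat_lit 52256733920) (nat_lit 76) (nat_lit 55569692777) (nat_lit 76) (nat_lit 53008767393) (nat_lit 1) (nat_lit 4) (nat_lit 2) (nat_lit 5) (nat_lit 2) (nat_lit 4) (nat_lit 302) (nat_lit 219) (nat_lit 199)) (XT.lf (nat_lit 0) (nat_lit 59395069603) (nat_lit 76) (nat_lit 58394582666) (nat_lit 76) (nat_lit 55781840730) (nat_lit 1) (nat_lit 4) (nat_lit 2) (nat_lit 5) (nat_lit 2) (nat_lit 4) (nat_lit 303) (nat_lit 219) (nat_lit 198))))))) (XT.nd (nat_lit 936) (nat_lit 0) (nat_lit 0) (XT.nd (nat_lit 468) (nat_lit 0) (nat_lit 0) (XT.nd (nat_lit 234) (nat_lit 0) (nat_lit 0) (XT.nd (nat_lit 78) (nat_lit 0)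 (nat_lit 0) (XT.lf (nat_lit 0) (nat_lit 67040411065) (nat_lit 76) (nat_lit 61474915878) (nat_lit 76) (nat_lit 58814195653) (nat_lit 1) (nat_lit 4) (nat_lit 2) (nat_lit 5) (nat_lit 2) (nat_lit 4) (nat_lit 304) (nat_lit 219) (nat_lit 197)) (XT.nd (nat_lit 78) (nat_lit 0) (nat_lit 0) (XT.lf (nat_lit 0) (nat_lit 75238064036) (nat_lit 76) (nat_lit 64828946240) (nat_lit 76) (nat_lit 62123801674) (nat_lit 1) (nat_lit 4) (nat_lit 2) (nat_lit 5) (nat_lit 2) (nat_lit 4) (nat_lit 305) (nat_lit 219) (nat_lit 196)) (XT.lf (nat_lit 0) (nat_lit 84036607198) (nat_lit 76) (nat_lit 68476549488) (nat_lit 76) (nat_lit 65730271272) (nat_lit 1) (nat_lit 4) (nat_lit 2) (nat_lit 5) (nat_lit 2) (nat_lit 4) (nat_lit 306) (nat_lit 219) (nat_lit 195)))) (XT.nd (nat_lit 78) (nat_lit 0) (nat_lit 0) (XT.lf (nat_lit 0) (nat_lit 93488180068) (nat_lit 76) (nat_lit 72439341048) (nat_lit 76) (nat_lit 69654976119) (nat_lit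 1) (nat_lit 4) (nat_lit 2) (nat_lit 5) (nat_lit 2) (nat_lit 4) (nat_lit 307) (nat_lit 219) (nat_lit 194)) (XT.nd (nat_lit 78) (nat_lit 0) (nat_lit 0) (XT.lf (nat_lit 0) (nat_lit 103648791965) (nat_lit 76) (nat_lit 76740804129) (nat_lit 76) (nat_lit 73921173725) (nat_lit 1) (nat_lit 4) (nat_lit 2) (nat_lit 5) (nat_lit 2) (nat_lit 4) (nat_lit 308) (nat_lit 219) (nat_lit 193)) (XT.lf (nat_lit 0) (nat_lit 114578653923) (nat_lit 76) (nat_lit 81406428883) (nat_lit 76) (nat_lit 78554145262) (nat_lit 1) (nat_lit 4) (nat_lit 2) (nat_lit 5) (nat_lit 2) (nat_lit 4) (nat_lit 309) (nat_lit 219) (nat_lit 192))))) (XT.nd (nat_lit 234) (nat_lit 0) (nat_lit 0) (XT.nd (nat_lit 78) (nat_lit 0) (nat_lit 0) (XT.lf (nat_lit 0) (nat_lit 126342535494) (nat_lit 76) (nat_lit 86463863456) (nat_lit 76) (nat_lit 83581345375) (nat_lit 1) (nat_lit 4) (nat_lit 2) (nat_lit 5) (nat_lit 2) (nat_lit 4) (nat_lit 310)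 (nat_lit 219) (nat_lit 191)) (XT.nd (nat_lit 78) (nat_lit 0) (nat_lit 0) (XT.lf (nat_lit 0) (nat_lit 139010148570) (nat_lit 76) (nat_lit 91943077832) (nat_lit 76) (nat_lit 89032564880) (nat_lit 1) (nat_lit 4) (nat_lit 2) (nat_lit 5) (nat_lit 2) (nat_lit 4) (nat_lit 311) (nat_lit 219) (nat_lit 190)) (XT.lf (nat_lit 0) (nat_lit 152656560487) (nat_lit 76) (nat_lit 97876541428) (nat_lit 76) (nat_lit 94940107299) (nat_lit 1) (nat_lit 4) (nat_lit 2) (nat_lit 5) (nat_lit 2) (nat_lit 4) (nat_lit 312) (nat_lit 219) (nat_lit 189)))) (XT.nd (nat_lit 78) (nat_lit 0) (nat_lit 0) (XT.lf (nat_lit 0) (nat_lit 167362638871) (nat_lit 76) (nat_lit 104299415511) (nat_lit 76) (nat_lit 101338980293) (nat_lit 1) (nat_lit 4) (nat_lit 2) (nat_lit 5) (nat_lit 2) (nat_lit 4) (nat_lit 313) (nat_lit 219) (nat_lit 188)) (XT.nd (nat_lit 78) (nat_lit 0) (nat_lit 0) (XT.lf (nat_lit 0) (nat_lit 183215530853) (nat_lit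 76) (nat_lit 111249761557) (nat_lit 76) (nat_lit 108267103107) (nat_lit 1) (nat_lit 4) (nat_lit 2) (nat_lit 5) (nat_lit 2) (nat_lit 4) (nat_lit 314) (nat_lit 219) (nat_lit 187)) (XT.lf (nat_lit 0) (nat_lit 200309179497) (nat_lit 76) (nat_lit 118768766800) (nat_lit 76) (nat_lit 115765531285) (nat_lit 1) (nat_lit 4) (nat_lit 2) (nat_lit 5) (nat_lit 2) (nat_lit 4) (nat_lit 315) (nat_lit 219) (nat_lit 186)))))) (XT.nd (nat_lit 468) (nat_lit 0) (nat_lit 0) (XT.nd (nat_lit 234) (nat_lit 0) (nat_lit 0) (XT.nd (nat_lit 78) (nat_lit 0) (nat_lit 0) (XT.lf (nat_lit 0) (nat_lit 218744880499) (nat_lit 76) (nat_lit 126900988311) (nat_lit 76) (nat_lit 123878699957) (nat_lit 1) (nat_lit 4) (nat_lit 2) (nat_lit 5) (nat_lit 2) (nat_lit 4) (nat_lit 316) (nat_lit 219) (nat_lit 185)) (XT.nd (nat_lit 78) (nat_lit 0) (nat_lit 0) (XT.lf (nat_lit 0) (nat_lit 238631882457) (nat_lit 76) (nat_lit 135694617030)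 (nat_lit 76) (nat_lit 132654687159) (nat_lit 1) (nat_lit 4) (nat_lit 2) (nat_lit 5) (nat_lit 2) (nat_lit 4) (nat_lit 317) (nat_lit 219) (nat_lit 184)) (XT.lf (nat_lit 0) (nat_lit 260088034271) (nat_lit 76) (nat_lit 145201763350) (nat_lit 76) (nat_lit 142145498741) (nat_lit 1) (nat_lit 4) (nat_lit 2) (nat_lit 5) (nat_lit 2) (nat_lit 4) (nat_lit 318) (nat_lit 219) (nat_lit 183)))) (XT.nd (nat_lit 78) (nat_lit 0) (nat_lit 0) (XT.lf (nat_lit 0) (nat_lit 283240483508) (nat_lit 76) (nat_lit 155478765916) (nat_lit 76) (nat_lit 152407376549) (nat_lit 1) (nat_lit 4) (nat_lit 2) (nat_lit 5) (nat_lit 2) (nat_lit 4) (nat_lit 319) (nat_lit 219) (nat_lit 182)) (XT.nd (nat_lit 78) (nat_lit 0) (nat_lit 0) (XT.lf (nat_lit 0) (nat_lit 308226429868) (nat_lit 76) (nat_lit 166586525485) (nat_lit 76) (nat_lit 163501131712) (nat_lit 1) (nat_lit 4) (nat_lit 2) (nat_lit 5) (nat_lit 2) (nat_lit 4) (nat_lit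 320) (nat_lit 219) (nat_lit 181)) (XT.lf (nat_lit 0) (nat_lit 335193938217) (nat_lit 76) (nat_lit 178590865815) (nat_lit 76) (nat_lit 175492505001) (nat_lit 1) (nat_lit 4) (nat_lit 2) (nat_lit 5) (nat_lit 2) (nat_lit 4) (nat_lit 321) (nat_lit 219) (nat_lit 180))))) (XT.nd (nat_lit 234) (nat_lit 0) (nat_lit 0) (XT.nd (nat_lit 78) (nat_lit 0) (nat_lit 0) (XT.lf (nat_lit 0) (nat_lit 364302816012) (nat_lit 76) (nat_lit 191562923740) (nat_lit 76) (nat_lit 188452556405) (nat_lit 1) (nat_lit 4) (nat_lit 2) (nat_lit 5) (nat_lit 2) (nat_lit 4) (nat_lit 322) (nat_lit 219) (nat_lit 179)) (XT.nd (nat_lit 78) (nat_lit 0) (nat_lit 0) (XT.lf (nat_lit 0) (nat_lit 395725560307) (nat_lit 76) (nat_lit 205579570713) (nat_lit 76) (nat_lit 202458086230) (nat_lit 1) (nat_lit 4) (nat_lit 2) (nat_lit 5) (nat_lit 2) (nat_lit 4) (nat_lit 323) (nat_lit 219) (nat_lit 178)) (XT.lf (nat_lit 0) (nat_lit 429648379957)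 (nat_lit 76) (nat_lit 220723868346) (nat_lit 76) (nat_lit 217592090207) (nat_lit 1) (nat_lit 4) (nat_lit 2) (nat_lit 5) (nat_lit 2) (nat_lit 4) (nat_lit 324) (nat_lit 219) (nat_lit 177)))) (XT.nd (nat_lit 156) (nat_lit 0) (nat_lit 0) (XT.nd (nat_lit 78) (nat_lit 0) (nat_lit 0) (XT.lf (nat_lit 0) (nat_lit 466272299078) (nat_lit 76) (nat_lit 237085560625) (nat_lit 76) (nat_lit 233944251323) (nat_lit 1) (nat_lit 4) (nat_lit 2) (nat_lit 5) (nat_lit 2) (nat_lit 4) (nat_lit 325) (nat_lit 219) (nat_lit 176)) (XT.lf (nat_lit 0) (nat_lit 505814348303) (nat_lit 76) (nat_lit 254761605726) (nat_lit 76) (nat_lit 251611471274) (nat_lit 1) (nat_lit 4) (nat_lit 2) (nat_lit 5) (nat_lit 2) (nat_lit 4) (nat_lit 326) (nat_lit 219) (nat_lit 175))) (XT.nd (nat_lit 78) (nat_lit 0) (nat_lit 0) (XT.lf (nat_lit 0) (nat_lit 548508850885) (nat_lit 76) (nat_lit 273856750584) (nat_lit 76) (nat_lit 270698444696)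 (nat_lit 1) (nat_lit 4) (nat_lit 2) (nat_lit 5) (nat_lit 2) (nat_lit 4) (nat_lit 327) (nat_lit 219) (nat_lit 174)) (XT.lf (nat_lit 0) (nat_lit 594608811286) (nat_lit 76) (nat_lit 294484151612) (nat_lit 76) (nat_lit 291318279580) (nat_lit 1) (nat_lit 4) (nat_lit 2) (nat_lit 5) (nat_lit 2) (nat_lit 4) (nat_lit 328) (nat_lit 219) (nat_lit 173))))))))
noncomputable def xc18 : XT := (XT.nd (nat_lit 34710) (nat_lit 0) (nat_lit 0) (XT.nd (nat_lit 33696) (nat_lit 0) (nat_lit 76) (XT.nd (nat_lit 468) (nat_lit 0) (nat_lit 0) (XT.nd (nat_lit 234) (nat_lit 0) (nat_lit 0) (XT.nd (nat_lit 78) (nat_lit 0) (nat_lit 0) (XT.lf (nat_lit 0) (nat_lit 644387414454) (nat_lit 76) (nat_lit 316766045262) (nat_lit 76) (nat_lit 313593167540) (nat_lit 1) (nat_lit 4) (nat_lit 2) (nat_lit 5) (nat_lit 2) (nat_lit 4) (nat_lit 329) (nat_lit 219) (nat_lit 172)) (XT.nd (nat_lit 78) (nat_lit 0) (nat_lit 0) (XT.lf (nat_lit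 0) (nat_lit 698139644706) (nat_lit 76) (nat_lit 340834472383) (nat_lit 76) (nat_lit 337655107912) (nat_lit 1) (nat_lit 4) (nat_lit 2) (nat_lit 5) (nat_lit 2) (nat_lit 4) (nat_lit 330) (nat_lit 219) (nat_lit 171)) (XT.lf (nat_lit 0) (nat_lit 756184033775) (nat_lit 76) (nat_lit 366832060693) (nat_lit 76) (nat_lit 363646689972) (nat_lit 1) (nat_lit 4) (nat_lit 2) (nat_lit 5) (nat_lit 2) (nat_lit 4) (nat_lit 331) (nat_lit 219) (nat_lit 170)))) (XT.nd (nat_lit 78) (nat_lit 0) (nat_lit 0) (XT.lf (nat_lit 0) (nat_lit 818864548413) (nat_lit 76) (nat_lit 394912869974) (nat_lit 76) (nat_lit 391721937911) (nat_lit 1) (nat_lit 4) (nat_lit 2) (nat_lit 5) (nat_lit 2) (nat_lit 4) (nat_lit 332) (nat_lit 219) (nat_lit 169)) (XT.nd (nat_lit 78) (nat_lit 0) (nat_lit 0) (XT.lf (nat_lit 0) (nat_lit 886552628706) (nat_lit 76) (nat_lit 425243305021) (nat_lit 76) (nat_lit 422047223568) (nat_lit 1) (nat_lit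 4) (nat_lit 2) (nat_lit 5) (nat_lit 2) (nat_lit 4) (nat_lit 333) (nat_lit 219) (nat_lit 168)) (XT.lf (nat_lit 0) (nat_lit 959649389203) (nat_lit 76) (nat_lit 458003101747) (nat_lit 76) (nat_lit 454802252339) (nat_lit 1) (nat_lit 4) (nat_lit 2) (nat_lit 5) (nat_lit 2) (nat_lit 4) (nat_lit 334) (nat_lit 219) (nat_lit 167))))) (XT.nd (nat_lit 234) (nat_lit 0) (nat_lit 0) (XT.nd (nat_lit 78) (nat_lit 0) (nat_lit 0) (XT.lf (nat_lit 0) (nat_lit 1038587995894) (nat_lit 76) (nat_lit 493386392280) (nat_lit 76) (nat_lit 490181128099) (nat_lit 1) (nat_lit 4) (nat_lit 2) (nat_lit 5) (nat_lit 2) (nat_lit 4) (nat_lit 335) (nat_lit 219) (nat_lit 166)) (XT.nd (nat_lit 78) (nat_lit 0) (nat_lit 0) (XT.lf (nat_lit 0) (nat_lit 1123836233113) (nat_lit 76) (nat_lit 531602855378) (nat_lit 76) (nat_lit 528393503445) (nat_lit 1) (nat_lit 4) (nat_lit 2) (nat_lit 5) (nat_lit 2) (nat_lit 4) (nat_lit 336) (nat_lit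 219) (nat_lit 165)) (XT.lf (nat_lit 0) (nat_lit 1215899275600) (nat_lit 76) (nat_lit 572878958971) (nat_lit 76) (nat_lit 569665822083) (nat_lit 1) (nat_lit 4) (nat_lit 2) (nat_lit 5) (nat_lit 2) (nat_lit 4) (nat_lit 337) (nat_lit 219) (nat_lit 164)))) (XT.nd (nat_lit 78) (nat_lit 0) (nat_lit 0) (XT.lf (nat_lit 0) (nat_lit 1315322682125) (nat_lit 76) (nat_lit 617459302192) (nat_lit 76) (nat_lit 614242660715) (nat_lit 1) (nat_lit 4) (nat_lit 2) (nat_lit 5) (nat_lit 2) (nat_lit 4) (nat_lit 338) (nat_lit 219) (nat_lit 163)) (XT.nd (nat_lit 78) (nat_lit 0) (nat_lit 0) (XT.lf (nat_lit 0) (nat_lit 1422695628431) (nat_lit 76) (nat_lit 665608064852) (nat_lit 76) (nat_lit 662388178385) (nat_lit 1) (nat_lit 4) (nat_lit 2) (nat_lit 5) (nat_lit 2) (nat_lit 4) (nat_lit 339) (nat_lit 219) (nat_lit 162)) (XT.lf (nat_lit 0) (nat_lit 1538654398644) (nat_lit 76) (nat_lit 717610572952) (nat_lit 76) (nat_lit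 714387681865) (nat_lit 1) (nat_lit 4) (nat_lit 2) (nat_lit 5) (nat_lit 2) (nat_lit 4) (nat_lit 340) (nat_lit 219) (nat_lit 161)))))) (XT.nd (nat_lit 468) (nat_lit 0) (nat_lit 0) (XT.nd (nat_lit 234) (nat_lit 0) (nat_lit 0) (XT.nd (nat_lit 78) (nat_lit 152) (nat_lit 0) (XT.lf (nat_lit 0) (nat_lit 12318667636) (nat_lit 76) (nat_lit 1768788020) (nat_lit 76) (nat_lit 1768788020) (nat_lit 4) (nat_lit 4) (nat_lit 5) (nat_lit 5) (nat_lit 5) (nat_lit 4) (nat_lit 280) (nat_lit 220) (nat_lit 220)) (XT.nd (nat_lit 78) (nat_lit 152) (nat_lit 0) (XT.lf (nat_lit 0) (nat_lit 32204454895) (nat_lit 76) (nat_lit 1035517794) (nat_lit 76) (nat_lit 753815014) (nat_lit 4) (nat_lit 4) (nat_lit 5) (nat_lit 5) (nat_lit 5) (nat_lit 4) (nat_lit 281) (nat_lit 220) (nat_lit 219)) (XT.lf (nat_lit 0) (nat_lit 2115385841) (nat_lit 152) (nat_lit 32727095175) (nat_lit 0) (nat_lit 1613035205) (nat_lit 2) (nat_lit 5)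 (nat_lit 4) (nat_lit 4) (nat_lit 2) (nat_lit 4) (nat_lit 282) (nat_lit 220) (nat_lit 218)))) (XT.nd (nat_lit 78) (nat_lit 0) (nat_lit 0) (XT.lf (nat_lit 0) (nat_lit 5096358217) (nat_lit 152) (nat_lit 29652309347) (nat_lit 0) (nat_lit 4370382832) (nat_lit 2) (nat_lit 5) (nat_lit 4) (nat_lit 4) (nat_lit 2) (nat_lit 4) (nat_lit 283) (nat_lit 220) (nat_lit 217)) (XT.nd (nat_lit 78) (nat_lit 0) (nat_lit 0) (XT.lf (nat_lit 0) (nat_lit 8173095608) (nat_lit 152) (nat_lit 26594179028) (nat_lit 0) (nat_lit 7240060271) (nat_lit 2) (nat_lit 5) (nat_lit 4) (nat_lit 4) (nat_lit 2) (nat_lit 4) (nat_lit 284) (nat_lit 220) (nat_lit 216)) (XT.lf (nat_lit 0) (nat_lit 11363830534) (nat_lit 152) (nat_lit 23534581963) (nat_lit 0) (nat_lit 10239073018) (nat_lit 2) (nat_lit 5) (nat_lit 4) (nat_lit 4) (nat_lit 2) (nat_lit 4) (nat_lit 285) (nat_lit 220) (nat_lit 215))))) (XT.nd (nat_lit 234) (nat_lit 0) (nat_lit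 0) (XT.nd (nat_lit 78) (nat_lit 0) (nat_lit 0) (XT.lf (nat_lit 0) (nat_lit 14687471052) (nat_lit 152) (nat_lit 20455387206) (nat_lit 0) (nat_lit 13385193001) (nat_lit 2) (nat_lit 5) (nat_lit 4) (nat_lit 4) (nat_lit 2) (nat_lit 4) (nat_lit 286) (nat_lit 220) (nat_lit 214)) (XT.nd (nat_lit 78) (nat_lit 0) (nat_lit 0) (XT.lf (nat_lit 0) (nat_lit 18163712810) (nat_lit 152) (nat_lit 17338347678) (nat_lit 0) (nat_lit 16697063893) (nat_lit 2) (nat_lit 5) (nat_lit 4) (nat_lit 4) (nat_lit 2) (nat_lit 4) (nat_lit 287) (nat_lit 220) (nat_lit 213)) (XT.lf (nat_lit 0) (nat_lit 21813155759) (nat_lit 152) (nat_lit 14164992034) (nat_lit 0) (nat_lit 20194311595) (nat_lit 2) (nat_lit 5) (nat_lit 4) (nat_lit 4) (nat_lit 2) (nat_lit 4) (nat_lit 288) (nat_lit 220) (nat_lit 212)))) (XT.nd (nat_lit 156) (nat_lit 0) (nat_lit 0) (XT.nd (nat_lit 78) (nat_lit 0) (nat_lit 0) (XT.lf (nat_lit 0) (nat_lit 25657426228)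 (nat_lit 152) (nat_lit 10916515202) (nat_lit 0) (nat_lit 23897660540) (nat_lit 2) (nat_lit 5) (nat_lit 4) (nat_lit 4) (nat_lit 2) (nat_lit 4) (nat_lit 289) (nat_lit 220) (nat_lit 211)) (XT.lf (nat_lit 0) (nat_lit 29719305079) (nat_lit 152) (nat_lit 7573666951) (nat_lit 0) (nat_lit 27829056498) (nat_lit 2) (nat_lit 5) (nat_lit 4) (nat_lit 4) (nat_lit 2) (nat_lit 4) (nat_lit 290) (nat_lit 220) (nat_lit 210))) (XT.nd (nat_lit 78) (nat_lit 0) (nat_lit 0) (XT.lf (nat_lit 0) (nat_lit 34022862705) (nat_lit 152) (nat_lit 4116637808) (nat_lit 0) (nat_lit 32011796631) (nat_lit 2) (nat_lit 5) (nat_lit 4) (nat_lit 4) (nat_lit 2) (nat_lit 4) (nat_lit 291) (nat_lit 220) (nat_lit 209)) (XT.lf (nat_lit 0) (nat_lit 38593601670) (nat_lit 152) (nat_lit 524941675) (nat_lit 0) (nat_lit 36470667546) (nat_lit 2) (nat_lit 5) (nat_lit 4) (nat_lit 4) (nat_lit 2) (nat_lit 4) (nat_lit 292) (nat_lit 220) (nat_lit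 208))))))) (XT.nd (nat_lit 936) (nat_lit 0) (nat_lit 0) (XT.nd (nat_lit 468) (nat_lit 0) (nat_lit 0) (XT.nd (nat_lit 234) (nat_lit 0) (nat_lit 0) (XT.nd (nat_lit 78) (nat_lit 0) (nat_lit 0) (XT.lf (nat_lit 0) (nat_lit 3392407537) (nat_lit 76) (nat_lit 40147787780) (nat_lit 76) (nat_lit 37921272128) (nat_lit 1) (nat_lit 4) (nat_lit 2) (nat_lit 5) (nat_lit 2) (nat_lit 4) (nat_lit 293) (nat_lit 220) (nat_lit 207)) (XT.nd (nat_lit 78) (nat_lit 0) (nat_lit 0) (XT.lf (nat_lit 0) (nat_lit 7524940201) (nat_lit 76) (nat_lit 41302745656) (nat_lit 76) (nat_lit 38980321182) (nat_lit 1) (nat_lit 4) (nat_lit 2) (nat_lit 5) (nat_lit 2) (nat_lit 4) (nat_lit 294) (nat_lit 220) (nat_lit 206)) (XT.lf (nat_lit 0) (nat_lit 11869502900) (nat_lit 76) (nat_lit 42604614003) (nat_lit 76) (nat_lit 40193385065) (nat_lit 1) (nat_lit 4) (nat_lit 2) (nat_lit 5) (nat_lit 2) (nat_lit 4) (nat_lit 295) (nat_lit 220)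 (nat_lit 205)))) (XT.nd (nat_lit 78) (nat_lit 0) (nat_lit 0) (XT.lf (nat_lit 0) (nat_lit 16451841193) (nat_lit 76) (nat_lit 44061107597) (nat_lit 76) (nat_lit 41567652304) (nat_lit 1) (nat_lit 4) (nat_lit 2) (nat_lit 5) (nat_lit 2) (nat_lit 4) (nat_lit 296) (nat_lit 220) (nat_lit 204)) (XT.nd (nat_lit 78) (nat_lit 0) (nat_lit 0) (XT.lf (nat_lit 0) (nat_lit 21299109674) (nat_lit 76) (nat_lit 45680857512) (nat_lit 76) (nat_lit 43111266703) (nat_lit 1) (nat_lit 4) (nat_lit 2) (nat_lit 5) (nat_lit 2) (nat_lit 4) (nat_lit 297) (nat_lit 220) (nat_lit 203)) (XT.lf (nat_lit 0) (nat_lit 26440032899) (nat_lit 76) (nat_lit 47473462264) (nat_lit 76) (nat_lit 44833375609) (nat_lit 1) (nat_lit 4) (nat_lit 2) (nat_lit 5) (nat_lit 2) (nat_lit 4) (nat_lit 298) (nat_lit 220) (nat_lit 202))))) (XT.nd (nat_lit 234) (nat_lit 0) (nat_lit 0) (XT.nd (nat_lit 78) (nat_lit 0) (nat_lit 0) (XT.lf (nat_lit 0)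 (nat_lit 31905075599) (nat_lit 76) (nat_lit 49449544698) (nat_lit 76) (nat_lit 46744184110) (nat_lit 1) (nat_lit 4) (nat_lit 2) (nat_lit 5) (nat_lit 2) (nat_lit 4) (nat_lit 299) (nat_lit 220) (nat_lit 201)) (XT.nd (nat_lit 78) (nat_lit 0) (nat_lit 0) (XT.lf (nat_lit 0) (nat_lit 37726623210) (nat_lit 76) (nat_lit 51620814931) (nat_lit 76) (nat_lit 48855015516) (nat_lit 1) (nat_lit 4) (nat_lit 2) (nat_lit 5) (nat_lit 2) (nat_lit 4) (nat_lit 300) (nat_lit 220) (nat_lit 200)) (XT.lf (nat_lit 0) (nat_lit 43939173793) (nat_lit 76) (nat_lit 54000139750) (nat_lit 76) (nat_lit 51178378459) (nat_lit 1) (nat_lit 4) (nat_lit 2) (nat_lit 5) (nat_lit 2) (nat_lit 4) (nat_lit 301) (nat_lit 220) (nat_lit 199)))) (XT.nd (nat_lit 78) (nat_lit 0) (nat_lit 0) (XT.lf (nat_lit 0) (nat_lit 50579542463) (nat_lit 76) (nat_lit 56601618857) (nat_lit 76) (nat_lit 53728041014) (nat_lit 1) (nat_lit 4) (nat_lit 2)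 (nat_lit 5) (nat_lit 2) (nat_lit 4) (nat_lit 302) (nat_lit 220) (nat_lit 198)) (XT.nd (nat_lit 78) (nat_lit 0) (nat_lit 0) (XT.lf (nat_lit 0) (nat_lit 57687079552) (nat_lit 76) (nat_lit 59440668425) (nat_lit 76) (nat_lit 56519112293) (nat_lit 1) (nat_lit 4) (nat_lit 2) (nat_lit 5) (nat_lit 2) (nat_lit 4) (nat_lit 303) (nat_lit 220) (nat_lit 197)) (XT.lf (nat_lit 0) (nat_lit 65303903799) (nat_lit 76) (nat_lit 62534112451) (nat_lit 76) (nat_lit 59568131977) (nat_lit 1) (nat_lit 4) (nat_lit 2) (nat_lit 5) (nat_lit 2) (nat_lit 4) (nat_lit 304) (nat_lit 220) (nat_lit 196)))))) (XT.nd (nat_lit 468) (nat_lit 0) (nat_lit 0) (XT.nd (nat_lit 234) (nat_lit 0) (nat_lit 0) (XT.nd (nat_lit 78) (nat_lit 0) (nat_lit 0) (XT.lf (nat_lit 0) (nat_lit 73475151940) (nat_lit 76) (nat_lit 65900282456) (nat_lit 76) (nat_lit 62893168332) (nat_lit 1) (nat_lit 4) (nat_lit 2) (nat_lit 5) (nat_lit 2) (nat_lit 4)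 (nat_lit 305) (nat_lit 220) (nat_lit 195)) (XT.nd (nat_lit 78) (nat_lit 0) (nat_lit 0) (XT.lf (nat_lit 0) (nat_lit 82249246186) (nat_lit 76) (nat_lit 69559126113) (nat_lit 76) (nat_lit 66513925277) (nat_lit 1) (nat_lit 4) (nat_lit 2) (nat_lit 5) (nat_lit 2) (nat_lit 4) (nat_lit 306) (nat_lit 220) (nat_lit 194)) (XT.lf (nat_lit 0) (nat_lit 91678181169) (nat_lit 76) (nat_lit 73532325460) (nat_lit 76) (nat_lit 70451859149) (nat_lit 1) (nat_lit 4) (nat_lit 2) (nat_lit 5) (nat_lit 2) (nat_lit 4) (nat_lit 307) (nat_lit 220) (nat_lit 193)))) (XT.nd (nat_lit 78) (nat_lit 0) (nat_lit 0) (XT.lf (nat_lit 0) (nat_lit 101817832061) (nat_lit 76) (nat_lit 77843425380) (nat_lit 76) (nat_lit 74730305852) (nat_lit 1) (nat_lit 4) (nat_lit 2) (nat_lit 5) (nat_lit 2) (nat_lit 4) (nat_lit 308) (nat_lit 220) (nat_lit 192)) (XT.nd (nat_lit 78) (nat_lit 0) (nat_lit 0) (XT.lf (nat_lit 0) (nat_lit 112728285681)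 (nat_lit 76) (nat_lit 82517973134) (nat_lit 76) (nat_lit 79374619145) (nat_lit 1) (nat_lit 4) (nat_lit 2) (nat_lit 5) (nat_lit 2) (nat_lit 4) (nat_lit 309) (nat_lit 220) (nat_lit 191)) (XT.lf (nat_lit 0) (nat_lit 124474196569) (nat_lit 76) (nat_lit 87583669744) (nat_lit 76) (nat_lit 84412320885) (nat_lit 1) (nat_lit 4) (nat_lit 2) (nat_lit 5) (nat_lit 2) (nat_lit 4) (nat_lit 310) (nat_lit 220) (nat_lit 190))))) (XT.nd (nat_lit 234) (nat_lit 0) (nat_lit 0) (XT.nd (nat_lit 78) (nat_lit 0) (nat_lit 0) (XT.lf (nat_lit 0) (nat_lit 137125170124) (nat_lit 76) (nat_lit 93070534154) (nat_lit 76) (nat_lit 89873264118) (nat_lit 1) (nat_lit 4) (nat_lit 2) (nat_lit 5) (nat_lit 2) (nat_lit 4) (nat_lit 311) (nat_lit 220) (nat_lit 189)) (XT.nd (nat_lit 78) (nat_lit 0) (nat_lit 0) (XT.lf (nat_lit 0) (nat_lit 150756175076) (nat_lit 76) (nat_lit 99011081115) (nat_lit 76) (nat_lit 95789809989) (nat_lit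 1) (nat_lit 4) (nat_lit 2) (nat_lit 5) (nat_lit 2) (nat_lit 4) (nat_lit 312) (nat_lit 220) (nat_lit 188)) (XT.lf (nat_lit 0) (nat_lit 165447987752) (nat_lit 76) (nat_lit 105440513869) (nat_lit 76) (nat_lit 102197019512) (nat_lit 1) (nat_lit 4) (nat_lit 2) (nat_lit 5) (nat_lit 2) (nat_lit 4) (nat_lit 313) (nat_lit 220) (nat_lit 187)))) (XT.nd (nat_lit 156) (nat_lit 0) (nat_lit 0) (XT.nd (nat_lit 78) (nat_lit 0) (nat_lit 0) (XT.lf (nat_lit 0) (nat_lit 181287670745) (nat_lit 76) (nat_lit 112396932758) (nat_lit 76) (nat_lit 109132861336) (nat_lit 1) (nat_lit 4) (nat_lit 2) (nat_lit 5) (nat_lit 2) (nat_lit 4) (nat_lit 314) (nat_lit 220) (nat_lit 186)) (XT.lf (nat_lit 0) (nat_lit 198369088844) (nat_lit 76) (nat_lit 119921561005) (nat_lit 76) (nat_lit 116638436744) (nat_lit 1) (nat_lit 4) (nat_lit 2) (nat_lit 5) (nat_lit 2) (nat_lit 4) (nat_lit 315) (nat_lit 220) (nat_lit 185))) (XT.nd (nat_lit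 78) (nat_lit 0) (nat_lit 0) (XT.lf (nat_lit 0) (nat_lit 216793465267) (nat_lit 76) (nat_lit 128058989000) (nat_lit 76) (nat_lit 124758223222) (nat_lit 1) (nat_lit 4) (nat_lit 2) (nat_lit 5) (nat_lit 2) (nat_lit 4) (nat_lit 316) (nat_lit 220) (nat_lit 184)) (XT.lf (nat_lit 0) (nat_lit 236669981504) (nat_lit 76) (nat_lit 136857438538) (nat_lit 76) (nat_lit 133540338022) (nat_lit 1) (nat_lit 4) (nat_lit 2) (nat_lit 5) (nat_lit 2) (nat_lit 4) (nat_lit 317) (nat_lit 220) (nat_lit 183))))))))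
noncomputable def xc19 : XT := (XT.nd (nat_lit 34554) (nat_lit 0) (nat_lit 0) (XT.nd (nat_lit 936) (nat_lit 0) (nat_lit 0) (XT.nd (nat_lit 468) (nat_lit 0) (nat_lit 0) (XT.nd (nat_lit 234) (nat_lit 0) (nat_lit 0) (XT.nd (nat_lit 78) (nat_lit 0) (nat_lit 0) (XT.lf (nat_lit 0) (nat_lit 258116424317) (nat_lit 76) (nat_lit 146369048580) (nat_lit 76) (nat_lit 143036823306) (nat_lit 1) (nat_lit 4) (nat_lit 2) (nat_lit 5) (nat_lit 2) (nat_lit 4) (nat_lit 318) (nat_lit 220) (nat_lit 182)) (XT.nd (nat_lit 78) (nat_lit 0) (nat_lit 0) (XT.lf (nat_lit 0) (nat_lit 281259883738) (nat_lit 76) (nat_lit 156650184221) (nat_lit 76) (nat_lit 153303954542) (nat_lit 1) (nat_lit 4) (nat_lit 2) (nat_lit 5) (nat_lit 2) (nat_lit 4) (nat_lit 319) (nat_lit 220) (nat_lit 181)) (XT.lf (nat_lit 0) (nat_lit 306237506194) (nat_lit 76) (nat_lit 167761770711) (nat_lit 76) (nat_lit 164402573990) (nat_lit 1) (nat_lit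 4) (nat_lit 2) (nat_lit 5) (nat_lit 2) (nat_lit 4) (nat_lit 320) (nat_lit 220) (nat_lit 180)))) (XT.nd (nat_lit 78) (nat_lit 0) (nat_lit 0) (XT.lf (nat_lit 0) (nat_lit 333197307225) (nat_lit 76) (nat_lit 179769654488) (nat_lit 76) (nat_lit 176398451246) (nat_lit 1) (nat_lit 4) (nat_lit 2) (nat_lit 5) (nat_lit 2) (nat_lit 4) (nat_lit 321) (nat_lit 220) (nat_lit 179)) (XT.nd (nat_lit 78) (nat_lit 0) (nat_lit 0) (XT.lf (nat_lit 0) (nat_lit 362299048615) (nat_lit 76) (nat_lit 192744993381) (nat_lit 76) (nat_lit 189362672991) (nat_lit 1) (nat_lit 4) (nat_lit 2) (nat_lit 5) (nat_lit 2) (nat_lit 4) (nat_lit 322) (nat_lit 220) (nat_lit 178)) (XT.lf (nat_lit 0) (nat_lit 393715185127) (nat_lit 76) (nat_lit 206764678288) (nat_lit 76) (nat_lit 203372064242) (nat_lit 1) (nat_lit 4) (nat_lit 2) (nat_lit 5) (nat_lit 2) (nat_lit 4) (nat_lit 323) (nat_lit 220) (nat_lit 177))))) (XT.nd (nat_lit 234)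 (nat_lit 0) (nat_lit 0) (XT.nd (nat_lit 78) (nat_lit 0) (nat_lit 0) (XT.lf (nat_lit 0) (nat_lit 427631886459) (nat_lit 76) (nat_lit 221911788822) (nat_lit 76) (nat_lit 218509643614) (nat_lit 1) (nat_lit 4) (nat_lit 2) (nat_lit 5) (nat_lit 2) (nat_lit 4) (nat_lit 324) (nat_lit 220) (nat_lit 176)) (XT.nd (nat_lit 78) (nat_lit 0) (nat_lit 0) (XT.lf (nat_lit 0) (nat_lit 464250140472) (nat_lit 76) (nat_lit 238276085640) (nat_lit 76) (nat_lit 234865115280) (nat_lit 1) (nat_lit 4) (nat_lit 2) (nat_lit 5) (nat_lit 2) (nat_lit 4) (nat_lit 325) (nat_lit 220) (nat_lit 175)) (XT.lf (nat_lit 0) (nat_lit 503786944225) (nat_lit 76) (nat_lit 255954542351) (nat_lit 76) (nat_lit 252535400556) (nat_lit 1) (nat_lit 4) (nat_lit 2) (nat_lit 5) (nat_lit 2) (nat_lit 4) (nat_lit 326) (nat_lit 220) (nat_lit 174)))) (XT.nd (nat_lit 78) (nat_lit 0) (nat_lit 0) (XT.lf (nat_lit 0) (nat_lit 546476589890) (nat_lit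 76) (nat_lit 275051920181) (nat_lit 76) (nat_lit 271625212241) (nat_lit 1) (nat_lit 4) (nat_lit 2) (nat_lit 5) (nat_lit 2) (nat_lit 4) (nat_lit 327) (nat_lit 220) (nat_lit 173)) (XT.nd (nat_lit 78) (nat_lit 0) (nat_lit 0) (XT.lf (nat_lit 0) (nat_lit 592572053144) (nat_lit 76) (nat_lit 295681388776) (nat_lit 76) (nat_lit 292247675147) (nat_lit 1) (nat_lit 4) (nat_lit 2) (nat_lit 5) (nat_lit 2) (nat_lit 4) (nat_lit 328) (nat_lit 220) (nat_lit 172)) (XT.lf (nat_lit 0) (nat_lit 642346492288) (nat_lit 76) (nat_lit 317965196839) (nat_lit 76) (nat_lit 314524996460) (nat_lit 1) (nat_lit 4) (nat_lit 2) (nat_lit 5) (nat_lit 2) (nat_lit 4) (nat_lit 329) (nat_lit 220) (nat_lit 171)))))) (XT.nd (nat_lit 468) (nat_lit 0) (nat_lit 0) (XT.nd (nat_lit 234) (nat_lit 0) (nat_lit 0) (XT.nd (nat_lit 78) (nat_lit 0) (nat_lit 0) (XT.lf (nat_lit 0) (nat_lit 696094866962) (nat_lit 76) (nat_lit 342035396565)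 (nat_lit 76) (nat_lit 338589189937) (nat_lit 1) (nat_lit 4) (nat_lit 2) (nat_lit 5) (nat_lit 2) (nat_lit 4) (nat_lit 330) (nat_lit 220) (nat_lit 170)) (XT.nd (nat_lit 78) (nat_lit 0) (nat_lit 0) (XT.lf (nat_lit 0) (nat_lit 754135686052) (nat_lit 76) (nat_lit 368034626176) (nat_lit 76) (nat_lit 364582858206) (nat_lit 1) (nat_lit 4) (nat_lit 2) (nat_lit 5) (nat_lit 2) (nat_lit 4) (nat_lit 331) (nat_lit 220) (nat_lit 169)) (XT.lf (nat_lit 0) (nat_lit 816812895153) (nat_lit 76) (nat_lit 396116955180) (nat_lit 76) (nat_lit 392660037820) (nat_lit 1) (nat_lit 4) (nat_lit 2) (nat_lit 5) (nat_lit 2) (nat_lit 4) (nat_lit 332) (nat_lit 220) (nat_lit 168)))) (XT.nd (nat_lit 78) (nat_lit 0) (nat_lit 0) (XT.lf (nat_lit 0) (nat_lit 884497914764) (nat_lit 76) (nat_lit 426448797379) (nat_lit 76) (nat_lit 422987112064) (nat_lit 1) (nat_lit 4) (nat_lit 2) (nat_lit 5) (nat_lit 2) (nat_lit 4) (nat_lit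 333) (nat_lit 220) (nat_lit 167)) (XT.nd (nat_lit 78) (nat_lit 0) (nat_lit 0) (XT.lf (nat_lit 0) (nat_lit 957591841297) (nat_lit 76) (nat_lit 459209897022) (nat_lit 76) (nat_lit 455743796935) (nat_lit 1) (nat_lit 4) (nat_lit 2) (nat_lit 5) (nat_lit 2) (nat_lit 4) (nat_lit 334) (nat_lit 220) (nat_lit 166)) (XT.lf (nat_lit 0) (nat_lit 1036527823945) (nat_lit 76) (nat_lit 494594393960) (nat_lit 76) (nat_lit 491124206121) (nat_lit 1) (nat_lit 4) (nat_lit 2) (nat_lit 5) (nat_lit 2) (nat_lit 4) (nat_lit 335) (nat_lit 220) (nat_lit 165))))) (XT.nd (nat_lit 234) (nat_lit 0) (nat_lit 0) (XT.nd (nat_lit 78) (nat_lit 0) (nat_lit 0) (XT.lf (nat_lit 0) (nat_lit 1121773631496) (nat_lit 76) (nat_lit 532811974100) (nat_lit 76) (nat_lit 529338001305) (nat_lit 1) (nat_lit 4) (nat_lit 2) (nat_lit 5) (nat_lit 2) (nat_lit 4) (nat_lit 336) (nat_lit 220) (nat_lit 164)) (XT.nd (nat_lit 78) (nat_lit 0) (nat_lit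 0) (XT.lf (nat_lit 0) (nat_lit 1213834424291) (nat_lit 76) (nat_lit 574089111992) (nat_lit 76) (nat_lit 570611634608) (nat_lit 1) (nat_lit 4) (nat_lit 2) (nat_lit 5) (nat_lit 2) (nat_lit 4) (nat_lit 337) (nat_lit 220) (nat_lit 163)) (XT.lf (nat_lit 0) (nat_lit 1313255747767) (nat_lit 76) (nat_lit 618670412896) (nat_lit 76) (nat_lit 615189690522) (nat_lit 1) (nat_lit 4) (nat_lit 2) (nat_lit 5) (nat_lit 2) (nat_lit 4) (nat_lit 338) (nat_lit 220) (nat_lit 162)))) (XT.nd (nat_lit 32760) (nat_lit 0) (nat_lit 228) (XT.nd (nat_lit 78) (nat_lit 0) (nat_lit 0) (XT.lf (nat_lit 0) (nat_lit 1420626765324) (nat_lit 76) (nat_lit 666820062300) (nat_lit 76) (nat_lit 663336335306) (nat_lit 1) (nat_lit 4) (nat_lit 2) (nat_lit 5) (nat_lit 2) (nat_lit 4) (nat_lit 339) (nat_lit 220) (nat_lit 161)) (XT.lf (nat_lit 0) (nat_lit 1536583749658) (nat_lit 76) (nat_lit 718823391459) (nat_lit 76) (nat_lit 715336882410)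 (nat_lit 1) (nat_lit 4) (nat_lit 2) (nat_lit 5) (nat_lit 2) (nat_lit 4) (nat_lit 340) (nat_lit 220) (nat_lit 160))) (XT.nd (nat_lit 78) (nat_lit 0) (nat_lit 0) (XT.lf (nat_lit 0) (nat_lit 5237993287) (nat_lit 76) (nat_lit 4299705672) (nat_lit 76) (nat_lit 4299705672) (nat_lit 4) (nat_lit 4) (nat_lit 5) (nat_lit 5) (nat_lit 5) (nat_lit 4) (nat_lit 278) (nat_lit 221) (nat_lit 221)) (XT.lf (nat_lit 0) (nat_lit 17357888924) (nat_lit 76) (nat_lit 6279494776) (nat_lit 76) (nat_lit 5975255774) (nat_lit 4) (nat_lit 4) (nat_lit 5) (nat_lit 5) (nat_lit 5) (nat_lit 4) (nat_lit 279) (nat_lit 221) (nat_lit 220))))))) (XT.nd (nat_lit 936) (nat_lit 76) (nat_lit 0) (XT.nd (nat_lit 468) (nat_lit 0) (nat_lit 0) (XT.nd (nat_lit 234) (nat_lit 0) (nat_lit 0) (XT.nd (nat_lit 78) (nat_lit 152) (nat_lit 0) (XT.lf (nat_lit 0) (nat_lit 24495661025) (nat_lit 76) (nat_lit 3904620747) (nat_lit 76) (nat_lit 3318678965)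 (nat_lit 4) (nat_lit 4) (nat_lit 5) (nat_lit 5) (nat_lit 5) (nat_lit 4) (nat_lit 280) (nat_lit 221) (nat_lit 219)) (XT.nd (nat_lit 78) (nat_lit 152) (nat_lit 0) (XT.lf (nat_lit 0) (nat_lit 31931600787) (nat_lit 76) (nat_lit 1460715930) (nat_lit 76) (nat_lit 613938242) (nat_lit 4) (nat_lit 4) (nat_lit 5) (nat_lit 5) (nat_lit 5) (nat_lit 4) (nat_lit 281) (nat_lit 221) (nat_lit 218)) (XT.lf (nat_lit 0) (nat_lit 2156527577) (nat_lit 152) (nat_lit 33169806500) (nat_lit 0) (nat_lit 1148849413) (nat_lit 2) (nat_lit 5) (nat_lit 4) (nat_lit 4) (nat_lit 2) (nat_lit 4) (nat_lit 282) (nat_lit 221) (nat_lit 217)))) (XT.nd (nat_lit 78) (nat_lit 0) (nat_lit 0) (XT.lf (nat_lit 0) (nat_lit 5068888042) (nat_lit 152) (nat_lit 30221289121) (nat_lit 0) (nat_lit 3854149926) (nat_lit 2) (nat_lit 5) (nat_lit 4) (nat_lit 4) (nat_lit 2) (nat_lit 4) (nat_lit 283) (nat_lit 221) (nat_lit 216)) (XT.nd (nat_lit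 78) (nat_lit 0) (nat_lit 0) (XT.lf (nat_lit 0) (nat_lit 8082095887) (nat_lit 152) (nat_lit 27280074033) (nat_lit 0) (nat_lit 6675635592) (nat_lit 2) (nat_lit 5) (nat_lit 4) (nat_lit 4) (nat_lit 2) (nat_lit 4) (nat_lit 284) (nat_lit 221) (nat_lit 215)) (XT.lf (nat_lit 0) (nat_lit 11214007158) (nat_lit 152) (nat_lit 24328731811) (nat_lit 0) (nat_lit 9630026327) (nat_lit 2) (nat_lit 5) (nat_lit 4) (nat_lit 4) (nat_lit 2) (nat_lit 4) (nat_lit 285) (nat_lit 221) (nat_lit 214))))) (XT.nd (nat_lit 234) (nat_lit 0) (nat_lit 0) (XT.nd (nat_lit 78) (nat_lit 0) (nat_lit 0) (XT.lf (nat_lit 0) (nat_lit 14483181329) (nat_lit 152) (nat_lit 21349773020) (nat_lit 0) (nat_lit 12734829632) (nat_lit 2) (nat_lit 5) (nat_lit 4) (nat_lit 4) (nat_lit 2) (nat_lit 4) (nat_lit 286) (nat_lit 221) (nat_lit 213)) (XT.nd (nat_lit 78) (nat_lit 0) (nat_lit 0) (XT.lf (nat_lit 0) (nat_lit 17908991284) (nat_lit 152)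 (nat_lit 18325544572) (nat_lit 0) (nat_lit 16008444341) (nat_lit 2) (nat_lit 5) (nat_lit 4) (nat_lit 4) (nat_lit 2) (nat_lit 4) (nat_lit 287) (nat_lit 221) (nat_lit 212)) (XT.lf (nat_lit 0) (nat_lit 21511738120) (nat_lit 152) (nat_lit 15238125112) (nat_lit 0) (nat_lit 19470269653) (nat_lit 2) (nat_lit 5) (nat_lit 4) (nat_lit 4) (nat_lit 2) (nat_lit 4) (nat_lit 288) (nat_lit 221) (nat_lit 211)))) (XT.nd (nat_lit 78) (nat_lit 0) (nat_lit 0) (XT.lf (nat_lit 0) (nat_lit 25312771447) (nat_lit 152) (nat_lit 12069218822) (nat_lit 0) (nat_lit 23140820087) (nat_lit 2) (nat_lit 5) (nat_lit 4) (nat_lit 4) (nat_lit 2) (nat_lit 4) (nat_lit 289) (nat_lit 221) (nat_lit 210)) (XT.nd (nat_lit 78) (nat_lit 0) (nat_lit 0) (XT.lf (nat_lit 0) (nat_lit 29334615908) (nat_lit 152) (nat_lit 8800046998) (nat_lit 0) (nat_lit 27041847053) (nat_lit 2) (nat_lit 5) (nat_lit 4) (nat_lit 4) (nat_lit 2) (nat_lit 4)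 (nat_lit 290) (nat_lit 221) (nat_lit 209)) (XT.lf (nat_lit 0) (nat_lit 33601104653) (nat_lit 152) (nat_lit 5411236769) (nat_lit 0) (nat_lit 31196467749) (nat_lit 2) (nat_lit 5) (nat_lit 4) (nat_lit 4) (nat_lit 2) (nat_lit 4) (nat_lit 291) (nat_lit 221) (nat_lit 208)))))) (XT.nd (nat_lit 468) (nat_lit 0) (nat_lit 0) (XT.nd (nat_lit 234) (nat_lit 0) (nat_lit 0) (XT.nd (nat_lit 78) (nat_lit 76) (nat_lit 0) (XT.lf (nat_lit 0) (nat_lit 38137520581) (nat_lit 152) (nat_lit 1882706297) (nat_lit 0) (nat_lit 35629302150) (nat_lit 2) (nat_lit 5) (nat_lit 4) (nat_lit 4) (nat_lit 2) (nat_lit 4) (nat_lit 292) (nat_lit 221) (nat_lit 207)) (XT.nd (nat_lit 78) (nat_lit 0) (nat_lit 0) (XT.lf (nat_lit 0) (nat_lit 1901578905) (nat_lit 76) (nat_lit 41114900268) (nat_lit 76) (nat_lit 38510773015) (nat_lit 1) (nat_lit 4) (nat_lit 2) (nat_lit 5) (nat_lit 2) (nat_lit 4) (nat_lit 293) (nat_lit 221) (nat_lit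 206)) (XT.lf (nat_lit 0) (nat_lit 5977105522) (nat_lit 76) (nat_lit 42296066722) (nat_lit 76) (nat_lit 39603135004) (nat_lit 1) (nat_lit 4) (nat_lit 2) (nat_lit 5) (nat_lit 2) (nat_lit 4) (nat_lit 294) (nat_lit 221) (nat_lit 205)))) (XT.nd (nat_lit 78) (nat_lit 0) (nat_lit 0) (XT.lf (nat_lit 0) (nat_lit 10268884845) (nat_lit 76) (nat_lit 43622202270) (nat_lit 76) (nat_lit 40847044197) (nat_lit 1) (nat_lit 4) (nat_lit 2) (nat_lit 5) (nat_lit 2) (nat_lit 4) (nat_lit 295) (nat_lit 221) (nat_lit 204)) (XT.nd (nat_lit 78) (nat_lit 0) (nat_lit 0) (XT.lf (nat_lit 0) (nat_lit 14802349640) (nat_lit 76) (nat_lit 45101165496) (nat_lit 76) (nat_lit 42249871907) (nat_lit 1) (nat_lit 4) (nat_lit 2) (nat_lit 5) (nat_lit 2) (nat_lit 4) (nat_lit 296) (nat_lit 221) (nat_lit 203)) (XT.lf (nat_lit 0) (nat_lit 19604364883) (nat_lit 76) (nat_lit 46741720624) (nat_lit 76) (nat_lit 43819931189) (nat_lit 1)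 (nat_lit 4) (nat_lit 2) (nat_lit 5) (nat_lit 2) (nat_lit 4) (nat_lit 297) (nat_lit 221) (nat_lit 202))))) (XT.nd (nat_lit 234) (nat_lit 0) (nat_lit 0) (XT.nd (nat_lit 78) (nat_lit 0) (nat_lit 0) (XT.lf (nat_lit 0) (nat_lit 24703386962) (nat_lit 76) (nat_lit 48553589464) (nat_lit 76) (nat_lit 45566526096) (nat_lit 1) (nat_lit 4) (nat_lit 2) (nat_lit 5) (nat_lit 2) (nat_lit 4) (nat_lit 298) (nat_lit 221) (nat_lit 201)) (XT.nd (nat_lit 78) (nat_lit 0) (nat_lit 0) (XT.lf (nat_lit 0) (nat_lit 30129632304) (nat_lit 76) (nat_lit 50547509015) (nat_lit 76) (nat_lit 47500006821) (nat_lit 1) (nat_lit 4) (nat_lit 2) (nat_lit 5) (nat_lit 2) (nat_lit 4) (nat_lit 299) (nat_lit 221) (nat_lit 200)) (XT.lf (nat_lit 0) (nat_lit 35915256436) (nat_lit 76) (nat_lit 52735295097) (nat_lit 76) (nat_lit 49631831027) (nat_lit 1) (nat_lit 4) (nat_lit 2) (nat_lit 5) (nat_lit 2) (nat_lit 4) (nat_lit 300) (nat_lit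 221) (nat_lit 199)))) (XT.nd (nat_lit 156) (nat_lit 0) (nat_lit 0) (XT.nd (nat_lit 78) (nat_lit 0) (nat_lit 0) (XT.lf (nat_lit 0) (nat_lit 42094544538) (nat_lit 76) (nat_lit 55129912369) (nat_lit 76) (nat_lit 51974631747) (nat_lit 1) (nat_lit 4) (nat_lit 2) (nat_lit 5) (nat_lit 2) (nat_lit 4) (nat_lit 301) (nat_lit 221) (nat_lit 198)) (XT.lf (nat_lit 0) (nat_lit 48704114615) (nat_lit 76) (nat_lit 57745551155) (nat_lit 76) (nat_lit 54542292244) (nat_lit 1) (nat_lit 4) (nat_lit 2) (nat_lit 5) (nat_lit 2) (nat_lit 4) (nat_lit 302) (nat_lit 221) (nat_lit 197))) (XT.nd (nat_lit 78) (nat_lit 0) (nat_lit 0) (XT.lf (nat_lit 0) (nat_lit 55783134488) (nat_lit 76) (nat_lit 60597711537) (nat_lit 76) (nat_lit 57350028284) (nat_lit 1) (nat_lit 4) (nat_lit 2) (nat_lit 5) (nat_lit 2) (nat_lit 4) (nat_lit 303) (nat_lit 221) (nat_lit 196)) (XT.lf (nat_lit 0) (nat_lit 63373553905) (nat_lit 76) (nat_lit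 63703295206) (nat_lit 76) (nat_lit 60414478303) (nat_lit 1) (nat_lit 4) (nat_lit 2) (nat_lit 5) (nat_lit 2) (nat_lit 4) (nat_lit 304) (nat_lit 221) (nat_lit 195))))))))
noncomputable def xc20 : XT := (XT.nd (nat_lit 1950) (nat_lit 0) (nat_lit 0) (XT.nd (nat_lit 936) (nat_lit 0) (nat_lit 0) (XT.nd (nat_lit 468) (nat_lit 0) (nat_lit 0) (XT.nd (nat_lit 234) (nat_lit 0) (nat_lit 0) (XT.nd (nat_lit 78) (nat_lit 0) (nat_lit 0) (XT.lf (nat_lit 0) (nat_lit 71520353129) (nat_lit 76) (nat_lit 67080705621) (nat_lit 76) (nat_lit 63753802005) (nat_lit 1) (nat_lit 4) (nat_lit 2) (nat_lit 5) (nat_lit 2) (nat_lit 4) (nat_lit 305) (nat_lit 221) (nat_lit 194)) (XT.nd (nat_lit 78) (nat_lit 0) (nat_lit 0) (XT.lf (nat_lit 0) (nat_lit 80271809490) (nat_lit 76) (nat_lit 70749957065) (nat_lit 76) (nat_lit 67387787974) (nat_lit 1) (nat_lit 4) (nat_lit 2) (nat_lit 5) (nat_lit 2) (nat_lit 4) (nat_lit 306) (nat_lit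 221) (nat_lit 193)) (XT.lf (nat_lit 0) (nat_lit 89679783469) (nat_lit 76) (nat_lit 74732793251) (nat_lit 76) (nat_lit 71337970943) (nat_lit 1) (nat_lit 4) (nat_lit 2) (nat_lit 5) (nat_lit 2) (nat_lit 4) (nat_lit 307) (nat_lit 221) (nat_lit 192)))) (XT.nd (nat_lit 78) (nat_lit 0) (nat_lit 0) (XT.lf (nat_lit 0) (nat_lit 99800026022) (nat_lit 76) (nat_lit 79052816171) (nat_lit 76) (nat_lit 75627759403) (nat_lit 1) (nat_lit 4) (nat_lit 2) (nat_lit 5) (nat_lit 2) (nat_lit 4) (nat_lit 308) (nat_lit 221) (nat_lit 191)) (XT.nd (nat_lit 78) (nat_lit 0) (nat_lit 0) (XT.lf (nat_lit 0) (nat_lit 110692508959) (nat_lit 76) (nat_lit 83735625961) (nat_lit 76) (nat_lit 80282574323) (nat_lit 1) (nat_lit 4) (nat_lit 2) (nat_lit 5) (nat_lit 2) (nat_lit 4) (nat_lit 309) (nat_lit 221) (nat_lit 190)) (XT.lf (nat_lit 0) (nat_lit 122421780325) (nat_lit 76) (nat_lit 88808972606) (nat_lit 76) (nat_lit 85329999790)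 (nat_lit 1) (nat_lit 4) (nat_lit 2) (nat_lit 5) (nat_lit 2) (nat_lit 4) (nat_lit 310) (nat_lit 221) (nat_lit 189))))) (XT.nd (nat_lit 234) (nat_lit 0) (nat_lit 0) (XT.nd (nat_lit 78) (nat_lit 0) (nat_lit 0) (XT.lf (nat_lit 0) (nat_lit 135057346915) (nat_lit 76) (nat_lit 94302920380) (nat_lit 76) (nat_lit 90799946475) (nat_lit 1) (nat_lit 4) (nat_lit 2) (nat_lit 5) (nat_lit 2) (nat_lit 4) (nat_lit 311) (nat_lit 221) (nat_lit 188)) (XT.nd (nat_lit 78) (nat_lit 0) (nat_lit 0) (XT.lf (nat_lit 0) (nat_lit 148674086159) (nat_lit 76) (nat_lit 100250026012) (nat_lit 76) (nat_lit 96724828876) (nat_lit 1) (nat_lit 4) (nat_lit 2) (nat_lit 5) (nat_lit 2) (nat_lit 4) (nat_lit 312) (nat_lit 221) (nat_lit 187)) (XT.lf (nat_lit 0) (nat_lit 163352689847) (nat_lit 76) (nat_lit 106685531610) (nat_lit 76) (nat_lit 103139757408) (nat_lit 1) (nat_lit 4) (nat_lit 2) (nat_lit 5) (nat_lit 2) (nat_lit 4) (nat_lit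 313) (nat_lit 221) (nat_lit 186)))) (XT.nd (nat_lit 78) (nat_lit 0) (nat_lit 0) (XT.lf (nat_lit 0) (nat_lit 179180142295) (nat_lit 76) (nat_lit 113647573502) (nat_lit 76) (nat_lit 110082746462) (nat_lit 1) (nat_lit 4) (nat_lit 2) (nat_lit 5) (nat_lit 2) (nat_lit 4) (nat_lit 314) (nat_lit 221) (nat_lit 185)) (XT.nd (nat_lit 78) (nat_lit 0) (nat_lit 0) (XT.lf (nat_lit 0) (nat_lit 196250235815) (nat_lit 76) (nat_lit 121177408234) (nat_lit 76) (nat_lit 117594939676) (nat_lit 1) (nat_lit 4) (nat_lit 2) (nat_lit 5) (nat_lit 2) (nat_lit 4) (nat_lit 315) (nat_lit 221) (nat_lit 184)) (XT.lf (nat_lit 0) (nat_lit 214664126517) (nat_lit 76) (nat_lit 129319657048) (nat_lit 76) (nat_lit 125720853752) (nat_lit 1) (nat_lit 4) (nat_lit 2) (nat_lit 5) (nat_lit 2) (nat_lit 4) (nat_lit 316) (nat_lit 221) (nat_lit 183)))))) (XT.nd (nat_lit 468) (nat_lit 0) (nat_lit 0) (XT.nd (nat_lit 234) (nat_lit 0) (nat_lit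 0) (XT.nd (nat_lit 78) (nat_lit 0) (nat_lit 0) (XT.lf (nat_lit 0) (nat_lit 234530933752) (nat_lit 76) (nat_lit 138122570308) (nat_lit 76) (nat_lit 134508642254) (nat_lit 1) (nat_lit 4) (nat_lit 2) (nat_lit 5) (nat_lit 2) (nat_lit 4) (nat_lit 317) (nat_lit 221) (nat_lit 182)) (XT.nd (nat_lit 78) (nat_lit 0) (nat_lit 0) (XT.lf (nat_lit 0) (nat_lit 255968386750) (nat_lit 76) (nat_lit 147638313425) (nat_lit 76) (nat_lit 144010380966) (nat_lit 1) (nat_lit 4) (nat_lit 2) (nat_lit 5) (nat_lit 2) (nat_lit 4) (nat_lit 318) (nat_lit 221) (nat_lit 181)) (XT.lf (nat_lit 0) (nat_lit 279103522268) (nat_lit 76) (nat_lit 157923275988) (nat_lit 76) (nat_lit 154282376487) (nat_lit 1) (nat_lit 4) (nat_lit 2) (nat_lit 5) (nat_lit 2) (nat_lit 4) (nat_lit 319) (nat_lit 221) (nat_lit 180)))) (XT.nd (nat_lit 78) (nat_lit 0) (nat_lit 0) (XT.lf (nat_lit 0) (nat_lit 304073437405) (nat_lit 76) (nat_lit 169038405924)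 (nat_lit 76) (nat_lit 165385499903) (nat_lit 1) (nat_lit 4) (nat_lit 2) (nat_lit 5) (nat_lit 2) (nat_lit 4) (nat_lit 320) (nat_lit 221) (nat_lit 179)) (XT.nd (nat_lit 78) (nat_lit 0) (nat_lit 0) (XT.lf (nat_lit 0) (nat_lit 331026102031) (nat_lit 76) (nat_lit 181049570669) (nat_lit 76) (nat_lit 177385547499) (nat_lit 1) (nat_lit 4) (nat_lit 2) (nat_lit 5) (nat_lit 2) (nat_lit 4) (nat_lit 321) (nat_lit 221) (nat_lit 178)) (XT.lf (nat_lit 0) (nat_lit 360121235637) (nat_lit 76) (nat_lit 194027947495) (nat_lit 76) (nat_lit 190353630670) (nat_lit 1) (nat_lit 4) (nat_lit 2) (nat_lit 5) (nat_lit 2) (nat_lit 4) (nat_lit 322) (nat_lit 221) (nat_lit 177))))) (XT.nd (nat_lit 234) (nat_lit 0) (nat_lit 0) (XT.nd (nat_lit 78) (nat_lit 0) (nat_lit 0) (XT.lf (nat_lit 0) (nat_lit 391531253831) (nat_lit 76) (nat_lit 208050445304) (nat_lit 76) (nat_lit 204366597316) (nat_lit 1) (nat_lit 4) (nat_lit 2)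 (nat_lit 5) (nat_lit 2) (nat_lit 4) (nat_lit 323) (nat_lit 221) (nat_lit 176)) (XT.nd (nat_lit 78) (nat_lit 0) (nat_lit 0) (XT.lf (nat_lit 0) (nat_lit 425442290055) (nat_lit 76) (nat_lit 223200160377) (nat_lit 76) (nat_lit 219507487238) (nat_lit 1) (nat_lit 4) (nat_lit 2) (nat_lit 5) (nat_lit 2) (nat_lit 4) (nat_lit 324) (nat_lit 221) (nat_lit 175)) (XT.lf (nat_lit 0) (nat_lit 462055298596) (nat_lit 76) (nat_lit 239566868804) (nat_lit 76) (nat_lit 235866024229) (nat_lit 1) (nat_lit 4) (nat_lit 2) (nat_lit 5) (nat_lit 2) (nat_lit 4) (nat_lit 325) (nat_lit 221) (nat_lit 174)))) (XT.nd (nat_lit 156) (nat_lit 0) (nat_lit 0) (XT.nd (nat_lit 78) (nat_lit 0) (nat_lit 0) (XT.lf (nat_lit 0) (nat_lit 501587245432) (nat_lit 76) (nat_lit 257247558487) (nat_lit 76) (nat_lit 253539147768) (nat_lit 1) (nat_lit 4) (nat_lit 2) (nat_lit 5) (nat_lit 2) (nat_lit 4) (nat_lit 326) (nat_lit 221) (nat_lit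 173)) (XT.lf (nat_lit 0) (nat_lit 544272393951) (nat_lit 76) (nat_lit 276347003884) (nat_lit 76) (nat_lit 272631587475) (nat_lit 1) (nat_lit 4) (nat_lit 2) (nat_lit 5) (nat_lit 2) (nat_lit 4) (nat_lit 327) (nat_lit 221) (nat_lit 172))) (XT.nd (nat_lit 78) (nat_lit 0) (nat_lit 0) (XT.lf (nat_lit 0) (nat_lit 590363693181) (nat_lit 76) (nat_lit 296978386892) (nat_lit 76) (nat_lit 293256483735) (nat_lit 1) (nat_lit 4) (nat_lit 2) (nat_lit 5) (nat_lit 2) (nat_lit 4) (nat_lit 328) (nat_lit 221) (nat_lit 171)) (XT.lf (nat_lit 0) (nat_lit 640134276747) (nat_lit 76) (nat_lit 319263967560) (nat_lit 76) (nat_lit 315536058153) (nat_lit 1) (nat_lit 4) (nat_lit 2) (nat_lit 5) (nat_lit 2) (nat_lit 4) (nat_lit 329) (nat_lit 221) (nat_lit 170))))))) (XT.nd (nat_lit 33384) (nat_lit 0) (nat_lit 76) (XT.nd (nat_lit 468) (nat_lit 0) (nat_lit 0) (XT.nd (nat_lit 234) (nat_lit 0) (nat_lit 0) (XT.nd (nat_lit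 78) (nat_lit 0) (nat_lit 0) (XT.lf (nat_lit 0) (nat_lit 693879081441) (nat_lit 76) (nat_lit 343335808588) (nat_lit 76) (nat_lit 339602337839) (nat_lit 1) (nat_lit 4) (nat_lit 2) (nat_lit 5) (nat_lit 2) (nat_lit 4) (nat_lit 330) (nat_lit 221) (nat_lit 169)) (XT.nd (nat_lit 78) (nat_lit 0) (nat_lit 0) (XT.lf (nat_lit 0) (nat_lit 751916594995) (nat_lit 76) (nat_lit 369336557922) (nat_lit 76) (nat_lit 365597937782) (nat_lit 1) (nat_lit 4) (nat_lit 2) (nat_lit 5) (nat_lit 2) (nat_lit 4) (nat_lit 331) (nat_lit 221) (nat_lit 168)) (XT.lf (nat_lit 0) (nat_lit 814590743414) (nat_lit 76) (nat_lit 397420294077) (nat_lit 76) (nat_lit 393676905983) (nat_lit 1) (nat_lit 4) (nat_lit 2) (nat_lit 5) (nat_lit 2) (nat_lit 4) (nat_lit 332) (nat_lit 221) (nat_lit 167)))) (XT.nd (nat_lit 78) (nat_lit 0) (nat_lit 0) (XT.lf (nat_lit 0) (nat_lit 882272929060) (nat_lit 76) (nat_lit 427753439194) (nat_lit 76)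 (nat_lit 424005636327) (nat_lit 1) (nat_lit 4) (nat_lit 2) (nat_lit 5) (nat_lit 2) (nat_lit 4) (nat_lit 333) (nat_lit 221) (nat_lit 166)) (XT.nd (nat_lit 78) (nat_lit 0) (nat_lit 0) (XT.lf (nat_lit 0) (nat_lit 955364231551) (nat_lit 76) (nat_lit 460515745242) (nat_lit 76) (nat_lit 456763854623) (nat_lit 1) (nat_lit 4) (nat_lit 2) (nat_lit 5) (nat_lit 2) (nat_lit 4) (nat_lit 334) (nat_lit 221) (nat_lit 165)) (XT.lf (nat_lit 0) (nat_lit 1034297784532) (nat_lit 76) (nat_lit 495901359222) (nat_lit 76) (nat_lit 492145683647) (nat_lit 1) (nat_lit 4) (nat_lit 2) (nat_lit 5) (nat_lit 2) (nat_lit 4) (nat_lit 335) (nat_lit 221) (nat_lit 164))))) (XT.nd (nat_lit 234) (nat_lit 0) (nat_lit 0) (XT.nd (nat_lit 78) (nat_lit 0) (nat_lit 0) (XT.lf (nat_lit 0) (nat_lit 1119541342390) (nat_lit 76) (nat_lit 534119973661) (nat_lit 76) (nat_lit 530360793497) (nat_lit 1) (nat_lit 4) (nat_lit 2) (nat_lit 5)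 (nat_lit 2) (nat_lit 4) (nat_lit 336) (nat_lit 221) (nat_lit 163)) (XT.nd (nat_lit 78) (nat_lit 0) (nat_lit 0) (XT.lf (nat_lit 0) (nat_lit 1211600052136) (nat_lit 76) (nat_lit 575398069236) (nat_lit 76) (nat_lit 571635644082) (nat_lit 1) (nat_lit 4) (nat_lit 2) (nat_lit 5) (nat_lit 2) (nat_lit 4) (nat_lit 337) (nat_lit 221) (nat_lit 162)) (XT.lf (nat_lit 0) (nat_lit 1311019446863) (nat_lit 76) (nat_lit 619980256884) (nat_lit 76) (nat_lit 616214827110) (nat_lit 1) (nat_lit 4) (nat_lit 2) (nat_lit 5) (nat_lit 2) (nat_lit 4) (nat_lit 338) (nat_lit 221) (nat_lit 161)))) (XT.nd (nat_lit 78) (nat_lit 0) (nat_lit 0) (XT.lf (nat_lit 0) (nat_lit 1418388678542) (nat_lit 76) (nat_lit 668130727347) (nat_lit 76) (nat_lit 664362515518) (nat_lit 1) (nat_lit 4) (nat_lit 2) (nat_lit 5) (nat_lit 2) (nat_lit 4) (nat_lit 339) (nat_lit 221) (nat_lit 160)) (XT.nd (nat_lit 32526) (nat_lit 0) (nat_lit 304)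 (XT.lf (nat_lit 0) (nat_lit 1534344009284) (nat_lit 76) (nat_lit 720134816746) (nat_lit 76) (nat_lit 716364028940) (nat_lit 1) (nat_lit 4) (nat_lit 2) (nat_lit 5) (nat_lit 2) (nat_lit 4) (nat_lit 340) (nat_lit 221) (nat_lit 159)) (XT.lf (nat_lit 0) (nat_lit 5464078722) (nat_lit 152) (nat_lit 1195455437) (nat_lit 0) (nat_lit 5464078722) (nat_lit 5) (nat_lit 5) (nat_lit 7) (nat_lit 4) (nat_lit 5) (nat_lit 4) (nat_lit 276) (nat_lit 222) (nat_lit 222)))))) (XT.nd (nat_lit 468) (nat_lit 0) (nat_lit 0) (XT.nd (nat_lit 234) (nat_lit 152) (nat_lit 0) (XT.nd (nat_lit 78) (nat_lit 0) (nat_lit 0) (XT.lf (nat_lit 0) (nat_lit 3809172333) (nat_lit 76) (nat_lit 11206696229) (nat_lit 76) (nat_lit 10878118107) (nat_lit 4) (nat_lit 4) (nat_lit 5) (nat_lit 5) (nat_lit 5) (nat_lit 4) (nat_lit 277) (nat_lit 222) (nat_lit 221)) (XT.nd (nat_lit 78) (nat_lit 0) (nat_lit 0) (XT.lf (nat_lit 0) (nat_lit 10322978386)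 (nat_lit 76) (nat_lit 8995819627) (nat_lit 76) (nat_lit 8363002503) (nat_lit 4) (nat_lit 4) (nat_lit 5) (nat_lit 5) (nat_lit 5) (nat_lit 4) (nat_lit 278) (nat_lit 222) (nat_lit 220)) (XT.lf (nat_lit 0) (nat_lit 17063206488) (nat_lit 76) (nat_lit 6738708763) (nat_lit 76) (nat_lit 5824188860) (nat_lit 4) (nat_lit 4) (nat_lit 5) (nat_lit 5) (nat_lit 5) (nat_lit 4) (nat_lit 279) (nat_lit 222) (nat_lit 219)))) (XT.nd (nat_lit 78) (nat_lit 152) (nat_lit 0) (XT.lf (nat_lit 0) (nat_lit 24069798730) (nat_lit 76) (nat_lit 4421988164) (nat_lit 76) (nat_lit 3246632354) (nat_lit 4) (nat_lit 4) (nat_lit 5) (nat_lit 5) (nat_lit 5) (nat_lit 4) (nat_lit 280) (nat_lit 222) (nat_lit 218)) (XT.nd (nat_lit 78) (nat_lit 152) (nat_lit 0) (XT.lf (nat_lit 0) (nat_lit 31384275659) (nat_lit 76) (nat_lit 2031929117) (nat_lit 76) (nat_lit 615058577) (nat_lit 4) (nat_lit 4) (nat_lit 5) (nat_lit 5) (nat_lit 5) (nat_lit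 4) (nat_lit 281) (nat_lit 222) (nat_lit 217)) (XT.lf (nat_lit 0) (nat_lit 2058247879) (nat_lit 152) (nat_lit 33910573105) (nat_lit 0) (nat_lit 539270760) (nat_lit 2) (nat_lit 5) (nat_lit 4) (nat_lit 4) (nat_lit 2) (nat_lit 4) (nat_lit 282) (nat_lit 222) (nat_lit 216))))) (XT.nd (nat_lit 234) (nat_lit 0) (nat_lit 0) (XT.nd (nat_lit 78) (nat_lit 0) (nat_lit 0) (XT.lf (nat_lit 0) (nat_lit 4907078797) (nat_lit 152) (nat_lit 31078970957) (nat_lit 0) (nat_lit 3196379500) (nat_lit 2) (nat_lit 5) (nat_lit 4) (nat_lit 4) (nat_lit 2) (nat_lit 4) (nat_lit 283) (nat_lit 222) (nat_lit 215)) (XT.nd (nat_lit 78) (nat_lit 0) (nat_lit 0) (XT.lf (nat_lit 0) (nat_lit 7861462987) (nat_lit 152) (nat_lit 28246010712) (nat_lit 0) (nat_lit 5973243154) (nat_lit 2) (nat_lit 5) (nat_lit 4) (nat_lit 4) (nat_lit 2) (nat_lit 4) (nat_lit 284) (nat_lit 222) (nat_lit 214)) (XT.lf (nat_lit 0) (nat_lit 10938907911)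 (nat_lit 152) (nat_lit 25394904456) (nat_lit 0) (nat_lit 8886317212) (nat_lit 2) (nat_lit 5) (nat_lit 4) (nat_lit 4) (nat_lit 2) (nat_lit 4) (nat_lit 285) (nat_lit 222) (nat_lit 213)))) (XT.nd (nat_lit 156) (nat_lit 0) (nat_lit 0) (XT.nd (nat_lit 78) (nat_lit 0) (nat_lit 0) (XT.lf (nat_lit 0) (nat_lit 14157650279) (nat_lit 152) (nat_lit 22508756745) (nat_lit 0) (nat_lit 11952864334) (nat_lit 2) (nat_lit 5) (nat_lit 4) (nat_lit 4) (nat_lit 2) (nat_lit 4) (nat_lit 286) (nat_lit 222) (nat_lit 212)) (XT.lf (nat_lit 0) (nat_lit 17536764121) (nat_lit 152) (nat_lit 19570464481) (nat_lit 0) (nat_lit 15191056652) (nat_lit 2) (nat_lit 5) (nat_lit 4) (nat_lit 4) (nat_lit 2) (nat_lit 4) (nat_lit 287) (nat_lit 222) (nat_lit 211))) (XT.nd (nat_lit 78) (nat_lit 0) (nat_lit 0) (XT.lf (nat_lit 0) (nat_lit 21096273815) (nat_lit 152) (nat_lit 16562615563) (nat_lit 0) (nat_lit 18620083452) (nat_lit 2)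 (nat_lit 5) (nat_lit 4) (nat_lit 4) (nat_lit 2) (nat_lit 4) (nat_lit 288) (nat_lit 222) (nat_lit 210)) (XT.lf (nat_lit 0) (nat_lit 24857272751) (nat_lit 152) (nat_lit 13467385701) (nat_lit 0) (nat_lit 22260264895) (nat_lit 2) (nat_lit 5) (nat_lit 4) (nat_lit 4) (nat_lit 2) (nat_lit 4) (nat_lit 289) (nat_lit 222) (nat_lit 209))))))))
noncomputable def xc21 : XT := (XT.nd (nat_lit 1950) (nat_lit 0) (nat_lit 0) (XT.nd (nat_lit 936) (nat_lit 0) (nat_lit 0) (XT.nd (nat_lit 468) (nat_lit 0) (nat_lit 0) (XT.nd (nat_lit 234) (nat_lit 76) (nat_lit 0) (XT.nd (nat_lit 78) (nat_lit 0) (nat_lit 0) (XT.lf (nat_lit 0) (nat_lit 28842048331) (nat_lit 152) (nat_lit 10266432790) (nat_lit 0) (nat_lit 26133172425) (nat_lit 2) (nat_lit 5) (nat_lit 4) (nat_lit 4) (nat_lit 2) (nat_lit 4) (nat_lit 290) (nat_lit 222) (nat_lit 208)) (XT.nd (nat_lit 78) (nat_lit 0) (nat_lit 0) (XT.lf (nat_lit 0) (nat_lit 33074214039)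 (nat_lit 152) (nat_lit 6940788223) (nat_lit 0) (nat_lit 30261756606) (nat_lit 2) (nat_lit 5) (nat_lit 4) (nat_lit 4) (nat_lit 2) (nat_lit 4) (nat_lit 291) (nat_lit 222) (nat_lit 207)) (XT.lf (nat_lit 0) (nat_lit 37578849377) (nat_lit 152) (nat_lit 3470744475) (nat_lit 0) (nat_lit 34670483122) (nat_lit 2) (nat_lit 5) (nat_lit 4) (nat_lit 4) (nat_lit 2) (nat_lit 4) (nat_lit 292) (nat_lit 222) (nat_lit 206)))) (XT.nd (nat_lit 78) (nat_lit 0) (nat_lit 0) (XT.lf (nat_lit 0) (nat_lit 172911404) (nat_lit 76) (nat_lit 42213895597) (nat_lit 76) (nat_lit 39216724877) (nat_lit 1) (nat_lit 4) (nat_lit 2) (nat_lit 5) (nat_lit 2) (nat_lit 4) (nat_lit 293) (nat_lit 222) (nat_lit 205)) (XT.nd (nat_lit 78) (nat_lit 0) (nat_lit 0) (XT.lf (nat_lit 0) (nat_lit 4195654645) (nat_lit 76) (nat_lit 43419329252) (nat_lit 76) (nat_lit 40339932176) (nat_lit 1) (nat_lit 4) (nat_lit 2) (nat_lit 5) (nat_lit 2) (nat_lit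 4) (nat_lit 294) (nat_lit 222) (nat_lit 204)) (XT.lf (nat_lit 0) (nat_lit 8438560471) (nat_lit 76) (nat_lit 44767934432) (nat_lit 76) (nat_lit 41612401841) (nat_lit 1) (nat_lit 4) (nat_lit 2) (nat_lit 5) (nat_lit 2) (nat_lit 4) (nat_lit 295) (nat_lit 222) (nat_lit 203))))) (XT.nd (nat_lit 234) (nat_lit 0) (nat_lit 0) (XT.nd (nat_lit 78) (nat_lit 0) (nat_lit 0) (XT.lf (nat_lit 0) (nat_lit 12926772028) (nat_lit 76) (nat_lit 46267702871) (nat_lit 76) (nat_lit 43041674434) (nat_lit 1) (nat_lit 4) (nat_lit 2) (nat_lit 5) (nat_lit 2) (nat_lit 4) (nat_lit 296) (nat_lit 222) (nat_lit 202)) (XT.nd (nat_lit 78) (nat_lit 0) (nat_lit 0) (XT.lf (nat_lit 0) (nat_lit 17686886125) (nat_lit 76) (nat_lit 47927522086) (nat_lit 76) (nat_lit 44636219716) (nat_lit 1) (nat_lit 4) (nat_lit 2) (nat_lit 5) (nat_lit 2) (nat_lit 4) (nat_lit 297) (nat_lit 222) (nat_lit 201)) (XT.lf (nat_lit 0) (nat_lit 22747110847)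 (nat_lit 76) (nat_lit 49757228043) (nat_lit 76) (nat_lit 46405486847) (nat_lit 1) (nat_lit 4) (nat_lit 2) (nat_lit 5) (nat_lit 2) (nat_lit 4) (nat_lit 298) (nat_lit 222) (nat_lit 200)))) (XT.nd (nat_lit 78) (nat_lit 0) (nat_lit 0) (XT.lf (nat_lit 0) (nat_lit 28137432709) (nat_lit 76) (nat_lit 51767663444) (nat_lit 76) (nat_lit 48359960372) (nat_lit 1) (nat_lit 4) (nat_lit 2) (nat_lit 5) (nat_lit 2) (nat_lit 4) (nat_lit 299) (nat_lit 222) (nat_lit 199)) (XT.nd (nat_lit 78) (nat_lit 0) (nat_lit 0) (XT.lf (nat_lit 0) (nat_lit 33889794360) (nat_lit 76) (nat_lit 53970741980) (nat_lit 76) (nat_lit 50511222355) (nat_lit 1) (nat_lit 4) (nat_lit 2) (nat_lit 5) (nat_lit 2) (nat_lit 4) (nat_lit 300) (nat_lit 222) (nat_lit 198)) (XT.lf (nat_lit 0) (nat_lit 40038283869) (nat_lit 76) (nat_lit 56379518931) (nat_lit 76) (nat_lit 52872021017) (nat_lit 1) (nat_lit 4) (nat_lit 2) (nat_lit 5) (nat_lit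 2) (nat_lit 4) (nat_lit 301) (nat_lit 222) (nat_lit 197)))))) (XT.nd (nat_lit 468) (nat_lit 0) (nat_lit 0) (XT.nd (nat_lit 234) (nat_lit 0) (nat_lit 0) (XT.nd (nat_lit 78) (nat_lit 0) (nat_lit 0) (XT.lf (nat_lit 0) (nat_lit 46619336729) (nat_lit 76) (nat_lit 59008268531) (nat_lit 76) (nat_lit 55456346276) (nat_lit 1) (nat_lit 4) (nat_lit 2) (nat_lit 5) (nat_lit 2) (nat_lit 4) (nat_lit 302) (nat_lit 222) (nat_lit 196)) (XT.nd (nat_lit 78) (nat_lit 0) (nat_lit 0) (XT.lf (nat_lit 0) (nat_lit 53671951773) (nat_lit 76) (nat_lit 61872568555) (nat_lit 76) (nat_lit 58279512650) (nat_lit 1) (nat_lit 4) (nat_lit 2) (nat_lit 5) (nat_lit 2) (nat_lit 4) (nat_lit 303) (nat_lit 222) (nat_lit 195)) (XT.lf (nat_lit 0) (nat_lit 61237922274) (nat_lit 76) (nat_lit 64989392634) (nat_lit 76) (nat_lit 61358250016) (nat_lit 1) (nat_lit 4) (nat_lit 2) (nat_lit 5) (nat_lit 2) (nat_lit 4) (nat_lit 304) (nat_lit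 222) (nat_lit 194)))) (XT.nd (nat_lit 78) (nat_lit 0) (nat_lit 0) (XT.lf (nat_lit 0) (nat_lit 69362083612) (nat_lit 76) (nat_lit 68377210835) (nat_lit 76) (nat_lit 64710802743) (nat_lit 1) (nat_lit 4) (nat_lit 2) (nat_lit 5) (nat_lit 2) (nat_lit 4) (nat_lit 305) (nat_lit 222) (nat_lit 193)) (XT.nd (nat_lit 78) (nat_lit 0) (nat_lit 0) (XT.lf (nat_lit 0) (nat_lit 78092578968) (nat_lit 76) (nat_lit 72056099119) (nat_lit 76) (nat_lit 68357037809) (nat_lit 1) (nat_lit 4) (nat_lit 2) (nat_lit 5) (nat_lit 2) (nat_lit 4) (nat_lit 306) (nat_lit 222) (nat_lit 192)) (XT.lf (nat_lit 0) (nat_lit 87481144608) (nat_lit 76) (nat_lit 76047858305) (nat_lit 76) (nat_lit 72318562535) (nat_lit 1) (nat_lit 4) (nat_lit 2) (nat_lit 5) (nat_lit 2) (nat_lit 4) (nat_lit 307) (nat_lit 222) (nat_lit 191))))) (XT.nd (nat_lit 234) (nat_lit 0) (nat_lit 0) (XT.nd (nat_lit 78) (nat_lit 0) (nat_lit 0) (XT.lf (nat_lit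 0) (nat_lit 97583416479) (nat_lit 76) (nat_lit 80376143262) (nat_lit 76) (nat_lit 76618852621) (nat_lit 1) (nat_lit 4) (nat_lit 2) (nat_lit 5) (nat_lit 2) (nat_lit 4) (nat_lit 308) (nat_lit 222) (nat_lit 190)) (XT.nd (nat_lit 78) (nat_lit 0) (nat_lit 0) (XT.lf (nat_lit 0) (nat_lit 108459259894) (nat_lit 76) (nat_lit 85066603086) (nat_lit 76) (nat_lit 81283391268) (nat_lit 1) (nat_lit 4) (nat_lit 2) (nat_lit 5) (nat_lit 2) (nat_lit 4) (nat_lit 309) (nat_lit 222) (nat_lit 189)) (XT.lf (nat_lit 0) (nat_lit 120173124296) (nat_lit 76) (nat_lit 90147033095) (nat_lit 76) (nat_lit 86339820188) (nat_lit 1) (nat_lit 4) (nat_lit 2) (nat_lit 5) (nat_lit 2) (nat_lit 4) (nat_lit 310) (nat_lit 222) (nat_lit 188)))) (XT.nd (nat_lit 156) (nat_lit 0) (nat_lit 0) (XT.nd (nat_lit 78) (nat_lit 0) (nat_lit 0) (XT.lf (nat_lit 0) (nat_lit 132794425177) (nat_lit 76) (nat_lit 95647539540) (nat_lit 76) (nat_lit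 91818103402) (nat_lit 1) (nat_lit 4) (nat_lit 2) (nat_lit 5) (nat_lit 2) (nat_lit 4) (nat_lit 311) (nat_lit 222) (nat_lit 187)) (XT.lf (nat_lit 0) (nat_lit 146397955433) (nat_lit 76) (nat_lit 101600718016) (nat_lit 76) (nat_lit 97750704813) (nat_lit 1) (nat_lit 4) (nat_lit 2) (nat_lit 5) (nat_lit 2) (nat_lit 4) (nat_lit 312) (nat_lit 222) (nat_lit 186))) (XT.nd (nat_lit 78) (nat_lit 0) (nat_lit 0) (XT.lf (nat_lit 0) (nat_lit 161064328575) (nat_lit 76) (nat_lit 108041846617) (nat_lit 76) (nat_lit 104172780575) (nat_lit 1) (nat_lit 4) (nat_lit 2) (nat_lit 5) (nat_lit 2) (nat_lit 4) (nat_lit 313) (nat_lit 222) (nat_lit 185)) (XT.lf (nat_lit 0) (nat_lit 176880456444) (nat_lit 76) (nat_lit 115009094994) (nat_lit 76) (nat_lit 111122387435) (nat_lit 1) (nat_lit 4) (nat_lit 2) (nat_lit 5) (nat_lit 2) (nat_lit 4) (nat_lit 314) (nat_lit 222) (nat_lit 184))))))) (XT.nd (nat_lit 936) (nat_lit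 0) (nat_lit 0) (XT.nd (nat_lit 468) (nat_lit 0) (nat_lit 0) (XT.nd (nat_lit 234) (nat_lit 0) (nat_lit 0) (XT.nd (nat_lit 78) (nat_lit 0) (nat_lit 0) (XT.lf (nat_lit 0) (nat_lit 193940064243) (nat_lit 76) (nat_lit 122543750545) (nat_lit 76) (nat_lit 118640708247) (nat_lit 1) (nat_lit 4) (nat_lit 2) (nat_lit 5) (nat_lit 2) (nat_lit 4) (nat_lit 315) (nat_lit 222) (nat_lit 183)) (XT.nd (nat_lit 78) (nat_lit 0) (nat_lit 0) (XT.lf (nat_lit 0) (nat_lit 212344245944) (nat_lit 76) (nat_lit 130690463080) (nat_lit 76) (nat_lit 126772296025) (nat_lit 1) (nat_lit 4) (nat_lit 2) (nat_lit 5) (nat_lit 2) (nat_lit 4) (nat_lit 316) (nat_lit 222) (nat_lit 182)) (XT.lf (nat_lit 0) (nat_lit 232202063364) (nat_lit 76) (nat_lit 139497509415) (nat_lit 76) (nat_lit 135565337954) (nat_lit 1) (nat_lit 4) (nat_lit 2) (nat_lit 5) (nat_lit 2) (nat_lit 4) (nat_lit 317) (nat_lit 222) (nat_lit 181)))) (XT.nd (nat_lit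 78) (nat_lit 0) (nat_lit 0) (XT.lf (nat_lit 0) (nat_lit 253631192458) (nat_lit 76) (nat_lit 149017079454) (nat_lit 76) (nat_lit 145071940951) (nat_lit 1) (nat_lit 4) (nat_lit 2) (nat_lit 5) (nat_lit 2) (nat_lit 4) (nat_lit 318) (nat_lit 222) (nat_lit 180)) (XT.nd (nat_lit 78) (nat_lit 0) (nat_lit 0) (XT.lf (nat_lit 0) (nat_lit 276758620658) (nat_lit 76) (nat_lit 159305585463) (nat_lit 76) (nat_lit 155348440440) (nat_lit 1) (nat_lit 4) (nat_lit 2) (nat_lit 5) (nat_lit 2) (nat_lit 4) (nat_lit 319) (nat_lit 222) (nat_lit 179)) (XT.lf (nat_lit 0) (nat_lit 301721399390) (nat_lit 76) (nat_lit 170423996367) (nat_lit 76) (nat_lit 166455734196) (nat_lit 1) (nat_lit 4) (nat_lit 2) (nat_lit 5) (nat_lit 2) (nat_lit 4) (nat_lit 320) (nat_lit 222) (nat_lit 178))))) (XT.nd (nat_lit 234) (nat_lit 0) (nat_lit 0) (XT.nd (nat_lit 78) (nat_lit 0) (nat_lit 0) (XT.lf (nat_lit 0) (nat_lit 328667456232) (nat_lit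 76) (nat_lit 182438199046) (nat_lit 76) (nat_lit 178459643219) (nat_lit 1) (nat_lit 4) (nat_lit 2) (nat_lit 5) (nat_lit 2) (nat_lit 4) (nat_lit 321) (nat_lit 222) (nat_lit 177)) (XT.nd (nat_lit 78) (nat_lit 0) (nat_lit 0) (XT.lf (nat_lit 0) (nat_lit 357756471521) (nat_lit 76) (nat_lit 195419388774) (nat_lit 76) (nat_lit 191431301784) (nat_lit 1) (nat_lit 4) (nat_lit 2) (nat_lit 5) (nat_lit 2) (nat_lit 4) (nat_lit 322) (nat_lit 222) (nat_lit 176)) (XT.lf (nat_lit 0) (nat_lit 389160824606) (nat_lit 76) (nat_lit 209444491121) (nat_lit 76) (nat_lit 205447578980) (nat_lit 1) (nat_lit 4) (nat_lit 2) (nat_lit 5) (nat_lit 2) (nat_lit 4) (nat_lit 323) (nat_lit 222) (nat_lit 175)))) (XT.nd (nat_lit 78) (nat_lit 0) (nat_lit 0) (XT.lf (nat_lit 0) (nat_lit 423066615359) (nat_lit 76) (nat_lit 224596617804) (nat_lit 76) (nat_lit 220591534227) (nat_lit 1) (nat_lit 4) (nat_lit 2) (nat_lit 5) (nat_lit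 2) (nat_lit 4) (nat_lit 324) (nat_lit 222) (nat_lit 174)) (XT.nd (nat_lit 78) (nat_lit 0) (nat_lit 0) (XT.lf (nat_lit 0) (nat_lit 459674766982) (nat_lit 76) (nat_lit 240965559203) (nat_lit 76) (nat_lit 236952909482) (nat_lit 1) (nat_lit 4) (nat_lit 2) (nat_lit 5) (nat_lit 2) (nat_lit 4) (nat_lit 325) (nat_lit 222) (nat_lit 173)) (XT.lf (nat_lit 0) (nat_lit 499202216672) (nat_lit 76) (nat_lit 258648316453) (nat_lit 76) (nat_lit 254628661043) (nat_lit 1) (nat_lit 4) (nat_lit 2) (nat_lit 5) (nat_lit 2) (nat_lit 4) (nat_lit 326) (nat_lit 222) (nat_lit 172)))))) (XT.nd (nat_lit 468) (nat_lit 0) (nat_lit 0) (XT.nd (nat_lit 234) (nat_lit 0) (nat_lit 0) (XT.nd (nat_lit 78) (nat_lit 0) (nat_lit 0) (XT.lf (nat_lit 0) (nat_lit 541883201166) (nat_lit 76) (nat_lit 277749676263) (nat_lit 76) (nat_lit 273723534104) (nat_lit 1) (nat_lit 4) (nat_lit 2) (nat_lit 5) (nat_lit 2) (nat_lit 4) (nat_lit 327)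 (nat_lit 222) (nat_lit 171)) (XT.nd (nat_lit 78) (nat_lit 0) (nat_lit 0) (XT.lf (nat_lit 0) (nat_lit 587970644818) (nat_lit 76) (nat_lit 298382831877) (nat_lit 76) (nat_lit 294350683468) (nat_lit 1) (nat_lit 4) (nat_lit 2) (nat_lit 5) (nat_lit 2) (nat_lit 4) (nat_lit 328) (nat_lit 222) (nat_lit 170)) (XT.lf (nat_lit 0) (nat_lit 637737658405) (nat_lit 76) (nat_lit 320670053846) (nat_lit 76) (nat_lit 316632344095) (nat_lit 1) (nat_lit 4) (nat_lit 2) (nat_lit 5) (nat_lit 2) (nat_lit 4) (nat_lit 329) (nat_lit 222) (nat_lit 169)))) (XT.nd (nat_lit 78) (nat_lit 0) (nat_lit 0) (XT.lf (nat_lit 0) (nat_lit 691479157563) (nat_lit 76) (nat_lit 344743414597) (nat_lit 76) (nat_lit 340700555455) (nat_lit 1) (nat_lit 4) (nat_lit 2) (nat_lit 5) (nat_lit 2) (nat_lit 4) (nat_lit 330) (nat_lit 222) (nat_lit 168)) (XT.nd (nat_lit 78) (nat_lit 0) (nat_lit 0) (XT.lf (nat_lit 0) (nat_lit 749513610434) (nat_lit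 76) (nat_lit 370745571082) (nat_lit 76) (nat_lit 366697943986) (nat_lit 1) (nat_lit 4) (nat_lit 2) (nat_lit 5) (nat_lit 2) (nat_lit 4) (nat_lit 331) (nat_lit 222) (nat_lit 167)) (XT.lf (nat_lit 0) (nat_lit 812184924889) (nat_lit 76) (nat_lit 398830610155) (nat_lit 76) (nat_lit 394778568286) (nat_lit 1) (nat_lit 4) (nat_lit 2) (nat_lit 5) (nat_lit 2) (nat_lit 4) (nat_lit 332) (nat_lit 222) (nat_lit 166))))) (XT.nd (nat_lit 234) (nat_lit 0) (nat_lit 0) (XT.nd (nat_lit 78) (nat_lit 0) (nat_lit 0) (XT.lf (nat_lit 0) (nat_lit 879864486493) (nat_lit 76) (nat_lit 429164961677) (nat_lit 76) (nat_lit 425108832056) (nat_lit 1) (nat_lit 4) (nat_lit 2) (nat_lit 5) (nat_lit 2) (nat_lit 4) (nat_lit 333) (nat_lit 222) (nat_lit 165)) (XT.nd (nat_lit 78) (nat_lit 0) (nat_lit 0) (XT.lf (nat_lit 0) (nat_lit 952953359316) (nat_lit 76) (nat_lit 461928384767) (nat_lit 76) (nat_lit 457868470190) (nat_lit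 1) (nat_lit 4) (nat_lit 2) (nat_lit 5) (nat_lit 2) (nat_lit 4) (nat_lit 334) (nat_lit 222) (nat_lit 164)) (XT.lf (nat_lit 0) (nat_lit 1031884662604) (nat_lit 76) (nat_lit 497315033045) (nat_lit 76) (nat_lit 493251613880) (nat_lit 1) (nat_lit 4) (nat_lit 2) (nat_lit 5) (nat_lit 2) (nat_lit 4) (nat_lit 335) (nat_lit 222) (nat_lit 163)))) (XT.nd (nat_lit 156) (nat_lit 0) (nat_lit 0) (XT.nd (nat_lit 78) (nat_lit 0) (nat_lit 0) (XT.lf (nat_lit 0) (nat_lit 1117126137414) (nat_lit 76) (nat_lit 535534605167) (nat_lit 76) (nat_lit 531467941012) (nat_lit 1) (nat_lit 4) (nat_lit 2) (nat_lit 5) (nat_lit 2) (nat_lit 4) (nat_lit 336) (nat_lit 222) (nat_lit 162)) (XT.lf (nat_lit 0) (nat_lit 1209182918410) (nat_lit 76) (nat_lit 576813587486) (nat_lit 76) (nat_lit 572743918711) (nat_lit 1) (nat_lit 4) (nat_lit 2) (nat_lit 5) (nat_lit 2) (nat_lit 4) (nat_lit 337) (nat_lit 222) (nat_lit 161))) (XT.nd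 (nat_lit 78) (nat_lit 0) (nat_lit 0) (XT.lf (nat_lit 0) (nat_lit 1308600527259) (nat_lit 76) (nat_lit 621396596193) (nat_lit 76) (nat_lit 617324145362) (nat_lit 1) (nat_lit 4) (nat_lit 2) (nat_lit 5) (nat_lit 2) (nat_lit 4) (nat_lit 338) (nat_lit 222) (nat_lit 160)) (XT.lf (nat_lit 0) (nat_lit 1415968105346) (nat_lit 76) (nat_lit 669547826896) (nat_lit 76) (nat_lit 665472800088) (nat_lit 1) (nat_lit 4) (nat_lit 2) (nat_lit 5) (nat_lit 2) (nat_lit 4) (nat_lit 339) (nat_lit 222) (nat_lit 159))))))))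
noncomputable def xc22 : XT := (XT.nd (nat_lit 34242) (nat_lit 0) (nat_lit 0) (XT.nd (nat_lit 33228) (nat_lit 0) (nat_lit 0) (XT.nd (nat_lit 32760) (nat_lit 0) (nat_lit 76) (XT.nd (nat_lit 32526) (nat_lit 0) (nat_lit 228) (XT.nd (nat_lit 32370) (nat_lit 0) (nat_lit 304) (XT.lf (nat_lit 0) (nat_lit 1531921904986) (nat_lit 76) (nat_lit 721552620222) (nat_lit 76) (nat_lit 717475208249) (nat_lit 1) (nat_lit 4) (nat_lit 2) (nat_lit 5) (nat_lit 2) (nat_lit 4) (nat_lit 340) (nat_lit 222) (nat_lit 158)) (XT.nd (nat_lit 78) (nat_lit 0) (nat_lit 0) (XT.lf (nat_lit 0) (nat_lit 1871211552) (nat_lit 152) (nat_lit 6923379679) (nat_lit 0) (nat_lit 1871211552) (nat_lit 5) (nat_lit 5) (nat_lit 7) (nat_lit 4) (nat_lit 5) (nat_lit 4) (nat_lit 274) (nat_lit 223) (nat_lit 223)) (XT.lf (nat_lit 0) (nat_lit 7413412616) (nat_lit 152) (nat_lit 8257629788) (nat_lit 0) (nat_lit 7058548244) (nat_lit 5) (nat_lit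 5) (nat_lit 7) (nat_lit 4) (nat_lit 5) (nat_lit 4) (nat_lit 275) (nat_lit 223) (nat_lit 222)))) (XT.nd (nat_lit 78) (nat_lit 76) (nat_lit 0) (XT.lf (nat_lit 0) (nat_lit 11195003785) (nat_lit 152) (nat_lit 2547893300) (nat_lit 0) (nat_lit 10511561291) (nat_lit 5) (nat_lit 5) (nat_lit 7) (nat_lit 4) (nat_lit 5) (nat_lit 4) (nat_lit 276) (nat_lit 223) (nat_lit 221)) (XT.nd (nat_lit 78) (nat_lit 0) (nat_lit 0) (XT.lf (nat_lit 0) (nat_lit 3490915302) (nat_lit 76) (nat_lit 11702647335) (nat_lit 76) (nat_lit 10714965840) (nat_lit 4) (nat_lit 4) (nat_lit 5) (nat_lit 5) (nat_lit 5) (nat_lit 4) (nat_lit 277) (nat_lit 223) (nat_lit 220)) (XT.lf (nat_lit 0) (nat_lit 9863047107) (nat_lit 76) (nat_lit 9554576438) (nat_lit 76) (nat_lit 8285192163) (nat_lit 4) (nat_lit 4) (nat_lit 5) (nat_lit 5) (nat_lit 5) (nat_lit 4) (nat_lit 278) (nat_lit 223) (nat_lit 219))))) (XT.nd (nat_lit 234) (nat_lit 152)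 (nat_lit 0) (XT.nd (nat_lit 78) (nat_lit 0) (nat_lit 0) (XT.lf (nat_lit 0) (nat_lit 16472095349) (nat_lit 76) (nat_lit 7355619004) (nat_lit 76) (nat_lit 5825398822) (nat_lit 4) (nat_lit 4) (nat_lit 5) (nat_lit 5) (nat_lit 5) (nat_lit 4) (nat_lit 279) (nat_lit 223) (nat_lit 218)) (XT.nd (nat_lit 78) (nat_lit 0) (nat_lit 0) (XT.lf (nat_lit 0) (nat_lit 23357224759) (nat_lit 76) (nat_lit 5092744174) (nat_lit 76) (nat_lit 3321009263) (nat_lit 4) (nat_lit 4) (nat_lit 5) (nat_lit 5) (nat_lit 5) (nat_lit 4) (nat_lit 280) (nat_lit 223) (nat_lit 217)) (XT.lf (nat_lit 0) (nat_lit 30559236102) (nat_lit 76) (nat_lit 2752542319) (nat_lit 76) (nat_lit 757182659) (nat_lit 4) (nat_lit 4) (nat_lit 5) (nat_lit 5) (nat_lit 5) (nat_lit 4) (nat_lit 281) (nat_lit 223) (nat_lit 216)))) (XT.nd (nat_lit 78) (nat_lit 0) (nat_lit 0) (XT.lf (nat_lit 0) (nat_lit 1594654866) (nat_lit 76) (nat_lit 230861710) (nat_lit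 152) (nat_lit 34728475238) (nat_lit 2) (nat_lit 5) (nat_lit 3) (nat_lit 5) (nat_lit 4) (nat_lit 4) (nat_lit 282) (nat_lit 223) (nat_lit 215)) (XT.nd (nat_lit 78) (nat_lit 0) (nat_lit 0) (XT.lf (nat_lit 0) (nat_lit 4609971610) (nat_lit 152) (nat_lit 32230437414) (nat_lit 0) (nat_lit 2393173655) (nat_lit 2) (nat_lit 5) (nat_lit 4) (nat_lit 4) (nat_lit 2) (nat_lit 4) (nat_lit 283) (nat_lit 223) (nat_lit 214)) (XT.lf (nat_lit 0) (nat_lit 7509889453) (nat_lit 152) (nat_lit 29497713134) (nat_lit 0) (nat_lit 5128720632) (nat_lit 2) (nat_lit 5) (nat_lit 4) (nat_lit 4) (nat_lit 2) (nat_lit 4) (nat_lit 284) (nat_lit 223) (nat_lit 213)))))) (XT.nd (nat_lit 468) (nat_lit 76) (nat_lit 0) (XT.nd (nat_lit 234) (nat_lit 0) (nat_lit 0) (XT.nd (nat_lit 78) (nat_lit 0) (nat_lit 0) (XT.lf (nat_lit 0) (nat_lit 10536902574) (nat_lit 152) (nat_lit 26739417958) (nat_lit 0) (nat_lit 8003538507) (nat_lit 2)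 (nat_lit 5) (nat_lit 4) (nat_lit 4) (nat_lit 2) (nat_lit 4) (nat_lit 285) (nat_lit 223) (nat_lit 212)) (XT.nd (nat_lit 78) (nat_lit 0) (nat_lit 0) (XT.lf (nat_lit 0) (nat_lit 13708948829) (nat_lit 152) (nat_lit 23939206432) (nat_lit 0) (nat_lit 11034663238) (nat_lit 2) (nat_lit 5) (nat_lit 4) (nat_lit 4) (nat_lit 2) (nat_lit 4) (nat_lit 286) (nat_lit 223) (nat_lit 211)) (XT.lf (nat_lit 0) (nat_lit 17044825529) (nat_lit 152) (nat_lit 21080484710) (nat_lit 0) (nat_lit 14240057045) (nat_lit 2) (nat_lit 5) (nat_lit 4) (nat_lit 4) (nat_lit 2) (nat_lit 4) (nat_lit 287) (nat_lit 223) (nat_lit 210)))) (XT.nd (nat_lit 78) (nat_lit 0) (nat_lit 0) (XT.lf (nat_lit 0) (nat_lit 20564300832) (nat_lit 152) (nat_lit 18146312219) (nat_lit 0) (nat_lit 17638714854) (nat_lit 2) (nat_lit 5) (nat_lit 4) (nat_lit 4) (nat_lit 2) (nat_lit 4) (nat_lit 288) (nat_lit 223) (nat_lit 209)) (XT.nd (nat_lit 78) (nat_lit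 0) (nat_lit 0) (XT.lf (nat_lit 0) (nat_lit 24288230888) (nat_lit 152) (nat_lit 15119301271) (nat_lit 0) (nat_lit 21250776860) (nat_lit 2) (nat_lit 5) (nat_lit 4) (nat_lit 4) (nat_lit 2) (nat_lit 4) (nat_lit 289) (nat_lit 223) (nat_lit 208)) (XT.lf (nat_lit 0) (nat_lit 28238683430) (nat_lit 152) (nat_lit 11981514022) (nat_lit 0) (nat_lit 25097647875) (nat_lit 2) (nat_lit 5) (nat_lit 4) (nat_lit 4) (nat_lit 2) (nat_lit 4) (nat_lit 290) (nat_lit 223) (nat_lit 207))))) (XT.nd (nat_lit 234) (nat_lit 76) (nat_lit 0) (XT.nd (nat_lit 78) (nat_lit 0) (nat_lit 0) (XT.lf (nat_lit 0) (nat_lit 32439068548) (nat_lit 152) (nat_lit 8714356178) (nat_lit 0) (nat_lit 29202124171) (nat_lit 2) (nat_lit 5) (nat_lit 4) (nat_lit 4) (nat_lit 2) (nat_lit 4) (nat_lit 291) (nat_lit 223) (nat_lit 206)) (XT.nd (nat_lit 78) (nat_lit 0) (nat_lit 0) (XT.lf (nat_lit 0) (nat_lit 36914277413) (nat_lit 152) (nat_lit 5298466803)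 (nat_lit 0) (nat_lit 33588528572) (nat_lit 2) (nat_lit 5) (nat_lit 4) (nat_lit 4) (nat_lit 2) (nat_lit 4) (nat_lit 292) (nat_lit 223) (nat_lit 205)) (XT.lf (nat_lit 0) (nat_lit 41690829781) (nat_lit 152) (nat_lit 1713603590) (nat_lit 0) (nat_lit 38282854584) (nat_lit 2) (nat_lit 5) (nat_lit 4) (nat_lit 4) (nat_lit 2) (nat_lit 4) (nat_lit 293) (nat_lit 223) (nat_lit 204)))) (XT.nd (nat_lit 156) (nat_lit 0) (nat_lit 0) (XT.nd (nat_lit 78) (nat_lit 0) (nat_lit 0) (XT.lf (nat_lit 0) (nat_lit 2170030824) (nat_lit 76) (nat_lit 44679189617) (nat_lit 76) (nat_lit 41195078905) (nat_lit 1) (nat_lit 4) (nat_lit 2) (nat_lit 5) (nat_lit 2) (nat_lit 4) (nat_lit 294) (nat_lit 223) (nat_lit 203)) (XT.lf (nat_lit 0) (nat_lit 6367683412) (nat_lit 76) (nat_lit 46048600011) (nat_lit 76) (nat_lit 42493993451) (nat_lit 1) (nat_lit 4) (nat_lit 2) (nat_lit 5) (nat_lit 2) (nat_lit 4) (nat_lit 295) (nat_lit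 223) (nat_lit 202))) (XT.nd (nat_lit 78) (nat_lit 0) (nat_lit 0) (XT.lf (nat_lit 0) (nat_lit 10813993823) (nat_lit 76) (nat_lit 47567632537) (nat_lit 76) (nat_lit 43947752045) (nat_lit 1) (nat_lit 4) (nat_lit 2) (nat_lit 5) (nat_lit 2) (nat_lit 4) (nat_lit 296) (nat_lit 223) (nat_lit 201)) (XT.lf (nat_lit 0) (nat_lit 15535310563) (nat_lit 76) (nat_lit 49245288870) (nat_lit 76) (nat_lit 45564969552) (nat_lit 1) (nat_lit 4) (nat_lit 2) (nat_lit 5) (nat_lit 2) (nat_lit 4) (nat_lit 297) (nat_lit 223) (nat_lit 200))))))) (XT.nd (nat_lit 936) (nat_lit 0) (nat_lit 0) (XT.nd (nat_lit 468) (nat_lit 0) (nat_lit 0) (XT.nd (nat_lit 234) (nat_lit 0) (nat_lit 0) (XT.nd (nat_lit 78) (nat_lit 0) (nat_lit 0) (XT.lf (nat_lit 0) (nat_lit 20559611805) (nat_lit 76) (nat_lit 51091510676) (nat_lit 76) (nat_lit 47355229482) (nat_lit 1) (nat_lit 4) (nat_lit 2) (nat_lit 5) (nat_lit 2) (nat_lit 4) (nat_lit 298)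 (nat_lit 223) (nat_lit 199)) (XT.nd (nat_lit 78) (nat_lit 0) (nat_lit 0) (XT.lf (nat_lit 0) (nat_lit 25916671186) (nat_lit 76) (nat_lit 53117238531) (nat_lit 76) (nat_lit 49329140784) (nat_lit 1) (nat_lit 4) (nat_lit 2) (nat_lit 5) (nat_lit 2) (nat_lit 4) (nat_lit 299) (nat_lit 223) (nat_lit 198)) (XT.lf (nat_lit 0) (nat_lit 31638234244) (nat_lit 76) (nat_lit 55334476745) (nat_lit 76) (nat_lit 51498400710) (nat_lit 1) (nat_lit 4) (nat_lit 2) (nat_lit 5) (nat_lit 2) (nat_lit 4) (nat_lit 300) (nat_lit 223) (nat_lit 197)))) (XT.nd (nat_lit 78) (nat_lit 0) (nat_lit 0) (XT.lf (nat_lit 0) (nat_lit 37758206537) (nat_lit 76) (nat_lit 57756364510) (nat_lit 76) (nat_lit 53875864133) (nat_lit 1) (nat_lit 4) (nat_lit 2) (nat_lit 5) (nat_lit 2) (nat_lit 4) (nat_lit 301) (nat_lit 223) (nat_lit 196)) (XT.nd (nat_lit 78) (nat_lit 0) (nat_lit 0) (XT.lf (nat_lit 0) (nat_lit 44312854567) (nat_lit 76)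 (nat_lit 60397253753) (nat_lit 76) (nat_lit 56475619726) (nat_lit 1) (nat_lit 4) (nat_lit 2) (nat_lit 5) (nat_lit 2) (nat_lit 4) (nat_lit 302) (nat_lit 223) (nat_lit 195)) (XT.lf (nat_lit 0) (nat_lit 51341020694) (nat_lit 76) (nat_lit 63272794187) (nat_lit 76) (nat_lit 59313073447) (nat_lit 1) (nat_lit 4) (nat_lit 2) (nat_lit 5) (nat_lit 2) (nat_lit 4) (nat_lit 303) (nat_lit 223) (nat_lit 194))))) (XT.nd (nat_lit 234) (nat_lit 0) (nat_lit 0) (XT.nd (nat_lit 78) (nat_lit 0) (nat_lit 0) (XT.lf (nat_lit 0) (nat_lit 58884353310) (nat_lit 76) (nat_lit 66400026052) (nat_lit 76) (nat_lit 62405039838) (nat_lit 1) (nat_lit 4) (nat_lit 2) (nat_lit 5) (nat_lit 2) (nat_lit 4) (nat_lit 304) (nat_lit 223) (nat_lit 193)) (XT.nd (nat_lit 78) (nat_lit 0) (nat_lit 0) (XT.lf (nat_lit 0) (nat_lit 66987553644) (nat_lit 76) (nat_lit 69797481093) (nat_lit 76) (nat_lit 65769841661) (nat_lit 1) (nat_lit 4)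 (nat_lit 2) (nat_lit 5) (nat_lit 2) (nat_lit 4) (nat_lit 305) (nat_lit 223) (nat_lit 192)) (XT.lf (nat_lit 0) (nat_lit 75698640661) (nat_lit 76) (nat_lit 73485292377) (nat_lit 76) (nat_lit 69427418484) (nat_lit 1) (nat_lit 4) (nat_lit 2) (nat_lit 5) (nat_lit 2) (nat_lit 4) (nat_lit 306) (nat_lit 223) (nat_lit 191)))) (XT.nd (nat_lit 78) (nat_lit 0) (nat_lit 0) (XT.lf (nat_lit 0) (nat_lit 85069235618) (nat_lit 76) (nat_lit 77485313599) (nat_lit 76) (nat_lit 73399444836) (nat_lit 1) (nat_lit 4) (nat_lit 2) (nat_lit 5) (nat_lit 2) (nat_lit 4) (nat_lit 307) (nat_lit 223) (nat_lit 190)) (XT.nd (nat_lit 78) (nat_lit 0) (nat_lit 0) (XT.lf (nat_lit 0) (nat_lit 95154867967) (nat_lit 76) (nat_lit 81821248590) (nat_lit 76) (nat_lit 77709458650) (nat_lit 1) (nat_lit 4) (nat_lit 2) (nat_lit 5) (nat_lit 2) (nat_lit 4) (nat_lit 308) (nat_lit 223) (nat_lit 189)) (XT.lf (nat_lit 0) (nat_lit 106015304417)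 (nat_lit 76) (nat_lit 86518791779) (nat_lit 76) (nat_lit 82383000750) (nat_lit 1) (nat_lit 4) (nat_lit 2) (nat_lit 5) (nat_lit 2) (nat_lit 4) (nat_lit 309) (nat_lit 223) (nat_lit 188)))))) (XT.nd (nat_lit 468) (nat_lit 0) (nat_lit 0) (XT.nd (nat_lit 234) (nat_lit 0) (nat_lit 0) (XT.nd (nat_lit 78) (nat_lit 0) (nat_lit 0) (XT.lf (nat_lit 0) (nat_lit 117714903111) (nat_lit 76) (nat_lit 91605780459) (nat_lit 76) (nat_lit 87447766199) (nat_lit 1) (nat_lit 4) (nat_lit 2) (nat_lit 5) (nat_lit 2) (nat_lit 4) (nat_lit 310) (nat_lit 223) (nat_lit 187)) (XT.nd (nat_lit 78) (nat_lit 0) (nat_lit 0) (XT.lf (nat_lit 0) (nat_lit 130322995004) (nat_lit 76) (nat_lit 97112359748) (nat_lit 76) (nat_lit 92933768422) (nat_lit 1) (nat_lit 4) (nat_lit 2) (nat_lit 5) (nat_lit 2) (nat_lit 4) (nat_lit 311) (nat_lit 223) (nat_lit 186)) (XT.lf (nat_lit 0) (nat_lit 143914294714) (nat_lit 76) (nat_lit 103071161228)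 (nat_lit 76) (nat_lit 98873517063) (nat_lit 1) (nat_lit 4) (nat_lit 2) (nat_lit 5) (nat_lit 2) (nat_lit 4) (nat_lit 312) (nat_lit 223) (nat_lit 185)))) (XT.nd (nat_lit 78) (nat_lit 0) (nat_lit 0) (XT.lf (nat_lit 0) (nat_lit 158569343278) (nat_lit 76) (nat_lit 109517496313) (nat_lit 76) (nat_lit 105302210631) (nat_lit 1) (nat_lit 4) (nat_lit 2) (nat_lit 5) (nat_lit 2) (nat_lit 4) (nat_lit 313) (nat_lit 223) (nat_lit 184)) (XT.nd (nat_lit 78) (nat_lit 0) (nat_lit 0) (XT.lf (nat_lit 0) (nat_lit 174374985426) (nat_lit 76) (nat_lit 116489565509) (nat_lit 76) (nat_lit 112257945089) (nat_lit 1) (nat_lit 4) (nat_lit 2) (nat_lit 5) (nat_lit 2) (nat_lit 4) (nat_lit 314) (nat_lit 223) (nat_lit 183)) (XT.lf (nat_lit 0) (nat_lit 191424884224) (nat_lit 76) (nat_lit 124028684781) (nat_lit 76) (nat_lit 119781939604) (nat_lit 1) (nat_lit 4) (nat_lit 2) (nat_lit 5) (nat_lit 2) (nat_lit 4) (nat_lit 315)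 (nat_lit 223) (nat_lit 182))))) (XT.nd (nat_lit 234) (nat_lit 0) (nat_lit 0) (XT.nd (nat_lit 78) (nat_lit 0) (nat_lit 0) (XT.lf (nat_lit 0) (nat_lit 209820076109) (nat_lit 76) (nat_lit 132179530392) (nat_lit 76) (nat_lit 127918780809) (nat_lit 1) (nat_lit 4) (nat_lit 2) (nat_lit 5) (nat_lit 2) (nat_lit 4) (nat_lit 316) (nat_lit 223) (nat_lit 181)) (XT.nd (nat_lit 78) (nat_lit 0) (nat_lit 0) (XT.lf (nat_lit 0) (nat_lit 229669569625) (nat_lit 76) (nat_lit 140990403648) (nat_lit 76) (nat_lit 136716687024) (nat_lit 1) (nat_lit 4) (nat_lit 2) (nat_lit 5) (nat_lit 2) (nat_lit 4) (nat_lit 317) (nat_lit 223) (nat_lit 180)) (XT.lf (nat_lit 0) (nat_lit 251090991401) (nat_lit 76) (nat_lit 150513517133) (nat_lit 76) (nat_lit 146227793988) (nat_lit 1) (nat_lit 4) (nat_lit 2) (nat_lit 5) (nat_lit 2) (nat_lit 4) (nat_lit 318) (nat_lit 223) (nat_lit 179)))) (XT.nd (nat_lit 156) (nat_lit 0) (nat_lit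 0) (XT.nd (nat_lit 78) (nat_lit 0) (nat_lit 0) (XT.lf (nat_lit 0) (nat_lit 274211283195) (nat_lit 76) (nat_lit 160805304110) (nat_lit 76) (nat_lit 156508463817) (nat_lit 1) (nat_lit 4) (nat_lit 2) (nat_lit 5) (nat_lit 2) (nat_lit 4) (nat_lit 319) (nat_lit 223) (nat_lit 178)) (XT.lf (nat_lit 0) (nat_lit 299167454144) (nat_lit 76) (nat_lit 171926752948) (nat_lit 76) (nat_lit 167619618999) (nat_lit 1) (nat_lit 4) (nat_lit 2) (nat_lit 5) (nat_lit 2) (nat_lit 4) (nat_lit 320) (nat_lit 223) (nat_lit 177))) (XT.nd (nat_lit 78) (nat_lit 0) (nat_lit 0) (XT.lf (nat_lit 0) (nat_lit 326107392669) (nat_lit 76) (nat_lit 183943768529) (nat_lit 76) (nat_lit 179627103417) (nat_lit 1) (nat_lit 4) (nat_lit 2) (nat_lit 5) (nat_lit 2) (nat_lit 4) (nat_lit 321) (nat_lit 223) (nat_lit 176)) (XT.lf (nat_lit 0) (nat_lit 355190742849) (nat_lit 76) (nat_lit 196927562796) (nat_lit 76) (nat_lit 192602072533) (nat_lit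 1) (nat_lit 4) (nat_lit 2) (nat_lit 5) (nat_lit 2) (nat_lit 4) (nat_lit 322) (nat_lit 223) (nat_lit 175))))))))
noncomputable def xc23 : XT := (XT.nd (nat_lit 34086) (nat_lit 0) (nat_lit 0) (XT.nd (nat_lit 936) (nat_lit 0) (nat_lit 0) (XT.nd (nat_lit 468) (nat_lit 0) (nat_lit 0) (XT.nd (nat_lit 234) (nat_lit 0) (nat_lit 0) (XT.nd (nat_lit 78) (nat_lit 0) (nat_lit 0) (XT.lf (nat_lit 0) (nat_lit 386589850463) (nat_lit 76) (nat_lit 210955076752) (nat_lit 76) (nat_lit 206621415054) (nat_lit 1) (nat_lit 4) (nat_lit 2) (nat_lit 5) (nat_lit 2) (nat_lit 4) (nat_lit 323) (nat_lit 223) (nat_lit 174)) (XT.nd (nat_lit 78) (nat_lit 0) (nat_lit 0) (XT.lf (nat_lit 0) (nat_lit 420490784298) (nat_lit 76) (nat_lit 226109436407) (nat_lit 76) (nat_lit 221768208564) (nat_lit 1) (nat_lit 4) (nat_lit 2) (nat_lit 5) (nat_lit 2) (nat_lit 4) (nat_lit 324) (nat_lit 223) (nat_lit 173)) (XT.lf (nat_lit 0) (nat_lit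 457094438775) (nat_lit 76) (nat_lit 242480445373) (nat_lit 76) (nat_lit 238132211841) (nat_lit 1) (nat_lit 4) (nat_lit 2) (nat_lit 5) (nat_lit 2) (nat_lit 4) (nat_lit 325) (nat_lit 223) (nat_lit 172)))) (XT.nd (nat_lit 78) (nat_lit 0) (nat_lit 0) (XT.lf (nat_lit 0) (nat_lit 496617724441) (nat_lit 76) (nat_lit 260165117037) (nat_lit 76) (nat_lit 255810396755) (nat_lit 1) (nat_lit 4) (nat_lit 2) (nat_lit 5) (nat_lit 2) (nat_lit 4) (nat_lit 326) (nat_lit 223) (nat_lit 171)) (XT.nd (nat_lit 78) (nat_lit 0) (nat_lit 0) (XT.lf (nat_lit 0) (nat_lit 539294853357) (nat_lit 76) (nat_lit 279268249452) (nat_lit 76) (nat_lit 274907522921) (nat_lit 1) (nat_lit 4) (nat_lit 2) (nat_lit 5) (nat_lit 2) (nat_lit 4) (nat_lit 327) (nat_lit 223) (nat_lit 170)) (XT.lf (nat_lit 0) (nat_lit 585378727030) (nat_lit 76) (nat_lit 299903046367) (nat_lit 76) (nat_lit 295536758494) (nat_lit 1) (nat_lit 4) (nat_lit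 2) (nat_lit 5) (nat_lit 2) (nat_lit 4) (nat_lit 328) (nat_lit 223) (nat_lit 169))))) (XT.nd (nat_lit 234) (nat_lit 0) (nat_lit 0) (XT.nd (nat_lit 78) (nat_lit 0) (nat_lit 0) (XT.lf (nat_lit 0) (nat_lit 635142435080) (nat_lit 76) (nat_lit 322191788059) (nat_lit 76) (nat_lit 317820350795) (nat_lit 1) (nat_lit 4) (nat_lit 2) (nat_lit 5) (nat_lit 2) (nat_lit 4) (nat_lit 329) (nat_lit 223) (nat_lit 168)) (XT.nd (nat_lit 78) (nat_lit 0) (nat_lit 0) (XT.lf (nat_lit 0) (nat_lit 688880873555) (nat_lit 76) (nat_lit 346266555961) (nat_lit 76) (nat_lit 341890350743) (nat_lit 1) (nat_lit 4) (nat_lit 2) (nat_lit 5) (nat_lit 2) (nat_lit 4) (nat_lit 330) (nat_lit 223) (nat_lit 167)) (XT.lf (nat_lit 0) (nat_lit 746912492462) (nat_lit 76) (nat_lit 372270015364) (nat_lit 76) (nat_lit 367889395373) (nat_lit 1) (nat_lit 4) (nat_lit 2) (nat_lit 5) (nat_lit 2) (nat_lit 4) (nat_lit 331) (nat_lit 223) (nat_lit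 166)))) (XT.nd (nat_lit 78) (nat_lit 0) (nat_lit 0) (XT.lf (nat_lit 0) (nat_lit 809581182875) (nat_lit 76) (nat_lit 400356260842) (nat_lit 76) (nat_lit 395971553099) (nat_lit 1) (nat_lit 4) (nat_lit 2) (nat_lit 5) (nat_lit 2) (nat_lit 4) (nat_lit 332) (nat_lit 223) (nat_lit 165)) (XT.nd (nat_lit 78) (nat_lit 0) (nat_lit 0) (XT.lf (nat_lit 0) (nat_lit 877258314811) (nat_lit 76) (nat_lit 430691729406) (nat_lit 76) (nat_lit 426303236707) (nat_lit 1) (nat_lit 4) (nat_lit 2) (nat_lit 5) (nat_lit 2) (nat_lit 4) (nat_lit 333) (nat_lit 223) (nat_lit 164)) (XT.lf (nat_lit 0) (nat_lit 950344937941) (nat_lit 76) (nat_lit 463456186795) (nat_lit 76) (nat_lit 459064189507) (nat_lit 1) (nat_lit 4) (nat_lit 2) (nat_lit 5) (nat_lit 2) (nat_lit 4) (nat_lit 334) (nat_lit 223) (nat_lit 163)))))) (XT.nd (nat_lit 32604) (nat_lit 0) (nat_lit 228) (XT.nd (nat_lit 234) (nat_lit 0) (nat_lit 0) (XT.nd (nat_lit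 78) (nat_lit 0) (nat_lit 0) (XT.lf (nat_lit 0) (nat_lit 1029274158181) (nat_lit 76) (nat_lit 498843792756) (nat_lit 76) (nat_lit 494448550478) (nat_lit 1) (nat_lit 4) (nat_lit 2) (nat_lit 5) (nat_lit 2) (nat_lit 4) (nat_lit 335) (nat_lit 223) (nat_lit 162)) (XT.nd (nat_lit 78) (nat_lit 0) (nat_lit 0) (XT.lf (nat_lit 0) (nat_lit 1114513704241) (nat_lit 76) (nat_lit 537064251622) (nat_lit 76) (nat_lit 532666004724) (nat_lit 1) (nat_lit 4) (nat_lit 2) (nat_lit 5) (nat_lit 2) (nat_lit 4) (nat_lit 336) (nat_lit 223) (nat_lit 161)) (XT.lf (nat_lit 0) (nat_lit 1206568699359) (nat_lit 76) (nat_lit 578344055000) (nat_lit 76) (nat_lit 573943026046) (nat_lit 1) (nat_lit 4) (nat_lit 2) (nat_lit 5) (nat_lit 2) (nat_lit 4) (nat_lit 337) (nat_lit 223) (nat_lit 160)))) (XT.nd (nat_lit 78) (nat_lit 0) (nat_lit 0) (XT.lf (nat_lit 0) (nat_lit 1305984654617) (nat_lit 76) (nat_lit 622927823947) (nat_lit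 76) (nat_lit 618524219016) (nat_lit 1) (nat_lit 4) (nat_lit 2) (nat_lit 5) (nat_lit 2) (nat_lit 4) (nat_lit 338) (nat_lit 223) (nat_lit 159)) (XT.nd (nat_lit 78) (nat_lit 0) (nat_lit 0) (XT.lf (nat_lit 0) (nat_lit 1413350701601) (nat_lit 76) (nat_lit 671079758576) (nat_lit 76) (nat_lit 666673768481) (nat_lit 1) (nat_lit 4) (nat_lit 2) (nat_lit 5) (nat_lit 2) (nat_lit 4) (nat_lit 339) (nat_lit 223) (nat_lit 158)) (XT.lf (nat_lit 0) (nat_lit 1529303083553) (nat_lit 76) (nat_lit 723085203684) (nat_lit 76) (nat_lit 718677005104) (nat_lit 1) (nat_lit 4) (nat_lit 2) (nat_lit 5) (nat_lit 2) (nat_lit 4) (nat_lit 340) (nat_lit 223) (nat_lit 157))))) (XT.nd (nat_lit 234) (nat_lit 76) (nat_lit 0) (XT.nd (nat_lit 78) (nat_lit 152) (nat_lit 0) (XT.lf (nat_lit 0) (nat_lit 6630811121) (nat_lit 76) (nat_lit 1397853485) (nat_lit 76) (nat_lit 1397853485) (nat_lit 7) (nat_lit 4) (nat_lit 8) (nat_lit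 5) (nat_lit 8) (nat_lit 4) (nat_lit 272) (nat_lit 224) (nat_lit 224)) (XT.nd (nat_lit 78) (nat_lit 0) (nat_lit 0) (XT.lf (nat_lit 0) (nat_lit 543534760) (nat_lit 152) (nat_lit 19348402777) (nat_lit 0) (nat_lit 160281238) (nat_lit 5) (nat_lit 5) (nat_lit 7) (nat_lit 4) (nat_lit 5) (nat_lit 4) (nat_lit 273) (nat_lit 224) (nat_lit 223)) (XT.lf (nat_lit 0) (nat_lit 4030617153) (nat_lit 152) (nat_lit 14016300378) (nat_lit 0) (nat_lit 3292499260) (nat_lit 5) (nat_lit 5) (nat_lit 7) (nat_lit 4) (nat_lit 5) (nat_lit 4) (nat_lit 274) (nat_lit 224) (nat_lit 222)))) (XT.nd (nat_lit 156) (nat_lit 76) (nat_lit 0) (XT.nd (nat_lit 78) (nat_lit 0) (nat_lit 0) (XT.lf (nat_lit 0) (nat_lit 7613588634) (nat_lit 152) (nat_lit 8584153236) (nat_lit 0) (nat_lit 6546892619) (nat_lit 5) (nat_lit 5) (nat_lit 7) (nat_lit 4) (nat_lit 5) (nat_lit 4) (nat_lit 275) (nat_lit 224) (nat_lit 221)) (XT.lf (nat_lit 0)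 (nat_lit 11313681627) (nat_lit 152) (nat_lit 3019770846) (nat_lit 0) (nat_lit 9942746609) (nat_lit 5) (nat_lit 5) (nat_lit 7) (nat_lit 4) (nat_lit 5) (nat_lit 4) (nat_lit 276) (nat_lit 224) (nat_lit 220))) (XT.nd (nat_lit 78) (nat_lit 0) (nat_lit 0) (XT.lf (nat_lit 0) (nat_lit 2852515272) (nat_lit 76) (nat_lit 12368910396) (nat_lit 76) (nat_lit 10716272599) (nat_lit 4) (nat_lit 4) (nat_lit 5) (nat_lit 5) (nat_lit 5) (nat_lit 4) (nat_lit 277) (nat_lit 224) (nat_lit 219)) (XT.lf (nat_lit 0) (nat_lit 9093467218) (nat_lit 76) (nat_lit 10278992929) (nat_lit 76) (nat_lit 8365519225) (nat_lit 4) (nat_lit 4) (nat_lit 5) (nat_lit 5) (nat_lit 5) (nat_lit 4) (nat_lit 278) (nat_lit 224) (nat_lit 218))))))) (XT.nd (nat_lit 1014) (nat_lit 76) (nat_lit 0) (XT.nd (nat_lit 468) (nat_lit 0) (nat_lit 0) (XT.nd (nat_lit 234) (nat_lit 152) (nat_lit 0) (XT.nd (nat_lit 78) (nat_lit 0) (nat_lit 0) (XT.lf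 (nat_lit 0) (nat_lit 15581052628) (nat_lit 76) (nat_lit 8133881263) (nat_lit 76) (nat_lit 5978892831) (nat_lit 4) (nat_lit 4) (nat_lit 5) (nat_lit 5) (nat_lit 5) (nat_lit 4) (nat_lit 279) (nat_lit 224) (nat_lit 217)) (XT.nd (nat_lit 78) (nat_lit 0) (nat_lit 0) (XT.lf (nat_lit 0) (nat_lit 22353716451) (nat_lit 76) (nat_lit 5920863626) (nat_lit 76) (nat_lit 3542250445) (nat_lit 4) (nat_lit 4) (nat_lit 5) (nat_lit 5) (nat_lit 5) (nat_lit 4) (nat_lit 280) (nat_lit 224) (nat_lit 216)) (XT.lf (nat_lit 0) (nat_lit 29451592993) (nat_lit 76) (nat_lit 3626825839) (nat_lit 76) (nat_lit 1041152705) (nat_lit 4) (nat_lit 4) (nat_lit 5) (nat_lit 5) (nat_lit 5) (nat_lit 4) (nat_lit 281) (nat_lit 224) (nat_lit 215)))) (XT.nd (nat_lit 78) (nat_lit 0) (nat_lit 0) (XT.lf (nat_lit 0) (nat_lit 277933124) (nat_lit 76) (nat_lit 1190974777) (nat_lit 152) (nat_lit 35143291529) (nat_lit 2) (nat_lit 5) (nat_lit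 3) (nat_lit 5) (nat_lit 4) (nat_lit 4) (nat_lit 282) (nat_lit 224) (nat_lit 214)) (XT.nd (nat_lit 78) (nat_lit 0) (nat_lit 0) (XT.lf (nat_lit 0) (nat_lit 4175805847) (nat_lit 152) (nat_lit 33682511997) (nat_lit 0) (nat_lit 1439772654) (nat_lit 2) (nat_lit 5) (nat_lit 4) (nat_lit 4) (nat_lit 2) (nat_lit 4) (nat_lit 283) (nat_lit 224) (nat_lit 213)) (XT.lf (nat_lit 0) (nat_lit 7025291887) (nat_lit 152) (nat_lit 31042598797) (nat_lit 0) (nat_lit 4137063448) (nat_lit 2) (nat_lit 5) (nat_lit 4) (nat_lit 4) (nat_lit 2) (nat_lit 4) (nat_lit 284) (nat_lit 224) (nat_lit 212))))) (XT.nd (nat_lit 234) (nat_lit 0) (nat_lit 0) (XT.nd (nat_lit 78) (nat_lit 0) (nat_lit 0) (XT.lf (nat_lit 0) (nat_lit 10005608895) (nat_lit 152) (nat_lit 28370239805) (nat_lit 0) (nat_lit 6976458932) (nat_lit 2) (nat_lit 5) (nat_lit 4) (nat_lit 4) (nat_lit 2) (nat_lit 4) (nat_lit 285) (nat_lit 224) (nat_lit 211)) (XT.nd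 (nat_lit 78) (nat_lit 0) (nat_lit 0) (XT.lf (nat_lit 0) (nat_lit 13134418008) (nat_lit 152) (nat_lit 25649598820) (nat_lit 0) (nat_lit 9974785152) (nat_lit 2) (nat_lit 5) (nat_lit 4) (nat_lit 4) (nat_lit 2) (nat_lit 4) (nat_lit 286) (nat_lit 224) (nat_lit 210)) (XT.lf (nat_lit 0) (nat_lit 16430260317) (nat_lit 152) (nat_lit 22864553526) (nat_lit 0) (nat_lit 13149809967) (nat_lit 2) (nat_lit 5) (nat_lit 4) (nat_lit 4) (nat_lit 2) (nat_lit 4) (nat_lit 287) (nat_lit 224) (nat_lit 209)))) (XT.nd (nat_lit 156) (nat_lit 0) (nat_lit 0) (XT.nd (nat_lit 78) (nat_lit 0) (nat_lit 0) (XT.lf (nat_lit 0) (nat_lit 19912666739) (nat_lit 152) (nat_lit 19998599949) (nat_lit 0) (nat_lit 16520348340) (nat_lit 2) (nat_lit 5) (nat_lit 4) (nat_lit 4) (nat_lit 2) (nat_lit 4) (nat_lit 288) (nat_lit 224) (nat_lit 208)) (XT.lf (nat_lit 0) (nat_lit 23602273758) (nat_lit 152) (nat_lit 17034754662) (nat_lit 0)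 (nat_lit 20106373831) (nat_lit 2) (nat_lit 5) (nat_lit 4) (nat_lit 4) (nat_lit 2) (nat_lit 4) (nat_lit 289) (nat_lit 224) (nat_lit 207))) (XT.nd (nat_lit 78) (nat_lit 0) (nat_lit 0) (XT.lf (nat_lit 0) (nat_lit 27520945710) (nat_lit 152) (nat_lit 13955454137) (nat_lit 0) (nat_lit 23929136961) (nat_lit 2) (nat_lit 5) (nat_lit 4) (nat_lit 4) (nat_lit 2) (nat_lit 4) (nat_lit 290) (nat_lit 224) (nat_lit 206)) (XT.lf (nat_lit 0) (nat_lit 31691904356) (nat_lit 152) (nat_lit 10742450666) (nat_lit 0) (nat_lit 28011291142) (nat_lit 2) (nat_lit 5) (nat_lit 4) (nat_lit 4) (nat_lit 2) (nat_lit 4) (nat_lit 291) (nat_lit 224) (nat_lit 205)))))) (XT.nd (nat_lit 468) (nat_lit 0) (nat_lit 0) (XT.nd (nat_lit 234) (nat_lit 76) (nat_lit 0) (XT.nd (nat_lit 78) (nat_lit 0) (nat_lit 0) (XT.lf (nat_lit 0) (nat_lit 36139866487) (nat_lit 152) (nat_lit 7376704230) (nat_lit 0) (nat_lit 32377026917) (nat_lit 2)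 (nat_lit 5) (nat_lit 4) (nat_lit 4) (nat_lit 2) (nat_lit 4) (nat_lit 292) (nat_lit 224) (nat_lit 204)) (XT.nd (nat_lit 78) (nat_lit 0) (nat_lit 0) (XT.lf (nat_lit 0) (nat_lit 40891190398) (nat_lit 152) (nat_lit 3838269664) (nat_lit 0) (nat_lit 37052215313) (nat_lit 2) (nat_lit 5) (nat_lit 4) (nat_lit 4) (nat_lit 2) (nat_lit 4) (nat_lit 293) (nat_lit 224) (nat_lit 203)) (XT.lf (nat_lit 0) (nat_lit 45974032081) (nat_lit 152) (nat_lit 106178467) (nat_lit 0) (nat_lit 42064561150) (nat_lit 2) (nat_lit 5) (nat_lit 4) (nat_lit 4) (nat_lit 2) (nat_lit 4) (nat_lit 294) (nat_lit 224) (nat_lit 202)))) (XT.nd (nat_lit 78) (nat_lit 0) (nat_lit 0) (XT.lf (nat_lit 0) (nat_lit 4043981804) (nat_lit 76) (nat_lit 47471788137) (nat_lit 76) (nat_lit 43497043273) (nat_lit 1) (nat_lit 4) (nat_lit 2) (nat_lit 5) (nat_lit 2) (nat_lit 4) (nat_lit 295) (nat_lit 224) (nat_lit 201)) (XT.nd (nat_lit 78) (nat_lit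 0) (nat_lit 0) (XT.lf (nat_lit 0) (nat_lit 8451494857) (nat_lit 76) (nat_lit 49008657781) (nat_lit 76) (nat_lit 44973474091) (nat_lit 1) (nat_lit 4) (nat_lit 2) (nat_lit 5) (nat_lit 2) (nat_lit 4) (nat_lit 296) (nat_lit 224) (nat_lit 200)) (XT.lf (nat_lit 0) (nat_lit 13136888118) (nat_lit 76) (nat_lit 50702829963) (nat_lit 76) (nat_lit 46611684397) (nat_lit 1) (nat_lit 4) (nat_lit 2) (nat_lit 5) (nat_lit 2) (nat_lit 4) (nat_lit 297) (nat_lit 224) (nat_lit 199))))) (XT.nd (nat_lit 234) (nat_lit 0) (nat_lit 0) (XT.nd (nat_lit 78) (nat_lit 0) (nat_lit 0) (XT.lf (nat_lit 0) (nat_lit 18127926879) (nat_lit 76) (nat_lit 52564344223) (nat_lit 76) (nat_lit 48421382105) (nat_lit 1) (nat_lit 4) (nat_lit 2) (nat_lit 5) (nat_lit 2) (nat_lit 4) (nat_lit 298) (nat_lit 224) (nat_lit 198)) (XT.nd (nat_lit 78) (nat_lit 0) (nat_lit 0) (XT.lf (nat_lit 0) (nat_lit 23454187667) (nat_lit 76) (nat_lit 54604231756)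 (nat_lit 76) (nat_lit 50413291349) (nat_lit 1) (nat_lit 4) (nat_lit 2) (nat_lit 5) (nat_lit 2) (nat_lit 4) (nat_lit 299) (nat_lit 224) (nat_lit 197)) (XT.lf (nat_lit 0) (nat_lit 29147233509) (nat_lit 76) (nat_lit 56834580785) (nat_lit 76) (nat_lit 52599216036) (nat_lit 1) (nat_lit 4) (nat_lit 2) (nat_lit 5) (nat_lit 2) (nat_lit 4) (nat_lit 300) (nat_lit 224) (nat_lit 196)))) (XT.nd (nat_lit 156) (nat_lit 0) (nat_lit 0) (XT.nd (nat_lit 78) (nat_lit 0) (nat_lit 0) (XT.lf (nat_lit 0) (nat_lit 35240800972) (nat_lit 76) (nat_lit 59268608192) (nat_lit 76) (nat_lit 54992109794) (nat_lit 1) (nat_lit 4) (nat_lit 2) (nat_lit 5) (nat_lit 2) (nat_lit 4) (nat_lit 301) (nat_lit 224) (nat_lit 195)) (XT.lf (nat_lit 0) (nat_lit 41771000086) (nat_lit 76) (nat_lit 61920737845) (nat_lit 76) (nat_lit 57606152733) (nat_lit 1) (nat_lit 4) (nat_lit 2) (nat_lit 5) (nat_lit 2) (nat_lit 4) (nat_lit 302) (nat_lit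 224) (nat_lit 194))) (XT.nd (nat_lit 78) (nat_lit 0) (nat_lit 0) (XT.lf (nat_lit 0) (nat_lit 48776528328) (nat_lit 76) (nat_lit 64806686066) (nat_lit 76) (nat_lit 60456835479) (nat_lit 1) (nat_lit 4) (nat_lit 2) (nat_lit 5) (nat_lit 2) (nat_lit 4) (nat_lit 303) (nat_lit 224) (nat_lit 193)) (XT.lf (nat_lit 0) (nat_lit 56298899938) (nat_lit 76) (nat_lit 67943554770) (nat_lit 76) (nat_lit 63561050967) (nat_lit 1) (nat_lit 4) (nat_lit 2) (nat_lit 5) (nat_lit 2) (nat_lit 4) (nat_lit 304) (nat_lit 224) (nat_lit 192))))))))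
noncomputable def xc24 : XT := (XT.nd (nat_lit 1950) (nat_lit 0) (nat_lit 0) (XT.nd (nat_lit 936) (nat_lit 0) (nat_lit 0) (XT.nd (nat_lit 468) (nat_lit 0) (nat_lit 0) (XT.nd (nat_lit 234) (nat_lit 0) (nat_lit 0) (XT.nd (nat_lit 78) (nat_lit 0) (nat_lit 0) (XT.lf (nat_lit 0) (nat_lit 64382691934) (nat_lit 76) (nat_lit 71349932811) (nat_lit 76) (nat_lit 66937194547) (nat_lit 1) (nat_lit 4) (nat_lit 2) (nat_lit 5) (nat_lit 2) (nat_lit 4) (nat_lit 305) (nat_lit 224) (nat_lit 191)) (XT.nd (nat_lit 78) (nat_lit 0) (nat_lit 0) (XT.lf (nat_lit 0) (nat_lit 73075808268) (nat_lit 76) (nat_lit 75046006131) (nat_lit 76) (nat_lit 70605272996) (nat_lit 1) (nat_lit 4) (nat_lit 2) (nat_lit 5) (nat_lit 2) (nat_lit 4) (nat_lit 306) (nat_lit 224) (nat_lit 190)) (XT.lf (nat_lit 0) (nat_lit 82429763703) (nat_lit 76) (nat_lit 79053677388) (nat_lit 76) (nat_lit 74587023076) (nat_lit 1) (nat_lit 4) (nat_lit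 2) (nat_lit 5) (nat_lit 2) (nat_lit 4) (nat_lit 307) (nat_lit 224) (nat_lit 189)))) (XT.nd (nat_lit 78) (nat_lit 0) (nat_lit 0) (XT.lf (nat_lit 0) (nat_lit 92499989087) (nat_lit 76) (nat_lit 83396695743) (nat_lit 76) (nat_lit 78906040343) (nat_lit 1) (nat_lit 4) (nat_lit 2) (nat_lit 5) (nat_lit 2) (nat_lit 4) (nat_lit 308) (nat_lit 224) (nat_lit 188)) (XT.nd (nat_lit 78) (nat_lit 0) (nat_lit 0) (XT.lf (nat_lit 0) (nat_lit 103346159830) (nat_lit 76) (nat_lit 88100797604) (nat_lit 76) (nat_lit 83587918972) (nat_lit 1) (nat_lit 4) (nat_lit 2) (nat_lit 5) (nat_lit 2) (nat_lit 4) (nat_lit 309) (nat_lit 224) (nat_lit 187)) (XT.lf (nat_lit 0) (nat_lit 115032549535) (nat_lit 76) (nat_lit 93193859127) (nat_lit 76) (nat_lit 88660403430) (nat_lit 1) (nat_lit 4) (nat_lit 2) (nat_lit 5) (nat_lit 2) (nat_lit 4) (nat_lit 310) (nat_lit 224) (nat_lit 186))))) (XT.nd (nat_lit 234) (nat_lit 0) (nat_lit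 0) (XT.nd (nat_lit 78) (nat_lit 0) (nat_lit 0) (XT.lf (nat_lit 0) (nat_lit 127628410883) (nat_lit 76) (nat_lit 98706061420) (nat_lit 76) (nat_lit 94153552883) (nat_lit 1) (nat_lit 4) (nat_lit 2) (nat_lit 5) (nat_lit 2) (nat_lit 4) (nat_lit 311) (nat_lit 224) (nat_lit 185)) (XT.nd (nat_lit 78) (nat_lit 0) (nat_lit 0) (XT.lf (nat_lit 0) (nat_lit 141208386015) (nat_lit 76) (nat_lit 104670069384) (nat_lit 76) (nat_lit 100099919330) (nat_lit 1) (nat_lit 4) (nat_lit 2) (nat_lit 5) (nat_lit 2) (nat_lit 4) (nat_lit 312) (nat_lit 224) (nat_lit 184)) (XT.lf (nat_lit 0) (nat_lit 155852948857) (nat_lit 76) (nat_lit 111121225288) (nat_lit 76) (nat_lit 106534740496) (nat_lit 1) (nat_lit 4) (nat_lit 2) (nat_lit 5) (nat_lit 2) (nat_lit 4) (nat_lit 313) (nat_lit 224) (nat_lit 183)))) (XT.nd (nat_lit 78) (nat_lit 0) (nat_lit 0) (XT.lf (nat_lit 0) (nat_lit 171648882004) (nat_lit 76) (nat_lit 118097758206)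 (nat_lit 76) (nat_lit 113496148656) (nat_lit 1) (nat_lit 4) (nat_lit 2) (nat_lit 5) (nat_lit 2) (nat_lit 4) (nat_lit 314) (nat_lit 224) (nat_lit 182)) (XT.nd (nat_lit 78) (nat_lit 0) (nat_lit 0) (XT.lf (nat_lit 0) (nat_lit 188689790986) (nat_lit 76) (nat_lit 125641010553) (nat_lit 76) (nat_lit 121025396599) (nat_lit 1) (nat_lit 4) (nat_lit 2) (nat_lit 5) (nat_lit 2) (nat_lit 4) (nat_lit 315) (nat_lit 224) (nat_lit 181)) (XT.lf (nat_lit 0) (nat_lit 207076658967) (nat_lit 76) (nat_lit 133795683085) (nat_lit 76) (nat_lit 129167102089) (nat_lit 1) (nat_lit 4) (nat_lit 2) (nat_lit 5) (nat_lit 2) (nat_lit 4) (nat_lit 316) (nat_lit 224) (nat_lit 180)))))) (XT.nd (nat_lit 468) (nat_lit 0) (nat_lit 0) (XT.nd (nat_lit 234) (nat_lit 0) (nat_lit 0) (XT.nd (nat_lit 78) (nat_lit 0) (nat_lit 0) (XT.lf (nat_lit 0) (nat_lit 226918445165) (nat_lit 76) (nat_lit 142610099788) (nat_lit 76) (nat_lit 137969512271)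 (nat_lit 1) (nat_lit 4) (nat_lit 2) (nat_lit 5) (nat_lit 2) (nat_lit 4) (nat_lit 317) (nat_lit 224) (nat_lit 179)) (XT.nd (nat_lit 78) (nat_lit 0) (nat_lit 0) (XT.lf (nat_lit 0) (nat_lit 248332730535) (nat_lit 76) (nat_lit 152136494241) (nat_lit 76) (nat_lit 147484789576) (nat_lit 1) (nat_lit 4) (nat_lit 2) (nat_lit 5) (nat_lit 2) (nat_lit 4) (nat_lit 318) (nat_lit 224) (nat_lit 178)) (XT.lf (nat_lit 0) (nat_lit 271446414547) (nat_lit 76) (nat_lit 162431319152) (nat_lit 76) (nat_lit 157769320831) (nat_lit 1) (nat_lit 4) (nat_lit 2) (nat_lit 5) (nat_lit 2) (nat_lit 4) (nat_lit 319) (nat_lit 224) (nat_lit 177)))) (XT.nd (nat_lit 78) (nat_lit 0) (nat_lit 0) (XT.lf (nat_lit 0) (nat_lit 296396467178) (nat_lit 76) (nat_lit 173555580892) (nat_lit 76) (nat_lit 168884051408) (nat_lit 1) (nat_lit 4) (nat_lit 2) (nat_lit 5) (nat_lit 2) (nat_lit 4) (nat_lit 320) (nat_lit 224) (nat_lit 176)) (XT.nd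 (nat_lit 78) (nat_lit 0) (nat_lit 0) (XT.lf (nat_lit 0) (nat_lit 323330740594) (nat_lit 76) (nat_lit 185575201011) (nat_lit 76) (nat_lit 180894846376) (nat_lit 1) (nat_lit 4) (nat_lit 2) (nat_lit 5) (nat_lit 2) (nat_lit 4) (nat_lit 321) (nat_lit 224) (nat_lit 175)) (XT.lf (nat_lit 0) (nat_lit 352408845303) (nat_lit 76) (nat_lit 198561406887) (nat_lit 76) (nat_lit 193872880817) (nat_lit 1) (nat_lit 4) (nat_lit 2) (nat_lit 5) (nat_lit 2) (nat_lit 4) (nat_lit 322) (nat_lit 224) (nat_lit 174))))) (XT.nd (nat_lit 234) (nat_lit 0) (nat_lit 0) (XT.nd (nat_lit 78) (nat_lit 0) (nat_lit 0) (XT.lf (nat_lit 0) (nat_lit 383803095999) (nat_lit 76) (nat_lit 212591153816) (nat_lit 76) (nat_lit 207895061601) (nat_lit 1) (nat_lit 4) (nat_lit 2) (nat_lit 5) (nat_lit 2) (nat_lit 4) (nat_lit 323) (nat_lit 224) (nat_lit 173)) (XT.nd (nat_lit 78) (nat_lit 0) (nat_lit 0) (XT.lf (nat_lit 0) (nat_lit 417699532688)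 (nat_lit 76) (nat_lit 227747581037) (nat_lit 76) (nat_lit 223044483133) (nat_lit 1) (nat_lit 4) (nat_lit 2) (nat_lit 5) (nat_lit 2) (nat_lit 4) (nat_lit 324) (nat_lit 224) (nat_lit 172)) (XT.lf (nat_lit 0) (nat_lit 454299023141) (nat_lit 76) (nat_lit 244120504417) (nat_lit 76) (nat_lit 239410919763) (nat_lit 1) (nat_lit 4) (nat_lit 2) (nat_lit 5) (nat_lit 2) (nat_lit 4) (nat_lit 325) (nat_lit 224) (nat_lit 171)))) (XT.nd (nat_lit 156) (nat_lit 0) (nat_lit 0) (XT.nd (nat_lit 78) (nat_lit 0) (nat_lit 0) (XT.lf (nat_lit 0) (nat_lit 493818453229) (nat_lit 76) (nat_lit 261806948686) (nat_lit 76) (nat_lit 257091357783) (nat_lit 1) (nat_lit 4) (nat_lit 2) (nat_lit 5) (nat_lit 2) (nat_lit 4) (nat_lit 326) (nat_lit 224) (nat_lit 170)) (XT.lf (nat_lit 0) (nat_lit 536492012166) (nat_lit 76) (nat_lit 280911722402) (nat_lit 76) (nat_lit 276190570157) (nat_lit 1) (nat_lit 4) (nat_lit 2) (nat_lit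 5) (nat_lit 2) (nat_lit 4) (nat_lit 327) (nat_lit 224) (nat_lit 169))) (XT.nd (nat_lit 78) (nat_lit 0) (nat_lit 0) (XT.lf (nat_lit 0) (nat_lit 582572580302) (nat_lit 76) (nat_lit 301548039040) (nat_lit 76) (nat_lit 296821737404) (nat_lit 1) (nat_lit 4) (nat_lit 2) (nat_lit 5) (nat_lit 2) (nat_lit 4) (nat_lit 328) (nat_lit 224) (nat_lit 168)) (XT.lf (nat_lit 0) (nat_lit 632333227670) (nat_lit 76) (nat_lit 323838187883) (nat_lit 76) (nat_lit 319107118293) (nat_lit 1) (nat_lit 4) (nat_lit 2) (nat_lit 5) (nat_lit 2) (nat_lit 4) (nat_lit 329) (nat_lit 224) (nat_lit 167))))))) (XT.nd (nat_lit 32994) (nat_lit 0) (nat_lit 76) (XT.nd (nat_lit 468) (nat_lit 0) (nat_lit 0) (XT.nd (nat_lit 234) (nat_lit 0) (nat_lit 0) (XT.nd (nat_lit 78) (nat_lit 0) (nat_lit 0) (XT.lf (nat_lit 0) (nat_lit 686068832181) (nat_lit 76) (nat_lit 347914258703) (nat_lit 76) (nat_lit 343178774340) (nat_lit 1) (nat_lit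 4) (nat_lit 2) (nat_lit 5) (nat_lit 2) (nat_lit 4) (nat_lit 330) (nat_lit 224) (nat_lit 166)) (XT.nd (nat_lit 78) (nat_lit 0) (nat_lit 0) (XT.lf (nat_lit 0) (nat_lit 744097827046) (nat_lit 76) (nat_lit 373918924511) (nat_lit 76) (nat_lit 369179352396) (nat_lit 1) (nat_lit 4) (nat_lit 2) (nat_lit 5) (nat_lit 2) (nat_lit 4) (nat_lit 331) (nat_lit 224) (nat_lit 165)) (XT.lf (nat_lit 0) (nat_lit 806764087790) (nat_lit 76) (nat_lit 402006287031) (nat_lit 76) (nat_lit 397262929960) (nat_lit 1) (nat_lit 4) (nat_lit 2) (nat_lit 5) (nat_lit 2) (nat_lit 4) (nat_lit 332) (nat_lit 224) (nat_lit 164)))) (XT.nd (nat_lit 78) (nat_lit 0) (nat_lit 0) (XT.lf (nat_lit 0) (nat_lit 874438970034) (nat_lit 76) (nat_lit 432342789893) (nat_lit 76) (nat_lit 427595928233) (nat_lit 1) (nat_lit 4) (nat_lit 2) (nat_lit 5) (nat_lit 2) (nat_lit 4) (nat_lit 333) (nat_lit 224) (nat_lit 163)) (XT.nd (nat_lit 78) (nat_lit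 0) (nat_lit 0) (XT.lf (nat_lit 0) (nat_lit 947523510115) (nat_lit 76) (nat_lit 465108204965) (nat_lit 76) (nat_lit 460358098316) (nat_lit 1) (nat_lit 4) (nat_lit 2) (nat_lit 5) (nat_lit 2) (nat_lit 4) (nat_lit 334) (nat_lit 224) (nat_lit 162)) (XT.lf (nat_lit 0) (nat_lit 1026450801606) (nat_lit 76) (nat_lit 500496697671) (nat_lit 76) (nat_lit 495743586401) (nat_lit 1) (nat_lit 4) (nat_lit 2) (nat_lit 5) (nat_lit 2) (nat_lit 4) (nat_lit 335) (nat_lit 224) (nat_lit 161))))) (XT.nd (nat_lit 234) (nat_lit 0) (nat_lit 0) (XT.nd (nat_lit 78) (nat_lit 0) (nat_lit 0) (XT.lf (nat_lit 0) (nat_lit 1111688561788) (nat_lit 76) (nat_lit 538717977595) (nat_lit 76) (nat_lit 533962084270) (nat_lit 1) (nat_lit 4) (nat_lit 2) (nat_lit 5) (nat_lit 2) (nat_lit 4) (nat_lit 336) (nat_lit 224) (nat_lit 160)) (XT.nd (nat_lit 78) (nat_lit 0) (nat_lit 0) (XT.lf (nat_lit 0) (nat_lit 1203741903315) (nat_lit 76)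 (nat_lit 579998541213) (nat_lit 76) (nat_lit 575240071911) (nat_lit 1) (nat_lit 4) (nat_lit 2) (nat_lit 5) (nat_lit 2) (nat_lit 4) (nat_lit 337) (nat_lit 224) (nat_lit 159)) (XT.lf (nat_lit 0) (nat_lit 1303156327469) (nat_lit 76) (nat_lit 624583014087) (nat_lit 76) (nat_lit 619822159620) (nat_lit 1) (nat_lit 4) (nat_lit 2) (nat_lit 5) (nat_lit 2) (nat_lit 4) (nat_lit 338) (nat_lit 224) (nat_lit 158)))) (XT.nd (nat_lit 32136) (nat_lit 0) (nat_lit 456) (XT.lf (nat_lit 0) (nat_lit 1410520956766) (nat_lit 76) (nat_lit 672735600499) (nat_lit 76) (nat_lit 667972537547) (nat_lit 1) (nat_lit 4) (nat_lit 2) (nat_lit 5) (nat_lit 2) (nat_lit 4) (nat_lit 339) (nat_lit 224) (nat_lit 157)) (XT.nd (nat_lit 78) (nat_lit 76) (nat_lit 0) (XT.lf (nat_lit 0) (nat_lit 3986359691) (nat_lit 152) (nat_lit 399571066) (nat_lit 0) (nat_lit 3986359691) (nat_lit 8) (nat_lit 5) (nat_lit 10) (nat_lit 4) (nat_lit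 8) (nat_lit 4) (nat_lit 270) (nat_lit 225) (nat_lit 225)) (XT.lf (nat_lit 0) (nat_lit 6023361308) (nat_lit 76) (nat_lit 6089370385) (nat_lit 76) (nat_lit 5642343478) (nat_lit 7) (nat_lit 4) (nat_lit 8) (nat_lit 5) (nat_lit 8) (nat_lit 4) (nat_lit 271) (nat_lit 225) (nat_lit 224)))))) (XT.nd (nat_lit 468) (nat_lit 152) (nat_lit 0) (XT.nd (nat_lit 234) (nat_lit 76) (nat_lit 0) (XT.nd (nat_lit 78) (nat_lit 152) (nat_lit 0) (XT.lf (nat_lit 0) (nat_lit 13099130851) (nat_lit 76) (nat_lit 3311300427) (nat_lit 76) (nat_lit 2450359716) (nat_lit 7) (nat_lit 4) (nat_lit 8) (nat_lit 5) (nat_lit 8) (nat_lit 4) (nat_lit 272) (nat_lit 225) (nat_lit 223)) (XT.nd (nat_lit 78) (nat_lit 0) (nat_lit 0) (XT.lf (nat_lit 0) (nat_lit 356691658) (nat_lit 76) (nat_lit 412965020) (nat_lit 152) (nat_lit 19298014899) (nat_lit 5) (nat_lit 5) (nat_lit 6) (nat_lit 5) (nat_lit 7) (nat_lit 4) (nat_lit 273) (nat_lit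 225) (nat_lit 222)) (XT.lf (nat_lit 0) (nat_lit 4158789222) (nat_lit 152) (nat_lit 14525928128) (nat_lit 0) (nat_lit 2678179403) (nat_lit 5) (nat_lit 5) (nat_lit 7) (nat_lit 4) (nat_lit 5) (nat_lit 4) (nat_lit 274) (nat_lit 225) (nat_lit 221)))) (XT.nd (nat_lit 78) (nat_lit 76) (nat_lit 0) (XT.lf (nat_lit 0) (nat_lit 7660262526) (nat_lit 152) (nat_lit 9239135084) (nat_lit 0) (nat_lit 5875413706) (nat_lit 5) (nat_lit 5) (nat_lit 7) (nat_lit 4) (nat_lit 5) (nat_lit 4) (nat_lit 275) (nat_lit 225) (nat_lit 220)) (XT.nd (nat_lit 78) (nat_lit 76) (nat_lit 0) (XT.lf (nat_lit 0) (nat_lit 11284894245) (nat_lit 152) (nat_lit 3809339823) (nat_lit 0) (nat_lit 9218342644) (nat_lit 5) (nat_lit 5) (nat_lit 7) (nat_lit 4) (nat_lit 5) (nat_lit 4) (nat_lit 276) (nat_lit 225) (nat_lit 219)) (XT.lf (nat_lit 0) (nat_lit 1890189133) (nat_lit 76) (nat_lit 13209433635) (nat_lit 76) (nat_lit 10882046128) (nat_lit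 4) (nat_lit 4) (nat_lit 5) (nat_lit 5) (nat_lit 5) (nat_lit 4) (nat_lit 277) (nat_lit 225) (nat_lit 218))))) (XT.nd (nat_lit 234) (nat_lit 152) (nat_lit 0) (XT.nd (nat_lit 78) (nat_lit 0) (nat_lit 0) (XT.lf (nat_lit 0) (nat_lit 8009678246) (nat_lit 76) (nat_lit 11173361937) (nat_lit 76) (nat_lit 8604459701) (nat_lit 4) (nat_lit 4) (nat_lit 5) (nat_lit 5) (nat_lit 5) (nat_lit 4) (nat_lit 278) (nat_lit 225) (nat_lit 217)) (XT.nd (nat_lit 78) (nat_lit 0) (nat_lit 0) (XT.lf (nat_lit 0) (nat_lit 14384798070) (nat_lit 76) (nat_lit 9078107465) (nat_lit 76) (nat_lit 6285580480) (nat_lit 4) (nat_lit 4) (nat_lit 5) (nat_lit 5) (nat_lit 5) (nat_lit 4) (nat_lit 279) (nat_lit 225) (nat_lit 216)) (XT.lf (nat_lit 0) (nat_lit 21053327092) (nat_lit 76) (nat_lit 6911253896) (nat_lit 76) (nat_lit 3911666958) (nat_lit 4) (nat_lit 4) (nat_lit 5) (nat_lit 5) (nat_lit 5) (nat_lit 4) (nat_lit 280) (nat_lit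 225) (nat_lit 215)))) (XT.nd (nat_lit 156) (nat_lit 76) (nat_lit 0) (XT.nd (nat_lit 78) (nat_lit 76) (nat_lit 0) (XT.lf (nat_lit 0) (nat_lit 28054782521) (nat_lit 76) (nat_lit 4659960616) (nat_lit 76) (nat_lit 1468651500) (nat_lit 4) (nat_lit 4) (nat_lit 5) (nat_lit 5) (nat_lit 5) (nat_lit 4) (nat_lit 281) (nat_lit 225) (nat_lit 214)) (XT.lf (nat_lit 0) (nat_lit 1005020427) (nat_lit 152) (nat_lit 1278387160) (nat_lit 76) (nat_lit 34398154996) (nat_lit 3) (nat_lit 5) (nat_lit 5) (nat_lit 5) (nat_lit 4) (nat_lit 4) (nat_lit 282) (nat_lit 225) (nat_lit 213))) (XT.nd (nat_lit 78) (nat_lit 0) (nat_lit 0) (XT.lf (nat_lit 0) (nat_lit 3602008673) (nat_lit 152) (nat_lit 35443799591) (nat_lit 0) (nat_lit 330526712) (nat_lit 2) (nat_lit 5) (nat_lit 4) (nat_lit 4) (nat_lit 2) (nat_lit 4) (nat_lit 283) (nat_lit 225) (nat_lit 212)) (XT.lf (nat_lit 0) (nat_lit 6404798600) (nat_lit 152) (nat_lit 32889822576)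 (nat_lit 0) (nat_lit 2992395115) (nat_lit 2) (nat_lit 5) (nat_lit 4) (nat_lit 4) (nat_lit 2) (nat_lit 4) (nat_lit 284) (nat_lit 225) (nat_lit 211))))))))
noncomputable def xc25 : XT := (XT.nd (nat_lit 1950) (nat_lit 0) (nat_lit 0) (XT.nd (nat_lit 936) (nat_lit 0) (nat_lit 0) (XT.nd (nat_lit 468) (nat_lit 76) (nat_lit 0) (XT.nd (nat_lit 234) (nat_lit 0) (nat_lit 0) (XT.nd (nat_lit 78) (nat_lit 0) (nat_lit 0) (XT.lf (nat_lit 0) (nat_lit 9341878466) (nat_lit 152) (nat_lit 30297034126) (nat_lit 0) (nat_lit 5798992088) (nat_lit 2) (nat_lit 5) (nat_lit 4) (nat_lit 4) (nat_lit 2) (nat_lit 4) (nat_lit 285) (nat_lit 225) (nat_lit 210)) (XT.nd (nat_lit 78) (nat_lit 0) (nat_lit 0) (XT.lf (nat_lit 0) (nat_lit 12430653188) (nat_lit 152) (nat_lit 27650069569) (nat_lit 0) (nat_lit 8766949316) (nat_lit 2) (nat_lit 5) (nat_lit 4) (nat_lit 4) (nat_lit 2) (nat_lit 4) (nat_lit 286) (nat_lit 225) (nat_lit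 209)) (XT.lf (nat_lit 0) (nat_lit 15689426617) (nat_lit 152) (nat_lit 24933243188) (nat_lit 0) (nat_lit 11913854695) (nat_lit 2) (nat_lit 5) (nat_lit 4) (nat_lit 4) (nat_lit 2) (nat_lit 4) (nat_lit 287) (nat_lit 225) (nat_lit 208)))) (XT.nd (nat_lit 78) (nat_lit 0) (nat_lit 0) (XT.lf (nat_lit 0) (nat_lit 19137510001) (nat_lit 152) (nat_lit 22130455273) (nat_lit 0) (nat_lit 15258356553) (nat_lit 2) (nat_lit 5) (nat_lit 4) (nat_lit 4) (nat_lit 2) (nat_lit 4) (nat_lit 288) (nat_lit 225) (nat_lit 207)) (XT.nd (nat_lit 78) (nat_lit 0) (nat_lit 0) (XT.lf (nat_lit 0) (nat_lit 22795336430) (nat_lit 152) (nat_lit 19225096709) (nat_lit 0) (nat_lit 18820274159) (nat_lit 2) (nat_lit 5) (nat_lit 4) (nat_lit 4) (nat_lit 2) (nat_lit 4) (nat_lit 289) (nat_lit 225) (nat_lit 206)) (XT.lf (nat_lit 0) (nat_lit 26684581909) (nat_lit 152) (nat_lit 16199950557) (nat_lit 0) (nat_lit 22620715174) (nat_lit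 2) (nat_lit 5) (nat_lit 4) (nat_lit 4) (nat_lit 2) (nat_lit 4) (nat_lit 290) (nat_lit 225) (nat_lit 205))))) (XT.nd (nat_lit 234) (nat_lit 76) (nat_lit 0) (XT.nd (nat_lit 78) (nat_lit 0) (nat_lit 0) (XT.lf (nat_lit 0) (nat_lit 30828293821) (nat_lit 152) (nat_lit 13037090025) (nat_lit 0) (nat_lit 26682200730) (nat_lit 2) (nat_lit 5) (nat_lit 4) (nat_lit 4) (nat_lit 2) (nat_lit 4) (nat_lit 291) (nat_lit 225) (nat_lit 204)) (XT.nd (nat_lit 78) (nat_lit 0) (nat_lit 0) (XT.lf (nat_lit 0) (nat_lit 35251027495) (nat_lit 152) (nat_lit 9717772236) (nat_lit 0) (nat_lit 31028798890) (nat_lit 2) (nat_lit 5) (nat_lit 4) (nat_lit 4) (nat_lit 2) (nat_lit 4) (nat_lit 292) (nat_lit 225) (nat_lit 203)) (XT.lf (nat_lit 0) (nat_lit 39978991724) (nat_lit 152) (nat_lit 6222327157) (nat_lit 0) (nat_lit 35686267271) (nat_lit 2) (nat_lit 5) (nat_lit 4) (nat_lit 4) (nat_lit 2) (nat_lit 4) (nat_lit 293) (nat_lit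 225) (nat_lit 202)))) (XT.nd (nat_lit 78) (nat_lit 76) (nat_lit 0) (XT.lf (nat_lit 0) (nat_lit 45040204072) (nat_lit 152) (nat_lit 2530041042) (nat_lit 0) (nat_lit 40682205686) (nat_lit 2) (nat_lit 5) (nat_lit 4) (nat_lit 4) (nat_lit 2) (nat_lit 4) (nat_lit 294) (nat_lit 225) (nat_lit 201)) (XT.nd (nat_lit 78) (nat_lit 0) (nat_lit 0) (XT.lf (nat_lit 0) (nat_lit 1453685564) (nat_lit 76) (nat_lit 49045932518) (nat_lit 76) (nat_lit 44627495306) (nat_lit 1) (nat_lit 4) (nat_lit 2) (nat_lit 5) (nat_lit 2) (nat_lit 4) (nat_lit 295) (nat_lit 225) (nat_lit 200)) (XT.lf (nat_lit 0) (nat_lit 5825275138) (nat_lit 76) (nat_lit 50599318011) (nat_lit 76) (nat_lit 46124918923) (nat_lit 1) (nat_lit 4) (nat_lit 2) (nat_lit 5) (nat_lit 2) (nat_lit 4) (nat_lit 296) (nat_lit 225) (nat_lit 199)))))) (XT.nd (nat_lit 468) (nat_lit 0) (nat_lit 0) (XT.nd (nat_lit 234) (nat_lit 0) (nat_lit 0) (XT.nd (nat_lit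 78) (nat_lit 0) (nat_lit 0) (XT.lf (nat_lit 0) (nat_lit 10477405918) (nat_lit 76) (nat_lit 52308782647) (nat_lit 76) (nat_lit 47782567007) (nat_lit 1) (nat_lit 4) (nat_lit 2) (nat_lit 5) (nat_lit 2) (nat_lit 4) (nat_lit 297) (nat_lit 225) (nat_lit 198)) (XT.nd (nat_lit 78) (nat_lit 0) (nat_lit 0) (XT.lf (nat_lit 0) (nat_lit 15437646086) (nat_lit 76) (nat_lit 54184456586) (nat_lit 76) (nat_lit 49610262657) (nat_lit 1) (nat_lit 4) (nat_lit 2) (nat_lit 5) (nat_lit 2) (nat_lit 4) (nat_lit 298) (nat_lit 225) (nat_lit 197)) (XT.lf (nat_lit 0) (nat_lit 20735389658) (nat_lit 76) (nat_lit 56237454933) (nat_lit 76) (nat_lit 51618836662) (nat_lit 1) (nat_lit 4) (nat_lit 2) (nat_lit 5) (nat_lit 2) (nat_lit 4) (nat_lit 299) (nat_lit 225) (nat_lit 196)))) (XT.nd (nat_lit 78) (nat_lit 0) (nat_lit 0) (XT.lf (nat_lit 0) (nat_lit 26402030670) (nat_lit 76) (nat_lit 58479943604) (nat_lit 76) (nat_lit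 53820191684) (nat_lit 1) (nat_lit 4) (nat_lit 2) (nat_lit 5) (nat_lit 2) (nat_lit 4) (nat_lit 300) (nat_lit 225) (nat_lit 195)) (XT.nd (nat_lit 78) (nat_lit 0) (nat_lit 0) (XT.lf (nat_lit 0) (nat_lit 32471149216) (nat_lit 76) (nat_lit 60925211421) (nat_lit 76) (nat_lit 56227372788) (nat_lit 1) (nat_lit 4) (nat_lit 2) (nat_lit 5) (nat_lit 2) (nat_lit 4) (nat_lit 301) (nat_lit 225) (nat_lit 194)) (XT.lf (nat_lit 0) (nat_lit 38978710445) (nat_lit 76) (nat_lit 63587748860) (nat_lit 76) (nat_lit 58854644753) (nat_lit 1) (nat_lit 4) (nat_lit 2) (nat_lit 5) (nat_lit 2) (nat_lit 4) (nat_lit 302) (nat_lit 225) (nat_lit 193))))) (XT.nd (nat_lit 234) (nat_lit 0) (nat_lit 0) (XT.nd (nat_lit 78) (nat_lit 0) (nat_lit 0) (XT.lf (nat_lit 0) (nat_lit 45963277681) (nat_lit 76) (nat_lit 66483333921) (nat_lit 76) (nat_lit 61717576596) (nat_lit 1) (nat_lit 4) (nat_lit 2) (nat_lit 5) (nat_lit 2) (nat_lit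 4) (nat_lit 303) (nat_lit 225) (nat_lit 192)) (XT.nd (nat_lit 78) (nat_lit 0) (nat_lit 0) (XT.lf (nat_lit 0) (nat_lit 53466240954) (nat_lit 76) (nat_lit 69629125626) (nat_lit 76) (nat_lit 64833133840) (nat_lit 1) (nat_lit 4) (nat_lit 2) (nat_lit 5) (nat_lit 2) (nat_lit 4) (nat_lit 304) (nat_lit 225) (nat_lit 191)) (XT.lf (nat_lit 0) (nat_lit 61532062266) (nat_lit 76) (nat_lit 73043765703) (nat_lit 76) (nat_lit 68219779046) (nat_lit 1) (nat_lit 4) (nat_lit 2) (nat_lit 5) (nat_lit 2) (nat_lit 4) (nat_lit 305) (nat_lit 225) (nat_lit 190)))) (XT.nd (nat_lit 156) (nat_lit 0) (nat_lit 0) (XT.nd (nat_lit 78) (nat_lit 0) (nat_lit 0) (XT.lf (nat_lit 0) (nat_lit 70208539078) (nat_lit 76) (nat_lit 76747489057) (nat_lit 76) (nat_lit 71897581224) (nat_lit 1) (nat_lit 4) (nat_lit 2) (nat_lit 5) (nat_lit 2) (nat_lit 4) (nat_lit 306) (nat_lit 225) (nat_lit 189)) (XT.lf (nat_lit 0) (nat_lit 79547087549)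 (nat_lit 76) (nat_lit 80762243678) (nat_lit 76) (nat_lit 75888334756) (nat_lit 1) (nat_lit 4) (nat_lit 2) (nat_lit 5) (nat_lit 2) (nat_lit 4) (nat_lit 307) (nat_lit 225) (nat_lit 188))) (XT.nd (nat_lit 78) (nat_lit 0) (nat_lit 0) (XT.lf (nat_lit 0) (nat_lit 89603047225) (nat_lit 76) (nat_lit 85111820705) (nat_lit 76) (nat_lit 80215688552) (nat_lit 1) (nat_lit 4) (nat_lit 2) (nat_lit 5) (nat_lit 2) (nat_lit 4) (nat_lit 308) (nat_lit 225) (nat_lit 187)) (XT.lf (nat_lit 0) (nat_lit 100436008979) (nat_lit 76) (nat_lit 89821995409) (nat_lit 76) (nat_lit 84905286190) (nat_lit 1) (nat_lit 4) (nat_lit 2) (nat_lit 5) (nat_lit 2) (nat_lit 4) (nat_lit 309) (nat_lit 225) (nat_lit 186))))))) (XT.nd (nat_lit 936) (nat_lit 0) (nat_lit 0) (XT.nd (nat_lit 468) (nat_lit 0) (nat_lit 0) (XT.nd (nat_lit 234) (nat_lit 0) (nat_lit 0) (XT.nd (nat_lit 78) (nat_lit 0) (nat_lit 0) (XT.lf (nat_lit 0) (nat_lit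 112110168139) (nat_lit 76) (nat_lit 94920679936) (nat_lit 76) (nat_lit 89984917878) (nat_lit 1) (nat_lit 4) (nat_lit 2) (nat_lit 5) (nat_lit 2) (nat_lit 4) (nat_lit 310) (nat_lit 225) (nat_lit 185)) (XT.nd (nat_lit 78) (nat_lit 0) (nat_lit 0) (XT.lf (nat_lit 0) (nat_lit 124694704908) (nat_lit 76) (nat_lit 100438088713) (nat_lit 76) (nat_lit 95484685138) (nat_lit 1) (nat_lit 4) (nat_lit 2) (nat_lit 5) (nat_lit 2) (nat_lit 4) (nat_lit 311) (nat_lit 225) (nat_lit 184)) (XT.lf (nat_lit 0) (nat_lit 138264194319) (nat_lit 76) (nat_lit 106406917496) (nat_lit 76) (nat_lit 101437179182) (nat_lit 1) (nat_lit 4) (nat_lit 2) (nat_lit 5) (nat_lit 2) (nat_lit 4) (nat_lit 312) (nat_lit 225) (nat_lit 183)))) (XT.nd (nat_lit 78) (nat_lit 0) (nat_lit 0) (XT.lf (nat_lit 0) (nat_lit 152899048159) (nat_lit 76) (nat_lit 112862537122) (nat_lit 76) (nat_lit 107877674051) (nat_lit 1) (nat_lit 4) (nat_lit 2)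 (nat_lit 5) (nat_lit 2) (nat_lit 4) (nat_lit 313) (nat_lit 225) (nat_lit 182)) (XT.nd (nat_lit 78) (nat_lit 0) (nat_lit 0) (XT.lf (nat_lit 0) (nat_lit 168685991491) (nat_lit 76) (nat_lit 119843203115) (nat_lit 76) (nat_lit 114844335638) (nat_lit 1) (nat_lit 4) (nat_lit 2) (nat_lit 5) (nat_lit 2) (nat_lit 4) (nat_lit 314) (nat_lit 225) (nat_lit 181)) (XT.lf (nat_lit 0) (nat_lit 185718576569) (nat_lit 76) (nat_lit 127390282384) (nat_lit 76) (nat_lit 122378447866) (nat_lit 1) (nat_lit 4) (nat_lit 2) (nat_lit 5) (nat_lit 2) (nat_lit 4) (nat_lit 315) (nat_lit 225) (nat_lit 180))))) (XT.nd (nat_lit 234) (nat_lit 0) (nat_lit 0) (XT.nd (nat_lit 78) (nat_lit 0) (nat_lit 0) (XT.lf (nat_lit 0) (nat_lit 204097737232) (nat_lit 76) (nat_lit 135548498362) (nat_lit 76) (nat_lit 130524657324) (nat_lit 1) (nat_lit 4) (nat_lit 2) (nat_lit 5) (nat_lit 2) (nat_lit 4) (nat_lit 316) (nat_lit 225) (nat_lit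 179)) (XT.nd (nat_lit 78) (nat_lit 0) (nat_lit 0) (XT.lf (nat_lit 0) (nat_lit 223932387025) (nat_lit 76) (nat_lit 144366196033) (nat_lit 76) (nat_lit 139331237846) (nat_lit 1) (nat_lit 4) (nat_lit 2) (nat_lit 5) (nat_lit 2) (nat_lit 4) (nat_lit 317) (nat_lit 225) (nat_lit 178)) (XT.lf (nat_lit 0) (nat_lit 245340064612) (nat_lit 76) (nat_lit 153895628419) (nat_lit 76) (nat_lit 148850376577) (nat_lit 1) (nat_lit 4) (nat_lit 2) (nat_lit 5) (nat_lit 2) (nat_lit 4) (nat_lit 318) (nat_lit 225) (nat_lit 177)))) (XT.nd (nat_lit 78) (nat_lit 0) (nat_lit 0) (XT.lf (nat_lit 0) (nat_lit 268447630306) (nat_lit 76) (nat_lit 164193266232) (nat_lit 76) (nat_lit 159138483227) (nat_lit 1) (nat_lit 4) (nat_lit 2) (nat_lit 5) (nat_lit 2) (nat_lit 4) (nat_lit 319) (nat_lit 225) (nat_lit 176)) (XT.nd (nat_lit 78) (nat_lit 0) (nat_lit 0) (XT.lf (nat_lit 0) (nat_lit 293392017829) (nat_lit 76) (nat_lit 175320132510)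 (nat_lit 76) (nat_lit 170256524354) (nat_lit 1) (nat_lit 4) (nat_lit 2) (nat_lit 5) (nat_lit 2) (nat_lit 4) (nat_lit 320) (nat_lit 225) (nat_lit 175)) (XT.lf (nat_lit 0) (nat_lit 320321045773) (nat_lit 76) (nat_lit 187342164239) (nat_lit 76) (nat_lit 182270384647) (nat_lit 1) (nat_lit 4) (nat_lit 2) (nat_lit 5) (nat_lit 2) (nat_lit 4) (nat_lit 321) (nat_lit 225) (nat_lit 174)))))) (XT.nd (nat_lit 468) (nat_lit 0) (nat_lit 0) (XT.nd (nat_lit 234) (nat_lit 0) (nat_lit 0) (XT.nd (nat_lit 78) (nat_lit 0) (nat_lit 0) (XT.lf (nat_lit 0) (nat_lit 349394293564) (nat_lit 76) (nat_lit 200330603088) (nat_lit 76) (nat_lit 195251257351) (nat_lit 1) (nat_lit 4) (nat_lit 2) (nat_lit 5) (nat_lit 2) (nat_lit 4) (nat_lit 322) (nat_lit 225) (nat_lit 173)) (XT.nd (nat_lit 78) (nat_lit 0) (nat_lit 0) (XT.lf (nat_lit 0) (nat_lit 380784047115) (nat_lit 76) (nat_lit 214362417583) (nat_lit 76) (nat_lit 209276066157)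 (nat_lit 1) (nat_lit 4) (nat_lit 2) (nat_lit 5) (nat_lit 2) (nat_lit 4) (nat_lit 323) (nat_lit 225) (nat_lit 172)) (XT.lf (nat_lit 0) (nat_lit 414676319779) (nat_lit 76) (nat_lit 229520759218) (nat_lit 76) (nat_lit 224427921043) (nat_lit 1) (nat_lit 4) (nat_lit 2) (nat_lit 5) (nat_lit 2) (nat_lit 4) (nat_lit 324) (nat_lit 225) (nat_lit 171)))) (XT.nd (nat_lit 78) (nat_lit 0) (nat_lit 0) (XT.lf (nat_lit 0) (nat_lit 451271954655) (nat_lit 76) (nat_lit 245895455203) (nat_lit 76) (nat_lit 240796610778) (nat_lit 1) (nat_lit 4) (nat_lit 2) (nat_lit 5) (nat_lit 2) (nat_lit 4) (nat_lit 325) (nat_lit 225) (nat_lit 170)) (XT.nd (nat_lit 78) (nat_lit 0) (nat_lit 0) (XT.lf (nat_lit 0) (nat_lit 490787814763) (nat_lit 76) (nat_lit 263583540773) (nat_lit 76) (nat_lit 258479135006) (nat_lit 1) (nat_lit 4) (nat_lit 2) (nat_lit 5) (nat_lit 2) (nat_lit 4) (nat_lit 326) (nat_lit 225) (nat_lit 169)) (XT.lf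 (nat_lit 0) (nat_lit 533458068163) (nat_lit 76) (nat_lit 282689834212) (nat_lit 76) (nat_lit 277580279055) (nat_lit 1) (nat_lit 4) (nat_lit 2) (nat_lit 5) (nat_lit 2) (nat_lit 4) (nat_lit 327) (nat_lit 225) (nat_lit 168))))) (XT.nd (nat_lit 234) (nat_lit 0) (nat_lit 0) (XT.nd (nat_lit 78) (nat_lit 0) (nat_lit 0) (XT.lf (nat_lit 0) (nat_lit 579535575617) (nat_lit 76) (nat_lit 303327558001) (nat_lit 76) (nat_lit 298213234890) (nat_lit 1) (nat_lit 4) (nat_lit 2) (nat_lit 5) (nat_lit 2) (nat_lit 4) (nat_lit 328) (nat_lit 225) (nat_lit 167)) (XT.nd (nat_lit 78) (nat_lit 0) (nat_lit 0) (XT.lf (nat_lit 0) (nat_lit 629293389020) (nat_lit 76) (nat_lit 325619009762) (nat_lit 76) (nat_lit 320500271878) (nat_lit 1) (nat_lit 4) (nat_lit 2) (nat_lit 5) (nat_lit 2) (nat_lit 4) (nat_lit 329) (nat_lit 225) (nat_lit 166)) (XT.lf (nat_lit 0) (nat_lit 683026369489) (nat_lit 76) (nat_lit 349696286987)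 (nat_lit 76) (nat_lit 344573461351) (nat_lit 1) (nat_lit 4) (nat_lit 2) (nat_lit 5) (nat_lit 2) (nat_lit 4) (nat_lit 330) (nat_lit 225) (nat_lit 165)))) (XT.nd (nat_lit 156) (nat_lit 0) (nat_lit 0) (XT.nd (nat_lit 78) (nat_lit 0) (nat_lit 0) (XT.lf (nat_lit 0) (nat_lit 741052934686) (nat_lit 76) (nat_lit 375702069838) (nat_lit 76) (nat_lit 370575459245) (nat_lit 1) (nat_lit 4) (nat_lit 2) (nat_lit 5) (nat_lit 2) (nat_lit 4) (nat_lit 331) (nat_lit 225) (nat_lit 164)) (XT.lf (nat_lit 0) (nat_lit 803716945738) (nat_lit 76) (nat_lit 403790466656) (nat_lit 76) (nat_lit 398660351474) (nat_lit 1) (nat_lit 4) (nat_lit 2) (nat_lit 5) (nat_lit 2) (nat_lit 4) (nat_lit 332) (nat_lit 225) (nat_lit 163))) (XT.nd (nat_lit 78) (nat_lit 0) (nat_lit 0) (XT.lf (nat_lit 0) (nat_lit 871389744933) (nat_lit 76) (nat_lit 434127927201) (nat_lit 76) (nat_lit 428994567030) (nat_lit 1) (nat_lit 4) (nat_lit 2)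 (nat_lit 5) (nat_lit 2) (nat_lit 4) (nat_lit 333) (nat_lit 225) (nat_lit 162)) (XT.lf (nat_lit 0) (nat_lit 944472356266) (nat_lit 76) (nat_lit 466894229017) (nat_lit 76) (nat_lit 461757864226) (nat_lit 1) (nat_lit 4) (nat_lit 2) (nat_lit 5) (nat_lit 2) (nat_lit 4) (nat_lit 334) (nat_lit 225) (nat_lit 161))))))))
noncomputable def xc26 : XT := (XT.nd (nat_lit 33852) (nat_lit 0) (nat_lit 0) (XT.nd (nat_lit 32838) (nat_lit 0) (nat_lit 76) (XT.nd (nat_lit 32370) (nat_lit 0) (nat_lit 304) (XT.nd (nat_lit 234) (nat_lit 0) (nat_lit 0) (XT.nd (nat_lit 78) (nat_lit 0) (nat_lit 0) (XT.lf (nat_lit 0) (nat_lit 1023397861877) (nat_lit 76) (nat_lit 502283542781) (nat_lit 76) (nat_lit 497144395935) (nat_lit 1) (nat_lit 4) (nat_lit 2) (nat_lit 5) (nat_lit 2) (nat_lit 4) (nat_lit 335) (nat_lit 225) (nat_lit 160)) (XT.nd (nat_lit 78) (nat_lit 0) (nat_lit 0) (XT.lf (nat_lit 0) (nat_lit 1108633968468)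 (nat_lit 76) (nat_lit 540505582946) (nat_lit 76) (nat_lit 535363860122) (nat_lit 1) (nat_lit 4) (nat_lit 2) (nat_lit 5) (nat_lit 2) (nat_lit 4) (nat_lit 336) (nat_lit 225) (nat_lit 159)) (XT.lf (nat_lit 0) (nat_lit 1200685778892) (nat_lit 76) (nat_lit 581786850490) (nat_lit 76) (nat_lit 576642742502) (nat_lit 1) (nat_lit 4) (nat_lit 2) (nat_lit 5) (nat_lit 2) (nat_lit 4) (nat_lit 337) (nat_lit 225) (nat_lit 158)))) (XT.nd (nat_lit 78) (nat_lit 0) (nat_lit 0) (XT.lf (nat_lit 0) (nat_lit 1300098785359) (nat_lit 76) (nat_lit 626371975147) (nat_lit 76) (nat_lit 621225658673) (nat_lit 1) (nat_lit 4) (nat_lit 2) (nat_lit 5) (nat_lit 2) (nat_lit 4) (nat_lit 338) (nat_lit 225) (nat_lit 157)) (XT.nd (nat_lit 31980) (nat_lit 0) (nat_lit 532) (XT.lf (nat_lit 0) (nat_lit 1407462101981) (nat_lit 76) (nat_lit 674525165062) (nat_lit 76) (nat_lit 669376803694) (nat_lit 1) (nat_lit 4) (nat_lit 2) (nat_lit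 5) (nat_lit 2) (nat_lit 4) (nat_lit 339) (nat_lit 225) (nat_lit 156)) (XT.lf (nat_lit 0) (nat_lit 436639158) (nat_lit 152) (nat_lit 6606614810) (nat_lit 0) (nat_lit 436639158) (nat_lit 8) (nat_lit 5) (nat_lit 10) (nat_lit 4) (nat_lit 8) (nat_lit 4) (nat_lit 268) (nat_lit 226) (nat_lit 226))))) (XT.nd (nat_lit 234) (nat_lit 152) (nat_lit 0) (XT.nd (nat_lit 78) (nat_lit 76) (nat_lit 0) (XT.lf (nat_lit 0) (nat_lit 4569059981) (nat_lit 152) (nat_lit 7158356355) (nat_lit 0) (nat_lit 4086270921) (nat_lit 8) (nat_lit 5) (nat_lit 10) (nat_lit 4) (nat_lit 8) (nat_lit 4) (nat_lit 269) (nat_lit 226) (nat_lit 225)) (XT.nd (nat_lit 78) (nat_lit 76) (nat_lit 0) (XT.lf (nat_lit 0) (nat_lit 8358290168) (nat_lit 152) (nat_lit 965854078) (nat_lit 0) (nat_lit 7428474200) (nat_lit 8) (nat_lit 5) (nat_lit 10) (nat_lit 4) (nat_lit 8) (nat_lit 4) (nat_lit 270) (nat_lit 226) (nat_lit 224)) (XT.lf (nat_lit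 0) (nat_lit 5685379215) (nat_lit 76) (nat_lit 6714777866) (nat_lit 76) (nat_lit 5371048095) (nat_lit 7) (nat_lit 4) (nat_lit 8) (nat_lit 5) (nat_lit 8) (nat_lit 4) (nat_lit 271) (nat_lit 226) (nat_lit 223)))) (XT.nd (nat_lit 78) (nat_lit 152) (nat_lit 0) (XT.lf (nat_lit 0) (nat_lit 12610693767) (nat_lit 76) (nat_lit 4000195452) (nat_lit 76) (nat_lit 2273212160) (nat_lit 7) (nat_lit 4) (nat_lit 8) (nat_lit 5) (nat_lit 8) (nat_lit 4) (nat_lit 272) (nat_lit 226) (nat_lit 222)) (XT.nd (nat_lit 78) (nat_lit 76) (nat_lit 0) (XT.lf (nat_lit 0) (nat_lit 846551032) (nat_lit 152) (nat_lit 321021517) (nat_lit 76) (nat_lit 18930571077) (nat_lit 6) (nat_lit 5) (nat_lit 8) (nat_lit 5) (nat_lit 7) (nat_lit 4) (nat_lit 273) (nat_lit 226) (nat_lit 221)) (XT.lf (nat_lit 0) (nat_lit 4127698849) (nat_lit 152) (nat_lit 15378662623) (nat_lit 0) (nat_lit 1895823121) (nat_lit 5) (nat_lit 5) (nat_lit 7) (nat_lit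 4) (nat_lit 5) (nat_lit 4) (nat_lit 274) (nat_lit 226) (nat_lit 220)))))) (XT.nd (nat_lit 468) (nat_lit 152) (nat_lit 0) (XT.nd (nat_lit 234) (nat_lit 0) (nat_lit 0) (XT.nd (nat_lit 78) (nat_lit 76) (nat_lit 0) (XT.lf (nat_lit 0) (nat_lit 7553710879) (nat_lit 152) (nat_lit 10226456707) (nat_lit 0) (nat_lit 5040132371) (nat_lit 5) (nat_lit 5) (nat_lit 7) (nat_lit 4) (nat_lit 5) (nat_lit 4) (nat_lit 275) (nat_lit 226) (nat_lit 219)) (XT.nd (nat_lit 78) (nat_lit 76) (nat_lit 0) (XT.lf (nat_lit 0) (nat_lit 11108471047) (nat_lit 152) (nat_lit 4921279158) (nat_lit 0) (nat_lit 8334056632) (nat_lit 5) (nat_lit 5) (nat_lit 7) (nat_lit 4) (nat_lit 5) (nat_lit 4) (nat_lit 276) (nat_lit 226) (nat_lit 218)) (XT.lf (nat_lit 0) (nat_lit 598234211) (nat_lit 76) (nat_lit 14229197933) (nat_lit 76) (nat_lit 11213268790) (nat_lit 4) (nat_lit 4) (nat_lit 5) (nat_lit 5) (nat_lit 5) (nat_lit 4) (nat_lit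 277) (nat_lit 226) (nat_lit 217)))) (XT.nd (nat_lit 78) (nat_lit 0) (nat_lit 0) (XT.lf (nat_lit 0) (nat_lit 6605257738) (nat_lit 76) (nat_lit 12242983428) (nat_lit 76) (nat_lit 9003429536) (nat_lit 4) (nat_lit 4) (nat_lit 5) (nat_lit 5) (nat_lit 5) (nat_lit 4) (nat_lit 278) (nat_lit 226) (nat_lit 216)) (XT.nd (nat_lit 78) (nat_lit 0) (nat_lit 0) (XT.lf (nat_lit 0) (nat_lit 12876242760) (nat_lit 76) (nat_lit 10193893023) (nat_lit 76) (nat_lit 6747279179) (nat_lit 4) (nat_lit 4) (nat_lit 5) (nat_lit 5) (nat_lit 5) (nat_lit 4) (nat_lit 279) (nat_lit 226) (nat_lit 215)) (XT.lf (nat_lit 0) (nat_lit 19448350669) (nat_lit 76) (nat_lit 8069783961) (nat_lit 76) (nat_lit 4431447938) (nat_lit 4) (nat_lit 4) (nat_lit 5) (nat_lit 5) (nat_lit 5) (nat_lit 4) (nat_lit 280) (nat_lit 226) (nat_lit 214))))) (XT.nd (nat_lit 234) (nat_lit 0) (nat_lit 0) (XT.nd (nat_lit 78) (nat_lit 152) (nat_lit 0) (XT.lf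 (nat_lit 0) (nat_lit 26360527290) (nat_lit 76) (nat_lit 5858068929) (nat_lit 76) (nat_lit 2042212370) (nat_lit 4) (nat_lit 4) (nat_lit 5) (nat_lit 5) (nat_lit 5) (nat_lit 4) (nat_lit 281) (nat_lit 226) (nat_lit 213)) (XT.nd (nat_lit 78) (nat_lit 76) (nat_lit 0) (XT.lf (nat_lit 0) (nat_lit 412846208) (nat_lit 152) (nat_lit 3121507311) (nat_lit 76) (nat_lit 33229599515) (nat_lit 3) (nat_lit 5) (nat_lit 5) (nat_lit 5) (nat_lit 4) (nat_lit 4) (nat_lit 282) (nat_lit 226) (nat_lit 212)) (XT.lf (nat_lit 0) (nat_lit 1918309964) (nat_lit 76) (nat_lit 990696110) (nat_lit 152) (nat_lit 36557867613) (nat_lit 2) (nat_lit 5) (nat_lit 3) (nat_lit 5) (nat_lit 4) (nat_lit 4) (nat_lit 283) (nat_lit 226) (nat_lit 211)))) (XT.nd (nat_lit 156) (nat_lit 0) (nat_lit 0) (XT.nd (nat_lit 78) (nat_lit 0) (nat_lit 0) (XT.lf (nat_lit 0) (nat_lit 5644732594) (nat_lit 152) (nat_lit 35050330984) (nat_lit 0) (nat_lit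 1687932413) (nat_lit 2) (nat_lit 5) (nat_lit 4) (nat_lit 4) (nat_lit 2) (nat_lit 4) (nat_lit 284) (nat_lit 226) (nat_lit 210)) (XT.lf (nat_lit 0) (nat_lit 8541778069) (nat_lit 152) (nat_lit 32531218962) (nat_lit 0) (nat_lit 4464160394) (nat_lit 2) (nat_lit 5) (nat_lit 4) (nat_lit 4) (nat_lit 2) (nat_lit 4) (nat_lit 285) (nat_lit 226) (nat_lit 209))) (XT.nd (nat_lit 78) (nat_lit 0) (nat_lit 0) (XT.lf (nat_lit 0) (nat_lit 11593483911) (nat_lit 152) (nat_lit 29952473319) (nat_lit 0) (nat_lit 7403998186) (nat_lit 2) (nat_lit 5) (nat_lit 4) (nat_lit 4) (nat_lit 2) (nat_lit 4) (nat_lit 286) (nat_lit 226) (nat_lit 208)) (XT.lf (nat_lit 0) (nat_lit 14817934302) (nat_lit 152) (nat_lit 27298812599) (nat_lit 0) (nat_lit 10524867050) (nat_lit 2) (nat_lit 5) (nat_lit 4) (nat_lit 4) (nat_lit 2) (nat_lit 4) (nat_lit 287) (nat_lit 226) (nat_lit 207))))))) (XT.nd (nat_lit 936) (nat_lit 0) (nat_lit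 0) (XT.nd (nat_lit 468) (nat_lit 76) (nat_lit 0) (XT.nd (nat_lit 234) (nat_lit 0) (nat_lit 0) (XT.nd (nat_lit 78) (nat_lit 0) (nat_lit 0) (XT.lf (nat_lit 0) (nat_lit 18234237097) (nat_lit 152) (nat_lit 24554511408) (nat_lit 0) (nat_lit 13845261023) (nat_lit 2) (nat_lit 5) (nat_lit 4) (nat_lit 4) (nat_lit 2) (nat_lit 4) (nat_lit 288) (nat_lit 226) (nat_lit 206)) (XT.nd (nat_lit 78) (nat_lit 0) (nat_lit 0) (XT.lf (nat_lit 0) (nat_lit 21862637052) (nat_lit 152) (nat_lit 21703307217) (nat_lit 0) (nat_lit 17384856514) (nat_lit 2) (nat_lit 5) (nat_lit 4) (nat_lit 4) (nat_lit 2) (nat_lit 4) (nat_lit 289) (nat_lit 226) (nat_lit 205)) (XT.lf (nat_lit 0) (nat_lit 25724635798) (nat_lit 152) (nat_lit 18728304004) (nat_lit 0) (nat_lit 21164628904) (nat_lit 2) (nat_lit 5) (nat_lit 4) (nat_lit 4) (nat_lit 2) (nat_lit 4) (nat_lit 290) (nat_lit 226) (nat_lit 204)))) (XT.nd (nat_lit 78) (nat_lit 0)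 (nat_lit 0) (XT.lf (nat_lit 0) (nat_lit 29843119253) (nat_lit 152) (nat_lit 15611872118) (nat_lit 0) (nat_lit 25206976844) (nat_lit 2) (nat_lit 5) (nat_lit 4) (nat_lit 4) (nat_lit 2) (nat_lit 4) (nat_lit 291) (nat_lit 226) (nat_lit 203)) (XT.nd (nat_lit 78) (nat_lit 0) (nat_lit 0) (XT.lf (nat_lit 0) (nat_lit 34242493245) (nat_lit 152) (nat_lit 12335543816) (nat_lit 0) (nat_lit 29535854989) (nat_lit 2) (nat_lit 5) (nat_lit 4) (nat_lit 4) (nat_lit 2) (nat_lit 4) (nat_lit 292) (nat_lit 226) (nat_lit 202)) (XT.lf (nat_lit 0) (nat_lit 38948828137) (nat_lit 152) (nat_lit 8879903819) (nat_lit 0) (nat_lit 34176915949) (nat_lit 2) (nat_lit 5) (nat_lit 4) (nat_lit 4) (nat_lit 2) (nat_lit 4) (nat_lit 293) (nat_lit 226) (nat_lit 201))))) (XT.nd (nat_lit 234) (nat_lit 0) (nat_lit 0) (XT.nd (nat_lit 78) (nat_lit 76) (nat_lit 0) (XT.lf (nat_lit 0) (nat_lit 43990013323) (nat_lit 152) (nat_lit 5224474260)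 (nat_lit 0) (nat_lit 39157662308) (nat_lit 2) (nat_lit 5) (nat_lit 4) (nat_lit 4) (nat_lit 2) (nat_lit 4) (nat_lit 294) (nat_lit 226) (nat_lit 200)) (XT.nd (nat_lit 78) (nat_lit 76) (nat_lit 0) (XT.lf (nat_lit 0) (nat_lit 49395922492) (nat_lit 152) (nat_lit 1347593335) (nat_lit 0) (nat_lit 44507609600) (nat_lit 2) (nat_lit 5) (nat_lit 4) (nat_lit 4) (nat_lit 2) (nat_lit 4) (nat_lit 295) (nat_lit 226) (nat_lit 199)) (XT.lf (nat_lit 0) (nat_lit 2919771881) (nat_lit 76) (nat_lit 52349039363) (nat_lit 76) (nat_lit 47408909920) (nat_lit 1) (nat_lit 4) (nat_lit 2) (nat_lit 5) (nat_lit 2) (nat_lit 4) (nat_lit 296) (nat_lit 226) (nat_lit 198)))) (XT.nd (nat_lit 78) (nat_lit 0) (nat_lit 0) (XT.lf (nat_lit 0) (nat_lit 7541104067) (nat_lit 76) (nat_lit 54072663678) (nat_lit 76) (nat_lit 49084555946) (nat_lit 1) (nat_lit 4) (nat_lit 2) (nat_lit 5) (nat_lit 2) (nat_lit 4) (nat_lit 297) (nat_lit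 226) (nat_lit 197)) (XT.nd (nat_lit 78) (nat_lit 0) (nat_lit 0) (XT.lf (nat_lit 0) (nat_lit 12472827019) (nat_lit 76) (nat_lit 55961448431) (nat_lit 76) (nat_lit 50928916357) (nat_lit 1) (nat_lit 4) (nat_lit 2) (nat_lit 5) (nat_lit 2) (nat_lit 4) (nat_lit 298) (nat_lit 226) (nat_lit 196)) (XT.lf (nat_lit 0) (nat_lit 17744165761) (nat_lit 76) (nat_lit 58026586420) (nat_lit 76) (nat_lit 52952920697) (nat_lit 1) (nat_lit 4) (nat_lit 2) (nat_lit 5) (nat_lit 2) (nat_lit 4) (nat_lit 299) (nat_lit 226) (nat_lit 195)))))) (XT.nd (nat_lit 468) (nat_lit 0) (nat_lit 0) (XT.nd (nat_lit 234) (nat_lit 0) (nat_lit 0) (XT.nd (nat_lit 78) (nat_lit 0) (nat_lit 0) (XT.lf (nat_lit 0) (nat_lit 23386357857) (nat_lit 76) (nat_lit 60280315501) (nat_lit 76) (nat_lit 55168563065) (nat_lit 1) (nat_lit 4) (nat_lit 2) (nat_lit 5) (nat_lit 2) (nat_lit 4) (nat_lit 300) (nat_lit 226) (nat_lit 194)) (XT.nd (nat_lit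 78) (nat_lit 0) (nat_lit 0) (XT.lf (nat_lit 0) (nat_lit 29432838518) (nat_lit 76) (nat_lit 62735991105) (nat_lit 76) (nat_lit 57588973194) (nat_lit 1) (nat_lit 4) (nat_lit 2) (nat_lit 5) (nat_lit 2) (nat_lit 4) (nat_lit 301) (nat_lit 226) (nat_lit 193)) (XT.lf (nat_lit 0) (nat_lit 35919438742) (nat_lit 76) (nat_lit 65408165384) (nat_lit 76) (nat_lit 60228494256) (nat_lit 1) (nat_lit 4) (nat_lit 2) (nat_lit 5) (nat_lit 2) (nat_lit 4) (nat_lit 302) (nat_lit 226) (nat_lit 192)))) (XT.nd (nat_lit 78) (nat_lit 0) (nat_lit 0) (XT.lf (nat_lit 0) (nat_lit 42884597640) (nat_lit 76) (nat_lit 68312673444) (nat_lit 76) (nat_lit 63102767855) (nat_lit 1) (nat_lit 4) (nat_lit 2) (nat_lit 5) (nat_lit 2) (nat_lit 4) (nat_lit 303) (nat_lit 226) (nat_lit 191)) (XT.nd (nat_lit 78) (nat_lit 0) (nat_lit 0) (XT.lf (nat_lit 0) (nat_lit 50369590229) (nat_lit 76) (nat_lit 71466727185) (nat_lit 76) (nat_lit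 66228826726) (nat_lit 1) (nat_lit 4) (nat_lit 2) (nat_lit 5) (nat_lit 2) (nat_lit 4) (nat_lit 304) (nat_lit 226) (nat_lit 190)) (XT.lf (nat_lit 0) (nat_lit 58418772019) (nat_lit 76) (nat_lit 74889017297) (nat_lit 76) (nat_lit 69625195660) (nat_lit 1) (nat_lit 4) (nat_lit 2) (nat_lit 5) (nat_lit 2) (nat_lit 4) (nat_lit 305) (nat_lit 226) (nat_lit 189))))) (XT.nd (nat_lit 234) (nat_lit 0) (nat_lit 0) (XT.nd (nat_lit 78) (nat_lit 0) (nat_lit 0) (XT.lf (nat_lit 0) (nat_lit 67079841867) (nat_lit 76) (nat_lit 78599824015) (nat_lit 76) (nat_lit 73312001290) (nat_lit 1) (nat_lit 4) (nat_lit 2) (nat_lit 5) (nat_lit 2) (nat_lit 4) (nat_lit 306) (nat_lit 226) (nat_lit 188)) (XT.nd (nat_lit 78) (nat_lit 0) (nat_lit 0) (XT.lf (nat_lit 0) (nat_lit 76404124630) (nat_lit 76) (nat_lit 82621137308) (nat_lit 76) (nat_lit 77311091351) (nat_lit 1) (nat_lit 4) (nat_lit 2) (nat_lit 5) (nat_lit 2) (nat_lit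 4) (nat_lit 307) (nat_lit 226) (nat_lit 187)) (XT.lf (nat_lit 0) (nat_lit 86446875318) (nat_lit 76) (nat_lit 86976787178) (nat_lit 76) (nat_lit 81646164156) (nat_lit 1) (nat_lit 4) (nat_lit 2) (nat_lit 5) (nat_lit 2) (nat_lit 4) (nat_lit 308) (nat_lit 226) (nat_lit 186)))) (XT.nd (nat_lit 156) (nat_lit 0) (nat_lit 0) (XT.nd (nat_lit 78) (nat_lit 0) (nat_lit 0) (XT.lf (nat_lit 0) (nat_lit 97267606526) (nat_lit 76) (nat_lit 91692584885) (nat_lit 76) (nat_lit 86342909024) (nat_lit 1) (nat_lit 4) (nat_lit 2) (nat_lit 5) (nat_lit 2) (nat_lit 4) (nat_lit 309) (nat_lit 226) (nat_lit 185)) (XT.lf (nat_lit 0) (nat_lit 108930441108) (nat_lit 76) (nat_lit 96796475897) (nat_lit 76) (nat_lit 91429158518) (nat_lit 1) (nat_lit 4) (nat_lit 2) (nat_lit 5) (nat_lit 2) (nat_lit 4) (nat_lit 310) (nat_lit 226) (nat_lit 184))) (XT.nd (nat_lit 78) (nat_lit 0) (nat_lit 0) (XT.lf (nat_lit 0) (nat_lit 121504492155)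 (nat_lit 76) (nat_lit 102318705493) (nat_lit 76) (nat_lit 96935053376) (nat_lit 1) (nat_lit 4) (nat_lit 2) (nat_lit 5) (nat_lit 2) (nat_lit 4) (nat_lit 311) (nat_lit 226) (nat_lit 183)) (XT.lf (nat_lit 0) (nat_lit 135064272565) (nat_lit 76) (nat_lit 108291997998) (nat_lit 76) (nat_lit 102893221123) (nat_lit 1) (nat_lit 4) (nat_lit 2) (nat_lit 5) (nat_lit 2) (nat_lit 4) (nat_lit 312) (nat_lit 226) (nat_lit 182))))))))
noncomputable def xc27 : XT := (XT.nd (nat_lit 1950) (nat_lit 0) (nat_lit 0) (XT.nd (nat_lit 936) (nat_lit 0) (nat_lit 0) (XT.nd (nat_lit 468) (nat_lit 0) (nat_lit 0) (XT.nd (nat_lit 234) (nat_lit 0) (nat_lit 0) (XT.nd (nat_lit 78) (nat_lit 0) (nat_lit 0) (XT.lf (nat_lit 0) (nat_lit 149690136590) (nat_lit 76) (nat_lit 114751750699) (nat_lit 76) (nat_lit 109338969419) (nat_lit 1) (nat_lit 4) (nat_lit 2) (nat_lit 5) (nat_lit 2) (nat_lit 4) (nat_lit 313) (nat_lit 226) (nat_lit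 181)) (XT.nd (nat_lit 78) (nat_lit 0) (nat_lit 0) (XT.lf (nat_lit 0) (nat_lit 165468756018) (nat_lit 76) (nat_lit 121736243613) (nat_lit 76) (nat_lit 116310495292) (nat_lit 1) (nat_lit 4) (nat_lit 2) (nat_lit 5) (nat_lit 2) (nat_lit 4) (nat_lit 314) (nat_lit 226) (nat_lit 180)) (XT.lf (nat_lit 0) (nat_lit 182493633778) (nat_lit 76) (nat_lit 129286866328) (nat_lit 76) (nat_lit 123849111487) (nat_lit 1) (nat_lit 4) (nat_lit 2) (nat_lit 5) (nat_lit 2) (nat_lit 4) (nat_lit 315) (nat_lit 226) (nat_lit 179)))) (XT.nd (nat_lit 78) (nat_lit 0) (nat_lit 0) (XT.lf (nat_lit 0) (nat_lit 200865658036) (nat_lit 76) (nat_lit 137448363275) (nat_lit 76) (nat_lit 131999491285) (nat_lit 1) (nat_lit 4) (nat_lit 2) (nat_lit 5) (nat_lit 2) (nat_lit 4) (nat_lit 316) (nat_lit 226) (nat_lit 178)) (XT.nd (nat_lit 78) (nat_lit 0) (nat_lit 0) (XT.lf (nat_lit 0) (nat_lit 220693700045) (nat_lit 76) (nat_lit 146269098879)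 (nat_lit 76) (nat_lit 140809933233) (nat_lit 1) (nat_lit 4) (nat_lit 2) (nat_lit 5) (nat_lit 2) (nat_lit 4) (nat_lit 317) (nat_lit 226) (nat_lit 177)) (XT.lf (nat_lit 0) (nat_lit 242095259315) (nat_lit 76) (nat_lit 155801344168) (nat_lit 76) (nat_lit 150332647359) (nat_lit 1) (nat_lit 4) (nat_lit 2) (nat_lit 5) (nat_lit 2) (nat_lit 4) (nat_lit 318) (nat_lit 226) (nat_lit 176))))) (XT.nd (nat_lit 234) (nat_lit 0) (nat_lit 0) (XT.nd (nat_lit 78) (nat_lit 0) (nat_lit 0) (XT.lf (nat_lit 0) (nat_lit 265197159900) (nat_lit 76) (nat_lit 166101586519) (nat_lit 76) (nat_lit 160624064559) (nat_lit 1) (nat_lit 4) (nat_lit 2) (nat_lit 5) (nat_lit 2) (nat_lit 4) (nat_lit 319) (nat_lit 226) (nat_lit 175)) (XT.nd (nat_lit 78) (nat_lit 0) (nat_lit 0) (XT.lf (nat_lit 0) (nat_lit 290136301951) (nat_lit 76) (nat_lit 177230864407) (nat_lit 76) (nat_lit 171745171011) (nat_lit 1) (nat_lit 4) (nat_lit 2)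 (nat_lit 5) (nat_lit 2) (nat_lit 4) (nat_lit 320) (nat_lit 226) (nat_lit 174)) (XT.lf (nat_lit 0) (nat_lit 317060472978) (nat_lit 76) (nat_lit 189255129108) (nat_lit 76) (nat_lit 183761869568) (nat_lit 1) (nat_lit 4) (nat_lit 2) (nat_lit 5) (nat_lit 2) (nat_lit 4) (nat_lit 321) (nat_lit 226) (nat_lit 173)))) (XT.nd (nat_lit 78) (nat_lit 0) (nat_lit 0) (XT.lf (nat_lit 0) (nat_lit 346129223623) (nat_lit 76) (nat_lit 202245635523) (nat_lit 76) (nat_lit 196745370294) (nat_lit 1) (nat_lit 4) (nat_lit 2) (nat_lit 5) (nat_lit 2) (nat_lit 4) (nat_lit 322) (nat_lit 226) (nat_lit 172)) (XT.nd (nat_lit 78) (nat_lit 0) (nat_lit 0) (XT.lf (nat_lit 0) (nat_lit 377514813149) (nat_lit 76) (nat_lit 216279364432) (nat_lit 76) (nat_lit 210772612453) (nat_lit 1) (nat_lit 4) (nat_lit 2) (nat_lit 5) (nat_lit 2) (nat_lit 4) (nat_lit 323) (nat_lit 226) (nat_lit 171)) (XT.lf (nat_lit 0) (nat_lit 411403230236)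 (nat_lit 76) (nat_lit 231439478672) (nat_lit 76) (nat_lit 225926720444) (nat_lit 1) (nat_lit 4) (nat_lit 2) (nat_lit 5) (nat_lit 2) (nat_lit 4) (nat_lit 324) (nat_lit 226) (nat_lit 170)))))) (XT.nd (nat_lit 468) (nat_lit 0) (nat_lit 0) (XT.nd (nat_lit 234) (nat_lit 0) (nat_lit 0) (XT.nd (nat_lit 78) (nat_lit 0) (nat_lit 0) (XT.lf (nat_lit 0) (nat_lit 447995295131) (nat_lit 76) (nat_lit 247815815958) (nat_lit 76) (nat_lit 242297496388) (nat_lit 1) (nat_lit 4) (nat_lit 2) (nat_lit 5) (nat_lit 2) (nat_lit 4) (nat_lit 325) (nat_lit 226) (nat_lit 169)) (XT.nd (nat_lit 78) (nat_lit 0) (nat_lit 0) (XT.lf (nat_lit 0) (nat_lit 487507849703) (nat_lit 76) (nat_lit 265505421251) (nat_lit 76) (nat_lit 259981952290) (nat_lit 1) (nat_lit 4) (nat_lit 2) (nat_lit 5) (nat_lit 2) (nat_lit 4) (nat_lit 326) (nat_lit 226) (nat_lit 168)) (XT.lf (nat_lit 0) (nat_lit 530175042421) (nat_lit 76) (nat_lit 284613121842)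 (nat_lit 76) (nat_lit 279084884927) (nat_lit 1) (nat_lit 4) (nat_lit 2) (nat_lit 5) (nat_lit 2) (nat_lit 4) (nat_lit 327) (nat_lit 226) (nat_lit 167)))) (XT.nd (nat_lit 78) (nat_lit 0) (nat_lit 0) (XT.lf (nat_lit 0) (nat_lit 576249715910) (nat_lit 76) (nat_lit 305252148548) (nat_lit 76) (nat_lit 299719496861) (nat_lit 1) (nat_lit 4) (nat_lit 2) (nat_lit 5) (nat_lit 2) (nat_lit 4) (nat_lit 328) (nat_lit 226) (nat_lit 166)) (XT.nd (nat_lit 78) (nat_lit 0) (nat_lit 0) (XT.lf (nat_lit 0) (nat_lit 626004905272) (nat_lit 76) (nat_lit 327544806715) (nat_lit 76) (nat_lit 322008067275) (nat_lit 1) (nat_lit 4) (nat_lit 2) (nat_lit 5) (nat_lit 2) (nat_lit 4) (nat_lit 329) (nat_lit 226) (nat_lit 165)) (XT.lf (nat_lit 0) (nat_lit 679735456073) (nat_lit 76) (nat_lit 351623200982) (nat_lit 76) (nat_lit 346082676586) (nat_lit 1) (nat_lit 4) (nat_lit 2) (nat_lit 5) (nat_lit 2) (nat_lit 4) (nat_lit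 330) (nat_lit 226) (nat_lit 164))))) (XT.nd (nat_lit 234) (nat_lit 0) (nat_lit 0) (XT.nd (nat_lit 78) (nat_lit 0) (nat_lit 0) (XT.lf (nat_lit 0) (nat_lit 737759771577) (nat_lit 76) (nat_lit 377630018130) (nat_lit 76) (nat_lit 372085989145) (nat_lit 1) (nat_lit 4) (nat_lit 2) (nat_lit 5) (nat_lit 2) (nat_lit 4) (nat_lit 331) (nat_lit 226) (nat_lit 163)) (XT.nd (nat_lit 78) (nat_lit 0) (nat_lit 0) (XT.lf (nat_lit 0) (nat_lit 800421699581) (nat_lit 76) (nat_lit 405719372632) (nat_lit 76) (nat_lit 400172098657) (nat_lit 1) (nat_lit 4) (nat_lit 2) (nat_lit 5) (nat_lit 2) (nat_lit 4) (nat_lit 332) (nat_lit 226) (nat_lit 162)) (XT.lf (nat_lit 0) (nat_lit 868092570026) (nat_lit 76) (nat_lit 436057719921) (nat_lit 76) (nat_lit 430507441326) (nat_lit 1) (nat_lit 4) (nat_lit 2) (nat_lit 5) (nat_lit 2) (nat_lit 4) (nat_lit 333) (nat_lit 226) (nat_lit 161)))) (XT.nd (nat_lit 156) (nat_lit 0) (nat_lit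 0) (XT.nd (nat_lit 78) (nat_lit 0) (nat_lit 0) (XT.lf (nat_lit 0) (nat_lit 941173395481) (nat_lit 76) (nat_lit 468824842796) (nat_lit 76) (nat_lit 463271782146) (nat_lit 1) (nat_lit 4) (nat_lit 2) (nat_lit 5) (nat_lit 2) (nat_lit 4) (nat_lit 334) (nat_lit 226) (nat_lit 160)) (XT.lf (nat_lit 0) (nat_lit 1020097247501) (nat_lit 76) (nat_lit 504214916800) (nat_lit 76) (nat_lit 498659280173) (nat_lit 1) (nat_lit 4) (nat_lit 2) (nat_lit 5) (nat_lit 2) (nat_lit 4) (nat_lit 335) (nat_lit 226) (nat_lit 159))) (XT.nd (nat_lit 78) (nat_lit 0) (nat_lit 0) (XT.lf (nat_lit 0) (nat_lit 1105331822989) (nat_lit 76) (nat_lit 542437660891) (nat_lit 76) (nat_lit 536879639100) (nat_lit 1) (nat_lit 4) (nat_lit 2) (nat_lit 5) (nat_lit 2) (nat_lit 4) (nat_lit 336) (nat_lit 226) (nat_lit 158)) (XT.lf (nat_lit 0) (nat_lit 1197382215725) (nat_lit 76) (nat_lit 583719580218) (nat_lit 76) (nat_lit 578159349941)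 (nat_lit 1) (nat_lit 4) (nat_lit 2) (nat_lit 5) (nat_lit 2) (nat_lit 4) (nat_lit 337) (nat_lit 226) (nat_lit 157))))))) (XT.nd (nat_lit 32760) (nat_lit 0) (nat_lit 76) (XT.nd (nat_lit 32214) (nat_lit 0) (nat_lit 304) (XT.nd (nat_lit 31980) (nat_lit 0) (nat_lit 532) (XT.nd (nat_lit 78) (nat_lit 0) (nat_lit 0) (XT.lf (nat_lit 0) (nat_lit 1296793909517) (nat_lit 76) (nat_lit 628305308378) (nat_lit 76) (nat_lit 622743033207) (nat_lit 1) (nat_lit 4) (nat_lit 2) (nat_lit 5) (nat_lit 2) (nat_lit 4) (nat_lit 338) (nat_lit 226) (nat_lit 156)) (XT.nd (nat_lit 31824) (nat_lit 0) (nat_lit 684) (XT.lf (nat_lit 0) (nat_lit 1404156010700) (nat_lit 76) (nat_lit 676459057092) (nat_lit 76) (nat_lit 670894888501) (nat_lit 1) (nat_lit 4) (nat_lit 2) (nat_lit 5) (nat_lit 2) (nat_lit 4) (nat_lit 339) (nat_lit 226) (nat_lit 155)) (XT.lf (nat_lit 0) (nat_lit 1170517789) (nat_lit 152) (nat_lit 2773126534)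 (nat_lit 152) (nat_lit 2773126534) (nat_lit 10) (nat_lit 4) (nat_lit 12) (nat_lit 5) (nat_lit 12) (nat_lit 4) (nat_lit 266) (nat_lit 227) (nat_lit 227)))) (XT.nd (nat_lit 78) (nat_lit 152) (nat_lit 0) (XT.lf (nat_lit 0) (nat_lit 9312017570) (nat_lit 152) (nat_lit 2708767944) (nat_lit 152) (nat_lit 2145642784) (nat_lit 10) (nat_lit 4) (nat_lit 12) (nat_lit 5) (nat_lit 12) (nat_lit 4) (nat_lit 267) (nat_lit 227) (nat_lit 226)) (XT.nd (nat_lit 78) (nat_lit 0) (nat_lit 0) (XT.lf (nat_lit 0) (nat_lit 1289694766) (nat_lit 152) (nat_lit 13393278522) (nat_lit 0) (nat_lit 285493521) (nat_lit 8) (nat_lit 5) (nat_lit 10) (nat_lit 4) (nat_lit 8) (nat_lit 4) (nat_lit 268) (nat_lit 227) (nat_lit 225)) (XT.lf (nat_lit 0) (nat_lit 4888258156) (nat_lit 152) (nat_lit 7505117204) (nat_lit 0) (nat_lit 3437030003) (nat_lit 8) (nat_lit 5) (nat_lit 10) (nat_lit 4) (nat_lit 8) (nat_lit 4) (nat_lit 269) (nat_lit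 227) (nat_lit 224))))) (XT.nd (nat_lit 234) (nat_lit 152) (nat_lit 0) (XT.nd (nat_lit 78) (nat_lit 76) (nat_lit 0) (XT.lf (nat_lit 0) (nat_lit 8587471421) (nat_lit 152) (nat_lit 1466977840) (nat_lit 0) (nat_lit 6722329465) (nat_lit 8) (nat_lit 5) (nat_lit 10) (nat_lit 4) (nat_lit 8) (nat_lit 4) (nat_lit 270) (nat_lit 227) (nat_lit 223)) (XT.nd (nat_lit 78) (nat_lit 0) (nat_lit 0) (XT.lf (nat_lit 0) (nat_lit 5007412172) (nat_lit 76) (nat_lit 7522272038) (nat_lit 76) (nat_lit 5273876560) (nat_lit 7) (nat_lit 4) (nat_lit 8) (nat_lit 5) (nat_lit 8) (nat_lit 4) (nat_lit 271) (nat_lit 227) (nat_lit 222)) (XT.lf (nat_lit 0) (nat_lit 11793416547) (nat_lit 76) (nat_lit 4866474388) (nat_lit 76) (nat_lit 2263214539) (nat_lit 7) (nat_lit 4) (nat_lit 8) (nat_lit 5) (nat_lit 8) (nat_lit 4) (nat_lit 272) (nat_lit 227) (nat_lit 221)))) (XT.nd (nat_lit 156) (nat_lit 0) (nat_lit 0) (XT.nd (nat_lit 78)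 (nat_lit 76) (nat_lit 0) (XT.lf (nat_lit 0) (nat_lit 779369716) (nat_lit 152) (nat_lit 1310748961) (nat_lit 76) (nat_lit 18053321125) (nat_lit 6) (nat_lit 5) (nat_lit 8) (nat_lit 5) (nat_lit 7) (nat_lit 4) (nat_lit 273) (nat_lit 227) (nat_lit 220)) (XT.lf (nat_lit 0) (nat_lit 3937161795) (nat_lit 152) (nat_lit 16579557105) (nat_lit 0) (nat_lit 940794227) (nat_lit 5) (nat_lit 5) (nat_lit 7) (nat_lit 4) (nat_lit 5) (nat_lit 4) (nat_lit 274) (nat_lit 227) (nat_lit 219))) (XT.nd (nat_lit 78) (nat_lit 0) (nat_lit 0) (XT.lf (nat_lit 0) (nat_lit 7293302275) (nat_lit 152) (nat_lit 11551968900) (nat_lit 0) (nat_lit 4036098800) (nat_lit 5) (nat_lit 5) (nat_lit 7) (nat_lit 4) (nat_lit 5) (nat_lit 4) (nat_lit 275) (nat_lit 227) (nat_lit 218)) (XT.lf (nat_lit 0) (nat_lit 10783366563) (nat_lit 152) (nat_lit 6362178121) (nat_lit 0) (nat_lit 7284648359) (nat_lit 5) (nat_lit 5) (nat_lit 7) (nat_lit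 4) (nat_lit 5) (nat_lit 4) (nat_lit 276) (nat_lit 227) (nat_lit 217)))))) (XT.nd (nat_lit 468) (nat_lit 152) (nat_lit 0) (XT.nd (nat_lit 234) (nat_lit 0) (nat_lit 0) (XT.nd (nat_lit 78) (nat_lit 76) (nat_lit 0) (XT.lf (nat_lit 0) (nat_lit 14428036521) (nat_lit 152) (nat_lit 979430451) (nat_lit 0) (nat_lit 10705693568) (nat_lit 5) (nat_lit 5) (nat_lit 7) (nat_lit 4) (nat_lit 5) (nat_lit 4) (nat_lit 277) (nat_lit 227) (nat_lit 216)) (XT.nd (nat_lit 78) (nat_lit 0) (nat_lit 0) (XT.lf (nat_lit 0) (nat_lit 4871883202) (nat_lit 76) (nat_lit 13494195899) (nat_lit 76) (nat_lit 9564792994) (nat_lit 4) (nat_lit 4) (nat_lit 5) (nat_lit 5) (nat_lit 5) (nat_lit 4) (nat_lit 278) (nat_lit 227) (nat_lit 215)) (XT.lf (nat_lit 0) (nat_lit 11046447111) (nat_lit 76) (nat_lit 11487850002) (nat_lit 76) (nat_lit 7366724918) (nat_lit 4) (nat_lit 4) (nat_lit 5) (nat_lit 5) (nat_lit 5) (nat_lit 4) (nat_lit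 279) (nat_lit 227) (nat_lit 214)))) (XT.nd (nat_lit 78) (nat_lit 0) (nat_lit 0) (XT.lf (nat_lit 0) (nat_lit 17529276212) (nat_lit 76) (nat_lit 9403319187) (nat_lit 76) (nat_lit 5104673568) (nat_lit 4) (nat_lit 4) (nat_lit 5) (nat_lit 5) (nat_lit 5) (nat_lit 4) (nat_lit 280) (nat_lit 227) (nat_lit 213)) (XT.nd (nat_lit 78) (nat_lit 0) (nat_lit 0) (XT.lf (nat_lit 0) (nat_lit 24358787270) (nat_lit 76) (nat_lit 7228250680) (nat_lit 76) (nat_lit 2765234195) (nat_lit 4) (nat_lit 4) (nat_lit 5) (nat_lit 5) (nat_lit 5) (nat_lit 4) (nat_lit 281) (nat_lit 227) (nat_lit 212)) (XT.lf (nat_lit 0) (nat_lit 31575451462) (nat_lit 76) (nat_lit 4949755185) (nat_lit 76) (nat_lit 334543454) (nat_lit 4) (nat_lit 4) (nat_lit 5) (nat_lit 5) (nat_lit 5) (nat_lit 4) (nat_lit 282) (nat_lit 227) (nat_lit 211))))) (XT.nd (nat_lit 234) (nat_lit 0) (nat_lit 0) (XT.nd (nat_lit 78) (nat_lit 76) (nat_lit 0) (XT.lf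 (nat_lit 0) (nat_lit 2091659656) (nat_lit 152) (nat_lit 405481169) (nat_lit 76) (nat_lit 37073184866) (nat_lit 3) (nat_lit 5) (nat_lit 5) (nat_lit 5) (nat_lit 4) (nat_lit 4) (nat_lit 283) (nat_lit 227) (nat_lit 210)) (XT.nd (nat_lit 78) (nat_lit 0) (nat_lit 0) (XT.lf (nat_lit 0) (nat_lit 4740589775) (nat_lit 152) (nat_lit 37536927034) (nat_lit 0) (nat_lit 215945193) (nat_lit 2) (nat_lit 5) (nat_lit 4) (nat_lit 4) (nat_lit 2) (nat_lit 4) (nat_lit 284) (nat_lit 227) (nat_lit 209)) (XT.lf (nat_lit 0) (nat_lit 7600566370) (nat_lit 152) (nat_lit 35086033926) (nat_lit 0) (nat_lit 2964053738) (nat_lit 2) (nat_lit 5) (nat_lit 4) (nat_lit 4) (nat_lit 2) (nat_lit 4) (nat_lit 285) (nat_lit 227) (nat_lit 208)))) (XT.nd (nat_lit 156) (nat_lit 0) (nat_lit 0) (XT.nd (nat_lit 78) (nat_lit 0) (nat_lit 0) (XT.lf (nat_lit 0) (nat_lit 10617949174) (nat_lit 152) (nat_lit 32570453944) (nat_lit 0) (nat_lit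 5877855014) (nat_lit 2) (nat_lit 5) (nat_lit 4) (nat_lit 4) (nat_lit 2) (nat_lit 4) (nat_lit 286) (nat_lit 227) (nat_lit 207)) (XT.lf (nat_lit 0) (nat_lit 13810618975) (nat_lit 152) (nat_lit 29975279948) (nat_lit 0) (nat_lit 8974615994) (nat_lit 2) (nat_lit 5) (nat_lit 4) (nat_lit 4) (nat_lit 2) (nat_lit 4) (nat_lit 287) (nat_lit 227) (nat_lit 206))) (XT.nd (nat_lit 78) (nat_lit 0) (nat_lit 0) (XT.lf (nat_lit 0) (nat_lit 17197495297) (nat_lit 152) (nat_lit 27285133130) (nat_lit 0) (nat_lit 12272687851) (nat_lit 2) (nat_lit 5) (nat_lit 4) (nat_lit 4) (nat_lit 2) (nat_lit 4) (nat_lit 288) (nat_lit 227) (nat_lit 205)) (XT.lf (nat_lit 0) (nat_lit 20798648519) (nat_lit 152) (nat_lit 24484071878) (nat_lit 0) (nat_lit 15791614717) (nat_lit 2) (nat_lit 5) (nat_lit 4) (nat_lit 4) (nat_lit 2) (nat_lit 4) (nat_lit 289) (nat_lit 227) (nat_lit 204))))))))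
noncomputable def xc28 : XT := (XT.nd (nat_lit 1950) (nat_lit 0) (nat_lit 0) (XT.nd (nat_lit 936) (nat_lit 0) (nat_lit 0) (XT.nd (nat_lit 468) (nat_lit 76) (nat_lit 0) (XT.nd (nat_lit 234) (nat_lit 0) (nat_lit 0) (XT.nd (nat_lit 78) (nat_lit 0) (nat_lit 0) (XT.lf (nat_lit 0) (nat_lit 24635418808) (nat_lit 152) (nat_lit 21555497311) (nat_lit 0) (nat_lit 19552249491) (nat_lit 2) (nat_lit 5) (nat_lit 4) (nat_lit 4) (nat_lit 2) (nat_lit 4) (nat_lit 290) (nat_lit 227) (nat_lit 203)) (XT.nd (nat_lit 78) (nat_lit 0) (nat_lit 0) (XT.lf (nat_lit 0) (nat_lit 28730542580) (nat_lit 152) (nat_lit 18482054913) (nat_lit 0) (nat_lit 23576877416) (nat_lit 2) (nat_lit 5) (nat_lit 4) (nat_lit 4) (nat_lit 2) (nat_lit 4) (nat_lit 291) (nat_lit 227) (nat_lit 202)) (XT.lf (nat_lit 0) (nat_lit 33108287236) (nat_lit 152) (nat_lit 15245531693) (nat_lit 0) (nat_lit 27889348140) (nat_lit 2) (nat_lit 5) (nat_lit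 4) (nat_lit 4) (nat_lit 2) (nat_lit 4) (nat_lit 292) (nat_lit 227) (nat_lit 201)))) (XT.nd (nat_lit 78) (nat_lit 0) (nat_lit 0) (XT.lf (nat_lit 0) (nat_lit 37794594966) (nat_lit 152) (nat_lit 11826748252) (nat_lit 0) (nat_lit 32515217043) (nat_lit 2) (nat_lit 5) (nat_lit 4) (nat_lit 4) (nat_lit 2) (nat_lit 4) (nat_lit 293) (nat_lit 227) (nat_lit 200)) (XT.nd (nat_lit 78) (nat_lit 0) (nat_lit 0) (XT.lf (nat_lit 0) (nat_lit 42817236482) (nat_lit 152) (nat_lit 8205445135) (nat_lit 0) (nat_lit 37481896683) (nat_lit 2) (nat_lit 5) (nat_lit 4) (nat_lit 4) (nat_lit 2) (nat_lit 4) (nat_lit 294) (nat_lit 227) (nat_lit 199)) (XT.lf (nat_lit 0) (nat_lit 48205975587) (nat_lit 152) (nat_lit 4360162766) (nat_lit 0) (nat_lit 42818819236) (nat_lit 2) (nat_lit 5) (nat_lit 4) (nat_lit 4) (nat_lit 2) (nat_lit 4) (nat_lit 295) (nat_lit 227) (nat_lit 198))))) (XT.nd (nat_lit 234) (nat_lit 0) (nat_lit 0)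 (XT.nd (nat_lit 78) (nat_lit 76) (nat_lit 0) (XT.lf (nat_lit 0) (nat_lit 53992745548) (nat_lit 152) (nat_lit 268114287) (nat_lit 0) (nat_lit 48557610908) (nat_lit 2) (nat_lit 5) (nat_lit 4) (nat_lit 4) (nat_lit 2) (nat_lit 4) (nat_lit 296) (nat_lit 227) (nat_lit 197)) (XT.nd (nat_lit 78) (nat_lit 0) (nat_lit 0) (XT.lf (nat_lit 0) (nat_lit 4310582259) (nat_lit 76) (nat_lit 56004925684) (nat_lit 76) (nat_lit 50525366703) (nat_lit 1) (nat_lit 4) (nat_lit 2) (nat_lit 5) (nat_lit 2) (nat_lit 4) (nat_lit 297) (nat_lit 227) (nat_lit 196)) (XT.lf (nat_lit 0) (nat_lit 9215900381) (nat_lit 76) (nat_lit 57905850080) (nat_lit 76) (nat_lit 52385157448) (nat_lit 1) (nat_lit 4) (nat_lit 2) (nat_lit 5) (nat_lit 2) (nat_lit 4) (nat_lit 298) (nat_lit 227) (nat_lit 195)))) (XT.nd (nat_lit 78) (nat_lit 0) (nat_lit 0) (XT.lf (nat_lit 0) (nat_lit 14462790207) (nat_lit 76) (nat_lit 59982228479) (nat_lit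 76) (nat_lit 54423449135) (nat_lit 1) (nat_lit 4) (nat_lit 2) (nat_lit 5) (nat_lit 2) (nat_lit 4) (nat_lit 299) (nat_lit 227) (nat_lit 194)) (XT.nd (nat_lit 78) (nat_lit 0) (nat_lit 0) (XT.lf (nat_lit 0) (nat_lit 20082344417) (nat_lit 76) (nat_lit 62246365347) (nat_lit 76) (nat_lit 56652320528) (nat_lit 1) (nat_lit 4) (nat_lit 2) (nat_lit 5) (nat_lit 2) (nat_lit 4) (nat_lit 300) (nat_lit 227) (nat_lit 193)) (XT.lf (nat_lit 0) (nat_lit 26107864074) (nat_lit 76) (nat_lit 64711677790) (nat_lit 76) (nat_lit 59084979754) (nat_lit 1) (nat_lit 4) (nat_lit 2) (nat_lit 5) (nat_lit 2) (nat_lit 4) (nat_lit 301) (nat_lit 227) (nat_lit 192)))))) (XT.nd (nat_lit 468) (nat_lit 0) (nat_lit 0) (XT.nd (nat_lit 234) (nat_lit 0) (nat_lit 0) (XT.nd (nat_lit 78) (nat_lit 0) (nat_lit 0) (XT.lf (nat_lit 0) (nat_lit 32575055959) (nat_lit 76) (nat_lit 67392775068) (nat_lit 76) (nat_lit 61735842572) (nat_lit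 1) (nat_lit 4) (nat_lit 2) (nat_lit 5) (nat_lit 2) (nat_lit 4) (nat_lit 302) (nat_lit 227) (nat_lit 191)) (XT.nd (nat_lit 78) (nat_lit 0) (nat_lit 0) (XT.lf (nat_lit 0) (nat_lit 39522244174) (nat_lit 76) (nat_lit 70305545165) (nat_lit 76) (nat_lit 64620617798) (nat_lit 1) (nat_lit 4) (nat_lit 2) (nat_lit 5) (nat_lit 2) (nat_lit 4) (nat_lit 303) (nat_lit 227) (nat_lit 190)) (XT.lf (nat_lit 0) (nat_lit 46990597241) (nat_lit 76) (nat_lit 73467248940) (nat_lit 76) (nat_lit 67756400397) (nat_lit 1) (nat_lit 4) (nat_lit 2) (nat_lit 5) (nat_lit 2) (nat_lit 4) (nat_lit 304) (nat_lit 227) (nat_lit 189)))) (XT.nd (nat_lit 78) (nat_lit 0) (nat_lit 0) (XT.lf (nat_lit 0) (nat_lit 55024372067) (nat_lit 76) (nat_lit 76896622417) (nat_lit 76) (nat_lit 71161772783) (nat_lit 1) (nat_lit 4) (nat_lit 2) (nat_lit 5) (nat_lit 2) (nat_lit 4) (nat_lit 305) (nat_lit 227) (nat_lit 188)) (XT.nd (nat_lit 78)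 (nat_lit 0) (nat_lit 0) (XT.lf (nat_lit 0) (nat_lit 63671176207) (nat_lit 76) (nat_lit 80613987807) (nat_lit 76) (nat_lit 74856914942) (nat_lit 1) (nat_lit 4) (nat_lit 2) (nat_lit 5) (nat_lit 2) (nat_lit 4) (nat_lit 306) (nat_lit 227) (nat_lit 187)) (XT.lf (nat_lit 0) (nat_lit 72982249981) (nat_lit 76) (nat_lit 84641373943) (nat_lit 76) (nat_lit 78863724012) (nat_lit 1) (nat_lit 4) (nat_lit 2) (nat_lit 5) (nat_lit 2) (nat_lit 4) (nat_lit 307) (nat_lit 227) (nat_lit 186))))) (XT.nd (nat_lit 234) (nat_lit 0) (nat_lit 0) (XT.nd (nat_lit 78) (nat_lit 0) (nat_lit 0) (XT.lf (nat_lit 0) (nat_lit 83012770124) (nat_lit 76) (nat_lit 89002646816) (nat_lit 76) (nat_lit 83205944048) (nat_lit 1) (nat_lit 4) (nat_lit 2) (nat_lit 5) (nat_lit 2) (nat_lit 4) (nat_lit 308) (nat_lit 227) (nat_lit 185)) (XT.nd (nat_lit 78) (nat_lit 0) (nat_lit 0) (XT.lf (nat_lit 0) (nat_lit 93822176753) (nat_lit 76) (nat_lit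 93723651008) (nat_lit 76) (nat_lit 87909306722) (nat_lit 1) (nat_lit 4) (nat_lit 2) (nat_lit 5) (nat_lit 2) (nat_lit 4) (nat_lit 309) (nat_lit 227) (nat_lit 184)) (XT.lf (nat_lit 0) (nat_lit 105474525613) (nat_lit 76) (nat_lit 98832362839) (nat_lit 76) (nat_lit 93001683814) (nat_lit 1) (nat_lit 4) (nat_lit 2) (nat_lit 5) (nat_lit 2) (nat_lit 4) (nat_lit 310) (nat_lit 227) (nat_lit 183)))) (XT.nd (nat_lit 156) (nat_lit 0) (nat_lit 0) (XT.nd (nat_lit 78) (nat_lit 0) (nat_lit 0) (XT.lf (nat_lit 0) (nat_lit 118038867660) (nat_lit 76) (nat_lit 104359056156) (nat_lit 76) (nat_lit 98513252374) (nat_lit 1) (nat_lit 4) (nat_lit 2) (nat_lit 5) (nat_lit 2) (nat_lit 4) (nat_lit 311) (nat_lit 227) (nat_lit 182)) (XT.lf (nat_lit 0) (nat_lit 131589658253) (nat_lit 76) (nat_lit 110336481736) (nat_lit 76) (nat_lit 104476673549) (nat_lit 1) (nat_lit 4) (nat_lit 2) (nat_lit 5) (nat_lit 2) (nat_lit 4)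 (nat_lit 312) (nat_lit 227) (nat_lit 181))) (XT.nd (nat_lit 78) (nat_lit 0) (nat_lit 0) (XT.lf (nat_lit 0) (nat_lit 146207198375) (nat_lit 76) (nat_lit 116800061359) (nat_lit 76) (nat_lit 110927286130) (nat_lit 1) (nat_lit 4) (nat_lit 2) (nat_lit 5) (nat_lit 2) (nat_lit 4) (nat_lit 313) (nat_lit 227) (nat_lit 180)) (XT.lf (nat_lit 0) (nat_lit 161978110485) (nat_lit 76) (nat_lit 123788097719) (nat_lit 76) (nat_lit 117903315970) (nat_lit 1) (nat_lit 4) (nat_lit 2) (nat_lit 5) (nat_lit 2) (nat_lit 4) (nat_lit 314) (nat_lit 227) (nat_lit 179))))))) (XT.nd (nat_lit 936) (nat_lit 0) (nat_lit 0) (XT.nd (nat_lit 468) (nat_lit 0) (nat_lit 0) (XT.nd (nat_lit 234) (nat_lit 0) (nat_lit 0) (XT.nd (nat_lit 78) (nat_lit 0) (nat_lit 0) (XT.lf (nat_lit 0) (nat_lit 178995851840) (nat_lit 76) (nat_lit 131342001403) (nat_lit 76) (nat_lit 125446102505) (nat_lit 1) (nat_lit 4) (nat_lit 2) (nat_lit 5) (nat_lit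 2) (nat_lit 4) (nat_lit 315) (nat_lit 227) (nat_lit 178)) (XT.nd (nat_lit 78) (nat_lit 0) (nat_lit 0) (XT.lf (nat_lit 0) (nat_lit 197361268314) (nat_lit 76) (nat_lit 139506536283) (nat_lit 76) (nat_lit 133600343729) (nat_lit 1) (nat_lit 4) (nat_lit 2) (nat_lit 5) (nat_lit 2) (nat_lit 4) (nat_lit 316) (nat_lit 227) (nat_lit 177)) (XT.lf (nat_lit 0) (nat_lit 217183192006) (nat_lit 76) (nat_lit 148330084789) (nat_lit 76) (nat_lit 142414361073) (nat_lit 1) (nat_lit 4) (nat_lit 2) (nat_lit 5) (nat_lit 2) (nat_lit 4) (nat_lit 317) (nat_lit 227) (nat_lit 176)))) (XT.nd (nat_lit 78) (nat_lit 0) (nat_lit 0) (XT.lf (nat_lit 0) (nat_lit 238579086167) (nat_lit 76) (nat_lit 157864934616) (nat_lit 76) (nat_lit 151940385749) (nat_lit 1) (nat_lit 4) (nat_lit 2) (nat_lit 5) (nat_lit 2) (nat_lit 4) (nat_lit 318) (nat_lit 227) (nat_lit 175)) (XT.nd (nat_lit 78) (nat_lit 0) (nat_lit 0) (XT.lf (nat_lit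 0) (nat_lit 261675741281) (nat_lit 76) (nat_lit 168167588577) (nat_lit 76) (nat_lit 162234868274) (nat_lit 1) (nat_lit 4) (nat_lit 2) (nat_lit 5) (nat_lit 2) (nat_lit 4) (nat_lit 319) (nat_lit 227) (nat_lit 174)) (XT.lf (nat_lit 0) (nat_lit 286610026414) (nat_lit 76) (nat_lit 179299099437) (nat_lit 76) (nat_lit 173358812990) (nat_lit 1) (nat_lit 4) (nat_lit 2) (nat_lit 5) (nat_lit 2) (nat_lit 4) (nat_lit 320) (nat_lit 227) (nat_lit 173))))) (XT.nd (nat_lit 234) (nat_lit 0) (nat_lit 0) (XT.nd (nat_lit 78) (nat_lit 0) (nat_lit 0) (XT.lf (nat_lit 0) (nat_lit 313529700295) (nat_lit 76) (nat_lit 191325431704) (nat_lit 76) (nat_lit 185378139568) (nat_lit 1) (nat_lit 4) (nat_lit 2) (nat_lit 5) (nat_lit 2) (nat_lit 4) (nat_lit 321) (nat_lit 227) (nat_lit 172)) (XT.nd (nat_lit 78) (nat_lit 0) (nat_lit 0) (XT.lf (nat_lit 0) (nat_lit 342594286916) (nat_lit 76) (nat_lit 204317852533) (nat_lit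 76) (nat_lit 198364073647) (nat_lit 1) (nat_lit 4) (nat_lit 2) (nat_lit 5) (nat_lit 2) (nat_lit 4) (nat_lit 322) (nat_lit 227) (nat_lit 171)) (XT.lf (nat_lit 0) (nat_lit 373976020864) (nat_lit 76) (nat_lit 218353354047) (nat_lit 76) (nat_lit 212393568912) (nat_lit 1) (nat_lit 4) (nat_lit 2) (nat_lit 5) (nat_lit 2) (nat_lit 4) (nat_lit 323) (nat_lit 227) (nat_lit 170)))) (XT.nd (nat_lit 78) (nat_lit 0) (nat_lit 0) (XT.lf (nat_lit 0) (nat_lit 407860867971) (nat_lit 76) (nat_lit 233515109589) (nat_lit 76) (nat_lit 227549763111) (nat_lit 1) (nat_lit 4) (nat_lit 2) (nat_lit 5) (nat_lit 2) (nat_lit 4) (nat_lit 324) (nat_lit 227) (nat_lit 169)) (XT.nd (nat_lit 78) (nat_lit 0) (nat_lit 0) (XT.lf (nat_lit 0) (nat_lit 444449627330) (nat_lit 76) (nat_lit 249892966598) (nat_lit 76) (nat_lit 243922470730) (nat_lit 1) (nat_lit 4) (nat_lit 2) (nat_lit 5) (nat_lit 2) (nat_lit 4) (nat_lit 325) (nat_lit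 227) (nat_lit 168)) (XT.lf (nat_lit 0) (nat_lit 483959121220) (nat_lit 76) (nat_lit 267583979042) (nat_lit 76) (nat_lit 261608715219) (nat_lit 1) (nat_lit 4) (nat_lit 2) (nat_lit 5) (nat_lit 2) (nat_lit 4) (nat_lit 326) (nat_lit 227) (nat_lit 167)))))) (XT.nd (nat_lit 468) (nat_lit 0) (nat_lit 0) (XT.nd (nat_lit 234) (nat_lit 0) (nat_lit 0) (XT.nd (nat_lit 78) (nat_lit 0) (nat_lit 0) (XT.lf (nat_lit 0) (nat_lit 526623479973) (nat_lit 76) (nat_lit 286692982550) (nat_lit 76) (nat_lit 280713303955) (nat_lit 1) (nat_lit 4) (nat_lit 2) (nat_lit 5) (nat_lit 2) (nat_lit 4) (nat_lit 327) (nat_lit 227) (nat_lit 166)) (XT.nd (nat_lit 78) (nat_lit 0) (nat_lit 0) (XT.lf (nat_lit 0) (nat_lit 572695529421) (nat_lit 76) (nat_lit 307333215662) (nat_lit 76) (nat_lit 301349449315) (nat_lit 1) (nat_lit 4) (nat_lit 2) (nat_lit 5) (nat_lit 2) (nat_lit 4) (nat_lit 328) (nat_lit 227) (nat_lit 165)) (XT.lf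 (nat_lit 0) (nat_lit 622448289114) (nat_lit 76) (nat_lit 329626990871) (nat_lit 76) (nat_lit 323639439567) (nat_lit 1) (nat_lit 4) (nat_lit 2) (nat_lit 5) (nat_lit 2) (nat_lit 4) (nat_lit 329) (nat_lit 227) (nat_lit 164)))) (XT.nd (nat_lit 78) (nat_lit 0) (nat_lit 0) (XT.lf (nat_lit 0) (nat_lit 676176590223) (nat_lit 76) (nat_lit 353706419436) (nat_lit 76) (nat_lit 347715363543) (nat_lit 1) (nat_lit 4) (nat_lit 2) (nat_lit 5) (nat_lit 2) (nat_lit 4) (nat_lit 330) (nat_lit 227) (nat_lit 163)) (XT.nd (nat_lit 78) (nat_lit 0) (nat_lit 0) (XT.lf (nat_lit 0) (nat_lit 734198822678) (nat_lit 76) (nat_lit 379714194267) (nat_lit 76) (nat_lit 373719893386) (nat_lit 1) (nat_lit 4) (nat_lit 2) (nat_lit 5) (nat_lit 2) (nat_lit 4) (nat_lit 331) (nat_lit 227) (nat_lit 162)) (XT.lf (nat_lit 0) (nat_lit 796858821933) (nat_lit 76) (nat_lit 407804435513) (nat_lit 76) (nat_lit 401807130011) (nat_lit 1)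 (nat_lit 4) (nat_lit 2) (nat_lit 5) (nat_lit 2) (nat_lit 4) (nat_lit 332) (nat_lit 227) (nat_lit 161))))) (XT.nd (nat_lit 234) (nat_lit 0) (nat_lit 0) (XT.nd (nat_lit 78) (nat_lit 0) (nat_lit 0) (XT.lf (nat_lit 0) (nat_lit 864527906500) (nat_lit 76) (nat_lit 438143603861) (nat_lit 76) (nat_lit 432143516304) (nat_lit 1) (nat_lit 4) (nat_lit 2) (nat_lit 5) (nat_lit 2) (nat_lit 4) (nat_lit 333) (nat_lit 227) (nat_lit 160)) (XT.nd (nat_lit 78) (nat_lit 0) (nat_lit 0) (XT.lf (nat_lit 0) (nat_lit 937607078363) (nat_lit 76) (nat_lit 470911486976) (nat_lit 76) (nat_lit 464908823442) (nat_lit 1) (nat_lit 4) (nat_lit 2) (nat_lit 5) (nat_lit 2) (nat_lit 4) (nat_lit 334) (nat_lit 227) (nat_lit 159)) (XT.lf (nat_lit 0) (nat_lit 1016529399280) (nat_lit 76) (nat_lit 506302264907) (nat_lit 76) (nat_lit 500297216208) (nat_lit 1) (nat_lit 4) (nat_lit 2) (nat_lit 5) (nat_lit 2) (nat_lit 4) (nat_lit 335)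 (nat_lit 227) (nat_lit 158)))) (XT.nd (nat_lit 156) (nat_lit 0) (nat_lit 0) (XT.nd (nat_lit 78) (nat_lit 0) (nat_lit 0) (XT.lf (nat_lit 0) (nat_lit 1101762557080) (nat_lit 76) (nat_lit 544525660781) (nat_lit 76) (nat_lit 538518403596) (nat_lit 1) (nat_lit 4) (nat_lit 2) (nat_lit 5) (nat_lit 2) (nat_lit 4) (nat_lit 336) (nat_lit 227) (nat_lit 157)) (XT.lf (nat_lit 0) (nat_lit 1193811637142) (nat_lit 76) (nat_lit 585808183611) (nat_lit 76) (nat_lit 579798881532) (nat_lit 1) (nat_lit 4) (nat_lit 2) (nat_lit 5) (nat_lit 2) (nat_lit 4) (nat_lit 337) (nat_lit 227) (nat_lit 156))) (XT.nd (nat_lit 78) (nat_lit 0) (nat_lit 0) (XT.lf (nat_lit 0) (nat_lit 1293222115496) (nat_lit 76) (nat_lit 630394470569) (nat_lit 76) (nat_lit 624383275071) (nat_lit 1) (nat_lit 4) (nat_lit 2) (nat_lit 5) (nat_lit 2) (nat_lit 4) (nat_lit 338) (nat_lit 227) (nat_lit 155)) (XT.lf (nat_lit 0) (nat_lit 1400583091272)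 (nat_lit 76) (nat_lit 678548736690) (nat_lit 76) (nat_lit 672535788024) (nat_lit 1) (nat_lit 4) (nat_lit 2) (nat_lit 5) (nat_lit 2) (nat_lit 4) (nat_lit 339) (nat_lit 227) (nat_lit 154))))))))
noncomputable def xc29 : XT := (XT.nd (nat_lit 1950) (nat_lit 76) (nat_lit 0) (XT.nd (nat_lit 936) (nat_lit 228) (nat_lit 0) (XT.nd (nat_lit 468) (nat_lit 228) (nat_lit 0) (XT.nd (nat_lit 234) (nat_lit 152) (nat_lit 0) (XT.nd (nat_lit 78) (nat_lit 152) (nat_lit 0) (XT.lf (nat_lit 0) (nat_lit 448192572) (nat_lit 152) (nat_lit 5176810141) (nat_lit 0) (nat_lit 448192572) (nat_lit 12) (nat_lit 5) (nat_lit 14) (nat_lit 4) (nat_lit 12) (nat_lit 4) (nat_lit 264) (nat_lit 228) (nat_lit 228)) (XT.nd (nat_lit 78) (nat_lit 152) (nat_lit 0) (XT.lf (nat_lit 0) (nat_lit 4574610854) (nat_lit 152) (nat_lit 4222010783) (nat_lit 0) (nat_lit 3966435681) (nat_lit 12) (nat_lit 5) (nat_lit 14) (nat_lit 4) (nat_lit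 12) (nat_lit 4) (nat_lit 265) (nat_lit 228) (nat_lit 227)) (XT.lf (nat_lit 0) (nat_lit 2169296361) (nat_lit 152) (nat_lit 6222099386) (nat_lit 152) (nat_lit 5050799053) (nat_lit 10) (nat_lit 4) (nat_lit 12) (nat_lit 5) (nat_lit 12) (nat_lit 4) (nat_lit 266) (nat_lit 228) (nat_lit 226)))) (XT.nd (nat_lit 78) (nat_lit 152) (nat_lit 0) (XT.lf (nat_lit 0) (nat_lit 8981260556) (nat_lit 152) (nat_lit 3447272728) (nat_lit 152) (nat_lit 1754560210) (nat_lit 10) (nat_lit 4) (nat_lit 12) (nat_lit 5) (nat_lit 12) (nat_lit 4) (nat_lit 267) (nat_lit 228) (nat_lit 225)) (XT.nd (nat_lit 78) (nat_lit 0) (nat_lit 0) (XT.lf (nat_lit 0) (nat_lit 1047021798) (nat_lit 76) (nat_lit 502268286) (nat_lit 152) (nat_lit 13444303463) (nat_lit 8) (nat_lit 5) (nat_lit 9) (nat_lit 5) (nat_lit 10) (nat_lit 4) (nat_lit 268) (nat_lit 228) (nat_lit 224)) (XT.lf (nat_lit 0) (nat_lit 5045756989) (nat_lit 152) (nat_lit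 8200693780) (nat_lit 0) (nat_lit 2617489873) (nat_lit 8) (nat_lit 5) (nat_lit 10) (nat_lit 4) (nat_lit 8) (nat_lit 4) (nat_lit 269) (nat_lit 228) (nat_lit 223))))) (XT.nd (nat_lit 234) (nat_lit 152) (nat_lit 0) (XT.nd (nat_lit 78) (nat_lit 76) (nat_lit 0) (XT.lf (nat_lit 0) (nat_lit 8661621254) (nat_lit 152) (nat_lit 2305483040) (nat_lit 0) (nat_lit 5850100617) (nat_lit 8) (nat_lit 5) (nat_lit 10) (nat_lit 4) (nat_lit 8) (nat_lit 4) (nat_lit 270) (nat_lit 228) (nat_lit 222)) (XT.nd (nat_lit 78) (nat_lit 0) (nat_lit 0) (XT.lf (nat_lit 0) (nat_lit 3985442597) (nat_lit 76) (nat_lit 8516638052) (nat_lit 76) (nat_lit 5350253042) (nat_lit 7) (nat_lit 4) (nat_lit 8) (nat_lit 5) (nat_lit 8) (nat_lit 4) (nat_lit 271) (nat_lit 228) (nat_lit 221)) (XT.lf (nat_lit 0) (nat_lit 10642456067) (nat_lit 76) (nat_lit 5915270739) (nat_lit 76) (nat_lit 2420307607) (nat_lit 7) (nat_lit 4) (nat_lit 8) (nat_lit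 5) (nat_lit 8) (nat_lit 4) (nat_lit 272) (nat_lit 228) (nat_lit 220)))) (XT.nd (nat_lit 78) (nat_lit 76) (nat_lit 0) (XT.lf (nat_lit 0) (nat_lit 559136175) (nat_lit 152) (nat_lit 2636198888) (nat_lit 76) (nat_lit 17009179738) (nat_lit 6) (nat_lit 5) (nat_lit 8) (nat_lit 5) (nat_lit 7) (nat_lit 4) (nat_lit 273) (nat_lit 228) (nat_lit 219)) (XT.nd (nat_lit 78) (nat_lit 0) (nat_lit 0) (XT.lf (nat_lit 0) (nat_lit 3388217131) (nat_lit 76) (nat_lit 202706928) (nat_lit 152) (nat_lit 17937896163) (nat_lit 5) (nat_lit 5) (nat_lit 6) (nat_lit 5) (nat_lit 7) (nat_lit 4) (nat_lit 274) (nat_lit 228) (nat_lit 218)) (XT.lf (nat_lit 0) (nat_lit 6877493552) (nat_lit 152) (nat_lit 13223526550) (nat_lit 0) (nat_lit 2857363164) (nat_lit 5) (nat_lit 5) (nat_lit 7) (nat_lit 4) (nat_lit 5) (nat_lit 4) (nat_lit 275) (nat_lit 228) (nat_lit 217)))))) (XT.nd (nat_lit 468) (nat_lit 152) (nat_lit 0) (XT.nd (nat_lit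 234) (nat_lit 0) (nat_lit 0) (XT.nd (nat_lit 78) (nat_lit 76) (nat_lit 0) (XT.lf (nat_lit 0) (nat_lit 10307654247) (nat_lit 152) (nat_lit 8140575373) (nat_lit 0) (nat_lit 6063899110) (nat_lit 5) (nat_lit 5) (nat_lit 7) (nat_lit 4) (nat_lit 5) (nat_lit 4) (nat_lit 276) (nat_lit 228) (nat_lit 216)) (XT.nd (nat_lit 78) (nat_lit 76) (nat_lit 0) (XT.lf (nat_lit 0) (nat_lit 13896857916) (nat_lit 152) (nat_lit 2856753260) (nat_lit 0) (nat_lit 9446042825) (nat_lit 5) (nat_lit 5) (nat_lit 7) (nat_lit 4) (nat_lit 5) (nat_lit 4) (nat_lit 277) (nat_lit 228) (nat_lit 215)) (XT.lf (nat_lit 0) (nat_lit 2799282788) (nat_lit 76) (nat_lit 14934413943) (nat_lit 76) (nat_lit 10291876674) (nat_lit 4) (nat_lit 4) (nat_lit 5) (nat_lit 5) (nat_lit 5) (nat_lit 4) (nat_lit 278) (nat_lit 228) (nat_lit 214)))) (XT.nd (nat_lit 78) (nat_lit 0) (nat_lit 0) (XT.lf (nat_lit 0) (nat_lit 8884567889) (nat_lit 76) (nat_lit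 12967646292) (nat_lit 76) (nat_lit 8147588489) (nat_lit 4) (nat_lit 4) (nat_lit 5) (nat_lit 5) (nat_lit 5) (nat_lit 4) (nat_lit 279) (nat_lit 228) (nat_lit 213)) (XT.nd (nat_lit 78) (nat_lit 0) (nat_lit 0) (XT.lf (nat_lit 0) (nat_lit 15284731427) (nat_lit 76) (nat_lit 10919762003) (nat_lit 76) (nat_lit 5935333333) (nat_lit 4) (nat_lit 4) (nat_lit 5) (nat_lit 5) (nat_lit 5) (nat_lit 4) (nat_lit 280) (nat_lit 228) (nat_lit 212)) (XT.lf (nat_lit 0) (nat_lit 22037700297) (nat_lit 76) (nat_lit 8778625464) (nat_lit 76) (nat_lit 3642001547) (nat_lit 4) (nat_lit 4) (nat_lit 5) (nat_lit 5) (nat_lit 5) (nat_lit 4) (nat_lit 281) (nat_lit 228) (nat_lit 211))))) (XT.nd (nat_lit 234) (nat_lit 0) (nat_lit 0) (XT.nd (nat_lit 78) (nat_lit 152) (nat_lit 0) (XT.lf (nat_lit 0) (nat_lit 29183492092) (nat_lit 76) (nat_lit 6531548458) (nat_lit 76) (nat_lit 1254003017) (nat_lit 4) (nat_lit 4) (nat_lit 5)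 (nat_lit 5) (nat_lit 5) (nat_lit 4) (nat_lit 282) (nat_lit 228) (nat_lit 210)) (XT.nd (nat_lit 78) (nat_lit 76) (nat_lit 0) (XT.lf (nat_lit 0) (nat_lit 1180642801) (nat_lit 152) (nat_lit 2952291306) (nat_lit 76) (nat_lit 35551528578) (nat_lit 3) (nat_lit 5) (nat_lit 5) (nat_lit 5) (nat_lit 4) (nat_lit 4) (nat_lit 283) (nat_lit 228) (nat_lit 209)) (XT.lf (nat_lit 0) (nat_lit 2215561495) (nat_lit 76) (nat_lit 1507711255) (nat_lit 152) (nat_lit 38892895345) (nat_lit 2) (nat_lit 5) (nat_lit 3) (nat_lit 5) (nat_lit 4) (nat_lit 4) (nat_lit 284) (nat_lit 228) (nat_lit 208)))) (XT.nd (nat_lit 156) (nat_lit 0) (nat_lit 0) (XT.nd (nat_lit 78) (nat_lit 0) (nat_lit 0) (XT.lf (nat_lit 0) (nat_lit 6512665816) (nat_lit 152) (nat_lit 37976618662) (nat_lit 0) (nat_lit 1289782597) (nat_lit 2) (nat_lit 5) (nat_lit 4) (nat_lit 4) (nat_lit 2) (nat_lit 4) (nat_lit 285) (nat_lit 228) (nat_lit 207)) (XT.lf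 (nat_lit 0) (nat_lit 9498268030) (nat_lit 152) (nat_lit 35519525404) (nat_lit 0) (nat_lit 4179475989) (nat_lit 2) (nat_lit 5) (nat_lit 4) (nat_lit 4) (nat_lit 2) (nat_lit 4) (nat_lit 286) (nat_lit 228) (nat_lit 206))) (XT.nd (nat_lit 78) (nat_lit 0) (nat_lit 0) (XT.lf (nat_lit 0) (nat_lit 12661511359) (nat_lit 152) (nat_lit 32978505782) (nat_lit 0) (nat_lit 7253914853) (nat_lit 2) (nat_lit 5) (nat_lit 4) (nat_lit 4) (nat_lit 2) (nat_lit 4) (nat_lit 287) (nat_lit 228) (nat_lit 205)) (XT.lf (nat_lit 0) (nat_lit 16021140947) (nat_lit 152) (nat_lit 30338501902) (nat_lit 0) (nat_lit 10531318085) (nat_lit 2) (nat_lit 5) (nat_lit 4) (nat_lit 4) (nat_lit 2) (nat_lit 4) (nat_lit 288) (nat_lit 228) (nat_lit 204))))))) (XT.nd (nat_lit 936) (nat_lit 0) (nat_lit 0) (XT.nd (nat_lit 468) (nat_lit 76) (nat_lit 0) (XT.nd (nat_lit 234) (nat_lit 0) (nat_lit 0) (XT.nd (nat_lit 78) (nat_lit 0) (nat_lit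 0) (XT.lf (nat_lit 0) (nat_lit 19597065712) (nat_lit 152) (nat_lit 27583869296) (nat_lit 0) (nat_lit 14031107335) (nat_lit 2) (nat_lit 5) (nat_lit 4) (nat_lit 4) (nat_lit 2) (nat_lit 4) (nat_lit 289) (nat_lit 228) (nat_lit 203)) (XT.nd (nat_lit 78) (nat_lit 0) (nat_lit 0) (XT.lf (nat_lit 0) (nat_lit 23410476318) (nat_lit 152) (nat_lit 24698284217) (nat_lit 0) (nat_lit 17774022095) (nat_lit 2) (nat_lit 5) (nat_lit 4) (nat_lit 4) (nat_lit 2) (nat_lit 4) (nat_lit 290) (nat_lit 228) (nat_lit 202)) (XT.lf (nat_lit 0) (nat_lit 27483970755) (nat_lit 152) (nat_lit 21664646901) (nat_lit 0) (nat_lit 21782242599) (nat_lit 2) (nat_lit 5) (nat_lit 4) (nat_lit 4) (nat_lit 2) (nat_lit 4) (nat_lit 291) (nat_lit 228) (nat_lit 201)))) (XT.nd (nat_lit 78) (nat_lit 0) (nat_lit 0) (XT.lf (nat_lit 0) (nat_lit 31841688248) (nat_lit 152) (nat_lit 18464980237) (nat_lit 0) (nat_lit 26079521265) (nat_lit 2)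 (nat_lit 5) (nat_lit 4) (nat_lit 4) (nat_lit 2) (nat_lit 4) (nat_lit 292) (nat_lit 228) (nat_lit 200)) (XT.nd (nat_lit 78) (nat_lit 0) (nat_lit 0) (XT.lf (nat_lit 0) (nat_lit 36509452309) (nat_lit 152) (nat_lit 15080323238) (nat_lit 0) (nat_lit 30691323450) (nat_lit 2) (nat_lit 5) (nat_lit 4) (nat_lit 4) (nat_lit 2) (nat_lit 4) (nat_lit 293) (nat_lit 228) (nat_lit 199)) (XT.lf (nat_lit 0) (nat_lit 41514923761) (nat_lit 152) (nat_lit 11490618677) (nat_lit 0) (nat_lit 35644978350) (nat_lit 2) (nat_lit 5) (nat_lit 4) (nat_lit 4) (nat_lit 2) (nat_lit 4) (nat_lit 294) (nat_lit 228) (nat_lit 198))))) (XT.nd (nat_lit 234) (nat_lit 0) (nat_lit 0) (XT.nd (nat_lit 78) (nat_lit 76) (nat_lit 0) (XT.lf (nat_lit 0) (nat_lit 46887764658) (nat_lit 152) (nat_lit 7674594231) (nat_lit 0) (nat_lit 40969840958) (nat_lit 2) (nat_lit 5) (nat_lit 4) (nat_lit 4) (nat_lit 2) (nat_lit 4) (nat_lit 295) (nat_lit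 228) (nat_lit 197)) (XT.nd (nat_lit 78) (nat_lit 76) (nat_lit 0) (XT.lf (nat_lit 0) (nat_lit 52659814058) (nat_lit 152) (nat_lit 3609636422) (nat_lit 0) (nat_lit 46697466016) (nat_lit 2) (nat_lit 5) (nat_lit 4) (nat_lit 4) (nat_lit 2) (nat_lit 4) (nat_lit 296) (nat_lit 228) (nat_lit 196)) (XT.lf (nat_lit 0) (nat_lit 766696661) (nat_lit 76) (nat_lit 58117019108) (nat_lit 76) (nat_lit 52113537416) (nat_lit 1) (nat_lit 4) (nat_lit 2) (nat_lit 5) (nat_lit 2) (nat_lit 4) (nat_lit 297) (nat_lit 228) (nat_lit 195)))) (XT.nd (nat_lit 78) (nat_lit 0) (nat_lit 0) (XT.lf (nat_lit 0) (nat_lit 5647565867) (nat_lit 76) (nat_lit 60029183913) (nat_lit 76) (nat_lit 53987615509) (nat_lit 1) (nat_lit 4) (nat_lit 2) (nat_lit 5) (nat_lit 2) (nat_lit 4) (nat_lit 298) (nat_lit 228) (nat_lit 194)) (XT.nd (nat_lit 78) (nat_lit 0) (nat_lit 0) (XT.lf (nat_lit 0) (nat_lit 10871817807) (nat_lit 76) (nat_lit 62115970099)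 (nat_lit 76) (nat_lit 56039136220) (nat_lit 1) (nat_lit 4) (nat_lit 2) (nat_lit 5) (nat_lit 2) (nat_lit 4) (nat_lit 299) (nat_lit 228) (nat_lit 193)) (XT.lf (nat_lit 0) (nat_lit 16470411012) (nat_lit 76) (nat_lit 64389743806) (nat_lit 76) (nat_lit 58280256710) (nat_lit 1) (nat_lit 4) (nat_lit 2) (nat_lit 5) (nat_lit 2) (nat_lit 4) (nat_lit 300) (nat_lit 228) (nat_lit 192)))))) (XT.nd (nat_lit 468) (nat_lit 0) (nat_lit 0) (XT.nd (nat_lit 234) (nat_lit 0) (nat_lit 0) (XT.nd (nat_lit 78) (nat_lit 0) (nat_lit 0) (XT.lf (nat_lit 0) (nat_lit 22476522330) (nat_lit 76) (nat_lit 66863979249) (nat_lit 76) (nat_lit 60724257693) (nat_lit 1) (nat_lit 4) (nat_lit 2) (nat_lit 5) (nat_lit 2) (nat_lit 4) (nat_lit 301) (nat_lit 228) (nat_lit 191)) (XT.nd (nat_lit 78) (nat_lit 0) (nat_lit 0) (XT.lf (nat_lit 0) (nat_lit 28925743532) (nat_lit 76) (nat_lit 69553338564) (nat_lit 76) (nat_lit 63385622137)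 (nat_lit 1) (nat_lit 4) (nat_lit 2) (nat_lit 5) (nat_lit 2) (nat_lit 4) (nat_lit 302) (nat_lit 228) (nat_lit 190)) (XT.lf (nat_lit 0) (nat_lit 35856292225) (nat_lit 76) (nat_lit 72473758695) (nat_lit 76) (nat_lit 66280121091) (nat_lit 1) (nat_lit 4) (nat_lit 2) (nat_lit 5) (nat_lit 2) (nat_lit 4) (nat_lit 303) (nat_lit 228) (nat_lit 189)))) (XT.nd (nat_lit 78) (nat_lit 0) (nat_lit 0) (XT.lf (nat_lit 0) (nat_lit 43309238328) (nat_lit 76) (nat_lit 75642545835) (nat_lit 76) (nat_lit 69424907141) (nat_lit 1) (nat_lit 4) (nat_lit 2) (nat_lit 5) (nat_lit 2) (nat_lit 4) (nat_lit 304) (nat_lit 228) (nat_lit 188)) (XT.nd (nat_lit 78) (nat_lit 0) (nat_lit 0) (XT.lf (nat_lit 0) (nat_lit 51328747446) (nat_lit 76) (nat_lit 79078477982) (nat_lit 76) (nat_lit 72838616058) (nat_lit 1) (nat_lit 4) (nat_lit 2) (nat_lit 5) (nat_lit 2) (nat_lit 4) (nat_lit 305) (nat_lit 228) (nat_lit 187)) (XT.lf (nat_lit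 0) (nat_lit 59962342597) (nat_lit 76) (nat_lit 82801916216) (nat_lit 76) (nat_lit 76541477225) (nat_lit 1) (nat_lit 4) (nat_lit 2) (nat_lit 5) (nat_lit 2) (nat_lit 4) (nat_lit 306) (nat_lit 228) (nat_lit 186))))) (XT.nd (nat_lit 234) (nat_lit 0) (nat_lit 0) (XT.nd (nat_lit 78) (nat_lit 0) (nat_lit 0) (XT.lf (nat_lit 0) (nat_lit 69261185826) (nat_lit 76) (nat_lit 86834925355) (nat_lit 76) (nat_lit 80555433526) (nat_lit 1) (nat_lit 4) (nat_lit 2) (nat_lit 5) (nat_lit 2) (nat_lit 4) (nat_lit 307) (nat_lit 228) (nat_lit 185)) (XT.nd (nat_lit 78) (nat_lit 0) (nat_lit 0) (XT.lf (nat_lit 0) (nat_lit 79280381390) (nat_lit 76) (nat_lit 91201404714) (nat_lit 76) (nat_lit 84904271367) (nat_lit 1) (nat_lit 4) (nat_lit 2) (nat_lit 5) (nat_lit 2) (nat_lit 4) (nat_lit 308) (nat_lit 228) (nat_lit 184)) (XT.lf (nat_lit 0) (nat_lit 90079302298) (nat_lit 76) (nat_lit 95927229724) (nat_lit 76) (nat_lit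 89613761640) (nat_lit 1) (nat_lit 4) (nat_lit 2) (nat_lit 5) (nat_lit 2) (nat_lit 4) (nat_lit 309) (nat_lit 228) (nat_lit 183)))) (XT.nd (nat_lit 156) (nat_lit 0) (nat_lit 0) (XT.nd (nat_lit 78) (nat_lit 0) (nat_lit 0) (XT.lf (nat_lit 0) (nat_lit 101721942157) (nat_lit 76) (nat_lit 101040405276) (nat_lit 76) (nat_lit 94711812434) (nat_lit 1) (nat_lit 4) (nat_lit 2) (nat_lit 5) (nat_lit 2) (nat_lit 4) (nat_lit 310) (nat_lit 228) (nat_lit 182)) (XT.lf (nat_lit 0) (nat_lit 114277294388) (nat_lit 76) (nat_lit 106571231669) (nat_lit 76) (nat_lit 100228634422) (nat_lit 1) (nat_lit 4) (nat_lit 2) (nat_lit 5) (nat_lit 2) (nat_lit 4) (nat_lit 311) (nat_lit 228) (nat_lit 181))) (XT.nd (nat_lit 78) (nat_lit 0) (nat_lit 0) (XT.lf (nat_lit 0) (nat_lit 127819761078) (nat_lit 76) (nat_lit 112552484170) (nat_lit 76) (nat_lit 106196919881) (nat_lit 1) (nat_lit 4) (nat_lit 2) (nat_lit 5) (nat_lit 2)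 (nat_lit 4) (nat_lit 312) (nat_lit 228) (nat_lit 180)) (XT.lf (nat_lit 0) (nat_lit 142429593882) (nat_lit 76) (nat_lit 119019607239) (nat_lit 76) (nat_lit 112652036430) (nat_lit 1) (nat_lit 4) (nat_lit 2) (nat_lit 5) (nat_lit 2) (nat_lit 4) (nat_lit 313) (nat_lit 228) (nat_lit 179))))))))
noncomputable def xc30 : XT := (XT.nd (nat_lit 1950) (nat_lit 0) (nat_lit 0) (XT.nd (nat_lit 936) (nat_lit 0) (nat_lit 0) (XT.nd (nat_lit 468) (nat_lit 0) (nat_lit 0) (XT.nd (nat_lit 234) (nat_lit 0) (nat_lit 0) (XT.nd (nat_lit 78) (nat_lit 0) (nat_lit 0) (XT.lf (nat_lit 0) (nat_lit 158193369586) (nat_lit 76) (nat_lit 126010924568) (nat_lit 76) (nat_lit 119632236610) (nat_lit 1) (nat_lit 4) (nat_lit 2) (nat_lit 5) (nat_lit 2) (nat_lit 4) (nat_lit 314) (nat_lit 228) (nat_lit 178)) (XT.nd (nat_lit 78) (nat_lit 0) (nat_lit 0) (XT.lf (nat_lit 0) (nat_lit 175204503158) (nat_lit 76) (nat_lit 133567866185)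 (nat_lit 76) (nat_lit 127178884571) (nat_lit 1) (nat_lit 4) (nat_lit 2) (nat_lit 5) (nat_lit 2) (nat_lit 4) (nat_lit 315) (nat_lit 228) (nat_lit 177)) (XT.lf (nat_lit 0) (nat_lit 193563801315) (nat_lit 76) (nat_lit 141735213967) (nat_lit 76) (nat_lit 135336701191) (nat_lit 1) (nat_lit 4) (nat_lit 2) (nat_lit 5) (nat_lit 2) (nat_lit 4) (nat_lit 316) (nat_lit 228) (nat_lit 176)))) (XT.nd (nat_lit 78) (nat_lit 0) (nat_lit 0) (XT.lf (nat_lit 0) (nat_lit 213380059898) (nat_lit 76) (nat_lit 150561367012) (nat_lit 76) (nat_lit 144154029084) (nat_lit 1) (nat_lit 4) (nat_lit 2) (nat_lit 5) (nat_lit 2) (nat_lit 4) (nat_lit 317) (nat_lit 228) (nat_lit 175)) (XT.nd (nat_lit 78) (nat_lit 0) (nat_lit 0) (XT.lf (nat_lit 0) (nat_lit 234770708587) (nat_lit 76) (nat_lit 160098628448) (nat_lit 76) (nat_lit 153683119085) (nat_lit 1) (nat_lit 4) (nat_lit 2) (nat_lit 5) (nat_lit 2) (nat_lit 4) (nat_lit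 318) (nat_lit 228) (nat_lit 174)) (XT.lf (nat_lit 0) (nat_lit 257862506783) (nat_lit 76) (nat_lit 170403515382) (nat_lit 76) (nat_lit 163980439874) (nat_lit 1) (nat_lit 4) (nat_lit 2) (nat_lit 5) (nat_lit 2) (nat_lit 4) (nat_lit 319) (nat_lit 228) (nat_lit 173))))) (XT.nd (nat_lit 234) (nat_lit 0) (nat_lit 0) (XT.nd (nat_lit 78) (nat_lit 0) (nat_lit 0) (XT.lf (nat_lit 0) (nat_lit 282792294771) (nat_lit 76) (nat_lit 181537093808) (nat_lit 76) (nat_lit 175107012611) (nat_lit 1) (nat_lit 4) (nat_lit 2) (nat_lit 5) (nat_lit 2) (nat_lit 4) (nat_lit 320) (nat_lit 228) (nat_lit 172)) (XT.nd (nat_lit 78) (nat_lit 0) (nat_lit 0) (XT.lf (nat_lit 0) (nat_lit 309707804627) (nat_lit 76) (nat_lit 193565340489) (nat_lit 76) (nat_lit 187128772543) (nat_lit 1) (nat_lit 4) (nat_lit 2) (nat_lit 5) (nat_lit 2) (nat_lit 4) (nat_lit 321) (nat_lit 228) (nat_lit 171)) (XT.lf (nat_lit 0) (nat_lit 338768535670)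 (nat_lit 76) (nat_lit 206559533923) (nat_lit 76) (nat_lit 200116959728) (nat_lit 1) (nat_lit 4) (nat_lit 2) (nat_lit 5) (nat_lit 2) (nat_lit 4) (nat_lit 322) (nat_lit 228) (nat_lit 170)))) (XT.nd (nat_lit 78) (nat_lit 0) (nat_lit 0) (XT.lf (nat_lit 0) (nat_lit 370146699639) (nat_lit 76) (nat_lit 220596676738) (nat_lit 76) (nat_lit 214148541201) (nat_lit 1) (nat_lit 4) (nat_lit 2) (nat_lit 5) (nat_lit 2) (nat_lit 4) (nat_lit 323) (nat_lit 228) (nat_lit 169)) (XT.nd (nat_lit 78) (nat_lit 0) (nat_lit 0) (XT.lf (nat_lit 0) (nat_lit 404028241209) (nat_lit 76) (nat_lit 235759952003) (nat_lit 76) (nat_lit 229306667075) (nat_lit 1) (nat_lit 4) (nat_lit 2) (nat_lit 5) (nat_lit 2) (nat_lit 4) (nat_lit 324) (nat_lit 228) (nat_lit 168)) (XT.lf (nat_lit 0) (nat_lit 440613939887) (nat_lit 76) (nat_lit 252139216163) (nat_lit 76) (nat_lit 245681163280) (nat_lit 1) (nat_lit 4) (nat_lit 2) (nat_lit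 5) (nat_lit 2) (nat_lit 4) (nat_lit 325) (nat_lit 228) (nat_lit 167)))))) (XT.nd (nat_lit 468) (nat_lit 0) (nat_lit 0) (XT.nd (nat_lit 234) (nat_lit 0) (nat_lit 0) (XT.nd (nat_lit 78) (nat_lit 0) (nat_lit 0) (XT.lf (nat_lit 0) (nat_lit 480120599811) (nat_lit 76) (nat_lit 269831531525) (nat_lit 76) (nat_lit 263369063870) (nat_lit 1) (nat_lit 4) (nat_lit 2) (nat_lit 5) (nat_lit 2) (nat_lit 4) (nat_lit 326) (nat_lit 228) (nat_lit 166)) (XT.nd (nat_lit 78) (nat_lit 0) (nat_lit 0) (XT.lf (nat_lit 0) (nat_lit 522782334523) (nat_lit 76) (nat_lit 288941741439) (nat_lit 76) (nat_lit 282475186031) (nat_lit 1) (nat_lit 4) (nat_lit 2) (nat_lit 5) (nat_lit 2) (nat_lit 4) (nat_lit 327) (nat_lit 228) (nat_lit 165)) (XT.lf (nat_lit 0) (nat_lit 568851954303) (nat_lit 76) (nat_lit 309583091593) (nat_lit 76) (nat_lit 303112751229) (nat_lit 1) (nat_lit 4) (nat_lit 2) (nat_lit 5) (nat_lit 2) (nat_lit 4)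 (nat_lit 328) (nat_lit 228) (nat_lit 164)))) (XT.nd (nat_lit 78) (nat_lit 0) (nat_lit 0) (XT.lf (nat_lit 0) (nat_lit 618602464303) (nat_lit 76) (nat_lit 331877901099) (nat_lit 76) (nat_lit 325404056147) (nat_lit 1) (nat_lit 4) (nat_lit 2) (nat_lit 5) (nat_lit 2) (nat_lit 4) (nat_lit 329) (nat_lit 228) (nat_lit 163)) (XT.nd (nat_lit 78) (nat_lit 0) (nat_lit 0) (XT.lf (nat_lit 0) (nat_lit 672328682363) (nat_lit 76) (nat_lit 355958287347) (nat_lit 76) (nat_lit 349481197405) (nat_lit 1) (nat_lit 4) (nat_lit 2) (nat_lit 5) (nat_lit 2) (nat_lit 4) (nat_lit 330) (nat_lit 228) (nat_lit 162)) (XT.lf (nat_lit 0) (nat_lit 730348986070) (nat_lit 76) (nat_lit 381966948923) (nat_lit 76) (nat_lit 375486854361) (nat_lit 1) (nat_lit 4) (nat_lit 2) (nat_lit 5) (nat_lit 2) (nat_lit 4) (nat_lit 331) (nat_lit 228) (nat_lit 161))))) (XT.nd (nat_lit 234) (nat_lit 0) (nat_lit 0) (XT.nd (nat_lit 78) (nat_lit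 0) (nat_lit 0) (XT.lf (nat_lit 0) (nat_lit 793007199445) (nat_lit 76) (nat_lit 410058011228) (nat_lit 76) (nat_lit 403575134610) (nat_lit 1) (nat_lit 4) (nat_lit 2) (nat_lit 5) (nat_lit 2) (nat_lit 4) (nat_lit 332) (nat_lit 228) (nat_lit 160)) (XT.nd (nat_lit 78) (nat_lit 0) (nat_lit 0) (XT.lf (nat_lit 0) (nat_lit 860674630421) (nat_lit 76) (nat_lit 440397939816) (nat_lit 76) (nat_lit 433912487221) (nat_lit 1) (nat_lit 4) (nat_lit 2) (nat_lit 5) (nat_lit 2) (nat_lit 4) (nat_lit 333) (nat_lit 228) (nat_lit 159)) (XT.lf (nat_lit 0) (nat_lit 933752271181) (nat_lit 76) (nat_lit 473166526857) (nat_lit 76) (nat_lit 466678689098) (nat_lit 1) (nat_lit 4) (nat_lit 2) (nat_lit 5) (nat_lit 2) (nat_lit 4) (nat_lit 334) (nat_lit 228) (nat_lit 158)))) (XT.nd (nat_lit 156) (nat_lit 0) (nat_lit 0) (XT.nd (nat_lit 78) (nat_lit 0) (nat_lit 0) (XT.lf (nat_lit 0) (nat_lit 1012673174411) (nat_lit 76) (nat_lit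 508557956571) (nat_lit 76) (nat_lit 502067910326) (nat_lit 1) (nat_lit 4) (nat_lit 2) (nat_lit 5) (nat_lit 2) (nat_lit 4) (nat_lit 335) (nat_lit 228) (nat_lit 157)) (XT.lf (nat_lit 0) (nat_lit 1097905019536) (nat_lit 76) (nat_lit 546781955948) (nat_lit 76) (nat_lit 540289864809) (nat_lit 1) (nat_lit 4) (nat_lit 2) (nat_lit 5) (nat_lit 2) (nat_lit 4) (nat_lit 336) (nat_lit 228) (nat_lit 156))) (XT.nd (nat_lit 78) (nat_lit 0) (nat_lit 0) (XT.lf (nat_lit 0) (nat_lit 1189952884159) (nat_lit 76) (nat_lit 588065037577) (nat_lit 76) (nat_lit 581571053018) (nat_lit 1) (nat_lit 4) (nat_lit 2) (nat_lit 5) (nat_lit 2) (nat_lit 4) (nat_lit 337) (nat_lit 228) (nat_lit 155)) (XT.lf (nat_lit 0) (nat_lit 1289362237107) (nat_lit 76) (nat_lit 632651841942) (nat_lit 76) (nat_lit 626156104216) (nat_lit 1) (nat_lit 4) (nat_lit 2) (nat_lit 5) (nat_lit 2) (nat_lit 4) (nat_lit 338) (nat_lit 228) (nat_lit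 154))))))) (XT.nd (nat_lit 32370) (nat_lit 0) (nat_lit 76) (XT.nd (nat_lit 31902) (nat_lit 0) (nat_lit 456) (XT.nd (nat_lit 31668) (nat_lit 0) (nat_lit 684) (XT.nd (nat_lit 31512) (nat_lit 0) (nat_lit 988) (XT.lf (nat_lit 0) (nat_lit 1396722170840) (nat_lit 76) (nat_lit 680806587143) (nat_lit 76) (nat_lit 674309226114) (nat_lit 1) (nat_lit 4) (nat_lit 2) (nat_lit 5) (nat_lit 2) (nat_lit 4) (nat_lit 339) (nat_lit 228) (nat_lit 153)) (XT.nd (nat_lit 78) (nat_lit 0) (nat_lit 0) (XT.lf (nat_lit 0) (nat_lit 148301249) (nat_lit 152) (nat_lit 2687354514) (nat_lit 152) (nat_lit 2687354514) (nat_lit 14) (nat_lit 4) (nat_lit 16) (nat_lit 5) (nat_lit 16) (nat_lit 4) (nat_lit 262) (nat_lit 229) (nat_lit 229)) (XT.lf (nat_lit 0) (nat_lit 6917361200) (nat_lit 152) (nat_lit 2683046229) (nat_lit 152) (nat_lit 1973670708) (nat_lit 14) (nat_lit 4) (nat_lit 16) (nat_lit 5) (nat_lit 16) (nat_lit 4) (nat_lit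 263) (nat_lit 229) (nat_lit 228)))) (XT.nd (nat_lit 78) (nat_lit 152) (nat_lit 0) (XT.lf (nat_lit 0) (nat_lit 1445281569) (nat_lit 152) (nat_lit 10529820260) (nat_lit 0) (nat_lit 180277210) (nat_lit 12) (nat_lit 5) (nat_lit 14) (nat_lit 4) (nat_lit 12) (nat_lit 4) (nat_lit 264) (nat_lit 229) (nat_lit 227)) (XT.nd (nat_lit 78) (nat_lit 152) (nat_lit 0) (XT.lf (nat_lit 0) (nat_lit 5023569537) (nat_lit 152) (nat_lit 4561358888) (nat_lit 0) (nat_lit 3195440018) (nat_lit 12) (nat_lit 5) (nat_lit 14) (nat_lit 4) (nat_lit 12) (nat_lit 4) (nat_lit 265) (nat_lit 229) (nat_lit 226)) (XT.lf (nat_lit 0) (nat_lit 1653060990) (nat_lit 152) (nat_lit 7082343019) (nat_lit 152) (nat_lit 4732801315) (nat_lit 10) (nat_lit 4) (nat_lit 12) (nat_lit 5) (nat_lit 12) (nat_lit 4) (nat_lit 266) (nat_lit 229) (nat_lit 225))))) (XT.nd (nat_lit 234) (nat_lit 76) (nat_lit 0) (XT.nd (nat_lit 78) (nat_lit 152) (nat_lit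 0) (XT.lf (nat_lit 0) (nat_lit 8317786487) (nat_lit 152) (nat_lit 4365533460) (nat_lit 152) (nat_lit 1533202696) (nat_lit 10) (nat_lit 4) (nat_lit 12) (nat_lit 5) (nat_lit 12) (nat_lit 4) (nat_lit 267) (nat_lit 229) (nat_lit 224)) (XT.nd (nat_lit 78) (nat_lit 0) (nat_lit 0) (XT.lf (nat_lit 0) (nat_lit 159340316) (nat_lit 76) (nat_lit 1493879870) (nat_lit 152) (nat_lit 13382125777) (nat_lit 8) (nat_lit 5) (nat_lit 9) (nat_lit 5) (nat_lit 10) (nat_lit 4) (nat_lit 268) (nat_lit 229) (nat_lit 223)) (XT.lf (nat_lit 0) (nat_lit 5042489807) (nat_lit 152) (nat_lit 9249208019) (nat_lit 0) (nat_lit 1622793997) (nat_lit 8) (nat_lit 5) (nat_lit 10) (nat_lit 4) (nat_lit 8) (nat_lit 4) (nat_lit 269) (nat_lit 229) (nat_lit 222)))) (XT.nd (nat_lit 78) (nat_lit 76) (nat_lit 0) (XT.lf (nat_lit 0) (nat_lit 8581179072) (nat_lit 152) (nat_lit 3486338597) (nat_lit 0) (nat_lit 4806618890) (nat_lit 8) (nat_lit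 5) (nat_lit 10) (nat_lit 4) (nat_lit 8) (nat_lit 4) (nat_lit 270) (nat_lit 229) (nat_lit 221)) (XT.nd (nat_lit 78) (nat_lit 0) (nat_lit 0) (XT.lf (nat_lit 0) (nat_lit 2613414374) (nat_lit 76) (nat_lit 9703768447) (nat_lit 76) (nat_lit 5600630143) (nat_lit 7) (nat_lit 4) (nat_lit 8) (nat_lit 5) (nat_lit 8) (nat_lit 4) (nat_lit 271) (nat_lit 229) (nat_lit 220)) (XT.lf (nat_lit 0) (nat_lit 9150991821) (nat_lit 76) (nat_lit 7152799594) (nat_lit 76) (nat_lit 2745422288) (nat_lit 7) (nat_lit 4) (nat_lit 8) (nat_lit 5) (nat_lit 8) (nat_lit 4) (nat_lit 272) (nat_lit 229) (nat_lit 219)))))) (XT.nd (nat_lit 468) (nat_lit 152) (nat_lit 0) (XT.nd (nat_lit 234) (nat_lit 76) (nat_lit 0) (XT.nd (nat_lit 78) (nat_lit 76) (nat_lit 0) (XT.lf (nat_lit 0) (nat_lit 184545322) (nat_lit 152) (nat_lit 4305225815) (nat_lit 76) (nat_lit 15791959413) (nat_lit 6) (nat_lit 5) (nat_lit 8) (nat_lit 5) (nat_lit 7)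 (nat_lit 4) (nat_lit 273) (nat_lit 229) (nat_lit 218)) (XT.nd (nat_lit 78) (nat_lit 0) (nat_lit 0) (XT.lf (nat_lit 0) (nat_lit 1519990997) (nat_lit 76) (nat_lit 1590541209) (nat_lit 152) (nat_lit 18504108362) (nat_lit 5) (nat_lit 5) (nat_lit 6) (nat_lit 5) (nat_lit 7) (nat_lit 4) (nat_lit 274) (nat_lit 229) (nat_lit 217)) (XT.lf (nat_lit 0) (nat_lit 6303820659) (nat_lit 152) (nat_lit 15251035184) (nat_lit 0) (nat_lit 1496940361) (nat_lit 5) (nat_lit 5) (nat_lit 7) (nat_lit 4) (nat_lit 5) (nat_lit 4) (nat_lit 275) (nat_lit 229) (nat_lit 216)))) (XT.nd (nat_lit 78) (nat_lit 76) (nat_lit 0) (XT.lf (nat_lit 0) (nat_lit 9678515064) (nat_lit 152) (nat_lit 10267009564) (nat_lit 0) (nat_lit 4664574814) (nat_lit 5) (nat_lit 5) (nat_lit 7) (nat_lit 4) (nat_lit 5) (nat_lit 4) (nat_lit 276) (nat_lit 229) (nat_lit 215)) (XT.nd (nat_lit 78) (nat_lit 76) (nat_lit 0) (XT.lf (nat_lit 0) (nat_lit 13216361057)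 (nat_lit 152) (nat_lit 5074785189) (nat_lit 0) (nat_lit 8010698629) (nat_lit 5) (nat_lit 5) (nat_lit 7) (nat_lit 4) (nat_lit 5) (nat_lit 4) (nat_lit 277) (nat_lit 229) (nat_lit 214)) (XT.lf (nat_lit 0) (nat_lit 375174420) (nat_lit 76) (nat_lit 16572172184) (nat_lit 76) (nat_lit 11188989220) (nat_lit 4) (nat_lit 4) (nat_lit 5) (nat_lit 5) (nat_lit 5) (nat_lit 4) (nat_lit 278) (nat_lit 229) (nat_lit 213))))) (XT.nd (nat_lit 234) (nat_lit 152) (nat_lit 0) (XT.nd (nat_lit 78) (nat_lit 0) (nat_lit 0) (XT.lf (nat_lit 0) (nat_lit 6377793958) (nat_lit 76) (nat_lit 14642051059) (nat_lit 76) (nat_lit 9094497230) (nat_lit 4) (nat_lit 4) (nat_lit 5) (nat_lit 5) (nat_lit 5) (nat_lit 4) (nat_lit 279) (nat_lit 229) (nat_lit 212)) (XT.nd (nat_lit 78) (nat_lit 0) (nat_lit 0) (XT.lf (nat_lit 0) (nat_lit 12701415308) (nat_lit 76) (nat_lit 12628098738) (nat_lit 76) (nat_lit 6928349662) (nat_lit 4) (nat_lit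 4) (nat_lit 5) (nat_lit 5) (nat_lit 5) (nat_lit 4) (nat_lit 280) (nat_lit 229) (nat_lit 211)) (XT.lf (nat_lit 0) (nat_lit 19383511782) (nat_lit 76) (nat_lit 10518380688) (nat_lit 76) (nat_lit 4677710087) (nat_lit 4) (nat_lit 4) (nat_lit 5) (nat_lit 5) (nat_lit 5) (nat_lit 4) (nat_lit 281) (nat_lit 229) (nat_lit 210)))) (XT.nd (nat_lit 156) (nat_lit 76) (nat_lit 0) (XT.nd (nat_lit 78) (nat_lit 76) (nat_lit 0) (XT.lf (nat_lit 0) (nat_lit 26463680988) (nat_lit 76) (nat_lit 8300394875) (nat_lit 76) (nat_lit 2329241381) (nat_lit 4) (nat_lit 4) (nat_lit 5) (nat_lit 5) (nat_lit 5) (nat_lit 4) (nat_lit 282) (nat_lit 229) (nat_lit 209)) (XT.lf (nat_lit 0) (nat_lit 124421490) (nat_lit 152) (nat_lit 5833174287) (nat_lit 76) (nat_lit 33856056091) (nat_lit 3) (nat_lit 5) (nat_lit 5) (nat_lit 5) (nat_lit 4) (nat_lit 4) (nat_lit 283) (nat_lit 229) (nat_lit 208))) (XT.nd (nat_lit 78) (nat_lit 76)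 (nat_lit 0) (XT.lf (nat_lit 0) (nat_lit 2581572017) (nat_lit 152) (nat_lit 834169240) (nat_lit 76) (nat_lit 39336514641) (nat_lit 3) (nat_lit 5) (nat_lit 5) (nat_lit 5) (nat_lit 4) (nat_lit 4) (nat_lit 284) (nat_lit 229) (nat_lit 207)) (XT.lf (nat_lit 0) (nat_lit 4687509118) (nat_lit 76) (nat_lit 598514767) (nat_lit 152) (nat_lit 40635982089) (nat_lit 2) (nat_lit 5) (nat_lit 3) (nat_lit 5) (nat_lit 4) (nat_lit 4) (nat_lit 285) (nat_lit 229) (nat_lit 206))))))))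
noncomputable def xc31 : XT := (XT.nd (nat_lit 1950) (nat_lit 0) (nat_lit 0) (XT.nd (nat_lit 936) (nat_lit 76) (nat_lit 0) (XT.nd (nat_lit 468) (nat_lit 0) (nat_lit 0) (XT.nd (nat_lit 234) (nat_lit 0) (nat_lit 0) (XT.nd (nat_lit 78) (nat_lit 0) (nat_lit 0) (XT.lf (nat_lit 0) (nat_lit 8227805333) (nat_lit 152) (nat_lit 38817163677) (nat_lit 0) (nat_lit 2298796642) (nat_lit 2) (nat_lit 5) (nat_lit 4) (nat_lit 4) (nat_lit 2) (nat_lit 4) (nat_lit 286) (nat_lit 229) (nat_lit 205)) (XT.nd (nat_lit 78) (nat_lit 0) (nat_lit 0) (XT.lf (nat_lit 0) (nat_lit 11363801927) (nat_lit 152) (nat_lit 36326286994) (nat_lit 0) (nat_lit 5352566880) (nat_lit 2) (nat_lit 5) (nat_lit 4) (nat_lit 4) (nat_lit 2) (nat_lit 4) (nat_lit 287) (nat_lit 229) (nat_lit 204)) (XT.lf (nat_lit 0) (nat_lit 14698203059) (nat_lit 152) (nat_lit 33732711760) (nat_lit 0) (nat_lit 8610832497) (nat_lit 2) (nat_lit 5) (nat_lit 4)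 (nat_lit 4) (nat_lit 2) (nat_lit 4) (nat_lit 288) (nat_lit 229) (nat_lit 203)))) (XT.nd (nat_lit 78) (nat_lit 0) (nat_lit 0) (XT.lf (nat_lit 0) (nat_lit 18250768141) (nat_lit 152) (nat_lit 31021068643) (nat_lit 0) (nat_lit 12092901732) (nat_lit 2) (nat_lit 5) (nat_lit 4) (nat_lit 4) (nat_lit 2) (nat_lit 4) (nat_lit 289) (nat_lit 229) (nat_lit 202)) (XT.nd (nat_lit 78) (nat_lit 0) (nat_lit 0) (XT.lf (nat_lit 0) (nat_lit 22042549412) (nat_lit 152) (nat_lit 28175288645) (nat_lit 0) (nat_lit 15819409070) (nat_lit 2) (nat_lit 5) (nat_lit 4) (nat_lit 4) (nat_lit 2) (nat_lit 4) (nat_lit 290) (nat_lit 229) (nat_lit 201)) (XT.lf (nat_lit 0) (nat_lit 26096016685) (nat_lit 152) (nat_lit 25178507885) (nat_lit 0) (nat_lit 19812437518) (nat_lit 2) (nat_lit 5) (nat_lit 4) (nat_lit 4) (nat_lit 2) (nat_lit 4) (nat_lit 291) (nat_lit 229) (nat_lit 200))))) (XT.nd (nat_lit 234) (nat_lit 0) (nat_lit 0)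 (XT.nd (nat_lit 78) (nat_lit 0) (nat_lit 0) (XT.lf (nat_lit 0) (nat_lit 30435190509) (nat_lit 152) (nat_lit 22012967663) (nat_lit 0) (nat_lit 24095649465) (nat_lit 2) (nat_lit 5) (nat_lit 4) (nat_lit 4) (nat_lit 2) (nat_lit 4) (nat_lit 292) (nat_lit 229) (nat_lit 199)) (XT.nd (nat_lit 78) (nat_lit 0) (nat_lit 0) (XT.lf (nat_lit 0) (nat_lit 35085784506) (nat_lit 152) (nat_lit 18659909220) (nat_lit 0) (nat_lit 28694426910) (nat_lit 2) (nat_lit 5) (nat_lit 4) (nat_lit 4) (nat_lit 2) (nat_lit 4) (nat_lit 293) (nat_lit 229) (nat_lit 198)) (XT.lf (nat_lit 0) (nat_lit 40075357751) (nat_lit 152) (nat_lit 15099462582) (nat_lit 0) (nat_lit 33636021866) (nat_lit 2) (nat_lit 5) (nat_lit 4) (nat_lit 4) (nat_lit 2) (nat_lit 4) (nat_lit 294) (nat_lit 229) (nat_lit 197)))) (XT.nd (nat_lit 78) (nat_lit 0) (nat_lit 0) (XT.lf (nat_lit 0) (nat_lit 45433478086) (nat_lit 152) (nat_lit 11310528806) (nat_lit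 0) (nat_lit 38949717859) (nat_lit 2) (nat_lit 5) (nat_lit 4) (nat_lit 4) (nat_lit 2) (nat_lit 4) (nat_lit 295) (nat_lit 229) (nat_lit 196)) (XT.nd (nat_lit 78) (nat_lit 0) (nat_lit 0) (XT.lf (nat_lit 0) (nat_lit 51191897335) (nat_lit 152) (nat_lit 7270654950) (nat_lit 0) (nat_lit 44667003458) (nat_lit 2) (nat_lit 5) (nat_lit 4) (nat_lit 4) (nat_lit 2) (nat_lit 4) (nat_lit 296) (nat_lit 229) (nat_lit 195)) (XT.lf (nat_lit 0) (nat_lit 57384739463) (nat_lit 152) (nat_lit 2955901021) (nat_lit 0) (nat_lit 50821758874) (nat_lit 2) (nat_lit 5) (nat_lit 4) (nat_lit 4) (nat_lit 2) (nat_lit 4) (nat_lit 297) (nat_lit 229) (nat_lit 194)))))) (XT.nd (nat_lit 468) (nat_lit 0) (nat_lit 0) (XT.nd (nat_lit 234) (nat_lit 0) (nat_lit 0) (XT.nd (nat_lit 78) (nat_lit 0) (nat_lit 0) (XT.lf (nat_lit 0) (nat_lit 1746677789) (nat_lit 76) (nat_lit 62344032649) (nat_lit 76) (nat_lit 55745786585) (nat_lit 1)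 (nat_lit 4) (nat_lit 2) (nat_lit 5) (nat_lit 2) (nat_lit 4) (nat_lit 298) (nat_lit 229) (nat_lit 193)) (XT.nd (nat_lit 78) (nat_lit 0) (nat_lit 0) (XT.lf (nat_lit 0) (nat_lit 6949968724) (nat_lit 76) (nat_lit 64440455674) (nat_lit 76) (nat_lit 57809556393) (nat_lit 1) (nat_lit 4) (nat_lit 2) (nat_lit 5) (nat_lit 2) (nat_lit 4) (nat_lit 299) (nat_lit 229) (nat_lit 192)) (XT.lf (nat_lit 0) (nat_lit 12529153591) (nat_lit 76) (nat_lit 66723152381) (nat_lit 76) (nat_lit 60062018640) (nat_lit 1) (nat_lit 4) (nat_lit 2) (nat_lit 5) (nat_lit 2) (nat_lit 4) (nat_lit 300) (nat_lit 229) (nat_lit 191)))) (XT.nd (nat_lit 78) (nat_lit 0) (nat_lit 0) (XT.lf (nat_lit 0) (nat_lit 18517294226) (nat_lit 76) (nat_lit 69205649861) (nat_lit 76) (nat_lit 62516521249) (nat_lit 1) (nat_lit 4) (nat_lit 2) (nat_lit 5) (nat_lit 2) (nat_lit 4) (nat_lit 301) (nat_lit 229) (nat_lit 190)) (XT.nd (nat_lit 78) (nat_lit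 0) (nat_lit 0) (XT.lf (nat_lit 0) (nat_lit 24949875906) (nat_lit 76) (nat_lit 71902659210) (nat_lit 76) (nat_lit 65187609421) (nat_lit 1) (nat_lit 4) (nat_lit 2) (nat_lit 5) (nat_lit 2) (nat_lit 4) (nat_lit 302) (nat_lit 229) (nat_lit 189)) (XT.lf (nat_lit 0) (nat_lit 31865017635) (nat_lit 76) (nat_lit 74830162706) (nat_lit 76) (nat_lit 68091111827) (nat_lit 1) (nat_lit 4) (nat_lit 2) (nat_lit 5) (nat_lit 2) (nat_lit 4) (nat_lit 303) (nat_lit 229) (nat_lit 188))))) (XT.nd (nat_lit 234) (nat_lit 0) (nat_lit 0) (XT.nd (nat_lit 78) (nat_lit 0) (nat_lit 0) (XT.lf (nat_lit 0) (nat_lit 39303698029) (nat_lit 76) (nat_lit 78005508517) (nat_lit 76) (nat_lit 71244234407) (nat_lit 1) (nat_lit 4) (nat_lit 2) (nat_lit 5) (nat_lit 2) (nat_lit 4) (nat_lit 304) (nat_lit 229) (nat_lit 187)) (XT.nd (nat_lit 78) (nat_lit 0) (nat_lit 0) (XT.lf (nat_lit 0) (nat_lit 47309998159) (nat_lit 76) (nat_lit 81447513508)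 (nat_lit 76) (nat_lit 74665662332) (nat_lit 1) (nat_lit 4) (nat_lit 2) (nat_lit 5) (nat_lit 2) (nat_lit 4) (nat_lit 305) (nat_lit 229) (nat_lit 186)) (XT.lf (nat_lit 0) (nat_lit 55931362765) (nat_lit 76) (nat_lit 85176574745) (nat_lit 76) (nat_lit 78375670731) (nat_lit 1) (nat_lit 4) (nat_lit 2) (nat_lit 5) (nat_lit 2) (nat_lit 4) (nat_lit 306) (nat_lit 229) (nat_lit 185)))) (XT.nd (nat_lit 156) (nat_lit 0) (nat_lit 0) (XT.nd (nat_lit 78) (nat_lit 0) (nat_lit 0) (XT.lf (nat_lit 0) (nat_lit 65218881415) (nat_lit 76) (nat_lit 89214790369) (nat_lit 76) (nat_lit 82396244837) (nat_lit 1) (nat_lit 4) (nat_lit 2) (nat_lit 5) (nat_lit 2) (nat_lit 4) (nat_lit 307) (nat_lit 229) (nat_lit 184)) (XT.lf (nat_lit 0) (nat_lit 75227591257) (nat_lit 76) (nat_lit 93586090546) (nat_lit 76) (nat_lit 86751210277) (nat_lit 1) (nat_lit 4) (nat_lit 2) (nat_lit 5) (nat_lit 2) (nat_lit 4) (nat_lit 308) (nat_lit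 229) (nat_lit 183))) (XT.nd (nat_lit 78) (nat_lit 0) (nat_lit 0) (XT.lf (nat_lit 0) (nat_lit 86016803165) (nat_lit 76) (nat_lit 98316379278) (nat_lit 76) (nat_lit 91466374251) (nat_lit 1) (nat_lit 4) (nat_lit 2) (nat_lit 5) (nat_lit 2) (nat_lit 4) (nat_lit 309) (nat_lit 229) (nat_lit 182)) (XT.lf (nat_lit 0) (nat_lit 97650453208) (nat_lit 76) (nat_lit 103433687906) (nat_lit 76) (nat_lit 96569678473) (nat_lit 1) (nat_lit 4) (nat_lit 2) (nat_lit 5) (nat_lit 2) (nat_lit 4) (nat_lit 310) (nat_lit 229) (nat_lit 181))))))) (XT.nd (nat_lit 1014) (nat_lit 0) (nat_lit 0) (XT.nd (nat_lit 468) (nat_lit 0) (nat_lit 0) (XT.nd (nat_lit 234) (nat_lit 0) (nat_lit 0) (XT.nd (nat_lit 78) (nat_lit 0) (nat_lit 0) (XT.lf (nat_lit 0) (nat_lit 110197481535) (nat_lit 76) (nat_lit 108968341220) (nat_lit 76) (nat_lit 102091364746) (nat_lit 1) (nat_lit 4) (nat_lit 2) (nat_lit 5) (nat_lit 2) (nat_lit 4) (nat_lit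 311) (nat_lit 229) (nat_lit 180)) (XT.nd (nat_lit 78) (nat_lit 0) (nat_lit 0) (XT.lf (nat_lit 0) (nat_lit 123732240907) (nat_lit 76) (nat_lit 114953137167) (nat_lit 76) (nat_lit 108064154173) (nat_lit 1) (nat_lit 4) (nat_lit 2) (nat_lit 5) (nat_lit 2) (nat_lit 4) (nat_lit 312) (nat_lit 229) (nat_lit 179)) (XT.lf (nat_lit 0) (nat_lit 138334937305) (nat_lit 76) (nat_lit 121423541204) (nat_lit 76) (nat_lit 114523441062) (nat_lit 1) (nat_lit 4) (nat_lit 2) (nat_lit 5) (nat_lit 2) (nat_lit 4) (nat_lit 313) (nat_lit 229) (nat_lit 178)))) (XT.nd (nat_lit 78) (nat_lit 0) (nat_lit 0) (XT.lf (nat_lit 0) (nat_lit 154092105226) (nat_lit 76) (nat_lit 128417896467) (nat_lit 76) (nat_lit 121507502668) (nat_lit 1) (nat_lit 4) (nat_lit 2) (nat_lit 5) (nat_lit 2) (nat_lit 4) (nat_lit 314) (nat_lit 229) (nat_lit 177)) (XT.nd (nat_lit 78) (nat_lit 0) (nat_lit 0) (XT.lf (nat_lit 0) (nat_lit 171097120480)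 (nat_lit 76) (nat_lit 135977650986) (nat_lit 76) (nat_lit 129057726024) (nat_lit 1) (nat_lit 4) (nat_lit 2) (nat_lit 5) (nat_lit 2) (nat_lit 4) (nat_lit 315) (nat_lit 229) (nat_lit 176)) (XT.lf (nat_lit 0) (nat_lit 189450753528) (nat_lit 76) (nat_lit 144147603306) (nat_lit 76) (nat_lit 137218853194) (nat_lit 1) (nat_lit 4) (nat_lit 2) (nat_lit 5) (nat_lit 2) (nat_lit 4) (nat_lit 316) (nat_lit 229) (nat_lit 175))))) (XT.nd (nat_lit 234) (nat_lit 0) (nat_lit 0) (XT.nd (nat_lit 78) (nat_lit 0) (nat_lit 0) (XT.lf (nat_lit 0) (nat_lit 209261766640) (nat_lit 76) (nat_lit 152976167961) (nat_lit 76) (nat_lit 146039246412) (nat_lit 1) (nat_lit 4) (nat_lit 2) (nat_lit 5) (nat_lit 2) (nat_lit 4) (nat_lit 317) (nat_lit 229) (nat_lit 174)) (XT.nd (nat_lit 78) (nat_lit 0) (nat_lit 0) (XT.lf (nat_lit 0) (nat_lit 230647558412) (nat_lit 76) (nat_lit 162515662369) (nat_lit 76) (nat_lit 155571174677)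 (nat_lit 1) (nat_lit 4) (nat_lit 2) (nat_lit 5) (nat_lit 2) (nat_lit 4) (nat_lit 318) (nat_lit 229) (nat_lit 173)) (XT.lf (nat_lit 0) (nat_lit 253734859462) (nat_lit 76) (nat_lit 172822616869) (nat_lit 76) (nat_lit 165871123487) (nat_lit 1) (nat_lit 4) (nat_lit 2) (nat_lit 5) (nat_lit 2) (nat_lit 4) (nat_lit 319) (nat_lit 229) (nat_lit 172)))) (XT.nd (nat_lit 156) (nat_lit 0) (nat_lit 0) (XT.nd (nat_lit 78) (nat_lit 0) (nat_lit 0) (XT.lf (nat_lit 0) (nat_lit 278660483425) (nat_lit 76) (nat_lit 183958109709) (nat_lit 76) (nat_lit 177000129578) (nat_lit 1) (nat_lit 4) (nat_lit 2) (nat_lit 5) (nat_lit 2) (nat_lit 4) (nat_lit 320) (nat_lit 229) (nat_lit 171)) (XT.lf (nat_lit 0) (nat_lit 305572137704) (nat_lit 76) (nat_lit 195988128995) (nat_lit 76) (nat_lit 189024142615) (nat_lit 1) (nat_lit 4) (nat_lit 2) (nat_lit 5) (nat_lit 2) (nat_lit 4) (nat_lit 321) (nat_lit 229) (nat_lit 170)))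 (XT.nd (nat_lit 78) (nat_lit 0) (nat_lit 0) (XT.lf (nat_lit 0) (nat_lit 334629298767) (nat_lit 76) (nat_lit 208983963731) (nat_lit 76) (nat_lit 202014416008) (nat_lit 1) (nat_lit 4) (nat_lit 2) (nat_lit 5) (nat_lit 2) (nat_lit 4) (nat_lit 322) (nat_lit 229) (nat_lit 169)) (XT.lf (nat_lit 0) (nat_lit 366004157200) (nat_lit 76) (nat_lit 223022626269) (nat_lit 76) (nat_lit 216047929156) (nat_lit 1) (nat_lit 4) (nat_lit 2) (nat_lit 5) (nat_lit 2) (nat_lit 4) (nat_lit 323) (nat_lit 229) (nat_lit 168)))))) (XT.nd (nat_lit 468) (nat_lit 0) (nat_lit 0) (XT.nd (nat_lit 234) (nat_lit 0) (nat_lit 0) (XT.nd (nat_lit 78) (nat_lit 0) (nat_lit 0) (XT.lf (nat_lit 0) (nat_lit 399882638088) (nat_lit 76) (nat_lit 238187308685) (nat_lit 76) (nat_lit 231207843617) (nat_lit 1) (nat_lit 4) (nat_lit 2) (nat_lit 5) (nat_lit 2) (nat_lit 4) (nat_lit 324) (nat_lit 229) (nat_lit 167)) (XT.nd (nat_lit 78) (nat_lit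 0) (nat_lit 0) (XT.lf (nat_lit 0) (nat_lit 436465502800) (nat_lit 76) (nat_lit 254567875762) (nat_lit 76) (nat_lit 247583995922) (nat_lit 1) (nat_lit 4) (nat_lit 2) (nat_lit 5) (nat_lit 2) (nat_lit 4) (nat_lit 325) (nat_lit 229) (nat_lit 166)) (XT.lf (nat_lit 0) (nat_lit 475969538683) (nat_lit 76) (nat_lit 272261397529) (nat_lit 76) (nat_lit 265273429937) (nat_lit 1) (nat_lit 4) (nat_lit 2) (nat_lit 5) (nat_lit 2) (nat_lit 4) (nat_lit 326) (nat_lit 229) (nat_lit 165)))) (XT.nd (nat_lit 78) (nat_lit 0) (nat_lit 0) (XT.lf (nat_lit 0) (nat_lit 518628843727) (nat_lit 76) (nat_lit 291372724485) (nat_lit 76) (nat_lit 284380971937) (nat_lit 1) (nat_lit 4) (nat_lit 2) (nat_lit 5) (nat_lit 2) (nat_lit 4) (nat_lit 327) (nat_lit 229) (nat_lit 164)) (XT.nd (nat_lit 78) (nat_lit 0) (nat_lit 0) (XT.lf (nat_lit 0) (nat_lit 564696213814) (nat_lit 76) (nat_lit 312015108937) (nat_lit 76) (nat_lit 305019851800)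 (nat_lit 1) (nat_lit 4) (nat_lit 2) (nat_lit 5) (nat_lit 2) (nat_lit 4) (nat_lit 328) (nat_lit 229) (nat_lit 163)) (XT.lf (nat_lit 0) (nat_lit 614444640766) (nat_lit 76) (nat_lit 334310876127) (nat_lit 76) (nat_lit 327312374000) (nat_lit 1) (nat_lit 4) (nat_lit 2) (nat_lit 5) (nat_lit 2) (nat_lit 4) (nat_lit 329) (nat_lit 229) (nat_lit 162))))) (XT.nd (nat_lit 234) (nat_lit 0) (nat_lit 0) (XT.nd (nat_lit 78) (nat_lit 0) (nat_lit 0) (XT.lf (nat_lit 0) (nat_lit 668168930077) (nat_lit 76) (nat_lit 358392149119) (nat_lit 76) (nat_lit 351390642372) (nat_lit 1) (nat_lit 4) (nat_lit 2) (nat_lit 5) (nat_lit 2) (nat_lit 4) (nat_lit 330) (nat_lit 229) (nat_lit 161)) (XT.nd (nat_lit 78) (nat_lit 0) (nat_lit 0) (XT.lf (nat_lit 0) (nat_lit 726187447905) (nat_lit 76) (nat_lit 384401631754) (nat_lit 76) (nat_lit 377397342952) (nat_lit 1) (nat_lit 4) (nat_lit 2) (nat_lit 5) (nat_lit 2) (nat_lit 4)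 (nat_lit 331) (nat_lit 229) (nat_lit 160)) (XT.lf (nat_lit 0) (nat_lit 788844007689) (nat_lit 76) (nat_lit 412493454299) (nat_lit 76) (nat_lit 405486589519) (nat_lit 1) (nat_lit 4) (nat_lit 2) (nat_lit 5) (nat_lit 2) (nat_lit 4) (nat_lit 332) (nat_lit 229) (nat_lit 159)))) (XT.nd (nat_lit 156) (nat_lit 0) (nat_lit 0) (XT.nd (nat_lit 78) (nat_lit 0) (nat_lit 0) (XT.lf (nat_lit 0) (nat_lit 856509907562) (nat_lit 76) (nat_lit 442834086813) (nat_lit 76) (nat_lit 435824836869) (nat_lit 1) (nat_lit 4) (nat_lit 2) (nat_lit 5) (nat_lit 2) (nat_lit 4) (nat_lit 333) (nat_lit 229) (nat_lit 158)) (XT.lf (nat_lit 0) (nat_lit 929586130634) (nat_lit 76) (nat_lit 475603325637) (nat_lit 76) (nat_lit 468591867208) (nat_lit 1) (nat_lit 4) (nat_lit 2) (nat_lit 5) (nat_lit 2) (nat_lit 4) (nat_lit 334) (nat_lit 229) (nat_lit 157))) (XT.nd (nat_lit 78) (nat_lit 0) (nat_lit 0) (XT.lf (nat_lit 0) (nat_lit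 1008505721190) (nat_lit 76) (nat_lit 510995358854) (nat_lit 76) (nat_lit 503981855530) (nat_lit 1) (nat_lit 4) (nat_lit 2) (nat_lit 5) (nat_lit 2) (nat_lit 4) (nat_lit 335) (nat_lit 229) (nat_lit 156)) (XT.lf (nat_lit 0) (nat_lit 1093736350876) (nat_lit 76) (nat_lit 549219917030) (nat_lit 76) (nat_lit 542204520286) (nat_lit 1) (nat_lit 4) (nat_lit 2) (nat_lit 5) (nat_lit 2) (nat_lit 4) (nat_lit 336) (nat_lit 229) (nat_lit 155))))))))
noncomputable def xc32 : XT := (XT.nd (nat_lit 33228) (nat_lit 0) (nat_lit 0) (XT.nd (nat_lit 32214) (nat_lit 0) (nat_lit 228) (XT.nd (nat_lit 31746) (nat_lit 0) (nat_lit 608) (XT.nd (nat_lit 31512) (nat_lit 0) (nat_lit 988) (XT.nd (nat_lit 78) (nat_lit 0) (nat_lit 0) (XT.lf (nat_lit 0) (nat_lit 1185783090093) (nat_lit 76) (nat_lit 590503516066) (nat_lit 76) (nat_lit 583486366155) (nat_lit 1) (nat_lit 4) (nat_lit 2) (nat_lit 5) (nat_lit 2) (nat_lit 4)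 (nat_lit 337) (nat_lit 229) (nat_lit 154)) (XT.nd (nat_lit 78) (nat_lit 0) (nat_lit 0) (XT.lf (nat_lit 0) (nat_lit 1285191400997) (nat_lit 76) (nat_lit 635090799511) (nat_lit 76) (nat_lit 628072026297) (nat_lit 1) (nat_lit 4) (nat_lit 2) (nat_lit 5) (nat_lit 2) (nat_lit 4) (nat_lit 338) (nat_lit 229) (nat_lit 153)) (XT.lf (nat_lit 0) (nat_lit 1392550369876) (nat_lit 76) (nat_lit 683245988304) (nat_lit 76) (nat_lit 676225712033) (nat_lit 1) (nat_lit 4) (nat_lit 2) (nat_lit 5) (nat_lit 2) (nat_lit 4) (nat_lit 339) (nat_lit 229) (nat_lit 152)))) (XT.nd (nat_lit 78) (nat_lit 304) (nat_lit 0) (XT.lf (nat_lit 0) (nat_lit 4299107599) (nat_lit 152) (nat_lit 379699964) (nat_lit 152) (nat_lit 379699964) (nat_lit 18) (nat_lit 4) (nat_lit 20) (nat_lit 5) (nat_lit 20) (nat_lit 4) (nat_lit 260) (nat_lit 230) (nat_lit 230)) (XT.nd (nat_lit 78) (nat_lit 152) (nat_lit 0) (XT.lf (nat_lit 0) (nat_lit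 2740616245) (nat_lit 152) (nat_lit 5847467833) (nat_lit 0) (nat_lit 1974490682) (nat_lit 16) (nat_lit 5) (nat_lit 18) (nat_lit 4) (nat_lit 16) (nat_lit 4) (nat_lit 261) (nat_lit 230) (nat_lit 229)) (XT.lf (nat_lit 0) (nat_lit 129589069) (nat_lit 152) (nat_lit 6200467856) (nat_lit 152) (nat_lit 4724966772) (nat_lit 14) (nat_lit 4) (nat_lit 16) (nat_lit 5) (nat_lit 16) (nat_lit 4) (nat_lit 262) (nat_lit 230) (nat_lit 228))))) (XT.nd (nat_lit 234) (nat_lit 228) (nat_lit 0) (XT.nd (nat_lit 78) (nat_lit 152) (nat_lit 0) (XT.lf (nat_lit 0) (nat_lit 6595705705) (nat_lit 152) (nat_lit 3564021043) (nat_lit 152) (nat_lit 1431690772) (nat_lit 14) (nat_lit 4) (nat_lit 16) (nat_lit 5) (nat_lit 16) (nat_lit 4) (nat_lit 263) (nat_lit 230) (nat_lit 227)) (XT.nd (nat_lit 78) (nat_lit 0) (nat_lit 0) (XT.lf (nat_lit 0) (nat_lit 1103594919) (nat_lit 76) (nat_lit 744530254) (nat_lit 152) (nat_lit 10332840057)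 (nat_lit 12) (nat_lit 5) (nat_lit 13) (nat_lit 5) (nat_lit 14) (nat_lit 4) (nat_lit 264) (nat_lit 230) (nat_lit 226)) (XT.lf (nat_lit 0) (nat_lit 5315972225) (nat_lit 152) (nat_lit 5242066050) (nat_lit 0) (nat_lit 2257055000) (nat_lit 12) (nat_lit 5) (nat_lit 14) (nat_lit 4) (nat_lit 12) (nat_lit 4) (nat_lit 265) (nat_lit 230) (nat_lit 225)))) (XT.nd (nat_lit 78) (nat_lit 76) (nat_lit 0) (XT.lf (nat_lit 0) (nat_lit 789270295) (nat_lit 152) (nat_lit 8132081709) (nat_lit 152) (nat_lit 4590375424) (nat_lit 10) (nat_lit 4) (nat_lit 12) (nat_lit 5) (nat_lit 12) (nat_lit 4) (nat_lit 266) (nat_lit 230) (nat_lit 224)) (XT.nd (nat_lit 78) (nat_lit 76) (nat_lit 0) (XT.lf (nat_lit 0) (nat_lit 7317663663) (nat_lit 152) (nat_lit 5468991686) (nat_lit 152) (nat_lit 1480258493) (nat_lit 10) (nat_lit 4) (nat_lit 12) (nat_lit 5) (nat_lit 12) (nat_lit 4) (nat_lit 267) (nat_lit 230) (nat_lit 223)) (XT.lf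 (nat_lit 0) (nat_lit 1620975015) (nat_lit 228) (nat_lit 1031018964) (nat_lit 76) (nat_lit 12440467573) (nat_lit 9) (nat_lit 5) (nat_lit 12) (nat_lit 5) (nat_lit 10) (nat_lit 4) (nat_lit 268) (nat_lit 230) (nat_lit 222)))))) (XT.nd (nat_lit 468) (nat_lit 152) (nat_lit 0) (XT.nd (nat_lit 234) (nat_lit 76) (nat_lit 0) (XT.nd (nat_lit 78) (nat_lit 76) (nat_lit 0) (XT.lf (nat_lit 0) (nat_lit 4878437250) (nat_lit 152) (nat_lit 10656873339) (nat_lit 0) (nat_lit 447047882) (nat_lit 8) (nat_lit 5) (nat_lit 10) (nat_lit 4) (nat_lit 8) (nat_lit 4) (nat_lit 269) (nat_lit 230) (nat_lit 221)) (XT.nd (nat_lit 78) (nat_lit 76) (nat_lit 0) (XT.lf (nat_lit 0) (nat_lit 8345668181) (nat_lit 152) (nat_lit 5016542174) (nat_lit 0) (nat_lit 3585700691) (nat_lit 8) (nat_lit 5) (nat_lit 10) (nat_lit 4) (nat_lit 8) (nat_lit 4) (nat_lit 270) (nat_lit 230) (nat_lit 220)) (XT.lf (nat_lit 0) (nat_lit 883196965)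 (nat_lit 76) (nat_lit 11090698071) (nat_lit 76) (nat_lit 6026491578) (nat_lit 7) (nat_lit 4) (nat_lit 8) (nat_lit 5) (nat_lit 8) (nat_lit 4) (nat_lit 271) (nat_lit 230) (nat_lit 219)))) (XT.nd (nat_lit 78) (nat_lit 76) (nat_lit 0) (XT.lf (nat_lit 0) (nat_lit 7310185502) (nat_lit 76) (nat_lit 8586394458) (nat_lit 76) (nat_lit 3240485186) (nat_lit 7) (nat_lit 4) (nat_lit 8) (nat_lit 5) (nat_lit 8) (nat_lit 4) (nat_lit 272) (nat_lit 230) (nat_lit 218)) (XT.nd (nat_lit 78) (nat_lit 76) (nat_lit 0) (XT.lf (nat_lit 0) (nat_lit 14038347073) (nat_lit 76) (nat_lit 5971620354) (nat_lit 76) (nat_lit 364875175) (nat_lit 7) (nat_lit 4) (nat_lit 8) (nat_lit 5) (nat_lit 8) (nat_lit 4) (nat_lit 273) (nat_lit 230) (nat_lit 217)) (XT.lf (nat_lit 0) (nat_lit 2486447204) (nat_lit 152) (nat_lit 676449722) (nat_lit 76) (nat_lit 18553121186) (nat_lit 6) (nat_lit 5) (nat_lit 8) (nat_lit 5) (nat_lit 7) (nat_lit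 4) (nat_lit 274) (nat_lit 230) (nat_lit 216))))) (XT.nd (nat_lit 234) (nat_lit 76) (nat_lit 0) (XT.nd (nat_lit 78) (nat_lit 0) (nat_lit 0) (XT.lf (nat_lit 0) (nat_lit 5514197241) (nat_lit 76) (nat_lit 56034439) (nat_lit 152) (nat_lit 17591822857) (nat_lit 5) (nat_lit 5) (nat_lit 6) (nat_lit 5) (nat_lit 7) (nat_lit 4) (nat_lit 275) (nat_lit 230) (nat_lit 215)) (XT.nd (nat_lit 78) (nat_lit 0) (nat_lit 0) (XT.lf (nat_lit 0) (nat_lit 8892220782) (nat_lit 152) (nat_lit 12754081785) (nat_lit 0) (nat_lit 3078383181) (nat_lit 5) (nat_lit 5) (nat_lit 7) (nat_lit 4) (nat_lit 5) (nat_lit 4) (nat_lit 276) (nat_lit 230) (nat_lit 214)) (XT.lf (nat_lit 0) (nat_lit 12382513371) (nat_lit 152) (nat_lit 7646670131) (nat_lit 0) (nat_lit 6391155235) (nat_lit 5) (nat_lit 5) (nat_lit 7) (nat_lit 4) (nat_lit 5) (nat_lit 4) (nat_lit 277) (nat_lit 230) (nat_lit 213)))) (XT.nd (nat_lit 156) (nat_lit 0) (nat_lit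 0) (XT.nd (nat_lit 78) (nat_lit 76) (nat_lit 0) (XT.lf (nat_lit 0) (nat_lit 16060445036) (nat_lit 152) (nat_lit 2294008562) (nat_lit 0) (nat_lit 9904716034) (nat_lit 5) (nat_lit 5) (nat_lit 7) (nat_lit 4) (nat_lit 5) (nat_lit 4) (nat_lit 278) (nat_lit 230) (nat_lit 212)) (XT.lf (nat_lit 0) (nat_lit 3511270362) (nat_lit 76) (nat_lit 16520986701) (nat_lit 76) (nat_lit 10213062452) (nat_lit 4) (nat_lit 4) (nat_lit 5) (nat_lit 5) (nat_lit 5) (nat_lit 4) (nat_lit 279) (nat_lit 230) (nat_lit 211))) (XT.nd (nat_lit 78) (nat_lit 0) (nat_lit 0) (XT.lf (nat_lit 0) (nat_lit 9764019316) (nat_lit 76) (nat_lit 14538452868) (nat_lit 76) (nat_lit 8089607095) (nat_lit 4) (nat_lit 4) (nat_lit 5) (nat_lit 5) (nat_lit 5) (nat_lit 4) (nat_lit 280) (nat_lit 230) (nat_lit 210)) (XT.lf (nat_lit 0) (nat_lit 16380493200) (nat_lit 76) (nat_lit 12457826011) (nat_lit 76) (nat_lit 5878497345) (nat_lit 4) (nat_lit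 4) (nat_lit 5) (nat_lit 5) (nat_lit 5) (nat_lit 4) (nat_lit 281) (nat_lit 230) (nat_lit 209))))))) (XT.nd (nat_lit 936) (nat_lit 76) (nat_lit 0) (XT.nd (nat_lit 468) (nat_lit 0) (nat_lit 0) (XT.nd (nat_lit 234) (nat_lit 76) (nat_lit 0) (XT.nd (nat_lit 78) (nat_lit 76) (nat_lit 0) (XT.lf (nat_lit 0) (nat_lit 23399900750) (nat_lit 76) (nat_lit 10266776489) (nat_lit 76) (nat_lit 3566630329) (nat_lit 4) (nat_lit 4) (nat_lit 5) (nat_lit 5) (nat_lit 5) (nat_lit 4) (nat_lit 282) (nat_lit 230) (nat_lit 208)) (XT.nd (nat_lit 78) (nat_lit 76) (nat_lit 0) (XT.lf (nat_lit 0) (nat_lit 30863838454) (nat_lit 76) (nat_lit 7952320305) (nat_lit 76) (nat_lit 1140306095) (nat_lit 4) (nat_lit 4) (nat_lit 5) (nat_lit 5) (nat_lit 5) (nat_lit 4) (nat_lit 283) (nat_lit 230) (nat_lit 207)) (XT.lf (nat_lit 0) (nat_lit 1344076868) (nat_lit 152) (nat_lit 4119915850) (nat_lit 76) (nat_lit 37435710742) (nat_lit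 3) (nat_lit 5) (nat_lit 5) (nat_lit 5) (nat_lit 4) (nat_lit 4) (nat_lit 284) (nat_lit 230) (nat_lit 206)))) (XT.nd (nat_lit 78) (nat_lit 0) (nat_lit 0) (XT.lf (nat_lit 0) (nat_lit 1176382001) (nat_lit 76) (nat_lit 2760101921) (nat_lit 152) (nat_lit 42141984867) (nat_lit 2) (nat_lit 5) (nat_lit 3) (nat_lit 5) (nat_lit 4) (nat_lit 4) (nat_lit 285) (nat_lit 230) (nat_lit 205)) (XT.nd (nat_lit 78) (nat_lit 0) (nat_lit 0) (XT.lf (nat_lit 0) (nat_lit 6799032413) (nat_lit 152) (nat_lit 42482910325) (nat_lit 0) (nat_lit 224672206) (nat_lit 2) (nat_lit 5) (nat_lit 4) (nat_lit 4) (nat_lit 2) (nat_lit 4) (nat_lit 286) (nat_lit 230) (nat_lit 204)) (XT.lf (nat_lit 0) (nat_lit 9909800550) (nat_lit 152) (nat_lit 40038462288) (nat_lit 0) (nat_lit 3259304829) (nat_lit 2) (nat_lit 5) (nat_lit 4) (nat_lit 4) (nat_lit 2) (nat_lit 4) (nat_lit 287) (nat_lit 230) (nat_lit 203))))) (XT.nd (nat_lit 234) (nat_lit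 0) (nat_lit 0) (XT.nd (nat_lit 78) (nat_lit 0) (nat_lit 0) (XT.lf (nat_lit 0) (nat_lit 13220841999) (nat_lit 152) (nat_lit 37487876542) (nat_lit 0) (nat_lit 6499850431) (nat_lit 2) (nat_lit 5) (nat_lit 4) (nat_lit 4) (nat_lit 2) (nat_lit 4) (nat_lit 288) (nat_lit 230) (nat_lit 202)) (XT.nd (nat_lit 78) (nat_lit 0) (nat_lit 0) (XT.lf (nat_lit 0) (nat_lit 16751777746) (nat_lit 152) (nat_lit 34816038506) (nat_lit 0) (nat_lit 9965512245) (nat_lit 2) (nat_lit 5) (nat_lit 4) (nat_lit 4) (nat_lit 2) (nat_lit 4) (nat_lit 289) (nat_lit 230) (nat_lit 201)) (XT.lf (nat_lit 0) (nat_lit 20523531854) (nat_lit 152) (nat_lit 32007115065) (nat_lit 0) (nat_lit 13676827526) (nat_lit 2) (nat_lit 5) (nat_lit 4) (nat_lit 4) (nat_lit 2) (nat_lit 4) (nat_lit 290) (nat_lit 230) (nat_lit 200)))) (XT.nd (nat_lit 78) (nat_lit 0) (nat_lit 0) (XT.lf (nat_lit 0) (nat_lit 24558455459) (nat_lit 152) (nat_lit 29044460746)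 (nat_lit 0) (nat_lit 17655789255) (nat_lit 2) (nat_lit 5) (nat_lit 4) (nat_lit 4) (nat_lit 2) (nat_lit 4) (nat_lit 291) (nat_lit 230) (nat_lit 199)) (XT.nd (nat_lit 78) (nat_lit 0) (nat_lit 0) (XT.lf (nat_lit 0) (nat_lit 28880459218) (nat_lit 152) (nat_lit 25910519080) (nat_lit 0) (nat_lit 21925976463) (nat_lit 2) (nat_lit 5) (nat_lit 4) (nat_lit 4) (nat_lit 2) (nat_lit 4) (nat_lit 292) (nat_lit 230) (nat_lit 198)) (XT.lf (nat_lit 0) (nat_lit 33515155008) (nat_lit 152) (nat_lit 22586718561) (nat_lit 0) (nat_lit 26512693963) (nat_lit 2) (nat_lit 5) (nat_lit 4) (nat_lit 4) (nat_lit 2) (nat_lit 4) (nat_lit 293) (nat_lit 230) (nat_lit 197)))))) (XT.nd (nat_lit 468) (nat_lit 0) (nat_lit 0) (XT.nd (nat_lit 234) (nat_lit 76) (nat_lit 0) (XT.nd (nat_lit 78) (nat_lit 0) (nat_lit 0) (XT.lf (nat_lit 0) (nat_lit 38490007690) (nat_lit 152) (nat_lit 19053362593) (nat_lit 0) (nat_lit 31443122304)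 (nat_lit 2) (nat_lit 5) (nat_lit 4) (nat_lit 4) (nat_lit 2) (nat_lit 4) (nat_lit 294) (nat_lit 230) (nat_lit 196)) (XT.nd (nat_lit 78) (nat_lit 0) (nat_lit 0) (XT.lf (nat_lit 0) (nat_lit 43834497875) (nat_lit 152) (nat_lit 15289512769) (nat_lit 0) (nat_lit 36746478838) (nat_lit 2) (nat_lit 5) (nat_lit 4) (nat_lit 4) (nat_lit 2) (nat_lit 4) (nat_lit 295) (nat_lit 230) (nat_lit 195)) (XT.lf (nat_lit 0) (nat_lit 49580296614) (nat_lit 152) (nat_lit 11272864796) (nat_lit 0) (nat_lit 42454190865) (nat_lit 2) (nat_lit 5) (nat_lit 4) (nat_lit 4) (nat_lit 2) (nat_lit 4) (nat_lit 296) (nat_lit 230) (nat_lit 194)))) (XT.nd (nat_lit 78) (nat_lit 76) (nat_lit 0) (XT.lf (nat_lit 0) (nat_lit 55761453085) (nat_lit 152) (nat_lit 6979616314) (nat_lit 0) (nat_lit 48600081862) (nat_lit 2) (nat_lit 5) (nat_lit 4) (nat_lit 4) (nat_lit 2) (nat_lit 4) (nat_lit 297) (nat_lit 230) (nat_lit 193)) (XT.nd (nat_lit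 78) (nat_lit 76) (nat_lit 0) (XT.lf (nat_lit 0) (nat_lit 62414596364) (nat_lit 152) (nat_lit 2384325851) (nat_lit 0) (nat_lit 55220571923) (nat_lit 2) (nat_lit 5) (nat_lit 4) (nat_lit 4) (nat_lit 2) (nat_lit 4) (nat_lit 298) (nat_lit 230) (nat_lit 192)) (XT.lf (nat_lit 0) (nat_lit 2674002371) (nat_lit 76) (nat_lit 66969459935) (nat_lit 76) (nat_lit 59745201034) (nat_lit 1) (nat_lit 4) (nat_lit 2) (nat_lit 5) (nat_lit 2) (nat_lit 4) (nat_lit 299) (nat_lit 230) (nat_lit 191))))) (XT.nd (nat_lit 234) (nat_lit 0) (nat_lit 0) (XT.nd (nat_lit 78) (nat_lit 0) (nat_lit 0) (XT.lf (nat_lit 0) (nat_lit 8235216555) (nat_lit 76) (nat_lit 69260418679) (nat_lit 76) (nat_lit 62008164907) (nat_lit 1) (nat_lit 4) (nat_lit 2) (nat_lit 5) (nat_lit 2) (nat_lit 4) (nat_lit 300) (nat_lit 230) (nat_lit 190)) (XT.nd (nat_lit 78) (nat_lit 0) (nat_lit 0) (XT.lf (nat_lit 0) (nat_lit 14206717668) (nat_lit 76)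 (nat_lit 71750566193) (nat_lit 76) (nat_lit 64472391244) (nat_lit 1) (nat_lit 4) (nat_lit 2) (nat_lit 5) (nat_lit 2) (nat_lit 4) (nat_lit 301) (nat_lit 230) (nat_lit 189)) (XT.lf (nat_lit 0) (nat_lit 20623892384) (nat_lit 76) (nat_lit 74454658906) (nat_lit 76) (nat_lit 67152482868) (nat_lit 1) (nat_lit 4) (nat_lit 2) (nat_lit 5) (nat_lit 2) (nat_lit 4) (nat_lit 302) (nat_lit 230) (nat_lit 188)))) (XT.nd (nat_lit 156) (nat_lit 0) (nat_lit 0) (XT.nd (nat_lit 78) (nat_lit 0) (nat_lit 0) (XT.lf (nat_lit 0) (nat_lit 27524768404) (nat_lit 76) (nat_lit 77388721073) (nat_lit 76) (nat_lit 70064321804) (nat_lit 1) (nat_lit 4) (nat_lit 2) (nat_lit 5) (nat_lit 2) (nat_lit 4) (nat_lit 303) (nat_lit 230) (nat_lit 187)) (XT.lf (nat_lit 0) (nat_lit 34950239810) (nat_lit 76) (nat_lit 80570139728) (nat_lit 76) (nat_lit 73225163393) (nat_lit 1) (nat_lit 4) (nat_lit 2) (nat_lit 5) (nat_lit 2) (nat_lit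 4) (nat_lit 304) (nat_lit 230) (nat_lit 186))) (XT.nd (nat_lit 78) (nat_lit 0) (nat_lit 0) (XT.lf (nat_lit 0) (nat_lit 42944309395) (nat_lit 76) (nat_lit 84017767722) (nat_lit 76) (nat_lit 76653738548) (nat_lit 1) (nat_lit 4) (nat_lit 2) (nat_lit 5) (nat_lit 2) (nat_lit 4) (nat_lit 305) (nat_lit 230) (nat_lit 185)) (XT.lf (nat_lit 0) (nat_lit 51554349422) (nat_lit 76) (nat_lit 87752035444) (nat_lit 76) (nat_lit 80370364753) (nat_lit 1) (nat_lit 4) (nat_lit 2) (nat_lit 5) (nat_lit 2) (nat_lit 4) (nat_lit 306) (nat_lit 230) (nat_lit 184))))))))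
noncomputable def xc33 : XT := (XT.nd (nat_lit 1950) (nat_lit 0) (nat_lit 0) (XT.nd (nat_lit 936) (nat_lit 0) (nat_lit 0) (XT.nd (nat_lit 468) (nat_lit 0) (nat_lit 0) (XT.nd (nat_lit 234) (nat_lit 0) (nat_lit 0) (XT.nd (nat_lit 78) (nat_lit 0) (nat_lit 0) (XT.lf (nat_lit 0) (nat_lit 60831382351) (nat_lit 76) (nat_lit 91795071887) (nat_lit 76) (nat_lit 84397066457) (nat_lit 1) (nat_lit 4) (nat_lit 2) (nat_lit 5) (nat_lit 2) (nat_lit 4) (nat_lit 307) (nat_lit 230) (nat_lit 183)) (XT.nd (nat_lit 78) (nat_lit 0) (nat_lit 0) (XT.lf (nat_lit 0) (nat_lit 70830383192) (nat_lit 76) (nat_lit 96170835786) (nat_lit 76) (nat_lit 88757705599) (nat_lit 1) (nat_lit 4) (nat_lit 2) (nat_lit 5) (nat_lit 2) (nat_lit 4) (nat_lit 308) (nat_lit 230) (nat_lit 182)) (XT.lf (nat_lit 0) (nat_lit 81610605284) (nat_lit 76) (nat_lit 100905257593) (nat_lit 76) (nat_lit 93478123001) (nat_lit 1) (nat_lit 4) (nat_lit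 2) (nat_lit 5) (nat_lit 2) (nat_lit 4) (nat_lit 309) (nat_lit 230) (nat_lit 181)))) (XT.nd (nat_lit 78) (nat_lit 0) (nat_lit 0) (XT.lf (nat_lit 0) (nat_lit 93235931423) (nat_lit 76) (nat_lit 106026393142) (nat_lit 76) (nat_lit 98586291508) (nat_lit 1) (nat_lit 4) (nat_lit 2) (nat_lit 5) (nat_lit 2) (nat_lit 4) (nat_lit 310) (nat_lit 230) (nat_lit 180)) (XT.nd (nat_lit 78) (nat_lit 0) (nat_lit 0) (XT.lf (nat_lit 0) (nat_lit 105775252433) (nat_lit 76) (nat_lit 111564589902) (nat_lit 76) (nat_lit 104112481748) (nat_lit 1) (nat_lit 4) (nat_lit 2) (nat_lit 5) (nat_lit 2) (nat_lit 4) (nat_lit 311) (nat_lit 230) (nat_lit 179)) (XT.lf (nat_lit 0) (nat_lit 119302875399) (nat_lit 76) (nat_lit 117552666818) (nat_lit 76) (nat_lit 110089441515) (nat_lit 1) (nat_lit 4) (nat_lit 2) (nat_lit 5) (nat_lit 2) (nat_lit 4) (nat_lit 312) (nat_lit 230) (nat_lit 178))))) (XT.nd (nat_lit 234) (nat_lit 0) (nat_lit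 0) (XT.nd (nat_lit 78) (nat_lit 0) (nat_lit 0) (XT.lf (nat_lit 0) (nat_lit 133898964014) (nat_lit 76) (nat_lit 124026108789) (nat_lit 76) (nat_lit 116552589831) (nat_lit 1) (nat_lit 4) (nat_lit 2) (nat_lit 5) (nat_lit 2) (nat_lit 4) (nat_lit 313) (nat_lit 230) (nat_lit 177)) (XT.nd (nat_lit 78) (nat_lit 0) (nat_lit 0) (XT.lf (nat_lit 0) (nat_lit 149650013617) (nat_lit 76) (nat_lit 131023276953) (nat_lit 76) (nat_lit 123540226832) (nat_lit 1) (nat_lit 4) (nat_lit 2) (nat_lit 5) (nat_lit 2) (nat_lit 4) (nat_lit 314) (nat_lit 230) (nat_lit 176)) (XT.lf (nat_lit 0) (nat_lit 166649363763) (nat_lit 76) (nat_lit 138585636010) (nat_lit 76) (nat_lit 131093760738) (nat_lit 1) (nat_lit 4) (nat_lit 2) (nat_lit 5) (nat_lit 2) (nat_lit 4) (nat_lit 315) (nat_lit 230) (nat_lit 175)))) (XT.nd (nat_lit 78) (nat_lit 0) (nat_lit 0) (XT.lf (nat_lit 0) (nat_lit 184997751339) (nat_lit 76) (nat_lit 146757999941)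 (nat_lit 76) (nat_lit 139257953233) (nat_lit 1) (nat_lit 4) (nat_lit 2) (nat_lit 5) (nat_lit 2) (nat_lit 4) (nat_lit 316) (nat_lit 230) (nat_lit 174)) (XT.nd (nat_lit 78) (nat_lit 0) (nat_lit 0) (XT.lf (nat_lit 0) (nat_lit 204803907534) (nat_lit 76) (nat_lit 155588797567) (nat_lit 76) (nat_lit 148081184715) (nat_lit 1) (nat_lit 4) (nat_lit 2) (nat_lit 5) (nat_lit 2) (nat_lit 4) (nat_lit 317) (nat_lit 230) (nat_lit 173)) (XT.lf (nat_lit 0) (nat_lit 226185202159) (nat_lit 76) (nat_lit 165130359542) (nat_lit 76) (nat_lit 157615741001) (nat_lit 1) (nat_lit 4) (nat_lit 2) (nat_lit 5) (nat_lit 2) (nat_lit 4) (nat_lit 318) (nat_lit 230) (nat_lit 172)))))) (XT.nd (nat_lit 468) (nat_lit 0) (nat_lit 0) (XT.nd (nat_lit 234) (nat_lit 0) (nat_lit 0) (XT.nd (nat_lit 78) (nat_lit 0) (nat_lit 0) (XT.lf (nat_lit 0) (nat_lit 249268339185) (nat_lit 76) (nat_lit 175439228456) (nat_lit 76) (nat_lit 167918123165)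 (nat_lit 1) (nat_lit 4) (nat_lit 2) (nat_lit 5) (nat_lit 2) (nat_lit 4) (nat_lit 319) (nat_lit 230) (nat_lit 171)) (XT.nd (nat_lit 78) (nat_lit 0) (nat_lit 0) (XT.lf (nat_lit 0) (nat_lit 274190107571) (nat_lit 76) (nat_lit 186576493901) (nat_lit 76) (nat_lit 179049382361) (nat_lit 1) (nat_lit 4) (nat_lit 2) (nat_lit 5) (nat_lit 2) (nat_lit 4) (nat_lit 320) (nat_lit 230) (nat_lit 170)) (XT.lf (nat_lit 0) (nat_lit 301098191870) (nat_lit 76) (nat_lit 198608154488) (nat_lit 76) (nat_lit 191075481606) (nat_lit 1) (nat_lit 4) (nat_lit 2) (nat_lit 5) (nat_lit 2) (nat_lit 4) (nat_lit 321) (nat_lit 230) (nat_lit 169)))) (XT.nd (nat_lit 78) (nat_lit 0) (nat_lit 0) (XT.lf (nat_lit 0) (nat_lit 330152047396) (nat_lit 76) (nat_lit 211605508947) (nat_lit 76) (nat_lit 204067686674) (nat_lit 1) (nat_lit 4) (nat_lit 2) (nat_lit 5) (nat_lit 2) (nat_lit 4) (nat_lit 322) (nat_lit 230) (nat_lit 168)) (XT.nd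 (nat_lit 78) (nat_lit 0) (nat_lit 0) (XT.lf (nat_lit 0) (nat_lit 361523845147) (nat_lit 76) (nat_lit 225645578636) (nat_lit 76) (nat_lit 218102988409) (nat_lit 1) (nat_lit 4) (nat_lit 2) (nat_lit 5) (nat_lit 2) (nat_lit 4) (nat_lit 323) (nat_lit 230) (nat_lit 167)) (XT.lf (nat_lit 0) (nat_lit 395399492070) (nat_lit 76) (nat_lit 240811563970) (nat_lit 76) (nat_lit 233264558970) (nat_lit 1) (nat_lit 4) (nat_lit 2) (nat_lit 5) (nat_lit 2) (nat_lit 4) (nat_lit 324) (nat_lit 230) (nat_lit 166))))) (XT.nd (nat_lit 234) (nat_lit 0) (nat_lit 0) (XT.nd (nat_lit 78) (nat_lit 0) (nat_lit 0) (XT.lf (nat_lit 0) (nat_lit 431979732741) (nat_lit 76) (nat_lit 257193337453) (nat_lit 76) (nat_lit 249642244700) (nat_lit 1) (nat_lit 4) (nat_lit 2) (nat_lit 5) (nat_lit 2) (nat_lit 4) (nat_lit 325) (nat_lit 230) (nat_lit 165)) (XT.nd (nat_lit 78) (nat_lit 0) (nat_lit 0) (XT.lf (nat_lit 0) (nat_lit 471481338956)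 (nat_lit 76) (nat_lit 274887976262) (nat_lit 76) (nat_lit 267333098553) (nat_lit 1) (nat_lit 4) (nat_lit 2) (nat_lit 5) (nat_lit 2) (nat_lit 4) (nat_lit 326) (nat_lit 230) (nat_lit 164)) (XT.lf (nat_lit 0) (nat_lit 514138394307) (nat_lit 76) (nat_lit 294000337515) (nat_lit 76) (nat_lit 286441955218) (nat_lit 1) (nat_lit 4) (nat_lit 2) (nat_lit 5) (nat_lit 2) (nat_lit 4) (nat_lit 327) (nat_lit 230) (nat_lit 163)))) (XT.nd (nat_lit 156) (nat_lit 0) (nat_lit 0) (XT.nd (nat_lit 78) (nat_lit 0) (nat_lit 0) (XT.lf (nat_lit 0) (nat_lit 560203681345) (nat_lit 76) (nat_lit 314643679651) (nat_lit 76) (nat_lit 307082052364) (nat_lit 1) (nat_lit 4) (nat_lit 2) (nat_lit 5) (nat_lit 2) (nat_lit 4) (nat_lit 328) (nat_lit 230) (nat_lit 162)) (XT.lf (nat_lit 0) (nat_lit 609950179548) (nat_lit 76) (nat_lit 336940333585) (nat_lit 76) (nat_lit 329375701678) (nat_lit 1) (nat_lit 4) (nat_lit 2) (nat_lit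 5) (nat_lit 2) (nat_lit 4) (nat_lit 329) (nat_lit 230) (nat_lit 161))) (XT.nd (nat_lit 78) (nat_lit 0) (nat_lit 0) (XT.lf (nat_lit 0) (nat_lit 663672682980) (nat_lit 76) (nat_lit 361022427636) (nat_lit 76) (nat_lit 353455013674) (nat_lit 1) (nat_lit 4) (nat_lit 2) (nat_lit 5) (nat_lit 2) (nat_lit 4) (nat_lit 330) (nat_lit 230) (nat_lit 160)) (XT.lf (nat_lit 0) (nat_lit 721689547217) (nat_lit 76) (nat_lit 387032670511) (nat_lit 76) (nat_lit 379462680571) (nat_lit 1) (nat_lit 4) (nat_lit 2) (nat_lit 5) (nat_lit 2) (nat_lit 4) (nat_lit 331) (nat_lit 230) (nat_lit 159))))))) (XT.nd (nat_lit 32058) (nat_lit 0) (nat_lit 380) (XT.nd (nat_lit 468) (nat_lit 0) (nat_lit 0) (XT.nd (nat_lit 234) (nat_lit 0) (nat_lit 0) (XT.nd (nat_lit 78) (nat_lit 0) (nat_lit 0) (XT.lf (nat_lit 0) (nat_lit 784344575899) (nat_lit 76) (nat_lit 415125196981) (nat_lit 76) (nat_lit 407552821877) (nat_lit 1) (nat_lit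 4) (nat_lit 2) (nat_lit 5) (nat_lit 2) (nat_lit 4) (nat_lit 332) (nat_lit 230) (nat_lit 158)) (XT.nd (nat_lit 78) (nat_lit 0) (nat_lit 0) (XT.lf (nat_lit 0) (nat_lit 852009058084) (nat_lit 76) (nat_lit 445466481279) (nat_lit 76) (nat_lit 437891897689) (nat_lit 1) (nat_lit 4) (nat_lit 2) (nat_lit 5) (nat_lit 2) (nat_lit 4) (nat_lit 333) (nat_lit 230) (nat_lit 157)) (XT.lf (nat_lit 0) (nat_lit 925083968481) (nat_lit 76) (nat_lit 478236323606) (nat_lit 76) (nat_lit 470659695123) (nat_lit 1) (nat_lit 4) (nat_lit 2) (nat_lit 5) (nat_lit 2) (nat_lit 4) (nat_lit 334) (nat_lit 230) (nat_lit 156)))) (XT.nd (nat_lit 78) (nat_lit 0) (nat_lit 0) (XT.lf (nat_lit 0) (nat_lit 1004002343598) (nat_lit 76) (nat_lit 513628915622) (nat_lit 76) (nat_lit 506050393718) (nat_lit 1) (nat_lit 4) (nat_lit 2) (nat_lit 5) (nat_lit 2) (nat_lit 4) (nat_lit 335) (nat_lit 230) (nat_lit 155)) (XT.nd (nat_lit 78) (nat_lit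 0) (nat_lit 0) (XT.lf (nat_lit 0) (nat_lit 1089231847878) (nat_lit 76) (nat_lit 551853991204) (nat_lit 76) (nat_lit 544273716134) (nat_lit 1) (nat_lit 4) (nat_lit 2) (nat_lit 5) (nat_lit 2) (nat_lit 4) (nat_lit 336) (nat_lit 230) (nat_lit 154)) (XT.lf (nat_lit 0) (nat_lit 1181277545051) (nat_lit 76) (nat_lit 593138069320) (nat_lit 76) (nat_lit 585556170947) (nat_lit 1) (nat_lit 4) (nat_lit 2) (nat_lit 5) (nat_lit 2) (nat_lit 4) (nat_lit 337) (nat_lit 230) (nat_lit 153))))) (XT.nd (nat_lit 31356) (nat_lit 0) (nat_lit 1140) (XT.nd (nat_lit 78) (nat_lit 0) (nat_lit 0) (XT.lf (nat_lit 0) (nat_lit 1280684891101) (nat_lit 76) (nat_lit 637725796358) (nat_lit 76) (nat_lit 630142394927) (nat_lit 1) (nat_lit 4) (nat_lit 2) (nat_lit 5) (nat_lit 2) (nat_lit 4) (nat_lit 338) (nat_lit 230) (nat_lit 152)) (XT.nd (nat_lit 31200) (nat_lit 0) (nat_lit 1444) (XT.lf (nat_lit 0) (nat_lit 1388042966596)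 (nat_lit 76) (nat_lit 685881395886) (nat_lit 76) (nat_lit 678296602734) (nat_lit 1) (nat_lit 4) (nat_lit 2) (nat_lit 5) (nat_lit 2) (nat_lit 4) (nat_lit 339) (nat_lit 230) (nat_lit 151)) (XT.lf (nat_lit 0) (nat_lit 1420017434) (nat_lit 228) (nat_lit 1821698847) (nat_lit 0) (nat_lit 1420017434) (nat_lit 20) (nat_lit 5) (nat_lit 23) (nat_lit 4) (nat_lit 20) (nat_lit 4) (nat_lit 258) (nat_lit 231) (nat_lit 231)))) (XT.nd (nat_lit 78) (nat_lit 152) (nat_lit 0) (XT.lf (nat_lit 0) (nat_lit 2219809004) (nat_lit 152) (nat_lit 4189035773) (nat_lit 152) (nat_lit 3295426917) (nat_lit 18) (nat_lit 4) (nat_lit 20) (nat_lit 5) (nat_lit 20) (nat_lit 4) (nat_lit 259) (nat_lit 231) (nat_lit 230)) (XT.nd (nat_lit 78) (nat_lit 76) (nat_lit 0) (XT.lf (nat_lit 0) (nat_lit 21065788) (nat_lit 228) (nat_lit 1677207625) (nat_lit 76) (nat_lit 8427443529) (nat_lit 17) (nat_lit 5) (nat_lit 20) (nat_lit 5) (nat_lit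 18) (nat_lit 4) (nat_lit 260) (nat_lit 231) (nat_lit 229)) (XT.lf (nat_lit 0) (nat_lit 3353035797) (nat_lit 152) (nat_lit 6177478017) (nat_lit 0) (nat_lit 1050119104) (nat_lit 16) (nat_lit 5) (nat_lit 18) (nat_lit 4) (nat_lit 16) (nat_lit 4) (nat_lit 261) (nat_lit 231) (nat_lit 228)))))) (XT.nd (nat_lit 468) (nat_lit 304) (nat_lit 0) (XT.nd (nat_lit 234) (nat_lit 152) (nat_lit 0) (XT.nd (nat_lit 78) (nat_lit 304) (nat_lit 0) (XT.lf (nat_lit 0) (nat_lit 6843652923) (nat_lit 152) (nat_lit 353809927) (nat_lit 0) (nat_lit 3883907044) (nat_lit 16) (nat_lit 5) (nat_lit 18) (nat_lit 4) (nat_lit 16) (nat_lit 4) (nat_lit 262) (nat_lit 231) (nat_lit 227)) (XT.nd (nat_lit 78) (nat_lit 152) (nat_lit 0) (XT.lf (nat_lit 0) (nat_lit 5950488607) (nat_lit 152) (nat_lit 4621815741) (nat_lit 152) (nat_lit 1053894689) (nat_lit 14) (nat_lit 4) (nat_lit 16) (nat_lit 5) (nat_lit 16) (nat_lit 4) (nat_lit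 263) (nat_lit 231) (nat_lit 226)) (XT.lf (nat_lit 0) (nat_lit 233477844) (nat_lit 76) (nat_lit 1864851028) (nat_lit 152) (nat_lit 10125689842) (nat_lit 12) (nat_lit 5) (nat_lit 13) (nat_lit 5) (nat_lit 14) (nat_lit 4) (nat_lit 264) (nat_lit 231) (nat_lit 225)))) (XT.nd (nat_lit 78) (nat_lit 152) (nat_lit 0) (XT.lf (nat_lit 0) (nat_lit 5453551676) (nat_lit 152) (nat_lit 6268166090) (nat_lit 0) (nat_lit 1145719827) (nat_lit 12) (nat_lit 5) (nat_lit 14) (nat_lit 4) (nat_lit 12) (nat_lit 4) (nat_lit 265) (nat_lit 231) (nat_lit 224)) (XT.nd (nat_lit 78) (nat_lit 152) (nat_lit 0) (XT.lf (nat_lit 0) (nat_lit 8960615684) (nat_lit 152) (nat_lit 405824484) (nat_lit 0) (nat_lit 4205756928) (nat_lit 12) (nat_lit 5) (nat_lit 14) (nat_lit 4) (nat_lit 12) (nat_lit 4) (nat_lit 266) (nat_lit 231) (nat_lit 223)) (XT.lf (nat_lit 0) (nat_lit 5974965432) (nat_lit 152) (nat_lit 6764186417) (nat_lit 152)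 (nat_lit 1595413858) (nat_lit 10) (nat_lit 4) (nat_lit 12) (nat_lit 5) (nat_lit 12) (nat_lit 4) (nat_lit 267) (nat_lit 231) (nat_lit 222))))) (XT.nd (nat_lit 234) (nat_lit 152) (nat_lit 0) (XT.nd (nat_lit 78) (nat_lit 76) (nat_lit 0) (XT.lf (nat_lit 0) (nat_lit 1438701713) (nat_lit 228) (nat_lit 2559526515) (nat_lit 76) (nat_lit 11168143492) (nat_lit 9) (nat_lit 5) (nat_lit 12) (nat_lit 5) (nat_lit 10) (nat_lit 4) (nat_lit 268) (nat_lit 231) (nat_lit 221)) (XT.nd (nat_lit 78) (nat_lit 0) (nat_lit 0) (XT.lf (nat_lit 0) (nat_lit 3610846661) (nat_lit 76) (nat_lit 964988489) (nat_lit 152) (nat_lit 11490250967) (nat_lit 8) (nat_lit 5) (nat_lit 9) (nat_lit 5) (nat_lit 10) (nat_lit 4) (nat_lit 269) (nat_lit 231) (nat_lit 220)) (XT.lf (nat_lit 0) (nat_lit 7953692961) (nat_lit 152) (nat_lit 6905161644) (nat_lit 0) (nat_lit 2180110947) (nat_lit 8) (nat_lit 5) (nat_lit 10) (nat_lit 4) (nat_lit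 8) (nat_lit 4) (nat_lit 270) (nat_lit 231) (nat_lit 219)))) (XT.nd (nat_lit 156) (nat_lit 76) (nat_lit 0) (XT.nd (nat_lit 78) (nat_lit 76) (nat_lit 0) (XT.lf (nat_lit 0) (nat_lit 11499414904) (nat_lit 152) (nat_lit 1154660398) (nat_lit 0) (nat_lit 5444130111) (nat_lit 8) (nat_lit 5) (nat_lit 10) (nat_lit 4) (nat_lit 8) (nat_lit 4) (nat_lit 271) (nat_lit 231) (nat_lit 218)) (XT.lf (nat_lit 0) (nat_lit 5109128628) (nat_lit 76) (nat_lit 10224550708) (nat_lit 76) (nat_lit 3908430008) (nat_lit 7) (nat_lit 4) (nat_lit 8) (nat_lit 5) (nat_lit 8) (nat_lit 4) (nat_lit 272) (nat_lit 231) (nat_lit 217))) (XT.nd (nat_lit 78) (nat_lit 76) (nat_lit 0) (XT.lf (nat_lit 0) (nat_lit 11742478033) (nat_lit 76) (nat_lit 7649784526) (nat_lit 76) (nat_lit 1092149097) (nat_lit 7) (nat_lit 4) (nat_lit 8) (nat_lit 5) (nat_lit 8) (nat_lit 4) (nat_lit 273) (nat_lit 231) (nat_lit 216)) (XT.lf (nat_lit 0) (nat_lit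 1743368155) (nat_lit 152) (nat_lit 3155054414) (nat_lit 76) (nat_lit 16932859251) (nat_lit 6) (nat_lit 5) (nat_lit 8) (nat_lit 5) (nat_lit 7) (nat_lit 4) (nat_lit 274) (nat_lit 231) (nat_lit 215))))))))
noncomputable def xc34 : XT := (XT.nd (nat_lit 1950) (nat_lit 76) (nat_lit 0) (XT.nd (nat_lit 936) (nat_lit 0) (nat_lit 0) (XT.nd (nat_lit 468) (nat_lit 152) (nat_lit 0) (XT.nd (nat_lit 234) (nat_lit 76) (nat_lit 0) (XT.nd (nat_lit 78) (nat_lit 0) (nat_lit 0) (XT.lf (nat_lit 0) (nat_lit 2816711194) (nat_lit 76) (nat_lit 1897246173) (nat_lit 152) (nat_lit 18572528048) (nat_lit 5) (nat_lit 5) (nat_lit 6) (nat_lit 5) (nat_lit 7) (nat_lit 4) (nat_lit 275) (nat_lit 231) (nat_lit 214)) (XT.nd (nat_lit 78) (nat_lit 0) (nat_lit 0) (XT.lf (nat_lit 0) (nat_lit 7944111878) (nat_lit 152) (nat_lit 15616530243) (nat_lit 0) (nat_lit 1295924555) (nat_lit 5) (nat_lit 5) (nat_lit 7) (nat_lit 4) (nat_lit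 5) (nat_lit 4) (nat_lit 276) (nat_lit 231) (nat_lit 213)) (XT.lf (nat_lit 0) (nat_lit 11390373539) (nat_lit 152) (nat_lit 10587648885) (nat_lit 0) (nat_lit 4577815350) (nat_lit 5) (nat_lit 5) (nat_lit 7) (nat_lit 4) (nat_lit 5) (nat_lit 4) (nat_lit 277) (nat_lit 231) (nat_lit 212)))) (XT.nd (nat_lit 78) (nat_lit 76) (nat_lit 0) (XT.lf (nat_lit 0) (nat_lit 15027535825) (nat_lit 152) (nat_lit 5307700554) (nat_lit 0) (nat_lit 8062782390) (nat_lit 5) (nat_lit 5) (nat_lit 7) (nat_lit 4) (nat_lit 5) (nat_lit 4) (nat_lit 278) (nat_lit 231) (nat_lit 211)) (XT.nd (nat_lit 78) (nat_lit 0) (nat_lit 0) (XT.lf (nat_lit 0) (nat_lit 268010294) (nat_lit 76) (nat_lit 18615587651) (nat_lit 76) (nat_lit 11509912691) (nat_lit 4) (nat_lit 4) (nat_lit 5) (nat_lit 5) (nat_lit 5) (nat_lit 4) (nat_lit 279) (nat_lit 231) (nat_lit 210)) (XT.lf (nat_lit 0) (nat_lit 6455136658) (nat_lit 76) (nat_lit 16662145011)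 (nat_lit 76) (nat_lit 9425987158) (nat_lit 4) (nat_lit 4) (nat_lit 5) (nat_lit 5) (nat_lit 5) (nat_lit 4) (nat_lit 280) (nat_lit 231) (nat_lit 209))))) (XT.nd (nat_lit 234) (nat_lit 152) (nat_lit 0) (XT.nd (nat_lit 78) (nat_lit 0) (nat_lit 0) (XT.lf (nat_lit 0) (nat_lit 13010848886) (nat_lit 76) (nat_lit 14608454444) (nat_lit 76) (nat_lit 7251479098) (nat_lit 4) (nat_lit 4) (nat_lit 5) (nat_lit 5) (nat_lit 5) (nat_lit 4) (nat_lit 281) (nat_lit 231) (nat_lit 208)) (XT.nd (nat_lit 78) (nat_lit 0) (nat_lit 0) (XT.lf (nat_lit 0) (nat_lit 19973995643) (nat_lit 76) (nat_lit 12442345931) (nat_lit 76) (nat_lit 4973502535) (nat_lit 4) (nat_lit 4) (nat_lit 5) (nat_lit 5) (nat_lit 5) (nat_lit 4) (nat_lit 282) (nat_lit 231) (nat_lit 207)) (XT.lf (nat_lit 0) (nat_lit 27385840020) (nat_lit 76) (nat_lit 10150983274) (nat_lit 76) (nat_lit 2578558351) (nat_lit 4) (nat_lit 4) (nat_lit 5) (nat_lit 5)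 (nat_lit 5) (nat_lit 4) (nat_lit 283) (nat_lit 231) (nat_lit 206)))) (XT.nd (nat_lit 78) (nat_lit 152) (nat_lit 0) (XT.lf (nat_lit 0) (nat_lit 35290304058) (nat_lit 76) (nat_lit 7720788027) (nat_lit 76) (nat_lit 52454282) (nat_lit 4) (nat_lit 4) (nat_lit 5) (nat_lit 5) (nat_lit 5) (nat_lit 4) (nat_lit 284) (nat_lit 231) (nat_lit 205)) (XT.nd (nat_lit 78) (nat_lit 76) (nat_lit 0) (XT.lf (nat_lit 0) (nat_lit 2488727211) (nat_lit 152) (nat_lit 2580585609) (nat_lit 76) (nat_lit 41177455602) (nat_lit 3) (nat_lit 5) (nat_lit 5) (nat_lit 5) (nat_lit 4) (nat_lit 4) (nat_lit 285) (nat_lit 231) (nat_lit 204)) (XT.lf (nat_lit 0) (nat_lit 3092101550) (nat_lit 76) (nat_lit 2163411005) (nat_lit 152) (nat_lit 44427107371) (nat_lit 2) (nat_lit 5) (nat_lit 3) (nat_lit 5) (nat_lit 4) (nat_lit 4) (nat_lit 286) (nat_lit 231) (nat_lit 203)))))) (XT.nd (nat_lit 468) (nat_lit 0) (nat_lit 0) (XT.nd (nat_lit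 234) (nat_lit 0) (nat_lit 0) (XT.nd (nat_lit 78) (nat_lit 0) (nat_lit 0) (XT.lf (nat_lit 0) (nat_lit 8290890924) (nat_lit 152) (nat_lit 44137029740) (nat_lit 0) (nat_lit 961724182) (nat_lit 2) (nat_lit 5) (nat_lit 4) (nat_lit 4) (nat_lit 2) (nat_lit 4) (nat_lit 287) (nat_lit 231) (nat_lit 202)) (XT.nd (nat_lit 78) (nat_lit 0) (nat_lit 0) (XT.lf (nat_lit 0) (nat_lit 11580303037) (nat_lit 152) (nat_lit 41626249076) (nat_lit 0) (nat_lit 4185862363) (nat_lit 2) (nat_lit 5) (nat_lit 4) (nat_lit 4) (nat_lit 2) (nat_lit 4) (nat_lit 288) (nat_lit 231) (nat_lit 201)) (XT.lf (nat_lit 0) (nat_lit 15091211621) (nat_lit 152) (nat_lit 38991267596) (nat_lit 0) (nat_lit 7636332121) (nat_lit 2) (nat_lit 5) (nat_lit 4) (nat_lit 4) (nat_lit 2) (nat_lit 4) (nat_lit 289) (nat_lit 231) (nat_lit 200)))) (XT.nd (nat_lit 78) (nat_lit 0) (nat_lit 0) (XT.lf (nat_lit 0) (nat_lit 18844422060) (nat_lit 152) (nat_lit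 36216470596) (nat_lit 0) (nat_lit 11333580683) (nat_lit 2) (nat_lit 5) (nat_lit 4) (nat_lit 4) (nat_lit 2) (nat_lit 4) (nat_lit 290) (nat_lit 231) (nat_lit 199)) (XT.nd (nat_lit 78) (nat_lit 0) (nat_lit 0) (XT.lf (nat_lit 0) (nat_lit 22862175600) (nat_lit 152) (nat_lit 33285414834) (nat_lit 0) (nat_lit 15299517672) (nat_lit 2) (nat_lit 5) (nat_lit 4) (nat_lit 4) (nat_lit 2) (nat_lit 4) (nat_lit 291) (nat_lit 231) (nat_lit 198)) (XT.lf (nat_lit 0) (nat_lit 27168281153) (nat_lit 152) (nat_lit 30180731092) (nat_lit 0) (nat_lit 19557644935) (nat_lit 2) (nat_lit 5) (nat_lit 4) (nat_lit 4) (nat_lit 2) (nat_lit 4) (nat_lit 292) (nat_lit 231) (nat_lit 197))))) (XT.nd (nat_lit 234) (nat_lit 0) (nat_lit 0) (XT.nd (nat_lit 78) (nat_lit 0) (nat_lit 0) (XT.lf (nat_lit 0) (nat_lit 31788256380) (nat_lit 152) (nat_lit 26884021242) (nat_lit 0) (nat_lit 24133195820) (nat_lit 2) (nat_lit 5) (nat_lit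 4) (nat_lit 4) (nat_lit 2) (nat_lit 4) (nat_lit 293) (nat_lit 231) (nat_lit 196)) (XT.nd (nat_lit 78) (nat_lit 0) (nat_lit 0) (XT.lf (nat_lit 0) (nat_lit 36749478912) (nat_lit 152) (nat_lit 23375749226) (nat_lit 0) (nat_lit 29053284703) (nat_lit 2) (nat_lit 5) (nat_lit 4) (nat_lit 4) (nat_lit 2) (nat_lit 4) (nat_lit 294) (nat_lit 231) (nat_lit 195)) (XT.lf (nat_lit 0) (nat_lit 42081348586) (nat_lit 152) (nat_lit 19635125286) (nat_lit 0) (nat_lit 34347067665) (nat_lit 2) (nat_lit 5) (nat_lit 4) (nat_lit 4) (nat_lit 2) (nat_lit 4) (nat_lit 295) (nat_lit 231) (nat_lit 194)))) (XT.nd (nat_lit 156) (nat_lit 0) (nat_lit 0) (XT.nd (nat_lit 78) (nat_lit 0) (nat_lit 0) (XT.lf (nat_lit 0) (nat_lit 47815461668) (nat_lit 152) (nat_lit 15639982759) (nat_lit 0) (nat_lit 40045915272) (nat_lit 2) (nat_lit 5) (nat_lit 4) (nat_lit 4) (nat_lit 2) (nat_lit 4) (nat_lit 296) (nat_lit 231) (nat_lit 193))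 (XT.lf (nat_lit 0) (nat_lit 53985798087) (nat_lit 152) (nat_lit 11366646728) (nat_lit 0) (nat_lit 46183598474) (nat_lit 2) (nat_lit 5) (nat_lit 4) (nat_lit 4) (nat_lit 2) (nat_lit 4) (nat_lit 297) (nat_lit 231) (nat_lit 192))) (XT.nd (nat_lit 78) (nat_lit 0) (nat_lit 0) (XT.lf (nat_lit 0) (nat_lit 60628922799) (nat_lit 152) (nat_lit 6789793719) (nat_lit 0) (nat_lit 52796488725) (nat_lit 2) (nat_lit 5) (nat_lit 4) (nat_lit 4) (nat_lit 2) (nat_lit 4) (nat_lit 298) (nat_lit 231) (nat_lit 191)) (XT.lf (nat_lit 0) (nat_lit 67784202469) (nat_lit 152) (nat_lit 1882301642) (nat_lit 0) (nat_lit 59923773524) (nat_lit 2) (nat_lit 5) (nat_lit 4) (nat_lit 4) (nat_lit 2) (nat_lit 4) (nat_lit 299) (nat_lit 231) (nat_lit 190))))))) (XT.nd (nat_lit 936) (nat_lit 0) (nat_lit 0) (XT.nd (nat_lit 468) (nat_lit 0) (nat_lit 0) (XT.nd (nat_lit 234) (nat_lit 0) (nat_lit 0) (XT.nd (nat_lit 78) (nat_lit 0) (nat_lit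 0) (XT.lf (nat_lit 0) (nat_lit 3563154351) (nat_lit 76) (nat_lit 72016578351) (nat_lit 76) (nat_lit 64130228230) (nat_lit 1) (nat_lit 4) (nat_lit 2) (nat_lit 5) (nat_lit 2) (nat_lit 4) (nat_lit 300) (nat_lit 231) (nat_lit 189)) (XT.nd (nat_lit 78) (nat_lit 0) (nat_lit 0) (XT.lf (nat_lit 0) (nat_lit 9519248499) (nat_lit 76) (nat_lit 74513809230) (nat_lit 76) (nat_lit 66603458019) (nat_lit 1) (nat_lit 4) (nat_lit 2) (nat_lit 5) (nat_lit 2) (nat_lit 4) (nat_lit 301) (nat_lit 231) (nat_lit 188)) (XT.lf (nat_lit 0) (nat_lit 15922157507) (nat_lit 76) (nat_lit 77224460615) (nat_lit 76) (nat_lit 69291886173) (nat_lit 1) (nat_lit 4) (nat_lit 2) (nat_lit 5) (nat_lit 2) (nat_lit 4) (nat_lit 302) (nat_lit 231) (nat_lit 187)))) (XT.nd (nat_lit 78) (nat_lit 0) (nat_lit 0) (XT.lf (nat_lit 0) (nat_lit 22809824539) (nat_lit 76) (nat_lit 80164595625) (nat_lit 76) (nat_lit 72211444117) (nat_lit 1) (nat_lit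 4) (nat_lit 2) (nat_lit 5) (nat_lit 2) (nat_lit 4) (nat_lit 303) (nat_lit 231) (nat_lit 186)) (XT.nd (nat_lit 78) (nat_lit 0) (nat_lit 0) (XT.lf (nat_lit 0) (nat_lit 30223065400) (nat_lit 76) (nat_lit 83351637283) (nat_lit 76) (nat_lit 75379432937) (nat_lit 1) (nat_lit 4) (nat_lit 2) (nat_lit 5) (nat_lit 2) (nat_lit 4) (nat_lit 304) (nat_lit 231) (nat_lit 185)) (XT.lf (nat_lit 0) (nat_lit 38205810405) (nat_lit 76) (nat_lit 86804471762) (nat_lit 76) (nat_lit 78814625898) (nat_lit 1) (nat_lit 4) (nat_lit 2) (nat_lit 5) (nat_lit 2) (nat_lit 4) (nat_lit 305) (nat_lit 231) (nat_lit 184))))) (XT.nd (nat_lit 234) (nat_lit 0) (nat_lit 0) (XT.nd (nat_lit 78) (nat_lit 0) (nat_lit 0) (XT.lf (nat_lit 0) (nat_lit 46805364711) (nat_lit 76) (nat_lit 90543560302) (nat_lit 76) (nat_lit 82537379701) (nat_lit 1) (nat_lit 4) (nat_lit 2) (nat_lit 5) (nat_lit 2) (nat_lit 4) (nat_lit 306) (nat_lit 231) (nat_lit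 183)) (XT.nd (nat_lit 78) (nat_lit 0) (nat_lit 0) (XT.lf (nat_lit 0) (nat_lit 56072688639) (nat_lit 76) (nat_lit 94591060467) (nat_lit 76) (nat_lit 86569755107) (nat_lit 1) (nat_lit 4) (nat_lit 2) (nat_lit 5) (nat_lit 2) (nat_lit 4) (nat_lit 307) (nat_lit 231) (nat_lit 182)) (XT.lf (nat_lit 0) (nat_lit 66062699665) (nat_lit 76) (nat_lit 98970957441) (nat_lit 76) (nat_lit 90935647676) (nat_lit 1) (nat_lit 4) (nat_lit 2) (nat_lit 5) (nat_lit 2) (nat_lit 4) (nat_lit 308) (nat_lit 231) (nat_lit 181)))) (XT.nd (nat_lit 78) (nat_lit 0) (nat_lit 0) (XT.lf (nat_lit 0) (nat_lit 76834597853) (nat_lit 76) (nat_lit 103709206170) (nat_lit 76) (nat_lit 95660929363) (nat_lit 1) (nat_lit 4) (nat_lit 2) (nat_lit 5) (nat_lit 2) (nat_lit 4) (nat_lit 309) (nat_lit 231) (nat_lit 180)) (XT.nd (nat_lit 78) (nat_lit 0) (nat_lit 0) (XT.lf (nat_lit 0) (nat_lit 88452216674) (nat_lit 76) (nat_lit 108833885165)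 (nat_lit 76) (nat_lit 100773601838) (nat_lit 1) (nat_lit 4) (nat_lit 2) (nat_lit 5) (nat_lit 2) (nat_lit 4) (nat_lit 310) (nat_lit 231) (nat_lit 179)) (XT.lf (nat_lit 0) (nat_lit 100984401278) (nat_lit 76) (nat_lit 114375362894) (nat_lit 76) (nat_lit 106303962419) (nat_lit 1) (nat_lit 4) (nat_lit 2) (nat_lit 5) (nat_lit 2) (nat_lit 4) (nat_lit 311) (nat_lit 231) (nat_lit 178)))))) (XT.nd (nat_lit 468) (nat_lit 0) (nat_lit 0) (XT.nd (nat_lit 234) (nat_lit 0) (nat_lit 0) (XT.nd (nat_lit 78) (nat_lit 0) (nat_lit 0) (XT.lf (nat_lit 0) (nat_lit 114505416461) (nat_lit 76) (nat_lit 120366477743) (nat_lit 76) (nat_lit 112284783612) (nat_lit 1) (nat_lit 4) (nat_lit 2) (nat_lit 5) (nat_lit 2) (nat_lit 4) (nat_lit 312) (nat_lit 231) (nat_lit 177)) (XT.nd (nat_lit 78) (nat_lit 0) (nat_lit 0) (XT.lf (nat_lit 0) (nat_lit 129095386758) (nat_lit 76) (nat_lit 126842732616) (nat_lit 76) (nat_lit 118751507322)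 (nat_lit 1) (nat_lit 4) (nat_lit 2) (nat_lit 5) (nat_lit 2) (nat_lit 4) (nat_lit 313) (nat_lit 231) (nat_lit 176)) (XT.lf (nat_lit 0) (nat_lit 144840771253) (nat_lit 76) (nat_lit 133842505318) (nat_lit 76) (nat_lit 125742454874) (nat_lit 1) (nat_lit 4) (nat_lit 2) (nat_lit 5) (nat_lit 2) (nat_lit 4) (nat_lit 314) (nat_lit 231) (nat_lit 175)))) (XT.nd (nat_lit 78) (nat_lit 0) (nat_lit 0) (XT.lf (nat_lit 0) (nat_lit 161834875927) (nat_lit 76) (nat_lit 141407275985) (nat_lit 76) (nat_lit 133299054105) (nat_lit 1) (nat_lit 4) (nat_lit 2) (nat_lit 5) (nat_lit 2) (nat_lit 4) (nat_lit 315) (nat_lit 231) (nat_lit 174)) (XT.nd (nat_lit 78) (nat_lit 0) (nat_lit 0) (XT.lf (nat_lit 0) (nat_lit 180178406586) (nat_lit 76) (nat_lit 149581872888) (nat_lit 76) (nat_lit 141466084863) (nat_lit 1) (nat_lit 4) (nat_lit 2) (nat_lit 5) (nat_lit 2) (nat_lit 4) (nat_lit 316) (nat_lit 231) (nat_lit 173)) (XT.lf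 (nat_lit 0) (nat_lit 199980065634) (nat_lit 76) (nat_lit 158414738081) (nat_lit 76) (nat_lit 150291944367) (nat_lit 1) (nat_lit 4) (nat_lit 2) (nat_lit 5) (nat_lit 2) (nat_lit 4) (nat_lit 317) (nat_lit 231) (nat_lit 172))))) (XT.nd (nat_lit 234) (nat_lit 0) (nat_lit 0) (XT.nd (nat_lit 78) (nat_lit 0) (nat_lit 0) (XT.lf (nat_lit 0) (nat_lit 221357196236) (nat_lit 76) (nat_lit 167958214470) (nat_lit 76) (nat_lit 159828934006) (nat_lit 1) (nat_lit 4) (nat_lit 2) (nat_lit 5) (nat_lit 2) (nat_lit 4) (nat_lit 318) (nat_lit 231) (nat_lit 171)) (XT.nd (nat_lit 78) (nat_lit 0) (nat_lit 0) (XT.lf (nat_lit 0) (nat_lit 244436477684) (nat_lit 76) (nat_lit 178268855988) (nat_lit 76) (nat_lit 170133569275) (nat_lit 1) (nat_lit 4) (nat_lit 2) (nat_lit 5) (nat_lit 2) (nat_lit 4) (nat_lit 319) (nat_lit 231) (nat_lit 170)) (XT.lf (nat_lit 0) (nat_lit 269354676090) (nat_lit 76) (nat_lit 189407762735)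 (nat_lit 76) (nat_lit 181266914680) (nat_lit 1) (nat_lit 4) (nat_lit 2) (nat_lit 5) (nat_lit 2) (nat_lit 4) (nat_lit 320) (nat_lit 231) (nat_lit 169)))) (XT.nd (nat_lit 156) (nat_lit 0) (nat_lit 0) (XT.nd (nat_lit 78) (nat_lit 0) (nat_lit 0) (XT.lf (nat_lit 0) (nat_lit 296259454852) (nat_lit 76) (nat_lit 201440943045) (nat_lit 76) (nat_lit 193294945599) (nat_lit 1) (nat_lit 4) (nat_lit 2) (nat_lit 5) (nat_lit 2) (nat_lit 4) (nat_lit 321) (nat_lit 231) (nat_lit 168)) (XT.lf (nat_lit 0) (nat_lit 325310249697) (nat_lit 76) (nat_lit 214439704655) (nat_lit 76) (nat_lit 206288939255) (nat_lit 1) (nat_lit 4) (nat_lit 2) (nat_lit 5) (nat_lit 2) (nat_lit 4) (nat_lit 322) (nat_lit 231) (nat_lit 167))) (XT.nd (nat_lit 78) (nat_lit 0) (nat_lit 0) (XT.lf (nat_lit 0) (nat_lit 356679213482) (nat_lit 76) (nat_lit 228481077262) (nat_lit 76) (nat_lit 220325897089) (nat_lit 1) (nat_lit 4) (nat_lit 2)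 (nat_lit 5) (nat_lit 2) (nat_lit 4) (nat_lit 323) (nat_lit 231) (nat_lit 166)) (XT.lf (nat_lit 0) (nat_lit 390552236364) (nat_lit 76) (nat_lit 243648269000) (nat_lit 76) (nat_lit 235489001075) (nat_lit 1) (nat_lit 4) (nat_lit 2) (nat_lit 5) (nat_lit 2) (nat_lit 4) (nat_lit 324) (nat_lit 231) (nat_lit 165))))))))
noncomputable def xc35 : XT := (XT.nd (nat_lit 32916) (nat_lit 0) (nat_lit 76) (XT.nd (nat_lit 936) (nat_lit 0) (nat_lit 0) (XT.nd (nat_lit 468) (nat_lit 0) (nat_lit 0) (XT.nd (nat_lit 234) (nat_lit 0) (nat_lit 0) (XT.nd (nat_lit 78) (nat_lit 0) (nat_lit 0) (XT.lf (nat_lit 0) (nat_lit 427130047367) (nat_lit 76) (nat_lit 260031159526) (nat_lit 76) (nat_lit 251868106645) (nat_lit 1) (nat_lit 4) (nat_lit 2) (nat_lit 5) (nat_lit 2) (nat_lit 4) (nat_lit 325) (nat_lit 231) (nat_lit 164)) (XT.nd (nat_lit 78) (nat_lit 0) (nat_lit 0) (XT.lf (nat_lit 0) (nat_lit 466629403889) (nat_lit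 76) (nat_lit 277726832633) (nat_lit 76) (nat_lit 269560275163) (nat_lit 1) (nat_lit 4) (nat_lit 2) (nat_lit 5) (nat_lit 2) (nat_lit 4) (nat_lit 326) (nat_lit 231) (nat_lit 163)) (XT.lf (nat_lit 0) (nat_lit 509284376192) (nat_lit 76) (nat_lit 296840151570) (nat_lit 76) (nat_lit 288670349110) (nat_lit 1) (nat_lit 4) (nat_lit 2) (nat_lit 5) (nat_lit 2) (nat_lit 4) (nat_lit 327) (nat_lit 231) (nat_lit 162)))) (XT.nd (nat_lit 78) (nat_lit 0) (nat_lit 0) (XT.lf (nat_lit 0) (nat_lit 555347734481) (nat_lit 76) (nat_lit 317484380449) (nat_lit 76) (nat_lit 309311573370) (nat_lit 1) (nat_lit 4) (nat_lit 2) (nat_lit 5) (nat_lit 2) (nat_lit 4) (nat_lit 328) (nat_lit 231) (nat_lit 161)) (XT.nd (nat_lit 78) (nat_lit 0) (nat_lit 0) (XT.lf (nat_lit 0) (nat_lit 605092446805) (nat_lit 76) (nat_lit 339781855442) (nat_lit 76) (nat_lit 331606266307) (nat_lit 1) (nat_lit 4) (nat_lit 2) (nat_lit 5) (nat_lit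 2) (nat_lit 4) (nat_lit 329) (nat_lit 231) (nat_lit 160)) (XT.lf (nat_lit 0) (nat_lit 658813296646) (nat_lit 76) (nat_lit 363864709734) (nat_lit 76) (nat_lit 355686544621) (nat_lit 1) (nat_lit 4) (nat_lit 2) (nat_lit 5) (nat_lit 2) (nat_lit 4) (nat_lit 330) (nat_lit 231) (nat_lit 159))))) (XT.nd (nat_lit 234) (nat_lit 0) (nat_lit 0) (XT.nd (nat_lit 78) (nat_lit 0) (nat_lit 0) (XT.lf (nat_lit 0) (nat_lit 716828629780) (nat_lit 76) (nat_lit 389875656534) (nat_lit 76) (nat_lit 381695106258) (nat_lit 1) (nat_lit 4) (nat_lit 2) (nat_lit 5) (nat_lit 2) (nat_lit 4) (nat_lit 331) (nat_lit 231) (nat_lit 158)) (XT.nd (nat_lit 78) (nat_lit 0) (nat_lit 0) (XT.lf (nat_lit 0) (nat_lit 779482240773) (nat_lit 76) (nat_lit 417968834788) (nat_lit 76) (nat_lit 409786076026) (nat_lit 1) (nat_lit 4) (nat_lit 2) (nat_lit 5) (nat_lit 2) (nat_lit 4) (nat_lit 332) (nat_lit 231) (nat_lit 157)) (XT.lf (nat_lit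 0) (nat_lit 847145410284) (nat_lit 76) (nat_lit 448310722588) (nat_lit 76) (nat_lit 440125918932) (nat_lit 1) (nat_lit 4) (nat_lit 2) (nat_lit 5) (nat_lit 2) (nat_lit 4) (nat_lit 333) (nat_lit 231) (nat_lit 156)))) (XT.nd (nat_lit 78) (nat_lit 0) (nat_lit 0) (XT.lf (nat_lit 0) (nat_lit 920219105243) (nat_lit 76) (nat_lit 481081123715) (nat_lit 76) (nat_lit 472894426639) (nat_lit 1) (nat_lit 4) (nat_lit 2) (nat_lit 5) (nat_lit 2) (nat_lit 4) (nat_lit 334) (nat_lit 231) (nat_lit 155)) (XT.nd (nat_lit 78) (nat_lit 0) (nat_lit 0) (XT.lf (nat_lit 0) (nat_lit 999136354953) (nat_lit 76) (nat_lit 516474233137) (nat_lit 76) (nat_lit 508285782894) (nat_lit 1) (nat_lit 4) (nat_lit 2) (nat_lit 5) (nat_lit 2) (nat_lit 4) (nat_lit 335) (nat_lit 231) (nat_lit 154)) (XT.lf (nat_lit 0) (nat_lit 1084364817190) (nat_lit 76) (nat_lit 554699787800) (nat_lit 76) (nat_lit 546509714254) (nat_lit 1) (nat_lit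 4) (nat_lit 2) (nat_lit 5) (nat_lit 2) (nat_lit 4) (nat_lit 336) (nat_lit 231) (nat_lit 153)))))) (XT.nd (nat_lit 31434) (nat_lit 0) (nat_lit 836) (XT.nd (nat_lit 31200) (nat_lit 0) (nat_lit 1444) (XT.nd (nat_lit 78) (nat_lit 0) (nat_lit 0) (XT.lf (nat_lit 0) (nat_lit 1176409549509) (nat_lit 76) (nat_lit 595984309508) (nat_lit 76) (nat_lit 587792732904) (nat_lit 1) (nat_lit 4) (nat_lit 2) (nat_lit 5) (nat_lit 2) (nat_lit 4) (nat_lit 337) (nat_lit 231) (nat_lit 152)) (XT.nd (nat_lit 78) (nat_lit 0) (nat_lit 0) (XT.lf (nat_lit 0) (nat_lit 1275816002175) (nat_lit 76) (nat_lit 640572447280) (nat_lit 76) (nat_lit 632379478956) (nat_lit 1) (nat_lit 4) (nat_lit 2) (nat_lit 5) (nat_lit 2) (nat_lit 4) (nat_lit 338) (nat_lit 231) (nat_lit 151)) (XT.lf (nat_lit 0) (nat_lit 1383173250463) (nat_lit 76) (nat_lit 688728427117) (nat_lit 76) (nat_lit 680534170163) (nat_lit 1) (nat_lit 4) (nat_lit 2)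 (nat_lit 5) (nat_lit 2) (nat_lit 4) (nat_lit 339) (nat_lit 231) (nat_lit 150)))) (XT.nd (nat_lit 78) (nat_lit 228) (nat_lit 0) (XT.lf (nat_lit 0) (nat_lit 1432640584) (nat_lit 228) (nat_lit 1447833409) (nat_lit 228) (nat_lit 1447833409) (nat_lit 23) (nat_lit 4) (nat_lit 26) (nat_lit 5) (nat_lit 26) (nat_lit 4) (nat_lit 256) (nat_lit 232) (nat_lit 232)) (XT.nd (nat_lit 78) (nat_lit 152) (nat_lit 0) (XT.lf (nat_lit 0) (nat_lit 365619804) (nat_lit 304) (nat_lit 281816176) (nat_lit 76) (nat_lit 8335240954) (nat_lit 22) (nat_lit 5) (nat_lit 26) (nat_lit 5) (nat_lit 23) (nat_lit 4) (nat_lit 257) (nat_lit 232) (nat_lit 231)) (XT.lf (nat_lit 0) (nat_lit 3697453491) (nat_lit 228) (nat_lit 3796401105) (nat_lit 0) (nat_lit 1838747069) (nat_lit 20) (nat_lit 5) (nat_lit 23) (nat_lit 4) (nat_lit 20) (nat_lit 4) (nat_lit 258) (nat_lit 232) (nat_lit 230))))) (XT.nd (nat_lit 234) (nat_lit 304) (nat_lit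 0) (XT.nd (nat_lit 78) (nat_lit 152) (nat_lit 0) (XT.lf (nat_lit 0) (nat_lit 1909618801) (nat_lit 152) (nat_lit 5249481793) (nat_lit 152) (nat_lit 2563359763) (nat_lit 18) (nat_lit 4) (nat_lit 20) (nat_lit 5) (nat_lit 20) (nat_lit 4) (nat_lit 259) (nat_lit 232) (nat_lit 229)) (XT.nd (nat_lit 78) (nat_lit 76) (nat_lit 0) (XT.lf (nat_lit 0) (nat_lit 617966176) (nat_lit 228) (nat_lit 2166877945) (nat_lit 76) (nat_lit 7365949376) (nat_lit 17) (nat_lit 5) (nat_lit 20) (nat_lit 5) (nat_lit 18) (nat_lit 4) (nat_lit 260) (nat_lit 232) (nat_lit 228)) (XT.lf (nat_lit 0) (nat_lit 3776363907) (nat_lit 76) (nat_lit 39976006) (nat_lit 152) (nat_lit 6800439418) (nat_lit 16) (nat_lit 5) (nat_lit 17) (nat_lit 5) (nat_lit 18) (nat_lit 4) (nat_lit 261) (nat_lit 232) (nat_lit 227)))) (XT.nd (nat_lit 156) (nat_lit 152) (nat_lit 0) (XT.nd (nat_lit 78) (nat_lit 152) (nat_lit 0) (XT.lf (nat_lit 0) (nat_lit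 7217378085) (nat_lit 152) (nat_lit 1151810209) (nat_lit 0) (nat_lit 2755848177) (nat_lit 16) (nat_lit 5) (nat_lit 18) (nat_lit 4) (nat_lit 16) (nat_lit 4) (nat_lit 262) (nat_lit 232) (nat_lit 226)) (XT.lf (nat_lit 0) (nat_lit 4977886398) (nat_lit 152) (nat_lit 5862698735) (nat_lit 152) (nat_lit 838043667) (nat_lit 14) (nat_lit 4) (nat_lit 16) (nat_lit 5) (nat_lit 16) (nat_lit 4) (nat_lit 263) (nat_lit 232) (nat_lit 225))) (XT.nd (nat_lit 78) (nat_lit 76) (nat_lit 0) (XT.lf (nat_lit 0) (nat_lit 2216501117) (nat_lit 228) (nat_lit 935744927) (nat_lit 76) (nat_lit 9131018513) (nat_lit 13) (nat_lit 5) (nat_lit 16) (nat_lit 5) (nat_lit 14) (nat_lit 4) (nat_lit 264) (nat_lit 232) (nat_lit 224)) (XT.lf (nat_lit 0) (nat_lit 5288003295) (nat_lit 76) (nat_lit 152794593) (nat_lit 152) (nat_lit 7496619720) (nat_lit 12) (nat_lit 5) (nat_lit 13) (nat_lit 5) (nat_lit 14) (nat_lit 4) (nat_lit 265)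 (nat_lit 232) (nat_lit 223))))))) (XT.nd (nat_lit 936) (nat_lit 228) (nat_lit 0) (XT.nd (nat_lit 468) (nat_lit 228) (nat_lit 0) (XT.nd (nat_lit 234) (nat_lit 76) (nat_lit 0) (XT.nd (nat_lit 78) (nat_lit 228) (nat_lit 0) (XT.lf (nat_lit 0) (nat_lit 8870729959) (nat_lit 152) (nat_lit 1903316738) (nat_lit 0) (nat_lit 2874541792) (nat_lit 12) (nat_lit 5) (nat_lit 14) (nat_lit 4) (nat_lit 12) (nat_lit 4) (nat_lit 266) (nat_lit 232) (nat_lit 222)) (XT.nd (nat_lit 78) (nat_lit 76) (nat_lit 0) (XT.lf (nat_lit 0) (nat_lit 4281735063) (nat_lit 152) (nat_lit 8258792882) (nat_lit 152) (nat_lit 1879351193) (nat_lit 10) (nat_lit 4) (nat_lit 12) (nat_lit 5) (nat_lit 12) (nat_lit 4) (nat_lit 267) (nat_lit 232) (nat_lit 221)) (XT.lf (nat_lit 0) (nat_lit 1101488005) (nat_lit 228) (nat_lit 4443211008) (nat_lit 76) (nat_lit 9713122012) (nat_lit 9) (nat_lit 5) (nat_lit 12) (nat_lit 5) (nat_lit 10) (nat_lit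 4) (nat_lit 268) (nat_lit 232) (nat_lit 220)))) (XT.nd (nat_lit 78) (nat_lit 0) (nat_lit 0) (XT.lf (nat_lit 0) (nat_lit 1518835956) (nat_lit 76) (nat_lit 2606991033) (nat_lit 152) (nat_lit 12040909000) (nat_lit 8) (nat_lit 5) (nat_lit 9) (nat_lit 5) (nat_lit 10) (nat_lit 4) (nat_lit 269) (nat_lit 232) (nat_lit 219)) (XT.nd (nat_lit 78) (nat_lit 0) (nat_lit 0) (XT.lf (nat_lit 0) (nat_lit 7402930595) (nat_lit 152) (nat_lit 9163388827) (nat_lit 0) (nat_lit 581520239) (nat_lit 8) (nat_lit 5) (nat_lit 10) (nat_lit 4) (nat_lit 8) (nat_lit 4) (nat_lit 270) (nat_lit 232) (nat_lit 218)) (XT.lf (nat_lit 0) (nat_lit 10891926610) (nat_lit 152) (nat_lit 3510162400) (nat_lit 0) (nat_lit 3809680347) (nat_lit 8) (nat_lit 5) (nat_lit 10) (nat_lit 4) (nat_lit 8) (nat_lit 4) (nat_lit 271) (nat_lit 232) (nat_lit 217))))) (XT.nd (nat_lit 234) (nat_lit 76) (nat_lit 0) (XT.nd (nat_lit 78) (nat_lit 76) (nat_lit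 0) (XT.lf (nat_lit 0) (nat_lit 2534777899) (nat_lit 76) (nat_lit 12076975937) (nat_lit 76) (nat_lit 4753214945) (nat_lit 7) (nat_lit 4) (nat_lit 8) (nat_lit 5) (nat_lit 8) (nat_lit 4) (nat_lit 272) (nat_lit 232) (nat_lit 216)) (XT.nd (nat_lit 78) (nat_lit 76) (nat_lit 0) (XT.lf (nat_lit 0) (nat_lit 9080338261) (nat_lit 76) (nat_lit 9539254127) (nat_lit 76) (nat_lit 1991868387) (nat_lit 7) (nat_lit 4) (nat_lit 8) (nat_lit 5) (nat_lit 8) (nat_lit 4) (nat_lit 273) (nat_lit 232) (nat_lit 215)) (XT.lf (nat_lit 0) (nat_lit 840335808) (nat_lit 152) (nat_lit 6006547212) (nat_lit 76) (nat_lit 15117156181) (nat_lit 6) (nat_lit 5) (nat_lit 8) (nat_lit 5) (nat_lit 7) (nat_lit 4) (nat_lit 274) (nat_lit 232) (nat_lit 214)))) (XT.nd (nat_lit 78) (nat_lit 76) (nat_lit 0) (XT.lf (nat_lit 0) (nat_lit 3698441695) (nat_lit 152) (nat_lit 253409144) (nat_lit 76) (nat_lit 19476493907) (nat_lit 6) (nat_lit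 5) (nat_lit 8) (nat_lit 5) (nat_lit 7) (nat_lit 4) (nat_lit 275) (nat_lit 232) (nat_lit 213)) (XT.nd (nat_lit 78) (nat_lit 0) (nat_lit 0) (XT.lf (nat_lit 0) (nat_lit 6116248355) (nat_lit 76) (nat_lit 729875087) (nat_lit 152) (nat_lit 18158996020) (nat_lit 5) (nat_lit 5) (nat_lit 6) (nat_lit 5) (nat_lit 7) (nat_lit 4) (nat_lit 276) (nat_lit 232) (nat_lit 212)) (XT.lf (nat_lit 0) (nat_lit 10234062212) (nat_lit 152) (nat_lit 13915149475) (nat_lit 0) (nat_lit 2559933255) (nat_lit 5) (nat_lit 5) (nat_lit 7) (nat_lit 4) (nat_lit 5) (nat_lit 4) (nat_lit 277) (nat_lit 232) (nat_lit 211)))))) (XT.nd (nat_lit 468) (nat_lit 152) (nat_lit 0) (XT.nd (nat_lit 234) (nat_lit 0) (nat_lit 0) (XT.nd (nat_lit 78) (nat_lit 76) (nat_lit 0) (XT.lf (nat_lit 0) (nat_lit 13833475073) (nat_lit 152) (nat_lit 8702528215) (nat_lit 0) (nat_lit 6018424592) (nat_lit 5) (nat_lit 5) (nat_lit 7) (nat_lit 4) (nat_lit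 5) (nat_lit 4) (nat_lit 278) (nat_lit 232) (nat_lit 210)) (XT.nd (nat_lit 78) (nat_lit 76) (nat_lit 0) (XT.lf (nat_lit 0) (nat_lit 17648138368) (nat_lit 152) (nat_lit 3202564209) (nat_lit 0) (nat_lit 9702604994) (nat_lit 5) (nat_lit 5) (nat_lit 7) (nat_lit 4) (nat_lit 5) (nat_lit 4) (nat_lit 279) (nat_lit 232) (nat_lit 209)) (XT.lf (nat_lit 0) (nat_lit 2755159143) (nat_lit 76) (nat_lit 19011760009) (nat_lit 76) (nat_lit 10945409141) (nat_lit 4) (nat_lit 4) (nat_lit 5) (nat_lit 5) (nat_lit 5) (nat_lit 4) (nat_lit 280) (nat_lit 232) (nat_lit 208)))) (XT.nd (nat_lit 78) (nat_lit 0) (nat_lit 0) (XT.lf (nat_lit 0) (nat_lit 9254610578) (nat_lit 76) (nat_lit 16983010451) (nat_lit 76) (nat_lit 8804791534) (nat_lit 4) (nat_lit 4) (nat_lit 5) (nat_lit 5) (nat_lit 5) (nat_lit 4) (nat_lit 281) (nat_lit 232) (nat_lit 207)) (XT.nd (nat_lit 78) (nat_lit 0) (nat_lit 0) (XT.lf (nat_lit 0) (nat_lit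 16165664007) (nat_lit 76) (nat_lit 14839995466) (nat_lit 76) (nat_lit 6558195021) (nat_lit 4) (nat_lit 4) (nat_lit 5) (nat_lit 5) (nat_lit 5) (nat_lit 4) (nat_lit 282) (nat_lit 232) (nat_lit 206)) (XT.lf (nat_lit 0) (nat_lit 23529273822) (nat_lit 76) (nat_lit 12570015704) (nat_lit 76) (nat_lit 4192306438) (nat_lit 4) (nat_lit 4) (nat_lit 5) (nat_lit 5) (nat_lit 5) (nat_lit 4) (nat_lit 283) (nat_lit 232) (nat_lit 205))))) (XT.nd (nat_lit 234) (nat_lit 76) (nat_lit 0) (XT.nd (nat_lit 78) (nat_lit 76) (nat_lit 0) (XT.lf (nat_lit 0) (nat_lit 31389076229) (nat_lit 76) (nat_lit 10159619434) (nat_lit 76) (nat_lit 1693105704) (nat_lit 4) (nat_lit 4) (nat_lit 5) (nat_lit 5) (nat_lit 5) (nat_lit 4) (nat_lit 284) (nat_lit 232) (nat_lit 204)) (XT.nd (nat_lit 78) (nat_lit 0) (nat_lit 0) (XT.lf (nat_lit 0) (nat_lit 906483447) (nat_lit 152) (nat_lit 6663254516) (nat_lit 76) (nat_lit 38860379522)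 (nat_lit 3) (nat_lit 5) (nat_lit 5) (nat_lit 5) (nat_lit 4) (nat_lit 4) (nat_lit 285) (nat_lit 232) (nat_lit 203)) (XT.lf (nat_lit 0) (nat_lit 3576992220) (nat_lit 152) (nat_lit 1184731782) (nat_lit 76) (nat_lit 45111988127) (nat_lit 3) (nat_lit 5) (nat_lit 5) (nat_lit 5) (nat_lit 4) (nat_lit 4) (nat_lit 286) (nat_lit 232) (nat_lit 202)))) (XT.nd (nat_lit 156) (nat_lit 0) (nat_lit 0) (XT.nd (nat_lit 78) (nat_lit 0) (nat_lit 0) (XT.lf (nat_lit 0) (nat_lit 4901205776) (nat_lit 76) (nat_lit 1635610197) (nat_lit 152) (nat_lit 47050003424) (nat_lit 2) (nat_lit 5) (nat_lit 3) (nat_lit 5) (nat_lit 4) (nat_lit 4) (nat_lit 287) (nat_lit 232) (nat_lit 201)) (XT.lf (nat_lit 0) (nat_lit 9766864459) (nat_lit 152) (nat_lit 46172353050) (nat_lit 0) (nat_lit 1655155773) (nat_lit 2) (nat_lit 5) (nat_lit 4) (nat_lit 4) (nat_lit 2) (nat_lit 4) (nat_lit 288) (nat_lit 232) (nat_lit 200))) (XT.nd (nat_lit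 78) (nat_lit 0) (nat_lit 0) (XT.lf (nat_lit 0) (nat_lit 13259229374) (nat_lit 152) (nat_lit 43571498011) (nat_lit 0) (nat_lit 5091558811) (nat_lit 2) (nat_lit 5) (nat_lit 4) (nat_lit 4) (nat_lit 2) (nat_lit 4) (nat_lit 289) (nat_lit 232) (nat_lit 199)) (XT.lf (nat_lit 0) (nat_lit 16995269749) (nat_lit 152) (nat_lit 40828299568) (nat_lit 0) (nat_lit 8775782634) (nat_lit 2) (nat_lit 5) (nat_lit 4) (nat_lit 4) (nat_lit 2) (nat_lit 4) (nat_lit 290) (nat_lit 232) (nat_lit 198))))))))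
noncomputable def xc36 : XT := (XT.nd (nat_lit 1950) (nat_lit 0) (nat_lit 0) (XT.nd (nat_lit 936) (nat_lit 0) (nat_lit 0) (XT.nd (nat_lit 468) (nat_lit 76) (nat_lit 0) (XT.nd (nat_lit 234) (nat_lit 0) (nat_lit 0) (XT.nd (nat_lit 78) (nat_lit 0) (nat_lit 0) (XT.lf (nat_lit 0) (nat_lit 20997125082) (nat_lit 152) (nat_lit 37926501730) (nat_lit 0) (nat_lit 12729659678) (nat_lit 2) (nat_lit 5) (nat_lit 4) (nat_lit 4) (nat_lit 2) (nat_lit 4) (nat_lit 291) (nat_lit 232) (nat_lit 197)) (XT.nd (nat_lit 78) (nat_lit 0) (nat_lit 0) (XT.lf (nat_lit 0) (nat_lit 25288510072) (nat_lit 152) (nat_lit 34848908656) (nat_lit 0) (nat_lit 16976620326) (nat_lit 2) (nat_lit 5) (nat_lit 4) (nat_lit 4) (nat_lit 2) (nat_lit 4) (nat_lit 292) (nat_lit 232) (nat_lit 196)) (XT.lf (nat_lit 0) (nat_lit 29894855148) (nat_lit 152) (nat_lit 31577282759) (nat_lit 0) (nat_lit 21541831753) (nat_lit 2) (nat_lit 5) (nat_lit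 4) (nat_lit 4) (nat_lit 2) (nat_lit 4) (nat_lit 293) (nat_lit 232) (nat_lit 195)))) (XT.nd (nat_lit 78) (nat_lit 0) (nat_lit 0) (XT.lf (nat_lit 0) (nat_lit 34843457171) (nat_lit 152) (nat_lit 28092236627) (nat_lit 0) (nat_lit 26452347063) (nat_lit 2) (nat_lit 5) (nat_lit 4) (nat_lit 4) (nat_lit 2) (nat_lit 4) (nat_lit 294) (nat_lit 232) (nat_lit 194)) (XT.nd (nat_lit 78) (nat_lit 0) (nat_lit 0) (XT.lf (nat_lit 0) (nat_lit 40163641189) (nat_lit 152) (nat_lit 24373118133) (nat_lit 0) (nat_lit 31737265606) (nat_lit 2) (nat_lit 5) (nat_lit 4) (nat_lit 4) (nat_lit 2) (nat_lit 4) (nat_lit 295) (nat_lit 232) (nat_lit 193)) (XT.lf (nat_lit 0) (nat_lit 45886934218) (nat_lit 152) (nat_lit 20397888057) (nat_lit 0) (nat_lit 37427905418) (nat_lit 2) (nat_lit 5) (nat_lit 4) (nat_lit 4) (nat_lit 2) (nat_lit 4) (nat_lit 296) (nat_lit 232) (nat_lit 192))))) (XT.nd (nat_lit 234) (nat_lit 76) (nat_lit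 0) (XT.nd (nat_lit 78) (nat_lit 0) (nat_lit 0) (XT.lf (nat_lit 0) (nat_lit 52047252069) (nat_lit 152) (nat_lit 16142989480) (nat_lit 0) (nat_lit 43557988809) (nat_lit 2) (nat_lit 5) (nat_lit 4) (nat_lit 4) (nat_lit 2) (nat_lit 4) (nat_lit 297) (nat_lit 232) (nat_lit 191)) (XT.nd (nat_lit 78) (nat_lit 0) (nat_lit 0) (XT.lf (nat_lit 0) (nat_lit 58681100329) (nat_lit 152) (nat_lit 11583208189) (nat_lit 0) (nat_lit 50163842198) (nat_lit 2) (nat_lit 5) (nat_lit 4) (nat_lit 4) (nat_lit 2) (nat_lit 4) (nat_lit 298) (nat_lit 232) (nat_lit 190)) (XT.lf (nat_lit 0) (nat_lit 65827790692) (nat_lit 152) (nat_lit 6691523256) (nat_lit 0) (nat_lit 57284611385) (nat_lit 2) (nat_lit 5) (nat_lit 4) (nat_lit 4) (nat_lit 2) (nat_lit 4) (nat_lit 299) (nat_lit 232) (nat_lit 189)))) (XT.nd (nat_lit 78) (nat_lit 76) (nat_lit 0) (XT.lf (nat_lit 0) (nat_lit 73529673916) (nat_lit 152) (nat_lit 1438946920) (nat_lit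 0) (nat_lit 64962493519) (nat_lit 2) (nat_lit 5) (nat_lit 4) (nat_lit 4) (nat_lit 2) (nat_lit 4) (nat_lit 300) (nat_lit 232) (nat_lit 188)) (XT.nd (nat_lit 78) (nat_lit 0) (nat_lit 0) (XT.lf (nat_lit 0) (nat_lit 4427109124) (nat_lit 76) (nat_lit 77511753746) (nat_lit 76) (nat_lit 68922350117) (nat_lit 1) (nat_lit 4) (nat_lit 2) (nat_lit 5) (nat_lit 2) (nat_lit 4) (nat_lit 301) (nat_lit 232) (nat_lit 187)) (XT.lf (nat_lit 0) (nat_lit 10816809144) (nat_lit 76) (nat_lit 80228477974) (nat_lit 76) (nat_lit 71618497280) (nat_lit 1) (nat_lit 4) (nat_lit 2) (nat_lit 5) (nat_lit 2) (nat_lit 4) (nat_lit 302) (nat_lit 232) (nat_lit 186)))))) (XT.nd (nat_lit 468) (nat_lit 0) (nat_lit 0) (XT.nd (nat_lit 234) (nat_lit 0) (nat_lit 0) (XT.nd (nat_lit 78) (nat_lit 0) (nat_lit 0) (XT.lf (nat_lit 0) (nat_lit 17692245631) (nat_lit 76) (nat_lit 83174235988) (nat_lit 76) (nat_lit 74545202455) (nat_lit 1)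 (nat_lit 4) (nat_lit 2) (nat_lit 5) (nat_lit 2) (nat_lit 4) (nat_lit 303) (nat_lit 232) (nat_lit 185)) (XT.nd (nat_lit 78) (nat_lit 0) (nat_lit 0) (XT.lf (nat_lit 0) (nat_lit 25094161912) (nat_lit 76) (nat_lit 86366484130) (nat_lit 76) (nat_lit 77719809080) (nat_lit 1) (nat_lit 4) (nat_lit 2) (nat_lit 5) (nat_lit 2) (nat_lit 4) (nat_lit 304) (nat_lit 232) (nat_lit 184)) (XT.lf (nat_lit 0) (nat_lit 33066421197) (nat_lit 76) (nat_lit 89824139428) (nat_lit 76) (nat_lit 81161129640) (nat_lit 1) (nat_lit 4) (nat_lit 2) (nat_lit 5) (nat_lit 2) (nat_lit 4) (nat_lit 305) (nat_lit 232) (nat_lit 183)))) (XT.nd (nat_lit 78) (nat_lit 0) (nat_lit 0) (XT.lf (nat_lit 0) (nat_lit 41656266501) (nat_lit 76) (nat_lit 93567691690) (nat_lit 76) (nat_lit 84889557144) (nat_lit 1) (nat_lit 4) (nat_lit 2) (nat_lit 5) (nat_lit 2) (nat_lit 4) (nat_lit 306) (nat_lit 232) (nat_lit 182)) (XT.nd (nat_lit 78) (nat_lit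 0) (nat_lit 0) (XT.lf (nat_lit 0) (nat_lit 50914600614) (nat_lit 76) (nat_lit 97619324930) (nat_lit 76) (nat_lit 88927185979) (nat_lit 1) (nat_lit 4) (nat_lit 2) (nat_lit 5) (nat_lit 2) (nat_lit 4) (nat_lit 307) (nat_lit 232) (nat_lit 181)) (XT.lf (nat_lit 0) (nat_lit 60896287736) (nat_lit 76) (nat_lit 102003048826) (nat_lit 76) (nat_lit 93297942833) (nat_lit 1) (nat_lit 4) (nat_lit 2) (nat_lit 5) (nat_lit 2) (nat_lit 4) (nat_lit 308) (nat_lit 232) (nat_lit 180))))) (XT.nd (nat_lit 234) (nat_lit 0) (nat_lit 0) (XT.nd (nat_lit 78) (nat_lit 0) (nat_lit 0) (XT.lf (nat_lit 0) (nat_lit 71660478606) (nat_lit 76) (nat_lit 106744841001) (nat_lit 76) (nat_lit 98027728487) (nat_lit 1) (nat_lit 4) (nat_lit 2) (nat_lit 5) (nat_lit 2) (nat_lit 4) (nat_lit 309) (nat_lit 232) (nat_lit 179)) (XT.nd (nat_lit 78) (nat_lit 0) (nat_lit 0) (XT.lf (nat_lit 0) (nat_lit 83270961022) (nat_lit 76) (nat_lit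 111872800964) (nat_lit 76) (nat_lit 103144571302) (nat_lit 1) (nat_lit 4) (nat_lit 2) (nat_lit 5) (nat_lit 2) (nat_lit 4) (nat_lit 310) (nat_lit 232) (nat_lit 178)) (XT.lf (nat_lit 0) (nat_lit 95796537842) (nat_lit 76) (nat_lit 117417316627) (nat_lit 76) (nat_lit 108678793309) (nat_lit 1) (nat_lit 4) (nat_lit 2) (nat_lit 5) (nat_lit 2) (nat_lit 4) (nat_lit 311) (nat_lit 232) (nat_lit 177)))) (XT.nd (nat_lit 156) (nat_lit 0) (nat_lit 0) (XT.nd (nat_lit 78) (nat_lit 0) (nat_lit 0) (XT.lf (nat_lit 0) (nat_lit 109311434708) (nat_lit 76) (nat_lit 123411244378) (nat_lit 76) (nat_lit 114663189897) (nat_lit 1) (nat_lit 4) (nat_lit 2) (nat_lit 5) (nat_lit 2) (nat_lit 4) (nat_lit 312) (nat_lit 232) (nat_lit 176)) (XT.lf (nat_lit 0) (nat_lit 123895739896) (nat_lit 76) (nat_lit 129890103789) (nat_lit 76) (nat_lit 121133224158) (nat_lit 1) (nat_lit 4) (nat_lit 2) (nat_lit 5) (nat_lit 2) (nat_lit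 4) (nat_lit 313) (nat_lit 232) (nat_lit 175))) (XT.nd (nat_lit 78) (nat_lit 0) (nat_lit 0) (XT.lf (nat_lit 0) (nat_lit 139635878920) (nat_lit 76) (nat_lit 136892288101) (nat_lit 76) (nat_lit 128127237034) (nat_lit 1) (nat_lit 4) (nat_lit 2) (nat_lit 5) (nat_lit 2) (nat_lit 4) (nat_lit 314) (nat_lit 232) (nat_lit 174)) (XT.lf (nat_lit 0) (nat_lit 156625126676) (nat_lit 76) (nat_lit 144459291740) (nat_lit 76) (nat_lit 135686674529) (nat_lit 1) (nat_lit 4) (nat_lit 2) (nat_lit 5) (nat_lit 2) (nat_lit 4) (nat_lit 315) (nat_lit 232) (nat_lit 173))))))) (XT.nd (nat_lit 936) (nat_lit 0) (nat_lit 0) (XT.nd (nat_lit 468) (nat_lit 0) (nat_lit 0) (XT.nd (nat_lit 234) (nat_lit 0) (nat_lit 0) (XT.nd (nat_lit 78) (nat_lit 0) (nat_lit 0) (XT.lf (nat_lit 0) (nat_lit 174964160189) (nat_lit 76) (nat_lit 152635956209) (nat_lit 76) (nat_lit 143856333308) (nat_lit 1) (nat_lit 4) (nat_lit 2) (nat_lit 5)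 (nat_lit 2) (nat_lit 4) (nat_lit 316) (nat_lit 232) (nat_lit 172)) (XT.nd (nat_lit 78) (nat_lit 0) (nat_lit 0) (XT.lf (nat_lit 0) (nat_lit 194761655213) (nat_lit 76) (nat_lit 161470735816) (nat_lit 76) (nat_lit 152684626166) (nat_lit 1) (nat_lit 4) (nat_lit 2) (nat_lit 5) (nat_lit 2) (nat_lit 4) (nat_lit 317) (nat_lit 232) (nat_lit 171)) (XT.lf (nat_lit 0) (nat_lit 216134930237) (nat_lit 76) (nat_lit 171015984810) (nat_lit 76) (nat_lit 162223868910) (nat_lit 1) (nat_lit 4) (nat_lit 2) (nat_lit 5) (nat_lit 2) (nat_lit 4) (nat_lit 318) (nat_lit 232) (nat_lit 170)))) (XT.nd (nat_lit 78) (nat_lit 0) (nat_lit 0) (XT.lf (nat_lit 0) (nat_lit 239210641705) (nat_lit 76) (nat_lit 181328267630) (nat_lit 76) (nat_lit 172530590388) (nat_lit 1) (nat_lit 4) (nat_lit 2) (nat_lit 5) (nat_lit 2) (nat_lit 4) (nat_lit 319) (nat_lit 232) (nat_lit 169)) (XT.nd (nat_lit 78) (nat_lit 0) (nat_lit 0) (XT.lf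 (nat_lit 0) (nat_lit 264125534574) (nat_lit 76) (nat_lit 192468694099) (nat_lit 76) (nat_lit 183665867467) (nat_lit 1) (nat_lit 4) (nat_lit 2) (nat_lit 5) (nat_lit 2) (nat_lit 4) (nat_lit 320) (nat_lit 232) (nat_lit 168)) (XT.lf (nat_lit 0) (nat_lit 291027252655) (nat_lit 76) (nat_lit 204503281561) (nat_lit 76) (nat_lit 195695686974) (nat_lit 1) (nat_lit 4) (nat_lit 2) (nat_lit 5) (nat_lit 2) (nat_lit 4) (nat_lit 321) (nat_lit 232) (nat_lit 167))))) (XT.nd (nat_lit 234) (nat_lit 0) (nat_lit 0) (XT.nd (nat_lit 78) (nat_lit 0) (nat_lit 0) (XT.lf (nat_lit 0) (nat_lit 320075213535) (nat_lit 76) (nat_lit 217503346088) (nat_lit 76) (nat_lit 208691336729) (nat_lit 1) (nat_lit 4) (nat_lit 2) (nat_lit 5) (nat_lit 2) (nat_lit 4) (nat_lit 322) (nat_lit 232) (nat_lit 166)) (XT.nd (nat_lit 78) (nat_lit 0) (nat_lit 0) (XT.lf (nat_lit 0) (nat_lit 351441553278) (nat_lit 76) (nat_lit 231545925100)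 (nat_lit 76) (nat_lit 222729827989) (nat_lit 1) (nat_lit 4) (nat_lit 2) (nat_lit 5) (nat_lit 2) (nat_lit 4) (nat_lit 323) (nat_lit 232) (nat_lit 165)) (XT.lf (nat_lit 0) (nat_lit 385312146492) (nat_lit 76) (nat_lit 246714233881) (nat_lit 76) (nat_lit 237894351814) (nat_lit 1) (nat_lit 4) (nat_lit 2) (nat_lit 5) (nat_lit 2) (nat_lit 4) (nat_lit 324) (nat_lit 232) (nat_lit 164)))) (XT.nd (nat_lit 78) (nat_lit 0) (nat_lit 0) (XT.lf (nat_lit 0) (nat_lit 421887707802) (nat_lit 76) (nat_lit 263098158704) (nat_lit 76) (nat_lit 254274772048) (nat_lit 1) (nat_lit 4) (nat_lit 2) (nat_lit 5) (nat_lit 2) (nat_lit 4) (nat_lit 325) (nat_lit 232) (nat_lit 163)) (XT.nd (nat_lit 78) (nat_lit 0) (nat_lit 0) (XT.lf (nat_lit 0) (nat_lit 461384981276) (nat_lit 76) (nat_lit 280794789495) (nat_lit 76) (nat_lit 271968157849) (nat_lit 1) (nat_lit 4) (nat_lit 2) (nat_lit 5) (nat_lit 2) (nat_lit 4) (nat_lit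 326) (nat_lit 232) (nat_lit 162)) (XT.lf (nat_lit 0) (nat_lit 504038024829) (nat_lit 76) (nat_lit 299908995176) (nat_lit 76) (nat_lit 291079358910) (nat_lit 1) (nat_lit 4) (nat_lit 2) (nat_lit 5) (nat_lit 2) (nat_lit 4) (nat_lit 327) (nat_lit 232) (nat_lit 161)))))) (XT.nd (nat_lit 468) (nat_lit 0) (nat_lit 0) (XT.nd (nat_lit 234) (nat_lit 0) (nat_lit 0) (XT.nd (nat_lit 78) (nat_lit 0) (nat_lit 0) (XT.lf (nat_lit 0) (nat_lit 550099597240) (nat_lit 76) (nat_lit 320554045114) (nat_lit 76) (nat_lit 311721626793) (nat_lit 1) (nat_lit 4) (nat_lit 2) (nat_lit 5) (nat_lit 2) (nat_lit 4) (nat_lit 328) (nat_lit 232) (nat_lit 160)) (XT.nd (nat_lit 78) (nat_lit 0) (nat_lit 0) (XT.lf (nat_lit 0) (nat_lit 599842655973) (nat_lit 76) (nat_lit 342852280347) (nat_lit 76) (nat_lit 334017286048) (nat_lit 1) (nat_lit 4) (nat_lit 2) (nat_lit 5) (nat_lit 2) (nat_lit 4) (nat_lit 329) (nat_lit 232) (nat_lit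 159)) (XT.lf (nat_lit 0) (nat_lit 653561974711) (nat_lit 76) (nat_lit 366935838564) (nat_lit 76) (nat_lit 358098459101) (nat_lit 1) (nat_lit 4) (nat_lit 2) (nat_lit 5) (nat_lit 2) (nat_lit 4) (nat_lit 330) (nat_lit 232) (nat_lit 158)))) (XT.nd (nat_lit 78) (nat_lit 0) (nat_lit 0) (XT.lf (nat_lit 0) (nat_lit 711575890157) (nat_lit 76) (nat_lit 392947437148) (nat_lit 76) (nat_lit 384107849200) (nat_lit 1) (nat_lit 4) (nat_lit 2) (nat_lit 5) (nat_lit 2) (nat_lit 4) (nat_lit 331) (nat_lit 232) (nat_lit 157)) (XT.nd (nat_lit 78) (nat_lit 0) (nat_lit 0) (XT.lf (nat_lit 0) (nat_lit 774228188476) (nat_lit 76) (nat_lit 421041218905) (nat_lit 76) (nat_lit 412199586063) (nat_lit 1) (nat_lit 4) (nat_lit 2) (nat_lit 5) (nat_lit 2) (nat_lit 4) (nat_lit 332) (nat_lit 232) (nat_lit 156)) (XT.lf (nat_lit 0) (nat_lit 841890142548) (nat_lit 76) (nat_lit 451383665505) (nat_lit 76) (nat_lit 442540139242)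 (nat_lit 1) (nat_lit 4) (nat_lit 2) (nat_lit 5) (nat_lit 2) (nat_lit 4) (nat_lit 333) (nat_lit 232) (nat_lit 155))))) (XT.nd (nat_lit 234) (nat_lit 0) (nat_lit 0) (XT.nd (nat_lit 78) (nat_lit 0) (nat_lit 0) (XT.lf (nat_lit 0) (nat_lit 914962712100) (nat_lit 76) (nat_lit 484154584038) (nat_lit 76) (nat_lit 475309304608) (nat_lit 1) (nat_lit 4) (nat_lit 2) (nat_lit 5) (nat_lit 2) (nat_lit 4) (nat_lit 334) (nat_lit 232) (nat_lit 154)) (XT.nd (nat_lit 78) (nat_lit 0) (nat_lit 0) (XT.lf (nat_lit 0) (nat_lit 993878919767) (nat_lit 76) (nat_lit 519548172540) (nat_lit 76) (nat_lit 510701269808) (nat_lit 1) (nat_lit 4) (nat_lit 2) (nat_lit 5) (nat_lit 2) (nat_lit 4) (nat_lit 335) (nat_lit 232) (nat_lit 153)) (XT.lf (nat_lit 0) (nat_lit 1079106417150) (nat_lit 76) (nat_lit 557774170795) (nat_lit 76) (nat_lit 548925765005) (nat_lit 1) (nat_lit 4) (nat_lit 2) (nat_lit 5) (nat_lit 2) (nat_lit 4)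 (nat_lit 336) (nat_lit 232) (nat_lit 152)))) (XT.nd (nat_lit 156) (nat_lit 0) (nat_lit 0) (XT.nd (nat_lit 78) (nat_lit 0) (nat_lit 0) (XT.lf (nat_lit 0) (nat_lit 1171150256085) (nat_lit 76) (nat_lit 599059103238) (nat_lit 76) (nat_lit 590209305727) (nat_lit 1) (nat_lit 4) (nat_lit 2) (nat_lit 5) (nat_lit 2) (nat_lit 4) (nat_lit 337) (nat_lit 232) (nat_lit 151)) (XT.lf (nat_lit 0) (nat_lit 1270555881543) (nat_lit 76) (nat_lit 643647621319) (nat_lit 76) (nat_lit 634796535178) (nat_lit 1) (nat_lit 4) (nat_lit 2) (nat_lit 5) (nat_lit 2) (nat_lit 4) (nat_lit 338) (nat_lit 232) (nat_lit 150))) (XT.nd (nat_lit 30888) (nat_lit 0) (nat_lit 1900) (XT.lf (nat_lit 0) (nat_lit 1377912363898) (nat_lit 76) (nat_lit 691803953294) (nat_lit 76) (nat_lit 682951673978) (nat_lit 1) (nat_lit 4) (nat_lit 2) (nat_lit 5) (nat_lit 2) (nat_lit 4) (nat_lit 339) (nat_lit 232) (nat_lit 149)) (XT.lf (nat_lit 0)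 (nat_lit 71180540) (nat_lit 228) (nat_lit 3908443651) (nat_lit 0) (nat_lit 71180540) (nat_lit 26) (nat_lit 5) (nat_lit 29) (nat_lit 4) (nat_lit 26) (nat_lit 4) (nat_lit 254) (nat_lit 233) (nat_lit 233))))))))
noncomputable def xc37 : XT := (XT.nd (nat_lit 1950) (nat_lit 304) (nat_lit 0) (XT.nd (nat_lit 936) (nat_lit 532) (nat_lit 0) (XT.nd (nat_lit 468) (nat_lit 380) (nat_lit 0) (XT.nd (nat_lit 234) (nat_lit 380) (nat_lit 0) (XT.nd (nat_lit 78) (nat_lit 304) (nat_lit 0) (XT.lf (nat_lit 0) (nat_lit 3406054252) (nat_lit 228) (nat_lit 2680005177) (nat_lit 0) (nat_lit 2280364452) (nat_lit 26) (nat_lit 5) (nat_lit 29) (nat_lit 4) (nat_lit 26) (nat_lit 4) (nat_lit 255) (nat_lit 233) (nat_lit 232)) (XT.nd (nat_lit 78) (nat_lit 76) (nat_lit 0) (XT.lf (nat_lit 0) (nat_lit 2723094996) (nat_lit 228) (nat_lit 4055386941) (nat_lit 228) (nat_lit 1887391770) (nat_lit 23) (nat_lit 4) (nat_lit 26)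 (nat_lit 5) (nat_lit 26) (nat_lit 4) (nat_lit 256) (nat_lit 233) (nat_lit 231)) (XT.lf (nat_lit 0) (nat_lit 1220177973) (nat_lit 304) (nat_lit 595122551) (nat_lit 76) (nat_lit 7183477616) (nat_lit 22) (nat_lit 5) (nat_lit 26) (nat_lit 5) (nat_lit 23) (nat_lit 4) (nat_lit 257) (nat_lit 233) (nat_lit 230)))) (XT.nd (nat_lit 78) (nat_lit 228) (nat_lit 0) (XT.lf (nat_lit 0) (nat_lit 4416083936) (nat_lit 228) (nat_lit 4256318021) (nat_lit 0) (nat_lit 687656536) (nat_lit 20) (nat_lit 5) (nat_lit 23) (nat_lit 4) (nat_lit 20) (nat_lit 4) (nat_lit 258) (nat_lit 233) (nat_lit 229)) (XT.nd (nat_lit 78) (nat_lit 76) (nat_lit 0) (XT.lf (nat_lit 0) (nat_lit 1287400229) (nat_lit 152) (nat_lit 6483049101) (nat_lit 152) (nat_lit 1988496138) (nat_lit 18) (nat_lit 4) (nat_lit 20) (nat_lit 5) (nat_lit 20) (nat_lit 4) (nat_lit 259) (nat_lit 233) (nat_lit 228)) (XT.lf (nat_lit 0) (nat_lit 1072826683) (nat_lit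 228) (nat_lit 2972448983) (nat_lit 76) (nat_lit 6148578748) (nat_lit 17) (nat_lit 5) (nat_lit 20) (nat_lit 5) (nat_lit 18) (nat_lit 4) (nat_lit 260) (nat_lit 233) (nat_lit 227))))) (XT.nd (nat_lit 234) (nat_lit 152) (nat_lit 0) (XT.nd (nat_lit 78) (nat_lit 152) (nat_lit 0) (XT.lf (nat_lit 0) (nat_lit 2798699204) (nat_lit 76) (nat_lit 1364501216) (nat_lit 152) (nat_lit 6505633675) (nat_lit 16) (nat_lit 5) (nat_lit 17) (nat_lit 5) (nat_lit 18) (nat_lit 4) (nat_lit 261) (nat_lit 233) (nat_lit 226)) (XT.nd (nat_lit 78) (nat_lit 152) (nat_lit 0) (XT.lf (nat_lit 0) (nat_lit 7450330458) (nat_lit 152) (nat_lit 2275623238) (nat_lit 0) (nat_lit 1460577825) (nat_lit 16) (nat_lit 5) (nat_lit 18) (nat_lit 4) (nat_lit 16) (nat_lit 4) (nat_lit 262) (nat_lit 233) (nat_lit 225)) (XT.lf (nat_lit 0) (nat_lit 3672135510) (nat_lit 152) (nat_lit 7294023407) (nat_lit 152) (nat_lit 782858589) (nat_lit 14)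 (nat_lit 4) (nat_lit 16) (nat_lit 5) (nat_lit 16) (nat_lit 4) (nat_lit 263) (nat_lit 233) (nat_lit 224)))) (XT.nd (nat_lit 78) (nat_lit 76) (nat_lit 0) (XT.lf (nat_lit 0) (nat_lit 2193679423) (nat_lit 228) (nat_lit 2431100677) (nat_lit 76) (nat_lit 7735046771) (nat_lit 13) (nat_lit 5) (nat_lit 16) (nat_lit 5) (nat_lit 14) (nat_lit 4) (nat_lit 264) (nat_lit 233) (nat_lit 223)) (XT.nd (nat_lit 78) (nat_lit 0) (nat_lit 0) (XT.lf (nat_lit 0) (nat_lit 3599000337) (nat_lit 76) (nat_lit 1708682894) (nat_lit 152) (nat_lit 7715360949) (nat_lit 12) (nat_lit 5) (nat_lit 13) (nat_lit 5) (nat_lit 14) (nat_lit 4) (nat_lit 265) (nat_lit 233) (nat_lit 222)) (XT.lf (nat_lit 0) (nat_lit 8632180204) (nat_lit 152) (nat_lit 3751562991) (nat_lit 0) (nat_lit 1359129658) (nat_lit 12) (nat_lit 5) (nat_lit 14) (nat_lit 4) (nat_lit 12) (nat_lit 4) (nat_lit 266) (nat_lit 233) (nat_lit 221)))))) (XT.nd (nat_lit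 468) (nat_lit 228) (nat_lit 0) (XT.nd (nat_lit 234) (nat_lit 76) (nat_lit 0) (XT.nd (nat_lit 78) (nat_lit 76) (nat_lit 0) (XT.lf (nat_lit 0) (nat_lit 2227938598) (nat_lit 152) (nat_lit 9961668007) (nat_lit 152) (nat_lit 2333753090) (nat_lit 10) (nat_lit 4) (nat_lit 12) (nat_lit 5) (nat_lit 12) (nat_lit 4) (nat_lit 267) (nat_lit 233) (nat_lit 220)) (XT.nd (nat_lit 78) (nat_lit 0) (nat_lit 0) (XT.lf (nat_lit 0) (nat_lit 607335587) (nat_lit 228) (nat_lit 6693235018) (nat_lit 76) (nat_lit 8066780784) (nat_lit 9) (nat_lit 5) (nat_lit 12) (nat_lit 5) (nat_lit 10) (nat_lit 4) (nat_lit 268) (nat_lit 233) (nat_lit 219)) (XT.lf (nat_lit 0) (nat_lit 3537293247) (nat_lit 228) (nat_lit 903162086) (nat_lit 76) (nat_lit 11843525425) (nat_lit 9) (nat_lit 5) (nat_lit 12) (nat_lit 5) (nat_lit 10) (nat_lit 4) (nat_lit 269) (nat_lit 233) (nat_lit 218)))) (XT.nd (nat_lit 78) (nat_lit 0) (nat_lit 0) (XT.lf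 (nat_lit 0) (nat_lit 5437228235) (nat_lit 76) (nat_lit 1283763618) (nat_lit 152) (nat_lit 10551716736) (nat_lit 8) (nat_lit 5) (nat_lit 9) (nat_lit 5) (nat_lit 10) (nat_lit 4) (nat_lit 270) (nat_lit 233) (nat_lit 217)) (XT.nd (nat_lit 78) (nat_lit 0) (nat_lit 0) (XT.lf (nat_lit 0) (nat_lit 10126589313) (nat_lit 152) (nat_lit 6241448659) (nat_lit 0) (nat_lit 1975412714) (nat_lit 8) (nat_lit 5) (nat_lit 10) (nat_lit 4) (nat_lit 8) (nat_lit 4) (nat_lit 271) (nat_lit 233) (nat_lit 216)) (XT.lf (nat_lit 0) (nat_lit 13736821730) (nat_lit 152) (nat_lit 406705694) (nat_lit 0) (nat_lit 5362020381) (nat_lit 8) (nat_lit 5) (nat_lit 10) (nat_lit 4) (nat_lit 8) (nat_lit 4) (nat_lit 272) (nat_lit 233) (nat_lit 215))))) (XT.nd (nat_lit 234) (nat_lit 76) (nat_lit 0) (XT.nd (nat_lit 78) (nat_lit 76) (nat_lit 0) (XT.lf (nat_lit 0) (nat_lit 6036152115) (nat_lit 76) (nat_lit 11651226014) (nat_lit 76)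 (nat_lit 3069364713) (nat_lit 7) (nat_lit 4) (nat_lit 8) (nat_lit 5) (nat_lit 8) (nat_lit 4) (nat_lit 273) (nat_lit 233) (nat_lit 214)) (XT.nd (nat_lit 78) (nat_lit 76) (nat_lit 0) (XT.lf (nat_lit 0) (nat_lit 12861017159) (nat_lit 76) (nat_lit 9013590756) (nat_lit 76) (nat_lit 240007276) (nat_lit 7) (nat_lit 4) (nat_lit 8) (nat_lit 5) (nat_lit 8) (nat_lit 4) (nat_lit 274) (nat_lit 233) (nat_lit 213)) (XT.lf (nat_lit 0) (nat_lit 2588677568) (nat_lit 152) (nat_lit 3566654671) (nat_lit 76) (nat_lit 17427460079) (nat_lit 6) (nat_lit 5) (nat_lit 8) (nat_lit 5) (nat_lit 7) (nat_lit 4) (nat_lit 275) (nat_lit 233) (nat_lit 212)))) (XT.nd (nat_lit 156) (nat_lit 0) (nat_lit 0) (XT.nd (nat_lit 78) (nat_lit 0) (nat_lit 0) (XT.lf (nat_lit 0) (nat_lit 2558388248) (nat_lit 76) (nat_lit 3054045948) (nat_lit 152) (nat_lit 19557135399) (nat_lit 5) (nat_lit 5) (nat_lit 6) (nat_lit 5) (nat_lit 7) (nat_lit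 4) (nat_lit 276) (nat_lit 233) (nat_lit 211)) (XT.lf (nat_lit 0) (nat_lit 8906727176) (nat_lit 152) (nat_lit 17648890421) (nat_lit 0) (nat_lit 325551132) (nat_lit 5) (nat_lit 5) (nat_lit 7) (nat_lit 4) (nat_lit 5) (nat_lit 4) (nat_lit 277) (nat_lit 233) (nat_lit 210))) (XT.nd (nat_lit 78) (nat_lit 0) (nat_lit 0) (XT.lf (nat_lit 0) (nat_lit 12471186866) (nat_lit 152) (nat_lit 12498609043) (nat_lit 0) (nat_lit 3759527929) (nat_lit 5) (nat_lit 5) (nat_lit 7) (nat_lit 4) (nat_lit 5) (nat_lit 4) (nat_lit 278) (nat_lit 233) (nat_lit 209)) (XT.lf (nat_lit 0) (nat_lit 16253486114) (nat_lit 152) (nat_lit 7056367149) (nat_lit 0) (nat_lit 7421009683) (nat_lit 5) (nat_lit 5) (nat_lit 7) (nat_lit 4) (nat_lit 5) (nat_lit 4) (nat_lit 279) (nat_lit 233) (nat_lit 208))))))) (XT.nd (nat_lit 936) (nat_lit 76) (nat_lit 0) (XT.nd (nat_lit 468) (nat_lit 152) (nat_lit 0) (XT.nd (nat_lit 234) (nat_lit 0)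 (nat_lit 0) (XT.nd (nat_lit 78) (nat_lit 76) (nat_lit 0) (XT.lf (nat_lit 0) (nat_lit 20276038544) (nat_lit 152) (nat_lit 1289914416) (nat_lit 0) (nat_lit 11331694064) (nat_lit 5) (nat_lit 5) (nat_lit 7) (nat_lit 4) (nat_lit 5) (nat_lit 4) (nat_lit 280) (nat_lit 233) (nat_lit 207)) (XT.nd (nat_lit 78) (nat_lit 0) (nat_lit 0) (XT.lf (nat_lit 0) (nat_lit 5089519084) (nat_lit 76) (nat_lit 19595565476) (nat_lit 76) (nat_lit 10547639468) (nat_lit 4) (nat_lit 4) (nat_lit 5) (nat_lit 5) (nat_lit 5) (nat_lit 4) (nat_lit 281) (nat_lit 233) (nat_lit 206)) (XT.lf (nat_lit 0) (nat_lit 11952337951) (nat_lit 76) (nat_lit 17473933386) (nat_lit 76) (nat_lit 8330098556) (nat_lit 4) (nat_lit 4) (nat_lit 5) (nat_lit 5) (nat_lit 5) (nat_lit 4) (nat_lit 282) (nat_lit 233) (nat_lit 205)))) (XT.nd (nat_lit 78) (nat_lit 0) (nat_lit 0) (XT.lf (nat_lit 0) (nat_lit 19271286135) (nat_lit 76) (nat_lit 15223752601)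 (nat_lit 76) (nat_lit 5991113308) (nat_lit 4) (nat_lit 4) (nat_lit 5) (nat_lit 5) (nat_lit 5) (nat_lit 4) (nat_lit 283) (nat_lit 233) (nat_lit 204)) (XT.nd (nat_lit 78) (nat_lit 0) (nat_lit 0) (XT.lf (nat_lit 0) (nat_lit 27089735179) (nat_lit 76) (nat_lit 12831688718) (nat_lit 76) (nat_lit 3516823068) (nat_lit 4) (nat_lit 4) (nat_lit 5) (nat_lit 5) (nat_lit 5) (nat_lit 4) (nat_lit 284) (nat_lit 233) (nat_lit 203)) (XT.lf (nat_lit 0) (nat_lit 35454016633) (nat_lit 76) (nat_lit 10283566543) (nat_lit 76) (nat_lit 892565378) (nat_lit 4) (nat_lit 4) (nat_lit 5) (nat_lit 5) (nat_lit 5) (nat_lit 4) (nat_lit 285) (nat_lit 233) (nat_lit 202))))) (XT.nd (nat_lit 234) (nat_lit 0) (nat_lit 0) (XT.nd (nat_lit 78) (nat_lit 76) (nat_lit 0) (XT.lf (nat_lit 0) (nat_lit 1802304745) (nat_lit 152) (nat_lit 5712703140) (nat_lit 76) (nat_lit 42562113659) (nat_lit 3) (nat_lit 5) (nat_lit 5) (nat_lit 5) (nat_lit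 4) (nat_lit 4) (nat_lit 286) (nat_lit 233) (nat_lit 201)) (XT.nd (nat_lit 78) (nat_lit 0) (nat_lit 0) (XT.lf (nat_lit 0) (nat_lit 99164874) (nat_lit 76) (nat_lit 4528688884) (nat_lit 152) (nat_lit 49173152198) (nat_lit 2) (nat_lit 5) (nat_lit 3) (nat_lit 5) (nat_lit 4) (nat_lit 4) (nat_lit 287) (nat_lit 233) (nat_lit 200)) (XT.lf (nat_lit 0) (nat_lit 6632239225) (nat_lit 76) (nat_lit 1165572791) (nat_lit 152) (nat_lit 50015587601) (nat_lit 2) (nat_lit 5) (nat_lit 3) (nat_lit 5) (nat_lit 4) (nat_lit 4) (nat_lit 288) (nat_lit 233) (nat_lit 199)))) (XT.nd (nat_lit 78) (nat_lit 0) (nat_lit 0) (XT.lf (nat_lit 0) (nat_lit 11244974814) (nat_lit 152) (nat_lit 48583871858) (nat_lit 0) (nat_lit 2316112178) (nat_lit 2) (nat_lit 5) (nat_lit 4) (nat_lit 4) (nat_lit 2) (nat_lit 4) (nat_lit 289) (nat_lit 233) (nat_lit 198)) (XT.nd (nat_lit 78) (nat_lit 0) (nat_lit 0) (XT.lf (nat_lit 0) (nat_lit 14965116981)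 (nat_lit 152) (nat_lit 45869931338) (nat_lit 0) (nat_lit 5988276056) (nat_lit 2) (nat_lit 5) (nat_lit 4) (nat_lit 4) (nat_lit 2) (nat_lit 4) (nat_lit 290) (nat_lit 233) (nat_lit 197)) (XT.lf (nat_lit 0) (nat_lit 18952251752) (nat_lit 152) (nat_lit 42995224169) (nat_lit 0) (nat_lit 9930986485) (nat_lit 2) (nat_lit 5) (nat_lit 4) (nat_lit 4) (nat_lit 2) (nat_lit 4) (nat_lit 291) (nat_lit 233) (nat_lit 196)))))) (XT.nd (nat_lit 468) (nat_lit 76) (nat_lit 0) (XT.nd (nat_lit 234) (nat_lit 0) (nat_lit 0) (XT.nd (nat_lit 78) (nat_lit 0) (nat_lit 0) (XT.lf (nat_lit 0) (nat_lit 23230006592) (nat_lit 152) (nat_lit 39942715048) (nat_lit 0) (nat_lit 14167607675) (nat_lit 2) (nat_lit 5) (nat_lit 4) (nat_lit 4) (nat_lit 2) (nat_lit 4) (nat_lit 292) (nat_lit 233) (nat_lit 195)) (XT.nd (nat_lit 78) (nat_lit 0) (nat_lit 0) (XT.lf (nat_lit 0) (nat_lit 27823731159) (nat_lit 152) (nat_lit 36694315034)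 (nat_lit 0) (nat_lit 18723245529) (nat_lit 2) (nat_lit 5) (nat_lit 4) (nat_lit 4) (nat_lit 2) (nat_lit 4) (nat_lit 293) (nat_lit 233) (nat_lit 194)) (XT.lf (nat_lit 0) (nat_lit 32760647524) (nat_lit 152) (nat_lit 33230774348) (nat_lit 0) (nat_lit 23624896420) (nat_lit 2) (nat_lit 5) (nat_lit 4) (nat_lit 4) (nat_lit 2) (nat_lit 4) (nat_lit 294) (nat_lit 233) (nat_lit 193)))) (XT.nd (nat_lit 78) (nat_lit 0) (nat_lit 0) (XT.lf (nat_lit 0) (nat_lit 38070011489) (nat_lit 152) (nat_lit 29531568305) (nat_lit 0) (nat_lit 28901607168) (nat_lit 2) (nat_lit 5) (nat_lit 4) (nat_lit 4) (nat_lit 2) (nat_lit 4) (nat_lit 295) (nat_lit 233) (nat_lit 192)) (XT.nd (nat_lit 78) (nat_lit 0) (nat_lit 0) (XT.lf (nat_lit 0) (nat_lit 43783285951) (nat_lit 152) (nat_lit 25574775684) (nat_lit 0) (nat_lit 34584647169) (nat_lit 2) (nat_lit 5) (nat_lit 4) (nat_lit 4) (nat_lit 2) (nat_lit 4) (nat_lit 296) (nat_lit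 233) (nat_lit 191)) (XT.lf (nat_lit 0) (nat_lit 49934327350) (nat_lit 152) (nat_lit 21336948824) (nat_lit 0) (nat_lit 40707693698) (nat_lit 2) (nat_lit 5) (nat_lit 4) (nat_lit 4) (nat_lit 2) (nat_lit 4) (nat_lit 297) (nat_lit 233) (nat_lit 190))))) (XT.nd (nat_lit 234) (nat_lit 76) (nat_lit 0) (XT.nd (nat_lit 78) (nat_lit 0) (nat_lit 0) (XT.lf (nat_lit 0) (nat_lit 56559586304) (nat_lit 152) (nat_lit 16792974678) (nat_lit 0) (nat_lit 47307031475) (nat_lit 2) (nat_lit 5) (nat_lit 4) (nat_lit 4) (nat_lit 2) (nat_lit 4) (nat_lit 298) (nat_lit 233) (nat_lit 189)) (XT.nd (nat_lit 78) (nat_lit 0) (nat_lit 0) (XT.lf (nat_lit 0) (nat_lit 63698323605) (nat_lit 152) (nat_lit 11915925991) (nat_lit 0) (nat_lit 54421767687) (nat_lit 2) (nat_lit 5) (nat_lit 4) (nat_lit 4) (nat_lit 2) (nat_lit 4) (nat_lit 299) (nat_lit 233) (nat_lit 188)) (XT.lf (nat_lit 0) (nat_lit 71392842883) (nat_lit 152) (nat_lit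 6676901735) (nat_lit 0) (nat_lit 62094063733) (nat_lit 2) (nat_lit 5) (nat_lit 4) (nat_lit 4) (nat_lit 2) (nat_lit 4) (nat_lit 300) (nat_lit 233) (nat_lit 187)))) (XT.nd (nat_lit 156) (nat_lit 0) (nat_lit 0) (XT.nd (nat_lit 78) (nat_lit 76) (nat_lit 0) (XT.lf (nat_lit 0) (nat_lit 79688741288) (nat_lit 152) (nat_lit 1044855839) (nat_lit 0) (nat_lit 70369385072) (nat_lit 2) (nat_lit 5) (nat_lit 4) (nat_lit 4) (nat_lit 2) (nat_lit 4) (nat_lit 301) (nat_lit 233) (nat_lit 186)) (XT.lf (nat_lit 0) (nat_lit 5277593377) (nat_lit 76) (nat_lit 83484512569) (nat_lit 76) (nat_lit 74146103515) (nat_lit 1) (nat_lit 4) (nat_lit 2) (nat_lit 5) (nat_lit 2) (nat_lit 4) (nat_lit 302) (nat_lit 233) (nat_lit 185))) (XT.nd (nat_lit 78) (nat_lit 0) (nat_lit 0) (XT.lf (nat_lit 0) (nat_lit 12141705285) (nat_lit 76) (nat_lit 86435477067) (nat_lit 76) (nat_lit 77079426496) (nat_lit 1) (nat_lit 4) (nat_lit 2)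 (nat_lit 5) (nat_lit 2) (nat_lit 4) (nat_lit 303) (nat_lit 233) (nat_lit 184)) (XT.lf (nat_lit 0) (nat_lit 19533135846) (nat_lit 76) (nat_lit 89632546029) (nat_lit 76) (nat_lit 80260160720) (nat_lit 1) (nat_lit 4) (nat_lit 2) (nat_lit 5) (nat_lit 2) (nat_lit 4) (nat_lit 304) (nat_lit 233) (nat_lit 183))))))))
noncomputable def xc38 : XT := (XT.nd (nat_lit 1950) (nat_lit 0) (nat_lit 0) (XT.nd (nat_lit 936) (nat_lit 0) (nat_lit 0) (XT.nd (nat_lit 468) (nat_lit 0) (nat_lit 0) (XT.nd (nat_lit 234) (nat_lit 0) (nat_lit 0) (XT.nd (nat_lit 78) (nat_lit 0) (nat_lit 0) (XT.lf (nat_lit 0) (nat_lit 27495686129) (nat_lit 76) (nat_lit 93094665048) (nat_lit 76) (nat_lit 83707154981) (nat_lit 1) (nat_lit 4) (nat_lit 2) (nat_lit 5) (nat_lit 2) (nat_lit 4) (nat_lit 305) (nat_lit 233) (nat_lit 182)) (XT.nd (nat_lit 78) (nat_lit 0) (nat_lit 0) (XT.lf (nat_lit 0) (nat_lit 36076541618) (nat_lit 76) (nat_lit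 96842350386) (nat_lit 76) (nat_lit 87440835913) (nat_lit 1) (nat_lit 4) (nat_lit 2) (nat_lit 5) (nat_lit 2) (nat_lit 4) (nat_lit 306) (nat_lit 233) (nat_lit 181)) (XT.lf (nat_lit 0) (nat_lit 45326551827) (nat_lit 76) (nat_lit 100897810547) (nat_lit 76) (nat_lit 91483329033) (nat_lit 1) (nat_lit 4) (nat_lit 2) (nat_lit 5) (nat_lit 2) (nat_lit 4) (nat_lit 307) (nat_lit 233) (nat_lit 180)))) (XT.nd (nat_lit 78) (nat_lit 0) (nat_lit 0) (XT.lf (nat_lit 0) (nat_lit 55300531631) (nat_lit 76) (nat_lit 105285077889) (nat_lit 76) (nat_lit 95858589854) (nat_lit 1) (nat_lit 4) (nat_lit 2) (nat_lit 5) (nat_lit 2) (nat_lit 4) (nat_lit 308) (nat_lit 233) (nat_lit 179)) (XT.nd (nat_lit 78) (nat_lit 0) (nat_lit 0) (XT.lf (nat_lit 0) (nat_lit 66057586095) (nat_lit 76) (nat_lit 110030151032) (nat_lit 76) (nat_lit 100592545849) (nat_lit 1) (nat_lit 4) (nat_lit 2) (nat_lit 5) (nat_lit 2) (nat_lit 4) (nat_lit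 309) (nat_lit 233) (nat_lit 178)) (XT.lf (nat_lit 0) (nat_lit 77661460728) (nat_lit 76) (nat_lit 115161148929) (nat_lit 76) (nat_lit 105713250090) (nat_lit 1) (nat_lit 4) (nat_lit 2) (nat_lit 5) (nat_lit 2) (nat_lit 4) (nat_lit 310) (nat_lit 233) (nat_lit 177))))) (XT.nd (nat_lit 234) (nat_lit 0) (nat_lit 0) (XT.nd (nat_lit 78) (nat_lit 0) (nat_lit 0) (XT.lf (nat_lit 0) (nat_lit 90180919231) (nat_lit 76) (nat_lit 120708477493) (nat_lit 76) (nat_lit 111251047492) (nat_lit 1) (nat_lit 4) (nat_lit 2) (nat_lit 5) (nat_lit 2) (nat_lit 4) (nat_lit 311) (nat_lit 233) (nat_lit 176)) (XT.nd (nat_lit 78) (nat_lit 0) (nat_lit 0) (XT.lf (nat_lit 0) (nat_lit 103690150988) (nat_lit 76) (nat_lit 126705009783) (nat_lit 76) (nat_lit 117238754630) (nat_lit 1) (nat_lit 4) (nat_lit 2) (nat_lit 5) (nat_lit 2) (nat_lit 4) (nat_lit 312) (nat_lit 233) (nat_lit 175)) (XT.lf (nat_lit 0) (nat_lit 118269210705)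 (nat_lit 76) (nat_lit 133186280804) (nat_lit 76) (nat_lit 123711854216) (nat_lit 1) (nat_lit 4) (nat_lit 2) (nat_lit 5) (nat_lit 2) (nat_lit 4) (nat_lit 313) (nat_lit 233) (nat_lit 174)))) (XT.nd (nat_lit 78) (nat_lit 0) (nat_lit 0) (XT.lf (nat_lit 0) (nat_lit 134004492811) (nat_lit 76) (nat_lit 140190698088) (nat_lit 76) (nat_lit 130708705356) (nat_lit 1) (nat_lit 4) (nat_lit 2) (nat_lit 5) (nat_lit 2) (nat_lit 4) (nat_lit 314) (nat_lit 233) (nat_lit 173)) (XT.nd (nat_lit 78) (nat_lit 0) (nat_lit 0) (XT.lf (nat_lit 0) (nat_lit 150989243421) (nat_lit 76) (nat_lit 147759769294) (nat_lit 76) (nat_lit 138270770872) (nat_lit 1) (nat_lit 4) (nat_lit 2) (nat_lit 5) (nat_lit 2) (nat_lit 4) (nat_lit 315) (nat_lit 233) (nat_lit 172)) (XT.lf (nat_lit 0) (nat_lit 169324112910) (nat_lit 76) (nat_lit 155938348177) (nat_lit 76) (nat_lit 146442863005) (nat_lit 1) (nat_lit 4) (nat_lit 2) (nat_lit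 5) (nat_lit 2) (nat_lit 4) (nat_lit 316) (nat_lit 233) (nat_lit 171)))))) (XT.nd (nat_lit 468) (nat_lit 0) (nat_lit 0) (XT.nd (nat_lit 234) (nat_lit 0) (nat_lit 0) (XT.nd (nat_lit 78) (nat_lit 0) (nat_lit 0) (XT.lf (nat_lit 0) (nat_lit 189117752356) (nat_lit 76) (nat_lit 164774900388) (nat_lit 76) (nat_lit 155273408968) (nat_lit 1) (nat_lit 4) (nat_lit 2) (nat_lit 5) (nat_lit 2) (nat_lit 4) (nat_lit 317) (nat_lit 233) (nat_lit 170)) (XT.nd (nat_lit 78) (nat_lit 0) (nat_lit 0) (XT.lf (nat_lit 0) (nat_lit 210487457400) (nat_lit 76) (nat_lit 174321790683) (nat_lit 76) (nat_lit 164814737921) (nat_lit 1) (nat_lit 4) (nat_lit 2) (nat_lit 5) (nat_lit 2) (nat_lit 4) (nat_lit 318) (nat_lit 233) (nat_lit 169)) (XT.lf (nat_lit 0) (nat_lit 233559863332) (nat_lit 76) (nat_lit 184635593226) (nat_lit 76) (nat_lit 175123391073) (nat_lit 1) (nat_lit 4) (nat_lit 2) (nat_lit 5) (nat_lit 2) (nat_lit 4)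 (nat_lit 319) (nat_lit 233) (nat_lit 168)))) (XT.nd (nat_lit 78) (nat_lit 0) (nat_lit 0) (XT.lf (nat_lit 0) (nat_lit 258471695519) (nat_lit 76) (nat_lit 195777426847) (nat_lit 76) (nat_lit 186260456739) (nat_lit 1) (nat_lit 4) (nat_lit 2) (nat_lit 5) (nat_lit 2) (nat_lit 4) (nat_lit 320) (nat_lit 233) (nat_lit 167)) (XT.nd (nat_lit 78) (nat_lit 0) (nat_lit 0) (XT.lf (nat_lit 0) (nat_lit 285370579635) (nat_lit 76) (nat_lit 207813317226) (nat_lit 76) (nat_lit 198291932346) (nat_lit 1) (nat_lit 4) (nat_lit 2) (nat_lit 5) (nat_lit 2) (nat_lit 4) (nat_lit 321) (nat_lit 233) (nat_lit 166)) (XT.lf (nat_lit 0) (nat_lit 314415916473) (nat_lit 76) (nat_lit 220814588159) (nat_lit 76) (nat_lit 211289115526) (nat_lit 1) (nat_lit 4) (nat_lit 2) (nat_lit 5) (nat_lit 2) (nat_lit 4) (nat_lit 322) (nat_lit 233) (nat_lit 165))))) (XT.nd (nat_lit 234) (nat_lit 0) (nat_lit 0) (XT.nd (nat_lit 78) (nat_lit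 0) (nat_lit 0) (XT.lf (nat_lit 0) (nat_lit 345779826549) (nat_lit 76) (nat_lit 234858284213) (nat_lit 76) (nat_lit 225329026625) (nat_lit 1) (nat_lit 4) (nat_lit 2) (nat_lit 5) (nat_lit 2) (nat_lit 4) (nat_lit 323) (nat_lit 233) (nat_lit 164)) (XT.nd (nat_lit 78) (nat_lit 0) (nat_lit 0) (XT.lf (nat_lit 0) (nat_lit 379648170070) (nat_lit 76) (nat_lit 250027627292) (nat_lit 76) (nat_lit 240494865115) (nat_lit 1) (nat_lit 4) (nat_lit 2) (nat_lit 5) (nat_lit 2) (nat_lit 4) (nat_lit 324) (nat_lit 233) (nat_lit 163)) (XT.lf (nat_lit 0) (nat_lit 416221648331) (nat_lit 76) (nat_lit 266412509799) (nat_lit 76) (nat_lit 256876502632) (nat_lit 1) (nat_lit 4) (nat_lit 2) (nat_lit 5) (nat_lit 2) (nat_lit 4) (nat_lit 325) (nat_lit 233) (nat_lit 162)))) (XT.nd (nat_lit 156) (nat_lit 0) (nat_lit 0) (XT.nd (nat_lit 78) (nat_lit 0) (nat_lit 0) (XT.lf (nat_lit 0) (nat_lit 455716993056) (nat_lit 76) (nat_lit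 284110027333) (nat_lit 76) (nat_lit 274571015546) (nat_lit 1) (nat_lit 4) (nat_lit 2) (nat_lit 5) (nat_lit 2) (nat_lit 4) (nat_lit 326) (nat_lit 233) (nat_lit 161)) (XT.lf (nat_lit 0) (nat_lit 498368250731) (nat_lit 76) (nat_lit 303225054073) (nat_lit 76) (nat_lit 293683260231) (nat_lit 1) (nat_lit 4) (nat_lit 2) (nat_lit 5) (nat_lit 2) (nat_lit 4) (nat_lit 327) (nat_lit 233) (nat_lit 160))) (XT.nd (nat_lit 78) (nat_lit 0) (nat_lit 0) (XT.lf (nat_lit 0) (nat_lit 544428169550) (nat_lit 76) (nat_lit 323870864252) (nat_lit 76) (nat_lit 314326494432) (nat_lit 1) (nat_lit 4) (nat_lit 2) (nat_lit 5) (nat_lit 2) (nat_lit 4) (nat_lit 328) (nat_lit 233) (nat_lit 159)) (XT.lf (nat_lit 0) (nat_lit 594169697180) (nat_lit 76) (nat_lit 346169803410) (nat_lit 76) (nat_lit 336623048426) (nat_lit 1) (nat_lit 4) (nat_lit 2) (nat_lit 5) (nat_lit 2) (nat_lit 4) (nat_lit 329) (nat_lit 233) (nat_lit 158)))))))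 (XT.nd (nat_lit 31590) (nat_lit 0) (nat_lit 836) (XT.nd (nat_lit 468) (nat_lit 0) (nat_lit 0) (XT.nd (nat_lit 234) (nat_lit 0) (nat_lit 0) (XT.nd (nat_lit 78) (nat_lit 0) (nat_lit 0) (XT.lf (nat_lit 0) (nat_lit 647887598230) (nat_lit 76) (nat_lit 370254013411) (nat_lit 76) (nat_lit 360705049941) (nat_lit 1) (nat_lit 4) (nat_lit 2) (nat_lit 5) (nat_lit 2) (nat_lit 4) (nat_lit 330) (nat_lit 233) (nat_lit 157)) (XT.nd (nat_lit 78) (nat_lit 0) (nat_lit 0) (XT.lf (nat_lit 0) (nat_lit 705900201002) (nat_lit 76) (nat_lit 396266215498) (nat_lit 76) (nat_lit 386715207134) (nat_lit 1) (nat_lit 4) (nat_lit 2) (nat_lit 5) (nat_lit 2) (nat_lit 4) (nat_lit 331) (nat_lit 233) (nat_lit 156)) (XT.lf (nat_lit 0) (nat_lit 768551283882) (nat_lit 76) (nat_lit 424360556054) (nat_lit 76) (nat_lit 414807654270) (nat_lit 1) (nat_lit 4) (nat_lit 2) (nat_lit 5) (nat_lit 2) (nat_lit 4) (nat_lit 332) (nat_lit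 233) (nat_lit 155)))) (XT.nd (nat_lit 78) (nat_lit 0) (nat_lit 0) (XT.lf (nat_lit 0) (nat_lit 836212112548) (nat_lit 76) (nat_lit 454703520060) (nat_lit 76) (nat_lit 445148865109) (nat_lit 1) (nat_lit 4) (nat_lit 2) (nat_lit 5) (nat_lit 2) (nat_lit 4) (nat_lit 333) (nat_lit 233) (nat_lit 154)) (XT.nd (nat_lit 78) (nat_lit 0) (nat_lit 0) (XT.lf (nat_lit 0) (nat_lit 909283640057) (nat_lit 76) (nat_lit 487474917673) (nat_lit 76) (nat_lit 477918639419) (nat_lit 1) (nat_lit 4) (nat_lit 2) (nat_lit 5) (nat_lit 2) (nat_lit 4) (nat_lit 334) (nat_lit 233) (nat_lit 153)) (XT.lf (nat_lit 0) (nat_lit 988198882869) (nat_lit 76) (nat_lit 522868949768) (nat_lit 76) (nat_lit 513311168456) (nat_lit 1) (nat_lit 4) (nat_lit 2) (nat_lit 5) (nat_lit 2) (nat_lit 4) (nat_lit 335) (nat_lit 233) (nat_lit 152))))) (XT.nd (nat_lit 234) (nat_lit 0) (nat_lit 0) (XT.nd (nat_lit 78) (nat_lit 0) (nat_lit 0) (XT.lf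 (nat_lit 0) (nat_lit 1073425486868) (nat_lit 76) (nat_lit 561095358757) (nat_lit 76) (nat_lit 551536185725) (nat_lit 1) (nat_lit 4) (nat_lit 2) (nat_lit 5) (nat_lit 2) (nat_lit 4) (nat_lit 336) (nat_lit 233) (nat_lit 151)) (XT.nd (nat_lit 78) (nat_lit 0) (nat_lit 0) (XT.lf (nat_lit 0) (nat_lit 1165468498596) (nat_lit 76) (nat_lit 602380671509) (nat_lit 76) (nat_lit 592820209847) (nat_lit 1) (nat_lit 4) (nat_lit 2) (nat_lit 5) (nat_lit 2) (nat_lit 4) (nat_lit 337) (nat_lit 233) (nat_lit 150)) (XT.lf (nat_lit 0) (nat_lit 1264873358121) (nat_lit 76) (nat_lit 646969541729) (nat_lit 76) (nat_lit 637407886891) (nat_lit 1) (nat_lit 4) (nat_lit 2) (nat_lit 5) (nat_lit 2) (nat_lit 4) (nat_lit 338) (nat_lit 233) (nat_lit 149)))) (XT.nd (nat_lit 30732) (nat_lit 0) (nat_lit 2128) (XT.lf (nat_lit 0) (nat_lit 1372229131279) (nat_lit 76) (nat_lit 695126199758) (nat_lit 76) (nat_lit 685563440127)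 (nat_lit 1) (nat_lit 4) (nat_lit 2) (nat_lit 5) (nat_lit 2) (nat_lit 4) (nat_lit 339) (nat_lit 233) (nat_lit 148)) (XT.nd (nat_lit 78) (nat_lit 228) (nat_lit 0) (XT.lf (nat_lit 0) (nat_lit 1409230926) (nat_lit 532) (nat_lit 997572744) (nat_lit 0) (nat_lit 1409230926) (nat_lit 32) (nat_lit 5) (nat_lit 39) (nat_lit 4) (nat_lit 32) (nat_lit 4) (nat_lit 252) (nat_lit 234) (nat_lit 234)) (XT.lf (nat_lit 0) (nat_lit 3002620341) (nat_lit 228) (nat_lit 3083031547) (nat_lit 228) (nat_lit 1770026964) (nat_lit 29) (nat_lit 4) (nat_lit 32) (nat_lit 5) (nat_lit 32) (nat_lit 4) (nat_lit 253) (nat_lit 234) (nat_lit 233)))))) (XT.nd (nat_lit 468) (nat_lit 456) (nat_lit 0) (XT.nd (nat_lit 234) (nat_lit 380) (nat_lit 0) (XT.nd (nat_lit 78) (nat_lit 228) (nat_lit 0) (XT.lf (nat_lit 0) (nat_lit 118568284) (nat_lit 152) (nat_lit 1154180682) (nat_lit 228) (nat_lit 6836344013) (nat_lit 26) (nat_lit 5) (nat_lit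 28) (nat_lit 5) (nat_lit 29) (nat_lit 4) (nat_lit 254) (nat_lit 234) (nat_lit 232)) (XT.nd (nat_lit 78) (nat_lit 228) (nat_lit 0) (XT.lf (nat_lit 0) (nat_lit 4403947795) (nat_lit 228) (nat_lit 2960957940) (nat_lit 0) (nat_lit 1020207641) (nat_lit 26) (nat_lit 5) (nat_lit 29) (nat_lit 4) (nat_lit 26) (nat_lit 4) (nat_lit 255) (nat_lit 234) (nat_lit 231)) (XT.lf (nat_lit 0) (nat_lit 2295693895) (nat_lit 228) (nat_lit 5373424550) (nat_lit 228) (nat_lit 1024586830) (nat_lit 23) (nat_lit 4) (nat_lit 26) (nat_lit 5) (nat_lit 26) (nat_lit 4) (nat_lit 256) (nat_lit 234) (nat_lit 230)))) (XT.nd (nat_lit 78) (nat_lit 304) (nat_lit 0) (XT.lf (nat_lit 0) (nat_lit 1944193324) (nat_lit 304) (nat_lit 1198524462) (nat_lit 76) (nat_lit 5890363577) (nat_lit 22) (nat_lit 5) (nat_lit 26) (nat_lit 5) (nat_lit 23) (nat_lit 4) (nat_lit 257) (nat_lit 234) (nat_lit 229)) (XT.nd (nat_lit 78) (nat_lit 152) (nat_lit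 0) (XT.lf (nat_lit 0) (nat_lit 4363173264) (nat_lit 152) (nat_lit 652709163) (nat_lit 228) (nat_lit 4388862384) (nat_lit 20) (nat_lit 5) (nat_lit 22) (nat_lit 5) (nat_lit 23) (nat_lit 4) (nat_lit 258) (nat_lit 234) (nat_lit 228)) (XT.lf (nat_lit 0) (nat_lit 349466069) (nat_lit 152) (nat_lit 7897047726) (nat_lit 152) (nat_lit 1567429441) (nat_lit 18) (nat_lit 4) (nat_lit 20) (nat_lit 5) (nat_lit 20) (nat_lit 4) (nat_lit 259) (nat_lit 234) (nat_lit 227))))) (XT.nd (nat_lit 234) (nat_lit 304) (nat_lit 0) (XT.nd (nat_lit 78) (nat_lit 76) (nat_lit 0) (XT.lf (nat_lit 0) (nat_lit 1388342778) (nat_lit 228) (nat_lit 4098694492) (nat_lit 76) (nat_lit 4768117597) (nat_lit 17) (nat_lit 5) (nat_lit 20) (nat_lit 5) (nat_lit 18) (nat_lit 4) (nat_lit 260) (nat_lit 234) (nat_lit 226)) (XT.nd (nat_lit 78) (nat_lit 0) (nat_lit 0) (XT.lf (nat_lit 0) (nat_lit 1493079341) (nat_lit 76) (nat_lit 2876008151)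 (nat_lit 152) (nat_lit 6370145014) (nat_lit 16) (nat_lit 5) (nat_lit 17) (nat_lit 5) (nat_lit 18) (nat_lit 4) (nat_lit 261) (nat_lit 234) (nat_lit 225)) (XT.lf (nat_lit 0) (nat_lit 7534048891) (nat_lit 76) (nat_lit 10084134) (nat_lit 152) (nat_lit 3722067035) (nat_lit 16) (nat_lit 5) (nat_lit 17) (nat_lit 5) (nat_lit 18) (nat_lit 4) (nat_lit 262) (nat_lit 234) (nat_lit 224)))) (XT.nd (nat_lit 156) (nat_lit 76) (nat_lit 0) (XT.nd (nat_lit 78) (nat_lit 76) (nat_lit 0) (XT.lf (nat_lit 0) (nat_lit 2025498158) (nat_lit 152) (nat_lit 8924271681) (nat_lit 152) (nat_lit 888012432) (nat_lit 14) (nat_lit 4) (nat_lit 16) (nat_lit 5) (nat_lit 16) (nat_lit 4) (nat_lit 263) (nat_lit 234) (nat_lit 223)) (XT.lf (nat_lit 0) (nat_lit 2024113401) (nat_lit 228) (nat_lit 4273130280) (nat_lit 76) (nat_lit 6157364885) (nat_lit 13) (nat_lit 5) (nat_lit 16) (nat_lit 5) (nat_lit 14) (nat_lit 4) (nat_lit 264)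 (nat_lit 234) (nat_lit 222))) (XT.nd (nat_lit 78) (nat_lit 0) (nat_lit 0) (XT.lf (nat_lit 0) (nat_lit 1553579735) (nat_lit 76) (nat_lit 3470833579) (nat_lit 152) (nat_lit 8102731858) (nat_lit 12) (nat_lit 5) (nat_lit 13) (nat_lit 5) (nat_lit 14) (nat_lit 4) (nat_lit 265) (nat_lit 234) (nat_lit 221)) (XT.lf (nat_lit 0) (nat_lit 7884538251) (nat_lit 76) (nat_lit 367861619) (nat_lit 152) (nat_lit 5602501274) (nat_lit 12) (nat_lit 5) (nat_lit 13) (nat_lit 5) (nat_lit 14) (nat_lit 4) (nat_lit 266) (nat_lit 234) (nat_lit 220))))))))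
noncomputable def xc39 : XT := (XT.nd (nat_lit 1950) (nat_lit 76) (nat_lit 0) (XT.nd (nat_lit 936) (nat_lit 228) (nat_lit 0) (XT.nd (nat_lit 468) (nat_lit 228) (nat_lit 0) (XT.nd (nat_lit 234) (nat_lit 76) (nat_lit 0) (XT.nd (nat_lit 78) (nat_lit 228) (nat_lit 0) (XT.lf (nat_lit 0) (nat_lit 11689084503) (nat_lit 152) (nat_lit 188660100) (nat_lit 0) (nat_lit 2767493898) (nat_lit 12) (nat_lit 5) (nat_lit 14) (nat_lit 4) (nat_lit 12) (nat_lit 4) (nat_lit 267) (nat_lit 234) (nat_lit 219)) (XT.nd (nat_lit 78) (nat_lit 76) (nat_lit 0) (XT.lf (nat_lit 0) (nat_lit 6171403440) (nat_lit 152) (nat_lit 9274971747) (nat_lit 152) (nat_lit 49142141) (nat_lit 10) (nat_lit 4) (nat_lit 12) (nat_lit 5) (nat_lit 12) (nat_lit 4) (nat_lit 268) (nat_lit 234) (nat_lit 218)) (XT.lf (nat_lit 0) (nat_lit 2829705953) (nat_lit 228) (nat_lit 3621744002) (nat_lit 76) (nat_lit 9965228480) (nat_lit 9) (nat_lit 5)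 (nat_lit 12) (nat_lit 5) (nat_lit 10) (nat_lit 4) (nat_lit 269) (nat_lit 234) (nat_lit 217)))) (XT.nd (nat_lit 78) (nat_lit 0) (nat_lit 0) (XT.lf (nat_lit 0) (nat_lit 2488855951) (nat_lit 76) (nat_lit 3404040320) (nat_lit 152) (nat_lit 11522291177) (nat_lit 8) (nat_lit 5) (nat_lit 9) (nat_lit 5) (nat_lit 10) (nat_lit 4) (nat_lit 270) (nat_lit 234) (nat_lit 216)) (XT.nd (nat_lit 78) (nat_lit 0) (nat_lit 0) (XT.lf (nat_lit 0) (nat_lit 9127423746) (nat_lit 76) (nat_lit 73204507) (nat_lit 152) (nat_lit 9293260638) (nat_lit 8) (nat_lit 5) (nat_lit 9) (nat_lit 5) (nat_lit 10) (nat_lit 4) (nat_lit 271) (nat_lit 234) (nat_lit 215)) (XT.lf (nat_lit 0) (nat_lit 12764069228) (nat_lit 152) (nat_lit 3607181498) (nat_lit 0) (nat_lit 3288599070) (nat_lit 8) (nat_lit 5) (nat_lit 10) (nat_lit 4) (nat_lit 8) (nat_lit 4) (nat_lit 272) (nat_lit 234) (nat_lit 214))))) (XT.nd (nat_lit 234) (nat_lit 76)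 (nat_lit 0) (XT.nd (nat_lit 78) (nat_lit 76) (nat_lit 0) (XT.lf (nat_lit 0) (nat_lit 2591879973) (nat_lit 76) (nat_lit 13998215575) (nat_lit 76) (nat_lit 4331023239) (nat_lit 7) (nat_lit 4) (nat_lit 8) (nat_lit 5) (nat_lit 8) (nat_lit 4) (nat_lit 273) (nat_lit 234) (nat_lit 213)) (XT.nd (nat_lit 78) (nat_lit 76) (nat_lit 0) (XT.lf (nat_lit 0) (nat_lit 9347055245) (nat_lit 76) (nat_lit 11389987334) (nat_lit 76) (nat_lit 1545274462) (nat_lit 7) (nat_lit 4) (nat_lit 8) (nat_lit 5) (nat_lit 8) (nat_lit 4) (nat_lit 274) (nat_lit 234) (nat_lit 212)) (XT.lf (nat_lit 0) (nat_lit 1310346635) (nat_lit 152) (nat_lit 7283562736) (nat_lit 76) (nat_lit 15162253365) (nat_lit 6) (nat_lit 5) (nat_lit 8) (nat_lit 5) (nat_lit 7) (nat_lit 4) (nat_lit 275) (nat_lit 234) (nat_lit 211)))) (XT.nd (nat_lit 78) (nat_lit 76) (nat_lit 0) (XT.lf (nat_lit 0) (nat_lit 4237056836) (nat_lit 152) (nat_lit 1348200765)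 (nat_lit 76) (nat_lit 19765528117) (nat_lit 6) (nat_lit 5) (nat_lit 8) (nat_lit 5) (nat_lit 7) (nat_lit 4) (nat_lit 276) (nat_lit 234) (nat_lit 210)) (XT.nd (nat_lit 78) (nat_lit 0) (nat_lit 0) (XT.lf (nat_lit 0) (nat_lit 5203458594) (nat_lit 76) (nat_lit 2251185205) (nat_lit 152) (nat_lit 19613953450) (nat_lit 5) (nat_lit 5) (nat_lit 6) (nat_lit 5) (nat_lit 7) (nat_lit 4) (nat_lit 277) (nat_lit 234) (nat_lit 209)) (XT.lf (nat_lit 0) (nat_lit 10932598384) (nat_lit 152) (nat_lit 16718438331) (nat_lit 0) (nat_lit 1272706346) (nat_lit 5) (nat_lit 5) (nat_lit 7) (nat_lit 4) (nat_lit 5) (nat_lit 4) (nat_lit 278) (nat_lit 234) (nat_lit 208)))))) (XT.nd (nat_lit 468) (nat_lit 152) (nat_lit 0) (XT.nd (nat_lit 234) (nat_lit 0) (nat_lit 0) (XT.nd (nat_lit 78) (nat_lit 76) (nat_lit 0) (XT.lf (nat_lit 0) (nat_lit 14684930922) (nat_lit 152) (nat_lit 11329642837) (nat_lit 0) (nat_lit 4913170833)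 (nat_lit 5) (nat_lit 5) (nat_lit 7) (nat_lit 4) (nat_lit 5) (nat_lit 4) (nat_lit 279) (nat_lit 234) (nat_lit 207)) (XT.nd (nat_lit 78) (nat_lit 76) (nat_lit 0) (XT.lf (nat_lit 0) (nat_lit 18679736398) (nat_lit 152) (nat_lit 5612677512) (nat_lit 0) (nat_lit 8804394782) (nat_lit 5) (nat_lit 5) (nat_lit 7) (nat_lit 4) (nat_lit 5) (nat_lit 4) (nat_lit 280) (nat_lit 234) (nat_lit 206)) (XT.lf (nat_lit 0) (nat_lit 490892382) (nat_lit 76) (nat_lit 22461601325) (nat_lit 76) (nat_lit 12490350887) (nat_lit 4) (nat_lit 4) (nat_lit 5) (nat_lit 5) (nat_lit 5) (nat_lit 4) (nat_lit 281) (nat_lit 234) (nat_lit 205)))) (XT.nd (nat_lit 78) (nat_lit 0) (nat_lit 0) (XT.lf (nat_lit 0) (nat_lit 7309049618) (nat_lit 76) (nat_lit 20359768212) (nat_lit 76) (nat_lit 10299713310) (nat_lit 4) (nat_lit 4) (nat_lit 5) (nat_lit 5) (nat_lit 5) (nat_lit 4) (nat_lit 282) (nat_lit 234) (nat_lit 204)) (XT.nd (nat_lit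 78) (nat_lit 0) (nat_lit 0) (XT.lf (nat_lit 0) (nat_lit 14586644439) (nat_lit 76) (nat_lit 18127919814) (nat_lit 76) (nat_lit 7985638556) (nat_lit 4) (nat_lit 4) (nat_lit 5) (nat_lit 5) (nat_lit 5) (nat_lit 4) (nat_lit 283) (nat_lit 234) (nat_lit 203)) (XT.lf (nat_lit 0) (nat_lit 22366803332) (nat_lit 76) (nat_lit 15752830363) (nat_lit 76) (nat_lit 5534413590) (nat_lit 4) (nat_lit 4) (nat_lit 5) (nat_lit 5) (nat_lit 5) (nat_lit 4) (nat_lit 284) (nat_lit 234) (nat_lit 202))))) (XT.nd (nat_lit 234) (nat_lit 76) (nat_lit 0) (XT.nd (nat_lit 78) (nat_lit 76) (nat_lit 0) (XT.lf (nat_lit 0) (nat_lit 30695630944) (nat_lit 76) (nat_lit 13220425254) (nat_lit 76) (nat_lit 2931512634) (nat_lit 4) (nat_lit 4) (nat_lit 5) (nat_lit 5) (nat_lit 5) (nat_lit 4) (nat_lit 285) (nat_lit 234) (nat_lit 201)) (XT.nd (nat_lit 78) (nat_lit 76) (nat_lit 0) (XT.lf (nat_lit 0) (nat_lit 39622483288) (nat_lit 76)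 (nat_lit 10515697642) (nat_lit 76) (nat_lit 161511090) (nat_lit 4) (nat_lit 4) (nat_lit 5) (nat_lit 5) (nat_lit 5) (nat_lit 4) (nat_lit 286) (nat_lit 234) (nat_lit 200)) (XT.lf (nat_lit 0) (nat_lit 2652338424) (nat_lit 152) (nat_lit 4897761455) (nat_lit 76) (nat_lit 46475402175) (nat_lit 3) (nat_lit 5) (nat_lit 5) (nat_lit 5) (nat_lit 4) (nat_lit 4) (nat_lit 287) (nat_lit 234) (nat_lit 199)))) (XT.nd (nat_lit 156) (nat_lit 0) (nat_lit 0) (XT.nd (nat_lit 78) (nat_lit 0) (nat_lit 0) (XT.lf (nat_lit 0) (nat_lit 1346854533) (nat_lit 76) (nat_lit 4334607864) (nat_lit 152) (nat_lit 52367730209) (nat_lit 2) (nat_lit 5) (nat_lit 3) (nat_lit 5) (nat_lit 4) (nat_lit 4) (nat_lit 288) (nat_lit 234) (nat_lit 198)) (XT.lf (nat_lit 0) (nat_lit 8310741020) (nat_lit 76) (nat_lit 743655531) (nat_lit 152) (nat_lit 53332321494) (nat_lit 2) (nat_lit 5) (nat_lit 3) (nat_lit 5) (nat_lit 4) (nat_lit 4) (nat_lit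 289) (nat_lit 234) (nat_lit 197))) (XT.nd (nat_lit 78) (nat_lit 0) (nat_lit 0) (XT.lf (nat_lit 0) (nat_lit 12741933223) (nat_lit 152) (nat_lit 51371242242) (nat_lit 0) (nat_lit 2954542393) (nat_lit 2) (nat_lit 5) (nat_lit 4) (nat_lit 4) (nat_lit 2) (nat_lit 4) (nat_lit 290) (nat_lit 234) (nat_lit 196)) (XT.lf (nat_lit 0) (nat_lit 16715437843) (nat_lit 152) (nat_lit 48521619025) (nat_lit 0) (nat_lit 6886913364) (nat_lit 2) (nat_lit 5) (nat_lit 4) (nat_lit 4) (nat_lit 2) (nat_lit 4) (nat_lit 291) (nat_lit 234) (nat_lit 195))))))) (XT.nd (nat_lit 1014) (nat_lit 0) (nat_lit 0) (XT.nd (nat_lit 468) (nat_lit 76) (nat_lit 0) (XT.nd (nat_lit 234) (nat_lit 0) (nat_lit 0) (XT.nd (nat_lit 78) (nat_lit 0) (nat_lit 0) (XT.lf (nat_lit 0) (nat_lit 20980572173) (nat_lit 152) (nat_lit 45492335788) (nat_lit 0) (nat_lit 11113960981) (nat_lit 2) (nat_lit 5) (nat_lit 4) (nat_lit 4) (nat_lit 2) (nat_lit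 4) (nat_lit 292) (nat_lit 234) (nat_lit 194)) (XT.nd (nat_lit 78) (nat_lit 0) (nat_lit 0) (XT.lf (nat_lit 0) (nat_lit 25562611083) (nat_lit 152) (nat_lit 42265441220) (nat_lit 0) (nat_lit 15660734416) (nat_lit 2) (nat_lit 5) (nat_lit 4) (nat_lit 4) (nat_lit 2) (nat_lit 4) (nat_lit 293) (nat_lit 234) (nat_lit 193)) (XT.lf (nat_lit 0) (nat_lit 30488707396) (nat_lit 152) (nat_lit 38821812985) (nat_lit 0) (nat_lit 20554177511) (nat_lit 2) (nat_lit 5) (nat_lit 4) (nat_lit 4) (nat_lit 2) (nat_lit 4) (nat_lit 294) (nat_lit 234) (nat_lit 192)))) (XT.nd (nat_lit 78) (nat_lit 0) (nat_lit 0) (XT.lf (nat_lit 0) (nat_lit 35788052793) (nat_lit 152) (nat_lit 35141044396) (nat_lit 0) (nat_lit 25823288448) (nat_lit 2) (nat_lit 5) (nat_lit 4) (nat_lit 4) (nat_lit 2) (nat_lit 4) (nat_lit 295) (nat_lit 234) (nat_lit 191)) (XT.nd (nat_lit 78) (nat_lit 0) (nat_lit 0) (XT.lf (nat_lit 0) (nat_lit 41492050803)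 (nat_lit 152) (nat_lit 31201323492) (nat_lit 0) (nat_lit 31499291588) (nat_lit 2) (nat_lit 5) (nat_lit 4) (nat_lit 4) (nat_lit 2) (nat_lit 4) (nat_lit 296) (nat_lit 234) (nat_lit 190)) (XT.lf (nat_lit 0) (nat_lit 47634502896) (nat_lit 152) (nat_lit 26979303778) (nat_lit 0) (nat_lit 37615822504) (nat_lit 2) (nat_lit 5) (nat_lit 4) (nat_lit 4) (nat_lit 2) (nat_lit 4) (nat_lit 297) (nat_lit 234) (nat_lit 189))))) (XT.nd (nat_lit 234) (nat_lit 76) (nat_lit 0) (XT.nd (nat_lit 78) (nat_lit 0) (nat_lit 0) (XT.lf (nat_lit 0) (nat_lit 54251808788) (nat_lit 152) (nat_lit 22449965877) (nat_lit 0) (nat_lit 44209127307) (nat_lit 2) (nat_lit 5) (nat_lit 4) (nat_lit 4) (nat_lit 2) (nat_lit 4) (nat_lit 298) (nat_lit 234) (nat_lit 188)) (XT.nd (nat_lit 78) (nat_lit 0) (nat_lit 0) (XT.lf (nat_lit 0) (nat_lit 61383182143) (nat_lit 152) (nat_lit 17586469270) (nat_lit 0) (nat_lit 51318277431) (nat_lit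 2) (nat_lit 5) (nat_lit 4) (nat_lit 4) (nat_lit 2) (nat_lit 4) (nat_lit 299) (nat_lit 234) (nat_lit 187)) (XT.lf (nat_lit 0) (nat_lit 69070882952) (nat_lit 152) (nat_lit 12359993235) (nat_lit 0) (nat_lit 58985401174) (nat_lit 2) (nat_lit 5) (nat_lit 4) (nat_lit 4) (nat_lit 2) (nat_lit 4) (nat_lit 300) (nat_lit 234) (nat_lit 186)))) (XT.nd (nat_lit 156) (nat_lit 76) (nat_lit 0) (XT.nd (nat_lit 78) (nat_lit 0) (nat_lit 0) (XT.lf (nat_lit 0) (nat_lit 77360467960) (nat_lit 152) (nat_lit 6739566063) (nat_lit 0) (nat_lit 67255933343) (nat_lit 2) (nat_lit 5) (nat_lit 4) (nat_lit 4) (nat_lit 2) (nat_lit 4) (nat_lit 301) (nat_lit 234) (nat_lit 185)) (XT.lf (nat_lit 0) (nat_lit 86301060634) (nat_lit 152) (nat_lit 691881519) (nat_lit 0) (nat_lit 76178884499) (nat_lit 2) (nat_lit 5) (nat_lit 4) (nat_lit 4) (nat_lit 2) (nat_lit 4) (nat_lit 302) (nat_lit 234) (nat_lit 184))) (XT.nd (nat_lit 78)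 (nat_lit 0) (nat_lit 0) (XT.lf (nat_lit 0) (nat_lit 6125311412) (nat_lit 76) (nat_lit 89967644737) (nat_lit 76) (nat_lit 79829133865) (nat_lit 1) (nat_lit 4) (nat_lit 2) (nat_lit 5) (nat_lit 2) (nat_lit 4) (nat_lit 303) (nat_lit 234) (nat_lit 183)) (XT.lf (nat_lit 0) (nat_lit 13507032972) (nat_lit 76) (nat_lit 93169177420) (nat_lit 76) (nat_lit 83015541790) (nat_lit 1) (nat_lit 4) (nat_lit 2) (nat_lit 5) (nat_lit 2) (nat_lit 4) (nat_lit 304) (nat_lit 234) (nat_lit 182)))))) (XT.nd (nat_lit 468) (nat_lit 0) (nat_lit 0) (XT.nd (nat_lit 234) (nat_lit 0) (nat_lit 0) (XT.nd (nat_lit 78) (nat_lit 0) (nat_lit 0) (XT.lf (nat_lit 0) (nat_lit 21460593439) (nat_lit 76) (nat_lit 96635429515) (nat_lit 76) (nat_lit 86467789479) (nat_lit 1) (nat_lit 4) (nat_lit 2) (nat_lit 5) (nat_lit 2) (nat_lit 4) (nat_lit 305) (nat_lit 234) (nat_lit 181)) (XT.nd (nat_lit 78) (nat_lit 0) (nat_lit 0) (XT.lf (nat_lit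 0) (nat_lit 30033125025) (nat_lit 76) (nat_lit 100386941774) (nat_lit 76) (nat_lit 90206334697) (nat_lit 1) (nat_lit 4) (nat_lit 2) (nat_lit 5) (nat_lit 2) (nat_lit 4) (nat_lit 306) (nat_lit 234) (nat_lit 180)) (XT.lf (nat_lit 0) (nat_lit 39275427915) (nat_lit 76) (nat_lit 104445945381) (nat_lit 76) (nat_lit 94253331784) (nat_lit 1) (nat_lit 4) (nat_lit 2) (nat_lit 5) (nat_lit 2) (nat_lit 4) (nat_lit 307) (nat_lit 234) (nat_lit 179)))) (XT.nd (nat_lit 78) (nat_lit 0) (nat_lit 0) (XT.lf (nat_lit 0) (nat_lit 49242271314) (nat_lit 76) (nat_lit 108836493691) (nat_lit 76) (nat_lit 98632762945) (nat_lit 1) (nat_lit 4) (nat_lit 2) (nat_lit 5) (nat_lit 2) (nat_lit 4) (nat_lit 308) (nat_lit 234) (nat_lit 178)) (XT.nd (nat_lit 78) (nat_lit 0) (nat_lit 0) (XT.lf (nat_lit 0) (nat_lit 59992717995) (nat_lit 76) (nat_lit 113584604768) (nat_lit 76) (nat_lit 103370580367) (nat_lit 1) (nat_lit 4) (nat_lit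 2) (nat_lit 5) (nat_lit 2) (nat_lit 4) (nat_lit 309) (nat_lit 234) (nat_lit 177)) (XT.lf (nat_lit 0) (nat_lit 71590474310) (nat_lit 76) (nat_lit 118718415567) (nat_lit 76) (nat_lit 108494860002) (nat_lit 1) (nat_lit 4) (nat_lit 2) (nat_lit 5) (nat_lit 2) (nat_lit 4) (nat_lit 310) (nat_lit 234) (nat_lit 176))))) (XT.nd (nat_lit 234) (nat_lit 0) (nat_lit 0) (XT.nd (nat_lit 78) (nat_lit 0) (nat_lit 0) (XT.lf (nat_lit 0) (nat_lit 84104267705) (nat_lit 76) (nat_lit 124268348670) (nat_lit 76) (nat_lit 114035967954) (nat_lit 1) (nat_lit 4) (nat_lit 2) (nat_lit 5) (nat_lit 2) (nat_lit 4) (nat_lit 311) (nat_lit 234) (nat_lit 175)) (XT.nd (nat_lit 78) (nat_lit 0) (nat_lit 0) (XT.lf (nat_lit 0) (nat_lit 97608253990) (nat_lit 76) (nat_lit 130267292569) (nat_lit 76) (nat_lit 120026740418) (nat_lit 1) (nat_lit 4) (nat_lit 2) (nat_lit 5) (nat_lit 2) (nat_lit 4) (nat_lit 312) (nat_lit 234) (nat_lit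 174)) (XT.lf (nat_lit 0) (nat_lit 112182456790) (nat_lit 76) (nat_lit 136750796562) (nat_lit 76) (nat_lit 126502678266) (nat_lit 1) (nat_lit 4) (nat_lit 2) (nat_lit 5) (nat_lit 2) (nat_lit 4) (nat_lit 313) (nat_lit 234) (nat_lit 173)))) (XT.nd (nat_lit 156) (nat_lit 0) (nat_lit 0) (XT.nd (nat_lit 78) (nat_lit 0) (nat_lit 0) (XT.lf (nat_lit 0) (nat_lit 127913241749) (nat_lit 76) (nat_lit 143757281413) (nat_lit 76) (nat_lit 133502157428) (nat_lit 1) (nat_lit 4) (nat_lit 2) (nat_lit 5) (nat_lit 2) (nat_lit 4) (nat_lit 314) (nat_lit 234) (nat_lit 172)) (XT.lf (nat_lit 0) (nat_lit 144893828335) (nat_lit 76) (nat_lit 151328267032) (nat_lit 76) (nat_lit 141066656298) (nat_lit 1) (nat_lit 4) (nat_lit 2) (nat_lit 5) (nat_lit 2) (nat_lit 4) (nat_lit 315) (nat_lit 234) (nat_lit 171))) (XT.nd (nat_lit 78) (nat_lit 0) (nat_lit 0) (XT.lf (nat_lit 0) (nat_lit 163224842246) (nat_lit 76) (nat_lit 159508618520)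 (nat_lit 76) (nat_lit 149241001536) (nat_lit 1) (nat_lit 4) (nat_lit 2) (nat_lit 5) (nat_lit 2) (nat_lit 4) (nat_lit 316) (nat_lit 234) (nat_lit 170)) (XT.lf (nat_lit 0) (nat_lit 183014911713) (nat_lit 76) (nat_lit 168346812033) (nat_lit 76) (nat_lit 158073633707) (nat_lit 1) (nat_lit 4) (nat_lit 2) (nat_lit 5) (nat_lit 2) (nat_lit 4) (nat_lit 317) (nat_lit 234) (nat_lit 169))))))))
noncomputable def xc40 : XT := (XT.nd (nat_lit 32448) (nat_lit 0) (nat_lit 304) (XT.nd (nat_lit 936) (nat_lit 0) (nat_lit 0) (XT.nd (nat_lit 468) (nat_lit 0) (nat_lit 0) (XT.nd (nat_lit 234) (nat_lit 0) (nat_lit 0) (XT.nd (nat_lit 78) (nat_lit 0) (nat_lit 0) (XT.lf (nat_lit 0) (nat_lit 204381311220) (nat_lit 76) (nat_lit 177895222051) (nat_lit 76) (nat_lit 167616894335) (nat_lit 1) (nat_lit 4) (nat_lit 2) (nat_lit 5) (nat_lit 2) (nat_lit 4) (nat_lit 318) (nat_lit 234) (nat_lit 168)) (XT.nd (nat_lit 78)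 (nat_lit 0) (nat_lit 0) (XT.lf (nat_lit 0) (nat_lit 227450656470) (nat_lit 76) (nat_lit 188210431745) (nat_lit 76) (nat_lit 177927336075) (nat_lit 1) (nat_lit 4) (nat_lit 2) (nat_lit 5) (nat_lit 2) (nat_lit 4) (nat_lit 319) (nat_lit 234) (nat_lit 167)) (XT.lf (nat_lit 0) (nat_lit 252359654692) (nat_lit 76) (nat_lit 199353568284) (nat_lit 76) (nat_lit 189066057840) (nat_lit 1) (nat_lit 4) (nat_lit 2) (nat_lit 5) (nat_lit 2) (nat_lit 4) (nat_lit 320) (nat_lit 234) (nat_lit 166)))) (XT.nd (nat_lit 78) (nat_lit 0) (nat_lit 0) (XT.lf (nat_lit 0) (nat_lit 279255914766) (nat_lit 76) (nat_lit 211390665068) (nat_lit 76) (nat_lit 201099066873) (nat_lit 1) (nat_lit 4) (nat_lit 2) (nat_lit 5) (nat_lit 2) (nat_lit 4) (nat_lit 321) (nat_lit 234) (nat_lit 165)) (XT.nd (nat_lit 78) (nat_lit 0) (nat_lit 0) (XT.lf (nat_lit 0) (nat_lit 308298821937) (nat_lit 76) (nat_lit 224393053043) (nat_lit 76) (nat_lit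 214097669891) (nat_lit 1) (nat_lit 4) (nat_lit 2) (nat_lit 5) (nat_lit 2) (nat_lit 4) (nat_lit 322) (nat_lit 234) (nat_lit 164)) (XT.lf (nat_lit 0) (nat_lit 339660482320) (nat_lit 76) (nat_lit 238437783395) (nat_lit 76) (nat_lit 228138895655) (nat_lit 1) (nat_lit 4) (nat_lit 2) (nat_lit 5) (nat_lit 2) (nat_lit 4) (nat_lit 323) (nat_lit 234) (nat_lit 163))))) (XT.nd (nat_lit 234) (nat_lit 0) (nat_lit 0) (XT.nd (nat_lit 78) (nat_lit 0) (nat_lit 0) (XT.lf (nat_lit 0) (nat_lit 373526742792) (nat_lit 76) (nat_lit 253608084157) (nat_lit 76) (nat_lit 243305951427) (nat_lit 1) (nat_lit 4) (nat_lit 2) (nat_lit 5) (nat_lit 2) (nat_lit 4) (nat_lit 324) (nat_lit 234) (nat_lit 162)) (XT.nd (nat_lit 78) (nat_lit 0) (nat_lit 0) (XT.lf (nat_lit 0) (nat_lit 410098292304) (nat_lit 76) (nat_lit 269993853408) (nat_lit 76) (nat_lit 259688716058) (nat_lit 1) (nat_lit 4) (nat_lit 2) (nat_lit 5) (nat_lit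 2) (nat_lit 4) (nat_lit 325) (nat_lit 234) (nat_lit 161)) (XT.lf (nat_lit 0) (nat_lit 449591851150) (nat_lit 76) (nat_lit 287692192001) (nat_lit 76) (nat_lit 277384272596) (nat_lit 1) (nat_lit 4) (nat_lit 2) (nat_lit 5) (nat_lit 2) (nat_lit 4) (nat_lit 326) (nat_lit 234) (nat_lit 160)))) (XT.nd (nat_lit 78) (nat_lit 0) (nat_lit 0) (XT.lf (nat_lit 0) (nat_lit 492241455234) (nat_lit 76) (nat_lit 306807978982) (nat_lit 76) (nat_lit 296497483599) (nat_lit 1) (nat_lit 4) (nat_lit 2) (nat_lit 5) (nat_lit 2) (nat_lit 4) (nat_lit 327) (nat_lit 234) (nat_lit 159)) (XT.nd (nat_lit 78) (nat_lit 0) (nat_lit 0) (XT.lf (nat_lit 0) (nat_lit 538299842950) (nat_lit 76) (nat_lit 327454493086) (nat_lit 76) (nat_lit 317141612539) (nat_lit 1) (nat_lit 4) (nat_lit 2) (nat_lit 5) (nat_lit 2) (nat_lit 4) (nat_lit 328) (nat_lit 234) (nat_lit 158)) (XT.lf (nat_lit 0) (nat_lit 588039952893) (nat_lit 76) (nat_lit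 349754084028) (nat_lit 76) (nat_lit 339438994995) (nat_lit 1) (nat_lit 4) (nat_lit 2) (nat_lit 5) (nat_lit 2) (nat_lit 4) (nat_lit 329) (nat_lit 234) (nat_lit 157)))))) (XT.nd (nat_lit 468) (nat_lit 0) (nat_lit 0) (XT.nd (nat_lit 234) (nat_lit 0) (nat_lit 0) (XT.nd (nat_lit 78) (nat_lit 0) (nat_lit 0) (XT.lf (nat_lit 0) (nat_lit 641756541268) (nat_lit 76) (nat_lit 373838897532) (nat_lit 76) (nat_lit 363521763605) (nat_lit 1) (nat_lit 4) (nat_lit 2) (nat_lit 5) (nat_lit 2) (nat_lit 4) (nat_lit 330) (nat_lit 234) (nat_lit 156)) (XT.nd (nat_lit 78) (nat_lit 0) (nat_lit 0) (XT.lf (nat_lit 0) (nat_lit 699767928601) (nat_lit 76) (nat_lit 399851658418) (nat_lit 76) (nat_lit 389532631071) (nat_lit 1) (nat_lit 4) (nat_lit 2) (nat_lit 5) (nat_lit 2) (nat_lit 4) (nat_lit 331) (nat_lit 234) (nat_lit 155)) (XT.lf (nat_lit 0) (nat_lit 762417886075) (nat_lit 76) (nat_lit 427946516380) (nat_lit 76)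 (nat_lit 417625735866) (nat_lit 1) (nat_lit 4) (nat_lit 2) (nat_lit 5) (nat_lit 2) (nat_lit 4) (nat_lit 332) (nat_lit 234) (nat_lit 154)))) (XT.nd (nat_lit 78) (nat_lit 0) (nat_lit 0) (XT.lf (nat_lit 0) (nat_lit 830077672698) (nat_lit 76) (nat_lit 458289959466) (nat_lit 76) (nat_lit 447967555650) (nat_lit 1) (nat_lit 4) (nat_lit 2) (nat_lit 5) (nat_lit 2) (nat_lit 4) (nat_lit 333) (nat_lit 234) (nat_lit 153)) (XT.nd (nat_lit 78) (nat_lit 0) (nat_lit 0) (XT.lf (nat_lit 0) (nat_lit 903148235352) (nat_lit 76) (nat_lit 491061800672) (nat_lit 76) (nat_lit 480737893797) (nat_lit 1) (nat_lit 4) (nat_lit 2) (nat_lit 5) (nat_lit 2) (nat_lit 4) (nat_lit 334) (nat_lit 234) (nat_lit 152)) (XT.lf (nat_lit 0) (nat_lit 982062584781) (nat_lit 76) (nat_lit 526456243501) (nat_lit 76) (nat_lit 516130944906) (nat_lit 1) (nat_lit 4) (nat_lit 2) (nat_lit 5) (nat_lit 2) (nat_lit 4) (nat_lit 335) (nat_lit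 234) (nat_lit 151))))) (XT.nd (nat_lit 234) (nat_lit 0) (nat_lit 0) (XT.nd (nat_lit 78) (nat_lit 0) (nat_lit 0) (XT.lf (nat_lit 0) (nat_lit 1067288361572) (nat_lit 76) (nat_lit 564683032800) (nat_lit 76) (nat_lit 554356445575) (nat_lit 1) (nat_lit 4) (nat_lit 2) (nat_lit 5) (nat_lit 2) (nat_lit 4) (nat_lit 336) (nat_lit 234) (nat_lit 150)) (XT.nd (nat_lit 78) (nat_lit 0) (nat_lit 0) (XT.lf (nat_lit 0) (nat_lit 1159330607367) (nat_lit 76) (nat_lit 605968697690) (nat_lit 76) (nat_lit 595640917289) (nat_lit 1) (nat_lit 4) (nat_lit 2) (nat_lit 5) (nat_lit 2) (nat_lit 4) (nat_lit 337) (nat_lit 234) (nat_lit 149)) (XT.lf (nat_lit 0) (nat_lit 1258734757696) (nat_lit 76) (nat_lit 650557893963) (nat_lit 76) (nat_lit 640229008769) (nat_lit 1) (nat_lit 4) (nat_lit 2) (nat_lit 5) (nat_lit 2) (nat_lit 4) (nat_lit 338) (nat_lit 234) (nat_lit 148)))) (XT.nd (nat_lit 30654) (nat_lit 0) (nat_lit 2356)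 (XT.nd (nat_lit 30576) (nat_lit 0) (nat_lit 2888) (XT.lf (nat_lit 0) (nat_lit 1366089874190) (nat_lit 76) (nat_lit 698714853894) (nat_lit 76) (nat_lit 688384945744) (nat_lit 1) (nat_lit 4) (nat_lit 2) (nat_lit 5) (nat_lit 2) (nat_lit 4) (nat_lit 339) (nat_lit 234) (nat_lit 147)) (XT.lf (nat_lit 0) (nat_lit 1692652379) (nat_lit 380) (nat_lit 966918304) (nat_lit 380) (nat_lit 966918304) (nat_lit 39) (nat_lit 4) (nat_lit 44) (nat_lit 5) (nat_lit 44) (nat_lit 4) (nat_lit 250) (nat_lit 235) (nat_lit 235))) (XT.nd (nat_lit 78) (nat_lit 0) (nat_lit 0) (XT.lf (nat_lit 0) (nat_lit 700819326) (nat_lit 456) (nat_lit 372405611) (nat_lit 532) (nat_lit 6364318019) (nat_lit 32) (nat_lit 5) (nat_lit 38) (nat_lit 5) (nat_lit 39) (nat_lit 4) (nat_lit 251) (nat_lit 235) (nat_lit 234)) (XT.lf (nat_lit 0) (nat_lit 4125429715) (nat_lit 532) (nat_lit 2121909392) (nat_lit 0) (nat_lit 1394380182) (nat_lit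 32) (nat_lit 5) (nat_lit 39) (nat_lit 4) (nat_lit 32) (nat_lit 4) (nat_lit 252) (nat_lit 235) (nat_lit 233))))))) (XT.nd (nat_lit 936) (nat_lit 608) (nat_lit 0) (XT.nd (nat_lit 468) (nat_lit 532) (nat_lit 0) (XT.nd (nat_lit 234) (nat_lit 456) (nat_lit 0) (XT.nd (nat_lit 78) (nat_lit 228) (nat_lit 0) (XT.lf (nat_lit 0) (nat_lit 2745626581) (nat_lit 228) (nat_lit 4537963308) (nat_lit 228) (nat_lit 591168792) (nat_lit 29) (nat_lit 4) (nat_lit 32) (nat_lit 5) (nat_lit 32) (nat_lit 4) (nat_lit 253) (nat_lit 235) (nat_lit 232)) (XT.nd (nat_lit 78) (nat_lit 152) (nat_lit 0) (XT.lf (nat_lit 0) (nat_lit 2288635054) (nat_lit 304) (nat_lit 312123401) (nat_lit 76) (nat_lit 5534072724) (nat_lit 28) (nat_lit 5) (nat_lit 32) (nat_lit 5) (nat_lit 29) (nat_lit 4) (nat_lit 254) (nat_lit 235) (nat_lit 231)) (XT.lf (nat_lit 0) (nat_lit 4887633367) (nat_lit 152) (nat_lit 401993100) (nat_lit 228) (nat_lit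 3132203214) (nat_lit 26) (nat_lit 5) (nat_lit 28) (nat_lit 5) (nat_lit 29) (nat_lit 4) (nat_lit 255) (nat_lit 235) (nat_lit 230)))) (XT.nd (nat_lit 78) (nat_lit 228) (nat_lit 0) (XT.lf (nat_lit 0) (nat_lit 1580545119) (nat_lit 228) (nat_lit 6857590240) (nat_lit 228) (nat_lit 302139080) (nat_lit 23) (nat_lit 4) (nat_lit 26) (nat_lit 5) (nat_lit 26) (nat_lit 4) (nat_lit 256) (nat_lit 235) (nat_lit 229)) (XT.nd (nat_lit 78) (nat_lit 152) (nat_lit 0) (XT.lf (nat_lit 0) (nat_lit 2541956318) (nat_lit 304) (nat_lit 2095597624) (nat_lit 76) (nat_lit 4448235939) (nat_lit 22) (nat_lit 5) (nat_lit 26) (nat_lit 5) (nat_lit 23) (nat_lit 4) (nat_lit 257) (nat_lit 235) (nat_lit 228)) (XT.lf (nat_lit 0) (nat_lit 3303868327) (nat_lit 152) (nat_lit 2202314681) (nat_lit 228) (nat_lit 3960280042) (nat_lit 20) (nat_lit 5) (nat_lit 22) (nat_lit 5) (nat_lit 23) (nat_lit 4) (nat_lit 258) (nat_lit 235) (nat_lit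 227))))) (XT.nd (nat_lit 234) (nat_lit 304) (nat_lit 0) (XT.nd (nat_lit 78) (nat_lit 228) (nat_lit 0) (XT.lf (nat_lit 0) (nat_lit 8611994422) (nat_lit 228) (nat_lit 864232838) (nat_lit 0) (nat_lit 409801967) (nat_lit 20) (nat_lit 5) (nat_lit 23) (nat_lit 4) (nat_lit 20) (nat_lit 4) (nat_lit 259) (nat_lit 235) (nat_lit 226)) (XT.nd (nat_lit 78) (nat_lit 0) (nat_lit 0) (XT.lf (nat_lit 0) (nat_lit 1566384186) (nat_lit 228) (nat_lit 5552288520) (nat_lit 76) (nat_lit 3216385411) (nat_lit 17) (nat_lit 5) (nat_lit 20) (nat_lit 5) (nat_lit 18) (nat_lit 4) (nat_lit 260) (nat_lit 235) (nat_lit 225)) (XT.lf (nat_lit 0) (nat_lit 4438786201) (nat_lit 228) (nat_lit 140817489) (nat_lit 76) (nat_lit 6248502850) (nat_lit 17) (nat_lit 5) (nat_lit 20) (nat_lit 5) (nat_lit 18) (nat_lit 4) (nat_lit 261) (nat_lit 235) (nat_lit 224)))) (XT.nd (nat_lit 78) (nat_lit 228) (nat_lit 0) (XT.lf (nat_lit 0) (nat_lit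 5789797679) (nat_lit 76) (nat_lit 1750924749) (nat_lit 152) (nat_lit 3820481306) (nat_lit 16) (nat_lit 5) (nat_lit 17) (nat_lit 5) (nat_lit 18) (nat_lit 4) (nat_lit 262) (nat_lit 235) (nat_lit 223)) (XT.nd (nat_lit 78) (nat_lit 76) (nat_lit 0) (XT.lf (nat_lit 0) (nat_lit 28216494) (nat_lit 152) (nat_lit 10763104286) (nat_lit 152) (nat_lit 1154128330) (nat_lit 14) (nat_lit 4) (nat_lit 16) (nat_lit 5) (nat_lit 16) (nat_lit 4) (nat_lit 263) (nat_lit 235) (nat_lit 222)) (XT.lf (nat_lit 0) (nat_lit 1706798217) (nat_lit 228) (nat_lit 6472749467) (nat_lit 76) (nat_lit 4388623632) (nat_lit 13) (nat_lit 5) (nat_lit 16) (nat_lit 5) (nat_lit 14) (nat_lit 4) (nat_lit 264) (nat_lit 235) (nat_lit 221)))))) (XT.nd (nat_lit 468) (nat_lit 304) (nat_lit 0) (XT.nd (nat_lit 234) (nat_lit 228) (nat_lit 0) (XT.nd (nat_lit 78) (nat_lit 76) (nat_lit 0) (XT.lf (nat_lit 0) (nat_lit 4610001647) (nat_lit 228)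 (nat_lit 817339853) (nat_lit 76) (nat_lit 7821340605) (nat_lit 13) (nat_lit 5) (nat_lit 16) (nat_lit 5) (nat_lit 14) (nat_lit 4) (nat_lit 265) (nat_lit 235) (nat_lit 220)) (XT.nd (nat_lit 78) (nat_lit 0) (nat_lit 0) (XT.lf (nat_lit 0) (nat_lit 5379364157) (nat_lit 76) (nat_lit 2380429982) (nat_lit 152) (nat_lit 6223090637) (nat_lit 12) (nat_lit 5) (nat_lit 13) (nat_lit 5) (nat_lit 14) (nat_lit 4) (nat_lit 266) (nat_lit 235) (nat_lit 219)) (XT.lf (nat_lit 0) (nat_lit 11094083201) (nat_lit 152) (nat_lit 2861559365) (nat_lit 0) (nat_lit 825948224) (nat_lit 12) (nat_lit 5) (nat_lit 14) (nat_lit 4) (nat_lit 12) (nat_lit 4) (nat_lit 267) (nat_lit 235) (nat_lit 218)))) (XT.nd (nat_lit 78) (nat_lit 76) (nat_lit 0) (XT.lf (nat_lit 0) (nat_lit 3271841670) (nat_lit 152) (nat_lit 11459803933) (nat_lit 152) (nat_lit 909966177) (nat_lit 10) (nat_lit 4) (nat_lit 12) (nat_lit 5) (nat_lit 12) (nat_lit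 4) (nat_lit 268) (nat_lit 235) (nat_lit 217)) (XT.nd (nat_lit 78) (nat_lit 0) (nat_lit 0) (XT.lf (nat_lit 0) (nat_lit 1962343957) (nat_lit 228) (nat_lit 6728998231) (nat_lit 76) (nat_lit 7877195432) (nat_lit 9) (nat_lit 5) (nat_lit 12) (nat_lit 5) (nat_lit 10) (nat_lit 4) (nat_lit 269) (nat_lit 235) (nat_lit 216)) (XT.lf (nat_lit 0) (nat_lit 4919751428) (nat_lit 228) (nat_lit 819105420) (nat_lit 76) (nat_lit 11836782521) (nat_lit 9) (nat_lit 5) (nat_lit 12) (nat_lit 5) (nat_lit 10) (nat_lit 4) (nat_lit 270) (nat_lit 235) (nat_lit 215))))) (XT.nd (nat_lit 234) (nat_lit 228) (nat_lit 0) (XT.nd (nat_lit 78) (nat_lit 0) (nat_lit 0) (XT.lf (nat_lit 0) (nat_lit 5702054475) (nat_lit 76) (nat_lit 2460381878) (nat_lit 152) (nat_lit 10497228696) (nat_lit 8) (nat_lit 5) (nat_lit 9) (nat_lit 5) (nat_lit 10) (nat_lit 4) (nat_lit 271) (nat_lit 235) (nat_lit 214)) (XT.nd (nat_lit 78) (nat_lit 0)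 (nat_lit 0) (XT.lf (nat_lit 0) (nat_lit 11626770403) (nat_lit 152) (nat_lit 7212415151) (nat_lit 0) (nat_lit 994480502) (nat_lit 8) (nat_lit 5) (nat_lit 10) (nat_lit 4) (nat_lit 8) (nat_lit 4) (nat_lit 272) (nat_lit 235) (nat_lit 213)) (XT.lf (nat_lit 0) (nat_lit 15351855234) (nat_lit 152) (nat_lit 1209213619) (nat_lit 0) (nat_lit 4542044797) (nat_lit 8) (nat_lit 5) (nat_lit 10) (nat_lit 4) (nat_lit 8) (nat_lit 4) (nat_lit 273) (nat_lit 235) (nat_lit 212)))) (XT.nd (nat_lit 156) (nat_lit 152) (nat_lit 0) (XT.nd (nat_lit 78) (nat_lit 0) (nat_lit 0) (XT.lf (nat_lit 0) (nat_lit 5417759038) (nat_lit 76) (nat_lit 14013131376) (nat_lit 76) (nat_lit 3038950073) (nat_lit 7) (nat_lit 4) (nat_lit 8) (nat_lit 5) (nat_lit 8) (nat_lit 4) (nat_lit 274) (nat_lit 235) (nat_lit 211)) (XT.lf (nat_lit 0) (nat_lit 12519383245) (nat_lit 76) (nat_lit 11278092390) (nat_lit 76) (nat_lit 151715840) (nat_lit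 7) (nat_lit 4) (nat_lit 8) (nat_lit 5) (nat_lit 8) (nat_lit 4) (nat_lit 275) (nat_lit 235) (nat_lit 210))) (XT.nd (nat_lit 78) (nat_lit 76) (nat_lit 0) (XT.lf (nat_lit 0) (nat_lit 2749697571) (nat_lit 152) (nat_lit 5547927125) (nat_lit 76) (nat_lit 17249188478) (nat_lit 6) (nat_lit 5) (nat_lit 8) (nat_lit 5) (nat_lit 7) (nat_lit 4) (nat_lit 276) (nat_lit 235) (nat_lit 209)) (XT.lf (nat_lit 0) (nat_lit 726898770) (nat_lit 76) (nat_lit 5102274180) (nat_lit 152) (nat_lit 21446570976) (nat_lit 5) (nat_lit 5) (nat_lit 6) (nat_lit 5) (nat_lit 7) (nat_lit 4) (nat_lit 277) (nat_lit 235) (nat_lit 208))))))))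
noncomputable def xc41 : XT := (XT.nd (nat_lit 1950) (nat_lit 76) (nat_lit 0) (XT.nd (nat_lit 936) (nat_lit 0) (nat_lit 0) (XT.nd (nat_lit 468) (nat_lit 152) (nat_lit 0) (XT.nd (nat_lit 234) (nat_lit 76) (nat_lit 0) (XT.nd (nat_lit 78) (nat_lit 0) (nat_lit 0) (XT.lf (nat_lit 0) (nat_lit 7711984327) (nat_lit 76) (nat_lit 1533488166) (nat_lit 152) (nat_lit 19890414735) (nat_lit 5) (nat_lit 5) (nat_lit 6) (nat_lit 5) (nat_lit 7) (nat_lit 4) (nat_lit 278) (nat_lit 235) (nat_lit 207)) (XT.nd (nat_lit 78) (nat_lit 0) (nat_lit 0) (XT.lf (nat_lit 0) (nat_lit 12933177650) (nat_lit 152) (nat_lit 16047714389) (nat_lit 0) (nat_lit 2164227177) (nat_lit 5) (nat_lit 5) (nat_lit 7) (nat_lit 4) (nat_lit 5) (nat_lit 4) (nat_lit 279) (nat_lit 235) (nat_lit 206)) (XT.lf (nat_lit 0) (nat_lit 16902291502) (nat_lit 152) (nat_lit 10376570737) (nat_lit 0) (nat_lit 6037432207) (nat_lit 5) (nat_lit 5) (nat_lit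 7) (nat_lit 4) (nat_lit 5) (nat_lit 4) (nat_lit 280) (nat_lit 235) (nat_lit 205)))) (XT.nd (nat_lit 78) (nat_lit 76) (nat_lit 0) (XT.lf (nat_lit 0) (nat_lit 21139454297) (nat_lit 152) (nat_lit 4339984744) (nat_lit 0) (nat_lit 10185790538) (nat_lit 5) (nat_lit 5) (nat_lit 7) (nat_lit 4) (nat_lit 5) (nat_lit 4) (nat_lit 281) (nat_lit 235) (nat_lit 204)) (XT.nd (nat_lit 78) (nat_lit 0) (nat_lit 0) (XT.lf (nat_lit 0) (nat_lit 2208283223) (nat_lit 76) (nat_lit 23514601189) (nat_lit 76) (nat_lit 12478711074) (nat_lit 4) (nat_lit 4) (nat_lit 5) (nat_lit 5) (nat_lit 5) (nat_lit 4) (nat_lit 282) (nat_lit 235) (nat_lit 203)) (XT.lf (nat_lit 0) (nat_lit 9447587894) (nat_lit 76) (nat_lit 21299727223) (nat_lit 76) (nat_lit 10187701593) (nat_lit 4) (nat_lit 4) (nat_lit 5) (nat_lit 5) (nat_lit 5) (nat_lit 4) (nat_lit 283) (nat_lit 235) (nat_lit 202))))) (XT.nd (nat_lit 234) (nat_lit 152) (nat_lit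 0) (XT.nd (nat_lit 78) (nat_lit 0) (nat_lit 0) (XT.lf (nat_lit 0) (nat_lit 17192292944) (nat_lit 76) (nat_lit 18940354838) (nat_lit 76) (nat_lit 7757833361) (nat_lit 4) (nat_lit 4) (nat_lit 5) (nat_lit 5) (nat_lit 5) (nat_lit 4) (nat_lit 284) (nat_lit 235) (nat_lit 201)) (XT.nd (nat_lit 78) (nat_lit 0) (nat_lit 0) (XT.lf (nat_lit 0) (nat_lit 25488292923) (nat_lit 76) (nat_lit 16422502568) (nat_lit 76) (nat_lit 5174707159) (nat_lit 4) (nat_lit 4) (nat_lit 5) (nat_lit 5) (nat_lit 5) (nat_lit 4) (nat_lit 285) (nat_lit 235) (nat_lit 200)) (XT.lf (nat_lit 0) (nat_lit 34384749312) (nat_lit 76) (nat_lit 13731249808) (nat_lit 76) (nat_lit 2423015573) (nat_lit 4) (nat_lit 4) (nat_lit 5) (nat_lit 5) (nat_lit 5) (nat_lit 4) (nat_lit 286) (nat_lit 235) (nat_lit 199)))) (XT.nd (nat_lit 78) (nat_lit 76) (nat_lit 0) (XT.lf (nat_lit 0) (nat_lit 487857982) (nat_lit 152) (nat_lit 10349451508) (nat_lit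 76) (nat_lit 43433184969) (nat_lit 3) (nat_lit 5) (nat_lit 5) (nat_lit 5) (nat_lit 4) (nat_lit 4) (nat_lit 287) (nat_lit 235) (nat_lit 198)) (XT.nd (nat_lit 78) (nat_lit 76) (nat_lit 0) (XT.lf (nat_lit 0) (nat_lit 3469677504) (nat_lit 152) (nat_lit 4199083455) (nat_lit 76) (nat_lit 50629236324) (nat_lit 3) (nat_lit 5) (nat_lit 5) (nat_lit 5) (nat_lit 4) (nat_lit 4) (nat_lit 288) (nat_lit 235) (nat_lit 197)) (XT.lf (nat_lit 0) (nat_lit 2517494245) (nat_lit 76) (nat_lit 4204373638) (nat_lit 152) (nat_lit 55923340186) (nat_lit 2) (nat_lit 5) (nat_lit 3) (nat_lit 5) (nat_lit 4) (nat_lit 4) (nat_lit 289) (nat_lit 235) (nat_lit 196)))))) (XT.nd (nat_lit 468) (nat_lit 0) (nat_lit 0) (XT.nd (nat_lit 234) (nat_lit 0) (nat_lit 0) (XT.nd (nat_lit 78) (nat_lit 0) (nat_lit 0) (XT.lf (nat_lit 0) (nat_lit 9959758958) (nat_lit 76) (nat_lit 361478663) (nat_lit 152) (nat_lit 57012047548) (nat_lit 2)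 (nat_lit 5) (nat_lit 3) (nat_lit 5) (nat_lit 4) (nat_lit 4) (nat_lit 290) (nat_lit 235) (nat_lit 195)) (XT.nd (nat_lit 78) (nat_lit 0) (nat_lit 0) (XT.lf (nat_lit 0) (nat_lit 14273428162) (nat_lit 152) (nat_lit 54538435306) (nat_lit 0) (nat_lit 3579401361) (nat_lit 2) (nat_lit 5) (nat_lit 4) (nat_lit 4) (nat_lit 2) (nat_lit 4) (nat_lit 291) (nat_lit 235) (nat_lit 194)) (XT.lf (nat_lit 0) (nat_lit 18526876834) (nat_lit 152) (nat_lit 51530657516) (nat_lit 0) (nat_lit 7797584560) (nat_lit 2) (nat_lit 5) (nat_lit 4) (nat_lit 4) (nat_lit 2) (nat_lit 4) (nat_lit 292) (nat_lit 235) (nat_lit 193)))) (XT.nd (nat_lit 78) (nat_lit 0) (nat_lit 0) (XT.lf (nat_lit 0) (nat_lit 23098095691) (nat_lit 152) (nat_lit 48323675399) (nat_lit 0) (nat_lit 12336150199) (nat_lit 2) (nat_lit 5) (nat_lit 4) (nat_lit 4) (nat_lit 2) (nat_lit 4) (nat_lit 293) (nat_lit 235) (nat_lit 192)) (XT.nd (nat_lit 78) (nat_lit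 0) (nat_lit 0) (XT.lf (nat_lit 0) (nat_lit 28014173437) (nat_lit 152) (nat_lit 44898484618) (nat_lit 0) (nat_lit 17221993484) (nat_lit 2) (nat_lit 5) (nat_lit 4) (nat_lit 4) (nat_lit 2) (nat_lit 4) (nat_lit 294) (nat_lit 235) (nat_lit 191)) (XT.lf (nat_lit 0) (nat_lit 33304242383) (nat_lit 152) (nat_lit 41234787746) (nat_lit 0) (nat_lit 22484067559) (nat_lit 2) (nat_lit 5) (nat_lit 4) (nat_lit 4) (nat_lit 2) (nat_lit 4) (nat_lit 295) (nat_lit 235) (nat_lit 190))))) (XT.nd (nat_lit 234) (nat_lit 0) (nat_lit 0) (XT.nd (nat_lit 78) (nat_lit 0) (nat_lit 0) (XT.lf (nat_lit 0) (nat_lit 38999651086) (nat_lit 152) (nat_lit 37310873987) (nat_lit 0) (nat_lit 28153555086) (nat_lit 2) (nat_lit 5) (nat_lit 4) (nat_lit 4) (nat_lit 2) (nat_lit 4) (nat_lit 296) (nat_lit 235) (nat_lit 189)) (XT.nd (nat_lit 78) (nat_lit 0) (nat_lit 0) (XT.lf (nat_lit 0) (nat_lit 45134150117) (nat_lit 152) (nat_lit 33103490519)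 (nat_lit 0) (nat_lit 34264053028) (nat_lit 2) (nat_lit 5) (nat_lit 4) (nat_lit 4) (nat_lit 2) (nat_lit 4) (nat_lit 297) (nat_lit 235) (nat_lit 188)) (XT.lf (nat_lit 0) (nat_lit 51744092063) (nat_lit 152) (nat_lit 28587704698) (nat_lit 0) (nat_lit 40851771742) (nat_lit 2) (nat_lit 5) (nat_lit 4) (nat_lit 4) (nat_lit 2) (nat_lit 4) (nat_lit 298) (nat_lit 235) (nat_lit 187)))) (XT.nd (nat_lit 156) (nat_lit 0) (nat_lit 0) (XT.nd (nat_lit 78) (nat_lit 0) (nat_lit 0) (XT.lf (nat_lit 0) (nat_lit 58868646950) (nat_lit 152) (nat_lit 23736756312) (nat_lit 0) (nat_lit 47955749563) (nat_lit 2) (nat_lit 5) (nat_lit 4) (nat_lit 4) (nat_lit 2) (nat_lit 4) (nat_lit 299) (nat_lit 235) (nat_lit 186)) (XT.lf (nat_lit 0) (nat_lit 66550034361) (nat_lit 152) (nat_lit 18521899001) (nat_lit 0) (nat_lit 55618084136) (nat_lit 2) (nat_lit 5) (nat_lit 4) (nat_lit 4) (nat_lit 2) (nat_lit 4) (nat_lit 300) (nat_lit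 235) (nat_lit 185))) (XT.nd (nat_lit 78) (nat_lit 0) (nat_lit 0) (XT.lf (nat_lit 0) (nat_lit 74833773631) (nat_lit 152) (nat_lit 12912229907) (nat_lit 0) (nat_lit 63884181889) (nat_lit 2) (nat_lit 5) (nat_lit 4) (nat_lit 4) (nat_lit 2) (nat_lit 4) (nat_lit 301) (nat_lit 235) (nat_lit 184)) (XT.lf (nat_lit 0) (nat_lit 83768953585) (nat_lit 152) (nat_lit 6874506545) (nat_lit 0) (nat_lit 72803027104) (nat_lit 2) (nat_lit 5) (nat_lit 4) (nat_lit 4) (nat_lit 2) (nat_lit 4) (nat_lit 302) (nat_lit 235) (nat_lit 183))))))) (XT.nd (nat_lit 936) (nat_lit 0) (nat_lit 0) (XT.nd (nat_lit 468) (nat_lit 0) (nat_lit 0) (XT.nd (nat_lit 234) (nat_lit 0) (nat_lit 0) (XT.nd (nat_lit 78) (nat_lit 76) (nat_lit 0) (XT.lf (nat_lit 0) (nat_lit 93408523436) (nat_lit 152) (nat_lit 372949815) (nat_lit 0) (nat_lit 82427472198) (nat_lit 2) (nat_lit 5) (nat_lit 4) (nat_lit 4) (nat_lit 2) (nat_lit 4) (nat_lit 303)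 (nat_lit 235) (nat_lit 182)) (XT.nd (nat_lit 78) (nat_lit 0) (nat_lit 0) (XT.lf (nat_lit 0) (nat_lit 6980143051) (nat_lit 76) (nat_lit 96997336120) (nat_lit 76) (nat_lit 86002280476) (nat_lit 1) (nat_lit 4) (nat_lit 2) (nat_lit 5) (nat_lit 2) (nat_lit 4) (nat_lit 304) (nat_lit 235) (nat_lit 181)) (XT.lf (nat_lit 0) (nat_lit 14925379615) (nat_lit 76) (nat_lit 100467415136) (nat_lit 76) (nat_lit 89459392450) (nat_lit 1) (nat_lit 4) (nat_lit 2) (nat_lit 5) (nat_lit 2) (nat_lit 4) (nat_lit 305) (nat_lit 235) (nat_lit 180)))) (XT.nd (nat_lit 78) (nat_lit 0) (nat_lit 0) (XT.lf (nat_lit 0) (nat_lit 23490203882) (nat_lit 76) (nat_lit 104222470840) (nat_lit 76) (nat_lit 93202441635) (nat_lit 1) (nat_lit 4) (nat_lit 2) (nat_lit 5) (nat_lit 2) (nat_lit 4) (nat_lit 306) (nat_lit 235) (nat_lit 179)) (XT.nd (nat_lit 78) (nat_lit 0) (nat_lit 0) (XT.lf (nat_lit 0) (nat_lit 32725370367) (nat_lit 76)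 (nat_lit 108284755416) (nat_lit 76) (nat_lit 97253609062) (nat_lit 1) (nat_lit 4) (nat_lit 2) (nat_lit 5) (nat_lit 2) (nat_lit 4) (nat_lit 307) (nat_lit 235) (nat_lit 178)) (XT.lf (nat_lit 0) (nat_lit 42685605983) (nat_lit 76) (nat_lit 112678341660) (nat_lit 76) (nat_lit 101636901650) (nat_lit 1) (nat_lit 4) (nat_lit 2) (nat_lit 5) (nat_lit 2) (nat_lit 4) (nat_lit 308) (nat_lit 235) (nat_lit 177))))) (XT.nd (nat_lit 234) (nat_lit 0) (nat_lit 0) (XT.nd (nat_lit 78) (nat_lit 0) (nat_lit 0) (XT.lf (nat_lit 0) (nat_lit 53429934346) (nat_lit 76) (nat_lit 117429265639) (nat_lit 76) (nat_lit 106378294466) (nat_lit 1) (nat_lit 4) (nat_lit 2) (nat_lit 5) (nat_lit 2) (nat_lit 4) (nat_lit 309) (nat_lit 235) (nat_lit 176)) (XT.nd (nat_lit 78) (nat_lit 0) (nat_lit 0) (XT.lf (nat_lit 0) (nat_lit 65022025553) (nat_lit 76) (nat_lit 122565680976) (nat_lit 76) (nat_lit 111505884653) (nat_lit 1) (nat_lit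 4) (nat_lit 2) (nat_lit 5) (nat_lit 2) (nat_lit 4) (nat_lit 310) (nat_lit 235) (nat_lit 175)) (XT.lf (nat_lit 0) (nat_lit 77530573476) (nat_lit 76) (nat_lit 128118025689) (nat_lit 76) (nat_lit 117050057929) (nat_lit 1) (nat_lit 4) (nat_lit 2) (nat_lit 5) (nat_lit 2) (nat_lit 4) (nat_lit 311) (nat_lit 235) (nat_lit 174)))) (XT.nd (nat_lit 78) (nat_lit 0) (nat_lit 0) (XT.lf (nat_lit 0) (nat_lit 91029702844) (nat_lit 76) (nat_lit 134119202560) (nat_lit 76) (nat_lit 123043668656) (nat_lit 1) (nat_lit 4) (nat_lit 2) (nat_lit 5) (nat_lit 2) (nat_lit 4) (nat_lit 312) (nat_lit 235) (nat_lit 173)) (XT.nd (nat_lit 78) (nat_lit 0) (nat_lit 0) (XT.lf (nat_lit 0) (nat_lit 105599408497) (nat_lit 76) (nat_lit 140604774119) (nat_lit 76) (nat_lit 129522234526) (nat_lit 1) (nat_lit 4) (nat_lit 2) (nat_lit 5) (nat_lit 2) (nat_lit 4) (nat_lit 313) (nat_lit 235) (nat_lit 172)) (XT.lf (nat_lit 0) (nat_lit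 121326029433) (nat_lit 76) (nat_lit 147613173384) (nat_lit 76) (nat_lit 136524147042) (nat_lit 1) (nat_lit 4) (nat_lit 2) (nat_lit 5) (nat_lit 2) (nat_lit 4) (nat_lit 314) (nat_lit 235) (nat_lit 171)))))) (XT.nd (nat_lit 468) (nat_lit 0) (nat_lit 0) (XT.nd (nat_lit 234) (nat_lit 0) (nat_lit 0) (XT.nd (nat_lit 78) (nat_lit 0) (nat_lit 0) (XT.lf (nat_lit 0) (nat_lit 138302760441) (nat_lit 76) (nat_lit 155185931609) (nat_lit 76) (nat_lit 144090899017) (nat_lit 1) (nat_lit 4) (nat_lit 2) (nat_lit 5) (nat_lit 2) (nat_lit 4) (nat_lit 315) (nat_lit 235) (nat_lit 170)) (XT.nd (nat_lit 78) (nat_lit 0) (nat_lit 0) (XT.lf (nat_lit 0) (nat_lit 156630204372) (nat_lit 76) (nat_lit 163367924397) (nat_lit 76) (nat_lit 152267330464) (nat_lit 1) (nat_lit 4) (nat_lit 2) (nat_lit 5) (nat_lit 2) (nat_lit 4) (nat_lit 316) (nat_lit 235) (nat_lit 169)) (XT.lf (nat_lit 0) (nat_lit 176416968302) (nat_lit 76)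 (nat_lit 172207637633) (nat_lit 76) (nat_lit 161101894309) (nat_lit 1) (nat_lit 4) (nat_lit 2) (nat_lit 5) (nat_lit 2) (nat_lit 4) (nat_lit 317) (nat_lit 235) (nat_lit 168)))) (XT.nd (nat_lit 78) (nat_lit 0) (nat_lit 0) (XT.lf (nat_lit 0) (nat_lit 197780307128) (nat_lit 76) (nat_lit 181757454803) (nat_lit 76) (nat_lit 170646943524) (nat_lit 1) (nat_lit 4) (nat_lit 2) (nat_lit 5) (nat_lit 2) (nat_lit 4) (nat_lit 318) (nat_lit 235) (nat_lit 167)) (XT.nd (nat_lit 78) (nat_lit 0) (nat_lit 0) (XT.lf (nat_lit 0) (nat_lit 220846818412) (nat_lit 76) (nat_lit 192073967415) (nat_lit 76) (nat_lit 180959041363) (nat_lit 1) (nat_lit 4) (nat_lit 2) (nat_lit 5) (nat_lit 2) (nat_lit 4) (nat_lit 319) (nat_lit 235) (nat_lit 166)) (XT.lf (nat_lit 0) (nat_lit 245753192593) (nat_lit 76) (nat_lit 203218310358) (nat_lit 76) (nat_lit 192099296555) (nat_lit 1) (nat_lit 4) (nat_lit 2) (nat_lit 5) (nat_lit 2)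 (nat_lit 4) (nat_lit 320) (nat_lit 235) (nat_lit 165))))) (XT.nd (nat_lit 234) (nat_lit 0) (nat_lit 0) (XT.nd (nat_lit 78) (nat_lit 0) (nat_lit 0) (XT.lf (nat_lit 0) (nat_lit 272647022999) (nat_lit 76) (nat_lit 215256524185) (nat_lit 76) (nat_lit 204133725425) (nat_lit 1) (nat_lit 4) (nat_lit 2) (nat_lit 5) (nat_lit 2) (nat_lit 4) (nat_lit 321) (nat_lit 235) (nat_lit 164)) (XT.nd (nat_lit 78) (nat_lit 0) (nat_lit 0) (XT.lf (nat_lit 0) (nat_lit 301687680477) (nat_lit 76) (nat_lit 228259946457) (nat_lit 76) (nat_lit 217133643109) (nat_lit 1) (nat_lit 4) (nat_lit 2) (nat_lit 5) (nat_lit 2) (nat_lit 4) (nat_lit 322) (nat_lit 235) (nat_lit 163)) (XT.lf (nat_lit 0) (nat_lit 333047257811) (nat_lit 76) (nat_lit 242305634493) (nat_lit 76) (nat_lit 231176086155) (nat_lit 1) (nat_lit 4) (nat_lit 2) (nat_lit 5) (nat_lit 2) (nat_lit 4) (nat_lit 323) (nat_lit 235) (nat_lit 162)))) (XT.nd (nat_lit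 156) (nat_lit 0) (nat_lit 0) (XT.nd (nat_lit 78) (nat_lit 0) (nat_lit 0) (XT.lf (nat_lit 0) (nat_lit 366911589534) (nat_lit 76) (nat_lit 257476821999) (nat_lit 76) (nat_lit 246344269041) (nat_lit 1) (nat_lit 4) (nat_lit 2) (nat_lit 5) (nat_lit 2) (nat_lit 4) (nat_lit 324) (nat_lit 235) (nat_lit 161)) (XT.lf (nat_lit 0) (nat_lit 403481353168) (nat_lit 76) (nat_lit 273863412309) (nat_lit 76) (nat_lit 262728077295) (nat_lit 1) (nat_lit 4) (nat_lit 2) (nat_lit 5) (nat_lit 2) (nat_lit 4) (nat_lit 325) (nat_lit 235) (nat_lit 160))) (XT.nd (nat_lit 78) (nat_lit 0) (nat_lit 0) (XT.lf (nat_lit 0) (nat_lit 442973258423) (nat_lit 76) (nat_lit 291562511142) (nat_lit 76) (nat_lit 280424600151) (nat_lit 1) (nat_lit 4) (nat_lit 2) (nat_lit 5) (nat_lit 2) (nat_lit 4) (nat_lit 326) (nat_lit 235) (nat_lit 159)) (XT.lf (nat_lit 0) (nat_lit 485621331404) (nat_lit 76) (nat_lit 310679002049) (nat_lit 76)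 (nat_lit 299538705893) (nat_lit 1) (nat_lit 4) (nat_lit 2) (nat_lit 5) (nat_lit 2) (nat_lit 4) (nat_lit 327) (nat_lit 235) (nat_lit 158))))))))
noncomputable def xc42 : XT := (XT.nd (nat_lit 32292) (nat_lit 0) (nat_lit 228) (XT.nd (nat_lit 31278) (nat_lit 0) (nat_lit 1216) (XT.nd (nat_lit 468) (nat_lit 0) (nat_lit 0) (XT.nd (nat_lit 234) (nat_lit 0) (nat_lit 0) (XT.nd (nat_lit 78) (nat_lit 0) (nat_lit 0) (XT.lf (nat_lit 0) (nat_lit 531678301432) (nat_lit 76) (nat_lit 331326167936) (nat_lit 76) (nat_lit 320183663296) (nat_lit 1) (nat_lit 4) (nat_lit 2) (nat_lit 5) (nat_lit 2) (nat_lit 4) (nat_lit 328) (nat_lit 235) (nat_lit 157)) (XT.nd (nat_lit 78) (nat_lit 0) (nat_lit 0) (XT.lf (nat_lit 0) (nat_lit 581417098700) (nat_lit 76) (nat_lit 353626362381) (nat_lit 76) (nat_lit 342481812847) (nat_lit 1) (nat_lit 4) (nat_lit 2) (nat_lit 5) (nat_lit 2) (nat_lit 4) (nat_lit 329) (nat_lit 235)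 (nat_lit 156)) (XT.lf (nat_lit 0) (nat_lit 635132471637) (nat_lit 76) (nat_lit 377711734684) (nat_lit 76) (nat_lit 366565291729) (nat_lit 1) (nat_lit 4) (nat_lit 2) (nat_lit 5) (nat_lit 2) (nat_lit 4) (nat_lit 330) (nat_lit 235) (nat_lit 155)))) (XT.nd (nat_lit 78) (nat_lit 0) (nat_lit 0) (XT.lf (nat_lit 0) (nat_lit 693142733563) (nat_lit 76) (nat_lit 403725012976) (nat_lit 76) (nat_lit 392576816855) (nat_lit 1) (nat_lit 4) (nat_lit 2) (nat_lit 5) (nat_lit 2) (nat_lit 4) (nat_lit 331) (nat_lit 235) (nat_lit 154)) (XT.nd (nat_lit 78) (nat_lit 0) (nat_lit 0) (XT.lf (nat_lit 0) (nat_lit 755791648994) (nat_lit 76) (nat_lit 431820350019) (nat_lit 76) (nat_lit 420670530594) (nat_lit 1) (nat_lit 4) (nat_lit 2) (nat_lit 5) (nat_lit 2) (nat_lit 4) (nat_lit 332) (nat_lit 235) (nat_lit 153)) (XT.lf (nat_lit 0) (nat_lit 823450470762) (nat_lit 76) (nat_lit 462164236698) (nat_lit 76) (nat_lit 451012914215)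 (nat_lit 1) (nat_lit 4) (nat_lit 2) (nat_lit 5) (nat_lit 2) (nat_lit 4) (nat_lit 333) (nat_lit 235) (nat_lit 152))))) (XT.nd (nat_lit 234) (nat_lit 0) (nat_lit 0) (XT.nd (nat_lit 78) (nat_lit 0) (nat_lit 0) (XT.lf (nat_lit 0) (nat_lit 896520140033) (nat_lit 76) (nat_lit 494936488638) (nat_lit 76) (nat_lit 483783774435) (nat_lit 1) (nat_lit 4) (nat_lit 2) (nat_lit 5) (nat_lit 2) (nat_lit 4) (nat_lit 334) (nat_lit 235) (nat_lit 151)) (XT.nd (nat_lit 78) (nat_lit 0) (nat_lit 0) (XT.lf (nat_lit 0) (nat_lit 975433662254) (nat_lit 76) (nat_lit 530331311776) (nat_lit 76) (nat_lit 519177308943) (nat_lit 1) (nat_lit 4) (nat_lit 2) (nat_lit 5) (nat_lit 2) (nat_lit 4) (nat_lit 335) (nat_lit 235) (nat_lit 150)) (XT.lf (nat_lit 0) (nat_lit 1060658673113) (nat_lit 76) (nat_lit 568558453213) (nat_lit 76) (nat_lit 557403257204) (nat_lit 1) (nat_lit 4) (nat_lit 2) (nat_lit 5) (nat_lit 2) (nat_lit 4)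 (nat_lit 336) (nat_lit 235) (nat_lit 149)))) (XT.nd (nat_lit 78) (nat_lit 0) (nat_lit 0) (XT.lf (nat_lit 0) (nat_lit 1152700209711) (nat_lit 76) (nat_lit 609844444157) (nat_lit 76) (nat_lit 598688143355) (nat_lit 1) (nat_lit 4) (nat_lit 2) (nat_lit 5) (nat_lit 2) (nat_lit 4) (nat_lit 337) (nat_lit 235) (nat_lit 148)) (XT.nd (nat_lit 78) (nat_lit 0) (nat_lit 0) (XT.lf (nat_lit 0) (nat_lit 1252103703375) (nat_lit 76) (nat_lit 654433942332) (nat_lit 76) (nat_lit 643276618574) (nat_lit 1) (nat_lit 4) (nat_lit 2) (nat_lit 5) (nat_lit 2) (nat_lit 4) (nat_lit 338) (nat_lit 235) (nat_lit 147)) (XT.lf (nat_lit 0) (nat_lit 1359458211848) (nat_lit 76) (nat_lit 702591181801) (nat_lit 76) (nat_lit 691432910862) (nat_lit 1) (nat_lit 4) (nat_lit 2) (nat_lit 5) (nat_lit 2) (nat_lit 4) (nat_lit 339) (nat_lit 235) (nat_lit 146)))))) (XT.nd (nat_lit 468) (nat_lit 836) (nat_lit 0) (XT.nd (nat_lit 234)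 (nat_lit 836) (nat_lit 0) (XT.nd (nat_lit 78) (nat_lit 380) (nat_lit 0) (XT.lf (nat_lit 0) (nat_lit 404665958) (nat_lit 380) (nat_lit 2667458797) (nat_lit 0) (nat_lit 404665958) (nat_lit 44) (nat_lit 5) (nat_lit 49) (nat_lit 4) (nat_lit 44) (nat_lit 4) (nat_lit 248) (nat_lit 236) (nat_lit 236)) (XT.nd (nat_lit 78) (nat_lit 380) (nat_lit 0) (XT.lf (nat_lit 0) (nat_lit 3790805528) (nat_lit 380) (nat_lit 1168007989) (nat_lit 0) (nat_lit 2136797899) (nat_lit 44) (nat_lit 5) (nat_lit 49) (nat_lit 4) (nat_lit 44) (nat_lit 4) (nat_lit 249) (nat_lit 236) (nat_lit 235)) (XT.lf (nat_lit 0) (nat_lit 3271952690) (nat_lit 380) (nat_lit 3588225102) (nat_lit 380) (nat_lit 402728928) (nat_lit 39) (nat_lit 4) (nat_lit 44) (nat_lit 5) (nat_lit 44) (nat_lit 4) (nat_lit 250) (nat_lit 236) (nat_lit 234)))) (XT.nd (nat_lit 78) (nat_lit 304) (nat_lit 0) (XT.lf (nat_lit 0) (nat_lit 415005681) (nat_lit 456)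 (nat_lit 1997757205) (nat_lit 532) (nat_lit 5041725092) (nat_lit 32) (nat_lit 5) (nat_lit 38) (nat_lit 5) (nat_lit 39) (nat_lit 4) (nat_lit 251) (nat_lit 236) (nat_lit 233)) (XT.nd (nat_lit 78) (nat_lit 304) (nat_lit 0) (XT.lf (nat_lit 0) (nat_lit 5163529539) (nat_lit 456) (nat_lit 163429713) (nat_lit 532) (nat_lit 2343453075) (nat_lit 32) (nat_lit 5) (nat_lit 38) (nat_lit 5) (nat_lit 39) (nat_lit 4) (nat_lit 252) (nat_lit 236) (nat_lit 232)) (XT.lf (nat_lit 0) (nat_lit 437491281) (nat_lit 304) (nat_lit 5693990996) (nat_lit 76) (nat_lit 1780663068) (nat_lit 28) (nat_lit 5) (nat_lit 32) (nat_lit 5) (nat_lit 29) (nat_lit 4) (nat_lit 253) (nat_lit 236) (nat_lit 231))))) (XT.nd (nat_lit 234) (nat_lit 380) (nat_lit 0) (XT.nd (nat_lit 78) (nat_lit 456) (nat_lit 0) (XT.lf (nat_lit 0) (nat_lit 3194065754) (nat_lit 304) (nat_lit 1002621463) (nat_lit 76) (nat_lit 3982447266) (nat_lit 28) (nat_lit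 5) (nat_lit 32) (nat_lit 5) (nat_lit 29) (nat_lit 4) (nat_lit 254) (nat_lit 236) (nat_lit 230)) (XT.nd (nat_lit 78) (nat_lit 304) (nat_lit 0) (XT.lf (nat_lit 0) (nat_lit 4052174158) (nat_lit 152) (nat_lit 2036071012) (nat_lit 228) (nat_lit 2386952692) (nat_lit 26) (nat_lit 5) (nat_lit 28) (nat_lit 5) (nat_lit 29) (nat_lit 4) (nat_lit 255) (nat_lit 236) (nat_lit 229)) (XT.lf (nat_lit 0) (nat_lit 270014181) (nat_lit 304) (nat_lit 8239282219) (nat_lit 76) (nat_lit 296013901) (nat_lit 22) (nat_lit 5) (nat_lit 26) (nat_lit 5) (nat_lit 23) (nat_lit 4) (nat_lit 256) (nat_lit 236) (nat_lit 228)))) (XT.nd (nat_lit 156) (nat_lit 228) (nat_lit 0) (XT.nd (nat_lit 78) (nat_lit 152) (nat_lit 0) (XT.lf (nat_lit 0) (nat_lit 3017009256) (nat_lit 304) (nat_lit 3291658026) (nat_lit 76) (nat_lit 2848548761) (nat_lit 22) (nat_lit 5) (nat_lit 26) (nat_lit 5) (nat_lit 23) (nat_lit 4) (nat_lit 257) (nat_lit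 236) (nat_lit 227)) (XT.lf (nat_lit 0) (nat_lit 1938350048) (nat_lit 152) (nat_lit 3934132090) (nat_lit 228) (nat_lit 3674489532) (nat_lit 20) (nat_lit 5) (nat_lit 22) (nat_lit 5) (nat_lit 23) (nat_lit 4) (nat_lit 258) (nat_lit 236) (nat_lit 226))) (XT.nd (nat_lit 78) (nat_lit 228) (nat_lit 0) (XT.lf (nat_lit 0) (nat_lit 7568894438) (nat_lit 152) (nat_lit 1326363458) (nat_lit 228) (nat_lit 1078276651) (nat_lit 20) (nat_lit 5) (nat_lit 22) (nat_lit 5) (nat_lit 23) (nat_lit 4) (nat_lit 259) (nat_lit 236) (nat_lit 225)) (XT.lf (nat_lit 0) (nat_lit 1608005967) (nat_lit 228) (nat_lit 7341844958) (nat_lit 76) (nat_lit 1484186742) (nat_lit 17) (nat_lit 5) (nat_lit 20) (nat_lit 5) (nat_lit 18) (nat_lit 4) (nat_lit 260) (nat_lit 236) (nat_lit 224))))))) (XT.nd (nat_lit 936) (nat_lit 304) (nat_lit 0) (XT.nd (nat_lit 468) (nat_lit 304) (nat_lit 0) (XT.nd (nat_lit 234) (nat_lit 304) (nat_lit 0)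 (XT.nd (nat_lit 78) (nat_lit 76) (nat_lit 0) (XT.lf (nat_lit 0) (nat_lit 4413339366) (nat_lit 228) (nat_lit 2028163673) (nat_lit 76) (nat_lit 4491229435) (nat_lit 17) (nat_lit 5) (nat_lit 20) (nat_lit 5) (nat_lit 18) (nat_lit 4) (nat_lit 261) (nat_lit 236) (nat_lit 223)) (XT.nd (nat_lit 78) (nat_lit 0) (nat_lit 0) (XT.lf (nat_lit 0) (nat_lit 3707753132) (nat_lit 76) (nat_lit 3695348669) (nat_lit 152) (nat_lit 4071961859) (nat_lit 16) (nat_lit 5) (nat_lit 17) (nat_lit 5) (nat_lit 18) (nat_lit 4) (nat_lit 262) (nat_lit 236) (nat_lit 222)) (XT.lf (nat_lit 0) (nat_lit 9834318935) (nat_lit 76) (nat_lit 729163977) (nat_lit 152) (nat_lit 1503284326) (nat_lit 16) (nat_lit 5) (nat_lit 17) (nat_lit 5) (nat_lit 18) (nat_lit 4) (nat_lit 263) (nat_lit 236) (nat_lit 221)))) (XT.nd (nat_lit 78) (nat_lit 76) (nat_lit 0) (XT.lf (nat_lit 0) (nat_lit 1239853484) (nat_lit 228) (nat_lit 9042993017) (nat_lit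 76) (nat_lit 2418341580) (nat_lit 13) (nat_lit 5) (nat_lit 16) (nat_lit 5) (nat_lit 14) (nat_lit 4) (nat_lit 264) (nat_lit 236) (nat_lit 220)) (XT.nd (nat_lit 78) (nat_lit 76) (nat_lit 0) (XT.lf (nat_lit 0) (nat_lit 4087748717) (nat_lit 228) (nat_lit 3474235304) (nat_lit 76) (nat_lit 5824330679) (nat_lit 13) (nat_lit 5) (nat_lit 16) (nat_lit 5) (nat_lit 14) (nat_lit 4) (nat_lit 265) (nat_lit 236) (nat_lit 219)) (XT.lf (nat_lit 0) (nat_lit 2498103119) (nat_lit 76) (nat_lit 4618932399) (nat_lit 152) (nat_lit 7013299320) (nat_lit 12) (nat_lit 5) (nat_lit 13) (nat_lit 5) (nat_lit 14) (nat_lit 4) (nat_lit 266) (nat_lit 236) (nat_lit 218))))) (XT.nd (nat_lit 234) (nat_lit 76) (nat_lit 0) (XT.nd (nat_lit 78) (nat_lit 228) (nat_lit 0) (XT.lf (nat_lit 0) (nat_lit 8983151255) (nat_lit 76) (nat_lit 1397964617) (nat_lit 152) (nat_lit 4553705576) (nat_lit 12) (nat_lit 5) (nat_lit 13) (nat_lit 5)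 (nat_lit 14) (nat_lit 4) (nat_lit 267) (nat_lit 236) (nat_lit 217)) (XT.nd (nat_lit 78) (nat_lit 228) (nat_lit 0) (XT.lf (nat_lit 0) (nat_lit 13860078811) (nat_lit 152) (nat_lit 23887996) (nat_lit 0) (nat_lit 1923715347) (nat_lit 12) (nat_lit 5) (nat_lit 14) (nat_lit 4) (nat_lit 12) (nat_lit 4) (nat_lit 268) (nat_lit 236) (nat_lit 216)) (XT.lf (nat_lit 0) (nat_lit 930067335) (nat_lit 228) (nat_lit 10243338133) (nat_lit 76) (nat_lit 5567052753) (nat_lit 9) (nat_lit 5) (nat_lit 12) (nat_lit 5) (nat_lit 10) (nat_lit 4) (nat_lit 269) (nat_lit 236) (nat_lit 215)))) (XT.nd (nat_lit 78) (nat_lit 76) (nat_lit 0) (XT.lf (nat_lit 0) (nat_lit 3844950917) (nat_lit 228) (nat_lit 4404005032) (nat_lit 76) (nat_lit 9502126402) (nat_lit 9) (nat_lit 5) (nat_lit 12) (nat_lit 5) (nat_lit 10) (nat_lit 4) (nat_lit 270) (nat_lit 236) (nat_lit 214)) (XT.nd (nat_lit 78) (nat_lit 0) (nat_lit 0) (XT.lf (nat_lit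 0) (nat_lit 1859607013) (nat_lit 76) (nat_lit 5096243903) (nat_lit 152) (nat_lit 11889911457) (nat_lit 8) (nat_lit 5) (nat_lit 9) (nat_lit 5) (nat_lit 10) (nat_lit 4) (nat_lit 271) (nat_lit 236) (nat_lit 213)) (XT.lf (nat_lit 0) (nat_lit 8742315239) (nat_lit 76) (nat_lit 1614704140) (nat_lit 152) (nat_lit 9667900532) (nat_lit 8) (nat_lit 5) (nat_lit 9) (nat_lit 5) (nat_lit 10) (nat_lit 4) (nat_lit 272) (nat_lit 236) (nat_lit 212)))))) (XT.nd (nat_lit 468) (nat_lit 76) (nat_lit 0) (XT.nd (nat_lit 234) (nat_lit 152) (nat_lit 0) (XT.nd (nat_lit 78) (nat_lit 76) (nat_lit 0) (XT.lf (nat_lit 0) (nat_lit 14007523580) (nat_lit 152) (nat_lit 5301869105) (nat_lit 0) (nat_lit 1991036906) (nat_lit 8) (nat_lit 5) (nat_lit 10) (nat_lit 4) (nat_lit 8) (nat_lit 4) (nat_lit 273) (nat_lit 236) (nat_lit 211)) (XT.nd (nat_lit 78) (nat_lit 0) (nat_lit 0) (XT.lf (nat_lit 0) (nat_lit 1049843820) (nat_lit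 76) (nat_lit 16898567438) (nat_lit 76) (nat_lit 4729885518) (nat_lit 7) (nat_lit 4) (nat_lit 8) (nat_lit 5) (nat_lit 8) (nat_lit 4) (nat_lit 274) (nat_lit 236) (nat_lit 210)) (XT.lf (nat_lit 0) (nat_lit 8096146039) (nat_lit 76) (nat_lit 14186872691) (nat_lit 76) (nat_lit 1877269246) (nat_lit 7) (nat_lit 4) (nat_lit 8) (nat_lit 5) (nat_lit 8) (nat_lit 4) (nat_lit 275) (nat_lit 236) (nat_lit 209)))) (XT.nd (nat_lit 78) (nat_lit 76) (nat_lit 0) (XT.lf (nat_lit 0) (nat_lit 1080013122) (nat_lit 152) (nat_lit 10193659042) (nat_lit 76) (nat_lit 14490063789) (nat_lit 6) (nat_lit 5) (nat_lit 8) (nat_lit 5) (nat_lit 7) (nat_lit 4) (nat_lit 276) (nat_lit 236) (nat_lit 208)) (XT.nd (nat_lit 78) (nat_lit 76) (nat_lit 0) (XT.lf (nat_lit 0) (nat_lit 4113811927) (nat_lit 152) (nat_lit 4004175021) (nat_lit 76) (nat_lit 19378398970) (nat_lit 6) (nat_lit 5) (nat_lit 8) (nat_lit 5) (nat_lit 7) (nat_lit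 4) (nat_lit 277) (nat_lit 236) (nat_lit 207)) (XT.lf (nat_lit 0) (nat_lit 2722318306) (nat_lit 76) (nat_lit 4679167360) (nat_lit 152) (nat_lit 21965393885) (nat_lit 5) (nat_lit 5) (nat_lit 6) (nat_lit 5) (nat_lit 7) (nat_lit 4) (nat_lit 278) (nat_lit 236) (nat_lit 206))))) (XT.nd (nat_lit 234) (nat_lit 76) (nat_lit 0) (XT.nd (nat_lit 78) (nat_lit 0) (nat_lit 0) (XT.lf (nat_lit 0) (nat_lit 10122709401) (nat_lit 76) (nat_lit 886455410) (nat_lit 152) (nat_lit 20373404609) (nat_lit 5) (nat_lit 5) (nat_lit 6) (nat_lit 5) (nat_lit 7) (nat_lit 4) (nat_lit 279) (nat_lit 236) (nat_lit 205)) (XT.nd (nat_lit 78) (nat_lit 0) (nat_lit 0) (XT.lf (nat_lit 0) (nat_lit 14933170849) (nat_lit 152) (nat_lit 15609824571) (nat_lit 0) (nat_lit 3014409525) (nat_lit 5) (nat_lit 5) (nat_lit 7) (nat_lit 4) (nat_lit 5) (nat_lit 4) (nat_lit 280) (nat_lit 236) (nat_lit 204)) (XT.lf (nat_lit 0) (nat_lit 19148307217)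 (nat_lit 152) (nat_lit 9612523277) (nat_lit 0) (nat_lit 7147319537) (nat_lit 5) (nat_lit 5) (nat_lit 7) (nat_lit 4) (nat_lit 5) (nat_lit 4) (nat_lit 281) (nat_lit 236) (nat_lit 203)))) (XT.nd (nat_lit 156) (nat_lit 0) (nat_lit 0) (XT.nd (nat_lit 78) (nat_lit 76) (nat_lit 0) (XT.lf (nat_lit 0) (nat_lit 23658233229) (nat_lit 152) (nat_lit 3211097301) (nat_lit 0) (nat_lit 11581110034) (nat_lit 5) (nat_lit 5) (nat_lit 7) (nat_lit 4) (nat_lit 5) (nat_lit 4) (nat_lit 282) (nat_lit 236) (nat_lit 202)) (XT.lf (nat_lit 0) (nat_lit 3823662831) (nat_lit 76) (nat_lit 24757970722) (nat_lit 76) (nat_lit 12610351680) (nat_lit 4) (nat_lit 4) (nat_lit 5) (nat_lit 5) (nat_lit 5) (nat_lit 4) (nat_lit 283) (nat_lit 236) (nat_lit 201))) (XT.nd (nat_lit 78) (nat_lit 0) (nat_lit 0) (XT.lf (nat_lit 0) (nat_lit 11535540250) (nat_lit 76) (nat_lit 22413151177) (nat_lit 76) (nat_lit 10200258202) (nat_lit 4) (nat_lit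 4) (nat_lit 5) (nat_lit 5) (nat_lit 5) (nat_lit 4) (nat_lit 284) (nat_lit 236) (nat_lit 200)) (XT.lf (nat_lit 0) (nat_lit 19801144273) (nat_lit 76) (nat_lit 19908773759) (nat_lit 76) (nat_lit 7635441958) (nat_lit 4) (nat_lit 4) (nat_lit 5) (nat_lit 5) (nat_lit 5) (nat_lit 4) (nat_lit 285) (nat_lit 236) (nat_lit 199))))))))
noncomputable def xc43 : XT := (XT.nd (nat_lit 1950) (nat_lit 0) (nat_lit 0) (XT.nd (nat_lit 936) (nat_lit 76) (nat_lit 0) (XT.nd (nat_lit 468) (nat_lit 0) (nat_lit 0) (XT.nd (nat_lit 234) (nat_lit 76) (nat_lit 0) (XT.nd (nat_lit 78) (nat_lit 76) (nat_lit 0) (XT.lf (nat_lit 0) (nat_lit 28669456258) (nat_lit 76) (nat_lit 17229997712) (nat_lit 76) (nat_lit 4900704035) (nat_lit 4) (nat_lit 4) (nat_lit 5) (nat_lit 5) (nat_lit 5) (nat_lit 4) (nat_lit 286) (nat_lit 236) (nat_lit 198)) (XT.nd (nat_lit 78) (nat_lit 76) (nat_lit 0) (XT.lf (nat_lit 0) (nat_lit 38193029165)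 (nat_lit 76) (nat_lit 14360948810) (nat_lit 76) (nat_lit 1979838581) (nat_lit 4) (nat_lit 4) (nat_lit 5) (nat_lit 5) (nat_lit 5) (nat_lit 4) (nat_lit 287) (nat_lit 236) (nat_lit 197)) (XT.lf (nat_lit 0) (nat_lit 1087212551) (nat_lit 152) (nat_lit 10167686410) (nat_lit 76) (nat_lit 47311360113) (nat_lit 3) (nat_lit 5) (nat_lit 5) (nat_lit 5) (nat_lit 4) (nat_lit 4) (nat_lit 288) (nat_lit 236) (nat_lit 196)))) (XT.nd (nat_lit 78) (nat_lit 76) (nat_lit 0) (XT.lf (nat_lit 0) (nat_lit 4266072010) (nat_lit 152) (nat_lit 3600083077) (nat_lit 76) (nat_lit 55053205180) (nat_lit 3) (nat_lit 5) (nat_lit 5) (nat_lit 5) (nat_lit 4) (nat_lit 4) (nat_lit 289) (nat_lit 236) (nat_lit 195)) (XT.nd (nat_lit 78) (nat_lit 0) (nat_lit 0) (XT.lf (nat_lit 0) (nat_lit 3630151800) (nat_lit 76) (nat_lit 4131770463) (nat_lit 152) (nat_lit 59853818821) (nat_lit 2) (nat_lit 5) (nat_lit 3) (nat_lit 5) (nat_lit 4)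 (nat_lit 4) (nat_lit 290) (nat_lit 236) (nat_lit 194)) (XT.lf (nat_lit 0) (nat_lit 11600297097) (nat_lit 76) (nat_lit 11736710) (nat_lit 152) (nat_lit 61069873777) (nat_lit 2) (nat_lit 5) (nat_lit 3) (nat_lit 5) (nat_lit 4) (nat_lit 4) (nat_lit 291) (nat_lit 236) (nat_lit 193))))) (XT.nd (nat_lit 234) (nat_lit 0) (nat_lit 0) (XT.nd (nat_lit 78) (nat_lit 0) (nat_lit 0) (XT.lf (nat_lit 0) (nat_lit 15854380159) (nat_lit 152) (nat_lit 58093462879) (nat_lit 0) (nat_lit 4198825810) (nat_lit 2) (nat_lit 5) (nat_lit 4) (nat_lit 4) (nat_lit 2) (nat_lit 4) (nat_lit 292) (nat_lit 236) (nat_lit 192)) (XT.nd (nat_lit 78) (nat_lit 0) (nat_lit 0) (XT.lf (nat_lit 0) (nat_lit 20415580448) (nat_lit 152) (nat_lit 54904918217) (nat_lit 0) (nat_lit 8729791639) (nat_lit 2) (nat_lit 5) (nat_lit 4) (nat_lit 4) (nat_lit 2) (nat_lit 4) (nat_lit 293) (nat_lit 236) (nat_lit 191)) (XT.lf (nat_lit 0) (nat_lit 25322381742)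 (nat_lit 152) (nat_lit 51496799153) (nat_lit 0) (nat_lit 13608598062) (nat_lit 2) (nat_lit 5) (nat_lit 4) (nat_lit 4) (nat_lit 2) (nat_lit 4) (nat_lit 294) (nat_lit 236) (nat_lit 190)))) (XT.nd (nat_lit 78) (nat_lit 0) (nat_lit 0) (XT.lf (nat_lit 0) (nat_lit 30603861381) (nat_lit 152) (nat_lit 47848909427) (nat_lit 0) (nat_lit 18864156524) (nat_lit 2) (nat_lit 5) (nat_lit 4) (nat_lit 4) (nat_lit 2) (nat_lit 4) (nat_lit 295) (nat_lit 236) (nat_lit 189)) (XT.nd (nat_lit 78) (nat_lit 0) (nat_lit 0) (XT.lf (nat_lit 0) (nat_lit 36291317023) (nat_lit 152) (nat_lit 43939631914) (nat_lit 0) (nat_lit 24527611077) (nat_lit 2) (nat_lit 5) (nat_lit 4) (nat_lit 4) (nat_lit 2) (nat_lit 4) (nat_lit 296) (nat_lit 236) (nat_lit 188)) (XT.lf (nat_lit 0) (nat_lit 42418452108) (nat_lit 152) (nat_lit 39745800525) (nat_lit 0) (nat_lit 30632522931) (nat_lit 2) (nat_lit 5) (nat_lit 4) (nat_lit 4) (nat_lit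 2) (nat_lit 4) (nat_lit 297) (nat_lit 236) (nat_lit 187)))))) (XT.nd (nat_lit 468) (nat_lit 76) (nat_lit 0) (XT.nd (nat_lit 234) (nat_lit 0) (nat_lit 0) (XT.nd (nat_lit 78) (nat_lit 0) (nat_lit 0) (XT.lf (nat_lit 0) (nat_lit 49021575585) (nat_lit 152) (nat_lit 35242562925) (nat_lit 0) (nat_lit 37215069342) (nat_lit 2) (nat_lit 5) (nat_lit 4) (nat_lit 4) (nat_lit 2) (nat_lit 4) (nat_lit 298) (nat_lit 236) (nat_lit 186)) (XT.nd (nat_lit 78) (nat_lit 0) (nat_lit 0) (XT.lf (nat_lit 0) (nat_lit 56139817075) (nat_lit 152) (nat_lit 30403233263) (nat_lit 0) (nat_lit 44314257993) (nat_lit 2) (nat_lit 5) (nat_lit 4) (nat_lit 4) (nat_lit 2) (nat_lit 4) (nat_lit 299) (nat_lit 236) (nat_lit 185)) (XT.lf (nat_lit 0) (nat_lit 63815358749) (nat_lit 152) (nat_lit 25199134030) (nat_lit 0) (nat_lit 51972158150) (nat_lit 2) (nat_lit 5) (nat_lit 4) (nat_lit 4) (nat_lit 2) (nat_lit 4) (nat_lit 300) (nat_lit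 236) (nat_lit 184)))) (XT.nd (nat_lit 78) (nat_lit 0) (nat_lit 0) (XT.lf (nat_lit 0) (nat_lit 72093685298) (nat_lit 152) (nat_lit 19599426118) (nat_lit 0) (nat_lit 60234149961) (nat_lit 2) (nat_lit 5) (nat_lit 4) (nat_lit 4) (nat_lit 2) (nat_lit 4) (nat_lit 301) (nat_lit 236) (nat_lit 183)) (XT.nd (nat_lit 78) (nat_lit 0) (nat_lit 0) (XT.lf (nat_lit 0) (nat_lit 81023853474) (nat_lit 152) (nat_lit 13570926074) (nat_lit 0) (nat_lit 69149193379) (nat_lit 2) (nat_lit 5) (nat_lit 4) (nat_lit 4) (nat_lit 2) (nat_lit 4) (nat_lit 302) (nat_lit 236) (nat_lit 182)) (XT.lf (nat_lit 0) (nat_lit 90658782790) (nat_lit 152) (nat_lit 7077909453) (nat_lit 0) (nat_lit 78770118290) (nat_lit 2) (nat_lit 5) (nat_lit 4) (nat_lit 4) (nat_lit 2) (nat_lit 4) (nat_lit 303) (nat_lit 236) (nat_lit 181))))) (XT.nd (nat_lit 234) (nat_lit 0) (nat_lit 0) (XT.nd (nat_lit 78) (nat_lit 76) (nat_lit 0) (XT.lf (nat_lit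 0) (nat_lit 101055569125) (nat_lit 152) (nat_lit 81899119) (nat_lit 0) (nat_lit 89153937583) (nat_lit 2) (nat_lit 5) (nat_lit 4) (nat_lit 4) (nat_lit 2) (nat_lit 4) (nat_lit 304) (nat_lit 236) (nat_lit 180)) (XT.nd (nat_lit 78) (nat_lit 0) (nat_lit 0) (XT.lf (nat_lit 0) (nat_lit 7851317463) (nat_lit 76) (nat_lit 104613329973) (nat_lit 76) (nat_lit 92699691911) (nat_lit 1) (nat_lit 4) (nat_lit 2) (nat_lit 5) (nat_lit 2) (nat_lit 4) (nat_lit 305) (nat_lit 236) (nat_lit 179)) (XT.lf (nat_lit 0) (nat_lit 16409005325) (nat_lit 76) (nat_lit 108371666647) (nat_lit 76) (nat_lit 96446911436) (nat_lit 1) (nat_lit 4) (nat_lit 2) (nat_lit 5) (nat_lit 2) (nat_lit 4) (nat_lit 306) (nat_lit 236) (nat_lit 178)))) (XT.nd (nat_lit 156) (nat_lit 0) (nat_lit 0) (XT.nd (nat_lit 78) (nat_lit 0) (nat_lit 0) (XT.lf (nat_lit 0) (nat_lit 25637564027) (nat_lit 76) (nat_lit 112436989156) (nat_lit 76) (nat_lit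 100501940290) (nat_lit 1) (nat_lit 4) (nat_lit 2) (nat_lit 5) (nat_lit 2) (nat_lit 4) (nat_lit 307) (nat_lit 236) (nat_lit 177)) (XT.lf (nat_lit 0) (nat_lit 35591681325) (nat_lit 76) (nat_lit 116833388302) (nat_lit 76) (nat_lit 104888808272) (nat_lit 1) (nat_lit 4) (nat_lit 2) (nat_lit 5) (nat_lit 2) (nat_lit 4) (nat_lit 308) (nat_lit 236) (nat_lit 176))) (XT.nd (nat_lit 78) (nat_lit 0) (nat_lit 0) (XT.lf (nat_lit 0) (nat_lit 46330344579) (nat_lit 76) (nat_lit 121586916819) (nat_lit 76) (nat_lit 109633511639) (nat_lit 1) (nat_lit 4) (nat_lit 2) (nat_lit 5) (nat_lit 2) (nat_lit 4) (nat_lit 309) (nat_lit 236) (nat_lit 175)) (XT.lf (nat_lit 0) (nat_lit 57917190315) (nat_lit 76) (nat_lit 126725743766) (nat_lit 76) (nat_lit 114764167150) (nat_lit 1) (nat_lit 4) (nat_lit 2) (nat_lit 5) (nat_lit 2) (nat_lit 4) (nat_lit 310) (nat_lit 236) (nat_lit 174))))))) (XT.nd (nat_lit 1014) (nat_lit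 0) (nat_lit 0) (XT.nd (nat_lit 468) (nat_lit 0) (nat_lit 0) (XT.nd (nat_lit 234) (nat_lit 0) (nat_lit 0) (XT.nd (nat_lit 78) (nat_lit 0) (nat_lit 0) (XT.lf (nat_lit 0) (nat_lit 70420881320) (nat_lit 76) (nat_lit 132280321451) (nat_lit 76) (nat_lit 120311178690) (nat_lit 1) (nat_lit 4) (nat_lit 2) (nat_lit 5) (nat_lit 2) (nat_lit 4) (nat_lit 311) (nat_lit 236) (nat_lit 173)) (XT.nd (nat_lit 78) (nat_lit 0) (nat_lit 0) (XT.lf (nat_lit 0) (nat_lit 83915513542) (nat_lit 76) (nat_lit 138283565888) (nat_lit 76) (nat_lit 126307417439) (nat_lit 1) (nat_lit 4) (nat_lit 2) (nat_lit 5) (nat_lit 2) (nat_lit 4) (nat_lit 312) (nat_lit 236) (nat_lit 172)) (XT.lf (nat_lit 0) (nat_lit 98481055171) (nat_lit 76) (nat_lit 144771051862) (nat_lit 76) (nat_lit 132788416663) (nat_lit 1) (nat_lit 4) (nat_lit 2) (nat_lit 5) (nat_lit 2) (nat_lit 4) (nat_lit 313) (nat_lit 236) (nat_lit 171)))) (XT.nd (nat_lit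 78) (nat_lit 0) (nat_lit 0) (XT.lf (nat_lit 0) (nat_lit 114203820529) (nat_lit 76) (nat_lit 151781223731) (nat_lit 76) (nat_lit 139792582283) (nat_lit 1) (nat_lit 4) (nat_lit 2) (nat_lit 5) (nat_lit 2) (nat_lit 4) (nat_lit 314) (nat_lit 236) (nat_lit 170)) (XT.nd (nat_lit 78) (nat_lit 0) (nat_lit 0) (XT.lf (nat_lit 0) (nat_lit 131176981557) (nat_lit 76) (nat_lit 159355623257) (nat_lit 76) (nat_lit 147361420467) (nat_lit 1) (nat_lit 4) (nat_lit 2) (nat_lit 5) (nat_lit 2) (nat_lit 4) (nat_lit 315) (nat_lit 236) (nat_lit 169)) (XT.lf (nat_lit 0) (nat_lit 149501119952) (nat_lit 76) (nat_lit 167539135769) (nat_lit 76) (nat_lit 155539783588) (nat_lit 1) (nat_lit 4) (nat_lit 2) (nat_lit 5) (nat_lit 2) (nat_lit 4) (nat_lit 316) (nat_lit 236) (nat_lit 168))))) (XT.nd (nat_lit 234) (nat_lit 0) (nat_lit 0) (XT.nd (nat_lit 78) (nat_lit 0) (nat_lit 0) (XT.lf (nat_lit 0) (nat_lit 169284823200) (nat_lit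 76) (nat_lit 176380256156) (nat_lit 76) (nat_lit 164376136021) (nat_lit 1) (nat_lit 4) (nat_lit 2) (nat_lit 5) (nat_lit 2) (nat_lit 4) (nat_lit 317) (nat_lit 236) (nat_lit 167)) (XT.nd (nat_lit 78) (nat_lit 0) (nat_lit 0) (XT.lf (nat_lit 0) (nat_lit 190645328060) (nat_lit 76) (nat_lit 185931376243) (nat_lit 76) (nat_lit 173922841335) (nat_lit 1) (nat_lit 4) (nat_lit 2) (nat_lit 5) (nat_lit 2) (nat_lit 4) (nat_lit 318) (nat_lit 236) (nat_lit 166)) (XT.lf (nat_lit 0) (nat_lit 213709215304) (nat_lit 76) (nat_lit 196249095260) (nat_lit 76) (nat_lit 184236472600) (nat_lit 1) (nat_lit 4) (nat_lit 2) (nat_lit 5) (nat_lit 2) (nat_lit 4) (nat_lit 319) (nat_lit 236) (nat_lit 165)))) (XT.nd (nat_lit 156) (nat_lit 0) (nat_lit 0) (XT.nd (nat_lit 78) (nat_lit 0) (nat_lit 0) (XT.lf (nat_lit 0) (nat_lit 238613159817) (nat_lit 76) (nat_lit 207394555246) (nat_lit 76) (nat_lit 195378147630) (nat_lit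 1) (nat_lit 4) (nat_lit 2) (nat_lit 5) (nat_lit 2) (nat_lit 4) (nat_lit 320) (nat_lit 236) (nat_lit 164)) (XT.lf (nat_lit 0) (nat_lit 265504740530) (nat_lit 76) (nat_lit 219433803371) (nat_lit 76) (nat_lit 207413891165) (nat_lit 1) (nat_lit 4) (nat_lit 2) (nat_lit 5) (nat_lit 2) (nat_lit 4) (nat_lit 321) (nat_lit 236) (nat_lit 163))) (XT.nd (nat_lit 78) (nat_lit 0) (nat_lit 0) (XT.lf (nat_lit 0) (nat_lit 294543314958) (nat_lit 76) (nat_lit 232438183327) (nat_lit 76) (nat_lit 220415026132) (nat_lit 1) (nat_lit 4) (nat_lit 2) (nat_lit 5) (nat_lit 2) (nat_lit 4) (nat_lit 322) (nat_lit 236) (nat_lit 162)) (XT.lf (nat_lit 0) (nat_lit 325900963544) (nat_lit 76) (nat_lit 246484758106) (nat_lit 76) (nat_lit 234458596292) (nat_lit 1) (nat_lit 4) (nat_lit 2) (nat_lit 5) (nat_lit 2) (nat_lit 4) (nat_lit 323) (nat_lit 236) (nat_lit 161)))))) (XT.nd (nat_lit 468) (nat_lit 0) (nat_lit 0) (XT.nd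 (nat_lit 234) (nat_lit 0) (nat_lit 0) (XT.nd (nat_lit 78) (nat_lit 0) (nat_lit 0) (XT.lf (nat_lit 0) (nat_lit 359763509389) (nat_lit 76) (nat_lit 261656766672) (nat_lit 76) (nat_lit 249627822801) (nat_lit 1) (nat_lit 4) (nat_lit 2) (nat_lit 5) (nat_lit 2) (nat_lit 4) (nat_lit 324) (nat_lit 236) (nat_lit 160)) (XT.nd (nat_lit 78) (nat_lit 0) (nat_lit 0) (XT.lf (nat_lit 0) (nat_lit 396331619431) (nat_lit 76) (nat_lit 278044117221) (nat_lit 76) (nat_lit 266012597373) (nat_lit 1) (nat_lit 4) (nat_lit 2) (nat_lit 5) (nat_lit 2) (nat_lit 4) (nat_lit 325) (nat_lit 236) (nat_lit 159)) (XT.lf (nat_lit 0) (nat_lit 435821993583) (nat_lit 76) (nat_lit 295743919981) (nat_lit 76) (nat_lit 283710014969) (nat_lit 1) (nat_lit 4) (nat_lit 2) (nat_lit 5) (nat_lit 2) (nat_lit 4) (nat_lit 326) (nat_lit 236) (nat_lit 158)))) (XT.nd (nat_lit 78) (nat_lit 0) (nat_lit 0) (XT.lf (nat_lit 0) (nat_lit 478468648876)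 (nat_lit 76) (nat_lit 314861062670) (nat_lit 76) (nat_lit 302824949173) (nat_lit 1) (nat_lit 4) (nat_lit 2) (nat_lit 5) (nat_lit 2) (nat_lit 4) (nat_lit 327) (nat_lit 236) (nat_lit 157)) (XT.nd (nat_lit 78) (nat_lit 0) (nat_lit 0) (XT.lf (nat_lit 0) (nat_lit 524524306230) (nat_lit 76) (nat_lit 335508832061) (nat_lit 76) (nat_lit 323470673669) (nat_lit 1) (nat_lit 4) (nat_lit 2) (nat_lit 5) (nat_lit 2) (nat_lit 4) (nat_lit 328) (nat_lit 236) (nat_lit 156)) (XT.lf (nat_lit 0) (nat_lit 574261888059) (nat_lit 76) (nat_lit 357809585305) (nat_lit 76) (nat_lit 345769533493) (nat_lit 1) (nat_lit 4) (nat_lit 2) (nat_lit 5) (nat_lit 2) (nat_lit 4) (nat_lit 329) (nat_lit 236) (nat_lit 155))))) (XT.nd (nat_lit 234) (nat_lit 0) (nat_lit 0) (XT.nd (nat_lit 78) (nat_lit 0) (nat_lit 0) (XT.lf (nat_lit 0) (nat_lit 627976135589) (nat_lit 76) (nat_lit 381895475014) (nat_lit 76) (nat_lit 369853670035)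 (nat_lit 1) (nat_lit 4) (nat_lit 2) (nat_lit 5) (nat_lit 2) (nat_lit 4) (nat_lit 330) (nat_lit 236) (nat_lit 154)) (XT.nd (nat_lit 78) (nat_lit 0) (nat_lit 0) (XT.lf (nat_lit 0) (nat_lit 685985355473) (nat_lit 76) (nat_lit 407909232387) (nat_lit 76) (nat_lit 395865804105) (nat_lit 1) (nat_lit 4) (nat_lit 2) (nat_lit 5) (nat_lit 2) (nat_lit 4) (nat_lit 331) (nat_lit 236) (nat_lit 153)) (XT.lf (nat_lit 0) (nat_lit 748633306049) (nat_lit 76) (nat_lit 436005013022) (nat_lit 76) (nat_lit 423960081683) (nat_lit 1) (nat_lit 4) (nat_lit 2) (nat_lit 5) (nat_lit 2) (nat_lit 4) (nat_lit 332) (nat_lit 236) (nat_lit 152)))) (XT.nd (nat_lit 156) (nat_lit 0) (nat_lit 0) (XT.nd (nat_lit 78) (nat_lit 0) (nat_lit 0) (XT.lf (nat_lit 0) (nat_lit 816291234433) (nat_lit 76) (nat_lit 466349310435) (nat_lit 76) (nat_lit 454302987375) (nat_lit 1) (nat_lit 4) (nat_lit 2) (nat_lit 5) (nat_lit 2) (nat_lit 4)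 (nat_lit 333) (nat_lit 236) (nat_lit 151)) (XT.lf (nat_lit 0) (nat_lit 889360076496) (nat_lit 76) (nat_lit 499121942684) (nat_lit 76) (nat_lit 487074330994) (nat_lit 1) (nat_lit 4) (nat_lit 2) (nat_lit 5) (nat_lit 2) (nat_lit 4) (nat_lit 334) (nat_lit 236) (nat_lit 150))) (XT.nd (nat_lit 78) (nat_lit 0) (nat_lit 0) (XT.lf (nat_lit 0) (nat_lit 968272832785) (nat_lit 76) (nat_lit 534517117960) (nat_lit 76) (nat_lit 522468313095) (nat_lit 1) (nat_lit 4) (nat_lit 2) (nat_lit 5) (nat_lit 2) (nat_lit 4) (nat_lit 335) (nat_lit 236) (nat_lit 149)) (XT.lf (nat_lit 0) (nat_lit 1053497134447) (nat_lit 76) (nat_lit 572744585451) (nat_lit 76) (nat_lit 560694675793) (nat_lit 1) (nat_lit 4) (nat_lit 2) (nat_lit 5) (nat_lit 2) (nat_lit 4) (nat_lit 336) (nat_lit 236) (nat_lit 148))))))))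
noncomputable def xc44 : XT := (XT.nd (nat_lit 32214) (nat_lit 0) (nat_lit 76) (XT.nd (nat_lit 31200) (nat_lit 0) (nat_lit 836) (XT.nd (nat_lit 30732) (nat_lit 0) (nat_lit 1900) (XT.nd (nat_lit 30498) (nat_lit 0) (nat_lit 3268) (XT.nd (nat_lit 78) (nat_lit 0) (nat_lit 0) (XT.lf (nat_lit 0) (nat_lit 1145538014381) (nat_lit 76) (nat_lit 614030878297) (nat_lit 76) (nat_lit 601979945682) (nat_lit 1) (nat_lit 4) (nat_lit 2) (nat_lit 5) (nat_lit 2) (nat_lit 4) (nat_lit 337) (nat_lit 236) (nat_lit 147)) (XT.nd (nat_lit 30342) (nat_lit 0) (nat_lit 3648) (XT.lf (nat_lit 0) (nat_lit 1244940900024) (nat_lit 76) (nat_lit 658620656011) (nat_lit 76) (nat_lit 646568776215) (nat_lit 1) (nat_lit 4) (nat_lit 2) (nat_lit 5) (nat_lit 2) (nat_lit 4) (nat_lit 338) (nat_lit 236) (nat_lit 146)) (XT.lf (nat_lit 0) (nat_lit 163333472) (nat_lit 228) (nat_lit 1599355770) (nat_lit 228) (nat_lit 1599355770) (nat_lit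 49) (nat_lit 4) (nat_lit 52) (nat_lit 5) (nat_lit 52) (nat_lit 4) (nat_lit 246) (nat_lit 237) (nat_lit 237)))) (XT.nd (nat_lit 78) (nat_lit 380) (nat_lit 0) (XT.lf (nat_lit 0) (nat_lit 4322538563) (nat_lit 228) (nat_lit 2219461348) (nat_lit 228) (nat_lit 290226849) (nat_lit 49) (nat_lit 4) (nat_lit 52) (nat_lit 5) (nat_lit 52) (nat_lit 4) (nat_lit 247) (nat_lit 237) (nat_lit 236)) (XT.nd (nat_lit 78) (nat_lit 0) (nat_lit 0) (XT.lf (nat_lit 0) (nat_lit 1486504692) (nat_lit 304) (nat_lit 1014489264) (nat_lit 380) (nat_lit 4461123099) (nat_lit 44) (nat_lit 5) (nat_lit 48) (nat_lit 5) (nat_lit 49) (nat_lit 4) (nat_lit 248) (nat_lit 237) (nat_lit 235)) (XT.lf (nat_lit 0) (nat_lit 5347823992) (nat_lit 380) (nat_lit 1391986007) (nat_lit 0) (nat_lit 375999578) (nat_lit 44) (nat_lit 5) (nat_lit 49) (nat_lit 4) (nat_lit 44) (nat_lit 4) (nat_lit 249) (nat_lit 237) (nat_lit 234))))) (XT.nd (nat_lit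 234) (nat_lit 456) (nat_lit 0) (XT.nd (nat_lit 78) (nat_lit 456) (nat_lit 0) (XT.lf (nat_lit 0) (nat_lit 963438219) (nat_lit 456) (nat_lit 4385917865) (nat_lit 76) (nat_lit 1941444438) (nat_lit 38) (nat_lit 5) (nat_lit 44) (nat_lit 5) (nat_lit 39) (nat_lit 4) (nat_lit 250) (nat_lit 237) (nat_lit 233)) (XT.nd (nat_lit 78) (nat_lit 456) (nat_lit 0) (XT.lf (nat_lit 0) (nat_lit 3648706988) (nat_lit 456) (nat_lit 113563408) (nat_lit 76) (nat_lit 3728850028) (nat_lit 38) (nat_lit 5) (nat_lit 44) (nat_lit 5) (nat_lit 39) (nat_lit 4) (nat_lit 251) (nat_lit 237) (nat_lit 232)) (XT.lf (nat_lit 0) (nat_lit 4528432679) (nat_lit 456) (nat_lit 1936495979) (nat_lit 532) (nat_lit 1250609039) (nat_lit 32) (nat_lit 5) (nat_lit 38) (nat_lit 5) (nat_lit 39) (nat_lit 4) (nat_lit 252) (nat_lit 237) (nat_lit 231)))) (XT.nd (nat_lit 78) (nat_lit 152) (nat_lit 0) (XT.lf (nat_lit 0) (nat_lit 1321699719) (nat_lit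 304) (nat_lit 6551150444) (nat_lit 76) (nat_lit 95196798) (nat_lit 28) (nat_lit 5) (nat_lit 32) (nat_lit 5) (nat_lit 29) (nat_lit 4) (nat_lit 253) (nat_lit 237) (nat_lit 230)) (XT.nd (nat_lit 78) (nat_lit 152) (nat_lit 0) (XT.lf (nat_lit 0) (nat_lit 3991555009) (nat_lit 304) (nat_lit 1962949005) (nat_lit 76) (nat_lit 2287989536) (nat_lit 28) (nat_lit 5) (nat_lit 32) (nat_lit 5) (nat_lit 29) (nat_lit 4) (nat_lit 254) (nat_lit 237) (nat_lit 229)) (XT.lf (nat_lit 0) (nat_lit 2940721225) (nat_lit 152) (nat_lit 3837987191) (nat_lit 228) (nat_lit 1768892000) (nat_lit 26) (nat_lit 5) (nat_lit 28) (nat_lit 5) (nat_lit 29) (nat_lit 4) (nat_lit 255) (nat_lit 237) (nat_lit 228)))))) (XT.nd (nat_lit 468) (nat_lit 380) (nat_lit 0) (XT.nd (nat_lit 234) (nat_lit 228) (nat_lit 0) (XT.nd (nat_lit 78) (nat_lit 380) (nat_lit 0) (XT.lf (nat_lit 0) (nat_lit 756855630) (nat_lit 228) (nat_lit 750998467)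 (nat_lit 76) (nat_lit 7377106443) (nat_lit 25) (nat_lit 5) (nat_lit 28) (nat_lit 5) (nat_lit 26) (nat_lit 5) (nat_lit 256) (nat_lit 237) (nat_lit 227)) (XT.nd (nat_lit 78) (nat_lit 152) (nat_lit 0) (XT.lf (nat_lit 0) (nat_lit 3372167265) (nat_lit 304) (nat_lit 4793793434) (nat_lit 76) (nat_lit 1081822414) (nat_lit 22) (nat_lit 5) (nat_lit 26) (nat_lit 5) (nat_lit 23) (nat_lit 4) (nat_lit 257) (nat_lit 237) (nat_lit 226)) (XT.lf (nat_lit 0) (nat_lit 258526467) (nat_lit 152) (nat_lit 5858424013) (nat_lit 228) (nat_lit 3529797281) (nat_lit 20) (nat_lit 5) (nat_lit 22) (nat_lit 5) (nat_lit 23) (nat_lit 4) (nat_lit 258) (nat_lit 237) (nat_lit 225)))) (XT.nd (nat_lit 78) (nat_lit 228) (nat_lit 0) (XT.lf (nat_lit 0) (nat_lit 5797785316) (nat_lit 152) (nat_lit 3274662290) (nat_lit 228) (nat_lit 1006572959) (nat_lit 20) (nat_lit 5) (nat_lit 22) (nat_lit 5) (nat_lit 23) (nat_lit 4) (nat_lit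 259) (nat_lit 237) (nat_lit 224)) (XT.nd (nat_lit 78) (nat_lit 0) (nat_lit 0) (XT.lf (nat_lit 0) (nat_lit 1062715457) (nat_lit 152) (nat_lit 461846736) (nat_lit 228) (nat_lit 9027229273) (nat_lit 17) (nat_lit 5) (nat_lit 19) (nat_lit 5) (nat_lit 20) (nat_lit 5) (nat_lit 260) (nat_lit 237) (nat_lit 223)) (XT.lf (nat_lit 0) (nat_lit 4256687597) (nat_lit 228) (nat_lit 4254833362) (nat_lit 76) (nat_lit 2545082042) (nat_lit 17) (nat_lit 5) (nat_lit 20) (nat_lit 5) (nat_lit 18) (nat_lit 4) (nat_lit 261) (nat_lit 237) (nat_lit 222))))) (XT.nd (nat_lit 234) (nat_lit 76) (nat_lit 0) (XT.nd (nat_lit 78) (nat_lit 228) (nat_lit 0) (XT.lf (nat_lit 0) (nat_lit 1275577207) (nat_lit 76) (nat_lit 5854878407) (nat_lit 152) (nat_lit 4477998949) (nat_lit 16) (nat_lit 5) (nat_lit 17) (nat_lit 5) (nat_lit 18) (nat_lit 4) (nat_lit 262) (nat_lit 237) (nat_lit 221)) (XT.nd (nat_lit 78) (nat_lit 228) (nat_lit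 0) (XT.lf (nat_lit 0) (nat_lit 7320426569) (nat_lit 76) (nat_lit 2915203644) (nat_lit 152) (nat_lit 1969167433) (nat_lit 16) (nat_lit 5) (nat_lit 17) (nat_lit 5) (nat_lit 18) (nat_lit 4) (nat_lit 263) (nat_lit 237) (nat_lit 220)) (XT.lf (nat_lit 0) (nat_lit 620512122) (nat_lit 228) (nat_lit 11999092005) (nat_lit 76) (nat_lit 234842985) (nat_lit 13) (nat_lit 5) (nat_lit 16) (nat_lit 5) (nat_lit 14) (nat_lit 4) (nat_lit 264) (nat_lit 237) (nat_lit 219)))) (XT.nd (nat_lit 156) (nat_lit 76) (nat_lit 0) (XT.nd (nat_lit 78) (nat_lit 0) (nat_lit 0) (XT.lf (nat_lit 0) (nat_lit 3417196061) (nat_lit 228) (nat_lit 6510567533) (nat_lit 76) (nat_lit 3616084052) (nat_lit 13) (nat_lit 5) (nat_lit 16) (nat_lit 5) (nat_lit 14) (nat_lit 4) (nat_lit 265) (nat_lit 237) (nat_lit 218)) (XT.lf (nat_lit 0) (nat_lit 6338985557) (nat_lit 228) (nat_lit 737484383) (nat_lit 76) (nat_lit 7220161527) (nat_lit 13)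 (nat_lit 5) (nat_lit 16) (nat_lit 5) (nat_lit 14) (nat_lit 4) (nat_lit 266) (nat_lit 237) (nat_lit 217))) (XT.nd (nat_lit 78) (nat_lit 0) (nat_lit 0) (XT.lf (nat_lit 0) (nat_lit 5636319855) (nat_lit 76) (nat_lit 3902428692) (nat_lit 152) (nat_lit 5567666680) (nat_lit 12) (nat_lit 5) (nat_lit 13) (nat_lit 5) (nat_lit 14) (nat_lit 4) (nat_lit 267) (nat_lit 237) (nat_lit 216)) (XT.lf (nat_lit 0) (nat_lit 12422514918) (nat_lit 76) (nat_lit 504229287) (nat_lit 152) (nat_lit 3059949627) (nat_lit 12) (nat_lit 5) (nat_lit 13) (nat_lit 5) (nat_lit 14) (nat_lit 4) (nat_lit 268) (nat_lit 237) (nat_lit 215))))))) (XT.nd (nat_lit 936) (nat_lit 228) (nat_lit 0) (XT.nd (nat_lit 468) (nat_lit 228) (nat_lit 0) (XT.nd (nat_lit 234) (nat_lit 76) (nat_lit 0) (XT.nd (nat_lit 78) (nat_lit 76) (nat_lit 0) (XT.lf (nat_lit 0) (nat_lit 2740398704) (nat_lit 152) (nat_lit 13904877423) (nat_lit 152) (nat_lit 287629498)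 (nat_lit 10) (nat_lit 4) (nat_lit 12) (nat_lit 5) (nat_lit 12) (nat_lit 4) (nat_lit 269) (nat_lit 237) (nat_lit 214)) (XT.nd (nat_lit 78) (nat_lit 0) (nat_lit 0) (XT.lf (nat_lit 0) (nat_lit 2602268503) (nat_lit 228) (nat_lit 8411589390) (nat_lit 76) (nat_lit 6933486728) (nat_lit 9) (nat_lit 5) (nat_lit 12) (nat_lit 5) (nat_lit 10) (nat_lit 4) (nat_lit 270) (nat_lit 237) (nat_lit 213)) (XT.lf (nat_lit 0) (nat_lit 5631987528) (nat_lit 228) (nat_lit 2301495997) (nat_lit 76) (nat_lit 11115138880) (nat_lit 9) (nat_lit 5) (nat_lit 12) (nat_lit 5) (nat_lit 10) (nat_lit 4) (nat_lit 271) (nat_lit 237) (nat_lit 212)))) (XT.nd (nat_lit 78) (nat_lit 0) (nat_lit 0) (XT.lf (nat_lit 0) (nat_lit 4401057432) (nat_lit 76) (nat_lit 4538657963) (nat_lit 152) (nat_lit 11295635430) (nat_lit 8) (nat_lit 5) (nat_lit 9) (nat_lit 5) (nat_lit 10) (nat_lit 4) (nat_lit 272) (nat_lit 237) (nat_lit 211)) (XT.nd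 (nat_lit 78) (nat_lit 0) (nat_lit 0) (XT.lf (nat_lit 0) (nat_lit 11657146623) (nat_lit 76) (nat_lit 850097646) (nat_lit 152) (nat_lit 9010342811) (nat_lit 8) (nat_lit 5) (nat_lit 9) (nat_lit 5) (nat_lit 10) (nat_lit 4) (nat_lit 273) (nat_lit 237) (nat_lit 210)) (XT.lf (nat_lit 0) (nat_lit 16371791056) (nat_lit 152) (nat_lit 3593354660) (nat_lit 0) (nat_lit 2936497812) (nat_lit 8) (nat_lit 5) (nat_lit 10) (nat_lit 4) (nat_lit 8) (nat_lit 4) (nat_lit 274) (nat_lit 237) (nat_lit 209))))) (XT.nd (nat_lit 234) (nat_lit 76) (nat_lit 0) (XT.nd (nat_lit 78) (nat_lit 76) (nat_lit 0) (XT.lf (nat_lit 0) (nat_lit 3212503806) (nat_lit 76) (nat_lit 17373314690) (nat_lit 76) (nat_lit 3807538552) (nat_lit 7) (nat_lit 4) (nat_lit 8) (nat_lit 5) (nat_lit 8) (nat_lit 4) (nat_lit 275) (nat_lit 237) (nat_lit 208)) (XT.nd (nat_lit 78) (nat_lit 76) (nat_lit 0) (XT.lf (nat_lit 0) (nat_lit 10668534463) (nat_lit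 76) (nat_lit 14509657558) (nat_lit 76) (nat_lit 823063927) (nat_lit 7) (nat_lit 4) (nat_lit 8) (nat_lit 5) (nat_lit 8) (nat_lit 4) (nat_lit 276) (nat_lit 237) (nat_lit 207)) (XT.lf (nat_lit 0) (nat_lit 2225801719) (nat_lit 152) (nat_lit 9168794104) (nat_lit 76) (nat_lit 16343042424) (nat_lit 6) (nat_lit 5) (nat_lit 8) (nat_lit 5) (nat_lit 7) (nat_lit 4) (nat_lit 277) (nat_lit 237) (nat_lit 206)))) (XT.nd (nat_lit 78) (nat_lit 76) (nat_lit 0) (XT.lf (nat_lit 0) (nat_lit 5423831276) (nat_lit 152) (nat_lit 2620474152) (nat_lit 76) (nat_lit 21571053788) (nat_lit 6) (nat_lit 5) (nat_lit 8) (nat_lit 5) (nat_lit 7) (nat_lit 4) (nat_lit 278) (nat_lit 237) (nat_lit 205)) (XT.nd (nat_lit 78) (nat_lit 0) (nat_lit 0) (XT.lf (nat_lit 0) (nat_lit 4600998518) (nat_lit 76) (nat_lit 4340804629) (nat_lit 152) (nat_lit 22696474188) (nat_lit 5) (nat_lit 5) (nat_lit 6) (nat_lit 5) (nat_lit 7) (nat_lit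 4) (nat_lit 279) (nat_lit 237) (nat_lit 204)) (XT.lf (nat_lit 0) (nat_lit 12470391661) (nat_lit 76) (nat_lit 297468028) (nat_lit 152) (nat_lit 21053136971) (nat_lit 5) (nat_lit 5) (nat_lit 6) (nat_lit 5) (nat_lit 7) (nat_lit 4) (nat_lit 280) (nat_lit 237) (nat_lit 203)))))) (XT.nd (nat_lit 468) (nat_lit 152) (nat_lit 0) (XT.nd (nat_lit 234) (nat_lit 76) (nat_lit 0) (XT.nd (nat_lit 78) (nat_lit 0) (nat_lit 0) (XT.lf (nat_lit 0) (nat_lit 16955447105) (nat_lit 152) (nat_lit 15382524315) (nat_lit 0) (nat_lit 3836018540) (nat_lit 5) (nat_lit 5) (nat_lit 7) (nat_lit 4) (nat_lit 5) (nat_lit 4) (nat_lit 281) (nat_lit 237) (nat_lit 202)) (XT.nd (nat_lit 78) (nat_lit 0) (nat_lit 0) (XT.lf (nat_lit 0) (nat_lit 21446489006) (nat_lit 152) (nat_lit 9014778637) (nat_lit 0) (nat_lit 8256564594) (nat_lit 5) (nat_lit 5) (nat_lit 7) (nat_lit 4) (nat_lit 5) (nat_lit 4) (nat_lit 282) (nat_lit 237) (nat_lit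 201)) (XT.lf (nat_lit 0) (nat_lit 26260444861) (nat_lit 152) (nat_lit 2202479066) (nat_lit 0) (nat_lit 13005246516) (nat_lit 5) (nat_lit 5) (nat_lit 7) (nat_lit 4) (nat_lit 5) (nat_lit 4) (nat_lit 283) (nat_lit 237) (nat_lit 200)))) (XT.nd (nat_lit 78) (nat_lit 0) (nat_lit 0) (XT.lf (nat_lit 0) (nat_lit 5363023751) (nat_lit 76) (nat_lit 26191798914) (nat_lit 76) (nat_lit 12876161742) (nat_lit 4) (nat_lit 4) (nat_lit 5) (nat_lit 5) (nat_lit 5) (nat_lit 4) (nat_lit 284) (nat_lit 237) (nat_lit 199)) (XT.nd (nat_lit 78) (nat_lit 0) (nat_lit 0) (XT.lf (nat_lit 0) (nat_lit 13600483370) (nat_lit 76) (nat_lit 23699898210) (nat_lit 76) (nat_lit 10328299162) (nat_lit 4) (nat_lit 4) (nat_lit 5) (nat_lit 5) (nat_lit 5) (nat_lit 4) (nat_lit 285) (nat_lit 237) (nat_lit 198)) (XT.lf (nat_lit 0) (nat_lit 22442735723) (nat_lit 76) (nat_lit 21032674676) (nat_lit 76) (nat_lit 7609259077) (nat_lit 4)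 (nat_lit 4) (nat_lit 5) (nat_lit 5) (nat_lit 5) (nat_lit 4) (nat_lit 286) (nat_lit 237) (nat_lit 197))))) (XT.nd (nat_lit 234) (nat_lit 76) (nat_lit 0) (XT.nd (nat_lit 78) (nat_lit 76) (nat_lit 0) (XT.lf (nat_lit 0) (nat_lit 31942179340) (nat_lit 76) (nat_lit 18174322545) (nat_lit 76) (nat_lit 4702928657) (nat_lit 4) (nat_lit 4) (nat_lit 5) (nat_lit 5) (nat_lit 5) (nat_lit 4) (nat_lit 287) (nat_lit 237) (nat_lit 196)) (XT.nd (nat_lit 78) (nat_lit 76) (nat_lit 0) (XT.lf (nat_lit 0) (nat_lit 42155107222) (nat_lit 76) (nat_lit 15107903433) (nat_lit 76) (nat_lit 1592085203) (nat_lit 4) (nat_lit 4) (nat_lit 5) (nat_lit 5) (nat_lit 5) (nat_lit 4) (nat_lit 288) (nat_lit 237) (nat_lit 195)) (XT.lf (nat_lit 0) (nat_lit 1654578728) (nat_lit 152) (nat_lit 10115428124) (nat_lit 76) (nat_lit 51442222580) (nat_lit 3) (nat_lit 5) (nat_lit 5) (nat_lit 5) (nat_lit 4) (nat_lit 4) (nat_lit 289) (nat_lit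 237) (nat_lit 194)))) (XT.nd (nat_lit 156) (nat_lit 0) (nat_lit 0) (XT.nd (nat_lit 78) (nat_lit 76) (nat_lit 0) (XT.lf (nat_lit 0) (nat_lit 5052162561) (nat_lit 152) (nat_lit 3086540465) (nat_lit 76) (nat_lit 59777789056) (nat_lit 3) (nat_lit 5) (nat_lit 5) (nat_lit 5) (nat_lit 4) (nat_lit 4) (nat_lit 290) (nat_lit 237) (nat_lit 193)) (XT.lf (nat_lit 0) (nat_lit 4701820816) (nat_lit 76) (nat_lit 4111700762) (nat_lit 152) (nat_lit 64176256203) (nat_lit 2) (nat_lit 5) (nat_lit 3) (nat_lit 5) (nat_lit 4) (nat_lit 4) (nat_lit 291) (nat_lit 237) (nat_lit 192))) (XT.nd (nat_lit 78) (nat_lit 0) (nat_lit 0) (XT.lf (nat_lit 0) (nat_lit 12947245129) (nat_lit 152) (nat_lit 65219642577) (nat_lit 0) (nat_lit 296358754) (nat_lit 2) (nat_lit 5) (nat_lit 4) (nat_lit 4) (nat_lit 2) (nat_lit 4) (nat_lit 292) (nat_lit 237) (nat_lit 191)) (XT.lf (nat_lit 0) (nat_lit 17499168967) (nat_lit 152) (nat_lit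 62048169632) (nat_lit 0) (nat_lit 4820287721) (nat_lit 2) (nat_lit 5) (nat_lit 4) (nat_lit 4) (nat_lit 2) (nat_lit 4) (nat_lit 293) (nat_lit 237) (nat_lit 190))))))))
noncomputable def xc45 : XT := (XT.nd (nat_lit 1950) (nat_lit 0) (nat_lit 0) (XT.nd (nat_lit 936) (nat_lit 0) (nat_lit 0) (XT.nd (nat_lit 468) (nat_lit 76) (nat_lit 0) (XT.nd (nat_lit 234) (nat_lit 0) (nat_lit 0) (XT.nd (nat_lit 78) (nat_lit 0) (nat_lit 0) (XT.lf (nat_lit 0) (nat_lit 22397380954) (nat_lit 152) (nat_lit 58655857714) (nat_lit 0) (nat_lit 9692578532) (nat_lit 2) (nat_lit 5) (nat_lit 4) (nat_lit 4) (nat_lit 2) (nat_lit 4) (nat_lit 294) (nat_lit 237) (nat_lit 189)) (XT.nd (nat_lit 78) (nat_lit 0) (nat_lit 0) (XT.lf (nat_lit 0) (nat_lit 27670907531) (nat_lit 152) (nat_lit 55022604233) (nat_lit 0) (nat_lit 14942104020) (nat_lit 2) (nat_lit 5) (nat_lit 4) (nat_lit 4) (nat_lit 2) (nat_lit 4) (nat_lit 295) (nat_lit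 237) (nat_lit 188)) (XT.lf (nat_lit 0) (nat_lit 33350999227) (nat_lit 152) (nat_lit 51126878799) (nat_lit 0) (nat_lit 20599972484) (nat_lit 2) (nat_lit 5) (nat_lit 4) (nat_lit 4) (nat_lit 2) (nat_lit 4) (nat_lit 296) (nat_lit 237) (nat_lit 187)))) (XT.nd (nat_lit 78) (nat_lit 0) (nat_lit 0) (XT.lf (nat_lit 0) (nat_lit 39471315843) (nat_lit 152) (nat_lit 46945595632) (nat_lit 0) (nat_lit 26699712035) (nat_lit 2) (nat_lit 5) (nat_lit 4) (nat_lit 4) (nat_lit 2) (nat_lit 4) (nat_lit 297) (nat_lit 237) (nat_lit 186)) (XT.nd (nat_lit 78) (nat_lit 0) (nat_lit 0) (XT.lf (nat_lit 0) (nat_lit 46068125923) (nat_lit 152) (nat_lit 42453976756) (nat_lit 0) (nat_lit 33277469276) (nat_lit 2) (nat_lit 5) (nat_lit 4) (nat_lit 4) (nat_lit 2) (nat_lit 4) (nat_lit 298) (nat_lit 237) (nat_lit 185)) (XT.lf (nat_lit 0) (nat_lit 53180521675) (nat_lit 152) (nat_lit 37625405172) (nat_lit 0) (nat_lit 40372223511)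 (nat_lit 2) (nat_lit 5) (nat_lit 4) (nat_lit 4) (nat_lit 2) (nat_lit 4) (nat_lit 299) (nat_lit 237) (nat_lit 184))))) (XT.nd (nat_lit 234) (nat_lit 76) (nat_lit 0) (XT.nd (nat_lit 78) (nat_lit 0) (nat_lit 0) (XT.lf (nat_lit 0) (nat_lit 60850650629) (nat_lit 152) (nat_lit 32431267121) (nat_lit 0) (nat_lit 48026017726) (nat_lit 2) (nat_lit 5) (nat_lit 4) (nat_lit 4) (nat_lit 2) (nat_lit 4) (nat_lit 300) (nat_lit 237) (nat_lit 183)) (XT.nd (nat_lit 78) (nat_lit 0) (nat_lit 0) (XT.lf (nat_lit 0) (nat_lit 69123965400) (nat_lit 152) (nat_lit 26840782527) (nat_lit 0) (nat_lit 56284207740) (nat_lit 2) (nat_lit 5) (nat_lit 4) (nat_lit 4) (nat_lit 2) (nat_lit 4) (nat_lit 301) (nat_lit 237) (nat_lit 182)) (XT.lf (nat_lit 0) (nat_lit 78049493041) (nat_lit 152) (nat_lit 20820822592) (nat_lit 0) (nat_lit 65195730975) (nat_lit 2) (nat_lit 5) (nat_lit 4) (nat_lit 4) (nat_lit 2) (nat_lit 4) (nat_lit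 302) (nat_lit 237) (nat_lit 181)))) (XT.nd (nat_lit 78) (nat_lit 76) (nat_lit 0) (XT.lf (nat_lit 0) (nat_lit 87680125565) (nat_lit 152) (nat_lit 14335713479) (nat_lit 0) (nat_lit 74813396458) (nat_lit 2) (nat_lit 5) (nat_lit 4) (nat_lit 4) (nat_lit 2) (nat_lit 4) (nat_lit 303) (nat_lit 237) (nat_lit 180)) (XT.nd (nat_lit 78) (nat_lit 76) (nat_lit 0) (XT.lf (nat_lit 0) (nat_lit 98072933389) (nat_lit 152) (nat_lit 7347024912) (nat_lit 0) (nat_lit 85194197761) (nat_lit 2) (nat_lit 5) (nat_lit 4) (nat_lit 4) (nat_lit 2) (nat_lit 4) (nat_lit 304) (nat_lit 237) (nat_lit 179)) (XT.lf (nat_lit 0) (nat_lit 196486615) (nat_lit 76) (nat_lit 109097742413) (nat_lit 76) (nat_lit 96207889637) (nat_lit 1) (nat_lit 4) (nat_lit 2) (nat_lit 5) (nat_lit 2) (nat_lit 4) (nat_lit 305) (nat_lit 237) (nat_lit 178)))))) (XT.nd (nat_lit 468) (nat_lit 0) (nat_lit 0) (XT.nd (nat_lit 234) (nat_lit 0) (nat_lit 0)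 (XT.nd (nat_lit 78) (nat_lit 0) (nat_lit 0) (XT.lf (nat_lit 0) (nat_lit 8747566694) (nat_lit 76) (nat_lit 112859117020) (nat_lit 76) (nat_lit 99958970588) (nat_lit 1) (nat_lit 4) (nat_lit 2) (nat_lit 5) (nat_lit 2) (nat_lit 4) (nat_lit 306) (nat_lit 237) (nat_lit 177)) (XT.nd (nat_lit 78) (nat_lit 0) (nat_lit 0) (XT.lf (nat_lit 0) (nat_lit 17970007079) (nat_lit 76) (nat_lit 116927252431) (nat_lit 76) (nat_lit 104017574836) (nat_lit 1) (nat_lit 4) (nat_lit 2) (nat_lit 5) (nat_lit 2) (nat_lit 4) (nat_lit 307) (nat_lit 237) (nat_lit 176)) (XT.lf (nat_lit 0) (nat_lit 27918459267) (nat_lit 76) (nat_lit 121326256115) (nat_lit 76) (nat_lit 108407753370) (nat_lit 1) (nat_lit 4) (nat_lit 2) (nat_lit 5) (nat_lit 2) (nat_lit 4) (nat_lit 308) (nat_lit 237) (nat_lit 175)))) (XT.nd (nat_lit 78) (nat_lit 0) (nat_lit 0) (XT.lf (nat_lit 0) (nat_lit 38651877051) (nat_lit 76) (nat_lit 126082196242) (nat_lit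 76) (nat_lit 113155522061) (nat_lit 1) (nat_lit 4) (nat_lit 2) (nat_lit 5) (nat_lit 2) (nat_lit 4) (nat_lit 309) (nat_lit 237) (nat_lit 174)) (XT.nd (nat_lit 78) (nat_lit 0) (nat_lit 0) (XT.lf (nat_lit 0) (nat_lit 50233865869) (nat_lit 76) (nat_lit 131223256161) (nat_lit 76) (nat_lit 118289015835) (nat_lit 1) (nat_lit 4) (nat_lit 2) (nat_lit 5) (nat_lit 2) (nat_lit 4) (nat_lit 310) (nat_lit 237) (nat_lit 173)) (XT.lf (nat_lit 0) (nat_lit 62733059728) (nat_lit 76) (nat_lit 136779901412) (nat_lit 76) (nat_lit 123838655397) (nat_lit 1) (nat_lit 4) (nat_lit 2) (nat_lit 5) (nat_lit 2) (nat_lit 4) (nat_lit 311) (nat_lit 237) (nat_lit 172))))) (XT.nd (nat_lit 234) (nat_lit 0) (nat_lit 0) (XT.nd (nat_lit 78) (nat_lit 0) (nat_lit 0) (XT.lf (nat_lit 0) (nat_lit 76223527925) (nat_lit 76) (nat_lit 142785060264) (nat_lit 76) (nat_lit 129837327499) (nat_lit 1) (nat_lit 4) (nat_lit 2) (nat_lit 5)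 (nat_lit 2) (nat_lit 4) (nat_lit 312) (nat_lit 237) (nat_lit 171)) (XT.nd (nat_lit 78) (nat_lit 0) (nat_lit 0) (XT.lf (nat_lit 0) (nat_lit 90785213977) (nat_lit 76) (nat_lit 149274318842) (nat_lit 76) (nat_lit 136320579828) (nat_lit 1) (nat_lit 4) (nat_lit 2) (nat_lit 5) (nat_lit 2) (nat_lit 4) (nat_lit 313) (nat_lit 237) (nat_lit 170)) (XT.lf (nat_lit 0) (nat_lit 106504409355) (nat_lit 76) (nat_lit 156286132013) (nat_lit 76) (nat_lit 143326831657) (nat_lit 1) (nat_lit 4) (nat_lit 2) (nat_lit 5) (nat_lit 2) (nat_lit 4) (nat_lit 314) (nat_lit 237) (nat_lit 169)))) (XT.nd (nat_lit 156) (nat_lit 0) (nat_lit 0) (XT.nd (nat_lit 78) (nat_lit 0) (nat_lit 0) (XT.lf (nat_lit 0) (nat_lit 123474264847) (nat_lit 76) (nat_lit 163862051262) (nat_lit 76) (nat_lit 150897601515) (nat_lit 1) (nat_lit 4) (nat_lit 2) (nat_lit 5) (nat_lit 2) (nat_lit 4) (nat_lit 315) (nat_lit 237) (nat_lit 168)) (XT.lf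 (nat_lit 0) (nat_lit 141795342560) (nat_lit 76) (nat_lit 172046970925) (nat_lit 76) (nat_lit 159077753224) (nat_lit 1) (nat_lit 4) (nat_lit 2) (nat_lit 5) (nat_lit 2) (nat_lit 4) (nat_lit 316) (nat_lit 237) (nat_lit 167))) (XT.nd (nat_lit 78) (nat_lit 0) (nat_lit 0) (XT.lf (nat_lit 0) (nat_lit 161576211842) (nat_lit 76) (nat_lit 180889394230) (nat_lit 76) (nat_lit 167915761757) (nat_lit 1) (nat_lit 4) (nat_lit 2) (nat_lit 5) (nat_lit 2) (nat_lit 4) (nat_lit 317) (nat_lit 237) (nat_lit 166)) (XT.lf (nat_lit 0) (nat_lit 182934092662) (nat_lit 76) (nat_lit 190441720722) (nat_lit 76) (nat_lit 177464000497) (nat_lit 1) (nat_lit 4) (nat_lit 2) (nat_lit 5) (nat_lit 2) (nat_lit 4) (nat_lit 318) (nat_lit 237) (nat_lit 165))))))) (XT.nd (nat_lit 936) (nat_lit 0) (nat_lit 0) (XT.nd (nat_lit 468) (nat_lit 0) (nat_lit 0) (XT.nd (nat_lit 234) (nat_lit 0) (nat_lit 0) (XT.nd (nat_lit 78) (nat_lit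 0) (nat_lit 0) (XT.lf (nat_lit 0) (nat_lit 205995550237) (nat_lit 76) (nat_lit 200760556781) (nat_lit 76) (nat_lit 187779051600) (nat_lit 1) (nat_lit 4) (nat_lit 2) (nat_lit 5) (nat_lit 2) (nat_lit 4) (nat_lit 319) (nat_lit 237) (nat_lit 164)) (XT.nd (nat_lit 78) (nat_lit 0) (nat_lit 0) (XT.lf (nat_lit 0) (nat_lit 230897245057) (nat_lit 76) (nat_lit 211907051065) (nat_lit 76) (nat_lit 198922041295) (nat_lit 1) (nat_lit 4) (nat_lit 2) (nat_lit 5) (nat_lit 2) (nat_lit 4) (nat_lit 320) (nat_lit 237) (nat_lit 163)) (XT.lf (nat_lit 0) (nat_lit 257786742721) (nat_lit 76) (nat_lit 223947256873) (nat_lit 76) (nat_lit 210959002113) (nat_lit 1) (nat_lit 4) (nat_lit 2) (nat_lit 5) (nat_lit 2) (nat_lit 4) (nat_lit 321) (nat_lit 237) (nat_lit 162)))) (XT.nd (nat_lit 78) (nat_lit 0) (nat_lit 0) (XT.lf (nat_lit 0) (nat_lit 286823388401) (nat_lit 76) (nat_lit 236952523573) (nat_lit 76) (nat_lit 223961264193)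 (nat_lit 1) (nat_lit 4) (nat_lit 2) (nat_lit 5) (nat_lit 2) (nat_lit 4) (nat_lit 322) (nat_lit 237) (nat_lit 161)) (XT.nd (nat_lit 78) (nat_lit 0) (nat_lit 0) (XT.lf (nat_lit 0) (nat_lit 318179251108) (nat_lit 76) (nat_lit 250999919412) (nat_lit 76) (nat_lit 238005877976) (nat_lit 1) (nat_lit 4) (nat_lit 2) (nat_lit 5) (nat_lit 2) (nat_lit 4) (nat_lit 323) (nat_lit 237) (nat_lit 160)) (XT.lf (nat_lit 0) (nat_lit 352040143362) (nat_lit 76) (nat_lit 266172688217) (nat_lit 76) (nat_lit 253176070804) (nat_lit 1) (nat_lit 4) (nat_lit 2) (nat_lit 5) (nat_lit 2) (nat_lit 4) (nat_lit 324) (nat_lit 237) (nat_lit 159))))) (XT.nd (nat_lit 234) (nat_lit 0) (nat_lit 0) (XT.nd (nat_lit 78) (nat_lit 0) (nat_lit 0) (XT.lf (nat_lit 0) (nat_lit 388606722301) (nat_lit 76) (nat_lit 282560742692) (nat_lit 76) (nat_lit 269561740115) (nat_lit 1) (nat_lit 4) (nat_lit 2) (nat_lit 5) (nat_lit 2) (nat_lit 4)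 (nat_lit 325) (nat_lit 237) (nat_lit 158)) (XT.nd (nat_lit 78) (nat_lit 0) (nat_lit 0) (XT.lf (nat_lit 0) (nat_lit 428095678765) (nat_lit 76) (nat_lit 300261197235) (nat_lit 76) (nat_lit 287259986172) (nat_lit 1) (nat_lit 4) (nat_lit 2) (nat_lit 5) (nat_lit 2) (nat_lit 4) (nat_lit 326) (nat_lit 237) (nat_lit 157)) (XT.lf (nat_lit 0) (nat_lit 470741021383) (nat_lit 76) (nat_lit 319378943427) (nat_lit 76) (nat_lit 306375687471) (nat_lit 1) (nat_lit 4) (nat_lit 2) (nat_lit 5) (nat_lit 2) (nat_lit 4) (nat_lit 327) (nat_lit 237) (nat_lit 156)))) (XT.nd (nat_lit 78) (nat_lit 0) (nat_lit 0) (XT.lf (nat_lit 0) (nat_lit 516795463298) (nat_lit 76) (nat_lit 340027271617) (nat_lit 76) (nat_lit 327022122240) (nat_lit 1) (nat_lit 4) (nat_lit 2) (nat_lit 5) (nat_lit 2) (nat_lit 4) (nat_lit 328) (nat_lit 237) (nat_lit 155)) (XT.nd (nat_lit 78) (nat_lit 0) (nat_lit 0) (XT.lf (nat_lit 0) (nat_lit 566531919721)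 (nat_lit 76) (nat_lit 362328542268) (nat_lit 76) (nat_lit 349321639724) (nat_lit 1) (nat_lit 4) (nat_lit 2) (nat_lit 5) (nat_lit 2) (nat_lit 4) (nat_lit 329) (nat_lit 237) (nat_lit 154)) (XT.lf (nat_lit 0) (nat_lit 620245125209) (nat_lit 76) (nat_lit 386414911057) (nat_lit 76) (nat_lit 373406385211) (nat_lit 1) (nat_lit 4) (nat_lit 2) (nat_lit 5) (nat_lit 2) (nat_lit 4) (nat_lit 330) (nat_lit 237) (nat_lit 153)))))) (XT.nd (nat_lit 468) (nat_lit 0) (nat_lit 0) (XT.nd (nat_lit 234) (nat_lit 0) (nat_lit 0) (XT.nd (nat_lit 78) (nat_lit 0) (nat_lit 0) (XT.lf (nat_lit 0) (nat_lit 678253380237) (nat_lit 76) (nat_lit 412429112023) (nat_lit 76) (nat_lit 399419083118) (nat_lit 1) (nat_lit 4) (nat_lit 2) (nat_lit 5) (nat_lit 2) (nat_lit 4) (nat_lit 331) (nat_lit 237) (nat_lit 152)) (XT.nd (nat_lit 78) (nat_lit 0) (nat_lit 0) (XT.lf (nat_lit 0) (nat_lit 740900437430) (nat_lit 76) (nat_lit 440525303392)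 (nat_lit 76) (nat_lit 427513882767) (nat_lit 1) (nat_lit 4) (nat_lit 2) (nat_lit 5) (nat_lit 2) (nat_lit 4) (nat_lit 332) (nat_lit 237) (nat_lit 151)) (XT.lf (nat_lit 0) (nat_lit 808557538607) (nat_lit 76) (nat_lit 470869981114) (nat_lit 76) (nat_lit 457857271859) (nat_lit 1) (nat_lit 4) (nat_lit 2) (nat_lit 5) (nat_lit 2) (nat_lit 4) (nat_lit 333) (nat_lit 237) (nat_lit 150)))) (XT.nd (nat_lit 78) (nat_lit 0) (nat_lit 0) (XT.lf (nat_lit 0) (nat_lit 881625614737) (nat_lit 76) (nat_lit 503642965501) (nat_lit 76) (nat_lit 490629063070) (nat_lit 1) (nat_lit 4) (nat_lit 2) (nat_lit 5) (nat_lit 2) (nat_lit 4) (nat_lit 334) (nat_lit 237) (nat_lit 149)) (XT.nd (nat_lit 78) (nat_lit 0) (nat_lit 0) (XT.lf (nat_lit 0) (nat_lit 960537661829) (nat_lit 76) (nat_lit 539038466832) (nat_lit 76) (nat_lit 526023459608) (nat_lit 1) (nat_lit 4) (nat_lit 2) (nat_lit 5) (nat_lit 2) (nat_lit 4) (nat_lit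 335) (nat_lit 237) (nat_lit 148)) (XT.lf (nat_lit 0) (nat_lit 1045761306827) (nat_lit 76) (nat_lit 577266236224) (nat_lit 76) (nat_lit 564250206045) (nat_lit 1) (nat_lit 4) (nat_lit 2) (nat_lit 5) (nat_lit 2) (nat_lit 4) (nat_lit 336) (nat_lit 237) (nat_lit 147))))) (XT.nd (nat_lit 30342) (nat_lit 0) (nat_lit 3268) (XT.nd (nat_lit 78) (nat_lit 0) (nat_lit 0) (XT.lf (nat_lit 0) (nat_lit 1137801578739) (nat_lit 76) (nat_lit 618552808608) (nat_lit 76) (nat_lit 605535831247) (nat_lit 1) (nat_lit 4) (nat_lit 2) (nat_lit 5) (nat_lit 2) (nat_lit 4) (nat_lit 337) (nat_lit 237) (nat_lit 146)) (XT.nd (nat_lit 30186) (nat_lit 0) (nat_lit 4104) (XT.lf (nat_lit 0) (nat_lit 1237203901398) (nat_lit 76) (nat_lit 663142845154) (nat_lit 76) (nat_lit 650124990773) (nat_lit 1) (nat_lit 4) (nat_lit 2) (nat_lit 5) (nat_lit 2) (nat_lit 4) (nat_lit 338) (nat_lit 237) (nat_lit 145)) (XT.lf (nat_lit 0) (nat_lit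 3117885972) (nat_lit 76) (nat_lit 82850777) (nat_lit 76) (nat_lit 82850777) (nat_lit 55) (nat_lit 4) (nat_lit 56) (nat_lit 5) (nat_lit 56) (nat_lit 4) (nat_lit 244) (nat_lit 238) (nat_lit 238)))) (XT.nd (nat_lit 156) (nat_lit 380) (nat_lit 0) (XT.nd (nat_lit 78) (nat_lit 228) (nat_lit 0) (XT.lf (nat_lit 0) (nat_lit 2666642421) (nat_lit 228) (nat_lit 3388344927) (nat_lit 0) (nat_lit 583069163) (nat_lit 52) (nat_lit 5) (nat_lit 55) (nat_lit 4) (nat_lit 52) (nat_lit 4) (nat_lit 245) (nat_lit 238) (nat_lit 237)) (XT.lf (nat_lit 0) (nat_lit 226167242) (nat_lit 228) (nat_lit 5260805656) (nat_lit 228) (nat_lit 1247997900) (nat_lit 49) (nat_lit 4) (nat_lit 52) (nat_lit 5) (nat_lit 52) (nat_lit 4) (nat_lit 246) (nat_lit 238) (nat_lit 236))) (XT.nd (nat_lit 78) (nat_lit 304) (nat_lit 0) (XT.lf (nat_lit 0) (nat_lit 1460558220) (nat_lit 304) (nat_lit 2761174898) (nat_lit 76) (nat_lit 2628491109)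 (nat_lit 48) (nat_lit 5) (nat_lit 52) (nat_lit 5) (nat_lit 49) (nat_lit 4) (nat_lit 247) (nat_lit 238) (nat_lit 235)) (XT.lf (nat_lit 0) (nat_lit 1116792140) (nat_lit 304) (nat_lit 3003369285) (nat_lit 380) (nat_lit 2869653690) (nat_lit 44) (nat_lit 5) (nat_lit 48) (nat_lit 5) (nat_lit 49) (nat_lit 4) (nat_lit 248) (nat_lit 238) (nat_lit 234))))))))
noncomputable def xc46 : XT := (XT.nd (nat_lit 1950) (nat_lit 456) (nat_lit 0) (XT.nd (nat_lit 936) (nat_lit 836) (nat_lit 0) (XT.nd (nat_lit 468) (nat_lit 684) (nat_lit 0) (XT.nd (nat_lit 234) (nat_lit 760) (nat_lit 0) (XT.nd (nat_lit 78) (nat_lit 456) (nat_lit 0) (XT.lf (nat_lit 0) (nat_lit 5273988280) (nat_lit 304) (nat_lit 1581117705) (nat_lit 380) (nat_lit 298177534) (nat_lit 44) (nat_lit 5) (nat_lit 48) (nat_lit 5) (nat_lit 49) (nat_lit 4) (nat_lit 249) (nat_lit 238) (nat_lit 233)) (XT.nd (nat_lit 78) (nat_lit 0) (nat_lit 0) (XT.lf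 (nat_lit 0) (nat_lit 2208941200) (nat_lit 456) (nat_lit 5037510747) (nat_lit 76) (nat_lit 91764293) (nat_lit 38) (nat_lit 5) (nat_lit 44) (nat_lit 5) (nat_lit 39) (nat_lit 4) (nat_lit 250) (nat_lit 238) (nat_lit 232)) (XT.lf (nat_lit 0) (nat_lit 4801528471) (nat_lit 456) (nat_lit 860674208) (nat_lit 76) (nat_lit 1884402930) (nat_lit 38) (nat_lit 5) (nat_lit 44) (nat_lit 5) (nat_lit 39) (nat_lit 4) (nat_lit 251) (nat_lit 238) (nat_lit 231)))) (XT.nd (nat_lit 78) (nat_lit 304) (nat_lit 0) (XT.lf (nat_lit 0) (nat_lit 3648880606) (nat_lit 456) (nat_lit 3861900083) (nat_lit 532) (nat_lit 269406179) (nat_lit 32) (nat_lit 5) (nat_lit 38) (nat_lit 5) (nat_lit 39) (nat_lit 4) (nat_lit 252) (nat_lit 238) (nat_lit 230)) (XT.nd (nat_lit 78) (nat_lit 0) (nat_lit 0) (XT.lf (nat_lit 0) (nat_lit 304781095) (nat_lit 228) (nat_lit 1835634901) (nat_lit 304) (nat_lit 5899984446) (nat_lit 28) (nat_lit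 5) (nat_lit 31) (nat_lit 5) (nat_lit 32) (nat_lit 5) (nat_lit 253) (nat_lit 238) (nat_lit 229)) (XT.lf (nat_lit 0) (nat_lit 4685828684) (nat_lit 304) (nat_lit 3198796859) (nat_lit 76) (nat_lit 440658303) (nat_lit 28) (nat_lit 5) (nat_lit 32) (nat_lit 5) (nat_lit 29) (nat_lit 4) (nat_lit 254) (nat_lit 238) (nat_lit 228))))) (XT.nd (nat_lit 234) (nat_lit 228) (nat_lit 0) (XT.nd (nat_lit 78) (nat_lit 304) (nat_lit 0) (XT.lf (nat_lit 0) (nat_lit 1546688181) (nat_lit 152) (nat_lit 5818419660) (nat_lit 228) (nat_lit 1274358556) (nat_lit 26) (nat_lit 5) (nat_lit 28) (nat_lit 5) (nat_lit 29) (nat_lit 4) (nat_lit 255) (nat_lit 238) (nat_lit 227)) (XT.nd (nat_lit 78) (nat_lit 228) (nat_lit 0) (XT.lf (nat_lit 0) (nat_lit 1153502655) (nat_lit 228) (nat_lit 2339235797) (nat_lit 76) (nat_lit 5489370570) (nat_lit 25) (nat_lit 5) (nat_lit 28) (nat_lit 5) (nat_lit 26) (nat_lit 5) (nat_lit 256) (nat_lit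 238) (nat_lit 226)) (XT.lf (nat_lit 0) (nat_lit 2723542506) (nat_lit 228) (nat_lit 907825709) (nat_lit 304) (nat_lit 5724912911) (nat_lit 22) (nat_lit 5) (nat_lit 25) (nat_lit 5) (nat_lit 26) (nat_lit 5) (nat_lit 257) (nat_lit 238) (nat_lit 225)))) (XT.nd (nat_lit 78) (nat_lit 228) (nat_lit 0) (XT.lf (nat_lit 0) (nat_lit 6283017421) (nat_lit 304) (nat_lit 1658237098) (nat_lit 76) (nat_lit 1821769614) (nat_lit 22) (nat_lit 5) (nat_lit 26) (nat_lit 5) (nat_lit 23) (nat_lit 4) (nat_lit 258) (nat_lit 238) (nat_lit 224)) (XT.nd (nat_lit 78) (nat_lit 76) (nat_lit 0) (XT.lf (nat_lit 0) (nat_lit 3709178273) (nat_lit 152) (nat_lit 5425060556) (nat_lit 228) (nat_lit 1069703531) (nat_lit 20) (nat_lit 5) (nat_lit 22) (nat_lit 5) (nat_lit 23) (nat_lit 4) (nat_lit 259) (nat_lit 238) (nat_lit 223)) (XT.lf (nat_lit 0) (nat_lit 1379585713) (nat_lit 228) (nat_lit 1284109447) (nat_lit 76) (nat_lit 8020199970)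 (nat_lit 19) (nat_lit 5) (nat_lit 22) (nat_lit 5) (nat_lit 20) (nat_lit 5) (nat_lit 260) (nat_lit 238) (nat_lit 222)))))) (XT.nd (nat_lit 468) (nat_lit 380) (nat_lit 0) (XT.nd (nat_lit 234) (nat_lit 228) (nat_lit 0) (XT.nd (nat_lit 78) (nat_lit 76) (nat_lit 0) (XT.lf (nat_lit 0) (nat_lit 3967902588) (nat_lit 228) (nat_lit 6834021633) (nat_lit 76) (nat_lit 398527948) (nat_lit 17) (nat_lit 5) (nat_lit 20) (nat_lit 5) (nat_lit 18) (nat_lit 4) (nat_lit 261) (nat_lit 238) (nat_lit 221)) (XT.nd (nat_lit 78) (nat_lit 76) (nat_lit 0) (XT.lf (nat_lit 0) (nat_lit 6757751714) (nat_lit 228) (nat_lit 1445049255) (nat_lit 76) (nat_lit 3556439258) (nat_lit 17) (nat_lit 5) (nat_lit 20) (nat_lit 5) (nat_lit 18) (nat_lit 4) (nat_lit 262) (nat_lit 238) (nat_lit 220)) (XT.lf (nat_lit 0) (nat_lit 4448043001) (nat_lit 76) (nat_lit 5327182644) (nat_lit 152) (nat_lit 2587580184) (nat_lit 16) (nat_lit 5) (nat_lit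 17) (nat_lit 5) (nat_lit 18) (nat_lit 4) (nat_lit 263) (nat_lit 238) (nat_lit 219)))) (XT.nd (nat_lit 78) (nat_lit 228) (nat_lit 0) (XT.lf (nat_lit 0) (nat_lit 10749041821) (nat_lit 76) (nat_lit 2226118051) (nat_lit 152) (nat_lit 44609457) (nat_lit 16) (nat_lit 5) (nat_lit 17) (nat_lit 5) (nat_lit 18) (nat_lit 4) (nat_lit 264) (nat_lit 238) (nat_lit 218)) (XT.nd (nat_lit 78) (nat_lit 0) (nat_lit 0) (XT.lf (nat_lit 0) (nat_lit 2594370035) (nat_lit 228) (nat_lit 9944329619) (nat_lit 76) (nat_lit 1183514817) (nat_lit 13) (nat_lit 5) (nat_lit 16) (nat_lit 5) (nat_lit 14) (nat_lit 4) (nat_lit 265) (nat_lit 238) (nat_lit 217)) (XT.lf (nat_lit 0) (nat_lit 5472254101) (nat_lit 228) (nat_lit 4240033541) (nat_lit 76) (nat_lit 4766374844) (nat_lit 13) (nat_lit 5) (nat_lit 16) (nat_lit 5) (nat_lit 14) (nat_lit 4) (nat_lit 266) (nat_lit 238) (nat_lit 216))))) (XT.nd (nat_lit 234) (nat_lit 304)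 (nat_lit 0) (XT.nd (nat_lit 78) (nat_lit 0) (nat_lit 0) (XT.lf (nat_lit 0) (nat_lit 1882287037) (nat_lit 76) (nat_lit 6658792297) (nat_lit 152) (nat_lit 6757982449) (nat_lit 12) (nat_lit 5) (nat_lit 13) (nat_lit 5) (nat_lit 14) (nat_lit 4) (nat_lit 267) (nat_lit 238) (nat_lit 215)) (XT.nd (nat_lit 78) (nat_lit 0) (nat_lit 0) (XT.lf (nat_lit 0) (nat_lit 8606402815) (nat_lit 76) (nat_lit 3283537340) (nat_lit 152) (nat_lit 4292661131) (nat_lit 12) (nat_lit 5) (nat_lit 13) (nat_lit 5) (nat_lit 14) (nat_lit 4) (nat_lit 268) (nat_lit 238) (nat_lit 214)) (XT.lf (nat_lit 0) (nat_lit 15438976097) (nat_lit 152) (nat_lit 1401853495) (nat_lit 0) (nat_lit 301663636) (nat_lit 12) (nat_lit 5) (nat_lit 14) (nat_lit 4) (nat_lit 12) (nat_lit 4) (nat_lit 269) (nat_lit 238) (nat_lit 213)))) (XT.nd (nat_lit 156) (nat_lit 76) (nat_lit 0) (XT.nd (nat_lit 78) (nat_lit 0) (nat_lit 0) (XT.lf (nat_lit 0) (nat_lit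 1184340143) (nat_lit 228) (nat_lit 12865607140) (nat_lit 76) (nat_lit 4115641928) (nat_lit 9) (nat_lit 5) (nat_lit 12) (nat_lit 5) (nat_lit 10) (nat_lit 4) (nat_lit 270) (nat_lit 238) (nat_lit 212)) (XT.lf (nat_lit 0) (nat_lit 4180302333) (nat_lit 228) (nat_lit 6811526320) (nat_lit 76) (nat_lit 8277834523) (nat_lit 9) (nat_lit 5) (nat_lit 12) (nat_lit 5) (nat_lit 10) (nat_lit 4) (nat_lit 271) (nat_lit 238) (nat_lit 211))) (XT.nd (nat_lit 78) (nat_lit 76) (nat_lit 0) (XT.lf (nat_lit 0) (nat_lit 7350928335) (nat_lit 228) (nat_lit 380995102) (nat_lit 76) (nat_lit 12735524859) (nat_lit 9) (nat_lit 5) (nat_lit 12) (nat_lit 5) (nat_lit 10) (nat_lit 4) (nat_lit 272) (nat_lit 238) (nat_lit 210)) (XT.lf (nat_lit 0) (nat_lit 6804481068) (nat_lit 76) (nat_lit 4074173910) (nat_lit 152) (nat_lit 10874295743) (nat_lit 8) (nat_lit 5) (nat_lit 9) (nat_lit 5) (nat_lit 10) (nat_lit 4) (nat_lit 273)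 (nat_lit 238) (nat_lit 209))))))) (XT.nd (nat_lit 936) (nat_lit 152) (nat_lit 0) (XT.nd (nat_lit 468) (nat_lit 152) (nat_lit 0) (XT.nd (nat_lit 234) (nat_lit 76) (nat_lit 0) (XT.nd (nat_lit 78) (nat_lit 76) (nat_lit 0) (XT.lf (nat_lit 0) (nat_lit 14489106354) (nat_lit 76) (nat_lit 151830744) (nat_lit 152) (nat_lit 8504327161) (nat_lit 8) (nat_lit 5) (nat_lit 9) (nat_lit 5) (nat_lit 10) (nat_lit 4) (nat_lit 274) (nat_lit 238) (nat_lit 208)) (XT.nd (nat_lit 78) (nat_lit 76) (nat_lit 0) (XT.lf (nat_lit 0) (nat_lit 18747777131) (nat_lit 152) (nat_lit 2052407419) (nat_lit 0) (nat_lit 3845438515) (nat_lit 8) (nat_lit 5) (nat_lit 10) (nat_lit 4) (nat_lit 8) (nat_lit 4) (nat_lit 275) (nat_lit 238) (nat_lit 207)) (XT.lf (nat_lit 0) (nat_lit 5251630722) (nat_lit 76) (nat_lit 18011175283) (nat_lit 76) (nat_lit 2996968618) (nat_lit 7) (nat_lit 4) (nat_lit 8) (nat_lit 5) (nat_lit 8) (nat_lit 4)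 (nat_lit 276) (nat_lit 238) (nat_lit 206)))) (XT.nd (nat_lit 78) (nat_lit 0) (nat_lit 0) (XT.lf (nat_lit 0) (nat_lit 136472183) (nat_lit 152) (nat_lit 14833926049) (nat_lit 76) (nat_lit 13031930878) (nat_lit 6) (nat_lit 5) (nat_lit 8) (nat_lit 5) (nat_lit 7) (nat_lit 4) (nat_lit 277) (nat_lit 238) (nat_lit 205)) (XT.nd (nat_lit 78) (nat_lit 0) (nat_lit 0) (XT.lf (nat_lit 0) (nat_lit 3312119926) (nat_lit 152) (nat_lit 8324487567) (nat_lit 76) (nat_lit 18245284800) (nat_lit 6) (nat_lit 5) (nat_lit 8) (nat_lit 5) (nat_lit 7) (nat_lit 4) (nat_lit 278) (nat_lit 238) (nat_lit 204)) (XT.lf (nat_lit 0) (nat_lit 6698713769) (nat_lit 152) (nat_lit 1369176837) (nat_lit 76) (nat_lit 23847477889) (nat_lit 6) (nat_lit 5) (nat_lit 8) (nat_lit 5) (nat_lit 7) (nat_lit 4) (nat_lit 279) (nat_lit 238) (nat_lit 203))))) (XT.nd (nat_lit 234) (nat_lit 76) (nat_lit 0) (XT.nd (nat_lit 78) (nat_lit 0) (nat_lit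 0) (XT.lf (nat_lit 0) (nat_lit 6393027944) (nat_lit 76) (nat_lit 4077046949) (nat_lit 152) (nat_lit 23632432857) (nat_lit 5) (nat_lit 5) (nat_lit 6) (nat_lit 5) (nat_lit 7) (nat_lit 4) (nat_lit 280) (nat_lit 238) (nat_lit 202)) (XT.nd (nat_lit 78) (nat_lit 0) (nat_lit 0) (XT.lf (nat_lit 0) (nat_lit 14547879234) (nat_lit 152) (nat_lit 21684180456) (nat_lit 0) (nat_lit 232265022) (nat_lit 5) (nat_lit 5) (nat_lit 7) (nat_lit 4) (nat_lit 5) (nat_lit 4) (nat_lit 281) (nat_lit 238) (nat_lit 201)) (XT.lf (nat_lit 0) (nat_lit 19021435847) (nat_lit 152) (nat_lit 15347620240) (nat_lit 0) (nat_lit 4640547702) (nat_lit 5) (nat_lit 5) (nat_lit 7) (nat_lit 4) (nat_lit 5) (nat_lit 4) (nat_lit 282) (nat_lit 238) (nat_lit 200)))) (XT.nd (nat_lit 78) (nat_lit 76) (nat_lit 0) (XT.lf (nat_lit 0) (nat_lit 23819201621) (nat_lit 152) (nat_lit 8564196095) (nat_lit 0) (nat_lit 9377874650) (nat_lit 5) (nat_lit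 5) (nat_lit 7) (nat_lit 4) (nat_lit 5) (nat_lit 4) (nat_lit 283) (nat_lit 238) (nat_lit 199)) (XT.nd (nat_lit 78) (nat_lit 76) (nat_lit 0) (XT.lf (nat_lit 0) (nat_lit 28969607759) (nat_lit 152) (nat_lit 1293709952) (nat_lit 0) (nat_lit 14472318912) (nat_lit 5) (nat_lit 5) (nat_lit 7) (nat_lit 4) (nat_lit 5) (nat_lit 4) (nat_lit 284) (nat_lit 238) (nat_lit 198)) (XT.lf (nat_lit 0) (nat_lit 6849565559) (nat_lit 76) (nat_lit 27818341844) (nat_lit 76) (nat_lit 13269236444) (nat_lit 4) (nat_lit 4) (nat_lit 5) (nat_lit 5) (nat_lit 5) (nat_lit 4) (nat_lit 285) (nat_lit 238) (nat_lit 197)))))) (XT.nd (nat_lit 468) (nat_lit 76) (nat_lit 0) (XT.nd (nat_lit 234) (nat_lit 76) (nat_lit 0) (XT.nd (nat_lit 78) (nat_lit 0) (nat_lit 0) (XT.lf (nat_lit 0) (nat_lit 15667688622) (nat_lit 76) (nat_lit 25161815082) (nat_lit 76) (nat_lit 10564731394) (nat_lit 4) (nat_lit 4) (nat_lit 5) (nat_lit 5) (nat_lit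 5) (nat_lit 4) (nat_lit 286) (nat_lit 238) (nat_lit 196)) (XT.nd (nat_lit 78) (nat_lit 0) (nat_lit 0) (XT.lf (nat_lit 0) (nat_lit 25144790304) (nat_lit 76) (nat_lit 22313367369) (nat_lit 76) (nat_lit 7671859339) (nat_lit 4) (nat_lit 4) (nat_lit 5) (nat_lit 5) (nat_lit 5) (nat_lit 4) (nat_lit 287) (nat_lit 238) (nat_lit 195)) (XT.lf (nat_lit 0) (nat_lit 35337031210) (nat_lit 76) (nat_lit 19256119014) (nat_lit 76) (nat_lit 4573477334) (nat_lit 4) (nat_lit 4) (nat_lit 5) (nat_lit 5) (nat_lit 5) (nat_lit 4) (nat_lit 288) (nat_lit 238) (nat_lit 194)))) (XT.nd (nat_lit 78) (nat_lit 76) (nat_lit 0) (XT.lf (nat_lit 0) (nat_lit 46304809802) (nat_lit 76) (nat_lit 15971952990) (nat_lit 76) (nat_lit 1251224598) (nat_lit 4) (nat_lit 4) (nat_lit 5) (nat_lit 5) (nat_lit 5) (nat_lit 4) (nat_lit 289) (nat_lit 238) (nat_lit 193)) (XT.nd (nat_lit 78) (nat_lit 0) (nat_lit 0) (XT.lf (nat_lit 0) (nat_lit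 2198801313) (nat_lit 152) (nat_lit 10182487135) (nat_lit 76) (nat_lit 55854199888) (nat_lit 3) (nat_lit 5) (nat_lit 5) (nat_lit 5) (nat_lit 4) (nat_lit 4) (nat_lit 290) (nat_lit 238) (nat_lit 192)) (XT.lf (nat_lit 0) (nat_lit 5837683979) (nat_lit 152) (nat_lit 2646264406) (nat_lit 76) (nat_lit 64834641348) (nat_lit 3) (nat_lit 5) (nat_lit 5) (nat_lit 5) (nat_lit 4) (nat_lit 4) (nat_lit 291) (nat_lit 238) (nat_lit 191))))) (XT.nd (nat_lit 234) (nat_lit 0) (nat_lit 0) (XT.nd (nat_lit 78) (nat_lit 0) (nat_lit 0) (XT.lf (nat_lit 0) (nat_lit 5747768326) (nat_lit 76) (nat_lit 4140044111) (nat_lit 152) (nat_lit 68910949871) (nat_lit 2) (nat_lit 5) (nat_lit 3) (nat_lit 5) (nat_lit 4) (nat_lit 4) (nat_lit 292) (nat_lit 238) (nat_lit 190)) (XT.nd (nat_lit 78) (nat_lit 0) (nat_lit 0) (XT.lf (nat_lit 0) (nat_lit 14331578809) (nat_lit 152) (nat_lit 69795760023) (nat_lit 0) (nat_lit 584471016) (nat_lit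 2) (nat_lit 5) (nat_lit 4) (nat_lit 4) (nat_lit 2) (nat_lit 4) (nat_lit 293) (nat_lit 238) (nat_lit 189)) (XT.lf (nat_lit 0) (nat_lit 19221837734) (nat_lit 152) (nat_lit 66418084350) (nat_lit 0) (nat_lit 5450728852) (nat_lit 2) (nat_lit 5) (nat_lit 4) (nat_lit 4) (nat_lit 2) (nat_lit 4) (nat_lit 294) (nat_lit 238) (nat_lit 188)))) (XT.nd (nat_lit 156) (nat_lit 0) (nat_lit 0) (XT.nd (nat_lit 78) (nat_lit 0) (nat_lit 0) (XT.lf (nat_lit 0) (nat_lit 24488000365) (nat_lit 152) (nat_lit 62798382949) (nat_lit 0) (nat_lit 10694668252) (nat_lit 2) (nat_lit 5) (nat_lit 4) (nat_lit 4) (nat_lit 2) (nat_lit 4) (nat_lit 295) (nat_lit 238) (nat_lit 187)) (XT.lf (nat_lit 0) (nat_lit 30161273592) (nat_lit 152) (nat_lit 58915205737) (nat_lit 0) (nat_lit 16347364413) (nat_lit 2) (nat_lit 5) (nat_lit 4) (nat_lit 4) (nat_lit 2) (nat_lit 4) (nat_lit 296) (nat_lit 238) (nat_lit 186))) (XT.nd (nat_lit 78)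 (nat_lit 0) (nat_lit 0) (XT.lf (nat_lit 0) (nat_lit 36275276811) (nat_lit 152) (nat_lit 54745541293) (nat_lit 0) (nat_lit 22442314794) (nat_lit 2) (nat_lit 5) (nat_lit 4) (nat_lit 4) (nat_lit 2) (nat_lit 4) (nat_lit 297) (nat_lit 238) (nat_lit 185)) (XT.lf (nat_lit 0) (nat_lit 42866241154) (nat_lit 152) (nat_lit 50264680495) (nat_lit 0) (nat_lit 29015637619) (nat_lit 2) (nat_lit 5) (nat_lit 4) (nat_lit 4) (nat_lit 2) (nat_lit 4) (nat_lit 298) (nat_lit 238) (nat_lit 184))))))))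
noncomputable def xc47 : XT := (XT.nd (nat_lit 1950) (nat_lit 0) (nat_lit 0) (XT.nd (nat_lit 936) (nat_lit 0) (nat_lit 0) (XT.nd (nat_lit 468) (nat_lit 76) (nat_lit 0) (XT.nd (nat_lit 234) (nat_lit 0) (nat_lit 0) (XT.nd (nat_lit 78) (nat_lit 0) (nat_lit 0) (XT.lf (nat_lit 0) (nat_lit 49973224185) (nat_lit 152) (nat_lit 45446070094) (nat_lit 0) (nat_lit 36106285912) (nat_lit 2) (nat_lit 5) (nat_lit 4) (nat_lit 4) (nat_lit 2) (nat_lit 4) (nat_lit 299) (nat_lit 238) (nat_lit 183)) (XT.nd (nat_lit 78) (nat_lit 0) (nat_lit 0) (XT.lf (nat_lit 0) (nat_lit 57638341361) (nat_lit 152) (nat_lit 40261155361) (nat_lit 0) (nat_lit 43756278330) (nat_lit 2) (nat_lit 5) (nat_lit 4) (nat_lit 4) (nat_lit 2) (nat_lit 4) (nat_lit 300) (nat_lit 238) (nat_lit 182)) (XT.lf (nat_lit 0) (nat_lit 65907015597) (nat_lit 152) (nat_lit 34679210875) (nat_lit 0) (nat_lit 52010948162) (nat_lit 2) (nat_lit 5) (nat_lit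 4) (nat_lit 4) (nat_lit 2) (nat_lit 4) (nat_lit 301) (nat_lit 238) (nat_lit 181)))) (XT.nd (nat_lit 78) (nat_lit 0) (nat_lit 0) (XT.lf (nat_lit 0) (nat_lit 74828246446) (nat_lit 152) (nat_lit 28667158448) (nat_lit 0) (nat_lit 60919211968) (nat_lit 2) (nat_lit 5) (nat_lit 4) (nat_lit 4) (nat_lit 2) (nat_lit 4) (nat_lit 302) (nat_lit 238) (nat_lit 180)) (XT.nd (nat_lit 78) (nat_lit 0) (nat_lit 0) (XT.lf (nat_lit 0) (nat_lit 84454900459) (nat_lit 152) (nat_lit 22189371102) (nat_lit 0) (nat_lit 70533859461) (nat_lit 2) (nat_lit 5) (nat_lit 4) (nat_lit 4) (nat_lit 2) (nat_lit 4) (nat_lit 303) (nat_lit 238) (nat_lit 179)) (XT.lf (nat_lit 0) (nat_lit 94844024476) (nat_lit 152) (nat_lit 15207461949) (nat_lit 0) (nat_lit 80911866330) (nat_lit 2) (nat_lit 5) (nat_lit 4) (nat_lit 4) (nat_lit 2) (nat_lit 4) (nat_lit 304) (nat_lit 238) (nat_lit 178))))) (XT.nd (nat_lit 234) (nat_lit 0) (nat_lit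 0) (XT.nd (nat_lit 78) (nat_lit 76) (nat_lit 0) (XT.lf (nat_lit 0) (nat_lit 106057183677) (nat_lit 152) (nat_lit 7680056712) (nat_lit 0) (nat_lit 92114731875) (nat_lit 2) (nat_lit 5) (nat_lit 4) (nat_lit 4) (nat_lit 2) (nat_lit 4) (nat_lit 305) (nat_lit 238) (nat_lit 177)) (XT.nd (nat_lit 78) (nat_lit 0) (nat_lit 0) (XT.lf (nat_lit 0) (nat_lit 460486872) (nat_lit 76) (nat_lit 117711414258) (nat_lit 76) (nat_lit 103759431293) (nat_lit 1) (nat_lit 4) (nat_lit 2) (nat_lit 5) (nat_lit 2) (nat_lit 4) (nat_lit 306) (nat_lit 238) (nat_lit 176)) (XT.lf (nat_lit 0) (nat_lit 9677262148) (nat_lit 76) (nat_lit 121782154208) (nat_lit 76) (nat_lit 107821346092) (nat_lit 1) (nat_lit 4) (nat_lit 2) (nat_lit 5) (nat_lit 2) (nat_lit 4) (nat_lit 307) (nat_lit 238) (nat_lit 175)))) (XT.nd (nat_lit 78) (nat_lit 0) (nat_lit 0) (XT.lf (nat_lit 0) (nat_lit 19620468865) (nat_lit 76) (nat_lit 126183569501)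 (nat_lit 76) (nat_lit 112214589950) (nat_lit 1) (nat_lit 4) (nat_lit 2) (nat_lit 5) (nat_lit 2) (nat_lit 4) (nat_lit 308) (nat_lit 238) (nat_lit 174)) (XT.nd (nat_lit 78) (nat_lit 0) (nat_lit 0) (XT.lf (nat_lit 0) (nat_lit 30349029732) (nat_lit 76) (nat_lit 130941742601) (nat_lit 76) (nat_lit 116965196904) (nat_lit 1) (nat_lit 4) (nat_lit 2) (nat_lit 5) (nat_lit 2) (nat_lit 4) (nat_lit 309) (nat_lit 238) (nat_lit 173)) (XT.lf (nat_lit 0) (nat_lit 41926521403) (nat_lit 76) (nat_lit 136084870086) (nat_lit 76) (nat_lit 122101318701) (nat_lit 1) (nat_lit 4) (nat_lit 2) (nat_lit 5) (nat_lit 2) (nat_lit 4) (nat_lit 310) (nat_lit 238) (nat_lit 172)))))) (XT.nd (nat_lit 468) (nat_lit 0) (nat_lit 0) (XT.nd (nat_lit 234) (nat_lit 0) (nat_lit 0) (XT.nd (nat_lit 78) (nat_lit 0) (nat_lit 0) (XT.lf (nat_lit 0) (nat_lit 54421551238) (nat_lit 76) (nat_lit 141643429751) (nat_lit 76) (nat_lit 127653391616)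 (nat_lit 1) (nat_lit 4) (nat_lit 2) (nat_lit 5) (nat_lit 2) (nat_lit 4) (nat_lit 311) (nat_lit 238) (nat_lit 171)) (XT.nd (nat_lit 78) (nat_lit 0) (nat_lit 0) (XT.lf (nat_lit 0) (nat_lit 67908163858) (nat_lit 76) (nat_lit 147650361208) (nat_lit 76) (nat_lit 133654316824) (nat_lit 1) (nat_lit 4) (nat_lit 2) (nat_lit 5) (nat_lit 2) (nat_lit 4) (nat_lit 312) (nat_lit 238) (nat_lit 170)) (XT.lf (nat_lit 0) (nat_lit 82466279929) (nat_lit 76) (nat_lit 154141261087) (nat_lit 76) (nat_lit 140139655361) (nat_lit 1) (nat_lit 4) (nat_lit 2) (nat_lit 5) (nat_lit 2) (nat_lit 4) (nat_lit 313) (nat_lit 238) (nat_lit 169)))) (XT.nd (nat_lit 78) (nat_lit 0) (nat_lit 0) (XT.lf (nat_lit 0) (nat_lit 98182169771) (nat_lit 76) (nat_lit 161154593981) (nat_lit 76) (nat_lit 147147838864) (nat_lit 1) (nat_lit 4) (nat_lit 2) (nat_lit 5) (nat_lit 2) (nat_lit 4) (nat_lit 314) (nat_lit 238) (nat_lit 168)) (XT.nd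 (nat_lit 78) (nat_lit 0) (nat_lit 0) (XT.lf (nat_lit 0) (nat_lit 115148964581) (nat_lit 76) (nat_lit 168731920381) (nat_lit 76) (nat_lit 154720397310) (nat_lit 1) (nat_lit 4) (nat_lit 2) (nat_lit 5) (nat_lit 2) (nat_lit 4) (nat_lit 315) (nat_lit 238) (nat_lit 167)) (XT.lf (nat_lit 0) (nat_lit 133467208329) (nat_lit 76) (nat_lit 176918142962) (nat_lit 76) (nat_lit 162902205118) (nat_lit 1) (nat_lit 4) (nat_lit 2) (nat_lit 5) (nat_lit 2) (nat_lit 4) (nat_lit 316) (nat_lit 238) (nat_lit 166))))) (XT.nd (nat_lit 234) (nat_lit 0) (nat_lit 0) (XT.nd (nat_lit 78) (nat_lit 0) (nat_lit 0) (XT.lf (nat_lit 0) (nat_lit 153245453570) (nat_lit 76) (nat_lit 185761772672) (nat_lit 76) (nat_lit 171741747076) (nat_lit 1) (nat_lit 4) (nat_lit 2) (nat_lit 5) (nat_lit 2) (nat_lit 4) (nat_lit 317) (nat_lit 238) (nat_lit 165)) (XT.nd (nat_lit 78) (nat_lit 0) (nat_lit 0) (XT.lf (nat_lit 0) (nat_lit 174600904721)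 (nat_lit 76) (nat_lit 195315216206) (nat_lit 76) (nat_lit 181291405655) (nat_lit 1) (nat_lit 4) (nat_lit 2) (nat_lit 5) (nat_lit 2) (nat_lit 4) (nat_lit 318) (nat_lit 238) (nat_lit 164)) (XT.lf (nat_lit 0) (nat_lit 197660112603) (nat_lit 76) (nat_lit 205635086564) (nat_lit 76) (nat_lit 191607771423) (nat_lit 1) (nat_lit 4) (nat_lit 2) (nat_lit 5) (nat_lit 2) (nat_lit 4) (nat_lit 319) (nat_lit 238) (nat_lit 163)))) (XT.nd (nat_lit 156) (nat_lit 0) (nat_lit 0) (XT.nd (nat_lit 78) (nat_lit 0) (nat_lit 0) (XT.lf (nat_lit 0) (nat_lit 222559724375) (nat_lit 76) (nat_lit 216782538531) (nat_lit 76) (nat_lit 202751978400) (nat_lit 1) (nat_lit 4) (nat_lit 2) (nat_lit 5) (nat_lit 2) (nat_lit 4) (nat_lit 320) (nat_lit 238) (nat_lit 162)) (XT.lf (nat_lit 0) (nat_lit 249447293290) (nat_lit 76) (nat_lit 228823631083) (nat_lit 76) (nat_lit 214790066332) (nat_lit 1) (nat_lit 4) (nat_lit 2) (nat_lit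 5) (nat_lit 2) (nat_lit 4) (nat_lit 321) (nat_lit 238) (nat_lit 161))) (XT.nd (nat_lit 78) (nat_lit 0) (nat_lit 0) (XT.lf (nat_lit 0) (nat_lit 278482153092) (nat_lit 76) (nat_lit 241829718842) (nat_lit 76) (nat_lit 227793372036) (nat_lit 1) (nat_lit 4) (nat_lit 2) (nat_lit 5) (nat_lit 2) (nat_lit 4) (nat_lit 322) (nat_lit 238) (nat_lit 160)) (XT.lf (nat_lit 0) (nat_lit 309836362207) (nat_lit 76) (nat_lit 255877874921) (nat_lit 76) (nat_lit 241838952137) (nat_lit 1) (nat_lit 4) (nat_lit 2) (nat_lit 5) (nat_lit 2) (nat_lit 4) (nat_lit 323) (nat_lit 238) (nat_lit 159))))))) (XT.nd (nat_lit 1014) (nat_lit 0) (nat_lit 0) (XT.nd (nat_lit 468) (nat_lit 0) (nat_lit 0) (XT.nd (nat_lit 234) (nat_lit 0) (nat_lit 0) (XT.nd (nat_lit 78) (nat_lit 0) (nat_lit 0) (XT.lf (nat_lit 0) (nat_lit 343695723358) (nat_lit 76) (nat_lit 271051347652) (nat_lit 76) (nat_lit 257010039704) (nat_lit 1) (nat_lit 4)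 (nat_lit 2) (nat_lit 5) (nat_lit 2) (nat_lit 4) (nat_lit 324) (nat_lit 238) (nat_lit 158)) (XT.nd (nat_lit 78) (nat_lit 0) (nat_lit 0) (XT.lf (nat_lit 0) (nat_lit 380260884609) (nat_lit 76) (nat_lit 287440053910) (nat_lit 76) (nat_lit 273396537477) (nat_lit 1) (nat_lit 4) (nat_lit 2) (nat_lit 5) (nat_lit 2) (nat_lit 4) (nat_lit 325) (nat_lit 238) (nat_lit 157)) (XT.lf (nat_lit 0) (nat_lit 419748528399) (nat_lit 76) (nat_lit 305141111956) (nat_lit 76) (nat_lit 291095550629) (nat_lit 1) (nat_lit 4) (nat_lit 2) (nat_lit 5) (nat_lit 2) (nat_lit 4) (nat_lit 326) (nat_lit 238) (nat_lit 156)))) (XT.nd (nat_lit 78) (nat_lit 0) (nat_lit 0) (XT.lf (nat_lit 0) (nat_lit 462392655579) (nat_lit 76) (nat_lit 324259416947) (nat_lit 76) (nat_lit 310211962200) (nat_lit 1) (nat_lit 4) (nat_lit 2) (nat_lit 5) (nat_lit 2) (nat_lit 4) (nat_lit 327) (nat_lit 238) (nat_lit 155)) (XT.nd (nat_lit 78) (nat_lit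 0) (nat_lit 0) (XT.lf (nat_lit 0) (nat_lit 508445972087) (nat_lit 76) (nat_lit 344908262544) (nat_lit 76) (nat_lit 330859054630) (nat_lit 1) (nat_lit 4) (nat_lit 2) (nat_lit 5) (nat_lit 2) (nat_lit 4) (nat_lit 328) (nat_lit 238) (nat_lit 154)) (XT.lf (nat_lit 0) (nat_lit 558181386467) (nat_lit 76) (nat_lit 367210012275) (nat_lit 76) (nat_lit 353159181058) (nat_lit 1) (nat_lit 4) (nat_lit 2) (nat_lit 5) (nat_lit 2) (nat_lit 4) (nat_lit 329) (nat_lit 238) (nat_lit 153))))) (XT.nd (nat_lit 234) (nat_lit 0) (nat_lit 0) (XT.nd (nat_lit 78) (nat_lit 0) (nat_lit 0) (XT.lf (nat_lit 0) (nat_lit 611893627100) (nat_lit 76) (nat_lit 391296824657) (nat_lit 76) (nat_lit 377244490382) (nat_lit 1) (nat_lit 4) (nat_lit 2) (nat_lit 5) (nat_lit 2) (nat_lit 4) (nat_lit 330) (nat_lit 238) (nat_lit 152)) (XT.nd (nat_lit 78) (nat_lit 0) (nat_lit 0) (XT.lf (nat_lit 0) (nat_lit 669900988745) (nat_lit 76) (nat_lit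 417311436356) (nat_lit 76) (nat_lit 403257710361) (nat_lit 1) (nat_lit 4) (nat_lit 2) (nat_lit 5) (nat_lit 2) (nat_lit 4) (nat_lit 331) (nat_lit 238) (nat_lit 151)) (XT.lf (nat_lit 0) (nat_lit 732547218730) (nat_lit 76) (nat_lit 445408008035) (nat_lit 76) (nat_lit 431352993409) (nat_lit 1) (nat_lit 4) (nat_lit 2) (nat_lit 5) (nat_lit 2) (nat_lit 4) (nat_lit 332) (nat_lit 238) (nat_lit 150)))) (XT.nd (nat_lit 156) (nat_lit 0) (nat_lit 0) (XT.nd (nat_lit 78) (nat_lit 0) (nat_lit 0) (XT.lf (nat_lit 0) (nat_lit 800203553974) (nat_lit 76) (nat_lit 475753037895) (nat_lit 76) (nat_lit 461696830093) (nat_lit 1) (nat_lit 4) (nat_lit 2) (nat_lit 5) (nat_lit 2) (nat_lit 4) (nat_lit 333) (nat_lit 238) (nat_lit 149)) (XT.lf (nat_lit 0) (nat_lit 873270920908) (nat_lit 76) (nat_lit 508526348336) (nat_lit 76) (nat_lit 494469035742) (nat_lit 1) (nat_lit 4) (nat_lit 2) (nat_lit 5) (nat_lit 2) (nat_lit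 4) (nat_lit 334) (nat_lit 238) (nat_lit 148))) (XT.nd (nat_lit 78) (nat_lit 0) (nat_lit 0) (XT.lf (nat_lit 0) (nat_lit 952182311335) (nat_lit 76) (nat_lit 543922151568) (nat_lit 76) (nat_lit 529863816018) (nat_lit 1) (nat_lit 4) (nat_lit 2) (nat_lit 5) (nat_lit 2) (nat_lit 4) (nat_lit 335) (nat_lit 238) (nat_lit 147)) (XT.lf (nat_lit 0) (nat_lit 1037405348311) (nat_lit 76) (nat_lit 582150200499) (nat_lit 76) (nat_lit 568090917768) (nat_lit 1) (nat_lit 4) (nat_lit 2) (nat_lit 5) (nat_lit 2) (nat_lit 4) (nat_lit 336) (nat_lit 238) (nat_lit 146)))))) (XT.nd (nat_lit 30420) (nat_lit 0) (nat_lit 2280) (XT.nd (nat_lit 30186) (nat_lit 0) (nat_lit 3876) (XT.nd (nat_lit 78) (nat_lit 0) (nat_lit 0) (XT.lf (nat_lit 0) (nat_lit 1129445057240) (nat_lit 76) (nat_lit 623437031716) (nat_lit 76) (nat_lit 609376871964) (nat_lit 1) (nat_lit 4) (nat_lit 2) (nat_lit 5) (nat_lit 2) (nat_lit 4) (nat_lit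 337) (nat_lit 238) (nat_lit 145)) (XT.nd (nat_lit 30030) (nat_lit 0) (nat_lit 4180) (XT.lf (nat_lit 0) (nat_lit 1228846858618) (nat_lit 76) (nat_lit 668027307921) (nat_lit 76) (nat_lit 653966336114) (nat_lit 1) (nat_lit 4) (nat_lit 2) (nat_lit 5) (nat_lit 2) (nat_lit 4) (nat_lit 338) (nat_lit 238) (nat_lit 144)) (XT.lf (nat_lit 0) (nat_lit 1493912338) (nat_lit 76) (nat_lit 247096694) (nat_lit 0) (nat_lit 1493912338) (nat_lit 56) (nat_lit 5) (nat_lit 57) (nat_lit 0) (nat_lit 56) (nat_lit 4) (nat_lit 242) (nat_lit 239) (nat_lit 239)))) (XT.nd (nat_lit 78) (nat_lit 228) (nat_lit 0) (XT.lf (nat_lit 0) (nat_lit 2768388120) (nat_lit 76) (nat_lit 3086620416) (nat_lit 76) (nat_lit 656340568) (nat_lit 55) (nat_lit 4) (nat_lit 56) (nat_lit 5) (nat_lit 56) (nat_lit 4) (nat_lit 243) (nat_lit 239) (nat_lit 238)) (XT.nd (nat_lit 78) (nat_lit 152) (nat_lit 0) (XT.lf (nat_lit 0) (nat_lit 2023394787)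 (nat_lit 152) (nat_lit 471877809) (nat_lit 76) (nat_lit 4078989677) (nat_lit 54) (nat_lit 5) (nat_lit 56) (nat_lit 5) (nat_lit 55) (nat_lit 4) (nat_lit 244) (nat_lit 239) (nat_lit 237)) (XT.lf (nat_lit 0) (nat_lit 3029752878) (nat_lit 152) (nat_lit 1678836114) (nat_lit 228) (nat_lit 1948467247) (nat_lit 52) (nat_lit 5) (nat_lit 54) (nat_lit 5) (nat_lit 55) (nat_lit 4) (nat_lit 245) (nat_lit 239) (nat_lit 236))))) (XT.nd (nat_lit 234) (nat_lit 988) (nat_lit 0) (XT.nd (nat_lit 78) (nat_lit 532) (nat_lit 0) (XT.lf (nat_lit 0) (nat_lit 592193608) (nat_lit 228) (nat_lit 104260616) (nat_lit 76) (nat_lit 6068506771) (nat_lit 51) (nat_lit 5) (nat_lit 54) (nat_lit 5) (nat_lit 52) (nat_lit 5) (nat_lit 246) (nat_lit 239) (nat_lit 235)) (XT.nd (nat_lit 78) (nat_lit 304) (nat_lit 0) (XT.lf (nat_lit 0) (nat_lit 3110654327) (nat_lit 304) (nat_lit 3233241742) (nat_lit 76) (nat_lit 545021491) (nat_lit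 48) (nat_lit 5) (nat_lit 52) (nat_lit 5) (nat_lit 49) (nat_lit 4) (nat_lit 247) (nat_lit 239) (nat_lit 234)) (XT.lf (nat_lit 0) (nat_lit 529463859) (nat_lit 304) (nat_lit 5126476116) (nat_lit 380) (nat_lit 1382538923) (nat_lit 44) (nat_lit 5) (nat_lit 48) (nat_lit 5) (nat_lit 49) (nat_lit 4) (nat_lit 248) (nat_lit 239) (nat_lit 233)))) (XT.nd (nat_lit 156) (nat_lit 532) (nat_lit 0) (XT.nd (nat_lit 78) (nat_lit 380) (nat_lit 0) (XT.lf (nat_lit 0) (nat_lit 1031490349) (nat_lit 380) (nat_lit 2633454315) (nat_lit 76) (nat_lit 3543260177) (nat_lit 43) (nat_lit 5) (nat_lit 48) (nat_lit 5) (nat_lit 44) (nat_lit 5) (nat_lit 249) (nat_lit 239) (nat_lit 232)) (XT.lf (nat_lit 0) (nat_lit 1414488568) (nat_lit 380) (nat_lit 1994793157) (nat_lit 456) (nat_lit 3993089994) (nat_lit 38) (nat_lit 5) (nat_lit 43) (nat_lit 5) (nat_lit 44) (nat_lit 5) (nat_lit 250) (nat_lit 239) (nat_lit 231))) (XT.nd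 (nat_lit 78) (nat_lit 532) (nat_lit 0) (XT.lf (nat_lit 0) (nat_lit 5767890088) (nat_lit 380) (nat_lit 102656781) (nat_lit 456) (nat_lit 1751326421) (nat_lit 38) (nat_lit 5) (nat_lit 43) (nat_lit 5) (nat_lit 44) (nat_lit 5) (nat_lit 251) (nat_lit 239) (nat_lit 230)) (XT.lf (nat_lit 0) (nat_lit 575656963) (nat_lit 532) (nat_lit 5359655383) (nat_lit 76) (nat_lit 1928264716) (nat_lit 31) (nat_lit 5) (nat_lit 38) (nat_lit 5) (nat_lit 32) (nat_lit 5) (nat_lit 252) (nat_lit 239) (nat_lit 229))))))))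
noncomputable def xc48 : XT := (XT.nd (nat_lit 1950) (nat_lit 380) (nat_lit 0) (XT.nd (nat_lit 936) (nat_lit 684) (nat_lit 0) (XT.nd (nat_lit 468) (nat_lit 456) (nat_lit 0) (XT.nd (nat_lit 234) (nat_lit 456) (nat_lit 0) (XT.nd (nat_lit 78) (nat_lit 228) (nat_lit 0) (XT.lf (nat_lit 0) (nat_lit 2886724400) (nat_lit 532) (nat_lit 1029697665) (nat_lit 76) (nat_lit 4214153874) (nat_lit 31) (nat_lit 5) (nat_lit 38) (nat_lit 5) (nat_lit 32) (nat_lit 5) (nat_lit 253) (nat_lit 239) (nat_lit 228)) (XT.nd (nat_lit 78) (nat_lit 0) (nat_lit 0) (XT.lf (nat_lit 0) (nat_lit 3667567333) (nat_lit 228) (nat_lit 1653192989) (nat_lit 304) (nat_lit 3104054908) (nat_lit 28) (nat_lit 5) (nat_lit 31) (nat_lit 5) (nat_lit 32) (nat_lit 5) (nat_lit 254) (nat_lit 239) (nat_lit 227)) (XT.lf (nat_lit 0) (nat_lit 7854241778) (nat_lit 304) (nat_lit 131273292) (nat_lit 76) (nat_lit 765559254) (nat_lit 28) (nat_lit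 5) (nat_lit 32) (nat_lit 5) (nat_lit 29) (nat_lit 4) (nat_lit 255) (nat_lit 239) (nat_lit 226)))) (XT.nd (nat_lit 78) (nat_lit 228) (nat_lit 0) (XT.lf (nat_lit 0) (nat_lit 1441004093) (nat_lit 228) (nat_lit 4228722026) (nat_lit 76) (nat_lit 3429309451) (nat_lit 25) (nat_lit 5) (nat_lit 28) (nat_lit 5) (nat_lit 26) (nat_lit 5) (nat_lit 256) (nat_lit 239) (nat_lit 225)) (XT.nd (nat_lit 78) (nat_lit 0) (nat_lit 0) (XT.lf (nat_lit 0) (nat_lit 652934260) (nat_lit 228) (nat_lit 3153424721) (nat_lit 304) (nat_lit 5676177185) (nat_lit 22) (nat_lit 5) (nat_lit 25) (nat_lit 5) (nat_lit 26) (nat_lit 5) (nat_lit 257) (nat_lit 239) (nat_lit 224)) (XT.lf (nat_lit 0) (nat_lit 6008410475) (nat_lit 228) (nat_lit 343592167) (nat_lit 304) (nat_lit 3546060341) (nat_lit 22) (nat_lit 5) (nat_lit 25) (nat_lit 5) (nat_lit 26) (nat_lit 5) (nat_lit 258) (nat_lit 239) (nat_lit 223))))) (XT.nd (nat_lit 234) (nat_lit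 76) (nat_lit 0) (XT.nd (nat_lit 78) (nat_lit 228) (nat_lit 0) (XT.lf (nat_lit 0) (nat_lit 1290696380) (nat_lit 152) (nat_lit 7790301359) (nat_lit 228) (nat_lit 1268042472) (nat_lit 20) (nat_lit 5) (nat_lit 22) (nat_lit 5) (nat_lit 23) (nat_lit 4) (nat_lit 259) (nat_lit 239) (nat_lit 222)) (XT.nd (nat_lit 78) (nat_lit 152) (nat_lit 0) (XT.lf (nat_lit 0) (nat_lit 1136126244) (nat_lit 228) (nat_lit 3918523791) (nat_lit 76) (nat_lit 5779368753) (nat_lit 19) (nat_lit 5) (nat_lit 22) (nat_lit 5) (nat_lit 20) (nat_lit 5) (nat_lit 260) (nat_lit 239) (nat_lit 221)) (XT.lf (nat_lit 0) (nat_lit 1530498450) (nat_lit 152) (nat_lit 2064424017) (nat_lit 228) (nat_lit 7766237996) (nat_lit 17) (nat_lit 5) (nat_lit 19) (nat_lit 5) (nat_lit 20) (nat_lit 5) (nat_lit 261) (nat_lit 239) (nat_lit 220)))) (XT.nd (nat_lit 78) (nat_lit 76) (nat_lit 0) (XT.lf (nat_lit 0) (nat_lit 6285824711) (nat_lit 228) (nat_lit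 4463918572) (nat_lit 76) (nat_lit 1178327455) (nat_lit 17) (nat_lit 5) (nat_lit 20) (nat_lit 5) (nat_lit 18) (nat_lit 4) (nat_lit 262) (nat_lit 239) (nat_lit 219)) (XT.nd (nat_lit 78) (nat_lit 0) (nat_lit 0) (XT.lf (nat_lit 0) (nat_lit 1200146699) (nat_lit 76) (nat_lit 7979394186) (nat_lit 152) (nat_lit 3362187249) (nat_lit 16) (nat_lit 5) (nat_lit 17) (nat_lit 5) (nat_lit 18) (nat_lit 4) (nat_lit 263) (nat_lit 239) (nat_lit 218)) (XT.lf (nat_lit 0) (nat_lit 7436276373) (nat_lit 76) (nat_lit 4899374029) (nat_lit 152) (nat_lit 866724219) (nat_lit 16) (nat_lit 5) (nat_lit 17) (nat_lit 5) (nat_lit 18) (nat_lit 4) (nat_lit 264) (nat_lit 239) (nat_lit 217)))))) (XT.nd (nat_lit 468) (nat_lit 228) (nat_lit 0) (XT.nd (nat_lit 234) (nat_lit 228) (nat_lit 0) (XT.nd (nat_lit 78) (nat_lit 0) (nat_lit 0) (XT.lf (nat_lit 0) (nat_lit 85923506) (nat_lit 152) (nat_lit 1566136752) (nat_lit 228) (nat_lit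 12267398658) (nat_lit 13) (nat_lit 5) (nat_lit 15) (nat_lit 5) (nat_lit 16) (nat_lit 5) (nat_lit 265) (nat_lit 239) (nat_lit 216)) (XT.nd (nat_lit 78) (nat_lit 0) (nat_lit 0) (XT.lf (nat_lit 0) (nat_lit 4451625522) (nat_lit 228) (nat_lit 8155265439) (nat_lit 76) (nat_lit 2075421991) (nat_lit 13) (nat_lit 5) (nat_lit 16) (nat_lit 5) (nat_lit 14) (nat_lit 4) (nat_lit 266) (nat_lit 239) (nat_lit 215)) (XT.lf (nat_lit 0) (nat_lit 7437539877) (nat_lit 228) (nat_lit 2186078308) (nat_lit 76) (nat_lit 5885857043) (nat_lit 13) (nat_lit 5) (nat_lit 16) (nat_lit 5) (nat_lit 14) (nat_lit 4) (nat_lit 267) (nat_lit 239) (nat_lit 214)))) (XT.nd (nat_lit 78) (nat_lit 152) (nat_lit 0) (XT.lf (nat_lit 0) (nat_lit 4365441641) (nat_lit 76) (nat_lit 6329379341) (nat_lit 152) (nat_lit 5705640597) (nat_lit 12) (nat_lit 5) (nat_lit 13) (nat_lit 5) (nat_lit 14) (nat_lit 4) (nat_lit 268) (nat_lit 239) (nat_lit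 213)) (XT.nd (nat_lit 78) (nat_lit 152) (nat_lit 0) (XT.lf (nat_lit 0) (nat_lit 11454703597) (nat_lit 76) (nat_lit 2747964456) (nat_lit 152) (nat_lit 3161092125) (nat_lit 12) (nat_lit 5) (nat_lit 13) (nat_lit 5) (nat_lit 14) (nat_lit 4) (nat_lit 269) (nat_lit 239) (nat_lit 212)) (XT.lf (nat_lit 0) (nat_lit 603248972) (nat_lit 152) (nat_lit 17363807770) (nat_lit 152) (nat_lit 439207647) (nat_lit 10) (nat_lit 4) (nat_lit 12) (nat_lit 5) (nat_lit 12) (nat_lit 4) (nat_lit 270) (nat_lit 239) (nat_lit 211))))) (XT.nd (nat_lit 234) (nat_lit 76) (nat_lit 0) (XT.nd (nat_lit 78) (nat_lit 76) (nat_lit 0) (XT.lf (nat_lit 0) (nat_lit 2547469159) (nat_lit 228) (nat_lit 11790235137) (nat_lit 76) (nat_lit 5176068150) (nat_lit 9) (nat_lit 5) (nat_lit 12) (nat_lit 5) (nat_lit 10) (nat_lit 4) (nat_lit 271) (nat_lit 239) (nat_lit 210)) (XT.nd (nat_lit 78) (nat_lit 76) (nat_lit 0) (XT.lf (nat_lit 0) (nat_lit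 5689154117) (nat_lit 228) (nat_lit 5407725672) (nat_lit 76) (nat_lit 9617075052) (nat_lit 9) (nat_lit 5) (nat_lit 12) (nat_lit 5) (nat_lit 10) (nat_lit 4) (nat_lit 272) (nat_lit 239) (nat_lit 209)) (XT.lf (nat_lit 0) (nat_lit 1466245761) (nat_lit 76) (nat_lit 7595453047) (nat_lit 152) (nat_lit 12950248930) (nat_lit 8) (nat_lit 5) (nat_lit 9) (nat_lit 5) (nat_lit 10) (nat_lit 4) (nat_lit 273) (nat_lit 239) (nat_lit 208)))) (XT.nd (nat_lit 156) (nat_lit 76) (nat_lit 0) (XT.nd (nat_lit 78) (nat_lit 0) (nat_lit 0) (XT.lf (nat_lit 0) (nat_lit 9107532147) (nat_lit 76) (nat_lit 3690594199) (nat_lit 152) (nat_lit 10608273591) (nat_lit 8) (nat_lit 5) (nat_lit 9) (nat_lit 5) (nat_lit 10) (nat_lit 4) (nat_lit 274) (nat_lit 239) (nat_lit 207)) (XT.lf (nat_lit 0) (nat_lit 16795530253) (nat_lit 152) (nat_lit 7651729461) (nat_lit 0) (nat_lit 468319006) (nat_lit 8) (nat_lit 5) (nat_lit 10) (nat_lit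 4) (nat_lit 8) (nat_lit 4) (nat_lit 275) (nat_lit 239) (nat_lit 206))) (XT.nd (nat_lit 78) (nat_lit 76) (nat_lit 0) (XT.lf (nat_lit 0) (nat_lit 21161730637) (nat_lit 152) (nat_lit 649028326) (nat_lit 0) (nat_lit 4730937861) (nat_lit 8) (nat_lit 5) (nat_lit 10) (nat_lit 4) (nat_lit 8) (nat_lit 4) (nat_lit 276) (nat_lit 239) (nat_lit 205)) (XT.lf (nat_lit 0) (nat_lit 7199647507) (nat_lit 76) (nat_lit 18807346585) (nat_lit 76) (nat_lit 2280644989) (nat_lit 7) (nat_lit 4) (nat_lit 8) (nat_lit 5) (nat_lit 8) (nat_lit 4) (nat_lit 277) (nat_lit 239) (nat_lit 204))))))) (XT.nd (nat_lit 936) (nat_lit 152) (nat_lit 0) (XT.nd (nat_lit 468) (nat_lit 76) (nat_lit 0) (XT.nd (nat_lit 234) (nat_lit 76) (nat_lit 0) (XT.nd (nat_lit 78) (nat_lit 0) (nat_lit 0) (XT.lf (nat_lit 0) (nat_lit 988365949) (nat_lit 152) (nat_lit 14559704887) (nat_lit 76) (nat_lit 14625225146) (nat_lit 6) (nat_lit 5) (nat_lit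 8) (nat_lit 5) (nat_lit 7) (nat_lit 4) (nat_lit 278) (nat_lit 239) (nat_lit 203)) (XT.nd (nat_lit 78) (nat_lit 0) (nat_lit 0) (XT.lf (nat_lit 0) (nat_lit 4355770993) (nat_lit 152) (nat_lit 7637728751) (nat_lit 76) (nat_lit 20214851841) (nat_lit 6) (nat_lit 5) (nat_lit 8) (nat_lit 5) (nat_lit 7) (nat_lit 4) (nat_lit 279) (nat_lit 239) (nat_lit 202)) (XT.lf (nat_lit 0) (nat_lit 7955612234) (nat_lit 152) (nat_lit 226194484) (nat_lit 76) (nat_lit 26227446728) (nat_lit 6) (nat_lit 5) (nat_lit 8) (nat_lit 5) (nat_lit 7) (nat_lit 4) (nat_lit 280) (nat_lit 239) (nat_lit 201)))) (XT.nd (nat_lit 78) (nat_lit 0) (nat_lit 0) (XT.lf (nat_lit 0) (nat_lit 8125277402) (nat_lit 76) (nat_lit 3879357781) (nat_lit 152) (nat_lit 24768775714) (nat_lit 5) (nat_lit 5) (nat_lit 6) (nat_lit 5) (nat_lit 7) (nat_lit 4) (nat_lit 281) (nat_lit 239) (nat_lit 200)) (XT.nd (nat_lit 78) (nat_lit 0) (nat_lit 0) (XT.lf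 (nat_lit 0) (nat_lit 16368703067) (nat_lit 152) (nat_lit 22247150059) (nat_lit 0) (nat_lit 711631112) (nat_lit 5) (nat_lit 5) (nat_lit 7) (nat_lit 4) (nat_lit 5) (nat_lit 4) (nat_lit 282) (nat_lit 239) (nat_lit 199)) (XT.lf (nat_lit 0) (nat_lit 21151478024) (nat_lit 152) (nat_lit 15490462421) (nat_lit 0) (nat_lit 5438444193) (nat_lit 5) (nat_lit 5) (nat_lit 7) (nat_lit 4) (nat_lit 5) (nat_lit 4) (nat_lit 283) (nat_lit 239) (nat_lit 198))))) (XT.nd (nat_lit 234) (nat_lit 0) (nat_lit 0) (XT.nd (nat_lit 78) (nat_lit 76) (nat_lit 0) (XT.lf (nat_lit 0) (nat_lit 26288003778) (nat_lit 152) (nat_lit 8244732303) (nat_lit 0) (nat_lit 10523153394) (nat_lit 5) (nat_lit 5) (nat_lit 7) (nat_lit 4) (nat_lit 5) (nat_lit 4) (nat_lit 284) (nat_lit 239) (nat_lit 197)) (XT.nd (nat_lit 78) (nat_lit 76) (nat_lit 0) (XT.lf (nat_lit 0) (nat_lit 31808718997) (nat_lit 152) (nat_lit 467022045) (nat_lit 0) (nat_lit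 15995890325) (nat_lit 5) (nat_lit 5) (nat_lit 7) (nat_lit 4) (nat_lit 5) (nat_lit 4) (nat_lit 285) (nat_lit 239) (nat_lit 196)) (XT.lf (nat_lit 0) (nat_lit 8304166528) (nat_lit 76) (nat_lit 29641887910) (nat_lit 76) (nat_lit 13784634895) (nat_lit 4) (nat_lit 4) (nat_lit 5) (nat_lit 5) (nat_lit 5) (nat_lit 4) (nat_lit 286) (nat_lit 239) (nat_lit 195)))) (XT.nd (nat_lit 78) (nat_lit 0) (nat_lit 0) (XT.lf (nat_lit 0) (nat_lit 17760581234) (nat_lit 76) (nat_lit 26802610954) (nat_lit 76) (nat_lit 10904224290) (nat_lit 4) (nat_lit 4) (nat_lit 5) (nat_lit 5) (nat_lit 5) (nat_lit 4) (nat_lit 287) (nat_lit 239) (nat_lit 194)) (XT.nd (nat_lit 78) (nat_lit 0) (nat_lit 0) (XT.lf (nat_lit 0) (nat_lit 27933667531) (nat_lit 76) (nat_lit 23753854041) (nat_lit 76) (nat_lit 7817380664) (nat_lit 4) (nat_lit 4) (nat_lit 5) (nat_lit 5) (nat_lit 5) (nat_lit 4) (nat_lit 288) (nat_lit 239) (nat_lit 193))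 (XT.lf (nat_lit 0) (nat_lit 38883710375) (nat_lit 76) (nat_lit 20477550464) (nat_lit 76) (nat_lit 4505811612) (nat_lit 4) (nat_lit 4) (nat_lit 5) (nat_lit 5) (nat_lit 5) (nat_lit 4) (nat_lit 289) (nat_lit 239) (nat_lit 192)))))) (XT.nd (nat_lit 468) (nat_lit 0) (nat_lit 0) (XT.nd (nat_lit 234) (nat_lit 76) (nat_lit 0) (XT.nd (nat_lit 78) (nat_lit 76) (nat_lit 0) (XT.lf (nat_lit 0) (nat_lit 50675598909) (nat_lit 76) (nat_lit 16954285089) (nat_lit 76) (nat_lit 949893020) (nat_lit 4) (nat_lit 4) (nat_lit 5) (nat_lit 5) (nat_lit 5) (nat_lit 4) (nat_lit 290) (nat_lit 239) (nat_lit 191)) (XT.nd (nat_lit 78) (nat_lit 0) (nat_lit 0) (XT.lf (nat_lit 0) (nat_lit 2727805801) (nat_lit 152) (nat_lit 10360790462) (nat_lit 76) (nat_lit 60576822145) (nat_lit 3) (nat_lit 5) (nat_lit 5) (nat_lit 5) (nat_lit 4) (nat_lit 4) (nat_lit 291) (nat_lit 239) (nat_lit 190)) (XT.lf (nat_lit 0) (nat_lit 6631643496)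 (nat_lit 152) (nat_lit 2268802926) (nat_lit 76) (nat_lit 70256862903) (nat_lit 3) (nat_lit 5) (nat_lit 5) (nat_lit 5) (nat_lit 4) (nat_lit 4) (nat_lit 292) (nat_lit 239) (nat_lit 189)))) (XT.nd (nat_lit 78) (nat_lit 0) (nat_lit 0) (XT.lf (nat_lit 0) (nat_lit 6781836916) (nat_lit 76) (nat_lit 4213537839) (nat_lit 152) (nat_lit 74081398882) (nat_lit 2) (nat_lit 5) (nat_lit 3) (nat_lit 5) (nat_lit 4) (nat_lit 4) (nat_lit 293) (nat_lit 239) (nat_lit 188)) (XT.nd (nat_lit 78) (nat_lit 0) (nat_lit 0) (XT.lf (nat_lit 0) (nat_lit 15776934048) (nat_lit 152) (nat_lit 74829477443) (nat_lit 0) (nat_lit 857912135) (nat_lit 2) (nat_lit 5) (nat_lit 4) (nat_lit 4) (nat_lit 2) (nat_lit 4) (nat_lit 294) (nat_lit 239) (nat_lit 187)) (XT.lf (nat_lit 0) (nat_lit 21036278211) (nat_lit 152) (nat_lit 71222324263) (nat_lit 0) (nat_lit 6096679232) (nat_lit 2) (nat_lit 5) (nat_lit 4) (nat_lit 4) (nat_lit 2)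 (nat_lit 4) (nat_lit 295) (nat_lit 239) (nat_lit 186))))) (XT.nd (nat_lit 234) (nat_lit 0) (nat_lit 0) (XT.nd (nat_lit 78) (nat_lit 0) (nat_lit 0) (XT.lf (nat_lit 0) (nat_lit 26703238041) (nat_lit 152) (nat_lit 67350765775) (nat_lit 0) (nat_lit 11744586223) (nat_lit 2) (nat_lit 5) (nat_lit 4) (nat_lit 4) (nat_lit 2) (nat_lit 4) (nat_lit 296) (nat_lit 239) (nat_lit 185)) (XT.nd (nat_lit 78) (nat_lit 0) (nat_lit 0) (XT.lf (nat_lit 0) (nat_lit 32811395522) (nat_lit 152) (nat_lit 63191859408) (nat_lit 0) (nat_lit 17835102188) (nat_lit 2) (nat_lit 5) (nat_lit 4) (nat_lit 4) (nat_lit 2) (nat_lit 4) (nat_lit 297) (nat_lit 239) (nat_lit 184)) (XT.lf (nat_lit 0) (nat_lit 39396947144) (nat_lit 152) (nat_lit 58720959793) (nat_lit 0) (nat_lit 24404319071) (nat_lit 2) (nat_lit 5) (nat_lit 4) (nat_lit 4) (nat_lit 2) (nat_lit 4) (nat_lit 298) (nat_lit 239) (nat_lit 183)))) (XT.nd (nat_lit 156) (nat_lit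 0) (nat_lit 0) (XT.nd (nat_lit 78) (nat_lit 0) (nat_lit 0) (XT.lf (nat_lit 0) (nat_lit 46498918398) (nat_lit 152) (nat_lit 53911572710) (nat_lit 0) (nat_lit 31491165567) (nat_lit 2) (nat_lit 5) (nat_lit 4) (nat_lit 4) (nat_lit 2) (nat_lit 4) (nat_lit 299) (nat_lit 239) (nat_lit 182)) (XT.lf (nat_lit 0) (nat_lit 54159395038) (nat_lit 152) (nat_lit 48735198085) (nat_lit 0) (nat_lit 39137637803) (nat_lit 2) (nat_lit 5) (nat_lit 4) (nat_lit 4) (nat_lit 2) (nat_lit 4) (nat_lit 300) (nat_lit 239) (nat_lit 181))) (XT.nd (nat_lit 78) (nat_lit 0) (nat_lit 0) (XT.lf (nat_lit 0) (nat_lit 62423772483) (nat_lit 152) (nat_lit 43161161108) (nat_lit 0) (nat_lit 47389048205) (nat_lit 2) (nat_lit 5) (nat_lit 4) (nat_lit 4) (nat_lit 2) (nat_lit 4) (nat_lit 301) (nat_lit 239) (nat_lit 180)) (XT.lf (nat_lit 0) (nat_lit 71341024821) (nat_lit 152) (nat_lit 37156430448) (nat_lit 0) (nat_lit 56294294023) (nat_lit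 2) (nat_lit 5) (nat_lit 4) (nat_lit 4) (nat_lit 2) (nat_lit 4) (nat_lit 302) (nat_lit 239) (nat_lit 179))))))))
noncomputable def xc49 : XT := (XT.nd (nat_lit 1950) (nat_lit 0) (nat_lit 0) (XT.nd (nat_lit 936) (nat_lit 0) (nat_lit 0) (XT.nd (nat_lit 468) (nat_lit 0) (nat_lit 0) (XT.nd (nat_lit 234) (nat_lit 76) (nat_lit 0) (XT.nd (nat_lit 78) (nat_lit 0) (nat_lit 0) (XT.lf (nat_lit 0) (nat_lit 80963995028) (nat_lit 152) (nat_lit 30685422515) (nat_lit 0) (nat_lit 65906147081) (nat_lit 2) (nat_lit 5) (nat_lit 4) (nat_lit 4) (nat_lit 2) (nat_lit 4) (nat_lit 303) (nat_lit 239) (nat_lit 178)) (XT.nd (nat_lit 78) (nat_lit 0) (nat_lit 0) (XT.lf (nat_lit 0) (nat_lit 91349708113) (nat_lit 152) (nat_lit 23709790597) (nat_lit 0) (nat_lit 76281566511) (nat_lit 2) (nat_lit 5) (nat_lit 4) (nat_lit 4) (nat_lit 2) (nat_lit 4) (nat_lit 304) (nat_lit 239) (nat_lit 177)) (XT.lf (nat_lit 0) (nat_lit 102559709043)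 (nat_lit 152) (nat_lit 16188197614) (nat_lit 0) (nat_lit 87482036278) (nat_lit 2) (nat_lit 5) (nat_lit 4) (nat_lit 4) (nat_lit 2) (nat_lit 4) (nat_lit 305) (nat_lit 239) (nat_lit 176)))) (XT.nd (nat_lit 78) (nat_lit 76) (nat_lit 0) (XT.lf (nat_lit 0) (nat_lit 114660427452) (nat_lit 152) (nat_lit 8076071165) (nat_lit 0) (nat_lit 99573929537) (nat_lit 2) (nat_lit 5) (nat_lit 4) (nat_lit 4) (nat_lit 2) (nat_lit 4) (nat_lit 306) (nat_lit 239) (nat_lit 175)) (XT.nd (nat_lit 78) (nat_lit 0) (nat_lit 0) (XT.lf (nat_lit 0) (nat_lit 710187043) (nat_lit 76) (nat_lit 127030464275) (nat_lit 76) (nat_lit 111935794923) (nat_lit 1) (nat_lit 4) (nat_lit 2) (nat_lit 5) (nat_lit 2) (nat_lit 4) (nat_lit 307) (nat_lit 239) (nat_lit 174)) (XT.lf (nat_lit 0) (nat_lit 10648536843) (nat_lit 76) (nat_lit 131434112541) (nat_lit 76) (nat_lit 116331877045) (nat_lit 1) (nat_lit 4) (nat_lit 2) (nat_lit 5) (nat_lit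 2) (nat_lit 4) (nat_lit 308) (nat_lit 239) (nat_lit 173))))) (XT.nd (nat_lit 234) (nat_lit 0) (nat_lit 0) (XT.nd (nat_lit 78) (nat_lit 0) (nat_lit 0) (XT.lf (nat_lit 0) (nat_lit 21372600563) (nat_lit 76) (nat_lit 136194353206) (nat_lit 76) (nat_lit 121085112021) (nat_lit 1) (nat_lit 4) (nat_lit 2) (nat_lit 5) (nat_lit 2) (nat_lit 4) (nat_lit 309) (nat_lit 239) (nat_lit 172)) (XT.nd (nat_lit 78) (nat_lit 0) (nat_lit 0) (XT.lf (nat_lit 0) (nat_lit 32945928210) (nat_lit 76) (nat_lit 141339395106) (nat_lit 76) (nat_lit 126223667171) (nat_lit 1) (nat_lit 4) (nat_lit 2) (nat_lit 5) (nat_lit 2) (nat_lit 4) (nat_lit 310) (nat_lit 239) (nat_lit 171)) (XT.lf (nat_lit 0) (nat_lit 45437102467) (nat_lit 76) (nat_lit 146899727376) (nat_lit 76) (nat_lit 131777993192) (nat_lit 1) (nat_lit 4) (nat_lit 2) (nat_lit 5) (nat_lit 2) (nat_lit 4) (nat_lit 311) (nat_lit 239) (nat_lit 170)))) (XT.nd (nat_lit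 78) (nat_lit 0) (nat_lit 0) (XT.lf (nat_lit 0) (nat_lit 58920145107) (nat_lit 76) (nat_lit 152908300133) (nat_lit 76) (nat_lit 137781004607) (nat_lit 1) (nat_lit 4) (nat_lit 2) (nat_lit 5) (nat_lit 2) (nat_lit 4) (nat_lit 312) (nat_lit 239) (nat_lit 169)) (XT.nd (nat_lit 78) (nat_lit 0) (nat_lit 0) (XT.lf (nat_lit 0) (nat_lit 73474955642) (nat_lit 76) (nat_lit 159400719736) (nat_lit 76) (nat_lit 144268274819) (nat_lit 1) (nat_lit 4) (nat_lit 2) (nat_lit 5) (nat_lit 2) (nat_lit 4) (nat_lit 313) (nat_lit 239) (nat_lit 168)) (XT.lf (nat_lit 0) (nat_lit 89187784802) (nat_lit 76) (nat_lit 166415459781) (nat_lit 76) (nat_lit 151278246910) (nat_lit 1) (nat_lit 4) (nat_lit 2) (nat_lit 5) (nat_lit 2) (nat_lit 4) (nat_lit 314) (nat_lit 239) (nat_lit 167)))))) (XT.nd (nat_lit 468) (nat_lit 0) (nat_lit 0) (XT.nd (nat_lit 234) (nat_lit 0) (nat_lit 0) (XT.nd (nat_lit 78) (nat_lit 0) (nat_lit 0)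 (XT.lf (nat_lit 0) (nat_lit 106151745647) (nat_lit 76) (nat_lit 173994089099) (nat_lit 76) (nat_lit 158852461455) (nat_lit 1) (nat_lit 4) (nat_lit 2) (nat_lit 5) (nat_lit 2) (nat_lit 4) (nat_lit 315) (nat_lit 239) (nat_lit 166)) (XT.nd (nat_lit 78) (nat_lit 0) (nat_lit 0) (XT.lf (nat_lit 0) (nat_lit 124467365353) (nat_lit 76) (nat_lit 182181518085) (nat_lit 76) (nat_lit 167035802689) (nat_lit 1) (nat_lit 4) (nat_lit 2) (nat_lit 5) (nat_lit 2) (nat_lit 4) (nat_lit 316) (nat_lit 239) (nat_lit 165)) (XT.lf (nat_lit 0) (nat_lit 144243180926) (nat_lit 76) (nat_lit 191026264837) (nat_lit 76) (nat_lit 175876764485) (nat_lit 1) (nat_lit 4) (nat_lit 2) (nat_lit 5) (nat_lit 2) (nat_lit 4) (nat_lit 317) (nat_lit 239) (nat_lit 164)))) (XT.nd (nat_lit 78) (nat_lit 0) (nat_lit 0) (XT.lf (nat_lit 0) (nat_lit 165596382385) (nat_lit 76) (nat_lit 200580742670) (nat_lit 76) (nat_lit 185427737729) (nat_lit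 1) (nat_lit 4) (nat_lit 2) (nat_lit 5) (nat_lit 2) (nat_lit 4) (nat_lit 318) (nat_lit 239) (nat_lit 163)) (XT.nd (nat_lit 78) (nat_lit 0) (nat_lit 0) (XT.lf (nat_lit 0) (nat_lit 188653507218) (nat_lit 76) (nat_lit 210901570710) (nat_lit 76) (nat_lit 195745320780) (nat_lit 1) (nat_lit 4) (nat_lit 2) (nat_lit 5) (nat_lit 2) (nat_lit 4) (nat_lit 319) (nat_lit 239) (nat_lit 162)) (XT.lf (nat_lit 0) (nat_lit 213551190241) (nat_lit 76) (nat_lit 222049909421) (nat_lit 76) (nat_lit 206890654871) (nat_lit 1) (nat_lit 4) (nat_lit 2) (nat_lit 5) (nat_lit 2) (nat_lit 4) (nat_lit 320) (nat_lit 239) (nat_lit 161))))) (XT.nd (nat_lit 234) (nat_lit 0) (nat_lit 0) (XT.nd (nat_lit 78) (nat_lit 0) (nat_lit 0) (XT.lf (nat_lit 0) (nat_lit 240436973278) (nat_lit 76) (nat_lit 234091823032) (nat_lit 76) (nat_lit 218929786426) (nat_lit 1) (nat_lit 4) (nat_lit 2) (nat_lit 5) (nat_lit 2) (nat_lit 4) (nat_lit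 321) (nat_lit 239) (nat_lit 160)) (XT.nd (nat_lit 78) (nat_lit 0) (nat_lit 0) (XT.lf (nat_lit 0) (nat_lit 269470179488) (nat_lit 76) (nat_lit 247098671031) (nat_lit 76) (nat_lit 231934058448) (nat_lit 1) (nat_lit 4) (nat_lit 2) (nat_lit 5) (nat_lit 2) (nat_lit 4) (nat_lit 322) (nat_lit 239) (nat_lit 159)) (XT.lf (nat_lit 0) (nat_lit 300822857500) (nat_lit 76) (nat_lit 261147531036) (nat_lit 76) (nat_lit 245980533288) (nat_lit 1) (nat_lit 4) (nat_lit 2) (nat_lit 5) (nat_lit 2) (nat_lit 4) (nat_lit 323) (nat_lit 239) (nat_lit 158)))) (XT.nd (nat_lit 156) (nat_lit 0) (nat_lit 0) (XT.nd (nat_lit 78) (nat_lit 0) (nat_lit 0) (XT.lf (nat_lit 0) (nat_lit 334680800963) (nat_lit 76) (nat_lit 276321655550) (nat_lit 76) (nat_lit 261152449317) (nat_lit 1) (nat_lit 4) (nat_lit 2) (nat_lit 5) (nat_lit 2) (nat_lit 4) (nat_lit 324) (nat_lit 239) (nat_lit 157)) (XT.lf (nat_lit 0) (nat_lit 371244649540)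 (nat_lit 76) (nat_lit 292710965312) (nat_lit 76) (nat_lit 277539714185) (nat_lit 1) (nat_lit 4) (nat_lit 2) (nat_lit 5) (nat_lit 2) (nat_lit 4) (nat_lit 325) (nat_lit 239) (nat_lit 156))) (XT.nd (nat_lit 78) (nat_lit 0) (nat_lit 0) (XT.lf (nat_lit 0) (nat_lit 410731077891) (nat_lit 76) (nat_lit 310412582157) (nat_lit 76) (nat_lit 295239437610) (nat_lit 1) (nat_lit 4) (nat_lit 2) (nat_lit 5) (nat_lit 2) (nat_lit 4) (nat_lit 326) (nat_lit 239) (nat_lit 155)) (XT.lf (nat_lit 0) (nat_lit 453374079664) (nat_lit 76) (nat_lit 329531404555) (nat_lit 76) (nat_lit 314356506841) (nat_lit 1) (nat_lit 4) (nat_lit 2) (nat_lit 5) (nat_lit 2) (nat_lit 4) (nat_lit 327) (nat_lit 239) (nat_lit 154))))))) (XT.nd (nat_lit 30732) (nat_lit 0) (nat_lit 2280) (XT.nd (nat_lit 468) (nat_lit 0) (nat_lit 0) (XT.nd (nat_lit 234) (nat_lit 0) (nat_lit 0) (XT.nd (nat_lit 78) (nat_lit 0) (nat_lit 0) (XT.lf (nat_lit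 0) (nat_lit 499426354130) (nat_lit 76) (nat_lit 350180729231) (nat_lit 76) (nat_lit 335004208214) (nat_lit 1) (nat_lit 4) (nat_lit 2) (nat_lit 5) (nat_lit 2) (nat_lit 4) (nat_lit 328) (nat_lit 239) (nat_lit 153)) (XT.nd (nat_lit 78) (nat_lit 0) (nat_lit 0) (XT.lf (nat_lit 0) (nat_lit 549160803655) (nat_lit 76) (nat_lit 372482922555) (nat_lit 76) (nat_lit 357304898480) (nat_lit 1) (nat_lit 4) (nat_lit 2) (nat_lit 5) (nat_lit 2) (nat_lit 4) (nat_lit 329) (nat_lit 239) (nat_lit 152)) (XT.lf (nat_lit 0) (nat_lit 602872150904) (nat_lit 76) (nat_lit 396570145671) (nat_lit 76) (nat_lit 381390729875) (nat_lit 1) (nat_lit 4) (nat_lit 2) (nat_lit 5) (nat_lit 2) (nat_lit 4) (nat_lit 330) (nat_lit 239) (nat_lit 151)))) (XT.nd (nat_lit 78) (nat_lit 0) (nat_lit 0) (XT.lf (nat_lit 0) (nat_lit 660878685341) (nat_lit 76) (nat_lit 422585137679) (nat_lit 76) (nat_lit 407404433254) (nat_lit 1) (nat_lit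 4) (nat_lit 2) (nat_lit 5) (nat_lit 2) (nat_lit 4) (nat_lit 331) (nat_lit 239) (nat_lit 150)) (XT.nd (nat_lit 78) (nat_lit 0) (nat_lit 0) (XT.lf (nat_lit 0) (nat_lit 723524149394) (nat_lit 76) (nat_lit 450682061496) (nat_lit 76) (nat_lit 435500163895) (nat_lit 1) (nat_lit 4) (nat_lit 2) (nat_lit 5) (nat_lit 2) (nat_lit 4) (nat_lit 332) (nat_lit 239) (nat_lit 149)) (XT.lf (nat_lit 0) (nat_lit 791179775441) (nat_lit 76) (nat_lit 481027417410) (nat_lit 76) (nat_lit 465844415016) (nat_lit 1) (nat_lit 4) (nat_lit 2) (nat_lit 5) (nat_lit 2) (nat_lit 4) (nat_lit 333) (nat_lit 239) (nat_lit 148))))) (XT.nd (nat_lit 234) (nat_lit 0) (nat_lit 0) (XT.nd (nat_lit 78) (nat_lit 0) (nat_lit 0) (XT.lf (nat_lit 0) (nat_lit 864246485711) (nat_lit 76) (nat_lit 513801029753) (nat_lit 76) (nat_lit 498617004403) (nat_lit 1) (nat_lit 4) (nat_lit 2) (nat_lit 5) (nat_lit 2) (nat_lit 4) (nat_lit 334) (nat_lit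 239) (nat_lit 147)) (XT.nd (nat_lit 78) (nat_lit 0) (nat_lit 0) (XT.lf (nat_lit 0) (nat_lit 943157268116) (nat_lit 76) (nat_lit 549197112524) (nat_lit 76) (nat_lit 534012139993) (nat_lit 1) (nat_lit 4) (nat_lit 2) (nat_lit 5) (nat_lit 2) (nat_lit 4) (nat_lit 335) (nat_lit 239) (nat_lit 146)) (XT.lf (nat_lit 0) (nat_lit 1028379742109) (nat_lit 76) (nat_lit 587425420287) (nat_lit 76) (nat_lit 572239570736) (nat_lit 1) (nat_lit 4) (nat_lit 2) (nat_lit 5) (nat_lit 2) (nat_lit 4) (nat_lit 336) (nat_lit 239) (nat_lit 145)))) (XT.nd (nat_lit 78) (nat_lit 0) (nat_lit 0) (XT.lf (nat_lit 0) (nat_lit 1120418929756) (nat_lit 76) (nat_lit 628712491163) (nat_lit 76) (nat_lit 613525829556) (nat_lit 1) (nat_lit 4) (nat_lit 2) (nat_lit 5) (nat_lit 2) (nat_lit 4) (nat_lit 337) (nat_lit 239) (nat_lit 144)) (XT.nd (nat_lit 29874) (nat_lit 0) (nat_lit 4256) (XT.lf (nat_lit 0) (nat_lit 1219820248467) (nat_lit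 76) (nat_lit 673302989275) (nat_lit 76) (nat_lit 658115575765) (nat_lit 1) (nat_lit 4) (nat_lit 2) (nat_lit 5) (nat_lit 2) (nat_lit 4) (nat_lit 338) (nat_lit 239) (nat_lit 143)) (XT.lf (nat_lit 0) (nat_lit 1073741823) (nat_lit 0) (nat_lit 0) (nat_lit 0) (nat_lit 0) (nat_lit 57) (nat_lit 0) (nat_lit 1) (nat_lit 0) (nat_lit 1) (nat_lit 0) (nat_lit 240) (nat_lit 240) (nat_lit 240)))))) (XT.nd (nat_lit 468) (nat_lit 1520) (nat_lit 0) (XT.nd (nat_lit 234) (nat_lit 228) (nat_lit 0) (XT.nd (nat_lit 78) (nat_lit 152) (nat_lit 0) (XT.lf (nat_lit 0) (nat_lit 2766504331) (nat_lit 76) (nat_lit 3541125544) (nat_lit 0) (nat_lit 141802094) (nat_lit 56) (nat_lit 5) (nat_lit 57) (nat_lit 0) (nat_lit 56) (nat_lit 4) (nat_lit 241) (nat_lit 240) (nat_lit 239)) (XT.nd (nat_lit 78) (nat_lit 152) (nat_lit 0) (XT.lf (nat_lit 0) (nat_lit 5481228678) (nat_lit 76) (nat_lit 574285313) (nat_lit 0) (nat_lit 426246593)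 (nat_lit 56) (nat_lit 5) (nat_lit 57) (nat_lit 0) (nat_lit 56) (nat_lit 4) (nat_lit 242) (nat_lit 240) (nat_lit 238)) (XT.lf (nat_lit 0) (nat_lit 1603863980) (nat_lit 152) (nat_lit 3969204123) (nat_lit 76) (nat_lit 958297953) (nat_lit 54) (nat_lit 5) (nat_lit 56) (nat_lit 5) (nat_lit 55) (nat_lit 4) (nat_lit 243) (nat_lit 240) (nat_lit 237)))) (XT.nd (nat_lit 78) (nat_lit 228) (nat_lit 0) (XT.lf (nat_lit 0) (nat_lit 4132340479) (nat_lit 152) (nat_lit 793546264) (nat_lit 76) (nat_lit 1677726228) (nat_lit 54) (nat_lit 5) (nat_lit 56) (nat_lit 5) (nat_lit 55) (nat_lit 4) (nat_lit 244) (nat_lit 240) (nat_lit 236)) (XT.nd (nat_lit 78) (nat_lit 0) (nat_lit 0) (XT.lf (nat_lit 0) (nat_lit 808608) (nat_lit 228) (nat_lit 4083518024) (nat_lit 76) (nat_lit 2612691115) (nat_lit 51) (nat_lit 5) (nat_lit 54) (nat_lit 5) (nat_lit 52) (nat_lit 5) (nat_lit 245) (nat_lit 240) (nat_lit 235)) (XT.lf (nat_lit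 0) (nat_lit 2337143155) (nat_lit 228) (nat_lit 685728029) (nat_lit 76) (nat_lit 3787741998) (nat_lit 51) (nat_lit 5) (nat_lit 54) (nat_lit 5) (nat_lit 52) (nat_lit 5) (nat_lit 246) (nat_lit 240) (nat_lit 234))))) (XT.nd (nat_lit 234) (nat_lit 912) (nat_lit 0) (XT.nd (nat_lit 78) (nat_lit 380) (nat_lit 0) (XT.lf (nat_lit 0) (nat_lit 2982083757) (nat_lit 228) (nat_lit 1744222989) (nat_lit 304) (nat_lit 2219431816) (nat_lit 48) (nat_lit 5) (nat_lit 51) (nat_lit 5) (nat_lit 52) (nat_lit 5) (nat_lit 247) (nat_lit 240) (nat_lit 233)) (XT.nd (nat_lit 78) (nat_lit 304) (nat_lit 0) (XT.lf (nat_lit 0) (nat_lit 22771211) (nat_lit 304) (nat_lit 272703509) (nat_lit 76) (nat_lit 6811769529) (nat_lit 47) (nat_lit 5) (nat_lit 51) (nat_lit 5) (nat_lit 48) (nat_lit 5) (nat_lit 248) (nat_lit 240) (nat_lit 232)) (XT.lf (nat_lit 0) (nat_lit 2262736622) (nat_lit 380) (nat_lit 3628202030) (nat_lit 76) (nat_lit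 1392418773) (nat_lit 43) (nat_lit 5) (nat_lit 48) (nat_lit 5) (nat_lit 44) (nat_lit 5) (nat_lit 249) (nat_lit 240) (nat_lit 231)))) (XT.nd (nat_lit 156) (nat_lit 532) (nat_lit 0) (XT.nd (nat_lit 78) (nat_lit 0) (nat_lit 0) (XT.lf (nat_lit 0) (nat_lit 286520895) (nat_lit 380) (nat_lit 4242884745) (nat_lit 456) (nat_lit 2957614883) (nat_lit 38) (nat_lit 5) (nat_lit 43) (nat_lit 5) (nat_lit 44) (nat_lit 5) (nat_lit 250) (nat_lit 240) (nat_lit 230)) (XT.lf (nat_lit 0) (nat_lit 4565072132) (nat_lit 380) (nat_lit 2346025624) (nat_lit 456) (nat_lit 802351693) (nat_lit 38) (nat_lit 5) (nat_lit 43) (nat_lit 5) (nat_lit 44) (nat_lit 5) (nat_lit 251) (nat_lit 240) (nat_lit 229))) (XT.nd (nat_lit 78) (nat_lit 0) (nat_lit 0) (XT.lf (nat_lit 0) (nat_lit 1092384916) (nat_lit 456) (nat_lit 224656552) (nat_lit 532) (nat_lit 6649576821) (nat_lit 31) (nat_lit 5) (nat_lit 37) (nat_lit 5) (nat_lit 38)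 (nat_lit 5) (nat_lit 252) (nat_lit 240) (nat_lit 228)) (XT.lf (nat_lit 0) (nat_lit 3550531875) (nat_lit 532) (nat_lit 2617024540) (nat_lit 76) (nat_lit 2072712659) (nat_lit 31) (nat_lit 5) (nat_lit 38) (nat_lit 5) (nat_lit 32) (nat_lit 5) (nat_lit 253) (nat_lit 240) (nat_lit 227))))))))
noncomputable def xc50 : XT := (XT.nd (nat_lit 1950) (nat_lit 380) (nat_lit 0) (XT.nd (nat_lit 936) (nat_lit 608) (nat_lit 0) (XT.nd (nat_lit 468) (nat_lit 532) (nat_lit 0) (XT.nd (nat_lit 234) (nat_lit 228) (nat_lit 0) (XT.nd (nat_lit 78) (nat_lit 228) (nat_lit 0) (XT.lf (nat_lit 0) (nat_lit 1920481286) (nat_lit 228) (nat_lit 3955241238) (nat_lit 304) (nat_lit 2667906190) (nat_lit 28) (nat_lit 5) (nat_lit 31) (nat_lit 5) (nat_lit 32) (nat_lit 5) (nat_lit 254) (nat_lit 240) (nat_lit 226)) (XT.nd (nat_lit 78) (nat_lit 228) (nat_lit 0) (XT.lf (nat_lit 0) (nat_lit 6823115852) (nat_lit 228) (nat_lit 1503133009)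 (nat_lit 304) (nat_lit 550657513) (nat_lit 28) (nat_lit 5) (nat_lit 31) (nat_lit 5) (nat_lit 32) (nat_lit 5) (nat_lit 255) (nat_lit 240) (nat_lit 225)) (XT.lf (nat_lit 0) (nat_lit 1621063658) (nat_lit 228) (nat_lit 6430654112) (nat_lit 76) (nat_lit 1184715317) (nat_lit 25) (nat_lit 5) (nat_lit 28) (nat_lit 5) (nat_lit 26) (nat_lit 5) (nat_lit 256) (nat_lit 240) (nat_lit 224)))) (XT.nd (nat_lit 78) (nat_lit 228) (nat_lit 0) (XT.lf (nat_lit 0) (nat_lit 3912648337) (nat_lit 228) (nat_lit 1653458210) (nat_lit 76) (nat_lit 4060032119) (nat_lit 25) (nat_lit 5) (nat_lit 28) (nat_lit 5) (nat_lit 26) (nat_lit 5) (nat_lit 257) (nat_lit 240) (nat_lit 223)) (XT.nd (nat_lit 78) (nat_lit 0) (nat_lit 0) (XT.lf (nat_lit 0) (nat_lit 3544969527) (nat_lit 228) (nat_lit 2816013885) (nat_lit 304) (nat_lit 3688747653) (nat_lit 22) (nat_lit 5) (nat_lit 25) (nat_lit 5) (nat_lit 26) (nat_lit 5) (nat_lit 258)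 (nat_lit 240) (nat_lit 222)) (XT.lf (nat_lit 0) (nat_lit 8947810276) (nat_lit 304) (nat_lit 1398357101) (nat_lit 76) (nat_lit 166174464) (nat_lit 22) (nat_lit 5) (nat_lit 26) (nat_lit 5) (nat_lit 23) (nat_lit 4) (nat_lit 259) (nat_lit 240) (nat_lit 221))))) (XT.nd (nat_lit 234) (nat_lit 152) (nat_lit 0) (XT.nd (nat_lit 78) (nat_lit 152) (nat_lit 0) (XT.lf (nat_lit 0) (nat_lit 767182731) (nat_lit 228) (nat_lit 6909300248) (nat_lit 76) (nat_lit 3328613748) (nat_lit 19) (nat_lit 5) (nat_lit 22) (nat_lit 5) (nat_lit 20) (nat_lit 5) (nat_lit 260) (nat_lit 240) (nat_lit 220)) (XT.nd (nat_lit 78) (nat_lit 152) (nat_lit 0) (XT.lf (nat_lit 0) (nat_lit 3141980577) (nat_lit 228) (nat_lit 1601658543) (nat_lit 76) (nat_lit 6795525619) (nat_lit 19) (nat_lit 5) (nat_lit 22) (nat_lit 5) (nat_lit 20) (nat_lit 5) (nat_lit 261) (nat_lit 240) (nat_lit 219)) (XT.lf (nat_lit 0) (nat_lit 4216694409) (nat_lit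 152) (nat_lit 1500595282) (nat_lit 228) (nat_lit 6398223945) (nat_lit 17) (nat_lit 5) (nat_lit 19) (nat_lit 5) (nat_lit 20) (nat_lit 5) (nat_lit 262) (nat_lit 240) (nat_lit 218)))) (XT.nd (nat_lit 78) (nat_lit 152) (nat_lit 0) (XT.lf (nat_lit 0) (nat_lit 8503788352) (nat_lit 228) (nat_lit 2320324931) (nat_lit 76) (nat_lit 1913812163) (nat_lit 17) (nat_lit 5) (nat_lit 20) (nat_lit 5) (nat_lit 18) (nat_lit 4) (nat_lit 263) (nat_lit 240) (nat_lit 217)) (XT.nd (nat_lit 78) (nat_lit 76) (nat_lit 0) (XT.lf (nat_lit 0) (nat_lit 3733556520) (nat_lit 76) (nat_lit 7827020511) (nat_lit 152) (nat_lit 1846104469) (nat_lit 16) (nat_lit 5) (nat_lit 17) (nat_lit 5) (nat_lit 18) (nat_lit 4) (nat_lit 264) (nat_lit 240) (nat_lit 216)) (XT.lf (nat_lit 0) (nat_lit 680913408) (nat_lit 152) (nat_lit 3859640192) (nat_lit 76) (nat_lit 9588497775) (nat_lit 15) (nat_lit 5) (nat_lit 17) (nat_lit 5) (nat_lit 16)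 (nat_lit 5) (nat_lit 265) (nat_lit 240) (nat_lit 215)))))) (XT.nd (nat_lit 468) (nat_lit 152) (nat_lit 0) (XT.nd (nat_lit 234) (nat_lit 304) (nat_lit 0) (XT.nd (nat_lit 78) (nat_lit 0) (nat_lit 0) (XT.lf (nat_lit 0) (nat_lit 2378657983) (nat_lit 152) (nat_lit 914384639) (nat_lit 228) (nat_lit 11613987782) (nat_lit 13) (nat_lit 5) (nat_lit 15) (nat_lit 5) (nat_lit 16) (nat_lit 5) (nat_lit 266) (nat_lit 240) (nat_lit 214)) (XT.nd (nat_lit 78) (nat_lit 0) (nat_lit 0) (XT.lf (nat_lit 0) (nat_lit 6222112460) (nat_lit 228) (nat_lit 6591799713) (nat_lit 76) (nat_lit 2924948540) (nat_lit 13) (nat_lit 5) (nat_lit 16) (nat_lit 5) (nat_lit 14) (nat_lit 4) (nat_lit 267) (nat_lit 240) (nat_lit 213)) (XT.lf (nat_lit 0) (nat_lit 9342132786) (nat_lit 228) (nat_lit 309217387) (nat_lit 76) (nat_lit 6989589300) (nat_lit 13) (nat_lit 5) (nat_lit 16) (nat_lit 5) (nat_lit 14) (nat_lit 4) (nat_lit 268) (nat_lit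 240) (nat_lit 212)))) (XT.nd (nat_lit 78) (nat_lit 228) (nat_lit 0) (XT.lf (nat_lit 0) (nat_lit 6714481191) (nat_lit 76) (nat_lit 6096603882) (nat_lit 152) (nat_lit 4796367867) (nat_lit 12) (nat_lit 5) (nat_lit 13) (nat_lit 5) (nat_lit 14) (nat_lit 4) (nat_lit 269) (nat_lit 240) (nat_lit 211)) (XT.nd (nat_lit 78) (nat_lit 228) (nat_lit 0) (XT.lf (nat_lit 0) (nat_lit 14222750457) (nat_lit 76) (nat_lit 2283425867) (nat_lit 152) (nat_lit 2149420256) (nat_lit 12) (nat_lit 5) (nat_lit 13) (nat_lit 5) (nat_lit 14) (nat_lit 4) (nat_lit 270) (nat_lit 240) (nat_lit 210)) (XT.lf (nat_lit 0) (nat_lit 723811959) (nat_lit 228) (nat_lit 17267125906) (nat_lit 76) (nat_lit 1791458924) (nat_lit 9) (nat_lit 5) (nat_lit 12) (nat_lit 5) (nat_lit 10) (nat_lit 4) (nat_lit 271) (nat_lit 240) (nat_lit 209))))) (XT.nd (nat_lit 234) (nat_lit 76) (nat_lit 0) (XT.nd (nat_lit 78) (nat_lit 76) (nat_lit 0) (XT.lf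 (nat_lit 0) (nat_lit 3838699653) (nat_lit 228) (nat_lit 10929081027) (nat_lit 76) (nat_lit 6217018201) (nat_lit 9) (nat_lit 5) (nat_lit 12) (nat_lit 5) (nat_lit 10) (nat_lit 4) (nat_lit 272) (nat_lit 240) (nat_lit 208)) (XT.nd (nat_lit 78) (nat_lit 76) (nat_lit 0) (XT.lf (nat_lit 0) (nat_lit 7151168817) (nat_lit 228) (nat_lit 4169628058) (nat_lit 76) (nat_lit 10966871240) (nat_lit 9) (nat_lit 5) (nat_lit 12) (nat_lit 5) (nat_lit 10) (nat_lit 4) (nat_lit 273) (nat_lit 240) (nat_lit 207)) (XT.lf (nat_lit 0) (nat_lit 3211964491) (nat_lit 76) (nat_lit 7546132231) (nat_lit 152) (nat_lit 12934448649) (nat_lit 8) (nat_lit 5) (nat_lit 9) (nat_lit 5) (nat_lit 10) (nat_lit 4) (nat_lit 274) (nat_lit 240) (nat_lit 206)))) (XT.nd (nat_lit 156) (nat_lit 76) (nat_lit 0) (XT.nd (nat_lit 78) (nat_lit 0) (nat_lit 0) (XT.lf (nat_lit 0) (nat_lit 11343930152) (nat_lit 76) (nat_lit 3377548162) (nat_lit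 152) (nat_lit 10483027891) (nat_lit 8) (nat_lit 5) (nat_lit 9) (nat_lit 5) (nat_lit 10) (nat_lit 4) (nat_lit 275) (nat_lit 240) (nat_lit 205)) (XT.lf (nat_lit 0) (nat_lit 18985590577) (nat_lit 152) (nat_lit 6812412553) (nat_lit 0) (nat_lit 1040844031) (nat_lit 8) (nat_lit 5) (nat_lit 10) (nat_lit 4) (nat_lit 8) (nat_lit 4) (nat_lit 276) (nat_lit 240) (nat_lit 204))) (XT.nd (nat_lit 78) (nat_lit 0) (nat_lit 0) (XT.lf (nat_lit 0) (nat_lit 676848153) (nat_lit 76) (nat_lit 22977819430) (nat_lit 76) (nat_lit 4944268419) (nat_lit 7) (nat_lit 4) (nat_lit 8) (nat_lit 5) (nat_lit 8) (nat_lit 4) (nat_lit 277) (nat_lit 240) (nat_lit 203)) (XT.lf (nat_lit 0) (nat_lit 9085535569) (nat_lit 76) (nat_lit 19759188495) (nat_lit 76) (nat_lit 1643411129) (nat_lit 7) (nat_lit 4) (nat_lit 8) (nat_lit 5) (nat_lit 8) (nat_lit 4) (nat_lit 278) (nat_lit 240) (nat_lit 202))))))) (XT.nd (nat_lit 936) (nat_lit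 152) (nat_lit 0) (XT.nd (nat_lit 468) (nat_lit 76) (nat_lit 0) (XT.nd (nat_lit 234) (nat_lit 0) (nat_lit 0) (XT.nd (nat_lit 78) (nat_lit 76) (nat_lit 0) (XT.lf (nat_lit 0) (nat_lit 1788436588) (nat_lit 152) (nat_lit 14471964777) (nat_lit 76) (nat_lit 16267413766) (nat_lit 6) (nat_lit 5) (nat_lit 8) (nat_lit 5) (nat_lit 7) (nat_lit 4) (nat_lit 279) (nat_lit 240) (nat_lit 201)) (XT.nd (nat_lit 78) (nat_lit 76) (nat_lit 0) (XT.lf (nat_lit 0) (nat_lit 5371826527) (nat_lit 152) (nat_lit 7089009551) (nat_lit 76) (nat_lit 22269234996) (nat_lit 6) (nat_lit 5) (nat_lit 8) (nat_lit 5) (nat_lit 7) (nat_lit 4) (nat_lit 280) (nat_lit 240) (nat_lit 200)) (XT.lf (nat_lit 0) (nat_lit 873223134) (nat_lit 76) (nat_lit 8357981575) (nat_lit 152) (nat_lit 27878230562) (nat_lit 5) (nat_lit 5) (nat_lit 6) (nat_lit 5) (nat_lit 7) (nat_lit 4) (nat_lit 281) (nat_lit 240) (nat_lit 199)))) (XT.nd (nat_lit 78)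 (nat_lit 0) (nat_lit 0) (XT.lf (nat_lit 0) (nat_lit 9821945017) (nat_lit 76) (nat_lit 3740586955) (nat_lit 152) (nat_lit 26103628447) (nat_lit 5) (nat_lit 5) (nat_lit 6) (nat_lit 5) (nat_lit 7) (nat_lit 4) (nat_lit 282) (nat_lit 240) (nat_lit 198)) (XT.nd (nat_lit 78) (nat_lit 0) (nat_lit 0) (XT.lf (nat_lit 0) (nat_lit 18241465339) (nat_lit 152) (nat_lit 23022322583) (nat_lit 0) (nat_lit 1163610373) (nat_lit 5) (nat_lit 5) (nat_lit 7) (nat_lit 4) (nat_lit 5) (nat_lit 4) (nat_lit 283) (nat_lit 240) (nat_lit 197)) (XT.lf (nat_lit 0) (nat_lit 23365138884) (nat_lit 152) (nat_lit 15799514711) (nat_lit 0) (nat_lit 6239305629) (nat_lit 5) (nat_lit 5) (nat_lit 7) (nat_lit 4) (nat_lit 5) (nat_lit 4) (nat_lit 284) (nat_lit 240) (nat_lit 196))))) (XT.nd (nat_lit 234) (nat_lit 0) (nat_lit 0) (XT.nd (nat_lit 78) (nat_lit 76) (nat_lit 0) (XT.lf (nat_lit 0) (nat_lit 28873953911) (nat_lit 152) (nat_lit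 8043028754) (nat_lit 0) (nat_lit 11703696314) (nat_lit 5) (nat_lit 5) (nat_lit 7) (nat_lit 4) (nat_lit 5) (nat_lit 4) (nat_lit 285) (nat_lit 240) (nat_lit 195)) (XT.nd (nat_lit 78) (nat_lit 0) (nat_lit 0) (XT.lf (nat_lit 0) (nat_lit 308533755) (nat_lit 76) (nat_lit 34499441739) (nat_lit 76) (nat_lit 17288050492) (nat_lit 4) (nat_lit 4) (nat_lit 5) (nat_lit 5) (nat_lit 5) (nat_lit 4) (nat_lit 286) (nat_lit 240) (nat_lit 194)) (XT.lf (nat_lit 0) (nat_lit 9745793852) (nat_lit 76) (nat_lit 31668656225) (nat_lit 76) (nat_lit 14419178266) (nat_lit 4) (nat_lit 4) (nat_lit 5) (nat_lit 5) (nat_lit 5) (nat_lit 4) (nat_lit 287) (nat_lit 240) (nat_lit 193)))) (XT.nd (nat_lit 78) (nat_lit 0) (nat_lit 0) (XT.lf (nat_lit 0) (nat_lit 19901144401) (nat_lit 76) (nat_lit 28627761759) (nat_lit 76) (nat_lit 11343018324) (nat_lit 4) (nat_lit 4) (nat_lit 5) (nat_lit 5) (nat_lit 5) (nat_lit 4) (nat_lit 288)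 (nat_lit 240) (nat_lit 192)) (XT.nd (nat_lit 78) (nat_lit 0) (nat_lit 0) (XT.lf (nat_lit 0) (nat_lit 30834765256) (nat_lit 76) (nat_lit 25358738224) (nat_lit 76) (nat_lit 8041341573) (nat_lit 4) (nat_lit 4) (nat_lit 5) (nat_lit 5) (nat_lit 5) (nat_lit 4) (nat_lit 289) (nat_lit 240) (nat_lit 191)) (XT.lf (nat_lit 0) (nat_lit 42611448244) (nat_lit 76) (nat_lit 21842213630) (nat_lit 76) (nat_lit 4494582518) (nat_lit 4) (nat_lit 4) (nat_lit 5) (nat_lit 5) (nat_lit 5) (nat_lit 4) (nat_lit 290) (nat_lit 240) (nat_lit 190)))))) (XT.nd (nat_lit 468) (nat_lit 0) (nat_lit 0) (XT.nd (nat_lit 234) (nat_lit 76) (nat_lit 0) (XT.nd (nat_lit 78) (nat_lit 76) (nat_lit 0) (XT.lf (nat_lit 0) (nat_lit 55300981117) (nat_lit 76) (nat_lit 18057349312) (nat_lit 76) (nat_lit 681723329) (nat_lit 4) (nat_lit 4) (nat_lit 5) (nat_lit 5) (nat_lit 5) (nat_lit 4) (nat_lit 291) (nat_lit 240) (nat_lit 189)) (XT.nd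 (nat_lit 78) (nat_lit 0) (nat_lit 0) (XT.lf (nat_lit 0) (nat_lit 3248756930) (nat_lit 152) (nat_lit 10644132742) (nat_lit 76) (nat_lit 65640977404) (nat_lit 3) (nat_lit 5) (nat_lit 5) (nat_lit 5) (nat_lit 4) (nat_lit 4) (nat_lit 292) (nat_lit 240) (nat_lit 188)) (XT.lf (nat_lit 0) (nat_lit 7442477444) (nat_lit 152) (nat_lit 1945195163) (nat_lit 76) (nat_lit 76079272572) (nat_lit 3) (nat_lit 5) (nat_lit 5) (nat_lit 5) (nat_lit 4) (nat_lit 4) (nat_lit 293) (nat_lit 240) (nat_lit 187)))) (XT.nd (nat_lit 78) (nat_lit 0) (nat_lit 0) (XT.lf (nat_lit 0) (nat_lit 7816708220) (nat_lit 76) (nat_lit 4329676250) (nat_lit 152) (nat_lit 79714334851) (nat_lit 2) (nat_lit 5) (nat_lit 3) (nat_lit 5) (nat_lit 4) (nat_lit 4) (nat_lit 294) (nat_lit 240) (nat_lit 186)) (XT.nd (nat_lit 78) (nat_lit 0) (nat_lit 0) (XT.lf (nat_lit 0) (nat_lit 17295286419) (nat_lit 152) (nat_lit 80344347828) (nat_lit 0) (nat_lit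 1120889617) (nat_lit 2) (nat_lit 5) (nat_lit 4) (nat_lit 4) (nat_lit 2) (nat_lit 4) (nat_lit 295) (nat_lit 240) (nat_lit 185)) (XT.lf (nat_lit 0) (nat_lit 22956400511) (nat_lit 152) (nat_lit 76483547417) (nat_lit 0) (nat_lit 6764362192) (nat_lit 2) (nat_lit 5) (nat_lit 4) (nat_lit 4) (nat_lit 2) (nat_lit 4) (nat_lit 296) (nat_lit 240) (nat_lit 184))))) (XT.nd (nat_lit 234) (nat_lit 0) (nat_lit 0) (XT.nd (nat_lit 78) (nat_lit 0) (nat_lit 0) (XT.lf (nat_lit 0) (nat_lit 29059145272) (nat_lit 152) (nat_lit 72334602233) (nat_lit 0) (nat_lit 12850772215) (nat_lit 2) (nat_lit 5) (nat_lit 4) (nat_lit 4) (nat_lit 2) (nat_lit 4) (nat_lit 297) (nat_lit 240) (nat_lit 183)) (XT.nd (nat_lit 78) (nat_lit 0) (nat_lit 0) (XT.lf (nat_lit 0) (nat_lit 35639685116) (nat_lit 152) (nat_lit 67872925936) (nat_lit 0) (nat_lit 19416187301) (nat_lit 2) (nat_lit 5) (nat_lit 4) (nat_lit 4) (nat_lit 2) (nat_lit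 4) (nat_lit 298) (nat_lit 240) (nat_lit 182)) (XT.lf (nat_lit 0) (nat_lit 42737015834) (nat_lit 152) (nat_lit 63072078961) (nat_lit 0) (nat_lit 26499513615) (nat_lit 2) (nat_lit 5) (nat_lit 4) (nat_lit 4) (nat_lit 2) (nat_lit 4) (nat_lit 299) (nat_lit 240) (nat_lit 181)))) (XT.nd (nat_lit 156) (nat_lit 0) (nat_lit 0) (XT.nd (nat_lit 78) (nat_lit 0) (nat_lit 0) (XT.lf (nat_lit 0) (nat_lit 50393195683) (nat_lit 152) (nat_lit 57903611845) (nat_lit 0) (nat_lit 34142726421) (nat_lit 2) (nat_lit 5) (nat_lit 4) (nat_lit 4) (nat_lit 2) (nat_lit 4) (nat_lit 300) (nat_lit 240) (nat_lit 180)) (XT.lf (nat_lit 0) (nat_lit 58653594617) (nat_lit 152) (nat_lit 52336896635) (nat_lit 0) (nat_lit 42391118835) (nat_lit 2) (nat_lit 5) (nat_lit 4) (nat_lit 4) (nat_lit 2) (nat_lit 4) (nat_lit 301) (nat_lit 240) (nat_lit 179))) (XT.nd (nat_lit 78) (nat_lit 0) (nat_lit 0) (XT.lf (nat_lit 0) (nat_lit 67567163148)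 (nat_lit 152) (nat_lit 46338945388) (nat_lit 0) (nat_lit 51293570217) (nat_lit 2) (nat_lit 5) (nat_lit 4) (nat_lit 4) (nat_lit 2) (nat_lit 4) (nat_lit 302) (nat_lit 240) (nat_lit 178)) (XT.lf (nat_lit 0) (nat_lit 77186722423) (nat_lit 152) (nat_lit 39874214691) (nat_lit 0) (nat_lit 60902835837) (nat_lit 2) (nat_lit 5) (nat_lit 4) (nat_lit 4) (nat_lit 2) (nat_lit 4) (nat_lit 303) (nat_lit 240) (nat_lit 177))))))))
noncomputable def xc51 : XT := (XT.nd (nat_lit 1950) (nat_lit 0) (nat_lit 0) (XT.nd (nat_lit 936) (nat_lit 0) (nat_lit 0) (XT.nd (nat_lit 468) (nat_lit 0) (nat_lit 0) (XT.nd (nat_lit 234) (nat_lit 76) (nat_lit 0) (XT.nd (nat_lit 78) (nat_lit 0) (nat_lit 0) (XT.lf (nat_lit 0) (nat_lit 87569277238) (nat_lit 152) (nat_lit 32904395027) (nat_lit 0) (nat_lit 71275859489) (nat_lit 2) (nat_lit 5) (nat_lit 4) (nat_lit 4) (nat_lit 2) (nat_lit 4) (nat_lit 304) (nat_lit 240) (nat_lit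 176)) (XT.nd (nat_lit 78) (nat_lit 0) (nat_lit 0) (XT.lf (nat_lit 0) (nat_lit 98776353843) (nat_lit 152) (nat_lit 25388183761) (nat_lit 0) (nat_lit 82474110944) (nat_lit 2) (nat_lit 5) (nat_lit 4) (nat_lit 4) (nat_lit 2) (nat_lit 4) (nat_lit 305) (nat_lit 240) (nat_lit 175)) (XT.lf (nat_lit 0) (nat_lit 110874364545) (nat_lit 152) (nat_lit 17281040383) (nat_lit 0) (nat_lit 94563950210) (nat_lit 2) (nat_lit 5) (nat_lit 4) (nat_lit 4) (nat_lit 2) (nat_lit 4) (nat_lit 306) (nat_lit 240) (nat_lit 174)))) (XT.nd (nat_lit 78) (nat_lit 76) (nat_lit 0) (XT.lf (nat_lit 0) (nat_lit 123935001259) (nat_lit 152) (nat_lit 8534922562) (nat_lit 0) (nat_lit 107617020779) (nat_lit 2) (nat_lit 5) (nat_lit 4) (nat_lit 4) (nat_lit 2) (nat_lit 4) (nat_lit 307) (nat_lit 240) (nat_lit 173)) (XT.nd (nat_lit 78) (nat_lit 0) (nat_lit 0) (XT.lf (nat_lit 0) (nat_lit 949496194) (nat_lit 76) (nat_lit 137108999562)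 (nat_lit 76) (nat_lit 120784013392) (nat_lit 1) (nat_lit 4) (nat_lit 2) (nat_lit 5) (nat_lit 2) (nat_lit 4) (nat_lit 308) (nat_lit 240) (nat_lit 172)) (XT.lf (nat_lit 0) (nat_lit 11669395890) (nat_lit 76) (nat_lit 141871154641) (nat_lit 76) (nat_lit 125539681722) (nat_lit 1) (nat_lit 4) (nat_lit 2) (nat_lit 5) (nat_lit 2) (nat_lit 4) (nat_lit 309) (nat_lit 240) (nat_lit 171))))) (XT.nd (nat_lit 234) (nat_lit 0) (nat_lit 0) (XT.nd (nat_lit 78) (nat_lit 0) (nat_lit 0) (XT.lf (nat_lit 0) (nat_lit 23238867959) (nat_lit 76) (nat_lit 147017969145) (nat_lit 76) (nat_lit 130680489977) (nat_lit 1) (nat_lit 4) (nat_lit 2) (nat_lit 5) (nat_lit 2) (nat_lit 4) (nat_lit 310) (nat_lit 240) (nat_lit 170)) (XT.nd (nat_lit 78) (nat_lit 0) (nat_lit 0) (XT.lf (nat_lit 0) (nat_lit 35726472237) (nat_lit 76) (nat_lit 152579942716) (nat_lit 76) (nat_lit 136236902206) (nat_lit 1) (nat_lit 4) (nat_lit 2) (nat_lit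 5) (nat_lit 2) (nat_lit 4) (nat_lit 311) (nat_lit 240) (nat_lit 169)) (XT.lf (nat_lit 0) (nat_lit 49206209340) (nat_lit 76) (nat_lit 158590035197) (nat_lit 76) (nat_lit 142241845297) (nat_lit 1) (nat_lit 4) (nat_lit 2) (nat_lit 5) (nat_lit 2) (nat_lit 4) (nat_lit 312) (nat_lit 240) (nat_lit 168)))) (XT.nd (nat_lit 78) (nat_lit 0) (nat_lit 0) (XT.lf (nat_lit 0) (nat_lit 63757959193) (nat_lit 76) (nat_lit 165083861951) (nat_lit 76) (nat_lit 148730904096) (nat_lit 1) (nat_lit 4) (nat_lit 2) (nat_lit 5) (nat_lit 2) (nat_lit 4) (nat_lit 313) (nat_lit 240) (nat_lit 167)) (XT.nd (nat_lit 78) (nat_lit 0) (nat_lit 0) (XT.lf (nat_lit 0) (nat_lit 79467954388) (nat_lit 76) (nat_lit 172099904914) (nat_lit 76) (nat_lit 155742532286) (nat_lit 1) (nat_lit 4) (nat_lit 2) (nat_lit 5) (nat_lit 2) (nat_lit 4) (nat_lit 314) (nat_lit 240) (nat_lit 166)) (XT.lf (nat_lit 0) (nat_lit 96429291191) (nat_lit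 76) (nat_lit 179679740637) (nat_lit 76) (nat_lit 163318280257) (nat_lit 1) (nat_lit 4) (nat_lit 2) (nat_lit 5) (nat_lit 2) (nat_lit 4) (nat_lit 315) (nat_lit 240) (nat_lit 165)))))) (XT.nd (nat_lit 468) (nat_lit 0) (nat_lit 0) (XT.nd (nat_lit 234) (nat_lit 0) (nat_lit 0) (XT.nd (nat_lit 78) (nat_lit 0) (nat_lit 0) (XT.lf (nat_lit 0) (nat_lit 114742481230) (nat_lit 76) (nat_lit 187868286665) (nat_lit 76) (nat_lit 171503041329) (nat_lit 1) (nat_lit 4) (nat_lit 2) (nat_lit 5) (nat_lit 2) (nat_lit 4) (nat_lit 316) (nat_lit 240) (nat_lit 164)) (XT.nd (nat_lit 78) (nat_lit 0) (nat_lit 0) (XT.lf (nat_lit 0) (nat_lit 134516047110) (nat_lit 76) (nat_lit 196714067715) (nat_lit 76) (nat_lit 180345317791) (nat_lit 1) (nat_lit 4) (nat_lit 2) (nat_lit 5) (nat_lit 2) (nat_lit 4) (nat_lit 317) (nat_lit 240) (nat_lit 163)) (XT.lf (nat_lit 0) (nat_lit 155867165520) (nat_lit 76) (nat_lit 206269503231)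 (nat_lit 76) (nat_lit 189897508317) (nat_lit 1) (nat_lit 4) (nat_lit 2) (nat_lit 5) (nat_lit 2) (nat_lit 4) (nat_lit 318) (nat_lit 240) (nat_lit 162)))) (XT.nd (nat_lit 78) (nat_lit 0) (nat_lit 0) (XT.lf (nat_lit 0) (nat_lit 178922361605) (nat_lit 76) (nat_lit 216591218016) (nat_lit 76) (nat_lit 200216218481) (nat_lit 1) (nat_lit 4) (nat_lit 2) (nat_lit 5) (nat_lit 2) (nat_lit 4) (nat_lit 319) (nat_lit 240) (nat_lit 161)) (XT.nd (nat_lit 78) (nat_lit 0) (nat_lit 0) (XT.lf (nat_lit 0) (nat_lit 203818258749) (nat_lit 76) (nat_lit 227740377786) (nat_lit 76) (nat_lit 211362596196) (nat_lit 1) (nat_lit 4) (nat_lit 2) (nat_lit 5) (nat_lit 2) (nat_lit 4) (nat_lit 320) (nat_lit 240) (nat_lit 160)) (XT.lf (nat_lit 0) (nat_lit 230702388194) (nat_lit 76) (nat_lit 239783051637) (nat_lit 76) (nat_lit 223402694069) (nat_lit 1) (nat_lit 4) (nat_lit 2) (nat_lit 5) (nat_lit 2) (nat_lit 4) (nat_lit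 321) (nat_lit 240) (nat_lit 159))))) (XT.nd (nat_lit 234) (nat_lit 0) (nat_lit 0) (XT.nd (nat_lit 78) (nat_lit 0) (nat_lit 0) (XT.lf (nat_lit 0) (nat_lit 259734063301) (nat_lit 76) (nat_lit 252790603562) (nat_lit 76) (nat_lit 236407860830) (nat_lit 1) (nat_lit 4) (nat_lit 2) (nat_lit 5) (nat_lit 2) (nat_lit 4) (nat_lit 322) (nat_lit 240) (nat_lit 158)) (XT.nd (nat_lit 78) (nat_lit 0) (nat_lit 0) (XT.lf (nat_lit 0) (nat_lit 291085323626) (nat_lit 76) (nat_lit 266840115350) (nat_lit 76) (nat_lit 250455164133) (nat_lit 1) (nat_lit 4) (nat_lit 2) (nat_lit 5) (nat_lit 2) (nat_lit 4) (nat_lit 323) (nat_lit 240) (nat_lit 157)) (XT.lf (nat_lit 0) (nat_lit 324941954414) (nat_lit 76) (nat_lit 282014843367) (nat_lit 76) (nat_lit 265627847256) (nat_lit 1) (nat_lit 4) (nat_lit 2) (nat_lit 5) (nat_lit 2) (nat_lit 4) (nat_lit 324) (nat_lit 240) (nat_lit 156)))) (XT.nd (nat_lit 156) (nat_lit 0) (nat_lit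 0) (XT.nd (nat_lit 78) (nat_lit 0) (nat_lit 0) (XT.lf (nat_lit 0) (nat_lit 361504587553) (nat_lit 76) (nat_lit 298404711928) (nat_lit 76) (nat_lit 282015822397) (nat_lit 1) (nat_lit 4) (nat_lit 2) (nat_lit 5) (nat_lit 2) (nat_lit 4) (nat_lit 325) (nat_lit 240) (nat_lit 155)) (XT.lf (nat_lit 0) (nat_lit 400989890497) (nat_lit 76) (nat_lit 316106846179) (nat_lit 76) (nat_lit 299716203481) (nat_lit 1) (nat_lit 4) (nat_lit 2) (nat_lit 5) (nat_lit 2) (nat_lit 4) (nat_lit 326) (nat_lit 240) (nat_lit 154))) (XT.nd (nat_lit 78) (nat_lit 0) (nat_lit 0) (XT.lf (nat_lit 0) (nat_lit 443631850227) (nat_lit 76) (nat_lit 335226147657) (nat_lit 76) (nat_lit 318833881656) (nat_lit 1) (nat_lit 4) (nat_lit 2) (nat_lit 5) (nat_lit 2) (nat_lit 4) (nat_lit 327) (nat_lit 240) (nat_lit 153)) (XT.lf (nat_lit 0) (nat_lit 489683159838) (nat_lit 76) (nat_lit 355875915927) (nat_lit 76) (nat_lit 339482146868) (nat_lit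 1) (nat_lit 4) (nat_lit 2) (nat_lit 5) (nat_lit 2) (nat_lit 4) (nat_lit 328) (nat_lit 240) (nat_lit 152))))))) (XT.nd (nat_lit 30888) (nat_lit 0) (nat_lit 1824) (XT.nd (nat_lit 468) (nat_lit 0) (nat_lit 0) (XT.nd (nat_lit 234) (nat_lit 0) (nat_lit 0) (XT.nd (nat_lit 78) (nat_lit 0) (nat_lit 0) (XT.lf (nat_lit 0) (nat_lit 539416715980) (nat_lit 76) (nat_lit 378178519984) (nat_lit 76) (nat_lit 361783359205) (nat_lit 1) (nat_lit 4) (nat_lit 2) (nat_lit 5) (nat_lit 2) (nat_lit 4) (nat_lit 329) (nat_lit 240) (nat_lit 151)) (XT.nd (nat_lit 78) (nat_lit 0) (nat_lit 0) (XT.lf (nat_lit 0) (nat_lit 593127236021) (nat_lit 76) (nat_lit 402266123409) (nat_lit 76) (nat_lit 385869674000) (nat_lit 1) (nat_lit 4) (nat_lit 2) (nat_lit 5) (nat_lit 2) (nat_lit 4) (nat_lit 330) (nat_lit 240) (nat_lit 150)) (XT.lf (nat_lit 0) (nat_lit 651133004526) (nat_lit 76) (nat_lit 428281467556) (nat_lit 76) (nat_lit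 411883824971) (nat_lit 1) (nat_lit 4) (nat_lit 2) (nat_lit 5) (nat_lit 2) (nat_lit 4) (nat_lit 331) (nat_lit 240) (nat_lit 149)))) (XT.nd (nat_lit 78) (nat_lit 0) (nat_lit 0) (XT.lf (nat_lit 0) (nat_lit 713777759381) (nat_lit 76) (nat_lit 456378717427) (nat_lit 76) (nat_lit 439979970049) (nat_lit 1) (nat_lit 4) (nat_lit 2) (nat_lit 5) (nat_lit 2) (nat_lit 4) (nat_lit 332) (nat_lit 240) (nat_lit 148)) (XT.nd (nat_lit 78) (nat_lit 0) (nat_lit 0) (XT.lf (nat_lit 0) (nat_lit 781432728764) (nat_lit 76) (nat_lit 486724375243) (nat_lit 76) (nat_lit 470324604909) (nat_lit 1) (nat_lit 4) (nat_lit 2) (nat_lit 5) (nat_lit 2) (nat_lit 4) (nat_lit 333) (nat_lit 240) (nat_lit 147)) (XT.lf (nat_lit 0) (nat_lit 854498831012) (nat_lit 76) (nat_lit 519498267124) (nat_lit 76) (nat_lit 503097549609) (nat_lit 1) (nat_lit 4) (nat_lit 2) (nat_lit 5) (nat_lit 2) (nat_lit 4) (nat_lit 334) (nat_lit 240) (nat_lit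 146))))) (XT.nd (nat_lit 234) (nat_lit 0) (nat_lit 0) (XT.nd (nat_lit 78) (nat_lit 0) (nat_lit 0) (XT.lf (nat_lit 0) (nat_lit 933409050434) (nat_lit 76) (nat_lit 554894608727) (nat_lit 76) (nat_lit 538493014192) (nat_lit 1) (nat_lit 4) (nat_lit 2) (nat_lit 5) (nat_lit 2) (nat_lit 4) (nat_lit 335) (nat_lit 240) (nat_lit 145)) (XT.nd (nat_lit 78) (nat_lit 0) (nat_lit 0) (XT.lf (nat_lit 0) (nat_lit 1018631003146) (nat_lit 76) (nat_lit 593123156150) (nat_lit 76) (nat_lit 576720749559) (nat_lit 1) (nat_lit 4) (nat_lit 2) (nat_lit 5) (nat_lit 2) (nat_lit 4) (nat_lit 336) (nat_lit 240) (nat_lit 144)) (XT.lf (nat_lit 0) (nat_lit 1110669708126) (nat_lit 76) (nat_lit 634410448933) (nat_lit 76) (nat_lit 618007290438) (nat_lit 1) (nat_lit 4) (nat_lit 2) (nat_lit 5) (nat_lit 2) (nat_lit 4) (nat_lit 337) (nat_lit 240) (nat_lit 143)))) (XT.nd (nat_lit 30030) (nat_lit 0) (nat_lit 3952) (XT.nd (nat_lit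 29952) (nat_lit 0) (nat_lit 4180) (XT.lf (nat_lit 0) (nat_lit 1210070579922) (nat_lit 76) (nat_lit 679001152514) (nat_lit 76) (nat_lit 662597297813) (nat_lit 1) (nat_lit 4) (nat_lit 2) (nat_lit 5) (nat_lit 2) (nat_lit 4) (nat_lit 338) (nat_lit 240) (nat_lit 142)) (XT.lf (nat_lit 0) (nat_lit 1348233123) (nat_lit 0) (nat_lit 1348233123) (nat_lit 76) (nat_lit 538050288) (nat_lit 56) (nat_lit 5) (nat_lit 56) (nat_lit 3) (nat_lit 57) (nat_lit 0) (nat_lit 241) (nat_lit 241) (nat_lit 238))) (XT.nd (nat_lit 78) (nat_lit 0) (nat_lit 0) (XT.lf (nat_lit 0) (nat_lit 1391061544) (nat_lit 228) (nat_lit 906421700) (nat_lit 228) (nat_lit 4212790604) (nat_lit 53) (nat_lit 3) (nat_lit 56) (nat_lit 3) (nat_lit 56) (nat_lit 5) (nat_lit 242) (nat_lit 241) (nat_lit 237)) (XT.lf (nat_lit 76) (nat_lit 2134059575) (nat_lit 0) (nat_lit 1669183615) (nat_lit 228) (nat_lit 2767206656) (nat_lit 54) (nat_lit 5)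 (nat_lit 53) (nat_lit 3) (nat_lit 56) (nat_lit 5) (nat_lit 243) (nat_lit 241) (nat_lit 236)))))) (XT.nd (nat_lit 468) (nat_lit 1368) (nat_lit 0) (XT.nd (nat_lit 234) (nat_lit 608) (nat_lit 0) (XT.nd (nat_lit 78) (nat_lit 152) (nat_lit 0) (XT.lf (nat_lit 76) (nat_lit 5338955567) (nat_lit 0) (nat_lit 863739425) (nat_lit 228) (nat_lit 451363063) (nat_lit 54) (nat_lit 5) (nat_lit 53) (nat_lit 3) (nat_lit 56) (nat_lit 5) (nat_lit 244) (nat_lit 241) (nat_lit 235)) (XT.nd (nat_lit 78) (nat_lit 0) (nat_lit 0) (XT.lf (nat_lit 0) (nat_lit 1778498033) (nat_lit 228) (nat_lit 4789894897) (nat_lit 76) (nat_lit 187368714) (nat_lit 51) (nat_lit 5) (nat_lit 54) (nat_lit 5) (nat_lit 52) (nat_lit 5) (nat_lit 245) (nat_lit 241) (nat_lit 234)) (XT.lf (nat_lit 0) (nat_lit 4015891761) (nat_lit 228) (nat_lit 1464690150) (nat_lit 76) (nat_lit 1397515480) (nat_lit 51) (nat_lit 5) (nat_lit 54) (nat_lit 5) (nat_lit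 52) (nat_lit 5) (nat_lit 246) (nat_lit 241) (nat_lit 233)))) (XT.nd (nat_lit 78) (nat_lit 380) (nat_lit 0) (XT.lf (nat_lit 0) (nat_lit 2091355227) (nat_lit 228) (nat_lit 4200666213) (nat_lit 304) (nat_lit 731007974) (nat_lit 48) (nat_lit 5) (nat_lit 51) (nat_lit 5) (nat_lit 52) (nat_lit 5) (nat_lit 247) (nat_lit 241) (nat_lit 232)) (XT.nd (nat_lit 78) (nat_lit 304) (nat_lit 0) (XT.lf (nat_lit 0) (nat_lit 1347420665) (nat_lit 304) (nat_lit 1347384842) (nat_lit 76) (nat_lit 4494666201) (nat_lit 47) (nat_lit 5) (nat_lit 51) (nat_lit 5) (nat_lit 48) (nat_lit 5) (nat_lit 248) (nat_lit 241) (nat_lit 231)) (XT.lf (nat_lit 0) (nat_lit 2492883182) (nat_lit 304) (nat_lit 947682202) (nat_lit 380) (nat_lit 3937371588) (nat_lit 43) (nat_lit 5) (nat_lit 47) (nat_lit 5) (nat_lit 48) (nat_lit 5) (nat_lit 249) (nat_lit 241) (nat_lit 230))))) (XT.nd (nat_lit 234) (nat_lit 912) (nat_lit 0) (XT.nd (nat_lit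 78) (nat_lit 456) (nat_lit 0) (XT.lf (nat_lit 0) (nat_lit 5599778913) (nat_lit 380) (nat_lit 1032977988) (nat_lit 76) (nat_lit 958001121) (nat_lit 43) (nat_lit 5) (nat_lit 48) (nat_lit 5) (nat_lit 44) (nat_lit 5) (nat_lit 250) (nat_lit 241) (nat_lit 229)) (XT.nd (nat_lit 78) (nat_lit 0) (nat_lit 0) (XT.lf (nat_lit 0) (nat_lit 53148955) (nat_lit 456) (nat_lit 4705166174) (nat_lit 76) (nat_lit 3067270497) (nat_lit 37) (nat_lit 5) (nat_lit 43) (nat_lit 5) (nat_lit 38) (nat_lit 5) (nat_lit 251) (nat_lit 241) (nat_lit 228)) (XT.lf (nat_lit 0) (nat_lit 2035683008) (nat_lit 456) (nat_lit 606673624) (nat_lit 76) (nat_lit 5443037633) (nat_lit 37) (nat_lit 5) (nat_lit 43) (nat_lit 5) (nat_lit 38) (nat_lit 5) (nat_lit 252) (nat_lit 241) (nat_lit 227)))) (XT.nd (nat_lit 156) (nat_lit 456) (nat_lit 0) (XT.nd (nat_lit 78) (nat_lit 0) (nat_lit 0) (XT.lf (nat_lit 0) (nat_lit 3882313497) (nat_lit 456)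 (nat_lit 252193874) (nat_lit 532) (nat_lit 4235723690) (nat_lit 31) (nat_lit 5) (nat_lit 37) (nat_lit 5) (nat_lit 38) (nat_lit 5) (nat_lit 253) (nat_lit 241) (nat_lit 226)) (XT.lf (nat_lit 0) (nat_lit 6345567529) (nat_lit 532) (nat_lit 107419361) (nat_lit 76) (nat_lit 2230116406) (nat_lit 31) (nat_lit 5) (nat_lit 38) (nat_lit 5) (nat_lit 32) (nat_lit 5) (nat_lit 254) (nat_lit 241) (nat_lit 225))) (XT.nd (nat_lit 78) (nat_lit 228) (nat_lit 0) (XT.lf (nat_lit 0) (nat_lit 4724252320) (nat_lit 228) (nat_lit 4010257372) (nat_lit 304) (nat_lit 287151845) (nat_lit 28) (nat_lit 5) (nat_lit 31) (nat_lit 5) (nat_lit 32) (nat_lit 5) (nat_lit 255) (nat_lit 241) (nat_lit 224)) (XT.lf (nat_lit 0) (nat_lit 402647133) (nat_lit 152) (nat_lit 1323942075) (nat_lit 228) (nat_lit 7665979303) (nat_lit 25) (nat_lit 5) (nat_lit 27) (nat_lit 5) (nat_lit 28) (nat_lit 5) (nat_lit 256) (nat_lit 241) (nat_lit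 223))))))))
noncomputable def xc52 : XT := (XT.nd (nat_lit 1950) (nat_lit 304) (nat_lit 0) (XT.nd (nat_lit 936) (nat_lit 532) (nat_lit 0) (XT.nd (nat_lit 468) (nat_lit 304) (nat_lit 0) (XT.nd (nat_lit 234) (nat_lit 380) (nat_lit 0) (XT.nd (nat_lit 78) (nat_lit 228) (nat_lit 0) (XT.lf (nat_lit 0) (nat_lit 3932567192) (nat_lit 228) (nat_lit 4247364238) (nat_lit 76) (nat_lit 1609472090) (nat_lit 25) (nat_lit 5) (nat_lit 28) (nat_lit 5) (nat_lit 26) (nat_lit 5) (nat_lit 257) (nat_lit 241) (nat_lit 222)) (XT.nd (nat_lit 78) (nat_lit 0) (nat_lit 0) (XT.lf (nat_lit 0) (nat_lit 749676430) (nat_lit 228) (nat_lit 5514215770) (nat_lit 304) (nat_lit 3958724613) (nat_lit 22) (nat_lit 5) (nat_lit 25) (nat_lit 5) (nat_lit 26) (nat_lit 5) (nat_lit 258) (nat_lit 241) (nat_lit 221)) (XT.lf (nat_lit 0) (nat_lit 6263238322) (nat_lit 228) (nat_lit 2535735313) (nat_lit 304) (nat_lit 1890634411) (nat_lit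 22) (nat_lit 5) (nat_lit 25) (nat_lit 5) (nat_lit 26) (nat_lit 5) (nat_lit 259) (nat_lit 241) (nat_lit 220)))) (XT.nd (nat_lit 78) (nat_lit 152) (nat_lit 0) (XT.lf (nat_lit 0) (nat_lit 270568844) (nat_lit 228) (nat_lit 10274161938) (nat_lit 76) (nat_lit 653411962) (nat_lit 19) (nat_lit 5) (nat_lit 22) (nat_lit 5) (nat_lit 20) (nat_lit 5) (nat_lit 260) (nat_lit 241) (nat_lit 219)) (XT.nd (nat_lit 78) (nat_lit 152) (nat_lit 0) (XT.lf (nat_lit 0) (nat_lit 2601672382) (nat_lit 228) (nat_lit 5026537646) (nat_lit 76) (nat_lit 4107687445) (nat_lit 19) (nat_lit 5) (nat_lit 22) (nat_lit 5) (nat_lit 20) (nat_lit 5) (nat_lit 261) (nat_lit 241) (nat_lit 218)) (XT.lf (nat_lit 0) (nat_lit 552969257) (nat_lit 152) (nat_lit 4495441867) (nat_lit 228) (nat_lit 7274297888) (nat_lit 17) (nat_lit 5) (nat_lit 19) (nat_lit 5) (nat_lit 20) (nat_lit 5) (nat_lit 262) (nat_lit 241) (nat_lit 217))))) (XT.nd (nat_lit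 234) (nat_lit 228) (nat_lit 0) (XT.nd (nat_lit 78) (nat_lit 76) (nat_lit 0) (XT.lf (nat_lit 0) (nat_lit 6752037578) (nat_lit 152) (nat_lit 995657774) (nat_lit 228) (nat_lit 5204566523) (nat_lit 17) (nat_lit 5) (nat_lit 19) (nat_lit 5) (nat_lit 20) (nat_lit 5) (nat_lit 263) (nat_lit 241) (nat_lit 216)) (XT.nd (nat_lit 78) (nat_lit 76) (nat_lit 0) (XT.lf (nat_lit 0) (nat_lit 10654511229) (nat_lit 228) (nat_lit 361997628) (nat_lit 76) (nat_lit 2616658657) (nat_lit 17) (nat_lit 5) (nat_lit 20) (nat_lit 5) (nat_lit 18) (nat_lit 4) (nat_lit 264) (nat_lit 241) (nat_lit 215)) (XT.lf (nat_lit 0) (nat_lit 6121917041) (nat_lit 76) (nat_lit 7775262734) (nat_lit 152) (nat_lit 463393513) (nat_lit 16) (nat_lit 5) (nat_lit 17) (nat_lit 5) (nat_lit 18) (nat_lit 4) (nat_lit 265) (nat_lit 241) (nat_lit 214)))) (XT.nd (nat_lit 78) (nat_lit 152) (nat_lit 0) (XT.lf (nat_lit 0) (nat_lit 2081536982) (nat_lit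 152) (nat_lit 2157751600) (nat_lit 76) (nat_lit 10907506139) (nat_lit 15) (nat_lit 5) (nat_lit 17) (nat_lit 5) (nat_lit 16) (nat_lit 5) (nat_lit 266) (nat_lit 241) (nat_lit 213)) (XT.nd (nat_lit 78) (nat_lit 0) (nat_lit 0) (XT.lf (nat_lit 0) (nat_lit 4528707649) (nat_lit 152) (nat_lit 321346236) (nat_lit 228) (nat_lit 11141526927) (nat_lit 13) (nat_lit 5) (nat_lit 15) (nat_lit 5) (nat_lit 16) (nat_lit 5) (nat_lit 267) (nat_lit 241) (nat_lit 212)) (XT.lf (nat_lit 0) (nat_lit 7932464530) (nat_lit 228) (nat_lit 5219377778) (nat_lit 76) (nat_lit 3744929324) (nat_lit 13) (nat_lit 5) (nat_lit 16) (nat_lit 5) (nat_lit 14) (nat_lit 4) (nat_lit 268) (nat_lit 241) (nat_lit 211)))))) (XT.nd (nat_lit 468) (nat_lit 228) (nat_lit 0) (XT.nd (nat_lit 234) (nat_lit 228) (nat_lit 0) (XT.nd (nat_lit 78) (nat_lit 0) (nat_lit 0) (XT.lf (nat_lit 0) (nat_lit 1500130327) (nat_lit 76) (nat_lit 9748213357)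 (nat_lit 152) (nat_lit 6627282899) (nat_lit 12) (nat_lit 5) (nat_lit 13) (nat_lit 5) (nat_lit 14) (nat_lit 4) (nat_lit 269) (nat_lit 241) (nat_lit 210)) (XT.nd (nat_lit 78) (nat_lit 0) (nat_lit 0) (XT.lf (nat_lit 0) (nat_lit 8966149476) (nat_lit 76) (nat_lit 5950650946) (nat_lit 152) (nat_lit 4009189113) (nat_lit 12) (nat_lit 5) (nat_lit 13) (nat_lit 5) (nat_lit 14) (nat_lit 4) (nat_lit 270) (nat_lit 241) (nat_lit 209)) (XT.lf (nat_lit 0) (nat_lit 16948079559) (nat_lit 76) (nat_lit 1879358041) (nat_lit 152) (nat_lit 1237218151) (nat_lit 12) (nat_lit 5) (nat_lit 13) (nat_lit 5) (nat_lit 14) (nat_lit 4) (nat_lit 271) (nat_lit 241) (nat_lit 208)))) (XT.nd (nat_lit 78) (nat_lit 0) (nat_lit 0) (XT.lf (nat_lit 0) (nat_lit 1788599286) (nat_lit 228) (nat_lit 16977780311) (nat_lit 76) (nat_lit 2515205822) (nat_lit 9) (nat_lit 5) (nat_lit 12) (nat_lit 5) (nat_lit 10) (nat_lit 4) (nat_lit 272)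 (nat_lit 241) (nat_lit 207)) (XT.nd (nat_lit 78) (nat_lit 0) (nat_lit 0) (XT.lf (nat_lit 0) (nat_lit 5078094117) (nat_lit 228) (nat_lit 10256448558) (nat_lit 76) (nat_lit 7251815013) (nat_lit 9) (nat_lit 5) (nat_lit 12) (nat_lit 5) (nat_lit 10) (nat_lit 4) (nat_lit 273) (nat_lit 241) (nat_lit 206)) (XT.lf (nat_lit 0) (nat_lit 8586501667) (nat_lit 228) (nat_lit 3070828903) (nat_lit 76) (nat_lit 12341846268) (nat_lit 9) (nat_lit 5) (nat_lit 12) (nat_lit 5) (nat_lit 10) (nat_lit 4) (nat_lit 274) (nat_lit 241) (nat_lit 205))))) (XT.nd (nat_lit 234) (nat_lit 152) (nat_lit 0) (XT.nd (nat_lit 78) (nat_lit 0) (nat_lit 0) (XT.lf (nat_lit 0) (nat_lit 4865028533) (nat_lit 76) (nat_lit 7586588020) (nat_lit 152) (nat_lit 13067438256) (nat_lit 8) (nat_lit 5) (nat_lit 9) (nat_lit 5) (nat_lit 10) (nat_lit 4) (nat_lit 275) (nat_lit 241) (nat_lit 204)) (XT.nd (nat_lit 78) (nat_lit 0) (nat_lit 0) (XT.lf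 (nat_lit 0) (nat_lit 13544136123) (nat_lit 76) (nat_lit 3126238320) (nat_lit 152) (nat_lit 10486701339) (nat_lit 8) (nat_lit 5) (nat_lit 9) (nat_lit 5) (nat_lit 10) (nat_lit 4) (nat_lit 276) (nat_lit 241) (nat_lit 203)) (XT.lf (nat_lit 0) (nat_lit 21230104750) (nat_lit 152) (nat_lit 6113016613) (nat_lit 0) (nat_lit 1582838838) (nat_lit 8) (nat_lit 5) (nat_lit 10) (nat_lit 4) (nat_lit 8) (nat_lit 4) (nat_lit 277) (nat_lit 241) (nat_lit 202)))) (XT.nd (nat_lit 156) (nat_lit 76) (nat_lit 0) (XT.nd (nat_lit 78) (nat_lit 0) (nat_lit 0) (XT.lf (nat_lit 0) (nat_lit 1943881432) (nat_lit 76) (nat_lit 24304243302) (nat_lit 76) (nat_lit 4580841875) (nat_lit 7) (nat_lit 4) (nat_lit 8) (nat_lit 5) (nat_lit 8) (nat_lit 4) (nat_lit 278) (nat_lit 241) (nat_lit 201)) (XT.lf (nat_lit 0) (nat_lit 10935420476) (nat_lit 76) (nat_lit 20866033129) (nat_lit 76) (nat_lit 1072135855) (nat_lit 7) (nat_lit 4)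 (nat_lit 8) (nat_lit 5) (nat_lit 8) (nat_lit 4) (nat_lit 279) (nat_lit 241) (nat_lit 200))) (XT.nd (nat_lit 78) (nat_lit 0) (nat_lit 0) (XT.lf (nat_lit 0) (nat_lit 2549653974) (nat_lit 152) (nat_lit 14555890940) (nat_lit 76) (nat_lit 17973617060) (nat_lit 6) (nat_lit 5) (nat_lit 8) (nat_lit 5) (nat_lit 7) (nat_lit 4) (nat_lit 280) (nat_lit 241) (nat_lit 199)) (XT.lf (nat_lit 0) (nat_lit 6373926778) (nat_lit 152) (nat_lit 6661842334) (nat_lit 76) (nat_lit 24425598048) (nat_lit 6) (nat_lit 5) (nat_lit 8) (nat_lit 5) (nat_lit 7) (nat_lit 4) (nat_lit 281) (nat_lit 241) (nat_lit 198))))))) (XT.nd (nat_lit 936) (nat_lit 76) (nat_lit 0) (XT.nd (nat_lit 468) (nat_lit 76) (nat_lit 0) (XT.nd (nat_lit 234) (nat_lit 76) (nat_lit 0) (XT.nd (nat_lit 78) (nat_lit 0) (nat_lit 0) (XT.lf (nat_lit 0) (nat_lit 1912197117) (nat_lit 76) (nat_lit 8610768760) (nat_lit 152) (nat_lit 29509739633) (nat_lit 5)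 (nat_lit 5) (nat_lit 6) (nat_lit 5) (nat_lit 7) (nat_lit 4) (nat_lit 282) (nat_lit 241) (nat_lit 197)) (XT.nd (nat_lit 78) (nat_lit 0) (nat_lit 0) (XT.lf (nat_lit 0) (nat_lit 11505030372) (nat_lit 76) (nat_lit 3654786374) (nat_lit 152) (nat_lit 27637521155) (nat_lit 5) (nat_lit 5) (nat_lit 6) (nat_lit 5) (nat_lit 7) (nat_lit 4) (nat_lit 283) (nat_lit 241) (nat_lit 196)) (XT.lf (nat_lit 0) (nat_lit 20183692398) (nat_lit 152) (nat_lit 24002826257) (nat_lit 0) (nat_lit 1595389851) (nat_lit 5) (nat_lit 5) (nat_lit 7) (nat_lit 4) (nat_lit 5) (nat_lit 4) (nat_lit 284) (nat_lit 241) (nat_lit 195)))) (XT.nd (nat_lit 78) (nat_lit 76) (nat_lit 0) (XT.lf (nat_lit 0) (nat_lit 25681488728) (nat_lit 152) (nat_lit 16265992431) (nat_lit 0) (nat_lit 7052052531) (nat_lit 5) (nat_lit 5) (nat_lit 7) (nat_lit 4) (nat_lit 5) (nat_lit 4) (nat_lit 285) (nat_lit 241) (nat_lit 194)) (XT.nd (nat_lit 78) (nat_lit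 76) (nat_lit 0) (XT.lf (nat_lit 0) (nat_lit 31597887569) (nat_lit 152) (nat_lit 7948060446) (nat_lit 0) (nat_lit 12930364660) (nat_lit 5) (nat_lit 5) (nat_lit 7) (nat_lit 4) (nat_lit 5) (nat_lit 4) (nat_lit 286) (nat_lit 241) (nat_lit 193)) (XT.lf (nat_lit 0) (nat_lit 1052933124) (nat_lit 76) (nat_lit 36940339006) (nat_lit 76) (nat_lit 18237550623) (nat_lit 4) (nat_lit 4) (nat_lit 5) (nat_lit 5) (nat_lit 5) (nat_lit 4) (nat_lit 287) (nat_lit 241) (nat_lit 192))))) (XT.nd (nat_lit 234) (nat_lit 76) (nat_lit 0) (XT.nd (nat_lit 78) (nat_lit 0) (nat_lit 0) (XT.lf (nat_lit 0) (nat_lit 11191861683) (nat_lit 76) (nat_lit 33906724583) (nat_lit 76) (nat_lit 15171282982) (nat_lit 4) (nat_lit 4) (nat_lit 5) (nat_lit 5) (nat_lit 5) (nat_lit 4) (nat_lit 288) (nat_lit 241) (nat_lit 191)) (XT.nd (nat_lit 78) (nat_lit 0) (nat_lit 0) (XT.lf (nat_lit 0) (nat_lit 22110276992) (nat_lit 76) (nat_lit 30644441829)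 (nat_lit 76) (nat_lit 11878765767) (nat_lit 4) (nat_lit 4) (nat_lit 5) (nat_lit 5) (nat_lit 5) (nat_lit 4) (nat_lit 289) (nat_lit 241) (nat_lit 190)) (XT.lf (nat_lit 0) (nat_lit 33872880772) (nat_lit 76) (nat_lit 27134158698) (nat_lit 76) (nat_lit 8340487766) (nat_lit 4) (nat_lit 4) (nat_lit 5) (nat_lit 5) (nat_lit 5) (nat_lit 4) (nat_lit 290) (nat_lit 241) (nat_lit 189)))) (XT.nd (nat_lit 78) (nat_lit 76) (nat_lit 0) (XT.lf (nat_lit 0) (nat_lit 46549377341) (nat_lit 76) (nat_lit 23355073513) (nat_lit 76) (nat_lit 4535481404) (nat_lit 4) (nat_lit 4) (nat_lit 5) (nat_lit 5) (nat_lit 5) (nat_lit 4) (nat_lit 291) (nat_lit 241) (nat_lit 188)) (XT.nd (nat_lit 78) (nat_lit 76) (nat_lit 0) (XT.lf (nat_lit 0) (nat_lit 60214886678) (nat_lit 76) (nat_lit 19284791695) (nat_lit 76) (nat_lit 441198496) (nat_lit 4) (nat_lit 4) (nat_lit 5) (nat_lit 5) (nat_lit 5) (nat_lit 4) (nat_lit 292) (nat_lit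 241) (nat_lit 187)) (XT.lf (nat_lit 0) (nat_lit 3768196807) (nat_lit 152) (nat_lit 11027967068) (nat_lit 76) (nat_lit 71079163594) (nat_lit 3) (nat_lit 5) (nat_lit 5) (nat_lit 5) (nat_lit 4) (nat_lit 4) (nat_lit 293) (nat_lit 241) (nat_lit 186)))))) (XT.nd (nat_lit 468) (nat_lit 0) (nat_lit 0) (XT.nd (nat_lit 234) (nat_lit 0) (nat_lit 0) (XT.nd (nat_lit 78) (nat_lit 76) (nat_lit 0) (XT.lf (nat_lit 0) (nat_lit 8278189827) (nat_lit 152) (nat_lit 1667758652) (nat_lit 76) (nat_lit 82338677338) (nat_lit 3) (nat_lit 5) (nat_lit 5) (nat_lit 5) (nat_lit 4) (nat_lit 4) (nat_lit 294) (nat_lit 241) (nat_lit 185)) (XT.nd (nat_lit 78) (nat_lit 0) (nat_lit 0) (XT.lf (nat_lit 0) (nat_lit 8864133657) (nat_lit 76) (nat_lit 4486625953) (nat_lit 152) (nat_lit 85839787587) (nat_lit 2) (nat_lit 5) (nat_lit 3) (nat_lit 5) (nat_lit 4) (nat_lit 4) (nat_lit 295) (nat_lit 241) (nat_lit 184)) (XT.lf (nat_lit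 0) (nat_lit 18898557520) (nat_lit 152) (nat_lit 86367670851) (nat_lit 0) (nat_lit 1377179880) (nat_lit 2) (nat_lit 5) (nat_lit 4) (nat_lit 4) (nat_lit 2) (nat_lit 4) (nat_lit 296) (nat_lit 241) (nat_lit 183)))) (XT.nd (nat_lit 78) (nat_lit 0) (nat_lit 0) (XT.lf (nat_lit 0) (nat_lit 24996290504) (nat_lit 152) (nat_lit 82227948985) (nat_lit 0) (nat_lit 7459788106) (nat_lit 2) (nat_lit 5) (nat_lit 4) (nat_lit 4) (nat_lit 2) (nat_lit 4) (nat_lit 297) (nat_lit 241) (nat_lit 182)) (XT.nd (nat_lit 78) (nat_lit 0) (nat_lit 0) (XT.lf (nat_lit 0) (nat_lit 31572189812) (nat_lit 152) (nat_lit 77774812796) (nat_lit 0) (nat_lit 14021683010) (nat_lit 2) (nat_lit 5) (nat_lit 4) (nat_lit 4) (nat_lit 2) (nat_lit 4) (nat_lit 298) (nat_lit 241) (nat_lit 181)) (XT.lf (nat_lit 0) (nat_lit 38665223739) (nat_lit 152) (nat_lit 72981873330) (nat_lit 0) (nat_lit 21101749894) (nat_lit 2) (nat_lit 5) (nat_lit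 4) (nat_lit 4) (nat_lit 2) (nat_lit 4) (nat_lit 299) (nat_lit 241) (nat_lit 180))))) (XT.nd (nat_lit 234) (nat_lit 0) (nat_lit 0) (XT.nd (nat_lit 78) (nat_lit 0) (nat_lit 0) (XT.lf (nat_lit 0) (nat_lit 46317425077) (nat_lit 152) (nat_lit 67820727980) (nat_lit 0) (nat_lit 28741944712) (nat_lit 2) (nat_lit 5) (nat_lit 4) (nat_lit 4) (nat_lit 2) (nat_lit 4) (nat_lit 300) (nat_lit 241) (nat_lit 179)) (XT.nd (nat_lit 78) (nat_lit 0) (nat_lit 0) (XT.lf (nat_lit 0) (nat_lit 54574140204) (nat_lit 152) (nat_lit 62260792184) (nat_lit 0) (nat_lit 36987542691) (nat_lit 2) (nat_lit 5) (nat_lit 4) (nat_lit 4) (nat_lit 2) (nat_lit 4) (nat_lit 301) (nat_lit 241) (nat_lit 178)) (XT.lf (nat_lit 0) (nat_lit 63484297803) (nat_lit 152) (nat_lit 56269118172) (nat_lit 0) (nat_lit 45887406634) (nat_lit 2) (nat_lit 5) (nat_lit 4) (nat_lit 4) (nat_lit 2) (nat_lit 4) (nat_lit 302) (nat_lit 241) (nat_lit 177))))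 (XT.nd (nat_lit 156) (nat_lit 0) (nat_lit 0) (XT.nd (nat_lit 78) (nat_lit 0) (nat_lit 0) (XT.lf (nat_lit 0) (nat_lit 73100698808) (nat_lit 152) (nat_lit 49810199729) (nat_lit 0) (nat_lit 55494276476) (nat_lit 2) (nat_lit 5) (nat_lit 4) (nat_lit 4) (nat_lit 2) (nat_lit 4) (nat_lit 303) (nat_lit 241) (nat_lit 176)) (XT.lf (nat_lit 0) (nat_lit 83480329298) (nat_lit 152) (nat_lit 42845761782) (nat_lit 0) (nat_lit 65865081816) (nat_lit 2) (nat_lit 5) (nat_lit 4) (nat_lit 4) (nat_lit 2) (nat_lit 4) (nat_lit 304) (nat_lit 241) (nat_lit 175))) (XT.nd (nat_lit 78) (nat_lit 0) (nat_lit 0) (XT.lf (nat_lit 0) (nat_lit 94684698196) (nat_lit 152) (nat_lit 35334533589) (nat_lit 0) (nat_lit 77061279278) (nat_lit 2) (nat_lit 5) (nat_lit 4) (nat_lit 4) (nat_lit 2) (nat_lit 4) (nat_lit 305) (nat_lit 241) (nat_lit 174)) (XT.lf (nat_lit 0) (nat_lit 106780201761) (nat_lit 152) (nat_lit 27232004166) (nat_lit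 0) (nat_lit 89149216698) (nat_lit 2) (nat_lit 5) (nat_lit 4) (nat_lit 4) (nat_lit 2) (nat_lit 4) (nat_lit 306) (nat_lit 241) (nat_lit 173))))))))
noncomputable def xc53 : XT := (XT.nd (nat_lit 1950) (nat_lit 0) (nat_lit 0) (XT.nd (nat_lit 936) (nat_lit 0) (nat_lit 0) (XT.nd (nat_lit 468) (nat_lit 0) (nat_lit 0) (XT.nd (nat_lit 234) (nat_lit 0) (nat_lit 0) (XT.nd (nat_lit 78) (nat_lit 76) (nat_lit 0) (XT.lf (nat_lit 0) (nat_lit 119838517052) (nat_lit 152) (nat_lit 18490158525) (nat_lit 0) (nat_lit 102200526300) (nat_lit 2) (nat_lit 5) (nat_lit 4) (nat_lit 4) (nat_lit 2) (nat_lit 4) (nat_lit 307) (nat_lit 241) (nat_lit 172)) (XT.nd (nat_lit 78) (nat_lit 76) (nat_lit 0) (XT.lf (nat_lit 0) (nat_lit 133937026677) (nat_lit 152) (nat_lit 9057193136) (nat_lit 0) (nat_lit 116292549176) (nat_lit 2) (nat_lit 5) (nat_lit 4) (nat_lit 4) (nat_lit 2) (nat_lit 4) (nat_lit 308) (nat_lit 241) (nat_lit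 171)) (XT.lf (nat_lit 0) (nat_lit 1181915241) (nat_lit 76) (nat_lit 148005787209) (nat_lit 76) (nat_lit 130355303458) (nat_lit 1) (nat_lit 4) (nat_lit 2) (nat_lit 5) (nat_lit 2) (nat_lit 4) (nat_lit 309) (nat_lit 241) (nat_lit 170)))) (XT.nd (nat_lit 78) (nat_lit 0) (nat_lit 0) (XT.lf (nat_lit 0) (nat_lit 12747817331) (nat_lit 76) (nat_lit 153154243015) (nat_lit 76) (nat_lit 135498197922) (nat_lit 1) (nat_lit 4) (nat_lit 2) (nat_lit 5) (nat_lit 2) (nat_lit 4) (nat_lit 310) (nat_lit 241) (nat_lit 169)) (XT.nd (nat_lit 78) (nat_lit 0) (nat_lit 0) (XT.lf (nat_lit 0) (nat_lit 25232116072) (nat_lit 76) (nat_lit 158717736309) (nat_lit 76) (nat_lit 141056541825) (nat_lit 1) (nat_lit 4) (nat_lit 2) (nat_lit 5) (nat_lit 2) (nat_lit 4) (nat_lit 311) (nat_lit 241) (nat_lit 168)) (XT.lf (nat_lit 0) (nat_lit 38708792493) (nat_lit 76) (nat_lit 164729235941) (nat_lit 76) (nat_lit 147063273503) (nat_lit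 1) (nat_lit 4) (nat_lit 2) (nat_lit 5) (nat_lit 2) (nat_lit 4) (nat_lit 312) (nat_lit 241) (nat_lit 167))))) (XT.nd (nat_lit 234) (nat_lit 0) (nat_lit 0) (XT.nd (nat_lit 78) (nat_lit 0) (nat_lit 0) (XT.lf (nat_lit 0) (nat_lit 53257708382) (nat_lit 76) (nat_lit 171224365612) (nat_lit 76) (nat_lit 153553988402) (nat_lit 1) (nat_lit 4) (nat_lit 2) (nat_lit 5) (nat_lit 2) (nat_lit 4) (nat_lit 313) (nat_lit 241) (nat_lit 166)) (XT.nd (nat_lit 78) (nat_lit 0) (nat_lit 0) (XT.lf (nat_lit 0) (nat_lit 68965079535) (nat_lit 76) (nat_lit 178241614981) (nat_lit 76) (nat_lit 160567150018) (nat_lit 1) (nat_lit 4) (nat_lit 2) (nat_lit 5) (nat_lit 2) (nat_lit 4) (nat_lit 314) (nat_lit 241) (nat_lit 165)) (XT.lf (nat_lit 0) (nat_lit 85923986670) (nat_lit 76) (nat_lit 185822567746) (nat_lit 76) (nat_lit 168144317827) (nat_lit 1) (nat_lit 4) (nat_lit 2) (nat_lit 5) (nat_lit 2) (nat_lit 4) (nat_lit 315)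 (nat_lit 241) (nat_lit 164)))) (XT.nd (nat_lit 78) (nat_lit 0) (nat_lit 0) (XT.lf (nat_lit 0) (nat_lit 104234927016) (nat_lit 76) (nat_lit 194012148072) (nat_lit 76) (nat_lit 176330393564) (nat_lit 1) (nat_lit 4) (nat_lit 2) (nat_lit 5) (nat_lit 2) (nat_lit 4) (nat_lit 316) (nat_lit 241) (nat_lit 163)) (XT.nd (nat_lit 78) (nat_lit 0) (nat_lit 0) (XT.lf (nat_lit 0) (nat_lit 124006409848) (nat_lit 76) (nat_lit 202858886805) (nat_lit 76) (nat_lit 185173887308) (nat_lit 1) (nat_lit 4) (nat_lit 2) (nat_lit 5) (nat_lit 2) (nat_lit 4) (nat_lit 317) (nat_lit 241) (nat_lit 162)) (XT.lf (nat_lit 0) (nat_lit 145355599508) (nat_lit 76) (nat_lit 212415209065) (nat_lit 76) (nat_lit 194727204948) (nat_lit 1) (nat_lit 4) (nat_lit 2) (nat_lit 5) (nat_lit 2) (nat_lit 4) (nat_lit 318) (nat_lit 241) (nat_lit 161)))))) (XT.nd (nat_lit 468) (nat_lit 0) (nat_lit 0) (XT.nd (nat_lit 234) (nat_lit 0) (nat_lit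 0) (XT.nd (nat_lit 78) (nat_lit 0) (nat_lit 0) (XT.lf (nat_lit 0) (nat_lit 168409009714) (nat_lit 76) (nat_lit 222737744909) (nat_lit 76) (nat_lit 205046958736) (nat_lit 1) (nat_lit 4) (nat_lit 2) (nat_lit 5) (nat_lit 2) (nat_lit 4) (nat_lit 319) (nat_lit 241) (nat_lit 160)) (XT.nd (nat_lit 78) (nat_lit 0) (nat_lit 0) (XT.lf (nat_lit 0) (nat_lit 193303253267) (nat_lit 76) (nat_lit 233887664919) (nat_lit 76) (nat_lit 216194302769) (nat_lit 1) (nat_lit 4) (nat_lit 2) (nat_lit 5) (nat_lit 2) (nat_lit 4) (nat_lit 320) (nat_lit 241) (nat_lit 159)) (XT.lf (nat_lit 0) (nat_lit 220185851610) (nat_lit 76) (nat_lit 245931042696) (nat_lit 76) (nat_lit 228235295381) (nat_lit 1) (nat_lit 4) (nat_lit 2) (nat_lit 5) (nat_lit 2) (nat_lit 4) (nat_lit 321) (nat_lit 241) (nat_lit 158)))) (XT.nd (nat_lit 78) (nat_lit 0) (nat_lit 0) (XT.lf (nat_lit 0) (nat_lit 249216109029) (nat_lit 76) (nat_lit 258939246404)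 (nat_lit 76) (nat_lit 241241290604) (nat_lit 1) (nat_lit 4) (nat_lit 2) (nat_lit 5) (nat_lit 2) (nat_lit 4) (nat_lit 322) (nat_lit 241) (nat_lit 157)) (XT.nd (nat_lit 78) (nat_lit 0) (nat_lit 0) (XT.lf (nat_lit 0) (nat_lit 280566056679) (nat_lit 76) (nat_lit 272989361695) (nat_lit 76) (nat_lit 255289361001) (nat_lit 1) (nat_lit 4) (nat_lit 2) (nat_lit 5) (nat_lit 2) (nat_lit 4) (nat_lit 323) (nat_lit 241) (nat_lit 156)) (XT.lf (nat_lit 0) (nat_lit 314421472029) (nat_lit 76) (nat_lit 288164648511) (nat_lit 76) (nat_lit 270462754397) (nat_lit 1) (nat_lit 4) (nat_lit 2) (nat_lit 5) (nat_lit 2) (nat_lit 4) (nat_lit 324) (nat_lit 241) (nat_lit 155))))) (XT.nd (nat_lit 234) (nat_lit 0) (nat_lit 0) (XT.nd (nat_lit 78) (nat_lit 0) (nat_lit 0) (XT.lf (nat_lit 0) (nat_lit 350982979761) (nat_lit 76) (nat_lit 304555034479) (nat_lit 76) (nat_lit 286851387198) (nat_lit 1) (nat_lit 4) (nat_lit 2)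 (nat_lit 5) (nat_lit 2) (nat_lit 4) (nat_lit 325) (nat_lit 241) (nat_lit 154)) (XT.nd (nat_lit 78) (nat_lit 0) (nat_lit 0) (XT.lf (nat_lit 0) (nat_lit 390467240662) (nat_lit 76) (nat_lit 322257647810) (nat_lit 76) (nat_lit 304552377226) (nat_lit 1) (nat_lit 4) (nat_lit 2) (nat_lit 5) (nat_lit 2) (nat_lit 4) (nat_lit 326) (nat_lit 241) (nat_lit 153)) (XT.lf (nat_lit 0) (nat_lit 433108235538) (nat_lit 76) (nat_lit 341377392881) (nat_lit 76) (nat_lit 323670619239) (nat_lit 1) (nat_lit 4) (nat_lit 2) (nat_lit 5) (nat_lit 2) (nat_lit 4) (nat_lit 327) (nat_lit 241) (nat_lit 152)))) (XT.nd (nat_lit 156) (nat_lit 0) (nat_lit 0) (XT.nd (nat_lit 78) (nat_lit 0) (nat_lit 0) (XT.lf (nat_lit 0) (nat_lit 479158651765) (nat_lit 76) (nat_lit 362027571884) (nat_lit 76) (nat_lit 344319406522) (nat_lit 1) (nat_lit 4) (nat_lit 2) (nat_lit 5) (nat_lit 2) (nat_lit 4) (nat_lit 328) (nat_lit 241) (nat_lit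 151)) (XT.lf (nat_lit 0) (nat_lit 528891380699) (nat_lit 76) (nat_lit 384330556251) (nat_lit 76) (nat_lit 366621102259) (nat_lit 1) (nat_lit 4) (nat_lit 2) (nat_lit 5) (nat_lit 2) (nat_lit 4) (nat_lit 329) (nat_lit 241) (nat_lit 150))) (XT.nd (nat_lit 78) (nat_lit 0) (nat_lit 0) (XT.lf (nat_lit 0) (nat_lit 582601134808) (nat_lit 76) (nat_lit 408418511815) (nat_lit 76) (nat_lit 390707864646) (nat_lit 1) (nat_lit 4) (nat_lit 2) (nat_lit 5) (nat_lit 2) (nat_lit 4) (nat_lit 330) (nat_lit 241) (nat_lit 149)) (XT.lf (nat_lit 0) (nat_lit 640606194115) (nat_lit 76) (nat_lit 434434182015) (nat_lit 76) (nat_lit 416722430054) (nat_lit 1) (nat_lit 4) (nat_lit 2) (nat_lit 5) (nat_lit 2) (nat_lit 4) (nat_lit 331) (nat_lit 241) (nat_lit 148))))))) (XT.nd (nat_lit 30888) (nat_lit 0) (nat_lit 1596) (XT.nd (nat_lit 468) (nat_lit 0) (nat_lit 0) (XT.nd (nat_lit 234) (nat_lit 0) (nat_lit 0) (XT.nd (nat_lit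 78) (nat_lit 0) (nat_lit 0) (XT.lf (nat_lit 0) (nat_lit 703250292307) (nat_lit 76) (nat_lit 462531733788) (nat_lit 76) (nat_lit 444818958871) (nat_lit 1) (nat_lit 4) (nat_lit 2) (nat_lit 5) (nat_lit 2) (nat_lit 4) (nat_lit 332) (nat_lit 241) (nat_lit 147)) (XT.nd (nat_lit 78) (nat_lit 0) (nat_lit 0) (XT.lf (nat_lit 0) (nat_lit 770904653668) (nat_lit 76) (nat_lit 492877671142) (nat_lit 76) (nat_lit 475163949044) (nat_lit 1) (nat_lit 4) (nat_lit 2) (nat_lit 5) (nat_lit 2) (nat_lit 4) (nat_lit 333) (nat_lit 241) (nat_lit 146)) (XT.lf (nat_lit 0) (nat_lit 843970192932) (nat_lit 76) (nat_lit 525651821856) (nat_lit 76) (nat_lit 507937222738) (nat_lit 1) (nat_lit 4) (nat_lit 2) (nat_lit 5) (nat_lit 2) (nat_lit 4) (nat_lit 334) (nat_lit 241) (nat_lit 145)))) (XT.nd (nat_lit 78) (nat_lit 0) (nat_lit 0) (XT.lf (nat_lit 0) (nat_lit 922879891074) (nat_lit 76) (nat_lit 561048403118) (nat_lit 76)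 (nat_lit 543332991944) (nat_lit 1) (nat_lit 4) (nat_lit 2) (nat_lit 5) (nat_lit 2) (nat_lit 4) (nat_lit 335) (nat_lit 241) (nat_lit 144)) (XT.nd (nat_lit 78) (nat_lit 0) (nat_lit 0) (XT.lf (nat_lit 0) (nat_lit 1008101361118) (nat_lit 76) (nat_lit 599277172448) (nat_lit 76) (nat_lit 581561009370) (nat_lit 1) (nat_lit 4) (nat_lit 2) (nat_lit 5) (nat_lit 2) (nat_lit 4) (nat_lit 336) (nat_lit 241) (nat_lit 143)) (XT.lf (nat_lit 0) (nat_lit 1100139619183) (nat_lit 76) (nat_lit 640564670699) (nat_lit 76) (nat_lit 622847811416) (nat_lit 1) (nat_lit 4) (nat_lit 2) (nat_lit 5) (nat_lit 2) (nat_lit 4) (nat_lit 337) (nat_lit 241) (nat_lit 142))))) (XT.nd (nat_lit 30186) (nat_lit 0) (nat_lit 3724) (XT.nd (nat_lit 30030) (nat_lit 0) (nat_lit 3952) (XT.lf (nat_lit 0) (nat_lit 1199540077170) (nat_lit 76) (nat_lit 685155564530) (nat_lit 76) (nat_lit 667438060610) (nat_lit 1) (nat_lit 4) (nat_lit 2)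 (nat_lit 5) (nat_lit 2) (nat_lit 4) (nat_lit 338) (nat_lit 241) (nat_lit 141)) (XT.nd (nat_lit 78) (nat_lit 0) (nat_lit 0) (XT.lf (nat_lit 0) (nat_lit 1843172280) (nat_lit 228) (nat_lit 718416491) (nat_lit 228) (nat_lit 718416491) (nat_lit 53) (nat_lit 3) (nat_lit 56) (nat_lit 3) (nat_lit 56) (nat_lit 5) (nat_lit 242) (nat_lit 242) (nat_lit 236)) (XT.lf (nat_lit 76) (nat_lit 1513038547) (nat_lit 0) (nat_lit 4461248203) (nat_lit 228) (nat_lit 656878249) (nat_lit 54) (nat_lit 5) (nat_lit 53) (nat_lit 3) (nat_lit 56) (nat_lit 5) (nat_lit 243) (nat_lit 242) (nat_lit 235)))) (XT.nd (nat_lit 78) (nat_lit 0) (nat_lit 0) (XT.lf (nat_lit 0) (nat_lit 1469794895) (nat_lit 228) (nat_lit 2101255564) (nat_lit 304) (nat_lit 3149916527) (nat_lit 50) (nat_lit 5) (nat_lit 53) (nat_lit 3) (nat_lit 54) (nat_lit 5) (nat_lit 244) (nat_lit 242) (nat_lit 234)) (XT.nd (nat_lit 78) (nat_lit 0) (nat_lit 0) (XT.lf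 (nat_lit 76) (nat_lit 1069126970) (nat_lit 0) (nat_lit 2483199751) (nat_lit 304) (nat_lit 3280280497) (nat_lit 51) (nat_lit 5) (nat_lit 50) (nat_lit 5) (nat_lit 54) (nat_lit 5) (nat_lit 245) (nat_lit 242) (nat_lit 233)) (XT.lf (nat_lit 76) (nat_lit 4491527842) (nat_lit 0) (nat_lit 1175121421) (nat_lit 304) (nat_lit 1298903325) (nat_lit 51) (nat_lit 5) (nat_lit 50) (nat_lit 5) (nat_lit 54) (nat_lit 5) (nat_lit 246) (nat_lit 242) (nat_lit 232)))))) (XT.nd (nat_lit 468) (nat_lit 1140) (nat_lit 0) (XT.nd (nat_lit 234) (nat_lit 456) (nat_lit 0) (XT.nd (nat_lit 78) (nat_lit 304) (nat_lit 0) (XT.lf (nat_lit 0) (nat_lit 646864016) (nat_lit 304) (nat_lit 6145614589) (nat_lit 76) (nat_lit 328563263) (nat_lit 47) (nat_lit 5) (nat_lit 51) (nat_lit 5) (nat_lit 48) (nat_lit 5) (nat_lit 247) (nat_lit 242) (nat_lit 231)) (XT.nd (nat_lit 78) (nat_lit 304) (nat_lit 0) (XT.lf (nat_lit 0) (nat_lit 2606023381)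 (nat_lit 304) (nat_lit 2644522042) (nat_lit 76) (nat_lit 2042754815) (nat_lit 47) (nat_lit 5) (nat_lit 51) (nat_lit 5) (nat_lit 48) (nat_lit 5) (nat_lit 248) (nat_lit 242) (nat_lit 230)) (XT.lf (nat_lit 0) (nat_lit 1063486162) (nat_lit 304) (nat_lit 3524729631) (nat_lit 380) (nat_lit 2902987405) (nat_lit 43) (nat_lit 5) (nat_lit 47) (nat_lit 5) (nat_lit 48) (nat_lit 5) (nat_lit 249) (nat_lit 242) (nat_lit 229)))) (XT.nd (nat_lit 78) (nat_lit 456) (nat_lit 0) (XT.lf (nat_lit 0) (nat_lit 5095358987) (nat_lit 304) (nat_lit 1555489929) (nat_lit 380) (nat_lit 1061421682) (nat_lit 43) (nat_lit 5) (nat_lit 47) (nat_lit 5) (nat_lit 48) (nat_lit 5) (nat_lit 250) (nat_lit 242) (nat_lit 228)) (XT.nd (nat_lit 78) (nat_lit 0) (nat_lit 0) (XT.lf (nat_lit 0) (nat_lit 787205107) (nat_lit 456) (nat_lit 6549459828) (nat_lit 76) (nat_lit 621010627) (nat_lit 37) (nat_lit 5) (nat_lit 43) (nat_lit 5) (nat_lit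 38) (nat_lit 5) (nat_lit 251) (nat_lit 242) (nat_lit 227)) (XT.lf (nat_lit 0) (nat_lit 2704507358) (nat_lit 456) (nat_lit 2514233565) (nat_lit 76) (nat_lit 3004374549) (nat_lit 37) (nat_lit 5) (nat_lit 43) (nat_lit 5) (nat_lit 38) (nat_lit 5) (nat_lit 252) (nat_lit 242) (nat_lit 226))))) (XT.nd (nat_lit 234) (nat_lit 456) (nat_lit 0) (XT.nd (nat_lit 78) (nat_lit 228) (nat_lit 0) (XT.lf (nat_lit 0) (nat_lit 1812640221) (nat_lit 456) (nat_lit 2880515992) (nat_lit 532) (nat_lit 3823992251) (nat_lit 31) (nat_lit 5) (nat_lit 37) (nat_lit 5) (nat_lit 38) (nat_lit 5) (nat_lit 253) (nat_lit 242) (nat_lit 225)) (XT.nd (nat_lit 78) (nat_lit 228) (nat_lit 0) (XT.lf (nat_lit 0) (nat_lit 6509889135) (nat_lit 456) (nat_lit 280569656) (nat_lit 532) (nat_lit 2049016362) (nat_lit 31) (nat_lit 5) (nat_lit 37) (nat_lit 5) (nat_lit 38) (nat_lit 5) (nat_lit 254) (nat_lit 242) (nat_lit 224)) (XT.lf (nat_lit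 0) (nat_lit 2331704472) (nat_lit 228) (nat_lit 6730357872) (nat_lit 304) (nat_lit 125685775) (nat_lit 28) (nat_lit 5) (nat_lit 31) (nat_lit 5) (nat_lit 32) (nat_lit 5) (nat_lit 255) (nat_lit 242) (nat_lit 223)))) (XT.nd (nat_lit 156) (nat_lit 228) (nat_lit 0) (XT.nd (nat_lit 78) (nat_lit 152) (nat_lit 0) (XT.lf (nat_lit 0) (nat_lit 1818228406) (nat_lit 304) (nat_lit 2239024886) (nat_lit 76) (nat_lit 5506312009) (nat_lit 27) (nat_lit 5) (nat_lit 31) (nat_lit 5) (nat_lit 28) (nat_lit 5) (nat_lit 256) (nat_lit 242) (nat_lit 222)) (XT.lf (nat_lit 0) (nat_lit 2768951695) (nat_lit 152) (nat_lit 1108231805) (nat_lit 228) (nat_lit 6095238732) (nat_lit 25) (nat_lit 5) (nat_lit 27) (nat_lit 5) (nat_lit 28) (nat_lit 5) (nat_lit 257) (nat_lit 242) (nat_lit 221))) (XT.nd (nat_lit 78) (nat_lit 228) (nat_lit 0) (XT.lf (nat_lit 0) (nat_lit 6117730216) (nat_lit 228) (nat_lit 2274274260) (nat_lit 76)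 (nat_lit 2021134134) (nat_lit 25) (nat_lit 5) (nat_lit 28) (nat_lit 5) (nat_lit 26) (nat_lit 5) (nat_lit 258) (nat_lit 242) (nat_lit 220)) (XT.lf (nat_lit 0) (nat_lit 3063975761) (nat_lit 228) (nat_lit 5487242214) (nat_lit 304) (nat_lit 2337262346) (nat_lit 22) (nat_lit 5) (nat_lit 25) (nat_lit 5) (nat_lit 26) (nat_lit 5) (nat_lit 259) (nat_lit 242) (nat_lit 219))))))))
noncomputable def xc54 : XT := (XT.nd (nat_lit 1950) (nat_lit 228) (nat_lit 0) (XT.nd (nat_lit 936) (nat_lit 532) (nat_lit 0) (XT.nd (nat_lit 468) (nat_lit 304) (nat_lit 0) (XT.nd (nat_lit 234) (nat_lit 228) (nat_lit 0) (XT.nd (nat_lit 78) (nat_lit 228) (nat_lit 0) (XT.lf (nat_lit 0) (nat_lit 8851635550) (nat_lit 228) (nat_lit 2305158197) (nat_lit 304) (nat_lit 247292353) (nat_lit 22) (nat_lit 5) (nat_lit 25) (nat_lit 5) (nat_lit 26) (nat_lit 5) (nat_lit 260) (nat_lit 242) (nat_lit 218)) (XT.nd (nat_lit 78) (nat_lit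 0) (nat_lit 0) (XT.lf (nat_lit 0) (nat_lit 1933987529) (nat_lit 228) (nat_lit 8840996169) (nat_lit 76) (nat_lit 1180485472) (nat_lit 19) (nat_lit 5) (nat_lit 22) (nat_lit 5) (nat_lit 20) (nat_lit 5) (nat_lit 261) (nat_lit 242) (nat_lit 217)) (XT.lf (nat_lit 0) (nat_lit 4329966522) (nat_lit 228) (nat_lit 3340606285) (nat_lit 76) (nat_lit 4875932583) (nat_lit 19) (nat_lit 5) (nat_lit 22) (nat_lit 5) (nat_lit 20) (nat_lit 5) (nat_lit 262) (nat_lit 242) (nat_lit 216)))) (XT.nd (nat_lit 78) (nat_lit 76) (nat_lit 0) (XT.lf (nat_lit 0) (nat_lit 2632399035) (nat_lit 152) (nat_lit 4276387281) (nat_lit 228) (nat_lit 6277060850) (nat_lit 17) (nat_lit 5) (nat_lit 19) (nat_lit 5) (nat_lit 20) (nat_lit 5) (nat_lit 263) (nat_lit 242) (nat_lit 215)) (XT.nd (nat_lit 78) (nat_lit 76) (nat_lit 0) (XT.lf (nat_lit 0) (nat_lit 9176637841) (nat_lit 152) (nat_lit 539486381) (nat_lit 228) (nat_lit 4158727337)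 (nat_lit 17) (nat_lit 5) (nat_lit 19) (nat_lit 5) (nat_lit 20) (nat_lit 5) (nat_lit 264) (nat_lit 242) (nat_lit 214)) (XT.lf (nat_lit 0) (nat_lit 1523340619) (nat_lit 76) (nat_lit 11280815869) (nat_lit 152) (nat_lit 1810601856) (nat_lit 16) (nat_lit 5) (nat_lit 17) (nat_lit 5) (nat_lit 18) (nat_lit 4) (nat_lit 265) (nat_lit 242) (nat_lit 213))))) (XT.nd (nat_lit 234) (nat_lit 76) (nat_lit 0) (XT.nd (nat_lit 78) (nat_lit 152) (nat_lit 0) (XT.lf (nat_lit 0) (nat_lit 771005940) (nat_lit 152) (nat_lit 7023990508) (nat_lit 76) (nat_lit 7611144150) (nat_lit 15) (nat_lit 5) (nat_lit 17) (nat_lit 5) (nat_lit 16) (nat_lit 5) (nat_lit 266) (nat_lit 242) (nat_lit 212)) (XT.nd (nat_lit 78) (nat_lit 152) (nat_lit 0) (XT.lf (nat_lit 0) (nat_lit 3402167024) (nat_lit 152) (nat_lit 606555021) (nat_lit 76) (nat_lit 12253296395) (nat_lit 15) (nat_lit 5) (nat_lit 17) (nat_lit 5) (nat_lit 16) (nat_lit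 5) (nat_lit 267) (nat_lit 242) (nat_lit 211)) (XT.lf (nat_lit 0) (nat_lit 6352473646) (nat_lit 228) (nat_lit 10612513850) (nat_lit 76) (nat_lit 212885719) (nat_lit 13) (nat_lit 5) (nat_lit 16) (nat_lit 5) (nat_lit 14) (nat_lit 4) (nat_lit 268) (nat_lit 242) (nat_lit 210)))) (XT.nd (nat_lit 78) (nat_lit 76) (nat_lit 0) (XT.lf (nat_lit 0) (nat_lit 9606656234) (nat_lit 228) (nat_lit 4008184934) (nat_lit 76) (nat_lit 4546911274) (nat_lit 13) (nat_lit 5) (nat_lit 16) (nat_lit 5) (nat_lit 14) (nat_lit 4) (nat_lit 269) (nat_lit 242) (nat_lit 209)) (XT.nd (nat_lit 78) (nat_lit 0) (nat_lit 0) (XT.lf (nat_lit 0) (nat_lit 3207649818) (nat_lit 76) (nat_lit 9941328530) (nat_lit 152) (nat_lit 6073309805) (nat_lit 12) (nat_lit 5) (nat_lit 13) (nat_lit 5) (nat_lit 14) (nat_lit 4) (nat_lit 270) (nat_lit 242) (nat_lit 208)) (XT.lf (nat_lit 0) (nat_lit 11153357234) (nat_lit 76) (nat_lit 5883423490) (nat_lit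 152) (nat_lit 3326076347) (nat_lit 12) (nat_lit 5) (nat_lit 13) (nat_lit 5) (nat_lit 14) (nat_lit 4) (nat_lit 271) (nat_lit 242) (nat_lit 207)))))) (XT.nd (nat_lit 468) (nat_lit 228) (nat_lit 0) (XT.nd (nat_lit 234) (nat_lit 76) (nat_lit 0) (XT.nd (nat_lit 78) (nat_lit 228) (nat_lit 0) (XT.lf (nat_lit 0) (nat_lit 19664959072) (nat_lit 76) (nat_lit 1526670080) (nat_lit 152) (nat_lit 406706812) (nat_lit 12) (nat_lit 5) (nat_lit 13) (nat_lit 5) (nat_lit 14) (nat_lit 4) (nat_lit 272) (nat_lit 242) (nat_lit 206)) (XT.nd (nat_lit 78) (nat_lit 0) (nat_lit 0) (XT.lf (nat_lit 0) (nat_lit 2794926573) (nat_lit 228) (nat_lit 16903633337) (nat_lit 76) (nat_lit 3214047617) (nat_lit 9) (nat_lit 5) (nat_lit 12) (nat_lit 5) (nat_lit 10) (nat_lit 4) (nat_lit 273) (nat_lit 242) (nat_lit 205)) (XT.lf (nat_lit 0) (nat_lit 6283637335) (nat_lit 228) (nat_lit 9750696480) (nat_lit 76) (nat_lit 8292724407)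 (nat_lit 9) (nat_lit 5) (nat_lit 12) (nat_lit 5) (nat_lit 10) (nat_lit 4) (nat_lit 274) (nat_lit 242) (nat_lit 204)))) (XT.nd (nat_lit 78) (nat_lit 76) (nat_lit 0) (XT.lf (nat_lit 0) (nat_lit 10013510401) (nat_lit 228) (nat_lit 2088469324) (nat_lit 76) (nat_lit 13755827482) (nat_lit 9) (nat_lit 5) (nat_lit 12) (nat_lit 5) (nat_lit 10) (nat_lit 4) (nat_lit 275) (nat_lit 242) (nat_lit 203)) (XT.nd (nat_lit 78) (nat_lit 0) (nat_lit 0) (XT.lf (nat_lit 0) (nat_lit 6451167443) (nat_lit 76) (nat_lit 7710632011) (nat_lit 152) (nat_lit 13339714074) (nat_lit 8) (nat_lit 5) (nat_lit 9) (nat_lit 5) (nat_lit 10) (nat_lit 4) (nat_lit 276) (nat_lit 242) (nat_lit 202)) (XT.lf (nat_lit 0) (nat_lit 15735941668) (nat_lit 76) (nat_lit 2929223450) (nat_lit 152) (nat_lit 10609786295) (nat_lit 8) (nat_lit 5) (nat_lit 9) (nat_lit 5) (nat_lit 10) (nat_lit 4) (nat_lit 277) (nat_lit 242) (nat_lit 201))))) (XT.nd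 (nat_lit 234) (nat_lit 152) (nat_lit 0) (XT.nd (nat_lit 78) (nat_lit 76) (nat_lit 0) (XT.lf (nat_lit 0) (nat_lit 23550655557) (nat_lit 152) (nat_lit 5535194992) (nat_lit 0) (nat_lit 2102750654) (nat_lit 8) (nat_lit 5) (nat_lit 10) (nat_lit 4) (nat_lit 8) (nat_lit 4) (nat_lit 278) (nat_lit 242) (nat_lit 200)) (XT.nd (nat_lit 78) (nat_lit 0) (nat_lit 0) (XT.lf (nat_lit 0) (nat_lit 3139245707) (nat_lit 76) (nat_lit 25809795316) (nat_lit 76) (nat_lit 4296616480) (nat_lit 7) (nat_lit 4) (nat_lit 8) (nat_lit 5) (nat_lit 8) (nat_lit 4) (nat_lit 279) (nat_lit 242) (nat_lit 199)) (XT.lf (nat_lit 0) (nat_lit 12773081671) (nat_lit 76) (nat_lit 22129031103) (nat_lit 76) (nat_lit 555413441) (nat_lit 7) (nat_lit 4) (nat_lit 8) (nat_lit 5) (nat_lit 8) (nat_lit 4) (nat_lit 280) (nat_lit 242) (nat_lit 198)))) (XT.nd (nat_lit 156) (nat_lit 76) (nat_lit 0) (XT.nd (nat_lit 78) (nat_lit 0) (nat_lit 0)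 (XT.lf (nat_lit 0) (nat_lit 3283583818) (nat_lit 152) (nat_lit 14799725196) (nat_lit 76) (nat_lit 19758565917) (nat_lit 6) (nat_lit 5) (nat_lit 8) (nat_lit 5) (nat_lit 7) (nat_lit 4) (nat_lit 281) (nat_lit 242) (nat_lit 197)) (XT.lf (nat_lit 0) (nat_lit 7374542333) (nat_lit 152) (nat_lit 6342348036) (nat_lit 76) (nat_lit 26700997274) (nat_lit 6) (nat_lit 5) (nat_lit 8) (nat_lit 5) (nat_lit 7) (nat_lit 4) (nat_lit 282) (nat_lit 242) (nat_lit 196))) (XT.nd (nat_lit 78) (nat_lit 0) (nat_lit 0) (XT.lf (nat_lit 0) (nat_lit 2896033769) (nat_lit 76) (nat_lit 8943104763) (nat_lit 152) (nat_lit 31357187722) (nat_lit 5) (nat_lit 5) (nat_lit 6) (nat_lit 5) (nat_lit 7) (nat_lit 4) (nat_lit 283) (nat_lit 242) (nat_lit 195)) (XT.lf (nat_lit 0) (nat_lit 13194748433) (nat_lit 76) (nat_lit 3617053082) (nat_lit 152) (nat_lit 29373216290) (nat_lit 5) (nat_lit 5) (nat_lit 6) (nat_lit 5) (nat_lit 7) (nat_lit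 4) (nat_lit 284) (nat_lit 242) (nat_lit 194))))))) (XT.nd (nat_lit 936) (nat_lit 0) (nat_lit 0) (XT.nd (nat_lit 468) (nat_lit 152) (nat_lit 0) (XT.nd (nat_lit 234) (nat_lit 76) (nat_lit 0) (XT.nd (nat_lit 78) (nat_lit 0) (nat_lit 0) (XT.lf (nat_lit 0) (nat_lit 22212405135) (nat_lit 152) (nat_lit 25184641750) (nat_lit 0) (nat_lit 2013393681) (nat_lit 5) (nat_lit 5) (nat_lit 7) (nat_lit 4) (nat_lit 5) (nat_lit 4) (nat_lit 285) (nat_lit 242) (nat_lit 193)) (XT.nd (nat_lit 78) (nat_lit 0) (nat_lit 0) (XT.lf (nat_lit 0) (nat_lit 28119357219) (nat_lit 152) (nat_lit 16883558300) (nat_lit 0) (nat_lit 7885080290) (nat_lit 5) (nat_lit 5) (nat_lit 7) (nat_lit 4) (nat_lit 5) (nat_lit 4) (nat_lit 286) (nat_lit 242) (nat_lit 192)) (XT.lf (nat_lit 0) (nat_lit 34480671717) (nat_lit 152) (nat_lit 7950837203) (nat_lit 0) (nat_lit 14213741571) (nat_lit 5) (nat_lit 5) (nat_lit 7) (nat_lit 4) (nat_lit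 5) (nat_lit 4) (nat_lit 287) (nat_lit 242) (nat_lit 191)))) (XT.nd (nat_lit 78) (nat_lit 0) (nat_lit 0) (XT.lf (nat_lit 0) (nat_lit 1754208813) (nat_lit 76) (nat_lit 39622025256) (nat_lit 76) (nat_lit 19324860649) (nat_lit 4) (nat_lit 4) (nat_lit 5) (nat_lit 5) (nat_lit 5) (nat_lit 4) (nat_lit 288) (nat_lit 242) (nat_lit 190)) (XT.nd (nat_lit 78) (nat_lit 0) (nat_lit 0) (XT.lf (nat_lit 0) (nat_lit 12658544914) (nat_lit 76) (nat_lit 36365983965) (nat_lit 76) (nat_lit 16040824488) (nat_lit 4) (nat_lit 4) (nat_lit 5) (nat_lit 5) (nat_lit 5) (nat_lit 4) (nat_lit 289) (nat_lit 242) (nat_lit 189)) (XT.lf (nat_lit 0) (nat_lit 24408112389) (nat_lit 76) (nat_lit 32861479967) (nat_lit 76) (nat_lit 12510399313) (nat_lit 4) (nat_lit 4) (nat_lit 5) (nat_lit 5) (nat_lit 5) (nat_lit 4) (nat_lit 290) (nat_lit 242) (nat_lit 188))))) (XT.nd (nat_lit 234) (nat_lit 152) (nat_lit 0) (XT.nd (nat_lit 78)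 (nat_lit 0) (nat_lit 0) (XT.lf (nat_lit 0) (nat_lit 37072538305) (nat_lit 76) (nat_lit 29087745831) (nat_lit 76) (nat_lit 8712664088) (nat_lit 4) (nat_lit 4) (nat_lit 5) (nat_lit 5) (nat_lit 5) (nat_lit 4) (nat_lit 291) (nat_lit 242) (nat_lit 187)) (XT.nd (nat_lit 78) (nat_lit 0) (nat_lit 0) (XT.lf (nat_lit 0) (nat_lit 50726871112) (nat_lit 76) (nat_lit 25022418688) (nat_lit 76) (nat_lit 4625113713) (nat_lit 4) (nat_lit 4) (nat_lit 5) (nat_lit 5) (nat_lit 5) (nat_lit 4) (nat_lit 292) (nat_lit 242) (nat_lit 186)) (XT.lf (nat_lit 0) (nat_lit 65452025376) (nat_lit 76) (nat_lit 20641407710) (nat_lit 76) (nat_lit 223525670) (nat_lit 4) (nat_lit 4) (nat_lit 5) (nat_lit 5) (nat_lit 5) (nat_lit 4) (nat_lit 293) (nat_lit 242) (nat_lit 185)))) (XT.nd (nat_lit 78) (nat_lit 76) (nat_lit 0) (XT.lf (nat_lit 0) (nat_lit 4292165689) (nat_lit 152) (nat_lit 11509230245) (nat_lit 76) (nat_lit 76925740163)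 (nat_lit 3) (nat_lit 5) (nat_lit 5) (nat_lit 5) (nat_lit 4) (nat_lit 4) (nat_lit 294) (nat_lit 242) (nat_lit 184)) (XT.nd (nat_lit 78) (nat_lit 76) (nat_lit 0) (XT.lf (nat_lit 0) (nat_lit 9146475696) (nat_lit 152) (nat_lit 1429906948) (nat_lit 76) (nat_lit 89074145119) (nat_lit 3) (nat_lit 5) (nat_lit 5) (nat_lit 5) (nat_lit 4) (nat_lit 4) (nat_lit 295) (nat_lit 242) (nat_lit 183)) (XT.lf (nat_lit 0) (nat_lit 9935137445) (nat_lit 76) (nat_lit 4683155141) (nat_lit 152) (nat_lit 92491183513) (nat_lit 2) (nat_lit 5) (nat_lit 3) (nat_lit 5) (nat_lit 4) (nat_lit 4) (nat_lit 296) (nat_lit 242) (nat_lit 182)))))) (XT.nd (nat_lit 468) (nat_lit 0) (nat_lit 0) (XT.nd (nat_lit 234) (nat_lit 0) (nat_lit 0) (XT.nd (nat_lit 78) (nat_lit 0) (nat_lit 0) (XT.lf (nat_lit 0) (nat_lit 20598755040) (nat_lit 152) (nat_lit 92930526903) (nat_lit 0) (nat_lit 1630203288) (nat_lit 2) (nat_lit 5) (nat_lit 4)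 (nat_lit 4) (nat_lit 2) (nat_lit 4) (nat_lit 297) (nat_lit 242) (nat_lit 181)) (XT.nd (nat_lit 78) (nat_lit 0) (nat_lit 0) (XT.lf (nat_lit 0) (nat_lit 27170357557) (nat_lit 152) (nat_lit 88485298223) (nat_lit 0) (nat_lit 8188838763) (nat_lit 2) (nat_lit 5) (nat_lit 4) (nat_lit 4) (nat_lit 2) (nat_lit 4) (nat_lit 298) (nat_lit 242) (nat_lit 180)) (XT.lf (nat_lit 0) (nat_lit 34259412973) (nat_lit 152) (nat_lit 83699680523) (nat_lit 0) (nat_lit 15265887659) (nat_lit 2) (nat_lit 5) (nat_lit 4) (nat_lit 4) (nat_lit 2) (nat_lit 4) (nat_lit 299) (nat_lit 242) (nat_lit 179)))) (XT.nd (nat_lit 78) (nat_lit 0) (nat_lit 0) (XT.lf (nat_lit 0) (nat_lit 41907930504) (nat_lit 152) (nat_lit 78545314587) (nat_lit 0) (nat_lit 22903288041) (nat_lit 2) (nat_lit 5) (nat_lit 4) (nat_lit 4) (nat_lit 2) (nat_lit 4) (nat_lit 300) (nat_lit 242) (nat_lit 178)) (XT.nd (nat_lit 78) (nat_lit 0) (nat_lit 0) (XT.lf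 (nat_lit 0) (nat_lit 50161234699) (nat_lit 152) (nat_lit 72991656026) (nat_lit 0) (nat_lit 31146298581) (nat_lit 2) (nat_lit 5) (nat_lit 4) (nat_lit 4) (nat_lit 2) (nat_lit 4) (nat_lit 301) (nat_lit 242) (nat_lit 177)) (XT.lf (nat_lit 0) (nat_lit 59068234028) (nat_lit 152) (nat_lit 67005794268) (nat_lit 0) (nat_lit 40043766747) (nat_lit 2) (nat_lit 5) (nat_lit 4) (nat_lit 4) (nat_lit 2) (nat_lit 4) (nat_lit 302) (nat_lit 242) (nat_lit 176))))) (XT.nd (nat_lit 234) (nat_lit 0) (nat_lit 0) (XT.nd (nat_lit 78) (nat_lit 0) (nat_lit 0) (XT.lf (nat_lit 0) (nat_lit 68681710709) (nat_lit 152) (nat_lit 60552257543) (nat_lit 0) (nat_lit 49648418277) (nat_lit 2) (nat_lit 5) (nat_lit 4) (nat_lit 4) (nat_lit 2) (nat_lit 4) (nat_lit 303) (nat_lit 242) (nat_lit 175)) (XT.nd (nat_lit 78) (nat_lit 0) (nat_lit 0) (XT.lf (nat_lit 0) (nat_lit 79058633492) (nat_lit 152) (nat_lit 53592802667) (nat_lit 0)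 (nat_lit 60017169624) (nat_lit 2) (nat_lit 5) (nat_lit 4) (nat_lit 4) (nat_lit 2) (nat_lit 4) (nat_lit 304) (nat_lit 242) (nat_lit 174)) (XT.lf (nat_lit 0) (nat_lit 90260495253) (nat_lit 152) (nat_lit 46086188428) (nat_lit 0) (nat_lit 71211465240) (nat_lit 2) (nat_lit 5) (nat_lit 4) (nat_lit 4) (nat_lit 2) (nat_lit 4) (nat_lit 305) (nat_lit 242) (nat_lit 173)))) (XT.nd (nat_lit 156) (nat_lit 0) (nat_lit 0) (XT.nd (nat_lit 78) (nat_lit 0) (nat_lit 0) (XT.lf (nat_lit 0) (nat_lit 102353677395) (nat_lit 152) (nat_lit 37987931186) (nat_lit 0) (nat_lit 83297641693) (nat_lit 2) (nat_lit 5) (nat_lit 4) (nat_lit 4) (nat_lit 2) (nat_lit 4) (nat_lit 306) (nat_lit 242) (nat_lit 172)) (XT.lf (nat_lit 0) (nat_lit 115409843220) (nat_lit 152) (nat_lit 29250041268) (nat_lit 0) (nat_lit 96347320769) (nat_lit 2) (nat_lit 5) (nat_lit 4) (nat_lit 4) (nat_lit 2) (nat_lit 4) (nat_lit 307) (nat_lit 242) (nat_lit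 171))) (XT.nd (nat_lit 78) (nat_lit 0) (nat_lit 0) (XT.lf (nat_lit 0) (nat_lit 129506362599) (nat_lit 152) (nat_lit 19820738586) (nat_lit 0) (nat_lit 110437833899) (nat_lit 2) (nat_lit 5) (nat_lit 4) (nat_lit 4) (nat_lit 2) (nat_lit 4) (nat_lit 308) (nat_lit 242) (nat_lit 170)) (XT.lf (nat_lit 0) (nat_lit 144726770462) (nat_lit 152) (nat_lit 9644145789) (nat_lit 0) (nat_lit 125652680420) (nat_lit 2) (nat_lit 5) (nat_lit 4) (nat_lit 4) (nat_lit 2) (nat_lit 4) (nat_lit 309) (nat_lit 242) (nat_lit 169))))))))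
noncomputable def xc55 : XT := (XT.nd (nat_lit 1950) (nat_lit 0) (nat_lit 0) (XT.nd (nat_lit 936) (nat_lit 0) (nat_lit 0) (XT.nd (nat_lit 468) (nat_lit 0) (nat_lit 0) (XT.nd (nat_lit 234) (nat_lit 0) (nat_lit 0) (XT.nd (nat_lit 78) (nat_lit 0) (nat_lit 0) (XT.lf (nat_lit 0) (nat_lit 1410607136) (nat_lit 76) (nat_lit 159784579818) (nat_lit 76) (nat_lit 140705340385) (nat_lit 1) (nat_lit 4) (nat_lit 2) (nat_lit 5) (nat_lit 2) (nat_lit 4) (nat_lit 310) (nat_lit 242) (nat_lit 168)) (XT.nd (nat_lit 78) (nat_lit 0) (nat_lit 0) (XT.lf (nat_lit 0) (nat_lit 13891845195) (nat_lit 76) (nat_lit 165349480263) (nat_lit 76) (nat_lit 146265472876) (nat_lit 1) (nat_lit 4) (nat_lit 2) (nat_lit 5) (nat_lit 2) (nat_lit 4) (nat_lit 311) (nat_lit 242) (nat_lit 167)) (XT.lf (nat_lit 0) (nat_lit 27365687652) (nat_lit 76) (nat_lit 171362282813) (nat_lit 76) (nat_lit 152273860653) (nat_lit 1) (nat_lit 4) (nat_lit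 2) (nat_lit 5) (nat_lit 2) (nat_lit 4) (nat_lit 312) (nat_lit 242) (nat_lit 166)))) (XT.nd (nat_lit 78) (nat_lit 0) (nat_lit 0) (XT.lf (nat_lit 0) (nat_lit 41911979499) (nat_lit 76) (nat_lit 177858618890) (nat_lit 76) (nat_lit 158766108977) (nat_lit 1) (nat_lit 4) (nat_lit 2) (nat_lit 5) (nat_lit 2) (nat_lit 4) (nat_lit 313) (nat_lit 242) (nat_lit 165)) (XT.nd (nat_lit 78) (nat_lit 0) (nat_lit 0) (XT.lf (nat_lit 0) (nat_lit 57616920983) (nat_lit 76) (nat_lit 184876985300) (nat_lit 76) (nat_lit 165780690431) (nat_lit 1) (nat_lit 4) (nat_lit 2) (nat_lit 5) (nat_lit 2) (nat_lit 4) (nat_lit 314) (nat_lit 242) (nat_lit 164)) (XT.lf (nat_lit 0) (nat_lit 74573578426) (nat_lit 76) (nat_lit 192458972363) (nat_lit 76) (nat_lit 173359172906) (nat_lit 1) (nat_lit 4) (nat_lit 2) (nat_lit 5) (nat_lit 2) (nat_lit 4) (nat_lit 315) (nat_lit 242) (nat_lit 163))))) (XT.nd (nat_lit 234) (nat_lit 0) (nat_lit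 0) (XT.nd (nat_lit 78) (nat_lit 0) (nat_lit 0) (XT.lf (nat_lit 0) (nat_lit 92882435723) (nat_lit 76) (nat_lit 200649510372) (nat_lit 76) (nat_lit 181546465926) (nat_lit 1) (nat_lit 4) (nat_lit 2) (nat_lit 5) (nat_lit 2) (nat_lit 4) (nat_lit 316) (nat_lit 242) (nat_lit 162)) (XT.nd (nat_lit 78) (nat_lit 0) (nat_lit 0) (XT.lf (nat_lit 0) (nat_lit 112651989806) (nat_lit 76) (nat_lit 209497135850) (nat_lit 76) (nat_lit 190391086783) (nat_lit 1) (nat_lit 4) (nat_lit 2) (nat_lit 5) (nat_lit 2) (nat_lit 4) (nat_lit 317) (nat_lit 242) (nat_lit 161)) (XT.lf (nat_lit 0) (nat_lit 133999393588) (nat_lit 76) (nat_lit 219054279169) (nat_lit 76) (nat_lit 199945448046) (nat_lit 1) (nat_lit 4) (nat_lit 2) (nat_lit 5) (nat_lit 2) (nat_lit 4) (nat_lit 318) (nat_lit 242) (nat_lit 160)))) (XT.nd (nat_lit 78) (nat_lit 0) (nat_lit 0) (XT.lf (nat_lit 0) (nat_lit 157051150203) (nat_lit 76) (nat_lit 229377575252)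 (nat_lit 76) (nat_lit 210266168153) (nat_lit 1) (nat_lit 4) (nat_lit 2) (nat_lit 5) (nat_lit 2) (nat_lit 4) (nat_lit 319) (nat_lit 242) (nat_lit 159)) (XT.nd (nat_lit 78) (nat_lit 0) (nat_lit 0) (XT.lf (nat_lit 0) (nat_lit 181943862653) (nat_lit 76) (nat_lit 240528199188) (nat_lit 76) (nat_lit 221414406924) (nat_lit 1) (nat_lit 4) (nat_lit 2) (nat_lit 5) (nat_lit 2) (nat_lit 4) (nat_lit 320) (nat_lit 242) (nat_lit 158)) (XT.lf (nat_lit 0) (nat_lit 208825043307) (nat_lit 76) (nat_lit 252572228749) (nat_lit 76) (nat_lit 233456227999) (nat_lit 1) (nat_lit 4) (nat_lit 2) (nat_lit 5) (nat_lit 2) (nat_lit 4) (nat_lit 321) (nat_lit 242) (nat_lit 157)))))) (XT.nd (nat_lit 468) (nat_lit 0) (nat_lit 0) (XT.nd (nat_lit 234) (nat_lit 0) (nat_lit 0) (XT.nd (nat_lit 78) (nat_lit 0) (nat_lit 0) (XT.lf (nat_lit 0) (nat_lit 237853988052) (nat_lit 76) (nat_lit 265581035960) (nat_lit 76) (nat_lit 246462990316)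 (nat_lit 1) (nat_lit 4) (nat_lit 2) (nat_lit 5) (nat_lit 2) (nat_lit 4) (nat_lit 322) (nat_lit 242) (nat_lit 156)) (XT.nd (nat_lit 78) (nat_lit 0) (nat_lit 0) (XT.lf (nat_lit 0) (nat_lit 269202720264) (nat_lit 76) (nat_lit 279631710050) (nat_lit 76) (nat_lit 260511770986) (nat_lit 1) (nat_lit 4) (nat_lit 2) (nat_lit 5) (nat_lit 2) (nat_lit 4) (nat_lit 323) (nat_lit 242) (nat_lit 155)) (XT.lf (nat_lit 0) (nat_lit 303057010207) (nat_lit 76) (nat_lit 294807514273) (nat_lit 76) (nat_lit 275685822042) (nat_lit 1) (nat_lit 4) (nat_lit 2) (nat_lit 5) (nat_lit 2) (nat_lit 4) (nat_lit 324) (nat_lit 242) (nat_lit 154)))) (XT.nd (nat_lit 78) (nat_lit 0) (nat_lit 0) (XT.lf (nat_lit 0) (nat_lit 339617475896) (nat_lit 76) (nat_lit 311198379320) (nat_lit 76) (nat_lit 292075063787) (nat_lit 1) (nat_lit 4) (nat_lit 2) (nat_lit 5) (nat_lit 2) (nat_lit 4) (nat_lit 325) (nat_lit 242) (nat_lit 153)) (XT.nd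 (nat_lit 78) (nat_lit 0) (nat_lit 0) (XT.lf (nat_lit 0) (nat_lit 379100771942) (nat_lit 76) (nat_lit 328901436244) (nat_lit 76) (nat_lit 309776617653) (nat_lit 1) (nat_lit 4) (nat_lit 2) (nat_lit 5) (nat_lit 2) (nat_lit 4) (nat_lit 326) (nat_lit 242) (nat_lit 152)) (XT.lf (nat_lit 0) (nat_lit 421740873434) (nat_lit 76) (nat_lit 348021592049) (nat_lit 76) (nat_lit 328895381738) (nat_lit 1) (nat_lit 4) (nat_lit 2) (nat_lit 5) (nat_lit 2) (nat_lit 4) (nat_lit 327) (nat_lit 242) (nat_lit 151))))) (XT.nd (nat_lit 234) (nat_lit 0) (nat_lit 0) (XT.nd (nat_lit 78) (nat_lit 0) (nat_lit 0) (XT.lf (nat_lit 0) (nat_lit 467790462454) (nat_lit 76) (nat_lit 368672151362) (nat_lit 76) (nat_lit 349544652420) (nat_lit 1) (nat_lit 4) (nat_lit 2) (nat_lit 5) (nat_lit 2) (nat_lit 4) (nat_lit 328) (nat_lit 242) (nat_lit 150)) (XT.nd (nat_lit 78) (nat_lit 0) (nat_lit 0) (XT.lf (nat_lit 0) (nat_lit 517522425455)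 (nat_lit 76) (nat_lit 390975487867) (nat_lit 76) (nat_lit 371846795749) (nat_lit 1) (nat_lit 4) (nat_lit 2) (nat_lit 5) (nat_lit 2) (nat_lit 4) (nat_lit 329) (nat_lit 242) (nat_lit 149)) (XT.lf (nat_lit 0) (nat_lit 571231470367) (nat_lit 76) (nat_lit 415063769484) (nat_lit 76) (nat_lit 395933972574) (nat_lit 1) (nat_lit 4) (nat_lit 2) (nat_lit 5) (nat_lit 2) (nat_lit 4) (nat_lit 330) (nat_lit 242) (nat_lit 148)))) (XT.nd (nat_lit 156) (nat_lit 0) (nat_lit 0) (XT.nd (nat_lit 78) (nat_lit 0) (nat_lit 0) (XT.lf (nat_lit 0) (nat_lit 629235873011) (nat_lit 76) (nat_lit 441079741587) (nat_lit 76) (nat_lit 421948921720) (nat_lit 1) (nat_lit 4) (nat_lit 2) (nat_lit 5) (nat_lit 2) (nat_lit 4) (nat_lit 331) (nat_lit 242) (nat_lit 147)) (XT.lf (nat_lit 0) (nat_lit 691879363181) (nat_lit 76) (nat_lit 469177572898) (nat_lit 76) (nat_lit 450045805850) (nat_lit 1) (nat_lit 4) (nat_lit 2) (nat_lit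 5) (nat_lit 2) (nat_lit 4) (nat_lit 332) (nat_lit 242) (nat_lit 146))) (XT.nd (nat_lit 78) (nat_lit 0) (nat_lit 0) (XT.lf (nat_lit 0) (nat_lit 759533161558) (nat_lit 76) (nat_lit 499523769084) (nat_lit 76) (nat_lit 480391125017) (nat_lit 1) (nat_lit 4) (nat_lit 2) (nat_lit 5) (nat_lit 2) (nat_lit 4) (nat_lit 333) (nat_lit 242) (nat_lit 145)) (XT.lf (nat_lit 0) (nat_lit 832598179542) (nat_lit 76) (nat_lit 532298159457) (nat_lit 76) (nat_lit 513164703334) (nat_lit 1) (nat_lit 4) (nat_lit 2) (nat_lit 5) (nat_lit 2) (nat_lit 4) (nat_lit 334) (nat_lit 242) (nat_lit 144))))))) (XT.nd (nat_lit 31044) (nat_lit 0) (nat_lit 1216) (XT.nd (nat_lit 30498) (nat_lit 0) (nat_lit 3116) (XT.nd (nat_lit 234) (nat_lit 0) (nat_lit 0) (XT.nd (nat_lit 78) (nat_lit 0) (nat_lit 0) (XT.lf (nat_lit 0) (nat_lit 911507395015) (nat_lit 76) (nat_lit 567694962627) (nat_lit 76) (nat_lit 548560754600) (nat_lit 1) (nat_lit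 4) (nat_lit 2) (nat_lit 5) (nat_lit 2) (nat_lit 4) (nat_lit 335) (nat_lit 242) (nat_lit 143)) (XT.nd (nat_lit 78) (nat_lit 0) (nat_lit 0) (XT.lf (nat_lit 0) (nat_lit 996728418145) (nat_lit 76) (nat_lit 605923937425) (nat_lit 76) (nat_lit 586789033192) (nat_lit 1) (nat_lit 4) (nat_lit 2) (nat_lit 5) (nat_lit 2) (nat_lit 4) (nat_lit 336) (nat_lit 242) (nat_lit 142)) (XT.lf (nat_lit 0) (nat_lit 1088766262401) (nat_lit 76) (nat_lit 647211625926) (nat_lit 76) (nat_lit 628076077057) (nat_lit 1) (nat_lit 4) (nat_lit 2) (nat_lit 5) (nat_lit 2) (nat_lit 4) (nat_lit 337) (nat_lit 242) (nat_lit 141)))) (XT.nd (nat_lit 30108) (nat_lit 0) (nat_lit 3724) (XT.lf (nat_lit 0) (nat_lit 1188166337231) (nat_lit 76) (nat_lit 691802695914) (nat_lit 76) (nat_lit 672666550159) (nat_lit 1) (nat_lit 4) (nat_lit 2) (nat_lit 5) (nat_lit 2) (nat_lit 4) (nat_lit 338) (nat_lit 242) (nat_lit 140)) (XT.nd (nat_lit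 78) (nat_lit 0) (nat_lit 0) (XT.lf (nat_lit 0) (nat_lit 334083468) (nat_lit 0) (nat_lit 334083468) (nat_lit 228) (nat_lit 2687759392) (nat_lit 50) (nat_lit 5) (nat_lit 50) (nat_lit 3) (nat_lit 53) (nat_lit 3) (nat_lit 243) (nat_lit 243) (nat_lit 234)) (XT.lf (nat_lit 0) (nat_lit 3315760949) (nat_lit 228) (nat_lit 3086282914) (nat_lit 304) (nat_lit 408322901) (nat_lit 50) (nat_lit 5) (nat_lit 53) (nat_lit 3) (nat_lit 54) (nat_lit 5) (nat_lit 244) (nat_lit 243) (nat_lit 233))))) (XT.nd (nat_lit 234) (nat_lit 304) (nat_lit 0) (XT.nd (nat_lit 78) (nat_lit 304) (nat_lit 0) (XT.lf (nat_lit 0) (nat_lit 5281546053) (nat_lit 228) (nat_lit 24696860) (nat_lit 304) (nat_lit 1625867750) (nat_lit 50) (nat_lit 5) (nat_lit 53) (nat_lit 3) (nat_lit 54) (nat_lit 5) (nat_lit 245) (nat_lit 243) (nat_lit 232)) (XT.nd (nat_lit 78) (nat_lit 0) (nat_lit 0) (XT.lf (nat_lit 0) (nat_lit 225139933) (nat_lit 304)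 (nat_lit 3735870681) (nat_lit 380) (nat_lit 3111193805) (nat_lit 46) (nat_lit 5) (nat_lit 50) (nat_lit 5) (nat_lit 51) (nat_lit 5) (nat_lit 246) (nat_lit 243) (nat_lit 231)) (XT.lf (nat_lit 0) (nat_lit 1992009408) (nat_lit 304) (nat_lit 412759075) (nat_lit 380) (nat_lit 4830146274) (nat_lit 46) (nat_lit 5) (nat_lit 50) (nat_lit 5) (nat_lit 51) (nat_lit 5) (nat_lit 247) (nat_lit 243) (nat_lit 230)))) (XT.nd (nat_lit 156) (nat_lit 304) (nat_lit 0) (XT.nd (nat_lit 78) (nat_lit 0) (nat_lit 76) (XT.lf (nat_lit 76) (nat_lit 3232273044) (nat_lit 0) (nat_lit 587903801) (nat_lit 380) (nat_lit 3598037148) (nat_lit 47) (nat_lit 5) (nat_lit 46) (nat_lit 5) (nat_lit 51) (nat_lit 5) (nat_lit 248) (nat_lit 243) (nat_lit 229)) (XT.lf (nat_lit 0) (nat_lit 5691750259) (nat_lit 304) (nat_lit 573248706) (nat_lit 76) (nat_lit 1360487425) (nat_lit 47) (nat_lit 5) (nat_lit 51) (nat_lit 5) (nat_lit 48) (nat_lit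 5) (nat_lit 249) (nat_lit 243) (nat_lit 228))) (XT.nd (nat_lit 78) (nat_lit 76) (nat_lit 0) (XT.lf (nat_lit 0) (nat_lit 3373606861) (nat_lit 304) (nat_lit 4299294252) (nat_lit 380) (nat_lit 180652663) (nat_lit 43) (nat_lit 5) (nat_lit 47) (nat_lit 5) (nat_lit 48) (nat_lit 5) (nat_lit 250) (nat_lit 243) (nat_lit 227)) (XT.lf (nat_lit 0) (nat_lit 1509873727) (nat_lit 380) (nat_lit 584871152) (nat_lit 76) (nat_lit 6012055249) (nat_lit 42) (nat_lit 5) (nat_lit 47) (nat_lit 5) (nat_lit 43) (nat_lit 5) (nat_lit 251) (nat_lit 243) (nat_lit 226)))))) (XT.nd (nat_lit 468) (nat_lit 760) (nat_lit 0) (XT.nd (nat_lit 234) (nat_lit 304) (nat_lit 0) (XT.nd (nat_lit 78) (nat_lit 456) (nat_lit 0) (XT.lf (nat_lit 0) (nat_lit 3301206040) (nat_lit 456) (nat_lit 4696244483) (nat_lit 76) (nat_lit 385249267) (nat_lit 37) (nat_lit 5) (nat_lit 43) (nat_lit 5) (nat_lit 38) (nat_lit 5) (nat_lit 252) (nat_lit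 243) (nat_lit 225)) (XT.nd (nat_lit 78) (nat_lit 456) (nat_lit 0) (XT.lf (nat_lit 0) (nat_lit 5190335099) (nat_lit 456) (nat_lit 514286943) (nat_lit 76) (nat_lit 2980426169) (nat_lit 37) (nat_lit 5) (nat_lit 43) (nat_lit 5) (nat_lit 38) (nat_lit 5) (nat_lit 253) (nat_lit 243) (nat_lit 224)) (XT.lf (nat_lit 0) (nat_lit 4103013068) (nat_lit 456) (nat_lit 3118550116) (nat_lit 532) (nat_lit 1791425313) (nat_lit 31) (nat_lit 5) (nat_lit 37) (nat_lit 5) (nat_lit 38) (nat_lit 5) (nat_lit 254) (nat_lit 243) (nat_lit 223)))) (XT.nd (nat_lit 78) (nat_lit 304) (nat_lit 0) (XT.lf (nat_lit 0) (nat_lit 9017126218) (nat_lit 456) (nat_lit 310045640) (nat_lit 532) (nat_lit 47672561) (nat_lit 31) (nat_lit 5) (nat_lit 37) (nat_lit 5) (nat_lit 38) (nat_lit 5) (nat_lit 255) (nat_lit 243) (nat_lit 222)) (XT.nd (nat_lit 78) (nat_lit 0) (nat_lit 0) (XT.lf (nat_lit 0) (nat_lit 1827381827) (nat_lit 304) (nat_lit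 5183930557) (nat_lit 76) (nat_lit 2744655791) (nat_lit 27) (nat_lit 5) (nat_lit 31) (nat_lit 5) (nat_lit 28) (nat_lit 5) (nat_lit 256) (nat_lit 243) (nat_lit 221)) (XT.lf (nat_lit 0) (nat_lit 3775105353) (nat_lit 304) (nat_lit 365061676) (nat_lit 76) (nat_lit 6033797423) (nat_lit 27) (nat_lit 5) (nat_lit 31) (nat_lit 5) (nat_lit 28) (nat_lit 5) (nat_lit 257) (nat_lit 243) (nat_lit 220))))) (XT.nd (nat_lit 234) (nat_lit 380) (nat_lit 0) (XT.nd (nat_lit 78) (nat_lit 228) (nat_lit 0) (XT.lf (nat_lit 0) (nat_lit 4991576192) (nat_lit 152) (nat_lit 921148206) (nat_lit 228) (nat_lit 4710413630) (nat_lit 25) (nat_lit 5) (nat_lit 27) (nat_lit 5) (nat_lit 28) (nat_lit 5) (nat_lit 258) (nat_lit 243) (nat_lit 219)) (XT.nd (nat_lit 78) (nat_lit 228) (nat_lit 0) (XT.lf (nat_lit 0) (nat_lit 8210850321) (nat_lit 228) (nat_lit 473295147) (nat_lit 76) (nat_lit 2425369684) (nat_lit 25) (nat_lit 5) (nat_lit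 28) (nat_lit 5) (nat_lit 26) (nat_lit 5) (nat_lit 259) (nat_lit 243) (nat_lit 218)) (XT.lf (nat_lit 0) (nat_lit 5241814342) (nat_lit 228) (nat_lit 5524892016) (nat_lit 304) (nat_lit 862583324) (nat_lit 22) (nat_lit 5) (nat_lit 25) (nat_lit 5) (nat_lit 26) (nat_lit 5) (nat_lit 260) (nat_lit 243) (nat_lit 217)))) (XT.nd (nat_lit 156) (nat_lit 152) (nat_lit 0) (XT.nd (nat_lit 78) (nat_lit 152) (nat_lit 0) (XT.lf (nat_lit 0) (nat_lit 1207892844) (nat_lit 304) (nat_lit 877050618) (nat_lit 76) (nat_lit 10108403657) (nat_lit 21) (nat_lit 5) (nat_lit 25) (nat_lit 5) (nat_lit 22) (nat_lit 5) (nat_lit 261) (nat_lit 243) (nat_lit 216)) (XT.lf (nat_lit 0) (nat_lit 3496262410) (nat_lit 228) (nat_lit 7614892184) (nat_lit 76) (nat_lit 1681989256) (nat_lit 19) (nat_lit 5) (nat_lit 22) (nat_lit 5) (nat_lit 20) (nat_lit 5) (nat_lit 262) (nat_lit 243) (nat_lit 215))) (XT.nd (nat_lit 78) (nat_lit 152)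 (nat_lit 0) (XT.lf (nat_lit 0) (nat_lit 5979656324) (nat_lit 228) (nat_lit 1817684714) (nat_lit 76) (nat_lit 5642919177) (nat_lit 19) (nat_lit 5) (nat_lit 22) (nat_lit 5) (nat_lit 20) (nat_lit 5) (nat_lit 263) (nat_lit 243) (nat_lit 214)) (XT.lf (nat_lit 0) (nat_lit 4587840270) (nat_lit 152) (nat_lit 4122364917) (nat_lit 228) (nat_lit 5425332655) (nat_lit 17) (nat_lit 5) (nat_lit 19) (nat_lit 5) (nat_lit 20) (nat_lit 5) (nat_lit 264) (nat_lit 243) (nat_lit 213))))))))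
noncomputable def xc56 : XT := (XT.nd (nat_lit 1950) (nat_lit 228) (nat_lit 0) (XT.nd (nat_lit 936) (nat_lit 380) (nat_lit 0) (XT.nd (nat_lit 468) (nat_lit 304) (nat_lit 0) (XT.nd (nat_lit 234) (nat_lit 152) (nat_lit 0) (XT.nd (nat_lit 78) (nat_lit 152) (nat_lit 0) (XT.lf (nat_lit 0) (nat_lit 11526370083) (nat_lit 152) (nat_lit 123262563) (nat_lit 228) (nat_lit 3237820836) (nat_lit 17) (nat_lit 5) (nat_lit 19) (nat_lit 5) (nat_lit 20) (nat_lit 5) (nat_lit 265) (nat_lit 243) (nat_lit 212)) (XT.nd (nat_lit 78) (nat_lit 76) (nat_lit 0) (XT.lf (nat_lit 0) (nat_lit 3304060050) (nat_lit 76) (nat_lit 11645126848) (nat_lit 152) (nat_lit 740569688) (nat_lit 16) (nat_lit 5) (nat_lit 17) (nat_lit 5) (nat_lit 18) (nat_lit 4) (nat_lit 266) (nat_lit 243) (nat_lit 211)) (XT.lf (nat_lit 0) (nat_lit 1901304085) (nat_lit 152) (nat_lit 5989783168) (nat_lit 76) (nat_lit 8658174354) (nat_lit 15) (nat_lit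 5) (nat_lit 17) (nat_lit 5) (nat_lit 16) (nat_lit 5) (nat_lit 267) (nat_lit 243) (nat_lit 210)))) (XT.nd (nat_lit 78) (nat_lit 0) (nat_lit 0) (XT.lf (nat_lit 0) (nat_lit 866143567) (nat_lit 152) (nat_lit 3818488397) (nat_lit 228) (nat_lit 12793931268) (nat_lit 13) (nat_lit 5) (nat_lit 15) (nat_lit 5) (nat_lit 16) (nat_lit 5) (nat_lit 268) (nat_lit 243) (nat_lit 209)) (XT.nd (nat_lit 78) (nat_lit 0) (nat_lit 0) (XT.lf (nat_lit 0) (nat_lit 7823259076) (nat_lit 228) (nat_lit 9953419526) (nat_lit 76) (nat_lit 695090285) (nat_lit 13) (nat_lit 5) (nat_lit 16) (nat_lit 5) (nat_lit 14) (nat_lit 4) (nat_lit 269) (nat_lit 243) (nat_lit 208)) (XT.lf (nat_lit 0) (nat_lit 11266473490) (nat_lit 228) (nat_lit 2932455070) (nat_lit 76) (nat_lit 5341380572) (nat_lit 13) (nat_lit 5) (nat_lit 16) (nat_lit 5) (nat_lit 14) (nat_lit 4) (nat_lit 270) (nat_lit 243) (nat_lit 207))))) (XT.nd (nat_lit 234) (nat_lit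 152) (nat_lit 0) (XT.nd (nat_lit 78) (nat_lit 76) (nat_lit 0) (XT.lf (nat_lit 0) (nat_lit 4825294952) (nat_lit 76) (nat_lit 10233598209) (nat_lit 152) (nat_lit 5629685799) (nat_lit 12) (nat_lit 5) (nat_lit 13) (nat_lit 5) (nat_lit 14) (nat_lit 4) (nat_lit 271) (nat_lit 243) (nat_lit 206)) (XT.nd (nat_lit 78) (nat_lit 76) (nat_lit 0) (XT.lf (nat_lit 0) (nat_lit 13305841692) (nat_lit 76) (nat_lit 5888322735) (nat_lit 152) (nat_lit 2731524686) (nat_lit 12) (nat_lit 5) (nat_lit 13) (nat_lit 5) (nat_lit 14) (nat_lit 4) (nat_lit 272) (nat_lit 243) (nat_lit 205)) (XT.lf (nat_lit 0) (nat_lit 339752691) (nat_lit 152) (nat_lit 868488746) (nat_lit 76) (nat_lit 22055980219) (nat_lit 11) (nat_lit 5) (nat_lit 13) (nat_lit 5) (nat_lit 12) (nat_lit 5) (nat_lit 273) (nat_lit 243) (nat_lit 204)))) (XT.nd (nat_lit 78) (nat_lit 0) (nat_lit 0) (XT.lf (nat_lit 0) (nat_lit 3758609300) (nat_lit 228) (nat_lit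 17027898112) (nat_lit 76) (nat_lit 3897804939) (nat_lit 9) (nat_lit 5) (nat_lit 12) (nat_lit 5) (nat_lit 10) (nat_lit 4) (nat_lit 274) (nat_lit 243) (nat_lit 203)) (XT.nd (nat_lit 78) (nat_lit 0) (nat_lit 0) (XT.lf (nat_lit 0) (nat_lit 7471595545) (nat_lit 228) (nat_lit 9393691188) (nat_lit 76) (nat_lit 9351173390) (nat_lit 9) (nat_lit 5) (nat_lit 12) (nat_lit 5) (nat_lit 10) (nat_lit 4) (nat_lit 275) (nat_lit 243) (nat_lit 202)) (XT.lf (nat_lit 0) (nat_lit 11449097921) (nat_lit 228) (nat_lit 1202712602) (nat_lit 76) (nat_lit 15222063153) (nat_lit 9) (nat_lit 5) (nat_lit 12) (nat_lit 5) (nat_lit 10) (nat_lit 4) (nat_lit 276) (nat_lit 243) (nat_lit 201)))))) (XT.nd (nat_lit 468) (nat_lit 152) (nat_lit 0) (XT.nd (nat_lit 234) (nat_lit 152) (nat_lit 0) (XT.nd (nat_lit 78) (nat_lit 0) (nat_lit 0) (XT.lf (nat_lit 0) (nat_lit 7993441076) (nat_lit 76) (nat_lit 7913488188) (nat_lit 152) (nat_lit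 13744066060) (nat_lit 8) (nat_lit 5) (nat_lit 9) (nat_lit 5) (nat_lit 10) (nat_lit 4) (nat_lit 277) (nat_lit 243) (nat_lit 200)) (XT.nd (nat_lit 78) (nat_lit 0) (nat_lit 0) (XT.lf (nat_lit 0) (nat_lit 17944983888) (nat_lit 76) (nat_lit 2780233193) (nat_lit 152) (nat_lit 10844842218) (nat_lit 8) (nat_lit 5) (nat_lit 9) (nat_lit 5) (nat_lit 10) (nat_lit 4) (nat_lit 278) (nat_lit 243) (nat_lit 199)) (XT.lf (nat_lit 0) (nat_lit 25968094855) (nat_lit 152) (nat_lit 5063347569) (nat_lit 0) (nat_lit 2608148954) (nat_lit 8) (nat_lit 5) (nat_lit 10) (nat_lit 4) (nat_lit 8) (nat_lit 4) (nat_lit 279) (nat_lit 243) (nat_lit 198)))) (XT.nd (nat_lit 78) (nat_lit 76) (nat_lit 0) (XT.lf (nat_lit 0) (nat_lit 4281892361) (nat_lit 76) (nat_lit 27498389426) (nat_lit 76) (nat_lit 4082481648) (nat_lit 7) (nat_lit 4) (nat_lit 8) (nat_lit 5) (nat_lit 8) (nat_lit 4) (nat_lit 280) (nat_lit 243) (nat_lit 197))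 (XT.nd (nat_lit 78) (nat_lit 76) (nat_lit 0) (XT.lf (nat_lit 0) (nat_lit 14620397646) (nat_lit 76) (nat_lit 23551029966) (nat_lit 76) (nat_lit 83305636) (nat_lit 7) (nat_lit 4) (nat_lit 8) (nat_lit 5) (nat_lit 8) (nat_lit 4) (nat_lit 281) (nat_lit 243) (nat_lit 196)) (XT.lf (nat_lit 0) (nat_lit 4000623683) (nat_lit 152) (nat_lit 15194405356) (nat_lit 76) (nat_lit 21636798767) (nat_lit 6) (nat_lit 5) (nat_lit 8) (nat_lit 5) (nat_lit 7) (nat_lit 4) (nat_lit 282) (nat_lit 243) (nat_lit 195))))) (XT.nd (nat_lit 234) (nat_lit 76) (nat_lit 0) (XT.nd (nat_lit 78) (nat_lit 76) (nat_lit 0) (XT.lf (nat_lit 0) (nat_lit 8385203090) (nat_lit 152) (nat_lit 6118904531) (nat_lit 76) (nat_lit 29112584071) (nat_lit 6) (nat_lit 5) (nat_lit 8) (nat_lit 5) (nat_lit 7) (nat_lit 4) (nat_lit 283) (nat_lit 243) (nat_lit 194)) (XT.nd (nat_lit 78) (nat_lit 0) (nat_lit 0) (XT.lf (nat_lit 0) (nat_lit 3840045759)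 (nat_lit 76) (nat_lit 9352889994) (nat_lit 152) (nat_lit 33425664075) (nat_lit 5) (nat_lit 5) (nat_lit 6) (nat_lit 5) (nat_lit 7) (nat_lit 4) (nat_lit 284) (nat_lit 243) (nat_lit 193)) (XT.lf (nat_lit 0) (nat_lit 14909892464) (nat_lit 76) (nat_lit 3623395894) (nat_lit 152) (nat_lit 31315574830) (nat_lit 5) (nat_lit 5) (nat_lit 6) (nat_lit 5) (nat_lit 7) (nat_lit 4) (nat_lit 285) (nat_lit 243) (nat_lit 192)))) (XT.nd (nat_lit 156) (nat_lit 76) (nat_lit 0) (XT.nd (nat_lit 78) (nat_lit 0) (nat_lit 0) (XT.lf (nat_lit 0) (nat_lit 24344350688) (nat_lit 152) (nat_lit 26566345011) (nat_lit 0) (nat_lit 2423412913) (nat_lit 5) (nat_lit 5) (nat_lit 7) (nat_lit 4) (nat_lit 5) (nat_lit 4) (nat_lit 286) (nat_lit 243) (nat_lit 191)) (XT.lf (nat_lit 0) (nat_lit 30697566114) (nat_lit 152) (nat_lit 17648068816) (nat_lit 0) (nat_lit 8746393878) (nat_lit 5) (nat_lit 5) (nat_lit 7) (nat_lit 4) (nat_lit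 5) (nat_lit 4) (nat_lit 287) (nat_lit 243) (nat_lit 190))) (XT.nd (nat_lit 78) (nat_lit 76) (nat_lit 0) (XT.lf (nat_lit 0) (nat_lit 37543440562) (nat_lit 152) (nat_lit 8044150339) (nat_lit 0) (nat_lit 15564273456) (nat_lit 5) (nat_lit 5) (nat_lit 7) (nat_lit 4) (nat_lit 5) (nat_lit 4) (nat_lit 288) (nat_lit 243) (nat_lit 189)) (XT.lf (nat_lit 0) (nat_lit 2423558755) (nat_lit 76) (nat_lit 42557270069) (nat_lit 76) (nat_lit 20552181786) (nat_lit 4) (nat_lit 4) (nat_lit 5) (nat_lit 5) (nat_lit 5) (nat_lit 4) (nat_lit 289) (nat_lit 243) (nat_lit 188))))))) (XT.nd (nat_lit 936) (nat_lit 76) (nat_lit 0) (XT.nd (nat_lit 468) (nat_lit 76) (nat_lit 0) (XT.nd (nat_lit 234) (nat_lit 76) (nat_lit 0) (XT.nd (nat_lit 78) (nat_lit 0) (nat_lit 0) (XT.lf (nat_lit 0) (nat_lit 14161055578) (nat_lit 76) (nat_lit 39058117120) (nat_lit 76) (nat_lit 17029027747) (nat_lit 4) (nat_lit 4) (nat_lit 5) (nat_lit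 5) (nat_lit 5) (nat_lit 4) (nat_lit 290) (nat_lit 243) (nat_lit 187)) (XT.nd (nat_lit 78) (nat_lit 0) (nat_lit 0) (XT.lf (nat_lit 0) (nat_lit 26814304964) (nat_lit 76) (nat_lit 35289337659) (nat_lit 76) (nat_lit 13238025055) (nat_lit 4) (nat_lit 4) (nat_lit 5) (nat_lit 5) (nat_lit 5) (nat_lit 4) (nat_lit 291) (nat_lit 243) (nat_lit 186)) (XT.lf (nat_lit 0) (nat_lit 40458289133) (nat_lit 76) (nat_lit 31228598177) (nat_lit 76) (nat_lit 9156708508) (nat_lit 4) (nat_lit 4) (nat_lit 5) (nat_lit 5) (nat_lit 5) (nat_lit 4) (nat_lit 292) (nat_lit 243) (nat_lit 185)))) (XT.nd (nat_lit 78) (nat_lit 76) (nat_lit 0) (XT.lf (nat_lit 0) (nat_lit 55173861323) (nat_lit 76) (nat_lit 26851835035) (nat_lit 76) (nat_lit 4760892526) (nat_lit 4) (nat_lit 4) (nat_lit 5) (nat_lit 5) (nat_lit 5) (nat_lit 4) (nat_lit 293) (nat_lit 243) (nat_lit 184)) (XT.nd (nat_lit 78) (nat_lit 76) (nat_lit 0) (XT.lf (nat_lit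 0) (nat_lit 71048224926) (nat_lit 76) (nat_lit 22133111856) (nat_lit 76) (nat_lit 24527831) (nat_lit 4) (nat_lit 4) (nat_lit 5) (nat_lit 5) (nat_lit 5) (nat_lit 4) (nat_lit 294) (nat_lit 243) (nat_lit 183)) (XT.lf (nat_lit 0) (nat_lit 4826308094) (nat_lit 152) (nat_lit 12086197927) (nat_lit 76) (nat_lit 83217182333) (nat_lit 3) (nat_lit 5) (nat_lit 5) (nat_lit 5) (nat_lit 4) (nat_lit 4) (nat_lit 295) (nat_lit 243) (nat_lit 182))))) (XT.nd (nat_lit 234) (nat_lit 0) (nat_lit 0) (XT.nd (nat_lit 78) (nat_lit 76) (nat_lit 0) (XT.lf (nat_lit 0) (nat_lit 10054831853) (nat_lit 152) (nat_lit 1225993265) (nat_lit 76) (nat_lit 96327283170) (nat_lit 3) (nat_lit 5) (nat_lit 5) (nat_lit 5) (nat_lit 4) (nat_lit 4) (nat_lit 296) (nat_lit 243) (nat_lit 181)) (XT.nd (nat_lit 78) (nat_lit 0) (nat_lit 0) (XT.lf (nat_lit 0) (nat_lit 11040196293) (nat_lit 76) (nat_lit 4918574965) (nat_lit 152) (nat_lit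 99705475552) (nat_lit 2) (nat_lit 5) (nat_lit 3) (nat_lit 5) (nat_lit 4) (nat_lit 4) (nat_lit 297) (nat_lit 243) (nat_lit 180)) (XT.lf (nat_lit 0) (nat_lit 22408103419) (nat_lit 152) (nat_lit 100067851758) (nat_lit 0) (nat_lit 1883089559) (nat_lit 2) (nat_lit 5) (nat_lit 4) (nat_lit 4) (nat_lit 2) (nat_lit 4) (nat_lit 298) (nat_lit 243) (nat_lit 179)))) (XT.nd (nat_lit 78) (nat_lit 0) (nat_lit 0) (XT.lf (nat_lit 0) (nat_lit 29493475028) (nat_lit 152) (nat_lit 95289013472) (nat_lit 0) (nat_lit 8957344020) (nat_lit 2) (nat_lit 5) (nat_lit 4) (nat_lit 4) (nat_lit 2) (nat_lit 4) (nat_lit 299) (nat_lit 243) (nat_lit 178)) (XT.nd (nat_lit 78) (nat_lit 0) (nat_lit 0) (XT.lf (nat_lit 0) (nat_lit 37138581627) (nat_lit 152) (nat_lit 90140924771) (nat_lit 0) (nat_lit 16592156963) (nat_lit 2) (nat_lit 5) (nat_lit 4) (nat_lit 4) (nat_lit 2) (nat_lit 4) (nat_lit 300) (nat_lit 243) (nat_lit 177))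 (XT.lf (nat_lit 0) (nat_lit 45388727552) (nat_lit 152) (nat_lit 84593078464) (nat_lit 0) (nat_lit 24832771726) (nat_lit 2) (nat_lit 5) (nat_lit 4) (nat_lit 4) (nat_lit 2) (nat_lit 4) (nat_lit 301) (nat_lit 243) (nat_lit 176)))))) (XT.nd (nat_lit 468) (nat_lit 76) (nat_lit 0) (XT.nd (nat_lit 234) (nat_lit 0) (nat_lit 0) (XT.nd (nat_lit 78) (nat_lit 0) (nat_lit 0) (XT.lf (nat_lit 0) (nat_lit 54292802557) (nat_lit 152) (nat_lit 78612598424) (nat_lit 0) (nat_lit 33728021579) (nat_lit 2) (nat_lit 5) (nat_lit 4) (nat_lit 4) (nat_lit 2) (nat_lit 4) (nat_lit 302) (nat_lit 243) (nat_lit 175)) (XT.nd (nat_lit 78) (nat_lit 0) (nat_lit 0) (XT.lf (nat_lit 0) (nat_lit 63903571530) (nat_lit 152) (nat_lit 72164044770) (nat_lit 0) (nat_lit 43330619116) (nat_lit 2) (nat_lit 5) (nat_lit 4) (nat_lit 4) (nat_lit 2) (nat_lit 4) (nat_lit 303) (nat_lit 243) (nat_lit 174)) (XT.lf (nat_lit 0) (nat_lit 74277987176)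 (nat_lit 152) (nat_lit 65209203850) (nat_lit 0) (nat_lit 53697468618) (nat_lit 2) (nat_lit 5) (nat_lit 4) (nat_lit 4) (nat_lit 2) (nat_lit 4) (nat_lit 304) (nat_lit 243) (nat_lit 173)))) (XT.nd (nat_lit 78) (nat_lit 0) (nat_lit 0) (XT.lf (nat_lit 0) (nat_lit 85477527514) (nat_lit 152) (nat_lit 57706861791) (nat_lit 0) (nat_lit 64890003267) (nat_lit 2) (nat_lit 5) (nat_lit 4) (nat_lit 4) (nat_lit 2) (nat_lit 4) (nat_lit 305) (nat_lit 243) (nat_lit 172)) (XT.nd (nat_lit 78) (nat_lit 0) (nat_lit 0) (XT.lf (nat_lit 0) (nat_lit 97568560190) (nat_lit 152) (nat_lit 49612560272) (nat_lit 0) (nat_lit 76974549194) (nat_lit 2) (nat_lit 5) (nat_lit 4) (nat_lit 4) (nat_lit 2) (nat_lit 4) (nat_lit 306) (nat_lit 243) (nat_lit 171)) (XT.lf (nat_lit 0) (nat_lit 110622735769) (nat_lit 152) (nat_lit 40878333060) (nat_lit 0) (nat_lit 90022718524) (nat_lit 2) (nat_lit 5) (nat_lit 4) (nat_lit 4) (nat_lit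 2) (nat_lit 4) (nat_lit 307) (nat_lit 243) (nat_lit 170))))) (XT.nd (nat_lit 234) (nat_lit 76) (nat_lit 0) (XT.nd (nat_lit 78) (nat_lit 0) (nat_lit 0) (XT.lf (nat_lit 0) (nat_lit 124717412328) (nat_lit 152) (nat_lit 31452421772) (nat_lit 0) (nat_lit 104111833741) (nat_lit 2) (nat_lit 5) (nat_lit 4) (nat_lit 4) (nat_lit 2) (nat_lit 4) (nat_lit 308) (nat_lit 243) (nat_lit 169)) (XT.nd (nat_lit 78) (nat_lit 0) (nat_lit 0) (XT.lf (nat_lit 0) (nat_lit 139936113876) (nat_lit 152) (nat_lit 21278969156) (nat_lit 0) (nat_lit 119325385898) (nat_lit 2) (nat_lit 5) (nat_lit 4) (nat_lit 4) (nat_lit 2) (nat_lit 4) (nat_lit 309) (nat_lit 243) (nat_lit 168)) (XT.lf (nat_lit 0) (nat_lit 156369025312) (nat_lit 152) (nat_lit 10297688086) (nat_lit 0) (nat_lit 135753529379) (nat_lit 2) (nat_lit 5) (nat_lit 4) (nat_lit 4) (nat_lit 2) (nat_lit 4) (nat_lit 310) (nat_lit 243) (nat_lit 167)))) (XT.nd (nat_lit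 156) (nat_lit 0) (nat_lit 0) (XT.nd (nat_lit 78) (nat_lit 0) (nat_lit 0) (XT.lf (nat_lit 0) (nat_lit 1638458002) (nat_lit 76) (nat_lit 172514473802) (nat_lit 76) (nat_lit 151894563097) (nat_lit 1) (nat_lit 4) (nat_lit 2) (nat_lit 5) (nat_lit 2) (nat_lit 4) (nat_lit 311) (nat_lit 243) (nat_lit 166)) (XT.lf (nat_lit 0) (nat_lit 15109676417) (nat_lit 76) (nat_lit 178528482757) (nat_lit 76) (nat_lit 157904484300) (nat_lit 1) (nat_lit 4) (nat_lit 2) (nat_lit 5) (nat_lit 2) (nat_lit 4) (nat_lit 312) (nat_lit 243) (nat_lit 165))) (XT.nd (nat_lit 78) (nat_lit 0) (nat_lit 0) (XT.lf (nat_lit 0) (nat_lit 29653538595) (nat_lit 76) (nat_lit 185025935876) (nat_lit 76) (nat_lit 164398152462) (nat_lit 1) (nat_lit 4) (nat_lit 2) (nat_lit 5) (nat_lit 2) (nat_lit 4) (nat_lit 313) (nat_lit 243) (nat_lit 164)) (XT.lf (nat_lit 0) (nat_lit 45356230387) (nat_lit 76) (nat_lit 192045336584) (nat_lit 76) (nat_lit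 171414048582) (nat_lit 1) (nat_lit 4) (nat_lit 2) (nat_lit 5) (nat_lit 2) (nat_lit 4) (nat_lit 314) (nat_lit 243) (nat_lit 163))))))))
noncomputable def xc57 : XT := (XT.nd (nat_lit 32058) (nat_lit 0) (nat_lit 912) (XT.nd (nat_lit 936) (nat_lit 0) (nat_lit 0) (XT.nd (nat_lit 468) (nat_lit 0) (nat_lit 0) (XT.nd (nat_lit 234) (nat_lit 0) (nat_lit 0) (XT.nd (nat_lit 78) (nat_lit 0) (nat_lit 0) (XT.lf (nat_lit 0) (nat_lit 62310804782) (nat_lit 76) (nat_lit 199628281331) (nat_lit 76) (nat_lit 178993748339) (nat_lit 1) (nat_lit 4) (nat_lit 2) (nat_lit 5) (nat_lit 2) (nat_lit 4) (nat_lit 315) (nat_lit 243) (nat_lit 162)) (XT.nd (nat_lit 78) (nat_lit 0) (nat_lit 0) (XT.lf (nat_lit 0) (nat_lit 80617733330) (nat_lit 76) (nat_lit 207819706084) (nat_lit 76) (nat_lit 187182168472) (nat_lit 1) (nat_lit 4) (nat_lit 2) (nat_lit 5) (nat_lit 2) (nat_lit 4) (nat_lit 316) (nat_lit 243) (nat_lit 161))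 (XT.lf (nat_lit 0) (nat_lit 100385501534) (nat_lit 76) (nat_lit 216668152621) (nat_lit 76) (nat_lit 196027832953) (nat_lit 1) (nat_lit 4) (nat_lit 2) (nat_lit 5) (nat_lit 2) (nat_lit 4) (nat_lit 317) (nat_lit 243) (nat_lit 160)))) (XT.nd (nat_lit 78) (nat_lit 0) (nat_lit 0) (XT.lf (nat_lit 0) (nat_lit 121731251725) (nat_lit 76) (nat_lit 226226056180) (nat_lit 76) (nat_lit 205583160535) (nat_lit 1) (nat_lit 4) (nat_lit 2) (nat_lit 5) (nat_lit 2) (nat_lit 4) (nat_lit 318) (nat_lit 243) (nat_lit 159)) (XT.nd (nat_lit 78) (nat_lit 0) (nat_lit 0) (XT.lf (nat_lit 0) (nat_lit 144781477237) (nat_lit 76) (nat_lit 236550056189) (nat_lit 76) (nat_lit 215904775380) (nat_lit 1) (nat_lit 4) (nat_lit 2) (nat_lit 5) (nat_lit 2) (nat_lit 4) (nat_lit 319) (nat_lit 243) (nat_lit 158)) (XT.lf (nat_lit 0) (nat_lit 169672771998) (nat_lit 76) (nat_lit 247701331909) (nat_lit 76) (nat_lit 227053842614) (nat_lit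 1) (nat_lit 4) (nat_lit 2) (nat_lit 5) (nat_lit 2) (nat_lit 4) (nat_lit 320) (nat_lit 243) (nat_lit 157))))) (XT.nd (nat_lit 234) (nat_lit 0) (nat_lit 0) (XT.nd (nat_lit 78) (nat_lit 0) (nat_lit 0) (XT.lf (nat_lit 0) (nat_lit 196552639979) (nat_lit 76) (nat_lit 259745964972) (nat_lit 76) (nat_lit 239096430783) (nat_lit 1) (nat_lit 4) (nat_lit 2) (nat_lit 5) (nat_lit 2) (nat_lit 4) (nat_lit 321) (nat_lit 243) (nat_lit 156)) (XT.nd (nat_lit 78) (nat_lit 0) (nat_lit 0) (XT.lf (nat_lit 0) (nat_lit 225580369285) (nat_lit 76) (nat_lit 272755330982) (nat_lit 76) (nat_lit 252103903373) (nat_lit 1) (nat_lit 4) (nat_lit 2) (nat_lit 5) (nat_lit 2) (nat_lit 4) (nat_lit 322) (nat_lit 243) (nat_lit 155)) (XT.lf (nat_lit 0) (nat_lit 256927976090) (nat_lit 76) (nat_lit 286806522479) (nat_lit 76) (nat_lit 266153341703) (nat_lit 1) (nat_lit 4) (nat_lit 2) (nat_lit 5) (nat_lit 2) (nat_lit 4) (nat_lit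 323) (nat_lit 243) (nat_lit 154)))) (XT.nd (nat_lit 78) (nat_lit 0) (nat_lit 0) (XT.lf (nat_lit 0) (nat_lit 290781223990) (nat_lit 76) (nat_lit 301982805782) (nat_lit 76) (nat_lit 281328001703) (nat_lit 1) (nat_lit 4) (nat_lit 2) (nat_lit 5) (nat_lit 2) (nat_lit 4) (nat_lit 324) (nat_lit 243) (nat_lit 153)) (XT.nd (nat_lit 78) (nat_lit 0) (nat_lit 0) (XT.lf (nat_lit 0) (nat_lit 327340724824) (nat_lit 76) (nat_lit 318374114422) (nat_lit 76) (nat_lit 297717807285) (nat_lit 1) (nat_lit 4) (nat_lit 2) (nat_lit 5) (nat_lit 2) (nat_lit 4) (nat_lit 325) (nat_lit 243) (nat_lit 152)) (XT.lf (nat_lit 0) (nat_lit 366823127487) (nat_lit 76) (nat_lit 336077582080) (nat_lit 76) (nat_lit 315419883223) (nat_lit 1) (nat_lit 4) (nat_lit 2) (nat_lit 5) (nat_lit 2) (nat_lit 4) (nat_lit 326) (nat_lit 243) (nat_lit 151)))))) (XT.nd (nat_lit 468) (nat_lit 0) (nat_lit 0) (XT.nd (nat_lit 234) (nat_lit 0) (nat_lit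 0) (XT.nd (nat_lit 78) (nat_lit 0) (nat_lit 0) (XT.lf (nat_lit 0) (nat_lit 409462401771) (nat_lit 76) (nat_lit 355198118194) (nat_lit 76) (nat_lit 334539130707) (nat_lit 1) (nat_lit 4) (nat_lit 2) (nat_lit 5) (nat_lit 2) (nat_lit 4) (nat_lit 327) (nat_lit 243) (nat_lit 150)) (XT.nd (nat_lit 78) (nat_lit 0) (nat_lit 0) (XT.lf (nat_lit 0) (nat_lit 455511224858) (nat_lit 76) (nat_lit 375849029645) (nat_lit 76) (nat_lit 355188848982) (nat_lit 1) (nat_lit 4) (nat_lit 2) (nat_lit 5) (nat_lit 2) (nat_lit 4) (nat_lit 328) (nat_lit 243) (nat_lit 149)) (XT.lf (nat_lit 0) (nat_lit 505242478663) (nat_lit 76) (nat_lit 398152692204) (nat_lit 76) (nat_lit 377491406748) (nat_lit 1) (nat_lit 4) (nat_lit 2) (nat_lit 5) (nat_lit 2) (nat_lit 4) (nat_lit 329) (nat_lit 243) (nat_lit 148)))) (XT.nd (nat_lit 78) (nat_lit 0) (nat_lit 0) (XT.lf (nat_lit 0) (nat_lit 558950866911) (nat_lit 76) (nat_lit 422241275723)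 (nat_lit 76) (nat_lit 401578967311) (nat_lit 1) (nat_lit 4) (nat_lit 2) (nat_lit 5) (nat_lit 2) (nat_lit 4) (nat_lit 330) (nat_lit 243) (nat_lit 147)) (XT.nd (nat_lit 78) (nat_lit 0) (nat_lit 0) (XT.lf (nat_lit 0) (nat_lit 616954661533) (nat_lit 76) (nat_lit 448257527364) (nat_lit 76) (nat_lit 427594271771) (nat_lit 1) (nat_lit 4) (nat_lit 2) (nat_lit 5) (nat_lit 2) (nat_lit 4) (nat_lit 331) (nat_lit 243) (nat_lit 146)) (XT.lf (nat_lit 0) (nat_lit 679597588719) (nat_lit 76) (nat_lit 476355617507) (nat_lit 76) (nat_lit 455691484894) (nat_lit 1) (nat_lit 4) (nat_lit 2) (nat_lit 5) (nat_lit 2) (nat_lit 4) (nat_lit 332) (nat_lit 243) (nat_lit 145))))) (XT.nd (nat_lit 234) (nat_lit 0) (nat_lit 0) (XT.nd (nat_lit 78) (nat_lit 0) (nat_lit 0) (XT.lf (nat_lit 0) (nat_lit 747250865815) (nat_lit 76) (nat_lit 506702053353) (nat_lit 76) (nat_lit 486037108685) (nat_lit 1) (nat_lit 4) (nat_lit 2)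 (nat_lit 5) (nat_lit 2) (nat_lit 4) (nat_lit 333) (nat_lit 243) (nat_lit 144)) (XT.nd (nat_lit 78) (nat_lit 0) (nat_lit 0) (XT.lf (nat_lit 0) (nat_lit 820315401131) (nat_lit 76) (nat_lit 539476665633) (nat_lit 76) (nat_lit 518810969061) (nat_lit 1) (nat_lit 4) (nat_lit 2) (nat_lit 5) (nat_lit 2) (nat_lit 4) (nat_lit 334) (nat_lit 243) (nat_lit 143)) (XT.lf (nat_lit 0) (nat_lit 899224169691) (nat_lit 76) (nat_lit 574873674272) (nat_lit 76) (nat_lit 554207281493) (nat_lit 1) (nat_lit 4) (nat_lit 2) (nat_lit 5) (nat_lit 2) (nat_lit 4) (nat_lit 335) (nat_lit 243) (nat_lit 142)))) (XT.nd (nat_lit 156) (nat_lit 0) (nat_lit 0) (XT.nd (nat_lit 78) (nat_lit 0) (nat_lit 0) (XT.lf (nat_lit 0) (nat_lit 984444779011) (nat_lit 76) (nat_lit 613102839320) (nat_lit 76) (nat_lit 592435801905) (nat_lit 1) (nat_lit 4) (nat_lit 2) (nat_lit 5) (nat_lit 2) (nat_lit 4) (nat_lit 336) (nat_lit 243) (nat_lit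 141)) (XT.lf (nat_lit 0) (nat_lit 1076482240110) (nat_lit 76) (nat_lit 654390703977) (nat_lit 76) (nat_lit 633723069678) (nat_lit 1) (nat_lit 4) (nat_lit 2) (nat_lit 5) (nat_lit 2) (nat_lit 4) (nat_lit 337) (nat_lit 243) (nat_lit 140))) (XT.nd (nat_lit 30186) (nat_lit 0) (nat_lit 3724) (XT.lf (nat_lit 0) (nat_lit 1175881960165) (nat_lit 76) (nat_lit 698981937073) (nat_lit 76) (nat_lit 678313750102) (nat_lit 1) (nat_lit 4) (nat_lit 2) (nat_lit 5) (nat_lit 2) (nat_lit 4) (nat_lit 338) (nat_lit 243) (nat_lit 139)) (XT.lf (nat_lit 0) (nat_lit 1295592810) (nat_lit 0) (nat_lit 1295592810) (nat_lit 228) (nat_lit 868149450) (nat_lit 50) (nat_lit 5) (nat_lit 50) (nat_lit 3) (nat_lit 53) (nat_lit 3) (nat_lit 244) (nat_lit 244) (nat_lit 232))))))) (XT.nd (nat_lit 936) (nat_lit 1064) (nat_lit 0) (XT.nd (nat_lit 468) (nat_lit 1140) (nat_lit 0) (XT.nd (nat_lit 234) (nat_lit 304) (nat_lit 0) (XT.nd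 (nat_lit 78) (nat_lit 304) (nat_lit 0) (XT.lf (nat_lit 0) (nat_lit 5765146980) (nat_lit 0) (nat_lit 1266868589) (nat_lit 228) (nat_lit 18397076) (nat_lit 50) (nat_lit 5) (nat_lit 50) (nat_lit 3) (nat_lit 53) (nat_lit 3) (nat_lit 245) (nat_lit 244) (nat_lit 231)) (XT.nd (nat_lit 78) (nat_lit 0) (nat_lit 0) (XT.lf (nat_lit 0) (nat_lit 1630521268) (nat_lit 304) (nat_lit 5246471429) (nat_lit 380) (nat_lit 322590929) (nat_lit 46) (nat_lit 5) (nat_lit 50) (nat_lit 5) (nat_lit 51) (nat_lit 5) (nat_lit 246) (nat_lit 244) (nat_lit 230)) (XT.lf (nat_lit 0) (nat_lit 3321531205) (nat_lit 304) (nat_lit 1974138574) (nat_lit 380) (nat_lit 2073254459) (nat_lit 46) (nat_lit 5) (nat_lit 50) (nat_lit 5) (nat_lit 51) (nat_lit 5) (nat_lit 247) (nat_lit 244) (nat_lit 229)))) (XT.nd (nat_lit 78) (nat_lit 304) (nat_lit 0) (XT.lf (nat_lit 76) (nat_lit 1539180853) (nat_lit 0) (nat_lit 3499558567) (nat_lit 380)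 (nat_lit 2522880709) (nat_lit 47) (nat_lit 5) (nat_lit 46) (nat_lit 5) (nat_lit 51) (nat_lit 5) (nat_lit 248) (nat_lit 244) (nat_lit 228)) (XT.nd (nat_lit 78) (nat_lit 304) (nat_lit 0) (XT.lf (nat_lit 76) (nat_lit 5350516581) (nat_lit 0) (nat_lit 1459214064) (nat_lit 380) (nat_lit 967689862) (nat_lit 47) (nat_lit 5) (nat_lit 46) (nat_lit 5) (nat_lit 51) (nat_lit 5) (nat_lit 249) (nat_lit 244) (nat_lit 227)) (XT.lf (nat_lit 0) (nat_lit 598821017) (nat_lit 380) (nat_lit 6624030944) (nat_lit 76) (nat_lit 793320283) (nat_lit 42) (nat_lit 5) (nat_lit 47) (nat_lit 5) (nat_lit 43) (nat_lit 5) (nat_lit 250) (nat_lit 244) (nat_lit 226))))) (XT.nd (nat_lit 234) (nat_lit 760) (nat_lit 0) (XT.nd (nat_lit 78) (nat_lit 380) (nat_lit 0) (XT.lf (nat_lit 0) (nat_lit 2221011360) (nat_lit 380) (nat_lit 2783813361) (nat_lit 76) (nat_lit 3269372380) (nat_lit 42) (nat_lit 5) (nat_lit 47) (nat_lit 5) (nat_lit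 43) (nat_lit 5) (nat_lit 251) (nat_lit 244) (nat_lit 225)) (XT.nd (nat_lit 78) (nat_lit 0) (nat_lit 0) (XT.lf (nat_lit 0) (nat_lit 1333019438) (nat_lit 380) (nat_lit 2557811023) (nat_lit 456) (nat_lit 4669341205) (nat_lit 37) (nat_lit 5) (nat_lit 42) (nat_lit 5) (nat_lit 43) (nat_lit 5) (nat_lit 252) (nat_lit 244) (nat_lit 224)) (XT.lf (nat_lit 0) (nat_lit 5666660997) (nat_lit 456) (nat_lit 3033902090) (nat_lit 76) (nat_lit 171348519) (nat_lit 37) (nat_lit 5) (nat_lit 43) (nat_lit 5) (nat_lit 38) (nat_lit 5) (nat_lit 253) (nat_lit 244) (nat_lit 223)))) (XT.nd (nat_lit 78) (nat_lit 304) (nat_lit 0) (XT.lf (nat_lit 0) (nat_lit 1401768098) (nat_lit 456) (nat_lit 6183208656) (nat_lit 532) (nat_lit 1624211491) (nat_lit 31) (nat_lit 5) (nat_lit 37) (nat_lit 5) (nat_lit 38) (nat_lit 5) (nat_lit 254) (nat_lit 244) (nat_lit 222)) (XT.nd (nat_lit 78) (nat_lit 228) (nat_lit 0) (XT.lf (nat_lit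 0) (nat_lit 66627287) (nat_lit 532) (nat_lit 3306094769) (nat_lit 76) (nat_lit 6202106925) (nat_lit 30) (nat_lit 5) (nat_lit 37) (nat_lit 5) (nat_lit 31) (nat_lit 5) (nat_lit 255) (nat_lit 244) (nat_lit 221)) (XT.lf (nat_lit 0) (nat_lit 1495401369) (nat_lit 228) (nat_lit 255155156) (nat_lit 304) (nat_lit 8220644541) (nat_lit 27) (nat_lit 5) (nat_lit 30) (nat_lit 5) (nat_lit 31) (nat_lit 5) (nat_lit 256) (nat_lit 244) (nat_lit 220)))))) (XT.nd (nat_lit 468) (nat_lit 456) (nat_lit 0) (XT.nd (nat_lit 234) (nat_lit 456) (nat_lit 0) (XT.nd (nat_lit 78) (nat_lit 152) (nat_lit 0) (XT.lf (nat_lit 0) (nat_lit 3650811886) (nat_lit 304) (nat_lit 3697640185) (nat_lit 76) (nat_lit 3044765710) (nat_lit 27) (nat_lit 5) (nat_lit 31) (nat_lit 5) (nat_lit 28) (nat_lit 5) (nat_lit 257) (nat_lit 244) (nat_lit 219)) (XT.nd (nat_lit 78) (nat_lit 0) (nat_lit 0) (XT.lf (nat_lit 0) (nat_lit 1437850120) (nat_lit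 152) (nat_lit 4226843541) (nat_lit 228) (nat_lit 5187803145) (nat_lit 25) (nat_lit 5) (nat_lit 27) (nat_lit 5) (nat_lit 28) (nat_lit 5) (nat_lit 258) (nat_lit 244) (nat_lit 218)) (XT.lf (nat_lit 0) (nat_lit 7106530168) (nat_lit 152) (nat_lit 758435619) (nat_lit 228) (nat_lit 3481927619) (nat_lit 25) (nat_lit 5) (nat_lit 27) (nat_lit 5) (nat_lit 28) (nat_lit 5) (nat_lit 259) (nat_lit 244) (nat_lit 217)))) (XT.nd (nat_lit 78) (nat_lit 228) (nat_lit 0) (XT.lf (nat_lit 0) (nat_lit 1251480564) (nat_lit 228) (nat_lit 9021251633) (nat_lit 304) (nat_lit 1605959921) (nat_lit 22) (nat_lit 5) (nat_lit 25) (nat_lit 5) (nat_lit 26) (nat_lit 5) (nat_lit 260) (nat_lit 244) (nat_lit 216)) (XT.nd (nat_lit 78) (nat_lit 152) (nat_lit 0) (XT.lf (nat_lit 0) (nat_lit 468353002) (nat_lit 304) (nat_lit 5141649348) (nat_lit 76) (nat_lit 6836997217) (nat_lit 21) (nat_lit 5) (nat_lit 25) (nat_lit 5) (nat_lit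 22) (nat_lit 5) (nat_lit 261) (nat_lit 244) (nat_lit 215)) (XT.lf (nat_lit 0) (nat_lit 693416596) (nat_lit 152) (nat_lit 1880877962) (nat_lit 228) (nat_lit 10487236500) (nat_lit 19) (nat_lit 5) (nat_lit 21) (nat_lit 5) (nat_lit 22) (nat_lit 5) (nat_lit 262) (nat_lit 244) (nat_lit 214))))) (XT.nd (nat_lit 234) (nat_lit 304) (nat_lit 0) (XT.nd (nat_lit 78) (nat_lit 152) (nat_lit 0) (XT.lf (nat_lit 0) (nat_lit 4982715700) (nat_lit 228) (nat_lit 6566518676) (nat_lit 76) (nat_lit 2165540978) (nat_lit 19) (nat_lit 5) (nat_lit 22) (nat_lit 5) (nat_lit 20) (nat_lit 5) (nat_lit 263) (nat_lit 244) (nat_lit 213)) (XT.nd (nat_lit 78) (nat_lit 152) (nat_lit 0) (XT.lf (nat_lit 0) (nat_lit 7575392068) (nat_lit 228) (nat_lit 428317193) (nat_lit 76) (nat_lit 6417493990) (nat_lit 19) (nat_lit 5) (nat_lit 22) (nat_lit 5) (nat_lit 20) (nat_lit 5) (nat_lit 264) (nat_lit 244) (nat_lit 212)) (XT.lf (nat_lit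 0) (nat_lit 6450794542) (nat_lit 152) (nat_lit 4026799731) (nat_lit 228) (nat_lit 4698614186) (nat_lit 17) (nat_lit 5) (nat_lit 19) (nat_lit 5) (nat_lit 20) (nat_lit 5) (nat_lit 265) (nat_lit 244) (nat_lit 211)))) (XT.nd (nat_lit 156) (nat_lit 152) (nat_lit 0) (XT.nd (nat_lit 78) (nat_lit 152) (nat_lit 0) (XT.lf (nat_lit 0) (nat_lit 13579144648) (nat_lit 228) (nat_lit 2167629857) (nat_lit 76) (nat_lit 247680653) (nat_lit 17) (nat_lit 5) (nat_lit 20) (nat_lit 5) (nat_lit 18) (nat_lit 4) (nat_lit 266) (nat_lit 244) (nat_lit 210)) (XT.lf (nat_lit 0) (nat_lit 229655540) (nat_lit 152) (nat_lit 11879421700) (nat_lit 76) (nat_lit 4754648497) (nat_lit 15) (nat_lit 5) (nat_lit 17) (nat_lit 5) (nat_lit 16) (nat_lit 5) (nat_lit 267) (nat_lit 244) (nat_lit 209))) (XT.nd (nat_lit 78) (nat_lit 152) (nat_lit 0) (XT.lf (nat_lit 0) (nat_lit 2969575824) (nat_lit 152) (nat_lit 5100544542) (nat_lit 76)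 (nat_lit 9726461594) (nat_lit 15) (nat_lit 5) (nat_lit 17) (nat_lit 5) (nat_lit 16) (nat_lit 5) (nat_lit 268) (nat_lit 244) (nat_lit 208)) (XT.lf (nat_lit 0) (nat_lit 2269212756) (nat_lit 152) (nat_lit 3670570310) (nat_lit 228) (nat_lit 12863554056) (nat_lit 13) (nat_lit 5) (nat_lit 15) (nat_lit 5) (nat_lit 16) (nat_lit 5) (nat_lit 269) (nat_lit 244) (nat_lit 207))))))))
noncomputable def xc58 : XT := (XT.nd (nat_lit 1950) (nat_lit 228) (nat_lit 0) (XT.nd (nat_lit 936) (nat_lit 228) (nat_lit 0) (XT.nd (nat_lit 468) (nat_lit 152) (nat_lit 0) (XT.nd (nat_lit 234) (nat_lit 228) (nat_lit 0) (XT.nd (nat_lit 78) (nat_lit 76) (nat_lit 0) (XT.lf (nat_lit 0) (nat_lit 9274383467) (nat_lit 228) (nat_lit 9456744330) (nat_lit 76) (nat_lit 1149508985) (nat_lit 13) (nat_lit 5) (nat_lit 16) (nat_lit 5) (nat_lit 14) (nat_lit 4) (nat_lit 270) (nat_lit 244) (nat_lit 206)) (XT.nd (nat_lit 78) (nat_lit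 76) (nat_lit 0) (XT.lf (nat_lit 0) (nat_lit 12931924392) (nat_lit 228) (nat_lit 1969876699) (nat_lit 76) (nat_lit 6137960904) (nat_lit 13) (nat_lit 5) (nat_lit 16) (nat_lit 5) (nat_lit 14) (nat_lit 4) (nat_lit 271) (nat_lit 244) (nat_lit 205)) (XT.lf (nat_lit 0) (nat_lit 6378185102) (nat_lit 76) (nat_lit 10621013257) (nat_lit 152) (nat_lit 5283173839) (nat_lit 12) (nat_lit 5) (nat_lit 13) (nat_lit 5) (nat_lit 14) (nat_lit 4) (nat_lit 272) (nat_lit 244) (nat_lit 204)))) (XT.nd (nat_lit 78) (nat_lit 228) (nat_lit 0) (XT.lf (nat_lit 0) (nat_lit 15450741021) (nat_lit 76) (nat_lit 5960061879) (nat_lit 152) (nat_lit 2212188490) (nat_lit 12) (nat_lit 5) (nat_lit 13) (nat_lit 5) (nat_lit 14) (nat_lit 4) (nat_lit 273) (nat_lit 244) (nat_lit 203)) (XT.nd (nat_lit 78) (nat_lit 0) (nat_lit 0) (XT.lf (nat_lit 0) (nat_lit 103739531) (nat_lit 152) (nat_lit 914713791) (nat_lit 228) (nat_lit 24052843054)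 (nat_lit 9) (nat_lit 5) (nat_lit 11) (nat_lit 5) (nat_lit 12) (nat_lit 5) (nat_lit 274) (nat_lit 244) (nat_lit 202)) (XT.lf (nat_lit 0) (nat_lit 4693804732) (nat_lit 228) (nat_lit 17337295693) (nat_lit 76) (nat_lit 4575398807) (nat_lit 9) (nat_lit 5) (nat_lit 12) (nat_lit 5) (nat_lit 10) (nat_lit 4) (nat_lit 275) (nat_lit 244) (nat_lit 201))))) (XT.nd (nat_lit 234) (nat_lit 76) (nat_lit 0) (XT.nd (nat_lit 78) (nat_lit 76) (nat_lit 0) (XT.lf (nat_lit 0) (nat_lit 8656829381) (nat_lit 228) (nat_lit 9170339938) (nat_lit 76) (nat_lit 10437942699) (nat_lit 9) (nat_lit 5) (nat_lit 12) (nat_lit 5) (nat_lit 10) (nat_lit 4) (nat_lit 276) (nat_lit 244) (nat_lit 200)) (XT.nd (nat_lit 78) (nat_lit 76) (nat_lit 0) (XT.lf (nat_lit 0) (nat_lit 12909012970) (nat_lit 228) (nat_lit 396293920) (nat_lit 76) (nat_lit 16753416573) (nat_lit 9) (nat_lit 5) (nat_lit 12) (nat_lit 5) (nat_lit 10) (nat_lit 4)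 (nat_lit 277) (nat_lit 244) (nat_lit 199)) (XT.lf (nat_lit 0) (nat_lit 9512700515) (nat_lit 76) (nat_lit 8191633785) (nat_lit 152) (nat_lit 14275325621) (nat_lit 8) (nat_lit 5) (nat_lit 9) (nat_lit 5) (nat_lit 10) (nat_lit 4) (nat_lit 278) (nat_lit 244) (nat_lit 198)))) (XT.nd (nat_lit 78) (nat_lit 76) (nat_lit 0) (XT.lf (nat_lit 0) (nat_lit 20195197556) (nat_lit 76) (nat_lit 2674009758) (nat_lit 152) (nat_lit 11186257629) (nat_lit 8) (nat_lit 5) (nat_lit 9) (nat_lit 5) (nat_lit 10) (nat_lit 4) (nat_lit 279) (nat_lit 244) (nat_lit 197)) (XT.nd (nat_lit 78) (nat_lit 76) (nat_lit 0) (XT.lf (nat_lit 0) (nat_lit 28502835700) (nat_lit 152) (nat_lit 4684239258) (nat_lit 0) (nat_lit 3105876872) (nat_lit 8) (nat_lit 5) (nat_lit 10) (nat_lit 4) (nat_lit 8) (nat_lit 4) (nat_lit 280) (nat_lit 244) (nat_lit 196)) (XT.lf (nat_lit 0) (nat_lit 5388767307) (nat_lit 76) (nat_lit 29375738705) (nat_lit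 76) (nat_lit 3930801588) (nat_lit 7) (nat_lit 4) (nat_lit 8) (nat_lit 5) (nat_lit 8) (nat_lit 4) (nat_lit 281) (nat_lit 244) (nat_lit 195)))))) (XT.nd (nat_lit 468) (nat_lit 76) (nat_lit 0) (XT.nd (nat_lit 234) (nat_lit 76) (nat_lit 0) (XT.nd (nat_lit 78) (nat_lit 0) (nat_lit 0) (XT.lf (nat_lit 0) (nat_lit 335227951) (nat_lit 152) (nat_lit 24792087320) (nat_lit 76) (nat_lit 16153342777) (nat_lit 6) (nat_lit 5) (nat_lit 8) (nat_lit 5) (nat_lit 7) (nat_lit 4) (nat_lit 282) (nat_lit 244) (nat_lit 194)) (XT.nd (nat_lit 78) (nat_lit 0) (nat_lit 0) (XT.lf (nat_lit 0) (nat_lit 4710208180) (nat_lit 152) (nat_lit 15733262091) (nat_lit 76) (nat_lit 23622841756) (nat_lit 6) (nat_lit 5) (nat_lit 8) (nat_lit 5) (nat_lit 7) (nat_lit 4) (nat_lit 283) (nat_lit 244) (nat_lit 193)) (XT.lf (nat_lit 0) (nat_lit 9416699525) (nat_lit 152) (nat_lit 5981846808) (nat_lit 76) (nat_lit 31677793655) (nat_lit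 6) (nat_lit 5) (nat_lit 8) (nat_lit 5) (nat_lit 7) (nat_lit 4) (nat_lit 284) (nat_lit 244) (nat_lit 192)))) (XT.nd (nat_lit 78) (nat_lit 0) (nat_lit 0) (XT.lf (nat_lit 0) (nat_lit 4757956972) (nat_lit 76) (nat_lit 9839064310) (nat_lit 152) (nat_lit 35722403531) (nat_lit 5) (nat_lit 5) (nat_lit 6) (nat_lit 5) (nat_lit 7) (nat_lit 4) (nat_lit 285) (nat_lit 244) (nat_lit 191)) (XT.nd (nat_lit 78) (nat_lit 0) (nat_lit 0) (XT.lf (nat_lit 0) (nat_lit 16668153817) (nat_lit 76) (nat_lit 3670622303) (nat_lit 152) (nat_lit 33471456307) (nat_lit 5) (nat_lit 5) (nat_lit 6) (nat_lit 5) (nat_lit 7) (nat_lit 4) (nat_lit 286) (nat_lit 244) (nat_lit 190)) (XT.lf (nat_lit 0) (nat_lit 26596213851) (nat_lit 152) (nat_lit 28148898771) (nat_lit 0) (nat_lit 2830718505) (nat_lit 5) (nat_lit 5) (nat_lit 7) (nat_lit 4) (nat_lit 5) (nat_lit 4) (nat_lit 287) (nat_lit 244) (nat_lit 189))))) (XT.nd (nat_lit 234)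 (nat_lit 0) (nat_lit 0) (XT.nd (nat_lit 78) (nat_lit 76) (nat_lit 0) (XT.lf (nat_lit 0) (nat_lit 33435144651) (nat_lit 152) (nat_lit 18557364469) (nat_lit 0) (nat_lit 9643728129) (nat_lit 5) (nat_lit 5) (nat_lit 7) (nat_lit 4) (nat_lit 5) (nat_lit 4) (nat_lit 288) (nat_lit 244) (nat_lit 188)) (XT.nd (nat_lit 78) (nat_lit 76) (nat_lit 0) (XT.lf (nat_lit 0) (nat_lit 40807816963) (nat_lit 152) (nat_lit 8222358428) (nat_lit 0) (nat_lit 16992399351) (nat_lit 5) (nat_lit 5) (nat_lit 7) (nat_lit 4) (nat_lit 5) (nat_lit 4) (nat_lit 289) (nat_lit 244) (nat_lit 187)) (XT.lf (nat_lit 0) (nat_lit 3070987040) (nat_lit 76) (nat_lit 45760790969) (nat_lit 76) (nat_lit 21923150126) (nat_lit 4) (nat_lit 4) (nat_lit 5) (nat_lit 5) (nat_lit 5) (nat_lit 4) (nat_lit 290) (nat_lit 244) (nat_lit 186)))) (XT.nd (nat_lit 156) (nat_lit 0) (nat_lit 0) (XT.nd (nat_lit 78) (nat_lit 0) (nat_lit 0) (XT.lf (nat_lit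 0) (nat_lit 15713887787) (nat_lit 76) (nat_lit 41996599169) (nat_lit 76) (nat_lit 18138381261) (nat_lit 4) (nat_lit 4) (nat_lit 5) (nat_lit 5) (nat_lit 5) (nat_lit 4) (nat_lit 291) (nat_lit 244) (nat_lit 185)) (XT.lf (nat_lit 0) (nat_lit 29348289883) (nat_lit 76) (nat_lit 37940107523) (nat_lit 76) (nat_lit 14062836776) (nat_lit 4) (nat_lit 4) (nat_lit 5) (nat_lit 5) (nat_lit 5) (nat_lit 4) (nat_lit 292) (nat_lit 244) (nat_lit 184))) (XT.nd (nat_lit 78) (nat_lit 0) (nat_lit 0) (XT.lf (nat_lit 0) (nat_lit 44054989784) (nat_lit 76) (nat_lit 33567277561) (nat_lit 76) (nat_lit 9672365296) (nat_lit 4) (nat_lit 4) (nat_lit 5) (nat_lit 5) (nat_lit 5) (nat_lit 4) (nat_lit 293) (nat_lit 244) (nat_lit 183)) (XT.lf (nat_lit 0) (nat_lit 59921138303) (nat_lit 76) (nat_lit 28852196216) (nat_lit 76) (nat_lit 4940949213) (nat_lit 4) (nat_lit 4) (nat_lit 5) (nat_lit 5) (nat_lit 5) (nat_lit 4) (nat_lit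 294) (nat_lit 244) (nat_lit 182))))))) (XT.nd (nat_lit 936) (nat_lit 76) (nat_lit 0) (XT.nd (nat_lit 468) (nat_lit 0) (nat_lit 0) (XT.nd (nat_lit 234) (nat_lit 76) (nat_lit 0) (XT.nd (nat_lit 78) (nat_lit 0) (nat_lit 0) (XT.lf (nat_lit 0) (nat_lit 151473184) (nat_lit 152) (nat_lit 23611307537) (nat_lit 76) (nat_lit 76885142333) (nat_lit 3) (nat_lit 5) (nat_lit 5) (nat_lit 5) (nat_lit 4) (nat_lit 4) (nat_lit 295) (nat_lit 244) (nat_lit 181)) (XT.nd (nat_lit 78) (nat_lit 0) (nat_lit 0) (XT.lf (nat_lit 0) (nat_lit 5375966539) (nat_lit 152) (nat_lit 12758365763) (nat_lit 76) (nat_lit 89992340663) (nat_lit 3) (nat_lit 5) (nat_lit 5) (nat_lit 5) (nat_lit 4) (nat_lit 4) (nat_lit 296) (nat_lit 244) (nat_lit 180)) (XT.lf (nat_lit 0) (nat_lit 11010657103) (nat_lit 152) (nat_lit 1051176431) (nat_lit 76) (nat_lit 104142524845) (nat_lit 3) (nat_lit 5) (nat_lit 5) (nat_lit 5) (nat_lit 4) (nat_lit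 4) (nat_lit 297) (nat_lit 244) (nat_lit 179)))) (XT.nd (nat_lit 78) (nat_lit 0) (nat_lit 0) (XT.lf (nat_lit 0) (nat_lit 12189399525) (nat_lit 76) (nat_lit 5192691461) (nat_lit 152) (nat_lit 107523303649) (nat_lit 2) (nat_lit 5) (nat_lit 3) (nat_lit 5) (nat_lit 4) (nat_lit 4) (nat_lit 298) (nat_lit 244) (nat_lit 178)) (XT.nd (nat_lit 78) (nat_lit 0) (nat_lit 0) (XT.lf (nat_lit 0) (nat_lit 24339167309) (nat_lit 152) (nat_lit 107818549705) (nat_lit 0) (nat_lit 2138735016) (nat_lit 2) (nat_lit 5) (nat_lit 4) (nat_lit 4) (nat_lit 2) (nat_lit 4) (nat_lit 299) (nat_lit 244) (nat_lit 177)) (XT.lf (nat_lit 0) (nat_lit 31981115638) (nat_lit 152) (nat_lit 102676273259) (nat_lit 0) (nat_lit 9771152183) (nat_lit 2) (nat_lit 5) (nat_lit 4) (nat_lit 4) (nat_lit 2) (nat_lit 4) (nat_lit 300) (nat_lit 244) (nat_lit 176))))) (XT.nd (nat_lit 234) (nat_lit 0) (nat_lit 0) (XT.nd (nat_lit 78) (nat_lit 0)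 (nat_lit 0) (XT.lf (nat_lit 0) (nat_lit 40228337239) (nat_lit 152) (nat_lit 97133808669) (nat_lit 0) (nat_lit 18009548633) (nat_lit 2) (nat_lit 5) (nat_lit 4) (nat_lit 4) (nat_lit 2) (nat_lit 4) (nat_lit 301) (nat_lit 244) (nat_lit 175)) (XT.nd (nat_lit 78) (nat_lit 0) (nat_lit 0) (XT.lf (nat_lit 0) (nat_lit 49129704536) (nat_lit 152) (nat_lit 91158311701) (nat_lit 0) (nat_lit 26902744493) (nat_lit 2) (nat_lit 5) (nat_lit 4) (nat_lit 4) (nat_lit 2) (nat_lit 4) (nat_lit 302) (nat_lit 244) (nat_lit 174)) (XT.lf (nat_lit 0) (nat_lit 58737966372) (nat_lit 152) (nat_lit 84714372002) (nat_lit 0) (nat_lit 36503440185) (nat_lit 2) (nat_lit 5) (nat_lit 4) (nat_lit 4) (nat_lit 2) (nat_lit 4) (nat_lit 303) (nat_lit 244) (nat_lit 173)))) (XT.nd (nat_lit 78) (nat_lit 0) (nat_lit 0) (XT.lf (nat_lit 0) (nat_lit 69110060595) (nat_lit 152) (nat_lit 77763803262) (nat_lit 0) (nat_lit 46868528719) (nat_lit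 2) (nat_lit 5) (nat_lit 4) (nat_lit 4) (nat_lit 2) (nat_lit 4) (nat_lit 304) (nat_lit 244) (nat_lit 172)) (XT.nd (nat_lit 78) (nat_lit 0) (nat_lit 0) (XT.lf (nat_lit 0) (nat_lit 80307451467) (nat_lit 152) (nat_lit 70265416927) (nat_lit 0) (nat_lit 58059432842) (nat_lit 2) (nat_lit 5) (nat_lit 4) (nat_lit 4) (nat_lit 2) (nat_lit 4) (nat_lit 305) (nat_lit 244) (nat_lit 171)) (XT.lf (nat_lit 0) (nat_lit 92396493898) (nat_lit 152) (nat_lit 62174778113) (nat_lit 0) (nat_lit 70142469023) (nat_lit 2) (nat_lit 5) (nat_lit 4) (nat_lit 4) (nat_lit 2) (nat_lit 4) (nat_lit 306) (nat_lit 244) (nat_lit 170)))))) (XT.nd (nat_lit 468) (nat_lit 0) (nat_lit 0) (XT.nd (nat_lit 234) (nat_lit 76) (nat_lit 0) (XT.nd (nat_lit 78) (nat_lit 0) (nat_lit 0) (XT.lf (nat_lit 0) (nat_lit 105448826657) (nat_lit 152) (nat_lit 53443942296) (nat_lit 0) (nat_lit 83189240440) (nat_lit 2) (nat_lit 5) (nat_lit 4) (nat_lit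 4) (nat_lit 2) (nat_lit 4) (nat_lit 307) (nat_lit 244) (nat_lit 169)) (XT.nd (nat_lit 78) (nat_lit 0) (nat_lit 0) (XT.lf (nat_lit 0) (nat_lit 119541796900) (nat_lit 152) (nat_lit 44021171189) (nat_lit 0) (nat_lit 97277061293) (nat_lit 2) (nat_lit 5) (nat_lit 4) (nat_lit 4) (nat_lit 2) (nat_lit 4) (nat_lit 308) (nat_lit 244) (nat_lit 168)) (XT.lf (nat_lit 0) (nat_lit 134758918527) (nat_lit 152) (nat_lit 33850626147) (nat_lit 0) (nat_lit 112489414965) (nat_lit 2) (nat_lit 5) (nat_lit 4) (nat_lit 4) (nat_lit 2) (nat_lit 4) (nat_lit 309) (nat_lit 244) (nat_lit 167)))) (XT.nd (nat_lit 78) (nat_lit 76) (nat_lit 0) (XT.lf (nat_lit 0) (nat_lit 151190367072) (nat_lit 152) (nat_lit 22872037275) (nat_lit 0) (nat_lit 128916448738) (nat_lit 2) (nat_lit 5) (nat_lit 4) (nat_lit 4) (nat_lit 2) (nat_lit 4) (nat_lit 310) (nat_lit 244) (nat_lit 166)) (XT.nd (nat_lit 78) (nat_lit 76) (nat_lit 0) (XT.lf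 (nat_lit 0) (nat_lit 168933514082) (nat_lit 152) (nat_lit 11020346268) (nat_lit 0) (nat_lit 146655507996) (nat_lit 2) (nat_lit 5) (nat_lit 4) (nat_lit 4) (nat_lit 2) (nat_lit 4) (nat_lit 311) (nat_lit 244) (nat_lit 165)) (XT.lf (nat_lit 0) (nat_lit 1868130573) (nat_lit 76) (nat_lit 186270302145) (nat_lit 76) (nat_lit 163988511102) (nat_lit 1) (nat_lit 4) (nat_lit 2) (nat_lit 5) (nat_lit 2) (nat_lit 4) (nat_lit 312) (nat_lit 244) (nat_lit 164))))) (XT.nd (nat_lit 234) (nat_lit 0) (nat_lit 0) (XT.nd (nat_lit 78) (nat_lit 0) (nat_lit 0) (XT.lf (nat_lit 0) (nat_lit 16409743059) (nat_lit 76) (nat_lit 192768789562) (nat_lit 76) (nat_lit 170483493930) (nat_lit 1) (nat_lit 4) (nat_lit 2) (nat_lit 5) (nat_lit 2) (nat_lit 4) (nat_lit 313) (nat_lit 244) (nat_lit 163)) (XT.nd (nat_lit 78) (nat_lit 0) (nat_lit 0) (XT.lf (nat_lit 0) (nat_lit 32110351802) (nat_lit 76) (nat_lit 199789147953) (nat_lit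 76) (nat_lit 177500607332) (nat_lit 1) (nat_lit 4) (nat_lit 2) (nat_lit 5) (nat_lit 2) (nat_lit 4) (nat_lit 314) (nat_lit 244) (nat_lit 162)) (XT.lf (nat_lit 0) (nat_lit 49062997448) (nat_lit 76) (nat_lit 207372979444) (nat_lit 76) (nat_lit 185081434202) (nat_lit 1) (nat_lit 4) (nat_lit 2) (nat_lit 5) (nat_lit 2) (nat_lit 4) (nat_lit 315) (nat_lit 244) (nat_lit 161)))) (XT.nd (nat_lit 156) (nat_lit 0) (nat_lit 0) (XT.nd (nat_lit 78) (nat_lit 0) (nat_lit 0) (XT.lf (nat_lit 0) (nat_lit 67368140117) (nat_lit 76) (nat_lit 215565225256) (nat_lit 76) (nat_lit 193270897960) (nat_lit 1) (nat_lit 4) (nat_lit 2) (nat_lit 5) (nat_lit 2) (nat_lit 4) (nat_lit 316) (nat_lit 244) (nat_lit 160)) (XT.lf (nat_lit 0) (nat_lit 87134254730) (nat_lit 76) (nat_lit 224414432033) (nat_lit 76) (nat_lit 202117528759) (nat_lit 1) (nat_lit 4) (nat_lit 2) (nat_lit 5) (nat_lit 2) (nat_lit 4) (nat_lit 317) (nat_lit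 244) (nat_lit 159))) (XT.nd (nat_lit 78) (nat_lit 0) (nat_lit 0) (XT.lf (nat_lit 0) (nat_lit 108478473818) (nat_lit 76) (nat_lit 233973039518) (nat_lit 76) (nat_lit 211673751079) (nat_lit 1) (nat_lit 4) (nat_lit 2) (nat_lit 5) (nat_lit 2) (nat_lit 4) (nat_lit 318) (nat_lit 244) (nat_lit 158)) (XT.lf (nat_lit 0) (nat_lit 131527281642) (nat_lit 76) (nat_lit 244297691310) (nat_lit 76) (nat_lit 221996194387) (nat_lit 1) (nat_lit 4) (nat_lit 2) (nat_lit 5) (nat_lit 2) (nat_lit 4) (nat_lit 319) (nat_lit 244) (nat_lit 157))))))))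
noncomputable def xc59 : XT := (XT.nd (nat_lit 32136) (nat_lit 0) (nat_lit 608) (XT.nd (nat_lit 936) (nat_lit 0) (nat_lit 0) (XT.nd (nat_lit 468) (nat_lit 0) (nat_lit 0) (XT.nd (nat_lit 234) (nat_lit 0) (nat_lit 0) (XT.nd (nat_lit 78) (nat_lit 0) (nat_lit 0) (XT.lf (nat_lit 0) (nat_lit 156417263729) (nat_lit 76) (nat_lit 255449570533) (nat_lit 76) (nat_lit 233146028715) (nat_lit 1) (nat_lit 4) (nat_lit 2) (nat_lit 5) (nat_lit 2) (nat_lit 4) (nat_lit 320) (nat_lit 244) (nat_lit 156)) (XT.nd (nat_lit 78) (nat_lit 0) (nat_lit 0) (XT.lf (nat_lit 0) (nat_lit 183295916271) (nat_lit 76) (nat_lit 267494762395) (nat_lit 76) (nat_lit 245189327157) (nat_lit 1) (nat_lit 4) (nat_lit 2) (nat_lit 5) (nat_lit 2) (nat_lit 4) (nat_lit 321) (nat_lit 244) (nat_lit 155)) (XT.lf (nat_lit 0) (nat_lit 212322520170) (nat_lit 76) (nat_lit 280504645812) (nat_lit 76) (nat_lit 258197457407) (nat_lit 1) (nat_lit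 4) (nat_lit 2) (nat_lit 5) (nat_lit 2) (nat_lit 4) (nat_lit 322) (nat_lit 244) (nat_lit 154)))) (XT.nd (nat_lit 78) (nat_lit 0) (nat_lit 0) (XT.lf (nat_lit 0) (nat_lit 243669084932) (nat_lit 76) (nat_lit 294556316389) (nat_lit 76) (nat_lit 272247504681) (nat_lit 1) (nat_lit 4) (nat_lit 2) (nat_lit 5) (nat_lit 2) (nat_lit 4) (nat_lit 323) (nat_lit 244) (nat_lit 153)) (XT.nd (nat_lit 78) (nat_lit 0) (nat_lit 0) (XT.lf (nat_lit 0) (nat_lit 277521367978) (nat_lit 76) (nat_lit 309733043284) (nat_lit 76) (nat_lit 287422728519) (nat_lit 1) (nat_lit 4) (nat_lit 2) (nat_lit 5) (nat_lit 2) (nat_lit 4) (nat_lit 324) (nat_lit 244) (nat_lit 152)) (XT.lf (nat_lit 0) (nat_lit 314079975428) (nat_lit 76) (nat_lit 326124762659) (nat_lit 76) (nat_lit 303813056173) (nat_lit 1) (nat_lit 4) (nat_lit 2) (nat_lit 5) (nat_lit 2) (nat_lit 4) (nat_lit 325) (nat_lit 244) (nat_lit 151))))) (XT.nd (nat_lit 234)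 (nat_lit 0) (nat_lit 0) (XT.nd (nat_lit 78) (nat_lit 0) (nat_lit 0) (XT.lf (nat_lit 0) (nat_lit 353561550884) (nat_lit 76) (nat_lit 343828610626) (nat_lit 76) (nat_lit 321515615510) (nat_lit 1) (nat_lit 4) (nat_lit 2) (nat_lit 5) (nat_lit 2) (nat_lit 4) (nat_lit 326) (nat_lit 244) (nat_lit 150)) (XT.nd (nat_lit 78) (nat_lit 0) (nat_lit 0) (XT.lf (nat_lit 0) (nat_lit 396200059235) (nat_lit 76) (nat_lit 362949498878) (nat_lit 76) (nat_lit 340635310586) (nat_lit 1) (nat_lit 4) (nat_lit 2) (nat_lit 5) (nat_lit 2) (nat_lit 4) (nat_lit 327) (nat_lit 244) (nat_lit 149)) (XT.lf (nat_lit 0) (nat_lit 442248173126) (nat_lit 76) (nat_lit 383600736383) (nat_lit 76) (nat_lit 361285443298) (nat_lit 1) (nat_lit 4) (nat_lit 2) (nat_lit 5) (nat_lit 2) (nat_lit 4) (nat_lit 328) (nat_lit 244) (nat_lit 148)))) (XT.nd (nat_lit 78) (nat_lit 0) (nat_lit 0) (XT.lf (nat_lit 0) (nat_lit 491978770266) (nat_lit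 76) (nat_lit 405904700844) (nat_lit 76) (nat_lit 383588384803) (nat_lit 1) (nat_lit 4) (nat_lit 2) (nat_lit 5) (nat_lit 2) (nat_lit 4) (nat_lit 329) (nat_lit 244) (nat_lit 147)) (XT.nd (nat_lit 78) (nat_lit 0) (nat_lit 0) (XT.lf (nat_lit 0) (nat_lit 545686550492) (nat_lit 76) (nat_lit 429993563901) (nat_lit 76) (nat_lit 407676300679) (nat_lit 1) (nat_lit 4) (nat_lit 2) (nat_lit 5) (nat_lit 2) (nat_lit 4) (nat_lit 330) (nat_lit 244) (nat_lit 146)) (XT.lf (nat_lit 0) (nat_lit 603689782130) (nat_lit 76) (nat_lit 456010074375) (nat_lit 76) (nat_lit 433691934132) (nat_lit 1) (nat_lit 4) (nat_lit 2) (nat_lit 5) (nat_lit 2) (nat_lit 4) (nat_lit 331) (nat_lit 244) (nat_lit 145)))))) (XT.nd (nat_lit 468) (nat_lit 0) (nat_lit 0) (XT.nd (nat_lit 234) (nat_lit 0) (nat_lit 0) (XT.nd (nat_lit 78) (nat_lit 0) (nat_lit 0) (XT.lf (nat_lit 0) (nat_lit 666332188036) (nat_lit 76) (nat_lit 484108404177)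 (nat_lit 76) (nat_lit 461789451879) (nat_lit 1) (nat_lit 4) (nat_lit 2) (nat_lit 5) (nat_lit 2) (nat_lit 4) (nat_lit 332) (nat_lit 244) (nat_lit 144)) (XT.nd (nat_lit 78) (nat_lit 0) (nat_lit 0) (XT.lf (nat_lit 0) (nat_lit 733984982465) (nat_lit 76) (nat_lit 514455061930) (nat_lit 76) (nat_lit 492135357729) (nat_lit 1) (nat_lit 4) (nat_lit 2) (nat_lit 5) (nat_lit 2) (nat_lit 4) (nat_lit 333) (nat_lit 244) (nat_lit 143)) (XT.lf (nat_lit 0) (nat_lit 807049070866) (nat_lit 76) (nat_lit 547229879679) (nat_lit 76) (nat_lit 524909479271) (nat_lit 1) (nat_lit 4) (nat_lit 2) (nat_lit 5) (nat_lit 2) (nat_lit 4) (nat_lit 334) (nat_lit 244) (nat_lit 142)))) (XT.nd (nat_lit 78) (nat_lit 0) (nat_lit 0) (XT.lf (nat_lit 0) (nat_lit 885957425616) (nat_lit 76) (nat_lit 582627078567) (nat_lit 76) (nat_lit 560306033523) (nat_lit 1) (nat_lit 4) (nat_lit 2) (nat_lit 5) (nat_lit 2) (nat_lit 4) (nat_lit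 335) (nat_lit 244) (nat_lit 141)) (XT.nd (nat_lit 78) (nat_lit 0) (nat_lit 0) (XT.lf (nat_lit 0) (nat_lit 971177651779) (nat_lit 76) (nat_lit 620856419771) (nat_lit 76) (nat_lit 598534777843) (nat_lit 1) (nat_lit 4) (nat_lit 2) (nat_lit 5) (nat_lit 2) (nat_lit 4) (nat_lit 336) (nat_lit 244) (nat_lit 140)) (XT.lf (nat_lit 0) (nat_lit 1063214758103) (nat_lit 76) (nat_lit 662144447537) (nat_lit 76) (nat_lit 639822252938) (nat_lit 1) (nat_lit 4) (nat_lit 2) (nat_lit 5) (nat_lit 2) (nat_lit 4) (nat_lit 337) (nat_lit 244) (nat_lit 139))))) (XT.nd (nat_lit 30420) (nat_lit 0) (nat_lit 3040) (XT.nd (nat_lit 30264) (nat_lit 0) (nat_lit 3344) (XT.lf (nat_lit 0) (nat_lit 1162614149662) (nat_lit 76) (nat_lit 706735831659) (nat_lit 76) (nat_lit 684413125326) (nat_lit 1) (nat_lit 4) (nat_lit 2) (nat_lit 5) (nat_lit 2) (nat_lit 4) (nat_lit 338) (nat_lit 244) (nat_lit 138)) (XT.nd (nat_lit 78) (nat_lit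 0) (nat_lit 0) (XT.lf (nat_lit 0) (nat_lit 766408745) (nat_lit 380) (nat_lit 1413301983) (nat_lit 380) (nat_lit 1413301983) (nat_lit 45) (nat_lit 3) (nat_lit 50) (nat_lit 3) (nat_lit 50) (nat_lit 5) (nat_lit 245) (nat_lit 245) (nat_lit 230)) (XT.lf (nat_lit 76) (nat_lit 295682773) (nat_lit 0) (nat_lit 2761271134) (nat_lit 380) (nat_lit 4288677543) (nat_lit 46) (nat_lit 5) (nat_lit 45) (nat_lit 3) (nat_lit 50) (nat_lit 5) (nat_lit 246) (nat_lit 245) (nat_lit 229)))) (XT.nd (nat_lit 156) (nat_lit 304) (nat_lit 0) (XT.nd (nat_lit 78) (nat_lit 0) (nat_lit 76) (XT.lf (nat_lit 76) (nat_lit 3745147074) (nat_lit 0) (nat_lit 887512516) (nat_lit 380) (nat_lit 2892056730) (nat_lit 46) (nat_lit 5) (nat_lit 45) (nat_lit 3) (nat_lit 50) (nat_lit 5) (nat_lit 247) (nat_lit 245) (nat_lit 228)) (XT.lf (nat_lit 0) (nat_lit 6226468445) (nat_lit 304) (nat_lit 365435776) (nat_lit 380) (nat_lit 1135861344)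 (nat_lit 46) (nat_lit 5) (nat_lit 50) (nat_lit 5) (nat_lit 51) (nat_lit 5) (nat_lit 248) (nat_lit 245) (nat_lit 227))) (XT.nd (nat_lit 78) (nat_lit 380) (nat_lit 0) (XT.lf (nat_lit 76) (nat_lit 3384224296) (nat_lit 0) (nat_lit 4542743585) (nat_lit 380) (nat_lit 22683150) (nat_lit 47) (nat_lit 5) (nat_lit 46) (nat_lit 5) (nat_lit 51) (nat_lit 5) (nat_lit 249) (nat_lit 245) (nat_lit 226)) (XT.lf (nat_lit 0) (nat_lit 1383899068) (nat_lit 380) (nat_lit 860899361) (nat_lit 456) (nat_lit 5951180748) (nat_lit 41) (nat_lit 5) (nat_lit 46) (nat_lit 5) (nat_lit 47) (nat_lit 5) (nat_lit 250) (nat_lit 245) (nat_lit 225))))))) (XT.nd (nat_lit 1014) (nat_lit 760) (nat_lit 0) (XT.nd (nat_lit 468) (nat_lit 836) (nat_lit 0) (XT.nd (nat_lit 234) (nat_lit 532) (nat_lit 0) (XT.nd (nat_lit 78) (nat_lit 380) (nat_lit 0) (XT.lf (nat_lit 0) (nat_lit 2874834384) (nat_lit 380) (nat_lit 5255956168) (nat_lit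 76) (nat_lit 334067730) (nat_lit 42) (nat_lit 5) (nat_lit 47) (nat_lit 5) (nat_lit 43) (nat_lit 5) (nat_lit 251) (nat_lit 245) (nat_lit 224)) (XT.nd (nat_lit 78) (nat_lit 380) (nat_lit 0) (XT.lf (nat_lit 0) (nat_lit 4461754941) (nat_lit 380) (nat_lit 1249113567) (nat_lit 76) (nat_lit 3046923860) (nat_lit 42) (nat_lit 5) (nat_lit 47) (nat_lit 5) (nat_lit 43) (nat_lit 5) (nat_lit 252) (nat_lit 245) (nat_lit 223)) (XT.lf (nat_lit 0) (nat_lit 3152574593) (nat_lit 380) (nat_lit 3000961133) (nat_lit 456) (nat_lit 2923023930) (nat_lit 37) (nat_lit 5) (nat_lit 42) (nat_lit 5) (nat_lit 43) (nat_lit 5) (nat_lit 253) (nat_lit 245) (nat_lit 222)))) (XT.nd (nat_lit 78) (nat_lit 532) (nat_lit 0) (XT.lf (nat_lit 0) (nat_lit 7896141160) (nat_lit 380) (nat_lit 26055548) (nat_lit 456) (nat_lit 1503892863) (nat_lit 37) (nat_lit 5) (nat_lit 42) (nat_lit 5) (nat_lit 43) (nat_lit 5) (nat_lit 254) (nat_lit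 245) (nat_lit 221)) (XT.nd (nat_lit 78) (nat_lit 0) (nat_lit 0) (XT.lf (nat_lit 0) (nat_lit 97104094) (nat_lit 532) (nat_lit 6584133700) (nat_lit 76) (nat_lit 3117207683) (nat_lit 30) (nat_lit 5) (nat_lit 37) (nat_lit 5) (nat_lit 31) (nat_lit 5) (nat_lit 255) (nat_lit 245) (nat_lit 220)) (XT.lf (nat_lit 0) (nat_lit 1704830523) (nat_lit 532) (nat_lit 1898644622) (nat_lit 76) (nat_lit 6597661625) (nat_lit 30) (nat_lit 5) (nat_lit 37) (nat_lit 5) (nat_lit 31) (nat_lit 5) (nat_lit 256) (nat_lit 245) (nat_lit 219))))) (XT.nd (nat_lit 234) (nat_lit 456) (nat_lit 0) (XT.nd (nat_lit 78) (nat_lit 152) (nat_lit 0) (XT.lf (nat_lit 0) (nat_lit 3244643670) (nat_lit 228) (nat_lit 197069035) (nat_lit 304) (nat_lit 7194717102) (nat_lit 27) (nat_lit 5) (nat_lit 30) (nat_lit 5) (nat_lit 31) (nat_lit 5) (nat_lit 257) (nat_lit 245) (nat_lit 218)) (XT.nd (nat_lit 78) (nat_lit 152) (nat_lit 0) (XT.lf (nat_lit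 0) (nat_lit 5380839383) (nat_lit 304) (nat_lit 2363646174) (nat_lit 76) (nat_lit 3357394855) (nat_lit 27) (nat_lit 5) (nat_lit 31) (nat_lit 5) (nat_lit 28) (nat_lit 5) (nat_lit 258) (nat_lit 245) (nat_lit 217)) (XT.lf (nat_lit 0) (nat_lit 3141422464) (nat_lit 152) (nat_lit 4346098021) (nat_lit 228) (nat_lit 4116420821) (nat_lit 25) (nat_lit 5) (nat_lit 27) (nat_lit 5) (nat_lit 28) (nat_lit 5) (nat_lit 259) (nat_lit 245) (nat_lit 216)))) (XT.nd (nat_lit 156) (nat_lit 228) (nat_lit 0) (XT.nd (nat_lit 78) (nat_lit 228) (nat_lit 0) (XT.lf (nat_lit 0) (nat_lit 9145926966) (nat_lit 152) (nat_lit 616431762) (nat_lit 228) (nat_lit 2384179443) (nat_lit 25) (nat_lit 5) (nat_lit 27) (nat_lit 5) (nat_lit 28) (nat_lit 5) (nat_lit 260) (nat_lit 245) (nat_lit 215)) (XT.lf (nat_lit 0) (nat_lit 2885854872) (nat_lit 228) (nat_lit 9424363407) (nat_lit 304) (nat_lit 415357425) (nat_lit 22) (nat_lit 5)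 (nat_lit 25) (nat_lit 5) (nat_lit 26) (nat_lit 5) (nat_lit 261) (nat_lit 245) (nat_lit 214))) (XT.nd (nat_lit 78) (nat_lit 152) (nat_lit 0) (XT.lf (nat_lit 0) (nat_lit 1666093095) (nat_lit 304) (nat_lit 4065996335) (nat_lit 76) (nat_lit 7612568533) (nat_lit 21) (nat_lit 5) (nat_lit 25) (nat_lit 5) (nat_lit 22) (nat_lit 5) (nat_lit 262) (nat_lit 245) (nat_lit 213)) (XT.lf (nat_lit 0) (nat_lit 2198229695) (nat_lit 152) (nat_lit 1691190874) (nat_lit 228) (nat_lit 10123409656) (nat_lit 19) (nat_lit 5) (nat_lit 21) (nat_lit 5) (nat_lit 22) (nat_lit 5) (nat_lit 263) (nat_lit 245) (nat_lit 212)))))) (XT.nd (nat_lit 468) (nat_lit 456) (nat_lit 0) (XT.nd (nat_lit 234) (nat_lit 152) (nat_lit 0) (XT.nd (nat_lit 78) (nat_lit 152) (nat_lit 0) (XT.lf (nat_lit 0) (nat_lit 6415928547) (nat_lit 228) (nat_lit 5670745449) (nat_lit 76) (nat_lit 2637989144) (nat_lit 19) (nat_lit 5) (nat_lit 22) (nat_lit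 5) (nat_lit 20) (nat_lit 5) (nat_lit 264) (nat_lit 245) (nat_lit 211)) (XT.nd (nat_lit 78) (nat_lit 0) (nat_lit 0) (XT.lf (nat_lit 0) (nat_lit 898176292) (nat_lit 152) (nat_lit 8262807183) (nat_lit 228) (nat_lit 6331359941) (nat_lit 17) (nat_lit 5) (nat_lit 19) (nat_lit 5) (nat_lit 20) (nat_lit 5) (nat_lit 265) (nat_lit 245) (nat_lit 210)) (XT.lf (nat_lit 0) (nat_lit 8249374438) (nat_lit 152) (nat_lit 3984270889) (nat_lit 228) (nat_lit 4079351502) (nat_lit 17) (nat_lit 5) (nat_lit 19) (nat_lit 5) (nat_lit 20) (nat_lit 5) (nat_lit 266) (nat_lit 245) (nat_lit 209)))) (XT.nd (nat_lit 78) (nat_lit 152) (nat_lit 0) (XT.lf (nat_lit 0) (nat_lit 15523452055) (nat_lit 228) (nat_lit 1090064088) (nat_lit 76) (nat_lit 588264003) (nat_lit 17) (nat_lit 5) (nat_lit 20) (nat_lit 5) (nat_lit 18) (nat_lit 4) (nat_lit 267) (nat_lit 245) (nat_lit 208)) (XT.nd (nat_lit 78) (nat_lit 0) (nat_lit 0) (XT.lf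 (nat_lit 0) (nat_lit 1096331143) (nat_lit 152) (nat_lit 11562718696) (nat_lit 76) (nat_lit 5482828980) (nat_lit 15) (nat_lit 5) (nat_lit 17) (nat_lit 5) (nat_lit 16) (nat_lit 5) (nat_lit 268) (nat_lit 245) (nat_lit 207)) (XT.lf (nat_lit 0) (nat_lit 3992607778) (nat_lit 152) (nat_lit 4335387420) (nat_lit 76) (nat_lit 10826623525) (nat_lit 15) (nat_lit 5) (nat_lit 17) (nat_lit 5) (nat_lit 16) (nat_lit 5) (nat_lit 269) (nat_lit 245) (nat_lit 206))))) (XT.nd (nat_lit 234) (nat_lit 304) (nat_lit 0) (XT.nd (nat_lit 78) (nat_lit 0) (nat_lit 0) (XT.lf (nat_lit 0) (nat_lit 3594249179) (nat_lit 152) (nat_lit 3575500951) (nat_lit 228) (nat_lit 13074829984) (nat_lit 13) (nat_lit 5) (nat_lit 15) (nat_lit 5) (nat_lit 16) (nat_lit 5) (nat_lit 270) (nat_lit 245) (nat_lit 205)) (XT.nd (nat_lit 78) (nat_lit 0) (nat_lit 0) (XT.lf (nat_lit 0) (nat_lit 10723864721) (nat_lit 228) (nat_lit 9104788714) (nat_lit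 76) (nat_lit 1583386265) (nat_lit 13) (nat_lit 5) (nat_lit 16) (nat_lit 5) (nat_lit 14) (nat_lit 4) (nat_lit 271) (nat_lit 245) (nat_lit 204)) (XT.lf (nat_lit 0) (nat_lit 14621599248) (nat_lit 228) (nat_lit 1101082425) (nat_lit 76) (nat_lit 6945587186) (nat_lit 13) (nat_lit 5) (nat_lit 16) (nat_lit 5) (nat_lit 14) (nat_lit 4) (nat_lit 272) (nat_lit 245) (nat_lit 203)))) (XT.nd (nat_lit 156) (nat_lit 228) (nat_lit 0) (XT.nd (nat_lit 78) (nat_lit 0) (nat_lit 0) (XT.lf (nat_lit 0) (nat_lit 7888839906) (nat_lit 76) (nat_lit 11100947396) (nat_lit 152) (nat_lit 5022625737) (nat_lit 12) (nat_lit 5) (nat_lit 13) (nat_lit 5) (nat_lit 14) (nat_lit 4) (nat_lit 273) (nat_lit 245) (nat_lit 202)) (XT.lf (nat_lit 0) (nat_lit 17613096595) (nat_lit 76) (nat_lit 6094508570) (nat_lit 152) (nat_lit 1756569117) (nat_lit 12) (nat_lit 5) (nat_lit 13) (nat_lit 5) (nat_lit 14) (nat_lit 4) (nat_lit 274) (nat_lit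 245) (nat_lit 201))) (XT.nd (nat_lit 78) (nat_lit 0) (nat_lit 0) (XT.lf (nat_lit 0) (nat_lit 1047480310) (nat_lit 152) (nat_lit 631381409) (nat_lit 228) (nat_lit 25350159378) (nat_lit 9) (nat_lit 5) (nat_lit 11) (nat_lit 5) (nat_lit 12) (nat_lit 5) (nat_lit 275) (nat_lit 245) (nat_lit 200)) (XT.lf (nat_lit 0) (nat_lit 5613296326) (nat_lit 228) (nat_lit 17821643658) (nat_lit 76) (nat_lit 5255019079) (nat_lit 9) (nat_lit 5) (nat_lit 12) (nat_lit 5) (nat_lit 10) (nat_lit 4) (nat_lit 276) (nat_lit 245) (nat_lit 199))))))))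
noncomputable def xc60 : XT := (XT.nd (nat_lit 1950) (nat_lit 76) (nat_lit 0) (XT.nd (nat_lit 936) (nat_lit 228) (nat_lit 0) (XT.nd (nat_lit 468) (nat_lit 152) (nat_lit 0) (XT.nd (nat_lit 234) (nat_lit 76) (nat_lit 0) (XT.nd (nat_lit 78) (nat_lit 76) (nat_lit 0) (XT.lf (nat_lit 0) (nat_lit 9853067597) (nat_lit 228) (nat_lit 9068193347) (nat_lit 76) (nat_lit 11563337715) (nat_lit 9) (nat_lit 5) (nat_lit 12) (nat_lit 5) (nat_lit 10) (nat_lit 4) (nat_lit 277) (nat_lit 245) (nat_lit 198)) (XT.nd (nat_lit 78) (nat_lit 0) (nat_lit 0) (XT.lf (nat_lit 0) (nat_lit 364079936) (nat_lit 76) (nat_lit 14052791560) (nat_lit 152) (nat_lit 18007217575) (nat_lit 8) (nat_lit 5) (nat_lit 9) (nat_lit 5) (nat_lit 10) (nat_lit 4) (nat_lit 278) (nat_lit 245) (nat_lit 197)) (XT.lf (nat_lit 0) (nat_lit 11027989665) (nat_lit 76) (nat_lit 8542666257) (nat_lit 152) (nat_lit 14930155406) (nat_lit 8) (nat_lit 5)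 (nat_lit 9) (nat_lit 5) (nat_lit 10) (nat_lit 4) (nat_lit 279) (nat_lit 245) (nat_lit 196)))) (XT.nd (nat_lit 78) (nat_lit 76) (nat_lit 0) (XT.lf (nat_lit 0) (nat_lit 22509214386) (nat_lit 76) (nat_lit 2606172917) (nat_lit 152) (nat_lit 11630050587) (nat_lit 8) (nat_lit 5) (nat_lit 9) (nat_lit 5) (nat_lit 10) (nat_lit 4) (nat_lit 280) (nat_lit 245) (nat_lit 195)) (XT.nd (nat_lit 78) (nat_lit 76) (nat_lit 0) (XT.lf (nat_lit 0) (nat_lit 31175117817) (nat_lit 152) (nat_lit 4386673771) (nat_lit 0) (nat_lit 3602183100) (nat_lit 8) (nat_lit 5) (nat_lit 10) (nat_lit 4) (nat_lit 8) (nat_lit 4) (nat_lit 281) (nat_lit 245) (nat_lit 194)) (XT.lf (nat_lit 0) (nat_lit 6475152948) (nat_lit 76) (nat_lit 31449287277) (nat_lit 76) (nat_lit 3835218910) (nat_lit 7) (nat_lit 4) (nat_lit 8) (nat_lit 5) (nat_lit 8) (nat_lit 4) (nat_lit 282) (nat_lit 245) (nat_lit 193))))) (XT.nd (nat_lit 234) (nat_lit 76)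 (nat_lit 0) (XT.nd (nat_lit 78) (nat_lit 0) (nat_lit 0) (XT.lf (nat_lit 0) (nat_lit 722726374) (nat_lit 152) (nat_lit 26148884220) (nat_lit 76) (nat_lit 17681813059) (nat_lit 6) (nat_lit 5) (nat_lit 8) (nat_lit 5) (nat_lit 7) (nat_lit 4) (nat_lit 283) (nat_lit 245) (nat_lit 192)) (XT.nd (nat_lit 78) (nat_lit 0) (nat_lit 0) (XT.lf (nat_lit 0) (nat_lit 5420987971) (nat_lit 152) (nat_lit 16411765572) (nat_lit 76) (nat_lit 25731375447) (nat_lit 6) (nat_lit 5) (nat_lit 8) (nat_lit 5) (nat_lit 7) (nat_lit 4) (nat_lit 284) (nat_lit 245) (nat_lit 191)) (XT.lf (nat_lit 0) (nat_lit 10479260613) (nat_lit 152) (nat_lit 5923211694) (nat_lit 76) (nat_lit 34414523029) (nat_lit 6) (nat_lit 5) (nat_lit 8) (nat_lit 5) (nat_lit 7) (nat_lit 4) (nat_lit 285) (nat_lit 245) (nat_lit 190)))) (XT.nd (nat_lit 78) (nat_lit 0) (nat_lit 0) (XT.lf (nat_lit 0) (nat_lit 5662176822) (nat_lit 76) (nat_lit 10401517915)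 (nat_lit 152) (nat_lit 38256710158) (nat_lit 5) (nat_lit 5) (nat_lit 6) (nat_lit 5) (nat_lit 7) (nat_lit 4) (nat_lit 286) (nat_lit 245) (nat_lit 189)) (XT.nd (nat_lit 78) (nat_lit 0) (nat_lit 0) (XT.lf (nat_lit 0) (nat_lit 18486405467) (nat_lit 76) (nat_lit 3756242883) (nat_lit 152) (nat_lit 35849649056) (nat_lit 5) (nat_lit 5) (nat_lit 6) (nat_lit 5) (nat_lit 7) (nat_lit 4) (nat_lit 287) (nat_lit 245) (nat_lit 188)) (XT.lf (nat_lit 0) (nat_lit 28984812115) (nat_lit 152) (nat_lit 29935486735) (nat_lit 0) (nat_lit 3240160005) (nat_lit 5) (nat_lit 5) (nat_lit 7) (nat_lit 4) (nat_lit 5) (nat_lit 4) (nat_lit 288) (nat_lit 245) (nat_lit 187)))))) (XT.nd (nat_lit 468) (nat_lit 152) (nat_lit 0) (XT.nd (nat_lit 234) (nat_lit 0) (nat_lit 0) (XT.nd (nat_lit 78) (nat_lit 76) (nat_lit 0) (XT.lf (nat_lit 0) (nat_lit 36351531368) (nat_lit 152) (nat_lit 19611098129) (nat_lit 0) (nat_lit 10584656026)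 (nat_lit 5) (nat_lit 5) (nat_lit 7) (nat_lit 4) (nat_lit 5) (nat_lit 4) (nat_lit 289) (nat_lit 245) (nat_lit 186)) (XT.nd (nat_lit 78) (nat_lit 76) (nat_lit 0) (XT.lf (nat_lit 0) (nat_lit 44296123009) (nat_lit 152) (nat_lit 8481206827) (nat_lit 0) (nat_lit 18508670602) (nat_lit 5) (nat_lit 5) (nat_lit 7) (nat_lit 4) (nat_lit 5) (nat_lit 4) (nat_lit 290) (nat_lit 245) (nat_lit 185)) (XT.lf (nat_lit 0) (nat_lit 3705506525) (nat_lit 76) (nat_lit 49249277098) (nat_lit 76) (nat_lit 23442771852) (nat_lit 4) (nat_lit 4) (nat_lit 5) (nat_lit 5) (nat_lit 5) (nat_lit 4) (nat_lit 291) (nat_lit 245) (nat_lit 184)))) (XT.nd (nat_lit 78) (nat_lit 0) (nat_lit 0) (XT.lf (nat_lit 0) (nat_lit 17331036330) (nat_lit 76) (nat_lit 45196718632) (nat_lit 76) (nat_lit 19372571869) (nat_lit 4) (nat_lit 4) (nat_lit 5) (nat_lit 5) (nat_lit 5) (nat_lit 4) (nat_lit 292) (nat_lit 245) (nat_lit 183)) (XT.nd (nat_lit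 78) (nat_lit 0) (nat_lit 0) (XT.lf (nat_lit 0) (nat_lit 32029521148) (nat_lit 76) (nat_lit 40827530504) (nat_lit 76) (nat_lit 14987049002) (nat_lit 4) (nat_lit 4) (nat_lit 5) (nat_lit 5) (nat_lit 5) (nat_lit 4) (nat_lit 293) (nat_lit 245) (nat_lit 182)) (XT.lf (nat_lit 0) (nat_lit 47888063109) (nat_lit 76) (nat_lit 36115821228) (nat_lit 76) (nat_lit 10260214969) (nat_lit 4) (nat_lit 4) (nat_lit 5) (nat_lit 5) (nat_lit 5) (nat_lit 4) (nat_lit 294) (nat_lit 245) (nat_lit 181))))) (XT.nd (nat_lit 234) (nat_lit 76) (nat_lit 0) (XT.nd (nat_lit 78) (nat_lit 76) (nat_lit 0) (XT.lf (nat_lit 0) (nat_lit 65000638759) (nat_lit 76) (nat_lit 31033669563) (nat_lit 76) (nat_lit 5164058899) (nat_lit 4) (nat_lit 4) (nat_lit 5) (nat_lit 5) (nat_lit 5) (nat_lit 4) (nat_lit 295) (nat_lit 245) (nat_lit 180)) (XT.nd (nat_lit 78) (nat_lit 0) (nat_lit 0) (XT.lf (nat_lit 0) (nat_lit 315029740) (nat_lit 152)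 (nat_lit 25227315845) (nat_lit 76) (nat_lit 83145012741) (nat_lit 3) (nat_lit 5) (nat_lit 5) (nat_lit 5) (nat_lit 4) (nat_lit 4) (nat_lit 296) (nat_lit 245) (nat_lit 179)) (XT.lf (nat_lit 0) (nat_lit 5946264883) (nat_lit 152) (nat_lit 13526353269) (nat_lit 76) (nat_lit 97292708491) (nat_lit 3) (nat_lit 5) (nat_lit 5) (nat_lit 5) (nat_lit 4) (nat_lit 4) (nat_lit 297) (nat_lit 245) (nat_lit 178)))) (XT.nd (nat_lit 156) (nat_lit 0) (nat_lit 0) (XT.nd (nat_lit 78) (nat_lit 76) (nat_lit 0) (XT.lf (nat_lit 0) (nat_lit 12021343950) (nat_lit 152) (nat_lit 901305958) (nat_lit 76) (nat_lit 112567427365) (nat_lit 3) (nat_lit 5) (nat_lit 5) (nat_lit 5) (nat_lit 4) (nat_lit 4) (nat_lit 298) (nat_lit 245) (nat_lit 177)) (XT.lf (nat_lit 0) (nat_lit 13392592921) (nat_lit 76) (nat_lit 5505766671) (nat_lit 152) (nat_lit 115989185477) (nat_lit 2) (nat_lit 5) (nat_lit 3) (nat_lit 5) (nat_lit 4) (nat_lit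 4) (nat_lit 299) (nat_lit 245) (nat_lit 176))) (XT.nd (nat_lit 78) (nat_lit 0) (nat_lit 0) (XT.lf (nat_lit 0) (nat_lit 26404969776) (nat_lit 152) (nat_lit 116225643598) (nat_lit 0) (nat_lit 2399852930) (nat_lit 2) (nat_lit 5) (nat_lit 4) (nat_lit 4) (nat_lit 2) (nat_lit 4) (nat_lit 300) (nat_lit 245) (nat_lit 175)) (XT.lf (nat_lit 0) (nat_lit 34649483669) (nat_lit 152) (nat_lit 110688162080) (nat_lit 0) (nat_lit 10636195387) (nat_lit 2) (nat_lit 5) (nat_lit 4) (nat_lit 4) (nat_lit 2) (nat_lit 4) (nat_lit 301) (nat_lit 245) (nat_lit 174))))))) (XT.nd (nat_lit 936) (nat_lit 0) (nat_lit 0) (XT.nd (nat_lit 468) (nat_lit 76) (nat_lit 0) (XT.nd (nat_lit 234) (nat_lit 0) (nat_lit 0) (XT.nd (nat_lit 78) (nat_lit 0) (nat_lit 0) (XT.lf (nat_lit 0) (nat_lit 43548343829) (nat_lit 152) (nat_lit 104717279066) (nat_lit 0) (nat_lit 19527489402) (nat_lit 2) (nat_lit 5) (nat_lit 4) (nat_lit 4) (nat_lit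 2) (nat_lit 4) (nat_lit 302) (nat_lit 245) (nat_lit 173)) (XT.nd (nat_lit 78) (nat_lit 0) (nat_lit 0) (XT.lf (nat_lit 0) (nat_lit 53154284242) (nat_lit 152) (nat_lit 98277611548) (nat_lit 0) (nat_lit 29126424126) (nat_lit 2) (nat_lit 5) (nat_lit 4) (nat_lit 4) (nat_lit 2) (nat_lit 4) (nat_lit 303) (nat_lit 245) (nat_lit 172)) (XT.lf (nat_lit 0) (nat_lit 63524228999) (nat_lit 152) (nat_lit 91330998531) (nat_lit 0) (nat_lit 39489882135) (nat_lit 2) (nat_lit 5) (nat_lit 4) (nat_lit 4) (nat_lit 2) (nat_lit 4) (nat_lit 304) (nat_lit 245) (nat_lit 171)))) (XT.nd (nat_lit 78) (nat_lit 0) (nat_lit 0) (XT.lf (nat_lit 0) (nat_lit 74719629626) (nat_lit 152) (nat_lit 83836274902) (nat_lit 0) (nat_lit 50679276512) (nat_lit 2) (nat_lit 5) (nat_lit 4) (nat_lit 4) (nat_lit 2) (nat_lit 4) (nat_lit 305) (nat_lit 245) (nat_lit 170)) (XT.nd (nat_lit 78) (nat_lit 0) (nat_lit 0) (XT.lf (nat_lit 0) (nat_lit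 86806829236) (nat_lit 152) (nat_lit 75749027483) (nat_lit 0) (nat_lit 62760914780) (nat_lit 2) (nat_lit 5) (nat_lit 4) (nat_lit 4) (nat_lit 2) (nat_lit 4) (nat_lit 306) (nat_lit 245) (nat_lit 169)) (XT.lf (nat_lit 0) (nat_lit 99857455679) (nat_lit 152) (nat_lit 67021331847) (nat_lit 0) (nat_lit 75806391832) (nat_lit 2) (nat_lit 5) (nat_lit 4) (nat_lit 4) (nat_lit 2) (nat_lit 4) (nat_lit 307) (nat_lit 245) (nat_lit 168))))) (XT.nd (nat_lit 234) (nat_lit 76) (nat_lit 0) (XT.nd (nat_lit 78) (nat_lit 0) (nat_lit 0) (XT.lf (nat_lit 0) (nat_lit 113948846001) (nat_lit 152) (nat_lit 57601468313) (nat_lit 0) (nat_lit 89893014200) (nat_lit 2) (nat_lit 5) (nat_lit 4) (nat_lit 4) (nat_lit 2) (nat_lit 4) (nat_lit 308) (nat_lit 245) (nat_lit 167)) (XT.nd (nat_lit 78) (nat_lit 0) (nat_lit 0) (XT.lf (nat_lit 0) (nat_lit 129164504738) (nat_lit 152) (nat_lit 47433615470) (nat_lit 0) (nat_lit 105104258164)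 (nat_lit 2) (nat_lit 5) (nat_lit 4) (nat_lit 4) (nat_lit 2) (nat_lit 4) (nat_lit 309) (nat_lit 245) (nat_lit 166)) (XT.lf (nat_lit 0) (nat_lit 145594598755) (nat_lit 152) (nat_lit 36457519375) (nat_lit 0) (nat_lit 121530264429) (nat_lit 2) (nat_lit 5) (nat_lit 4) (nat_lit 4) (nat_lit 2) (nat_lit 4) (nat_lit 310) (nat_lit 245) (nat_lit 165)))) (XT.nd (nat_lit 78) (nat_lit 76) (nat_lit 0) (XT.lf (nat_lit 0) (nat_lit 163336491573) (nat_lit 152) (nat_lit 24608136494) (nat_lit 0) (nat_lit 139268372291) (nat_lit 2) (nat_lit 5) (nat_lit 4) (nat_lit 4) (nat_lit 2) (nat_lit 4) (nat_lit 311) (nat_lit 245) (nat_lit 164)) (XT.nd (nat_lit 78) (nat_lit 76) (nat_lit 0) (XT.lf (nat_lit 0) (nat_lit 182495320334) (nat_lit 152) (nat_lit 11815248263) (nat_lit 0) (nat_lit 158423696463) (nat_lit 2) (nat_lit 5) (nat_lit 4) (nat_lit 4) (nat_lit 2) (nat_lit 4) (nat_lit 312) (nat_lit 245) (nat_lit 163)) (XT.lf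 (nat_lit 0) (nat_lit 2102111138) (nat_lit 76) (nat_lit 201133063524) (nat_lit 76) (nat_lit 177058194663) (nat_lit 1) (nat_lit 4) (nat_lit 2) (nat_lit 5) (nat_lit 2) (nat_lit 4) (nat_lit 313) (nat_lit 245) (nat_lit 162)))))) (XT.nd (nat_lit 468) (nat_lit 0) (nat_lit 0) (XT.nd (nat_lit 234) (nat_lit 0) (nat_lit 0) (XT.nd (nat_lit 78) (nat_lit 0) (nat_lit 0) (XT.lf (nat_lit 0) (nat_lit 17800791133) (nat_lit 76) (nat_lit 208154308659) (nat_lit 76) (nat_lit 184076435179) (nat_lit 1) (nat_lit 4) (nat_lit 2) (nat_lit 5) (nat_lit 2) (nat_lit 4) (nat_lit 314) (nat_lit 245) (nat_lit 161)) (XT.nd (nat_lit 78) (nat_lit 0) (nat_lit 0) (XT.lf (nat_lit 0) (nat_lit 34751650899) (nat_lit 76) (nat_lit 215738961209) (nat_lit 76) (nat_lit 191658305672) (nat_lit 1) (nat_lit 4) (nat_lit 2) (nat_lit 5) (nat_lit 2) (nat_lit 4) (nat_lit 315) (nat_lit 245) (nat_lit 160)) (XT.lf (nat_lit 0) (nat_lit 53055139978)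 (nat_lit 76) (nat_lit 223931967261) (nat_lit 76) (nat_lit 199848735748) (nat_lit 1) (nat_lit 4) (nat_lit 2) (nat_lit 5) (nat_lit 2) (nat_lit 4) (nat_lit 316) (nat_lit 245) (nat_lit 159)))) (XT.nd (nat_lit 78) (nat_lit 0) (nat_lit 0) (XT.lf (nat_lit 0) (nat_lit 72819723488) (nat_lit 76) (nat_lit 232781877964) (nat_lit 76) (nat_lit 208696261286) (nat_lit 1) (nat_lit 4) (nat_lit 2) (nat_lit 5) (nat_lit 2) (nat_lit 4) (nat_lit 317) (nat_lit 245) (nat_lit 158)) (XT.nd (nat_lit 78) (nat_lit 0) (nat_lit 0) (XT.lf (nat_lit 0) (nat_lit 94162524887) (nat_lit 76) (nat_lit 242341137232) (nat_lit 76) (nat_lit 218253312069) (nat_lit 1) (nat_lit 4) (nat_lit 2) (nat_lit 5) (nat_lit 2) (nat_lit 4) (nat_lit 318) (nat_lit 245) (nat_lit 157)) (XT.lf (nat_lit 0) (nat_lit 117210020037) (nat_lit 76) (nat_lit 252666392527) (nat_lit 76) (nat_lit 228576522470) (nat_lit 1) (nat_lit 4) (nat_lit 2) (nat_lit 5)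 (nat_lit 2) (nat_lit 4) (nat_lit 319) (nat_lit 245) (nat_lit 156))))) (XT.nd (nat_lit 234) (nat_lit 0) (nat_lit 0) (XT.nd (nat_lit 78) (nat_lit 0) (nat_lit 0) (XT.lf (nat_lit 0) (nat_lit 142098786686) (nat_lit 76) (nat_lit 263818830549) (nat_lit 76) (nat_lit 239727067072) (nat_lit 1) (nat_lit 4) (nat_lit 2) (nat_lit 5) (nat_lit 2) (nat_lit 4) (nat_lit 320) (nat_lit 245) (nat_lit 155)) (XT.nd (nat_lit 78) (nat_lit 0) (nat_lit 0) (XT.lf (nat_lit 0) (nat_lit 168976313821) (nat_lit 76) (nat_lit 275864539818) (nat_lit 76) (nat_lit 251771023173) (nat_lit 1) (nat_lit 4) (nat_lit 2) (nat_lit 5) (nat_lit 2) (nat_lit 4) (nat_lit 321) (nat_lit 245) (nat_lit 154)) (XT.lf (nat_lit 0) (nat_lit 198001875677) (nat_lit 76) (nat_lit 288874902315) (nat_lit 76) (nat_lit 264779762368) (nat_lit 1) (nat_lit 4) (nat_lit 2) (nat_lit 5) (nat_lit 2) (nat_lit 4) (nat_lit 322) (nat_lit 245) (nat_lit 153)))) (XT.nd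 (nat_lit 156) (nat_lit 0) (nat_lit 0) (XT.nd (nat_lit 78) (nat_lit 0) (nat_lit 0) (XT.lf (nat_lit 0) (nat_lit 229347475585) (nat_lit 76) (nat_lit 302927016484) (nat_lit 76) (nat_lit 278830373479) (nat_lit 1) (nat_lit 4) (nat_lit 2) (nat_lit 5) (nat_lit 2) (nat_lit 4) (nat_lit 323) (nat_lit 245) (nat_lit 152)) (XT.lf (nat_lit 0) (nat_lit 263198865246) (nat_lit 76) (nat_lit 318104154114) (nat_lit 76) (nat_lit 294006119388) (nat_lit 1) (nat_lit 4) (nat_lit 2) (nat_lit 5) (nat_lit 2) (nat_lit 4) (nat_lit 324) (nat_lit 245) (nat_lit 151))) (XT.nd (nat_lit 78) (nat_lit 0) (nat_lit 0) (XT.lf (nat_lit 0) (nat_lit 299756645490) (nat_lit 76) (nat_lit 334496253797) (nat_lit 76) (nat_lit 310396930442) (nat_lit 1) (nat_lit 4) (nat_lit 2) (nat_lit 5) (nat_lit 2) (nat_lit 4) (nat_lit 325) (nat_lit 245) (nat_lit 150)) (XT.lf (nat_lit 0) (nat_lit 339237455012) (nat_lit 76) (nat_lit 352200453903) (nat_lit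 76) (nat_lit 328099937372) (nat_lit 1) (nat_lit 4) (nat_lit 2) (nat_lit 5) (nat_lit 2) (nat_lit 4) (nat_lit 326) (nat_lit 245) (nat_lit 149))))))))
noncomputable def xc61 : XT := (XT.nd (nat_lit 32214) (nat_lit 0) (nat_lit 456) (XT.nd (nat_lit 31200) (nat_lit 0) (nat_lit 1976) (XT.nd (nat_lit 468) (nat_lit 0) (nat_lit 0) (XT.nd (nat_lit 234) (nat_lit 0) (nat_lit 0) (XT.nd (nat_lit 78) (nat_lit 0) (nat_lit 0) (XT.lf (nat_lit 0) (nat_lit 381875254167) (nat_lit 76) (nat_lit 371321668209) (nat_lit 76) (nat_lit 347220046885) (nat_lit 1) (nat_lit 4) (nat_lit 2) (nat_lit 5) (nat_lit 2) (nat_lit 4) (nat_lit 327) (nat_lit 245) (nat_lit 148)) (XT.nd (nat_lit 78) (nat_lit 0) (nat_lit 0) (XT.lf (nat_lit 0) (nat_lit 427922711393) (nat_lit 76) (nat_lit 391973207616) (nat_lit 76) (nat_lit 367870563336) (nat_lit 1) (nat_lit 4) (nat_lit 2) (nat_lit 5) (nat_lit 2) (nat_lit 4) (nat_lit 328) (nat_lit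 245) (nat_lit 147)) (XT.lf (nat_lit 0) (nat_lit 477652700512) (nat_lit 76) (nat_lit 414277451615) (nat_lit 76) (nat_lit 390173860153) (nat_lit 1) (nat_lit 4) (nat_lit 2) (nat_lit 5) (nat_lit 2) (nat_lit 4) (nat_lit 329) (nat_lit 245) (nat_lit 146)))) (XT.nd (nat_lit 78) (nat_lit 0) (nat_lit 0) (XT.lf (nat_lit 0) (nat_lit 531359917754) (nat_lit 76) (nat_lit 438366573505) (nat_lit 76) (nat_lit 414262105023) (nat_lit 1) (nat_lit 4) (nat_lit 2) (nat_lit 5) (nat_lit 2) (nat_lit 4) (nat_lit 330) (nat_lit 245) (nat_lit 145)) (XT.nd (nat_lit 78) (nat_lit 0) (nat_lit 0) (XT.lf (nat_lit 0) (nat_lit 589362628112) (nat_lit 76) (nat_lit 464383323637) (nat_lit 76) (nat_lit 440278043100) (nat_lit 1) (nat_lit 4) (nat_lit 2) (nat_lit 5) (nat_lit 2) (nat_lit 4) (nat_lit 331) (nat_lit 245) (nat_lit 144)) (XT.lf (nat_lit 0) (nat_lit 652004551349) (nat_lit 76) (nat_lit 492481875347) (nat_lit 76) (nat_lit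 468375842906) (nat_lit 1) (nat_lit 4) (nat_lit 2) (nat_lit 5) (nat_lit 2) (nat_lit 4) (nat_lit 332) (nat_lit 245) (nat_lit 143))))) (XT.nd (nat_lit 234) (nat_lit 0) (nat_lit 0) (XT.nd (nat_lit 78) (nat_lit 0) (nat_lit 0) (XT.lf (nat_lit 0) (nat_lit 719656898864) (nat_lit 76) (nat_lit 522828738569) (nat_lit 76) (nat_lit 498722009922) (nat_lit 1) (nat_lit 4) (nat_lit 2) (nat_lit 5) (nat_lit 2) (nat_lit 4) (nat_lit 333) (nat_lit 245) (nat_lit 142)) (XT.nd (nat_lit 78) (nat_lit 0) (nat_lit 0) (XT.lf (nat_lit 0) (nat_lit 792720573456) (nat_lit 76) (nat_lit 555603746567) (nat_lit 76) (nat_lit 531496373284) (nat_lit 1) (nat_lit 4) (nat_lit 2) (nat_lit 5) (nat_lit 2) (nat_lit 4) (nat_lit 334) (nat_lit 245) (nat_lit 141)) (XT.lf (nat_lit 0) (nat_lit 871628545049) (nat_lit 76) (nat_lit 591001121612) (nat_lit 76) (nat_lit 566893151444) (nat_lit 1) (nat_lit 4) (nat_lit 2) (nat_lit 5) (nat_lit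 2) (nat_lit 4) (nat_lit 335) (nat_lit 245) (nat_lit 140)))) (XT.nd (nat_lit 78) (nat_lit 0) (nat_lit 0) (XT.lf (nat_lit 0) (nat_lit 956848416437) (nat_lit 76) (nat_lit 629230625924) (nat_lit 76) (nat_lit 605122103085) (nat_lit 1) (nat_lit 4) (nat_lit 2) (nat_lit 5) (nat_lit 2) (nat_lit 4) (nat_lit 336) (nat_lit 245) (nat_lit 139)) (XT.nd (nat_lit 78) (nat_lit 0) (nat_lit 0) (XT.lf (nat_lit 0) (nat_lit 1048885194265) (nat_lit 76) (nat_lit 670518804717) (nat_lit 76) (nat_lit 646409770145) (nat_lit 1) (nat_lit 4) (nat_lit 2) (nat_lit 5) (nat_lit 2) (nat_lit 4) (nat_lit 337) (nat_lit 245) (nat_lit 138)) (XT.lf (nat_lit 0) (nat_lit 1148284281662) (nat_lit 76) (nat_lit 715110328677) (nat_lit 76) (nat_lit 691000820278) (nat_lit 1) (nat_lit 4) (nat_lit 2) (nat_lit 5) (nat_lit 2) (nat_lit 4) (nat_lit 338) (nat_lit 245) (nat_lit 137)))))) (XT.nd (nat_lit 468) (nat_lit 1064) (nat_lit 0) (XT.nd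 (nat_lit 234) (nat_lit 304) (nat_lit 0) (XT.nd (nat_lit 78) (nat_lit 0) (nat_lit 0) (XT.lf (nat_lit 0) (nat_lit 2248424062) (nat_lit 380) (nat_lit 753912161) (nat_lit 380) (nat_lit 753912161) (nat_lit 45) (nat_lit 3) (nat_lit 50) (nat_lit 3) (nat_lit 50) (nat_lit 5) (nat_lit 246) (nat_lit 246) (nat_lit 228)) (XT.nd (nat_lit 78) (nat_lit 0) (nat_lit 0) (XT.lf (nat_lit 76) (nat_lit 1825133761) (nat_lit 0) (nat_lit 4143521670) (nat_lit 380) (nat_lit 1731719485) (nat_lit 46) (nat_lit 5) (nat_lit 45) (nat_lit 3) (nat_lit 50) (nat_lit 5) (nat_lit 247) (nat_lit 246) (nat_lit 227)) (XT.lf (nat_lit 76) (nat_lit 5439014735) (nat_lit 0) (nat_lit 2033836521) (nat_lit 380) (nat_lit 438187693) (nat_lit 46) (nat_lit 5) (nat_lit 45) (nat_lit 3) (nat_lit 50) (nat_lit 5) (nat_lit 248) (nat_lit 246) (nat_lit 226)))) (XT.nd (nat_lit 78) (nat_lit 0) (nat_lit 0) (XT.lf (nat_lit 0) (nat_lit 826180695) (nat_lit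 380) (nat_lit 6987963107) (nat_lit 456) (nat_lit 330136927) (nat_lit 41) (nat_lit 5) (nat_lit 46) (nat_lit 5) (nat_lit 47) (nat_lit 5) (nat_lit 249) (nat_lit 246) (nat_lit 225)) (XT.nd (nat_lit 78) (nat_lit 0) (nat_lit 0) (XT.lf (nat_lit 0) (nat_lit 2177397799) (nat_lit 380) (nat_lit 3323569777) (nat_lit 456) (nat_lit 2894289936) (nat_lit 41) (nat_lit 5) (nat_lit 46) (nat_lit 5) (nat_lit 47) (nat_lit 5) (nat_lit 250) (nat_lit 246) (nat_lit 224)) (XT.lf (nat_lit 76) (nat_lit 587099570) (nat_lit 0) (nat_lit 2959288703) (nat_lit 456) (nat_lit 5127831569) (nat_lit 42) (nat_lit 5) (nat_lit 41) (nat_lit 5) (nat_lit 47) (nat_lit 5) (nat_lit 251) (nat_lit 246) (nat_lit 223))))) (XT.nd (nat_lit 234) (nat_lit 760) (nat_lit 0) (XT.nd (nat_lit 78) (nat_lit 304) (nat_lit 0) (XT.lf (nat_lit 76) (nat_lit 4925322518) (nat_lit 0) (nat_lit 91953311) (nat_lit 456) (nat_lit 3959464104) (nat_lit 42) (nat_lit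 5) (nat_lit 41) (nat_lit 5) (nat_lit 47) (nat_lit 5) (nat_lit 252) (nat_lit 246) (nat_lit 222)) (XT.nd (nat_lit 78) (nat_lit 0) (nat_lit 0) (XT.lf (nat_lit 0) (nat_lit 165950263) (nat_lit 380) (nat_lit 6425479898) (nat_lit 456) (nat_lit 2713768072) (nat_lit 37) (nat_lit 5) (nat_lit 42) (nat_lit 5) (nat_lit 43) (nat_lit 5) (nat_lit 253) (nat_lit 246) (nat_lit 221)) (XT.lf (nat_lit 0) (nat_lit 4873327886) (nat_lit 380) (nat_lit 3445534961) (nat_lit 456) (nat_lit 1339423654) (nat_lit 37) (nat_lit 5) (nat_lit 42) (nat_lit 5) (nat_lit 43) (nat_lit 5) (nat_lit 254) (nat_lit 246) (nat_lit 220)))) (XT.nd (nat_lit 156) (nat_lit 228) (nat_lit 0) (XT.nd (nat_lit 78) (nat_lit 456) (nat_lit 0) (XT.lf (nat_lit 0) (nat_lit 55680513) (nat_lit 456) (nat_lit 160286092) (nat_lit 76) (nat_lit 9830395577) (nat_lit 36) (nat_lit 5) (nat_lit 42) (nat_lit 5) (nat_lit 37) (nat_lit 5) (nat_lit 255) (nat_lit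 246) (nat_lit 219)) (XT.lf (nat_lit 0) (nat_lit 1616791915) (nat_lit 532) (nat_lit 5562773907) (nat_lit 76) (nat_lit 3273423322) (nat_lit 30) (nat_lit 5) (nat_lit 37) (nat_lit 5) (nat_lit 31) (nat_lit 5) (nat_lit 256) (nat_lit 246) (nat_lit 218))) (XT.nd (nat_lit 78) (nat_lit 228) (nat_lit 0) (XT.lf (nat_lit 0) (nat_lit 3241142422) (nat_lit 532) (nat_lit 617119072) (nat_lit 76) (nat_lit 7039214392) (nat_lit 30) (nat_lit 5) (nat_lit 37) (nat_lit 5) (nat_lit 31) (nat_lit 5) (nat_lit 257) (nat_lit 246) (nat_lit 217)) (XT.lf (nat_lit 0) (nat_lit 4901343242) (nat_lit 228) (nat_lit 145534718) (nat_lit 304) (nat_lit 6326896834) (nat_lit 27) (nat_lit 5) (nat_lit 30) (nat_lit 5) (nat_lit 31) (nat_lit 5) (nat_lit 258) (nat_lit 246) (nat_lit 216))))))) (XT.nd (nat_lit 936) (nat_lit 608) (nat_lit 0) (XT.nd (nat_lit 468) (nat_lit 304) (nat_lit 0) (XT.nd (nat_lit 234) (nat_lit 456) (nat_lit 0) (XT.nd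 (nat_lit 78) (nat_lit 152) (nat_lit 0) (XT.lf (nat_lit 0) (nat_lit 7044127646) (nat_lit 304) (nat_lit 1155442578) (nat_lit 76) (nat_lit 3685183878) (nat_lit 27) (nat_lit 5) (nat_lit 31) (nat_lit 5) (nat_lit 28) (nat_lit 5) (nat_lit 259) (nat_lit 246) (nat_lit 215)) (XT.nd (nat_lit 78) (nat_lit 0) (nat_lit 0) (XT.lf (nat_lit 0) (nat_lit 4754656987) (nat_lit 152) (nat_lit 4506120393) (nat_lit 228) (nat_lit 3171380427) (nat_lit 25) (nat_lit 5) (nat_lit 27) (nat_lit 5) (nat_lit 28) (nat_lit 5) (nat_lit 260) (nat_lit 246) (nat_lit 214)) (XT.lf (nat_lit 0) (nat_lit 11138638832) (nat_lit 152) (nat_lit 491981979) (nat_lit 228) (nat_lit 1394956336) (nat_lit 25) (nat_lit 5) (nat_lit 27) (nat_lit 5) (nat_lit 28) (nat_lit 5) (nat_lit 261) (nat_lit 246) (nat_lit 213)))) (XT.nd (nat_lit 78) (nat_lit 152) (nat_lit 0) (XT.lf (nat_lit 0) (nat_lit 648179859) (nat_lit 304) (nat_lit 9239272069) (nat_lit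 76) (nat_lit 3766198127) (nat_lit 21) (nat_lit 5) (nat_lit 25) (nat_lit 5) (nat_lit 22) (nat_lit 5) (nat_lit 262) (nat_lit 246) (nat_lit 212)) (XT.nd (nat_lit 78) (nat_lit 152) (nat_lit 0) (XT.lf (nat_lit 0) (nat_lit 2794126645) (nat_lit 304) (nat_lit 3116426110) (nat_lit 76) (nat_lit 8417571563) (nat_lit 21) (nat_lit 5) (nat_lit 25) (nat_lit 5) (nat_lit 22) (nat_lit 5) (nat_lit 263) (nat_lit 246) (nat_lit 211)) (XT.lf (nat_lit 0) (nat_lit 3616663321) (nat_lit 152) (nat_lit 1534856063) (nat_lit 228) (nat_lit 9902070352) (nat_lit 19) (nat_lit 5) (nat_lit 21) (nat_lit 5) (nat_lit 22) (nat_lit 5) (nat_lit 264) (nat_lit 246) (nat_lit 210))))) (XT.nd (nat_lit 234) (nat_lit 152) (nat_lit 0) (XT.nd (nat_lit 78) (nat_lit 152) (nat_lit 0) (XT.lf (nat_lit 0) (nat_lit 7816201794) (nat_lit 228) (nat_lit 4906045414) (nat_lit 76) (nat_lit 3105548240) (nat_lit 19) (nat_lit 5) (nat_lit 22) (nat_lit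 5) (nat_lit 20) (nat_lit 5) (nat_lit 265) (nat_lit 246) (nat_lit 209)) (XT.nd (nat_lit 78) (nat_lit 0) (nat_lit 0) (XT.lf (nat_lit 0) (nat_lit 2157545518) (nat_lit 152) (nat_lit 8586171738) (nat_lit 228) (nat_lit 5916431867) (nat_lit 17) (nat_lit 5) (nat_lit 19) (nat_lit 5) (nat_lit 20) (nat_lit 5) (nat_lit 266) (nat_lit 246) (nat_lit 208)) (XT.lf (nat_lit 0) (nat_lit 10008875433) (nat_lit 152) (nat_lit 3990364394) (nat_lit 228) (nat_lit 3552517336) (nat_lit 17) (nat_lit 5) (nat_lit 19) (nat_lit 5) (nat_lit 20) (nat_lit 5) (nat_lit 267) (nat_lit 246) (nat_lit 207)))) (XT.nd (nat_lit 78) (nat_lit 152) (nat_lit 0) (XT.lf (nat_lit 0) (nat_lit 17500904210) (nat_lit 228) (nat_lit 104758792) (nat_lit 76) (nat_lit 910332752) (nat_lit 17) (nat_lit 5) (nat_lit 20) (nat_lit 5) (nat_lit 18) (nat_lit 4) (nat_lit 268) (nat_lit 246) (nat_lit 206)) (XT.nd (nat_lit 78) (nat_lit 0) (nat_lit 0) (XT.lf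 (nat_lit 0) (nat_lit 1911320864) (nat_lit 152) (nat_lit 11401439261) (nat_lit 76) (nat_lit 6219645116) (nat_lit 15) (nat_lit 5) (nat_lit 17) (nat_lit 5) (nat_lit 16) (nat_lit 5) (nat_lit 269) (nat_lit 246) (nat_lit 205)) (XT.lf (nat_lit 0) (nat_lit 4985426799) (nat_lit 152) (nat_lit 3676387922) (nat_lit 76) (nat_lit 11968855090) (nat_lit 15) (nat_lit 5) (nat_lit 17) (nat_lit 5) (nat_lit 16) (nat_lit 5) (nat_lit 270) (nat_lit 246) (nat_lit 204)))))) (XT.nd (nat_lit 468) (nat_lit 152) (nat_lit 0) (XT.nd (nat_lit 234) (nat_lit 304) (nat_lit 0) (XT.nd (nat_lit 78) (nat_lit 0) (nat_lit 0) (XT.lf (nat_lit 0) (nat_lit 4862155542) (nat_lit 152) (nat_lit 3528280581) (nat_lit 228) (nat_lit 13419677497) (nat_lit 13) (nat_lit 5) (nat_lit 15) (nat_lit 5) (nat_lit 16) (nat_lit 5) (nat_lit 271) (nat_lit 246) (nat_lit 203)) (XT.nd (nat_lit 78) (nat_lit 0) (nat_lit 0) (XT.lf (nat_lit 0) (nat_lit 12188367329)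 (nat_lit 228) (nat_lit 8882815875) (nat_lit 76) (nat_lit 2003195508) (nat_lit 13) (nat_lit 5) (nat_lit 16) (nat_lit 5) (nat_lit 14) (nat_lit 4) (nat_lit 272) (nat_lit 246) (nat_lit 202)) (XT.lf (nat_lit 0) (nat_lit 16352987771) (nat_lit 228) (nat_lit 309209820) (nat_lit 76) (nat_lit 7772658551) (nat_lit 13) (nat_lit 5) (nat_lit 16) (nat_lit 5) (nat_lit 14) (nat_lit 4) (nat_lit 273) (nat_lit 246) (nat_lit 201)))) (XT.nd (nat_lit 78) (nat_lit 228) (nat_lit 0) (XT.lf (nat_lit 0) (nat_lit 9377628850) (nat_lit 76) (nat_lit 11672024799) (nat_lit 152) (nat_lit 4838700191) (nat_lit 12) (nat_lit 5) (nat_lit 13) (nat_lit 5) (nat_lit 14) (nat_lit 4) (nat_lit 274) (nat_lit 246) (nat_lit 200)) (XT.nd (nat_lit 78) (nat_lit 228) (nat_lit 0) (XT.lf (nat_lit 0) (nat_lit 19816294092) (nat_lit 76) (nat_lit 6288552228) (nat_lit 152) (nat_lit 1354746864) (nat_lit 12) (nat_lit 5) (nat_lit 13) (nat_lit 5)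 (nat_lit 14) (nat_lit 4) (nat_lit 275) (nat_lit 246) (nat_lit 199)) (XT.lf (nat_lit 0) (nat_lit 1933269147) (nat_lit 152) (nat_lit 376242500) (nat_lit 228) (nat_lit 26840696887) (nat_lit 9) (nat_lit 5) (nat_lit 11) (nat_lit 5) (nat_lit 12) (nat_lit 5) (nat_lit 276) (nat_lit 246) (nat_lit 198))))) (XT.nd (nat_lit 234) (nat_lit 76) (nat_lit 0) (XT.nd (nat_lit 78) (nat_lit 76) (nat_lit 0) (XT.lf (nat_lit 0) (nat_lit 6528741390) (nat_lit 228) (nat_lit 18473510533) (nat_lit 76) (nat_lit 5944272087) (nat_lit 9) (nat_lit 5) (nat_lit 12) (nat_lit 5) (nat_lit 10) (nat_lit 4) (nat_lit 277) (nat_lit 246) (nat_lit 197)) (XT.nd (nat_lit 78) (nat_lit 76) (nat_lit 0) (XT.lf (nat_lit 0) (nat_lit 11073147595) (nat_lit 228) (nat_lit 9077107502) (nat_lit 76) (nat_lit 12737341289) (nat_lit 9) (nat_lit 5) (nat_lit 12) (nat_lit 5) (nat_lit 10) (nat_lit 4) (nat_lit 278) (nat_lit 246) (nat_lit 196)) (XT.lf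 (nat_lit 0) (nat_lit 1091607357) (nat_lit 76) (nat_lit 14895257263) (nat_lit 152) (nat_lit 18996687329) (nat_lit 8) (nat_lit 5) (nat_lit 9) (nat_lit 5) (nat_lit 10) (nat_lit 4) (nat_lit 279) (nat_lit 246) (nat_lit 195)))) (XT.nd (nat_lit 156) (nat_lit 76) (nat_lit 0) (XT.nd (nat_lit 78) (nat_lit 0) (nat_lit 0) (XT.lf (nat_lit 0) (nat_lit 12556896455) (nat_lit 76) (nat_lit 8965192870) (nat_lit 152) (nat_lit 15706875567) (nat_lit 8) (nat_lit 5) (nat_lit 9) (nat_lit 5) (nat_lit 10) (nat_lit 4) (nat_lit 280) (nat_lit 246) (nat_lit 194)) (XT.lf (nat_lit 0) (nat_lit 24908717849) (nat_lit 76) (nat_lit 2573105003) (nat_lit 152) (nat_lit 12173702531) (nat_lit 8) (nat_lit 5) (nat_lit 9) (nat_lit 5) (nat_lit 10) (nat_lit 4) (nat_lit 281) (nat_lit 246) (nat_lit 193))) (XT.nd (nat_lit 78) (nat_lit 76) (nat_lit 0) (XT.lf (nat_lit 0) (nat_lit 34005251438) (nat_lit 152) (nat_lit 4161214817) (nat_lit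 0) (nat_lit 4102837239) (nat_lit 8) (nat_lit 5) (nat_lit 10) (nat_lit 4) (nat_lit 8) (nat_lit 4) (nat_lit 282) (nat_lit 246) (nat_lit 192)) (XT.lf (nat_lit 0) (nat_lit 7554965815) (nat_lit 76) (nat_lit 33728167053) (nat_lit 76) (nat_lit 3790487380) (nat_lit 7) (nat_lit 4) (nat_lit 8) (nat_lit 5) (nat_lit 8) (nat_lit 4) (nat_lit 283) (nat_lit 246) (nat_lit 191))))))))
noncomputable def xc62 : XT := (XT.nd (nat_lit 1950) (nat_lit 76) (nat_lit 0) (XT.nd (nat_lit 936) (nat_lit 152) (nat_lit 0) (XT.nd (nat_lit 468) (nat_lit 76) (nat_lit 0) (XT.nd (nat_lit 234) (nat_lit 76) (nat_lit 0) (XT.nd (nat_lit 78) (nat_lit 0) (nat_lit 0) (XT.lf (nat_lit 0) (nat_lit 1089769611) (nat_lit 152) (nat_lit 27703612099) (nat_lit 76) (nat_lit 19298863984) (nat_lit 6) (nat_lit 5) (nat_lit 8) (nat_lit 5) (nat_lit 7) (nat_lit 4) (nat_lit 284) (nat_lit 246) (nat_lit 190)) (XT.nd (nat_lit 78) (nat_lit 0) (nat_lit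 0) (XT.lf (nat_lit 0) (nat_lit 6140986571) (nat_lit 152) (nat_lit 17227315282) (nat_lit 76) (nat_lit 27977390928) (nat_lit 6) (nat_lit 5) (nat_lit 8) (nat_lit 5) (nat_lit 7) (nat_lit 4) (nat_lit 285) (nat_lit 246) (nat_lit 189)) (XT.lf (nat_lit 0) (nat_lit 11582712167) (nat_lit 152) (nat_lit 5936520912) (nat_lit 76) (nat_lit 37341301024) (nat_lit 6) (nat_lit 5) (nat_lit 8) (nat_lit 5) (nat_lit 7) (nat_lit 4) (nat_lit 286) (nat_lit 246) (nat_lit 188)))) (XT.nd (nat_lit 78) (nat_lit 0) (nat_lit 0) (XT.lf (nat_lit 0) (nat_lit 6564039250) (nat_lit 76) (nat_lit 11041019715) (nat_lit 152) (nat_lit 41039910159) (nat_lit 5) (nat_lit 5) (nat_lit 6) (nat_lit 5) (nat_lit 7) (nat_lit 4) (nat_lit 287) (nat_lit 246) (nat_lit 187)) (XT.nd (nat_lit 78) (nat_lit 0) (nat_lit 0) (XT.lf (nat_lit 0) (nat_lit 20380955202) (nat_lit 76) (nat_lit 3878390802) (nat_lit 152) (nat_lit 38460827637) (nat_lit 5)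 (nat_lit 5) (nat_lit 6) (nat_lit 5) (nat_lit 7) (nat_lit 4) (nat_lit 288) (nat_lit 246) (nat_lit 186)) (XT.lf (nat_lit 0) (nat_lit 31527277773) (nat_lit 152) (nat_lit 31931385399) (nat_lit 0) (nat_lit 3656252108) (nat_lit 5) (nat_lit 5) (nat_lit 7) (nat_lit 4) (nat_lit 5) (nat_lit 4) (nat_lit 289) (nat_lit 246) (nat_lit 185))))) (XT.nd (nat_lit 234) (nat_lit 0) (nat_lit 0) (XT.nd (nat_lit 78) (nat_lit 76) (nat_lit 0) (XT.lf (nat_lit 0) (nat_lit 39466765626) (nat_lit 152) (nat_lit 20810596836) (nat_lit 0) (nat_lit 11576687122) (nat_lit 5) (nat_lit 5) (nat_lit 7) (nat_lit 4) (nat_lit 5) (nat_lit 4) (nat_lit 290) (nat_lit 246) (nat_lit 184)) (XT.nd (nat_lit 78) (nat_lit 76) (nat_lit 0) (XT.lf (nat_lit 0) (nat_lit 48031582988) (nat_lit 152) (nat_lit 8817676388) (nat_lit 0) (nat_lit 20123862967) (nat_lit 5) (nat_lit 5) (nat_lit 7) (nat_lit 4) (nat_lit 5) (nat_lit 4) (nat_lit 291) (nat_lit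 246) (nat_lit 183)) (XT.lf (nat_lit 0) (nat_lit 4335315121) (nat_lit 76) (nat_lit 53041433644) (nat_lit 76) (nat_lit 25117378885) (nat_lit 4) (nat_lit 4) (nat_lit 5) (nat_lit 5) (nat_lit 5) (nat_lit 4) (nat_lit 292) (nat_lit 246) (nat_lit 182)))) (XT.nd (nat_lit 78) (nat_lit 0) (nat_lit 0) (XT.lf (nat_lit 0) (nat_lit 19026193380) (nat_lit 76) (nat_lit 48675617585) (nat_lit 76) (nat_lit 20736438067) (nat_lit 4) (nat_lit 4) (nat_lit 5) (nat_lit 5) (nat_lit 5) (nat_lit 4) (nat_lit 293) (nat_lit 246) (nat_lit 181)) (XT.nd (nat_lit 78) (nat_lit 0) (nat_lit 0) (XT.lf (nat_lit 0) (nat_lit 34877692231) (nat_lit 76) (nat_lit 43967030594) (nat_lit 76) (nat_lit 16013846671) (nat_lit 4) (nat_lit 4) (nat_lit 5) (nat_lit 5) (nat_lit 5) (nat_lit 4) (nat_lit 294) (nat_lit 246) (nat_lit 180)) (XT.lf (nat_lit 0) (nat_lit 51983746483) (nat_lit 76) (nat_lit 38887769935) (nat_lit 76) (nat_lit 10921618971)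 (nat_lit 4) (nat_lit 4) (nat_lit 5) (nat_lit 5) (nat_lit 5) (nat_lit 4) (nat_lit 295) (nat_lit 246) (nat_lit 179)))))) (XT.nd (nat_lit 468) (nat_lit 0) (nat_lit 0) (XT.nd (nat_lit 234) (nat_lit 76) (nat_lit 0) (XT.nd (nat_lit 78) (nat_lit 76) (nat_lit 0) (XT.lf (nat_lit 0) (nat_lit 70445725346) (nat_lit 76) (nat_lit 33407736285) (nat_lit 76) (nat_lit 5429578801) (nat_lit 4) (nat_lit 4) (nat_lit 5) (nat_lit 5) (nat_lit 5) (nat_lit 4) (nat_lit 296) (nat_lit 246) (nat_lit 178)) (XT.nd (nat_lit 78) (nat_lit 0) (nat_lit 0) (XT.lf (nat_lit 0) (nat_lit 470066398) (nat_lit 152) (nat_lit 27011536525) (nat_lit 76) (nat_lit 89890114293) (nat_lit 3) (nat_lit 5) (nat_lit 5) (nat_lit 5) (nat_lit 4) (nat_lit 4) (nat_lit 297) (nat_lit 246) (nat_lit 177)) (XT.lf (nat_lit 0) (nat_lit 6542182997) (nat_lit 152) (nat_lit 14391827653) (nat_lit 76) (nat_lit 105162699737) (nat_lit 3) (nat_lit 5) (nat_lit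 5) (nat_lit 5) (nat_lit 4) (nat_lit 4) (nat_lit 298) (nat_lit 246) (nat_lit 176)))) (XT.nd (nat_lit 78) (nat_lit 76) (nat_lit 0) (XT.lf (nat_lit 0) (nat_lit 13094363432) (nat_lit 152) (nat_lit 772823511) (nat_lit 76) (nat_lit 121652983191) (nat_lit 3) (nat_lit 5) (nat_lit 5) (nat_lit 5) (nat_lit 4) (nat_lit 4) (nat_lit 299) (nat_lit 246) (nat_lit 175)) (XT.nd (nat_lit 78) (nat_lit 0) (nat_lit 0) (XT.lf (nat_lit 0) (nat_lit 14659509128) (nat_lit 76) (nat_lit 5858487857) (nat_lit 152) (nat_lit 125151737269) (nat_lit 2) (nat_lit 5) (nat_lit 3) (nat_lit 5) (nat_lit 4) (nat_lit 4) (nat_lit 300) (nat_lit 246) (nat_lit 174)) (XT.lf (nat_lit 0) (nat_lit 28619106968) (nat_lit 152) (nat_lit 125336460790) (nat_lit 0) (nat_lit 2669018043) (nat_lit 2) (nat_lit 5) (nat_lit 4) (nat_lit 4) (nat_lit 2) (nat_lit 4) (nat_lit 301) (nat_lit 246) (nat_lit 173))))) (XT.nd (nat_lit 234) (nat_lit 0) (nat_lit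 0) (XT.nd (nat_lit 78) (nat_lit 0) (nat_lit 0) (XT.lf (nat_lit 0) (nat_lit 37515645705) (nat_lit 152) (nat_lit 119369849957) (nat_lit 0) (nat_lit 11558551091) (nat_lit 2) (nat_lit 5) (nat_lit 4) (nat_lit 4) (nat_lit 2) (nat_lit 4) (nat_lit 302) (nat_lit 246) (nat_lit 172)) (XT.nd (nat_lit 78) (nat_lit 0) (nat_lit 0) (XT.lf (nat_lit 0) (nat_lit 47119436652) (nat_lit 152) (nat_lit 112934138161) (nat_lit 0) (nat_lit 21155855289) (nat_lit 2) (nat_lit 5) (nat_lit 4) (nat_lit 4) (nat_lit 2) (nat_lit 4) (nat_lit 303) (nat_lit 246) (nat_lit 171)) (XT.lf (nat_lit 0) (nat_lit 57487391164) (nat_lit 152) (nat_lit 105991187850) (nat_lit 0) (nat_lit 31517803551) (nat_lit 2) (nat_lit 5) (nat_lit 4) (nat_lit 4) (nat_lit 2) (nat_lit 4) (nat_lit 304) (nat_lit 246) (nat_lit 170)))) (XT.nd (nat_lit 156) (nat_lit 0) (nat_lit 0) (XT.nd (nat_lit 78) (nat_lit 0) (nat_lit 0) (XT.lf (nat_lit 0) (nat_lit 68680948970)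 (nat_lit 152) (nat_lit 98499855616) (nat_lit 0) (nat_lit 42705800016) (nat_lit 2) (nat_lit 5) (nat_lit 4) (nat_lit 4) (nat_lit 2) (nat_lit 4) (nat_lit 305) (nat_lit 246) (nat_lit 169)) (XT.lf (nat_lit 0) (nat_lit 80766442265) (nat_lit 152) (nat_lit 90415748378) (nat_lit 0) (nat_lit 54786143920) (nat_lit 2) (nat_lit 5) (nat_lit 4) (nat_lit 4) (nat_lit 2) (nat_lit 4) (nat_lit 306) (nat_lit 246) (nat_lit 168))) (XT.nd (nat_lit 78) (nat_lit 0) (nat_lit 0) (XT.lf (nat_lit 0) (nat_lit 93815488787) (nat_lit 152) (nat_lit 81690960315) (nat_lit 0) (nat_lit 67830422487) (nat_lit 2) (nat_lit 5) (nat_lit 4) (nat_lit 4) (nat_lit 2) (nat_lit 4) (nat_lit 307) (nat_lit 246) (nat_lit 167)) (XT.lf (nat_lit 0) (nat_lit 107905416219) (nat_lit 152) (nat_lit 72273788981) (nat_lit 0) (nat_lit 81915935147) (nat_lit 2) (nat_lit 5) (nat_lit 4) (nat_lit 4) (nat_lit 2) (nat_lit 4) (nat_lit 308) (nat_lit 246)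 (nat_lit 166))))))) (XT.nd (nat_lit 936) (nat_lit 0) (nat_lit 0) (XT.nd (nat_lit 468) (nat_lit 0) (nat_lit 0) (XT.nd (nat_lit 234) (nat_lit 76) (nat_lit 0) (XT.nd (nat_lit 78) (nat_lit 0) (nat_lit 0) (XT.lf (nat_lit 0) (nat_lit 123119720427) (nat_lit 152) (nat_lit 62108428914) (nat_lit 0) (nat_lit 97126151603) (nat_lit 2) (nat_lit 5) (nat_lit 4) (nat_lit 4) (nat_lit 2) (nat_lit 4) (nat_lit 309) (nat_lit 246) (nat_lit 165)) (XT.nd (nat_lit 78) (nat_lit 0) (nat_lit 0) (XT.lf (nat_lit 0) (nat_lit 139548560252) (nat_lit 152) (nat_lit 51134640944) (nat_lit 0) (nat_lit 113551206471) (nat_lit 2) (nat_lit 5) (nat_lit 4) (nat_lit 4) (nat_lit 2) (nat_lit 4) (nat_lit 310) (nat_lit 246) (nat_lit 164)) (XT.lf (nat_lit 0) (nat_lit 157289291780) (nat_lit 152) (nat_lit 39287395218) (nat_lit 0) (nat_lit 131288433411) (nat_lit 2) (nat_lit 5) (nat_lit 4) (nat_lit 4) (nat_lit 2) (nat_lit 4) (nat_lit 311)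 (nat_lit 246) (nat_lit 163)))) (XT.nd (nat_lit 78) (nat_lit 76) (nat_lit 0) (XT.lf (nat_lit 0) (nat_lit 176447045274) (nat_lit 152) (nat_lit 26496485833) (nat_lit 0) (nat_lit 150442941915) (nat_lit 2) (nat_lit 5) (nat_lit 4) (nat_lit 4) (nat_lit 2) (nat_lit 4) (nat_lit 312) (nat_lit 246) (nat_lit 162)) (XT.nd (nat_lit 78) (nat_lit 76) (nat_lit 0) (XT.lf (nat_lit 0) (nat_lit 197135348160) (nat_lit 152) (nat_lit 12686114809) (nat_lit 0) (nat_lit 171128240181) (nat_lit 2) (nat_lit 5) (nat_lit 4) (nat_lit 4) (nat_lit 2) (nat_lit 4) (nat_lit 313) (nat_lit 246) (nat_lit 161)) (XT.lf (nat_lit 0) (nat_lit 2342750982) (nat_lit 76) (nat_lit 217190390024) (nat_lit 76) (nat_lit 191180499990) (nat_lit 1) (nat_lit 4) (nat_lit 2) (nat_lit 5) (nat_lit 2) (nat_lit 4) (nat_lit 314) (nat_lit 246) (nat_lit 160))))) (XT.nd (nat_lit 234) (nat_lit 0) (nat_lit 0) (XT.nd (nat_lit 78) (nat_lit 0) (nat_lit 0)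 (XT.lf (nat_lit 0) (nat_lit 19291957158) (nat_lit 76) (nat_lit 224775802814) (nat_lit 76) (nat_lit 198763336802) (nat_lit 1) (nat_lit 4) (nat_lit 2) (nat_lit 5) (nat_lit 2) (nat_lit 4) (nat_lit 315) (nat_lit 246) (nat_lit 159)) (XT.nd (nat_lit 78) (nat_lit 0) (nat_lit 0) (XT.lf (nat_lit 0) (nat_lit 37593915133) (nat_lit 76) (nat_lit 232969512792) (nat_lit 76) (nat_lit 206954661616) (nat_lit 1) (nat_lit 4) (nat_lit 2) (nat_lit 5) (nat_lit 2) (nat_lit 4) (nat_lit 316) (nat_lit 246) (nat_lit 158)) (XT.lf (nat_lit 0) (nat_lit 57357080955) (nat_lit 76) (nat_lit 241820075278) (nat_lit 76) (nat_lit 215803015617) (nat_lit 1) (nat_lit 4) (nat_lit 2) (nat_lit 5) (nat_lit 2) (nat_lit 4) (nat_lit 317) (nat_lit 246) (nat_lit 157)))) (XT.nd (nat_lit 78) (nat_lit 0) (nat_lit 0) (XT.lf (nat_lit 0) (nat_lit 78698569680) (nat_lit 76) (nat_lit 251379938049) (nat_lit 76) (nat_lit 225360833494) (nat_lit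 1) (nat_lit 4) (nat_lit 2) (nat_lit 5) (nat_lit 2) (nat_lit 4) (nat_lit 318) (nat_lit 246) (nat_lit 156)) (XT.nd (nat_lit 78) (nat_lit 0) (nat_lit 0) (XT.lf (nat_lit 0) (nat_lit 101744849391) (nat_lit 76) (nat_lit 261705752144) (nat_lit 76) (nat_lit 235684754168) (nat_lit 1) (nat_lit 4) (nat_lit 2) (nat_lit 5) (nat_lit 2) (nat_lit 4) (nat_lit 319) (nat_lit 246) (nat_lit 155)) (XT.lf (nat_lit 0) (nat_lit 126632490633) (nat_lit 76) (nat_lit 272858707572) (nat_lit 76) (nat_lit 246835956429) (nat_lit 1) (nat_lit 4) (nat_lit 2) (nat_lit 5) (nat_lit 2) (nat_lit 4) (nat_lit 320) (nat_lit 246) (nat_lit 154)))))) (XT.nd (nat_lit 468) (nat_lit 0) (nat_lit 0) (XT.nd (nat_lit 234) (nat_lit 0) (nat_lit 0) (XT.nd (nat_lit 78) (nat_lit 0) (nat_lit 0) (XT.lf (nat_lit 0) (nat_lit 153508975726) (nat_lit 76) (nat_lit 284904895921) (nat_lit 76) (nat_lit 258880521475) (nat_lit 1) (nat_lit 4) (nat_lit 2)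 (nat_lit 5) (nat_lit 2) (nat_lit 4) (nat_lit 321) (nat_lit 246) (nat_lit 153)) (XT.nd (nat_lit 78) (nat_lit 0) (nat_lit 0) (XT.lf (nat_lit 0) (nat_lit 182533572727) (nat_lit 76) (nat_lit 297915702010) (nat_lit 76) (nat_lit 271889824507) (nat_lit 1) (nat_lit 4) (nat_lit 2) (nat_lit 5) (nat_lit 2) (nat_lit 4) (nat_lit 322) (nat_lit 246) (nat_lit 152)) (XT.lf (nat_lit 0) (nat_lit 213878279251) (nat_lit 76) (nat_lit 311968226914) (nat_lit 76) (nat_lit 285940957690) (nat_lit 1) (nat_lit 4) (nat_lit 2) (nat_lit 5) (nat_lit 2) (nat_lit 4) (nat_lit 323) (nat_lit 246) (nat_lit 151)))) (XT.nd (nat_lit 78) (nat_lit 0) (nat_lit 0) (XT.lf (nat_lit 0) (nat_lit 247728841705) (nat_lit 76) (nat_lit 327145744853) (nat_lit 76) (nat_lit 301117186999) (nat_lit 1) (nat_lit 4) (nat_lit 2) (nat_lit 5) (nat_lit 2) (nat_lit 4) (nat_lit 324) (nat_lit 246) (nat_lit 150)) (XT.nd (nat_lit 78) (nat_lit 0) (nat_lit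 0) (XT.lf (nat_lit 0) (nat_lit 284285856016) (nat_lit 76) (nat_lit 343538196675) (nat_lit 76) (nat_lit 317508445645) (nat_lit 1) (nat_lit 4) (nat_lit 2) (nat_lit 5) (nat_lit 2) (nat_lit 4) (nat_lit 325) (nat_lit 246) (nat_lit 149)) (XT.lf (nat_lit 0) (nat_lit 323765956341) (nat_lit 76) (nat_lit 361242722834) (nat_lit 76) (nat_lit 335211867012) (nat_lit 1) (nat_lit 4) (nat_lit 2) (nat_lit 5) (nat_lit 2) (nat_lit 4) (nat_lit 326) (nat_lit 246) (nat_lit 148))))) (XT.nd (nat_lit 234) (nat_lit 0) (nat_lit 0) (XT.nd (nat_lit 78) (nat_lit 0) (nat_lit 0) (XT.lf (nat_lit 0) (nat_lit 366403098832) (nat_lit 76) (nat_lit 380364239042) (nat_lit 76) (nat_lit 354332360264) (nat_lit 1) (nat_lit 4) (nat_lit 2) (nat_lit 5) (nat_lit 2) (nat_lit 4) (nat_lit 327) (nat_lit 246) (nat_lit 147)) (XT.nd (nat_lit 78) (nat_lit 0) (nat_lit 0) (XT.lf (nat_lit 0) (nat_lit 412449948036) (nat_lit 76) (nat_lit 401016057987)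 (nat_lit 76) (nat_lit 374983232027) (nat_lit 1) (nat_lit 4) (nat_lit 2) (nat_lit 5) (nat_lit 2) (nat_lit 4) (nat_lit 328) (nat_lit 246) (nat_lit 146)) (XT.lf (nat_lit 0) (nat_lit 462179374171) (nat_lit 76) (nat_lit 423320560819) (nat_lit 76) (nat_lit 397286857839) (nat_lit 1) (nat_lit 4) (nat_lit 2) (nat_lit 5) (nat_lit 2) (nat_lit 4) (nat_lit 329) (nat_lit 246) (nat_lit 145)))) (XT.nd (nat_lit 156) (nat_lit 0) (nat_lit 0) (XT.nd (nat_lit 78) (nat_lit 0) (nat_lit 0) (XT.lf (nat_lit 0) (nat_lit 515886070133) (nat_lit 76) (nat_lit 447409922368) (nat_lit 76) (nat_lit 421375407332) (nat_lit 1) (nat_lit 4) (nat_lit 2) (nat_lit 5) (nat_lit 2) (nat_lit 4) (nat_lit 330) (nat_lit 246) (nat_lit 144)) (XT.lf (nat_lit 0) (nat_lit 573888297823) (nat_lit 76) (nat_lit 473426894407) (nat_lit 76) (nat_lit 447391627468) (nat_lit 1) (nat_lit 4) (nat_lit 2) (nat_lit 5) (nat_lit 2) (nat_lit 4) (nat_lit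 331) (nat_lit 246) (nat_lit 143))) (XT.nd (nat_lit 78) (nat_lit 0) (nat_lit 0) (XT.lf (nat_lit 0) (nat_lit 636529774146) (nat_lit 76) (nat_lit 501525651586) (nat_lit 76) (nat_lit 475489688440) (nat_lit 1) (nat_lit 4) (nat_lit 2) (nat_lit 5) (nat_lit 2) (nat_lit 4) (nat_lit 332) (nat_lit 246) (nat_lit 142)) (XT.lf (nat_lit 0) (nat_lit 704181707851) (nat_lit 76) (nat_lit 531872705057) (nat_lit 76) (nat_lit 505836097276) (nat_lit 1) (nat_lit 4) (nat_lit 2) (nat_lit 5) (nat_lit 2) (nat_lit 4) (nat_lit 333) (nat_lit 246) (nat_lit 141))))))))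
noncomputable def xc63 : XT := (XT.nd (nat_lit 32370) (nat_lit 0) (nat_lit 228) (XT.nd (nat_lit 31356) (nat_lit 0) (nat_lit 1216) (XT.nd (nat_lit 30888) (nat_lit 0) (nat_lit 2736) (XT.nd (nat_lit 234) (nat_lit 0) (nat_lit 0) (XT.nd (nat_lit 78) (nat_lit 0) (nat_lit 0) (XT.lf (nat_lit 0) (nat_lit 777244999286) (nat_lit 76) (nat_lit 564647889212) (nat_lit 76) (nat_lit 538610684546) (nat_lit 1) (nat_lit 4) (nat_lit 2) (nat_lit 5) (nat_lit 2) (nat_lit 4) (nat_lit 334) (nat_lit 246) (nat_lit 140)) (XT.nd (nat_lit 78) (nat_lit 0) (nat_lit 0) (XT.lf (nat_lit 0) (nat_lit 856152616104) (nat_lit 76) (nat_lit 600045427365) (nat_lit 76) (nat_lit 574007670027) (nat_lit 1) (nat_lit 4) (nat_lit 2) (nat_lit 5) (nat_lit 2) (nat_lit 4) (nat_lit 335) (nat_lit 246) (nat_lit 139)) (XT.lf (nat_lit 0) (nat_lit 941372158996) (nat_lit 76) (nat_lit 638275082704) (nat_lit 76) (nat_lit 612236813633) (nat_lit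 1) (nat_lit 4) (nat_lit 2) (nat_lit 5) (nat_lit 2) (nat_lit 4) (nat_lit 336) (nat_lit 246) (nat_lit 138)))) (XT.nd (nat_lit 30498) (nat_lit 0) (nat_lit 2964) (XT.lf (nat_lit 0) (nat_lit 1033408632663) (nat_lit 76) (nat_lit 679563401335) (nat_lit 76) (nat_lit 653524658438) (nat_lit 1) (nat_lit 4) (nat_lit 2) (nat_lit 5) (nat_lit 2) (nat_lit 4) (nat_lit 337) (nat_lit 246) (nat_lit 137)) (XT.nd (nat_lit 78) (nat_lit 380) (nat_lit 0) (XT.lf (nat_lit 0) (nat_lit 3646321493) (nat_lit 380) (nat_lit 151970350) (nat_lit 380) (nat_lit 151970350) (nat_lit 45) (nat_lit 3) (nat_lit 50) (nat_lit 3) (nat_lit 50) (nat_lit 5) (nat_lit 247) (nat_lit 247) (nat_lit 226)) (XT.lf (nat_lit 0) (nat_lit 585252006) (nat_lit 380) (nat_lit 4869419018) (nat_lit 456) (nat_lit 2660868309) (nat_lit 40) (nat_lit 5) (nat_lit 45) (nat_lit 3) (nat_lit 46) (nat_lit 5) (nat_lit 248) (nat_lit 247) (nat_lit 225))))) (XT.nd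 (nat_lit 234) (nat_lit 228) (nat_lit 0) (XT.nd (nat_lit 78) (nat_lit 0) (nat_lit 0) (XT.lf (nat_lit 0) (nat_lit 1737422677) (nat_lit 380) (nat_lit 1333532707) (nat_lit 456) (nat_lit 5284558725) (nat_lit 40) (nat_lit 5) (nat_lit 45) (nat_lit 3) (nat_lit 46) (nat_lit 5) (nat_lit 249) (nat_lit 247) (nat_lit 224)) (XT.nd (nat_lit 78) (nat_lit 0) (nat_lit 76) (XT.lf (nat_lit 76) (nat_lit 2549902568) (nat_lit 0) (nat_lit 389395064) (nat_lit 456) (nat_lit 5679468269) (nat_lit 41) (nat_lit 5) (nat_lit 40) (nat_lit 5) (nat_lit 46) (nat_lit 5) (nat_lit 250) (nat_lit 247) (nat_lit 223)) (XT.lf (nat_lit 0) (nat_lit 4238309550) (nat_lit 380) (nat_lit 2212138894) (nat_lit 456) (nat_lit 2453181438) (nat_lit 41) (nat_lit 5) (nat_lit 46) (nat_lit 5) (nat_lit 47) (nat_lit 5) (nat_lit 251) (nat_lit 247) (nat_lit 222)))) (XT.nd (nat_lit 78) (nat_lit 304) (nat_lit 0) (XT.lf (nat_lit 76) (nat_lit 1976515229)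 (nat_lit 0) (nat_lit 3632832900) (nat_lit 456) (nat_lit 3605070659) (nat_lit 42) (nat_lit 5) (nat_lit 41) (nat_lit 5) (nat_lit 47) (nat_lit 5) (nat_lit 252) (nat_lit 247) (nat_lit 221)) (XT.nd (nat_lit 78) (nat_lit 304) (nat_lit 0) (XT.lf (nat_lit 76) (nat_lit 6562355443) (nat_lit 0) (nat_lit 503755040) (nat_lit 456) (nat_lit 2486418051) (nat_lit 42) (nat_lit 5) (nat_lit 41) (nat_lit 5) (nat_lit 47) (nat_lit 5) (nat_lit 253) (nat_lit 247) (nat_lit 220)) (XT.lf (nat_lit 0) (nat_lit 1538992326) (nat_lit 380) (nat_lit 7128867307) (nat_lit 456) (nat_lit 1248052675) (nat_lit 37) (nat_lit 5) (nat_lit 42) (nat_lit 5) (nat_lit 43) (nat_lit 5) (nat_lit 254) (nat_lit 247) (nat_lit 219)))))) (XT.nd (nat_lit 468) (nat_lit 760) (nat_lit 0) (XT.nd (nat_lit 234) (nat_lit 228) (nat_lit 0) (XT.nd (nat_lit 78) (nat_lit 456) (nat_lit 0) (XT.lf (nat_lit 0) (nat_lit 106004203) (nat_lit 456) (nat_lit 3787598375)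 (nat_lit 76) (nat_lit 6413334202) (nat_lit 36) (nat_lit 5) (nat_lit 42) (nat_lit 5) (nat_lit 37) (nat_lit 5) (nat_lit 255) (nat_lit 247) (nat_lit 218)) (XT.nd (nat_lit 78) (nat_lit 0) (nat_lit 0) (XT.lf (nat_lit 0) (nat_lit 1129082196) (nat_lit 456) (nat_lit 328779510) (nat_lit 532) (nat_lit 9272633521) (nat_lit 30) (nat_lit 5) (nat_lit 36) (nat_lit 5) (nat_lit 37) (nat_lit 5) (nat_lit 256) (nat_lit 247) (nat_lit 217)) (XT.lf (nat_lit 0) (nat_lit 3042362543) (nat_lit 532) (nat_lit 4680557746) (nat_lit 76) (nat_lit 3455426666) (nat_lit 30) (nat_lit 5) (nat_lit 37) (nat_lit 5) (nat_lit 31) (nat_lit 5) (nat_lit 257) (nat_lit 247) (nat_lit 216)))) (XT.nd (nat_lit 78) (nat_lit 0) (nat_lit 0) (XT.lf (nat_lit 0) (nat_lit 592052402) (nat_lit 228) (nat_lit 4122830727) (nat_lit 304) (nat_lit 6950583829) (nat_lit 27) (nat_lit 5) (nat_lit 30) (nat_lit 5) (nat_lit 31) (nat_lit 5) (nat_lit 258)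 (nat_lit 247) (nat_lit 215)) (XT.nd (nat_lit 78) (nat_lit 0) (nat_lit 0) (XT.lf (nat_lit 0) (nat_lit 6491262840) (nat_lit 228) (nat_lit 99478730) (nat_lit 304) (nat_lit 5595567754) (nat_lit 27) (nat_lit 5) (nat_lit 30) (nat_lit 5) (nat_lit 31) (nat_lit 5) (nat_lit 259) (nat_lit 247) (nat_lit 214)) (XT.lf (nat_lit 0) (nat_lit 8664603256) (nat_lit 304) (nat_lit 49922488) (nat_lit 76) (nat_lit 4030750847) (nat_lit 27) (nat_lit 5) (nat_lit 31) (nat_lit 5) (nat_lit 28) (nat_lit 5) (nat_lit 260) (nat_lit 247) (nat_lit 213))))) (XT.nd (nat_lit 234) (nat_lit 304) (nat_lit 0) (XT.nd (nat_lit 78) (nat_lit 304) (nat_lit 0) (XT.lf (nat_lit 0) (nat_lit 6302657054) (nat_lit 152) (nat_lit 4705717132) (nat_lit 228) (nat_lit 2332537655) (nat_lit 25) (nat_lit 5) (nat_lit 27) (nat_lit 5) (nat_lit 28) (nat_lit 5) (nat_lit 261) (nat_lit 247) (nat_lit 212)) (XT.nd (nat_lit 78) (nat_lit 304) (nat_lit 0)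 (XT.lf (nat_lit 0) (nat_lit 13110866520) (nat_lit 152) (nat_lit 382365637) (nat_lit 228) (nat_lit 494929503) (nat_lit 25) (nat_lit 5) (nat_lit 27) (nat_lit 5) (nat_lit 28) (nat_lit 5) (nat_lit 262) (nat_lit 247) (nat_lit 211)) (XT.lf (nat_lit 0) (nat_lit 1621095453) (nat_lit 304) (nat_lit 8797997231) (nat_lit 76) (nat_lit 4248973187) (nat_lit 21) (nat_lit 5) (nat_lit 25) (nat_lit 5) (nat_lit 22) (nat_lit 5) (nat_lit 263) (nat_lit 247) (nat_lit 210)))) (XT.nd (nat_lit 156) (nat_lit 152) (nat_lit 0) (XT.nd (nat_lit 78) (nat_lit 152) (nat_lit 0) (XT.lf (nat_lit 0) (nat_lit 3870491225) (nat_lit 304) (nat_lit 2272761862) (nat_lit 76) (nat_lit 9259013593) (nat_lit 21) (nat_lit 5) (nat_lit 25) (nat_lit 5) (nat_lit 22) (nat_lit 5) (nat_lit 264) (nat_lit 247) (nat_lit 209)) (XT.lf (nat_lit 0) (nat_lit 4971304386) (nat_lit 152) (nat_lit 1407618759) (nat_lit 228) (nat_lit 9810137836) (nat_lit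 19) (nat_lit 5) (nat_lit 21) (nat_lit 5) (nat_lit 22) (nat_lit 5) (nat_lit 265) (nat_lit 247) (nat_lit 208))) (XT.nd (nat_lit 78) (nat_lit 152) (nat_lit 0) (XT.lf (nat_lit 0) (nat_lit 9201956582) (nat_lit 228) (nat_lit 4253982003) (nat_lit 76) (nat_lit 3573916624) (nat_lit 19) (nat_lit 5) (nat_lit 22) (nat_lit 5) (nat_lit 20) (nat_lit 5) (nat_lit 266) (nat_lit 247) (nat_lit 207)) (XT.lf (nat_lit 0) (nat_lit 3348251974) (nat_lit 152) (nat_lit 8983576435) (nat_lit 228) (nat_lit 5599762818) (nat_lit 17) (nat_lit 5) (nat_lit 19) (nat_lit 5) (nat_lit 20) (nat_lit 5) (nat_lit 267) (nat_lit 247) (nat_lit 206))))))) (XT.nd (nat_lit 1014) (nat_lit 304) (nat_lit 0) (XT.nd (nat_lit 468) (nat_lit 380) (nat_lit 0) (XT.nd (nat_lit 234) (nat_lit 152) (nat_lit 0) (XT.nd (nat_lit 78) (nat_lit 152) (nat_lit 0) (XT.lf (nat_lit 0) (nat_lit 11752273259) (nat_lit 152) (nat_lit 4041548136) (nat_lit 228)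 (nat_lit 3105252428) (nat_lit 17) (nat_lit 5) (nat_lit 19) (nat_lit 5) (nat_lit 20) (nat_lit 5) (nat_lit 268) (nat_lit 247) (nat_lit 205)) (XT.nd (nat_lit 78) (nat_lit 76) (nat_lit 0) (XT.lf (nat_lit 0) (nat_lit 848827093) (nat_lit 76) (nat_lit 18703201617) (nat_lit 152) (nat_lit 390521306) (nat_lit 16) (nat_lit 5) (nat_lit 17) (nat_lit 5) (nat_lit 18) (nat_lit 4) (nat_lit 269) (nat_lit 247) (nat_lit 204)) (XT.lf (nat_lit 0) (nat_lit 2687754680) (nat_lit 152) (nat_lit 11382229872) (nat_lit 76) (nat_lit 6972866432) (nat_lit 15) (nat_lit 5) (nat_lit 17) (nat_lit 5) (nat_lit 16) (nat_lit 5) (nat_lit 270) (nat_lit 247) (nat_lit 203)))) (XT.nd (nat_lit 78) (nat_lit 152) (nat_lit 0) (XT.lf (nat_lit 0) (nat_lit 5961601819) (nat_lit 152) (nat_lit 3108161428) (nat_lit 76) (nat_lit 13163076189) (nat_lit 15) (nat_lit 5) (nat_lit 17) (nat_lit 5) (nat_lit 16) (nat_lit 5) (nat_lit 271) (nat_lit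 247) (nat_lit 202)) (XT.nd (nat_lit 78) (nat_lit 0) (nat_lit 0) (XT.lf (nat_lit 0) (nat_lit 6091634183) (nat_lit 152) (nat_lit 3524825910) (nat_lit 228) (nat_lit 13892138111) (nat_lit 13) (nat_lit 5) (nat_lit 15) (nat_lit 5) (nat_lit 16) (nat_lit 5) (nat_lit 272) (nat_lit 247) (nat_lit 201)) (XT.lf (nat_lit 0) (nat_lit 13683492811) (nat_lit 228) (nat_lit 8778664109) (nat_lit 76) (nat_lit 2414770029) (nat_lit 13) (nat_lit 5) (nat_lit 16) (nat_lit 5) (nat_lit 14) (nat_lit 4) (nat_lit 273) (nat_lit 247) (nat_lit 200))))) (XT.nd (nat_lit 234) (nat_lit 304) (nat_lit 0) (XT.nd (nat_lit 78) (nat_lit 0) (nat_lit 0) (XT.lf (nat_lit 0) (nat_lit 442618127) (nat_lit 76) (nat_lit 17710787064) (nat_lit 152) (nat_lit 8195200751) (nat_lit 12) (nat_lit 5) (nat_lit 13) (nat_lit 5) (nat_lit 14) (nat_lit 4) (nat_lit 274) (nat_lit 247) (nat_lit 199)) (XT.nd (nat_lit 78) (nat_lit 0) (nat_lit 0) (XT.lf (nat_lit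 0) (nat_lit 10863163018) (nat_lit 76) (nat_lit 12334011758) (nat_lit 152) (nat_lit 4723622334) (nat_lit 12) (nat_lit 5) (nat_lit 13) (nat_lit 5) (nat_lit 14) (nat_lit 4) (nat_lit 275) (nat_lit 247) (nat_lit 198)) (XT.lf (nat_lit 0) (nat_lit 22082453046) (nat_lit 76) (nat_lit 6539992865) (nat_lit 152) (nat_lit 998150805) (nat_lit 12) (nat_lit 5) (nat_lit 13) (nat_lit 5) (nat_lit 14) (nat_lit 4) (nat_lit 276) (nat_lit 247) (nat_lit 197)))) (XT.nd (nat_lit 156) (nat_lit 76) (nat_lit 0) (XT.nd (nat_lit 78) (nat_lit 0) (nat_lit 0) (XT.lf (nat_lit 0) (nat_lit 2775508192) (nat_lit 152) (nat_lit 144296785) (nat_lit 228) (nat_lit 28527154249) (nat_lit 9) (nat_lit 5) (nat_lit 11) (nat_lit 5) (nat_lit 12) (nat_lit 5) (nat_lit 277) (nat_lit 247) (nat_lit 196)) (XT.lf (nat_lit 0) (nat_lit 7450887544) (nat_lit 228) (nat_lit 19287927198) (nat_lit 76) (nat_lit 6650310666) (nat_lit 9) (nat_lit 5) (nat_lit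 12) (nat_lit 5) (nat_lit 10) (nat_lit 4) (nat_lit 278) (nat_lit 247) (nat_lit 195))) (XT.nd (nat_lit 78) (nat_lit 76) (nat_lit 0) (XT.lf (nat_lit 0) (nat_lit 12329227961) (nat_lit 228) (nat_lit 9188957418) (nat_lit 76) (nat_lit 13969751566) (nat_lit 9) (nat_lit 5) (nat_lit 12) (nat_lit 5) (nat_lit 10) (nat_lit 4) (nat_lit 279) (nat_lit 247) (nat_lit 194)) (XT.lf (nat_lit 0) (nat_lit 1777702258) (nat_lit 76) (nat_lit 15845316097) (nat_lit 152) (nat_lit 20129670212) (nat_lit 8) (nat_lit 5) (nat_lit 9) (nat_lit 5) (nat_lit 10) (nat_lit 4) (nat_lit 280) (nat_lit 247) (nat_lit 193)))))) (XT.nd (nat_lit 468) (nat_lit 152) (nat_lit 0) (XT.nd (nat_lit 234) (nat_lit 152) (nat_lit 0) (XT.nd (nat_lit 78) (nat_lit 0) (nat_lit 0) (XT.lf (nat_lit 0) (nat_lit 14115861423) (nat_lit 76) (nat_lit 9458740016) (nat_lit 152) (nat_lit 16605321814) (nat_lit 8) (nat_lit 5) (nat_lit 9) (nat_lit 5) (nat_lit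 10) (nat_lit 4) (nat_lit 281) (nat_lit 247) (nat_lit 192)) (XT.nd (nat_lit 78) (nat_lit 0) (nat_lit 0) (XT.lf (nat_lit 0) (nat_lit 27414760881) (nat_lit 76) (nat_lit 2571853140) (nat_lit 152) (nat_lit 12816021142) (nat_lit 8) (nat_lit 5) (nat_lit 9) (nat_lit 5) (nat_lit 10) (nat_lit 4) (nat_lit 282) (nat_lit 247) (nat_lit 191)) (XT.lf (nat_lit 0) (nat_lit 37013843874) (nat_lit 152) (nat_lit 3999948032) (nat_lit 0) (nat_lit 4613231135) (nat_lit 8) (nat_lit 5) (nat_lit 10) (nat_lit 4) (nat_lit 8) (nat_lit 4) (nat_lit 283) (nat_lit 247) (nat_lit 190)))) (XT.nd (nat_lit 78) (nat_lit 76) (nat_lit 0) (XT.lf (nat_lit 0) (nat_lit 8641016571) (nat_lit 76) (nat_lit 36223176927) (nat_lit 76) (nat_lit 3792329728) (nat_lit 7) (nat_lit 4) (nat_lit 8) (nat_lit 5) (nat_lit 8) (nat_lit 4) (nat_lit 284) (nat_lit 247) (nat_lit 189)) (XT.nd (nat_lit 78) (nat_lit 0) (nat_lit 0) (XT.lf (nat_lit 0) (nat_lit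 1442061884) (nat_lit 152) (nat_lit 29459353349) (nat_lit 76) (nat_lit 21016389255) (nat_lit 6) (nat_lit 5) (nat_lit 8) (nat_lit 5) (nat_lit 7) (nat_lit 4) (nat_lit 285) (nat_lit 247) (nat_lit 188)) (XT.lf (nat_lit 0) (nat_lit 6877738371) (nat_lit 152) (nat_lit 18179067433) (nat_lit 76) (nat_lit 30376337900) (nat_lit 6) (nat_lit 5) (nat_lit 8) (nat_lit 5) (nat_lit 7) (nat_lit 4) (nat_lit 286) (nat_lit 247) (nat_lit 187))))) (XT.nd (nat_lit 234) (nat_lit 76) (nat_lit 0) (XT.nd (nat_lit 78) (nat_lit 76) (nat_lit 0) (XT.lf (nat_lit 0) (nat_lit 12736618840) (nat_lit 152) (nat_lit 6016597148) (nat_lit 76) (nat_lit 40477452973) (nat_lit 6) (nat_lit 5) (nat_lit 8) (nat_lit 5) (nat_lit 7) (nat_lit 4) (nat_lit 287) (nat_lit 247) (nat_lit 186)) (XT.nd (nat_lit 78) (nat_lit 0) (nat_lit 0) (XT.lf (nat_lit 0) (nat_lit 7474011740) (nat_lit 76) (nat_lit 11759161003) (nat_lit 152) (nat_lit 44085331358)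 (nat_lit 5) (nat_lit 5) (nat_lit 6) (nat_lit 5) (nat_lit 7) (nat_lit 4) (nat_lit 288) (nat_lit 247) (nat_lit 185)) (XT.lf (nat_lit 0) (nat_lit 22367773610) (nat_lit 76) (nat_lit 4035754391) (nat_lit 152) (nat_lit 41317534946) (nat_lit 5) (nat_lit 5) (nat_lit 6) (nat_lit 5) (nat_lit 7) (nat_lit 4) (nat_lit 289) (nat_lit 247) (nat_lit 184)))) (XT.nd (nat_lit 156) (nat_lit 76) (nat_lit 0) (XT.nd (nat_lit 78) (nat_lit 0) (nat_lit 0) (XT.lf (nat_lit 0) (nat_lit 34241230133) (nat_lit 152) (nat_lit 34143869246) (nat_lit 0) (nat_lit 4083250993) (nat_lit 5) (nat_lit 5) (nat_lit 7) (nat_lit 4) (nat_lit 5) (nat_lit 4) (nat_lit 290) (nat_lit 247) (nat_lit 183)) (XT.lf (nat_lit 0) (nat_lit 42801671819) (nat_lit 152) (nat_lit 22158752930) (nat_lit 0) (nat_lit 12627357940) (nat_lit 5) (nat_lit 5) (nat_lit 7) (nat_lit 4) (nat_lit 5) (nat_lit 4) (nat_lit 291) (nat_lit 247) (nat_lit 182))) (XT.nd (nat_lit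 78) (nat_lit 76) (nat_lit 0) (XT.lf (nat_lit 0) (nat_lit 52038521612) (nat_lit 152) (nat_lit 9229857488) (nat_lit 0) (nat_lit 21849082975) (nat_lit 5) (nat_lit 5) (nat_lit 7) (nat_lit 4) (nat_lit 5) (nat_lit 4) (nat_lit 292) (nat_lit 247) (nat_lit 181)) (XT.lf (nat_lit 0) (nat_lit 4967949722) (nat_lit 76) (nat_lit 57158045986) (nat_lit 76) (nat_lit 26954602944) (nat_lit 4) (nat_lit 4) (nat_lit 5) (nat_lit 5) (nat_lit 5) (nat_lit 4) (nat_lit 293) (nat_lit 247) (nat_lit 180))))))))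
noncomputable def xc64 : XT := (XT.nd (nat_lit 1950) (nat_lit 0) (nat_lit 0) (XT.nd (nat_lit 936) (nat_lit 76) (nat_lit 0) (XT.nd (nat_lit 468) (nat_lit 76) (nat_lit 0) (XT.nd (nat_lit 234) (nat_lit 76) (nat_lit 0) (XT.nd (nat_lit 78) (nat_lit 0) (nat_lit 0) (XT.lf (nat_lit 0) (nat_lit 20812927175) (nat_lit 76) (nat_lit 52452350001) (nat_lit 76) (nat_lit 22235939917) (nat_lit 4) (nat_lit 4) (nat_lit 5) (nat_lit 5) (nat_lit 5) (nat_lit 4) (nat_lit 294) (nat_lit 247) (nat_lit 179)) (XT.nd (nat_lit 78) (nat_lit 0) (nat_lit 0) (XT.lf (nat_lit 0) (nat_lit 37912943096) (nat_lit 76) (nat_lit 47375766198) (nat_lit 76) (nat_lit 17147349595) (nat_lit 4) (nat_lit 4) (nat_lit 5) (nat_lit 5) (nat_lit 5) (nat_lit 4) (nat_lit 295) (nat_lit 247) (nat_lit 178)) (XT.lf (nat_lit 0) (nat_lit 56369330911) (nat_lit 76) (nat_lit 41898211119) (nat_lit 76) (nat_lit 11658677367) (nat_lit 4) (nat_lit 4) (nat_lit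 5) (nat_lit 5) (nat_lit 5) (nat_lit 4) (nat_lit 296) (nat_lit 247) (nat_lit 177)))) (XT.nd (nat_lit 78) (nat_lit 76) (nat_lit 0) (XT.lf (nat_lit 0) (nat_lit 76291461808) (nat_lit 76) (nat_lit 35987225178) (nat_lit 76) (nat_lit 5737397770) (nat_lit 4) (nat_lit 4) (nat_lit 5) (nat_lit 5) (nat_lit 5) (nat_lit 4) (nat_lit 297) (nat_lit 247) (nat_lit 176)) (XT.nd (nat_lit 78) (nat_lit 0) (nat_lit 0) (XT.lf (nat_lit 0) (nat_lit 618983676) (nat_lit 152) (nat_lit 28971872523) (nat_lit 76) (nat_lit 97161485072) (nat_lit 3) (nat_lit 5) (nat_lit 5) (nat_lit 5) (nat_lit 4) (nat_lit 4) (nat_lit 298) (nat_lit 247) (nat_lit 175)) (XT.lf (nat_lit 0) (nat_lit 7168624273) (nat_lit 152) (nat_lit 15357445233) (nat_lit 76) (nat_lit 113649939454) (nat_lit 3) (nat_lit 5) (nat_lit 5) (nat_lit 5) (nat_lit 4) (nat_lit 4) (nat_lit 299) (nat_lit 247) (nat_lit 174))))) (XT.nd (nat_lit 234) (nat_lit 0) (nat_lit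 0) (XT.nd (nat_lit 78) (nat_lit 76) (nat_lit 0) (XT.lf (nat_lit 0) (nat_lit 14237344577) (nat_lit 152) (nat_lit 662678436) (nat_lit 76) (nat_lit 131453947528) (nat_lit 3) (nat_lit 5) (nat_lit 5) (nat_lit 5) (nat_lit 4) (nat_lit 4) (nat_lit 300) (nat_lit 247) (nat_lit 173)) (XT.nd (nat_lit 78) (nat_lit 0) (nat_lit 0) (XT.lf (nat_lit 0) (nat_lit 15999887120) (nat_lit 76) (nat_lit 6251943852) (nat_lit 152) (nat_lit 135063925080) (nat_lit 2) (nat_lit 5) (nat_lit 3) (nat_lit 5) (nat_lit 4) (nat_lit 4) (nat_lit 301) (nat_lit 247) (nat_lit 172)) (XT.lf (nat_lit 0) (nat_lit 30995860843) (nat_lit 152) (nat_lit 135202854422) (nat_lit 0) (nat_lit 2948706222) (nat_lit 2) (nat_lit 5) (nat_lit 4) (nat_lit 4) (nat_lit 2) (nat_lit 4) (nat_lit 302) (nat_lit 247) (nat_lit 171)))) (XT.nd (nat_lit 78) (nat_lit 0) (nat_lit 0) (XT.lf (nat_lit 0) (nat_lit 40597661544) (nat_lit 152) (nat_lit 128770805332)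 (nat_lit 0) (nat_lit 12544500674) (nat_lit 2) (nat_lit 5) (nat_lit 4) (nat_lit 4) (nat_lit 2) (nat_lit 4) (nat_lit 303) (nat_lit 247) (nat_lit 170)) (XT.nd (nat_lit 78) (nat_lit 0) (nat_lit 0) (XT.lf (nat_lit 0) (nat_lit 50963773236) (nat_lit 152) (nat_lit 121831246416) (nat_lit 0) (nat_lit 22905051023) (nat_lit 2) (nat_lit 5) (nat_lit 4) (nat_lit 4) (nat_lit 2) (nat_lit 4) (nat_lit 304) (nat_lit 247) (nat_lit 169)) (XT.lf (nat_lit 0) (nat_lit 62155624726) (nat_lit 152) (nat_lit 114343054362) (nat_lit 0) (nat_lit 34091753123) (nat_lit 2) (nat_lit 5) (nat_lit 4) (nat_lit 4) (nat_lit 2) (nat_lit 4) (nat_lit 305) (nat_lit 247) (nat_lit 168)))))) (XT.nd (nat_lit 468) (nat_lit 76) (nat_lit 0) (XT.nd (nat_lit 234) (nat_lit 0) (nat_lit 0) (XT.nd (nat_lit 78) (nat_lit 0) (nat_lit 0) (XT.lf (nat_lit 0) (nat_lit 74239538100) (nat_lit 152) (nat_lit 106261854699) (nat_lit 0) (nat_lit 46170898542)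 (nat_lit 2) (nat_lit 5) (nat_lit 4) (nat_lit 4) (nat_lit 2) (nat_lit 4) (nat_lit 306) (nat_lit 247) (nat_lit 167)) (XT.nd (nat_lit 78) (nat_lit 0) (nat_lit 0) (XT.lf (nat_lit 0) (nat_lit 87287121732) (nat_lit 152) (nat_lit 97539758834) (nat_lit 0) (nat_lit 59214067401) (nat_lit 2) (nat_lit 5) (nat_lit 4) (nat_lit 4) (nat_lit 2) (nat_lit 4) (nat_lit 307) (nat_lit 247) (nat_lit 166)) (XT.lf (nat_lit 0) (nat_lit 101375694636) (nat_lit 152) (nat_lit 88125080276) (nat_lit 0) (nat_lit 73298552553) (nat_lit 2) (nat_lit 5) (nat_lit 4) (nat_lit 4) (nat_lit 2) (nat_lit 4) (nat_lit 308) (nat_lit 247) (nat_lit 165)))) (XT.nd (nat_lit 78) (nat_lit 0) (nat_lit 0) (XT.lf (nat_lit 0) (nat_lit 116588744652) (nat_lit 152) (nat_lit 77962028336) (nat_lit 0) (nat_lit 88507817613) (nat_lit 2) (nat_lit 5) (nat_lit 4) (nat_lit 4) (nat_lit 2) (nat_lit 4) (nat_lit 309) (nat_lit 247) (nat_lit 164)) (XT.nd (nat_lit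 78) (nat_lit 0) (nat_lit 0) (XT.lf (nat_lit 0) (nat_lit 133016423187) (nat_lit 152) (nat_lit 66990377520) (nat_lit 0) (nat_lit 104931991559) (nat_lit 2) (nat_lit 5) (nat_lit 4) (nat_lit 4) (nat_lit 2) (nat_lit 4) (nat_lit 310) (nat_lit 247) (nat_lit 163)) (XT.lf (nat_lit 0) (nat_lit 150756079447) (nat_lit 152) (nat_lit 55145110640) (nat_lit 0) (nat_lit 122668402830) (nat_lit 2) (nat_lit 5) (nat_lit 4) (nat_lit 4) (nat_lit 2) (nat_lit 4) (nat_lit 311) (nat_lit 247) (nat_lit 162))))) (XT.nd (nat_lit 234) (nat_lit 76) (nat_lit 0) (XT.nd (nat_lit 78) (nat_lit 0) (nat_lit 0) (XT.lf (nat_lit 0) (nat_lit 169912837322) (nat_lit 152) (nat_lit 42356033520) (nat_lit 0) (nat_lit 141822156085) (nat_lit 2) (nat_lit 5) (nat_lit 4) (nat_lit 4) (nat_lit 2) (nat_lit 4) (nat_lit 312) (nat_lit 247) (nat_lit 161)) (XT.nd (nat_lit 78) (nat_lit 0) (nat_lit 0) (XT.lf (nat_lit 0) (nat_lit 190600218339) (nat_lit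 152) (nat_lit 28547359037) (nat_lit 0) (nat_lit 162506755046) (nat_lit 2) (nat_lit 5) (nat_lit 4) (nat_lit 4) (nat_lit 2) (nat_lit 4) (nat_lit 313) (nat_lit 247) (nat_lit 160)) (XT.lf (nat_lit 0) (nat_lit 212940814386) (nat_lit 152) (nat_lit 13637258010) (nat_lit 0) (nat_lit 184844775116) (nat_lit 2) (nat_lit 5) (nat_lit 4) (nat_lit 4) (nat_lit 2) (nat_lit 4) (nat_lit 314) (nat_lit 247) (nat_lit 159)))) (XT.nd (nat_lit 156) (nat_lit 0) (nat_lit 0) (XT.nd (nat_lit 78) (nat_lit 0) (nat_lit 0) (XT.lf (nat_lit 0) (nat_lit 2592303222) (nat_lit 76) (nat_lit 234537055913) (nat_lit 76) (nat_lit 206438631479) (nat_lit 1) (nat_lit 4) (nat_lit 2) (nat_lit 5) (nat_lit 2) (nat_lit 4) (nat_lit 315) (nat_lit 247) (nat_lit 158)) (XT.lf (nat_lit 0) (nat_lit 20892843509) (nat_lit 76) (nat_lit 242731417675) (nat_lit 76) (nat_lit 214630784755) (nat_lit 1) (nat_lit 4) (nat_lit 2) (nat_lit 5) (nat_lit 2)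 (nat_lit 4) (nat_lit 316) (nat_lit 247) (nat_lit 157))) (XT.nd (nat_lit 78) (nat_lit 0) (nat_lit 0) (XT.lf (nat_lit 0) (nat_lit 40654696657) (nat_lit 76) (nat_lit 251582583664) (nat_lit 76) (nat_lit 223479905850) (nat_lit 1) (nat_lit 4) (nat_lit 2) (nat_lit 5) (nat_lit 2) (nat_lit 4) (nat_lit 317) (nat_lit 247) (nat_lit 156)) (XT.lf (nat_lit 0) (nat_lit 61994969944) (nat_lit 76) (nat_lit 261143005234) (nat_lit 76) (nat_lit 233038434000) (nat_lit 1) (nat_lit 4) (nat_lit 2) (nat_lit 5) (nat_lit 2) (nat_lit 4) (nat_lit 318) (nat_lit 247) (nat_lit 155))))))) (XT.nd (nat_lit 936) (nat_lit 0) (nat_lit 0) (XT.nd (nat_lit 468) (nat_lit 0) (nat_lit 0) (XT.nd (nat_lit 234) (nat_lit 0) (nat_lit 0) (XT.nd (nat_lit 78) (nat_lit 0) (nat_lit 0) (XT.lf (nat_lit 0) (nat_lit 85040124248) (nat_lit 76) (nat_lit 271469336735) (nat_lit 76) (nat_lit 243363012334) (nat_lit 1) (nat_lit 4) (nat_lit 2) (nat_lit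 5) (nat_lit 2) (nat_lit 4) (nat_lit 319) (nat_lit 247) (nat_lit 154)) (XT.nd (nat_lit 78) (nat_lit 0) (nat_lit 0) (XT.lf (nat_lit 0) (nat_lit 109926723447) (nat_lit 76) (nat_lit 282622771243) (nat_lit 76) (nat_lit 254514823540) (nat_lit 1) (nat_lit 4) (nat_lit 2) (nat_lit 5) (nat_lit 2) (nat_lit 4) (nat_lit 320) (nat_lit 247) (nat_lit 153)) (XT.lf (nat_lit 0) (nat_lit 136802243685) (nat_lit 76) (nat_lit 294669403185) (nat_lit 76) (nat_lit 266559952423) (nat_lit 1) (nat_lit 4) (nat_lit 2) (nat_lit 5) (nat_lit 2) (nat_lit 4) (nat_lit 321) (nat_lit 247) (nat_lit 152)))) (XT.nd (nat_lit 78) (nat_lit 0) (nat_lit 0) (XT.lf (nat_lit 0) (nat_lit 165825947303) (nat_lit 76) (nat_lit 307680620009) (nat_lit 76) (nat_lit 279569777526) (nat_lit 1) (nat_lit 4) (nat_lit 2) (nat_lit 5) (nat_lit 2) (nat_lit 4) (nat_lit 322) (nat_lit 247) (nat_lit 151)) (XT.nd (nat_lit 78) (nat_lit 0) (nat_lit 0) (XT.lf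 (nat_lit 0) (nat_lit 197169826619) (nat_lit 76) (nat_lit 321733525222) (nat_lit 76) (nat_lit 293621394109) (nat_lit 1) (nat_lit 4) (nat_lit 2) (nat_lit 5) (nat_lit 2) (nat_lit 4) (nat_lit 323) (nat_lit 247) (nat_lit 150)) (XT.lf (nat_lit 0) (nat_lit 231019623141) (nat_lit 76) (nat_lit 336911395299) (nat_lit 76) (nat_lit 308798071011) (nat_lit 1) (nat_lit 4) (nat_lit 2) (nat_lit 5) (nat_lit 2) (nat_lit 4) (nat_lit 324) (nat_lit 247) (nat_lit 149))))) (XT.nd (nat_lit 234) (nat_lit 0) (nat_lit 0) (XT.nd (nat_lit 78) (nat_lit 0) (nat_lit 0) (XT.lf (nat_lit 0) (nat_lit 267575928254) (nat_lit 76) (nat_lit 353304173174) (nat_lit 76) (nat_lit 325189744094) (nat_lit 1) (nat_lit 4) (nat_lit 2) (nat_lit 5) (nat_lit 2) (nat_lit 4) (nat_lit 325) (nat_lit 247) (nat_lit 148)) (XT.nd (nat_lit 78) (nat_lit 0) (nat_lit 0) (XT.lf (nat_lit 0) (nat_lit 307055371916) (nat_lit 76) (nat_lit 371009001236)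 (nat_lit 76) (nat_lit 342893549199) (nat_lit 1) (nat_lit 4) (nat_lit 2) (nat_lit 5) (nat_lit 2) (nat_lit 4) (nat_lit 326) (nat_lit 247) (nat_lit 147)) (XT.lf (nat_lit 0) (nat_lit 349691906385) (nat_lit 76) (nat_lit 390130796982) (nat_lit 76) (nat_lit 362014397764) (nat_lit 1) (nat_lit 4) (nat_lit 2) (nat_lit 5) (nat_lit 2) (nat_lit 4) (nat_lit 327) (nat_lit 247) (nat_lit 146)))) (XT.nd (nat_lit 78) (nat_lit 0) (nat_lit 0) (XT.lf (nat_lit 0) (nat_lit 395738192606) (nat_lit 76) (nat_lit 410782874759) (nat_lit 76) (nat_lit 382665598521) (nat_lit 1) (nat_lit 4) (nat_lit 2) (nat_lit 5) (nat_lit 2) (nat_lit 4) (nat_lit 328) (nat_lit 247) (nat_lit 145)) (XT.nd (nat_lit 78) (nat_lit 0) (nat_lit 0) (XT.lf (nat_lit 0) (nat_lit 445467097460) (nat_lit 76) (nat_lit 433087617250) (nat_lit 76) (nat_lit 404969528956) (nat_lit 1) (nat_lit 4) (nat_lit 2) (nat_lit 5) (nat_lit 2) (nat_lit 4) (nat_lit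 329) (nat_lit 247) (nat_lit 144)) (XT.lf (nat_lit 0) (nat_lit 499173310754) (nat_lit 76) (nat_lit 457177200706) (nat_lit 76) (nat_lit 429058360509) (nat_lit 1) (nat_lit 4) (nat_lit 2) (nat_lit 5) (nat_lit 2) (nat_lit 4) (nat_lit 330) (nat_lit 247) (nat_lit 143)))))) (XT.nd (nat_lit 468) (nat_lit 0) (nat_lit 0) (XT.nd (nat_lit 234) (nat_lit 0) (nat_lit 0) (XT.nd (nat_lit 78) (nat_lit 0) (nat_lit 0) (XT.lf (nat_lit 0) (nat_lit 557175091529) (nat_lit 76) (nat_lit 483194378215) (nat_lit 76) (nat_lit 455074841811) (nat_lit 1) (nat_lit 4) (nat_lit 2) (nat_lit 5) (nat_lit 2) (nat_lit 4) (nat_lit 331) (nat_lit 247) (nat_lit 142)) (XT.nd (nat_lit 78) (nat_lit 0) (nat_lit 0) (XT.lf (nat_lit 0) (nat_lit 619816154043) (nat_lit 76) (nat_lit 511293325643) (nat_lit 76) (nat_lit 483173144603) (nat_lit 1) (nat_lit 4) (nat_lit 2) (nat_lit 5) (nat_lit 2) (nat_lit 4) (nat_lit 332) (nat_lit 247) (nat_lit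 141)) (XT.lf (nat_lit 0) (nat_lit 687467704591) (nat_lit 76) (nat_lit 541640555271) (nat_lit 76) (nat_lit 513519777346) (nat_lit 1) (nat_lit 4) (nat_lit 2) (nat_lit 5) (nat_lit 2) (nat_lit 4) (nat_lit 333) (nat_lit 247) (nat_lit 140)))) (XT.nd (nat_lit 78) (nat_lit 0) (nat_lit 0) (XT.lf (nat_lit 0) (nat_lit 760530641251) (nat_lit 76) (nat_lit 574415902534) (nat_lit 76) (nat_lit 546294571938) (nat_lit 1) (nat_lit 4) (nat_lit 2) (nat_lit 5) (nat_lit 2) (nat_lit 4) (nat_lit 334) (nat_lit 247) (nat_lit 139)) (XT.nd (nat_lit 78) (nat_lit 0) (nat_lit 0) (XT.lf (nat_lit 0) (nat_lit 839437929573) (nat_lit 76) (nat_lit 609813591713) (nat_lit 76) (nat_lit 581691749384) (nat_lit 1) (nat_lit 4) (nat_lit 2) (nat_lit 5) (nat_lit 2) (nat_lit 4) (nat_lit 335) (nat_lit 247) (nat_lit 138)) (XT.lf (nat_lit 0) (nat_lit 924657168303) (nat_lit 76) (nat_lit 648043386891) (nat_lit 76) (nat_lit 619921070735)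 (nat_lit 1) (nat_lit 4) (nat_lit 2) (nat_lit 5) (nat_lit 2) (nat_lit 4) (nat_lit 336) (nat_lit 247) (nat_lit 137))))) (XT.nd (nat_lit 30732) (nat_lit 0) (nat_lit 2964) (XT.nd (nat_lit 30576) (nat_lit 0) (nat_lit 2964) (XT.lf (nat_lit 0) (nat_lit 1016693360337) (nat_lit 76) (nat_lit 689331835002) (nat_lit 76) (nat_lit 661209080118) (nat_lit 1) (nat_lit 4) (nat_lit 2) (nat_lit 5) (nat_lit 2) (nat_lit 4) (nat_lit 337) (nat_lit 247) (nat_lit 136)) (XT.nd (nat_lit 78) (nat_lit 0) (nat_lit 0) (XT.lf (nat_lit 0) (nat_lit 393429800) (nat_lit 0) (nat_lit 393429800) (nat_lit 380) (nat_lit 3384979980) (nat_lit 40) (nat_lit 5) (nat_lit 40) (nat_lit 3) (nat_lit 45) (nat_lit 3) (nat_lit 248) (nat_lit 248) (nat_lit 224)) (XT.lf (nat_lit 0) (nat_lit 2657064638) (nat_lit 380) (nat_lit 4032239256) (nat_lit 456) (nat_lit 1900183701) (nat_lit 40) (nat_lit 5) (nat_lit 45) (nat_lit 3) (nat_lit 46) (nat_lit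 5) (nat_lit 249) (nat_lit 248) (nat_lit 223)))) (XT.nd (nat_lit 156) (nat_lit 0) (nat_lit 76) (XT.nd (nat_lit 78) (nat_lit 0) (nat_lit 0) (XT.lf (nat_lit 0) (nat_lit 3751409520) (nat_lit 380) (nat_lit 304351172) (nat_lit 456) (nat_lit 4805884467) (nat_lit 40) (nat_lit 5) (nat_lit 45) (nat_lit 3) (nat_lit 46) (nat_lit 5) (nat_lit 250) (nat_lit 248) (nat_lit 222)) (XT.lf (nat_lit 76) (nat_lit 3861002870) (nat_lit 0) (nat_lit 1076169205) (nat_lit 456) (nat_lit 4218677909) (nat_lit 41) (nat_lit 5) (nat_lit 40) (nat_lit 5) (nat_lit 46) (nat_lit 5) (nat_lit 251) (nat_lit 248) (nat_lit 221))) (XT.nd (nat_lit 78) (nat_lit 0) (nat_lit 0) (XT.lf (nat_lit 0) (nat_lit 6194932550) (nat_lit 380) (nat_lit 1208283133) (nat_lit 456) (nat_lit 2072745545) (nat_lit 41) (nat_lit 5) (nat_lit 46) (nat_lit 5) (nat_lit 47) (nat_lit 5) (nat_lit 252) (nat_lit 248) (nat_lit 220)) (XT.lf (nat_lit 76) (nat_lit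 3285568969) (nat_lit 0) (nat_lit 4297946073) (nat_lit 456) (nat_lit 2236251144) (nat_lit 42) (nat_lit 5) (nat_lit 41) (nat_lit 5) (nat_lit 47) (nat_lit 5) (nat_lit 253) (nat_lit 248) (nat_lit 219))))))))
noncomputable def xc65 : XT := (XT.nd (nat_lit 1950) (nat_lit 532) (nat_lit 0) (XT.nd (nat_lit 936) (nat_lit 912) (nat_lit 0) (XT.nd (nat_lit 468) (nat_lit 456) (nat_lit 0) (XT.nd (nat_lit 234) (nat_lit 684) (nat_lit 0) (XT.nd (nat_lit 78) (nat_lit 380) (nat_lit 0) (XT.lf (nat_lit 76) (nat_lit 8153022140) (nat_lit 0) (nat_lit 890802240) (nat_lit 456) (nat_lit 1150863747) (nat_lit 42) (nat_lit 5) (nat_lit 41) (nat_lit 5) (nat_lit 47) (nat_lit 5) (nat_lit 254) (nat_lit 248) (nat_lit 218)) (XT.nd (nat_lit 78) (nat_lit 0) (nat_lit 0) (XT.lf (nat_lit 0) (nat_lit 90102670) (nat_lit 456) (nat_lit 7768946716) (nat_lit 76) (nat_lit 2735325689) (nat_lit 36) (nat_lit 5) (nat_lit 42) (nat_lit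 5) (nat_lit 37) (nat_lit 5) (nat_lit 255) (nat_lit 248) (nat_lit 217)) (XT.lf (nat_lit 0) (nat_lit 1383532964) (nat_lit 456) (nat_lit 2937171142) (nat_lit 76) (nat_lit 6702080605) (nat_lit 36) (nat_lit 5) (nat_lit 42) (nat_lit 5) (nat_lit 37) (nat_lit 5) (nat_lit 256) (nat_lit 248) (nat_lit 216)))) (XT.nd (nat_lit 78) (nat_lit 228) (nat_lit 0) (XT.lf (nat_lit 0) (nat_lit 2343642987) (nat_lit 456) (nat_lit 432930353) (nat_lit 532) (nat_lit 8709543835) (nat_lit 30) (nat_lit 5) (nat_lit 36) (nat_lit 5) (nat_lit 37) (nat_lit 5) (nat_lit 257) (nat_lit 248) (nat_lit 215)) (XT.nd (nat_lit 78) (nat_lit 228) (nat_lit 0) (XT.lf (nat_lit 0) (nat_lit 4397057509) (nat_lit 532) (nat_lit 3917109641) (nat_lit 76) (nat_lit 3663384701) (nat_lit 30) (nat_lit 5) (nat_lit 37) (nat_lit 5) (nat_lit 31) (nat_lit 5) (nat_lit 258) (nat_lit 248) (nat_lit 214)) (XT.lf (nat_lit 0) (nat_lit 1748501908) (nat_lit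 228) (nat_lit 4399232403) (nat_lit 304) (nat_lit 6360814955) (nat_lit 27) (nat_lit 5) (nat_lit 30) (nat_lit 5) (nat_lit 31) (nat_lit 5) (nat_lit 259) (nat_lit 248) (nat_lit 213))))) (XT.nd (nat_lit 234) (nat_lit 304) (nat_lit 0) (XT.nd (nat_lit 78) (nat_lit 152) (nat_lit 0) (XT.lf (nat_lit 0) (nat_lit 8037494714) (nat_lit 228) (nat_lit 57969637) (nat_lit 304) (nat_lit 4982272823) (nat_lit 27) (nat_lit 5) (nat_lit 30) (nat_lit 5) (nat_lit 31) (nat_lit 5) (nat_lit 260) (nat_lit 248) (nat_lit 212)) (XT.nd (nat_lit 78) (nat_lit 0) (nat_lit 0) (XT.lf (nat_lit 0) (nat_lit 1024381157) (nat_lit 152) (nat_lit 9264187071) (nat_lit 228) (nat_lit 3396978030) (nat_lit 25) (nat_lit 5) (nat_lit 27) (nat_lit 5) (nat_lit 28) (nat_lit 5) (nat_lit 261) (nat_lit 248) (nat_lit 211)) (XT.lf (nat_lit 0) (nat_lit 7807922009) (nat_lit 152) (nat_lit 4944234781) (nat_lit 228) (nat_lit 1582452390) (nat_lit 25)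 (nat_lit 5) (nat_lit 27) (nat_lit 5) (nat_lit 28) (nat_lit 5) (nat_lit 262) (nat_lit 248) (nat_lit 210)))) (XT.nd (nat_lit 78) (nat_lit 0) (nat_lit 0) (XT.lf (nat_lit 0) (nat_lit 41626109) (nat_lit 228) (nat_lit 275508087) (nat_lit 304) (nat_lit 14721234476) (nat_lit 21) (nat_lit 5) (nat_lit 24) (nat_lit 5) (nat_lit 25) (nat_lit 5) (nat_lit 263) (nat_lit 248) (nat_lit 209)) (XT.nd (nat_lit 78) (nat_lit 0) (nat_lit 0) (XT.lf (nat_lit 0) (nat_lit 2540444616) (nat_lit 304) (nat_lit 8489820031) (nat_lit 76) (nat_lit 4744480214) (nat_lit 21) (nat_lit 5) (nat_lit 25) (nat_lit 5) (nat_lit 22) (nat_lit 5) (nat_lit 264) (nat_lit 248) (nat_lit 208)) (XT.lf (nat_lit 0) (nat_lit 4911298604) (nat_lit 304) (nat_lit 1517530054) (nat_lit 76) (nat_lit 10143798729) (nat_lit 21) (nat_lit 5) (nat_lit 25) (nat_lit 5) (nat_lit 22) (nat_lit 5) (nat_lit 265) (nat_lit 248) (nat_lit 207)))))) (XT.nd (nat_lit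 468) (nat_lit 456) (nat_lit 0) (XT.nd (nat_lit 234) (nat_lit 152) (nat_lit 0) (XT.nd (nat_lit 78) (nat_lit 152) (nat_lit 0) (XT.lf (nat_lit 0) (nat_lit 6282338640) (nat_lit 152) (nat_lit 1305871445) (nat_lit 228) (nat_lit 9836977203) (nat_lit 19) (nat_lit 5) (nat_lit 21) (nat_lit 5) (nat_lit 22) (nat_lit 5) (nat_lit 266) (nat_lit 248) (nat_lit 206)) (XT.nd (nat_lit 78) (nat_lit 152) (nat_lit 0) (XT.lf (nat_lit 0) (nat_lit 10590083826) (nat_lit 228) (nat_lit 3698769833) (nat_lit 76) (nat_lit 4048379787) (nat_lit 19) (nat_lit 5) (nat_lit 22) (nat_lit 5) (nat_lit 20) (nat_lit 5) (nat_lit 267) (nat_lit 248) (nat_lit 205)) (XT.lf (nat_lit 0) (nat_lit 4488971198) (nat_lit 152) (nat_lit 9454072355) (nat_lit 228) (nat_lit 5370460237) (nat_lit 17) (nat_lit 5) (nat_lit 19) (nat_lit 5) (nat_lit 20) (nat_lit 5) (nat_lit 268) (nat_lit 248) (nat_lit 204)))) (XT.nd (nat_lit 78) (nat_lit 152) (nat_lit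 0) (XT.lf (nat_lit 0) (nat_lit 13500657959) (nat_lit 152) (nat_lit 4135066251) (nat_lit 228) (nat_lit 2726558172) (nat_lit 17) (nat_lit 5) (nat_lit 19) (nat_lit 5) (nat_lit 20) (nat_lit 5) (nat_lit 269) (nat_lit 248) (nat_lit 203)) (XT.nd (nat_lit 78) (nat_lit 0) (nat_lit 0) (XT.lf (nat_lit 0) (nat_lit 176676158) (nat_lit 152) (nat_lit 19748739820) (nat_lit 76) (nat_lit 1565065552) (nat_lit 15) (nat_lit 5) (nat_lit 17) (nat_lit 5) (nat_lit 16) (nat_lit 5) (nat_lit 270) (nat_lit 248) (nat_lit 202)) (XT.lf (nat_lit 0) (nat_lit 3437349939) (nat_lit 152) (nat_lit 11494347588) (nat_lit 76) (nat_lit 7749874165) (nat_lit 15) (nat_lit 5) (nat_lit 17) (nat_lit 5) (nat_lit 16) (nat_lit 5) (nat_lit 271) (nat_lit 248) (nat_lit 201))))) (XT.nd (nat_lit 234) (nat_lit 304) (nat_lit 0) (XT.nd (nat_lit 78) (nat_lit 152) (nat_lit 0) (XT.lf (nat_lit 0) (nat_lit 6933506710) (nat_lit 152) (nat_lit 2617498904)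 (nat_lit 76) (nat_lit 14419065263) (nat_lit 15) (nat_lit 5) (nat_lit 17) (nat_lit 5) (nat_lit 16) (nat_lit 5) (nat_lit 272) (nat_lit 248) (nat_lit 200)) (XT.nd (nat_lit 78) (nat_lit 0) (nat_lit 0) (XT.lf (nat_lit 0) (nat_lit 7299563509) (nat_lit 152) (nat_lit 3561855606) (nat_lit 228) (nat_lit 14488151148) (nat_lit 13) (nat_lit 5) (nat_lit 15) (nat_lit 5) (nat_lit 16) (nat_lit 5) (nat_lit 273) (nat_lit 248) (nat_lit 199)) (XT.lf (nat_lit 0) (nat_lit 15224036515) (nat_lit 228) (nat_lit 8782417254) (nat_lit 76) (nat_lit 2823417063) (nat_lit 13) (nat_lit 5) (nat_lit 16) (nat_lit 5) (nat_lit 14) (nat_lit 4) (nat_lit 274) (nat_lit 248) (nat_lit 198)))) (XT.nd (nat_lit 156) (nat_lit 228) (nat_lit 0) (XT.nd (nat_lit 78) (nat_lit 0) (nat_lit 0) (XT.lf (nat_lit 0) (nat_lit 1158883004) (nat_lit 76) (nat_lit 18876006487) (nat_lit 152) (nat_lit 8385841003) (nat_lit 12) (nat_lit 5) (nat_lit 13)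 (nat_lit 5) (nat_lit 14) (nat_lit 4) (nat_lit 275) (nat_lit 248) (nat_lit 197)) (XT.lf (nat_lit 0) (nat_lit 12362637752) (nat_lit 76) (nat_lit 13087729420) (nat_lit 152) (nat_lit 4670978966) (nat_lit 12) (nat_lit 5) (nat_lit 13) (nat_lit 5) (nat_lit 14) (nat_lit 4) (nat_lit 276) (nat_lit 248) (nat_lit 196))) (XT.nd (nat_lit 78) (nat_lit 228) (nat_lit 0) (XT.lf (nat_lit 0) (nat_lit 24432773079) (nat_lit 76) (nat_lit 6847448517) (nat_lit 152) (nat_lit 679361059) (nat_lit 12) (nat_lit 5) (nat_lit 13) (nat_lit 5) (nat_lit 14) (nat_lit 4) (nat_lit 277) (nat_lit 248) (nat_lit 195)) (XT.lf (nat_lit 0) (nat_lit 3519869966) (nat_lit 228) (nat_lit 30347100465) (nat_lit 76) (nat_lit 65378220) (nat_lit 9) (nat_lit 5) (nat_lit 12) (nat_lit 5) (nat_lit 10) (nat_lit 4) (nat_lit 278) (nat_lit 248) (nat_lit 194))))))) (XT.nd (nat_lit 936) (nat_lit 228) (nat_lit 0) (XT.nd (nat_lit 468) (nat_lit 228)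 (nat_lit 0) (XT.nd (nat_lit 234) (nat_lit 0) (nat_lit 0) (XT.nd (nat_lit 78) (nat_lit 76) (nat_lit 0) (XT.lf (nat_lit 0) (nat_lit 8389762768) (nat_lit 228) (nat_lit 20262147778) (nat_lit 76) (nat_lit 7379949384) (nat_lit 9) (nat_lit 5) (nat_lit 12) (nat_lit 5) (nat_lit 10) (nat_lit 4) (nat_lit 279) (nat_lit 248) (nat_lit 193)) (XT.nd (nat_lit 78) (nat_lit 76) (nat_lit 0) (XT.lf (nat_lit 0) (nat_lit 13632977514) (nat_lit 228) (nat_lit 9397394756) (nat_lit 76) (nat_lit 15270307492) (nat_lit 9) (nat_lit 5) (nat_lit 12) (nat_lit 5) (nat_lit 10) (nat_lit 4) (nat_lit 280) (nat_lit 248) (nat_lit 192)) (XT.lf (nat_lit 0) (nat_lit 2433264042) (nat_lit 76) (nat_lit 16905841121) (nat_lit 152) (nat_lit 21408466237) (nat_lit 8) (nat_lit 5) (nat_lit 9) (nat_lit 5) (nat_lit 10) (nat_lit 4) (nat_lit 281) (nat_lit 248) (nat_lit 191)))) (XT.nd (nat_lit 78) (nat_lit 0) (nat_lit 0) (XT.lf (nat_lit 0)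 (nat_lit 15720450340) (nat_lit 76) (nat_lit 10023679714) (nat_lit 152) (nat_lit 17626731270) (nat_lit 8) (nat_lit 5) (nat_lit 9) (nat_lit 5) (nat_lit 10) (nat_lit 4) (nat_lit 282) (nat_lit 248) (nat_lit 190)) (XT.nd (nat_lit 78) (nat_lit 0) (nat_lit 0) (XT.lf (nat_lit 0) (nat_lit 30048052865) (nat_lit 76) (nat_lit 2600046296) (nat_lit 152) (nat_lit 13557028492) (nat_lit 8) (nat_lit 5) (nat_lit 9) (nat_lit 5) (nat_lit 10) (nat_lit 4) (nat_lit 283) (nat_lit 248) (nat_lit 189)) (XT.lf (nat_lit 0) (nat_lit 40222012701) (nat_lit 152) (nat_lit 3896277918) (nat_lit 0) (nat_lit 5138468395) (nat_lit 8) (nat_lit 5) (nat_lit 10) (nat_lit 4) (nat_lit 8) (nat_lit 4) (nat_lit 284) (nat_lit 248) (nat_lit 188))))) (XT.nd (nat_lit 234) (nat_lit 76) (nat_lit 0) (XT.nd (nat_lit 78) (nat_lit 76) (nat_lit 0) (XT.lf (nat_lit 0) (nat_lit 9745238132) (nat_lit 76) (nat_lit 38946782548) (nat_lit 76) (nat_lit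 3837317065) (nat_lit 7) (nat_lit 4) (nat_lit 8) (nat_lit 5) (nat_lit 8) (nat_lit 4) (nat_lit 285) (nat_lit 248) (nat_lit 187)) (XT.nd (nat_lit 78) (nat_lit 0) (nat_lit 0) (XT.lf (nat_lit 0) (nat_lit 1784716534) (nat_lit 152) (nat_lit 31421256180) (nat_lit 76) (nat_lit 22846548264) (nat_lit 6) (nat_lit 5) (nat_lit 8) (nat_lit 5) (nat_lit 7) (nat_lit 4) (nat_lit 286) (nat_lit 248) (nat_lit 186)) (XT.lf (nat_lit 0) (nat_lit 7638410866) (nat_lit 152) (nat_lit 19267795200) (nat_lit 76) (nat_lit 32944267031) (nat_lit 6) (nat_lit 5) (nat_lit 8) (nat_lit 5) (nat_lit 7) (nat_lit 4) (nat_lit 287) (nat_lit 248) (nat_lit 185)))) (XT.nd (nat_lit 78) (nat_lit 76) (nat_lit 0) (XT.lf (nat_lit 0) (nat_lit 13950412630) (nat_lit 152) (nat_lit 6159408598) (nat_lit 76) (nat_lit 43843262266) (nat_lit 6) (nat_lit 5) (nat_lit 8) (nat_lit 5) (nat_lit 7) (nat_lit 4) (nat_lit 288) (nat_lit 248) (nat_lit 184))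 (XT.nd (nat_lit 78) (nat_lit 0) (nat_lit 0) (XT.lf (nat_lit 0) (nat_lit 8401878967) (nat_lit 76) (nat_lit 12558312703) (nat_lit 152) (nat_lit 47408307031) (nat_lit 5) (nat_lit 5) (nat_lit 6) (nat_lit 5) (nat_lit 7) (nat_lit 4) (nat_lit 289) (nat_lit 248) (nat_lit 183)) (XT.lf (nat_lit 0) (nat_lit 24462701320) (nat_lit 76) (nat_lit 4227521057) (nat_lit 152) (nat_lit 44434186968) (nat_lit 5) (nat_lit 5) (nat_lit 6) (nat_lit 5) (nat_lit 7) (nat_lit 4) (nat_lit 290) (nat_lit 248) (nat_lit 182)))))) (XT.nd (nat_lit 468) (nat_lit 152) (nat_lit 0) (XT.nd (nat_lit 234) (nat_lit 76) (nat_lit 0) (XT.nd (nat_lit 78) (nat_lit 0) (nat_lit 0) (XT.lf (nat_lit 0) (nat_lit 37144940528) (nat_lit 152) (nat_lit 36582145774) (nat_lit 0) (nat_lit 4525222043) (nat_lit 5) (nat_lit 5) (nat_lit 7) (nat_lit 4) (nat_lit 5) (nat_lit 4) (nat_lit 291) (nat_lit 248) (nat_lit 181)) (XT.nd (nat_lit 78) (nat_lit 0)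 (nat_lit 0) (XT.lf (nat_lit 0) (nat_lit 46378038883) (nat_lit 152) (nat_lit 23659941116) (nat_lit 0) (nat_lit 13744315993) (nat_lit 5) (nat_lit 5) (nat_lit 7) (nat_lit 4) (nat_lit 5) (nat_lit 4) (nat_lit 292) (nat_lit 248) (nat_lit 180)) (XT.lf (nat_lit 0) (nat_lit 56342560117) (nat_lit 152) (nat_lit 9716846042) (nat_lit 0) (nat_lit 23695870185) (nat_lit 5) (nat_lit 5) (nat_lit 7) (nat_lit 4) (nat_lit 5) (nat_lit 4) (nat_lit 293) (nat_lit 248) (nat_lit 179)))) (XT.nd (nat_lit 78) (nat_lit 0) (nat_lit 0) (XT.lf (nat_lit 0) (nat_lit 5610421186) (nat_lit 76) (nat_lit 61622062822) (nat_lit 76) (nat_lit 28963366369) (nat_lit 4) (nat_lit 4) (nat_lit 5) (nat_lit 5) (nat_lit 5) (nat_lit 4) (nat_lit 294) (nat_lit 248) (nat_lit 178)) (XT.nd (nat_lit 78) (nat_lit 0) (nat_lit 0) (XT.lf (nat_lit 0) (nat_lit 22704846059) (nat_lit 76) (nat_lit 56547957590) (nat_lit 76) (nat_lit 23878143990) (nat_lit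 4) (nat_lit 4) (nat_lit 5) (nat_lit 5) (nat_lit 5) (nat_lit 4) (nat_lit 295) (nat_lit 248) (nat_lit 177)) (XT.lf (nat_lit 0) (nat_lit 41156056979) (nat_lit 76) (nat_lit 51072697484) (nat_lit 76) (nat_lit 18392590228) (nat_lit 4) (nat_lit 4) (nat_lit 5) (nat_lit 5) (nat_lit 5) (nat_lit 4) (nat_lit 296) (nat_lit 248) (nat_lit 176))))) (XT.nd (nat_lit 234) (nat_lit 76) (nat_lit 0) (XT.nd (nat_lit 78) (nat_lit 76) (nat_lit 0) (XT.lf (nat_lit 0) (nat_lit 61073394454) (nat_lit 76) (nat_lit 45163836519) (nat_lit 76) (nat_lit 12474198099) (nat_lit 4) (nat_lit 4) (nat_lit 5) (nat_lit 5) (nat_lit 5) (nat_lit 4) (nat_lit 297) (nat_lit 248) (nat_lit 175)) (XT.nd (nat_lit 78) (nat_lit 76) (nat_lit 0) (XT.lf (nat_lit 0) (nat_lit 82574887151) (nat_lit 76) (nat_lit 38786359220) (nat_lit 76) (nat_lit 6087895650) (nat_lit 4) (nat_lit 4) (nat_lit 5) (nat_lit 5) (nat_lit 5) (nat_lit 4) (nat_lit 298) (nat_lit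 248) (nat_lit 174)) (XT.lf (nat_lit 0) (nat_lit 763934440) (nat_lit 152) (nat_lit 31117651368) (nat_lit 76) (nat_lit 105003129561) (nat_lit 3) (nat_lit 5) (nat_lit 5) (nat_lit 5) (nat_lit 4) (nat_lit 4) (nat_lit 299) (nat_lit 248) (nat_lit 173)))) (XT.nd (nat_lit 156) (nat_lit 76) (nat_lit 0) (XT.nd (nat_lit 78) (nat_lit 0) (nat_lit 0) (XT.lf (nat_lit 0) (nat_lit 7830477243) (nat_lit 152) (nat_lit 16426808484) (nat_lit 76) (nat_lit 122805569501) (nat_lit 3) (nat_lit 5) (nat_lit 5) (nat_lit 5) (nat_lit 4) (nat_lit 4) (nat_lit 300) (nat_lit 248) (nat_lit 172)) (XT.lf (nat_lit 0) (nat_lit 15458149762) (nat_lit 152) (nat_lit 568255334) (nat_lit 76) (nat_lit 142029184526) (nat_lit 3) (nat_lit 5) (nat_lit 5) (nat_lit 5) (nat_lit 4) (nat_lit 4) (nat_lit 301) (nat_lit 248) (nat_lit 171))) (XT.nd (nat_lit 78) (nat_lit 0) (nat_lit 0) (XT.lf (nat_lit 0) (nat_lit 17423582874) (nat_lit 76) (nat_lit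 6687607732) (nat_lit 152) (nat_lit 145783347067) (nat_lit 2) (nat_lit 5) (nat_lit 3) (nat_lit 5) (nat_lit 4) (nat_lit 4) (nat_lit 302) (nat_lit 248) (nat_lit 170)) (XT.lf (nat_lit 0) (nat_lit 33550311361) (nat_lit 152) (nat_lit 145881459978) (nat_lit 0) (nat_lit 3241330030) (nat_lit 2) (nat_lit 5) (nat_lit 4) (nat_lit 4) (nat_lit 2) (nat_lit 4) (nat_lit 303) (nat_lit 248) (nat_lit 169))))))))
noncomputable def xc66 : XT := (XT.nd (nat_lit 1950) (nat_lit 0) (nat_lit 0) (XT.nd (nat_lit 936) (nat_lit 76) (nat_lit 0) (XT.nd (nat_lit 468) (nat_lit 0) (nat_lit 0) (XT.nd (nat_lit 234) (nat_lit 0) (nat_lit 0) (XT.nd (nat_lit 78) (nat_lit 0) (nat_lit 0) (XT.lf (nat_lit 0) (nat_lit 43914716737) (nat_lit 152) (nat_lit 138945041243) (nat_lit 0) (nat_lit 13600586015) (nat_lit 2) (nat_lit 5) (nat_lit 4) (nat_lit 4) (nat_lit 2) (nat_lit 4) (nat_lit 304) (nat_lit 248) (nat_lit 168)) (XT.nd (nat_lit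 78) (nat_lit 0) (nat_lit 0) (XT.lf (nat_lit 0) (nat_lit 55104988307) (nat_lit 152) (nat_lit 131459756763) (nat_lit 0) (nat_lit 24786089630) (nat_lit 2) (nat_lit 5) (nat_lit 4) (nat_lit 4) (nat_lit 2) (nat_lit 4) (nat_lit 305) (nat_lit 248) (nat_lit 167)) (XT.lf (nat_lit 0) (nat_lit 67187438790) (nat_lit 152) (nat_lit 123381249298) (nat_lit 0) (nat_lit 36864125341) (nat_lit 2) (nat_lit 5) (nat_lit 4) (nat_lit 4) (nat_lit 2) (nat_lit 4) (nat_lit 306) (nat_lit 248) (nat_lit 166)))) (XT.nd (nat_lit 78) (nat_lit 0) (nat_lit 0) (XT.lf (nat_lit 0) (nat_lit 80233667894) (nat_lit 152) (nat_lit 114661646210) (nat_lit 0) (nat_lit 49906266692) (nat_lit 2) (nat_lit 5) (nat_lit 4) (nat_lit 4) (nat_lit 2) (nat_lit 4) (nat_lit 307) (nat_lit 248) (nat_lit 165)) (XT.nd (nat_lit 78) (nat_lit 0) (nat_lit 0) (XT.lf (nat_lit 0) (nat_lit 94320986605) (nat_lit 152) (nat_lit 105249275778) (nat_lit 0) (nat_lit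 63989800447) (nat_lit 2) (nat_lit 5) (nat_lit 4) (nat_lit 4) (nat_lit 2) (nat_lit 4) (nat_lit 308) (nat_lit 248) (nat_lit 164)) (XT.lf (nat_lit 0) (nat_lit 109532875332) (nat_lit 152) (nat_lit 95088360991) (nat_lit 0) (nat_lit 79198184585) (nat_lit 2) (nat_lit 5) (nat_lit 4) (nat_lit 4) (nat_lit 2) (nat_lit 4) (nat_lit 309) (nat_lit 248) (nat_lit 163))))) (XT.nd (nat_lit 234) (nat_lit 0) (nat_lit 0) (XT.nd (nat_lit 78) (nat_lit 0) (nat_lit 0) (XT.lf (nat_lit 0) (nat_lit 125959478599) (nat_lit 152) (nat_lit 84118689022) (nat_lit 0) (nat_lit 95621542862) (nat_lit 2) (nat_lit 5) (nat_lit 4) (nat_lit 4) (nat_lit 2) (nat_lit 4) (nat_lit 310) (nat_lit 248) (nat_lit 162)) (XT.nd (nat_lit 78) (nat_lit 0) (nat_lit 0) (XT.lf (nat_lit 0) (nat_lit 143698139241) (nat_lit 152) (nat_lit 72275254407) (nat_lit 0) (nat_lit 113357198884) (nat_lit 2) (nat_lit 5) (nat_lit 4) (nat_lit 4) (nat_lit 2) (nat_lit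 4) (nat_lit 311) (nat_lit 248) (nat_lit 161)) (XT.lf (nat_lit 0) (nat_lit 162853975246) (nat_lit 152) (nat_lit 59487873829) (nat_lit 0) (nat_lit 132510252835) (nat_lit 2) (nat_lit 5) (nat_lit 4) (nat_lit 4) (nat_lit 2) (nat_lit 4) (nat_lit 312) (nat_lit 248) (nat_lit 160)))) (XT.nd (nat_lit 78) (nat_lit 0) (nat_lit 0) (XT.lf (nat_lit 0) (nat_lit 183540502681) (nat_lit 152) (nat_lit 45680770218) (nat_lit 0) (nat_lit 153194204292) (nat_lit 2) (nat_lit 5) (nat_lit 4) (nat_lit 4) (nat_lit 2) (nat_lit 4) (nat_lit 313) (nat_lit 248) (nat_lit 159)) (XT.nd (nat_lit 78) (nat_lit 0) (nat_lit 0) (XT.lf (nat_lit 0) (nat_lit 205880308375) (nat_lit 152) (nat_lit 30772123701) (nat_lit 0) (nat_lit 175531624821) (nat_lit 2) (nat_lit 5) (nat_lit 4) (nat_lit 4) (nat_lit 2) (nat_lit 4) (nat_lit 314) (nat_lit 248) (nat_lit 158)) (XT.lf (nat_lit 0) (nat_lit 230005776360) (nat_lit 152) (nat_lit 14673586744)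 (nat_lit 0) (nat_lit 199654884321) (nat_lit 2) (nat_lit 5) (nat_lit 4) (nat_lit 4) (nat_lit 2) (nat_lit 4) (nat_lit 315) (nat_lit 248) (nat_lit 157)))))) (XT.nd (nat_lit 468) (nat_lit 0) (nat_lit 0) (XT.nd (nat_lit 234) (nat_lit 0) (nat_lit 0) (XT.nd (nat_lit 78) (nat_lit 0) (nat_lit 0) (XT.lf (nat_lit 0) (nat_lit 2852955794) (nat_lit 76) (nat_lit 253275530235) (nat_lit 76) (nat_lit 222922593302) (nat_lit 1) (nat_lit 4) (nat_lit 2) (nat_lit 5) (nat_lit 2) (nat_lit 4) (nat_lit 316) (nat_lit 248) (nat_lit 156)) (XT.nd (nat_lit 78) (nat_lit 0) (nat_lit 0) (XT.lf (nat_lit 0) (nat_lit 22613593503) (nat_lit 76) (nat_lit 262127255023) (nat_lit 76) (nat_lit 231772424670) (nat_lit 1) (nat_lit 4) (nat_lit 2) (nat_lit 5) (nat_lit 2) (nat_lit 4) (nat_lit 317) (nat_lit 248) (nat_lit 155)) (XT.lf (nat_lit 0) (nat_lit 43952741383) (nat_lit 76) (nat_lit 271688193999) (nat_lit 76) (nat_lit 241331610479)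 (nat_lit 1) (nat_lit 4) (nat_lit 2) (nat_lit 5) (nat_lit 2) (nat_lit 4) (nat_lit 318) (nat_lit 248) (nat_lit 154)))) (XT.nd (nat_lit 78) (nat_lit 0) (nat_lit 0) (XT.lf (nat_lit 0) (nat_lit 66996853644) (nat_lit 76) (nat_lit 282015004581) (nat_lit 76) (nat_lit 251656797758) (nat_lit 1) (nat_lit 4) (nat_lit 2) (nat_lit 5) (nat_lit 2) (nat_lit 4) (nat_lit 319) (nat_lit 248) (nat_lit 153)) (XT.nd (nat_lit 78) (nat_lit 0) (nat_lit 0) (XT.lf (nat_lit 0) (nat_lit 91882487989) (nat_lit 76) (nat_lit 293168882682) (nat_lit 76) (nat_lit 262809172801) (nat_lit 1) (nat_lit 4) (nat_lit 2) (nat_lit 5) (nat_lit 2) (nat_lit 4) (nat_lit 320) (nat_lit 248) (nat_lit 152)) (XT.lf (nat_lit 0) (nat_lit 118757114843) (nat_lit 76) (nat_lit 305215925357) (nat_lit 76) (nat_lit 274854823756) (nat_lit 1) (nat_lit 4) (nat_lit 2) (nat_lit 5) (nat_lit 2) (nat_lit 4) (nat_lit 321) (nat_lit 248) (nat_lit 151))))) (XT.nd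 (nat_lit 234) (nat_lit 0) (nat_lit 0) (XT.nd (nat_lit 78) (nat_lit 0) (nat_lit 0) (XT.lf (nat_lit 0) (nat_lit 147779991253) (nat_lit 76) (nat_lit 318227522490) (nat_lit 76) (nat_lit 287865132259) (nat_lit 1) (nat_lit 4) (nat_lit 2) (nat_lit 5) (nat_lit 2) (nat_lit 4) (nat_lit 322) (nat_lit 248) (nat_lit 150)) (XT.nd (nat_lit 78) (nat_lit 0) (nat_lit 0) (XT.lf (nat_lit 0) (nat_lit 179123104637) (nat_lit 76) (nat_lit 332280779841) (nat_lit 76) (nat_lit 301917196434) (nat_lit 1) (nat_lit 4) (nat_lit 2) (nat_lit 5) (nat_lit 2) (nat_lit 4) (nat_lit 323) (nat_lit 248) (nat_lit 149)) (XT.lf (nat_lit 0) (nat_lit 212972191961) (nat_lit 76) (nat_lit 347458975972) (nat_lit 76) (nat_lit 317094287773) (nat_lit 1) (nat_lit 4) (nat_lit 2) (nat_lit 5) (nat_lit 2) (nat_lit 4) (nat_lit 324) (nat_lit 248) (nat_lit 148)))) (XT.nd (nat_lit 156) (nat_lit 0) (nat_lit 0) (XT.nd (nat_lit 78) (nat_lit 0) (nat_lit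 0) (XT.lf (nat_lit 0) (nat_lit 249527840411) (nat_lit 76) (nat_lit 363852055750) (nat_lit 76) (nat_lit 333486344594) (nat_lit 1) (nat_lit 4) (nat_lit 2) (nat_lit 5) (nat_lit 2) (nat_lit 4) (nat_lit 325) (nat_lit 248) (nat_lit 147)) (XT.lf (nat_lit 0) (nat_lit 289006676051) (nat_lit 76) (nat_lit 381557163350) (nat_lit 76) (nat_lit 351190505012) (nat_lit 1) (nat_lit 4) (nat_lit 2) (nat_lit 5) (nat_lit 2) (nat_lit 4) (nat_lit 326) (nat_lit 248) (nat_lit 146))) (XT.nd (nat_lit 78) (nat_lit 0) (nat_lit 0) (XT.lf (nat_lit 0) (nat_lit 331642647536) (nat_lit 76) (nat_lit 400679217928) (nat_lit 76) (nat_lit 370311682571) (nat_lit 1) (nat_lit 4) (nat_lit 2) (nat_lit 5) (nat_lit 2) (nat_lit 4) (nat_lit 327) (nat_lit 248) (nat_lit 145)) (XT.lf (nat_lit 0) (nat_lit 377688412476) (nat_lit 76) (nat_lit 421331535365) (nat_lit 76) (nat_lit 390963187952) (nat_lit 1) (nat_lit 4) (nat_lit 2) (nat_lit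 5) (nat_lit 2) (nat_lit 4) (nat_lit 328) (nat_lit 248) (nat_lit 144))))))) (XT.nd (nat_lit 31512) (nat_lit 0) (nat_lit 1520) (XT.nd (nat_lit 468) (nat_lit 0) (nat_lit 0) (XT.nd (nat_lit 234) (nat_lit 0) (nat_lit 0) (XT.nd (nat_lit 78) (nat_lit 0) (nat_lit 0) (XT.lf (nat_lit 0) (nat_lit 427416834662) (nat_lit 76) (nat_lit 443636499762) (nat_lit 76) (nat_lit 413267400446) (nat_lit 1) (nat_lit 4) (nat_lit 2) (nat_lit 5) (nat_lit 2) (nat_lit 4) (nat_lit 329) (nat_lit 248) (nat_lit 143)) (XT.nd (nat_lit 78) (nat_lit 0) (nat_lit 0) (XT.lf (nat_lit 0) (nat_lit 481122601042) (nat_lit 76) (nat_lit 467726288687) (nat_lit 76) (nat_lit 437356493165) (nat_lit 1) (nat_lit 4) (nat_lit 2) (nat_lit 5) (nat_lit 2) (nat_lit 4) (nat_lit 330) (nat_lit 248) (nat_lit 142)) (XT.lf (nat_lit 0) (nat_lit 539123968008) (nat_lit 76) (nat_lit 493743656445) (nat_lit 76) (nat_lit 463373216287) (nat_lit 1) (nat_lit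 4) (nat_lit 2) (nat_lit 5) (nat_lit 2) (nat_lit 4) (nat_lit 331) (nat_lit 248) (nat_lit 141)))) (XT.nd (nat_lit 78) (nat_lit 0) (nat_lit 0) (XT.lf (nat_lit 0) (nat_lit 601764647365) (nat_lit 76) (nat_lit 521842780030) (nat_lit 76) (nat_lit 491471742986) (nat_lit 1) (nat_lit 4) (nat_lit 2) (nat_lit 5) (nat_lit 2) (nat_lit 4) (nat_lit 332) (nat_lit 248) (nat_lit 140)) (XT.nd (nat_lit 78) (nat_lit 0) (nat_lit 0) (XT.lf (nat_lit 0) (nat_lit 669415843138) (nat_lit 76) (nat_lit 552190172766) (nat_lit 76) (nat_lit 521818583051) (nat_lit 1) (nat_lit 4) (nat_lit 2) (nat_lit 5) (nat_lit 2) (nat_lit 4) (nat_lit 333) (nat_lit 248) (nat_lit 139)) (XT.lf (nat_lit 0) (nat_lit 742478451302) (nat_lit 76) (nat_lit 584965671056) (nat_lit 76) (nat_lit 554593569608) (nat_lit 1) (nat_lit 4) (nat_lit 2) (nat_lit 5) (nat_lit 2) (nat_lit 4) (nat_lit 334) (nat_lit 248) (nat_lit 138))))) (XT.nd (nat_lit 30810)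 (nat_lit 0) (nat_lit 2964) (XT.nd (nat_lit 78) (nat_lit 0) (nat_lit 0) (XT.lf (nat_lit 0) (nat_lit 821385435462) (nat_lit 76) (nat_lit 620363500073) (nat_lit 76) (nat_lit 589990924799) (nat_lit 1) (nat_lit 4) (nat_lit 2) (nat_lit 5) (nat_lit 2) (nat_lit 4) (nat_lit 335) (nat_lit 248) (nat_lit 137)) (XT.nd (nat_lit 78) (nat_lit 0) (nat_lit 0) (XT.lf (nat_lit 0) (nat_lit 906604392560) (nat_lit 76) (nat_lit 658593424732) (nat_lit 76) (nat_lit 628220410729) (nat_lit 1) (nat_lit 4) (nat_lit 2) (nat_lit 5) (nat_lit 2) (nat_lit 4) (nat_lit 336) (nat_lit 248) (nat_lit 136)) (XT.lf (nat_lit 0) (nat_lit 998640323824) (nat_lit 76) (nat_lit 699881992732) (nat_lit 76) (nat_lit 669508572500) (nat_lit 1) (nat_lit 4) (nat_lit 2) (nat_lit 5) (nat_lit 2) (nat_lit 4) (nat_lit 337) (nat_lit 248) (nat_lit 135)))) (XT.nd (nat_lit 78) (nat_lit 0) (nat_lit 0) (XT.lf (nat_lit 0) (nat_lit 899357752) (nat_lit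 0) (nat_lit 899357752) (nat_lit 380) (nat_lit 2624803355) (nat_lit 40) (nat_lit 5) (nat_lit 40) (nat_lit 3) (nat_lit 45) (nat_lit 3) (nat_lit 249) (nat_lit 249) (nat_lit 222)) (XT.nd (nat_lit 78) (nat_lit 0) (nat_lit 0) (XT.lf (nat_lit 0) (nat_lit 4605734466) (nat_lit 380) (nat_lit 3303092330) (nat_lit 456) (nat_lit 1217532697) (nat_lit 40) (nat_lit 5) (nat_lit 45) (nat_lit 3) (nat_lit 46) (nat_lit 5) (nat_lit 250) (nat_lit 249) (nat_lit 221)) (XT.lf (nat_lit 76) (nat_lit 679092102) (nat_lit 0) (nat_lit 4996266672) (nat_lit 456) (nat_lit 3754756692) (nat_lit 41) (nat_lit 5) (nat_lit 40) (nat_lit 5) (nat_lit 46) (nat_lit 5) (nat_lit 251) (nat_lit 249) (nat_lit 220)))))) (XT.nd (nat_lit 468) (nat_lit 1064) (nat_lit 0) (XT.nd (nat_lit 234) (nat_lit 380) (nat_lit 0) (XT.nd (nat_lit 78) (nat_lit 0) (nat_lit 76) (XT.lf (nat_lit 76) (nat_lit 5119049850) (nat_lit 0) (nat_lit 1724353393) (nat_lit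 456) (nat_lit 2914241568) (nat_lit 41) (nat_lit 5) (nat_lit 40) (nat_lit 5) (nat_lit 46) (nat_lit 5) (nat_lit 252) (nat_lit 249) (nat_lit 219)) (XT.nd (nat_lit 78) (nat_lit 0) (nat_lit 0) (XT.lf (nat_lit 0) (nat_lit 8077322624) (nat_lit 380) (nat_lit 292577065) (nat_lit 456) (nat_lit 1744146114) (nat_lit 41) (nat_lit 5) (nat_lit 46) (nat_lit 5) (nat_lit 47) (nat_lit 5) (nat_lit 253) (nat_lit 249) (nat_lit 218)) (XT.lf (nat_lit 76) (nat_lit 4535153617) (nat_lit 0) (nat_lit 4962843608) (nat_lit 456) (nat_lit 994347765) (nat_lit 42) (nat_lit 5) (nat_lit 41) (nat_lit 5) (nat_lit 47) (nat_lit 5) (nat_lit 254) (nat_lit 249) (nat_lit 217)))) (XT.nd (nat_lit 78) (nat_lit 0) (nat_lit 76) (XT.lf (nat_lit 0) (nat_lit 68992878) (nat_lit 456) (nat_lit 1188466643) (nat_lit 532) (nat_lit 9648031988) (nat_lit 35) (nat_lit 5) (nat_lit 41) (nat_lit 5) (nat_lit 42) (nat_lit 5) (nat_lit 255) (nat_lit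 249) (nat_lit 216)) (XT.nd (nat_lit 78) (nat_lit 0) (nat_lit 0) (XT.lf (nat_lit 0) (nat_lit 1272355721) (nat_lit 456) (nat_lit 7322466987) (nat_lit 76) (nat_lit 2746447732) (nat_lit 36) (nat_lit 5) (nat_lit 42) (nat_lit 5) (nat_lit 37) (nat_lit 5) (nat_lit 256) (nat_lit 249) (nat_lit 215)) (XT.lf (nat_lit 0) (nat_lit 2582220080) (nat_lit 456) (nat_lit 2183260142) (nat_lit 76) (nat_lit 7045928524) (nat_lit 36) (nat_lit 5) (nat_lit 42) (nat_lit 5) (nat_lit 37) (nat_lit 5) (nat_lit 257) (nat_lit 249) (nat_lit 214))))) (XT.nd (nat_lit 234) (nat_lit 456) (nat_lit 0) (XT.nd (nat_lit 78) (nat_lit 228) (nat_lit 0) (XT.lf (nat_lit 0) (nat_lit 3494984062) (nat_lit 456) (nat_lit 534307308) (nat_lit 532) (nat_lit 8287565601) (nat_lit 30) (nat_lit 5) (nat_lit 36) (nat_lit 5) (nat_lit 37) (nat_lit 5) (nat_lit 258) (nat_lit 249) (nat_lit 213)) (XT.nd (nat_lit 78) (nat_lit 228) (nat_lit 0) (XT.lf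 (nat_lit 0) (nat_lit 5701587853) (nat_lit 532) (nat_lit 3254918806) (nat_lit 76) (nat_lit 3897748260) (nat_lit 30) (nat_lit 5) (nat_lit 37) (nat_lit 5) (nat_lit 31) (nat_lit 5) (nat_lit 259) (nat_lit 249) (nat_lit 212)) (XT.lf (nat_lit 0) (nat_lit 2839243955) (nat_lit 228) (nat_lit 4705367855) (nat_lit 304) (nat_lit 5887327974) (nat_lit 27) (nat_lit 5) (nat_lit 30) (nat_lit 5) (nat_lit 31) (nat_lit 5) (nat_lit 260) (nat_lit 249) (nat_lit 211)))) (XT.nd (nat_lit 156) (nat_lit 304) (nat_lit 0) (XT.nd (nat_lit 78) (nat_lit 152) (nat_lit 0) (XT.lf (nat_lit 0) (nat_lit 9560921971) (nat_lit 228) (nat_lit 20196893) (nat_lit 304) (nat_lit 4471269299) (nat_lit 27) (nat_lit 5) (nat_lit 30) (nat_lit 5) (nat_lit 31) (nat_lit 5) (nat_lit 261) (nat_lit 249) (nat_lit 210)) (XT.lf (nat_lit 0) (nat_lit 2033232012) (nat_lit 152) (nat_lit 9877600071) (nat_lit 228) (nat_lit 2801432312) (nat_lit 25) (nat_lit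 5) (nat_lit 27) (nat_lit 5) (nat_lit 28) (nat_lit 5) (nat_lit 262) (nat_lit 249) (nat_lit 209))) (XT.nd (nat_lit 78) (nat_lit 304) (nat_lit 0) (XT.lf (nat_lit 0) (nat_lit 9290796845) (nat_lit 152) (nat_lit 5221512484) (nat_lit 228) (nat_lit 905989358) (nat_lit 25) (nat_lit 5) (nat_lit 27) (nat_lit 5) (nat_lit 28) (nat_lit 5) (nat_lit 263) (nat_lit 249) (nat_lit 208)) (XT.lf (nat_lit 0) (nat_lit 924127293) (nat_lit 228) (nat_lit 145898528) (nat_lit 304) (nat_lit 15109883491) (nat_lit 21) (nat_lit 5) (nat_lit 24) (nat_lit 5) (nat_lit 25) (nat_lit 5) (nat_lit 264) (nat_lit 249) (nat_lit 207))))))))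
noncomputable def xc67 : XT := (XT.nd (nat_lit 1950) (nat_lit 304) (nat_lit 0) (XT.nd (nat_lit 936) (nat_lit 456) (nat_lit 0) (XT.nd (nat_lit 468) (nat_lit 380) (nat_lit 0) (XT.nd (nat_lit 234) (nat_lit 152) (nat_lit 0) (XT.nd (nat_lit 78) (nat_lit 152) (nat_lit 0) (XT.lf (nat_lit 0) (nat_lit 3420687667) (nat_lit 304) (nat_lit 8301364191) (nat_lit 76) (nat_lit 5257431268) (nat_lit 21) (nat_lit 5) (nat_lit 25) (nat_lit 5) (nat_lit 22) (nat_lit 5) (nat_lit 265) (nat_lit 249) (nat_lit 206)) (XT.nd (nat_lit 78) (nat_lit 152) (nat_lit 0) (XT.lf (nat_lit 0) (nat_lit 5931061272) (nat_lit 304) (nat_lit 835560752) (nat_lit 76) (nat_lit 11078814328) (nat_lit 21) (nat_lit 5) (nat_lit 25) (nat_lit 5) (nat_lit 22) (nat_lit 5) (nat_lit 266) (nat_lit 249) (nat_lit 205)) (XT.lf (nat_lit 0) (nat_lit 7567958913) (nat_lit 152) (nat_lit 1226564742) (nat_lit 228) (nat_lit 9974096851) (nat_lit 19) (nat_lit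 5) (nat_lit 21) (nat_lit 5) (nat_lit 22) (nat_lit 5) (nat_lit 267) (nat_lit 249) (nat_lit 204)))) (XT.nd (nat_lit 78) (nat_lit 152) (nat_lit 0) (XT.lf (nat_lit 0) (nat_lit 11996250338) (nat_lit 228) (nat_lit 3226898160) (nat_lit 76) (nat_lit 4533901260) (nat_lit 19) (nat_lit 5) (nat_lit 22) (nat_lit 5) (nat_lit 20) (nat_lit 5) (nat_lit 268) (nat_lit 249) (nat_lit 203)) (XT.nd (nat_lit 78) (nat_lit 0) (nat_lit 0) (XT.lf (nat_lit 0) (nat_lit 5596424856) (nat_lit 152) (nat_lit 9997615055) (nat_lit 228) (nat_lit 5219435528) (nat_lit 17) (nat_lit 5) (nat_lit 19) (nat_lit 5) (nat_lit 20) (nat_lit 5) (nat_lit 269) (nat_lit 249) (nat_lit 202)) (XT.lf (nat_lit 0) (nat_lit 15273614264) (nat_lit 152) (nat_lit 4268850173) (nat_lit 228) (nat_lit 2407033262) (nat_lit 17) (nat_lit 5) (nat_lit 19) (nat_lit 5) (nat_lit 20) (nat_lit 5) (nat_lit 270) (nat_lit 249) (nat_lit 201))))) (XT.nd (nat_lit 234)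 (nat_lit 228) (nat_lit 0) (XT.nd (nat_lit 78) (nat_lit 0) (nat_lit 0) (XT.lf (nat_lit 0) (nat_lit 685786997) (nat_lit 152) (nat_lit 20589323568) (nat_lit 76) (nat_lit 1893213776) (nat_lit 15) (nat_lit 5) (nat_lit 17) (nat_lit 5) (nat_lit 16) (nat_lit 5) (nat_lit 271) (nat_lit 249) (nat_lit 200)) (XT.nd (nat_lit 78) (nat_lit 0) (nat_lit 0) (XT.lf (nat_lit 0) (nat_lit 4170649736) (nat_lit 152) (nat_lit 11729344064) (nat_lit 76) (nat_lit 8557774264) (nat_lit 15) (nat_lit 5) (nat_lit 17) (nat_lit 5) (nat_lit 16) (nat_lit 5) (nat_lit 272) (nat_lit 249) (nat_lit 199)) (XT.lf (nat_lit 0) (nat_lit 7912550027) (nat_lit 152) (nat_lit 2193054991) (nat_lit 76) (nat_lit 15746581379) (nat_lit 15) (nat_lit 5) (nat_lit 17) (nat_lit 5) (nat_lit 16) (nat_lit 5) (nat_lit 273) (nat_lit 249) (nat_lit 198)))) (XT.nd (nat_lit 78) (nat_lit 76) (nat_lit 0) (XT.lf (nat_lit 0) (nat_lit 8501325737) (nat_lit 152)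 (nat_lit 3636793443) (nat_lit 228) (nat_lit 15205366810) (nat_lit 13) (nat_lit 5) (nat_lit 15) (nat_lit 5) (nat_lit 16) (nat_lit 5) (nat_lit 274) (nat_lit 249) (nat_lit 197)) (XT.nd (nat_lit 78) (nat_lit 76) (nat_lit 0) (XT.lf (nat_lit 0) (nat_lit 16824216192) (nat_lit 228) (nat_lit 8886125189) (nat_lit 76) (nat_lit 3234017308) (nat_lit 13) (nat_lit 5) (nat_lit 16) (nat_lit 5) (nat_lit 14) (nat_lit 4) (nat_lit 275) (nat_lit 249) (nat_lit 196)) (XT.lf (nat_lit 0) (nat_lit 1835317433) (nat_lit 76) (nat_lit 20170343229) (nat_lit 152) (nat_lit 8658066473) (nat_lit 12) (nat_lit 5) (nat_lit 13) (nat_lit 5) (nat_lit 14) (nat_lit 4) (nat_lit 276) (nat_lit 249) (nat_lit 195)))))) (XT.nd (nat_lit 468) (nat_lit 152) (nat_lit 0) (XT.nd (nat_lit 234) (nat_lit 76) (nat_lit 0) (XT.nd (nat_lit 78) (nat_lit 228) (nat_lit 0) (XT.lf (nat_lit 0) (nat_lit 13892133761) (nat_lit 76) (nat_lit 13934985017)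 (nat_lit 152) (nat_lit 4675544495) (nat_lit 12) (nat_lit 5) (nat_lit 13) (nat_lit 5) (nat_lit 14) (nat_lit 4) (nat_lit 277) (nat_lit 249) (nat_lit 194)) (XT.nd (nat_lit 78) (nat_lit 228) (nat_lit 0) (XT.lf (nat_lit 0) (nat_lit 26887843989) (nat_lit 76) (nat_lit 7210278883) (nat_lit 152) (nat_lit 391938845) (nat_lit 12) (nat_lit 5) (nat_lit 13) (nat_lit 5) (nat_lit 14) (nat_lit 4) (nat_lit 278) (nat_lit 249) (nat_lit 193)) (XT.lf (nat_lit 0) (nat_lit 4118870878) (nat_lit 228) (nat_lit 32248189247) (nat_lit 76) (nat_lit 253584278) (nat_lit 9) (nat_lit 5) (nat_lit 12) (nat_lit 5) (nat_lit 10) (nat_lit 4) (nat_lit 279) (nat_lit 249) (nat_lit 192)))) (XT.nd (nat_lit 78) (nat_lit 76) (nat_lit 0) (XT.lf (nat_lit 0) (nat_lit 9354843155) (nat_lit 228) (nat_lit 21395453622) (nat_lit 76) (nat_lit 8139767373) (nat_lit 9) (nat_lit 5) (nat_lit 12) (nat_lit 5) (nat_lit 10) (nat_lit 4) (nat_lit 280)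 (nat_lit 249) (nat_lit 191)) (XT.nd (nat_lit 78) (nat_lit 76) (nat_lit 0) (XT.lf (nat_lit 0) (nat_lit 14995744757) (nat_lit 228) (nat_lit 9697643765) (nat_lit 76) (nat_lit 16648804349) (nat_lit 9) (nat_lit 5) (nat_lit 12) (nat_lit 5) (nat_lit 10) (nat_lit 4) (nat_lit 281) (nat_lit 249) (nat_lit 190)) (XT.lf (nat_lit 0) (nat_lit 3068036279) (nat_lit 76) (nat_lit 18080753315) (nat_lit 152) (nat_lit 22836869195) (nat_lit 8) (nat_lit 5) (nat_lit 9) (nat_lit 5) (nat_lit 10) (nat_lit 4) (nat_lit 282) (nat_lit 249) (nat_lit 189))))) (XT.nd (nat_lit 234) (nat_lit 152) (nat_lit 0) (XT.nd (nat_lit 78) (nat_lit 0) (nat_lit 0) (XT.lf (nat_lit 0) (nat_lit 17385596658) (nat_lit 76) (nat_lit 10661171225) (nat_lit 152) (nat_lit 18773652789) (nat_lit 8) (nat_lit 5) (nat_lit 9) (nat_lit 5) (nat_lit 10) (nat_lit 4) (nat_lit 283) (nat_lit 249) (nat_lit 188)) (XT.nd (nat_lit 78) (nat_lit 0) (nat_lit 0)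 (XT.lf (nat_lit 0) (nat_lit 32829221438) (nat_lit 76) (nat_lit 2655825123) (nat_lit 152) (nat_lit 14397871343) (nat_lit 8) (nat_lit 5) (nat_lit 9) (nat_lit 5) (nat_lit 10) (nat_lit 4) (nat_lit 284) (nat_lit 249) (nat_lit 187)) (XT.lf (nat_lit 0) (nat_lit 43651588976) (nat_lit 152) (nat_lit 3844754881) (nat_lit 0) (nat_lit 5683443988) (nat_lit 8) (nat_lit 5) (nat_lit 10) (nat_lit 4) (nat_lit 8) (nat_lit 4) (nat_lit 285) (nat_lit 249) (nat_lit 186)))) (XT.nd (nat_lit 156) (nat_lit 0) (nat_lit 0) (XT.nd (nat_lit 78) (nat_lit 76) (nat_lit 0) (XT.lf (nat_lit 0) (nat_lit 10878886877) (nat_lit 76) (nat_lit 41913135120) (nat_lit 76) (nat_lit 3922766900) (nat_lit 7) (nat_lit 4) (nat_lit 8) (nat_lit 5) (nat_lit 8) (nat_lit 4) (nat_lit 286) (nat_lit 249) (nat_lit 185)) (XT.lf (nat_lit 0) (nat_lit 2122358140) (nat_lit 152) (nat_lit 33596440353) (nat_lit 76) (nat_lit 24801885180) (nat_lit 6) (nat_lit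 5) (nat_lit 8) (nat_lit 5) (nat_lit 7) (nat_lit 4) (nat_lit 287) (nat_lit 249) (nat_lit 184))) (XT.nd (nat_lit 78) (nat_lit 0) (nat_lit 0) (XT.lf (nat_lit 0) (nat_lit 8429913627) (nat_lit 152) (nat_lit 20495777778) (nat_lit 76) (nat_lit 35697968630) (nat_lit 6) (nat_lit 5) (nat_lit 8) (nat_lit 5) (nat_lit 7) (nat_lit 4) (nat_lit 288) (nat_lit 249) (nat_lit 183)) (XT.lf (nat_lit 0) (nat_lit 15233510354) (nat_lit 152) (nat_lit 6361938103) (nat_lit 76) (nat_lit 47460130874) (nat_lit 6) (nat_lit 5) (nat_lit 8) (nat_lit 5) (nat_lit 7) (nat_lit 4) (nat_lit 289) (nat_lit 249) (nat_lit 182))))))) (XT.nd (nat_lit 936) (nat_lit 76) (nat_lit 0) (XT.nd (nat_lit 468) (nat_lit 76) (nat_lit 0) (XT.nd (nat_lit 234) (nat_lit 76) (nat_lit 0) (XT.nd (nat_lit 78) (nat_lit 0) (nat_lit 0) (XT.lf (nat_lit 0) (nat_lit 9356905046) (nat_lit 76) (nat_lit 13441594677) (nat_lit 152) (nat_lit 51026202359) (nat_lit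 5) (nat_lit 5) (nat_lit 6) (nat_lit 5) (nat_lit 7) (nat_lit 4) (nat_lit 290) (nat_lit 249) (nat_lit 181)) (XT.nd (nat_lit 78) (nat_lit 0) (nat_lit 0) (XT.lf (nat_lit 0) (nat_lit 26681639427) (nat_lit 76) (nat_lit 4453331035) (nat_lit 152) (nat_lit 47827098560) (nat_lit 5) (nat_lit 5) (nat_lit 6) (nat_lit 5) (nat_lit 7) (nat_lit 4) (nat_lit 291) (nat_lit 249) (nat_lit 180)) (XT.lf (nat_lit 0) (nat_lit 40257492547) (nat_lit 152) (nat_lit 39257317391) (nat_lit 0) (nat_lit 4986100378) (nat_lit 5) (nat_lit 5) (nat_lit 7) (nat_lit 4) (nat_lit 5) (nat_lit 4) (nat_lit 292) (nat_lit 249) (nat_lit 179)))) (XT.nd (nat_lit 78) (nat_lit 76) (nat_lit 0) (XT.lf (nat_lit 0) (nat_lit 50218797528) (nat_lit 152) (nat_lit 25319958587) (nat_lit 0) (nat_lit 14935398839) (nat_lit 5) (nat_lit 5) (nat_lit 7) (nat_lit 4) (nat_lit 5) (nat_lit 4) (nat_lit 293) (nat_lit 249) (nat_lit 178)) (XT.nd (nat_lit 78)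 (nat_lit 76) (nat_lit 0) (XT.lf (nat_lit 0) (nat_lit 60970812643) (nat_lit 152) (nat_lit 10278658708) (nat_lit 0) (nat_lit 25676296806) (nat_lit 5) (nat_lit 5) (nat_lit 7) (nat_lit 4) (nat_lit 5) (nat_lit 4) (nat_lit 294) (nat_lit 249) (nat_lit 177)) (XT.lf (nat_lit 0) (nat_lit 6269333316) (nat_lit 76) (nat_lit 66458697838) (nat_lit 76) (nat_lit 31153888345) (nat_lit 4) (nat_lit 4) (nat_lit 5) (nat_lit 5) (nat_lit 5) (nat_lit 4) (nat_lit 295) (nat_lit 249) (nat_lit 176))))) (XT.nd (nat_lit 234) (nat_lit 76) (nat_lit 0) (XT.nd (nat_lit 78) (nat_lit 0) (nat_lit 0) (XT.lf (nat_lit 0) (nat_lit 24715750813) (nat_lit 76) (nat_lit 60985562707) (nat_lit 76) (nat_lit 25671222051) (nat_lit 4) (nat_lit 4) (nat_lit 5) (nat_lit 5) (nat_lit 5) (nat_lit 4) (nat_lit 296) (nat_lit 249) (nat_lit 175)) (XT.nd (nat_lit 78) (nat_lit 0) (nat_lit 0) (XT.lf (nat_lit 0) (nat_lit 44628649934) (nat_lit 76) (nat_lit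 55078669311) (nat_lit 76) (nat_lit 19755503504) (nat_lit 4) (nat_lit 4) (nat_lit 5) (nat_lit 5) (nat_lit 5) (nat_lit 4) (nat_lit 297) (nat_lit 249) (nat_lit 174)) (XT.lf (nat_lit 0) (nat_lit 66126033045) (nat_lit 76) (nat_lit 48703013836) (nat_lit 76) (nat_lit 13371676593) (nat_lit 4) (nat_lit 4) (nat_lit 5) (nat_lit 5) (nat_lit 5) (nat_lit 4) (nat_lit 298) (nat_lit 249) (nat_lit 173)))) (XT.nd (nat_lit 78) (nat_lit 76) (nat_lit 0) (XT.lf (nat_lit 0) (nat_lit 89335292044) (nat_lit 76) (nat_lit 41820814620) (nat_lit 76) (nat_lit 6481911233) (nat_lit 4) (nat_lit 4) (nat_lit 5) (nat_lit 5) (nat_lit 5) (nat_lit 4) (nat_lit 299) (nat_lit 249) (nat_lit 172)) (XT.nd (nat_lit 78) (nat_lit 0) (nat_lit 0) (XT.lf (nat_lit 0) (nat_lit 906866814) (nat_lit 152) (nat_lit 33459626101) (nat_lit 76) (nat_lit 113462301121) (nat_lit 3) (nat_lit 5) (nat_lit 5) (nat_lit 5) (nat_lit 4) (nat_lit 4) (nat_lit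 300) (nat_lit 249) (nat_lit 171)) (XT.lf (nat_lit 0) (nat_lit 8532672476) (nat_lit 152) (nat_lit 17604437073) (nat_lit 76) (nat_lit 132684571724) (nat_lit 3) (nat_lit 5) (nat_lit 5) (nat_lit 5) (nat_lit 4) (nat_lit 4) (nat_lit 301) (nat_lit 249) (nat_lit 170)))))) (XT.nd (nat_lit 468) (nat_lit 0) (nat_lit 0) (XT.nd (nat_lit 234) (nat_lit 0) (nat_lit 0) (XT.nd (nat_lit 78) (nat_lit 76) (nat_lit 0) (XT.lf (nat_lit 0) (nat_lit 16764947163) (nat_lit 152) (nat_lit 487311974) (nat_lit 76) (nat_lit 153442034717) (nat_lit 3) (nat_lit 5) (nat_lit 5) (nat_lit 5) (nat_lit 4) (nat_lit 4) (nat_lit 302) (nat_lit 249) (nat_lit 169)) (XT.nd (nat_lit 78) (nat_lit 0) (nat_lit 0) (XT.lf (nat_lit 0) (nat_lit 18940673195) (nat_lit 76) (nat_lit 7167325175) (nat_lit 152) (nat_lit 157372547738) (nat_lit 2) (nat_lit 5) (nat_lit 3) (nat_lit 5) (nat_lit 4) (nat_lit 4) (nat_lit 303) (nat_lit 249) (nat_lit 168))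 (XT.lf (nat_lit 0) (nat_lit 36298449483) (nat_lit 152) (nat_lit 157433987410) (nat_lit 0) (nat_lit 3549270957) (nat_lit 2) (nat_lit 5) (nat_lit 4) (nat_lit 4) (nat_lit 2) (nat_lit 4) (nat_lit 304) (nat_lit 249) (nat_lit 167)))) (XT.nd (nat_lit 78) (nat_lit 0) (nat_lit 0) (XT.lf (nat_lit 0) (nat_lit 47487258162) (nat_lit 152) (nat_lit 149951395129) (nat_lit 0) (nat_lit 14733664864) (nat_lit 2) (nat_lit 5) (nat_lit 4) (nat_lit 4) (nat_lit 2) (nat_lit 4) (nat_lit 305) (nat_lit 249) (nat_lit 166)) (XT.nd (nat_lit 78) (nat_lit 0) (nat_lit 0) (XT.lf (nat_lit 0) (nat_lit 59568354117) (nat_lit 152) (nat_lit 141875380440) (nat_lit 0) (nat_lit 26810673067) (nat_lit 2) (nat_lit 5) (nat_lit 4) (nat_lit 4) (nat_lit 2) (nat_lit 4) (nat_lit 306) (nat_lit 249) (nat_lit 165)) (XT.lf (nat_lit 0) (nat_lit 72613329028) (nat_lit 152) (nat_lit 133158085478) (nat_lit 0) (nat_lit 39851863022) (nat_lit 2)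 (nat_lit 5) (nat_lit 4) (nat_lit 4) (nat_lit 2) (nat_lit 4) (nat_lit 307) (nat_lit 249) (nat_lit 164))))) (XT.nd (nat_lit 234) (nat_lit 0) (nat_lit 0) (XT.nd (nat_lit 78) (nat_lit 0) (nat_lit 0) (XT.lf (nat_lit 0) (nat_lit 86699486450) (nat_lit 152) (nat_lit 123747852200) (nat_lit 0) (nat_lit 53934515855) (nat_lit 2) (nat_lit 5) (nat_lit 4) (nat_lit 4) (nat_lit 2) (nat_lit 4) (nat_lit 308) (nat_lit 249) (nat_lit 163)) (XT.nd (nat_lit 78) (nat_lit 0) (nat_lit 0) (XT.lf (nat_lit 0) (nat_lit 101910299909) (nat_lit 152) (nat_lit 113588916260) (nat_lit 0) (nat_lit 69142084324) (nat_lit 2) (nat_lit 5) (nat_lit 4) (nat_lit 4) (nat_lit 2) (nat_lit 4) (nat_lit 309) (nat_lit 249) (nat_lit 162)) (XT.lf (nat_lit 0) (nat_lit 118335907557) (nat_lit 152) (nat_lit 102621076555) (nat_lit 0) (nat_lit 85564687352) (nat_lit 2) (nat_lit 5) (nat_lit 4) (nat_lit 4) (nat_lit 2) (nat_lit 4) (nat_lit 310) (nat_lit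 249) (nat_lit 161)))) (XT.nd (nat_lit 156) (nat_lit 0) (nat_lit 0) (XT.nd (nat_lit 78) (nat_lit 0) (nat_lit 0) (XT.lf (nat_lit 0) (nat_lit 136073646330) (nat_lit 152) (nat_lit 90779338482) (nat_lit 0) (nat_lit 103299644070) (nat_lit 2) (nat_lit 5) (nat_lit 4) (nat_lit 4) (nat_lit 2) (nat_lit 4) (nat_lit 311) (nat_lit 249) (nat_lit 160)) (XT.lf (nat_lit 0) (nat_lit 155228628754) (nat_lit 152) (nat_lit 77993528776) (nat_lit 0) (nat_lit 122452050516) (nat_lit 2) (nat_lit 5) (nat_lit 4) (nat_lit 4) (nat_lit 2) (nat_lit 4) (nat_lit 312) (nat_lit 249) (nat_lit 159))) (XT.nd (nat_lit 78) (nat_lit 0) (nat_lit 0) (XT.lf (nat_lit 0) (nat_lit 175914365834) (nat_lit 152) (nat_lit 64187879676) (nat_lit 0) (nat_lit 143135402432) (nat_lit 2) (nat_lit 5) (nat_lit 4) (nat_lit 4) (nat_lit 2) (nat_lit 4) (nat_lit 313) (nat_lit 249) (nat_lit 158)) (XT.lf (nat_lit 0) (nat_lit 198253439718) (nat_lit 152)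 (nat_lit 49280579929) (nat_lit 0) (nat_lit 165472267831) (nat_lit 2) (nat_lit 5) (nat_lit 4) (nat_lit 4) (nat_lit 2) (nat_lit 4) (nat_lit 314) (nat_lit 249) (nat_lit 157))))))))
noncomputable def xc68 : XT := (XT.nd (nat_lit 32604) (nat_lit 0) (nat_lit 912) (XT.nd (nat_lit 936) (nat_lit 0) (nat_lit 0) (XT.nd (nat_lit 468) (nat_lit 0) (nat_lit 0) (XT.nd (nat_lit 234) (nat_lit 0) (nat_lit 0) (XT.nd (nat_lit 78) (nat_lit 76) (nat_lit 0) (XT.lf (nat_lit 0) (nat_lit 222378230102) (nat_lit 152) (nat_lit 33183289981) (nat_lit 0) (nat_lit 189595013321) (nat_lit 2) (nat_lit 5) (nat_lit 4) (nat_lit 4) (nat_lit 2) (nat_lit 4) (nat_lit 315) (nat_lit 249) (nat_lit 156)) (XT.nd (nat_lit 78) (nat_lit 76) (nat_lit 0) (XT.lf (nat_lit 0) (nat_lit 248431698707) (nat_lit 152) (nat_lit 15800618483) (nat_lit 0) (nat_lit 215646588506) (nat_lit 2) (nat_lit 5) (nat_lit 4) (nat_lit 4) (nat_lit 2) (nat_lit 4)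 (nat_lit 316) (nat_lit 249) (nat_lit 155)) (XT.lf (nat_lit 0) (nat_lit 3126861250) (nat_lit 76) (nat_lit 273516576296) (nat_lit 76) (nat_lit 240729712927) (nat_lit 1) (nat_lit 4) (nat_lit 2) (nat_lit 5) (nat_lit 2) (nat_lit 4) (nat_lit 317) (nat_lit 249) (nat_lit 154)))) (XT.nd (nat_lit 78) (nat_lit 0) (nat_lit 0) (XT.lf (nat_lit 0) (nat_lit 24464967088) (nat_lit 76) (nat_lit 283077994352) (nat_lit 76) (nat_lit 250289507681) (nat_lit 1) (nat_lit 4) (nat_lit 2) (nat_lit 5) (nat_lit 2) (nat_lit 4) (nat_lit 318) (nat_lit 249) (nat_lit 153)) (XT.nd (nat_lit 78) (nat_lit 0) (nat_lit 0) (XT.lf (nat_lit 0) (nat_lit 47508114494) (nat_lit 76) (nat_lit 293405248527) (nat_lit 76) (nat_lit 260615258797) (nat_lit 1) (nat_lit 4) (nat_lit 2) (nat_lit 5) (nat_lit 2) (nat_lit 4) (nat_lit 319) (nat_lit 249) (nat_lit 152)) (XT.lf (nat_lit 0) (nat_lit 72392855455) (nat_lit 76) (nat_lit 304559537361) (nat_lit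 76) (nat_lit 271768155912) (nat_lit 1) (nat_lit 4) (nat_lit 2) (nat_lit 5) (nat_lit 2) (nat_lit 4) (nat_lit 320) (nat_lit 249) (nat_lit 151))))) (XT.nd (nat_lit 234) (nat_lit 0) (nat_lit 0) (XT.nd (nat_lit 78) (nat_lit 0) (nat_lit 0) (XT.lf (nat_lit 0) (nat_lit 99266655101) (nat_lit 76) (nat_lit 316606960346) (nat_lit 76) (nat_lit 283814290267) (nat_lit 1) (nat_lit 4) (nat_lit 2) (nat_lit 5) (nat_lit 2) (nat_lit 4) (nat_lit 321) (nat_lit 249) (nat_lit 150)) (XT.nd (nat_lit 78) (nat_lit 0) (nat_lit 0) (XT.lf (nat_lit 0) (nat_lit 128288765579) (nat_lit 76) (nat_lit 329618909617) (nat_lit 76) (nat_lit 296825046362) (nat_lit 1) (nat_lit 4) (nat_lit 2) (nat_lit 5) (nat_lit 2) (nat_lit 4) (nat_lit 322) (nat_lit 249) (nat_lit 149)) (XT.lf (nat_lit 0) (nat_lit 159631169766) (nat_lit 76) (nat_lit 343672493022) (nat_lit 76) (nat_lit 310877524974) (nat_lit 1) (nat_lit 4) (nat_lit 2) (nat_lit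 5) (nat_lit 2) (nat_lit 4) (nat_lit 323) (nat_lit 249) (nat_lit 148)))) (XT.nd (nat_lit 78) (nat_lit 0) (nat_lit 0) (XT.lf (nat_lit 0) (nat_lit 193479600427) (nat_lit 76) (nat_lit 358850991055) (nat_lit 76) (nat_lit 326055000051) (nat_lit 1) (nat_lit 4) (nat_lit 2) (nat_lit 5) (nat_lit 2) (nat_lit 4) (nat_lit 324) (nat_lit 249) (nat_lit 147)) (XT.nd (nat_lit 78) (nat_lit 0) (nat_lit 0) (XT.lf (nat_lit 0) (nat_lit 230034640854) (nat_lit 76) (nat_lit 375244350371) (nat_lit 76) (nat_lit 342447412185) (nat_lit 1) (nat_lit 4) (nat_lit 2) (nat_lit 5) (nat_lit 2) (nat_lit 4) (nat_lit 325) (nat_lit 249) (nat_lit 146)) (XT.lf (nat_lit 0) (nat_lit 269512913510) (nat_lit 76) (nat_lit 392949716803) (nat_lit 76) (nat_lit 360151901597) (nat_lit 1) (nat_lit 4) (nat_lit 2) (nat_lit 5) (nat_lit 2) (nat_lit 4) (nat_lit 326) (nat_lit 249) (nat_lit 145)))))) (XT.nd (nat_lit 468) (nat_lit 0) (nat_lit 0)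 (XT.nd (nat_lit 234) (nat_lit 0) (nat_lit 0) (XT.nd (nat_lit 78) (nat_lit 0) (nat_lit 0) (XT.lf (nat_lit 0) (nat_lit 312148363715) (nat_lit 76) (nat_lit 412072011041) (nat_lit 76) (nat_lit 379273383780) (nat_lit 1) (nat_lit 4) (nat_lit 2) (nat_lit 5) (nat_lit 2) (nat_lit 4) (nat_lit 327) (nat_lit 249) (nat_lit 144)) (XT.nd (nat_lit 78) (nat_lit 0) (nat_lit 0) (XT.lf (nat_lit 0) (nat_lit 358193645987) (nat_lit 76) (nat_lit 432724550385) (nat_lit 76) (nat_lit 399925171220) (nat_lit 1) (nat_lit 4) (nat_lit 2) (nat_lit 5) (nat_lit 2) (nat_lit 4) (nat_lit 328) (nat_lit 249) (nat_lit 143)) (XT.lf (nat_lit 0) (nat_lit 407921621260) (nat_lit 76) (nat_lit 455029720251) (nat_lit 76) (nat_lit 422229644880) (nat_lit 1) (nat_lit 4) (nat_lit 2) (nat_lit 5) (nat_lit 2) (nat_lit 4) (nat_lit 329) (nat_lit 249) (nat_lit 142)))) (XT.nd (nat_lit 78) (nat_lit 0) (nat_lit 0) (XT.lf (nat_lit 0) (nat_lit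 461626973830) (nat_lit 76) (nat_lit 479119699426) (nat_lit 76) (nat_lit 446318979419) (nat_lit 1) (nat_lit 4) (nat_lit 2) (nat_lit 5) (nat_lit 2) (nat_lit 4) (nat_lit 330) (nat_lit 249) (nat_lit 141)) (XT.nd (nat_lit 78) (nat_lit 0) (nat_lit 0) (XT.lf (nat_lit 0) (nat_lit 519627957638) (nat_lit 76) (nat_lit 505137243341) (nat_lit 76) (nat_lit 472335926448) (nat_lit 1) (nat_lit 4) (nat_lit 2) (nat_lit 5) (nat_lit 2) (nat_lit 4) (nat_lit 331) (nat_lit 249) (nat_lit 140)) (XT.lf (nat_lit 0) (nat_lit 582268282220) (nat_lit 76) (nat_lit 533236530033) (nat_lit 76) (nat_lit 500434660470) (nat_lit 1) (nat_lit 4) (nat_lit 2) (nat_lit 5) (nat_lit 2) (nat_lit 4) (nat_lit 332) (nat_lit 249) (nat_lit 139))))) (XT.nd (nat_lit 234) (nat_lit 0) (nat_lit 0) (XT.nd (nat_lit 78) (nat_lit 0) (nat_lit 0) (XT.lf (nat_lit 0) (nat_lit 649919149498) (nat_lit 76) (nat_lit 563584073796) (nat_lit 76) (nat_lit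 530781692500) (nat_lit 1) (nat_lit 4) (nat_lit 2) (nat_lit 5) (nat_lit 2) (nat_lit 4) (nat_lit 333) (nat_lit 249) (nat_lit 138)) (XT.nd (nat_lit 78) (nat_lit 0) (nat_lit 0) (XT.lf (nat_lit 0) (nat_lit 722981453500) (nat_lit 76) (nat_lit 596359711924) (nat_lit 76) (nat_lit 563556856801) (nat_lit 1) (nat_lit 4) (nat_lit 2) (nat_lit 5) (nat_lit 2) (nat_lit 4) (nat_lit 334) (nat_lit 249) (nat_lit 137)) (XT.lf (nat_lit 0) (nat_lit 801888156028) (nat_lit 76) (nat_lit 631757670422) (nat_lit 76) (nat_lit 598954376571) (nat_lit 1) (nat_lit 4) (nat_lit 2) (nat_lit 5) (nat_lit 2) (nat_lit 4) (nat_lit 335) (nat_lit 249) (nat_lit 136)))) (XT.nd (nat_lit 30810) (nat_lit 0) (nat_lit 2964) (XT.nd (nat_lit 78) (nat_lit 0) (nat_lit 0) (XT.lf (nat_lit 0) (nat_lit 887106852356) (nat_lit 76) (nat_lit 669987714970) (nat_lit 76) (nat_lit 637184014889) (nat_lit 1) (nat_lit 4) (nat_lit 2) (nat_lit 5) (nat_lit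 2) (nat_lit 4) (nat_lit 336) (nat_lit 249) (nat_lit 135)) (XT.lf (nat_lit 0) (nat_lit 979142542166) (nat_lit 76) (nat_lit 711276393979) (nat_lit 76) (nat_lit 678472317759) (nat_lit 1) (nat_lit 4) (nat_lit 2) (nat_lit 5) (nat_lit 2) (nat_lit 4) (nat_lit 337) (nat_lit 249) (nat_lit 134))) (XT.nd (nat_lit 78) (nat_lit 0) (nat_lit 0) (XT.lf (nat_lit 0) (nat_lit 1378073833) (nat_lit 0) (nat_lit 1378073833) (nat_lit 380) (nat_lit 1950892714) (nat_lit 40) (nat_lit 5) (nat_lit 40) (nat_lit 3) (nat_lit 45) (nat_lit 3) (nat_lit 250) (nat_lit 250) (nat_lit 220)) (XT.lf (nat_lit 0) (nat_lit 6462623141) (nat_lit 380) (nat_lit 2665654132) (nat_lit 456) (nat_lit 599344006) (nat_lit 40) (nat_lit 5) (nat_lit 45) (nat_lit 3) (nat_lit 46) (nat_lit 5) (nat_lit 251) (nat_lit 250) (nat_lit 219))))))) (XT.nd (nat_lit 936) (nat_lit 912) (nat_lit 0) (XT.nd (nat_lit 468) (nat_lit 760) (nat_lit 0) (XT.nd (nat_lit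 234) (nat_lit 380) (nat_lit 0) (XT.nd (nat_lit 78) (nat_lit 0) (nat_lit 0) (XT.lf (nat_lit 76) (nat_lit 1612277573) (nat_lit 0) (nat_lit 5916422313) (nat_lit 456) (nat_lit 2534831140) (nat_lit 41) (nat_lit 5) (nat_lit 40) (nat_lit 5) (nat_lit 46) (nat_lit 5) (nat_lit 252) (nat_lit 250) (nat_lit 218)) (XT.nd (nat_lit 78) (nat_lit 0) (nat_lit 76) (XT.lf (nat_lit 76) (nat_lit 6342331340) (nat_lit 0) (nat_lit 2344203801) (nat_lit 456) (nat_lit 1739690073) (nat_lit 41) (nat_lit 5) (nat_lit 40) (nat_lit 5) (nat_lit 46) (nat_lit 5) (nat_lit 253) (nat_lit 250) (nat_lit 217)) (XT.lf (nat_lit 76) (nat_lit 581024995) (nat_lit 0) (nat_lit 9345410696) (nat_lit 456) (nat_lit 892741806) (nat_lit 42) (nat_lit 5) (nat_lit 41) (nat_lit 5) (nat_lit 47) (nat_lit 5) (nat_lit 254) (nat_lit 250) (nat_lit 216)))) (XT.nd (nat_lit 78) (nat_lit 0) (nat_lit 0) (XT.lf (nat_lit 0) (nat_lit 137000196) (nat_lit 456)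 (nat_lit 5494383858) (nat_lit 532) (nat_lit 5603189644) (nat_lit 35) (nat_lit 5) (nat_lit 41) (nat_lit 5) (nat_lit 42) (nat_lit 5) (nat_lit 255) (nat_lit 250) (nat_lit 215)) (XT.nd (nat_lit 78) (nat_lit 0) (nat_lit 76) (XT.lf (nat_lit 0) (nat_lit 1145970805) (nat_lit 456) (nat_lit 437659150) (nat_lit 532) (nat_lit 10102425812) (nat_lit 35) (nat_lit 5) (nat_lit 41) (nat_lit 5) (nat_lit 42) (nat_lit 5) (nat_lit 256) (nat_lit 250) (nat_lit 214)) (XT.lf (nat_lit 0) (nat_lit 2381555734) (nat_lit 456) (nat_lit 6992630373) (nat_lit 76) (nat_lit 2788090838) (nat_lit 36) (nat_lit 5) (nat_lit 42) (nat_lit 5) (nat_lit 37) (nat_lit 5) (nat_lit 257) (nat_lit 250) (nat_lit 213))))) (XT.nd (nat_lit 234) (nat_lit 380) (nat_lit 0) (XT.nd (nat_lit 78) (nat_lit 456) (nat_lit 0) (XT.lf (nat_lit 0) (nat_lit 3721586164) (nat_lit 456) (nat_lit 1510111719) (nat_lit 76) (nat_lit 7444720664) (nat_lit 36) (nat_lit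 5) (nat_lit 42) (nat_lit 5) (nat_lit 37) (nat_lit 5) (nat_lit 258) (nat_lit 250) (nat_lit 212)) (XT.nd (nat_lit 78) (nat_lit 0) (nat_lit 0) (XT.lf (nat_lit 0) (nat_lit 4600928496) (nat_lit 456) (nat_lit 634272851) (nat_lit 532) (nat_lit 7991430124) (nat_lit 30) (nat_lit 5) (nat_lit 36) (nat_lit 5) (nat_lit 37) (nat_lit 5) (nat_lit 259) (nat_lit 250) (nat_lit 211)) (XT.lf (nat_lit 0) (nat_lit 6974557939) (nat_lit 532) (nat_lit 2678927189) (nat_lit 76) (nat_lit 4159236144) (nat_lit 30) (nat_lit 5) (nat_lit 37) (nat_lit 5) (nat_lit 31) (nat_lit 5) (nat_lit 260) (nat_lit 250) (nat_lit 210)))) (XT.nd (nat_lit 78) (nat_lit 152) (nat_lit 0) (XT.lf (nat_lit 0) (nat_lit 3881594287) (nat_lit 228) (nat_lit 5042528473) (nat_lit 304) (nat_lit 5516105555) (nat_lit 27) (nat_lit 5) (nat_lit 30) (nat_lit 5) (nat_lit 31) (nat_lit 5) (nat_lit 261) (nat_lit 250) (nat_lit 209)) (XT.nd (nat_lit 78) (nat_lit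 152) (nat_lit 0) (XT.lf (nat_lit 0) (nat_lit 11066423057) (nat_lit 304) (nat_lit 4034950512) (nat_lit 76) (nat_lit 13819646) (nat_lit 27) (nat_lit 5) (nat_lit 31) (nat_lit 5) (nat_lit 28) (nat_lit 5) (nat_lit 262) (nat_lit 250) (nat_lit 208)) (XT.lf (nat_lit 0) (nat_lit 2990558235) (nat_lit 152) (nat_lit 10558307078) (nat_lit 228) (nat_lit 2281973543) (nat_lit 25) (nat_lit 5) (nat_lit 27) (nat_lit 5) (nat_lit 28) (nat_lit 5) (nat_lit 263) (nat_lit 250) (nat_lit 207)))))) (XT.nd (nat_lit 468) (nat_lit 456) (nat_lit 0) (XT.nd (nat_lit 234) (nat_lit 152) (nat_lit 0) (XT.nd (nat_lit 78) (nat_lit 304) (nat_lit 0) (XT.lf (nat_lit 0) (nat_lit 10769863984) (nat_lit 152) (nat_lit 5537843669) (nat_lit 228) (nat_lit 289974661) (nat_lit 25) (nat_lit 5) (nat_lit 27) (nat_lit 5) (nat_lit 28) (nat_lit 5) (nat_lit 264) (nat_lit 250) (nat_lit 206)) (XT.nd (nat_lit 78) (nat_lit 0) (nat_lit 0) (XT.lf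 (nat_lit 0) (nat_lit 1751804985) (nat_lit 228) (nat_lit 27554803) (nat_lit 304) (nat_lit 15642191194) (nat_lit 21) (nat_lit 5) (nat_lit 24) (nat_lit 5) (nat_lit 25) (nat_lit 5) (nat_lit 265) (nat_lit 250) (nat_lit 205)) (XT.lf (nat_lit 0) (nat_lit 4274767477) (nat_lit 304) (nat_lit 8221610636) (nat_lit 76) (nat_lit 5792388456) (nat_lit 21) (nat_lit 5) (nat_lit 25) (nat_lit 5) (nat_lit 22) (nat_lit 5) (nat_lit 266) (nat_lit 250) (nat_lit 204)))) (XT.nd (nat_lit 78) (nat_lit 152) (nat_lit 0) (XT.lf (nat_lit 0) (nat_lit 6942976541) (nat_lit 304) (nat_lit 213643862) (nat_lit 76) (nat_lit 12071010850) (nat_lit 21) (nat_lit 5) (nat_lit 25) (nat_lit 5) (nat_lit 22) (nat_lit 5) (nat_lit 267) (nat_lit 250) (nat_lit 203)) (XT.nd (nat_lit 78) (nat_lit 0) (nat_lit 0) (XT.lf (nat_lit 0) (nat_lit 8844720370) (nat_lit 152) (nat_lit 1167131263) (nat_lit 228) (nat_lit 10214892801) (nat_lit 19) (nat_lit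 5) (nat_lit 21) (nat_lit 5) (nat_lit 22) (nat_lit 5) (nat_lit 268) (nat_lit 250) (nat_lit 202)) (XT.lf (nat_lit 0) (nat_lit 13435168305) (nat_lit 228) (nat_lit 2826808193) (nat_lit 76) (nat_lit 5035203117) (nat_lit 19) (nat_lit 5) (nat_lit 22) (nat_lit 5) (nat_lit 20) (nat_lit 5) (nat_lit 269) (nat_lit 250) (nat_lit 201))))) (XT.nd (nat_lit 234) (nat_lit 152) (nat_lit 0) (XT.nd (nat_lit 78) (nat_lit 152) (nat_lit 0) (XT.lf (nat_lit 0) (nat_lit 6685716315) (nat_lit 152) (nat_lit 10614997057) (nat_lit 228) (nat_lit 5139166700) (nat_lit 17) (nat_lit 5) (nat_lit 19) (nat_lit 5) (nat_lit 20) (nat_lit 5) (nat_lit 270) (nat_lit 250) (nat_lit 200)) (XT.nd (nat_lit 78) (nat_lit 152) (nat_lit 0) (XT.lf (nat_lit 0) (nat_lit 17089556619) (nat_lit 152) (nat_lit 4441444111) (nat_lit 228) (nat_lit 2138648081) (nat_lit 17) (nat_lit 5) (nat_lit 19) (nat_lit 5) (nat_lit 20) (nat_lit 5) (nat_lit 271)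 (nat_lit 250) (nat_lit 199)) (XT.lf (nat_lit 0) (nat_lit 1165012736) (nat_lit 152) (nat_lit 21602625627) (nat_lit 76) (nat_lit 2218661773) (nat_lit 15) (nat_lit 5) (nat_lit 17) (nat_lit 5) (nat_lit 16) (nat_lit 5) (nat_lit 272) (nat_lit 250) (nat_lit 198)))) (XT.nd (nat_lit 156) (nat_lit 152) (nat_lit 0) (XT.nd (nat_lit 78) (nat_lit 0) (nat_lit 0) (XT.lf (nat_lit 0) (nat_lit 4897230214) (nat_lit 152) (nat_lit 12080799158) (nat_lit 76) (nat_lit 9403498886) (nat_lit 15) (nat_lit 5) (nat_lit 17) (nat_lit 5) (nat_lit 16) (nat_lit 5) (nat_lit 273) (nat_lit 250) (nat_lit 197)) (XT.lf (nat_lit 0) (nat_lit 8909376713) (nat_lit 152) (nat_lit 1825080472) (nat_lit 76) (nat_lit 17155477038) (nat_lit 15) (nat_lit 5) (nat_lit 17) (nat_lit 5) (nat_lit 16) (nat_lit 5) (nat_lit 274) (nat_lit 250) (nat_lit 196))) (XT.nd (nat_lit 78) (nat_lit 0) (nat_lit 0) (XT.lf (nat_lit 0) (nat_lit 9711093273) (nat_lit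 152) (nat_lit 3747686669) (nat_lit 228) (nat_lit 16042992631) (nat_lit 13) (nat_lit 5) (nat_lit 15) (nat_lit 5) (nat_lit 16) (nat_lit 5) (nat_lit 275) (nat_lit 250) (nat_lit 195)) (XT.lf (nat_lit 0) (nat_lit 18497877043) (nat_lit 228) (nat_lit 9083567463) (nat_lit 76) (nat_lit 3651112217) (nat_lit 13) (nat_lit 5) (nat_lit 16) (nat_lit 5) (nat_lit 14) (nat_lit 4) (nat_lit 276) (nat_lit 250) (nat_lit 194))))))))
noncomputable def xc69 : XT := (XT.nd (nat_lit 1950) (nat_lit 152) (nat_lit 0) (XT.nd (nat_lit 936) (nat_lit 228) (nat_lit 0) (XT.nd (nat_lit 468) (nat_lit 228) (nat_lit 0) (XT.nd (nat_lit 234) (nat_lit 228) (nat_lit 0) (XT.nd (nat_lit 78) (nat_lit 0) (nat_lit 0) (XT.lf (nat_lit 0) (nat_lit 2482591892) (nat_lit 76) (nat_lit 21599005172) (nat_lit 152) (nat_lit 9008940692) (nat_lit 12) (nat_lit 5) (nat_lit 13) (nat_lit 5) (nat_lit 14) (nat_lit 4) (nat_lit 277) (nat_lit 250) (nat_lit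 193)) (XT.nd (nat_lit 78) (nat_lit 0) (nat_lit 0) (XT.lf (nat_lit 0) (nat_lit 15466883225) (nat_lit 76) (nat_lit 14878519452) (nat_lit 152) (nat_lit 4733133333) (nat_lit 12) (nat_lit 5) (nat_lit 13) (nat_lit 5) (nat_lit 14) (nat_lit 4) (nat_lit 278) (nat_lit 250) (nat_lit 192)) (XT.lf (nat_lit 0) (nat_lit 29467925919) (nat_lit 76) (nat_lit 7628523077) (nat_lit 152) (nat_lit 130280321) (nat_lit 12) (nat_lit 5) (nat_lit 13) (nat_lit 5) (nat_lit 14) (nat_lit 4) (nat_lit 279) (nat_lit 250) (nat_lit 191)))) (XT.nd (nat_lit 78) (nat_lit 0) (nat_lit 0) (XT.lf (nat_lit 0) (nat_lit 4720509591) (nat_lit 228) (nat_lit 34376501815) (nat_lit 76) (nat_lit 430743278) (nat_lit 9) (nat_lit 5) (nat_lit 12) (nat_lit 5) (nat_lit 10) (nat_lit 4) (nat_lit 280) (nat_lit 250) (nat_lit 190)) (XT.nd (nat_lit 78) (nat_lit 0) (nat_lit 0) (XT.lf (nat_lit 0) (nat_lit 10355201944) (nat_lit 228) (nat_lit 22688994939)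 (nat_lit 76) (nat_lit 8936200853) (nat_lit 9) (nat_lit 5) (nat_lit 12) (nat_lit 5) (nat_lit 10) (nat_lit 4) (nat_lit 281) (nat_lit 250) (nat_lit 189)) (XT.lf (nat_lit 0) (nat_lit 16428711130) (nat_lit 228) (nat_lit 10086330291) (nat_lit 76) (nat_lit 18115201372) (nat_lit 9) (nat_lit 5) (nat_lit 12) (nat_lit 5) (nat_lit 10) (nat_lit 4) (nat_lit 282) (nat_lit 250) (nat_lit 188))))) (XT.nd (nat_lit 234) (nat_lit 152) (nat_lit 0) (XT.nd (nat_lit 78) (nat_lit 0) (nat_lit 0) (XT.lf (nat_lit 0) (nat_lit 3690803525) (nat_lit 76) (nat_lit 19374988705) (nat_lit 152) (nat_lit 24420099303) (nat_lit 8) (nat_lit 5) (nat_lit 9) (nat_lit 5) (nat_lit 10) (nat_lit 4) (nat_lit 283) (nat_lit 250) (nat_lit 187)) (XT.nd (nat_lit 78) (nat_lit 0) (nat_lit 0) (XT.lf (nat_lit 0) (nat_lit 19125818783) (nat_lit 76) (nat_lit 11373115963) (nat_lit 152) (nat_lit 20049878875) (nat_lit 8) (nat_lit 5) (nat_lit 9) (nat_lit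 5) (nat_lit 10) (nat_lit 4) (nat_lit 284) (nat_lit 250) (nat_lit 186)) (XT.lf (nat_lit 0) (nat_lit 35779053960) (nat_lit 76) (nat_lit 2737782837) (nat_lit 152) (nat_lit 15340750923) (nat_lit 8) (nat_lit 5) (nat_lit 9) (nat_lit 5) (nat_lit 10) (nat_lit 4) (nat_lit 285) (nat_lit 250) (nat_lit 185)))) (XT.nd (nat_lit 78) (nat_lit 152) (nat_lit 0) (XT.lf (nat_lit 0) (nat_lit 47325313538) (nat_lit 152) (nat_lit 3840928146) (nat_lit 0) (nat_lit 6252915564) (nat_lit 8) (nat_lit 5) (nat_lit 10) (nat_lit 4) (nat_lit 8) (nat_lit 4) (nat_lit 286) (nat_lit 250) (nat_lit 184)) (XT.nd (nat_lit 78) (nat_lit 76) (nat_lit 0) (XT.lf (nat_lit 0) (nat_lit 12052721228) (nat_lit 76) (nat_lit 45138108055) (nat_lit 76) (nat_lit 4046657243) (nat_lit 7) (nat_lit 4) (nat_lit 8) (nat_lit 5) (nat_lit 8) (nat_lit 4) (nat_lit 287) (nat_lit 250) (nat_lit 183)) (XT.lf (nat_lit 0) (nat_lit 2459211505) (nat_lit 152)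 (nat_lit 35993932397) (nat_lit 76) (nat_lit 26895443621) (nat_lit 6) (nat_lit 5) (nat_lit 8) (nat_lit 5) (nat_lit 7) (nat_lit 4) (nat_lit 288) (nat_lit 250) (nat_lit 182)))))) (XT.nd (nat_lit 468) (nat_lit 152) (nat_lit 0) (XT.nd (nat_lit 234) (nat_lit 0) (nat_lit 0) (XT.nd (nat_lit 78) (nat_lit 76) (nat_lit 0) (XT.lf (nat_lit 0) (nat_lit 9258996267) (nat_lit 152) (nat_lit 21866714831) (nat_lit 76) (nat_lit 38655109478) (nat_lit 6) (nat_lit 5) (nat_lit 8) (nat_lit 5) (nat_lit 7) (nat_lit 4) (nat_lit 289) (nat_lit 250) (nat_lit 181)) (XT.nd (nat_lit 78) (nat_lit 76) (nat_lit 0) (XT.lf (nat_lit 0) (nat_lit 16595422247) (nat_lit 152) (nat_lit 6622073549) (nat_lit 76) (nat_lit 51350740749) (nat_lit 6) (nat_lit 5) (nat_lit 8) (nat_lit 5) (nat_lit 7) (nat_lit 4) (nat_lit 290) (nat_lit 250) (nat_lit 180)) (XT.lf (nat_lit 0) (nat_lit 10347977821) (nat_lit 76) (nat_lit 14412855857) (nat_lit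 152) (nat_lit 54958462098) (nat_lit 5) (nat_lit 5) (nat_lit 6) (nat_lit 5) (nat_lit 7) (nat_lit 4) (nat_lit 291) (nat_lit 250) (nat_lit 179)))) (XT.nd (nat_lit 78) (nat_lit 0) (nat_lit 0) (XT.lf (nat_lit 0) (nat_lit 29040726481) (nat_lit 76) (nat_lit 4713239746) (nat_lit 152) (nat_lit 51514528991) (nat_lit 5) (nat_lit 5) (nat_lit 6) (nat_lit 5) (nat_lit 7) (nat_lit 4) (nat_lit 292) (nat_lit 250) (nat_lit 178)) (XT.nd (nat_lit 78) (nat_lit 0) (nat_lit 0) (XT.lf (nat_lit 0) (nat_lit 43598939667) (nat_lit 152) (nat_lit 42182367765) (nat_lit 0) (nat_lit 5469745415) (nat_lit 5) (nat_lit 5) (nat_lit 7) (nat_lit 4) (nat_lit 5) (nat_lit 4) (nat_lit 293) (nat_lit 250) (nat_lit 177)) (XT.lf (nat_lit 0) (nat_lit 54348197364) (nat_lit 152) (nat_lit 27145985813) (nat_lit 0) (nat_lit 16208709456) (nat_lit 5) (nat_lit 5) (nat_lit 7) (nat_lit 4) (nat_lit 5) (nat_lit 4) (nat_lit 294) (nat_lit 250)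 (nat_lit 176))))) (XT.nd (nat_lit 234) (nat_lit 76) (nat_lit 0) (XT.nd (nat_lit 78) (nat_lit 76) (nat_lit 0) (XT.lf (nat_lit 0) (nat_lit 65952085093) (nat_lit 152) (nat_lit 10916164867) (nat_lit 0) (nat_lit 27803066022) (nat_lit 5) (nat_lit 5) (nat_lit 7) (nat_lit 4) (nat_lit 5) (nat_lit 4) (nat_lit 295) (nat_lit 250) (nat_lit 175)) (XT.nd (nat_lit 78) (nat_lit 0) (nat_lit 0) (XT.lf (nat_lit 0) (nat_lit 6950988379) (nat_lit 76) (nat_lit 71695549692) (nat_lit 76) (nat_lit 33537705470) (nat_lit 4) (nat_lit 4) (nat_lit 5) (nat_lit 5) (nat_lit 5) (nat_lit 4) (nat_lit 296) (nat_lit 250) (nat_lit 174)) (XT.lf (nat_lit 0) (nat_lit 26859777913) (nat_lit 76) (nat_lit 65790478119) (nat_lit 76) (nat_lit 27624462461) (nat_lit 4) (nat_lit 4) (nat_lit 5) (nat_lit 5) (nat_lit 5) (nat_lit 4) (nat_lit 297) (nat_lit 250) (nat_lit 173)))) (XT.nd (nat_lit 156) (nat_lit 76) (nat_lit 0) (XT.nd (nat_lit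 78) (nat_lit 0) (nat_lit 0) (XT.lf (nat_lit 0) (nat_lit 48353355850) (nat_lit 76) (nat_lit 59416509518) (nat_lit 76) (nat_lit 21242927716) (nat_lit 4) (nat_lit 4) (nat_lit 5) (nat_lit 5) (nat_lit 5) (nat_lit 4) (nat_lit 298) (nat_lit 250) (nat_lit 172)) (XT.lf (nat_lit 0) (nat_lit 71559091541) (nat_lit 76) (nat_lit 52535872223) (nat_lit 76) (nat_lit 14355284731) (nat_lit 4) (nat_lit 4) (nat_lit 5) (nat_lit 5) (nat_lit 5) (nat_lit 4) (nat_lit 299) (nat_lit 250) (nat_lit 171))) (XT.nd (nat_lit 78) (nat_lit 76) (nat_lit 0) (XT.lf (nat_lit 0) (nat_lit 96614500456) (nat_lit 76) (nat_lit 45107792086) (nat_lit 76) (nat_lit 6920717846) (nat_lit 4) (nat_lit 4) (nat_lit 5) (nat_lit 5) (nat_lit 5) (nat_lit 4) (nat_lit 300) (nat_lit 250) (nat_lit 170)) (XT.lf (nat_lit 0) (nat_lit 1049561580) (nat_lit 152) (nat_lit 36009992402) (nat_lit 76) (nat_lit 122589800639) (nat_lit 3) (nat_lit 5) (nat_lit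 5) (nat_lit 5) (nat_lit 4) (nat_lit 4) (nat_lit 301) (nat_lit 250) (nat_lit 169))))))) (XT.nd (nat_lit 936) (nat_lit 76) (nat_lit 0) (XT.nd (nat_lit 468) (nat_lit 0) (nat_lit 0) (XT.nd (nat_lit 234) (nat_lit 0) (nat_lit 0) (XT.nd (nat_lit 78) (nat_lit 76) (nat_lit 0) (XT.lf (nat_lit 0) (nat_lit 9280235738) (nat_lit 152) (nat_lit 18895751496) (nat_lit 76) (nat_lit 143346111007) (nat_lit 3) (nat_lit 5) (nat_lit 5) (nat_lit 5) (nat_lit 4) (nat_lit 4) (nat_lit 302) (nat_lit 250) (nat_lit 168)) (XT.nd (nat_lit 78) (nat_lit 76) (nat_lit 0) (XT.lf (nat_lit 0) (nat_lit 18166281329) (nat_lit 152) (nat_lit 417926058) (nat_lit 76) (nat_lit 165760706332) (nat_lit 3) (nat_lit 5) (nat_lit 5) (nat_lit 5) (nat_lit 4) (nat_lit 4) (nat_lit 303) (nat_lit 250) (nat_lit 167)) (XT.lf (nat_lit 0) (nat_lit 20561554358) (nat_lit 76) (nat_lit 7693307918) (nat_lit 152) (nat_lit 169899365365) (nat_lit 2) (nat_lit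 5) (nat_lit 3) (nat_lit 5) (nat_lit 4) (nat_lit 4) (nat_lit 304) (nat_lit 250) (nat_lit 166)))) (XT.nd (nat_lit 78) (nat_lit 0) (nat_lit 0) (XT.lf (nat_lit 0) (nat_lit 39257292187) (nat_lit 152) (nat_lit 169927549538) (nat_lit 0) (nat_lit 3874908900) (nat_lit 2) (nat_lit 5) (nat_lit 4) (nat_lit 4) (nat_lit 2) (nat_lit 4) (nat_lit 305) (nat_lit 250) (nat_lit 165)) (XT.nd (nat_lit 78) (nat_lit 0) (nat_lit 0) (XT.lf (nat_lit 0) (nat_lit 51337133950) (nat_lit 152) (nat_lit 161853842975) (nat_lit 0) (nat_lit 15950965707) (nat_lit 2) (nat_lit 5) (nat_lit 4) (nat_lit 4) (nat_lit 2) (nat_lit 4) (nat_lit 306) (nat_lit 250) (nat_lit 164)) (XT.lf (nat_lit 0) (nat_lit 64380947572) (nat_lit 152) (nat_lit 153138685168) (nat_lit 0) (nat_lit 28991274740) (nat_lit 2) (nat_lit 5) (nat_lit 4) (nat_lit 4) (nat_lit 2) (nat_lit 4) (nat_lit 307) (nat_lit 250) (nat_lit 163))))) (XT.nd (nat_lit 234) (nat_lit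 0) (nat_lit 0) (XT.nd (nat_lit 78) (nat_lit 0) (nat_lit 0) (XT.lf (nat_lit 0) (nat_lit 78466029726) (nat_lit 152) (nat_lit 143730430736) (nat_lit 0) (nat_lit 43073111904) (nat_lit 2) (nat_lit 5) (nat_lit 4) (nat_lit 4) (nat_lit 2) (nat_lit 4) (nat_lit 308) (nat_lit 250) (nat_lit 162)) (XT.nd (nat_lit 78) (nat_lit 0) (nat_lit 0) (XT.lf (nat_lit 0) (nat_lit 93675847566) (nat_lit 152) (nat_lit 133573327061) (nat_lit 0) (nat_lit 58279925124) (nat_lit 2) (nat_lit 5) (nat_lit 4) (nat_lit 4) (nat_lit 2) (nat_lit 4) (nat_lit 309) (nat_lit 250) (nat_lit 161)) (XT.lf (nat_lit 0) (nat_lit 110100533345) (nat_lit 152) (nat_lit 122607183898) (nat_lit 0) (nat_lit 74701828848) (nat_lit 2) (nat_lit 5) (nat_lit 4) (nat_lit 4) (nat_lit 2) (nat_lit 4) (nat_lit 310) (nat_lit 250) (nat_lit 160)))) (XT.nd (nat_lit 78) (nat_lit 0) (nat_lit 0) (XT.lf (nat_lit 0) (nat_lit 127837418536) (nat_lit 152) (nat_lit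 110767016696) (nat_lit 0) (nat_lit 92436138061) (nat_lit 2) (nat_lit 5) (nat_lit 4) (nat_lit 4) (nat_lit 2) (nat_lit 4) (nat_lit 311) (nat_lit 250) (nat_lit 159)) (XT.nd (nat_lit 78) (nat_lit 0) (nat_lit 0) (XT.lf (nat_lit 0) (nat_lit 146991610605) (nat_lit 152) (nat_lit 97982661501) (nat_lit 0) (nat_lit 111587944966) (nat_lit 2) (nat_lit 5) (nat_lit 4) (nat_lit 4) (nat_lit 2) (nat_lit 4) (nat_lit 312) (nat_lit 250) (nat_lit 158)) (XT.lf (nat_lit 0) (nat_lit 167676615876) (nat_lit 152) (nat_lit 84178359171) (nat_lit 0) (nat_lit 132270741753) (nat_lit 2) (nat_lit 5) (nat_lit 4) (nat_lit 4) (nat_lit 2) (nat_lit 4) (nat_lit 313) (nat_lit 250) (nat_lit 157)))))) (XT.nd (nat_lit 468) (nat_lit 0) (nat_lit 0) (XT.nd (nat_lit 234) (nat_lit 76) (nat_lit 0) (XT.nd (nat_lit 78) (nat_lit 0) (nat_lit 0) (XT.lf (nat_lit 0) (nat_lit 190015012159) (nat_lit 152) (nat_lit 69272306433) (nat_lit 0) (nat_lit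 154607093141) (nat_lit 2) (nat_lit 5) (nat_lit 4) (nat_lit 4) (nat_lit 2) (nat_lit 4) (nat_lit 314) (nat_lit 250) (nat_lit 156)) (XT.nd (nat_lit 78) (nat_lit 0) (nat_lit 0) (XT.lf (nat_lit 0) (nat_lit 214139175135) (nat_lit 152) (nat_lit 53176171122) (nat_lit 0) (nat_lit 178729362696) (nat_lit 2) (nat_lit 5) (nat_lit 4) (nat_lit 4) (nat_lit 2) (nat_lit 4) (nat_lit 315) (nat_lit 250) (nat_lit 155)) (XT.lf (nat_lit 0) (nat_lit 240192062806) (nat_lit 152) (nat_lit 35794568734) (nat_lit 0) (nat_lit 204780497201) (nat_lit 2) (nat_lit 5) (nat_lit 4) (nat_lit 4) (nat_lit 2) (nat_lit 4) (nat_lit 316) (nat_lit 250) (nat_lit 154)))) (XT.nd (nat_lit 78) (nat_lit 76) (nat_lit 0) (XT.lf (nat_lit 0) (nat_lit 268328062655) (nat_lit 152) (nat_lit 17024497179) (nat_lit 0) (nat_lit 232914873747) (nat_lit 2) (nat_lit 5) (nat_lit 4) (nat_lit 4) (nat_lit 2) (nat_lit 4) (nat_lit 317) (nat_lit 250) (nat_lit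 153)) (XT.nd (nat_lit 78) (nat_lit 0) (nat_lit 0) (XT.lf (nat_lit 0) (nat_lit 3416163951) (nat_lit 76) (nat_lit 295379901407) (nat_lit 76) (nat_lit 259965209441) (nat_lit 1) (nat_lit 4) (nat_lit 2) (nat_lit 5) (nat_lit 2) (nat_lit 4) (nat_lit 318) (nat_lit 250) (nat_lit 152)) (XT.lf (nat_lit 0) (nat_lit 26458417974) (nat_lit 76) (nat_lit 305707566315) (nat_lit 76) (nat_lit 270291482629) (nat_lit 1) (nat_lit 4) (nat_lit 2) (nat_lit 5) (nat_lit 2) (nat_lit 4) (nat_lit 319) (nat_lit 250) (nat_lit 151))))) (XT.nd (nat_lit 234) (nat_lit 0) (nat_lit 0) (XT.nd (nat_lit 78) (nat_lit 0) (nat_lit 0) (XT.lf (nat_lit 0) (nat_lit 51342331727) (nat_lit 76) (nat_lit 316862235459) (nat_lit 76) (nat_lit 281444863143) (nat_lit 1) (nat_lit 4) (nat_lit 2) (nat_lit 5) (nat_lit 2) (nat_lit 4) (nat_lit 320) (nat_lit 250) (nat_lit 150)) (XT.nd (nat_lit 78) (nat_lit 0) (nat_lit 0) (XT.lf (nat_lit 0) (nat_lit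 78215365441) (nat_lit 76) (nat_lit 328910010582) (nat_lit 76) (nat_lit 293491445090) (nat_lit 1) (nat_lit 4) (nat_lit 2) (nat_lit 5) (nat_lit 2) (nat_lit 4) (nat_lit 321) (nat_lit 250) (nat_lit 149)) (XT.lf (nat_lit 0) (nat_lit 107236766722) (nat_lit 76) (nat_lit 341922285907) (nat_lit 76) (nat_lit 306502615622) (nat_lit 1) (nat_lit 4) (nat_lit 2) (nat_lit 5) (nat_lit 2) (nat_lit 4) (nat_lit 322) (nat_lit 250) (nat_lit 148)))) (XT.nd (nat_lit 156) (nat_lit 0) (nat_lit 0) (XT.nd (nat_lit 78) (nat_lit 0) (nat_lit 0) (XT.lf (nat_lit 0) (nat_lit 138578514245) (nat_lit 76) (nat_lit 355976171214) (nat_lit 76) (nat_lit 320555477973) (nat_lit 1) (nat_lit 4) (nat_lit 2) (nat_lit 5) (nat_lit 2) (nat_lit 4) (nat_lit 323) (nat_lit 250) (nat_lit 147)) (XT.lf (nat_lit 0) (nat_lit 172426336883) (nat_lit 76) (nat_lit 371154948785) (nat_lit 76) (nat_lit 335733308363) (nat_lit 1) (nat_lit 4) (nat_lit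 2) (nat_lit 5) (nat_lit 2) (nat_lit 4) (nat_lit 324) (nat_lit 250) (nat_lit 146))) (XT.nd (nat_lit 78) (nat_lit 0) (nat_lit 0) (XT.lf (nat_lit 0) (nat_lit 208980814328) (nat_lit 76) (nat_lit 387548566933) (nat_lit 76) (nat_lit 352126049491) (nat_lit 1) (nat_lit 4) (nat_lit 2) (nat_lit 5) (nat_lit 2) (nat_lit 4) (nat_lit 325) (nat_lit 250) (nat_lit 145)) (XT.lf (nat_lit 0) (nat_lit 248458565703) (nat_lit 76) (nat_lit 405254173025) (nat_lit 76) (nat_lit 369830843527) (nat_lit 1) (nat_lit 4) (nat_lit 2) (nat_lit 5) (nat_lit 2) (nat_lit 4) (nat_lit 326) (nat_lit 250) (nat_lit 144))))))))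
noncomputable def xc70 : XT := (XT.nd (nat_lit 32682) (nat_lit 0) (nat_lit 380) (XT.nd (nat_lit 31668) (nat_lit 0) (nat_lit 1824) (XT.nd (nat_lit 468) (nat_lit 0) (nat_lit 0) (XT.nd (nat_lit 234) (nat_lit 0) (nat_lit 0) (XT.nd (nat_lit 78) (nat_lit 0) (nat_lit 0) (XT.lf (nat_lit 0) (nat_lit 291093533240) (nat_lit 76) (nat_lit 424376689170) (nat_lit 76) (nat_lit 388952607769) (nat_lit 1) (nat_lit 4) (nat_lit 2) (nat_lit 5) (nat_lit 2) (nat_lit 4) (nat_lit 327) (nat_lit 250) (nat_lit 143)) (XT.nd (nat_lit 78) (nat_lit 0) (nat_lit 0) (XT.lf (nat_lit 0) (nat_lit 337138368598) (nat_lit 76) (nat_lit 445029433982) (nat_lit 76) (nat_lit 409604656374) (nat_lit 1) (nat_lit 4) (nat_lit 2) (nat_lit 5) (nat_lit 2) (nat_lit 4) (nat_lit 328) (nat_lit 250) (nat_lit 142)) (XT.lf (nat_lit 0) (nat_lit 386865930060) (nat_lit 76) (nat_lit 467334794098) (nat_lit 76) (nat_lit 431909371855) (nat_lit 1) (nat_lit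 4) (nat_lit 2) (nat_lit 5) (nat_lit 2) (nat_lit 4) (nat_lit 329) (nat_lit 250) (nat_lit 141)))) (XT.nd (nat_lit 78) (nat_lit 0) (nat_lit 0) (XT.lf (nat_lit 0) (nat_lit 440570899473) (nat_lit 76) (nat_lit 491424949430) (nat_lit 76) (nat_lit 455998930301) (nat_lit 1) (nat_lit 4) (nat_lit 2) (nat_lit 5) (nat_lit 2) (nat_lit 4) (nat_lit 330) (nat_lit 250) (nat_lit 140)) (XT.nd (nat_lit 78) (nat_lit 0) (nat_lit 0) (XT.lf (nat_lit 0) (nat_lit 498571528507) (nat_lit 76) (nat_lit 517442656452) (nat_lit 76) (nat_lit 482016084652) (nat_lit 1) (nat_lit 4) (nat_lit 2) (nat_lit 5) (nat_lit 2) (nat_lit 4) (nat_lit 331) (nat_lit 250) (nat_lit 139)) (XT.lf (nat_lit 0) (nat_lit 561211524593) (nat_lit 76) (nat_lit 545542094171) (nat_lit 76) (nat_lit 510115010639) (nat_lit 1) (nat_lit 4) (nat_lit 2) (nat_lit 5) (nat_lit 2) (nat_lit 4) (nat_lit 332) (nat_lit 250) (nat_lit 138))))) (XT.nd (nat_lit 234)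 (nat_lit 0) (nat_lit 0) (XT.nd (nat_lit 78) (nat_lit 0) (nat_lit 0) (XT.lf (nat_lit 0) (nat_lit 628862087709) (nat_lit 76) (nat_lit 575889777773) (nat_lit 76) (nat_lit 540462220413) (nat_lit 1) (nat_lit 4) (nat_lit 2) (nat_lit 5) (nat_lit 2) (nat_lit 4) (nat_lit 333) (nat_lit 250) (nat_lit 137)) (XT.nd (nat_lit 78) (nat_lit 0) (nat_lit 0) (XT.lf (nat_lit 0) (nat_lit 701924110079) (nat_lit 76) (nat_lit 608665545381) (nat_lit 76) (nat_lit 573237549294) (nat_lit 1) (nat_lit 4) (nat_lit 2) (nat_lit 5) (nat_lit 2) (nat_lit 4) (nat_lit 334) (nat_lit 250) (nat_lit 136)) (XT.lf (nat_lit 0) (nat_lit 780830551836) (nat_lit 76) (nat_lit 644063623769) (nat_lit 76) (nat_lit 608635221451) (nat_lit 1) (nat_lit 4) (nat_lit 2) (nat_lit 5) (nat_lit 2) (nat_lit 4) (nat_lit 335) (nat_lit 250) (nat_lit 135)))) (XT.nd (nat_lit 78) (nat_lit 0) (nat_lit 0) (XT.lf (nat_lit 0) (nat_lit 866049006710) (nat_lit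 76) (nat_lit 682293779325) (nat_lit 76) (nat_lit 646865000869) (nat_lit 1) (nat_lit 4) (nat_lit 2) (nat_lit 5) (nat_lit 2) (nat_lit 4) (nat_lit 336) (nat_lit 250) (nat_lit 134)) (XT.nd (nat_lit 30810) (nat_lit 0) (nat_lit 2964) (XT.lf (nat_lit 0) (nat_lit 958084472952) (nat_lit 76) (nat_lit 723582561120) (nat_lit 76) (nat_lit 688153434387) (nat_lit 1) (nat_lit 4) (nat_lit 2) (nat_lit 5) (nat_lit 2) (nat_lit 4) (nat_lit 337) (nat_lit 250) (nat_lit 133)) (XT.lf (nat_lit 0) (nat_lit 1837057276) (nat_lit 0) (nat_lit 1837057276) (nat_lit 380) (nat_lit 1349166711) (nat_lit 40) (nat_lit 5) (nat_lit 40) (nat_lit 3) (nat_lit 45) (nat_lit 3) (nat_lit 251) (nat_lit 251) (nat_lit 218)))))) (XT.nd (nat_lit 468) (nat_lit 760) (nat_lit 0) (XT.nd (nat_lit 234) (nat_lit 380) (nat_lit 0) (XT.nd (nat_lit 78) (nat_lit 0) (nat_lit 0) (XT.lf (nat_lit 0) (nat_lit 8255721743) (nat_lit 380) (nat_lit 2105856406)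 (nat_lit 456) (nat_lit 33787319) (nat_lit 40) (nat_lit 5) (nat_lit 45) (nat_lit 3) (nat_lit 46) (nat_lit 5) (nat_lit 252) (nat_lit 251) (nat_lit 217)) (XT.nd (nat_lit 78) (nat_lit 0) (nat_lit 0) (XT.lf (nat_lit 76) (nat_lit 2494738947) (nat_lit 0) (nat_lit 6835941779) (nat_lit 456) (nat_lit 1434200205) (nat_lit 41) (nat_lit 5) (nat_lit 40) (nat_lit 5) (nat_lit 46) (nat_lit 5) (nat_lit 253) (nat_lit 251) (nat_lit 216)) (XT.lf (nat_lit 76) (nat_lit 7547383744) (nat_lit 0) (nat_lit 2944893514) (nat_lit 456) (nat_lit 671997291) (nat_lit 41) (nat_lit 5) (nat_lit 40) (nat_lit 5) (nat_lit 46) (nat_lit 5) (nat_lit 254) (nat_lit 251) (nat_lit 215)))) (XT.nd (nat_lit 78) (nat_lit 0) (nat_lit 0) (XT.lf (nat_lit 0) (nat_lit 155528591) (nat_lit 456) (nat_lit 10188131779) (nat_lit 532) (nat_lit 1251031311) (nat_lit 35) (nat_lit 5) (nat_lit 41) (nat_lit 5) (nat_lit 42) (nat_lit 5) (nat_lit 255) (nat_lit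 251) (nat_lit 214)) (XT.nd (nat_lit 78) (nat_lit 0) (nat_lit 0) (XT.lf (nat_lit 0) (nat_lit 1140051413) (nat_lit 456) (nat_lit 5150707877) (nat_lit 532) (nat_lit 5757510801) (nat_lit 35) (nat_lit 5) (nat_lit 41) (nat_lit 5) (nat_lit 42) (nat_lit 5) (nat_lit 256) (nat_lit 251) (nat_lit 213)) (XT.lf (nat_lit 76) (nat_lit 265836218) (nat_lit 0) (nat_lit 1896808582) (nat_lit 532) (nat_lit 10379015901) (nat_lit 36) (nat_lit 5) (nat_lit 35) (nat_lit 5) (nat_lit 42) (nat_lit 5) (nat_lit 257) (nat_lit 251) (nat_lit 212))))) (XT.nd (nat_lit 234) (nat_lit 380) (nat_lit 0) (XT.nd (nat_lit 78) (nat_lit 456) (nat_lit 0) (XT.lf (nat_lit 0) (nat_lit 3435773227) (nat_lit 456) (nat_lit 6767032253) (nat_lit 76) (nat_lit 2858469455) (nat_lit 36) (nat_lit 5) (nat_lit 42) (nat_lit 5) (nat_lit 37) (nat_lit 5) (nat_lit 258) (nat_lit 251) (nat_lit 211)) (XT.nd (nat_lit 78) (nat_lit 456) (nat_lit 0) (XT.lf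 (nat_lit 0) (nat_lit 4819028829) (nat_lit 456) (nat_lit 904060888) (nat_lit 76) (nat_lit 7898938457) (nat_lit 36) (nat_lit 5) (nat_lit 42) (nat_lit 5) (nat_lit 37) (nat_lit 5) (nat_lit 259) (nat_lit 251) (nat_lit 210)) (XT.lf (nat_lit 0) (nat_lit 5677461032) (nat_lit 456) (nat_lit 734072429) (nat_lit 532) (nat_lit 7808435956) (nat_lit 30) (nat_lit 5) (nat_lit 36) (nat_lit 5) (nat_lit 37) (nat_lit 5) (nat_lit 260) (nat_lit 251) (nat_lit 209)))) (XT.nd (nat_lit 156) (nat_lit 152) (nat_lit 0) (XT.nd (nat_lit 78) (nat_lit 228) (nat_lit 0) (XT.lf (nat_lit 0) (nat_lit 8232833839) (nat_lit 532) (nat_lit 2176175931) (nat_lit 76) (nat_lit 4448823478) (nat_lit 30) (nat_lit 5) (nat_lit 37) (nat_lit 5) (nat_lit 31) (nat_lit 5) (nat_lit 261) (nat_lit 251) (nat_lit 208)) (XT.lf (nat_lit 0) (nat_lit 4891033708) (nat_lit 228) (nat_lit 5412264075) (nat_lit 304) (nat_lit 5235335823) (nat_lit 27) (nat_lit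 5) (nat_lit 30) (nat_lit 5) (nat_lit 31) (nat_lit 5) (nat_lit 262) (nat_lit 251) (nat_lit 207))) (XT.nd (nat_lit 78) (nat_lit 152) (nat_lit 0) (XT.lf (nat_lit 0) (nat_lit 12568454390) (nat_lit 304) (nat_lit 3658751028) (nat_lit 76) (nat_lit 44538673) (nat_lit 27) (nat_lit 5) (nat_lit 31) (nat_lit 5) (nat_lit 28) (nat_lit 5) (nat_lit 263) (nat_lit 251) (nat_lit 206)) (XT.lf (nat_lit 0) (nat_lit 3911102330) (nat_lit 152) (nat_lit 11309092187) (nat_lit 228) (nat_lit 1827037124) (nat_lit 25) (nat_lit 5) (nat_lit 27) (nat_lit 5) (nat_lit 28) (nat_lit 5) (nat_lit 264) (nat_lit 251) (nat_lit 205))))))) (XT.nd (nat_lit 936) (nat_lit 532) (nat_lit 0) (XT.nd (nat_lit 468) (nat_lit 456) (nat_lit 0) (XT.nd (nat_lit 234) (nat_lit 152) (nat_lit 0) (XT.nd (nat_lit 78) (nat_lit 228) (nat_lit 0) (XT.lf (nat_lit 0) (nat_lit 263238210) (nat_lit 228) (nat_lit 5623510130) (nat_lit 76) (nat_lit 11991850305)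 (nat_lit 24) (nat_lit 5) (nat_lit 27) (nat_lit 5) (nat_lit 25) (nat_lit 5) (nat_lit 265) (nat_lit 251) (nat_lit 204)) (XT.nd (nat_lit 78) (nat_lit 0) (nat_lit 0) (XT.lf (nat_lit 0) (nat_lit 2458423229) (nat_lit 304) (nat_lit 16233848217) (nat_lit 76) (nat_lit 77620863) (nat_lit 21) (nat_lit 5) (nat_lit 25) (nat_lit 5) (nat_lit 22) (nat_lit 5) (nat_lit 266) (nat_lit 251) (nat_lit 203)) (XT.lf (nat_lit 0) (nat_lit 5114369585) (nat_lit 304) (nat_lit 8241597125) (nat_lit 76) (nat_lit 6353827103) (nat_lit 21) (nat_lit 5) (nat_lit 25) (nat_lit 5) (nat_lit 22) (nat_lit 5) (nat_lit 267) (nat_lit 251) (nat_lit 202)))) (XT.nd (nat_lit 78) (nat_lit 0) (nat_lit 0) (XT.lf (nat_lit 0) (nat_lit 378711498) (nat_lit 152) (nat_lit 7589571102) (nat_lit 228) (nat_lit 12757873028) (nat_lit 19) (nat_lit 5) (nat_lit 21) (nat_lit 5) (nat_lit 22) (nat_lit 5) (nat_lit 268) (nat_lit 251) (nat_lit 201)) (XT.nd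 (nat_lit 78) (nat_lit 0) (nat_lit 0) (XT.lf (nat_lit 0) (nat_lit 10127850764) (nat_lit 152) (nat_lit 1125420610) (nat_lit 228) (nat_lit 10554433507) (nat_lit 19) (nat_lit 5) (nat_lit 21) (nat_lit 5) (nat_lit 22) (nat_lit 5) (nat_lit 269) (nat_lit 251) (nat_lit 200)) (XT.lf (nat_lit 0) (nat_lit 14920833913) (nat_lit 228) (nat_lit 2488616582) (nat_lit 76) (nat_lit 5556837744) (nat_lit 19) (nat_lit 5) (nat_lit 22) (nat_lit 5) (nat_lit 20) (nat_lit 5) (nat_lit 270) (nat_lit 251) (nat_lit 199))))) (XT.nd (nat_lit 234) (nat_lit 152) (nat_lit 0) (XT.nd (nat_lit 78) (nat_lit 152) (nat_lit 0) (XT.lf (nat_lit 0) (nat_lit 7770622893) (nat_lit 152) (nat_lit 11307794900) (nat_lit 228) (nat_lit 5123496479) (nat_lit 17) (nat_lit 5) (nat_lit 19) (nat_lit 5) (nat_lit 20) (nat_lit 5) (nat_lit 271) (nat_lit 251) (nat_lit 198)) (XT.nd (nat_lit 78) (nat_lit 152) (nat_lit 0) (XT.lf (nat_lit 0) (nat_lit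 18966026030) (nat_lit 152) (nat_lit 4651943045) (nat_lit 228) (nat_lit 1914551449) (nat_lit 17) (nat_lit 5) (nat_lit 19) (nat_lit 5) (nat_lit 20) (nat_lit 5) (nat_lit 272) (nat_lit 251) (nat_lit 197)) (XT.lf (nat_lit 0) (nat_lit 1622036439) (nat_lit 152) (nat_lit 22787416760) (nat_lit 76) (nat_lit 2545323863) (nat_lit 15) (nat_lit 5) (nat_lit 17) (nat_lit 5) (nat_lit 16) (nat_lit 5) (nat_lit 273) (nat_lit 251) (nat_lit 196)))) (XT.nd (nat_lit 78) (nat_lit 152) (nat_lit 0) (XT.lf (nat_lit 0) (nat_lit 5625881488) (nat_lit 152) (nat_lit 12544097425) (nat_lit 76) (nat_lit 10293898379) (nat_lit 15) (nat_lit 5) (nat_lit 17) (nat_lit 5) (nat_lit 16) (nat_lit 5) (nat_lit 274) (nat_lit 251) (nat_lit 195)) (XT.nd (nat_lit 78) (nat_lit 152) (nat_lit 0) (XT.lf (nat_lit 0) (nat_lit 9934046162) (nat_lit 152) (nat_lit 1505192776) (nat_lit 76) (nat_lit 18655803703) (nat_lit 15) (nat_lit 5) (nat_lit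 17) (nat_lit 5) (nat_lit 16) (nat_lit 5) (nat_lit 275) (nat_lit 251) (nat_lit 194)) (XT.lf (nat_lit 0) (nat_lit 10942080080) (nat_lit 152) (nat_lit 3893137534) (nat_lit 228) (nat_lit 17001669076) (nat_lit 13) (nat_lit 5) (nat_lit 15) (nat_lit 5) (nat_lit 16) (nat_lit 5) (nat_lit 276) (nat_lit 251) (nat_lit 193)))))) (XT.nd (nat_lit 468) (nat_lit 228) (nat_lit 0) (XT.nd (nat_lit 234) (nat_lit 228) (nat_lit 0) (XT.nd (nat_lit 78) (nat_lit 76) (nat_lit 0) (XT.lf (nat_lit 0) (nat_lit 20258677333) (nat_lit 228) (nat_lit 9370054180) (nat_lit 76) (nat_lit 4078980966) (nat_lit 13) (nat_lit 5) (nat_lit 16) (nat_lit 5) (nat_lit 14) (nat_lit 4) (nat_lit 277) (nat_lit 251) (nat_lit 192)) (XT.nd (nat_lit 78) (nat_lit 0) (nat_lit 0) (XT.lf (nat_lit 0) (nat_lit 3110253654) (nat_lit 76) (nat_lit 23168347469) (nat_lit 152) (nat_lit 9436642316) (nat_lit 12) (nat_lit 5) (nat_lit 13) (nat_lit 5) (nat_lit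 14) (nat_lit 4) (nat_lit 278) (nat_lit 251) (nat_lit 191)) (XT.lf (nat_lit 0) (nat_lit 17101506485) (nat_lit 76) (nat_lit 15921969418) (nat_lit 152) (nat_lit 4840475082) (nat_lit 12) (nat_lit 5) (nat_lit 13) (nat_lit 5) (nat_lit 14) (nat_lit 4) (nat_lit 279) (nat_lit 251) (nat_lit 190)))) (XT.nd (nat_lit 78) (nat_lit 152) (nat_lit 0) (XT.lf (nat_lit 0) (nat_lit 104981095) (nat_lit 152) (nat_lit 7994998283) (nat_lit 76) (nat_lit 32085353529) (nat_lit 11) (nat_lit 5) (nat_lit 13) (nat_lit 5) (nat_lit 12) (nat_lit 5) (nat_lit 280) (nat_lit 251) (nat_lit 189)) (XT.nd (nat_lit 78) (nat_lit 0) (nat_lit 0) (XT.lf (nat_lit 0) (nat_lit 5331457151) (nat_lit 228) (nat_lit 36739496984) (nat_lit 76) (nat_lit 599695416) (nat_lit 9) (nat_lit 5) (nat_lit 12) (nat_lit 5) (nat_lit 10) (nat_lit 4) (nat_lit 281) (nat_lit 251) (nat_lit 188)) (XT.lf (nat_lit 0) (nat_lit 11399642907) (nat_lit 228) (nat_lit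 24145665482) (nat_lit 76) (nat_lit 9775627176) (nat_lit 9) (nat_lit 5) (nat_lit 12) (nat_lit 5) (nat_lit 10) (nat_lit 4) (nat_lit 282) (nat_lit 251) (nat_lit 187))))) (XT.nd (nat_lit 234) (nat_lit 152) (nat_lit 0) (XT.nd (nat_lit 78) (nat_lit 76) (nat_lit 0) (XT.lf (nat_lit 0) (nat_lit 17943030991) (nat_lit 228) (nat_lit 10561339444) (nat_lit 76) (nat_lit 19679723274) (nat_lit 9) (nat_lit 5) (nat_lit 12) (nat_lit 5) (nat_lit 10) (nat_lit 4) (nat_lit 283) (nat_lit 251) (nat_lit 186)) (XT.nd (nat_lit 78) (nat_lit 0) (nat_lit 0) (XT.lf (nat_lit 0) (nat_lit 4309562614) (nat_lit 76) (nat_lit 20794479505) (nat_lit 152) (nat_lit 26164757120) (nat_lit 8) (nat_lit 5) (nat_lit 9) (nat_lit 5) (nat_lit 10) (nat_lit 4) (nat_lit 284) (nat_lit 251) (nat_lit 185)) (XT.lf (nat_lit 0) (nat_lit 20955416515) (nat_lit 76) (nat_lit 12162124226) (nat_lit 152) (nat_lit 21460396845) (nat_lit 8) (nat_lit 5)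 (nat_lit 9) (nat_lit 5) (nat_lit 10) (nat_lit 4) (nat_lit 285) (nat_lit 251) (nat_lit 184)))) (XT.nd (nat_lit 156) (nat_lit 152) (nat_lit 0) (XT.nd (nat_lit 78) (nat_lit 0) (nat_lit 0) (XT.lf (nat_lit 0) (nat_lit 38918722934) (nat_lit 76) (nat_lit 2844915636) (nat_lit 152) (nat_lit 16388869942) (nat_lit 8) (nat_lit 5) (nat_lit 9) (nat_lit 5) (nat_lit 10) (nat_lit 4) (nat_lit 286) (nat_lit 251) (nat_lit 183)) (XT.lf (nat_lit 0) (nat_lit 51267029159) (nat_lit 152) (nat_lit 3881220981) (nat_lit 0) (nat_lit 6851567926) (nat_lit 8) (nat_lit 5) (nat_lit 10) (nat_lit 4) (nat_lit 8) (nat_lit 4) (nat_lit 287) (nat_lit 251) (nat_lit 182))) (XT.nd (nat_lit 78) (nat_lit 76) (nat_lit 0) (XT.lf (nat_lit 0) (nat_lit 13277161321) (nat_lit 76) (nat_lit 48639350566) (nat_lit 76) (nat_lit 4207554595) (nat_lit 7) (nat_lit 4) (nat_lit 8) (nat_lit 5) (nat_lit 8) (nat_lit 4) (nat_lit 288) (nat_lit 251) (nat_lit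 181)) (XT.lf (nat_lit 0) (nat_lit 2799179490) (nat_lit 152) (nat_lit 38624627387) (nat_lit 76) (nat_lit 29140878515) (nat_lit 6) (nat_lit 5) (nat_lit 8) (nat_lit 5) (nat_lit 7) (nat_lit 4) (nat_lit 289) (nat_lit 251) (nat_lit 180))))))))
noncomputable def xc71 : XT := (XT.nd (nat_lit 1950) (nat_lit 76) (nat_lit 0) (XT.nd (nat_lit 936) (nat_lit 152) (nat_lit 0) (XT.nd (nat_lit 468) (nat_lit 76) (nat_lit 0) (XT.nd (nat_lit 234) (nat_lit 0) (nat_lit 0) (XT.nd (nat_lit 78) (nat_lit 76) (nat_lit 0) (XT.lf (nat_lit 0) (nat_lit 10132337325) (nat_lit 152) (nat_lit 23385663497) (nat_lit 76) (nat_lit 41834369537) (nat_lit 6) (nat_lit 5) (nat_lit 8) (nat_lit 5) (nat_lit 7) (nat_lit 4) (nat_lit 290) (nat_lit 251) (nat_lit 179)) (XT.nd (nat_lit 78) (nat_lit 76) (nat_lit 0) (XT.lf (nat_lit 0) (nat_lit 18045853579) (nat_lit 152) (nat_lit 6938516729) (nat_lit 76) (nat_lit 55539217880) (nat_lit 6)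 (nat_lit 5) (nat_lit 8) (nat_lit 5) (nat_lit 7) (nat_lit 4) (nat_lit 291) (nat_lit 251) (nat_lit 178)) (XT.lf (nat_lit 0) (nat_lit 11383738176) (nat_lit 76) (nat_lit 15476664166) (nat_lit 152) (nat_lit 59226678461) (nat_lit 5) (nat_lit 5) (nat_lit 6) (nat_lit 5) (nat_lit 7) (nat_lit 4) (nat_lit 292) (nat_lit 251) (nat_lit 177)))) (XT.nd (nat_lit 78) (nat_lit 0) (nat_lit 0) (XT.lf (nat_lit 0) (nat_lit 31556505089) (nat_lit 76) (nat_lit 5007687667) (nat_lit 152) (nat_lit 55516746306) (nat_lit 5) (nat_lit 5) (nat_lit 6) (nat_lit 5) (nat_lit 7) (nat_lit 4) (nat_lit 293) (nat_lit 251) (nat_lit 176)) (XT.nd (nat_lit 78) (nat_lit 0) (nat_lit 0) (XT.lf (nat_lit 0) (nat_lit 47190462279) (nat_lit 152) (nat_lit 45372170648) (nat_lit 0) (nat_lit 5979990519) (nat_lit 5) (nat_lit 5) (nat_lit 7) (nat_lit 4) (nat_lit 5) (nat_lit 4) (nat_lit 294) (nat_lit 251) (nat_lit 175)) (XT.lf (nat_lit 0) (nat_lit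 58791985966) (nat_lit 152) (nat_lit 29146566032) (nat_lit 0) (nat_lit 17572689056) (nat_lit 5) (nat_lit 5) (nat_lit 7) (nat_lit 4) (nat_lit 5) (nat_lit 4) (nat_lit 295) (nat_lit 251) (nat_lit 174))))) (XT.nd (nat_lit 234) (nat_lit 0) (nat_lit 0) (XT.nd (nat_lit 78) (nat_lit 76) (nat_lit 0) (XT.lf (nat_lit 0) (nat_lit 71317078580) (nat_lit 152) (nat_lit 11631033384) (nat_lit 0) (nat_lit 30089610233) (nat_lit 5) (nat_lit 5) (nat_lit 7) (nat_lit 4) (nat_lit 5) (nat_lit 4) (nat_lit 296) (nat_lit 251) (nat_lit 173)) (XT.nd (nat_lit 78) (nat_lit 0) (nat_lit 0) (XT.lf (nat_lit 0) (nat_lit 7661481370) (nat_lit 76) (nat_lit 77362740330) (nat_lit 76) (nat_lit 36127705839) (nat_lit 4) (nat_lit 4) (nat_lit 5) (nat_lit 5) (nat_lit 5) (nat_lit 4) (nat_lit 297) (nat_lit 251) (nat_lit 172)) (XT.lf (nat_lit 0) (nat_lit 29151535999) (nat_lit 76) (nat_lit 70990333649) (nat_lit 76) (nat_lit 29748293469)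 (nat_lit 4) (nat_lit 4) (nat_lit 5) (nat_lit 5) (nat_lit 5) (nat_lit 4) (nat_lit 298) (nat_lit 251) (nat_lit 171)))) (XT.nd (nat_lit 78) (nat_lit 0) (nat_lit 0) (XT.lf (nat_lit 0) (nat_lit 52354009367) (nat_lit 76) (nat_lit 64111142576) (nat_lit 76) (nat_lit 22862615647) (nat_lit 4) (nat_lit 4) (nat_lit 5) (nat_lit 5) (nat_lit 5) (nat_lit 4) (nat_lit 299) (nat_lit 251) (nat_lit 170)) (XT.nd (nat_lit 78) (nat_lit 0) (nat_lit 0) (XT.lf (nat_lit 0) (nat_lit 77406397613) (nat_lit 76) (nat_lit 56684401535) (nat_lit 76) (nat_lit 15429868356) (nat_lit 4) (nat_lit 4) (nat_lit 5) (nat_lit 5) (nat_lit 5) (nat_lit 4) (nat_lit 300) (nat_lit 251) (nat_lit 169)) (XT.lf (nat_lit 0) (nat_lit 104457159334) (nat_lit 76) (nat_lit 48666100207) (nat_lit 76) (nat_lit 7406005686) (nat_lit 4) (nat_lit 4) (nat_lit 5) (nat_lit 5) (nat_lit 5) (nat_lit 4) (nat_lit 301) (nat_lit 251) (nat_lit 168)))))) (XT.nd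 (nat_lit 468) (nat_lit 0) (nat_lit 0) (XT.nd (nat_lit 234) (nat_lit 76) (nat_lit 0) (XT.nd (nat_lit 78) (nat_lit 0) (nat_lit 0) (XT.lf (nat_lit 0) (nat_lit 1193664898) (nat_lit 152) (nat_lit 38782420921) (nat_lit 76) (nat_lit 132440293528) (nat_lit 3) (nat_lit 5) (nat_lit 5) (nat_lit 5) (nat_lit 4) (nat_lit 4) (nat_lit 302) (nat_lit 251) (nat_lit 167)) (XT.nd (nat_lit 78) (nat_lit 0) (nat_lit 0) (XT.lf (nat_lit 0) (nat_lit 10078338293) (nat_lit 152) (nat_lit 20307068214) (nat_lit 76) (nat_lit 154853900663) (nat_lit 3) (nat_lit 5) (nat_lit 5) (nat_lit 5) (nat_lit 4) (nat_lit 4) (nat_lit 303) (nat_lit 251) (nat_lit 166)) (XT.lf (nat_lit 0) (nat_lit 19671142813) (nat_lit 152) (nat_lit 358449586) (nat_lit 76) (nat_lit 179058693187) (nat_lit 3) (nat_lit 5) (nat_lit 5) (nat_lit 5) (nat_lit 4) (nat_lit 4) (nat_lit 304) (nat_lit 251) (nat_lit 165)))) (XT.nd (nat_lit 78) (nat_lit 0) (nat_lit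 0) (XT.lf (nat_lit 0) (nat_lit 22297037098) (nat_lit 76) (nat_lit 8268131886) (nat_lit 152) (nat_lit 183437314087) (nat_lit 2) (nat_lit 5) (nat_lit 3) (nat_lit 5) (nat_lit 4) (nat_lit 4) (nat_lit 305) (nat_lit 251) (nat_lit 164)) (XT.nd (nat_lit 78) (nat_lit 0) (nat_lit 0) (XT.lf (nat_lit 0) (nat_lit 42445000687) (nat_lit 152) (nat_lit 183435027794) (nat_lit 0) (nat_lit 4220649440) (nat_lit 2) (nat_lit 5) (nat_lit 4) (nat_lit 4) (nat_lit 2) (nat_lit 4) (nat_lit 306) (nat_lit 251) (nat_lit 163)) (XT.lf (nat_lit 0) (nat_lit 55487739041) (nat_lit 152) (nat_lit 174721848833) (nat_lit 0) (nat_lit 17260142804) (nat_lit 2) (nat_lit 5) (nat_lit 4) (nat_lit 4) (nat_lit 2) (nat_lit 4) (nat_lit 307) (nat_lit 251) (nat_lit 162))))) (XT.nd (nat_lit 234) (nat_lit 0) (nat_lit 0) (XT.nd (nat_lit 78) (nat_lit 0) (nat_lit 0) (XT.lf (nat_lit 0) (nat_lit 69571825576) (nat_lit 152) (nat_lit 165315426666)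 (nat_lit 0) (nat_lit 31341224720) (nat_lit 2) (nat_lit 5) (nat_lit 4) (nat_lit 4) (nat_lit 2) (nat_lit 4) (nat_lit 308) (nat_lit 251) (nat_lit 161)) (XT.nd (nat_lit 78) (nat_lit 0) (nat_lit 0) (XT.lf (nat_lit 0) (nat_lit 84780721547) (nat_lit 152) (nat_lit 155160019533) (nat_lit 0) (nat_lit 46547338635) (nat_lit 2) (nat_lit 5) (nat_lit 4) (nat_lit 4) (nat_lit 2) (nat_lit 4) (nat_lit 309) (nat_lit 251) (nat_lit 160)) (XT.lf (nat_lit 0) (nat_lit 101204553744) (nat_lit 152) (nat_lit 144195447242) (nat_lit 0) (nat_lit 62968594855) (nat_lit 2) (nat_lit 5) (nat_lit 4) (nat_lit 4) (nat_lit 2) (nat_lit 4) (nat_lit 310) (nat_lit 251) (nat_lit 159)))) (XT.nd (nat_lit 156) (nat_lit 0) (nat_lit 0) (XT.nd (nat_lit 78) (nat_lit 0) (nat_lit 0) (XT.lf (nat_lit 0) (nat_lit 118940648581) (nat_lit 152) (nat_lit 132356734551) (nat_lit 0) (nat_lit 80702304527) (nat_lit 2) (nat_lit 5) (nat_lit 4) (nat_lit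 4) (nat_lit 2) (nat_lit 4) (nat_lit 311) (nat_lit 251) (nat_lit 158)) (XT.lf (nat_lit 0) (nat_lit 138094108841) (nat_lit 152) (nat_lit 119573726126) (nat_lit 0) (nat_lit 99853556302) (nat_lit 2) (nat_lit 5) (nat_lit 4) (nat_lit 4) (nat_lit 2) (nat_lit 4) (nat_lit 312) (nat_lit 251) (nat_lit 157))) (XT.nd (nat_lit 78) (nat_lit 0) (nat_lit 0) (XT.lf (nat_lit 0) (nat_lit 158778436511) (nat_lit 152) (nat_lit 105770670804) (nat_lit 0) (nat_lit 120535839078) (nat_lit 2) (nat_lit 5) (nat_lit 4) (nat_lit 4) (nat_lit 2) (nat_lit 4) (nat_lit 313) (nat_lit 251) (nat_lit 156)) (XT.lf (nat_lit 0) (nat_lit 181116205385) (nat_lit 152) (nat_lit 90865772704) (nat_lit 0) (nat_lit 142871714532) (nat_lit 2) (nat_lit 5) (nat_lit 4) (nat_lit 4) (nat_lit 2) (nat_lit 4) (nat_lit 314) (nat_lit 251) (nat_lit 155))))))) (XT.nd (nat_lit 1014) (nat_lit 0) (nat_lit 0) (XT.nd (nat_lit 468) (nat_lit 0) (nat_lit 0)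 (XT.nd (nat_lit 234) (nat_lit 76) (nat_lit 0) (XT.nd (nat_lit 78) (nat_lit 0) (nat_lit 0) (XT.lf (nat_lit 0) (nat_lit 205239787427) (nat_lit 152) (nat_lit 74770706503) (nat_lit 0) (nat_lit 166993543407) (nat_lit 2) (nat_lit 5) (nat_lit 4) (nat_lit 4) (nat_lit 2) (nat_lit 4) (nat_lit 315) (nat_lit 251) (nat_lit 154)) (XT.nd (nat_lit 78) (nat_lit 0) (nat_lit 0) (XT.lf (nat_lit 0) (nat_lit 231292137196) (nat_lit 152) (nat_lit 57390094030) (nat_lit 0) (nat_lit 193044269873) (nat_lit 2) (nat_lit 5) (nat_lit 4) (nat_lit 4) (nat_lit 2) (nat_lit 4) (nat_lit 316) (nat_lit 251) (nat_lit 153)) (XT.lf (nat_lit 0) (nat_lit 259427638989) (nat_lit 152) (nat_lit 38620939063) (nat_lit 0) (nat_lit 221178268607) (nat_lit 2) (nat_lit 5) (nat_lit 4) (nat_lit 4) (nat_lit 2) (nat_lit 4) (nat_lit 317) (nat_lit 251) (nat_lit 152)))) (XT.nd (nat_lit 78) (nat_lit 76) (nat_lit 0) (XT.lf (nat_lit 0) (nat_lit 289813021703)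 (nat_lit 152) (nat_lit 18352016982) (nat_lit 0) (nat_lit 251562259601) (nat_lit 2) (nat_lit 5) (nat_lit 4) (nat_lit 4) (nat_lit 2) (nat_lit 4) (nat_lit 318) (nat_lit 251) (nat_lit 151)) (XT.nd (nat_lit 78) (nat_lit 0) (nat_lit 0) (XT.lf (nat_lit 0) (nat_lit 3723025141) (nat_lit 76) (nat_lit 318994860570) (nat_lit 76) (nat_lit 280742809838) (nat_lit 1) (nat_lit 4) (nat_lit 2) (nat_lit 5) (nat_lit 2) (nat_lit 4) (nat_lit 319) (nat_lit 251) (nat_lit 150)) (XT.lf (nat_lit 0) (nat_lit 28606172962) (nat_lit 76) (nat_lit 330149881852) (nat_lit 76) (nat_lit 291896637944) (nat_lit 1) (nat_lit 4) (nat_lit 2) (nat_lit 5) (nat_lit 2) (nat_lit 4) (nat_lit 320) (nat_lit 251) (nat_lit 149))))) (XT.nd (nat_lit 234) (nat_lit 0) (nat_lit 0) (XT.nd (nat_lit 78) (nat_lit 0) (nat_lit 0) (XT.lf (nat_lit 0) (nat_lit 55478497478) (nat_lit 76) (nat_lit 342197983029) (nat_lit 76) (nat_lit 303943634329) (nat_lit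 1) (nat_lit 4) (nat_lit 2) (nat_lit 5) (nat_lit 2) (nat_lit 4) (nat_lit 321) (nat_lit 251) (nat_lit 148)) (XT.nd (nat_lit 78) (nat_lit 0) (nat_lit 0) (XT.lf (nat_lit 0) (nat_lit 84499242095) (nat_lit 76) (nat_lit 355210560256) (nat_lit 76) (nat_lit 316955188599) (nat_lit 1) (nat_lit 4) (nat_lit 2) (nat_lit 5) (nat_lit 2) (nat_lit 4) (nat_lit 322) (nat_lit 251) (nat_lit 147)) (XT.lf (nat_lit 0) (nat_lit 115840381596) (nat_lit 76) (nat_lit 369264725101) (nat_lit 76) (nat_lit 331008406263) (nat_lit 1) (nat_lit 4) (nat_lit 2) (nat_lit 5) (nat_lit 2) (nat_lit 4) (nat_lit 323) (nat_lit 251) (nat_lit 146)))) (XT.nd (nat_lit 156) (nat_lit 0) (nat_lit 0) (XT.nd (nat_lit 78) (nat_lit 0) (nat_lit 0) (XT.lf (nat_lit 0) (nat_lit 149687641251) (nat_lit 76) (nat_lit 384443761505) (nat_lit 76) (nat_lit 346186565647) (nat_lit 1) (nat_lit 4) (nat_lit 2) (nat_lit 5) (nat_lit 2) (nat_lit 4) (nat_lit 324)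 (nat_lit 251) (nat_lit 145)) (XT.lf (nat_lit 0) (nat_lit 186241597414) (nat_lit 76) (nat_lit 400837619312) (nat_lit 76) (nat_lit 362579611399) (nat_lit 1) (nat_lit 4) (nat_lit 2) (nat_lit 5) (nat_lit 2) (nat_lit 4) (nat_lit 325) (nat_lit 251) (nat_lit 144))) (XT.nd (nat_lit 78) (nat_lit 0) (nat_lit 0) (XT.lf (nat_lit 0) (nat_lit 225718866122) (nat_lit 76) (nat_lit 418543447310) (nat_lit 76) (nat_lit 380284687494) (nat_lit 1) (nat_lit 4) (nat_lit 2) (nat_lit 5) (nat_lit 2) (nat_lit 4) (nat_lit 326) (nat_lit 251) (nat_lit 143)) (XT.lf (nat_lit 0) (nat_lit 268353386745) (nat_lit 76) (nat_lit 437666168924) (nat_lit 76) (nat_lit 399406712901) (nat_lit 1) (nat_lit 4) (nat_lit 2) (nat_lit 5) (nat_lit 2) (nat_lit 4) (nat_lit 327) (nat_lit 251) (nat_lit 142)))))) (XT.nd (nat_lit 468) (nat_lit 0) (nat_lit 0) (XT.nd (nat_lit 234) (nat_lit 0) (nat_lit 0) (XT.nd (nat_lit 78) (nat_lit 0) (nat_lit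 0) (XT.lf (nat_lit 0) (nat_lit 314397808293) (nat_lit 76) (nat_lit 458319103986) (nat_lit 76) (nat_lit 420059003327) (nat_lit 1) (nat_lit 4) (nat_lit 2) (nat_lit 5) (nat_lit 2) (nat_lit 4) (nat_lit 328) (nat_lit 251) (nat_lit 141)) (XT.nd (nat_lit 78) (nat_lit 0) (nat_lit 0) (XT.lf (nat_lit 0) (nat_lit 364124986599) (nat_lit 76) (nat_lit 480624640259) (nat_lit 76) (nat_lit 442363942715) (nat_lit 1) (nat_lit 4) (nat_lit 2) (nat_lit 5) (nat_lit 2) (nat_lit 4) (nat_lit 329) (nat_lit 251) (nat_lit 140)) (XT.lf (nat_lit 0) (nat_lit 417829601237) (nat_lit 76) (nat_lit 504714958698) (nat_lit 76) (nat_lit 466453708483) (nat_lit 1) (nat_lit 4) (nat_lit 2) (nat_lit 5) (nat_lit 2) (nat_lit 4) (nat_lit 330) (nat_lit 251) (nat_lit 139)))) (XT.nd (nat_lit 78) (nat_lit 0) (nat_lit 0) (XT.lf (nat_lit 0) (nat_lit 475829901775) (nat_lit 76) (nat_lit 530732816747) (nat_lit 76) (nat_lit 492471054799)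 (nat_lit 1) (nat_lit 4) (nat_lit 2) (nat_lit 5) (nat_lit 2) (nat_lit 4) (nat_lit 331) (nat_lit 251) (nat_lit 138)) (XT.nd (nat_lit 78) (nat_lit 0) (nat_lit 0) (XT.lf (nat_lit 0) (nat_lit 538469593699) (nat_lit 76) (nat_lit 558832394305) (nat_lit 76) (nat_lit 520570158530) (nat_lit 1) (nat_lit 4) (nat_lit 2) (nat_lit 5) (nat_lit 2) (nat_lit 4) (nat_lit 332) (nat_lit 251) (nat_lit 137)) (XT.lf (nat_lit 0) (nat_lit 606119875182) (nat_lit 76) (nat_lit 589180207387) (nat_lit 76) (nat_lit 550917532884) (nat_lit 1) (nat_lit 4) (nat_lit 2) (nat_lit 5) (nat_lit 2) (nat_lit 4) (nat_lit 333) (nat_lit 251) (nat_lit 136))))) (XT.nd (nat_lit 234) (nat_lit 0) (nat_lit 0) (XT.nd (nat_lit 78) (nat_lit 0) (nat_lit 0) (XT.lf (nat_lit 0) (nat_lit 679181636782) (nat_lit 76) (nat_lit 621956094885) (nat_lit 76) (nat_lit 583693014152) (nat_lit 1) (nat_lit 4) (nat_lit 2) (nat_lit 5) (nat_lit 2) (nat_lit 4)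 (nat_lit 334) (nat_lit 251) (nat_lit 135)) (XT.nd (nat_lit 78) (nat_lit 0) (nat_lit 0) (XT.lf (nat_lit 0) (nat_lit 758087837086) (nat_lit 76) (nat_lit 657354284281) (nat_lit 76) (nat_lit 619090827409) (nat_lit 1) (nat_lit 4) (nat_lit 2) (nat_lit 5) (nat_lit 2) (nat_lit 4) (nat_lit 335) (nat_lit 251) (nat_lit 134)) (XT.lf (nat_lit 0) (nat_lit 843306068391) (nat_lit 76) (nat_lit 695584542623) (nat_lit 76) (nat_lit 657320737475) (nat_lit 1) (nat_lit 4) (nat_lit 2) (nat_lit 5) (nat_lit 2) (nat_lit 4) (nat_lit 336) (nat_lit 251) (nat_lit 133)))) (XT.nd (nat_lit 30966) (nat_lit 0) (nat_lit 2964) (XT.nd (nat_lit 30888) (nat_lit 0) (nat_lit 2964) (XT.lf (nat_lit 0) (nat_lit 935341327625) (nat_lit 76) (nat_lit 736873419590) (nat_lit 76) (nat_lit 698609291964) (nat_lit 1) (nat_lit 4) (nat_lit 2) (nat_lit 5) (nat_lit 2) (nat_lit 4) (nat_lit 337) (nat_lit 251) (nat_lit 132)) (XT.lf (nat_lit 0)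 (nat_lit 2283008085) (nat_lit 0) (nat_lit 2283008085) (nat_lit 380) (nat_lit 807410902) (nat_lit 40) (nat_lit 5) (nat_lit 40) (nat_lit 3) (nat_lit 45) (nat_lit 3) (nat_lit 252) (nat_lit 252) (nat_lit 216))) (XT.nd (nat_lit 78) (nat_lit 0) (nat_lit 0) (XT.lf (nat_lit 0) (nat_lit 9507345696) (nat_lit 0) (nat_lit 515266378) (nat_lit 380) (nat_lit 1108684886) (nat_lit 40) (nat_lit 5) (nat_lit 40) (nat_lit 3) (nat_lit 45) (nat_lit 3) (nat_lit 253) (nat_lit 252) (nat_lit 215)) (XT.lf (nat_lit 76) (nat_lit 3340305004) (nat_lit 0) (nat_lit 7765366574) (nat_lit 456) (nat_lit 431465862) (nat_lit 41) (nat_lit 5) (nat_lit 40) (nat_lit 5) (nat_lit 46) (nat_lit 5) (nat_lit 254) (nat_lit 252) (nat_lit 214))))))))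
noncomputable def xc72 : XT := (XT.nd (nat_lit 1950) (nat_lit 684) (nat_lit 0) (XT.nd (nat_lit 936) (nat_lit 912) (nat_lit 0) (XT.nd (nat_lit 468) (nat_lit 760) (nat_lit 0) (XT.nd (nat_lit 234) (nat_lit 0) (nat_lit 76) (XT.nd (nat_lit 78) (nat_lit 0) (nat_lit 76) (XT.lf (nat_lit 0) (nat_lit 293483387) (nat_lit 456) (nat_lit 3233189707) (nat_lit 532) (nat_lit 8447802757) (nat_lit 34) (nat_lit 5) (nat_lit 40) (nat_lit 5) (nat_lit 41) (nat_lit 5) (nat_lit 255) (nat_lit 252) (nat_lit 213)) (XT.nd (nat_lit 78) (nat_lit 0) (nat_lit 0) (XT.lf (nat_lit 0) (nat_lit 1086573843) (nat_lit 456) (nat_lit 10277972424) (nat_lit 532) (nat_lit 1078952691) (nat_lit 35) (nat_lit 5) (nat_lit 41) (nat_lit 5) (nat_lit 42) (nat_lit 5) (nat_lit 256) (nat_lit 252) (nat_lit 212)) (XT.lf (nat_lit 0) (nat_lit 2081813826) (nat_lit 456) (nat_lit 4891273862) (nat_lit 532) (nat_lit 5966110624) (nat_lit 35) (nat_lit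 5) (nat_lit 41) (nat_lit 5) (nat_lit 42) (nat_lit 5) (nat_lit 257) (nat_lit 252) (nat_lit 211)))) (XT.nd (nat_lit 78) (nat_lit 0) (nat_lit 76) (XT.lf (nat_lit 76) (nat_lit 941593998) (nat_lit 0) (nat_lit 2197356890) (nat_lit 532) (nat_lit 10337252514) (nat_lit 36) (nat_lit 5) (nat_lit 35) (nat_lit 5) (nat_lit 42) (nat_lit 5) (nat_lit 258) (nat_lit 252) (nat_lit 210)) (XT.nd (nat_lit 78) (nat_lit 0) (nat_lit 0) (XT.lf (nat_lit 0) (nat_lit 4451112652) (nat_lit 456) (nat_lit 6635376528) (nat_lit 76) (nat_lit 2956258252) (nat_lit 36) (nat_lit 5) (nat_lit 42) (nat_lit 5) (nat_lit 37) (nat_lit 5) (nat_lit 259) (nat_lit 252) (nat_lit 209)) (XT.lf (nat_lit 0) (nat_lit 5890178512) (nat_lit 456) (nat_lit 353220662) (nat_lit 76) (nat_lit 8409660237) (nat_lit 36) (nat_lit 5) (nat_lit 42) (nat_lit 5) (nat_lit 37) (nat_lit 5) (nat_lit 260) (nat_lit 252) (nat_lit 208))))) (XT.nd (nat_lit 234) (nat_lit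 228) (nat_lit 0) (XT.nd (nat_lit 78) (nat_lit 228) (nat_lit 0) (XT.lf (nat_lit 0) (nat_lit 6739046679) (nat_lit 456) (nat_lit 834857336) (nat_lit 532) (nat_lit 7728113767) (nat_lit 30) (nat_lit 5) (nat_lit 36) (nat_lit 5) (nat_lit 37) (nat_lit 5) (nat_lit 261) (nat_lit 252) (nat_lit 207)) (XT.nd (nat_lit 78) (nat_lit 228) (nat_lit 0) (XT.lf (nat_lit 0) (nat_lit 9491864579) (nat_lit 532) (nat_lit 1735501972) (nat_lit 76) (nat_lit 4767733851) (nat_lit 30) (nat_lit 5) (nat_lit 37) (nat_lit 5) (nat_lit 31) (nat_lit 5) (nat_lit 262) (nat_lit 252) (nat_lit 206)) (XT.lf (nat_lit 0) (nat_lit 5881520690) (nat_lit 228) (nat_lit 5816381454) (nat_lit 304) (nat_lit 5035114183) (nat_lit 27) (nat_lit 5) (nat_lit 30) (nat_lit 5) (nat_lit 31) (nat_lit 5) (nat_lit 263) (nat_lit 252) (nat_lit 205)))) (XT.nd (nat_lit 78) (nat_lit 228) (nat_lit 0) (XT.lf (nat_lit 0) (nat_lit 14102666585) (nat_lit 304)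 (nat_lit 3352175110) (nat_lit 76) (nat_lit 73490532) (nat_lit 27) (nat_lit 5) (nat_lit 31) (nat_lit 5) (nat_lit 28) (nat_lit 5) (nat_lit 264) (nat_lit 252) (nat_lit 204)) (XT.nd (nat_lit 78) (nat_lit 76) (nat_lit 0) (XT.lf (nat_lit 0) (nat_lit 4808094972) (nat_lit 152) (nat_lit 12133333059) (nat_lit 228) (nat_lit 1426651481) (nat_lit 25) (nat_lit 5) (nat_lit 27) (nat_lit 5) (nat_lit 28) (nat_lit 5) (nat_lit 265) (nat_lit 252) (nat_lit 203)) (XT.lf (nat_lit 0) (nat_lit 765045450) (nat_lit 228) (nat_lit 5504973710) (nat_lit 76) (nat_lit 12998143097) (nat_lit 24) (nat_lit 5) (nat_lit 27) (nat_lit 5) (nat_lit 25) (nat_lit 5) (nat_lit 266) (nat_lit 252) (nat_lit 202)))))) (XT.nd (nat_lit 468) (nat_lit 380) (nat_lit 0) (XT.nd (nat_lit 234) (nat_lit 152) (nat_lit 0) (XT.nd (nat_lit 78) (nat_lit 152) (nat_lit 0) (XT.lf (nat_lit 0) (nat_lit 3115857004) (nat_lit 304) (nat_lit 16942053888) (nat_lit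 76) (nat_lit 174615320) (nat_lit 21) (nat_lit 5) (nat_lit 25) (nat_lit 5) (nat_lit 22) (nat_lit 5) (nat_lit 267) (nat_lit 252) (nat_lit 201)) (XT.nd (nat_lit 78) (nat_lit 152) (nat_lit 0) (XT.lf (nat_lit 0) (nat_lit 5950148704) (nat_lit 304) (nat_lit 8354163611) (nat_lit 76) (nat_lit 6946193259) (nat_lit 21) (nat_lit 5) (nat_lit 25) (nat_lit 5) (nat_lit 22) (nat_lit 5) (nat_lit 268) (nat_lit 252) (nat_lit 200)) (XT.lf (nat_lit 0) (nat_lit 941927644) (nat_lit 152) (nat_lit 8071661648) (nat_lit 228) (nat_lit 13336233686) (nat_lit 19) (nat_lit 5) (nat_lit 21) (nat_lit 5) (nat_lit 22) (nat_lit 5) (nat_lit 269) (nat_lit 252) (nat_lit 199)))) (XT.nd (nat_lit 78) (nat_lit 152) (nat_lit 0) (XT.lf (nat_lit 0) (nat_lit 11431522553) (nat_lit 152) (nat_lit 1099643942) (nat_lit 228) (nat_lit 10989279684) (nat_lit 19) (nat_lit 5) (nat_lit 21) (nat_lit 5) (nat_lit 22) (nat_lit 5) (nat_lit 270) (nat_lit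 252) (nat_lit 198)) (XT.nd (nat_lit 78) (nat_lit 152) (nat_lit 0) (XT.lf (nat_lit 0) (nat_lit 16466740119) (nat_lit 228) (nat_lit 2203878520) (nat_lit 76) (nat_lit 6103252371) (nat_lit 19) (nat_lit 5) (nat_lit 22) (nat_lit 5) (nat_lit 20) (nat_lit 5) (nat_lit 271) (nat_lit 252) (nat_lit 197)) (XT.lf (nat_lit 0) (nat_lit 8863851318) (nat_lit 152) (nat_lit 12078329052) (nat_lit 228) (nat_lit 5167460939) (nat_lit 17) (nat_lit 5) (nat_lit 19) (nat_lit 5) (nat_lit 20) (nat_lit 5) (nat_lit 272) (nat_lit 252) (nat_lit 196))))) (XT.nd (nat_lit 234) (nat_lit 228) (nat_lit 0) (XT.nd (nat_lit 78) (nat_lit 152) (nat_lit 0) (XT.lf (nat_lit 0) (nat_lit 20919954959) (nat_lit 152) (nat_lit 4899941601) (nat_lit 228) (nat_lit 1728905140) (nat_lit 17) (nat_lit 5) (nat_lit 19) (nat_lit 5) (nat_lit 20) (nat_lit 5) (nat_lit 273) (nat_lit 252) (nat_lit 195)) (XT.nd (nat_lit 78) (nat_lit 0) (nat_lit 0) (XT.lf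 (nat_lit 0) (nat_lit 2063718666) (nat_lit 152) (nat_lit 24144515967) (nat_lit 76) (nat_lit 2876838274) (nat_lit 15) (nat_lit 5) (nat_lit 17) (nat_lit 5) (nat_lit 16) (nat_lit 5) (nat_lit 274) (nat_lit 252) (nat_lit 194)) (XT.lf (nat_lit 0) (nat_lit 6364766184) (nat_lit 152) (nat_lit 13116241762) (nat_lit 76) (nat_lit 11235825528) (nat_lit 15) (nat_lit 5) (nat_lit 17) (nat_lit 5) (nat_lit 16) (nat_lit 5) (nat_lit 275) (nat_lit 252) (nat_lit 193)))) (XT.nd (nat_lit 156) (nat_lit 76) (nat_lit 0) (XT.nd (nat_lit 78) (nat_lit 152) (nat_lit 0) (XT.lf (nat_lit 0) (nat_lit 10996190389) (nat_lit 152) (nat_lit 1226179071) (nat_lit 76) (nat_lit 20257911776) (nat_lit 15) (nat_lit 5) (nat_lit 17) (nat_lit 5) (nat_lit 16) (nat_lit 5) (nat_lit 276) (nat_lit 252) (nat_lit 192)) (XT.lf (nat_lit 0) (nat_lit 12206763484) (nat_lit 152) (nat_lit 4072246228) (nat_lit 228) (nat_lit 18083370703) (nat_lit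 13) (nat_lit 5) (nat_lit 15) (nat_lit 5) (nat_lit 16) (nat_lit 5) (nat_lit 277) (nat_lit 252) (nat_lit 191))) (XT.nd (nat_lit 78) (nat_lit 76) (nat_lit 0) (XT.lf (nat_lit 0) (nat_lit 22120258117) (nat_lit 228) (nat_lit 9742259096) (nat_lit 76) (nat_lit 4521708712) (nat_lit 13) (nat_lit 5) (nat_lit 16) (nat_lit 5) (nat_lit 14) (nat_lit 4) (nat_lit 278) (nat_lit 252) (nat_lit 190)) (XT.lf (nat_lit 0) (nat_lit 3726918948) (nat_lit 76) (nat_lit 24885860091) (nat_lit 152) (nat_lit 9940361740) (nat_lit 12) (nat_lit 5) (nat_lit 13) (nat_lit 5) (nat_lit 14) (nat_lit 4) (nat_lit 279) (nat_lit 252) (nat_lit 189))))))) (XT.nd (nat_lit 936) (nat_lit 228) (nat_lit 0) (XT.nd (nat_lit 468) (nat_lit 152) (nat_lit 0) (XT.nd (nat_lit 234) (nat_lit 76) (nat_lit 0) (XT.nd (nat_lit 78) (nat_lit 228) (nat_lit 0) (XT.lf (nat_lit 0) (nat_lit 18810224228) (nat_lit 76) (nat_lit 17069842550) (nat_lit 152) (nat_lit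 4995109421) (nat_lit 12) (nat_lit 5) (nat_lit 13) (nat_lit 5) (nat_lit 14) (nat_lit 4) (nat_lit 280) (nat_lit 252) (nat_lit 188)) (XT.nd (nat_lit 78) (nat_lit 152) (nat_lit 0) (XT.lf (nat_lit 0) (nat_lit 317979481) (nat_lit 152) (nat_lit 8307844474) (nat_lit 76) (nat_lit 34757355590) (nat_lit 11) (nat_lit 5) (nat_lit 13) (nat_lit 5) (nat_lit 12) (nat_lit 5) (nat_lit 281) (nat_lit 252) (nat_lit 187)) (XT.lf (nat_lit 0) (nat_lit 5957996693) (nat_lit 228) (nat_lit 39346759473) (nat_lit 76) (nat_lit 762976841) (nat_lit 9) (nat_lit 5) (nat_lit 12) (nat_lit 5) (nat_lit 10) (nat_lit 4) (nat_lit 282) (nat_lit 252) (nat_lit 186)))) (XT.nd (nat_lit 78) (nat_lit 76) (nat_lit 0) (XT.lf (nat_lit 0) (nat_lit 12496820793) (nat_lit 228) (nat_lit 25770006434) (nat_lit 76) (nat_lit 10664441973) (nat_lit 9) (nat_lit 5) (nat_lit 12) (nat_lit 5) (nat_lit 10) (nat_lit 4) (nat_lit 283) (nat_lit 252) (nat_lit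 185)) (XT.nd (nat_lit 78) (nat_lit 76) (nat_lit 0) (XT.lf (nat_lit 0) (nat_lit 19549960927) (nat_lit 228) (nat_lit 11121698186) (nat_lit 76) (nat_lit 21352957268) (nat_lit 9) (nat_lit 5) (nat_lit 12) (nat_lit 5) (nat_lit 10) (nat_lit 4) (nat_lit 284) (nat_lit 252) (nat_lit 184)) (XT.lf (nat_lit 0) (nat_lit 4931672280) (nat_lit 76) (nat_lit 22346148038) (nat_lit 152) (nat_lit 28078796634) (nat_lit 8) (nat_lit 5) (nat_lit 9) (nat_lit 5) (nat_lit 10) (nat_lit 4) (nat_lit 285) (nat_lit 252) (nat_lit 183))))) (XT.nd (nat_lit 234) (nat_lit 152) (nat_lit 0) (XT.nd (nat_lit 78) (nat_lit 0) (nat_lit 0) (XT.lf (nat_lit 0) (nat_lit 22888650444) (nat_lit 76) (nat_lit 13031492471) (nat_lit 152) (nat_lit 23011357245) (nat_lit 8) (nat_lit 5) (nat_lit 9) (nat_lit 5) (nat_lit 10) (nat_lit 4) (nat_lit 286) (nat_lit 252) (nat_lit 182)) (XT.nd (nat_lit 78) (nat_lit 0) (nat_lit 0) (XT.lf (nat_lit 0) (nat_lit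 42269999109) (nat_lit 76) (nat_lit 2976581394) (nat_lit 152) (nat_lit 17546394956) (nat_lit 8) (nat_lit 5) (nat_lit 9) (nat_lit 5) (nat_lit 10) (nat_lit 4) (nat_lit 287) (nat_lit 252) (nat_lit 181)) (XT.lf (nat_lit 0) (nat_lit 55501871034) (nat_lit 152) (nat_lit 3962825126) (nat_lit 0) (nat_lit 7484071889) (nat_lit 8) (nat_lit 5) (nat_lit 10) (nat_lit 4) (nat_lit 8) (nat_lit 4) (nat_lit 288) (nat_lit 252) (nat_lit 180)))) (XT.nd (nat_lit 78) (nat_lit 76) (nat_lit 0) (XT.lf (nat_lit 0) (nat_lit 14562432987) (nat_lit 76) (nat_lit 52436357551) (nat_lit 76) (nat_lit 4404554000) (nat_lit 7) (nat_lit 4) (nat_lit 8) (nat_lit 5) (nat_lit 8) (nat_lit 4) (nat_lit 289) (nat_lit 252) (nat_lit 179)) (XT.nd (nat_lit 78) (nat_lit 0) (nat_lit 0) (XT.lf (nat_lit 0) (nat_lit 3145911402) (nat_lit 152) (nat_lit 41501274875) (nat_lit 76) (nat_lit 31552566668) (nat_lit 6) (nat_lit 5) (nat_lit 8) (nat_lit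 5) (nat_lit 7) (nat_lit 4) (nat_lit 290) (nat_lit 252) (nat_lit 178)) (XT.lf (nat_lit 0) (nat_lit 11056625748) (nat_lit 152) (nat_lit 25058995554) (nat_lit 76) (nat_lit 45255580093) (nat_lit 6) (nat_lit 5) (nat_lit 8) (nat_lit 5) (nat_lit 7) (nat_lit 4) (nat_lit 291) (nat_lit 252) (nat_lit 177)))))) (XT.nd (nat_lit 468) (nat_lit 152) (nat_lit 0) (XT.nd (nat_lit 234) (nat_lit 0) (nat_lit 0) (XT.nd (nat_lit 78) (nat_lit 76) (nat_lit 0) (XT.lf (nat_lit 0) (nat_lit 19594800974) (nat_lit 152) (nat_lit 7310708232) (nat_lit 76) (nat_lit 60051300674) (nat_lit 6) (nat_lit 5) (nat_lit 8) (nat_lit 5) (nat_lit 7) (nat_lit 4) (nat_lit 292) (nat_lit 252) (nat_lit 176)) (XT.nd (nat_lit 78) (nat_lit 0) (nat_lit 0) (XT.lf (nat_lit 0) (nat_lit 12472696943) (nat_lit 76) (nat_lit 16638305392) (nat_lit 152) (nat_lit 63854678474) (nat_lit 5) (nat_lit 5) (nat_lit 6) (nat_lit 5) (nat_lit 7) (nat_lit 4) (nat_lit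 293) (nat_lit 252) (nat_lit 175)) (XT.lf (nat_lit 0) (nat_lit 34246080786) (nat_lit 76) (nat_lit 5337476841) (nat_lit 152) (nat_lit 59856109841) (nat_lit 5) (nat_lit 5) (nat_lit 6) (nat_lit 5) (nat_lit 7) (nat_lit 4) (nat_lit 294) (nat_lit 252) (nat_lit 174)))) (XT.nd (nat_lit 78) (nat_lit 0) (nat_lit 0) (XT.lf (nat_lit 0) (nat_lit 51054525941) (nat_lit 152) (nat_lit 48843519628) (nat_lit 0) (nat_lit 6520688691) (nat_lit 5) (nat_lit 5) (nat_lit 7) (nat_lit 4) (nat_lit 5) (nat_lit 4) (nat_lit 295) (nat_lit 252) (nat_lit 173)) (XT.nd (nat_lit 78) (nat_lit 0) (nat_lit 0) (XT.lf (nat_lit 0) (nat_lit 63577591769) (nat_lit 152) (nat_lit 31331601803) (nat_lit 0) (nat_lit 19036188375) (nat_lit 5) (nat_lit 5) (nat_lit 7) (nat_lit 4) (nat_lit 5) (nat_lit 4) (nat_lit 296) (nat_lit 252) (nat_lit 172)) (XT.lf (nat_lit 0) (nat_lit 77098599426) (nat_lit 152) (nat_lit 12425692433) (nat_lit 0) (nat_lit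 32550190343) (nat_lit 5) (nat_lit 5) (nat_lit 7) (nat_lit 4) (nat_lit 5) (nat_lit 4) (nat_lit 297) (nat_lit 252) (nat_lit 171))))) (XT.nd (nat_lit 234) (nat_lit 76) (nat_lit 0) (XT.nd (nat_lit 78) (nat_lit 0) (nat_lit 0) (XT.lf (nat_lit 0) (nat_lit 8406784929) (nat_lit 76) (nat_lit 83493071853) (nat_lit 76) (nat_lit 38938176020) (nat_lit 4) (nat_lit 4) (nat_lit 5) (nat_lit 5) (nat_lit 5) (nat_lit 4) (nat_lit 298) (nat_lit 252) (nat_lit 170)) (XT.nd (nat_lit 78) (nat_lit 0) (nat_lit 0) (XT.lf (nat_lit 0) (nat_lit 31606237628) (nat_lit 76) (nat_lit 76615219875) (nat_lit 76) (nat_lit 32054317792) (nat_lit 4) (nat_lit 4) (nat_lit 5) (nat_lit 5) (nat_lit 5) (nat_lit 4) (nat_lit 299) (nat_lit 252) (nat_lit 169)) (XT.lf (nat_lit 0) (nat_lit 56655828958) (nat_lit 76) (nat_lit 69189718736) (nat_lit 76) (nat_lit 24623255311) (nat_lit 4) (nat_lit 4) (nat_lit 5) (nat_lit 5) (nat_lit 5) (nat_lit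 4) (nat_lit 300) (nat_lit 252) (nat_lit 168)))) (XT.nd (nat_lit 156) (nat_lit 76) (nat_lit 0) (XT.nd (nat_lit 78) (nat_lit 0) (nat_lit 0) (XT.lf (nat_lit 0) (nat_lit 83704000943) (nat_lit 76) (nat_lit 61172565466) (nat_lit 76) (nat_lit 16600952651) (nat_lit 4) (nat_lit 4) (nat_lit 5) (nat_lit 5) (nat_lit 5) (nat_lit 4) (nat_lit 301) (nat_lit 252) (nat_lit 167)) (XT.lf (nat_lit 0) (nat_lit 112911039044) (nat_lit 76) (nat_lit 52516251010) (nat_lit 76) (nat_lit 7939870240) (nat_lit 4) (nat_lit 4) (nat_lit 5) (nat_lit 5) (nat_lit 5) (nat_lit 4) (nat_lit 302) (nat_lit 252) (nat_lit 166))) (XT.nd (nat_lit 78) (nat_lit 0) (nat_lit 0) (XT.lf (nat_lit 0) (nat_lit 1340717069) (nat_lit 152) (nat_lit 41792104038) (nat_lit 76) (nat_lit 143072647358) (nat_lit 3) (nat_lit 5) (nat_lit 5) (nat_lit 5) (nat_lit 4) (nat_lit 4) (nat_lit 303) (nat_lit 252) (nat_lit 165)) (XT.lf (nat_lit 0) (nat_lit 10932345152)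 (nat_lit 152) (nat_lit 21845605378) (nat_lit 76) (nat_lit 167276592668) (nat_lit 3) (nat_lit 5) (nat_lit 5) (nat_lit 5) (nat_lit 4) (nat_lit 4) (nat_lit 304) (nat_lit 252) (nat_lit 164))))))))
noncomputable def xc73 : XT := (XT.nd (nat_lit 1950) (nat_lit 0) (nat_lit 0) (XT.nd (nat_lit 936) (nat_lit 76) (nat_lit 0) (XT.nd (nat_lit 468) (nat_lit 0) (nat_lit 0) (XT.nd (nat_lit 234) (nat_lit 0) (nat_lit 0) (XT.nd (nat_lit 78) (nat_lit 76) (nat_lit 0) (XT.lf (nat_lit 0) (nat_lit 21289037752) (nat_lit 152) (nat_lit 307469726) (nat_lit 76) (nat_lit 193415221930) (nat_lit 3) (nat_lit 5) (nat_lit 5) (nat_lit 5) (nat_lit 4) (nat_lit 4) (nat_lit 305) (nat_lit 252) (nat_lit 163)) (XT.nd (nat_lit 78) (nat_lit 0) (nat_lit 0) (XT.lf (nat_lit 0) (nat_lit 24158439289) (nat_lit 76) (nat_lit 8894739618) (nat_lit 152) (nat_lit 198066002482) (nat_lit 2) (nat_lit 5) (nat_lit 3) (nat_lit 5) (nat_lit 4) (nat_lit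 4) (nat_lit 306) (nat_lit 252) (nat_lit 162)) (XT.lf (nat_lit 0) (nat_lit 45881002941) (nat_lit 152) (nat_lit 198035476703) (nat_lit 0) (nat_lit 4588949396) (nat_lit 2) (nat_lit 5) (nat_lit 4) (nat_lit 4) (nat_lit 2) (nat_lit 4) (nat_lit 307) (nat_lit 252) (nat_lit 161)))) (XT.nd (nat_lit 78) (nat_lit 0) (nat_lit 0) (XT.lf (nat_lit 0) (nat_lit 59964167608) (nat_lit 152) (nat_lit 188630751077) (nat_lit 0) (nat_lit 18669332007) (nat_lit 2) (nat_lit 5) (nat_lit 4) (nat_lit 4) (nat_lit 2) (nat_lit 4) (nat_lit 308) (nat_lit 252) (nat_lit 160)) (XT.nd (nat_lit 78) (nat_lit 0) (nat_lit 0) (XT.lf (nat_lit 0) (nat_lit 75172209996) (nat_lit 152) (nat_lit 178476914816) (nat_lit 0) (nat_lit 33874798418) (nat_lit 2) (nat_lit 5) (nat_lit 4) (nat_lit 4) (nat_lit 2) (nat_lit 4) (nat_lit 309) (nat_lit 252) (nat_lit 159)) (XT.lf (nat_lit 0) (nat_lit 91595251839) (nat_lit 152) (nat_lit 167513797036)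 (nat_lit 0) (nat_lit 50295455097) (nat_lit 2) (nat_lit 5) (nat_lit 4) (nat_lit 4) (nat_lit 2) (nat_lit 4) (nat_lit 310) (nat_lit 252) (nat_lit 158))))) (XT.nd (nat_lit 234) (nat_lit 0) (nat_lit 0) (XT.nd (nat_lit 78) (nat_lit 0) (nat_lit 0) (XT.lf (nat_lit 0) (nat_lit 109330614867) (nat_lit 152) (nat_lit 155676431115) (nat_lit 0) (nat_lit 68028609639) (nat_lit 2) (nat_lit 5) (nat_lit 4) (nat_lit 4) (nat_lit 2) (nat_lit 4) (nat_lit 311) (nat_lit 252) (nat_lit 157)) (XT.nd (nat_lit 78) (nat_lit 0) (nat_lit 0) (XT.lf (nat_lit 0) (nat_lit 128483397525) (nat_lit 152) (nat_lit 142894669698) (nat_lit 0) (nat_lit 87179347404) (nat_lit 2) (nat_lit 5) (nat_lit 4) (nat_lit 4) (nat_lit 2) (nat_lit 4) (nat_lit 312) (nat_lit 252) (nat_lit 156)) (XT.lf (nat_lit 0) (nat_lit 149167097787) (nat_lit 152) (nat_lit 129092769015) (nat_lit 0) (nat_lit 107861154245) (nat_lit 2) (nat_lit 5) (nat_lit 4) (nat_lit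 4) (nat_lit 2) (nat_lit 4) (nat_lit 313) (nat_lit 252) (nat_lit 155)))) (XT.nd (nat_lit 78) (nat_lit 0) (nat_lit 0) (XT.lf (nat_lit 0) (nat_lit 171504285727) (nat_lit 152) (nat_lit 114188940024) (nat_lit 0) (nat_lit 130196589018) (nat_lit 2) (nat_lit 5) (nat_lit 4) (nat_lit 4) (nat_lit 2) (nat_lit 4) (nat_lit 314) (nat_lit 252) (nat_lit 154)) (XT.nd (nat_lit 78) (nat_lit 0) (nat_lit 0) (XT.lf (nat_lit 0) (nat_lit 195627329867) (nat_lit 152) (nat_lit 98094863738) (nat_lit 0) (nat_lit 154318009856) (nat_lit 2) (nat_lit 5) (nat_lit 4) (nat_lit 4) (nat_lit 2) (nat_lit 4) (nat_lit 315) (nat_lit 252) (nat_lit 153)) (XT.lf (nat_lit 0) (nat_lit 221679181580) (nat_lit 152) (nat_lit 80715167854) (nat_lit 0) (nat_lit 180368358510) (nat_lit 2) (nat_lit 5) (nat_lit 4) (nat_lit 4) (nat_lit 2) (nat_lit 4) (nat_lit 316) (nat_lit 252) (nat_lit 152)))))) (XT.nd (nat_lit 468) (nat_lit 0) (nat_lit 0)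 (XT.nd (nat_lit 234) (nat_lit 76) (nat_lit 0) (XT.nd (nat_lit 78) (nat_lit 0) (nat_lit 0) (XT.lf (nat_lit 0) (nat_lit 249814222208) (nat_lit 152) (nat_lit 61946861581) (nat_lit 0) (nat_lit 208502007418) (nat_lit 2) (nat_lit 5) (nat_lit 4) (nat_lit 4) (nat_lit 2) (nat_lit 4) (nat_lit 317) (nat_lit 252) (nat_lit 151)) (XT.nd (nat_lit 78) (nat_lit 0) (nat_lit 0) (XT.lf (nat_lit 0) (nat_lit 280199177918) (nat_lit 152) (nat_lit 41678725326) (nat_lit 0) (nat_lit 238885674498) (nat_lit 2) (nat_lit 5) (nat_lit 4) (nat_lit 4) (nat_lit 2) (nat_lit 4) (nat_lit 318) (nat_lit 252) (nat_lit 150)) (XT.lf (nat_lit 0) (nat_lit 313014107708) (nat_lit 152) (nat_lit 19790651616) (nat_lit 0) (nat_lit 271699411112) (nat_lit 2) (nat_lit 5) (nat_lit 4) (nat_lit 4) (nat_lit 2) (nat_lit 4) (nat_lit 319) (nat_lit 252) (nat_lit 149)))) (XT.nd (nat_lit 78) (nat_lit 0) (nat_lit 0) (XT.lf (nat_lit 0) (nat_lit 4049646365)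 (nat_lit 76) (nat_lit 344501218148) (nat_lit 76) (nat_lit 303185416760) (nat_lit 1) (nat_lit 4) (nat_lit 2) (nat_lit 5) (nat_lit 2) (nat_lit 4) (nat_lit 320) (nat_lit 252) (nat_lit 148)) (XT.nd (nat_lit 78) (nat_lit 0) (nat_lit 0) (XT.lf (nat_lit 0) (nat_lit 30921314217) (nat_lit 76) (nat_lit 356549621227) (nat_lit 76) (nat_lit 315232796882) (nat_lit 1) (nat_lit 4) (nat_lit 2) (nat_lit 5) (nat_lit 2) (nat_lit 4) (nat_lit 321) (nat_lit 252) (nat_lit 147)) (XT.lf (nat_lit 0) (nat_lit 59941450813) (nat_lit 76) (nat_lit 369562477992) (nat_lit 76) (nat_lit 328244706466) (nat_lit 1) (nat_lit 4) (nat_lit 2) (nat_lit 5) (nat_lit 2) (nat_lit 4) (nat_lit 322) (nat_lit 252) (nat_lit 146))))) (XT.nd (nat_lit 234) (nat_lit 0) (nat_lit 0) (XT.nd (nat_lit 78) (nat_lit 0) (nat_lit 0) (XT.lf (nat_lit 0) (nat_lit 91282027330) (nat_lit 76) (nat_lit 383616901670) (nat_lit 76) (nat_lit 342298253124) (nat_lit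 1) (nat_lit 4) (nat_lit 2) (nat_lit 5) (nat_lit 2) (nat_lit 4) (nat_lit 323) (nat_lit 252) (nat_lit 145)) (XT.nd (nat_lit 78) (nat_lit 0) (nat_lit 0) (XT.lf (nat_lit 0) (nat_lit 125128765704) (nat_lit 76) (nat_lit 398796177733) (nat_lit 76) (nat_lit 357476717131) (nat_lit 1) (nat_lit 4) (nat_lit 2) (nat_lit 5) (nat_lit 2) (nat_lit 4) (nat_lit 324) (nat_lit 252) (nat_lit 144)) (XT.lf (nat_lit 0) (nat_lit 161682239200) (nat_lit 76) (nat_lit 415190257447) (nat_lit 76) (nat_lit 373870044942) (nat_lit 1) (nat_lit 4) (nat_lit 2) (nat_lit 5) (nat_lit 2) (nat_lit 4) (nat_lit 325) (nat_lit 252) (nat_lit 143)))) (XT.nd (nat_lit 156) (nat_lit 0) (nat_lit 0) (XT.nd (nat_lit 78) (nat_lit 0) (nat_lit 0) (XT.lf (nat_lit 0) (nat_lit 201159060993) (nat_lit 76) (nat_lit 432896290915) (nat_lit 76) (nat_lit 391575382203) (nat_lit 1) (nat_lit 4) (nat_lit 2) (nat_lit 5) (nat_lit 2) (nat_lit 4) (nat_lit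 326) (nat_lit 252) (nat_lit 142)) (XT.lf (nat_lit 0) (nat_lit 243793167806) (nat_lit 76) (nat_lit 452019202778) (nat_lit 76) (nat_lit 410697649430) (nat_lit 1) (nat_lit 4) (nat_lit 2) (nat_lit 5) (nat_lit 2) (nat_lit 4) (nat_lit 327) (nat_lit 252) (nat_lit 141))) (XT.nd (nat_lit 78) (nat_lit 0) (nat_lit 0) (XT.lf (nat_lit 0) (nat_lit 289837206197) (nat_lit 76) (nat_lit 472672313996) (nat_lit 76) (nat_lit 431350163764) (nat_lit 1) (nat_lit 4) (nat_lit 2) (nat_lit 5) (nat_lit 2) (nat_lit 4) (nat_lit 328) (nat_lit 252) (nat_lit 140)) (XT.lf (nat_lit 0) (nat_lit 339564029728) (nat_lit 76) (nat_lit 494978013377) (nat_lit 76) (nat_lit 453655310474) (nat_lit 1) (nat_lit 4) (nat_lit 2) (nat_lit 5) (nat_lit 2) (nat_lit 4) (nat_lit 329) (nat_lit 252) (nat_lit 139))))))) (XT.nd (nat_lit 31824) (nat_lit 0) (nat_lit 1520) (XT.nd (nat_lit 468) (nat_lit 0) (nat_lit 0) (XT.nd (nat_lit 234) (nat_lit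 0) (nat_lit 0) (XT.nd (nat_lit 78) (nat_lit 0) (nat_lit 0) (XT.lf (nat_lit 0) (nat_lit 393268315870) (nat_lit 76) (nat_lit 519068482843) (nat_lit 76) (nat_lit 477745268206) (nat_lit 1) (nat_lit 4) (nat_lit 2) (nat_lit 5) (nat_lit 2) (nat_lit 4) (nat_lit 330) (nat_lit 252) (nat_lit 138)) (XT.nd (nat_lit 78) (nat_lit 0) (nat_lit 0) (XT.lf (nat_lit 0) (nat_lit 451268312246) (nat_lit 76) (nat_lit 545086480731) (nat_lit 76) (nat_lit 503762792268) (nat_lit 1) (nat_lit 4) (nat_lit 2) (nat_lit 5) (nat_lit 2) (nat_lit 4) (nat_lit 331) (nat_lit 252) (nat_lit 137)) (XT.lf (nat_lit 0) (nat_lit 513907722538) (nat_lit 76) (nat_lit 573186187769) (nat_lit 76) (nat_lit 531862060578) (nat_lit 1) (nat_lit 4) (nat_lit 2) (nat_lit 5) (nat_lit 2) (nat_lit 4) (nat_lit 332) (nat_lit 252) (nat_lit 136)))) (XT.nd (nat_lit 78) (nat_lit 0) (nat_lit 0) (XT.lf (nat_lit 0) (nat_lit 581557743251) (nat_lit 76) (nat_lit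 603534120740) (nat_lit 76) (nat_lit 562209587319) (nat_lit 1) (nat_lit 4) (nat_lit 2) (nat_lit 5) (nat_lit 2) (nat_lit 4) (nat_lit 333) (nat_lit 252) (nat_lit 135)) (XT.nd (nat_lit 78) (nat_lit 0) (nat_lit 0) (XT.lf (nat_lit 0) (nat_lit 654619263397) (nat_lit 76) (nat_lit 636310119247) (nat_lit 76) (nat_lit 594985209687) (nat_lit 1) (nat_lit 4) (nat_lit 2) (nat_lit 5) (nat_lit 2) (nat_lit 4) (nat_lit 334) (nat_lit 252) (nat_lit 134)) (XT.lf (nat_lit 0) (nat_lit 733525240133) (nat_lit 76) (nat_lit 671708411429) (nat_lit 76) (nat_lit 630383153592) (nat_lit 1) (nat_lit 4) (nat_lit 2) (nat_lit 5) (nat_lit 2) (nat_lit 4) (nat_lit 335) (nat_lit 252) (nat_lit 133))))) (XT.nd (nat_lit 31122) (nat_lit 0) (nat_lit 2508) (XT.nd (nat_lit 78) (nat_lit 0) (nat_lit 0) (XT.lf (nat_lit 0) (nat_lit 818743264430) (nat_lit 76) (nat_lit 709938764943) (nat_lit 76) (nat_lit 668613184627) (nat_lit 1) (nat_lit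 4) (nat_lit 2) (nat_lit 5) (nat_lit 2) (nat_lit 4) (nat_lit 336) (nat_lit 252) (nat_lit 132)) (XT.nd (nat_lit 30966) (nat_lit 0) (nat_lit 2964) (XT.lf (nat_lit 0) (nat_lit 910778331990) (nat_lit 76) (nat_lit 751227730032) (nat_lit 76) (nat_lit 709901851126) (nat_lit 1) (nat_lit 4) (nat_lit 2) (nat_lit 5) (nat_lit 2) (nat_lit 4) (nat_lit 337) (nat_lit 252) (nat_lit 131)) (XT.lf (nat_lit 0) (nat_lit 2721981232) (nat_lit 0) (nat_lit 2721981232) (nat_lit 380) (nat_lit 315000049) (nat_lit 40) (nat_lit 5) (nat_lit 40) (nat_lit 3) (nat_lit 45) (nat_lit 3) (nat_lit 253) (nat_lit 253) (nat_lit 214)))) (XT.nd (nat_lit 78) (nat_lit 456) (nat_lit 0) (XT.lf (nat_lit 0) (nat_lit 10742623166) (nat_lit 0) (nat_lit 1031177503) (nat_lit 380) (nat_lit 165891296) (nat_lit 40) (nat_lit 5) (nat_lit 40) (nat_lit 3) (nat_lit 45) (nat_lit 3) (nat_lit 254) (nat_lit 253) (nat_lit 213)) (XT.nd (nat_lit 78) (nat_lit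 0) (nat_lit 0) (XT.lf (nat_lit 0) (nat_lit 467452374) (nat_lit 456) (nat_lit 8234337046) (nat_lit 532) (nat_lit 3681125735) (nat_lit 34) (nat_lit 5) (nat_lit 40) (nat_lit 5) (nat_lit 41) (nat_lit 5) (nat_lit 255) (nat_lit 253) (nat_lit 212)) (XT.lf (nat_lit 0) (nat_lit 1159670523) (nat_lit 456) (nat_lit 2929775365) (nat_lit 532) (nat_lit 8770682630) (nat_lit 34) (nat_lit 5) (nat_lit 40) (nat_lit 5) (nat_lit 41) (nat_lit 5) (nat_lit 256) (nat_lit 253) (nat_lit 211)))))) (XT.nd (nat_lit 468) (nat_lit 684) (nat_lit 0) (XT.nd (nat_lit 234) (nat_lit 380) (nat_lit 0) (XT.nd (nat_lit 78) (nat_lit 0) (nat_lit 0) (XT.lf (nat_lit 0) (nat_lit 1961053732) (nat_lit 456) (nat_lit 10478459621) (nat_lit 532) (nat_lit 931934609) (nat_lit 35) (nat_lit 5) (nat_lit 41) (nat_lit 5) (nat_lit 42) (nat_lit 5) (nat_lit 257) (nat_lit 253) (nat_lit 210)) (XT.nd (nat_lit 78) (nat_lit 0) (nat_lit 0) (XT.lf (nat_lit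 0) (nat_lit 2977575582) (nat_lit 456) (nat_lit 4706880773) (nat_lit 532) (nat_lit 6227349198) (nat_lit 35) (nat_lit 5) (nat_lit 41) (nat_lit 5) (nat_lit 42) (nat_lit 5) (nat_lit 258) (nat_lit 253) (nat_lit 209)) (XT.lf (nat_lit 76) (nat_lit 1578041959) (nat_lit 0) (nat_lit 2500720561) (nat_lit 532) (nat_lit 10416560683) (nat_lit 36) (nat_lit 5) (nat_lit 35) (nat_lit 5) (nat_lit 42) (nat_lit 5) (nat_lit 259) (nat_lit 253) (nat_lit 208)))) (XT.nd (nat_lit 78) (nat_lit 456) (nat_lit 0) (XT.lf (nat_lit 0) (nat_lit 5442041828) (nat_lit 456) (nat_lit 6589201931) (nat_lit 76) (nat_lit 3080542897) (nat_lit 36) (nat_lit 5) (nat_lit 42) (nat_lit 5) (nat_lit 37) (nat_lit 5) (nat_lit 260) (nat_lit 253) (nat_lit 207)) (XT.nd (nat_lit 78) (nat_lit 0) (nat_lit 0) (XT.lf (nat_lit 0) (nat_lit 160830717) (nat_lit 456) (nat_lit 6792245025) (nat_lit 532) (nat_lit 8821566603) (nat_lit 30) (nat_lit 5) (nat_lit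 36) (nat_lit 5) (nat_lit 37) (nat_lit 5) (nat_lit 261) (nat_lit 253) (nat_lit 206)) (XT.lf (nat_lit 0) (nat_lit 7798908381) (nat_lit 456) (nat_lit 937704833) (nat_lit 532) (nat_lit 7741941516) (nat_lit 30) (nat_lit 5) (nat_lit 36) (nat_lit 5) (nat_lit 37) (nat_lit 5) (nat_lit 262) (nat_lit 253) (nat_lit 205))))) (XT.nd (nat_lit 234) (nat_lit 456) (nat_lit 0) (XT.nd (nat_lit 78) (nat_lit 228) (nat_lit 0) (XT.lf (nat_lit 0) (nat_lit 10765963430) (nat_lit 532) (nat_lit 1347277630) (nat_lit 76) (nat_lit 5117434877) (nat_lit 30) (nat_lit 5) (nat_lit 37) (nat_lit 5) (nat_lit 31) (nat_lit 5) (nat_lit 263) (nat_lit 253) (nat_lit 204)) (XT.nd (nat_lit 78) (nat_lit 0) (nat_lit 0) (XT.lf (nat_lit 0) (nat_lit 6865763440) (nat_lit 228) (nat_lit 6256945958) (nat_lit 304) (nat_lit 4907189003) (nat_lit 27) (nat_lit 5) (nat_lit 30) (nat_lit 5) (nat_lit 31) (nat_lit 5) (nat_lit 264) (nat_lit 253) (nat_lit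 203)) (XT.lf (nat_lit 0) (nat_lit 15684185676) (nat_lit 304) (nat_lit 3106566541) (nat_lit 76) (nat_lit 101136549) (nat_lit 27) (nat_lit 5) (nat_lit 31) (nat_lit 5) (nat_lit 28) (nat_lit 5) (nat_lit 265) (nat_lit 253) (nat_lit 202)))) (XT.nd (nat_lit 156) (nat_lit 228) (nat_lit 0) (XT.nd (nat_lit 78) (nat_lit 76) (nat_lit 0) (XT.lf (nat_lit 0) (nat_lit 5693517994) (nat_lit 152) (nat_lit 13034995500) (nat_lit 228) (nat_lit 1072206257) (nat_lit 25) (nat_lit 5) (nat_lit 27) (nat_lit 5) (nat_lit 28) (nat_lit 5) (nat_lit 266) (nat_lit 253) (nat_lit 201)) (XT.lf (nat_lit 0) (nat_lit 1238413166) (nat_lit 228) (nat_lit 5458045449) (nat_lit 76) (nat_lit 14078242117) (nat_lit 24) (nat_lit 5) (nat_lit 27) (nat_lit 5) (nat_lit 25) (nat_lit 5) (nat_lit 267) (nat_lit 253) (nat_lit 200))) (XT.nd (nat_lit 78) (nat_lit 0) (nat_lit 0) (XT.lf (nat_lit 0) (nat_lit 3760152928) (nat_lit 304) (nat_lit 17791157751)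 (nat_lit 76) (nat_lit 266417868) (nat_lit 21) (nat_lit 5) (nat_lit 25) (nat_lit 5) (nat_lit 22) (nat_lit 5) (nat_lit 268) (nat_lit 253) (nat_lit 199)) (XT.lf (nat_lit 0) (nat_lit 6791926677) (nat_lit 304) (nat_lit 8553737026) (nat_lit 76) (nat_lit 7573956611) (nat_lit 21) (nat_lit 5) (nat_lit 25) (nat_lit 5) (nat_lit 22) (nat_lit 5) (nat_lit 269) (nat_lit 253) (nat_lit 198))))))))
noncomputable def xc74 : XT := (XT.nd (nat_lit 1950) (nat_lit 228) (nat_lit 0) (XT.nd (nat_lit 936) (nat_lit 532) (nat_lit 0) (XT.nd (nat_lit 468) (nat_lit 228) (nat_lit 0) (XT.nd (nat_lit 234) (nat_lit 304) (nat_lit 0) (XT.nd (nat_lit 78) (nat_lit 0) (nat_lit 0) (XT.lf (nat_lit 0) (nat_lit 1474174197) (nat_lit 152) (nat_lit 8610162804) (nat_lit 228) (nat_lit 14023957841) (nat_lit 19) (nat_lit 5) (nat_lit 21) (nat_lit 5) (nat_lit 22) (nat_lit 5) (nat_lit 270) (nat_lit 253) (nat_lit 197)) (XT.nd (nat_lit 78)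 (nat_lit 0) (nat_lit 0) (XT.lf (nat_lit 0) (nat_lit 12769092821) (nat_lit 152) (nat_lit 1088326776) (nat_lit 228) (nat_lit 11517334522) (nat_lit 19) (nat_lit 5) (nat_lit 21) (nat_lit 5) (nat_lit 22) (nat_lit 5) (nat_lit 271) (nat_lit 253) (nat_lit 196)) (XT.lf (nat_lit 0) (nat_lit 18086067919) (nat_lit 228) (nat_lit 1965384799) (nat_lit 76) (nat_lit 6678847615) (nat_lit 19) (nat_lit 5) (nat_lit 22) (nat_lit 5) (nat_lit 20) (nat_lit 5) (nat_lit 272) (nat_lit 253) (nat_lit 195)))) (XT.nd (nat_lit 78) (nat_lit 152) (nat_lit 0) (XT.lf (nat_lit 0) (nat_lit 9977262059) (nat_lit 152) (nat_lit 12929635295) (nat_lit 228) (nat_lit 5267144458) (nat_lit 17) (nat_lit 5) (nat_lit 19) (nat_lit 5) (nat_lit 20) (nat_lit 5) (nat_lit 273) (nat_lit 253) (nat_lit 194)) (XT.nd (nat_lit 78) (nat_lit 152) (nat_lit 0) (XT.lf (nat_lit 0) (nat_lit 22967905648) (nat_lit 152) (nat_lit 5185492408) (nat_lit 228)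 (nat_lit 1576742222) (nat_lit 17) (nat_lit 5) (nat_lit 19) (nat_lit 5) (nat_lit 20) (nat_lit 5) (nat_lit 274) (nat_lit 253) (nat_lit 193)) (XT.lf (nat_lit 0) (nat_lit 2496236693) (nat_lit 152) (nat_lit 25676648117) (nat_lit 76) (nat_lit 3216629113) (nat_lit 15) (nat_lit 5) (nat_lit 17) (nat_lit 5) (nat_lit 16) (nat_lit 5) (nat_lit 275) (nat_lit 253) (nat_lit 192))))) (XT.nd (nat_lit 234) (nat_lit 76) (nat_lit 0) (XT.nd (nat_lit 78) (nat_lit 152) (nat_lit 0) (XT.lf (nat_lit 0) (nat_lit 7121559084) (nat_lit 152) (nat_lit 13795699319) (nat_lit 76) (nat_lit 12236213586) (nat_lit 15) (nat_lit 5) (nat_lit 17) (nat_lit 5) (nat_lit 16) (nat_lit 5) (nat_lit 276) (nat_lit 253) (nat_lit 191)) (XT.nd (nat_lit 78) (nat_lit 152) (nat_lit 0) (XT.lf (nat_lit 0) (nat_lit 12105155625) (nat_lit 152) (nat_lit 981827300) (nat_lit 76) (nat_lit 21972546585) (nat_lit 15) (nat_lit 5) (nat_lit 17) (nat_lit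 5) (nat_lit 16) (nat_lit 5) (nat_lit 277) (nat_lit 253) (nat_lit 190)) (XT.lf (nat_lit 0) (nat_lit 13517081138) (nat_lit 152) (nat_lit 4284563728) (nat_lit 228) (nat_lit 19291329884) (nat_lit 13) (nat_lit 5) (nat_lit 15) (nat_lit 5) (nat_lit 16) (nat_lit 5) (nat_lit 278) (nat_lit 253) (nat_lit 189)))) (XT.nd (nat_lit 78) (nat_lit 76) (nat_lit 0) (XT.lf (nat_lit 0) (nat_lit 24096400197) (nat_lit 228) (nat_lit 10198080653) (nat_lit 76) (nat_lit 4983247594) (nat_lit 13) (nat_lit 5) (nat_lit 16) (nat_lit 5) (nat_lit 14) (nat_lit 4) (nat_lit 279) (nat_lit 253) (nat_lit 188)) (XT.nd (nat_lit 78) (nat_lit 0) (nat_lit 0) (XT.lf (nat_lit 0) (nat_lit 4340440264) (nat_lit 76) (nat_lit 26760169249) (nat_lit 152) (nat_lit 10520216913) (nat_lit 12) (nat_lit 5) (nat_lit 13) (nat_lit 5) (nat_lit 14) (nat_lit 4) (nat_lit 280) (nat_lit 253) (nat_lit 187)) (XT.lf (nat_lit 0) (nat_lit 20607049389) (nat_lit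 76) (nat_lit 18327504353) (nat_lit 152) (nat_lit 5195298021) (nat_lit 12) (nat_lit 5) (nat_lit 13) (nat_lit 5) (nat_lit 14) (nat_lit 4) (nat_lit 281) (nat_lit 253) (nat_lit 186)))))) (XT.nd (nat_lit 468) (nat_lit 228) (nat_lit 0) (XT.nd (nat_lit 234) (nat_lit 76) (nat_lit 0) (XT.nd (nat_lit 78) (nat_lit 152) (nat_lit 0) (XT.lf (nat_lit 0) (nat_lit 518829275) (nat_lit 152) (nat_lit 8692333425) (nat_lit 76) (nat_lit 37628113600) (nat_lit 11) (nat_lit 5) (nat_lit 13) (nat_lit 5) (nat_lit 12) (nat_lit 5) (nat_lit 282) (nat_lit 253) (nat_lit 185)) (XT.nd (nat_lit 78) (nat_lit 0) (nat_lit 0) (XT.lf (nat_lit 0) (nat_lit 6606123886) (nat_lit 228) (nat_lit 42209951817) (nat_lit 76) (nat_lit 922871120) (nat_lit 9) (nat_lit 5) (nat_lit 12) (nat_lit 5) (nat_lit 10) (nat_lit 4) (nat_lit 283) (nat_lit 253) (nat_lit 184)) (XT.lf (nat_lit 0) (nat_lit 13655351139) (nat_lit 228) (nat_lit 27568136195)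 (nat_lit 76) (nat_lit 11609130786) (nat_lit 9) (nat_lit 5) (nat_lit 12) (nat_lit 5) (nat_lit 10) (nat_lit 4) (nat_lit 284) (nat_lit 253) (nat_lit 183)))) (XT.nd (nat_lit 78) (nat_lit 76) (nat_lit 0) (XT.lf (nat_lit 0) (nat_lit 21260980656) (nat_lit 228) (nat_lit 11767479639) (nat_lit 76) (nat_lit 23145947049) (nat_lit 9) (nat_lit 5) (nat_lit 12) (nat_lit 5) (nat_lit 10) (nat_lit 4) (nat_lit 285) (nat_lit 253) (nat_lit 182)) (XT.nd (nat_lit 78) (nat_lit 0) (nat_lit 0) (XT.lf (nat_lit 0) (nat_lit 5563984403) (nat_lit 76) (nat_lit 24037912387) (nat_lit 152) (nat_lit 30171515783) (nat_lit 8) (nat_lit 5) (nat_lit 9) (nat_lit 5) (nat_lit 10) (nat_lit 4) (nat_lit 286) (nat_lit 253) (nat_lit 181)) (XT.lf (nat_lit 0) (nat_lit 24939907609) (nat_lit 76) (nat_lit 13985190116) (nat_lit 152) (nat_lit 24710057879) (nat_lit 8) (nat_lit 5) (nat_lit 9) (nat_lit 5) (nat_lit 10) (nat_lit 4) (nat_lit 287)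 (nat_lit 253) (nat_lit 180))))) (XT.nd (nat_lit 234) (nat_lit 152) (nat_lit 0) (XT.nd (nat_lit 78) (nat_lit 76) (nat_lit 0) (XT.lf (nat_lit 0) (nat_lit 45855455640) (nat_lit 76) (nat_lit 3132465541) (nat_lit 152) (nat_lit 18818432528) (nat_lit 8) (nat_lit 5) (nat_lit 9) (nat_lit 5) (nat_lit 10) (nat_lit 4) (nat_lit 288) (nat_lit 253) (nat_lit 179)) (XT.nd (nat_lit 78) (nat_lit 76) (nat_lit 0) (XT.lf (nat_lit 0) (nat_lit 60056457911) (nat_lit 152) (nat_lit 4083611824) (nat_lit 0) (nat_lit 8155138629) (nat_lit 8) (nat_lit 5) (nat_lit 10) (nat_lit 4) (nat_lit 8) (nat_lit 4) (nat_lit 289) (nat_lit 253) (nat_lit 178)) (XT.lf (nat_lit 0) (nat_lit 15918698854) (nat_lit 76) (nat_lit 56550555368) (nat_lit 76) (nat_lit 4637229567) (nat_lit 7) (nat_lit 4) (nat_lit 8) (nat_lit 5) (nat_lit 8) (nat_lit 4) (nat_lit 290) (nat_lit 253) (nat_lit 177)))) (XT.nd (nat_lit 156) (nat_lit 76) (nat_lit 0)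 (XT.nd (nat_lit 78) (nat_lit 0) (nat_lit 0) (XT.lf (nat_lit 0) (nat_lit 3502863423) (nat_lit 152) (nat_lit 44638487029) (nat_lit 76) (nat_lit 34145717365) (nat_lit 6) (nat_lit 5) (nat_lit 8) (nat_lit 5) (nat_lit 7) (nat_lit 4) (nat_lit 291) (nat_lit 253) (nat_lit 176)) (XT.lf (nat_lit 0) (nat_lit 12038636464) (nat_lit 152) (nat_lit 26894372759) (nat_lit 76) (nat_lit 48939864799) (nat_lit 6) (nat_lit 5) (nat_lit 8) (nat_lit 5) (nat_lit 7) (nat_lit 4) (nat_lit 292) (nat_lit 253) (nat_lit 175))) (XT.nd (nat_lit 78) (nat_lit 76) (nat_lit 0) (XT.lf (nat_lit 0) (nat_lit 21252644919) (nat_lit 152) (nat_lit 7738766335) (nat_lit 76) (nat_lit 64914514264) (nat_lit 6) (nat_lit 5) (nat_lit 8) (nat_lit 5) (nat_lit 7) (nat_lit 4) (nat_lit 293) (nat_lit 253) (nat_lit 174)) (XT.lf (nat_lit 0) (nat_lit 13623341670) (nat_lit 76) (nat_lit 17903790343) (nat_lit 152) (nat_lit 68868630373) (nat_lit 5) (nat_lit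 5) (nat_lit 6) (nat_lit 5) (nat_lit 7) (nat_lit 4) (nat_lit 294) (nat_lit 253) (nat_lit 173))))))) (XT.nd (nat_lit 936) (nat_lit 76) (nat_lit 0) (XT.nd (nat_lit 468) (nat_lit 76) (nat_lit 0) (XT.nd (nat_lit 234) (nat_lit 76) (nat_lit 0) (XT.nd (nat_lit 78) (nat_lit 0) (nat_lit 0) (XT.lf (nat_lit 0) (nat_lit 37127275557) (nat_lit 76) (nat_lit 5703753246) (nat_lit 152) (nat_lit 64557170499) (nat_lit 5) (nat_lit 5) (nat_lit 6) (nat_lit 5) (nat_lit 7) (nat_lit 4) (nat_lit 295) (nat_lit 253) (nat_lit 172)) (XT.nd (nat_lit 78) (nat_lit 0) (nat_lit 0) (XT.lf (nat_lit 0) (nat_lit 55215042576) (nat_lit 152) (nat_lit 52615177577) (nat_lit 0) (nat_lit 7095755077) (nat_lit 5) (nat_lit 5) (nat_lit 7) (nat_lit 4) (nat_lit 5) (nat_lit 4) (nat_lit 296) (nat_lit 253) (nat_lit 171)) (XT.lf (nat_lit 0) (nat_lit 68734312592) (nat_lit 152) (nat_lit 33712367335) (nat_lit 0) (nat_lit 20608538344) (nat_lit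 5) (nat_lit 5) (nat_lit 7) (nat_lit 4) (nat_lit 5) (nat_lit 4) (nat_lit 297) (nat_lit 253) (nat_lit 170)))) (XT.nd (nat_lit 78) (nat_lit 76) (nat_lit 0) (XT.lf (nat_lit 0) (nat_lit 83331777641) (nat_lit 152) (nat_lit 13303300965) (nat_lit 0) (nat_lit 35199997143) (nat_lit 5) (nat_lit 5) (nat_lit 7) (nat_lit 4) (nat_lit 5) (nat_lit 4) (nat_lit 298) (nat_lit 253) (nat_lit 169)) (XT.nd (nat_lit 78) (nat_lit 0) (nat_lit 0) (XT.lf (nat_lit 0) (nat_lit 9192826565) (nat_lit 76) (nat_lit 90122202355) (nat_lit 76) (nat_lit 41984860514) (nat_lit 4) (nat_lit 4) (nat_lit 5) (nat_lit 5) (nat_lit 5) (nat_lit 4) (nat_lit 299) (nat_lit 253) (nat_lit 168)) (XT.lf (nat_lit 0) (nat_lit 34239828158) (nat_lit 76) (nat_lit 82697849274) (nat_lit 76) (nat_lit 34555358043) (nat_lit 4) (nat_lit 4) (nat_lit 5) (nat_lit 5) (nat_lit 5) (nat_lit 4) (nat_lit 300) (nat_lit 253) (nat_lit 167))))) (XT.nd (nat_lit 234)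 (nat_lit 76) (nat_lit 0) (XT.nd (nat_lit 78) (nat_lit 0) (nat_lit 0) (XT.lf (nat_lit 0) (nat_lit 61285602238) (nat_lit 76) (nat_lit 74681759021) (nat_lit 76) (nat_lit 26534499835) (nat_lit 4) (nat_lit 4) (nat_lit 5) (nat_lit 5) (nat_lit 5) (nat_lit 4) (nat_lit 301) (nat_lit 253) (nat_lit 166)) (XT.nd (nat_lit 78) (nat_lit 0) (nat_lit 0) (XT.lf (nat_lit 0) (nat_lit 90490420058) (nat_lit 76) (nat_lit 66026428839) (nat_lit 76) (nat_lit 17874754881) (nat_lit 4) (nat_lit 4) (nat_lit 5) (nat_lit 5) (nat_lit 5) (nat_lit 4) (nat_lit 302) (nat_lit 253) (nat_lit 165)) (XT.lf (nat_lit 0) (nat_lit 122027347205) (nat_lit 76) (nat_lit 56680567882) (nat_lit 76) (nat_lit 8524806172) (nat_lit 4) (nat_lit 4) (nat_lit 5) (nat_lit 5) (nat_lit 5) (nat_lit 4) (nat_lit 303) (nat_lit 253) (nat_lit 164)))) (XT.nd (nat_lit 78) (nat_lit 0) (nat_lit 0) (XT.lf (nat_lit 0) (nat_lit 1492177948) (nat_lit 152) (nat_lit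 45055816534) (nat_lit 76) (nat_lit 154550292436) (nat_lit 3) (nat_lit 5) (nat_lit 5) (nat_lit 5) (nat_lit 4) (nat_lit 4) (nat_lit 304) (nat_lit 253) (nat_lit 163)) (XT.nd (nat_lit 78) (nat_lit 0) (nat_lit 0) (XT.lf (nat_lit 0) (nat_lit 11847861943) (nat_lit 152) (nat_lit 23519498412) (nat_lit 76) (nat_lit 180688195348) (nat_lit 3) (nat_lit 5) (nat_lit 5) (nat_lit 5) (nat_lit 4) (nat_lit 4) (nat_lit 305) (nat_lit 253) (nat_lit 162)) (XT.lf (nat_lit 0) (nat_lit 23030058160) (nat_lit 152) (nat_lit 263775271) (nat_lit 76) (nat_lit 208915731599) (nat_lit 3) (nat_lit 5) (nat_lit 5) (nat_lit 5) (nat_lit 4) (nat_lit 4) (nat_lit 306) (nat_lit 253) (nat_lit 161)))))) (XT.nd (nat_lit 468) (nat_lit 0) (nat_lit 0) (XT.nd (nat_lit 234) (nat_lit 0) (nat_lit 0) (XT.nd (nat_lit 78) (nat_lit 0) (nat_lit 0) (XT.lf (nat_lit 0) (nat_lit 26157677553) (nat_lit 76) (nat_lit 9576446685) (nat_lit 152) (nat_lit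 213871590696) (nat_lit 2) (nat_lit 5) (nat_lit 3) (nat_lit 5) (nat_lit 4) (nat_lit 4) (nat_lit 307) (nat_lit 253) (nat_lit 160)) (XT.nd (nat_lit 78) (nat_lit 0) (nat_lit 0) (XT.lf (nat_lit 0) (nat_lit 49586121550) (nat_lit 152) (nat_lit 213814568855) (nat_lit 0) (nat_lit 4982341068) (nat_lit 2) (nat_lit 5) (nat_lit 4) (nat_lit 4) (nat_lit 2) (nat_lit 4) (nat_lit 308) (nat_lit 253) (nat_lit 159)) (XT.lf (nat_lit 0) (nat_lit 64793373585) (nat_lit 152) (nat_lit 203662187105) (nat_lit 0) (nat_lit 20187207939) (nat_lit 2) (nat_lit 5) (nat_lit 4) (nat_lit 4) (nat_lit 2) (nat_lit 4) (nat_lit 309) (nat_lit 253) (nat_lit 158)))) (XT.nd (nat_lit 78) (nat_lit 0) (nat_lit 0) (XT.lf (nat_lit 0) (nat_lit 81215683618) (nat_lit 152) (nat_lit 192700416095) (nat_lit 0) (nat_lit 36607309487) (nat_lit 2) (nat_lit 5) (nat_lit 4) (nat_lit 4) (nat_lit 2) (nat_lit 4) (nat_lit 310) (nat_lit 253) (nat_lit 157))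 (XT.nd (nat_lit 78) (nat_lit 0) (nat_lit 0) (XT.lf (nat_lit 0) (nat_lit 98950369044) (nat_lit 152) (nat_lit 180864297182) (nat_lit 0) (nat_lit 54339950019) (nat_lit 2) (nat_lit 5) (nat_lit 4) (nat_lit 4) (nat_lit 2) (nat_lit 4) (nat_lit 311) (nat_lit 253) (nat_lit 156)) (XT.lf (nat_lit 0) (nat_lit 118102524295) (nat_lit 152) (nat_lit 168083690403) (nat_lit 0) (nat_lit 73490211849) (nat_lit 2) (nat_lit 5) (nat_lit 4) (nat_lit 4) (nat_lit 2) (nat_lit 4) (nat_lit 312) (nat_lit 253) (nat_lit 155))))) (XT.nd (nat_lit 234) (nat_lit 0) (nat_lit 0) (XT.nd (nat_lit 78) (nat_lit 0) (nat_lit 0) (XT.lf (nat_lit 0) (nat_lit 138785643622) (nat_lit 152) (nat_lit 154282858829) (nat_lit 0) (nat_lit 94171578010) (nat_lit 2) (nat_lit 5) (nat_lit 4) (nat_lit 4) (nat_lit 2) (nat_lit 4) (nat_lit 313) (nat_lit 253) (nat_lit 154)) (XT.nd (nat_lit 78) (nat_lit 0) (nat_lit 0) (XT.lf (nat_lit 0) (nat_lit 161122293661)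 (nat_lit 152) (nat_lit 139380019753) (nat_lit 0) (nat_lit 116506604746) (nat_lit 2) (nat_lit 5) (nat_lit 4) (nat_lit 4) (nat_lit 2) (nat_lit 4) (nat_lit 314) (nat_lit 253) (nat_lit 153)) (XT.lf (nat_lit 0) (nat_lit 185244839744) (nat_lit 152) (nat_lit 123286860056) (nat_lit 0) (nat_lit 140627647771) (nat_lit 2) (nat_lit 5) (nat_lit 4) (nat_lit 4) (nat_lit 2) (nat_lit 4) (nat_lit 315) (nat_lit 253) (nat_lit 152)))) (XT.nd (nat_lit 156) (nat_lit 0) (nat_lit 0) (XT.nd (nat_lit 78) (nat_lit 0) (nat_lit 0) (XT.lf (nat_lit 0) (nat_lit 211296230292) (nat_lit 152) (nat_lit 105908012865) (nat_lit 0) (nat_lit 166677646598) (nat_lit 2) (nat_lit 5) (nat_lit 4) (nat_lit 4) (nat_lit 2) (nat_lit 4) (nat_lit 316) (nat_lit 253) (nat_lit 151)) (XT.lf (nat_lit 0) (nat_lit 239430843917) (nat_lit 152) (nat_lit 87140492419) (nat_lit 0) (nat_lit 194810971593) (nat_lit 2) (nat_lit 5) (nat_lit 4) (nat_lit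 4) (nat_lit 2) (nat_lit 4) (nat_lit 317) (nat_lit 253) (nat_lit 150))) (XT.nd (nat_lit 78) (nat_lit 0) (nat_lit 0) (XT.lf (nat_lit 0) (nat_lit 269815404253) (nat_lit 152) (nat_lit 66873083783) (nat_lit 0) (nat_lit 225194338754) (nat_lit 2) (nat_lit 5) (nat_lit 4) (nat_lit 4) (nat_lit 2) (nat_lit 4) (nat_lit 318) (nat_lit 253) (nat_lit 149)) (XT.lf (nat_lit 0) (nat_lit 302629967957) (nat_lit 152) (nat_lit 44985683793) (nat_lit 0) (nat_lit 258007797664) (nat_lit 2) (nat_lit 5) (nat_lit 4) (nat_lit 4) (nat_lit 2) (nat_lit 4) (nat_lit 319) (nat_lit 253) (nat_lit 148))))))))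
noncomputable def xc75 : XT := (XT.nd (nat_lit 32916) (nat_lit 0) (nat_lit 608) (XT.nd (nat_lit 936) (nat_lit 0) (nat_lit 0) (XT.nd (nat_lit 468) (nat_lit 0) (nat_lit 0) (XT.nd (nat_lit 234) (nat_lit 0) (nat_lit 0) (XT.nd (nat_lit 78) (nat_lit 76) (nat_lit 0) (XT.lf (nat_lit 0) (nat_lit 338068991700) (nat_lit 152) (nat_lit 21348589338) (nat_lit 0) (nat_lit 293445798451) (nat_lit 2) (nat_lit 5) (nat_lit 4) (nat_lit 4) (nat_lit 2) (nat_lit 4) (nat_lit 320) (nat_lit 253) (nat_lit 147)) (XT.nd (nat_lit 78) (nat_lit 0) (nat_lit 0) (XT.lf (nat_lit 0) (nat_lit 4398291610) (nat_lit 76) (nat_lit 372049971921) (nat_lit 76) (nat_lit 327425831491) (nat_lit 1) (nat_lit 4) (nat_lit 2) (nat_lit 5) (nat_lit 2) (nat_lit 4) (nat_lit 321) (nat_lit 253) (nat_lit 146)) (XT.lf (nat_lit 0) (nat_lit 33417865222) (nat_lit 76) (nat_lit 385063087519) (nat_lit 76) (nat_lit 340438070069) (nat_lit 1) (nat_lit 4)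 (nat_lit 2) (nat_lit 5) (nat_lit 2) (nat_lit 4) (nat_lit 322) (nat_lit 253) (nat_lit 145)))) (XT.nd (nat_lit 78) (nat_lit 0) (nat_lit 0) (XT.lf (nat_lit 0) (nat_lit 64757920458) (nat_lit 76) (nat_lit 399117750856) (nat_lit 76) (nat_lit 354491921350) (nat_lit 1) (nat_lit 4) (nat_lit 2) (nat_lit 5) (nat_lit 2) (nat_lit 4) (nat_lit 323) (nat_lit 253) (nat_lit 144)) (XT.nd (nat_lit 78) (nat_lit 0) (nat_lit 0) (XT.lf (nat_lit 0) (nat_lit 98604176165) (nat_lit 76) (nat_lit 414297248825) (nat_lit 76) (nat_lit 369670667417) (nat_lit 1) (nat_lit 4) (nat_lit 2) (nat_lit 5) (nat_lit 2) (nat_lit 4) (nat_lit 324) (nat_lit 253) (nat_lit 143)) (XT.lf (nat_lit 0) (nat_lit 135157202746) (nat_lit 76) (nat_lit 430691534009) (nat_lit 76) (nat_lit 386064256394) (nat_lit 1) (nat_lit 4) (nat_lit 2) (nat_lit 5) (nat_lit 2) (nat_lit 4) (nat_lit 325) (nat_lit 253) (nat_lit 142))))) (XT.nd (nat_lit 234) (nat_lit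 0) (nat_lit 0) (XT.nd (nat_lit 78) (nat_lit 0) (nat_lit 0) (XT.lf (nat_lit 0) (nat_lit 174633610730) (nat_lit 76) (nat_lit 448397757726) (nat_lit 76) (nat_lit 403769835475) (nat_lit 1) (nat_lit 4) (nat_lit 2) (nat_lit 5) (nat_lit 2) (nat_lit 4) (nat_lit 326) (nat_lit 253) (nat_lit 141)) (XT.nd (nat_lit 78) (nat_lit 0) (nat_lit 0) (XT.lf (nat_lit 0) (nat_lit 217267334386) (nat_lit 76) (nat_lit 467520845746) (nat_lit 76) (nat_lit 422892326610) (nat_lit 1) (nat_lit 4) (nat_lit 2) (nat_lit 5) (nat_lit 2) (nat_lit 4) (nat_lit 327) (nat_lit 253) (nat_lit 140)) (XT.lf (nat_lit 0) (nat_lit 263311018002) (nat_lit 76) (nat_lit 488174120073) (nat_lit 76) (nat_lit 443545048265) (nat_lit 1) (nat_lit 4) (nat_lit 2) (nat_lit 5) (nat_lit 2) (nat_lit 4) (nat_lit 328) (nat_lit 253) (nat_lit 139)))) (XT.nd (nat_lit 78) (nat_lit 0) (nat_lit 0) (XT.lf (nat_lit 0) (nat_lit 313037513037) (nat_lit 76) (nat_lit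 510479970480) (nat_lit 76) (nat_lit 465850386939) (nat_lit 1) (nat_lit 4) (nat_lit 2) (nat_lit 5) (nat_lit 2) (nat_lit 4) (nat_lit 329) (nat_lit 253) (nat_lit 138)) (XT.nd (nat_lit 78) (nat_lit 0) (nat_lit 0) (XT.lf (nat_lit 0) (nat_lit 366741495017) (nat_lit 76) (nat_lit 534570579784) (nat_lit 76) (nat_lit 489940522417) (nat_lit 1) (nat_lit 4) (nat_lit 2) (nat_lit 5) (nat_lit 2) (nat_lit 4) (nat_lit 330) (nat_lit 253) (nat_lit 137)) (XT.lf (nat_lit 0) (nat_lit 424741209761) (nat_lit 76) (nat_lit 560588707152) (nat_lit 76) (nat_lit 515958211057) (nat_lit 1) (nat_lit 4) (nat_lit 2) (nat_lit 5) (nat_lit 2) (nat_lit 4) (nat_lit 331) (nat_lit 253) (nat_lit 136)))))) (XT.nd (nat_lit 31434) (nat_lit 0) (nat_lit 2432) (XT.nd (nat_lit 234) (nat_lit 0) (nat_lit 0) (XT.nd (nat_lit 78) (nat_lit 0) (nat_lit 0) (XT.lf (nat_lit 0) (nat_lit 487380359283) (nat_lit 76) (nat_lit 588688534080) (nat_lit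 76) (nat_lit 544057631755) (nat_lit 1) (nat_lit 4) (nat_lit 2) (nat_lit 5) (nat_lit 2) (nat_lit 4) (nat_lit 332) (nat_lit 253) (nat_lit 135)) (XT.nd (nat_lit 78) (nat_lit 0) (nat_lit 0) (XT.lf (nat_lit 0) (nat_lit 555030138542) (nat_lit 76) (nat_lit 619036578060) (nat_lit 76) (nat_lit 574405299596) (nat_lit 1) (nat_lit 4) (nat_lit 2) (nat_lit 5) (nat_lit 2) (nat_lit 4) (nat_lit 333) (nat_lit 253) (nat_lit 134)) (XT.lf (nat_lit 0) (nat_lit 628091435120) (nat_lit 76) (nat_lit 651812679352) (nat_lit 76) (nat_lit 607181052612) (nat_lit 1) (nat_lit 4) (nat_lit 2) (nat_lit 5) (nat_lit 2) (nat_lit 4) (nat_lit 334) (nat_lit 253) (nat_lit 133)))) (XT.nd (nat_lit 78) (nat_lit 0) (nat_lit 0) (XT.lf (nat_lit 0) (nat_lit 706997204847) (nat_lit 76) (nat_lit 687211066706) (nat_lit 76) (nat_lit 642579117487) (nat_lit 1) (nat_lit 4) (nat_lit 2) (nat_lit 5) (nat_lit 2) (nat_lit 4) (nat_lit 335) (nat_lit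 253) (nat_lit 132)) (XT.nd (nat_lit 78) (nat_lit 0) (nat_lit 0) (XT.lf (nat_lit 0) (nat_lit 792215037471) (nat_lit 76) (nat_lit 725441508342) (nat_lit 76) (nat_lit 680809260532) (nat_lit 1) (nat_lit 4) (nat_lit 2) (nat_lit 5) (nat_lit 2) (nat_lit 4) (nat_lit 336) (nat_lit 253) (nat_lit 131)) (XT.lf (nat_lit 0) (nat_lit 884249927555) (nat_lit 76) (nat_lit 766730555027) (nat_lit 76) (nat_lit 722098030743) (nat_lit 1) (nat_lit 4) (nat_lit 2) (nat_lit 5) (nat_lit 2) (nat_lit 4) (nat_lit 337) (nat_lit 253) (nat_lit 130))))) (XT.nd (nat_lit 234) (nat_lit 0) (nat_lit 76) (XT.nd (nat_lit 78) (nat_lit 0) (nat_lit 0) (XT.lf (nat_lit 0) (nat_lit 130470517) (nat_lit 532) (nat_lit 3025465720) (nat_lit 532) (nat_lit 3025465720) (nat_lit 33) (nat_lit 3) (nat_lit 40) (nat_lit 3) (nat_lit 40) (nat_lit 5) (nat_lit 254) (nat_lit 254) (nat_lit 212)) (XT.nd (nat_lit 78) (nat_lit 0) (nat_lit 76) (XT.lf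 (nat_lit 0) (nat_lit 669896850) (nat_lit 532) (nat_lit 832428690) (nat_lit 532) (nat_lit 11320790006) (nat_lit 33) (nat_lit 3) (nat_lit 40) (nat_lit 3) (nat_lit 40) (nat_lit 5) (nat_lit 255) (nat_lit 254) (nat_lit 211)) (XT.lf (nat_lit 0) (nat_lit 1285134180) (nat_lit 456) (nat_lit 8372649270) (nat_lit 532) (nat_lit 3648815473) (nat_lit 34) (nat_lit 5) (nat_lit 40) (nat_lit 5) (nat_lit 41) (nat_lit 5) (nat_lit 256) (nat_lit 254) (nat_lit 210)))) (XT.nd (nat_lit 156) (nat_lit 0) (nat_lit 76) (XT.nd (nat_lit 78) (nat_lit 0) (nat_lit 76) (XT.lf (nat_lit 0) (nat_lit 1974930847) (nat_lit 456) (nat_lit 2682273376) (nat_lit 532) (nat_lit 9169744351) (nat_lit 34) (nat_lit 5) (nat_lit 40) (nat_lit 5) (nat_lit 41) (nat_lit 5) (nat_lit 257) (nat_lit 254) (nat_lit 209)) (XT.lf (nat_lit 0) (nat_lit 2793138632) (nat_lit 456) (nat_lit 10783685466) (nat_lit 532) (nat_lit 806442827) (nat_lit 35) (nat_lit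 5) (nat_lit 41) (nat_lit 5) (nat_lit 42) (nat_lit 5) (nat_lit 258) (nat_lit 254) (nat_lit 208))) (XT.nd (nat_lit 78) (nat_lit 0) (nat_lit 0) (XT.lf (nat_lit 0) (nat_lit 3840967371) (nat_lit 456) (nat_lit 4589865564) (nat_lit 532) (nat_lit 6540308846) (nat_lit 35) (nat_lit 5) (nat_lit 41) (nat_lit 5) (nat_lit 42) (nat_lit 5) (nat_lit 259) (nat_lit 254) (nat_lit 207)) (XT.lf (nat_lit 76) (nat_lit 2185355653) (nat_lit 0) (nat_lit 2810153309) (nat_lit 532) (nat_lit 10608877279) (nat_lit 36) (nat_lit 5) (nat_lit 35) (nat_lit 5) (nat_lit 42) (nat_lit 5) (nat_lit 260) (nat_lit 254) (nat_lit 206))))))) (XT.nd (nat_lit 1014) (nat_lit 760) (nat_lit 0) (XT.nd (nat_lit 468) (nat_lit 608) (nat_lit 0) (XT.nd (nat_lit 234) (nat_lit 228) (nat_lit 0) (XT.nd (nat_lit 78) (nat_lit 456) (nat_lit 0) (XT.lf (nat_lit 0) (nat_lit 6421678291) (nat_lit 456) (nat_lit 6621649541) (nat_lit 76) (nat_lit 3230779183)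 (nat_lit 36) (nat_lit 5) (nat_lit 42) (nat_lit 5) (nat_lit 37) (nat_lit 5) (nat_lit 261) (nat_lit 254) (nat_lit 205)) (XT.nd (nat_lit 78) (nat_lit 0) (nat_lit 0) (XT.lf (nat_lit 0) (nat_lit 655861959) (nat_lit 456) (nat_lit 7369012507) (nat_lit 532) (nat_lit 8967642531) (nat_lit 30) (nat_lit 5) (nat_lit 36) (nat_lit 5) (nat_lit 37) (nat_lit 5) (nat_lit 262) (nat_lit 254) (nat_lit 204)) (XT.lf (nat_lit 0) (nat_lit 8869269926) (nat_lit 456) (nat_lit 1043635923) (nat_lit 532) (nat_lit 7843102948) (nat_lit 30) (nat_lit 5) (nat_lit 36) (nat_lit 5) (nat_lit 37) (nat_lit 5) (nat_lit 263) (nat_lit 254) (nat_lit 203)))) (XT.nd (nat_lit 78) (nat_lit 228) (nat_lit 0) (XT.lf (nat_lit 0) (nat_lit 12068555392) (nat_lit 532) (nat_lit 1003186983) (nat_lit 76) (nat_lit 5499636866) (nat_lit 30) (nat_lit 5) (nat_lit 37) (nat_lit 5) (nat_lit 31) (nat_lit 5) (nat_lit 264) (nat_lit 254) (nat_lit 202)) (XT.nd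 (nat_lit 78) (nat_lit 0) (nat_lit 0) (XT.lf (nat_lit 0) (nat_lit 7855457553) (nat_lit 228) (nat_lit 6736285919) (nat_lit 304) (nat_lit 4844744991) (nat_lit 27) (nat_lit 5) (nat_lit 30) (nat_lit 5) (nat_lit 31) (nat_lit 5) (nat_lit 265) (nat_lit 254) (nat_lit 201)) (XT.lf (nat_lit 0) (nat_lit 17327557160) (nat_lit 304) (nat_lit 2914606115) (nat_lit 76) (nat_lit 127888973) (nat_lit 27) (nat_lit 5) (nat_lit 31) (nat_lit 5) (nat_lit 28) (nat_lit 5) (nat_lit 266) (nat_lit 254) (nat_lit 200))))) (XT.nd (nat_lit 234) (nat_lit 152) (nat_lit 0) (XT.nd (nat_lit 78) (nat_lit 304) (nat_lit 0) (XT.lf (nat_lit 0) (nat_lit 6578333645) (nat_lit 152) (nat_lit 14018635158) (nat_lit 228) (nat_lit 756253211) (nat_lit 25) (nat_lit 5) (nat_lit 27) (nat_lit 5) (nat_lit 28) (nat_lit 5) (nat_lit 267) (nat_lit 254) (nat_lit 199)) (XT.nd (nat_lit 78) (nat_lit 228) (nat_lit 0) (XT.lf (nat_lit 0) (nat_lit 1690850486)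 (nat_lit 228) (nat_lit 5476885452) (nat_lit 76) (nat_lit 15239007292) (nat_lit 24) (nat_lit 5) (nat_lit 27) (nat_lit 5) (nat_lit 25) (nat_lit 5) (nat_lit 268) (nat_lit 254) (nat_lit 198)) (XT.lf (nat_lit 0) (nat_lit 4399637456) (nat_lit 304) (nat_lit 18780413636) (nat_lit 76) (nat_lit 354460826) (nat_lit 21) (nat_lit 5) (nat_lit 25) (nat_lit 5) (nat_lit 22) (nat_lit 5) (nat_lit 269) (nat_lit 254) (nat_lit 197)))) (XT.nd (nat_lit 156) (nat_lit 0) (nat_lit 0) (XT.nd (nat_lit 78) (nat_lit 152) (nat_lit 0) (XT.lf (nat_lit 0) (nat_lit 7648866269) (nat_lit 304) (nat_lit 8836150122) (nat_lit 76) (nat_lit 8241659741) (nat_lit 21) (nat_lit 5) (nat_lit 25) (nat_lit 5) (nat_lit 22) (nat_lit 5) (nat_lit 270) (nat_lit 254) (nat_lit 196)) (XT.lf (nat_lit 0) (nat_lit 1983819673) (nat_lit 152) (nat_lit 9207041865) (nat_lit 228) (nat_lit 14820793416) (nat_lit 19) (nat_lit 5) (nat_lit 21) (nat_lit 5)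 (nat_lit 22) (nat_lit 5) (nat_lit 271) (nat_lit 254) (nat_lit 195))) (XT.nd (nat_lit 78) (nat_lit 0) (nat_lit 0) (XT.lf (nat_lit 0) (nat_lit 14153316117) (nat_lit 152) (nat_lit 1090268878) (nat_lit 228) (nat_lit 12137720309) (nat_lit 19) (nat_lit 5) (nat_lit 21) (nat_lit 5) (nat_lit 22) (nat_lit 5) (nat_lit 272) (nat_lit 254) (nat_lit 194)) (XT.lf (nat_lit 0) (nat_lit 19791859895) (nat_lit 228) (nat_lit 1766988009) (nat_lit 76) (nat_lit 7288031157) (nat_lit 19) (nat_lit 5) (nat_lit 22) (nat_lit 5) (nat_lit 20) (nat_lit 5) (nat_lit 273) (nat_lit 254) (nat_lit 193)))))) (XT.nd (nat_lit 468) (nat_lit 304) (nat_lit 0) (XT.nd (nat_lit 234) (nat_lit 152) (nat_lit 0) (XT.nd (nat_lit 78) (nat_lit 152) (nat_lit 0) (XT.lf (nat_lit 0) (nat_lit 11122067368) (nat_lit 152) (nat_lit 13865446377) (nat_lit 228) (nat_lit 5419557376) (nat_lit 17) (nat_lit 5) (nat_lit 19) (nat_lit 5) (nat_lit 20) (nat_lit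 5) (nat_lit 274) (nat_lit 254) (nat_lit 192)) (XT.nd (nat_lit 78) (nat_lit 152) (nat_lit 0) (XT.lf (nat_lit 0) (nat_lit 25126286566) (nat_lit 152) (nat_lit 5509072782) (nat_lit 228) (nat_lit 1453845823) (nat_lit 17) (nat_lit 5) (nat_lit 19) (nat_lit 5) (nat_lit 20) (nat_lit 5) (nat_lit 275) (nat_lit 254) (nat_lit 191)) (XT.lf (nat_lit 0) (nat_lit 2925205634) (nat_lit 152) (nat_lit 27388333870) (nat_lit 76) (nat_lit 3567961309) (nat_lit 15) (nat_lit 5) (nat_lit 17) (nat_lit 5) (nat_lit 16) (nat_lit 5) (nat_lit 276) (nat_lit 254) (nat_lit 190)))) (XT.nd (nat_lit 78) (nat_lit 152) (nat_lit 0) (XT.lf (nat_lit 0) (nat_lit 7903570853) (nat_lit 152) (nat_lit 14582275545) (nat_lit 76) (nat_lit 13302149439) (nat_lit 15) (nat_lit 5) (nat_lit 17) (nat_lit 5) (nat_lit 16) (nat_lit 5) (nat_lit 277) (nat_lit 254) (nat_lit 189)) (XT.nd (nat_lit 78) (nat_lit 152) (nat_lit 0) (XT.lf (nat_lit 0) (nat_lit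 13270130151) (nat_lit 152) (nat_lit 766781152) (nat_lit 76) (nat_lit 23810941761) (nat_lit 15) (nat_lit 5) (nat_lit 17) (nat_lit 5) (nat_lit 16) (nat_lit 5) (nat_lit 278) (nat_lit 254) (nat_lit 188)) (XT.lf (nat_lit 0) (nat_lit 14884607244) (nat_lit 152) (nat_lit 4530053279) (nat_lit 228) (nat_lit 20629980518) (nat_lit 13) (nat_lit 5) (nat_lit 15) (nat_lit 5) (nat_lit 16) (nat_lit 5) (nat_lit 279) (nat_lit 254) (nat_lit 187))))) (XT.nd (nat_lit 234) (nat_lit 228) (nat_lit 0) (XT.nd (nat_lit 78) (nat_lit 76) (nat_lit 0) (XT.lf (nat_lit 0) (nat_lit 26201171052) (nat_lit 228) (nat_lit 10736527266) (nat_lit 76) (nat_lit 5467471689) (nat_lit 13) (nat_lit 5) (nat_lit 16) (nat_lit 5) (nat_lit 14) (nat_lit 4) (nat_lit 280) (nat_lit 254) (nat_lit 186)) (XT.nd (nat_lit 78) (nat_lit 0) (nat_lit 0) (XT.lf (nat_lit 0) (nat_lit 4958052543) (nat_lit 76) (nat_lit 28801051676) (nat_lit 152) (nat_lit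 11177185975) (nat_lit 12) (nat_lit 5) (nat_lit 13) (nat_lit 5) (nat_lit 14) (nat_lit 4) (nat_lit 281) (nat_lit 254) (nat_lit 185)) (XT.lf (nat_lit 0) (nat_lit 22505962467) (nat_lit 76) (nat_lit 19701175893) (nat_lit 152) (nat_lit 5439951223) (nat_lit 12) (nat_lit 5) (nat_lit 13) (nat_lit 5) (nat_lit 14) (nat_lit 4) (nat_lit 282) (nat_lit 254) (nat_lit 184)))) (XT.nd (nat_lit 156) (nat_lit 0) (nat_lit 0) (XT.nd (nat_lit 78) (nat_lit 152) (nat_lit 0) (XT.lf (nat_lit 0) (nat_lit 710722650) (nat_lit 152) (nat_lit 9147546395) (nat_lit 76) (nat_lit 40715668555) (nat_lit 11) (nat_lit 5) (nat_lit 13) (nat_lit 5) (nat_lit 12) (nat_lit 5) (nat_lit 283) (nat_lit 254) (nat_lit 183)) (XT.lf (nat_lit 0) (nat_lit 7281636651) (nat_lit 228) (nat_lit 45342793561) (nat_lit 76) (nat_lit 1081454009) (nat_lit 9) (nat_lit 5) (nat_lit 12) (nat_lit 5) (nat_lit 10) (nat_lit 4) (nat_lit 284) (nat_lit 254) (nat_lit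 182))) (XT.nd (nat_lit 78) (nat_lit 0) (nat_lit 0) (XT.lf (nat_lit 0) (nat_lit 14883911503) (nat_lit 228) (nat_lit 29547703386) (nat_lit 76) (nat_lit 12616336433) (nat_lit 9) (nat_lit 5) (nat_lit 12) (nat_lit 5) (nat_lit 10) (nat_lit 4) (nat_lit 285) (nat_lit 254) (nat_lit 181)) (XT.lf (nat_lit 0) (nat_lit 23087907509) (nat_lit 228) (nat_lit 12499726432) (nat_lit 76) (nat_lit 25070285021) (nat_lit 9) (nat_lit 5) (nat_lit 12) (nat_lit 5) (nat_lit 10) (nat_lit 4) (nat_lit 286) (nat_lit 254) (nat_lit 180))))))))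
noncomputable def xc76 : XT := (XT.nd (nat_lit 1950) (nat_lit 76) (nat_lit 0) (XT.nd (nat_lit 936) (nat_lit 228) (nat_lit 0) (XT.nd (nat_lit 468) (nat_lit 76) (nat_lit 0) (XT.nd (nat_lit 234) (nat_lit 152) (nat_lit 0) (XT.nd (nat_lit 78) (nat_lit 0) (nat_lit 0) (XT.lf (nat_lit 0) (nat_lit 6212959758) (nat_lit 76) (nat_lit 25878703014) (nat_lit 152) (nat_lit 32453563022) (nat_lit 8) (nat_lit 5) (nat_lit 9) (nat_lit 5) (nat_lit 10) (nat_lit 4) (nat_lit 287) (nat_lit 254) (nat_lit 179)) (XT.nd (nat_lit 78) (nat_lit 0) (nat_lit 0) (XT.lf (nat_lit 0) (nat_lit 27123856331) (nat_lit 76) (nat_lit 15027854988) (nat_lit 152) (nat_lit 26564942117) (nat_lit 8) (nat_lit 5) (nat_lit 9) (nat_lit 5) (nat_lit 10) (nat_lit 4) (nat_lit 288) (nat_lit 254) (nat_lit 178)) (XT.lf (nat_lit 0) (nat_lit 49698666270) (nat_lit 76) (nat_lit 3312553213) (nat_lit 152) (nat_lit 20211017879) (nat_lit 8) (nat_lit 5)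 (nat_lit 9) (nat_lit 5) (nat_lit 10) (nat_lit 4) (nat_lit 289) (nat_lit 254) (nat_lit 177)))) (XT.nd (nat_lit 78) (nat_lit 152) (nat_lit 0) (XT.lf (nat_lit 0) (nat_lit 64959085992) (nat_lit 152) (nat_lit 4242057190) (nat_lit 0) (nat_lit 8869570458) (nat_lit 8) (nat_lit 5) (nat_lit 10) (nat_lit 4) (nat_lit 8) (nat_lit 4) (nat_lit 290) (nat_lit 254) (nat_lit 176)) (XT.nd (nat_lit 78) (nat_lit 76) (nat_lit 0) (XT.lf (nat_lit 0) (nat_lit 17356179011) (nat_lit 76) (nat_lit 61005403308) (nat_lit 76) (nat_lit 4905594118) (nat_lit 7) (nat_lit 4) (nat_lit 8) (nat_lit 5) (nat_lit 8) (nat_lit 4) (nat_lit 291) (nat_lit 254) (nat_lit 175)) (XT.lf (nat_lit 0) (nat_lit 3873352363) (nat_lit 152) (nat_lit 48052767436) (nat_lit 76) (nat_lit 36936484290) (nat_lit 6) (nat_lit 5) (nat_lit 8) (nat_lit 5) (nat_lit 7) (nat_lit 4) (nat_lit 292) (nat_lit 254) (nat_lit 174))))) (XT.nd (nat_lit 234) (nat_lit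 0) (nat_lit 0) (XT.nd (nat_lit 78) (nat_lit 76) (nat_lit 0) (XT.lf (nat_lit 0) (nat_lit 13085301332) (nat_lit 152) (nat_lit 28900738732) (nat_lit 76) (nat_lit 52909785035) (nat_lit 6) (nat_lit 5) (nat_lit 8) (nat_lit 5) (nat_lit 7) (nat_lit 4) (nat_lit 293) (nat_lit 254) (nat_lit 173)) (XT.nd (nat_lit 78) (nat_lit 76) (nat_lit 0) (XT.lf (nat_lit 0) (nat_lit 23030239800) (nat_lit 152) (nat_lit 8223438153) (nat_lit 76) (nat_lit 70158352305) (nat_lit 6) (nat_lit 5) (nat_lit 8) (nat_lit 5) (nat_lit 7) (nat_lit 4) (nat_lit 294) (nat_lit 254) (nat_lit 172)) (XT.lf (nat_lit 0) (nat_lit 14844235215) (nat_lit 76) (nat_lit 19279869736) (nat_lit 152) (nat_lit 74297168831) (nat_lit 5) (nat_lit 5) (nat_lit 6) (nat_lit 5) (nat_lit 7) (nat_lit 4) (nat_lit 295) (nat_lit 254) (nat_lit 171)))) (XT.nd (nat_lit 78) (nat_lit 0) (nat_lit 0) (XT.lf (nat_lit 0) (nat_lit 40218778166) (nat_lit 76) (nat_lit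 6107994400) (nat_lit 152) (nat_lit 69646788610) (nat_lit 5) (nat_lit 5) (nat_lit 6) (nat_lit 5) (nat_lit 7) (nat_lit 4) (nat_lit 296) (nat_lit 254) (nat_lit 170)) (XT.nd (nat_lit 78) (nat_lit 0) (nat_lit 0) (XT.lf (nat_lit 0) (nat_lit 59697536244) (nat_lit 152) (nat_lit 56707944919) (nat_lit 0) (nat_lit 7709207056) (nat_lit 5) (nat_lit 5) (nat_lit 7) (nat_lit 4) (nat_lit 5) (nat_lit 4) (nat_lit 297) (nat_lit 254) (nat_lit 169)) (XT.lf (nat_lit 0) (nat_lit 74293511545) (nat_lit 152) (nat_lit 36301535552) (nat_lit 0) (nat_lit 22299621016) (nat_lit 5) (nat_lit 5) (nat_lit 7) (nat_lit 4) (nat_lit 5) (nat_lit 4) (nat_lit 298) (nat_lit 254) (nat_lit 168)))))) (XT.nd (nat_lit 468) (nat_lit 152) (nat_lit 0) (XT.nd (nat_lit 234) (nat_lit 0) (nat_lit 0) (XT.nd (nat_lit 78) (nat_lit 76) (nat_lit 0) (XT.lf (nat_lit 0) (nat_lit 90054295728) (nat_lit 152) (nat_lit 14267730625) (nat_lit 0) (nat_lit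 38055255808) (nat_lit 5) (nat_lit 5) (nat_lit 7) (nat_lit 4) (nat_lit 5) (nat_lit 4) (nat_lit 299) (nat_lit 254) (nat_lit 167)) (XT.nd (nat_lit 78) (nat_lit 0) (nat_lit 0) (XT.lf (nat_lit 0) (nat_lit 10025559653) (nat_lit 76) (nat_lit 97288841329) (nat_lit 76) (nat_lit 45285033455) (nat_lit 4) (nat_lit 4) (nat_lit 5) (nat_lit 5) (nat_lit 5) (nat_lit 4) (nat_lit 300) (nat_lit 254) (nat_lit 166)) (XT.lf (nat_lit 0) (nat_lit 37069113451) (nat_lit 76) (nat_lit 89273735351) (nat_lit 76) (nat_lit 37265512704) (nat_lit 4) (nat_lit 4) (nat_lit 5) (nat_lit 5) (nat_lit 5) (nat_lit 4) (nat_lit 301) (nat_lit 254) (nat_lit 165)))) (XT.nd (nat_lit 78) (nat_lit 0) (nat_lit 0) (XT.lf (nat_lit 0) (nat_lit 66271875454) (nat_lit 76) (nat_lit 80619316534) (nat_lit 76) (nat_lit 28607006135) (nat_lit 4) (nat_lit 4) (nat_lit 5) (nat_lit 5) (nat_lit 5) (nat_lit 4) (nat_lit 302) (nat_lit 254) (nat_lit 164))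 (XT.nd (nat_lit 78) (nat_lit 0) (nat_lit 0) (XT.lf (nat_lit 0) (nat_lit 97806899067) (nat_lit 76) (nat_lit 71274299434) (nat_lit 76) (nat_lit 19258204079) (nat_lit 4) (nat_lit 4) (nat_lit 5) (nat_lit 5) (nat_lit 5) (nat_lit 4) (nat_lit 303) (nat_lit 254) (nat_lit 163)) (XT.lf (nat_lit 0) (nat_lit 131861058504) (nat_lit 76) (nat_lit 61183306173) (nat_lit 76) (nat_lit 9163706228) (nat_lit 4) (nat_lit 4) (nat_lit 5) (nat_lit 5) (nat_lit 5) (nat_lit 4) (nat_lit 304) (nat_lit 254) (nat_lit 162))))) (XT.nd (nat_lit 234) (nat_lit 76) (nat_lit 0) (XT.nd (nat_lit 78) (nat_lit 0) (nat_lit 0) (XT.lf (nat_lit 0) (nat_lit 1649449571) (nat_lit 152) (nat_lit 48591989824) (nat_lit 76) (nat_lit 166941607745) (nat_lit 3) (nat_lit 5) (nat_lit 5) (nat_lit 5) (nat_lit 4) (nat_lit 4) (nat_lit 305) (nat_lit 254) (nat_lit 161)) (XT.nd (nat_lit 78) (nat_lit 0) (nat_lit 0) (XT.lf (nat_lit 0) (nat_lit 12830781072)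 (nat_lit 152) (nat_lit 25337824922) (nat_lit 76) (nat_lit 195168521267) (nat_lit 3) (nat_lit 5) (nat_lit 5) (nat_lit 5) (nat_lit 4) (nat_lit 4) (nat_lit 306) (nat_lit 254) (nat_lit 160)) (XT.lf (nat_lit 0) (nat_lit 24904953715) (nat_lit 152) (nat_lit 226327882) (nat_lit 76) (nat_lit 225652388544) (nat_lit 3) (nat_lit 5) (nat_lit 5) (nat_lit 5) (nat_lit 4) (nat_lit 4) (nat_lit 307) (nat_lit 254) (nat_lit 159)))) (XT.nd (nat_lit 156) (nat_lit 0) (nat_lit 0) (XT.nd (nat_lit 78) (nat_lit 0) (nat_lit 0) (XT.lf (nat_lit 0) (nat_lit 28307358905) (nat_lit 76) (nat_lit 10316951908) (nat_lit 152) (nat_lit 230947288472) (nat_lit 2) (nat_lit 5) (nat_lit 3) (nat_lit 5) (nat_lit 4) (nat_lit 4) (nat_lit 308) (nat_lit 254) (nat_lit 158)) (XT.lf (nat_lit 0) (nat_lit 53582708097) (nat_lit 152) (nat_lit 230865082458) (nat_lit 0) (nat_lit 5403455549) (nat_lit 2) (nat_lit 5) (nat_lit 4) (nat_lit 4) (nat_lit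 2) (nat_lit 4) (nat_lit 309) (nat_lit 254) (nat_lit 157))) (XT.nd (nat_lit 78) (nat_lit 0) (nat_lit 0) (XT.lf (nat_lit 0) (nat_lit 70004340529) (nat_lit 152) (nat_lit 219904558456) (nat_lit 0) (nat_lit 21823043088) (nat_lit 2) (nat_lit 5) (nat_lit 4) (nat_lit 4) (nat_lit 2) (nat_lit 4) (nat_lit 310) (nat_lit 254) (nat_lit 156)) (XT.lf (nat_lit 0) (nat_lit 87738398547) (nat_lit 152) (nat_lit 208069594182) (nat_lit 0) (nat_lit 39555207685) (nat_lit 2) (nat_lit 5) (nat_lit 4) (nat_lit 4) (nat_lit 2) (nat_lit 4) (nat_lit 311) (nat_lit 254) (nat_lit 155))))))) (XT.nd (nat_lit 936) (nat_lit 0) (nat_lit 0) (XT.nd (nat_lit 468) (nat_lit 76) (nat_lit 0) (XT.nd (nat_lit 234) (nat_lit 0) (nat_lit 0) (XT.nd (nat_lit 78) (nat_lit 0) (nat_lit 0) (XT.lf (nat_lit 0) (nat_lit 106889972863) (nat_lit 152) (nat_lit 195290056512) (nat_lit 0) (nat_lit 58705028835) (nat_lit 2) (nat_lit 5) (nat_lit 4) (nat_lit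 4) (nat_lit 2) (nat_lit 4) (nat_lit 312) (nat_lit 254) (nat_lit 154)) (XT.nd (nat_lit 78) (nat_lit 0) (nat_lit 0) (XT.lf (nat_lit 0) (nat_lit 127572554289) (nat_lit 152) (nat_lit 181490214853) (nat_lit 0) (nat_lit 79385986958) (nat_lit 2) (nat_lit 5) (nat_lit 4) (nat_lit 4) (nat_lit 2) (nat_lit 4) (nat_lit 313) (nat_lit 254) (nat_lit 153)) (XT.lf (nat_lit 0) (nat_lit 149908706271) (nat_lit 152) (nat_lit 166588292366) (nat_lit 0) (nat_lit 101720635881) (nat_lit 2) (nat_lit 5) (nat_lit 4) (nat_lit 4) (nat_lit 2) (nat_lit 4) (nat_lit 314) (nat_lit 254) (nat_lit 152)))) (XT.nd (nat_lit 78) (nat_lit 0) (nat_lit 0) (XT.lf (nat_lit 0) (nat_lit 174030791189) (nat_lit 152) (nat_lit 150495981362) (nat_lit 0) (nat_lit 125841329080) (nat_lit 2) (nat_lit 5) (nat_lit 4) (nat_lit 4) (nat_lit 2) (nat_lit 4) (nat_lit 315) (nat_lit 254) (nat_lit 151)) (XT.nd (nat_lit 78) (nat_lit 0) (nat_lit 0) (XT.lf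 (nat_lit 0) (nat_lit 200081754734) (nat_lit 152) (nat_lit 133117919998) (nat_lit 0) (nat_lit 151891003994) (nat_lit 2) (nat_lit 5) (nat_lit 4) (nat_lit 4) (nat_lit 2) (nat_lit 4) (nat_lit 316) (nat_lit 254) (nat_lit 150)) (XT.lf (nat_lit 0) (nat_lit 228215972985) (nat_lit 152) (nat_lit 114351127170) (nat_lit 0) (nat_lit 180024029069) (nat_lit 2) (nat_lit 5) (nat_lit 4) (nat_lit 4) (nat_lit 2) (nat_lit 4) (nat_lit 317) (nat_lit 254) (nat_lit 149))))) (XT.nd (nat_lit 234) (nat_lit 76) (nat_lit 0) (XT.nd (nat_lit 78) (nat_lit 0) (nat_lit 0) (XT.lf (nat_lit 0) (nat_lit 258600167235) (nat_lit 152) (nat_lit 94084392253) (nat_lit 0) (nat_lit 210407118526) (nat_lit 2) (nat_lit 5) (nat_lit 4) (nat_lit 4) (nat_lit 2) (nat_lit 4) (nat_lit 318) (nat_lit 254) (nat_lit 148)) (XT.nd (nat_lit 78) (nat_lit 0) (nat_lit 0) (XT.lf (nat_lit 0) (nat_lit 291414391969) (nat_lit 152) (nat_lit 72197616078)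 (nat_lit 0) (nat_lit 243220320304) (nat_lit 2) (nat_lit 5) (nat_lit 4) (nat_lit 4) (nat_lit 2) (nat_lit 4) (nat_lit 319) (nat_lit 254) (nat_lit 147)) (XT.lf (nat_lit 0) (nat_lit 326853101851) (nat_lit 152) (nat_lit 48561099230) (nat_lit 0) (nat_lit 278658083005) (nat_lit 2) (nat_lit 5) (nat_lit 4) (nat_lit 4) (nat_lit 2) (nat_lit 4) (nat_lit 320) (nat_lit 254) (nat_lit 146)))) (XT.nd (nat_lit 78) (nat_lit 76) (nat_lit 0) (XT.lf (nat_lit 0) (nat_lit 365126304053) (nat_lit 152) (nat_lit 23034773461) (nat_lit 0) (nat_lit 316930408187) (nat_lit 2) (nat_lit 5) (nat_lit 4) (nat_lit 4) (nat_lit 2) (nat_lit 4) (nat_lit 321) (nat_lit 254) (nat_lit 145)) (XT.nd (nat_lit 78) (nat_lit 0) (nat_lit 0) (XT.lf (nat_lit 0) (nat_lit 4771308519) (nat_lit 76) (nat_lit 401804244299) (nat_lit 76) (nat_lit 353607536378) (nat_lit 1) (nat_lit 4) (nat_lit 2) (nat_lit 5) (nat_lit 2) (nat_lit 4) (nat_lit 322)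 (nat_lit 254) (nat_lit 144)) (XT.lf (nat_lit 0) (nat_lit 36110881088) (nat_lit 76) (nat_lit 415859129542) (nat_lit 76) (nat_lit 367661669718) (nat_lit 1) (nat_lit 4) (nat_lit 2) (nat_lit 5) (nat_lit 2) (nat_lit 4) (nat_lit 323) (nat_lit 254) (nat_lit 143)))))) (XT.nd (nat_lit 468) (nat_lit 0) (nat_lit 0) (XT.nd (nat_lit 234) (nat_lit 0) (nat_lit 0) (XT.nd (nat_lit 78) (nat_lit 0) (nat_lit 0) (XT.lf (nat_lit 0) (nat_lit 69956689880) (nat_lit 76) (nat_lit 431038832982) (nat_lit 76) (nat_lit 382840676950) (nat_lit 1) (nat_lit 4) (nat_lit 2) (nat_lit 5) (nat_lit 2) (nat_lit 4) (nat_lit 324) (nat_lit 254) (nat_lit 142)) (XT.nd (nat_lit 78) (nat_lit 0) (nat_lit 0) (XT.lf (nat_lit 0) (nat_lit 106509302652) (nat_lit 76) (nat_lit 447433308414) (nat_lit 76) (nat_lit 399234507747) (nat_lit 1) (nat_lit 4) (nat_lit 2) (nat_lit 5) (nat_lit 2) (nat_lit 4) (nat_lit 325) (nat_lit 254) (nat_lit 141))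 (XT.lf (nat_lit 0) (nat_lit 145985327479) (nat_lit 76) (nat_lit 465139708288) (nat_lit 76) (nat_lit 416940310736) (nat_lit 1) (nat_lit 4) (nat_lit 2) (nat_lit 5) (nat_lit 2) (nat_lit 4) (nat_lit 326) (nat_lit 254) (nat_lit 140)))) (XT.nd (nat_lit 78) (nat_lit 0) (nat_lit 0) (XT.lf (nat_lit 0) (nat_lit 188618696359) (nat_lit 76) (nat_lit 484262959416) (nat_lit 76) (nat_lit 436063009193) (nat_lit 1) (nat_lit 4) (nat_lit 2) (nat_lit 5) (nat_lit 2) (nat_lit 4) (nat_lit 327) (nat_lit 254) (nat_lit 139)) (XT.nd (nat_lit 78) (nat_lit 0) (nat_lit 0) (XT.lf (nat_lit 0) (nat_lit 234662051480) (nat_lit 76) (nat_lit 504916384769) (nat_lit 76) (nat_lit 456715922813) (nat_lit 1) (nat_lit 4) (nat_lit 2) (nat_lit 5) (nat_lit 2) (nat_lit 4) (nat_lit 328) (nat_lit 254) (nat_lit 138)) (XT.lf (nat_lit 0) (nat_lit 284388242353) (nat_lit 76) (nat_lit 527222375015) (nat_lit 76) (nat_lit 479021439232) (nat_lit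 1) (nat_lit 4) (nat_lit 2) (nat_lit 5) (nat_lit 2) (nat_lit 4) (nat_lit 329) (nat_lit 254) (nat_lit 137))))) (XT.nd (nat_lit 234) (nat_lit 0) (nat_lit 0) (XT.nd (nat_lit 78) (nat_lit 0) (nat_lit 0) (XT.lf (nat_lit 0) (nat_lit 338091942701) (nat_lit 76) (nat_lit 551313113800) (nat_lit 76) (nat_lit 503111739289) (nat_lit 1) (nat_lit 4) (nat_lit 2) (nat_lit 5) (nat_lit 2) (nat_lit 4) (nat_lit 330) (nat_lit 254) (nat_lit 136)) (XT.nd (nat_lit 78) (nat_lit 0) (nat_lit 0) (XT.lf (nat_lit 0) (nat_lit 396091396675) (nat_lit 76) (nat_lit 577331361057) (nat_lit 76) (nat_lit 529129580316) (nat_lit 1) (nat_lit 4) (nat_lit 2) (nat_lit 5) (nat_lit 2) (nat_lit 4) (nat_lit 331) (nat_lit 254) (nat_lit 135)) (XT.lf (nat_lit 0) (nat_lit 458730304743) (nat_lit 76) (nat_lit 605431298994) (nat_lit 76) (nat_lit 557229142114) (nat_lit 1) (nat_lit 4) (nat_lit 2) (nat_lit 5) (nat_lit 2) (nat_lit 4) (nat_lit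 332) (nat_lit 254) (nat_lit 134)))) (XT.nd (nat_lit 156) (nat_lit 0) (nat_lit 0) (XT.nd (nat_lit 78) (nat_lit 0) (nat_lit 0) (XT.lf (nat_lit 0) (nat_lit 526379860434) (nat_lit 76) (nat_lit 635779445759) (nat_lit 76) (nat_lit 587576940603) (nat_lit 1) (nat_lit 4) (nat_lit 2) (nat_lit 5) (nat_lit 2) (nat_lit 4) (nat_lit 333) (nat_lit 254) (nat_lit 133)) (XT.lf (nat_lit 0) (nat_lit 599440950003) (nat_lit 76) (nat_lit 668555642224) (nat_lit 76) (nat_lit 620352814589) (nat_lit 1) (nat_lit 4) (nat_lit 2) (nat_lit 5) (nat_lit 2) (nat_lit 4) (nat_lit 334) (nat_lit 254) (nat_lit 132))) (XT.nd (nat_lit 78) (nat_lit 0) (nat_lit 0) (XT.lf (nat_lit 0) (nat_lit 678346528057) (nat_lit 76) (nat_lit 703954117700) (nat_lit 76) (nat_lit 655750991474) (nat_lit 1) (nat_lit 4) (nat_lit 2) (nat_lit 5) (nat_lit 2) (nat_lit 4) (nat_lit 335) (nat_lit 254) (nat_lit 131)) (XT.lf (nat_lit 0) (nat_lit 763564183205)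 (nat_lit 76) (nat_lit 742184640931) (nat_lit 76) (nat_lit 693981238232) (nat_lit 1) (nat_lit 4) (nat_lit 2) (nat_lit 5) (nat_lit 2) (nat_lit 4) (nat_lit 336) (nat_lit 254) (nat_lit 130))))))))
noncomputable def xc77 : XT := (XT.nd (nat_lit 1950) (nat_lit 836) (nat_lit 0) (XT.nd (nat_lit 936) (nat_lit 912) (nat_lit 0) (XT.nd (nat_lit 468) (nat_lit 456) (nat_lit 0) (XT.nd (nat_lit 234) (nat_lit 0) (nat_lit 76) (XT.nd (nat_lit 78) (nat_lit 0) (nat_lit 0) (XT.lf (nat_lit 0) (nat_lit 529841961) (nat_lit 532) (nat_lit 3056347075) (nat_lit 532) (nat_lit 3056347075) (nat_lit 33) (nat_lit 3) (nat_lit 40) (nat_lit 3) (nat_lit 40) (nat_lit 5) (nat_lit 255) (nat_lit 255) (nat_lit 210)) (XT.nd (nat_lit 78) (nat_lit 0) (nat_lit 76) (XT.lf (nat_lit 0) (nat_lit 1443736379) (nat_lit 532) (nat_lit 507993537) (nat_lit 532) (nat_lit 11835423759) (nat_lit 33) (nat_lit 3) (nat_lit 40) (nat_lit 3) (nat_lit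 40) (nat_lit 5) (nat_lit 256) (nat_lit 255) (nat_lit 209)) (XT.lf (nat_lit 0) (nat_lit 2056914064) (nat_lit 456) (nat_lit 8596272306) (nat_lit 532) (nat_lit 3660542109) (nat_lit 34) (nat_lit 5) (nat_lit 40) (nat_lit 5) (nat_lit 41) (nat_lit 5) (nat_lit 257) (nat_lit 255) (nat_lit 208)))) (XT.nd (nat_lit 78) (nat_lit 0) (nat_lit 76) (XT.lf (nat_lit 0) (nat_lit 2752341193) (nat_lit 456) (nat_lit 2483717371) (nat_lit 532) (nat_lit 9643899268) (nat_lit 34) (nat_lit 5) (nat_lit 40) (nat_lit 5) (nat_lit 41) (nat_lit 5) (nat_lit 258) (nat_lit 255) (nat_lit 207)) (XT.nd (nat_lit 78) (nat_lit 0) (nat_lit 0) (XT.lf (nat_lit 0) (nat_lit 3595465409) (nat_lit 456) (nat_lit 11189375053) (nat_lit 532) (nat_lit 699450578) (nat_lit 35) (nat_lit 5) (nat_lit 41) (nat_lit 5) (nat_lit 42) (nat_lit 5) (nat_lit 259) (nat_lit 255) (nat_lit 206)) (XT.lf (nat_lit 0) (nat_lit 4684240767) (nat_lit 456) (nat_lit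 4533901800) (nat_lit 532) (nat_lit 6904730151) (nat_lit 35) (nat_lit 5) (nat_lit 41) (nat_lit 5) (nat_lit 42) (nat_lit 5) (nat_lit 260) (nat_lit 255) (nat_lit 205))))) (XT.nd (nat_lit 234) (nat_lit 228) (nat_lit 0) (XT.nd (nat_lit 78) (nat_lit 380) (nat_lit 0) (XT.lf (nat_lit 76) (nat_lit 2772624381) (nat_lit 0) (nat_lit 3128737096) (nat_lit 532) (nat_lit 10908026198) (nat_lit 36) (nat_lit 5) (nat_lit 35) (nat_lit 5) (nat_lit 42) (nat_lit 5) (nat_lit 261) (nat_lit 255) (nat_lit 204)) (XT.nd (nat_lit 78) (nat_lit 456) (nat_lit 0) (XT.lf (nat_lit 0) (nat_lit 7402039027) (nat_lit 456) (nat_lit 6727265810) (nat_lit 76) (nat_lit 3406759397) (nat_lit 36) (nat_lit 5) (nat_lit 42) (nat_lit 5) (nat_lit 37) (nat_lit 5) (nat_lit 262) (nat_lit 255) (nat_lit 203)) (XT.lf (nat_lit 0) (nat_lit 1121709504) (nat_lit 456) (nat_lit 7987158233) (nat_lit 532) (nat_lit 9205244777) (nat_lit 30) (nat_lit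 5) (nat_lit 36) (nat_lit 5) (nat_lit 37) (nat_lit 5) (nat_lit 263) (nat_lit 255) (nat_lit 202)))) (XT.nd (nat_lit 78) (nat_lit 228) (nat_lit 0) (XT.lf (nat_lit 0) (nat_lit 9961569472) (nat_lit 456) (nat_lit 1153631172) (nat_lit 532) (nat_lit 8026283445) (nat_lit 30) (nat_lit 5) (nat_lit 36) (nat_lit 5) (nat_lit 37) (nat_lit 5) (nat_lit 264) (nat_lit 255) (nat_lit 201)) (XT.nd (nat_lit 78) (nat_lit 228) (nat_lit 0) (XT.lf (nat_lit 0) (nat_lit 13412396209) (nat_lit 532) (nat_lit 696033800) (nat_lit 76) (nat_lit 5916294372) (nat_lit 30) (nat_lit 5) (nat_lit 37) (nat_lit 5) (nat_lit 31) (nat_lit 5) (nat_lit 265) (nat_lit 255) (nat_lit 200)) (XT.lf (nat_lit 0) (nat_lit 8861494499) (nat_lit 228) (nat_lit 7256999735) (nat_lit 304) (nat_lit 4842219025) (nat_lit 27) (nat_lit 5) (nat_lit 30) (nat_lit 5) (nat_lit 31) (nat_lit 5) (nat_lit 266) (nat_lit 255) (nat_lit 199)))))) (XT.nd (nat_lit 468)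 (nat_lit 304) (nat_lit 0) (XT.nd (nat_lit 234) (nat_lit 380) (nat_lit 0) (XT.nd (nat_lit 78) (nat_lit 228) (nat_lit 0) (XT.lf (nat_lit 0) (nat_lit 19046955002) (nat_lit 304) (nat_lit 2770129071) (nat_lit 76) (nat_lit 154119319) (nat_lit 27) (nat_lit 5) (nat_lit 31) (nat_lit 5) (nat_lit 28) (nat_lit 5) (nat_lit 267) (nat_lit 255) (nat_lit 198)) (XT.nd (nat_lit 78) (nat_lit 76) (nat_lit 0) (XT.lf (nat_lit 0) (nat_lit 7472685224) (nat_lit 152) (nat_lit 15089405821) (nat_lit 228) (nat_lit 472335132) (nat_lit 25) (nat_lit 5) (nat_lit 27) (nat_lit 5) (nat_lit 28) (nat_lit 5) (nat_lit 268) (nat_lit 255) (nat_lit 197)) (XT.lf (nat_lit 0) (nat_lit 2129071428) (nat_lit 228) (nat_lit 5556837014) (nat_lit 76) (nat_lit 16487711042) (nat_lit 24) (nat_lit 5) (nat_lit 27) (nat_lit 5) (nat_lit 25) (nat_lit 5) (nat_lit 269) (nat_lit 255) (nat_lit 196)))) (XT.nd (nat_lit 78) (nat_lit 152) (nat_lit 0)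 (XT.lf (nat_lit 0) (nat_lit 5041965357) (nat_lit 304) (nat_lit 19910730184) (nat_lit 76) (nat_lit 440027508) (nat_lit 21) (nat_lit 5) (nat_lit 25) (nat_lit 5) (nat_lit 22) (nat_lit 5) (nat_lit 270) (nat_lit 255) (nat_lit 195)) (XT.nd (nat_lit 78) (nat_lit 152) (nat_lit 0) (XT.lf (nat_lit 0) (nat_lit 8529624556) (nat_lit 304) (nat_lit 9198489777) (nat_lit 76) (nat_lit 8953964572) (nat_lit 21) (nat_lit 5) (nat_lit 25) (nat_lit 5) (nat_lit 22) (nat_lit 5) (nat_lit 271) (nat_lit 255) (nat_lit 194)) (XT.lf (nat_lit 0) (nat_lit 2478354757) (nat_lit 152) (nat_lit 9864786658) (nat_lit 228) (nat_lit 15727752283) (nat_lit 19) (nat_lit 5) (nat_lit 21) (nat_lit 5) (nat_lit 22) (nat_lit 5) (nat_lit 272) (nat_lit 255) (nat_lit 193))))) (XT.nd (nat_lit 234) (nat_lit 152) (nat_lit 0) (XT.nd (nat_lit 78) (nat_lit 152) (nat_lit 0) (XT.lf (nat_lit 0) (nat_lit 15596534657) (nat_lit 152) (nat_lit 1104510244)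 (nat_lit 228) (nat_lit 12850678113) (nat_lit 19) (nat_lit 5) (nat_lit 21) (nat_lit 5) (nat_lit 22) (nat_lit 5) (nat_lit 273) (nat_lit 255) (nat_lit 192)) (XT.nd (nat_lit 78) (nat_lit 152) (nat_lit 0) (XT.lf (nat_lit 0) (nat_lit 21597179316) (nat_lit 228) (nat_lit 1603453725) (nat_lit 76) (nat_lit 7935267522) (nat_lit 19) (nat_lit 5) (nat_lit 22) (nat_lit 5) (nat_lit 20) (nat_lit 5) (nat_lit 274) (nat_lit 255) (nat_lit 191)) (XT.lf (nat_lit 0) (nat_lit 12309007264) (nat_lit 152) (nat_lit 14890182996) (nat_lit 228) (nat_lit 5622533284) (nat_lit 17) (nat_lit 5) (nat_lit 19) (nat_lit 5) (nat_lit 20) (nat_lit 5) (nat_lit 275) (nat_lit 255) (nat_lit 190)))) (XT.nd (nat_lit 156) (nat_lit 0) (nat_lit 0) (XT.nd (nat_lit 78) (nat_lit 152) (nat_lit 0) (XT.lf (nat_lit 0) (nat_lit 27411551072) (nat_lit 152) (nat_lit 5871558704) (nat_lit 228) (nat_lit 1356645450) (nat_lit 17) (nat_lit 5) (nat_lit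 19) (nat_lit 5) (nat_lit 20) (nat_lit 5) (nat_lit 276) (nat_lit 255) (nat_lit 189)) (XT.lf (nat_lit 0) (nat_lit 3355784161) (nat_lit 152) (nat_lit 29285808247) (nat_lit 76) (nat_lit 3933989663) (nat_lit 15) (nat_lit 5) (nat_lit 17) (nat_lit 5) (nat_lit 16) (nat_lit 5) (nat_lit 277) (nat_lit 255) (nat_lit 188))) (XT.nd (nat_lit 78) (nat_lit 0) (nat_lit 0) (XT.lf (nat_lit 0) (nat_lit 8717858444) (nat_lit 152) (nat_lit 15477012837) (nat_lit 76) (nat_lit 14440943106) (nat_lit 15) (nat_lit 5) (nat_lit 17) (nat_lit 5) (nat_lit 16) (nat_lit 5) (nat_lit 278) (nat_lit 255) (nat_lit 187)) (XT.lf (nat_lit 0) (nat_lit 14500260862) (nat_lit 152) (nat_lit 576415540) (nat_lit 76) (nat_lit 25784911280) (nat_lit 15) (nat_lit 5) (nat_lit 17) (nat_lit 5) (nat_lit 16) (nat_lit 5) (nat_lit 279) (nat_lit 255) (nat_lit 186))))))) (XT.nd (nat_lit 936) (nat_lit 304) (nat_lit 0) (XT.nd (nat_lit 468) (nat_lit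 76) (nat_lit 0) (XT.nd (nat_lit 234) (nat_lit 228) (nat_lit 0) (XT.nd (nat_lit 78) (nat_lit 76) (nat_lit 0) (XT.lf (nat_lit 0) (nat_lit 16320711571) (nat_lit 152) (nat_lit 4809059438) (nat_lit 228) (nat_lit 22104919634) (nat_lit 13) (nat_lit 5) (nat_lit 15) (nat_lit 5) (nat_lit 16) (nat_lit 5) (nat_lit 280) (nat_lit 255) (nat_lit 185)) (XT.nd (nat_lit 78) (nat_lit 76) (nat_lit 0) (XT.lf (nat_lit 0) (nat_lit 28449064154) (nat_lit 228) (nat_lit 11357623798) (nat_lit 76) (nat_lit 5978227010) (nat_lit 13) (nat_lit 5) (nat_lit 16) (nat_lit 5) (nat_lit 14) (nat_lit 4) (nat_lit 281) (nat_lit 255) (nat_lit 184)) (XT.lf (nat_lit 0) (nat_lit 5586501494) (nat_lit 76) (nat_lit 31019460988) (nat_lit 152) (nat_lit 11913054706) (nat_lit 12) (nat_lit 5) (nat_lit 13) (nat_lit 5) (nat_lit 14) (nat_lit 4) (nat_lit 282) (nat_lit 255) (nat_lit 183)))) (XT.nd (nat_lit 78) (nat_lit 228) (nat_lit 0) (XT.lf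 (nat_lit 0) (nat_lit 24521073490) (nat_lit 76) (nat_lit 21197941425) (nat_lit 152) (nat_lit 5728567555) (nat_lit 12) (nat_lit 5) (nat_lit 13) (nat_lit 5) (nat_lit 14) (nat_lit 4) (nat_lit 283) (nat_lit 255) (nat_lit 182)) (XT.nd (nat_lit 78) (nat_lit 152) (nat_lit 0) (XT.lf (nat_lit 0) (nat_lit 896513103) (nat_lit 152) (nat_lit 9673439868) (nat_lit 76) (nat_lit 44039199359) (nat_lit 11) (nat_lit 5) (nat_lit 13) (nat_lit 5) (nat_lit 12) (nat_lit 5) (nat_lit 284) (nat_lit 255) (nat_lit 181)) (XT.lf (nat_lit 0) (nat_lit 7990215983) (nat_lit 228) (nat_lit 48761065467) (nat_lit 76) (nat_lit 1240632538) (nat_lit 9) (nat_lit 5) (nat_lit 12) (nat_lit 5) (nat_lit 10) (nat_lit 4) (nat_lit 285) (nat_lit 255) (nat_lit 180))))) (XT.nd (nat_lit 234) (nat_lit 0) (nat_lit 0) (XT.nd (nat_lit 78) (nat_lit 76) (nat_lit 0) (XT.lf (nat_lit 0) (nat_lit 16191335905) (nat_lit 228) (nat_lit 31717860787) (nat_lit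 76) (nat_lit 13692923170) (nat_lit 9) (nat_lit 5) (nat_lit 12) (nat_lit 5) (nat_lit 10) (nat_lit 4) (nat_lit 286) (nat_lit 255) (nat_lit 179)) (XT.nd (nat_lit 78) (nat_lit 76) (nat_lit 0) (XT.lf (nat_lit 0) (nat_lit 25043006297) (nat_lit 228) (nat_lit 13320390779) (nat_lit 76) (nat_lit 27138203954) (nat_lit 9) (nat_lit 5) (nat_lit 12) (nat_lit 5) (nat_lit 10) (nat_lit 4) (nat_lit 287) (nat_lit 255) (nat_lit 178)) (XT.lf (nat_lit 0) (nat_lit 6884770717) (nat_lit 76) (nat_lit 27878489684) (nat_lit 152) (nat_lit 34936958812) (nat_lit 8) (nat_lit 5) (nat_lit 9) (nat_lit 5) (nat_lit 10) (nat_lit 4) (nat_lit 288) (nat_lit 255) (nat_lit 177)))) (XT.nd (nat_lit 78) (nat_lit 0) (nat_lit 0) (XT.lf (nat_lit 0) (nat_lit 29455592781) (nat_lit 76) (nat_lit 16164796747) (nat_lit 152) (nat_lit 28585610401) (nat_lit 8) (nat_lit 5) (nat_lit 9) (nat_lit 5) (nat_lit 10) (nat_lit 4) (nat_lit 289) (nat_lit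 255) (nat_lit 176)) (XT.nd (nat_lit 78) (nat_lit 0) (nat_lit 0) (XT.lf (nat_lit 0) (nat_lit 53824400260) (nat_lit 76) (nat_lit 3517106878) (nat_lit 152) (nat_lit 21731114971) (nat_lit 8) (nat_lit 5) (nat_lit 9) (nat_lit 5) (nat_lit 10) (nat_lit 4) (nat_lit 290) (nat_lit 255) (nat_lit 175)) (XT.lf (nat_lit 0) (nat_lit 70239927625) (nat_lit 152) (nat_lit 4437180013) (nat_lit 0) (nat_lit 9632308881) (nat_lit 8) (nat_lit 5) (nat_lit 10) (nat_lit 4) (nat_lit 8) (nat_lit 4) (nat_lit 291) (nat_lit 255) (nat_lit 174)))))) (XT.nd (nat_lit 468) (nat_lit 76) (nat_lit 0) (XT.nd (nat_lit 234) (nat_lit 76) (nat_lit 0) (XT.nd (nat_lit 78) (nat_lit 76) (nat_lit 0) (XT.lf (nat_lit 0) (nat_lit 18885263394) (nat_lit 76) (nat_lit 65826510735) (nat_lit 76) (nat_lit 5210066841) (nat_lit 7) (nat_lit 4) (nat_lit 8) (nat_lit 5) (nat_lit 8) (nat_lit 4) (nat_lit 292) (nat_lit 255) (nat_lit 173)) (XT.nd (nat_lit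 78) (nat_lit 0) (nat_lit 0) (XT.lf (nat_lit 0) (nat_lit 4260603840) (nat_lit 152) (nat_lit 51762559342) (nat_lit 76) (nat_lit 39942079933) (nat_lit 6) (nat_lit 5) (nat_lit 8) (nat_lit 5) (nat_lit 7) (nat_lit 4) (nat_lit 293) (nat_lit 255) (nat_lit 172)) (XT.lf (nat_lit 0) (nat_lit 14203776631) (nat_lit 152) (nat_lit 31088326081) (nat_lit 76) (nat_lit 57189490893) (nat_lit 6) (nat_lit 5) (nat_lit 8) (nat_lit 5) (nat_lit 7) (nat_lit 4) (nat_lit 294) (nat_lit 255) (nat_lit 171)))) (XT.nd (nat_lit 78) (nat_lit 76) (nat_lit 0) (XT.lf (nat_lit 0) (nat_lit 24939002681) (nat_lit 152) (nat_lit 8766061586) (nat_lit 76) (nat_lit 75814467763) (nat_lit 6) (nat_lit 5) (nat_lit 8) (nat_lit 5) (nat_lit 7) (nat_lit 4) (nat_lit 295) (nat_lit 255) (nat_lit 170)) (XT.nd (nat_lit 78) (nat_lit 0) (nat_lit 0) (XT.lf (nat_lit 0) (nat_lit 16144107889) (nat_lit 76) (nat_lit 20774056439) (nat_lit 152) (nat_lit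 80171539070) (nat_lit 5) (nat_lit 5) (nat_lit 6) (nat_lit 5) (nat_lit 7) (nat_lit 4) (nat_lit 296) (nat_lit 255) (nat_lit 169)) (XT.lf (nat_lit 0) (nat_lit 43540293250) (nat_lit 76) (nat_lit 6552001659) (nat_lit 152) (nat_lit 75154269414) (nat_lit 5) (nat_lit 5) (nat_lit 6) (nat_lit 5) (nat_lit 7) (nat_lit 4) (nat_lit 297) (nat_lit 255) (nat_lit 168))))) (XT.nd (nat_lit 234) (nat_lit 76) (nat_lit 0) (XT.nd (nat_lit 78) (nat_lit 0) (nat_lit 0) (XT.lf (nat_lit 0) (nat_lit 64529315018) (nat_lit 152) (nat_lit 61144746096) (nat_lit 0) (nat_lit 8365202514) (nat_lit 5) (nat_lit 5) (nat_lit 7) (nat_lit 4) (nat_lit 5) (nat_lit 4) (nat_lit 298) (nat_lit 255) (nat_lit 167)) (XT.nd (nat_lit 78) (nat_lit 0) (nat_lit 0) (XT.lf (nat_lit 0) (nat_lit 80288821983) (nat_lit 152) (nat_lit 39113219121) (nat_lit 0) (nat_lit 24119941524) (nat_lit 5) (nat_lit 5) (nat_lit 7) (nat_lit 4) (nat_lit 5) (nat_lit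 4) (nat_lit 299) (nat_lit 255) (nat_lit 166)) (XT.lf (nat_lit 0) (nat_lit 97306629677) (nat_lit 152) (nat_lit 15323557154) (nat_lit 0) (nat_lit 41133334446) (nat_lit 5) (nat_lit 5) (nat_lit 7) (nat_lit 4) (nat_lit 5) (nat_lit 4) (nat_lit 300) (nat_lit 255) (nat_lit 165)))) (XT.nd (nat_lit 156) (nat_lit 0) (nat_lit 0) (XT.nd (nat_lit 78) (nat_lit 0) (nat_lit 0) (XT.lf (nat_lit 0) (nat_lit 10911029462) (nat_lit 76) (nat_lit 105034965427) (nat_lit 76) (nat_lit 48857582443) (nat_lit 4) (nat_lit 4) (nat_lit 5) (nat_lit 5) (nat_lit 5) (nat_lit 4) (nat_lit 301) (nat_lit 255) (nat_lit 164)) (XT.lf (nat_lit 0) (nat_lit 40111887931) (nat_lit 76) (nat_lit 96381390468) (nat_lit 76) (nat_lit 40200222528) (nat_lit 4) (nat_lit 4) (nat_lit 5) (nat_lit 5) (nat_lit 5) (nat_lit 4) (nat_lit 302) (nat_lit 255) (nat_lit 163))) (XT.nd (nat_lit 78) (nat_lit 0) (nat_lit 0) (XT.lf (nat_lit 0) (nat_lit 71645149013)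 (nat_lit 76) (nat_lit 87037154717) (nat_lit 76) (nat_lit 30852482188) (nat_lit 4) (nat_lit 4) (nat_lit 5) (nat_lit 5) (nat_lit 5) (nat_lit 4) (nat_lit 303) (nat_lit 255) (nat_lit 162)) (XT.lf (nat_lit 0) (nat_lit 105697676476) (nat_lit 76) (nat_lit 76946884926) (nat_lit 76) (nat_lit 20758967408) (nat_lit 4) (nat_lit 4) (nat_lit 5) (nat_lit 5) (nat_lit 5) (nat_lit 4) (nat_lit 304) (nat_lit 255) (nat_lit 161))))))))
noncomputable def xc78 : XT := (XT.nd (nat_lit 1950) (nat_lit 0) (nat_lit 0) (XT.nd (nat_lit 936) (nat_lit 76) (nat_lit 0) (XT.nd (nat_lit 468) (nat_lit 0) (nat_lit 0) (XT.nd (nat_lit 234) (nat_lit 76) (nat_lit 0) (XT.nd (nat_lit 78) (nat_lit 76) (nat_lit 0) (XT.lf (nat_lit 0) (nat_lit 142471263077) (nat_lit 76) (nat_lit 66050786904) (nat_lit 76) (nat_lit 9859864766) (nat_lit 4) (nat_lit 4) (nat_lit 5) (nat_lit 5) (nat_lit 5) (nat_lit 4) (nat_lit 305) (nat_lit 255) (nat_lit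 160)) (XT.nd (nat_lit 78) (nat_lit 0) (nat_lit 0) (XT.lf (nat_lit 0) (nat_lit 1813896439) (nat_lit 152) (nat_lit 52420799599) (nat_lit 76) (nat_lit 180320334782) (nat_lit 3) (nat_lit 5) (nat_lit 5) (nat_lit 5) (nat_lit 4) (nat_lit 4) (nat_lit 306) (nat_lit 255) (nat_lit 159)) (XT.lf (nat_lit 0) (nat_lit 13887327727) (nat_lit 152) (nat_lit 27310638498) (nat_lit 76) (nat_lit 210803668170) (nat_lit 3) (nat_lit 5) (nat_lit 5) (nat_lit 5) (nat_lit 4) (nat_lit 4) (nat_lit 307) (nat_lit 255) (nat_lit 158)))) (XT.nd (nat_lit 78) (nat_lit 76) (nat_lit 0) (XT.lf (nat_lit 0) (nat_lit 26925205723) (nat_lit 152) (nat_lit 194237429) (nat_lit 76) (nat_lit 243724639999) (nat_lit 3) (nat_lit 5) (nat_lit 5) (nat_lit 5) (nat_lit 4) (nat_lit 4) (nat_lit 308) (nat_lit 255) (nat_lit 157)) (XT.nd (nat_lit 78) (nat_lit 0) (nat_lit 0) (XT.lf (nat_lit 0) (nat_lit 30620873498) (nat_lit 76) (nat_lit 11120351174)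 (nat_lit 152) (nat_lit 249393896756) (nat_lit 2) (nat_lit 5) (nat_lit 3) (nat_lit 5) (nat_lit 4) (nat_lit 4) (nat_lit 309) (nat_lit 255) (nat_lit 156)) (XT.lf (nat_lit 0) (nat_lit 57894784983) (nat_lit 152) (nat_lit 249287433853) (nat_lit 0) (nat_lit 5855045432) (nat_lit 2) (nat_lit 5) (nat_lit 4) (nat_lit 4) (nat_lit 2) (nat_lit 4) (nat_lit 310) (nat_lit 255) (nat_lit 155))))) (XT.nd (nat_lit 234) (nat_lit 0) (nat_lit 0) (XT.nd (nat_lit 78) (nat_lit 0) (nat_lit 0) (XT.lf (nat_lit 0) (nat_lit 75628262067) (nat_lit 152) (nat_lit 237453538688) (nat_lit 0) (nat_lit 23586769349) (nat_lit 2) (nat_lit 5) (nat_lit 4) (nat_lit 4) (nat_lit 2) (nat_lit 4) (nat_lit 311) (nat_lit 255) (nat_lit 154)) (XT.nd (nat_lit 78) (nat_lit 0) (nat_lit 0) (XT.lf (nat_lit 0) (nat_lit 94779298481) (nat_lit 152) (nat_lit 224674990933) (nat_lit 0) (nat_lit 42736182461) (nat_lit 2) (nat_lit 5) (nat_lit 4) (nat_lit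 4) (nat_lit 2) (nat_lit 4) (nat_lit 312) (nat_lit 255) (nat_lit 153)) (XT.lf (nat_lit 0) (nat_lit 115461381851) (nat_lit 152) (nat_lit 210876065864) (nat_lit 0) (nat_lit 63416762772) (nat_lit 2) (nat_lit 5) (nat_lit 4) (nat_lit 4) (nat_lit 2) (nat_lit 4) (nat_lit 313) (nat_lit 255) (nat_lit 152)))) (XT.nd (nat_lit 78) (nat_lit 0) (nat_lit 0) (XT.lf (nat_lit 0) (nat_lit 137797072668) (nat_lit 152) (nat_lit 195974992070) (nat_lit 0) (nat_lit 85751061869) (nat_lit 2) (nat_lit 5) (nat_lit 4) (nat_lit 4) (nat_lit 2) (nat_lit 4) (nat_lit 314) (nat_lit 255) (nat_lit 151)) (XT.nd (nat_lit 78) (nat_lit 0) (nat_lit 0) (XT.lf (nat_lit 0) (nat_lit 161918730583) (nat_lit 152) (nat_lit 179883466893) (nat_lit 0) (nat_lit 109871431154) (nat_lit 2) (nat_lit 5) (nat_lit 4) (nat_lit 4) (nat_lit 2) (nat_lit 4) (nat_lit 315) (nat_lit 255) (nat_lit 150)) (XT.lf (nat_lit 0) (nat_lit 187969298754) (nat_lit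 152) (nat_lit 162506133147) (nat_lit 0) (nat_lit 135920806149) (nat_lit 2) (nat_lit 5) (nat_lit 4) (nat_lit 4) (nat_lit 2) (nat_lit 4) (nat_lit 316) (nat_lit 255) (nat_lit 149)))))) (XT.nd (nat_lit 468) (nat_lit 76) (nat_lit 0) (XT.nd (nat_lit 234) (nat_lit 0) (nat_lit 0) (XT.nd (nat_lit 78) (nat_lit 0) (nat_lit 0) (XT.lf (nat_lit 0) (nat_lit 216103150918) (nat_lit 152) (nat_lit 143740014039) (nat_lit 0) (nat_lit 164053553520) (nat_lit 2) (nat_lit 5) (nat_lit 4) (nat_lit 4) (nat_lit 2) (nat_lit 4) (nat_lit 317) (nat_lit 255) (nat_lit 148)) (XT.nd (nat_lit 78) (nat_lit 0) (nat_lit 0) (XT.lf (nat_lit 0) (nat_lit 246487006198) (nat_lit 152) (nat_lit 123473902937) (nat_lit 0) (nat_lit 194436385845) (nat_lit 2) (nat_lit 5) (nat_lit 4) (nat_lit 4) (nat_lit 2) (nat_lit 4) (nat_lit 318) (nat_lit 255) (nat_lit 147)) (XT.lf (nat_lit 0) (nat_lit 279300917072) (nat_lit 152) (nat_lit 101587704368)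 (nat_lit 0) (nat_lit 227249349537) (nat_lit 2) (nat_lit 5) (nat_lit 4) (nat_lit 4) (nat_lit 2) (nat_lit 4) (nat_lit 319) (nat_lit 255) (nat_lit 146)))) (XT.nd (nat_lit 78) (nat_lit 0) (nat_lit 0) (XT.lf (nat_lit 0) (nat_lit 314739336343) (nat_lit 152) (nat_lit 77951722340) (nat_lit 0) (nat_lit 262686891788) (nat_lit 2) (nat_lit 5) (nat_lit 4) (nat_lit 4) (nat_lit 2) (nat_lit 4) (nat_lit 320) (nat_lit 255) (nat_lit 145)) (XT.nd (nat_lit 78) (nat_lit 0) (nat_lit 0) (XT.lf (nat_lit 0) (nat_lit 353012269459) (nat_lit 152) (nat_lit 52425891776) (nat_lit 0) (nat_lit 300959012849) (nat_lit 2) (nat_lit 5) (nat_lit 4) (nat_lit 4) (nat_lit 2) (nat_lit 4) (nat_lit 321) (nat_lit 255) (nat_lit 144)) (XT.lf (nat_lit 0) (nat_lit 394346518988) (nat_lit 152) (nat_lit 24858948493) (nat_lit 0) (nat_lit 342292510474) (nat_lit 2) (nat_lit 5) (nat_lit 4) (nat_lit 4) (nat_lit 2) (nat_lit 4) (nat_lit 322)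 (nat_lit 255) (nat_lit 143))))) (XT.nd (nat_lit 234) (nat_lit 0) (nat_lit 0) (XT.nd (nat_lit 78) (nat_lit 0) (nat_lit 0) (XT.lf (nat_lit 0) (nat_lit 5171148986) (nat_lit 76) (nat_lit 433940245900) (nat_lit 76) (nat_lit 381885541180) (nat_lit 1) (nat_lit 4) (nat_lit 2) (nat_lit 5) (nat_lit 2) (nat_lit 4) (nat_lit 323) (nat_lit 255) (nat_lit 142)) (XT.nd (nat_lit 78) (nat_lit 0) (nat_lit 0) (XT.lf (nat_lit 0) (nat_lit 39016543969) (nat_lit 76) (nat_lit 449120139589) (nat_lit 76) (nat_lit 397064790232) (nat_lit 1) (nat_lit 4) (nat_lit 2) (nat_lit 5) (nat_lit 2) (nat_lit 4) (nat_lit 324) (nat_lit 255) (nat_lit 141)) (XT.lf (nat_lit 0) (nat_lit 75568773584) (nat_lit 76) (nat_lit 465514791178) (nat_lit 76) (nat_lit 413458844937) (nat_lit 1) (nat_lit 4) (nat_lit 2) (nat_lit 5) (nat_lit 2) (nat_lit 4) (nat_lit 325) (nat_lit 255) (nat_lit 140)))) (XT.nd (nat_lit 156) (nat_lit 0) (nat_lit 0)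 (XT.nd (nat_lit 78) (nat_lit 0) (nat_lit 0) (XT.lf (nat_lit 0) (nat_lit 115044443635) (nat_lit 76) (nat_lit 483221354160) (nat_lit 76) (nat_lit 431164855247) (nat_lit 1) (nat_lit 4) (nat_lit 2) (nat_lit 5) (nat_lit 2) (nat_lit 4) (nat_lit 326) (nat_lit 255) (nat_lit 139)) (XT.lf (nat_lit 0) (nat_lit 157677484021) (nat_lit 76) (nat_lit 502344756314) (nat_lit 76) (nat_lit 450287745669) (nat_lit 1) (nat_lit 4) (nat_lit 2) (nat_lit 5) (nat_lit 2) (nat_lit 4) (nat_lit 327) (nat_lit 255) (nat_lit 138))) (XT.nd (nat_lit 78) (nat_lit 0) (nat_lit 0) (XT.lf (nat_lit 0) (nat_lit 203720534979) (nat_lit 76) (nat_lit 522998321506) (nat_lit 76) (nat_lit 470940837034) (nat_lit 1) (nat_lit 4) (nat_lit 2) (nat_lit 5) (nat_lit 2) (nat_lit 4) (nat_lit 328) (nat_lit 255) (nat_lit 137)) (XT.lf (nat_lit 0) (nat_lit 253446444220) (nat_lit 76) (nat_lit 545304441232) (nat_lit 76) (nat_lit 493246518032) (nat_lit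 1) (nat_lit 4) (nat_lit 2) (nat_lit 5) (nat_lit 2) (nat_lit 4) (nat_lit 329) (nat_lit 255) (nat_lit 136))))))) (XT.nd (nat_lit 32136) (nat_lit 0) (nat_lit 1368) (XT.nd (nat_lit 468) (nat_lit 0) (nat_lit 0) (XT.nd (nat_lit 234) (nat_lit 0) (nat_lit 0) (XT.nd (nat_lit 78) (nat_lit 0) (nat_lit 0) (XT.lf (nat_lit 0) (nat_lit 307149883798) (nat_lit 76) (nat_lit 569395299907) (nat_lit 76) (nat_lit 517336970476) (nat_lit 1) (nat_lit 4) (nat_lit 2) (nat_lit 5) (nat_lit 2) (nat_lit 4) (nat_lit 330) (nat_lit 255) (nat_lit 135)) (XT.nd (nat_lit 78) (nat_lit 0) (nat_lit 0) (XT.lf (nat_lit 0) (nat_lit 365149096318) (nat_lit 76) (nat_lit 595413658173) (nat_lit 76) (nat_lit 543354952604) (nat_lit 1) (nat_lit 4) (nat_lit 2) (nat_lit 5) (nat_lit 2) (nat_lit 4) (nat_lit 331) (nat_lit 255) (nat_lit 134)) (XT.lf (nat_lit 0) (nat_lit 427787780817) (nat_lit 76) (nat_lit 623513698895) (nat_lit 76) (nat_lit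 571454645049) (nat_lit 1) (nat_lit 4) (nat_lit 2) (nat_lit 5) (nat_lit 2) (nat_lit 4) (nat_lit 332) (nat_lit 255) (nat_lit 133)))) (XT.nd (nat_lit 78) (nat_lit 0) (nat_lit 0) (XT.lf (nat_lit 0) (nat_lit 495437129500) (nat_lit 76) (nat_lit 653861940832) (nat_lit 76) (nat_lit 601802564508) (nat_lit 1) (nat_lit 4) (nat_lit 2) (nat_lit 5) (nat_lit 2) (nat_lit 4) (nat_lit 333) (nat_lit 255) (nat_lit 132)) (XT.nd (nat_lit 78) (nat_lit 0) (nat_lit 0) (XT.lf (nat_lit 0) (nat_lit 568498027396) (nat_lit 76) (nat_lit 686638225419) (nat_lit 76) (nat_lit 634578550504) (nat_lit 1) (nat_lit 4) (nat_lit 2) (nat_lit 5) (nat_lit 2) (nat_lit 4) (nat_lit 334) (nat_lit 255) (nat_lit 131)) (XT.lf (nat_lit 0) (nat_lit 647403427974) (nat_lit 76) (nat_lit 722036782490) (nat_lit 76) (nat_lit 669976831101) (nat_lit 1) (nat_lit 4) (nat_lit 2) (nat_lit 5) (nat_lit 2) (nat_lit 4) (nat_lit 335) (nat_lit 255) (nat_lit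 130))))) (XT.nd (nat_lit 31434) (nat_lit 0) (nat_lit 2508) (XT.nd (nat_lit 31278) (nat_lit 0) (nat_lit 2432) (XT.lf (nat_lit 0) (nat_lit 732620918792) (nat_lit 76) (nat_lit 760267381272) (nat_lit 76) (nat_lit 708207173889) (nat_lit 1) (nat_lit 4) (nat_lit 2) (nat_lit 5) (nat_lit 2) (nat_lit 4) (nat_lit 336) (nat_lit 255) (nat_lit 129)) (XT.nd (nat_lit 78) (nat_lit 0) (nat_lit 0) (XT.lf (nat_lit 0) (nat_lit 905677364) (nat_lit 532) (nat_lit 3119822690) (nat_lit 532) (nat_lit 3119822690) (nat_lit 33) (nat_lit 3) (nat_lit 40) (nat_lit 3) (nat_lit 40) (nat_lit 5) (nat_lit 256) (nat_lit 256) (nat_lit 208)) (XT.lf (nat_lit 0) (nat_lit 2176731673) (nat_lit 532) (nat_lit 213388295) (nat_lit 532) (nat_lit 12447012934) (nat_lit 33) (nat_lit 3) (nat_lit 40) (nat_lit 3) (nat_lit 40) (nat_lit 5) (nat_lit 257) (nat_lit 256) (nat_lit 207)))) (XT.nd (nat_lit 78) (nat_lit 0) (nat_lit 0) (XT.lf (nat_lit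 0) (nat_lit 2795000410) (nat_lit 456) (nat_lit 8901439021) (nat_lit 532) (nat_lit 3713177486) (nat_lit 34) (nat_lit 5) (nat_lit 40) (nat_lit 5) (nat_lit 41) (nat_lit 5) (nat_lit 258) (nat_lit 256) (nat_lit 206)) (XT.nd (nat_lit 78) (nat_lit 0) (nat_lit 76) (XT.lf (nat_lit 0) (nat_lit 3503577768) (nat_lit 456) (nat_lit 2328215622) (nat_lit 532) (nat_lit 10192996402) (nat_lit 34) (nat_lit 5) (nat_lit 40) (nat_lit 5) (nat_lit 41) (nat_lit 5) (nat_lit 259) (nat_lit 256) (nat_lit 205)) (XT.lf (nat_lit 0) (nat_lit 4379395241) (nat_lit 456) (nat_lit 11692716715) (nat_lit 532) (nat_lit 608366437) (nat_lit 35) (nat_lit 5) (nat_lit 41) (nat_lit 5) (nat_lit 42) (nat_lit 5) (nat_lit 260) (nat_lit 256) (nat_lit 204)))))) (XT.nd (nat_lit 468) (nat_lit 836) (nat_lit 0) (XT.nd (nat_lit 234) (nat_lit 380) (nat_lit 0) (XT.nd (nat_lit 78) (nat_lit 0) (nat_lit 0) (XT.lf (nat_lit 0) (nat_lit 5518510212)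 (nat_lit 456) (nat_lit 4533828442) (nat_lit 532) (nat_lit 7320960242) (nat_lit 35) (nat_lit 5) (nat_lit 41) (nat_lit 5) (nat_lit 42) (nat_lit 5) (nat_lit 261) (nat_lit 256) (nat_lit 203)) (XT.nd (nat_lit 78) (nat_lit 0) (nat_lit 76) (XT.lf (nat_lit 76) (nat_lit 3348035390) (nat_lit 0) (nat_lit 3459430030) (nat_lit 532) (nat_lit 11309508088) (nat_lit 36) (nat_lit 5) (nat_lit 35) (nat_lit 5) (nat_lit 42) (nat_lit 5) (nat_lit 262) (nat_lit 256) (nat_lit 202)) (XT.lf (nat_lit 0) (nat_lit 8394259138) (nat_lit 456) (nat_lit 6901836226) (nat_lit 76) (nat_lit 3608585024) (nat_lit 36) (nat_lit 5) (nat_lit 42) (nat_lit 5) (nat_lit 37) (nat_lit 5) (nat_lit 263) (nat_lit 256) (nat_lit 201)))) (XT.nd (nat_lit 78) (nat_lit 0) (nat_lit 0) (XT.lf (nat_lit 0) (nat_lit 1565851775) (nat_lit 456) (nat_lit 8650671980) (nat_lit 532) (nat_lit 9530305342) (nat_lit 30) (nat_lit 5) (nat_lit 36) (nat_lit 5)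 (nat_lit 37) (nat_lit 5) (nat_lit 264) (nat_lit 256) (nat_lit 200)) (XT.nd (nat_lit 78) (nat_lit 0) (nat_lit 0) (XT.lf (nat_lit 0) (nat_lit 11086648281) (nat_lit 456) (nat_lit 1268644896) (nat_lit 532) (nat_lit 8287498143) (nat_lit 30) (nat_lit 5) (nat_lit 36) (nat_lit 5) (nat_lit 37) (nat_lit 5) (nat_lit 265) (nat_lit 256) (nat_lit 199)) (XT.lf (nat_lit 0) (nat_lit 14809767523) (nat_lit 532) (nat_lit 419576465) (nat_lit 76) (nat_lit 6369610401) (nat_lit 30) (nat_lit 5) (nat_lit 37) (nat_lit 5) (nat_lit 31) (nat_lit 5) (nat_lit 266) (nat_lit 256) (nat_lit 198))))) (XT.nd (nat_lit 234) (nat_lit 456) (nat_lit 0) (XT.nd (nat_lit 78) (nat_lit 152) (nat_lit 0) (XT.lf (nat_lit 0) (nat_lit 9894145489) (nat_lit 228) (nat_lit 7821965529) (nat_lit 304) (nat_lit 4895143902) (nat_lit 27) (nat_lit 5) (nat_lit 30) (nat_lit 5) (nat_lit 31) (nat_lit 5) (nat_lit 267) (nat_lit 256) (nat_lit 197)) (XT.nd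 (nat_lit 78) (nat_lit 152) (nat_lit 0) (XT.lf (nat_lit 0) (nat_lit 20856370927) (nat_lit 304) (nat_lit 2667969221) (nat_lit 76) (nat_lit 180165624) (nat_lit 27) (nat_lit 5) (nat_lit 31) (nat_lit 5) (nat_lit 28) (nat_lit 5) (nat_lit 268) (nat_lit 256) (nat_lit 196)) (XT.lf (nat_lit 0) (nat_lit 8386073504) (nat_lit 152) (nat_lit 16253073934) (nat_lit 228) (nat_lit 214838733) (nat_lit 25) (nat_lit 5) (nat_lit 27) (nat_lit 5) (nat_lit 28) (nat_lit 5) (nat_lit 269) (nat_lit 256) (nat_lit 195)))) (XT.nd (nat_lit 156) (nat_lit 152) (nat_lit 0) (XT.nd (nat_lit 78) (nat_lit 228) (nat_lit 0) (XT.lf (nat_lit 0) (nat_lit 2559130427) (nat_lit 228) (nat_lit 5694285832) (nat_lit 76) (nat_lit 17832090723) (nat_lit 24) (nat_lit 5) (nat_lit 27) (nat_lit 5) (nat_lit 25) (nat_lit 5) (nat_lit 270) (nat_lit 256) (nat_lit 194)) (XT.lf (nat_lit 0) (nat_lit 5694256832) (nat_lit 304) (nat_lit 21184558641) (nat_lit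 76) (nat_lit 524277904) (nat_lit 21) (nat_lit 5) (nat_lit 25) (nat_lit 5) (nat_lit 22) (nat_lit 5) (nat_lit 271) (nat_lit 256) (nat_lit 193))) (XT.nd (nat_lit 78) (nat_lit 152) (nat_lit 0) (XT.lf (nat_lit 0) (nat_lit 9442489193) (nat_lit 304) (nat_lit 9638970850) (nat_lit 76) (nat_lit 9715696733) (nat_lit 21) (nat_lit 5) (nat_lit 25) (nat_lit 5) (nat_lit 22) (nat_lit 5) (nat_lit 272) (nat_lit 256) (nat_lit 192)) (XT.lf (nat_lit 0) (nat_lit 2964542813) (nat_lit 152) (nat_lit 10586395383) (nat_lit 228) (nat_lit 16747028187) (nat_lit 19) (nat_lit 5) (nat_lit 21) (nat_lit 5) (nat_lit 22) (nat_lit 5) (nat_lit 273) (nat_lit 256) (nat_lit 191))))))))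
noncomputable def xc79 : XT := (XT.nd (nat_lit 1950) (nat_lit 304) (nat_lit 0) (XT.nd (nat_lit 936) (nat_lit 456) (nat_lit 0) (XT.nd (nat_lit 468) (nat_lit 304) (nat_lit 0) (XT.nd (nat_lit 234) (nat_lit 152) (nat_lit 0) (XT.nd (nat_lit 78) (nat_lit 152) (nat_lit 0) (XT.lf (nat_lit 0) (nat_lit 17110849722) (nat_lit 152) (nat_lit 1130302352) (nat_lit 228) (nat_lit 13657487660) (nat_lit 19) (nat_lit 5) (nat_lit 21) (nat_lit 5) (nat_lit 22) (nat_lit 5) (nat_lit 274) (nat_lit 256) (nat_lit 190)) (XT.nd (nat_lit 78) (nat_lit 152) (nat_lit 0) (XT.lf (nat_lit 0) (nat_lit 23515257698) (nat_lit 228) (nat_lit 1470333139) (nat_lit 76) (nat_lit 8625124822) (nat_lit 19) (nat_lit 5) (nat_lit 22) (nat_lit 5) (nat_lit 20) (nat_lit 5) (nat_lit 275) (nat_lit 256) (nat_lit 189)) (XT.lf (nat_lit 0) (nat_lit 13548507086) (nat_lit 152) (nat_lit 16008953283) (nat_lit 228) (nat_lit 5874643318) (nat_lit 17)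 (nat_lit 5) (nat_lit 19) (nat_lit 5) (nat_lit 20) (nat_lit 5) (nat_lit 276) (nat_lit 256) (nat_lit 188)))) (XT.nd (nat_lit 78) (nat_lit 152) (nat_lit 0) (XT.lf (nat_lit 0) (nat_lit 29840381862) (nat_lit 152) (nat_lit 6274205297) (nat_lit 228) (nat_lit 1282128356) (nat_lit 17) (nat_lit 5) (nat_lit 19) (nat_lit 5) (nat_lit 20) (nat_lit 5) (nat_lit 277) (nat_lit 256) (nat_lit 187)) (XT.nd (nat_lit 78) (nat_lit 0) (nat_lit 0) (XT.lf (nat_lit 0) (nat_lit 3792767192) (nat_lit 152) (nat_lit 31376964802) (nat_lit 76) (nat_lit 4317803014) (nat_lit 15) (nat_lit 5) (nat_lit 17) (nat_lit 5) (nat_lit 16) (nat_lit 5) (nat_lit 278) (nat_lit 256) (nat_lit 186)) (XT.lf (nat_lit 0) (nat_lit 9571324433) (nat_lit 152) (nat_lit 16482110804) (nat_lit 76) (nat_lit 15660194646) (nat_lit 15) (nat_lit 5) (nat_lit 17) (nat_lit 5) (nat_lit 16) (nat_lit 5) (nat_lit 279) (nat_lit 256) (nat_lit 185))))) (XT.nd (nat_lit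 234) (nat_lit 152) (nat_lit 0) (XT.nd (nat_lit 78) (nat_lit 152) (nat_lit 0) (XT.lf (nat_lit 0) (nat_lit 15804760725) (nat_lit 152) (nat_lit 406729654) (nat_lit 76) (nat_lit 27906941304) (nat_lit 15) (nat_lit 5) (nat_lit 17) (nat_lit 5) (nat_lit 16) (nat_lit 5) (nat_lit 280) (nat_lit 256) (nat_lit 184)) (XT.nd (nat_lit 78) (nat_lit 0) (nat_lit 0) (XT.lf (nat_lit 0) (nat_lit 17836704356) (nat_lit 152) (nat_lit 5122283762) (nat_lit 228) (nat_lit 23722885114) (nat_lit 13) (nat_lit 5) (nat_lit 15) (nat_lit 5) (nat_lit 16) (nat_lit 5) (nat_lit 281) (nat_lit 256) (nat_lit 183)) (XT.lf (nat_lit 0) (nat_lit 30855132819) (nat_lit 228) (nat_lit 12062336539) (nat_lit 76) (nat_lit 6519377476) (nat_lit 13) (nat_lit 5) (nat_lit 16) (nat_lit 5) (nat_lit 14) (nat_lit 4) (nat_lit 282) (nat_lit 256) (nat_lit 182)))) (XT.nd (nat_lit 78) (nat_lit 76) (nat_lit 0) (XT.lf (nat_lit 0) (nat_lit 6232156822)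 (nat_lit 76) (nat_lit 33427565516) (nat_lit 152) (nat_lit 12730377076) (nat_lit 12) (nat_lit 5) (nat_lit 13) (nat_lit 5) (nat_lit 14) (nat_lit 4) (nat_lit 283) (nat_lit 256) (nat_lit 181)) (XT.nd (nat_lit 78) (nat_lit 76) (nat_lit 0) (XT.lf (nat_lit 0) (nat_lit 26666773452) (nat_lit 76) (nat_lit 22825765303) (nat_lit 152) (nat_lit 6061184435) (nat_lit 12) (nat_lit 5) (nat_lit 13) (nat_lit 5) (nat_lit 14) (nat_lit 4) (nat_lit 284) (nat_lit 256) (nat_lit 180)) (XT.lf (nat_lit 0) (nat_lit 1078773110) (nat_lit 152) (nat_lit 10270780215) (nat_lit 76) (nat_lit 47619157428) (nat_lit 11) (nat_lit 5) (nat_lit 13) (nat_lit 5) (nat_lit 12) (nat_lit 5) (nat_lit 285) (nat_lit 256) (nat_lit 179)))))) (XT.nd (nat_lit 468) (nat_lit 228) (nat_lit 0) (XT.nd (nat_lit 234) (nat_lit 76) (nat_lit 0) (XT.nd (nat_lit 78) (nat_lit 0) (nat_lit 0) (XT.lf (nat_lit 0) (nat_lit 8737499449) (nat_lit 228) (nat_lit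 52482636937) (nat_lit 76) (nat_lit 1402179273) (nat_lit 9) (nat_lit 5) (nat_lit 12) (nat_lit 5) (nat_lit 10) (nat_lit 4) (nat_lit 286) (nat_lit 256) (nat_lit 178)) (XT.nd (nat_lit 78) (nat_lit 0) (nat_lit 0) (XT.lf (nat_lit 0) (nat_lit 17586704062) (nat_lit 228) (nat_lit 34089258384) (nat_lit 76) (nat_lit 14846038628) (nat_lit 9) (nat_lit 5) (nat_lit 12) (nat_lit 5) (nat_lit 10) (nat_lit 4) (nat_lit 287) (nat_lit 256) (nat_lit 177)) (XT.lf (nat_lit 0) (nat_lit 27139096138) (nat_lit 228) (nat_lit 14232289387) (nat_lit 76) (nat_lit 29362669163) (nat_lit 9) (nat_lit 5) (nat_lit 12) (nat_lit 5) (nat_lit 10) (nat_lit 4) (nat_lit 288) (nat_lit 256) (nat_lit 176)))) (XT.nd (nat_lit 78) (nat_lit 0) (nat_lit 0) (XT.lf (nat_lit 0) (nat_lit 7585393063) (nat_lit 76) (nat_lit 30048318266) (nat_lit 152) (nat_lit 37635131179) (nat_lit 8) (nat_lit 5) (nat_lit 9) (nat_lit 5) (nat_lit 10) (nat_lit 4)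 (nat_lit 289) (nat_lit 256) (nat_lit 175)) (XT.nd (nat_lit 78) (nat_lit 0) (nat_lit 0) (XT.lf (nat_lit 0) (nat_lit 31950781582) (nat_lit 76) (nat_lit 17402007716) (nat_lit 152) (nat_lit 30782844105) (nat_lit 8) (nat_lit 5) (nat_lit 9) (nat_lit 5) (nat_lit 10) (nat_lit 4) (nat_lit 290) (nat_lit 256) (nat_lit 174)) (XT.lf (nat_lit 0) (nat_lit 58258816519) (nat_lit 76) (nat_lit 3746648788) (nat_lit 152) (nat_lit 23386627198) (nat_lit 8) (nat_lit 5) (nat_lit 9) (nat_lit 5) (nat_lit 10) (nat_lit 4) (nat_lit 291) (nat_lit 256) (nat_lit 173))))) (XT.nd (nat_lit 234) (nat_lit 76) (nat_lit 0) (XT.nd (nat_lit 78) (nat_lit 152) (nat_lit 0) (XT.lf (nat_lit 0) (nat_lit 75931236678) (nat_lit 152) (nat_lit 4668490360) (nat_lit 0) (nat_lit 10448480685) (nat_lit 8) (nat_lit 5) (nat_lit 10) (nat_lit 4) (nat_lit 8) (nat_lit 4) (nat_lit 292) (nat_lit 256) (nat_lit 172)) (XT.nd (nat_lit 78) (nat_lit 76)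 (nat_lit 0) (XT.lf (nat_lit 0) (nat_lit 20516617785) (nat_lit 76) (nat_lit 71041770108) (nat_lit 76) (nat_lit 5551447971) (nat_lit 7) (nat_lit 4) (nat_lit 8) (nat_lit 5) (nat_lit 8) (nat_lit 4) (nat_lit 293) (nat_lit 256) (nat_lit 171)) (XT.lf (nat_lit 0) (nat_lit 4667795844) (nat_lit 152) (nat_lit 55788312470) (nat_lit 76) (nat_lit 43180893602) (nat_lit 6) (nat_lit 5) (nat_lit 8) (nat_lit 5) (nat_lit 7) (nat_lit 4) (nat_lit 294) (nat_lit 256) (nat_lit 170)))) (XT.nd (nat_lit 156) (nat_lit 76) (nat_lit 0) (XT.nd (nat_lit 78) (nat_lit 0) (nat_lit 0) (XT.lf (nat_lit 0) (nat_lit 15401508110) (nat_lit 152) (nat_lit 33468677706) (nat_lit 76) (nat_lit 61804879122) (nat_lit 6) (nat_lit 5) (nat_lit 8) (nat_lit 5) (nat_lit 7) (nat_lit 4) (nat_lit 295) (nat_lit 256) (nat_lit 169)) (XT.lf (nat_lit 0) (nat_lit 26991001922) (nat_lit 152) (nat_lit 9368536826) (nat_lit 76) (nat_lit 81916874219) (nat_lit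 6) (nat_lit 5) (nat_lit 8) (nat_lit 5) (nat_lit 7) (nat_lit 4) (nat_lit 296) (nat_lit 256) (nat_lit 168))) (XT.nd (nat_lit 78) (nat_lit 0) (nat_lit 0) (XT.lf (nat_lit 0) (nat_lit 17531944696) (nat_lit 76) (nat_lit 22394654757) (nat_lit 152) (nat_lit 86525760080) (nat_lit 5) (nat_lit 5) (nat_lit 6) (nat_lit 5) (nat_lit 7) (nat_lit 4) (nat_lit 297) (nat_lit 256) (nat_lit 167)) (XT.lf (nat_lit 0) (nat_lit 47112690947) (nat_lit 76) (nat_lit 7037896795) (nat_lit 152) (nat_lit 81111516415) (nat_lit 5) (nat_lit 5) (nat_lit 6) (nat_lit 5) (nat_lit 7) (nat_lit 4) (nat_lit 298) (nat_lit 256) (nat_lit 166))))))) (XT.nd (nat_lit 1014) (nat_lit 76) (nat_lit 0) (XT.nd (nat_lit 468) (nat_lit 152) (nat_lit 0) (XT.nd (nat_lit 234) (nat_lit 76) (nat_lit 0) (XT.nd (nat_lit 78) (nat_lit 0) (nat_lit 0) (XT.lf (nat_lit 0) (nat_lit 69739650511) (nat_lit 152) (nat_lit 65950733863) (nat_lit 0) (nat_lit 9068076888)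 (nat_lit 5) (nat_lit 5) (nat_lit 7) (nat_lit 4) (nat_lit 5) (nat_lit 4) (nat_lit 299) (nat_lit 256) (nat_lit 165)) (XT.nd (nat_lit 78) (nat_lit 0) (nat_lit 0) (XT.lf (nat_lit 0) (nat_lit 86756363196) (nat_lit 152) (nat_lit 42163024872) (nat_lit 0) (nat_lit 26080701821) (nat_lit 5) (nat_lit 5) (nat_lit 7) (nat_lit 4) (nat_lit 5) (nat_lit 4) (nat_lit 300) (nat_lit 256) (nat_lit 164)) (XT.lf (nat_lit 0) (nat_lit 105132303991) (nat_lit 152) (nat_lit 16476060450) (nat_lit 0) (nat_lit 44452857660) (nat_lit 5) (nat_lit 5) (nat_lit 7) (nat_lit 4) (nat_lit 5) (nat_lit 4) (nat_lit 301) (nat_lit 256) (nat_lit 163)))) (XT.nd (nat_lit 78) (nat_lit 0) (nat_lit 0) (XT.lf (nat_lit 0) (nat_lit 11855435342) (nat_lit 76) (nat_lit 113406055521) (nat_lit 76) (nat_lit 52723104602) (nat_lit 4) (nat_lit 4) (nat_lit 5) (nat_lit 5) (nat_lit 5) (nat_lit 4) (nat_lit 302) (nat_lit 256) (nat_lit 162)) (XT.nd (nat_lit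 78) (nat_lit 0) (nat_lit 0) (XT.lf (nat_lit 0) (nat_lit 43387064450) (nat_lit 76) (nat_lit 104062543242) (nat_lit 76) (nat_lit 43376347333) (nat_lit 4) (nat_lit 4) (nat_lit 5) (nat_lit 5) (nat_lit 5) (nat_lit 4) (nat_lit 303) (nat_lit 256) (nat_lit 161)) (XT.lf (nat_lit 0) (nat_lit 77438080827) (nat_lit 76) (nat_lit 93972943332) (nat_lit 76) (nat_lit 33283742803) (nat_lit 4) (nat_lit 4) (nat_lit 5) (nat_lit 5) (nat_lit 5) (nat_lit 4) (nat_lit 304) (nat_lit 256) (nat_lit 160))))) (XT.nd (nat_lit 234) (nat_lit 76) (nat_lit 0) (XT.nd (nat_lit 78) (nat_lit 76) (nat_lit 0) (XT.lf (nat_lit 0) (nat_lit 114210268273) (nat_lit 76) (nat_lit 83077465570) (nat_lit 76) (nat_lit 22385482985) (nat_lit 4) (nat_lit 4) (nat_lit 5) (nat_lit 5) (nat_lit 5) (nat_lit 4) (nat_lit 305) (nat_lit 256) (nat_lit 159)) (XT.nd (nat_lit 78) (nat_lit 76) (nat_lit 0) (XT.lf (nat_lit 0) (nat_lit 153921536047) (nat_lit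 76) (nat_lit 71311544162) (nat_lit 76) (nat_lit 10616985600) (nat_lit 4) (nat_lit 4) (nat_lit 5) (nat_lit 5) (nat_lit 5) (nat_lit 4) (nat_lit 306) (nat_lit 256) (nat_lit 158)) (XT.lf (nat_lit 0) (nat_lit 1986863866) (nat_lit 152) (nat_lit 56564266884) (nat_lit 76) (nat_lit 194766021936) (nat_lit 3) (nat_lit 5) (nat_lit 5) (nat_lit 5) (nat_lit 4) (nat_lit 4) (nat_lit 307) (nat_lit 256) (nat_lit 157)))) (XT.nd (nat_lit 156) (nat_lit 76) (nat_lit 0) (XT.nd (nat_lit 78) (nat_lit 0) (nat_lit 0) (XT.lf (nat_lit 0) (nat_lit 15024106271) (nat_lit 152) (nat_lit 29449011168) (nat_lit 76) (nat_lit 227686536042) (nat_lit 3) (nat_lit 5) (nat_lit 5) (nat_lit 5) (nat_lit 4) (nat_lit 4) (nat_lit 308) (nat_lit 256) (nat_lit 156)) (XT.lf (nat_lit 0) (nat_lit 29103103964) (nat_lit 152) (nat_lit 166740859) (nat_lit 76) (nat_lit 263239809735) (nat_lit 3) (nat_lit 5) (nat_lit 5) (nat_lit 5) (nat_lit 4)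 (nat_lit 4) (nat_lit 309) (nat_lit 256) (nat_lit 155))) (XT.nd (nat_lit 78) (nat_lit 0) (nat_lit 0) (XT.lf (nat_lit 0) (nat_lit 33112489435) (nat_lit 76) (nat_lit 11991154776) (nat_lit 152) (nat_lit 269320395813) (nat_lit 2) (nat_lit 5) (nat_lit 3) (nat_lit 5) (nat_lit 4) (nat_lit 4) (nat_lit 310) (nat_lit 256) (nat_lit 154)) (XT.lf (nat_lit 0) (nat_lit 62548195833) (nat_lit 152) (nat_lit 269190257779) (nat_lit 0) (nat_lit 6340007228) (nat_lit 2) (nat_lit 5) (nat_lit 4) (nat_lit 4) (nat_lit 2) (nat_lit 4) (nat_lit 311) (nat_lit 256) (nat_lit 153)))))) (XT.nd (nat_lit 468) (nat_lit 76) (nat_lit 0) (XT.nd (nat_lit 234) (nat_lit 0) (nat_lit 0) (XT.nd (nat_lit 78) (nat_lit 0) (nat_lit 0) (XT.lf (nat_lit 0) (nat_lit 81698734191) (nat_lit 152) (nat_lit 256412626613) (nat_lit 0) (nat_lit 25489042528) (nat_lit 2) (nat_lit 5) (nat_lit 4) (nat_lit 4) (nat_lit 2) (nat_lit 4) (nat_lit 312) (nat_lit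 256) (nat_lit 152)) (XT.nd (nat_lit 78) (nat_lit 0) (nat_lit 0) (XT.lf (nat_lit 0) (nat_lit 102380356396) (nat_lit 152) (nat_lit 242614550237) (nat_lit 0) (nat_lit 46169273012) (nat_lit 2) (nat_lit 5) (nat_lit 4) (nat_lit 4) (nat_lit 2) (nat_lit 4) (nat_lit 313) (nat_lit 256) (nat_lit 151)) (XT.lf (nat_lit 0) (nat_lit 124715620209) (nat_lit 152) (nat_lit 227714262270) (nat_lit 0) (nat_lit 68503248196) (nat_lit 2) (nat_lit 5) (nat_lit 4) (nat_lit 4) (nat_lit 2) (nat_lit 4) (nat_lit 314) (nat_lit 256) (nat_lit 150)))) (XT.nd (nat_lit 78) (nat_lit 0) (nat_lit 0) (XT.lf (nat_lit 0) (nat_lit 148836882751) (nat_lit 152) (nat_lit 211623464711) (nat_lit 0) (nat_lit 92623317561) (nat_lit 2) (nat_lit 5) (nat_lit 4) (nat_lit 4) (nat_lit 2) (nat_lit 4) (nat_lit 315) (nat_lit 256) (nat_lit 149)) (XT.nd (nat_lit 78) (nat_lit 0) (nat_lit 0) (XT.lf (nat_lit 0) (nat_lit 174887084834) (nat_lit 152)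 (nat_lit 194246804685) (nat_lit 0) (nat_lit 118672414853) (nat_lit 2) (nat_lit 5) (nat_lit 4) (nat_lit 4) (nat_lit 2) (nat_lit 4) (nat_lit 316) (nat_lit 256) (nat_lit 148)) (XT.lf (nat_lit 0) (nat_lit 203020598029) (nat_lit 152) (nat_lit 175481309392) (nat_lit 0) (nat_lit 146804905091) (nat_lit 2) (nat_lit 5) (nat_lit 4) (nat_lit 4) (nat_lit 2) (nat_lit 4) (nat_lit 317) (nat_lit 256) (nat_lit 147))))) (XT.nd (nat_lit 234) (nat_lit 76) (nat_lit 0) (XT.nd (nat_lit 78) (nat_lit 0) (nat_lit 0) (XT.lf (nat_lit 0) (nat_lit 233404139449) (nat_lit 152) (nat_lit 155215775896) (nat_lit 0) (nat_lit 177187499330) (nat_lit 2) (nat_lit 5) (nat_lit 4) (nat_lit 4) (nat_lit 2) (nat_lit 4) (nat_lit 318) (nat_lit 256) (nat_lit 146)) (XT.nd (nat_lit 78) (nat_lit 0) (nat_lit 0) (XT.lf (nat_lit 0) (nat_lit 266217759711) (nat_lit 152) (nat_lit 133330112148) (nat_lit 0) (nat_lit 210000242572) (nat_lit 2)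 (nat_lit 5) (nat_lit 4) (nat_lit 4) (nat_lit 2) (nat_lit 4) (nat_lit 319) (nat_lit 256) (nat_lit 145)) (XT.lf (nat_lit 0) (nat_lit 301655909897) (nat_lit 152) (nat_lit 109694625325) (nat_lit 0) (nat_lit 245437580703) (nat_lit 2) (nat_lit 5) (nat_lit 4) (nat_lit 4) (nat_lit 2) (nat_lit 4) (nat_lit 320) (nat_lit 256) (nat_lit 144)))) (XT.nd (nat_lit 156) (nat_lit 76) (nat_lit 0) (XT.nd (nat_lit 78) (nat_lit 0) (nat_lit 0) (XT.lf (nat_lit 0) (nat_lit 339928593861) (nat_lit 152) (nat_lit 84169253283) (nat_lit 0) (nat_lit 283709512763) (nat_lit 2) (nat_lit 5) (nat_lit 4) (nat_lit 4) (nat_lit 2) (nat_lit 4) (nat_lit 321) (nat_lit 256) (nat_lit 143)) (XT.lf (nat_lit 0) (nat_lit 381262612693) (nat_lit 152) (nat_lit 56602734558) (nat_lit 0) (nat_lit 325042835388) (nat_lit 2) (nat_lit 5) (nat_lit 4) (nat_lit 4) (nat_lit 2) (nat_lit 4) (nat_lit 322) (nat_lit 256) (nat_lit 142))) (XT.nd (nat_lit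 78) (nat_lit 76) (nat_lit 0) (XT.lf (nat_lit 0) (nat_lit 425902908726) (nat_lit 152) (nat_lit 26831712002) (nat_lit 0) (nat_lit 369682486786) (nat_lit 2) (nat_lit 5) (nat_lit 4) (nat_lit 4) (nat_lit 2) (nat_lit 4) (nat_lit 323) (nat_lit 256) (nat_lit 141)) (XT.lf (nat_lit 0) (nat_lit 5600389418) (nat_lit 76) (nat_lit 468648317130) (nat_lit 76) (nat_lit 412427298305) (nat_lit 1) (nat_lit 4) (nat_lit 2) (nat_lit 5) (nat_lit 2) (nat_lit 4) (nat_lit 324) (nat_lit 256) (nat_lit 140))))))))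
noncomputable def xc80 : XT := (XT.nd (nat_lit 33228) (nat_lit 0) (nat_lit 456) (XT.nd (nat_lit 32214) (nat_lit 0) (nat_lit 1976) (XT.nd (nat_lit 468) (nat_lit 0) (nat_lit 0) (XT.nd (nat_lit 234) (nat_lit 0) (nat_lit 0) (XT.nd (nat_lit 78) (nat_lit 0) (nat_lit 0) (XT.lf (nat_lit 0) (nat_lit 42152264258) (nat_lit 76) (nat_lit 485043131828) (nat_lit 76) (nat_lit 428821560331) (nat_lit 1) (nat_lit 4) (nat_lit 2) (nat_lit 5) (nat_lit 2) (nat_lit 4) (nat_lit 325) (nat_lit 256) (nat_lit 139)) (XT.nd (nat_lit 78) (nat_lit 0) (nat_lit 0) (XT.lf (nat_lit 0) (nat_lit 81627605814) (nat_lit 76) (nat_lit 502749845836) (nat_lit 76) (nat_lit 446527762606) (nat_lit 1) (nat_lit 4) (nat_lit 2) (nat_lit 5) (nat_lit 2) (nat_lit 4) (nat_lit 326) (nat_lit 256) (nat_lit 138)) (XT.lf (nat_lit 0) (nat_lit 124260342037) (nat_lit 76) (nat_lit 521873387829) (nat_lit 76) (nat_lit 465650830773) (nat_lit 1) (nat_lit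 4) (nat_lit 2) (nat_lit 5) (nat_lit 2) (nat_lit 4) (nat_lit 327) (nat_lit 256) (nat_lit 137)))) (XT.nd (nat_lit 78) (nat_lit 0) (nat_lit 0) (XT.lf (nat_lit 0) (nat_lit 170303111364) (nat_lit 76) (nat_lit 542527082501) (nat_lit 76) (nat_lit 486304086717) (nat_lit 1) (nat_lit 4) (nat_lit 2) (nat_lit 5) (nat_lit 2) (nat_lit 4) (nat_lit 328) (nat_lit 256) (nat_lit 136)) (XT.nd (nat_lit 78) (nat_lit 0) (nat_lit 0) (XT.lf (nat_lit 0) (nat_lit 220028759834) (nat_lit 76) (nat_lit 564833322117) (nat_lit 76) (nat_lit 508609920102) (nat_lit 1) (nat_lit 4) (nat_lit 2) (nat_lit 5) (nat_lit 2) (nat_lit 4) (nat_lit 329) (nat_lit 256) (nat_lit 135)) (XT.lf (nat_lit 0) (nat_lit 273731957958) (nat_lit 76) (nat_lit 588924291800) (nat_lit 76) (nat_lit 532700513647) (nat_lit 1) (nat_lit 4) (nat_lit 2) (nat_lit 5) (nat_lit 2) (nat_lit 4) (nat_lit 330) (nat_lit 256) (nat_lit 134))))) (XT.nd (nat_lit 234)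 (nat_lit 0) (nat_lit 0) (XT.nd (nat_lit 78) (nat_lit 0) (nat_lit 0) (XT.lf (nat_lit 0) (nat_lit 331730946910) (nat_lit 76) (nat_lit 614942752852) (nat_lit 76) (nat_lit 558718626422) (nat_lit 1) (nat_lit 4) (nat_lit 2) (nat_lit 5) (nat_lit 2) (nat_lit 4) (nat_lit 331) (nat_lit 256) (nat_lit 133)) (XT.nd (nat_lit 78) (nat_lit 0) (nat_lit 0) (XT.lf (nat_lit 0) (nat_lit 394369424401) (nat_lit 76) (nat_lit 643042888746) (nat_lit 76) (nat_lit 586818439838) (nat_lit 1) (nat_lit 4) (nat_lit 2) (nat_lit 5) (nat_lit 2) (nat_lit 4) (nat_lit 332) (nat_lit 256) (nat_lit 132)) (XT.lf (nat_lit 0) (nat_lit 462018581410) (nat_lit 76) (nat_lit 673391218806) (nat_lit 76) (nat_lit 617166471306) (nat_lit 1) (nat_lit 4) (nat_lit 2) (nat_lit 5) (nat_lit 2) (nat_lit 4) (nat_lit 333) (nat_lit 256) (nat_lit 131)))) (XT.nd (nat_lit 78) (nat_lit 0) (nat_lit 0) (XT.lf (nat_lit 0) (nat_lit 535079301830) (nat_lit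 76) (nat_lit 706167584987) (nat_lit 76) (nat_lit 649942561015) (nat_lit 1) (nat_lit 4) (nat_lit 2) (nat_lit 5) (nat_lit 2) (nat_lit 4) (nat_lit 334) (nat_lit 256) (nat_lit 130)) (XT.nd (nat_lit 78) (nat_lit 0) (nat_lit 0) (XT.lf (nat_lit 0) (nat_lit 613984538078) (nat_lit 76) (nat_lit 741566217609) (nat_lit 76) (nat_lit 685340937642) (nat_lit 1) (nat_lit 4) (nat_lit 2) (nat_lit 5) (nat_lit 2) (nat_lit 4) (nat_lit 335) (nat_lit 256) (nat_lit 129)) (XT.lf (nat_lit 0) (nat_lit 699201876740) (nat_lit 76) (nat_lit 779796886345) (nat_lit 76) (nat_lit 723571369347) (nat_lit 1) (nat_lit 4) (nat_lit 2) (nat_lit 5) (nat_lit 2) (nat_lit 4) (nat_lit 336) (nat_lit 256) (nat_lit 128)))))) (XT.nd (nat_lit 468) (nat_lit 456) (nat_lit 0) (XT.nd (nat_lit 234) (nat_lit 0) (nat_lit 76) (XT.nd (nat_lit 78) (nat_lit 0) (nat_lit 0) (XT.lf (nat_lit 0) (nat_lit 1264009509) (nat_lit 532) (nat_lit 3214202614)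 (nat_lit 532) (nat_lit 3214202614) (nat_lit 33) (nat_lit 3) (nat_lit 40) (nat_lit 3) (nat_lit 40) (nat_lit 5) (nat_lit 257) (nat_lit 257) (nat_lit 206)) (XT.nd (nat_lit 78) (nat_lit 0) (nat_lit 76) (XT.lf (nat_lit 76) (nat_lit 59958316) (nat_lit 0) (nat_lit 2821757510) (nat_lit 532) (nat_lit 13096839334) (nat_lit 34) (nat_lit 5) (nat_lit 33) (nat_lit 3) (nat_lit 40) (nat_lit 5) (nat_lit 258) (nat_lit 257) (nat_lit 205)) (XT.lf (nat_lit 0) (nat_lit 3510312739) (nat_lit 456) (nat_lit 9285591977) (nat_lit 532) (nat_lit 3804292049) (nat_lit 34) (nat_lit 5) (nat_lit 40) (nat_lit 5) (nat_lit 41) (nat_lit 5) (nat_lit 259) (nat_lit 257) (nat_lit 204)))) (XT.nd (nat_lit 78) (nat_lit 0) (nat_lit 76) (XT.lf (nat_lit 0) (nat_lit 4239153152) (nat_lit 456) (nat_lit 2210804200) (nat_lit 532) (nat_lit 10817751266) (nat_lit 34) (nat_lit 5) (nat_lit 40) (nat_lit 5) (nat_lit 41) (nat_lit 5) (nat_lit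 260) (nat_lit 257) (nat_lit 203)) (XT.nd (nat_lit 78) (nat_lit 0) (nat_lit 0) (XT.lf (nat_lit 0) (nat_lit 5155237771) (nat_lit 456) (nat_lit 12292221550) (nat_lit 532) (nat_lit 530972492) (nat_lit 35) (nat_lit 5) (nat_lit 41) (nat_lit 5) (nat_lit 42) (nat_lit 5) (nat_lit 261) (nat_lit 257) (nat_lit 202)) (XT.lf (nat_lit 0) (nat_lit 6353964095) (nat_lit 456) (nat_lit 4585504623) (nat_lit 532) (nat_lit 7789911820) (nat_lit 35) (nat_lit 5) (nat_lit 41) (nat_lit 5) (nat_lit 42) (nat_lit 5) (nat_lit 262) (nat_lit 257) (nat_lit 201))))) (XT.nd (nat_lit 234) (nat_lit 228) (nat_lit 0) (XT.nd (nat_lit 78) (nat_lit 380) (nat_lit 0) (XT.lf (nat_lit 76) (nat_lit 3919034136) (nat_lit 0) (nat_lit 3805109300) (nat_lit 532) (nat_lit 11810324800) (nat_lit 36) (nat_lit 5) (nat_lit 35) (nat_lit 5) (nat_lit 42) (nat_lit 5) (nat_lit 263) (nat_lit 257) (nat_lit 200)) (XT.nd (nat_lit 78) (nat_lit 456) (nat_lit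 0) (XT.lf (nat_lit 0) (nat_lit 9408784256) (nat_lit 456) (nat_lit 7142245429) (nat_lit 76) (nat_lit 3836645005) (nat_lit 36) (nat_lit 5) (nat_lit 42) (nat_lit 5) (nat_lit 37) (nat_lit 5) (nat_lit 264) (nat_lit 257) (nat_lit 199)) (XT.lf (nat_lit 0) (nat_lit 1994965519) (nat_lit 456) (nat_lit 9363765766) (nat_lit 532) (nat_lit 9940055716) (nat_lit 30) (nat_lit 5) (nat_lit 36) (nat_lit 5) (nat_lit 37) (nat_lit 5) (nat_lit 265) (nat_lit 257) (nat_lit 198)))) (XT.nd (nat_lit 156) (nat_lit 228) (nat_lit 0) (XT.nd (nat_lit 78) (nat_lit 0) (nat_lit 0) (XT.lf (nat_lit 0) (nat_lit 12254918664) (nat_lit 456) (nat_lit 1389617995) (nat_lit 532) (nat_lit 8623947944) (nat_lit 30) (nat_lit 5) (nat_lit 36) (nat_lit 5) (nat_lit 37) (nat_lit 5) (nat_lit 266) (nat_lit 257) (nat_lit 197)) (XT.lf (nat_lit 0) (nat_lit 16272652163) (nat_lit 532) (nat_lit 168386033) (nat_lit 76) (nat_lit 6862043156) (nat_lit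 30) (nat_lit 5) (nat_lit 37) (nat_lit 5) (nat_lit 31) (nat_lit 5) (nat_lit 267) (nat_lit 257) (nat_lit 196))) (XT.nd (nat_lit 78) (nat_lit 0) (nat_lit 0) (XT.lf (nat_lit 0) (nat_lit 10963224651) (nat_lit 228) (nat_lit 8434353272) (nat_lit 304) (nat_lit 5000016177) (nat_lit 27) (nat_lit 5) (nat_lit 30) (nat_lit 5) (nat_lit 31) (nat_lit 5) (nat_lit 268) (nat_lit 257) (nat_lit 195)) (XT.lf (nat_lit 0) (nat_lit 22769787601) (nat_lit 304) (nat_lit 2603826018) (nat_lit 76) (nat_lit 206338785) (nat_lit 27) (nat_lit 5) (nat_lit 31) (nat_lit 5) (nat_lit 28) (nat_lit 5) (nat_lit 269) (nat_lit 257) (nat_lit 194))))))) (XT.nd (nat_lit 936) (nat_lit 608) (nat_lit 0) (XT.nd (nat_lit 468) (nat_lit 304) (nat_lit 0) (XT.nd (nat_lit 234) (nat_lit 152) (nat_lit 0) (XT.nd (nat_lit 78) (nat_lit 228) (nat_lit 0) (XT.lf (nat_lit 0) (nat_lit 20074821) (nat_lit 228) (nat_lit 17495415321) (nat_lit 76) (nat_lit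 9306889061) (nat_lit 24) (nat_lit 5) (nat_lit 27) (nat_lit 5) (nat_lit 25) (nat_lit 5) (nat_lit 270) (nat_lit 257) (nat_lit 193)) (XT.nd (nat_lit 78) (nat_lit 228) (nat_lit 0) (XT.lf (nat_lit 0) (nat_lit 2986540289) (nat_lit 228) (nat_lit 5886541539) (nat_lit 76) (nat_lit 19280402492) (nat_lit 24) (nat_lit 5) (nat_lit 27) (nat_lit 5) (nat_lit 25) (nat_lit 5) (nat_lit 271) (nat_lit 257) (nat_lit 192)) (XT.lf (nat_lit 0) (nat_lit 6363218371) (nat_lit 304) (nat_lit 22605806565) (nat_lit 76) (nat_lit 608271059) (nat_lit 21) (nat_lit 5) (nat_lit 25) (nat_lit 5) (nat_lit 22) (nat_lit 5) (nat_lit 272) (nat_lit 257) (nat_lit 191)))) (XT.nd (nat_lit 78) (nat_lit 152) (nat_lit 0) (XT.lf (nat_lit 0) (nat_lit 10395500359) (nat_lit 304) (nat_lit 10156832252) (nat_lit 76) (nat_lit 10531888511) (nat_lit 21) (nat_lit 5) (nat_lit 25) (nat_lit 5) (nat_lit 22) (nat_lit 5) (nat_lit 273) (nat_lit 257)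 (nat_lit 190)) (XT.nd (nat_lit 78) (nat_lit 0) (nat_lit 0) (XT.lf (nat_lit 0) (nat_lit 3448550953) (nat_lit 152) (nat_lit 11375373022) (nat_lit 228) (nat_lit 17881934236) (nat_lit 19) (nat_lit 5) (nat_lit 21) (nat_lit 5) (nat_lit 22) (nat_lit 5) (nat_lit 274) (nat_lit 257) (nat_lit 189)) (XT.lf (nat_lit 0) (nat_lit 18708277621) (nat_lit 152) (nat_lit 1167083956) (nat_lit 228) (nat_lit 14560405001) (nat_lit 19) (nat_lit 5) (nat_lit 21) (nat_lit 5) (nat_lit 22) (nat_lit 5) (nat_lit 275) (nat_lit 257) (nat_lit 188))))) (XT.nd (nat_lit 234) (nat_lit 152) (nat_lit 0) (XT.nd (nat_lit 78) (nat_lit 152) (nat_lit 0) (XT.lf (nat_lit 0) (nat_lit 25559633353) (nat_lit 228) (nat_lit 1363854095) (nat_lit 76) (nat_lit 9362319221) (nat_lit 19) (nat_lit 5) (nat_lit 22) (nat_lit 5) (nat_lit 20) (nat_lit 5) (nat_lit 276) (nat_lit 257) (nat_lit 187)) (XT.nd (nat_lit 78) (nat_lit 0) (nat_lit 0) (XT.lf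 (nat_lit 0) (nat_lit 14850819787) (nat_lit 152) (nat_lit 17227560191) (nat_lit 228) (nat_lit 6175125219) (nat_lit 17) (nat_lit 5) (nat_lit 19) (nat_lit 5) (nat_lit 20) (nat_lit 5) (nat_lit 277) (nat_lit 257) (nat_lit 186)) (XT.lf (nat_lit 0) (nat_lit 32429864387) (nat_lit 152) (nat_lit 6718633059) (nat_lit 228) (nat_lit 1227763842) (nat_lit 17) (nat_lit 5) (nat_lit 19) (nat_lit 5) (nat_lit 20) (nat_lit 5) (nat_lit 278) (nat_lit 257) (nat_lit 185)))) (XT.nd (nat_lit 78) (nat_lit 0) (nat_lit 0) (XT.lf (nat_lit 0) (nat_lit 4240667561) (nat_lit 152) (nat_lit 33671322858) (nat_lit 76) (nat_lit 4722464377) (nat_lit 15) (nat_lit 5) (nat_lit 17) (nat_lit 5) (nat_lit 16) (nat_lit 5) (nat_lit 279) (nat_lit 257) (nat_lit 184)) (XT.nd (nat_lit 78) (nat_lit 0) (nat_lit 0) (XT.lf (nat_lit 0) (nat_lit 10470807233) (nat_lit 152) (nat_lit 17600865660) (nat_lit 76) (nat_lit 16967859404) (nat_lit 15)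 (nat_lit 5) (nat_lit 17) (nat_lit 5) (nat_lit 16) (nat_lit 5) (nat_lit 280) (nat_lit 257) (nat_lit 183)) (XT.lf (nat_lit 0) (nat_lit 17193009033) (nat_lit 152) (nat_lit 254255056) (nat_lit 76) (nat_lit 30190282892) (nat_lit 15) (nat_lit 5) (nat_lit 17) (nat_lit 5) (nat_lit 16) (nat_lit 5) (nat_lit 281) (nat_lit 257) (nat_lit 182)))))) (XT.nd (nat_lit 468) (nat_lit 152) (nat_lit 0) (XT.nd (nat_lit 234) (nat_lit 228) (nat_lit 0) (XT.nd (nat_lit 78) (nat_lit 76) (nat_lit 0) (XT.lf (nat_lit 0) (nat_lit 19443969803) (nat_lit 152) (nat_lit 5470766368) (nat_lit 228) (nat_lit 25491748081) (nat_lit 13) (nat_lit 5) (nat_lit 15) (nat_lit 5) (nat_lit 16) (nat_lit 5) (nat_lit 282) (nat_lit 257) (nat_lit 181)) (XT.nd (nat_lit 78) (nat_lit 76) (nat_lit 0) (XT.lf (nat_lit 0) (nat_lit 33435120548) (nat_lit 228) (nat_lit 12852514510) (nat_lit 76) (nat_lit 7094847689) (nat_lit 13) (nat_lit 5) (nat_lit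 16) (nat_lit 5) (nat_lit 14) (nat_lit 4) (nat_lit 283) (nat_lit 257) (nat_lit 180)) (XT.lf (nat_lit 0) (nat_lit 6901112777) (nat_lit 76) (nat_lit 36038797205) (nat_lit 152) (nat_lit 13632447498) (nat_lit 12) (nat_lit 5) (nat_lit 13) (nat_lit 5) (nat_lit 14) (nat_lit 4) (nat_lit 284) (nat_lit 257) (nat_lit 179)))) (XT.nd (nat_lit 78) (nat_lit 228) (nat_lit 0) (XT.lf (nat_lit 0) (nat_lit 28957877744) (nat_lit 76) (nat_lit 24593517683) (nat_lit 152) (nat_lit 6438338686) (nat_lit 12) (nat_lit 5) (nat_lit 13) (nat_lit 5) (nat_lit 14) (nat_lit 4) (nat_lit 285) (nat_lit 257) (nat_lit 178)) (XT.nd (nat_lit 78) (nat_lit 152) (nat_lit 0) (XT.lf (nat_lit 0) (nat_lit 1259844300) (nat_lit 152) (nat_lit 10941092460) (nat_lit 76) (nat_lit 51477405831) (nat_lit 11) (nat_lit 5) (nat_lit 13) (nat_lit 5) (nat_lit 12) (nat_lit 5) (nat_lit 286) (nat_lit 257) (nat_lit 177)) (XT.lf (nat_lit 0) (nat_lit 9529148742)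 (nat_lit 228) (nat_lit 56527515238) (nat_lit 76) (nat_lit 1567762507) (nat_lit 9) (nat_lit 5) (nat_lit 12) (nat_lit 5) (nat_lit 10) (nat_lit 4) (nat_lit 287) (nat_lit 257) (nat_lit 176))))) (XT.nd (nat_lit 234) (nat_lit 76) (nat_lit 0) (XT.nd (nat_lit 78) (nat_lit 76) (nat_lit 0) (XT.lf (nat_lit 0) (nat_lit 19079426810) (nat_lit 228) (nat_lit 36674054004) (nat_lit 76) (nat_lit 16083174396) (nat_lit 9) (nat_lit 5) (nat_lit 12) (nat_lit 5) (nat_lit 10) (nat_lit 4) (nat_lit 288) (nat_lit 257) (nat_lit 175)) (XT.nd (nat_lit 78) (nat_lit 76) (nat_lit 0) (XT.lf (nat_lit 0) (nat_lit 29389655702) (nat_lit 228) (nat_lit 15239071565) (nat_lit 76) (nat_lit 31757472212) (nat_lit 9) (nat_lit 5) (nat_lit 12) (nat_lit 5) (nat_lit 10) (nat_lit 4) (nat_lit 289) (nat_lit 257) (nat_lit 174)) (XT.lf (nat_lit 0) (nat_lit 8320688747) (nat_lit 76) (nat_lit 32400357088) (nat_lit 152) (nat_lit 40562964703)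 (nat_lit 8) (nat_lit 5) (nat_lit 9) (nat_lit 5) (nat_lit 10) (nat_lit 4) (nat_lit 290) (nat_lit 257) (nat_lit 173)))) (XT.nd (nat_lit 156) (nat_lit 76) (nat_lit 0) (XT.nd (nat_lit 78) (nat_lit 0) (nat_lit 0) (XT.lf (nat_lit 0) (nat_lit 34625792478) (nat_lit 76) (nat_lit 18746180704) (nat_lit 152) (nat_lit 33168641106) (nat_lit 8) (nat_lit 5) (nat_lit 9) (nat_lit 5) (nat_lit 10) (nat_lit 4) (nat_lit 291) (nat_lit 257) (nat_lit 172)) (XT.lf (nat_lit 0) (nat_lit 63029659220) (nat_lit 76) (nat_lit 4001947701) (nat_lit 152) (nat_lit 25186417996) (nat_lit 8) (nat_lit 5) (nat_lit 9) (nat_lit 5) (nat_lit 10) (nat_lit 4) (nat_lit 292) (nat_lit 257) (nat_lit 171))) (XT.nd (nat_lit 78) (nat_lit 76) (nat_lit 0) (XT.lf (nat_lit 0) (nat_lit 82067562467) (nat_lit 152) (nat_lit 4935947594) (nat_lit 0) (nat_lit 11323442725) (nat_lit 8) (nat_lit 5) (nat_lit 10) (nat_lit 4) (nat_lit 8) (nat_lit 4) (nat_lit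 293) (nat_lit 257) (nat_lit 170)) (XT.lf (nat_lit 0) (nat_lit 22261285100) (nat_lit 76) (nat_lit 76681506190) (nat_lit 76) (nat_lit 5930899699) (nat_lit 7) (nat_lit 4) (nat_lit 8) (nat_lit 5) (nat_lit 8) (nat_lit 4) (nat_lit 294) (nat_lit 257) (nat_lit 169))))))))
noncomputable def xc81 : XT := (XT.nd (nat_lit 1950) (nat_lit 76) (nat_lit 0) (XT.nd (nat_lit 936) (nat_lit 152) (nat_lit 0) (XT.nd (nat_lit 468) (nat_lit 76) (nat_lit 0) (XT.nd (nat_lit 234) (nat_lit 76) (nat_lit 0) (XT.nd (nat_lit 78) (nat_lit 0) (nat_lit 0) (XT.lf (nat_lit 0) (nat_lit 5098098538) (nat_lit 152) (nat_lit 60152567781) (nat_lit 76) (nat_lit 46672614124) (nat_lit 6) (nat_lit 5) (nat_lit 8) (nat_lit 5) (nat_lit 7) (nat_lit 4) (nat_lit 295) (nat_lit 257) (nat_lit 168)) (XT.nd (nat_lit 78) (nat_lit 0) (nat_lit 0) (XT.lf (nat_lit 0) (nat_lit 16686294524) (nat_lit 152) (nat_lit 36054681471) (nat_lit 76) (nat_lit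 66783759298) (nat_lit 6) (nat_lit 5) (nat_lit 8) (nat_lit 5) (nat_lit 7) (nat_lit 4) (nat_lit 296) (nat_lit 257) (nat_lit 167)) (XT.lf (nat_lit 0) (nat_lit 29199046673) (nat_lit 152) (nat_lit 10033306391) (nat_lit 76) (nat_lit 88502159200) (nat_lit 6) (nat_lit 5) (nat_lit 8) (nat_lit 5) (nat_lit 7) (nat_lit 4) (nat_lit 297) (nat_lit 257) (nat_lit 166)))) (XT.nd (nat_lit 78) (nat_lit 0) (nat_lit 0) (XT.lf (nat_lit 0) (nat_lit 19017069010) (nat_lit 76) (nat_lit 24150796584) (nat_lit 152) (nat_lit 93396807413) (nat_lit 5) (nat_lit 5) (nat_lit 6) (nat_lit 5) (nat_lit 7) (nat_lit 4) (nat_lit 298) (nat_lit 257) (nat_lit 165)) (XT.nd (nat_lit 78) (nat_lit 0) (nat_lit 0) (XT.lf (nat_lit 0) (nat_lit 50958158759) (nat_lit 76) (nat_lit 7568122471) (nat_lit 152) (nat_lit 87553203031) (nat_lit 5) (nat_lit 5) (nat_lit 6) (nat_lit 5) (nat_lit 7) (nat_lit 4) (nat_lit 299) (nat_lit 257) (nat_lit 164))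 (XT.lf (nat_lit 0) (nat_lit 75359966491) (nat_lit 152) (nat_lit 71153411296) (nat_lit 0) (nat_lit 9822379498) (nat_lit 5) (nat_lit 5) (nat_lit 7) (nat_lit 4) (nat_lit 5) (nat_lit 4) (nat_lit 300) (nat_lit 257) (nat_lit 163))))) (XT.nd (nat_lit 234) (nat_lit 0) (nat_lit 0) (XT.nd (nat_lit 78) (nat_lit 76) (nat_lit 0) (XT.lf (nat_lit 0) (nat_lit 93734968492) (nat_lit 152) (nat_lit 45468121236) (nat_lit 0) (nat_lit 28193876910) (nat_lit 5) (nat_lit 5) (nat_lit 7) (nat_lit 4) (nat_lit 5) (nat_lit 4) (nat_lit 301) (nat_lit 257) (nat_lit 162)) (XT.nd (nat_lit 78) (nat_lit 76) (nat_lit 0) (XT.lf (nat_lit 0) (nat_lit 113578162607) (nat_lit 152) (nat_lit 17731232669) (nat_lit 0) (nat_lit 48033826035) (nat_lit 5) (nat_lit 5) (nat_lit 7) (nat_lit 4) (nat_lit 5) (nat_lit 4) (nat_lit 302) (nat_lit 257) (nat_lit 161)) (XT.lf (nat_lit 0) (nat_lit 12865190062) (nat_lit 76) (nat_lit 122451356201) (nat_lit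 76) (nat_lit 56904015009) (nat_lit 4) (nat_lit 4) (nat_lit 5) (nat_lit 5) (nat_lit 5) (nat_lit 4) (nat_lit 303) (nat_lit 257) (nat_lit 160)))) (XT.nd (nat_lit 78) (nat_lit 0) (nat_lit 0) (XT.lf (nat_lit 0) (nat_lit 46914807284) (nat_lit 76) (nat_lit 112362376551) (nat_lit 76) (nat_lit 46812253304) (nat_lit 4) (nat_lit 4) (nat_lit 5) (nat_lit 5) (nat_lit 5) (nat_lit 4) (nat_lit 304) (nat_lit 257) (nat_lit 159)) (XT.nd (nat_lit 78) (nat_lit 0) (nat_lit 0) (XT.lf (nat_lit 0) (nat_lit 83685699217) (nat_lit 76) (nat_lit 101467473104) (nat_lit 76) (nat_lit 35914773879) (nat_lit 4) (nat_lit 4) (nat_lit 5) (nat_lit 5) (nat_lit 5) (nat_lit 4) (nat_lit 305) (nat_lit 257) (nat_lit 158)) (XT.lf (nat_lit 0) (nat_lit 123395767442) (nat_lit 76) (nat_lit 89702083469) (nat_lit 76) (nat_lit 24146999080) (nat_lit 4) (nat_lit 4) (nat_lit 5) (nat_lit 5) (nat_lit 5) (nat_lit 4) (nat_lit 306) (nat_lit 257)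 (nat_lit 157)))))) (XT.nd (nat_lit 468) (nat_lit 0) (nat_lit 0) (XT.nd (nat_lit 234) (nat_lit 76) (nat_lit 0) (XT.nd (nat_lit 78) (nat_lit 76) (nat_lit 0) (XT.lf (nat_lit 0) (nat_lit 166280330883) (nat_lit 76) (nat_lit 76996486819) (nat_lit 76) (nat_lit 11439193944) (nat_lit 4) (nat_lit 4) (nat_lit 5) (nat_lit 5) (nat_lit 5) (nat_lit 4) (nat_lit 307) (nat_lit 257) (nat_lit 156)) (XT.nd (nat_lit 78) (nat_lit 0) (nat_lit 0) (XT.lf (nat_lit 0) (nat_lit 2169694758) (nat_lit 152) (nat_lit 61046372670) (nat_lit 76) (nat_lit 210364502226) (nat_lit 3) (nat_lit 5) (nat_lit 5) (nat_lit 5) (nat_lit 4) (nat_lit 4) (nat_lit 308) (nat_lit 257) (nat_lit 155)) (XT.lf (nat_lit 0) (nat_lit 16248147534) (nat_lit 152) (nat_lit 31765084316) (nat_lit 76) (nat_lit 245917383495) (nat_lit 3) (nat_lit 5) (nat_lit 5) (nat_lit 5) (nat_lit 4) (nat_lit 4) (nat_lit 309) (nat_lit 257) (nat_lit 154)))) (XT.nd (nat_lit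 78) (nat_lit 76) (nat_lit 0) (XT.lf (nat_lit 0) (nat_lit 31451827061) (nat_lit 152) (nat_lit 143184067) (nat_lit 76) (nat_lit 284313739485) (nat_lit 3) (nat_lit 5) (nat_lit 5) (nat_lit 5) (nat_lit 4) (nat_lit 4) (nat_lit 310) (nat_lit 257) (nat_lit 153)) (XT.nd (nat_lit 78) (nat_lit 0) (nat_lit 0) (XT.lf (nat_lit 0) (nat_lit 35797450573) (nat_lit 76) (nat_lit 12934308191) (nat_lit 152) (nat_lit 290844583133) (nat_lit 2) (nat_lit 5) (nat_lit 3) (nat_lit 5) (nat_lit 4) (nat_lit 4) (nat_lit 311) (nat_lit 257) (nat_lit 152)) (XT.lf (nat_lit 0) (nat_lit 67570765535) (nat_lit 152) (nat_lit 290691038430) (nat_lit 0) (nat_lit 6861403761) (nat_lit 2) (nat_lit 5) (nat_lit 4) (nat_lit 4) (nat_lit 2) (nat_lit 4) (nat_lit 312) (nat_lit 257) (nat_lit 151))))) (XT.nd (nat_lit 234) (nat_lit 0) (nat_lit 0) (XT.nd (nat_lit 78) (nat_lit 0) (nat_lit 0) (XT.lf (nat_lit 0) (nat_lit 88251960736) (nat_lit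 152) (nat_lit 276893747880) (nat_lit 0) (nat_lit 27541310332) (nat_lit 2) (nat_lit 5) (nat_lit 4) (nat_lit 4) (nat_lit 2) (nat_lit 4) (nat_lit 313) (nat_lit 257) (nat_lit 150)) (XT.nd (nat_lit 78) (nat_lit 0) (nat_lit 0) (XT.lf (nat_lit 0) (nat_lit 110586829176) (nat_lit 152) (nat_lit 261994187531) (nat_lit 0) (nat_lit 49874985596) (nat_lit 2) (nat_lit 5) (nat_lit 4) (nat_lit 4) (nat_lit 2) (nat_lit 4) (nat_lit 314) (nat_lit 257) (nat_lit 149)) (XT.lf (nat_lit 0) (nat_lit 134707725631) (nat_lit 152) (nat_lit 245904063692) (nat_lit 0) (nat_lit 73994777258) (nat_lit 2) (nat_lit 5) (nat_lit 4) (nat_lit 4) (nat_lit 2) (nat_lit 4) (nat_lit 315) (nat_lit 257) (nat_lit 148)))) (XT.nd (nat_lit 156) (nat_lit 0) (nat_lit 0) (XT.nd (nat_lit 78) (nat_lit 0) (nat_lit 0) (XT.lf (nat_lit 0) (nat_lit 160757588745) (nat_lit 152) (nat_lit 228528027481) (nat_lit 0) (nat_lit 100043617416) (nat_lit 2)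 (nat_lit 5) (nat_lit 4) (nat_lit 4) (nat_lit 2) (nat_lit 4) (nat_lit 316) (nat_lit 257) (nat_lit 147)) (XT.lf (nat_lit 0) (nat_lit 188890788079) (nat_lit 152) (nat_lit 209763109794) (nat_lit 0) (nat_lit 128175869569) (nat_lit 2) (nat_lit 5) (nat_lit 4) (nat_lit 4) (nat_lit 2) (nat_lit 4) (nat_lit 317) (nat_lit 257) (nat_lit 146))) (XT.nd (nat_lit 78) (nat_lit 0) (nat_lit 0) (XT.lf (nat_lit 0) (nat_lit 219274038888) (nat_lit 152) (nat_lit 189498111119) (nat_lit 0) (nat_lit 158558243358) (nat_lit 2) (nat_lit 5) (nat_lit 4) (nat_lit 4) (nat_lit 2) (nat_lit 4) (nat_lit 318) (nat_lit 257) (nat_lit 145)) (XT.lf (nat_lit 0) (nat_lit 252087390065) (nat_lit 152) (nat_lit 167612942575) (nat_lit 0) (nat_lit 191370782479) (nat_lit 2) (nat_lit 5) (nat_lit 4) (nat_lit 4) (nat_lit 2) (nat_lit 4) (nat_lit 319) (nat_lit 257) (nat_lit 144))))))) (XT.nd (nat_lit 936) (nat_lit 0) (nat_lit 0) (XT.nd (nat_lit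 468) (nat_lit 0) (nat_lit 0) (XT.nd (nat_lit 234) (nat_lit 76) (nat_lit 0) (XT.nd (nat_lit 78) (nat_lit 0) (nat_lit 0) (XT.lf (nat_lit 0) (nat_lit 287525291099) (nat_lit 152) (nat_lit 143977914275) (nat_lit 0) (nat_lit 226807931610) (nat_lit 2) (nat_lit 5) (nat_lit 4) (nat_lit 4) (nat_lit 2) (nat_lit 4) (nat_lit 320) (nat_lit 257) (nat_lit 143)) (XT.nd (nat_lit 78) (nat_lit 0) (nat_lit 0) (XT.lf (nat_lit 0) (nat_lit 325797744366) (nat_lit 152) (nat_lit 118452966791) (nat_lit 0) (nat_lit 265079688670) (nat_lit 2) (nat_lit 5) (nat_lit 4) (nat_lit 4) (nat_lit 2) (nat_lit 4) (nat_lit 321) (nat_lit 257) (nat_lit 142)) (XT.lf (nat_lit 0) (nat_lit 367131549590) (nat_lit 152) (nat_lit 90886841175) (nat_lit 0) (nat_lit 306412849258) (nat_lit 2) (nat_lit 5) (nat_lit 4) (nat_lit 4) (nat_lit 2) (nat_lit 4) (nat_lit 322) (nat_lit 257) (nat_lit 141)))) (XT.nd (nat_lit 78) (nat_lit 76) (nat_lit 0)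 (XT.lf (nat_lit 0) (nat_lit 411771647838) (nat_lit 152) (nat_lit 61116182609) (nat_lit 0) (nat_lit 351052350621) (nat_lit 2) (nat_lit 5) (nat_lit 4) (nat_lit 4) (nat_lit 2) (nat_lit 4) (nat_lit 323) (nat_lit 257) (nat_lit 140)) (XT.nd (nat_lit 78) (nat_lit 76) (nat_lit 0) (XT.lf (nat_lit 0) (nat_lit 459982573026) (nat_lit 152) (nat_lit 28964572376) (nat_lit 0) (nat_lit 399262723138) (nat_lit 2) (nat_lit 5) (nat_lit 4) (nat_lit 4) (nat_lit 2) (nat_lit 4) (nat_lit 324) (nat_lit 257) (nat_lit 139)) (XT.lf (nat_lit 0) (nat_lit 6061750916) (nat_lit 76) (nat_lit 506134053864) (nat_lit 76) (nat_lit 445413692243) (nat_lit 1) (nat_lit 4) (nat_lit 2) (nat_lit 5) (nat_lit 2) (nat_lit 4) (nat_lit 325) (nat_lit 257) (nat_lit 138))))) (XT.nd (nat_lit 234) (nat_lit 0) (nat_lit 0) (XT.nd (nat_lit 78) (nat_lit 0) (nat_lit 0) (XT.lf (nat_lit 0) (nat_lit 45536788309) (nat_lit 76) (nat_lit 523840907711)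 (nat_lit 76) (nat_lit 463120072263) (nat_lit 1) (nat_lit 4) (nat_lit 2) (nat_lit 5) (nat_lit 2) (nat_lit 4) (nat_lit 326) (nat_lit 257) (nat_lit 137)) (XT.nd (nat_lit 78) (nat_lit 0) (nat_lit 0) (XT.lf (nat_lit 0) (nat_lit 88169242901) (nat_lit 76) (nat_lit 542964579185) (nat_lit 76) (nat_lit 482243305009) (nat_lit 1) (nat_lit 4) (nat_lit 2) (nat_lit 5) (nat_lit 2) (nat_lit 4) (nat_lit 327) (nat_lit 257) (nat_lit 136)) (XT.lf (nat_lit 0) (nat_lit 134211751457) (nat_lit 76) (nat_lit 563618393746) (nat_lit 76) (nat_lit 502896713340) (nat_lit 1) (nat_lit 4) (nat_lit 2) (nat_lit 5) (nat_lit 2) (nat_lit 4) (nat_lit 328) (nat_lit 257) (nat_lit 135)))) (XT.nd (nat_lit 78) (nat_lit 0) (nat_lit 0) (XT.lf (nat_lit 0) (nat_lit 183937158474) (nat_lit 76) (nat_lit 585924744370) (nat_lit 76) (nat_lit 525202687826) (nat_lit 1) (nat_lit 4) (nat_lit 2) (nat_lit 5) (nat_lit 2) (nat_lit 4) (nat_lit 329)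 (nat_lit 257) (nat_lit 134)) (XT.nd (nat_lit 78) (nat_lit 0) (nat_lit 0) (XT.lf (nat_lit 0) (nat_lit 237640133029) (nat_lit 76) (nat_lit 610015816839) (nat_lit 76) (nat_lit 549293412018) (nat_lit 1) (nat_lit 4) (nat_lit 2) (nat_lit 5) (nat_lit 2) (nat_lit 4) (nat_lit 330) (nat_lit 257) (nat_lit 133)) (XT.lf (nat_lit 0) (nat_lit 295638914973) (nat_lit 76) (nat_lit 636034373063) (nat_lit 76) (nat_lit 575311645764) (nat_lit 1) (nat_lit 4) (nat_lit 2) (nat_lit 5) (nat_lit 2) (nat_lit 4) (nat_lit 331) (nat_lit 257) (nat_lit 132)))))) (XT.nd (nat_lit 31824) (nat_lit 0) (nat_lit 2432) (XT.nd (nat_lit 234) (nat_lit 0) (nat_lit 0) (XT.nd (nat_lit 78) (nat_lit 0) (nat_lit 0) (XT.lf (nat_lit 0) (nat_lit 358277200790) (nat_lit 76) (nat_lit 664134597080) (nat_lit 76) (nat_lit 603411571189) (nat_lit 1) (nat_lit 4) (nat_lit 2) (nat_lit 5) (nat_lit 2) (nat_lit 4) (nat_lit 332) (nat_lit 257) (nat_lit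 131)) (XT.nd (nat_lit 78) (nat_lit 0) (nat_lit 0) (XT.lf (nat_lit 0) (nat_lit 425926180323) (nat_lit 76) (nat_lit 694483008734) (nat_lit 76) (nat_lit 633759706370) (nat_lit 1) (nat_lit 4) (nat_lit 2) (nat_lit 5) (nat_lit 2) (nat_lit 4) (nat_lit 333) (nat_lit 257) (nat_lit 130)) (XT.lf (nat_lit 0) (nat_lit 498986736414) (nat_lit 76) (nat_lit 727259450466) (nat_lit 76) (nat_lit 666535892108) (nat_lit 1) (nat_lit 4) (nat_lit 2) (nat_lit 5) (nat_lit 2) (nat_lit 4) (nat_lit 334) (nat_lit 257) (nat_lit 129)))) (XT.nd (nat_lit 78) (nat_lit 0) (nat_lit 0) (XT.lf (nat_lit 0) (nat_lit 577891820505) (nat_lit 76) (nat_lit 762658153042) (nat_lit 76) (nat_lit 701934357653) (nat_lit 1) (nat_lit 4) (nat_lit 2) (nat_lit 5) (nat_lit 2) (nat_lit 4) (nat_lit 335) (nat_lit 257) (nat_lit 128)) (XT.nd (nat_lit 31434) (nat_lit 0) (nat_lit 2432) (XT.lf (nat_lit 0) (nat_lit 663109018281) (nat_lit 76) (nat_lit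 800888886550) (nat_lit 76) (nat_lit 740164871688) (nat_lit 1) (nat_lit 4) (nat_lit 2) (nat_lit 5) (nat_lit 2) (nat_lit 4) (nat_lit 336) (nat_lit 257) (nat_lit 127)) (XT.lf (nat_lit 0) (nat_lit 1610224538) (nat_lit 532) (nat_lit 3338274787) (nat_lit 532) (nat_lit 3338274787) (nat_lit 33) (nat_lit 3) (nat_lit 40) (nat_lit 3) (nat_lit 40) (nat_lit 5) (nat_lit 258) (nat_lit 258) (nat_lit 204))))) (XT.nd (nat_lit 234) (nat_lit 0) (nat_lit 152) (XT.nd (nat_lit 78) (nat_lit 0) (nat_lit 76) (XT.lf (nat_lit 76) (nat_lit 324145633) (nat_lit 0) (nat_lit 3248224085) (nat_lit 532) (nat_lit 13645019299) (nat_lit 34) (nat_lit 5) (nat_lit 33) (nat_lit 3) (nat_lit 40) (nat_lit 5) (nat_lit 259) (nat_lit 258) (nat_lit 203)) (XT.nd (nat_lit 78) (nat_lit 0) (nat_lit 0) (XT.lf (nat_lit 0) (nat_lit 4212701797) (nat_lit 456) (nat_lit 9747264639) (nat_lit 532) (nat_lit 3932075368) (nat_lit 34) (nat_lit 5)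 (nat_lit 40) (nat_lit 5) (nat_lit 41) (nat_lit 5) (nat_lit 260) (nat_lit 258) (nat_lit 202)) (XT.lf (nat_lit 0) (nat_lit 4968622477) (nat_lit 456) (nat_lit 2127321595) (nat_lit 532) (nat_lit 11519689844) (nat_lit 34) (nat_lit 5) (nat_lit 40) (nat_lit 5) (nat_lit 41) (nat_lit 5) (nat_lit 261) (nat_lit 258) (nat_lit 201)))) (XT.nd (nat_lit 156) (nat_lit 0) (nat_lit 0) (XT.nd (nat_lit 78) (nat_lit 0) (nat_lit 0) (XT.lf (nat_lit 0) (nat_lit 5932446669) (nat_lit 456) (nat_lit 12987608446) (nat_lit 532) (nat_lit 465371364) (nat_lit 35) (nat_lit 5) (nat_lit 41) (nat_lit 5) (nat_lit 42) (nat_lit 5) (nat_lit 262) (nat_lit 258) (nat_lit 200)) (XT.lf (nat_lit 0) (nat_lit 7200049626) (nat_lit 456) (nat_lit 4685686818) (nat_lit 532) (nat_lit 8313031684) (nat_lit 35) (nat_lit 5) (nat_lit 41) (nat_lit 5) (nat_lit 42) (nat_lit 5) (nat_lit 263) (nat_lit 258) (nat_lit 199))) (XT.nd (nat_lit 78) (nat_lit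 0) (nat_lit 76) (XT.lf (nat_lit 76) (nat_lit 4492464201) (nat_lit 0) (nat_lit 4168610009) (nat_lit 532) (nat_lit 12408833967) (nat_lit 36) (nat_lit 5) (nat_lit 35) (nat_lit 5) (nat_lit 42) (nat_lit 5) (nat_lit 264) (nat_lit 258) (nat_lit 198)) (XT.lf (nat_lit 0) (nat_lit 10455540826) (nat_lit 456) (nat_lit 7446360234) (nat_lit 76) (nat_lit 4091598878) (nat_lit 36) (nat_lit 5) (nat_lit 42) (nat_lit 5) (nat_lit 37) (nat_lit 5) (nat_lit 265) (nat_lit 258) (nat_lit 197))))))))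
noncomputable def xc82 : XT := (XT.nd (nat_lit 1950) (nat_lit 532) (nat_lit 0) (XT.nd (nat_lit 936) (nat_lit 760) (nat_lit 0) (XT.nd (nat_lit 468) (nat_lit 380) (nat_lit 0) (XT.nd (nat_lit 234) (nat_lit 228) (nat_lit 0) (XT.nd (nat_lit 78) (nat_lit 228) (nat_lit 0) (XT.lf (nat_lit 0) (nat_lit 2415061391) (nat_lit 456) (nat_lit 10130905460) (nat_lit 532) (nat_lit 10432899016) (nat_lit 30) (nat_lit 5) (nat_lit 36) (nat_lit 5) (nat_lit 37) (nat_lit 5) (nat_lit 266) (nat_lit 258) (nat_lit 196)) (XT.nd (nat_lit 78) (nat_lit 228) (nat_lit 0) (XT.lf (nat_lit 0) (nat_lit 13476514592) (nat_lit 456) (nat_lit 1517489687) (nat_lit 532) (nat_lit 9033899745) (nat_lit 30) (nat_lit 5) (nat_lit 36) (nat_lit 5) (nat_lit 37) (nat_lit 5) (nat_lit 267) (nat_lit 258) (nat_lit 195)) (XT.lf (nat_lit 0) (nat_lit 65555268) (nat_lit 228) (nat_lit 17748914375) (nat_lit 304) (nat_lit 7332336522) (nat_lit 27) (nat_lit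 5) (nat_lit 30) (nat_lit 5) (nat_lit 31) (nat_lit 5) (nat_lit 268) (nat_lit 258) (nat_lit 194)))) (XT.nd (nat_lit 78) (nat_lit 228) (nat_lit 0) (XT.lf (nat_lit 0) (nat_lit 12078234889) (nat_lit 228) (nat_lit 9097639342) (nat_lit 304) (nat_lit 5154184793) (nat_lit 27) (nat_lit 5) (nat_lit 30) (nat_lit 5) (nat_lit 31) (nat_lit 5) (nat_lit 269) (nat_lit 258) (nat_lit 193)) (XT.nd (nat_lit 78) (nat_lit 228) (nat_lit 0) (XT.lf (nat_lit 0) (nat_lit 24801338887) (nat_lit 304) (nat_lit 2574151355) (nat_lit 76) (nat_lit 232928116) (nat_lit 27) (nat_lit 5) (nat_lit 31) (nat_lit 5) (nat_lit 28) (nat_lit 5) (nat_lit 270) (nat_lit 258) (nat_lit 192)) (XT.lf (nat_lit 0) (nat_lit 227865462) (nat_lit 228) (nat_lit 18651264140) (nat_lit 76) (nat_lit 10071573992) (nat_lit 24) (nat_lit 5) (nat_lit 27) (nat_lit 5) (nat_lit 25) (nat_lit 5) (nat_lit 271) (nat_lit 258) (nat_lit 191))))) (XT.nd (nat_lit 234)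 (nat_lit 152) (nat_lit 0) (XT.nd (nat_lit 78) (nat_lit 228) (nat_lit 0) (XT.lf (nat_lit 0) (nat_lit 3416375231) (nat_lit 228) (nat_lit 6131738559) (nat_lit 76) (nat_lit 20841477104) (nat_lit 24) (nat_lit 5) (nat_lit 27) (nat_lit 5) (nat_lit 25) (nat_lit 5) (nat_lit 272) (nat_lit 258) (nat_lit 190)) (XT.nd (nat_lit 78) (nat_lit 0) (nat_lit 0) (XT.lf (nat_lit 0) (nat_lit 7055249943) (nat_lit 304) (nat_lit 24179774547) (nat_lit 76) (nat_lit 692984632) (nat_lit 21) (nat_lit 5) (nat_lit 25) (nat_lit 5) (nat_lit 22) (nat_lit 5) (nat_lit 273) (nat_lit 258) (nat_lit 189)) (XT.lf (nat_lit 0) (nat_lit 11396560853) (nat_lit 304) (nat_lit 10752252403) (nat_lit 76) (nat_lit 11407820970) (nat_lit 21) (nat_lit 5) (nat_lit 25) (nat_lit 5) (nat_lit 22) (nat_lit 5) (nat_lit 274) (nat_lit 258) (nat_lit 188)))) (XT.nd (nat_lit 78) (nat_lit 0) (nat_lit 0) (XT.lf (nat_lit 0) (nat_lit 3936064587) (nat_lit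 152) (nat_lit 12235733804) (nat_lit 228) (nat_lit 19136857797) (nat_lit 19) (nat_lit 5) (nat_lit 21) (nat_lit 5) (nat_lit 22) (nat_lit 5) (nat_lit 275) (nat_lit 258) (nat_lit 187)) (XT.nd (nat_lit 78) (nat_lit 0) (nat_lit 0) (XT.lf (nat_lit 0) (nat_lit 20400893124) (nat_lit 152) (nat_lit 1214460802) (nat_lit 228) (nat_lit 15562615940) (nat_lit 19) (nat_lit 5) (nat_lit 21) (nat_lit 5) (nat_lit 22) (nat_lit 5) (nat_lit 276) (nat_lit 258) (nat_lit 186)) (XT.lf (nat_lit 0) (nat_lit 27744283170) (nat_lit 228) (nat_lit 1280827909) (nat_lit 76) (nat_lit 10151757787) (nat_lit 19) (nat_lit 5) (nat_lit 22) (nat_lit 5) (nat_lit 20) (nat_lit 5) (nat_lit 277) (nat_lit 258) (nat_lit 185)))))) (XT.nd (nat_lit 468) (nat_lit 304) (nat_lit 0) (XT.nd (nat_lit 234) (nat_lit 152) (nat_lit 0) (XT.nd (nat_lit 78) (nat_lit 152) (nat_lit 0) (XT.lf (nat_lit 0) (nat_lit 16226155718) (nat_lit 152) (nat_lit 18552516245)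 (nat_lit 228) (nat_lit 6523825253) (nat_lit 17) (nat_lit 5) (nat_lit 19) (nat_lit 5) (nat_lit 20) (nat_lit 5) (nat_lit 278) (nat_lit 258) (nat_lit 184)) (XT.nd (nat_lit 78) (nat_lit 152) (nat_lit 0) (XT.lf (nat_lit 0) (nat_lit 35197652008) (nat_lit 152) (nat_lit 7206819295) (nat_lit 228) (nat_lit 1191438668) (nat_lit 17) (nat_lit 5) (nat_lit 19) (nat_lit 5) (nat_lit 20) (nat_lit 5) (nat_lit 279) (nat_lit 258) (nat_lit 183)) (XT.lf (nat_lit 0) (nat_lit 4703788416) (nat_lit 152) (nat_lit 36180015716) (nat_lit 76) (nat_lit 5151047811) (nat_lit 15) (nat_lit 5) (nat_lit 17) (nat_lit 5) (nat_lit 16) (nat_lit 5) (nat_lit 280) (nat_lit 258) (nat_lit 182)))) (XT.nd (nat_lit 78) (nat_lit 152) (nat_lit 0) (XT.lf (nat_lit 0) (nat_lit 11423163895) (nat_lit 152) (nat_lit 18837626607) (nat_lit 76) (nat_lit 18372312493) (nat_lit 15) (nat_lit 5) (nat_lit 17) (nat_lit 5) (nat_lit 16) (nat_lit 5) (nat_lit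 281) (nat_lit 258) (nat_lit 181)) (XT.nd (nat_lit 78) (nat_lit 152) (nat_lit 0) (XT.lf (nat_lit 0) (nat_lit 18674646129) (nat_lit 152) (nat_lit 115976658) (nat_lit 76) (nat_lit 32649046576) (nat_lit 15) (nat_lit 5) (nat_lit 17) (nat_lit 5) (nat_lit 16) (nat_lit 5) (nat_lit 282) (nat_lit 258) (nat_lit 180)) (XT.lf (nat_lit 0) (nat_lit 21154090523) (nat_lit 152) (nat_lit 5855872725) (nat_lit 228) (nat_lit 27420518790) (nat_lit 13) (nat_lit 5) (nat_lit 15) (nat_lit 5) (nat_lit 16) (nat_lit 5) (nat_lit 283) (nat_lit 258) (nat_lit 179))))) (XT.nd (nat_lit 234) (nat_lit 228) (nat_lit 0) (XT.nd (nat_lit 78) (nat_lit 76) (nat_lit 0) (XT.lf (nat_lit 0) (nat_lit 36205589573) (nat_lit 228) (nat_lit 13730845169) (nat_lit 76) (nat_lit 7708663227) (nat_lit 13) (nat_lit 5) (nat_lit 16) (nat_lit 5) (nat_lit 14) (nat_lit 4) (nat_lit 284) (nat_lit 258) (nat_lit 178)) (XT.nd (nat_lit 78) (nat_lit 0)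 (nat_lit 0) (XT.lf (nat_lit 0) (nat_lit 7599278111) (nat_lit 76) (nat_lit 38867911311) (nat_lit 152) (nat_lit 14623283572) (nat_lit 12) (nat_lit 5) (nat_lit 13) (nat_lit 5) (nat_lit 14) (nat_lit 4) (nat_lit 285) (nat_lit 258) (nat_lit 177)) (XT.lf (nat_lit 0) (nat_lit 31409763807) (nat_lit 76) (nat_lit 26511008662) (nat_lit 152) (nat_lit 6861035664) (nat_lit 12) (nat_lit 5) (nat_lit 13) (nat_lit 5) (nat_lit 14) (nat_lit 4) (nat_lit 286) (nat_lit 258) (nat_lit 176)))) (XT.nd (nat_lit 156) (nat_lit 0) (nat_lit 0) (XT.nd (nat_lit 78) (nat_lit 152) (nat_lit 0) (XT.lf (nat_lit 0) (nat_lit 1441881278) (nat_lit 152) (nat_lit 11686621478) (nat_lit 76) (nat_lit 55637364252) (nat_lit 11) (nat_lit 5) (nat_lit 13) (nat_lit 5) (nat_lit 12) (nat_lit 5) (nat_lit 287) (nat_lit 258) (nat_lit 175)) (XT.lf (nat_lit 0) (nat_lit 10370912515) (nat_lit 228) (nat_lit 60917915485) (nat_lit 76) (nat_lit 1738973024)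 (nat_lit 9) (nat_lit 5) (nat_lit 12) (nat_lit 5) (nat_lit 10) (nat_lit 4) (nat_lit 288) (nat_lit 258) (nat_lit 174))) (XT.nd (nat_lit 78) (nat_lit 0) (nat_lit 0) (XT.lf (nat_lit 0) (nat_lit 20679328986) (nat_lit 228) (nat_lit 39485940387) (nat_lit 76) (nat_lit 17412226048) (nat_lit 9) (nat_lit 5) (nat_lit 12) (nat_lit 5) (nat_lit 10) (nat_lit 4) (nat_lit 289) (nat_lit 258) (nat_lit 173)) (XT.lf (nat_lit 0) (nat_lit 31808928187) (nat_lit 228) (nat_lit 16345199200) (nat_lit 76) (nat_lit 34337327120) (nat_lit 9) (nat_lit 5) (nat_lit 12) (nat_lit 5) (nat_lit 10) (nat_lit 4) (nat_lit 290) (nat_lit 258) (nat_lit 172))))))) (XT.nd (nat_lit 936) (nat_lit 228) (nat_lit 0) (XT.nd (nat_lit 468) (nat_lit 76) (nat_lit 0) (XT.nd (nat_lit 234) (nat_lit 152) (nat_lit 0) (XT.nd (nat_lit 78) (nat_lit 0) (nat_lit 0) (XT.lf (nat_lit 0) (nat_lit 9096481225) (nat_lit 76) (nat_lit 34947952664) (nat_lit 152)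 (nat_lit 43736862501) (nat_lit 8) (nat_lit 5) (nat_lit 9) (nat_lit 5) (nat_lit 10) (nat_lit 4) (nat_lit 291) (nat_lit 258) (nat_lit 171)) (XT.nd (nat_lit 78) (nat_lit 0) (nat_lit 0) (XT.lf (nat_lit 0) (nat_lit 37497834930) (nat_lit 76) (nat_lit 20204733502) (nat_lit 152) (nat_lit 35756262600) (nat_lit 8) (nat_lit 5) (nat_lit 9) (nat_lit 5) (nat_lit 10) (nat_lit 4) (nat_lit 292) (nat_lit 258) (nat_lit 170)) (XT.lf (nat_lit 0) (nat_lit 68166457008) (nat_lit 76) (nat_lit 4284009390) (nat_lit 152) (nat_lit 27140340885) (nat_lit 8) (nat_lit 5) (nat_lit 9) (nat_lit 5) (nat_lit 10) (nat_lit 4) (nat_lit 293) (nat_lit 258) (nat_lit 169)))) (XT.nd (nat_lit 78) (nat_lit 152) (nat_lit 0) (XT.lf (nat_lit 0) (nat_lit 88685974028) (nat_lit 152) (nat_lit 5239926631) (nat_lit 0) (nat_lit 12262826018) (nat_lit 8) (nat_lit 5) (nat_lit 10) (nat_lit 4) (nat_lit 8) (nat_lit 4) (nat_lit 294) (nat_lit 258)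 (nat_lit 168)) (XT.nd (nat_lit 78) (nat_lit 76) (nat_lit 0) (XT.lf (nat_lit 0) (nat_lit 24130783496) (nat_lit 76) (nat_lit 82778641975) (nat_lit 76) (nat_lit 6349932624) (nat_lit 7) (nat_lit 4) (nat_lit 8) (nat_lit 5) (nat_lit 8) (nat_lit 4) (nat_lit 295) (nat_lit 258) (nat_lit 167)) (XT.lf (nat_lit 0) (nat_lit 5554711018) (nat_lit 152) (nat_lit 64880059822) (nat_lit 76) (nat_lit 50438358297) (nat_lit 6) (nat_lit 5) (nat_lit 8) (nat_lit 5) (nat_lit 7) (nat_lit 4) (nat_lit 296) (nat_lit 258) (nat_lit 166))))) (XT.nd (nat_lit 234) (nat_lit 0) (nat_lit 0) (XT.nd (nat_lit 78) (nat_lit 76) (nat_lit 0) (XT.lf (nat_lit 0) (nat_lit 18066350491) (nat_lit 152) (nat_lit 38860617673) (nat_lit 76) (nat_lit 72156029527) (nat_lit 6) (nat_lit 5) (nat_lit 8) (nat_lit 5) (nat_lit 7) (nat_lit 4) (nat_lit 297) (nat_lit 258) (nat_lit 165)) (XT.nd (nat_lit 78) (nat_lit 76) (nat_lit 0) (XT.lf (nat_lit 0)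 (nat_lit 31576778190) (nat_lit 152) (nat_lit 10763342833) (nat_lit 76) (nat_lit 95609711088) (nat_lit 6) (nat_lit 5) (nat_lit 8) (nat_lit 5) (nat_lit 7) (nat_lit 4) (nat_lit 298) (nat_lit 258) (nat_lit 164)) (XT.lf (nat_lit 0) (nat_lit 20609223915) (nat_lit 76) (nat_lit 26052484323) (nat_lit 152) (nat_lit 100824816175) (nat_lit 5) (nat_lit 5) (nat_lit 6) (nat_lit 5) (nat_lit 7) (nat_lit 4) (nat_lit 299) (nat_lit 258) (nat_lit 163)))) (XT.nd (nat_lit 78) (nat_lit 0) (nat_lit 0) (XT.lf (nat_lit 0) (nat_lit 55100357186) (nat_lit 76) (nat_lit 8145446353) (nat_lit 152) (nat_lit 94516963133) (nat_lit 5) (nat_lit 5) (nat_lit 6) (nat_lit 5) (nat_lit 7) (nat_lit 4) (nat_lit 300) (nat_lit 258) (nat_lit 162)) (XT.nd (nat_lit 78) (nat_lit 0) (nat_lit 0) (XT.lf (nat_lit 0) (nat_lit 81424038107) (nat_lit 152) (nat_lit 76782771582) (nat_lit 0) (nat_lit 10632909620) (nat_lit 5) (nat_lit 5) (nat_lit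 7) (nat_lit 4) (nat_lit 5) (nat_lit 4) (nat_lit 301) (nat_lit 258) (nat_lit 161)) (XT.lf (nat_lit 0) (nat_lit 101266427357) (nat_lit 152) (nat_lit 49047318511) (nat_lit 0) (nat_lit 30472294250) (nat_lit 5) (nat_lit 5) (nat_lit 7) (nat_lit 4) (nat_lit 5) (nat_lit 4) (nat_lit 302) (nat_lit 258) (nat_lit 160)))))) (XT.nd (nat_lit 468) (nat_lit 152) (nat_lit 0) (XT.nd (nat_lit 234) (nat_lit 0) (nat_lit 0) (XT.nd (nat_lit 78) (nat_lit 76) (nat_lit 0) (XT.lf (nat_lit 0) (nat_lit 122694657639) (nat_lit 152) (nat_lit 19095793854) (nat_lit 0) (nat_lit 51897742476) (nat_lit 5) (nat_lit 5) (nat_lit 7) (nat_lit 4) (nat_lit 5) (nat_lit 4) (nat_lit 303) (nat_lit 258) (nat_lit 159)) (XT.nd (nat_lit 78) (nat_lit 0) (nat_lit 0) (XT.lf (nat_lit 0) (nat_lit 13946977191) (nat_lit 76) (nat_lit 132224159003) (nat_lit 76) (nat_lit 61424667863) (nat_lit 4) (nat_lit 4) (nat_lit 5) (nat_lit 5) (nat_lit 5) (nat_lit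 4) (nat_lit 304) (nat_lit 258) (nat_lit 158)) (XT.lf (nat_lit 0) (nat_lit 50716669575) (nat_lit 76) (nat_lit 121329787329) (nat_lit 76) (nat_lit 50527911024) (nat_lit 4) (nat_lit 4) (nat_lit 5) (nat_lit 5) (nat_lit 5) (nat_lit 4) (nat_lit 305) (nat_lit 258) (nat_lit 157)))) (XT.nd (nat_lit 78) (nat_lit 0) (nat_lit 0) (XT.lf (nat_lit 0) (nat_lit 90425627106) (nat_lit 76) (nat_lit 109564890076) (nat_lit 76) (nat_lit 38760805286) (nat_lit 4) (nat_lit 4) (nat_lit 5) (nat_lit 5) (nat_lit 5) (nat_lit 4) (nat_lit 306) (nat_lit 258) (nat_lit 156)) (XT.nd (nat_lit 78) (nat_lit 0) (nat_lit 0) (XT.lf (nat_lit 0) (nat_lit 133309162126) (nat_lit 76) (nat_lit 96859749335) (nat_lit 76) (nat_lit 26053619651) (nat_lit 4) (nat_lit 4) (nat_lit 5) (nat_lit 5) (nat_lit 5) (nat_lit 4) (nat_lit 307) (nat_lit 258) (nat_lit 155)) (XT.lf (nat_lit 0) (nat_lit 179621399287) (nat_lit 76) (nat_lit 83139075383)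 (nat_lit 76) (nat_lit 12331052279) (nat_lit 4) (nat_lit 4) (nat_lit 5) (nat_lit 5) (nat_lit 5) (nat_lit 4) (nat_lit 308) (nat_lit 258) (nat_lit 154))))) (XT.nd (nat_lit 234) (nat_lit 76) (nat_lit 0) (XT.nd (nat_lit 78) (nat_lit 0) (nat_lit 0) (XT.lf (nat_lit 0) (nat_lit 2363745119) (nat_lit 152) (nat_lit 65893186423) (nat_lit 76) (nat_lit 227208407376) (nat_lit 3) (nat_lit 5) (nat_lit 5) (nat_lit 5) (nat_lit 4) (nat_lit 4) (nat_lit 309) (nat_lit 258) (nat_lit 153)) (XT.nd (nat_lit 78) (nat_lit 0) (nat_lit 0) (XT.lf (nat_lit 0) (nat_lit 17566957466) (nat_lit 152) (nat_lit 34272128042) (nat_lit 76) (nat_lit 265604426926) (nat_lit 3) (nat_lit 5) (nat_lit 5) (nat_lit 5) (nat_lit 4) (nat_lit 4) (nat_lit 310) (nat_lit 258) (nat_lit 152)) (XT.lf (nat_lit 0) (nat_lit 33985527049) (nat_lit 152) (nat_lit 123006367) (nat_lit 76) (nat_lit 307071480081) (nat_lit 3) (nat_lit 5) (nat_lit 5) (nat_lit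 5) (nat_lit 4) (nat_lit 4) (nat_lit 311) (nat_lit 258) (nat_lit 151)))) (XT.nd (nat_lit 156) (nat_lit 0) (nat_lit 0) (XT.nd (nat_lit 78) (nat_lit 0) (nat_lit 0) (XT.lf (nat_lit 0) (nat_lit 38692078223) (nat_lit 76) (nat_lit 13955216284) (nat_lit 152) (nat_lit 314093764715) (nat_lit 2) (nat_lit 5) (nat_lit 3) (nat_lit 5) (nat_lit 4) (nat_lit 4) (nat_lit 312) (nat_lit 258) (nat_lit 150)) (XT.lf (nat_lit 0) (nat_lit 72992471047) (nat_lit 152) (nat_lit 313916794780) (nat_lit 0) (nat_lit 7422486804) (nat_lit 2) (nat_lit 5) (nat_lit 4) (nat_lit 4) (nat_lit 2) (nat_lit 4) (nat_lit 313) (nat_lit 258) (nat_lit 149))) (XT.nd (nat_lit 78) (nat_lit 0) (nat_lit 0) (XT.lf (nat_lit 0) (nat_lit 95326973400) (nat_lit 152) (nat_lit 299017908151) (nat_lit 0) (nat_lit 29755884365) (nat_lit 2) (nat_lit 5) (nat_lit 4) (nat_lit 4) (nat_lit 2) (nat_lit 4) (nat_lit 314) (nat_lit 258) (nat_lit 148)) (XT.lf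 (nat_lit 0) (nat_lit 119447530885) (nat_lit 152) (nat_lit 282928408127) (nat_lit 0) (nat_lit 53875418894) (nat_lit 2) (nat_lit 5) (nat_lit 4) (nat_lit 4) (nat_lit 2) (nat_lit 4) (nat_lit 315) (nat_lit 258) (nat_lit 147))))))))
noncomputable def xc83 : XT := (XT.nd (nat_lit 33384) (nat_lit 0) (nat_lit 760) (XT.nd (nat_lit 936) (nat_lit 0) (nat_lit 0) (XT.nd (nat_lit 468) (nat_lit 76) (nat_lit 0) (XT.nd (nat_lit 234) (nat_lit 0) (nat_lit 0) (XT.nd (nat_lit 78) (nat_lit 0) (nat_lit 0) (XT.lf (nat_lit 0) (nat_lit 145497080139) (nat_lit 152) (nat_lit 265552949522) (nat_lit 0) (nat_lit 79924020967) (nat_lit 2) (nat_lit 5) (nat_lit 4) (nat_lit 4) (nat_lit 2) (nat_lit 4) (nat_lit 316) (nat_lit 258) (nat_lit 146)) (XT.nd (nat_lit 78) (nat_lit 0) (nat_lit 0) (XT.lf (nat_lit 0) (nat_lit 173629988862) (nat_lit 152) (nat_lit 246788566655) (nat_lit 0) (nat_lit 108056052669) (nat_lit 2) (nat_lit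 5) (nat_lit 4) (nat_lit 4) (nat_lit 2) (nat_lit 4) (nat_lit 317) (nat_lit 258) (nat_lit 145)) (XT.lf (nat_lit 0) (nat_lit 204012970586) (nat_lit 152) (nat_lit 226524063185) (nat_lit 0) (nat_lit 138438222337) (nat_lit 2) (nat_lit 5) (nat_lit 4) (nat_lit 4) (nat_lit 2) (nat_lit 4) (nat_lit 318) (nat_lit 258) (nat_lit 144)))) (XT.nd (nat_lit 78) (nat_lit 0) (nat_lit 0) (XT.lf (nat_lit 0) (nat_lit 236826072610) (nat_lit 152) (nat_lit 204639353164) (nat_lit 0) (nat_lit 171250572459) (nat_lit 2) (nat_lit 5) (nat_lit 4) (nat_lit 4) (nat_lit 2) (nat_lit 4) (nat_lit 319) (nat_lit 258) (nat_lit 143)) (XT.nd (nat_lit 78) (nat_lit 0) (nat_lit 0) (XT.lf (nat_lit 0) (nat_lit 272263742947) (nat_lit 152) (nat_lit 181004749421) (nat_lit 0) (nat_lit 206687546589) (nat_lit 2) (nat_lit 5) (nat_lit 4) (nat_lit 4) (nat_lit 2) (nat_lit 4) (nat_lit 320) (nat_lit 258) (nat_lit 142)) (XT.lf (nat_lit 0) (nat_lit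 310535982606) (nat_lit 152) (nat_lit 155480195046) (nat_lit 0) (nat_lit 244959141612) (nat_lit 2) (nat_lit 5) (nat_lit 4) (nat_lit 4) (nat_lit 2) (nat_lit 4) (nat_lit 321) (nat_lit 258) (nat_lit 141))))) (XT.nd (nat_lit 234) (nat_lit 76) (nat_lit 0) (XT.nd (nat_lit 78) (nat_lit 0) (nat_lit 0) (XT.lf (nat_lit 0) (nat_lit 351869590045) (nat_lit 152) (nat_lit 127914433421) (nat_lit 0) (nat_lit 286292152165) (nat_lit 2) (nat_lit 5) (nat_lit 4) (nat_lit 4) (nat_lit 2) (nat_lit 4) (nat_lit 322) (nat_lit 258) (nat_lit 140)) (XT.nd (nat_lit 78) (nat_lit 0) (nat_lit 0) (XT.lf (nat_lit 0) (nat_lit 396509505158) (nat_lit 152) (nat_lit 98144111883) (nat_lit 0) (nat_lit 330931514607) (nat_lit 2) (nat_lit 5) (nat_lit 4) (nat_lit 4) (nat_lit 2) (nat_lit 4) (nat_lit 323) (nat_lit 258) (nat_lit 139)) (XT.lf (nat_lit 0) (nat_lit 444720260777) (nat_lit 152) (nat_lit 65992813712) (nat_lit 0) (nat_lit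 379141758494) (nat_lit 2) (nat_lit 5) (nat_lit 4) (nat_lit 4) (nat_lit 2) (nat_lit 4) (nat_lit 324) (nat_lit 258) (nat_lit 138)))) (XT.nd (nat_lit 78) (nat_lit 76) (nat_lit 0) (XT.lf (nat_lit 0) (nat_lit 496787550268) (nat_lit 152) (nat_lit 31270012698) (nat_lit 0) (nat_lit 431208574158) (nat_lit 2) (nat_lit 5) (nat_lit 4) (nat_lit 4) (nat_lit 2) (nat_lit 4) (nat_lit 325) (nat_lit 258) (nat_lit 137)) (XT.nd (nat_lit 78) (nat_lit 0) (nat_lit 0) (XT.lf (nat_lit 0) (nat_lit 6558119610) (nat_lit 76) (nat_lit 546619523855) (nat_lit 76) (nat_lit 481040109017) (nat_lit 1) (nat_lit 4) (nat_lit 2) (nat_lit 5) (nat_lit 2) (nat_lit 4) (nat_lit 326) (nat_lit 258) (nat_lit 136)) (XT.lf (nat_lit 0) (nat_lit 49190313431) (nat_lit 76) (nat_lit 565743315218) (nat_lit 76) (nat_lit 500163494150) (nat_lit 1) (nat_lit 4) (nat_lit 2) (nat_lit 5) (nat_lit 2) (nat_lit 4) (nat_lit 327) (nat_lit 258) (nat_lit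 135)))))) (XT.nd (nat_lit 468) (nat_lit 0) (nat_lit 0) (XT.nd (nat_lit 234) (nat_lit 0) (nat_lit 0) (XT.nd (nat_lit 78) (nat_lit 0) (nat_lit 0) (XT.lf (nat_lit 0) (nat_lit 95232580533) (nat_lit 76) (nat_lit 586397240788) (nat_lit 76) (nat_lit 520817043582) (nat_lit 1) (nat_lit 4) (nat_lit 2) (nat_lit 5) (nat_lit 2) (nat_lit 4) (nat_lit 328) (nat_lit 258) (nat_lit 134)) (XT.nd (nat_lit 78) (nat_lit 0) (nat_lit 0) (XT.lf (nat_lit 0) (nat_lit 144957763981) (nat_lit 76) (nat_lit 608703694199) (nat_lit 76) (nat_lit 543123148715) (nat_lit 1) (nat_lit 4) (nat_lit 2) (nat_lit 5) (nat_lit 2) (nat_lit 4) (nat_lit 329) (nat_lit 258) (nat_lit 133)) (XT.lf (nat_lit 0) (nat_lit 198660531529) (nat_lit 76) (nat_lit 632794861839) (nat_lit 76) (nat_lit 567213993877) (nat_lit 1) (nat_lit 4) (nat_lit 2) (nat_lit 5) (nat_lit 2) (nat_lit 4) (nat_lit 330) (nat_lit 258) (nat_lit 132)))) (XT.nd (nat_lit 78)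 (nat_lit 0) (nat_lit 0) (XT.lf (nat_lit 0) (nat_lit 256659121799) (nat_lit 76) (nat_lit 658813506186) (nat_lit 76) (nat_lit 593232339633) (nat_lit 1) (nat_lit 4) (nat_lit 2) (nat_lit 5) (nat_lit 2) (nat_lit 4) (nat_lit 331) (nat_lit 258) (nat_lit 131)) (XT.nd (nat_lit 78) (nat_lit 0) (nat_lit 0) (XT.lf (nat_lit 0) (nat_lit 319297230141) (nat_lit 76) (nat_lit 686913811797) (nat_lit 76) (nat_lit 621332368770) (nat_lit 1) (nat_lit 4) (nat_lit 2) (nat_lit 5) (nat_lit 2) (nat_lit 4) (nat_lit 332) (nat_lit 258) (nat_lit 130)) (XT.lf (nat_lit 0) (nat_lit 386946045344) (nat_lit 76) (nat_lit 717262299002) (nat_lit 76) (nat_lit 651680599982) (nat_lit 1) (nat_lit 4) (nat_lit 2) (nat_lit 5) (nat_lit 2) (nat_lit 4) (nat_lit 333) (nat_lit 258) (nat_lit 129))))) (XT.nd (nat_lit 31668) (nat_lit 0) (nat_lit 2432) (XT.nd (nat_lit 78) (nat_lit 0) (nat_lit 0) (XT.lf (nat_lit 0) (nat_lit 460006449278)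 (nat_lit 76) (nat_lit 750038810688) (nat_lit 76) (nat_lit 684456874637) (nat_lit 1) (nat_lit 4) (nat_lit 2) (nat_lit 5) (nat_lit 2) (nat_lit 4) (nat_lit 334) (nat_lit 258) (nat_lit 128)) (XT.nd (nat_lit 78) (nat_lit 0) (nat_lit 0) (XT.lf (nat_lit 0) (nat_lit 538911392483) (nat_lit 76) (nat_lit 785437578036) (nat_lit 76) (nat_lit 719855422512) (nat_lit 1) (nat_lit 4) (nat_lit 2) (nat_lit 5) (nat_lit 2) (nat_lit 4) (nat_lit 335) (nat_lit 258) (nat_lit 127)) (XT.lf (nat_lit 0) (nat_lit 624128459808) (nat_lit 76) (nat_lit 823668371519) (nat_lit 76) (nat_lit 758086012778) (nat_lit 1) (nat_lit 4) (nat_lit 2) (nat_lit 5) (nat_lit 2) (nat_lit 4) (nat_lit 336) (nat_lit 258) (nat_lit 126)))) (XT.nd (nat_lit 156) (nat_lit 0) (nat_lit 76) (XT.nd (nat_lit 78) (nat_lit 0) (nat_lit 0) (XT.lf (nat_lit 0) (nat_lit 1949171333) (nat_lit 532) (nat_lit 3491255806) (nat_lit 532) (nat_lit 3491255806) (nat_lit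 33) (nat_lit 3) (nat_lit 40) (nat_lit 3) (nat_lit 40) (nat_lit 5) (nat_lit 259) (nat_lit 259) (nat_lit 202)) (XT.lf (nat_lit 76) (nat_lit 572462960) (nat_lit 0) (nat_lit 3680172183) (nat_lit 532) (nat_lit 14308322504) (nat_lit 34) (nat_lit 5) (nat_lit 33) (nat_lit 3) (nat_lit 40) (nat_lit 5) (nat_lit 260) (nat_lit 259) (nat_lit 201))) (XT.nd (nat_lit 78) (nat_lit 0) (nat_lit 0) (XT.lf (nat_lit 0) (nat_lit 4911141157) (nat_lit 456) (nat_lit 10285983827) (nat_lit 532) (nat_lit 4095269617) (nat_lit 34) (nat_lit 5) (nat_lit 40) (nat_lit 5) (nat_lit 41) (nat_lit 5) (nat_lit 261) (nat_lit 259) (nat_lit 200)) (XT.lf (nat_lit 0) (nat_lit 5700763402) (nat_lit 456) (nat_lit 2074301783) (nat_lit 532) (nat_lit 12301105975) (nat_lit 34) (nat_lit 5) (nat_lit 40) (nat_lit 5) (nat_lit 41) (nat_lit 5) (nat_lit 262) (nat_lit 259) (nat_lit 199))))))) (XT.nd (nat_lit 1014) (nat_lit 760) (nat_lit 0) (XT.nd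 (nat_lit 468) (nat_lit 684) (nat_lit 0) (XT.nd (nat_lit 234) (nat_lit 380) (nat_lit 0) (XT.nd (nat_lit 78) (nat_lit 0) (nat_lit 0) (XT.lf (nat_lit 0) (nat_lit 6719790924) (nat_lit 456) (nat_lit 13779711405) (nat_lit 532) (nat_lit 409940813) (nat_lit 35) (nat_lit 5) (nat_lit 41) (nat_lit 5) (nat_lit 42) (nat_lit 5) (nat_lit 263) (nat_lit 259) (nat_lit 198)) (XT.nd (nat_lit 78) (nat_lit 0) (nat_lit 0) (XT.lf (nat_lit 0) (nat_lit 8065635561) (nat_lit 456) (nat_lit 4831925359) (nat_lit 532) (nat_lit 8892277682) (nat_lit 35) (nat_lit 5) (nat_lit 41) (nat_lit 5) (nat_lit 42) (nat_lit 5) (nat_lit 264) (nat_lit 259) (nat_lit 197)) (XT.lf (nat_lit 76) (nat_lit 5074689985) (nat_lit 0) (nat_lit 4552760646) (nat_lit 532) (nat_lit 13104629834) (nat_lit 36) (nat_lit 5) (nat_lit 35) (nat_lit 5) (nat_lit 42) (nat_lit 5) (nat_lit 265) (nat_lit 259) (nat_lit 196)))) (XT.nd (nat_lit 78) (nat_lit 456)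 (nat_lit 0) (XT.lf (nat_lit 0) (nat_lit 11544087856) (nat_lit 456) (nat_lit 7812932540) (nat_lit 76) (nat_lit 4374364265) (nat_lit 36) (nat_lit 5) (nat_lit 42) (nat_lit 5) (nat_lit 37) (nat_lit 5) (nat_lit 266) (nat_lit 259) (nat_lit 195)) (XT.nd (nat_lit 78) (nat_lit 0) (nat_lit 0) (XT.lf (nat_lit 0) (nat_lit 2831601891) (nat_lit 456) (nat_lit 10956842945) (nat_lit 532) (nat_lit 11008304979) (nat_lit 30) (nat_lit 5) (nat_lit 36) (nat_lit 5) (nat_lit 37) (nat_lit 5) (nat_lit 267) (nat_lit 259) (nat_lit 194)) (XT.lf (nat_lit 0) (nat_lit 14761427971) (nat_lit 456) (nat_lit 1653208352) (nat_lit 532) (nat_lit 9516587690) (nat_lit 30) (nat_lit 5) (nat_lit 36) (nat_lit 5) (nat_lit 37) (nat_lit 5) (nat_lit 268) (nat_lit 259) (nat_lit 193))))) (XT.nd (nat_lit 234) (nat_lit 456) (nat_lit 0) (XT.nd (nat_lit 78) (nat_lit 0) (nat_lit 0) (XT.lf (nat_lit 0) (nat_lit 291125862) (nat_lit 228) (nat_lit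 19158214385) (nat_lit 304) (nat_lit 7691300593) (nat_lit 27) (nat_lit 5) (nat_lit 30) (nat_lit 5) (nat_lit 31) (nat_lit 5) (nat_lit 269) (nat_lit 259) (nat_lit 192)) (XT.nd (nat_lit 78) (nat_lit 0) (nat_lit 0) (XT.lf (nat_lit 0) (nat_lit 13248499396) (nat_lit 228) (nat_lit 9815623508) (nat_lit 304) (nat_lit 5355757677) (nat_lit 27) (nat_lit 5) (nat_lit 30) (nat_lit 5) (nat_lit 31) (nat_lit 5) (nat_lit 270) (nat_lit 259) (nat_lit 191)) (XT.lf (nat_lit 0) (nat_lit 26965459954) (nat_lit 304) (nat_lit 2576053333) (nat_lit 76) (nat_lit 260206251) (nat_lit 27) (nat_lit 5) (nat_lit 31) (nat_lit 5) (nat_lit 28) (nat_lit 5) (nat_lit 271) (nat_lit 259) (nat_lit 190)))) (XT.nd (nat_lit 156) (nat_lit 228) (nat_lit 0) (XT.nd (nat_lit 78) (nat_lit 0) (nat_lit 0) (XT.lf (nat_lit 0) (nat_lit 422864809) (nat_lit 228) (nat_lit 19934359435) (nat_lit 76) (nat_lit 10894561405) (nat_lit 24) (nat_lit 5)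 (nat_lit 27) (nat_lit 5) (nat_lit 25) (nat_lit 5) (nat_lit 272) (nat_lit 259) (nat_lit 189)) (XT.lf (nat_lit 0) (nat_lit 3853361276) (nat_lit 228) (nat_lit 6428753721) (nat_lit 76) (nat_lit 22524778137) (nat_lit 24) (nat_lit 5) (nat_lit 27) (nat_lit 5) (nat_lit 25) (nat_lit 5) (nat_lit 273) (nat_lit 259) (nat_lit 188))) (XT.nd (nat_lit 78) (nat_lit 0) (nat_lit 0) (XT.lf (nat_lit 0) (nat_lit 7776540740) (nat_lit 304) (nat_lit 25913113521) (nat_lit 76) (nat_lit 779332085) (nat_lit 21) (nat_lit 5) (nat_lit 25) (nat_lit 5) (nat_lit 22) (nat_lit 5) (nat_lit 274) (nat_lit 259) (nat_lit 187)) (XT.lf (nat_lit 0) (nat_lit 12453536462) (nat_lit 304) (nat_lit 11426281680) (nat_lit 76) (nat_lit 12349065799) (nat_lit 21) (nat_lit 5) (nat_lit 25) (nat_lit 5) (nat_lit 22) (nat_lit 5) (nat_lit 275) (nat_lit 259) (nat_lit 186)))))) (XT.nd (nat_lit 468) (nat_lit 304) (nat_lit 0) (XT.nd (nat_lit 234)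 (nat_lit 304) (nat_lit 0) (XT.nd (nat_lit 78) (nat_lit 0) (nat_lit 0) (XT.lf (nat_lit 0) (nat_lit 4432387988) (nat_lit 152) (nat_lit 13172009295) (nat_lit 228) (nat_lit 20517230994) (nat_lit 19) (nat_lit 5) (nat_lit 21) (nat_lit 5) (nat_lit 22) (nat_lit 5) (nat_lit 276) (nat_lit 259) (nat_lit 185)) (XT.nd (nat_lit 78) (nat_lit 0) (nat_lit 0) (XT.lf (nat_lit 0) (nat_lit 22200962940) (nat_lit 152) (nat_lit 1272188765) (nat_lit 228) (nat_lit 16668203524) (nat_lit 19) (nat_lit 5) (nat_lit 21) (nat_lit 5) (nat_lit 22) (nat_lit 5) (nat_lit 277) (nat_lit 259) (nat_lit 184)) (XT.lf (nat_lit 0) (nat_lit 30083749648) (nat_lit 228) (nat_lit 1218569766) (nat_lit 76) (nat_lit 10998580362) (nat_lit 19) (nat_lit 5) (nat_lit 22) (nat_lit 5) (nat_lit 20) (nat_lit 5) (nat_lit 278) (nat_lit 259) (nat_lit 183)))) (XT.nd (nat_lit 78) (nat_lit 152) (nat_lit 0) (XT.lf (nat_lit 0) (nat_lit 17684802315) (nat_lit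 152) (nat_lit 19991065314) (nat_lit 228) (nat_lit 6921151383) (nat_lit 17) (nat_lit 5) (nat_lit 19) (nat_lit 5) (nat_lit 20) (nat_lit 5) (nat_lit 279) (nat_lit 259) (nat_lit 182)) (XT.nd (nat_lit 78) (nat_lit 152) (nat_lit 0) (XT.lf (nat_lit 0) (nat_lit 38162125409) (nat_lit 152) (nat_lit 7741094255) (nat_lit 228) (nat_lit 1171402012) (nat_lit 17) (nat_lit 5) (nat_lit 19) (nat_lit 5) (nat_lit 20) (nat_lit 5) (nat_lit 280) (nat_lit 259) (nat_lit 181)) (XT.lf (nat_lit 0) (nat_lit 5186287863) (nat_lit 152) (nat_lit 38915798171) (nat_lit 76) (nat_lit 5606672688) (nat_lit 15) (nat_lit 5) (nat_lit 17) (nat_lit 5) (nat_lit 16) (nat_lit 5) (nat_lit 281) (nat_lit 259) (nat_lit 180))))) (XT.nd (nat_lit 234) (nat_lit 152) (nat_lit 0) (XT.nd (nat_lit 78) (nat_lit 152) (nat_lit 0) (XT.lf (nat_lit 0) (nat_lit 12435346982) (nat_lit 152) (nat_lit 20197767474) (nat_lit 76) (nat_lit 19882413282) (nat_lit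 15) (nat_lit 5) (nat_lit 17) (nat_lit 5) (nat_lit 16) (nat_lit 5) (nat_lit 282) (nat_lit 259) (nat_lit 179)) (XT.nd (nat_lit 78) (nat_lit 0) (nat_lit 0) (XT.lf (nat_lit 0) (nat_lit 11300565) (nat_lit 152) (nat_lit 20248635306) (nat_lit 228) (nat_lit 35287270950) (nat_lit 13) (nat_lit 5) (nat_lit 15) (nat_lit 5) (nat_lit 16) (nat_lit 5) (nat_lit 283) (nat_lit 259) (nat_lit 178)) (XT.lf (nat_lit 0) (nat_lit 22978965036) (nat_lit 152) (nat_lit 6279285143) (nat_lit 228) (nat_lit 29519365079) (nat_lit 13) (nat_lit 5) (nat_lit 15) (nat_lit 5) (nat_lit 16) (nat_lit 5) (nat_lit 284) (nat_lit 259) (nat_lit 177)))) (XT.nd (nat_lit 156) (nat_lit 76) (nat_lit 0) (XT.nd (nat_lit 78) (nat_lit 76) (nat_lit 0) (XT.lf (nat_lit 0) (nat_lit 39184049241) (nat_lit 228) (nat_lit 14700822984) (nat_lit 76) (nat_lit 8364989106) (nat_lit 13) (nat_lit 5) (nat_lit 16) (nat_lit 5) (nat_lit 14) (nat_lit 4) (nat_lit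 285) (nat_lit 259) (nat_lit 176)) (XT.lf (nat_lit 0) (nat_lit 8332457252) (nat_lit 76) (nat_lit 41931056775) (nat_lit 152) (nat_lit 15707618372) (nat_lit 12) (nat_lit 5) (nat_lit 13) (nat_lit 5) (nat_lit 14) (nat_lit 4) (nat_lit 286) (nat_lit 259) (nat_lit 175))) (XT.nd (nat_lit 78) (nat_lit 76) (nat_lit 0) (XT.lf (nat_lit 0) (nat_lit 34038504998) (nat_lit 76) (nat_lit 28589030614) (nat_lit 152) (nat_lit 7330726031) (nat_lit 12) (nat_lit 5) (nat_lit 13) (nat_lit 5) (nat_lit 14) (nat_lit 4) (nat_lit 287) (nat_lit 259) (nat_lit 174)) (XT.lf (nat_lit 0) (nat_lit 1626890075) (nat_lit 152) (nat_lit 12510304301) (nat_lit 76) (nat_lit 60124160966) (nat_lit 11) (nat_lit 5) (nat_lit 13) (nat_lit 5) (nat_lit 12) (nat_lit 5) (nat_lit 288) (nat_lit 259) (nat_lit 173))))))))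
noncomputable def xc84 : XT := (XT.nd (nat_lit 1950) (nat_lit 76) (nat_lit 0) (XT.nd (nat_lit 936) (nat_lit 228) (nat_lit 0) (XT.nd (nat_lit 468) (nat_lit 228) (nat_lit 0) (XT.nd (nat_lit 234) (nat_lit 76) (nat_lit 0) (XT.nd (nat_lit 78) (nat_lit 0) (nat_lit 0) (XT.lf (nat_lit 0) (nat_lit 11268685545) (nat_lit 228) (nat_lit 65678350633) (nat_lit 76) (nat_lit 1917347996) (nat_lit 9) (nat_lit 5) (nat_lit 12) (nat_lit 5) (nat_lit 10) (nat_lit 4) (nat_lit 289) (nat_lit 259) (nat_lit 172)) (XT.nd (nat_lit 78) (nat_lit 0) (nat_lit 0) (XT.lf (nat_lit 0) (nat_lit 22396730887) (nat_lit 228) (nat_lit 42540187757) (nat_lit 76) (nat_lit 18841553326) (nat_lit 9) (nat_lit 5) (nat_lit 12) (nat_lit 5) (nat_lit 10) (nat_lit 4) (nat_lit 290) (nat_lit 259) (nat_lit 171)) (XT.lf (nat_lit 0) (nat_lit 34412027240) (nat_lit 228) (nat_lit 17555937487) (nat_lit 76) (nat_lit 37117969951) (nat_lit 9) (nat_lit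 5) (nat_lit 12) (nat_lit 5) (nat_lit 10) (nat_lit 4) (nat_lit 291) (nat_lit 259) (nat_lit 170)))) (XT.nd (nat_lit 78) (nat_lit 0) (nat_lit 0) (XT.lf (nat_lit 0) (nat_lit 9918624774) (nat_lit 76) (nat_lit 37705694750) (nat_lit 152) (nat_lit 47174820951) (nat_lit 8) (nat_lit 5) (nat_lit 9) (nat_lit 5) (nat_lit 10) (nat_lit 4) (nat_lit 292) (nat_lit 259) (nat_lit 169)) (XT.nd (nat_lit 78) (nat_lit 0) (nat_lit 0) (XT.lf (nat_lit 0) (nat_lit 40585092327) (nat_lit 76) (nat_lit 21785839842) (nat_lit 152) (nat_lit 38560290876) (nat_lit 8) (nat_lit 5) (nat_lit 9) (nat_lit 5) (nat_lit 10) (nat_lit 4) (nat_lit 293) (nat_lit 259) (nat_lit 168)) (XT.lf (nat_lit 0) (nat_lit 73700727830) (nat_lit 76) (nat_lit 4594070567) (nat_lit 152) (nat_lit 29259278590) (nat_lit 8) (nat_lit 5) (nat_lit 9) (nat_lit 5) (nat_lit 10) (nat_lit 4) (nat_lit 294) (nat_lit 259) (nat_lit 167))))) (XT.nd (nat_lit 234) (nat_lit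 76) (nat_lit 0) (XT.nd (nat_lit 78) (nat_lit 152) (nat_lit 0) (XT.lf (nat_lit 0) (nat_lit 95826296534) (nat_lit 152) (nat_lit 5581191430) (nat_lit 0) (nat_lit 13272579702) (nat_lit 8) (nat_lit 5) (nat_lit 10) (nat_lit 4) (nat_lit 8) (nat_lit 4) (nat_lit 295) (nat_lit 259) (nat_lit 166)) (XT.nd (nat_lit 78) (nat_lit 76) (nat_lit 0) (XT.lf (nat_lit 0) (nat_lit 26137202612) (nat_lit 76) (nat_lit 89368881970) (nat_lit 76) (nat_lit 6810397183) (nat_lit 7) (nat_lit 4) (nat_lit 8) (nat_lit 5) (nat_lit 8) (nat_lit 4) (nat_lit 296) (nat_lit 259) (nat_lit 165)) (XT.lf (nat_lit 0) (nat_lit 6040895682) (nat_lit 152) (nat_lit 69997836538) (nat_lit 76) (nat_lit 54500806113) (nat_lit 6) (nat_lit 5) (nat_lit 8) (nat_lit 5) (nat_lit 7) (nat_lit 4) (nat_lit 297) (nat_lit 259) (nat_lit 164)))) (XT.nd (nat_lit 78) (nat_lit 76) (nat_lit 0) (XT.lf (nat_lit 0) (nat_lit 19550369440) (nat_lit 152) (nat_lit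 41902218874) (nat_lit 76) (nat_lit 77953862956) (nat_lit 6) (nat_lit 5) (nat_lit 8) (nat_lit 5) (nat_lit 7) (nat_lit 4) (nat_lit 298) (nat_lit 259) (nat_lit 163)) (XT.nd (nat_lit 78) (nat_lit 76) (nat_lit 0) (XT.lf (nat_lit 0) (nat_lit 34138763880) (nat_lit 152) (nat_lit 11562143396) (nat_lit 76) (nat_lit 103281961185) (nat_lit 6) (nat_lit 5) (nat_lit 8) (nat_lit 5) (nat_lit 7) (nat_lit 4) (nat_lit 299) (nat_lit 259) (nat_lit 162)) (XT.lf (nat_lit 0) (nat_lit 22318652316) (nat_lit 76) (nat_lit 28110640554) (nat_lit 152) (nat_lit 108853305043) (nat_lit 5) (nat_lit 5) (nat_lit 6) (nat_lit 5) (nat_lit 7) (nat_lit 4) (nat_lit 300) (nat_lit 259) (nat_lit 161)))))) (XT.nd (nat_lit 468) (nat_lit 152) (nat_lit 0) (XT.nd (nat_lit 234) (nat_lit 76) (nat_lit 0) (XT.nd (nat_lit 78) (nat_lit 0) (nat_lit 0) (XT.lf (nat_lit 0) (nat_lit 59564580657) (nat_lit 76) (nat_lit 8772968623) (nat_lit 152)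 (nat_lit 102043601271) (nat_lit 5) (nat_lit 5) (nat_lit 6) (nat_lit 5) (nat_lit 7) (nat_lit 4) (nat_lit 301) (nat_lit 259) (nat_lit 160)) (XT.nd (nat_lit 78) (nat_lit 0) (nat_lit 0) (XT.lf (nat_lit 0) (nat_lit 87968203179) (nat_lit 152) (nat_lit 82871455880) (nat_lit 0) (nat_lit 11504752748) (nat_lit 5) (nat_lit 5) (nat_lit 7) (nat_lit 4) (nat_lit 5) (nat_lit 4) (nat_lit 302) (nat_lit 259) (nat_lit 159)) (XT.lf (nat_lit 0) (nat_lit 109395743420) (nat_lit 152) (nat_lit 52921161929) (nat_lit 0) (nat_lit 32929717011) (nat_lit 5) (nat_lit 5) (nat_lit 7) (nat_lit 4) (nat_lit 5) (nat_lit 4) (nat_lit 303) (nat_lit 259) (nat_lit 158)))) (XT.nd (nat_lit 78) (nat_lit 76) (nat_lit 0) (XT.lf (nat_lit 0) (nat_lit 132536157911) (nat_lit 152) (nat_lit 20577214710) (nat_lit 0) (nat_lit 56067746338) (nat_lit 5) (nat_lit 5) (nat_lit 7) (nat_lit 4) (nat_lit 5) (nat_lit 4) (nat_lit 304) (nat_lit 259)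 (nat_lit 157)) (XT.nd (nat_lit 78) (nat_lit 0) (nat_lit 0) (XT.lf (nat_lit 0) (nat_lit 15107807318) (nat_lit 76) (nat_lit 142782110846) (nat_lit 76) (nat_lit 66311490788) (nat_lit 4) (nat_lit 4) (nat_lit 5) (nat_lit 5) (nat_lit 5) (nat_lit 4) (nat_lit 305) (nat_lit 259) (nat_lit 156)) (XT.lf (nat_lit 0) (nat_lit 54815736429) (nat_lit 76) (nat_lit 131017669503) (nat_lit 76) (nat_lit 54545004551) (nat_lit 4) (nat_lit 4) (nat_lit 5) (nat_lit 5) (nat_lit 5) (nat_lit 4) (nat_lit 306) (nat_lit 259) (nat_lit 155))))) (XT.nd (nat_lit 234) (nat_lit 152) (nat_lit 0) (XT.nd (nat_lit 78) (nat_lit 0) (nat_lit 0) (XT.lf (nat_lit 0) (nat_lit 97698319209) (nat_lit 76) (nat_lit 118312950901) (nat_lit 76) (nat_lit 41838392528) (nat_lit 4) (nat_lit 4) (nat_lit 5) (nat_lit 5) (nat_lit 5) (nat_lit 4) (nat_lit 307) (nat_lit 259) (nat_lit 154)) (XT.nd (nat_lit 78) (nat_lit 0) (nat_lit 0) (XT.lf (nat_lit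 0) (nat_lit 144009674665) (nat_lit 76) (nat_lit 104592667818) (nat_lit 76) (nat_lit 28116356278) (nat_lit 4) (nat_lit 4) (nat_lit 5) (nat_lit 5) (nat_lit 5) (nat_lit 4) (nat_lit 308) (nat_lit 259) (nat_lit 153)) (XT.lf (nat_lit 0) (nat_lit 194024240460) (nat_lit 76) (nat_lit 89775514873) (nat_lit 76) (nat_lit 13297580031) (nat_lit 4) (nat_lit 4) (nat_lit 5) (nat_lit 5) (nat_lit 5) (nat_lit 4) (nat_lit 309) (nat_lit 259) (nat_lit 152)))) (XT.nd (nat_lit 156) (nat_lit 76) (nat_lit 0) (XT.nd (nat_lit 78) (nat_lit 0) (nat_lit 0) (XT.lf (nat_lit 0) (nat_lit 2570398551) (nat_lit 152) (nat_lit 71133008912) (nat_lit 76) (nat_lit 245397721403) (nat_lit 3) (nat_lit 5) (nat_lit 5) (nat_lit 5) (nat_lit 4) (nat_lit 4) (nat_lit 310) (nat_lit 259) (nat_lit 151)) (XT.lf (nat_lit 0) (nat_lit 18988567604) (nat_lit 152) (nat_lit 36984609003) (nat_lit 76) (nat_lit 286864486115) (nat_lit 3) (nat_lit 5)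 (nat_lit 5) (nat_lit 5) (nat_lit 4) (nat_lit 4) (nat_lit 311) (nat_lit 259) (nat_lit 150))) (XT.nd (nat_lit 78) (nat_lit 76) (nat_lit 0) (XT.lf (nat_lit 0) (nat_lit 36719418788) (nat_lit 152) (nat_lit 105727171) (nat_lit 76) (nat_lit 331648036482) (nat_lit 3) (nat_lit 5) (nat_lit 5) (nat_lit 5) (nat_lit 4) (nat_lit 4) (nat_lit 312) (nat_lit 259) (nat_lit 149)) (XT.lf (nat_lit 0) (nat_lit 41813877612) (nat_lit 76) (nat_lit 15059770964) (nat_lit 152) (nat_lit 339205503659) (nat_lit 2) (nat_lit 5) (nat_lit 3) (nat_lit 5) (nat_lit 4) (nat_lit 4) (nat_lit 313) (nat_lit 259) (nat_lit 148))))))) (XT.nd (nat_lit 936) (nat_lit 76) (nat_lit 0) (XT.nd (nat_lit 468) (nat_lit 0) (nat_lit 0) (XT.nd (nat_lit 234) (nat_lit 0) (nat_lit 0) (XT.nd (nat_lit 78) (nat_lit 0) (nat_lit 0) (XT.lf (nat_lit 0) (nat_lit 78845624106) (nat_lit 152) (nat_lit 339004823955) (nat_lit 0) (nat_lit 8026720199) (nat_lit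 2) (nat_lit 5) (nat_lit 4) (nat_lit 4) (nat_lit 2) (nat_lit 4) (nat_lit 314) (nat_lit 259) (nat_lit 147)) (XT.nd (nat_lit 78) (nat_lit 0) (nat_lit 0) (XT.lf (nat_lit 0) (nat_lit 102965867730) (nat_lit 152) (nat_lit 322915901537) (nat_lit 0) (nat_lit 32146016642) (nat_lit 2) (nat_lit 5) (nat_lit 4) (nat_lit 4) (nat_lit 2) (nat_lit 4) (nat_lit 315) (nat_lit 259) (nat_lit 146)) (XT.lf (nat_lit 0) (nat_lit 129015126373) (nat_lit 152) (nat_lit 305540977753) (nat_lit 0) (nat_lit 58194398265) (nat_lit 2) (nat_lit 5) (nat_lit 4) (nat_lit 4) (nat_lit 2) (nat_lit 4) (nat_lit 316) (nat_lit 259) (nat_lit 145)))) (XT.nd (nat_lit 78) (nat_lit 0) (nat_lit 0) (XT.lf (nat_lit 0) (nat_lit 157147766011) (nat_lit 152) (nat_lit 286777090091) (nat_lit 0) (nat_lit 86326225847) (nat_lit 2) (nat_lit 5) (nat_lit 4) (nat_lit 4) (nat_lit 2) (nat_lit 4) (nat_lit 317) (nat_lit 259) (nat_lit 144)) (XT.nd (nat_lit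 78) (nat_lit 0) (nat_lit 0) (XT.lf (nat_lit 0) (nat_lit 187530498582) (nat_lit 152) (nat_lit 266513045143) (nat_lit 0) (nat_lit 116708206515) (nat_lit 2) (nat_lit 5) (nat_lit 4) (nat_lit 4) (nat_lit 2) (nat_lit 4) (nat_lit 318) (nat_lit 259) (nat_lit 143)) (XT.lf (nat_lit 0) (nat_lit 220343369910) (nat_lit 152) (nat_lit 244628759680) (nat_lit 0) (nat_lit 149520381636) (nat_lit 2) (nat_lit 5) (nat_lit 4) (nat_lit 4) (nat_lit 2) (nat_lit 4) (nat_lit 319) (nat_lit 259) (nat_lit 142))))) (XT.nd (nat_lit 234) (nat_lit 0) (nat_lit 0) (XT.nd (nat_lit 78) (nat_lit 0) (nat_lit 0) (XT.lf (nat_lit 0) (nat_lit 255780826638) (nat_lit 152) (nat_lit 220994549046) (nat_lit 0) (nat_lit 184957193729) (nat_lit 2) (nat_lit 5) (nat_lit 4) (nat_lit 4) (nat_lit 2) (nat_lit 4) (nat_lit 320) (nat_lit 259) (nat_lit 141)) (XT.nd (nat_lit 78) (nat_lit 0) (nat_lit 0) (XT.lf (nat_lit 0) (nat_lit 294052868512) (nat_lit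 152) (nat_lit 195470358661) (nat_lit 0) (nat_lit 223228638718) (nat_lit 2) (nat_lit 5) (nat_lit 4) (nat_lit 4) (nat_lit 2) (nat_lit 4) (nat_lit 321) (nat_lit 259) (nat_lit 140)) (XT.lf (nat_lit 0) (nat_lit 335386292816) (nat_lit 152) (nat_lit 167904934063) (nat_lit 0) (nat_lit 264561510350) (nat_lit 2) (nat_lit 5) (nat_lit 4) (nat_lit 4) (nat_lit 2) (nat_lit 4) (nat_lit 322) (nat_lit 259) (nat_lit 139)))) (XT.nd (nat_lit 78) (nat_lit 0) (nat_lit 0) (XT.lf (nat_lit 0) (nat_lit 380026038360) (nat_lit 152) (nat_lit 138134924588) (nat_lit 0) (nat_lit 309200744162) (nat_lit 2) (nat_lit 5) (nat_lit 4) (nat_lit 4) (nat_lit 2) (nat_lit 4) (nat_lit 323) (nat_lit 259) (nat_lit 138)) (XT.nd (nat_lit 78) (nat_lit 0) (nat_lit 0) (XT.lf (nat_lit 0) (nat_lit 428236636971) (nat_lit 152) (nat_lit 105983915365) (nat_lit 0) (nat_lit 357410868946) (nat_lit 2) (nat_lit 5) (nat_lit 4) (nat_lit 4) (nat_lit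 2) (nat_lit 4) (nat_lit 324) (nat_lit 259) (nat_lit 137)) (XT.lf (nat_lit 0) (nat_lit 480303781083) (nat_lit 152) (nat_lit 71261381894) (nat_lit 0) (nat_lit 409477574330) (nat_lit 2) (nat_lit 5) (nat_lit 4) (nat_lit 4) (nat_lit 2) (nat_lit 4) (nat_lit 325) (nat_lit 259) (nat_lit 136)))))) (XT.nd (nat_lit 468) (nat_lit 0) (nat_lit 0) (XT.nd (nat_lit 234) (nat_lit 0) (nat_lit 0) (XT.nd (nat_lit 78) (nat_lit 76) (nat_lit 0) (XT.lf (nat_lit 0) (nat_lit 536536016738) (nat_lit 152) (nat_lit 33761561014) (nat_lit 0) (nat_lit 465709403754) (nat_lit 2) (nat_lit 5) (nat_lit 4) (nat_lit 4) (nat_lit 2) (nat_lit 4) (nat_lit 326) (nat_lit 259) (nat_lit 135)) (XT.nd (nat_lit 78) (nat_lit 0) (nat_lit 0) (XT.lf (nat_lit 0) (nat_lit 7092567380) (nat_lit 76) (nat_lit 590344581033) (nat_lit 76) (nat_lit 519517591911) (nat_lit 1) (nat_lit 4) (nat_lit 2) (nat_lit 5) (nat_lit 2) (nat_lit 4) (nat_lit 327)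 (nat_lit 259) (nat_lit 134)) (XT.lf (nat_lit 0) (nat_lit 53134610913) (nat_lit 76) (nat_lit 610998609389) (nat_lit 76) (nat_lit 540171271990) (nat_lit 1) (nat_lit 4) (nat_lit 2) (nat_lit 5) (nat_lit 2) (nat_lit 4) (nat_lit 328) (nat_lit 259) (nat_lit 133)))) (XT.nd (nat_lit 78) (nat_lit 0) (nat_lit 0) (XT.lf (nat_lit 0) (nat_lit 102859587354) (nat_lit 76) (nat_lit 633305157971) (nat_lit 76) (nat_lit 562477498094) (nat_lit 1) (nat_lit 4) (nat_lit 2) (nat_lit 5) (nat_lit 2) (nat_lit 4) (nat_lit 329) (nat_lit 259) (nat_lit 132)) (XT.nd (nat_lit 78) (nat_lit 0) (nat_lit 0) (XT.lf (nat_lit 0) (nat_lit 156562163228) (nat_lit 76) (nat_lit 657396413734) (nat_lit 76) (nat_lit 586568455265) (nat_lit 1) (nat_lit 4) (nat_lit 2) (nat_lit 5) (nat_lit 2) (nat_lit 4) (nat_lit 330) (nat_lit 259) (nat_lit 131)) (XT.lf (nat_lit 0) (nat_lit 214560576022) (nat_lit 76) (nat_lit 683415139675) (nat_lit 76)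 (nat_lit 612586904733) (nat_lit 1) (nat_lit 4) (nat_lit 2) (nat_lit 5) (nat_lit 2) (nat_lit 4) (nat_lit 331) (nat_lit 259) (nat_lit 130))))) (XT.nd (nat_lit 234) (nat_lit 0) (nat_lit 0) (XT.nd (nat_lit 78) (nat_lit 0) (nat_lit 0) (XT.lf (nat_lit 0) (nat_lit 277198520034) (nat_lit 76) (nat_lit 711515520836) (nat_lit 76) (nat_lit 640687029901) (nat_lit 1) (nat_lit 4) (nat_lit 2) (nat_lit 5) (nat_lit 2) (nat_lit 4) (nat_lit 332) (nat_lit 259) (nat_lit 129)) (XT.nd (nat_lit 78) (nat_lit 0) (nat_lit 0) (XT.lf (nat_lit 0) (nat_lit 344847183080) (nat_lit 76) (nat_lit 741864077996) (nat_lit 76) (nat_lit 671035350029) (nat_lit 1) (nat_lit 4) (nat_lit 2) (nat_lit 5) (nat_lit 2) (nat_lit 4) (nat_lit 333) (nat_lit 259) (nat_lit 128)) (XT.lf (nat_lit 0) (nat_lit 417907446128) (nat_lit 76) (nat_lit 774640654455) (nat_lit 76) (nat_lit 703811707015) (nat_lit 1) (nat_lit 4) (nat_lit 2) (nat_lit 5)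 (nat_lit 2) (nat_lit 4) (nat_lit 334) (nat_lit 259) (nat_lit 127)))) (XT.nd (nat_lit 31746) (nat_lit 0) (nat_lit 2432) (XT.nd (nat_lit 31668) (nat_lit 0) (nat_lit 2432) (XT.lf (nat_lit 0) (nat_lit 496812258883) (nat_lit 76) (nat_lit 810039481777) (nat_lit 76) (nat_lit 739210331121) (nat_lit 1) (nat_lit 4) (nat_lit 2) (nat_lit 5) (nat_lit 2) (nat_lit 4) (nat_lit 335) (nat_lit 259) (nat_lit 126)) (XT.lf (nat_lit 0) (nat_lit 2285256643) (nat_lit 532) (nat_lit 3672750232) (nat_lit 532) (nat_lit 3672750232) (nat_lit 33) (nat_lit 3) (nat_lit 40) (nat_lit 3) (nat_lit 40) (nat_lit 5) (nat_lit 260) (nat_lit 260) (nat_lit 200))) (XT.nd (nat_lit 78) (nat_lit 0) (nat_lit 76) (XT.lf (nat_lit 76) (nat_lit 808919870) (nat_lit 0) (nat_lit 4122125541) (nat_lit 532) (nat_lit 15085791512) (nat_lit 34) (nat_lit 5) (nat_lit 33) (nat_lit 3) (nat_lit 40) (nat_lit 5) (nat_lit 261) (nat_lit 260) (nat_lit 199))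 (XT.lf (nat_lit 0) (nat_lit 5613894603) (nat_lit 456) (nat_lit 10902190738) (nat_lit 532) (nat_lit 4293114282) (nat_lit 34) (nat_lit 5) (nat_lit 40) (nat_lit 5) (nat_lit 41) (nat_lit 5) (nat_lit 262) (nat_lit 260) (nat_lit 198))))))))
noncomputable def xc85 : XT := (XT.nd (nat_lit 1950) (nat_lit 684) (nat_lit 0) (XT.nd (nat_lit 936) (nat_lit 912) (nat_lit 0) (XT.nd (nat_lit 468) (nat_lit 456) (nat_lit 0) (XT.nd (nat_lit 234) (nat_lit 304) (nat_lit 0) (XT.nd (nat_lit 78) (nat_lit 0) (nat_lit 76) (XT.lf (nat_lit 0) (nat_lit 6443733875) (nat_lit 456) (nat_lit 2048883152) (nat_lit 532) (nat_lit 13165030654) (nat_lit 34) (nat_lit 5) (nat_lit 40) (nat_lit 5) (nat_lit 41) (nat_lit 5) (nat_lit 263) (nat_lit 260) (nat_lit 197)) (XT.nd (nat_lit 78) (nat_lit 0) (nat_lit 0) (XT.lf (nat_lit 0) (nat_lit 7525505647) (nat_lit 456) (nat_lit 14670406462) (nat_lit 532) (nat_lit 363294840) (nat_lit 35)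 (nat_lit 5) (nat_lit 41) (nat_lit 5) (nat_lit 42) (nat_lit 5) (nat_lit 264) (nat_lit 260) (nat_lit 196)) (XT.lf (nat_lit 0) (nat_lit 8959156266) (nat_lit 456) (nat_lit 5022477670) (nat_lit 532) (nat_lit 9530103195) (nat_lit 35) (nat_lit 5) (nat_lit 41) (nat_lit 5) (nat_lit 42) (nat_lit 5) (nat_lit 265) (nat_lit 260) (nat_lit 195)))) (XT.nd (nat_lit 78) (nat_lit 380) (nat_lit 0) (XT.lf (nat_lit 76) (nat_lit 5671704834) (nat_lit 0) (nat_lit 4960415856) (nat_lit 532) (nat_lit 13898447021) (nat_lit 36) (nat_lit 5) (nat_lit 35) (nat_lit 5) (nat_lit 42) (nat_lit 5) (nat_lit 266) (nat_lit 260) (nat_lit 194)) (XT.nd (nat_lit 78) (nat_lit 456) (nat_lit 0) (XT.lf (nat_lit 0) (nat_lit 12683753228) (nat_lit 456) (nat_lit 8241519516) (nat_lit 76) (nat_lit 4686108224) (nat_lit 36) (nat_lit 5) (nat_lit 42) (nat_lit 5) (nat_lit 37) (nat_lit 5) (nat_lit 267) (nat_lit 260) (nat_lit 193)) (XT.lf (nat_lit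 0) (nat_lit 3249604312) (nat_lit 456) (nat_lit 11846649167) (nat_lit 532) (nat_lit 11666724900) (nat_lit 30) (nat_lit 5) (nat_lit 36) (nat_lit 5) (nat_lit 37) (nat_lit 5) (nat_lit 268) (nat_lit 260) (nat_lit 192))))) (XT.nd (nat_lit 234) (nat_lit 228) (nat_lit 0) (XT.nd (nat_lit 78) (nat_lit 228) (nat_lit 0) (XT.lf (nat_lit 0) (nat_lit 16119633200) (nat_lit 456) (nat_lit 1797741674) (nat_lit 532) (nat_lit 10072132782) (nat_lit 30) (nat_lit 5) (nat_lit 36) (nat_lit 5) (nat_lit 37) (nat_lit 5) (nat_lit 269) (nat_lit 260) (nat_lit 191)) (XT.nd (nat_lit 78) (nat_lit 0) (nat_lit 0) (XT.lf (nat_lit 0) (nat_lit 503310111) (nat_lit 228) (nat_lit 20681772479) (nat_lit 304) (nat_lit 8111454734) (nat_lit 27) (nat_lit 5) (nat_lit 30) (nat_lit 5) (nat_lit 31) (nat_lit 5) (nat_lit 270) (nat_lit 260) (nat_lit 190)) (XT.lf (nat_lit 0) (nat_lit 14483281366) (nat_lit 228) (nat_lit 10592448336) (nat_lit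 304) (nat_lit 5603523934) (nat_lit 27) (nat_lit 5) (nat_lit 30) (nat_lit 5) (nat_lit 31) (nat_lit 5) (nat_lit 271) (nat_lit 260) (nat_lit 189)))) (XT.nd (nat_lit 78) (nat_lit 228) (nat_lit 0) (XT.lf (nat_lit 0) (nat_lit 29277029703) (nat_lit 304) (nat_lit 2607214648) (nat_lit 76) (nat_lit 288433489) (nat_lit 27) (nat_lit 5) (nat_lit 31) (nat_lit 5) (nat_lit 28) (nat_lit 5) (nat_lit 272) (nat_lit 260) (nat_lit 188)) (XT.nd (nat_lit 78) (nat_lit 0) (nat_lit 0) (XT.lf (nat_lit 0) (nat_lit 608245871) (nat_lit 228) (nat_lit 21349919373) (nat_lit 76) (nat_lit 11780925267) (nat_lit 24) (nat_lit 5) (nat_lit 27) (nat_lit 5) (nat_lit 25) (nat_lit 5) (nat_lit 273) (nat_lit 260) (nat_lit 187)) (XT.lf (nat_lit 0) (nat_lit 4301955990) (nat_lit 228) (nat_lit 6777138448) (nat_lit 76) (nat_lit 24340463118) (nat_lit 24) (nat_lit 5) (nat_lit 27) (nat_lit 5) (nat_lit 25) (nat_lit 5) (nat_lit 274) (nat_lit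 260) (nat_lit 186)))))) (XT.nd (nat_lit 468) (nat_lit 380) (nat_lit 0) (XT.nd (nat_lit 234) (nat_lit 152) (nat_lit 0) (XT.nd (nat_lit 78) (nat_lit 152) (nat_lit 0) (XT.lf (nat_lit 0) (nat_lit 8533155426) (nat_lit 304) (nat_lit 27813800644) (nat_lit 76) (nat_lit 868177866) (nat_lit 21) (nat_lit 5) (nat_lit 25) (nat_lit 5) (nat_lit 22) (nat_lit 5) (nat_lit 275) (nat_lit 260) (nat_lit 185)) (XT.nd (nat_lit 78) (nat_lit 152) (nat_lit 0) (XT.lf (nat_lit 0) (nat_lit 13574348479) (nat_lit 304) (nat_lit 12180789807) (nat_lit 76) (nat_lit 13361527372) (nat_lit 21) (nat_lit 5) (nat_lit 25) (nat_lit 5) (nat_lit 22) (nat_lit 5) (nat_lit 276) (nat_lit 260) (nat_lit 184)) (XT.lf (nat_lit 0) (nat_lit 4942533069) (nat_lit 152) (nat_lit 14189261797) (nat_lit 228) (nat_lit 22029515315) (nat_lit 19) (nat_lit 5) (nat_lit 21) (nat_lit 5) (nat_lit 22) (nat_lit 5) (nat_lit 277) (nat_lit 260) (nat_lit 183))))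 (XT.nd (nat_lit 78) (nat_lit 152) (nat_lit 0) (XT.lf (nat_lit 0) (nat_lit 24121071495) (nat_lit 152) (nat_lit 1340159938) (nat_lit 228) (nat_lit 17882128177) (nat_lit 19) (nat_lit 5) (nat_lit 21) (nat_lit 5) (nat_lit 22) (nat_lit 5) (nat_lit 278) (nat_lit 260) (nat_lit 182)) (XT.nd (nat_lit 78) (nat_lit 152) (nat_lit 0) (XT.lf (nat_lit 0) (nat_lit 32593264970) (nat_lit 228) (nat_lit 1174830744) (nat_lit 76) (nat_lit 11908200974) (nat_lit 19) (nat_lit 5) (nat_lit 22) (nat_lit 5) (nat_lit 20) (nat_lit 5) (nat_lit 279) (nat_lit 260) (nat_lit 181)) (XT.lf (nat_lit 0) (nat_lit 19237235796) (nat_lit 152) (nat_lit 21551211110) (nat_lit 228) (nat_lit 7368036318) (nat_lit 17) (nat_lit 5) (nat_lit 19) (nat_lit 5) (nat_lit 20) (nat_lit 5) (nat_lit 280) (nat_lit 260) (nat_lit 180))))) (XT.nd (nat_lit 234) (nat_lit 228) (nat_lit 0) (XT.nd (nat_lit 78) (nat_lit 152) (nat_lit 0) (XT.lf (nat_lit 0)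 (nat_lit 41342548494) (nat_lit 152) (nat_lit 8324141583) (nat_lit 228) (nat_lit 1166218640) (nat_lit 17) (nat_lit 5) (nat_lit 19) (nat_lit 5) (nat_lit 20) (nat_lit 5) (nat_lit 281) (nat_lit 260) (nat_lit 179)) (XT.nd (nat_lit 78) (nat_lit 0) (nat_lit 0) (XT.lf (nat_lit 0) (nat_lit 5692237166) (nat_lit 152) (nat_lit 41893071968) (nat_lit 76) (nat_lit 6092535938) (nat_lit 15) (nat_lit 5) (nat_lit 17) (nat_lit 5) (nat_lit 16) (nat_lit 5) (nat_lit 282) (nat_lit 260) (nat_lit 178)) (XT.lf (nat_lit 0) (nat_lit 13514476846) (nat_lit 152) (nat_lit 21687672153) (nat_lit 76) (nat_lit 21507570635) (nat_lit 15) (nat_lit 5) (nat_lit 17) (nat_lit 5) (nat_lit 16) (nat_lit 5) (nat_lit 283) (nat_lit 260) (nat_lit 177)))) (XT.nd (nat_lit 156) (nat_lit 76) (nat_lit 0) (XT.nd (nat_lit 78) (nat_lit 0) (nat_lit 0) (XT.lf (nat_lit 0) (nat_lit 134933564) (nat_lit 152) (nat_lit 21826806316) (nat_lit 228) (nat_lit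 38022479279) (nat_lit 13) (nat_lit 5) (nat_lit 15) (nat_lit 5) (nat_lit 16) (nat_lit 5) (nat_lit 284) (nat_lit 260) (nat_lit 176)) (XT.lf (nat_lit 0) (nat_lit 24930920159) (nat_lit 152) (nat_lit 6742998497) (nat_lit 228) (nat_lit 31799642668) (nat_lit 13) (nat_lit 5) (nat_lit 15) (nat_lit 5) (nat_lit 16) (nat_lit 5) (nat_lit 285) (nat_lit 260) (nat_lit 175))) (XT.nd (nat_lit 78) (nat_lit 76) (nat_lit 0) (XT.lf (nat_lit 0) (nat_lit 42389085682) (nat_lit 228) (nat_lit 15766729530) (nat_lit 76) (nat_lit 9068166990) (nat_lit 13) (nat_lit 5) (nat_lit 16) (nat_lit 5) (nat_lit 14) (nat_lit 4) (nat_lit 286) (nat_lit 260) (nat_lit 174)) (XT.lf (nat_lit 0) (nat_lit 9106424282) (nat_lit 76) (nat_lit 45245857298) (nat_lit 152) (nat_lit 16890901465) (nat_lit 12) (nat_lit 5) (nat_lit 13) (nat_lit 5) (nat_lit 14) (nat_lit 4) (nat_lit 287) (nat_lit 260) (nat_lit 173))))))) (XT.nd (nat_lit 936) (nat_lit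 228) (nat_lit 0) (XT.nd (nat_lit 468) (nat_lit 152) (nat_lit 0) (XT.nd (nat_lit 234) (nat_lit 76) (nat_lit 0) (XT.nd (nat_lit 78) (nat_lit 228) (nat_lit 0) (XT.lf (nat_lit 0) (nat_lit 36861002481) (nat_lit 76) (nat_lit 30839408600) (nat_lit 152) (nat_lit 7849289320) (nat_lit 12) (nat_lit 5) (nat_lit 13) (nat_lit 5) (nat_lit 14) (nat_lit 4) (nat_lit 288) (nat_lit 260) (nat_lit 172)) (XT.nd (nat_lit 78) (nat_lit 152) (nat_lit 0) (XT.lf (nat_lit 0) (nat_lit 1816762041) (nat_lit 152) (nat_lit 13415752363) (nat_lit 76) (nat_lit 64964793067) (nat_lit 11) (nat_lit 5) (nat_lit 13) (nat_lit 5) (nat_lit 12) (nat_lit 5) (nat_lit 289) (nat_lit 260) (nat_lit 171)) (XT.lf (nat_lit 0) (nat_lit 12228565187) (nat_lit 228) (nat_lit 70835741035) (nat_lit 76) (nat_lit 2104392497) (nat_lit 9) (nat_lit 5) (nat_lit 12) (nat_lit 5) (nat_lit 10) (nat_lit 4) (nat_lit 290) (nat_lit 260) (nat_lit 170)))) (XT.nd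 (nat_lit 78) (nat_lit 76) (nat_lit 0) (XT.lf (nat_lit 0) (nat_lit 24242529357) (nat_lit 228) (nat_lit 45853701251) (nat_lit 76) (nat_lit 20380041168) (nat_lit 9) (nat_lit 5) (nat_lit 12) (nat_lit 5) (nat_lit 10) (nat_lit 4) (nat_lit 291) (nat_lit 260) (nat_lit 169)) (XT.nd (nat_lit 78) (nat_lit 76) (nat_lit 0) (XT.lf (nat_lit 0) (nat_lit 37215044974) (nat_lit 228) (nat_lit 18877355517) (nat_lit 76) (nat_lit 40116262709) (nat_lit 9) (nat_lit 5) (nat_lit 12) (nat_lit 5) (nat_lit 10) (nat_lit 4) (nat_lit 292) (nat_lit 260) (nat_lit 168)) (XT.lf (nat_lit 0) (nat_lit 10793069018) (nat_lit 76) (nat_lit 40689490756) (nat_lit 152) (nat_lit 50896517060) (nat_lit 8) (nat_lit 5) (nat_lit 9) (nat_lit 5) (nat_lit 10) (nat_lit 4) (nat_lit 293) (nat_lit 260) (nat_lit 167))))) (XT.nd (nat_lit 234) (nat_lit 152) (nat_lit 0) (XT.nd (nat_lit 78) (nat_lit 0) (nat_lit 0) (XT.lf (nat_lit 0) (nat_lit 43906857363)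 (nat_lit 76) (nat_lit 23498466683) (nat_lit 152) (nat_lit 41596697881) (nat_lit 8) (nat_lit 5) (nat_lit 9) (nat_lit 5) (nat_lit 10) (nat_lit 4) (nat_lit 294) (nat_lit 260) (nat_lit 166)) (XT.nd (nat_lit 78) (nat_lit 0) (nat_lit 0) (XT.lf (nat_lit 0) (nat_lit 79666191288) (nat_lit 76) (nat_lit 4933595891) (nat_lit 152) (nat_lit 31555191002) (nat_lit 8) (nat_lit 5) (nat_lit 9) (nat_lit 5) (nat_lit 10) (nat_lit 4) (nat_lit 295) (nat_lit 260) (nat_lit 165)) (XT.lf (nat_lit 0) (nat_lit 103531361663) (nat_lit 152) (nat_lit 5960874904) (nat_lit 0) (nat_lit 14359015366) (nat_lit 8) (nat_lit 5) (nat_lit 10) (nat_lit 4) (nat_lit 8) (nat_lit 4) (nat_lit 296) (nat_lit 260) (nat_lit 164)))) (XT.nd (nat_lit 78) (nat_lit 76) (nat_lit 0) (XT.lf (nat_lit 0) (nat_lit 28293299222) (nat_lit 76) (nat_lit 96490913649) (nat_lit 76) (nat_lit 7314479600) (nat_lit 7) (nat_lit 4) (nat_lit 8) (nat_lit 5) (nat_lit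 8) (nat_lit 4) (nat_lit 297) (nat_lit 260) (nat_lit 163)) (XT.nd (nat_lit 78) (nat_lit 0) (nat_lit 0) (XT.lf (nat_lit 0) (nat_lit 6560010772) (nat_lit 152) (nat_lit 75535396598) (nat_lit 76) (nat_lit 58884343812) (nat_lit 6) (nat_lit 5) (nat_lit 8) (nat_lit 5) (nat_lit 7) (nat_lit 4) (nat_lit 298) (nat_lit 260) (nat_lit 162)) (XT.lf (nat_lit 0) (nat_lit 21147587361) (nat_lit 152) (nat_lit 45196741881) (nat_lit 76) (nat_lit 84211906446) (nat_lit 6) (nat_lit 5) (nat_lit 8) (nat_lit 5) (nat_lit 7) (nat_lit 4) (nat_lit 299) (nat_lit 260) (nat_lit 161)))))) (XT.nd (nat_lit 468) (nat_lit 152) (nat_lit 0) (XT.nd (nat_lit 234) (nat_lit 0) (nat_lit 0) (XT.nd (nat_lit 78) (nat_lit 76) (nat_lit 0) (XT.lf (nat_lit 0) (nat_lit 36900594959) (nat_lit 152) (nat_lit 12433731068) (nat_lit 76) (nat_lit 111564642574) (nat_lit 6) (nat_lit 5) (nat_lit 8) (nat_lit 5) (nat_lit 7) (nat_lit 4) (nat_lit 300)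 (nat_lit 260) (nat_lit 160)) (XT.nd (nat_lit 78) (nat_lit 0) (nat_lit 0) (XT.lf (nat_lit 0) (nat_lit 24156176812) (nat_lit 76) (nat_lit 30337164540) (nat_lit 152) (nat_lit 117529422304) (nat_lit 5) (nat_lit 5) (nat_lit 6) (nat_lit 5) (nat_lit 7) (nat_lit 4) (nat_lit 301) (nat_lit 260) (nat_lit 159)) (XT.lf (nat_lit 0) (nat_lit 64377925175) (nat_lit 76) (nat_lit 9454132725) (nat_lit 152) (nat_lit 110177323501) (nat_lit 5) (nat_lit 5) (nat_lit 6) (nat_lit 5) (nat_lit 7) (nat_lit 4) (nat_lit 302) (nat_lit 260) (nat_lit 158)))) (XT.nd (nat_lit 78) (nat_lit 0) (nat_lit 0) (XT.lf (nat_lit 0) (nat_lit 95031587094) (nat_lit 152) (nat_lit 89454929699) (nat_lit 0) (nat_lit 12443317431) (nat_lit 5) (nat_lit 5) (nat_lit 7) (nat_lit 4) (nat_lit 5) (nat_lit 4) (nat_lit 303) (nat_lit 260) (nat_lit 157)) (XT.nd (nat_lit 78) (nat_lit 0) (nat_lit 0) (XT.lf (nat_lit 0) (nat_lit 118171409987) (nat_lit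 152) (nat_lit 57112037613) (nat_lit 0) (nat_lit 35580931838) (nat_lit 5) (nat_lit 5) (nat_lit 7) (nat_lit 4) (nat_lit 5) (nat_lit 4) (nat_lit 304) (nat_lit 260) (nat_lit 156)) (XT.lf (nat_lit 0) (nat_lit 143161279334) (nat_lit 152) (nat_lit 22183746267) (nat_lit 0) (nat_lit 60568756292) (nat_lit 5) (nat_lit 5) (nat_lit 7) (nat_lit 4) (nat_lit 5) (nat_lit 4) (nat_lit 305) (nat_lit 260) (nat_lit 155))))) (XT.nd (nat_lit 234) (nat_lit 76) (nat_lit 0) (XT.nd (nat_lit 78) (nat_lit 0) (nat_lit 0) (XT.lf (nat_lit 0) (nat_lit 16355073837) (nat_lit 76) (nat_lit 154187549333) (nat_lit 76) (nat_lit 71593132870) (nat_lit 4) (nat_lit 4) (nat_lit 5) (nat_lit 5) (nat_lit 5) (nat_lit 4) (nat_lit 306) (nat_lit 260) (nat_lit 154)) (XT.nd (nat_lit 78) (nat_lit 0) (nat_lit 0) (XT.lf (nat_lit 0) (nat_lit 59236774912) (nat_lit 76) (nat_lit 141483221599) (nat_lit 76) (nat_lit 58887051970) (nat_lit 4) (nat_lit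 4) (nat_lit 5) (nat_lit 5) (nat_lit 5) (nat_lit 4) (nat_lit 307) (nat_lit 260) (nat_lit 153)) (XT.lf (nat_lit 0) (nat_lit 105547313975) (nat_lit 76) (nat_lit 127763300432) (nat_lit 76) (nat_lit 45165507500) (nat_lit 4) (nat_lit 4) (nat_lit 5) (nat_lit 5) (nat_lit 5) (nat_lit 4) (nat_lit 308) (nat_lit 260) (nat_lit 152)))) (XT.nd (nat_lit 156) (nat_lit 76) (nat_lit 0) (XT.nd (nat_lit 78) (nat_lit 0) (nat_lit 0) (XT.lf (nat_lit 0) (nat_lit 155561123851) (nat_lit 76) (nat_lit 112946482594) (nat_lit 76) (nat_lit 30347186604) (nat_lit 4) (nat_lit 4) (nat_lit 5) (nat_lit 5) (nat_lit 5) (nat_lit 4) (nat_lit 309) (nat_lit 260) (nat_lit 151)) (XT.lf (nat_lit 0) (nat_lit 209574582672) (nat_lit 76) (nat_lit 96944964721) (nat_lit 76) (nat_lit 14344277010) (nat_lit 4) (nat_lit 4) (nat_lit 5) (nat_lit 5) (nat_lit 5) (nat_lit 4) (nat_lit 310) (nat_lit 260) (nat_lit 150))) (XT.nd (nat_lit 78) (nat_lit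 0) (nat_lit 0) (XT.lf (nat_lit 0) (nat_lit 2791080010) (nat_lit 152) (nat_lit 76796529919) (nat_lit 76) (nat_lit 265040377110) (nat_lit 3) (nat_lit 5) (nat_lit 5) (nat_lit 5) (nat_lit 4) (nat_lit 4) (nat_lit 311) (nat_lit 260) (nat_lit 149)) (XT.lf (nat_lit 0) (nat_lit 20521587803) (nat_lit 152) (nat_lit 39918266885) (nat_lit 76) (nat_lit 309823680184) (nat_lit 3) (nat_lit 5) (nat_lit 5) (nat_lit 5) (nat_lit 4) (nat_lit 4) (nat_lit 312) (nat_lit 260) (nat_lit 148))))))))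
noncomputable def xc86 : XT := (XT.nd (nat_lit 33618) (nat_lit 0) (nat_lit 912) (XT.nd (nat_lit 936) (nat_lit 76) (nat_lit 0) (XT.nd (nat_lit 468) (nat_lit 0) (nat_lit 0) (XT.nd (nat_lit 234) (nat_lit 0) (nat_lit 0) (XT.nd (nat_lit 78) (nat_lit 76) (nat_lit 0) (XT.lf (nat_lit 0) (nat_lit 39669874875) (nat_lit 152) (nat_lit 90934568) (nat_lit 76) (nat_lit 358189171235) (nat_lit 3) (nat_lit 5) (nat_lit 5) (nat_lit 5) (nat_lit 4) (nat_lit 4) (nat_lit 313) (nat_lit 260) (nat_lit 147)) (XT.nd (nat_lit 78) (nat_lit 0) (nat_lit 0) (XT.lf (nat_lit 0) (nat_lit 45181649970) (nat_lit 76) (nat_lit 16254382354) (nat_lit 152) (nat_lit 366328430377) (nat_lit 2) (nat_lit 5) (nat_lit 3) (nat_lit 5) (nat_lit 4) (nat_lit 4) (nat_lit 314) (nat_lit 260) (nat_lit 146)) (XT.lf (nat_lit 0) (nat_lit 85165067051) (nat_lit 152) (nat_lit 366103506847) (nat_lit 0) (nat_lit 8677803674) (nat_lit 2) (nat_lit 5) (nat_lit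 4) (nat_lit 4) (nat_lit 2) (nat_lit 4) (nat_lit 315) (nat_lit 260) (nat_lit 145)))) (XT.nd (nat_lit 78) (nat_lit 0) (nat_lit 0) (XT.lf (nat_lit 0) (nat_lit 111214056609) (nat_lit 152) (nat_lit 348729078268) (nat_lit 0) (nat_lit 34725981176) (nat_lit 2) (nat_lit 5) (nat_lit 4) (nat_lit 4) (nat_lit 2) (nat_lit 4) (nat_lit 316) (nat_lit 260) (nat_lit 144)) (XT.nd (nat_lit 78) (nat_lit 0) (nat_lit 0) (XT.lf (nat_lit 0) (nat_lit 139346447094) (nat_lit 152) (nat_lit 329965649128) (nat_lit 0) (nat_lit 62857619758) (nat_lit 2) (nat_lit 5) (nat_lit 4) (nat_lit 4) (nat_lit 2) (nat_lit 4) (nat_lit 317) (nat_lit 260) (nat_lit 143)) (XT.lf (nat_lit 0) (nat_lit 169728948968) (nat_lit 152) (nat_lit 309702028738) (nat_lit 0) (nat_lit 93239425426) (nat_lit 2) (nat_lit 5) (nat_lit 4) (nat_lit 4) (nat_lit 2) (nat_lit 4) (nat_lit 318) (nat_lit 260) (nat_lit 142))))) (XT.nd (nat_lit 234) (nat_lit 0) (nat_lit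 0) (XT.nd (nat_lit 78) (nat_lit 0) (nat_lit 0) (XT.lf (nat_lit 0) (nat_lit 202541606688) (nat_lit 152) (nat_lit 287818136384) (nat_lit 0) (nat_lit 126051438510) (nat_lit 2) (nat_lit 5) (nat_lit 4) (nat_lit 4) (nat_lit 2) (nat_lit 4) (nat_lit 319) (nat_lit 260) (nat_lit 141)) (XT.nd (nat_lit 78) (nat_lit 0) (nat_lit 0) (XT.lf (nat_lit 0) (nat_lit 237978865631) (nat_lit 152) (nat_lit 264184289741) (nat_lit 0) (nat_lit 161488100568) (nat_lit 2) (nat_lit 5) (nat_lit 4) (nat_lit 4) (nat_lit 2) (nat_lit 4) (nat_lit 320) (nat_lit 260) (nat_lit 140)) (XT.lf (nat_lit 0) (nat_lit 276250724371) (nat_lit 152) (nat_lit 238660436383) (nat_lit 0) (nat_lit 199759406636) (nat_lit 2) (nat_lit 5) (nat_lit 4) (nat_lit 4) (nat_lit 2) (nat_lit 4) (nat_lit 321) (nat_lit 260) (nat_lit 139)))) (XT.nd (nat_lit 78) (nat_lit 0) (nat_lit 0) (XT.lf (nat_lit 0) (nat_lit 317583979105) (nat_lit 152) (nat_lit 211095323848)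 (nat_lit 0) (nat_lit 241092149638) (nat_lit 2) (nat_lit 5) (nat_lit 4) (nat_lit 4) (nat_lit 2) (nat_lit 4) (nat_lit 322) (nat_lit 260) (nat_lit 138)) (XT.nd (nat_lit 78) (nat_lit 0) (nat_lit 0) (XT.lf (nat_lit 0) (nat_lit 362223567641) (nat_lit 152) (nat_lit 181325603320) (nat_lit 0) (nat_lit 285731264347) (nat_lit 2) (nat_lit 5) (nat_lit 4) (nat_lit 4) (nat_lit 2) (nat_lit 4) (nat_lit 323) (nat_lit 260) (nat_lit 137)) (XT.lf (nat_lit 0) (nat_lit 410434020874) (nat_lit 152) (nat_lit 149174861640) (nat_lit 0) (nat_lit 333941278851) (nat_lit 2) (nat_lit 5) (nat_lit 4) (nat_lit 4) (nat_lit 2) (nat_lit 4) (nat_lit 324) (nat_lit 260) (nat_lit 136)))))) (XT.nd (nat_lit 468) (nat_lit 0) (nat_lit 0) (XT.nd (nat_lit 234) (nat_lit 76) (nat_lit 0) (XT.nd (nat_lit 78) (nat_lit 0) (nat_lit 0) (XT.lf (nat_lit 0) (nat_lit 462501030377) (nat_lit 152) (nat_lit 114452575894) (nat_lit 0) (nat_lit 386007882125)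 (nat_lit 2) (nat_lit 5) (nat_lit 4) (nat_lit 4) (nat_lit 2) (nat_lit 4) (nat_lit 325) (nat_lit 260) (nat_lit 135)) (XT.nd (nat_lit 78) (nat_lit 0) (nat_lit 0) (XT.lf (nat_lit 0) (nat_lit 518733141393) (nat_lit 152) (nat_lit 76952984390) (nat_lit 0) (nat_lit 442239617002) (nat_lit 2) (nat_lit 5) (nat_lit 4) (nat_lit 4) (nat_lit 2) (nat_lit 4) (nat_lit 326) (nat_lit 260) (nat_lit 134)) (XT.lf (nat_lit 0) (nat_lit 579463581246) (nat_lit 152) (nat_lit 36453867326) (nat_lit 0) (nat_lit 502969708579) (nat_lit 2) (nat_lit 5) (nat_lit 4) (nat_lit 4) (nat_lit 2) (nat_lit 4) (nat_lit 327) (nat_lit 260) (nat_lit 133)))) (XT.nd (nat_lit 78) (nat_lit 0) (nat_lit 0) (XT.lf (nat_lit 0) (nat_lit 7668373148) (nat_lit 76) (nat_lit 637568285435) (nat_lit 76) (nat_lit 561074090289) (nat_lit 1) (nat_lit 4) (nat_lit 2) (nat_lit 5) (nat_lit 2) (nat_lit 4) (nat_lit 328) (nat_lit 260) (nat_lit 132)) (XT.nd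 (nat_lit 78) (nat_lit 0) (nat_lit 0) (XT.lf (nat_lit 0) (nat_lit 57393157914) (nat_lit 76) (nat_lit 659874922139) (nat_lit 76) (nat_lit 583380428402) (nat_lit 1) (nat_lit 4) (nat_lit 2) (nat_lit 5) (nat_lit 2) (nat_lit 4) (nat_lit 329) (nat_lit 260) (nat_lit 131)) (XT.lf (nat_lit 0) (nat_lit 111095556312) (nat_lit 76) (nat_lit 683966259497) (nat_lit 76) (nat_lit 607471489287) (nat_lit 1) (nat_lit 4) (nat_lit 2) (nat_lit 5) (nat_lit 2) (nat_lit 4) (nat_lit 330) (nat_lit 260) (nat_lit 130))))) (XT.nd (nat_lit 234) (nat_lit 0) (nat_lit 0) (XT.nd (nat_lit 78) (nat_lit 0) (nat_lit 0) (XT.lf (nat_lit 0) (nat_lit 169093804777) (nat_lit 76) (nat_lit 709985060989) (nat_lit 76) (nat_lit 633490034784) (nat_lit 1) (nat_lit 4) (nat_lit 2) (nat_lit 5) (nat_lit 2) (nat_lit 4) (nat_lit 331) (nat_lit 260) (nat_lit 129)) (XT.nd (nat_lit 78) (nat_lit 0) (nat_lit 0) (XT.lf (nat_lit 0) (nat_lit 231731596632)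 (nat_lit 76) (nat_lit 738085512104) (nat_lit 76) (nat_lit 661590248869) (nat_lit 1) (nat_lit 4) (nat_lit 2) (nat_lit 5) (nat_lit 2) (nat_lit 4) (nat_lit 332) (nat_lit 260) (nat_lit 128)) (XT.lf (nat_lit 0) (nat_lit 299380118792) (nat_lit 76) (nat_lit 768434134036) (nat_lit 76) (nat_lit 691938651327) (nat_lit 1) (nat_lit 4) (nat_lit 2) (nat_lit 5) (nat_lit 2) (nat_lit 4) (nat_lit 333) (nat_lit 260) (nat_lit 127)))) (XT.nd (nat_lit 31824) (nat_lit 0) (nat_lit 2432) (XT.nd (nat_lit 78) (nat_lit 0) (nat_lit 0) (XT.lf (nat_lit 0) (nat_lit 372440251390) (nat_lit 76) (nat_lit 801210770470) (nat_lit 76) (nat_lit 724715084545) (nat_lit 1) (nat_lit 4) (nat_lit 2) (nat_lit 5) (nat_lit 2) (nat_lit 4) (nat_lit 334) (nat_lit 260) (nat_lit 126)) (XT.lf (nat_lit 0) (nat_lit 451344943358) (nat_lit 76) (nat_lit 836609653324) (nat_lit 76) (nat_lit 760113779236) (nat_lit 1) (nat_lit 4) (nat_lit 2) (nat_lit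 5) (nat_lit 2) (nat_lit 4) (nat_lit 335) (nat_lit 260) (nat_lit 125))) (XT.nd (nat_lit 78) (nat_lit 0) (nat_lit 0) (XT.lf (nat_lit 0) (nat_lit 2622528139) (nat_lit 532) (nat_lit 3882717337) (nat_lit 532) (nat_lit 3882717337) (nat_lit 33) (nat_lit 3) (nat_lit 40) (nat_lit 3) (nat_lit 40) (nat_lit 5) (nat_lit 261) (nat_lit 261) (nat_lit 198)) (XT.lf (nat_lit 76) (nat_lit 1037093570) (nat_lit 0) (nat_lit 4578386997) (nat_lit 532) (nat_lit 15977842768) (nat_lit 34) (nat_lit 5) (nat_lit 33) (nat_lit 3) (nat_lit 40) (nat_lit 5) (nat_lit 262) (nat_lit 261) (nat_lit 197))))))) (XT.nd (nat_lit 936) (nat_lit 836) (nat_lit 0) (XT.nd (nat_lit 468) (nat_lit 760) (nat_lit 0) (XT.nd (nat_lit 234) (nat_lit 0) (nat_lit 76) (XT.nd (nat_lit 78) (nat_lit 0) (nat_lit 0) (XT.lf (nat_lit 0) (nat_lit 6328663025) (nat_lit 456) (nat_lit 11597178244) (nat_lit 532) (nat_lit 4525300647) (nat_lit 34) (nat_lit 5)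 (nat_lit 40) (nat_lit 5) (nat_lit 41) (nat_lit 5) (nat_lit 263) (nat_lit 261) (nat_lit 196)) (XT.nd (nat_lit 78) (nat_lit 0) (nat_lit 76) (XT.lf (nat_lit 0) (nat_lit 7205211153) (nat_lit 456) (nat_lit 2048731070) (nat_lit 532) (nat_lit 14115212016) (nat_lit 34) (nat_lit 5) (nat_lit 40) (nat_lit 5) (nat_lit 41) (nat_lit 5) (nat_lit 264) (nat_lit 261) (nat_lit 195)) (XT.lf (nat_lit 0) (nat_lit 8357425598) (nat_lit 456) (nat_lit 15662555906) (nat_lit 532) (nat_lit 324250370) (nat_lit 35) (nat_lit 5) (nat_lit 41) (nat_lit 5) (nat_lit 42) (nat_lit 5) (nat_lit 265) (nat_lit 261) (nat_lit 194)))) (XT.nd (nat_lit 78) (nat_lit 0) (nat_lit 0) (XT.lf (nat_lit 0) (nat_lit 9888740156) (nat_lit 456) (nat_lit 5256236001) (nat_lit 532) (nat_lit 10229448435) (nat_lit 35) (nat_lit 5) (nat_lit 41) (nat_lit 5) (nat_lit 42) (nat_lit 5) (nat_lit 266) (nat_lit 261) (nat_lit 193)) (XT.nd (nat_lit 78) (nat_lit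 0) (nat_lit 76) (XT.lf (nat_lit 76) (nat_lit 6289226928) (nat_lit 0) (nat_lit 5394487086) (nat_lit 532) (nat_lit 14792084444) (nat_lit 36) (nat_lit 5) (nat_lit 35) (nat_lit 5) (nat_lit 42) (nat_lit 5) (nat_lit 267) (nat_lit 261) (nat_lit 192)) (XT.lf (nat_lit 0) (nat_lit 13883757278) (nat_lit 456) (nat_lit 8732418900) (nat_lit 76) (nat_lit 5028242097) (nat_lit 36) (nat_lit 5) (nat_lit 42) (nat_lit 5) (nat_lit 37) (nat_lit 5) (nat_lit 268) (nat_lit 261) (nat_lit 191))))) (XT.nd (nat_lit 234) (nat_lit 228) (nat_lit 0) (XT.nd (nat_lit 78) (nat_lit 228) (nat_lit 0) (XT.lf (nat_lit 0) (nat_lit 3673730982) (nat_lit 456) (nat_lit 12805748373) (nat_lit 532) (nat_lit 12409524075) (nat_lit 30) (nat_lit 5) (nat_lit 36) (nat_lit 5) (nat_lit 37) (nat_lit 5) (nat_lit 269) (nat_lit 261) (nat_lit 190)) (XT.nd (nat_lit 78) (nat_lit 228) (nat_lit 0) (XT.lf (nat_lit 0) (nat_lit 17561202305) (nat_lit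 456) (nat_lit 1952086260) (nat_lit 532) (nat_lit 10701478573) (nat_lit 30) (nat_lit 5) (nat_lit 36) (nat_lit 5) (nat_lit 37) (nat_lit 5) (nat_lit 270) (nat_lit 261) (nat_lit 189)) (XT.lf (nat_lit 0) (nat_lit 705521234) (nat_lit 228) (nat_lit 22328513303) (nat_lit 304) (nat_lit 8593061522) (nat_lit 27) (nat_lit 5) (nat_lit 30) (nat_lit 5) (nat_lit 31) (nat_lit 5) (nat_lit 271) (nat_lit 261) (nat_lit 188)))) (XT.nd (nat_lit 78) (nat_lit 228) (nat_lit 0) (XT.lf (nat_lit 0) (nat_lit 15791894166) (nat_lit 228) (nat_lit 11432621078) (nat_lit 304) (nat_lit 5896889561) (nat_lit 27) (nat_lit 5) (nat_lit 30) (nat_lit 5) (nat_lit 31) (nat_lit 5) (nat_lit 272) (nat_lit 261) (nat_lit 187)) (XT.nd (nat_lit 78) (nat_lit 228) (nat_lit 0) (XT.lf (nat_lit 0) (nat_lit 31751507711) (nat_lit 304) (nat_lit 2665823583) (nat_lit 76) (nat_lit 317861682) (nat_lit 27) (nat_lit 5) (nat_lit 31) (nat_lit 5) (nat_lit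 28) (nat_lit 5) (nat_lit 273) (nat_lit 261) (nat_lit 186)) (XT.lf (nat_lit 0) (nat_lit 786836848) (nat_lit 228) (nat_lit 22904287394) (nat_lit 76) (nat_lit 12736087001) (nat_lit 24) (nat_lit 5) (nat_lit 27) (nat_lit 5) (nat_lit 25) (nat_lit 5) (nat_lit 274) (nat_lit 261) (nat_lit 185)))))) (XT.nd (nat_lit 468) (nat_lit 456) (nat_lit 0) (XT.nd (nat_lit 234) (nat_lit 152) (nat_lit 0) (XT.nd (nat_lit 78) (nat_lit 228) (nat_lit 0) (XT.lf (nat_lit 0) (nat_lit 4766419236) (nat_lit 228) (nat_lit 7177063664) (nat_lit 76) (nat_lit 26299448050) (nat_lit 24) (nat_lit 5) (nat_lit 27) (nat_lit 5) (nat_lit 25) (nat_lit 5) (nat_lit 275) (nat_lit 261) (nat_lit 184)) (XT.nd (nat_lit 78) (nat_lit 0) (nat_lit 0) (XT.lf (nat_lit 0) (nat_lit 9331112582) (nat_lit 304) (nat_lit 29891132096) (nat_lit 76) (nat_lit 960350901) (nat_lit 21) (nat_lit 5) (nat_lit 25) (nat_lit 5) (nat_lit 22) (nat_lit 5) (nat_lit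 276) (nat_lit 261) (nat_lit 183)) (XT.lf (nat_lit 0) (nat_lit 14767059989) (nat_lit 304) (nat_lit 13018426511) (nat_lit 76) (nat_lit 14451485492) (nat_lit 21) (nat_lit 5) (nat_lit 25) (nat_lit 5) (nat_lit 22) (nat_lit 5) (nat_lit 277) (nat_lit 261) (nat_lit 182)))) (XT.nd (nat_lit 78) (nat_lit 0) (nat_lit 0) (XT.lf (nat_lit 0) (nat_lit 5471298234) (nat_lit 152) (nat_lit 15293102808) (nat_lit 228) (nat_lit 23681199107) (nat_lit 19) (nat_lit 5) (nat_lit 21) (nat_lit 5) (nat_lit 22) (nat_lit 5) (nat_lit 278) (nat_lit 261) (nat_lit 181)) (XT.nd (nat_lit 78) (nat_lit 0) (nat_lit 0) (XT.lf (nat_lit 0) (nat_lit 26174241029) (nat_lit 152) (nat_lit 1418391314) (nat_lit 228) (nat_lit 19210219326) (nat_lit 19) (nat_lit 5) (nat_lit 21) (nat_lit 5) (nat_lit 22) (nat_lit 5) (nat_lit 279) (nat_lit 261) (nat_lit 180)) (XT.lf (nat_lit 0) (nat_lit 35288873759) (nat_lit 228) (nat_lit 1147739870) (nat_lit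 76) (nat_lit 12886349322) (nat_lit 19) (nat_lit 5) (nat_lit 22) (nat_lit 5) (nat_lit 20) (nat_lit 5) (nat_lit 280) (nat_lit 261) (nat_lit 179))))) (XT.nd (nat_lit 234) (nat_lit 152) (nat_lit 0) (XT.nd (nat_lit 78) (nat_lit 152) (nat_lit 0) (XT.lf (nat_lit 0) (nat_lit 20894226745) (nat_lit 152) (nat_lit 23241752247) (nat_lit 228) (nat_lit 7865909285) (nat_lit 17) (nat_lit 5) (nat_lit 19) (nat_lit 5) (nat_lit 20) (nat_lit 5) (nat_lit 281) (nat_lit 261) (nat_lit 178)) (XT.nd (nat_lit 78) (nat_lit 152) (nat_lit 0) (XT.lf (nat_lit 0) (nat_lit 44759222823) (nat_lit 152) (nat_lit 8959002769) (nat_lit 228) (nat_lit 1174729151) (nat_lit 17) (nat_lit 5) (nat_lit 19) (nat_lit 5) (nat_lit 20) (nat_lit 5) (nat_lit 282) (nat_lit 261) (nat_lit 177)) (XT.lf (nat_lit 0) (nat_lit 6225673644) (nat_lit 152) (nat_lit 45127928171) (nat_lit 76) (nat_lit 6611942786) (nat_lit 15) (nat_lit 5) (nat_lit 17) (nat_lit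 5) (nat_lit 16) (nat_lit 5) (nat_lit 283) (nat_lit 261) (nat_lit 176)))) (XT.nd (nat_lit 156) (nat_lit 0) (nat_lit 0) (XT.nd (nat_lit 78) (nat_lit 152) (nat_lit 0) (XT.lf (nat_lit 0) (nat_lit 14667910461) (nat_lit 152) (nat_lit 23314732634) (nat_lit 76) (nat_lit 23257809595) (nat_lit 15) (nat_lit 5) (nat_lit 17) (nat_lit 5) (nat_lit 16) (nat_lit 5) (nat_lit 284) (nat_lit 261) (nat_lit 175)) (XT.lf (nat_lit 0) (nat_lit 250948546) (nat_lit 152) (nat_lit 23537182804) (nat_lit 228) (nat_lit 40989026125) (nat_lit 13) (nat_lit 5) (nat_lit 15) (nat_lit 5) (nat_lit 16) (nat_lit 5) (nat_lit 285) (nat_lit 261) (nat_lit 174))) (XT.nd (nat_lit 78) (nat_lit 0) (nat_lit 0) (XT.lf (nat_lit 0) (nat_lit 27022819972) (nat_lit 152) (nat_lit 7249319842) (nat_lit 228) (nat_lit 34273936769) (nat_lit 13) (nat_lit 5) (nat_lit 15) (nat_lit 5) (nat_lit 16) (nat_lit 5) (nat_lit 286) (nat_lit 261) (nat_lit 173))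 (XT.lf (nat_lit 0) (nat_lit 45840494173) (nat_lit 228) (nat_lit 16933624055) (nat_lit 76) (nat_lit 9822751656) (nat_lit 13) (nat_lit 5) (nat_lit 16) (nat_lit 5) (nat_lit 14) (nat_lit 4) (nat_lit 287) (nat_lit 261) (nat_lit 172))))))))
noncomputable def xc87 : XT := (XT.nd (nat_lit 1950) (nat_lit 152) (nat_lit 0) (XT.nd (nat_lit 936) (nat_lit 228) (nat_lit 0) (XT.nd (nat_lit 468) (nat_lit 228) (nat_lit 0) (XT.nd (nat_lit 234) (nat_lit 152) (nat_lit 0) (XT.nd (nat_lit 78) (nat_lit 76) (nat_lit 0) (XT.lf (nat_lit 0) (nat_lit 9926991079) (nat_lit 76) (nat_lit 48831503231) (nat_lit 152) (nat_lit 18179308033) (nat_lit 12) (nat_lit 5) (nat_lit 13) (nat_lit 5) (nat_lit 14) (nat_lit 4) (nat_lit 288) (nat_lit 261) (nat_lit 171)) (XT.nd (nat_lit 78) (nat_lit 76) (nat_lit 0) (XT.lf (nat_lit 0) (nat_lit 39895116804) (nat_lit 76) (nat_lit 33275058834) (nat_lit 152) (nat_lit 8419023624) (nat_lit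 12) (nat_lit 5) (nat_lit 13) (nat_lit 5) (nat_lit 14) (nat_lit 4) (nat_lit 289) (nat_lit 261) (nat_lit 170)) (XT.lf (nat_lit 0) (nat_lit 2013303930) (nat_lit 152) (nat_lit 14407242762) (nat_lit 76) (nat_lit 70188296148) (nat_lit 11) (nat_lit 5) (nat_lit 13) (nat_lit 5) (nat_lit 12) (nat_lit 5) (nat_lit 290) (nat_lit 261) (nat_lit 169)))) (XT.nd (nat_lit 78) (nat_lit 0) (nat_lit 0) (XT.lf (nat_lit 0) (nat_lit 13256905956) (nat_lit 228) (nat_lit 76419543348) (nat_lit 76) (nat_lit 2301599059) (nat_lit 9) (nat_lit 5) (nat_lit 12) (nat_lit 5) (nat_lit 10) (nat_lit 4) (nat_lit 291) (nat_lit 261) (nat_lit 168)) (XT.nd (nat_lit 78) (nat_lit 0) (nat_lit 0) (XT.lf (nat_lit 0) (nat_lit 26228279441) (nat_lit 228) (nat_lit 49445092749) (nat_lit 76) (nat_lit 22037162204) (nat_lit 9) (nat_lit 5) (nat_lit 12) (nat_lit 5) (nat_lit 10) (nat_lit 4) (nat_lit 292) (nat_lit 261) (nat_lit 167)) (XT.lf (nat_lit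 0) (nat_lit 40235163141) (nat_lit 228) (nat_lit 20316335994) (nat_lit 76) (nat_lit 43350302377) (nat_lit 9) (nat_lit 5) (nat_lit 12) (nat_lit 5) (nat_lit 10) (nat_lit 4) (nat_lit 293) (nat_lit 261) (nat_lit 166))))) (XT.nd (nat_lit 234) (nat_lit 152) (nat_lit 0) (XT.nd (nat_lit 78) (nat_lit 0) (nat_lit 0) (XT.lf (nat_lit 0) (nat_lit 11725919770) (nat_lit 76) (nat_lit 43916649696) (nat_lit 152) (nat_lit 54923408550) (nat_lit 8) (nat_lit 5) (nat_lit 9) (nat_lit 5) (nat_lit 10) (nat_lit 4) (nat_lit 294) (nat_lit 261) (nat_lit 165)) (XT.nd (nat_lit 78) (nat_lit 0) (nat_lit 0) (XT.lf (nat_lit 0) (nat_lit 47483670055) (nat_lit 76) (nat_lit 25352417795) (nat_lit 152) (nat_lit 44882924568) (nat_lit 8) (nat_lit 5) (nat_lit 9) (nat_lit 5) (nat_lit 10) (nat_lit 4) (nat_lit 295) (nat_lit 261) (nat_lit 164)) (XT.lf (nat_lit 0) (nat_lit 86098990390) (nat_lit 76) (nat_lit 5304277800) (nat_lit 152)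 (nat_lit 34041171890) (nat_lit 8) (nat_lit 5) (nat_lit 9) (nat_lit 5) (nat_lit 10) (nat_lit 4) (nat_lit 296) (nat_lit 261) (nat_lit 163)))) (XT.nd (nat_lit 78) (nat_lit 152) (nat_lit 0) (XT.lf (nat_lit 0) (nat_lit 111847273722) (nat_lit 152) (nat_lit 6380464512) (nat_lit 0) (nat_lit 15528852241) (nat_lit 8) (nat_lit 5) (nat_lit 10) (nat_lit 4) (nat_lit 8) (nat_lit 4) (nat_lit 297) (nat_lit 261) (nat_lit 162)) (XT.nd (nat_lit 78) (nat_lit 76) (nat_lit 0) (XT.lf (nat_lit 0) (nat_lit 30612593408) (nat_lit 76) (nat_lit 104186628032) (nat_lit 76) (nat_lit 7864701962) (nat_lit 7) (nat_lit 4) (nat_lit 8) (nat_lit 5) (nat_lit 8) (nat_lit 4) (nat_lit 298) (nat_lit 261) (nat_lit 161)) (XT.lf (nat_lit 0) (nat_lit 7115541602) (nat_lit 152) (nat_lit 81524844526) (nat_lit 76) (nat_lit 63615215812) (nat_lit 6) (nat_lit 5) (nat_lit 8) (nat_lit 5) (nat_lit 7) (nat_lit 4) (nat_lit 299) (nat_lit 261)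 (nat_lit 160)))))) (XT.nd (nat_lit 468) (nat_lit 152) (nat_lit 0) (XT.nd (nat_lit 234) (nat_lit 0) (nat_lit 0) (XT.nd (nat_lit 78) (nat_lit 76) (nat_lit 0) (XT.lf (nat_lit 0) (nat_lit 22867848024) (nat_lit 152) (nat_lit 48763051787) (nat_lit 76) (nat_lit 90967492753) (nat_lit 6) (nat_lit 5) (nat_lit 8) (nat_lit 5) (nat_lit 7) (nat_lit 4) (nat_lit 300) (nat_lit 261) (nat_lit 159)) (XT.nd (nat_lit 78) (nat_lit 76) (nat_lit 0) (XT.lf (nat_lit 0) (nat_lit 39878988550) (nat_lit 152) (nat_lit 13382661550) (nat_lit 76) (nat_lit 120507067490) (nat_lit 6) (nat_lit 5) (nat_lit 8) (nat_lit 5) (nat_lit 7) (nat_lit 4) (nat_lit 301) (nat_lit 261) (nat_lit 158)) (XT.lf (nat_lit 0) (nat_lit 26133280277) (nat_lit 76) (nat_lit 32744995678) (nat_lit 152) (nat_lit 126904215096) (nat_lit 5) (nat_lit 5) (nat_lit 6) (nat_lit 5) (nat_lit 7) (nat_lit 4) (nat_lit 302) (nat_lit 261) (nat_lit 157)))) (XT.nd (nat_lit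 78) (nat_lit 0) (nat_lit 0) (XT.lf (nat_lit 0) (nat_lit 69569464115) (nat_lit 76) (nat_lit 10192739246) (nat_lit 152) (nat_lit 118965989943) (nat_lit 5) (nat_lit 5) (nat_lit 6) (nat_lit 5) (nat_lit 7) (nat_lit 4) (nat_lit 303) (nat_lit 261) (nat_lit 156)) (XT.nd (nat_lit 78) (nat_lit 0) (nat_lit 0) (XT.lf (nat_lit 0) (nat_lit 102656342852) (nat_lit 152) (nat_lit 96571678454) (nat_lit 0) (nat_lit 13454373073) (nat_lit 5) (nat_lit 5) (nat_lit 7) (nat_lit 4) (nat_lit 5) (nat_lit 4) (nat_lit 304) (nat_lit 261) (nat_lit 155)) (XT.lf (nat_lit 0) (nat_lit 127645704999) (nat_lit 152) (nat_lit 61644291714) (nat_lit 0) (nat_lit 38441841799) (nat_lit 5) (nat_lit 5) (nat_lit 7) (nat_lit 4) (nat_lit 5) (nat_lit 4) (nat_lit 305) (nat_lit 261) (nat_lit 154))))) (XT.nd (nat_lit 234) (nat_lit 76) (nat_lit 0) (XT.nd (nat_lit 78) (nat_lit 76) (nat_lit 0) (XT.lf (nat_lit 0) (nat_lit 154633239286) (nat_lit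 152) (nat_lit 23924456239) (nat_lit 0) (nat_lit 65427622919) (nat_lit 5) (nat_lit 5) (nat_lit 7) (nat_lit 4) (nat_lit 5) (nat_lit 4) (nat_lit 306) (nat_lit 261) (nat_lit 153)) (XT.nd (nat_lit 78) (nat_lit 0) (nat_lit 0) (XT.lf (nat_lit 0) (nat_lit 17696608974) (nat_lit 76) (nat_lit 166507866739) (nat_lit 76) (nat_lit 77300627069) (nat_lit 4) (nat_lit 4) (nat_lit 5) (nat_lit 5) (nat_lit 5) (nat_lit 4) (nat_lit 307) (nat_lit 261) (nat_lit 152)) (XT.lf (nat_lit 0) (nat_lit 64006392118) (nat_lit 76) (nat_lit 152788280679) (nat_lit 76) (nat_lit 63579537951) (nat_lit 4) (nat_lit 4) (nat_lit 5) (nat_lit 5) (nat_lit 5) (nat_lit 4) (nat_lit 308) (nat_lit 261) (nat_lit 151)))) (XT.nd (nat_lit 156) (nat_lit 76) (nat_lit 0) (XT.nd (nat_lit 78) (nat_lit 0) (nat_lit 0) (XT.lf (nat_lit 0) (nat_lit 114019502068) (nat_lit 76) (nat_lit 137971773125) (nat_lit 76) (nat_lit 48761638677) (nat_lit 4) (nat_lit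 4) (nat_lit 5) (nat_lit 5) (nat_lit 5) (nat_lit 4) (nat_lit 309) (nat_lit 261) (nat_lit 150)) (XT.lf (nat_lit 0) (nat_lit 168032312810) (nat_lit 76) (nat_lit 121970542552) (nat_lit 76) (nat_lit 32759119474) (nat_lit 4) (nat_lit 4) (nat_lit 5) (nat_lit 5) (nat_lit 5) (nat_lit 4) (nat_lit 310) (nat_lit 261) (nat_lit 149))) (XT.nd (nat_lit 78) (nat_lit 76) (nat_lit 0) (XT.lf (nat_lit 0) (nat_lit 226364900259) (nat_lit 76) (nat_lit 104689766853) (nat_lit 76) (nat_lit 15477150599) (nat_lit 4) (nat_lit 4) (nat_lit 5) (nat_lit 5) (nat_lit 5) (nat_lit 4) (nat_lit 311) (nat_lit 261) (nat_lit 148)) (XT.lf (nat_lit 0) (nat_lit 3027268995) (nat_lit 152) (nat_lit 82917001536) (nat_lit 76) (nat_lit 286252899112) (nat_lit 3) (nat_lit 5) (nat_lit 5) (nat_lit 5) (nat_lit 4) (nat_lit 4) (nat_lit 312) (nat_lit 261) (nat_lit 147))))))) (XT.nd (nat_lit 1014) (nat_lit 76) (nat_lit 0) (XT.nd (nat_lit 468)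 (nat_lit 0) (nat_lit 0) (XT.nd (nat_lit 234) (nat_lit 0) (nat_lit 0) (XT.nd (nat_lit 78) (nat_lit 76) (nat_lit 0) (XT.lf (nat_lit 0) (nat_lit 22175261665) (nat_lit 152) (nat_lit 43090199739) (nat_lit 76) (nat_lit 334618178148) (nat_lit 3) (nat_lit 5) (nat_lit 5) (nat_lit 5) (nat_lit 4) (nat_lit 4) (nat_lit 313) (nat_lit 261) (nat_lit 146)) (XT.nd (nat_lit 78) (nat_lit 76) (nat_lit 0) (XT.lf (nat_lit 0) (nat_lit 42854526751) (nat_lit 152) (nat_lit 78275540) (nat_lit 76) (nat_lit 386852271183) (nat_lit 3) (nat_lit 5) (nat_lit 5) (nat_lit 5) (nat_lit 4) (nat_lit 4) (nat_lit 314) (nat_lit 261) (nat_lit 145)) (XT.lf (nat_lit 0) (nat_lit 48815611108) (nat_lit 76) (nat_lit 17546013561) (nat_lit 152) (nat_lit 395623119095) (nat_lit 2) (nat_lit 5) (nat_lit 3) (nat_lit 5) (nat_lit 4) (nat_lit 4) (nat_lit 315) (nat_lit 261) (nat_lit 144)))) (XT.nd (nat_lit 78) (nat_lit 0) (nat_lit 0) (XT.lf (nat_lit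 0) (nat_lit 91988383026) (nat_lit 152) (nat_lit 395373180550) (nat_lit 0) (nat_lit 9379697601) (nat_lit 2) (nat_lit 5) (nat_lit 4) (nat_lit 4) (nat_lit 2) (nat_lit 4) (nat_lit 316) (nat_lit 261) (nat_lit 143)) (XT.nd (nat_lit 78) (nat_lit 0) (nat_lit 0) (XT.lf (nat_lit 0) (nat_lit 120120542814) (nat_lit 152) (nat_lit 376610175969) (nat_lit 0) (nat_lit 37511161182) (nat_lit 2) (nat_lit 5) (nat_lit 4) (nat_lit 4) (nat_lit 2) (nat_lit 4) (nat_lit 317) (nat_lit 261) (nat_lit 142)) (XT.lf (nat_lit 0) (nat_lit 150502831081) (nat_lit 152) (nat_lit 356346948688) (nat_lit 0) (nat_lit 67892804813) (nat_lit 2) (nat_lit 5) (nat_lit 4) (nat_lit 4) (nat_lit 2) (nat_lit 4) (nat_lit 318) (nat_lit 261) (nat_lit 141))))) (XT.nd (nat_lit 234) (nat_lit 0) (nat_lit 0) (XT.nd (nat_lit 78) (nat_lit 0) (nat_lit 0) (XT.lf (nat_lit 0) (nat_lit 183315291015) (nat_lit 152) (nat_lit 334463420324) (nat_lit 0) (nat_lit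 100704667862) (nat_lit 2) (nat_lit 5) (nat_lit 4) (nat_lit 4) (nat_lit 2) (nat_lit 4) (nat_lit 319) (nat_lit 261) (nat_lit 140)) (XT.nd (nat_lit 78) (nat_lit 0) (nat_lit 0) (XT.lf (nat_lit 0) (nat_lit 218752366824) (nat_lit 152) (nat_lit 310829910708) (nat_lit 0) (nat_lit 136141190999) (nat_lit 2) (nat_lit 5) (nat_lit 4) (nat_lit 4) (nat_lit 2) (nat_lit 4) (nat_lit 320) (nat_lit 261) (nat_lit 139)) (XT.lf (nat_lit 0) (nat_lit 257024055994) (nat_lit 152) (nat_lit 285306369414) (nat_lit 0) (nat_lit 174412368437) (nat_lit 2) (nat_lit 5) (nat_lit 4) (nat_lit 4) (nat_lit 2) (nat_lit 4) (nat_lit 321) (nat_lit 261) (nat_lit 138)))) (XT.nd (nat_lit 156) (nat_lit 0) (nat_lit 0) (XT.nd (nat_lit 78) (nat_lit 0) (nat_lit 0) (XT.lf (nat_lit 0) (nat_lit 298357153720) (nat_lit 152) (nat_lit 257741545826) (nat_lit 0) (nat_lit 215744992336) (nat_lit 2) (nat_lit 5) (nat_lit 4) (nat_lit 4) (nat_lit 2)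 (nat_lit 4) (nat_lit 322) (nat_lit 261) (nat_lit 137)) (XT.lf (nat_lit 0) (nat_lit 342996596878) (nat_lit 152) (nat_lit 227972092841) (nat_lit 0) (nat_lit 260383996766) (nat_lit 2) (nat_lit 5) (nat_lit 4) (nat_lit 4) (nat_lit 2) (nat_lit 4) (nat_lit 323) (nat_lit 261) (nat_lit 136))) (XT.nd (nat_lit 78) (nat_lit 0) (nat_lit 0) (XT.lf (nat_lit 0) (nat_lit 391206915501) (nat_lit 152) (nat_lit 195821598886) (nat_lit 0) (nat_lit 308593909159) (nat_lit 2) (nat_lit 5) (nat_lit 4) (nat_lit 4) (nat_lit 2) (nat_lit 4) (nat_lit 324) (nat_lit 261) (nat_lit 135)) (XT.lf (nat_lit 0) (nat_lit 443273800366) (nat_lit 152) (nat_lit 161099542516) (nat_lit 0) (nat_lit 360660417885) (nat_lit 2) (nat_lit 5) (nat_lit 4) (nat_lit 4) (nat_lit 2) (nat_lit 4) (nat_lit 325) (nat_lit 261) (nat_lit 134)))))) (XT.nd (nat_lit 468) (nat_lit 0) (nat_lit 0) (XT.nd (nat_lit 234) (nat_lit 76) (nat_lit 0) (XT.nd (nat_lit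 78) (nat_lit 0) (nat_lit 0) (XT.lf (nat_lit 0) (nat_lit 499505795976) (nat_lit 152) (nat_lit 123600163397) (nat_lit 0) (nat_lit 416892065219) (nat_lit 2) (nat_lit 5) (nat_lit 4) (nat_lit 4) (nat_lit 2) (nat_lit 4) (nat_lit 326) (nat_lit 261) (nat_lit 133)) (XT.nd (nat_lit 78) (nat_lit 0) (nat_lit 0) (XT.lf (nat_lit 0) (nat_lit 560236128972) (nat_lit 152) (nat_lit 83101242985) (nat_lit 0) (nat_lit 477622075736) (nat_lit 2) (nat_lit 5) (nat_lit 4) (nat_lit 4) (nat_lit 2) (nat_lit 4) (nat_lit 327) (nat_lit 261) (nat_lit 132)) (XT.lf (nat_lit 0) (nat_lit 625824682809) (nat_lit 152) (nat_lit 39362787678) (nat_lit 0) (nat_lit 543210330981) (nat_lit 2) (nat_lit 5) (nat_lit 4) (nat_lit 4) (nat_lit 2) (nat_lit 4) (nat_lit 328) (nat_lit 261) (nat_lit 131)))) (XT.nd (nat_lit 78) (nat_lit 0) (nat_lit 0) (XT.lf (nat_lit 0) (nat_lit 8289044970) (nat_lit 76) (nat_lit 688570437158) (nat_lit 76) (nat_lit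 605955808857) (nat_lit 1) (nat_lit 4) (nat_lit 2) (nat_lit 5) (nat_lit 2) (nat_lit 4) (nat_lit 329) (nat_lit 261) (nat_lit 130)) (XT.nd (nat_lit 78) (nat_lit 0) (nat_lit 0) (XT.lf (nat_lit 0) (nat_lit 61991279038) (nat_lit 76) (nat_lit 712661850066) (nat_lit 76) (nat_lit 630046965772) (nat_lit 1) (nat_lit 4) (nat_lit 2) (nat_lit 5) (nat_lit 2) (nat_lit 4) (nat_lit 330) (nat_lit 261) (nat_lit 129)) (XT.lf (nat_lit 0) (nat_lit 119989375346) (nat_lit 76) (nat_lit 738680721512) (nat_lit 76) (nat_lit 656065600187) (nat_lit 1) (nat_lit 4) (nat_lit 2) (nat_lit 5) (nat_lit 2) (nat_lit 4) (nat_lit 331) (nat_lit 261) (nat_lit 128))))) (XT.nd (nat_lit 234) (nat_lit 0) (nat_lit 0) (XT.nd (nat_lit 78) (nat_lit 0) (nat_lit 0) (XT.lf (nat_lit 0) (nat_lit 182627026315) (nat_lit 76) (nat_lit 766781237400) (nat_lit 76) (nat_lit 684165896602) (nat_lit 1) (nat_lit 4) (nat_lit 2) (nat_lit 5) (nat_lit 2)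 (nat_lit 4) (nat_lit 332) (nat_lit 261) (nat_lit 127)) (XT.nd (nat_lit 78) (nat_lit 0) (nat_lit 0) (XT.lf (nat_lit 0) (nat_lit 250275418025) (nat_lit 76) (nat_lit 797129919307) (nat_lit 76) (nat_lit 714514375292) (nat_lit 1) (nat_lit 4) (nat_lit 2) (nat_lit 5) (nat_lit 2) (nat_lit 4) (nat_lit 333) (nat_lit 261) (nat_lit 126)) (XT.lf (nat_lit 0) (nat_lit 323335429836) (nat_lit 76) (nat_lit 829906611272) (nat_lit 76) (nat_lit 747290879094) (nat_lit 1) (nat_lit 4) (nat_lit 2) (nat_lit 5) (nat_lit 2) (nat_lit 4) (nat_lit 334) (nat_lit 261) (nat_lit 125)))) (XT.nd (nat_lit 31902) (nat_lit 0) (nat_lit 2432) (XT.nd (nat_lit 31824) (nat_lit 0) (nat_lit 2432) (XT.lf (nat_lit 0) (nat_lit 402240009964) (nat_lit 76) (nat_lit 865305545545) (nat_lit 76) (nat_lit 782689639142) (nat_lit 1) (nat_lit 4) (nat_lit 2) (nat_lit 5) (nat_lit 2) (nat_lit 4) (nat_lit 335) (nat_lit 261) (nat_lit 124)) (XT.lf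 (nat_lit 0) (nat_lit 2964747197) (nat_lit 532) (nat_lit 4121444366) (nat_lit 532) (nat_lit 4121444366) (nat_lit 33) (nat_lit 3) (nat_lit 40) (nat_lit 3) (nat_lit 40) (nat_lit 5) (nat_lit 262) (nat_lit 262) (nat_lit 196))) (XT.nd (nat_lit 78) (nat_lit 0) (nat_lit 76) (XT.lf (nat_lit 76) (nat_lit 1260201754) (nat_lit 0) (nat_lit 5053103955) (nat_lit 532) (nat_lit 16986169586) (nat_lit 34) (nat_lit 5) (nat_lit 33) (nat_lit 3) (nat_lit 40) (nat_lit 5) (nat_lit 263) (nat_lit 262) (nat_lit 195)) (XT.lf (nat_lit 0) (nat_lit 7062714000) (nat_lit 456) (nat_lit 12373042564) (nat_lit 532) (nat_lit 4791934800) (nat_lit 34) (nat_lit 5) (nat_lit 40) (nat_lit 5) (nat_lit 41) (nat_lit 5) (nat_lit 264) (nat_lit 262) (nat_lit 194))))))))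
noncomputable def xc88 : XT := (XT.nd (nat_lit 1950) (nat_lit 684) (nat_lit 0) (XT.nd (nat_lit 936) (nat_lit 912) (nat_lit 0) (XT.nd (nat_lit 468) (nat_lit 456) (nat_lit 0) (XT.nd (nat_lit 234) (nat_lit 304) (nat_lit 0) (XT.nd (nat_lit 78) (nat_lit 0) (nat_lit 76) (XT.lf (nat_lit 0) (nat_lit 7992515021) (nat_lit 456) (nat_lit 2071972204) (nat_lit 532) (nat_lit 15156104997) (nat_lit 34) (nat_lit 5) (nat_lit 40) (nat_lit 5) (nat_lit 41) (nat_lit 5) (nat_lit 265) (nat_lit 262) (nat_lit 193)) (XT.nd (nat_lit 78) (nat_lit 0) (nat_lit 0) (XT.lf (nat_lit 0) (nat_lit 9223104265) (nat_lit 456) (nat_lit 16759967895) (nat_lit 532) (nat_lit 291798718) (nat_lit 35) (nat_lit 5) (nat_lit 41) (nat_lit 5) (nat_lit 42) (nat_lit 5) (nat_lit 266) (nat_lit 262) (nat_lit 192)) (XT.lf (nat_lit 0) (nat_lit 10862325127) (nat_lit 456) (nat_lit 5532667767) (nat_lit 532) (nat_lit 10993737938) (nat_lit 35) (nat_lit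 5) (nat_lit 41) (nat_lit 5) (nat_lit 42) (nat_lit 5) (nat_lit 267) (nat_lit 262) (nat_lit 191)))) (XT.nd (nat_lit 78) (nat_lit 380) (nat_lit 0) (XT.lf (nat_lit 76) (nat_lit 6932784928) (nat_lit 0) (nat_lit 5857971603) (nat_lit 532) (nat_lit 15788346999) (nat_lit 36) (nat_lit 5) (nat_lit 35) (nat_lit 5) (nat_lit 42) (nat_lit 5) (nat_lit 268) (nat_lit 262) (nat_lit 190)) (XT.nd (nat_lit 78) (nat_lit 456) (nat_lit 0) (XT.lf (nat_lit 0) (nat_lit 15153325995) (nat_lit 456) (nat_lit 9286617541) (nat_lit 76) (nat_lit 5402419516) (nat_lit 36) (nat_lit 5) (nat_lit 42) (nat_lit 5) (nat_lit 37) (nat_lit 5) (nat_lit 269) (nat_lit 262) (nat_lit 189)) (XT.lf (nat_lit 0) (nat_lit 4108368765) (nat_lit 456) (nat_lit 13839953847) (nat_lit 532) (nat_lit 13238929675) (nat_lit 30) (nat_lit 5) (nat_lit 36) (nat_lit 5) (nat_lit 37) (nat_lit 5) (nat_lit 270) (nat_lit 262) (nat_lit 188))))) (XT.nd (nat_lit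 234) (nat_lit 228) (nat_lit 0) (XT.nd (nat_lit 78) (nat_lit 228) (nat_lit 0) (XT.lf (nat_lit 0) (nat_lit 19096412660) (nat_lit 456) (nat_lit 2117276868) (nat_lit 532) (nat_lit 11406341002) (nat_lit 30) (nat_lit 5) (nat_lit 36) (nat_lit 5) (nat_lit 37) (nat_lit 5) (nat_lit 271) (nat_lit 262) (nat_lit 187)) (XT.nd (nat_lit 78) (nat_lit 0) (nat_lit 0) (XT.lf (nat_lit 0) (nat_lit 900805795) (nat_lit 228) (nat_lit 24108106288) (nat_lit 304) (nat_lit 9137065437) (nat_lit 27) (nat_lit 5) (nat_lit 30) (nat_lit 5) (nat_lit 31) (nat_lit 5) (nat_lit 272) (nat_lit 262) (nat_lit 186)) (XT.lf (nat_lit 0) (nat_lit 17183803905) (nat_lit 228) (nat_lit 12341038099) (nat_lit 304) (nat_lit 6235824979) (nat_lit 27) (nat_lit 5) (nat_lit 30) (nat_lit 5) (nat_lit 31) (nat_lit 5) (nat_lit 273) (nat_lit 262) (nat_lit 185)))) (XT.nd (nat_lit 78) (nat_lit 228) (nat_lit 0) (XT.lf (nat_lit 0) (nat_lit 34405067656)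 (nat_lit 304) (nat_lit 2750515878) (nat_lit 76) (nat_lit 348737731) (nat_lit 27) (nat_lit 5) (nat_lit 31) (nat_lit 5) (nat_lit 28) (nat_lit 5) (nat_lit 274) (nat_lit 262) (nat_lit 184)) (XT.nd (nat_lit 78) (nat_lit 0) (nat_lit 0) (XT.lf (nat_lit 0) (nat_lit 961178949) (nat_lit 228) (nat_lit 24604921256) (nat_lit 76) (nat_lit 13765851630) (nat_lit 24) (nat_lit 5) (nat_lit 27) (nat_lit 5) (nat_lit 25) (nat_lit 5) (nat_lit 275) (nat_lit 262) (nat_lit 183)) (XT.lf (nat_lit 0) (nat_lit 5250876436) (nat_lit 228) (nat_lit 7629275859) (nat_lit 76) (nat_lit 28413475810) (nat_lit 24) (nat_lit 5) (nat_lit 27) (nat_lit 5) (nat_lit 25) (nat_lit 5) (nat_lit 276) (nat_lit 262) (nat_lit 182)))))) (XT.nd (nat_lit 468) (nat_lit 380) (nat_lit 0) (XT.nd (nat_lit 234) (nat_lit 152) (nat_lit 0) (XT.nd (nat_lit 78) (nat_lit 152) (nat_lit 0) (XT.lf (nat_lit 0) (nat_lit 10176456803) (nat_lit 304) (nat_lit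 32155731478) (nat_lit 76) (nat_lit 1056656686) (nat_lit 21) (nat_lit 5) (nat_lit 25) (nat_lit 5) (nat_lit 22) (nat_lit 5) (nat_lit 277) (nat_lit 262) (nat_lit 181)) (XT.nd (nat_lit 78) (nat_lit 152) (nat_lit 0) (XT.lf (nat_lit 0) (nat_lit 16039957393) (nat_lit 304) (nat_lit 13942593979) (nat_lit 76) (nat_lit 15625639252) (nat_lit 21) (nat_lit 5) (nat_lit 25) (nat_lit 5) (nat_lit 22) (nat_lit 5) (nat_lit 278) (nat_lit 262) (nat_lit 180)) (XT.lf (nat_lit 0) (nat_lit 6023338957) (nat_lit 152) (nat_lit 16489716385) (nat_lit 228) (nat_lit 25480806975) (nat_lit 19) (nat_lit 5) (nat_lit 21) (nat_lit 5) (nat_lit 22) (nat_lit 5) (nat_lit 279) (nat_lit 262) (nat_lit 179)))) (XT.nd (nat_lit 78) (nat_lit 152) (nat_lit 0) (XT.lf (nat_lit 0) (nat_lit 28374047779) (nat_lit 152) (nat_lit 1507015723) (nat_lit 228) (nat_lit 20659177557) (nat_lit 19) (nat_lit 5) (nat_lit 21) (nat_lit 5) (nat_lit 22)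 (nat_lit 5) (nat_lit 280) (nat_lit 262) (nat_lit 178)) (XT.nd (nat_lit 78) (nat_lit 152) (nat_lit 0) (XT.lf (nat_lit 0) (nat_lit 38187556011) (nat_lit 228) (nat_lit 1135754760) (nat_lit 76) (nat_lit 13939112780) (nat_lit 19) (nat_lit 5) (nat_lit 22) (nat_lit 5) (nat_lit 20) (nat_lit 5) (nat_lit 281) (nat_lit 262) (nat_lit 177)) (XT.lf (nat_lit 0) (nat_lit 22666941227) (nat_lit 152) (nat_lit 25072323778) (nat_lit 228) (nat_lit 8416675565) (nat_lit 17) (nat_lit 5) (nat_lit 19) (nat_lit 5) (nat_lit 20) (nat_lit 5) (nat_lit 282) (nat_lit 262) (nat_lit 176))))) (XT.nd (nat_lit 234) (nat_lit 228) (nat_lit 0) (XT.nd (nat_lit 78) (nat_lit 152) (nat_lit 0) (XT.lf (nat_lit 0) (nat_lit 48433642447) (nat_lit 152) (nat_lit 9649085353) (nat_lit 228) (nat_lit 1196016314) (nat_lit 17) (nat_lit 5) (nat_lit 19) (nat_lit 5) (nat_lit 20) (nat_lit 5) (nat_lit 283) (nat_lit 262) (nat_lit 175)) (XT.nd (nat_lit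 78) (nat_lit 0) (nat_lit 0) (XT.lf (nat_lit 0) (nat_lit 6790649265) (nat_lit 152) (nat_lit 48638205673) (nat_lit 76) (nat_lit 7168336458) (nat_lit 15) (nat_lit 5) (nat_lit 17) (nat_lit 5) (nat_lit 16) (nat_lit 5) (nat_lit 284) (nat_lit 262) (nat_lit 174)) (XT.lf (nat_lit 0) (nat_lit 15903307862) (nat_lit 152) (nat_lit 25087358698) (nat_lit 76) (nat_lit 25143840149) (nat_lit 15) (nat_lit 5) (nat_lit 17) (nat_lit 5) (nat_lit 16) (nat_lit 5) (nat_lit 285) (nat_lit 262) (nat_lit 173)))) (XT.nd (nat_lit 156) (nat_lit 76) (nat_lit 0) (XT.nd (nat_lit 78) (nat_lit 0) (nat_lit 0) (XT.lf (nat_lit 0) (nat_lit 361233875) (nat_lit 152) (nat_lit 25389492119) (nat_lit 228) (nat_lit 44203632185) (nat_lit 13) (nat_lit 5) (nat_lit 15) (nat_lit 5) (nat_lit 16) (nat_lit 5) (nat_lit 286) (nat_lit 262) (nat_lit 172)) (XT.lf (nat_lit 0) (nat_lit 29268172834) (nat_lit 152) (nat_lit 7800871625) (nat_lit 228)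 (nat_lit 36956114646) (nat_lit 13) (nat_lit 5) (nat_lit 15) (nat_lit 5) (nat_lit 16) (nat_lit 5) (nat_lit 287) (nat_lit 262) (nat_lit 171))) (XT.nd (nat_lit 78) (nat_lit 76) (nat_lit 0) (XT.lf (nat_lit 0) (nat_lit 49559415495) (nat_lit 228) (nat_lit 18207343611) (nat_lit 76) (nat_lit 10633547188) (nat_lit 13) (nat_lit 5) (nat_lit 16) (nat_lit 5) (nat_lit 14) (nat_lit 4) (nat_lit 288) (nat_lit 262) (nat_lit 170)) (XT.lf (nat_lit 0) (nat_lit 10800070851) (nat_lit 76) (nat_lit 52708854550) (nat_lit 152) (nat_lit 19579755600) (nat_lit 12) (nat_lit 5) (nat_lit 13) (nat_lit 5) (nat_lit 14) (nat_lit 4) (nat_lit 289) (nat_lit 262) (nat_lit 169))))))) (XT.nd (nat_lit 936) (nat_lit 228) (nat_lit 0) (XT.nd (nat_lit 468) (nat_lit 152) (nat_lit 0) (XT.nd (nat_lit 234) (nat_lit 76) (nat_lit 0) (XT.nd (nat_lit 78) (nat_lit 228) (nat_lit 0) (XT.lf (nat_lit 0) (nat_lit 43159800672) (nat_lit 76) (nat_lit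 35910055263) (nat_lit 152) (nat_lit 9042640814) (nat_lit 12) (nat_lit 5) (nat_lit 13) (nat_lit 5) (nat_lit 14) (nat_lit 4) (nat_lit 290) (nat_lit 262) (nat_lit 168)) (XT.nd (nat_lit 78) (nat_lit 152) (nat_lit 0) (XT.lf (nat_lit 0) (nat_lit 2218264786) (nat_lit 152) (nat_lit 15489717769) (nat_lit 76) (nat_lit 75825924686) (nat_lit 11) (nat_lit 5) (nat_lit 13) (nat_lit 5) (nat_lit 12) (nat_lit 5) (nat_lit 291) (nat_lit 262) (nat_lit 167)) (XT.lf (nat_lit 0) (nat_lit 14360373002) (nat_lit 228) (nat_lit 82461898851) (nat_lit 76) (nat_lit 2510465635) (nat_lit 9) (nat_lit 5) (nat_lit 12) (nat_lit 5) (nat_lit 10) (nat_lit 4) (nat_lit 292) (nat_lit 262) (nat_lit 166)))) (XT.nd (nat_lit 78) (nat_lit 76) (nat_lit 0) (XT.lf (nat_lit 0) (nat_lit 28366277509) (nat_lit 228) (nat_lit 53334766869) (nat_lit 76) (nat_lit 23823041339) (nat_lit 9) (nat_lit 5) (nat_lit 12) (nat_lit 5) (nat_lit 10) (nat_lit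 4) (nat_lit 293) (nat_lit 262) (nat_lit 165)) (XT.nd (nat_lit 78) (nat_lit 76) (nat_lit 0) (XT.lf (nat_lit 0) (nat_lit 43490768519) (nat_lit 228) (nat_lit 21880593521) (nat_lit 76) (nat_lit 46839535973) (nat_lit 9) (nat_lit 5) (nat_lit 12) (nat_lit 5) (nat_lit 10) (nat_lit 4) (nat_lit 294) (nat_lit 262) (nat_lit 164)) (XT.lf (nat_lit 0) (nat_lit 12723497151) (nat_lit 76) (nat_lit 47405975909) (nat_lit 152) (nat_lit 59278846842) (nat_lit 8) (nat_lit 5) (nat_lit 9) (nat_lit 5) (nat_lit 10) (nat_lit 4) (nat_lit 295) (nat_lit 262) (nat_lit 163))))) (XT.nd (nat_lit 234) (nat_lit 152) (nat_lit 0) (XT.nd (nat_lit 78) (nat_lit 0) (nat_lit 0) (XT.lf (nat_lit 0) (nat_lit 51337459769) (nat_lit 76) (nat_lit 27358383661) (nat_lit 152) (nat_lit 48437971133) (nat_lit 8) (nat_lit 5) (nat_lit 9) (nat_lit 5) (nat_lit 10) (nat_lit 4) (nat_lit 296) (nat_lit 262) (nat_lit 162)) (XT.nd (nat_lit 78) (nat_lit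 0) (nat_lit 0) (XT.lf (nat_lit 0) (nat_lit 93037924538) (nat_lit 76) (nat_lit 5708038953) (nat_lit 152) (nat_lit 36731514344) (nat_lit 8) (nat_lit 5) (nat_lit 9) (nat_lit 5) (nat_lit 10) (nat_lit 4) (nat_lit 297) (nat_lit 262) (nat_lit 161)) (XT.lf (nat_lit 0) (nat_lit 120823693416) (nat_lit 152) (nat_lit 6841792976) (nat_lit 0) (nat_lit 16789263682) (nat_lit 8) (nat_lit 5) (nat_lit 10) (nat_lit 4) (nat_lit 8) (nat_lit 4) (nat_lit 298) (nat_lit 262) (nat_lit 160)))) (XT.nd (nat_lit 78) (nat_lit 76) (nat_lit 0) (XT.lf (nat_lit 0) (nat_lit 33109466320) (nat_lit 76) (nat_lit 112501360479) (nat_lit 76) (nat_lit 8463926125) (nat_lit 7) (nat_lit 4) (nat_lit 8) (nat_lit 5) (nat_lit 8) (nat_lit 4) (nat_lit 299) (nat_lit 262) (nat_lit 159)) (XT.nd (nat_lit 78) (nat_lit 0) (nat_lit 0) (XT.lf (nat_lit 0) (nat_lit 7711130925) (nat_lit 152) (nat_lit 88001064084) (nat_lit 76) (nat_lit 68721686587)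 (nat_lit 6) (nat_lit 5) (nat_lit 8) (nat_lit 5) (nat_lit 7) (nat_lit 4) (nat_lit 300) (nat_lit 262) (nat_lit 158)) (XT.lf (nat_lit 0) (nat_lit 24721670306) (nat_lit 152) (nat_lit 52621718149) (nat_lit 76) (nat_lit 98260867646) (nat_lit 6) (nat_lit 5) (nat_lit 8) (nat_lit 5) (nat_lit 7) (nat_lit 4) (nat_lit 301) (nat_lit 262) (nat_lit 157)))))) (XT.nd (nat_lit 468) (nat_lit 152) (nat_lit 0) (XT.nd (nat_lit 234) (nat_lit 0) (nat_lit 0) (XT.nd (nat_lit 78) (nat_lit 76) (nat_lit 0) (XT.lf (nat_lit 0) (nat_lit 43091895078) (nat_lit 152) (nat_lit 14414035787) (nat_lit 76) (nat_lit 130162424993) (nat_lit 6) (nat_lit 5) (nat_lit 8) (nat_lit 5) (nat_lit 7) (nat_lit 4) (nat_lit 302) (nat_lit 262) (nat_lit 156)) (XT.nd (nat_lit 78) (nat_lit 0) (nat_lit 0) (XT.lf (nat_lit 0) (nat_lit 28262188002) (nat_lit 76) (nat_lit 35348184131) (nat_lit 152) (nat_lit 137032923195) (nat_lit 5) (nat_lit 5) (nat_lit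 6) (nat_lit 5) (nat_lit 7) (nat_lit 4) (nat_lit 303) (nat_lit 262) (nat_lit 155)) (XT.lf (nat_lit 0) (nat_lit 75170433561) (nat_lit 76) (nat_lit 10992962829) (nat_lit 152) (nat_lit 128461390334) (nat_lit 5) (nat_lit 5) (nat_lit 6) (nat_lit 5) (nat_lit 7) (nat_lit 4) (nat_lit 304) (nat_lit 262) (nat_lit 154)))) (XT.nd (nat_lit 78) (nat_lit 0) (nat_lit 0) (XT.lf (nat_lit 0) (nat_lit 110887907885) (nat_lit 152) (nat_lit 104263423001) (nat_lit 0) (nat_lit 14544089042) (nat_lit 5) (nat_lit 5) (nat_lit 7) (nat_lit 4) (nat_lit 5) (nat_lit 4) (nat_lit 305) (nat_lit 262) (nat_lit 153)) (XT.nd (nat_lit 78) (nat_lit 0) (nat_lit 0) (XT.lf (nat_lit 0) (nat_lit 137875007329) (nat_lit 152) (nat_lit 66544363080) (nat_lit 0) (nat_lit 41529565183) (nat_lit 5) (nat_lit 5) (nat_lit 7) (nat_lit 4) (nat_lit 5) (nat_lit 4) (nat_lit 306) (nat_lit 262) (nat_lit 152)) (XT.lf (nat_lit 0) (nat_lit 167020237253)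 (nat_lit 152) (nat_lit 25809272024) (nat_lit 0) (nat_lit 70673292049) (nat_lit 5) (nat_lit 5) (nat_lit 7) (nat_lit 4) (nat_lit 5) (nat_lit 4) (nat_lit 307) (nat_lit 262) (nat_lit 151))))) (XT.nd (nat_lit 234) (nat_lit 76) (nat_lit 0) (XT.nd (nat_lit 78) (nat_lit 0) (nat_lit 0) (XT.lf (nat_lit 0) (nat_lit 19140740667) (nat_lit 76) (nat_lit 179815904736) (nat_lit 76) (nat_lit 83467567812) (nat_lit 4) (nat_lit 4) (nat_lit 5) (nat_lit 5) (nat_lit 5) (nat_lit 4) (nat_lit 308) (nat_lit 262) (nat_lit 150)) (XT.nd (nat_lit 78) (nat_lit 0) (nat_lit 0) (XT.lf (nat_lit 0) (nat_lit 69153202538) (nat_lit 76) (nat_lit 164999684483) (nat_lit 76) (nat_lit 68650058929) (nat_lit 4) (nat_lit 4) (nat_lit 5) (nat_lit 5) (nat_lit 5) (nat_lit 4) (nat_lit 309) (nat_lit 262) (nat_lit 149)) (XT.lf (nat_lit 0) (nat_lit 123165413207) (nat_lit 76) (nat_lit 148998719929) (nat_lit 76) (nat_lit 52647901199) (nat_lit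 4) (nat_lit 4) (nat_lit 5) (nat_lit 5) (nat_lit 5) (nat_lit 4) (nat_lit 310) (nat_lit 262) (nat_lit 148)))) (XT.nd (nat_lit 156) (nat_lit 76) (nat_lit 0) (XT.nd (nat_lit 78) (nat_lit 0) (nat_lit 0) (XT.lf (nat_lit 0) (nat_lit 181497445032) (nat_lit 76) (nat_lit 131718190544) (nat_lit 76) (nat_lit 35366267021) (nat_lit 4) (nat_lit 4) (nat_lit 5) (nat_lit 5) (nat_lit 5) (nat_lit 4) (nat_lit 311) (nat_lit 262) (nat_lit 147)) (XT.lf (nat_lit 0) (nat_lit 244494969314) (nat_lit 76) (nat_lit 113055693189) (nat_lit 76) (nat_lit 16702746710) (nat_lit 4) (nat_lit 4) (nat_lit 5) (nat_lit 5) (nat_lit 5) (nat_lit 4) (nat_lit 312) (nat_lit 262) (nat_lit 146))) (XT.nd (nat_lit 78) (nat_lit 0) (nat_lit 0) (XT.lf (nat_lit 0) (nat_lit 3280512401) (nat_lit 152) (nat_lit 89530427865) (nat_lit 76) (nat_lit 309161097291) (nat_lit 3) (nat_lit 5) (nat_lit 5) (nat_lit 5) (nat_lit 4) (nat_lit 4) (nat_lit 313)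 (nat_lit 262) (nat_lit 145)) (XT.lf (nat_lit 0) (nat_lit 23959525085) (nat_lit 152) (nat_lit 46518958502) (nat_lit 76) (nat_lit 361395008557) (nat_lit 3) (nat_lit 5) (nat_lit 5) (nat_lit 5) (nat_lit 4) (nat_lit 4) (nat_lit 314) (nat_lit 262) (nat_lit 144))))))))
noncomputable def xc89 : XT := (XT.nd (nat_lit 33774) (nat_lit 0) (nat_lit 836) (XT.nd (nat_lit 936) (nat_lit 76) (nat_lit 0) (XT.nd (nat_lit 468) (nat_lit 0) (nat_lit 0) (XT.nd (nat_lit 234) (nat_lit 0) (nat_lit 0) (XT.nd (nat_lit 78) (nat_lit 76) (nat_lit 0) (XT.lf (nat_lit 0) (nat_lit 46292372676) (nat_lit 152) (nat_lit 67447568) (nat_lit 76) (nat_lit 417807282653) (nat_lit 3) (nat_lit 5) (nat_lit 5) (nat_lit 5) (nat_lit 4) (nat_lit 4) (nat_lit 315) (nat_lit 262) (nat_lit 143)) (XT.nd (nat_lit 78) (nat_lit 0) (nat_lit 0) (XT.lf (nat_lit 0) (nat_lit 52737517353) (nat_lit 76) (nat_lit 18942219181) (nat_lit 152) (nat_lit 427263035742)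 (nat_lit 2) (nat_lit 5) (nat_lit 3) (nat_lit 5) (nat_lit 4) (nat_lit 4) (nat_lit 316) (nat_lit 262) (nat_lit 142)) (XT.lf (nat_lit 0) (nat_lit 99356121888) (nat_lit 152) (nat_lit 426987082624) (nat_lit 0) (nat_lit 10136648882) (nat_lit 2) (nat_lit 5) (nat_lit 4) (nat_lit 4) (nat_lit 2) (nat_lit 4) (nat_lit 317) (nat_lit 262) (nat_lit 141)))) (XT.nd (nat_lit 78) (nat_lit 0) (nat_lit 0) (XT.lf (nat_lit 0) (nat_lit 129738212369) (nat_lit 152) (nat_lit 406724219333) (nat_lit 0) (nat_lit 40518142478) (nat_lit 2) (nat_lit 5) (nat_lit 4) (nat_lit 4) (nat_lit 2) (nat_lit 4) (nat_lit 318) (nat_lit 262) (nat_lit 140)) (XT.nd (nat_lit 78) (nat_lit 0) (nat_lit 0) (XT.lf (nat_lit 0) (nat_lit 162550489168) (nat_lit 152) (nat_lit 384841027997) (nat_lit 0) (nat_lit 73329866606) (nat_lit 2) (nat_lit 5) (nat_lit 4) (nat_lit 4) (nat_lit 2) (nat_lit 4) (nat_lit 319) (nat_lit 262) (nat_lit 139)) (XT.lf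 (nat_lit 0) (nat_lit 197987395408) (nat_lit 152) (nat_lit 361207830444) (nat_lit 0) (nat_lit 108766261114) (nat_lit 2) (nat_lit 5) (nat_lit 4) (nat_lit 4) (nat_lit 2) (nat_lit 4) (nat_lit 320) (nat_lit 262) (nat_lit 138))))) (XT.nd (nat_lit 234) (nat_lit 0) (nat_lit 0) (XT.nd (nat_lit 78) (nat_lit 0) (nat_lit 0) (XT.lf (nat_lit 0) (nat_lit 236258927570) (nat_lit 152) (nat_lit 335684578096) (nat_lit 0) (nat_lit 147037319449) (nat_lit 2) (nat_lit 5) (nat_lit 4) (nat_lit 4) (nat_lit 2) (nat_lit 4) (nat_lit 321) (nat_lit 262) (nat_lit 137)) (XT.nd (nat_lit 78) (nat_lit 0) (nat_lit 0) (XT.lf (nat_lit 0) (nat_lit 277591879918) (nat_lit 152) (nat_lit 308120022052) (nat_lit 0) (nat_lit 188369833069) (nat_lit 2) (nat_lit 5) (nat_lit 4) (nat_lit 4) (nat_lit 2) (nat_lit 4) (nat_lit 322) (nat_lit 262) (nat_lit 136)) (XT.lf (nat_lit 0) (nat_lit 322231188467) (nat_lit 152) (nat_lit 278350816792)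 (nat_lit 0) (nat_lit 233008735387) (nat_lit 2) (nat_lit 5) (nat_lit 4) (nat_lit 4) (nat_lit 2) (nat_lit 4) (nat_lit 323) (nat_lit 262) (nat_lit 135)))) (XT.nd (nat_lit 78) (nat_lit 0) (nat_lit 0) (XT.lf (nat_lit 0) (nat_lit 370441382451) (nat_lit 152) (nat_lit 246200552213) (nat_lit 0) (nat_lit 281218553233) (nat_lit 2) (nat_lit 5) (nat_lit 4) (nat_lit 4) (nat_lit 2) (nat_lit 4) (nat_lit 324) (nat_lit 262) (nat_lit 134)) (XT.nd (nat_lit 78) (nat_lit 0) (nat_lit 0) (XT.lf (nat_lit 0) (nat_lit 422508151910) (nat_lit 152) (nat_lit 211478708228) (nat_lit 0) (nat_lit 333284974416) (nat_lit 2) (nat_lit 5) (nat_lit 4) (nat_lit 4) (nat_lit 2) (nat_lit 4) (nat_lit 325) (nat_lit 262) (nat_lit 133)) (XT.lf (nat_lit 0) (nat_lit 478740040663) (nat_lit 152) (nat_lit 173979525761) (nat_lit 0) (nat_lit 389516540690) (nat_lit 2) (nat_lit 5) (nat_lit 4) (nat_lit 4) (nat_lit 2) (nat_lit 4) (nat_lit 326)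 (nat_lit 262) (nat_lit 132)))))) (XT.nd (nat_lit 468) (nat_lit 0) (nat_lit 0) (XT.nd (nat_lit 234) (nat_lit 76) (nat_lit 0) (XT.nd (nat_lit 78) (nat_lit 0) (nat_lit 0) (XT.lf (nat_lit 0) (nat_lit 539470274717) (nat_lit 152) (nat_lit 133480787434) (nat_lit 0) (nat_lit 450246476153) (nat_lit 2) (nat_lit 5) (nat_lit 4) (nat_lit 4) (nat_lit 2) (nat_lit 4) (nat_lit 327) (nat_lit 262) (nat_lit 131)) (XT.nd (nat_lit 78) (nat_lit 0) (nat_lit 0) (XT.lf (nat_lit 0) (nat_lit 605058736941) (nat_lit 152) (nat_lit 89742500725) (nat_lit 0) (nat_lit 515834661903) (nat_lit 2) (nat_lit 5) (nat_lit 4) (nat_lit 4) (nat_lit 2) (nat_lit 4) (nat_lit 328) (nat_lit 262) (nat_lit 130)) (XT.lf (nat_lit 0) (nat_lit 675894099702) (nat_lit 152) (nat_lit 42505475786) (nat_lit 0) (nat_lit 586669768671) (nat_lit 2) (nat_lit 5) (nat_lit 4) (nat_lit 4) (nat_lit 2) (nat_lit 4) (nat_lit 329) (nat_lit 262) (nat_lit 129))))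 (XT.nd (nat_lit 78) (nat_lit 0) (nat_lit 0) (XT.lf (nat_lit 0) (nat_lit 8958343096) (nat_lit 76) (nat_lit 743653233386) (nat_lit 76) (nat_lit 654428665323) (nat_lit 1) (nat_lit 4) (nat_lit 2) (nat_lit 5) (nat_lit 2) (nat_lit 4) (nat_lit 330) (nat_lit 262) (nat_lit 128)) (XT.nd (nat_lit 78) (nat_lit 0) (nat_lit 0) (XT.lf (nat_lit 0) (nat_lit 66956298517) (nat_lit 76) (nat_lit 769672169604) (nat_lit 76) (nat_lit 680447382068) (nat_lit 1) (nat_lit 4) (nat_lit 2) (nat_lit 5) (nat_lit 2) (nat_lit 4) (nat_lit 331) (nat_lit 262) (nat_lit 127)) (XT.lf (nat_lit 0) (nat_lit 129593819036) (nat_lit 76) (nat_lit 797772745467) (nat_lit 76) (nat_lit 708547754715) (nat_lit 1) (nat_lit 4) (nat_lit 2) (nat_lit 5) (nat_lit 2) (nat_lit 4) (nat_lit 332) (nat_lit 262) (nat_lit 126))))) (XT.nd (nat_lit 32058) (nat_lit 0) (nat_lit 2432) (XT.nd (nat_lit 78) (nat_lit 0) (nat_lit 0) (XT.lf (nat_lit 0) (nat_lit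 197242089960) (nat_lit 76) (nat_lit 828121482905) (nat_lit 76) (nat_lit 738896303990) (nat_lit 1) (nat_lit 4) (nat_lit 2) (nat_lit 5) (nat_lit 2) (nat_lit 4) (nat_lit 333) (nat_lit 262) (nat_lit 125)) (XT.nd (nat_lit 78) (nat_lit 0) (nat_lit 0) (XT.lf (nat_lit 0) (nat_lit 270301989930) (nat_lit 76) (nat_lit 860898226289) (nat_lit 76) (nat_lit 771672873149) (nat_lit 1) (nat_lit 4) (nat_lit 2) (nat_lit 5) (nat_lit 2) (nat_lit 4) (nat_lit 334) (nat_lit 262) (nat_lit 124)) (XT.lf (nat_lit 0) (nat_lit 349206466503) (nat_lit 76) (nat_lit 896297208172) (nat_lit 76) (nat_lit 807071693712) (nat_lit 1) (nat_lit 4) (nat_lit 2) (nat_lit 5) (nat_lit 2) (nat_lit 4) (nat_lit 335) (nat_lit 262) (nat_lit 123)))) (XT.nd (nat_lit 156) (nat_lit 0) (nat_lit 76) (XT.nd (nat_lit 78) (nat_lit 0) (nat_lit 0) (XT.lf (nat_lit 0) (nat_lit 3315453042) (nat_lit 532) (nat_lit 4389525520) (nat_lit 532) (nat_lit 4389525520)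 (nat_lit 33) (nat_lit 3) (nat_lit 40) (nat_lit 3) (nat_lit 40) (nat_lit 5) (nat_lit 263) (nat_lit 263) (nat_lit 194)) (XT.lf (nat_lit 76) (nat_lit 1481165955) (nat_lit 0) (nat_lit 5550327236) (nat_lit 532) (nat_lit 18113666887) (nat_lit 34) (nat_lit 5) (nat_lit 33) (nat_lit 3) (nat_lit 40) (nat_lit 5) (nat_lit 264) (nat_lit 263) (nat_lit 193))) (XT.nd (nat_lit 78) (nat_lit 0) (nat_lit 0) (XT.lf (nat_lit 0) (nat_lit 7822996838) (nat_lit 456) (nat_lit 13232647681) (nat_lit 532) (nat_lit 5093508121) (nat_lit 34) (nat_lit 5) (nat_lit 40) (nat_lit 5) (nat_lit 41) (nat_lit 5) (nat_lit 265) (nat_lit 263) (nat_lit 192)) (XT.lf (nat_lit 0) (nat_lit 8812717813) (nat_lit 456) (nat_lit 2117138973) (nat_lit 532) (nat_lit 16292869820) (nat_lit 34) (nat_lit 5) (nat_lit 40) (nat_lit 5) (nat_lit 41) (nat_lit 5) (nat_lit 266) (nat_lit 263) (nat_lit 191))))))) (XT.nd (nat_lit 936) (nat_lit 684) (nat_lit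 0) (XT.nd (nat_lit 468) (nat_lit 684) (nat_lit 0) (XT.nd (nat_lit 234) (nat_lit 380) (nat_lit 0) (XT.nd (nat_lit 78) (nat_lit 0) (nat_lit 0) (XT.lf (nat_lit 0) (nat_lit 10129920902) (nat_lit 456) (nat_lit 17967369850) (nat_lit 532) (nat_lit 265081161) (nat_lit 35) (nat_lit 5) (nat_lit 41) (nat_lit 5) (nat_lit 42) (nat_lit 5) (nat_lit 267) (nat_lit 263) (nat_lit 190)) (XT.nd (nat_lit 78) (nat_lit 0) (nat_lit 0) (XT.lf (nat_lit 0) (nat_lit 11887763262) (nat_lit 456) (nat_lit 5851766859) (nat_lit 532) (nat_lit 11826883774) (nat_lit 35) (nat_lit 5) (nat_lit 41) (nat_lit 5) (nat_lit 42) (nat_lit 5) (nat_lit 268) (nat_lit 263) (nat_lit 189)) (XT.lf (nat_lit 76) (nat_lit 7607795107) (nat_lit 0) (nat_lit 6353980344) (nat_lit 532) (nat_lit 16891003065) (nat_lit 36) (nat_lit 5) (nat_lit 35) (nat_lit 5) (nat_lit 42) (nat_lit 5) (nat_lit 269) (nat_lit 263) (nat_lit 188)))) (XT.nd (nat_lit 78)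 (nat_lit 456) (nat_lit 0) (XT.lf (nat_lit 0) (nat_lit 16501795894) (nat_lit 456) (nat_lit 9905751616) (nat_lit 76) (nat_lit 5810537333) (nat_lit 36) (nat_lit 5) (nat_lit 42) (nat_lit 5) (nat_lit 37) (nat_lit 5) (nat_lit 270) (nat_lit 263) (nat_lit 187)) (XT.nd (nat_lit 78) (nat_lit 0) (nat_lit 0) (XT.lf (nat_lit 0) (nat_lit 4557699535) (nat_lit 456) (nat_lit 14955505439) (nat_lit 532) (nat_lit 14157992330) (nat_lit 30) (nat_lit 5) (nat_lit 36) (nat_lit 5) (nat_lit 37) (nat_lit 5) (nat_lit 271) (nat_lit 263) (nat_lit 186)) (XT.lf (nat_lit 0) (nat_lit 20735849070) (nat_lit 456) (nat_lit 2294395392) (nat_lit 532) (nat_lit 12189170765) (nat_lit 30) (nat_lit 5) (nat_lit 36) (nat_lit 5) (nat_lit 37) (nat_lit 5) (nat_lit 272) (nat_lit 263) (nat_lit 185))))) (XT.nd (nat_lit 234) (nat_lit 456) (nat_lit 0) (XT.nd (nat_lit 78) (nat_lit 0) (nat_lit 0) (XT.lf (nat_lit 0) (nat_lit 1091905633) (nat_lit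 228) (nat_lit 26031020842) (nat_lit 304) (nat_lit 9745053128) (nat_lit 27) (nat_lit 5) (nat_lit 30) (nat_lit 5) (nat_lit 31) (nat_lit 5) (nat_lit 273) (nat_lit 263) (nat_lit 184)) (XT.nd (nat_lit 78) (nat_lit 0) (nat_lit 0) (XT.lf (nat_lit 0) (nat_lit 18668726157) (nat_lit 228) (nat_lit 13323011934) (nat_lit 304) (nat_lit 6620822882) (nat_lit 27) (nat_lit 5) (nat_lit 30) (nat_lit 5) (nat_lit 31) (nat_lit 5) (nat_lit 274) (nat_lit 263) (nat_lit 183)) (XT.lf (nat_lit 0) (nat_lit 37254729007) (nat_lit 304) (nat_lit 2860326017) (nat_lit 76) (nat_lit 381306772) (nat_lit 27) (nat_lit 5) (nat_lit 31) (nat_lit 5) (nat_lit 28) (nat_lit 5) (nat_lit 275) (nat_lit 263) (nat_lit 182)))) (XT.nd (nat_lit 78) (nat_lit 228) (nat_lit 0) (XT.lf (nat_lit 0) (nat_lit 1133576655) (nat_lit 228) (nat_lit 26460395607) (nat_lit 76) (nat_lit 14876445609) (nat_lit 24) (nat_lit 5) (nat_lit 27) (nat_lit 5) (nat_lit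 25) (nat_lit 5) (nat_lit 276) (nat_lit 263) (nat_lit 181)) (XT.nd (nat_lit 78) (nat_lit 228) (nat_lit 0) (XT.lf (nat_lit 0) (nat_lit 5759375615) (nat_lit 228) (nat_lit 8135062974) (nat_lit 76) (nat_lit 30695188920) (nat_lit 24) (nat_lit 5) (nat_lit 27) (nat_lit 5) (nat_lit 25) (nat_lit 5) (nat_lit 277) (nat_lit 263) (nat_lit 180)) (XT.lf (nat_lit 0) (nat_lit 11075325760) (nat_lit 304) (nat_lit 34619572725) (nat_lit 76) (nat_lit 1157888221) (nat_lit 21) (nat_lit 5) (nat_lit 25) (nat_lit 5) (nat_lit 22) (nat_lit 5) (nat_lit 278) (nat_lit 263) (nat_lit 179)))))) (XT.nd (nat_lit 468) (nat_lit 380) (nat_lit 0) (XT.nd (nat_lit 234) (nat_lit 152) (nat_lit 0) (XT.nd (nat_lit 78) (nat_lit 152) (nat_lit 0) (XT.lf (nat_lit 0) (nat_lit 17401628441) (nat_lit 304) (nat_lit 14957429950) (nat_lit 76) (nat_lit 16891152429) (nat_lit 21) (nat_lit 5) (nat_lit 25) (nat_lit 5) (nat_lit 22) (nat_lit 5) (nat_lit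 279) (nat_lit 263) (nat_lit 178)) (XT.nd (nat_lit 78) (nat_lit 0) (nat_lit 0) (XT.lf (nat_lit 0) (nat_lit 6603231507) (nat_lit 152) (nat_lit 17785887310) (nat_lit 228) (nat_lit 27437920315) (nat_lit 19) (nat_lit 5) (nat_lit 21) (nat_lit 5) (nat_lit 22) (nat_lit 5) (nat_lit 280) (nat_lit 263) (nat_lit 177)) (XT.lf (nat_lit 0) (nat_lit 30734735890) (nat_lit 152) (nat_lit 1606274773) (nat_lit 228) (nat_lit 22236586560) (nat_lit 19) (nat_lit 5) (nat_lit 21) (nat_lit 5) (nat_lit 22) (nat_lit 5) (nat_lit 281) (nat_lit 263) (nat_lit 176)))) (XT.nd (nat_lit 78) (nat_lit 152) (nat_lit 0) (XT.lf (nat_lit 0) (nat_lit 41307351603) (nat_lit 228) (nat_lit 1137619686) (nat_lit 76) (nat_lit 15072979382) (nat_lit 19) (nat_lit 5) (nat_lit 22) (nat_lit 5) (nat_lit 20) (nat_lit 5) (nat_lit 282) (nat_lit 263) (nat_lit 175)) (XT.nd (nat_lit 78) (nat_lit 0) (nat_lit 0) (XT.lf (nat_lit 0) (nat_lit 24567038931)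 (nat_lit 152) (nat_lit 27053445201) (nat_lit 228) (nat_lit 9022702972) (nat_lit 17) (nat_lit 5) (nat_lit 19) (nat_lit 5) (nat_lit 20) (nat_lit 5) (nat_lit 283) (nat_lit 263) (nat_lit 174)) (XT.lf (nat_lit 0) (nat_lit 52388650885) (nat_lit 152) (nat_lit 10398174700) (nat_lit 228) (nat_lit 1229376658) (nat_lit 17) (nat_lit 5) (nat_lit 19) (nat_lit 5) (nat_lit 20) (nat_lit 5) (nat_lit 284) (nat_lit 263) (nat_lit 173))))) (XT.nd (nat_lit 234) (nat_lit 76) (nat_lit 0) (XT.nd (nat_lit 78) (nat_lit 152) (nat_lit 0) (XT.lf (nat_lit 0) (nat_lit 7391275802) (nat_lit 152) (nat_lit 52443565324) (nat_lit 76) (nat_lit 7765327250) (nat_lit 15) (nat_lit 5) (nat_lit 17) (nat_lit 5) (nat_lit 16) (nat_lit 5) (nat_lit 285) (nat_lit 263) (nat_lit 172)) (XT.nd (nat_lit 78) (nat_lit 152) (nat_lit 0) (XT.lf (nat_lit 0) (nat_lit 17228697118) (nat_lit 152) (nat_lit 27014998502) (nat_lit 76) (nat_lit 27177128727)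 (nat_lit 15) (nat_lit 5) (nat_lit 17) (nat_lit 5) (nat_lit 16) (nat_lit 5) (nat_lit 286) (nat_lit 263) (nat_lit 171)) (XT.lf (nat_lit 0) (nat_lit 467472644) (nat_lit 152) (nat_lit 27394360929) (nat_lit 228) (nat_lit 47684610663) (nat_lit 13) (nat_lit 5) (nat_lit 15) (nat_lit 5) (nat_lit 16) (nat_lit 5) (nat_lit 287) (nat_lit 263) (nat_lit 170)))) (XT.nd (nat_lit 156) (nat_lit 76) (nat_lit 0) (XT.nd (nat_lit 78) (nat_lit 0) (nat_lit 0) (XT.lf (nat_lit 0) (nat_lit 31681237827) (nat_lit 152) (nat_lit 8400598243) (nat_lit 228) (nat_lit 39861388913) (nat_lit 13) (nat_lit 5) (nat_lit 15) (nat_lit 5) (nat_lit 16) (nat_lit 5) (nat_lit 288) (nat_lit 263) (nat_lit 169)) (XT.lf (nat_lit 0) (nat_lit 53568477537) (nat_lit 228) (nat_lit 19594512060) (nat_lit 76) (nat_lit 11505643343) (nat_lit 13) (nat_lit 5) (nat_lit 16) (nat_lit 5) (nat_lit 14) (nat_lit 4) (nat_lit 289) (nat_lit 263) (nat_lit 168)))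 (XT.nd (nat_lit 78) (nat_lit 0) (nat_lit 0) (XT.lf (nat_lit 0) (nat_lit 11731738116) (nat_lit 76) (nat_lit 56900555250) (nat_lit 152) (nat_lit 21099927992) (nat_lit 12) (nat_lit 5) (nat_lit 13) (nat_lit 5) (nat_lit 14) (nat_lit 4) (nat_lit 290) (nat_lit 263) (nat_lit 167)) (XT.lf (nat_lit 0) (nat_lit 46675234352) (nat_lit 76) (nat_lit 38759704440) (nat_lit 152) (nat_lit 9723266842) (nat_lit 12) (nat_lit 5) (nat_lit 13) (nat_lit 5) (nat_lit 14) (nat_lit 4) (nat_lit 291) (nat_lit 263) (nat_lit 166))))))))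
noncomputable def xc90 : XT := (XT.nd (nat_lit 1950) (nat_lit 152) (nat_lit 0) (XT.nd (nat_lit 936) (nat_lit 228) (nat_lit 0) (XT.nd (nat_lit 468) (nat_lit 152) (nat_lit 0) (XT.nd (nat_lit 234) (nat_lit 76) (nat_lit 0) (XT.nd (nat_lit 78) (nat_lit 152) (nat_lit 0) (XT.lf (nat_lit 0) (nat_lit 2433360178) (nat_lit 152) (nat_lit 16668791954) (nat_lit 76) (nat_lit 81911344379) (nat_lit 11) (nat_lit 5) (nat_lit 13) (nat_lit 5) (nat_lit 12) (nat_lit 5) (nat_lit 292) (nat_lit 263) (nat_lit 165)) (XT.nd (nat_lit 78) (nat_lit 0) (nat_lit 0) (XT.lf (nat_lit 0) (nat_lit 15545995169) (nat_lit 228) (nat_lit 88997801407) (nat_lit 76) (nat_lit 2732512292) (nat_lit 9) (nat_lit 5) (nat_lit 12) (nat_lit 5) (nat_lit 10) (nat_lit 4) (nat_lit 293) (nat_lit 263) (nat_lit 164)) (XT.lf (nat_lit 0) (nat_lit 30669646678) (nat_lit 228) (nat_lit 57545021041) (nat_lit 76) (nat_lit 25748522985) (nat_lit 9) (nat_lit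 5) (nat_lit 12) (nat_lit 5) (nat_lit 10) (nat_lit 4) (nat_lit 294) (nat_lit 263) (nat_lit 163)))) (XT.nd (nat_lit 78) (nat_lit 76) (nat_lit 0) (XT.lf (nat_lit 0) (nat_lit 47001573491) (nat_lit 228) (nat_lit 23578701023) (nat_lit 76) (nat_lit 50604882498) (nat_lit 9) (nat_lit 5) (nat_lit 12) (nat_lit 5) (nat_lit 10) (nat_lit 4) (nat_lit 295) (nat_lit 263) (nat_lit 162)) (XT.nd (nat_lit 78) (nat_lit 0) (nat_lit 0) (XT.lf (nat_lit 0) (nat_lit 13792391839) (nat_lit 76) (nat_lit 51177872910) (nat_lit 152) (nat_lit 63988203292) (nat_lit 8) (nat_lit 5) (nat_lit 9) (nat_lit 5) (nat_lit 10) (nat_lit 4) (nat_lit 296) (nat_lit 263) (nat_lit 161)) (XT.lf (nat_lit 0) (nat_lit 55491692585) (nat_lit 76) (nat_lit 29527997806) (nat_lit 152) (nat_lit 52282498364) (nat_lit 8) (nat_lit 5) (nat_lit 9) (nat_lit 5) (nat_lit 10) (nat_lit 4) (nat_lit 297) (nat_lit 263) (nat_lit 160))))) (XT.nd (nat_lit 234)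 (nat_lit 76) (nat_lit 0) (XT.nd (nat_lit 78) (nat_lit 76) (nat_lit 0) (XT.lf (nat_lit 0) (nat_lit 100524695569) (nat_lit 76) (nat_lit 6147037117) (nat_lit 152) (nat_lit 39641785066) (nat_lit 8) (nat_lit 5) (nat_lit 9) (nat_lit 5) (nat_lit 10) (nat_lit 4) (nat_lit 298) (nat_lit 263) (nat_lit 159)) (XT.nd (nat_lit 78) (nat_lit 76) (nat_lit 0) (XT.lf (nat_lit 0) (nat_lit 130514141184) (nat_lit 152) (nat_lit 7347033621) (nat_lit 0) (nat_lit 18147925406) (nat_lit 8) (nat_lit 5) (nat_lit 10) (nat_lit 4) (nat_lit 8) (nat_lit 4) (nat_lit 299) (nat_lit 263) (nat_lit 158)) (XT.lf (nat_lit 0) (nat_lit 35799260525) (nat_lit 76) (nat_lit 121484152962) (nat_lit 76) (nat_lit 9115361207) (nat_lit 7) (nat_lit 4) (nat_lit 8) (nat_lit 5) (nat_lit 8) (nat_lit 4) (nat_lit 300) (nat_lit 263) (nat_lit 157)))) (XT.nd (nat_lit 78) (nat_lit 0) (nat_lit 0) (XT.lf (nat_lit 0) (nat_lit 8350608843) (nat_lit 152)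 (nat_lit 95001910525) (nat_lit 76) (nat_lit 74234213618) (nat_lit 6) (nat_lit 5) (nat_lit 8) (nat_lit 5) (nat_lit 7) (nat_lit 4) (nat_lit 301) (nat_lit 263) (nat_lit 156)) (XT.nd (nat_lit 78) (nat_lit 0) (nat_lit 0) (XT.lf (nat_lit 0) (nat_lit 26720318230) (nat_lit 152) (nat_lit 56795123484) (nat_lit 76) (nat_lit 106135433450) (nat_lit 6) (nat_lit 5) (nat_lit 8) (nat_lit 5) (nat_lit 7) (nat_lit 4) (nat_lit 302) (nat_lit 263) (nat_lit 155)) (XT.lf (nat_lit 0) (nat_lit 46558611777) (nat_lit 152) (nat_lit 15533517801) (nat_lit 76) (nat_lit 140588100838) (nat_lit 6) (nat_lit 5) (nat_lit 8) (nat_lit 5) (nat_lit 7) (nat_lit 4) (nat_lit 303) (nat_lit 263) (nat_lit 154)))))) (XT.nd (nat_lit 468) (nat_lit 76) (nat_lit 0) (XT.nd (nat_lit 234) (nat_lit 76) (nat_lit 0) (XT.nd (nat_lit 78) (nat_lit 0) (nat_lit 0) (XT.lf (nat_lit 0) (nat_lit 30555952224) (nat_lit 76) (nat_lit 38161968902) (nat_lit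 152) (nat_lit 147975298899) (nat_lit 5) (nat_lit 5) (nat_lit 6) (nat_lit 5) (nat_lit 7) (nat_lit 4) (nat_lit 304) (nat_lit 263) (nat_lit 153)) (XT.nd (nat_lit 78) (nat_lit 0) (nat_lit 0) (XT.lf (nat_lit 0) (nat_lit 81214428599) (nat_lit 76) (nat_lit 11859372114) (nat_lit 152) (nat_lit 138719544013) (nat_lit 5) (nat_lit 5) (nat_lit 6) (nat_lit 5) (nat_lit 7) (nat_lit 4) (nat_lit 305) (nat_lit 263) (nat_lit 152)) (XT.lf (nat_lit 0) (nat_lit 119775279340) (nat_lit 152) (nat_lit 112575356127) (nat_lit 0) (nat_lit 15719075462) (nat_lit 5) (nat_lit 5) (nat_lit 7) (nat_lit 4) (nat_lit 5) (nat_lit 4) (nat_lit 306) (nat_lit 263) (nat_lit 151)))) (XT.nd (nat_lit 78) (nat_lit 76) (nat_lit 0) (XT.lf (nat_lit 0) (nat_lit 148920136457) (nat_lit 152) (nat_lit 71840929983) (nat_lit 0) (nat_lit 44862540858) (nat_lit 5) (nat_lit 5) (nat_lit 7) (nat_lit 4) (nat_lit 5) (nat_lit 4) (nat_lit 307) (nat_lit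 263) (nat_lit 150)) (XT.nd (nat_lit 78) (nat_lit 76) (nat_lit 0) (XT.lf (nat_lit 0) (nat_lit 180395864142) (nat_lit 152) (nat_lit 27849030320) (nat_lit 0) (nat_lit 76336979913) (nat_lit 5) (nat_lit 5) (nat_lit 7) (nat_lit 4) (nat_lit 5) (nat_lit 4) (nat_lit 308) (nat_lit 263) (nat_lit 149)) (XT.lf (nat_lit 0) (nat_lit 20696350893) (nat_lit 76) (nat_lit 194190382069) (nat_lit 76) (nat_lit 90130304665) (nat_lit 4) (nat_lit 4) (nat_lit 5) (nat_lit 5) (nat_lit 5) (nat_lit 4) (nat_lit 309) (nat_lit 263) (nat_lit 148))))) (XT.nd (nat_lit 234) (nat_lit 76) (nat_lit 0) (XT.nd (nat_lit 78) (nat_lit 0) (nat_lit 0) (XT.lf (nat_lit 0) (nat_lit 74708005939) (nat_lit 76) (nat_lit 178189663829) (nat_lit 76) (nat_lit 74128481632) (nat_lit 4) (nat_lit 4) (nat_lit 5) (nat_lit 5) (nat_lit 5) (nat_lit 4) (nat_lit 310) (nat_lit 263) (nat_lit 147)) (XT.nd (nat_lit 78) (nat_lit 0) (nat_lit 0) (XT.lf (nat_lit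 0) (nat_lit 133039523298) (nat_lit 76) (nat_lit 160909362512) (nat_lit 76) (nat_lit 56847157358) (nat_lit 4) (nat_lit 4) (nat_lit 5) (nat_lit 5) (nat_lit 5) (nat_lit 4) (nat_lit 311) (nat_lit 263) (nat_lit 146)) (XT.lf (nat_lit 0) (nat_lit 196036571222) (nat_lit 76) (nat_lit 142247076332) (nat_lit 76) (nat_lit 38183923997) (nat_lit 4) (nat_lit 4) (nat_lit 5) (nat_lit 5) (nat_lit 5) (nat_lit 4) (nat_lit 312) (nat_lit 263) (nat_lit 145)))) (XT.nd (nat_lit 156) (nat_lit 0) (nat_lit 0) (XT.nd (nat_lit 78) (nat_lit 76) (nat_lit 0) (XT.lf (nat_lit 0) (nat_lit 264072465551) (nat_lit 76) (nat_lit 122092213963) (nat_lit 76) (nat_lit 18028184609) (nat_lit 4) (nat_lit 4) (nat_lit 5) (nat_lit 5) (nat_lit 5) (nat_lit 4) (nat_lit 313) (nat_lit 263) (nat_lit 144)) (XT.lf (nat_lit 0) (nat_lit 3552437178) (nat_lit 152) (nat_lit 96675772079) (nat_lit 76) (nat_lit 333900814849) (nat_lit 3) (nat_lit 5)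 (nat_lit 5) (nat_lit 5) (nat_lit 4) (nat_lit 4) (nat_lit 314) (nat_lit 263) (nat_lit 143))) (XT.nd (nat_lit 78) (nat_lit 0) (nat_lit 0) (XT.lf (nat_lit 0) (nat_lit 25885068374) (nat_lit 152) (nat_lit 50224651094) (nat_lit 76) (nat_lit 390312933108) (nat_lit 3) (nat_lit 5) (nat_lit 5) (nat_lit 5) (nat_lit 4) (nat_lit 4) (nat_lit 315) (nat_lit 263) (nat_lit 142)) (XT.lf (nat_lit 0) (nat_lit 50003893307) (nat_lit 152) (nat_lit 58191441) (nat_lit 76) (nat_lit 451237720696) (nat_lit 3) (nat_lit 5) (nat_lit 5) (nat_lit 5) (nat_lit 4) (nat_lit 4) (nat_lit 316) (nat_lit 263) (nat_lit 141))))))) (XT.nd (nat_lit 936) (nat_lit 76) (nat_lit 0) (XT.nd (nat_lit 468) (nat_lit 0) (nat_lit 0) (XT.nd (nat_lit 234) (nat_lit 0) (nat_lit 0) (XT.nd (nat_lit 78) (nat_lit 0) (nat_lit 0) (XT.lf (nat_lit 0) (nat_lit 56970799740) (nat_lit 76) (nat_lit 20451187710) (nat_lit 152) (nat_lit 461435562757) (nat_lit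 2) (nat_lit 5) (nat_lit 3) (nat_lit 5) (nat_lit 4) (nat_lit 4) (nat_lit 317) (nat_lit 263) (nat_lit 140)) (XT.nd (nat_lit 78) (nat_lit 0) (nat_lit 0) (XT.lf (nat_lit 0) (nat_lit 107312043240) (nat_lit 152) (nat_lit 461132372647) (nat_lit 0) (nat_lit 10953218202) (nat_lit 2) (nat_lit 5) (nat_lit 4) (nat_lit 4) (nat_lit 2) (nat_lit 4) (nat_lit 318) (nat_lit 263) (nat_lit 139)) (XT.lf (nat_lit 0) (nat_lit 140124150470) (nat_lit 152) (nat_lit 439249493374) (nat_lit 0) (nat_lit 43764813699) (nat_lit 2) (nat_lit 5) (nat_lit 4) (nat_lit 4) (nat_lit 2) (nat_lit 4) (nat_lit 319) (nat_lit 263) (nat_lit 138)))) (XT.nd (nat_lit 78) (nat_lit 0) (nat_lit 0) (XT.lf (nat_lit 0) (nat_lit 175560899702) (nat_lit 152) (nat_lit 415616584768) (nat_lit 0) (nat_lit 79201089104) (nat_lit 2) (nat_lit 5) (nat_lit 4) (nat_lit 4) (nat_lit 2) (nat_lit 4) (nat_lit 320) (nat_lit 263) (nat_lit 137)) (XT.nd (nat_lit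 78) (nat_lit 0) (nat_lit 0) (XT.lf (nat_lit 0) (nat_lit 213832286485) (nat_lit 152) (nat_lit 390093599964) (nat_lit 0) (nat_lit 117472037160) (nat_lit 2) (nat_lit 5) (nat_lit 4) (nat_lit 4) (nat_lit 2) (nat_lit 4) (nat_lit 321) (nat_lit 263) (nat_lit 136)) (XT.lf (nat_lit 0) (nat_lit 255165104224) (nat_lit 152) (nat_lit 362529291645) (nat_lit 0) (nat_lit 158804448668) (nat_lit 2) (nat_lit 5) (nat_lit 4) (nat_lit 4) (nat_lit 2) (nat_lit 4) (nat_lit 322) (nat_lit 263) (nat_lit 135))))) (XT.nd (nat_lit 234) (nat_lit 0) (nat_lit 0) (XT.nd (nat_lit 78) (nat_lit 0) (nat_lit 0) (XT.lf (nat_lit 0) (nat_lit 299804288134) (nat_lit 152) (nat_lit 332760315761) (nat_lit 0) (nat_lit 203443256440) (nat_lit 2) (nat_lit 5) (nat_lit 4) (nat_lit 4) (nat_lit 2) (nat_lit 4) (nat_lit 323) (nat_lit 263) (nat_lit 134)) (XT.nd (nat_lit 78) (nat_lit 0) (nat_lit 0) (XT.lf (nat_lit 0) (nat_lit 348014366713) (nat_lit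 152) (nat_lit 300610263566) (nat_lit 0) (nat_lit 251652986742) (nat_lit 2) (nat_lit 5) (nat_lit 4) (nat_lit 4) (nat_lit 2) (nat_lit 4) (nat_lit 324) (nat_lit 263) (nat_lit 133)) (XT.lf (nat_lit 0) (nat_lit 400081029315) (nat_lit 152) (nat_lit 265888616233) (nat_lit 0) (nat_lit 303719326865) (nat_lit 2) (nat_lit 5) (nat_lit 4) (nat_lit 4) (nat_lit 2) (nat_lit 4) (nat_lit 325) (nat_lit 263) (nat_lit 132)))) (XT.nd (nat_lit 78) (nat_lit 0) (nat_lit 0) (XT.lf (nat_lit 0) (nat_lit 456312819126) (nat_lit 152) (nat_lit 228389615852) (nat_lit 0) (nat_lit 359950818085) (nat_lit 2) (nat_lit 5) (nat_lit 4) (nat_lit 4) (nat_lit 2) (nat_lit 4) (nat_lit 326) (nat_lit 263) (nat_lit 131)) (XT.nd (nat_lit 78) (nat_lit 0) (nat_lit 0) (XT.lf (nat_lit 0) (nat_lit 517042961567) (nat_lit 152) (nat_lit 187891046123) (nat_lit 0) (nat_lit 420680684053) (nat_lit 2) (nat_lit 5) (nat_lit 4) (nat_lit 4) (nat_lit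 2) (nat_lit 4) (nat_lit 327) (nat_lit 263) (nat_lit 130)) (XT.lf (nat_lit 0) (nat_lit 582631338964) (nat_lit 152) (nat_lit 144152915523) (nat_lit 0) (nat_lit 486268805456) (nat_lit 2) (nat_lit 5) (nat_lit 4) (nat_lit 4) (nat_lit 2) (nat_lit 4) (nat_lit 328) (nat_lit 263) (nat_lit 129)))))) (XT.nd (nat_lit 468) (nat_lit 0) (nat_lit 0) (XT.nd (nat_lit 234) (nat_lit 0) (nat_lit 0) (XT.nd (nat_lit 78) (nat_lit 76) (nat_lit 0) (XT.lf (nat_lit 0) (nat_lit 653466623182) (nat_lit 152) (nat_lit 96916035130) (nat_lit 0) (nat_lit 557103852643) (nat_lit 2) (nat_lit 5) (nat_lit 4) (nat_lit 4) (nat_lit 2) (nat_lit 4) (nat_lit 329) (nat_lit 263) (nat_lit 128)) (XT.nd (nat_lit 78) (nat_lit 76) (nat_lit 0) (XT.lf (nat_lit 0) (nat_lit 729968578870) (nat_lit 152) (nat_lit 45900482688) (nat_lit 0) (nat_lit 633605588857) (nat_lit 2) (nat_lit 5) (nat_lit 4) (nat_lit 4) (nat_lit 2) (nat_lit 4) (nat_lit 330)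 (nat_lit 263) (nat_lit 127)) (XT.lf (nat_lit 0) (nat_lit 9680304206) (nat_lit 76) (nat_lit 803143058291) (nat_lit 76) (nat_lit 706779865062) (nat_lit 1) (nat_lit 4) (nat_lit 2) (nat_lit 5) (nat_lit 2) (nat_lit 4) (nat_lit 331) (nat_lit 263) (nat_lit 126)))) (XT.nd (nat_lit 78) (nat_lit 0) (nat_lit 0) (XT.lf (nat_lit 0) (nat_lit 72317703938) (nat_lit 76) (nat_lit 831243689686) (nat_lit 76) (nat_lit 734880308294) (nat_lit 1) (nat_lit 4) (nat_lit 2) (nat_lit 5) (nat_lit 2) (nat_lit 4) (nat_lit 332) (nat_lit 263) (nat_lit 125)) (XT.nd (nat_lit 78) (nat_lit 0) (nat_lit 0) (XT.lf (nat_lit 0) (nat_lit 139965863022) (nat_lit 76) (nat_lit 861592478543) (nat_lit 76) (nat_lit 765228922926) (nat_lit 1) (nat_lit 4) (nat_lit 2) (nat_lit 5) (nat_lit 2) (nat_lit 4) (nat_lit 333) (nat_lit 263) (nat_lit 124)) (XT.lf (nat_lit 0) (nat_lit 213025659437) (nat_lit 76) (nat_lit 894369269536) (nat_lit 76)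 (nat_lit 798005552600) (nat_lit 1) (nat_lit 4) (nat_lit 2) (nat_lit 5) (nat_lit 2) (nat_lit 4) (nat_lit 334) (nat_lit 263) (nat_lit 123))))) (XT.nd (nat_lit 32136) (nat_lit 0) (nat_lit 2508) (XT.nd (nat_lit 31980) (nat_lit 0) (nat_lit 2432) (XT.lf (nat_lit 0) (nat_lit 291930040125) (nat_lit 76) (nat_lit 929768295502) (nat_lit 76) (nat_lit 833404429196) (nat_lit 1) (nat_lit 4) (nat_lit 2) (nat_lit 5) (nat_lit 2) (nat_lit 4) (nat_lit 335) (nat_lit 263) (nat_lit 122)) (XT.nd (nat_lit 78) (nat_lit 0) (nat_lit 0) (XT.lf (nat_lit 0) (nat_lit 3678019592) (nat_lit 532) (nat_lit 4687846002) (nat_lit 532) (nat_lit 4687846002) (nat_lit 33) (nat_lit 3) (nat_lit 40) (nat_lit 3) (nat_lit 40) (nat_lit 5) (nat_lit 264) (nat_lit 264) (nat_lit 192)) (XT.lf (nat_lit 76) (nat_lit 1702666828) (nat_lit 0) (nat_lit 6074064461) (nat_lit 532) (nat_lit 19364375237) (nat_lit 34) (nat_lit 5) (nat_lit 33) (nat_lit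 3) (nat_lit 40) (nat_lit 5) (nat_lit 265) (nat_lit 264) (nat_lit 191)))) (XT.nd (nat_lit 156) (nat_lit 0) (nat_lit 76) (XT.nd (nat_lit 78) (nat_lit 0) (nat_lit 0) (XT.lf (nat_lit 0) (nat_lit 8616245465) (nat_lit 456) (nat_lit 14179601155) (nat_lit 532) (nat_lit 5430874348) (nat_lit 34) (nat_lit 5) (nat_lit 40) (nat_lit 5) (nat_lit 41) (nat_lit 5) (nat_lit 266) (nat_lit 264) (nat_lit 190)) (XT.lf (nat_lit 0) (nat_lit 9672743461) (nat_lit 456) (nat_lit 2183122738) (nat_lit 532) (nat_lit 17531378643) (nat_lit 34) (nat_lit 5) (nat_lit 40) (nat_lit 5) (nat_lit 41) (nat_lit 5) (nat_lit 267) (nat_lit 264) (nat_lit 189))) (XT.nd (nat_lit 78) (nat_lit 0) (nat_lit 0) (XT.lf (nat_lit 0) (nat_lit 11085177652) (nat_lit 456) (nat_lit 19290394318) (nat_lit 532) (nat_lit 243368025) (nat_lit 35) (nat_lit 5) (nat_lit 41) (nat_lit 5) (nat_lit 42) (nat_lit 5) (nat_lit 268) (nat_lit 264) (nat_lit 188))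 (XT.lf (nat_lit 0) (nat_lit 12972916803) (nat_lit 456) (nat_lit 6214014577) (nat_lit 532) (nat_lit 12733294078) (nat_lit 35) (nat_lit 5) (nat_lit 41) (nat_lit 5) (nat_lit 42) (nat_lit 5) (nat_lit 269) (nat_lit 264) (nat_lit 187))))))))
noncomputable def xc91 : XT := (XT.nd (nat_lit 1950) (nat_lit 532) (nat_lit 0) (XT.nd (nat_lit 936) (nat_lit 760) (nat_lit 0) (XT.nd (nat_lit 468) (nat_lit 608) (nat_lit 0) (XT.nd (nat_lit 234) (nat_lit 228) (nat_lit 0) (XT.nd (nat_lit 78) (nat_lit 380) (nat_lit 0) (XT.lf (nat_lit 76) (nat_lit 8319631494) (nat_lit 0) (nat_lit 6885765004) (nat_lit 532) (nat_lit 18104756138) (nat_lit 36) (nat_lit 5) (nat_lit 35) (nat_lit 5) (nat_lit 42) (nat_lit 5) (nat_lit 270) (nat_lit 264) (nat_lit 186)) (XT.nd (nat_lit 78) (nat_lit 456) (nat_lit 0) (XT.lf (nat_lit 0) (nat_lit 17938712387) (nat_lit 456) (nat_lit 10592077205) (nat_lit 76) (nat_lit 6254739249) (nat_lit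 36) (nat_lit 5) (nat_lit 42) (nat_lit 5) (nat_lit 37) (nat_lit 5) (nat_lit 271) (nat_lit 264) (nat_lit 185)) (XT.lf (nat_lit 0) (nat_lit 5025763088) (nat_lit 456) (nat_lit 16159109184) (nat_lit 532) (nat_lit 15170559941) (nat_lit 30) (nat_lit 5) (nat_lit 36) (nat_lit 5) (nat_lit 37) (nat_lit 5) (nat_lit 272) (nat_lit 264) (nat_lit 184)))) (XT.nd (nat_lit 78) (nat_lit 228) (nat_lit 0) (XT.lf (nat_lit 0) (nat_lit 22490501802) (nat_lit 456) (nat_lit 2484579718) (nat_lit 532) (nat_lit 13053126856) (nat_lit 30) (nat_lit 5) (nat_lit 36) (nat_lit 5) (nat_lit 37) (nat_lit 5) (nat_lit 273) (nat_lit 264) (nat_lit 183)) (XT.nd (nat_lit 78) (nat_lit 0) (nat_lit 0) (XT.lf (nat_lit 0) (nat_lit 1281311732) (nat_lit 228) (nat_lit 28108586572) (nat_lit 304) (nat_lit 10419223957) (nat_lit 27) (nat_lit 5) (nat_lit 30) (nat_lit 5) (nat_lit 31) (nat_lit 5) (nat_lit 274) (nat_lit 264) (nat_lit 182)) (XT.lf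 (nat_lit 0) (nat_lit 20256718369) (nat_lit 228) (nat_lit 14384301095) (nat_lit 304) (nat_lit 7052865173) (nat_lit 27) (nat_lit 5) (nat_lit 30) (nat_lit 5) (nat_lit 31) (nat_lit 5) (nat_lit 275) (nat_lit 264) (nat_lit 181))))) (XT.nd (nat_lit 234) (nat_lit 380) (nat_lit 0) (XT.nd (nat_lit 78) (nat_lit 228) (nat_lit 0) (XT.lf (nat_lit 0) (nat_lit 40318488620) (nat_lit 304) (nat_lit 2994646671) (nat_lit 76) (nat_lit 415815105) (nat_lit 27) (nat_lit 5) (nat_lit 31) (nat_lit 5) (nat_lit 28) (nat_lit 5) (nat_lit 276) (nat_lit 264) (nat_lit 180)) (XT.nd (nat_lit 78) (nat_lit 0) (nat_lit 0) (XT.lf (nat_lit 0) (nat_lit 1306141551) (nat_lit 228) (nat_lit 28480417113) (nat_lit 76) (nat_lit 16074556669) (nat_lit 24) (nat_lit 5) (nat_lit 27) (nat_lit 5) (nat_lit 25) (nat_lit 5) (nat_lit 277) (nat_lit 264) (nat_lit 179)) (XT.lf (nat_lit 0) (nat_lit 6295939334) (nat_lit 228) (nat_lit 8696228992)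 (nat_lit 76) (nat_lit 33158207192) (nat_lit 24) (nat_lit 5) (nat_lit 27) (nat_lit 5) (nat_lit 25) (nat_lit 5) (nat_lit 278) (nat_lit 264) (nat_lit 178)))) (XT.nd (nat_lit 78) (nat_lit 152) (nat_lit 0) (XT.lf (nat_lit 0) (nat_lit 12034013354) (nat_lit 304) (nat_lit 37296016740) (nat_lit 76) (nat_lit 1264835979) (nat_lit 21) (nat_lit 5) (nat_lit 25) (nat_lit 5) (nat_lit 22) (nat_lit 5) (nat_lit 279) (nat_lit 264) (nat_lit 177)) (XT.nd (nat_lit 78) (nat_lit 152) (nat_lit 0) (XT.lf (nat_lit 0) (nat_lit 18861037914) (nat_lit 304) (nat_lit 16067800453) (nat_lit 76) (nat_lit 18255700828) (nat_lit 21) (nat_lit 5) (nat_lit 25) (nat_lit 5) (nat_lit 22) (nat_lit 5) (nat_lit 280) (nat_lit 264) (nat_lit 176)) (XT.lf (nat_lit 0) (nat_lit 7215531036) (nat_lit 152) (nat_lit 19189034028) (nat_lit 228) (nat_lit 29563208383) (nat_lit 19) (nat_lit 5) (nat_lit 21) (nat_lit 5) (nat_lit 22) (nat_lit 5) (nat_lit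 281) (nat_lit 264) (nat_lit 175)))))) (XT.nd (nat_lit 468) (nat_lit 456) (nat_lit 0) (XT.nd (nat_lit 234) (nat_lit 152) (nat_lit 0) (XT.nd (nat_lit 78) (nat_lit 152) (nat_lit 0) (XT.lf (nat_lit 0) (nat_lit 33271330511) (nat_lit 152) (nat_lit 1716513544) (nat_lit 228) (nat_lit 23950934265) (nat_lit 19) (nat_lit 5) (nat_lit 21) (nat_lit 5) (nat_lit 22) (nat_lit 5) (nat_lit 282) (nat_lit 264) (nat_lit 174)) (XT.nd (nat_lit 78) (nat_lit 152) (nat_lit 0) (XT.lf (nat_lit 0) (nat_lit 44667487666) (nat_lit 228) (nat_lit 1152330002) (nat_lit 76) (nat_lit 16294882187) (nat_lit 19) (nat_lit 5) (nat_lit 22) (nat_lit 5) (nat_lit 20) (nat_lit 5) (nat_lit 283) (nat_lit 264) (nat_lit 173)) (XT.lf (nat_lit 0) (nat_lit 26606769677) (nat_lit 152) (nat_lit 29196575002) (nat_lit 228) (nat_lit 9686814616) (nat_lit 17) (nat_lit 5) (nat_lit 19) (nat_lit 5) (nat_lit 20) (nat_lit 5) (nat_lit 284) (nat_lit 264)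 (nat_lit 172)))) (XT.nd (nat_lit 78) (nat_lit 152) (nat_lit 0) (XT.lf (nat_lit 0) (nat_lit 56648601874) (nat_lit 152) (nat_lit 11210449217) (nat_lit 228) (nat_lit 1274296611) (nat_lit 17) (nat_lit 5) (nat_lit 19) (nat_lit 5) (nat_lit 20) (nat_lit 5) (nat_lit 285) (nat_lit 264) (nat_lit 171)) (XT.nd (nat_lit 78) (nat_lit 0) (nat_lit 0) (XT.lf (nat_lit 0) (nat_lit 8031767335) (nat_lit 152) (nat_lit 56565579354) (nat_lit 76) (nat_lit 8406721362) (nat_lit 15) (nat_lit 5) (nat_lit 17) (nat_lit 5) (nat_lit 16) (nat_lit 5) (nat_lit 286) (nat_lit 264) (nat_lit 170)) (XT.lf (nat_lit 0) (nat_lit 18652538691) (nat_lit 152) (nat_lit 29108169496) (nat_lit 76) (nat_lit 29369973036) (nat_lit 15) (nat_lit 5) (nat_lit 17) (nat_lit 5) (nat_lit 16) (nat_lit 5) (nat_lit 287) (nat_lit 264) (nat_lit 169))))) (XT.nd (nat_lit 234) (nat_lit 304) (nat_lit 0) (XT.nd (nat_lit 78) (nat_lit 0) (nat_lit 0) (XT.lf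 (nat_lit 0) (nat_lit 571177091) (nat_lit 152) (nat_lit 29563369885) (nat_lit 228) (nat_lit 51451958308) (nat_lit 13) (nat_lit 5) (nat_lit 15) (nat_lit 5) (nat_lit 16) (nat_lit 5) (nat_lit 288) (nat_lit 264) (nat_lit 168)) (XT.nd (nat_lit 78) (nat_lit 0) (nat_lit 0) (XT.lf (nat_lit 0) (nat_lit 34277131885) (nat_lit 152) (nat_lit 9051775809) (nat_lit 228) (nat_lit 43006391501) (nat_lit 13) (nat_lit 5) (nat_lit 15) (nat_lit 5) (nat_lit 16) (nat_lit 5) (nat_lit 289) (nat_lit 264) (nat_lit 167)) (XT.lf (nat_lit 0) (nat_lit 57891943397) (nat_lit 228) (nat_lit 21102557387) (nat_lit 76) (nat_lit 12444452475) (nat_lit 13) (nat_lit 5) (nat_lit 16) (nat_lit 5) (nat_lit 14) (nat_lit 4) (nat_lit 290) (nat_lit 264) (nat_lit 166)))) (XT.nd (nat_lit 156) (nat_lit 228) (nat_lit 0) (XT.nd (nat_lit 78) (nat_lit 0) (nat_lit 0) (XT.lf (nat_lit 0) (nat_lit 12728286078) (nat_lit 76) (nat_lit 61431159629)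 (nat_lit 152) (nat_lit 22748306272) (nat_lit 12) (nat_lit 5) (nat_lit 13) (nat_lit 5) (nat_lit 14) (nat_lit 4) (nat_lit 291) (nat_lit 264) (nat_lit 165)) (XT.lf (nat_lit 0) (nat_lit 50462965056) (nat_lit 76) (nat_lit 41840628905) (nat_lit 152) (nat_lit 10464446745) (nat_lit 12) (nat_lit 5) (nat_lit 13) (nat_lit 5) (nat_lit 14) (nat_lit 4) (nat_lit 292) (nat_lit 264) (nat_lit 164))) (XT.nd (nat_lit 78) (nat_lit 152) (nat_lit 0) (XT.lf (nat_lit 0) (nat_lit 2660294260) (nat_lit 152) (nat_lit 17950766473) (nat_lit 76) (nat_lit 88480837764) (nat_lit 11) (nat_lit 5) (nat_lit 13) (nat_lit 5) (nat_lit 12) (nat_lit 5) (nat_lit 293) (nat_lit 264) (nat_lit 163)) (XT.lf (nat_lit 0) (nat_lit 16821218272) (nat_lit 228) (nat_lit 96065285540) (nat_lit 76) (nat_lit 2969296922) (nat_lit 9) (nat_lit 5) (nat_lit 12) (nat_lit 5) (nat_lit 10) (nat_lit 4) (nat_lit 294) (nat_lit 264) (nat_lit 162))))))) (XT.nd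 (nat_lit 1014) (nat_lit 228) (nat_lit 0) (XT.nd (nat_lit 468) (nat_lit 228) (nat_lit 0) (XT.nd (nat_lit 234) (nat_lit 0) (nat_lit 0) (XT.nd (nat_lit 78) (nat_lit 76) (nat_lit 0) (XT.lf (nat_lit 0) (nat_lit 33152425348) (nat_lit 228) (nat_lit 62100159780) (nat_lit 76) (nat_lit 27825241534) (nat_lit 9) (nat_lit 5) (nat_lit 12) (nat_lit 5) (nat_lit 10) (nat_lit 4) (nat_lit 295) (nat_lit 264) (nat_lit 161)) (XT.nd (nat_lit 78) (nat_lit 76) (nat_lit 0) (XT.lf (nat_lit 0) (nat_lit 50788742828) (nat_lit 228) (nat_lit 25420124009) (nat_lit 76) (nat_lit 54668862644) (nat_lit 9) (nat_lit 5) (nat_lit 12) (nat_lit 5) (nat_lit 10) (nat_lit 4) (nat_lit 296) (nat_lit 264) (nat_lit 160)) (XT.lf (nat_lit 0) (nat_lit 14939520255) (nat_lit 76) (nat_lit 55254457791) (nat_lit 152) (nat_lit 69079009130) (nat_lit 8) (nat_lit 5) (nat_lit 9) (nat_lit 5) (nat_lit 10) (nat_lit 4) (nat_lit 297) (nat_lit 264)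 (nat_lit 159)))) (XT.nd (nat_lit 78) (nat_lit 0) (nat_lit 0) (XT.lf (nat_lit 0) (nat_lit 59971525278) (nat_lit 76) (nat_lit 31873899712) (nat_lit 152) (nat_lit 56438940431) (nat_lit 8) (nat_lit 5) (nat_lit 9) (nat_lit 5) (nat_lit 10) (nat_lit 4) (nat_lit 298) (nat_lit 264) (nat_lit 158)) (XT.nd (nat_lit 78) (nat_lit 0) (nat_lit 0) (XT.lf (nat_lit 0) (nat_lit 108604168702) (nat_lit 76) (nat_lit 6623672384) (nat_lit 152) (nat_lit 42788907685) (nat_lit 8) (nat_lit 5) (nat_lit 9) (nat_lit 5) (nat_lit 10) (nat_lit 4) (nat_lit 299) (nat_lit 264) (nat_lit 157)) (XT.lf (nat_lit 0) (nat_lit 140976322114) (nat_lit 152) (nat_lit 7898699953) (nat_lit 0) (nat_lit 19613065877) (nat_lit 8) (nat_lit 5) (nat_lit 10) (nat_lit 4) (nat_lit 8) (nat_lit 4) (nat_lit 300) (nat_lit 264) (nat_lit 156))))) (XT.nd (nat_lit 234) (nat_lit 76) (nat_lit 0) (XT.nd (nat_lit 78) (nat_lit 76) (nat_lit 0) (XT.lf (nat_lit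 0) (nat_lit 38698383893) (nat_lit 76) (nat_lit 131188039217) (nat_lit 76) (nat_lit 9822574494) (nat_lit 7) (nat_lit 4) (nat_lit 8) (nat_lit 5) (nat_lit 8) (nat_lit 4) (nat_lit 301) (nat_lit 264) (nat_lit 155)) (XT.nd (nat_lit 78) (nat_lit 0) (nat_lit 0) (XT.lf (nat_lit 0) (nat_lit 9038022643) (nat_lit 152) (nat_lit 102568422518) (nat_lit 76) (nat_lit 80185632552) (nat_lit 6) (nat_lit 5) (nat_lit 8) (nat_lit 5) (nat_lit 7) (nat_lit 4) (nat_lit 302) (nat_lit 264) (nat_lit 154)) (XT.lf (nat_lit 0) (nat_lit 28875874330) (nat_lit 152) (nat_lit 61307584428) (nat_lit 76) (nat_lit 114638010575) (nat_lit 6) (nat_lit 5) (nat_lit 8) (nat_lit 5) (nat_lit 7) (nat_lit 4) (nat_lit 303) (nat_lit 264) (nat_lit 153)))) (XT.nd (nat_lit 156) (nat_lit 0) (nat_lit 0) (XT.nd (nat_lit 78) (nat_lit 76) (nat_lit 0) (XT.lf (nat_lit 0) (nat_lit 50299903165) (nat_lit 152) (nat_lit 16747357620) (nat_lit 76) (nat_lit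 151846021543) (nat_lit 6) (nat_lit 5) (nat_lit 8) (nat_lit 5) (nat_lit 7) (nat_lit 4) (nat_lit 304) (nat_lit 264) (nat_lit 152)) (XT.lf (nat_lit 0) (nat_lit 33028539840) (nat_lit 76) (nat_lit 41202863691) (nat_lit 152) (nat_lit 159795954710) (nat_lit 5) (nat_lit 5) (nat_lit 6) (nat_lit 5) (nat_lit 7) (nat_lit 4) (nat_lit 305) (nat_lit 264) (nat_lit 151))) (XT.nd (nat_lit 78) (nat_lit 0) (nat_lit 0) (XT.lf (nat_lit 0) (nat_lit 87737611997) (nat_lit 76) (nat_lit 12796952695) (nat_lit 152) (nat_lit 149801025959) (nat_lit 5) (nat_lit 5) (nat_lit 6) (nat_lit 5) (nat_lit 7) (nat_lit 4) (nat_lit 306) (nat_lit 264) (nat_lit 150)) (XT.lf (nat_lit 0) (nat_lit 129371309596) (nat_lit 152) (nat_lit 121556401151) (nat_lit 0) (nat_lit 16986425999) (nat_lit 5) (nat_lit 5) (nat_lit 7) (nat_lit 4) (nat_lit 5) (nat_lit 4) (nat_lit 307) (nat_lit 264) (nat_lit 149)))))) (XT.nd (nat_lit 468) (nat_lit 152)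 (nat_lit 0) (XT.nd (nat_lit 234) (nat_lit 0) (nat_lit 0) (XT.nd (nat_lit 78) (nat_lit 76) (nat_lit 0) (XT.lf (nat_lit 0) (nat_lit 160846717659) (nat_lit 152) (nat_lit 77565071543) (nat_lit 0) (nat_lit 48460640886) (nat_lit 5) (nat_lit 5) (nat_lit 7) (nat_lit 4) (nat_lit 5) (nat_lit 4) (nat_lit 308) (nat_lit 264) (nat_lit 148)) (XT.nd (nat_lit 78) (nat_lit 76) (nat_lit 0) (XT.lf (nat_lit 0) (nat_lit 194839542797) (nat_lit 152) (nat_lit 30055533450) (nat_lit 0) (nat_lit 82452361231) (nat_lit 5) (nat_lit 5) (nat_lit 7) (nat_lit 4) (nat_lit 5) (nat_lit 4) (nat_lit 309) (nat_lit 264) (nat_lit 147)) (XT.lf (nat_lit 0) (nat_lit 22372935999) (nat_lit 76) (nat_lit 209716357623) (nat_lit 76) (nat_lit 97328153101) (nat_lit 4) (nat_lit 4) (nat_lit 5) (nat_lit 5) (nat_lit 5) (nat_lit 4) (nat_lit 310) (nat_lit 264) (nat_lit 146)))) (XT.nd (nat_lit 78) (nat_lit 0) (nat_lit 0) (XT.lf (nat_lit 0) (nat_lit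 80703977001) (nat_lit 76) (nat_lit 192436267480) (nat_lit 76) (nat_lit 80047115777) (nat_lit 4) (nat_lit 4) (nat_lit 5) (nat_lit 5) (nat_lit 5) (nat_lit 4) (nat_lit 311) (nat_lit 264) (nat_lit 145)) (XT.nd (nat_lit 78) (nat_lit 0) (nat_lit 0) (XT.lf (nat_lit 0) (nat_lit 143700583854) (nat_lit 76) (nat_lit 173774176832) (nat_lit 76) (nat_lit 61384148109) (nat_lit 4) (nat_lit 4) (nat_lit 5) (nat_lit 5) (nat_lit 5) (nat_lit 4) (nat_lit 312) (nat_lit 264) (nat_lit 144)) (XT.lf (nat_lit 0) (nat_lit 211736069783) (nat_lit 76) (nat_lit 153619495511) (nat_lit 76) (nat_lit 41228654733) (nat_lit 4) (nat_lit 4) (nat_lit 5) (nat_lit 5) (nat_lit 5) (nat_lit 4) (nat_lit 313) (nat_lit 264) (nat_lit 143))))) (XT.nd (nat_lit 234) (nat_lit 76) (nat_lit 0) (XT.nd (nat_lit 78) (nat_lit 76) (nat_lit 0) (XT.lf (nat_lit 0) (nat_lit 285213608039) (nat_lit 76) (nat_lit 131852788370) (nat_lit 76) (nat_lit 19461195689)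 (nat_lit 4) (nat_lit 4) (nat_lit 5) (nat_lit 5) (nat_lit 5) (nat_lit 4) (nat_lit 314) (nat_lit 264) (nat_lit 142)) (XT.nd (nat_lit 78) (nat_lit 0) (nat_lit 0) (XT.lf (nat_lit 0) (nat_lit 3844762968) (nat_lit 152) (nat_lit 104395181913) (nat_lit 76) (nat_lit 360618735469) (nat_lit 3) (nat_lit 5) (nat_lit 5) (nat_lit 5) (nat_lit 4) (nat_lit 4) (nat_lit 315) (nat_lit 264) (nat_lit 141)) (XT.lf (nat_lit 0) (nat_lit 27963402378) (nat_lit 152) (nat_lit 54229056577) (nat_lit 76) (nat_lit 421543389452) (nat_lit 3) (nat_lit 5) (nat_lit 5) (nat_lit 5) (nat_lit 4) (nat_lit 4) (nat_lit 316) (nat_lit 264) (nat_lit 140)))) (XT.nd (nat_lit 156) (nat_lit 0) (nat_lit 0) (XT.nd (nat_lit 78) (nat_lit 76) (nat_lit 0) (XT.lf (nat_lit 0) (nat_lit 54011175636) (nat_lit 152) (nat_lit 50285085) (nat_lit 76) (nat_lit 487341758440) (nat_lit 3) (nat_lit 5) (nat_lit 5) (nat_lit 5) (nat_lit 4) (nat_lit 4) (nat_lit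 317) (nat_lit 264) (nat_lit 139)) (XT.lf (nat_lit 0) (nat_lit 61540707373) (nat_lit 76) (nat_lit 22081788037) (nat_lit 152) (nat_lit 498343106814) (nat_lit 2) (nat_lit 5) (nat_lit 3) (nat_lit 5) (nat_lit 4) (nat_lit 4) (nat_lit 318) (nat_lit 264) (nat_lit 138))) (XT.nd (nat_lit 78) (nat_lit 0) (nat_lit 0) (XT.lf (nat_lit 0) (nat_lit 115903378099) (nat_lit 152) (nat_lit 498011236991) (nat_lit 0) (nat_lit 11834308827) (nat_lit 2) (nat_lit 5) (nat_lit 4) (nat_lit 4) (nat_lit 2) (nat_lit 4) (nat_lit 319) (nat_lit 264) (nat_lit 137)) (XT.lf (nat_lit 0) (nat_lit 151339981952) (nat_lit 152) (nat_lit 474378595928) (nat_lit 0) (nat_lit 47270473952) (nat_lit 2) (nat_lit 5) (nat_lit 4) (nat_lit 4) (nat_lit 2) (nat_lit 4) (nat_lit 320) (nat_lit 264) (nat_lit 136))))))))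
noncomputable def xc92 : XT := (XT.nd (nat_lit 34008) (nat_lit 0) (nat_lit 532) (XT.nd (nat_lit 936) (nat_lit 0) (nat_lit 0) (XT.nd (nat_lit 468) (nat_lit 76) (nat_lit 0) (XT.nd (nat_lit 234) (nat_lit 0) (nat_lit 0) (XT.nd (nat_lit 78) (nat_lit 0) (nat_lit 0) (XT.lf (nat_lit 0) (nat_lit 189611234127) (nat_lit 152) (nat_lit 448855858850) (nat_lit 0) (nat_lit 85541319897) (nat_lit 2) (nat_lit 5) (nat_lit 4) (nat_lit 4) (nat_lit 2) (nat_lit 4) (nat_lit 321) (nat_lit 264) (nat_lit 135)) (XT.nd (nat_lit 78) (nat_lit 0) (nat_lit 0) (XT.lf (nat_lit 0) (nat_lit 230943927227) (nat_lit 152) (nat_lit 421291779906) (nat_lit 0) (nat_lit 126873636858) (nat_lit 2) (nat_lit 5) (nat_lit 4) (nat_lit 4) (nat_lit 2) (nat_lit 4) (nat_lit 322) (nat_lit 264) (nat_lit 134)) (XT.lf (nat_lit 0) (nat_lit 275582995731) (nat_lit 152) (nat_lit 391523016407) (nat_lit 0) (nat_lit 171512357086) (nat_lit 2) (nat_lit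 5) (nat_lit 4) (nat_lit 4) (nat_lit 2) (nat_lit 4) (nat_lit 323) (nat_lit 264) (nat_lit 133)))) (XT.nd (nat_lit 78) (nat_lit 0) (nat_lit 0) (XT.lf (nat_lit 0) (nat_lit 323792967453) (nat_lit 152) (nat_lit 359373160865) (nat_lit 0) (nat_lit 219722006329) (nat_lit 2) (nat_lit 5) (nat_lit 4) (nat_lit 4) (nat_lit 2) (nat_lit 4) (nat_lit 324) (nat_lit 264) (nat_lit 132)) (XT.nd (nat_lit 78) (nat_lit 0) (nat_lit 0) (XT.lf (nat_lit 0) (nat_lit 375859531113) (nat_lit 152) (nat_lit 324651695618) (nat_lit 0) (nat_lit 271788271398) (nat_lit 2) (nat_lit 5) (nat_lit 4) (nat_lit 4) (nat_lit 2) (nat_lit 4) (nat_lit 325) (nat_lit 264) (nat_lit 131)) (XT.lf (nat_lit 0) (nat_lit 432091229311) (nat_lit 152) (nat_lit 287152863834) (nat_lit 0) (nat_lit 328019693123) (nat_lit 2) (nat_lit 5) (nat_lit 4) (nat_lit 4) (nat_lit 2) (nat_lit 4) (nat_lit 326) (nat_lit 264) (nat_lit 130))))) (XT.nd (nat_lit 234)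 (nat_lit 76) (nat_lit 0) (XT.nd (nat_lit 78) (nat_lit 0) (nat_lit 0) (XT.lf (nat_lit 0) (nat_lit 492821286925) (nat_lit 152) (nat_lit 246654450214) (nat_lit 0) (nat_lit 388749494743) (nat_lit 2) (nat_lit 5) (nat_lit 4) (nat_lit 4) (nat_lit 2) (nat_lit 4) (nat_lit 327) (nat_lit 264) (nat_lit 129)) (XT.nd (nat_lit 78) (nat_lit 0) (nat_lit 0) (XT.lf (nat_lit 0) (nat_lit 558409585779) (nat_lit 152) (nat_lit 202916464160) (nat_lit 0) (nat_lit 454337556565) (nat_lit 2) (nat_lit 5) (nat_lit 4) (nat_lit 4) (nat_lit 2) (nat_lit 4) (nat_lit 328) (nat_lit 264) (nat_lit 128)) (XT.lf (nat_lit 0) (nat_lit 629244797272) (nat_lit 152) (nat_lit 155679717604) (nat_lit 0) (nat_lit 525172548585) (nat_lit 2) (nat_lit 5) (nat_lit 4) (nat_lit 4) (nat_lit 2) (nat_lit 4) (nat_lit 329) (nat_lit 264) (nat_lit 127)))) (XT.nd (nat_lit 78) (nat_lit 76) (nat_lit 0) (XT.lf (nat_lit 0) (nat_lit 705746685621) (nat_lit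 152) (nat_lit 104664289088) (nat_lit 0) (nat_lit 601674233718) (nat_lit 2) (nat_lit 5) (nat_lit 4) (nat_lit 4) (nat_lit 2) (nat_lit 4) (nat_lit 330) (nat_lit 264) (nat_lit 126)) (XT.nd (nat_lit 78) (nat_lit 76) (nat_lit 0) (XT.lf (nat_lit 0) (nat_lit 788368595350) (nat_lit 152) (nat_lit 49567864959) (nat_lit 0) (nat_lit 684295955284) (nat_lit 2) (nat_lit 5) (nat_lit 4) (nat_lit 4) (nat_lit 2) (nat_lit 4) (nat_lit 331) (nat_lit 264) (nat_lit 125)) (XT.lf (nat_lit 0) (nat_lit 10459267005) (nat_lit 76) (nat_lit 867392416392) (nat_lit 76) (nat_lit 763319602101) (nat_lit 1) (nat_lit 4) (nat_lit 2) (nat_lit 5) (nat_lit 2) (nat_lit 4) (nat_lit 332) (nat_lit 264) (nat_lit 124)))))) (XT.nd (nat_lit 32526) (nat_lit 0) (nat_lit 1976) (XT.nd (nat_lit 32292) (nat_lit 0) (nat_lit 2432) (XT.nd (nat_lit 78) (nat_lit 0) (nat_lit 0) (XT.lf (nat_lit 0) (nat_lit 78107322534) (nat_lit 76) (nat_lit 897741252859)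 (nat_lit 76) (nat_lit 793668277248) (nat_lit 1) (nat_lit 4) (nat_lit 2) (nat_lit 5) (nat_lit 2) (nat_lit 4) (nat_lit 333) (nat_lit 264) (nat_lit 123)) (XT.nd (nat_lit 32136) (nat_lit 0) (nat_lit 2432) (XT.lf (nat_lit 0) (nat_lit 151167023064) (nat_lit 76) (nat_lit 930518087935) (nat_lit 76) (nat_lit 826444962955) (nat_lit 1) (nat_lit 4) (nat_lit 2) (nat_lit 5) (nat_lit 2) (nat_lit 4) (nat_lit 334) (nat_lit 264) (nat_lit 122)) (XT.lf (nat_lit 0) (nat_lit 4055706209) (nat_lit 532) (nat_lit 5017570562) (nat_lit 532) (nat_lit 5017570562) (nat_lit 33) (nat_lit 3) (nat_lit 40) (nat_lit 3) (nat_lit 40) (nat_lit 5) (nat_lit 265) (nat_lit 265) (nat_lit 190)))) (XT.nd (nat_lit 78) (nat_lit 0) (nat_lit 76) (XT.lf (nat_lit 76) (nat_lit 1927192586) (nat_lit 0) (nat_lit 6628328992) (nat_lit 532) (nat_lit 20743442093) (nat_lit 34) (nat_lit 5) (nat_lit 33) (nat_lit 3) (nat_lit 40) (nat_lit 5) (nat_lit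 266) (nat_lit 265) (nat_lit 189)) (XT.nd (nat_lit 78) (nat_lit 0) (nat_lit 0) (XT.lf (nat_lit 0) (nat_lit 9449071234) (nat_lit 456) (nat_lit 15218240217) (nat_lit 532) (nat_lit 5805232479) (nat_lit 34) (nat_lit 5) (nat_lit 40) (nat_lit 5) (nat_lit 41) (nat_lit 5) (nat_lit 267) (nat_lit 265) (nat_lit 188)) (XT.lf (nat_lit 0) (nat_lit 10579457504) (nat_lit 456) (nat_lit 2269134567) (nat_lit 532) (nat_lit 18878229845) (nat_lit 34) (nat_lit 5) (nat_lit 40) (nat_lit 5) (nat_lit 41) (nat_lit 5) (nat_lit 268) (nat_lit 265) (nat_lit 187))))) (XT.nd (nat_lit 234) (nat_lit 608) (nat_lit 0) (XT.nd (nat_lit 78) (nat_lit 0) (nat_lit 0) (XT.lf (nat_lit 0) (nat_lit 12096188606) (nat_lit 456) (nat_lit 20735576206) (nat_lit 532) (nat_lit 226040802) (nat_lit 35) (nat_lit 5) (nat_lit 41) (nat_lit 5) (nat_lit 42) (nat_lit 5) (nat_lit 269) (nat_lit 265) (nat_lit 186)) (XT.nd (nat_lit 78) (nat_lit 0) (nat_lit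 0) (XT.lf (nat_lit 0) (nat_lit 14125747130) (nat_lit 456) (nat_lit 6620349024) (nat_lit 532) (nat_lit 13717886619) (nat_lit 35) (nat_lit 5) (nat_lit 41) (nat_lit 5) (nat_lit 42) (nat_lit 5) (nat_lit 270) (nat_lit 265) (nat_lit 185)) (XT.lf (nat_lit 76) (nat_lit 9073690336) (nat_lit 0) (nat_lit 7456744716) (nat_lit 532) (nat_lit 19435229245) (nat_lit 36) (nat_lit 5) (nat_lit 35) (nat_lit 5) (nat_lit 42) (nat_lit 5) (nat_lit 271) (nat_lit 265) (nat_lit 184)))) (XT.nd (nat_lit 156) (nat_lit 228) (nat_lit 0) (XT.nd (nat_lit 78) (nat_lit 456) (nat_lit 0) (XT.lf (nat_lit 0) (nat_lit 19473923251) (nat_lit 456) (nat_lit 11348450120) (nat_lit 76) (nat_lit 6737421998) (nat_lit 36) (nat_lit 5) (nat_lit 42) (nat_lit 5) (nat_lit 37) (nat_lit 5) (nat_lit 272) (nat_lit 265) (nat_lit 183)) (XT.lf (nat_lit 0) (nat_lit 5516513770) (nat_lit 456) (nat_lit 17457979302) (nat_lit 532) (nat_lit 16281262542)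 (nat_lit 30) (nat_lit 5) (nat_lit 36) (nat_lit 5) (nat_lit 37) (nat_lit 5) (nat_lit 273) (nat_lit 265) (nat_lit 182))) (XT.nd (nat_lit 78) (nat_lit 228) (nat_lit 0) (XT.lf (nat_lit 0) (nat_lit 24371861978) (nat_lit 456) (nat_lit 2689032562) (nat_lit 532) (nat_lit 14002060158) (nat_lit 30) (nat_lit 5) (nat_lit 36) (nat_lit 5) (nat_lit 37) (nat_lit 5) (nat_lit 274) (nat_lit 265) (nat_lit 181)) (XT.lf (nat_lit 0) (nat_lit 1471311225) (nat_lit 228) (nat_lit 30353058874) (nat_lit 304) (nat_lit 11162369707) (nat_lit 27) (nat_lit 5) (nat_lit 30) (nat_lit 5) (nat_lit 31) (nat_lit 5) (nat_lit 275) (nat_lit 265) (nat_lit 180))))))) (XT.nd (nat_lit 936) (nat_lit 532) (nat_lit 0) (XT.nd (nat_lit 468) (nat_lit 456) (nat_lit 0) (XT.nd (nat_lit 234) (nat_lit 228) (nat_lit 0) (XT.nd (nat_lit 78) (nat_lit 228) (nat_lit 0) (XT.lf (nat_lit 0) (nat_lit 21958269315) (nat_lit 228) (nat_lit 15531142753)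 (nat_lit 304) (nat_lit 7533397937) (nat_lit 27) (nat_lit 5) (nat_lit 30) (nat_lit 5) (nat_lit 31) (nat_lit 5) (nat_lit 276) (nat_lit 265) (nat_lit 179)) (XT.nd (nat_lit 78) (nat_lit 228) (nat_lit 0) (XT.lf (nat_lit 0) (nat_lit 43615453728) (nat_lit 304) (nat_lit 3153195232) (nat_lit 76) (nat_lit 452512919) (nat_lit 27) (nat_lit 5) (nat_lit 31) (nat_lit 5) (nat_lit 28) (nat_lit 5) (nat_lit 277) (nat_lit 265) (nat_lit 178)) (XT.lf (nat_lit 0) (nat_lit 1480830718) (nat_lit 228) (nat_lit 30675851389) (nat_lit 76) (nat_lit 17367375979) (nat_lit 24) (nat_lit 5) (nat_lit 27) (nat_lit 5) (nat_lit 25) (nat_lit 5) (nat_lit 278) (nat_lit 265) (nat_lit 177)))) (XT.nd (nat_lit 78) (nat_lit 228) (nat_lit 0) (XT.lf (nat_lit 0) (nat_lit 6864612483) (nat_lit 228) (nat_lit 9315076299) (nat_lit 76) (nat_lit 35817210783) (nat_lit 24) (nat_lit 5) (nat_lit 27) (nat_lit 5) (nat_lit 25) (nat_lit 5) (nat_lit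 279) (nat_lit 265) (nat_lit 176)) (XT.nd (nat_lit 78) (nat_lit 0) (nat_lit 0) (XT.lf (nat_lit 0) (nat_lit 13059029976) (nat_lit 304) (nat_lit 40199861142) (nat_lit 76) (nat_lit 1378297121) (nat_lit 21) (nat_lit 5) (nat_lit 25) (nat_lit 5) (nat_lit 22) (nat_lit 5) (nat_lit 280) (nat_lit 265) (nat_lit 175)) (XT.lf (nat_lit 0) (nat_lit 20427602015) (nat_lit 304) (nat_lit 17279301400) (nat_lit 76) (nat_lit 19727521952) (nat_lit 21) (nat_lit 5) (nat_lit 25) (nat_lit 5) (nat_lit 22) (nat_lit 5) (nat_lit 281) (nat_lit 265) (nat_lit 174))))) (XT.nd (nat_lit 234) (nat_lit 304) (nat_lit 0) (XT.nd (nat_lit 78) (nat_lit 0) (nat_lit 0) (XT.lf (nat_lit 0) (nat_lit 7864825138) (nat_lit 152) (nat_lit 20707246370) (nat_lit 228) (nat_lit 31868469480) (nat_lit 19) (nat_lit 5) (nat_lit 21) (nat_lit 5) (nat_lit 22) (nat_lit 5) (nat_lit 282) (nat_lit 265) (nat_lit 173)) (XT.nd (nat_lit 78) (nat_lit 0) (nat_lit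 0) (XT.lf (nat_lit 0) (nat_lit 35999751414) (nat_lit 152) (nat_lit 1838176869) (nat_lit 228) (nat_lit 25811642734) (nat_lit 19) (nat_lit 5) (nat_lit 21) (nat_lit 5) (nat_lit 22) (nat_lit 5) (nat_lit 283) (nat_lit 265) (nat_lit 172)) (XT.lf (nat_lit 0) (nat_lit 48288510080) (nat_lit 228) (nat_lit 1179102086) (nat_lit 76) (nat_lit 17612245442) (nat_lit 19) (nat_lit 5) (nat_lit 22) (nat_lit 5) (nat_lit 20) (nat_lit 5) (nat_lit 284) (nat_lit 265) (nat_lit 171)))) (XT.nd (nat_lit 78) (nat_lit 152) (nat_lit 0) (XT.lf (nat_lit 0) (nat_lit 28799069509) (nat_lit 152) (nat_lit 31514171873) (nat_lit 228) (nat_lit 10412287397) (nat_lit 17) (nat_lit 5) (nat_lit 19) (nat_lit 5) (nat_lit 20) (nat_lit 5) (nat_lit 285) (nat_lit 265) (nat_lit 170)) (XT.nd (nat_lit 78) (nat_lit 152) (nat_lit 0) (XT.lf (nat_lit 0) (nat_lit 61239525448) (nat_lit 152) (nat_lit 12090498924) (nat_lit 228) (nat_lit 1330432573)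 (nat_lit 17) (nat_lit 5) (nat_lit 19) (nat_lit 5) (nat_lit 20) (nat_lit 5) (nat_lit 286) (nat_lit 265) (nat_lit 169)) (XT.lf (nat_lit 0) (nat_lit 8716480763) (nat_lit 152) (nat_lit 61027835993) (nat_lit 76) (nat_lit 9096549822) (nat_lit 15) (nat_lit 5) (nat_lit 17) (nat_lit 5) (nat_lit 16) (nat_lit 5) (nat_lit 287) (nat_lit 265) (nat_lit 168)))))) (XT.nd (nat_lit 468) (nat_lit 304) (nat_lit 0) (XT.nd (nat_lit 234) (nat_lit 76) (nat_lit 0) (XT.nd (nat_lit 78) (nat_lit 152) (nat_lit 0) (XT.lf (nat_lit 0) (nat_lit 20183789973) (nat_lit 152) (nat_lit 31378499252) (nat_lit 76) (nat_lit 31735580834) (nat_lit 15) (nat_lit 5) (nat_lit 17) (nat_lit 5) (nat_lit 16) (nat_lit 5) (nat_lit 288) (nat_lit 265) (nat_lit 167)) (XT.nd (nat_lit 78) (nat_lit 0) (nat_lit 0) (XT.lf (nat_lit 0) (nat_lit 673718510) (nat_lit 152) (nat_lit 31909115129) (nat_lit 228) (nat_lit 55527458930) (nat_lit 13) (nat_lit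 5) (nat_lit 15) (nat_lit 5) (nat_lit 16) (nat_lit 5) (nat_lit 289) (nat_lit 265) (nat_lit 166)) (XT.lf (nat_lit 0) (nat_lit 37071938781) (nat_lit 152) (nat_lit 9758024960) (nat_lit 228) (nat_lit 46409258337) (nat_lit 13) (nat_lit 5) (nat_lit 15) (nat_lit 5) (nat_lit 16) (nat_lit 5) (nat_lit 290) (nat_lit 265) (nat_lit 165)))) (XT.nd (nat_lit 78) (nat_lit 76) (nat_lit 0) (XT.lf (nat_lit 0) (nat_lit 62555867161) (nat_lit 228) (nat_lit 22739736911) (nat_lit 76) (nat_lit 13455747412) (nat_lit 13) (nat_lit 5) (nat_lit 16) (nat_lit 5) (nat_lit 14) (nat_lit 4) (nat_lit 291) (nat_lit 265) (nat_lit 164)) (XT.nd (nat_lit 78) (nat_lit 0) (nat_lit 0) (XT.lf (nat_lit 0) (nat_lit 13796282258) (nat_lit 76) (nat_lit 66327271020) (nat_lit 152) (nat_lit 24534206473) (nat_lit 12) (nat_lit 5) (nat_lit 13) (nat_lit 5) (nat_lit 14) (nat_lit 4) (nat_lit 292) (nat_lit 265) (nat_lit 163)) (XT.lf (nat_lit 0)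 (nat_lit 54546051606) (nat_lit 76) (nat_lit 45170859422) (nat_lit 152) (nat_lit 11270154059) (nat_lit 12) (nat_lit 5) (nat_lit 13) (nat_lit 5) (nat_lit 14) (nat_lit 4) (nat_lit 293) (nat_lit 265) (nat_lit 162))))) (XT.nd (nat_lit 234) (nat_lit 76) (nat_lit 0) (XT.nd (nat_lit 78) (nat_lit 152) (nat_lit 0) (XT.lf (nat_lit 0) (nat_lit 2900780068) (nat_lit 152) (nat_lit 19342650119) (nat_lit 76) (nat_lit 95573524466) (nat_lit 11) (nat_lit 5) (nat_lit 13) (nat_lit 5) (nat_lit 12) (nat_lit 5) (nat_lit 294) (nat_lit 265) (nat_lit 161)) (XT.nd (nat_lit 78) (nat_lit 0) (nat_lit 0) (XT.lf (nat_lit 0) (nat_lit 18193959193) (nat_lit 228) (nat_lit 103705635287) (nat_lit 76) (nat_lit 3222430223) (nat_lit 9) (nat_lit 5) (nat_lit 12) (nat_lit 5) (nat_lit 10) (nat_lit 4) (nat_lit 295) (nat_lit 265) (nat_lit 160)) (XT.lf (nat_lit 0) (nat_lit 35829659615) (nat_lit 228) (nat_lit 67026623399) (nat_lit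 76) (nat_lit 30065695622) (nat_lit 9) (nat_lit 5) (nat_lit 12) (nat_lit 5) (nat_lit 10) (nat_lit 4) (nat_lit 296) (nat_lit 265) (nat_lit 159)))) (XT.nd (nat_lit 156) (nat_lit 0) (nat_lit 0) (XT.nd (nat_lit 78) (nat_lit 76) (nat_lit 0) (XT.lf (nat_lit 0) (nat_lit 54875027661) (nat_lit 228) (nat_lit 27415262482) (nat_lit 76) (nat_lit 59055737179) (nat_lit 9) (nat_lit 5) (nat_lit 12) (nat_lit 5) (nat_lit 10) (nat_lit 4) (nat_lit 297) (nat_lit 265) (nat_lit 158)) (XT.lf (nat_lit 0) (nat_lit 16172179362) (nat_lit 76) (nat_lit 59659686713) (nat_lit 152) (nat_lit 74581109674) (nat_lit 8) (nat_lit 5) (nat_lit 9) (nat_lit 5) (nat_lit 10) (nat_lit 4) (nat_lit 298) (nat_lit 265) (nat_lit 157))) (XT.nd (nat_lit 78) (nat_lit 0) (nat_lit 0) (XT.lf (nat_lit 0) (nat_lit 64803967195) (nat_lit 76) (nat_lit 34409804558) (nat_lit 152) (nat_lit 60931629567) (nat_lit 8) (nat_lit 5) (nat_lit 9) (nat_lit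 5) (nat_lit 10) (nat_lit 4) (nat_lit 299) (nat_lit 265) (nat_lit 156)) (XT.lf (nat_lit 0) (nat_lit 117324650249) (nat_lit 76) (nat_lit 7140596609) (nat_lit 152) (nat_lit 46191255393) (nat_lit 8) (nat_lit 5) (nat_lit 9) (nat_lit 5) (nat_lit 10) (nat_lit 4) (nat_lit 300) (nat_lit 265) (nat_lit 155))))))))
noncomputable def xc93 : XT := (XT.nd (nat_lit 1950) (nat_lit 76) (nat_lit 0) (XT.nd (nat_lit 936) (nat_lit 152) (nat_lit 0) (XT.nd (nat_lit 468) (nat_lit 76) (nat_lit 0) (XT.nd (nat_lit 234) (nat_lit 76) (nat_lit 0) (XT.nd (nat_lit 78) (nat_lit 152) (nat_lit 0) (XT.lf (nat_lit 0) (nat_lit 152272474553) (nat_lit 152) (nat_lit 8499649140) (nat_lit 0) (nat_lit 21193519273) (nat_lit 8) (nat_lit 5) (nat_lit 10) (nat_lit 4) (nat_lit 8) (nat_lit 4) (nat_lit 301) (nat_lit 265) (nat_lit 154)) (XT.nd (nat_lit 78) (nat_lit 76) (nat_lit 0) (XT.lf (nat_lit 0) (nat_lit 41824417951) (nat_lit 76)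 (nat_lit 141670354316) (nat_lit 76) (nat_lit 10589505616) (nat_lit 7) (nat_lit 4) (nat_lit 8) (nat_lit 5) (nat_lit 8) (nat_lit 4) (nat_lit 302) (nat_lit 265) (nat_lit 153)) (XT.lf (nat_lit 0) (nat_lit 9777666900) (nat_lit 152) (nat_lit 110745054714) (nat_lit 76) (nat_lit 86611355795) (nat_lit 6) (nat_lit 5) (nat_lit 8) (nat_lit 5) (nat_lit 7) (nat_lit 4) (nat_lit 303) (nat_lit 265) (nat_lit 152)))) (XT.nd (nat_lit 78) (nat_lit 76) (nat_lit 0) (XT.lf (nat_lit 0) (nat_lit 31201316911) (nat_lit 152) (nat_lit 66185485992) (nat_lit 76) (nat_lit 123819118678) (nat_lit 6) (nat_lit 5) (nat_lit 8) (nat_lit 5) (nat_lit 7) (nat_lit 4) (nat_lit 304) (nat_lit 265) (nat_lit 151)) (XT.nd (nat_lit 78) (nat_lit 76) (nat_lit 0) (XT.lf (nat_lit 0) (nat_lit 54338129339) (nat_lit 152) (nat_lit 18062419201) (nat_lit 76) (nat_lit 164003024801) (nat_lit 6) (nat_lit 5) (nat_lit 8) (nat_lit 5) (nat_lit 7) (nat_lit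 4) (nat_lit 305) (nat_lit 265) (nat_lit 150)) (XT.lf (nat_lit 0) (nat_lit 35694924055) (nat_lit 76) (nat_lit 44488750946) (nat_lit 152) (nat_lit 172564740740) (nat_lit 5) (nat_lit 5) (nat_lit 6) (nat_lit 5) (nat_lit 7) (nat_lit 4) (nat_lit 306) (nat_lit 265) (nat_lit 149))))) (XT.nd (nat_lit 234) (nat_lit 76) (nat_lit 0) (XT.nd (nat_lit 78) (nat_lit 0) (nat_lit 0) (XT.lf (nat_lit 0) (nat_lit 94778936723) (nat_lit 76) (nat_lit 13811133133) (nat_lit 152) (nat_lit 161771320678) (nat_lit 5) (nat_lit 5) (nat_lit 6) (nat_lit 5) (nat_lit 7) (nat_lit 4) (nat_lit 307) (nat_lit 265) (nat_lit 148)) (XT.nd (nat_lit 78) (nat_lit 0) (nat_lit 0) (XT.lf (nat_lit 0) (nat_lit 139733023888) (nat_lit 152) (nat_lit 131259493948) (nat_lit 0) (nat_lit 18353763004) (nat_lit 5) (nat_lit 5) (nat_lit 7) (nat_lit 4) (nat_lit 5) (nat_lit 4) (nat_lit 308) (nat_lit 265) (nat_lit 147)) (XT.lf (nat_lit 0) (nat_lit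 173725575001) (nat_lit 152) (nat_lit 83750444586) (nat_lit 0) (nat_lit 52345291161) (nat_lit 5) (nat_lit 5) (nat_lit 7) (nat_lit 4) (nat_lit 5) (nat_lit 4) (nat_lit 309) (nat_lit 265) (nat_lit 146)))) (XT.nd (nat_lit 78) (nat_lit 76) (nat_lit 0) (XT.lf (nat_lit 0) (nat_lit 210437002451) (nat_lit 152) (nat_lit 32441612533) (nat_lit 0) (nat_lit 89055771430) (nat_lit 5) (nat_lit 5) (nat_lit 7) (nat_lit 4) (nat_lit 5) (nat_lit 4) (nat_lit 310) (nat_lit 265) (nat_lit 145)) (XT.nd (nat_lit 78) (nat_lit 0) (nat_lit 0) (XT.lf (nat_lit 0) (nat_lit 24180669572) (nat_lit 76) (nat_lit 226485731552) (nat_lit 76) (nat_lit 105103623511) (nat_lit 4) (nat_lit 4) (nat_lit 5) (nat_lit 5) (nat_lit 5) (nat_lit 4) (nat_lit 311) (nat_lit 265) (nat_lit 144)) (XT.lf (nat_lit 0) (nat_lit 87176868024) (nat_lit 76) (nat_lit 207823821951) (nat_lit 76) (nat_lit 86440901855) (nat_lit 4) (nat_lit 4) (nat_lit 5) (nat_lit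 5) (nat_lit 5) (nat_lit 4) (nat_lit 312) (nat_lit 265) (nat_lit 143)))))) (XT.nd (nat_lit 468) (nat_lit 76) (nat_lit 0) (XT.nd (nat_lit 234) (nat_lit 76) (nat_lit 0) (XT.nd (nat_lit 78) (nat_lit 0) (nat_lit 0) (XT.lf (nat_lit 0) (nat_lit 155211975806) (nat_lit 76) (nat_lit 187669308268) (nat_lit 76) (nat_lit 66285636268) (nat_lit 4) (nat_lit 4) (nat_lit 5) (nat_lit 5) (nat_lit 5) (nat_lit 4) (nat_lit 313) (nat_lit 265) (nat_lit 142)) (XT.nd (nat_lit 78) (nat_lit 0) (nat_lit 0) (XT.lf (nat_lit 0) (nat_lit 228689163925) (nat_lit 76) (nat_lit 165902756347) (nat_lit 76) (nat_lit 44518388140) (nat_lit 4) (nat_lit 4) (nat_lit 5) (nat_lit 5) (nat_lit 5) (nat_lit 4) (nat_lit 314) (nat_lit 265) (nat_lit 141)) (XT.lf (nat_lit 0) (nat_lit 308043852755) (nat_lit 76) (nat_lit 142395179213) (nat_lit 76) (nat_lit 21010166370) (nat_lit 4) (nat_lit 4) (nat_lit 5) (nat_lit 5) (nat_lit 5) (nat_lit 4)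 (nat_lit 315) (nat_lit 265) (nat_lit 140)))) (XT.nd (nat_lit 78) (nat_lit 0) (nat_lit 0) (XT.lf (nat_lit 0) (nat_lit 4159314871) (nat_lit 152) (nat_lit 112734234795) (nat_lit 76) (nat_lit 389473254395) (nat_lit 3) (nat_lit 5) (nat_lit 5) (nat_lit 5) (nat_lit 4) (nat_lit 4) (nat_lit 316) (nat_lit 265) (nat_lit 139)) (XT.nd (nat_lit 78) (nat_lit 0) (nat_lit 0) (XT.lf (nat_lit 0) (nat_lit 30206929073) (nat_lit 152) (nat_lit 58555749926) (nat_lit 76) (nat_lit 455271508838) (nat_lit 3) (nat_lit 5) (nat_lit 5) (nat_lit 5) (nat_lit 4) (nat_lit 4) (nat_lit 317) (nat_lit 265) (nat_lit 138)) (XT.lf (nat_lit 0) (nat_lit 58338046080) (nat_lit 152) (nat_lit 43538283) (nat_lit 76) (nat_lit 526333403032) (nat_lit 3) (nat_lit 5) (nat_lit 5) (nat_lit 5) (nat_lit 4) (nat_lit 4) (nat_lit 318) (nat_lit 265) (nat_lit 137))))) (XT.nd (nat_lit 234) (nat_lit 0) (nat_lit 0) (XT.nd (nat_lit 78) (nat_lit 0)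 (nat_lit 0) (XT.lf (nat_lit 0) (nat_lit 66474460923) (nat_lit 76) (nat_lit 23843620269) (nat_lit 152) (nat_lit 538204295959) (nat_lit 2) (nat_lit 5) (nat_lit 3) (nat_lit 5) (nat_lit 4) (nat_lit 4) (nat_lit 319) (nat_lit 265) (nat_lit 136)) (XT.nd (nat_lit 78) (nat_lit 0) (nat_lit 0) (XT.lf (nat_lit 0) (nat_lit 125181110796) (nat_lit 152) (nat_lit 537842083251) (nat_lit 0) (nat_lit 12785197197) (nat_lit 2) (nat_lit 5) (nat_lit 4) (nat_lit 4) (nat_lit 2) (nat_lit 4) (nat_lit 320) (nat_lit 265) (nat_lit 135)) (XT.lf (nat_lit 0) (nat_lit 163452238331) (nat_lit 152) (nat_lit 512319575548) (nat_lit 0) (nat_lit 51055948594) (nat_lit 2) (nat_lit 5) (nat_lit 4) (nat_lit 4) (nat_lit 2) (nat_lit 4) (nat_lit 321) (nat_lit 265) (nat_lit 134)))) (XT.nd (nat_lit 156) (nat_lit 0) (nat_lit 0) (XT.nd (nat_lit 78) (nat_lit 0) (nat_lit 0) (XT.lf (nat_lit 0) (nat_lit 204784816026) (nat_lit 152) (nat_lit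 484755708989) (nat_lit 0) (nat_lit 92388178012) (nat_lit 2) (nat_lit 5) (nat_lit 4) (nat_lit 4) (nat_lit 2) (nat_lit 4) (nat_lit 322) (nat_lit 265) (nat_lit 133)) (XT.lf (nat_lit 0) (nat_lit 249423777673) (nat_lit 152) (nat_lit 454987142142) (nat_lit 0) (nat_lit 137026817181) (nat_lit 2) (nat_lit 5) (nat_lit 4) (nat_lit 4) (nat_lit 2) (nat_lit 4) (nat_lit 323) (nat_lit 265) (nat_lit 132))) (XT.nd (nat_lit 78) (nat_lit 0) (nat_lit 0) (XT.lf (nat_lit 0) (nat_lit 297633650453) (nat_lit 152) (nat_lit 422837468685) (nat_lit 0) (nat_lit 185236391369) (nat_lit 2) (nat_lit 5) (nat_lit 4) (nat_lit 4) (nat_lit 2) (nat_lit 4) (nat_lit 324) (nat_lit 265) (nat_lit 131)) (XT.lf (nat_lit 0) (nat_lit 349700122500) (nat_lit 152) (nat_lit 388116172036) (nat_lit 0) (nat_lit 237302586943) (nat_lit 2) (nat_lit 5) (nat_lit 4) (nat_lit 4) (nat_lit 2) (nat_lit 4) (nat_lit 325) (nat_lit 265) (nat_lit 130)))))))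 (XT.nd (nat_lit 33072) (nat_lit 0) (nat_lit 1520) (XT.nd (nat_lit 468) (nat_lit 76) (nat_lit 0) (XT.nd (nat_lit 234) (nat_lit 0) (nat_lit 0) (XT.nd (nat_lit 78) (nat_lit 0) (nat_lit 0) (XT.lf (nat_lit 0) (nat_lit 405931735871) (nat_lit 152) (nat_lit 350617496361) (nat_lit 0) (nat_lit 293533944321) (nat_lit 2) (nat_lit 5) (nat_lit 4) (nat_lit 4) (nat_lit 2) (nat_lit 4) (nat_lit 326) (nat_lit 265) (nat_lit 129)) (XT.nd (nat_lit 78) (nat_lit 0) (nat_lit 0) (XT.lf (nat_lit 0) (nat_lit 466661714942) (nat_lit 152) (nat_lit 310119227287) (nat_lit 0) (nat_lit 354263686361) (nat_lit 2) (nat_lit 5) (nat_lit 4) (nat_lit 4) (nat_lit 2) (nat_lit 4) (nat_lit 327) (nat_lit 265) (nat_lit 128)) (XT.lf (nat_lit 0) (nat_lit 532249941070) (nat_lit 152) (nat_lit 266381375071) (nat_lit 0) (nat_lit 419851693015) (nat_lit 2) (nat_lit 5) (nat_lit 4) (nat_lit 4) (nat_lit 2) (nat_lit 4) (nat_lit 328) (nat_lit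 265) (nat_lit 127)))) (XT.nd (nat_lit 78) (nat_lit 0) (nat_lit 0) (XT.lf (nat_lit 0) (nat_lit 603085085225) (nat_lit 152) (nat_lit 219144752440) (nat_lit 0) (nat_lit 490686633954) (nat_lit 2) (nat_lit 5) (nat_lit 4) (nat_lit 4) (nat_lit 2) (nat_lit 4) (nat_lit 329) (nat_lit 265) (nat_lit 126)) (XT.nd (nat_lit 78) (nat_lit 0) (nat_lit 0) (XT.lf (nat_lit 0) (nat_lit 679586911224) (nat_lit 152) (nat_lit 168129438668) (nat_lit 0) (nat_lit 567188271790) (nat_lit 2) (nat_lit 5) (nat_lit 4) (nat_lit 4) (nat_lit 2) (nat_lit 4) (nat_lit 330) (nat_lit 265) (nat_lit 125)) (XT.lf (nat_lit 0) (nat_lit 762208763222) (nat_lit 152) (nat_lit 113033120784) (nat_lit 0) (nat_lit 649809949562) (nat_lit 2) (nat_lit 5) (nat_lit 4) (nat_lit 4) (nat_lit 2) (nat_lit 4) (nat_lit 331) (nat_lit 265) (nat_lit 124))))) (XT.nd (nat_lit 32370) (nat_lit 0) (nat_lit 2432) (XT.nd (nat_lit 78) (nat_lit 76) (nat_lit 0)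 (XT.lf (nat_lit 0) (nat_lit 851440252191) (nat_lit 152) (nat_lit 53529302090) (nat_lit 0) (nat_lit 739041277213) (nat_lit 2) (nat_lit 5) (nat_lit 4) (nat_lit 4) (nat_lit 2) (nat_lit 4) (nat_lit 332) (nat_lit 265) (nat_lit 123)) (XT.nd (nat_lit 78) (nat_lit 0) (nat_lit 0) (XT.lf (nat_lit 0) (nat_lit 11299899366) (nat_lit 76) (nat_lit 936782020813) (nat_lit 76) (nat_lit 824382896464) (nat_lit 1) (nat_lit 4) (nat_lit 2) (nat_lit 5) (nat_lit 2) (nat_lit 4) (nat_lit 333) (nat_lit 265) (nat_lit 122)) (XT.lf (nat_lit 0) (nat_lit 84359511114) (nat_lit 76) (nat_lit 969558896707) (nat_lit 76) (nat_lit 857159634053) (nat_lit 1) (nat_lit 4) (nat_lit 2) (nat_lit 5) (nat_lit 2) (nat_lit 4) (nat_lit 334) (nat_lit 265) (nat_lit 121)))) (XT.nd (nat_lit 78) (nat_lit 0) (nat_lit 0) (XT.lf (nat_lit 0) (nat_lit 4451703387) (nat_lit 532) (nat_lit 5380136083) (nat_lit 532) (nat_lit 5380136083) (nat_lit 33)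 (nat_lit 3) (nat_lit 40) (nat_lit 3) (nat_lit 40) (nat_lit 5) (nat_lit 266) (nat_lit 266) (nat_lit 188)) (XT.nd (nat_lit 78) (nat_lit 0) (nat_lit 76) (XT.lf (nat_lit 76) (nat_lit 2157081652) (nat_lit 0) (nat_lit 7217185310) (nat_lit 532) (nat_lit 22257098562) (nat_lit 34) (nat_lit 5) (nat_lit 33) (nat_lit 3) (nat_lit 40) (nat_lit 5) (nat_lit 267) (nat_lit 266) (nat_lit 187)) (XT.lf (nat_lit 0) (nat_lit 10328047458) (nat_lit 456) (nat_lit 16353627221) (nat_lit 532) (nat_lit 6218114884) (nat_lit 34) (nat_lit 5) (nat_lit 40) (nat_lit 5) (nat_lit 41) (nat_lit 5) (nat_lit 268) (nat_lit 266) (nat_lit 186)))))) (XT.nd (nat_lit 468) (nat_lit 684) (nat_lit 0) (XT.nd (nat_lit 234) (nat_lit 304) (nat_lit 0) (XT.nd (nat_lit 78) (nat_lit 0) (nat_lit 76) (XT.lf (nat_lit 0) (nat_lit 11539749775) (nat_lit 456) (nat_lit 2374672542) (nat_lit 532) (nat_lit 20340769534) (nat_lit 34) (nat_lit 5) (nat_lit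 40) (nat_lit 5) (nat_lit 41) (nat_lit 5) (nat_lit 269) (nat_lit 266) (nat_lit 185)) (XT.nd (nat_lit 78) (nat_lit 0) (nat_lit 0) (XT.lf (nat_lit 0) (nat_lit 13170362382) (nat_lit 456) (nat_lit 22310360525) (nat_lit 532) (nat_lit 212576858) (nat_lit 35) (nat_lit 5) (nat_lit 41) (nat_lit 5) (nat_lit 42) (nat_lit 5) (nat_lit 270) (nat_lit 266) (nat_lit 184)) (XT.lf (nat_lit 0) (nat_lit 15354398277) (nat_lit 456) (nat_lit 7072141967) (nat_lit 532) (nat_lit 14786107171) (nat_lit 35) (nat_lit 5) (nat_lit 41) (nat_lit 5) (nat_lit 42) (nat_lit 5) (nat_lit 271) (nat_lit 266) (nat_lit 183)))) (XT.nd (nat_lit 78) (nat_lit 380) (nat_lit 0) (XT.lf (nat_lit 76) (nat_lit 9875450036) (nat_lit 0) (nat_lit 8070532675) (nat_lit 532) (nat_lit 20888961007) (nat_lit 36) (nat_lit 5) (nat_lit 35) (nat_lit 5) (nat_lit 42) (nat_lit 5) (nat_lit 272) (nat_lit 266) (nat_lit 182)) (XT.nd (nat_lit 78) (nat_lit 456)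 (nat_lit 0) (XT.lf (nat_lit 0) (nat_lit 21117668621) (nat_lit 456) (nat_lit 12178314073) (nat_lit 76) (nat_lit 7261243954) (nat_lit 36) (nat_lit 5) (nat_lit 42) (nat_lit 5) (nat_lit 37) (nat_lit 5) (nat_lit 273) (nat_lit 266) (nat_lit 181)) (XT.lf (nat_lit 0) (nat_lit 6033871939) (nat_lit 456) (nat_lit 18859882893) (nat_lit 532) (nat_lit 17495507206) (nat_lit 30) (nat_lit 5) (nat_lit 36) (nat_lit 5) (nat_lit 37) (nat_lit 5) (nat_lit 274) (nat_lit 266) (nat_lit 180))))) (XT.nd (nat_lit 234) (nat_lit 456) (nat_lit 0) (XT.nd (nat_lit 78) (nat_lit 228) (nat_lit 0) (XT.lf (nat_lit 0) (nat_lit 26392015628) (nat_lit 456) (nat_lit 2909030395) (nat_lit 532) (nat_lit 15040506137) (nat_lit 30) (nat_lit 5) (nat_lit 36) (nat_lit 5) (nat_lit 37) (nat_lit 5) (nat_lit 275) (nat_lit 266) (nat_lit 179)) (XT.nd (nat_lit 78) (nat_lit 0) (nat_lit 0) (XT.lf (nat_lit 0) (nat_lit 1664028601) (nat_lit 228)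 (nat_lit 32777690223) (nat_lit 304) (nat_lit 11977862571) (nat_lit 27) (nat_lit 5) (nat_lit 30) (nat_lit 5) (nat_lit 31) (nat_lit 5) (nat_lit 276) (nat_lit 266) (nat_lit 178)) (XT.lf (nat_lit 0) (nat_lit 23784386858) (nat_lit 228) (nat_lit 16770288469) (nat_lit 304) (nat_lit 8064313557) (nat_lit 27) (nat_lit 5) (nat_lit 30) (nat_lit 5) (nat_lit 31) (nat_lit 5) (nat_lit 277) (nat_lit 266) (nat_lit 177)))) (XT.nd (nat_lit 156) (nat_lit 228) (nat_lit 0) (XT.nd (nat_lit 78) (nat_lit 228) (nat_lit 0) (XT.lf (nat_lit 0) (nat_lit 47165977766) (nat_lit 304) (nat_lit 3335986540) (nat_lit 76) (nat_lit 491656859) (nat_lit 27) (nat_lit 5) (nat_lit 31) (nat_lit 5) (nat_lit 28) (nat_lit 5) (nat_lit 278) (nat_lit 266) (nat_lit 176)) (XT.lf (nat_lit 0) (nat_lit 1659480510) (nat_lit 228) (nat_lit 33058761155) (nat_lit 76) (nat_lit 18762642924) (nat_lit 24) (nat_lit 5) (nat_lit 27) (nat_lit 5) (nat_lit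 25) (nat_lit 5) (nat_lit 279) (nat_lit 266) (nat_lit 175))) (XT.nd (nat_lit 78) (nat_lit 228) (nat_lit 0) (XT.lf (nat_lit 0) (nat_lit 7469506793) (nat_lit 228) (nat_lit 9994395047) (nat_lit 76) (nat_lit 38688029188) (nat_lit 24) (nat_lit 5) (nat_lit 27) (nat_lit 5) (nat_lit 25) (nat_lit 5) (nat_lit 280) (nat_lit 266) (nat_lit 174)) (XT.lf (nat_lit 0) (nat_lit 14157160770) (nat_lit 304) (nat_lit 43347402727) (nat_lit 76) (nat_lit 1499084093) (nat_lit 21) (nat_lit 5) (nat_lit 25) (nat_lit 5) (nat_lit 22) (nat_lit 5) (nat_lit 281) (nat_lit 266) (nat_lit 173))))))))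
noncomputable def xc94 : XT := (XT.nd (nat_lit 1950) (nat_lit 304) (nat_lit 0) (XT.nd (nat_lit 936) (nat_lit 456) (nat_lit 0) (XT.nd (nat_lit 468) (nat_lit 380) (nat_lit 0) (XT.nd (nat_lit 234) (nat_lit 152) (nat_lit 0) (XT.nd (nat_lit 78) (nat_lit 152) (nat_lit 0) (XT.lf (nat_lit 0) (nat_lit 22111262395) (nat_lit 304) (nat_lit 18598268377) (nat_lit 76) (nat_lit 21315467415) (nat_lit 21) (nat_lit 5) (nat_lit 25) (nat_lit 5) (nat_lit 22) (nat_lit 5) (nat_lit 282) (nat_lit 266) (nat_lit 172)) (XT.nd (nat_lit 78) (nat_lit 0) (nat_lit 0) (XT.lf (nat_lit 0) (nat_lit 8555783800) (nat_lit 152) (nat_lit 22349328155) (nat_lit 228) (nat_lit 34366681972) (nat_lit 19) (nat_lit 5) (nat_lit 21) (nat_lit 5) (nat_lit 22) (nat_lit 5) (nat_lit 283) (nat_lit 266) (nat_lit 171)) (XT.lf (nat_lit 0) (nat_lit 38936928425) (nat_lit 152) (nat_lit 1971807013) (nat_lit 228) (nat_lit 27829106499) (nat_lit 19)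 (nat_lit 5) (nat_lit 21) (nat_lit 5) (nat_lit 22) (nat_lit 5) (nat_lit 284) (nat_lit 266) (nat_lit 170)))) (XT.nd (nat_lit 78) (nat_lit 152) (nat_lit 0) (XT.lf (nat_lit 0) (nat_lit 52192420276) (nat_lit 228) (nat_lit 1217348020) (nat_lit 76) (nat_lit 19033032931) (nat_lit 19) (nat_lit 5) (nat_lit 22) (nat_lit 5) (nat_lit 20) (nat_lit 5) (nat_lit 285) (nat_lit 266) (nat_lit 169)) (XT.nd (nat_lit 78) (nat_lit 0) (nat_lit 0) (XT.lf (nat_lit 0) (nat_lit 31157657499) (nat_lit 152) (nat_lit 34019762817) (nat_lit 228) (nat_lit 11202855790) (nat_lit 17) (nat_lit 5) (nat_lit 19) (nat_lit 5) (nat_lit 20) (nat_lit 5) (nat_lit 286) (nat_lit 266) (nat_lit 168)) (XT.lf (nat_lit 0) (nat_lit 66189300844) (nat_lit 152) (nat_lit 13043347351) (nat_lit 228) (nat_lit 1397594402) (nat_lit 17) (nat_lit 5) (nat_lit 19) (nat_lit 5) (nat_lit 20) (nat_lit 5) (nat_lit 287) (nat_lit 266) (nat_lit 167))))) (XT.nd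 (nat_lit 234) (nat_lit 76) (nat_lit 0) (XT.nd (nat_lit 78) (nat_lit 152) (nat_lit 0) (XT.lf (nat_lit 0) (nat_lit 9449954952) (nat_lit 152) (nat_lit 65856059350) (nat_lit 76) (nat_lit 9839097840) (nat_lit 15) (nat_lit 5) (nat_lit 17) (nat_lit 5) (nat_lit 16) (nat_lit 5) (nat_lit 288) (nat_lit 266) (nat_lit 166)) (XT.nd (nat_lit 78) (nat_lit 152) (nat_lit 0) (XT.lf (nat_lit 0) (nat_lit 21831970696) (nat_lit 152) (nat_lit 33838775930) (nat_lit 76) (nat_lit 34288153256) (nat_lit 15) (nat_lit 5) (nat_lit 17) (nat_lit 5) (nat_lit 16) (nat_lit 5) (nat_lit 289) (nat_lit 266) (nat_lit 165)) (XT.lf (nat_lit 0) (nat_lit 776353347) (nat_lit 152) (nat_lit 34445276827) (nat_lit 228) (nat_lit 59934799641) (nat_lit 13) (nat_lit 5) (nat_lit 15) (nat_lit 5) (nat_lit 16) (nat_lit 5) (nat_lit 290) (nat_lit 266) (nat_lit 164)))) (XT.nd (nat_lit 78) (nat_lit 76) (nat_lit 0) (XT.lf (nat_lit 0) (nat_lit 40082821065)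 (nat_lit 152) (nat_lit 10523326667) (nat_lit 228) (nat_lit 50089724927) (nat_lit 13) (nat_lit 5) (nat_lit 15) (nat_lit 5) (nat_lit 16) (nat_lit 5) (nat_lit 291) (nat_lit 266) (nat_lit 163)) (XT.nd (nat_lit 78) (nat_lit 76) (nat_lit 0) (XT.lf (nat_lit 0) (nat_lit 67588258596) (nat_lit 228) (nat_lit 24515170093) (nat_lit 76) (nat_lit 14545700636) (nat_lit 13) (nat_lit 5) (nat_lit 16) (nat_lit 5) (nat_lit 14) (nat_lit 4) (nat_lit 292) (nat_lit 266) (nat_lit 162)) (XT.lf (nat_lit 0) (nat_lit 14942623121) (nat_lit 76) (nat_lit 71617693632) (nat_lit 152) (nat_lit 26467824078) (nat_lit 12) (nat_lit 5) (nat_lit 13) (nat_lit 5) (nat_lit 14) (nat_lit 4) (nat_lit 293) (nat_lit 266) (nat_lit 161)))))) (XT.nd (nat_lit 468) (nat_lit 152) (nat_lit 0) (XT.nd (nat_lit 234) (nat_lit 76) (nat_lit 0) (XT.nd (nat_lit 78) (nat_lit 228) (nat_lit 0) (XT.lf (nat_lit 0) (nat_lit 58949215626) (nat_lit 76) (nat_lit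 48769936444) (nat_lit 152) (nat_lit 12144804427) (nat_lit 12) (nat_lit 5) (nat_lit 13) (nat_lit 5) (nat_lit 14) (nat_lit 4) (nat_lit 294) (nat_lit 266) (nat_lit 160)) (XT.nd (nat_lit 78) (nat_lit 152) (nat_lit 0) (XT.lf (nat_lit 0) (nat_lit 3156558409) (nat_lit 152) (nat_lit 20852186894) (nat_lit 76) (nat_lit 103231597507) (nat_lit 11) (nat_lit 5) (nat_lit 13) (nat_lit 5) (nat_lit 12) (nat_lit 5) (nat_lit 295) (nat_lit 266) (nat_lit 159)) (XT.lf (nat_lit 0) (nat_lit 19672661335) (nat_lit 228) (nat_lit 111963614663) (nat_lit 76) (nat_lit 3493590164) (nat_lit 9) (nat_lit 5) (nat_lit 12) (nat_lit 5) (nat_lit 10) (nat_lit 4) (nat_lit 296) (nat_lit 266) (nat_lit 158)))) (XT.nd (nat_lit 78) (nat_lit 76) (nat_lit 0) (XT.lf (nat_lit 0) (nat_lit 38717500353) (nat_lit 228) (nat_lit 72353131561) (nat_lit 76) (nat_lit 32483326756) (nat_lit 9) (nat_lit 5) (nat_lit 12) (nat_lit 5) (nat_lit 10) (nat_lit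 4) (nat_lit 297) (nat_lit 266) (nat_lit 157)) (XT.nd (nat_lit 78) (nat_lit 76) (nat_lit 0) (XT.lf (nat_lit 0) (nat_lit 59284907623) (nat_lit 228) (nat_lit 29575500416) (nat_lit 76) (nat_lit 63791654936) (nat_lit 9) (nat_lit 5) (nat_lit 12) (nat_lit 5) (nat_lit 10) (nat_lit 4) (nat_lit 298) (nat_lit 266) (nat_lit 156)) (XT.lf (nat_lit 0) (nat_lit 17498101762) (nat_lit 76) (nat_lit 64419492083) (nat_lit 152) (nat_lit 80526833542) (nat_lit 8) (nat_lit 5) (nat_lit 9) (nat_lit 5) (nat_lit 10) (nat_lit 4) (nat_lit 299) (nat_lit 266) (nat_lit 155))))) (XT.nd (nat_lit 234) (nat_lit 152) (nat_lit 0) (XT.nd (nat_lit 78) (nat_lit 0) (nat_lit 0) (XT.lf (nat_lit 0) (nat_lit 70018051285) (nat_lit 76) (nat_lit 37150580065) (nat_lit 152) (nat_lit 65786933167) (nat_lit 8) (nat_lit 5) (nat_lit 9) (nat_lit 5) (nat_lit 10) (nat_lit 4) (nat_lit 300) (nat_lit 266) (nat_lit 154)) (XT.nd (nat_lit 78) (nat_lit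 0) (nat_lit 0) (XT.lf (nat_lit 0) (nat_lit 126738184041) (nat_lit 76) (nat_lit 7700725025) (nat_lit 152) (nat_lit 49868753265) (nat_lit 8) (nat_lit 5) (nat_lit 9) (nat_lit 5) (nat_lit 10) (nat_lit 4) (nat_lit 301) (nat_lit 266) (nat_lit 153)) (XT.lf (nat_lit 0) (nat_lit 164469744627) (nat_lit 152) (nat_lit 9153089170) (nat_lit 0) (nat_lit 22898781444) (nat_lit 8) (nat_lit 5) (nat_lit 10) (nat_lit 4) (nat_lit 8) (nat_lit 4) (nat_lit 302) (nat_lit 266) (nat_lit 152)))) (XT.nd (nat_lit 156) (nat_lit 0) (nat_lit 0) (XT.nd (nat_lit 78) (nat_lit 76) (nat_lit 0) (XT.lf (nat_lit 0) (nat_lit 45196231594) (nat_lit 76) (nat_lit 152993070421) (nat_lit 76) (nat_lit 11420483935) (nat_lit 7) (nat_lit 4) (nat_lit 8) (nat_lit 5) (nat_lit 8) (nat_lit 4) (nat_lit 303) (nat_lit 266) (nat_lit 151)) (XT.lf (nat_lit 0) (nat_lit 10574114173) (nat_lit 152) (nat_lit 119579932062) (nat_lit 76) (nat_lit 93549585793)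 (nat_lit 6) (nat_lit 5) (nat_lit 8) (nat_lit 5) (nat_lit 7) (nat_lit 4) (nat_lit 304) (nat_lit 266) (nat_lit 150))) (XT.nd (nat_lit 78) (nat_lit 0) (nat_lit 0) (XT.lf (nat_lit 0) (nat_lit 33710601821) (nat_lit 152) (nat_lit 71457429475) (nat_lit 76) (nat_lit 133733279223) (nat_lit 6) (nat_lit 5) (nat_lit 8) (nat_lit 5) (nat_lit 7) (nat_lit 4) (nat_lit 305) (nat_lit 266) (nat_lit 149)) (XT.lf (nat_lit 0) (nat_lit 58697382979) (nat_lit 152) (nat_lit 19486213296) (nat_lit 76) (nat_lit 177131258499) (nat_lit 6) (nat_lit 5) (nat_lit 8) (nat_lit 5) (nat_lit 7) (nat_lit 4) (nat_lit 306) (nat_lit 266) (nat_lit 148))))))) (XT.nd (nat_lit 936) (nat_lit 76) (nat_lit 0) (XT.nd (nat_lit 468) (nat_lit 76) (nat_lit 0) (XT.nd (nat_lit 234) (nat_lit 76) (nat_lit 0) (XT.nd (nat_lit 78) (nat_lit 0) (nat_lit 0) (XT.lf (nat_lit 0) (nat_lit 38571180726) (nat_lit 76) (nat_lit 48038984560) (nat_lit 152) (nat_lit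 186357153927) (nat_lit 5) (nat_lit 5) (nat_lit 6) (nat_lit 5) (nat_lit 7) (nat_lit 4) (nat_lit 307) (nat_lit 266) (nat_lit 147)) (XT.nd (nat_lit 78) (nat_lit 0) (nat_lit 0) (XT.lf (nat_lit 0) (nat_lit 102380383834) (nat_lit 76) (nat_lit 14907814097) (nat_lit 152) (nat_lit 174701205895) (nat_lit 5) (nat_lit 5) (nat_lit 6) (nat_lit 5) (nat_lit 7) (nat_lit 4) (nat_lit 308) (nat_lit 266) (nat_lit 146)) (XT.lf (nat_lit 0) (nat_lit 150921962030) (nat_lit 152) (nat_lit 141741889871) (nat_lit 0) (nat_lit 19829285345) (nat_lit 5) (nat_lit 5) (nat_lit 7) (nat_lit 4) (nat_lit 5) (nat_lit 4) (nat_lit 309) (nat_lit 266) (nat_lit 145)))) (XT.nd (nat_lit 78) (nat_lit 76) (nat_lit 0) (XT.lf (nat_lit 0) (nat_lit 187633154548) (nat_lit 152) (nat_lit 90433476826) (nat_lit 0) (nat_lit 56539600844) (nat_lit 5) (nat_lit 5) (nat_lit 7) (nat_lit 4) (nat_lit 5) (nat_lit 4) (nat_lit 310) (nat_lit 266) (nat_lit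 144)) (XT.nd (nat_lit 78) (nat_lit 76) (nat_lit 0) (XT.lf (nat_lit 0) (nat_lit 227280790006) (nat_lit 152) (nat_lit 35021197714) (nat_lit 0) (nat_lit 96186424246) (nat_lit 5) (nat_lit 5) (nat_lit 7) (nat_lit 4) (nat_lit 5) (nat_lit 4) (nat_lit 311) (nat_lit 266) (nat_lit 143)) (XT.lf (nat_lit 0) (nat_lit 26130468381) (nat_lit 76) (nat_lit 244597787366) (nat_lit 76) (nat_lit 113502669703) (nat_lit 4) (nat_lit 4) (nat_lit 5) (nat_lit 5) (nat_lit 5) (nat_lit 4) (nat_lit 312) (nat_lit 266) (nat_lit 142))))) (XT.nd (nat_lit 234) (nat_lit 76) (nat_lit 0) (XT.nd (nat_lit 78) (nat_lit 0) (nat_lit 0) (XT.lf (nat_lit 0) (nat_lit 94165226025) (nat_lit 76) (nat_lit 224443428902) (nat_lit 76) (nat_lit 93347615032) (nat_lit 4) (nat_lit 4) (nat_lit 5) (nat_lit 5) (nat_lit 5) (nat_lit 4) (nat_lit 313) (nat_lit 266) (nat_lit 141)) (XT.nd (nat_lit 78) (nat_lit 0) (nat_lit 0) (XT.lf (nat_lit 0) (nat_lit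 167642089943) (nat_lit 76) (nat_lit 202677020702) (nat_lit 76) (nat_lit 71580562197) (nat_lit 4) (nat_lit 4) (nat_lit 5) (nat_lit 5) (nat_lit 5) (nat_lit 4) (nat_lit 314) (nat_lit 266) (nat_lit 140)) (XT.lf (nat_lit 0) (nat_lit 246996478588) (nat_lit 76) (nat_lit 179169576644) (nat_lit 76) (nat_lit 48072521253) (nat_lit 4) (nat_lit 4) (nat_lit 5) (nat_lit 5) (nat_lit 5) (nat_lit 4) (nat_lit 315) (nat_lit 266) (nat_lit 139)))) (XT.nd (nat_lit 78) (nat_lit 76) (nat_lit 0) (XT.lf (nat_lit 0) (nat_lit 332698640188) (nat_lit 76) (nat_lit 153781793355) (nat_lit 76) (nat_lit 22684185293) (nat_lit 4) (nat_lit 4) (nat_lit 5) (nat_lit 5) (nat_lit 5) (nat_lit 4) (nat_lit 316) (nat_lit 266) (nat_lit 138)) (XT.nd (nat_lit 78) (nat_lit 0) (nat_lit 0) (XT.lf (nat_lit 0) (nat_lit 4498036453) (nat_lit 152) (nat_lit 121742203970) (nat_lit 76) (nat_lit 420635418663) (nat_lit 3) (nat_lit 5) (nat_lit 5)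 (nat_lit 5) (nat_lit 4) (nat_lit 4) (nat_lit 317) (nat_lit 266) (nat_lit 137)) (XT.lf (nat_lit 0) (nat_lit 32629017096) (nat_lit 152) (nat_lit 63230238061) (nat_lit 76) (nat_lit 491697214653) (nat_lit 3) (nat_lit 5) (nat_lit 5) (nat_lit 5) (nat_lit 4) (nat_lit 4) (nat_lit 318) (nat_lit 266) (nat_lit 136)))))) (XT.nd (nat_lit 468) (nat_lit 0) (nat_lit 0) (XT.nd (nat_lit 234) (nat_lit 0) (nat_lit 0) (XT.nd (nat_lit 78) (nat_lit 76) (nat_lit 0) (XT.lf (nat_lit 0) (nat_lit 63010213560) (nat_lit 152) (nat_lit 37788143) (nat_lit 76) (nat_lit 568443765190) (nat_lit 3) (nat_lit 5) (nat_lit 5) (nat_lit 5) (nat_lit 4) (nat_lit 4) (nat_lit 319) (nat_lit 266) (nat_lit 135)) (XT.nd (nat_lit 78) (nat_lit 0) (nat_lit 0) (XT.lf (nat_lit 0) (nat_lit 71801417248) (nat_lit 76) (nat_lit 25747071130) (nat_lit 152) (nat_lit 581255273209) (nat_lit 2) (nat_lit 5) (nat_lit 3) (nat_lit 5) (nat_lit 4) (nat_lit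 4) (nat_lit 320) (nat_lit 266) (nat_lit 134)) (XT.lf (nat_lit 0) (nat_lit 135200282828) (nat_lit 152) (nat_lit 580860831341) (nat_lit 0) (nat_lit 13811565497) (nat_lit 2) (nat_lit 5) (nat_lit 4) (nat_lit 4) (nat_lit 2) (nat_lit 4) (nat_lit 321) (nat_lit 266) (nat_lit 133)))) (XT.nd (nat_lit 78) (nat_lit 0) (nat_lit 0) (XT.lf (nat_lit 0) (nat_lit 176532753666) (nat_lit 152) (nat_lit 553297161435) (nat_lit 0) (nat_lit 55143713856) (nat_lit 2) (nat_lit 5) (nat_lit 4) (nat_lit 4) (nat_lit 2) (nat_lit 4) (nat_lit 322) (nat_lit 266) (nat_lit 132)) (XT.nd (nat_lit 78) (nat_lit 0) (nat_lit 0) (XT.lf (nat_lit 0) (nat_lit 221171616371) (nat_lit 152) (nat_lit 523528776673) (nat_lit 0) (nat_lit 99782277970) (nat_lit 2) (nat_lit 5) (nat_lit 4) (nat_lit 4) (nat_lit 2) (nat_lit 4) (nat_lit 323) (nat_lit 266) (nat_lit 131)) (XT.lf (nat_lit 0) (nat_lit 269381397538) (nat_lit 152) (nat_lit 491379271815)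 (nat_lit 0) (nat_lit 147991782663) (nat_lit 2) (nat_lit 5) (nat_lit 4) (nat_lit 4) (nat_lit 2) (nat_lit 4) (nat_lit 324) (nat_lit 266) (nat_lit 130))))) (XT.nd (nat_lit 234) (nat_lit 0) (nat_lit 0) (XT.nd (nat_lit 78) (nat_lit 0) (nat_lit 0) (XT.lf (nat_lit 0) (nat_lit 321447784758) (nat_lit 152) (nat_lit 456658131274) (nat_lit 0) (nat_lit 200057913890) (nat_lit 2) (nat_lit 5) (nat_lit 4) (nat_lit 4) (nat_lit 2) (nat_lit 4) (nat_lit 325) (nat_lit 266) (nat_lit 129)) (XT.nd (nat_lit 78) (nat_lit 0) (nat_lit 0) (XT.lf (nat_lit 0) (nat_lit 377679319586) (nat_lit 152) (nat_lit 419159600145) (nat_lit 0) (nat_lit 256289211687) (nat_lit 2) (nat_lit 5) (nat_lit 4) (nat_lit 4) (nat_lit 2) (nat_lit 4) (nat_lit 326) (nat_lit 266) (nat_lit 128)) (XT.lf (nat_lit 0) (nat_lit 438409225932) (nat_lit 152) (nat_lit 378661464909) (nat_lit 0) (nat_lit 317018898559) (nat_lit 2) (nat_lit 5) (nat_lit 4)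 (nat_lit 4) (nat_lit 2) (nat_lit 4) (nat_lit 327) (nat_lit 266) (nat_lit 127)))) (XT.nd (nat_lit 156) (nat_lit 0) (nat_lit 0) (XT.nd (nat_lit 78) (nat_lit 0) (nat_lit 0) (XT.lf (nat_lit 0) (nat_lit 503997384722) (nat_lit 152) (nat_lit 334923736618) (nat_lit 0) (nat_lit 382606854133) (nat_lit 2) (nat_lit 5) (nat_lit 4) (nat_lit 4) (nat_lit 2) (nat_lit 4) (nat_lit 328) (nat_lit 266) (nat_lit 126)) (XT.lf (nat_lit 0) (nat_lit 574832466527) (nat_lit 152) (nat_lit 287687228732) (nat_lit 0) (nat_lit 453441747775) (nat_lit 2) (nat_lit 5) (nat_lit 4) (nat_lit 4) (nat_lit 2) (nat_lit 4) (nat_lit 329) (nat_lit 266) (nat_lit 125))) (XT.nd (nat_lit 78) (nat_lit 0) (nat_lit 0) (XT.lf (nat_lit 0) (nat_lit 651334234794) (nat_lit 152) (nat_lit 236672021205) (nat_lit 0) (nat_lit 529943341817) (nat_lit 2) (nat_lit 5) (nat_lit 4) (nat_lit 4) (nat_lit 2) (nat_lit 4) (nat_lit 330) (nat_lit 266) (nat_lit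 124)) (XT.lf (nat_lit 0) (nat_lit 733956033336) (nat_lit 152) (nat_lit 181575801696) (nat_lit 0) (nat_lit 612564979039) (nat_lit 2) (nat_lit 5) (nat_lit 4) (nat_lit 4) (nat_lit 2) (nat_lit 4) (nat_lit 331) (nat_lit 266) (nat_lit 123))))))))
noncomputable def xc95 : XT := (XT.nd (nat_lit 34164) (nat_lit 0) (nat_lit 228) (XT.nd (nat_lit 33150) (nat_lit 0) (nat_lit 1216) (XT.nd (nat_lit 32682) (nat_lit 0) (nat_lit 2204) (XT.nd (nat_lit 32448) (nat_lit 0) (nat_lit 2432) (XT.nd (nat_lit 78) (nat_lit 76) (nat_lit 0) (XT.lf (nat_lit 0) (nat_lit 823187472810) (nat_lit 152) (nat_lit 122072074090) (nat_lit 0) (nat_lit 701796269144) (nat_lit 2) (nat_lit 5) (nat_lit 4) (nat_lit 4) (nat_lit 2) (nat_lit 4) (nat_lit 332) (nat_lit 266) (nat_lit 122)) (XT.nd (nat_lit 78) (nat_lit 76) (nat_lit 0) (XT.lf (nat_lit 0) (nat_lit 919557332118) (nat_lit 152) (nat_lit 57808223705) (nat_lit 0) (nat_lit 798165990146)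 (nat_lit 2) (nat_lit 5) (nat_lit 4) (nat_lit 4) (nat_lit 2) (nat_lit 4) (nat_lit 333) (nat_lit 266) (nat_lit 121)) (XT.lf (nat_lit 0) (nat_lit 12207227221) (nat_lit 76) (nat_lit 1011723048793) (nat_lit 76) (nat_lit 890331578760) (nat_lit 1) (nat_lit 4) (nat_lit 2) (nat_lit 5) (nat_lit 2) (nat_lit 4) (nat_lit 334) (nat_lit 266) (nat_lit 120)))) (XT.nd (nat_lit 78) (nat_lit 0) (nat_lit 0) (XT.lf (nat_lit 0) (nat_lit 4869174261) (nat_lit 532) (nat_lit 5777247824) (nat_lit 532) (nat_lit 5777247824) (nat_lit 33) (nat_lit 3) (nat_lit 40) (nat_lit 3) (nat_lit 40) (nat_lit 5) (nat_lit 267) (nat_lit 267) (nat_lit 186)) (XT.nd (nat_lit 78) (nat_lit 0) (nat_lit 76) (XT.lf (nat_lit 76) (nat_lit 2394560443) (nat_lit 0) (nat_lit 7844791615) (nat_lit 532) (nat_lit 23912650244) (nat_lit 34) (nat_lit 5) (nat_lit 33) (nat_lit 3) (nat_lit 40) (nat_lit 5) (nat_lit 268) (nat_lit 267) (nat_lit 185)) (XT.lf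 (nat_lit 0) (nat_lit 11259787246) (nat_lit 456) (nat_lit 17591553704) (nat_lit 532) (nat_lit 6671380094) (nat_lit 34) (nat_lit 5) (nat_lit 40) (nat_lit 5) (nat_lit 41) (nat_lit 5) (nat_lit 269) (nat_lit 267) (nat_lit 184))))) (XT.nd (nat_lit 234) (nat_lit 304) (nat_lit 0) (XT.nd (nat_lit 78) (nat_lit 0) (nat_lit 76) (XT.lf (nat_lit 0) (nat_lit 12560611231) (nat_lit 456) (nat_lit 2499494776) (nat_lit 532) (nat_lit 21927120005) (nat_lit 34) (nat_lit 5) (nat_lit 40) (nat_lit 5) (nat_lit 41) (nat_lit 5) (nat_lit 270) (nat_lit 267) (nat_lit 183)) (XT.nd (nat_lit 78) (nat_lit 0) (nat_lit 0) (XT.lf (nat_lit 0) (nat_lit 14315279684) (nat_lit 456) (nat_lit 24023119942) (nat_lit 532) (nat_lit 202536360) (nat_lit 35) (nat_lit 5) (nat_lit 41) (nat_lit 5) (nat_lit 42) (nat_lit 5) (nat_lit 271) (nat_lit 267) (nat_lit 182)) (XT.lf (nat_lit 0) (nat_lit 16667276355) (nat_lit 456) (nat_lit 7571182375)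 (nat_lit 532) (nat_lit 15943952553) (nat_lit 35) (nat_lit 5) (nat_lit 41) (nat_lit 5) (nat_lit 42) (nat_lit 5) (nat_lit 272) (nat_lit 267) (nat_lit 181)))) (XT.nd (nat_lit 78) (nat_lit 380) (nat_lit 0) (XT.lf (nat_lit 76) (nat_lit 10730527597) (nat_lit 0) (nat_lit 8730962996) (nat_lit 532) (nat_lit 22473412440) (nat_lit 36) (nat_lit 5) (nat_lit 35) (nat_lit 5) (nat_lit 42) (nat_lit 5) (nat_lit 273) (nat_lit 267) (nat_lit 180)) (XT.nd (nat_lit 78) (nat_lit 456) (nat_lit 0) (XT.lf (nat_lit 0) (nat_lit 22880668796) (nat_lit 456) (nat_lit 13085696436) (nat_lit 76) (nat_lit 7829136095) (nat_lit 36) (nat_lit 5) (nat_lit 42) (nat_lit 5) (nat_lit 37) (nat_lit 5) (nat_lit 274) (nat_lit 267) (nat_lit 179)) (XT.lf (nat_lit 0) (nat_lit 6581771223) (nat_lit 456) (nat_lit 20373187625) (nat_lit 532) (nat_lit 18819482196) (nat_lit 30) (nat_lit 5) (nat_lit 36) (nat_lit 5) (nat_lit 37) (nat_lit 5) (nat_lit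 275) (nat_lit 267) (nat_lit 178)))))) (XT.nd (nat_lit 468) (nat_lit 532) (nat_lit 0) (XT.nd (nat_lit 234) (nat_lit 228) (nat_lit 0) (XT.nd (nat_lit 78) (nat_lit 228) (nat_lit 0) (XT.lf (nat_lit 0) (nat_lit 28563737554) (nat_lit 456) (nat_lit 3145932549) (nat_lit 532) (nat_lit 16173685901) (nat_lit 30) (nat_lit 5) (nat_lit 36) (nat_lit 5) (nat_lit 37) (nat_lit 5) (nat_lit 276) (nat_lit 267) (nat_lit 177)) (XT.nd (nat_lit 78) (nat_lit 0) (nat_lit 0) (XT.lf (nat_lit 0) (nat_lit 1861461999) (nat_lit 228) (nat_lit 35396807566) (nat_lit 304) (nat_lit 12869650637) (nat_lit 27) (nat_lit 5) (nat_lit 30) (nat_lit 5) (nat_lit 31) (nat_lit 5) (nat_lit 277) (nat_lit 267) (nat_lit 176)) (XT.lf (nat_lit 0) (nat_lit 25746685130) (nat_lit 228) (nat_lit 18109043144) (nat_lit 304) (nat_lit 8647939252) (nat_lit 27) (nat_lit 5) (nat_lit 30) (nat_lit 5) (nat_lit 31) (nat_lit 5) (nat_lit 278) (nat_lit 267)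 (nat_lit 175)))) (XT.nd (nat_lit 78) (nat_lit 228) (nat_lit 0) (XT.lf (nat_lit 0) (nat_lit 50991800345) (nat_lit 304) (nat_lit 3543311013) (nat_lit 76) (nat_lit 533512475) (nat_lit 27) (nat_lit 5) (nat_lit 31) (nat_lit 5) (nat_lit 28) (nat_lit 5) (nat_lit 279) (nat_lit 267) (nat_lit 174)) (XT.nd (nat_lit 78) (nat_lit 0) (nat_lit 0) (XT.lf (nat_lit 0) (nat_lit 1843836461) (nat_lit 228) (nat_lit 35642455237) (nat_lit 76) (nat_lit 20268692823) (nat_lit 24) (nat_lit 5) (nat_lit 27) (nat_lit 5) (nat_lit 25) (nat_lit 5) (nat_lit 280) (nat_lit 267) (nat_lit 173)) (XT.lf (nat_lit 0) (nat_lit 8114842808) (nat_lit 228) (nat_lit 10737458863) (nat_lit 76) (nat_lit 41787736769) (nat_lit 24) (nat_lit 5) (nat_lit 27) (nat_lit 5) (nat_lit 25) (nat_lit 5) (nat_lit 281) (nat_lit 267) (nat_lit 172))))) (XT.nd (nat_lit 234) (nat_lit 152) (nat_lit 0) (XT.nd (nat_lit 78) (nat_lit 152) (nat_lit 0) (XT.lf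 (nat_lit 0) (nat_lit 15335522723) (nat_lit 304) (nat_lit 46756512413) (nat_lit 76) (nat_lit 1628032771) (nat_lit 21) (nat_lit 5) (nat_lit 25) (nat_lit 5) (nat_lit 22) (nat_lit 5) (nat_lit 282) (nat_lit 267) (nat_lit 171)) (XT.nd (nat_lit 78) (nat_lit 152) (nat_lit 0) (XT.lf (nat_lit 0) (nat_lit 23922560694) (nat_lit 304) (nat_lit 20031794169) (nat_lit 76) (nat_lit 23029058465) (nat_lit 21) (nat_lit 5) (nat_lit 25) (nat_lit 5) (nat_lit 22) (nat_lit 5) (nat_lit 283) (nat_lit 267) (nat_lit 170)) (XT.lf (nat_lit 0) (nat_lit 9293206595) (nat_lit 152) (nat_lit 24124844773) (nat_lit 228) (nat_lit 37072064998) (nat_lit 19) (nat_lit 5) (nat_lit 21) (nat_lit 5) (nat_lit 22) (nat_lit 5) (nat_lit 284) (nat_lit 267) (nat_lit 169)))) (XT.nd (nat_lit 156) (nat_lit 152) (nat_lit 0) (XT.nd (nat_lit 78) (nat_lit 0) (nat_lit 0) (XT.lf (nat_lit 0) (nat_lit 42100919821) (nat_lit 152) (nat_lit 2118042654)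 (nat_lit 228) (nat_lit 30014739156) (nat_lit 19) (nat_lit 5) (nat_lit 21) (nat_lit 5) (nat_lit 22) (nat_lit 5) (nat_lit 285) (nat_lit 267) (nat_lit 168)) (XT.lf (nat_lit 0) (nat_lit 56402818519) (nat_lit 228) (nat_lit 1266654387) (nat_lit 76) (nat_lit 20565798897) (nat_lit 19) (nat_lit 5) (nat_lit 22) (nat_lit 5) (nat_lit 20) (nat_lit 5) (nat_lit 286) (nat_lit 267) (nat_lit 167))) (XT.nd (nat_lit 78) (nat_lit 0) (nat_lit 0) (XT.lf (nat_lit 0) (nat_lit 33697134322) (nat_lit 152) (nat_lit 36728018392) (nat_lit 228) (nat_lit 12062720570) (nat_lit 17) (nat_lit 5) (nat_lit 19) (nat_lit 5) (nat_lit 20) (nat_lit 5) (nat_lit 287) (nat_lit 267) (nat_lit 166)) (XT.lf (nat_lit 0) (nat_lit 71527837711) (nat_lit 152) (nat_lit 14074476759) (nat_lit 228) (nat_lit 1475731878) (nat_lit 17) (nat_lit 5) (nat_lit 19) (nat_lit 5) (nat_lit 20) (nat_lit 5) (nat_lit 288) (nat_lit 267) (nat_lit 165)))))))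 (XT.nd (nat_lit 1014) (nat_lit 304) (nat_lit 0) (XT.nd (nat_lit 468) (nat_lit 304) (nat_lit 0) (XT.nd (nat_lit 234) (nat_lit 76) (nat_lit 0) (XT.nd (nat_lit 78) (nat_lit 152) (nat_lit 0) (XT.lf (nat_lit 0) (nat_lit 10236949057) (nat_lit 152) (nat_lit 71078244782) (nat_lit 76) (nat_lit 10638934886) (nat_lit 15) (nat_lit 5) (nat_lit 17) (nat_lit 5) (nat_lit 16) (nat_lit 5) (nat_lit 289) (nat_lit 267) (nat_lit 164)) (XT.nd (nat_lit 78) (nat_lit 152) (nat_lit 0) (XT.lf (nat_lit 0) (nat_lit 23607229935) (nat_lit 152) (nat_lit 36503008268) (nat_lit 76) (nat_lit 37042973311) (nat_lit 15) (nat_lit 5) (nat_lit 17) (nat_lit 5) (nat_lit 16) (nat_lit 5) (nat_lit 290) (nat_lit 267) (nat_lit 163)) (XT.lf (nat_lit 0) (nat_lit 880246042) (nat_lit 152) (nat_lit 37186695002) (nat_lit 228) (nat_lit 64699700207) (nat_lit 13) (nat_lit 5) (nat_lit 15) (nat_lit 5) (nat_lit 16) (nat_lit 5) (nat_lit 291) (nat_lit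 267) (nat_lit 162)))) (XT.nd (nat_lit 78) (nat_lit 76) (nat_lit 0) (XT.lf (nat_lit 0) (nat_lit 43328136035) (nat_lit 152) (nat_lit 11352040975) (nat_lit 228) (nat_lit 54069233102) (nat_lit 13) (nat_lit 5) (nat_lit 15) (nat_lit 5) (nat_lit 16) (nat_lit 5) (nat_lit 292) (nat_lit 267) (nat_lit 161)) (XT.nd (nat_lit 78) (nat_lit 76) (nat_lit 0) (XT.lf (nat_lit 0) (nat_lit 73019257951) (nat_lit 228) (nat_lit 26438878753) (nat_lit 76) (nat_lit 15720925130) (nat_lit 13) (nat_lit 5) (nat_lit 16) (nat_lit 5) (nat_lit 14) (nat_lit 4) (nat_lit 293) (nat_lit 267) (nat_lit 160)) (XT.lf (nat_lit 0) (nat_lit 16174588426) (nat_lit 76) (nat_lit 77333598259) (nat_lit 152) (nat_lit 28560285230) (nat_lit 12) (nat_lit 5) (nat_lit 13) (nat_lit 5) (nat_lit 14) (nat_lit 4) (nat_lit 294) (nat_lit 267) (nat_lit 159))))) (XT.nd (nat_lit 234) (nat_lit 76) (nat_lit 0) (XT.nd (nat_lit 78) (nat_lit 228) (nat_lit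 0) (XT.lf (nat_lit 0) (nat_lit 63699000520) (nat_lit 76) (nat_lit 52659021302) (nat_lit 152) (nat_lit 13093273249) (nat_lit 12) (nat_lit 5) (nat_lit 13) (nat_lit 5) (nat_lit 14) (nat_lit 4) (nat_lit 295) (nat_lit 267) (nat_lit 158)) (XT.nd (nat_lit 78) (nat_lit 152) (nat_lit 0) (XT.lf (nat_lit 0) (nat_lit 3429415674) (nat_lit 152) (nat_lit 22487889937) (nat_lit 76) (nat_lit 111500577197) (nat_lit 11) (nat_lit 5) (nat_lit 13) (nat_lit 5) (nat_lit 12) (nat_lit 5) (nat_lit 296) (nat_lit 267) (nat_lit 157)) (XT.lf (nat_lit 0) (nat_lit 21266351991) (nat_lit 228) (nat_lit 120887720771) (nat_lit 76) (nat_lit 3784536159) (nat_lit 9) (nat_lit 5) (nat_lit 12) (nat_lit 5) (nat_lit 10) (nat_lit 4) (nat_lit 297) (nat_lit 267) (nat_lit 156)))) (XT.nd (nat_lit 156) (nat_lit 76) (nat_lit 0) (XT.nd (nat_lit 78) (nat_lit 0) (nat_lit 0) (XT.lf (nat_lit 0) (nat_lit 41833305705) (nat_lit 228) (nat_lit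 78110842210) (nat_lit 76) (nat_lit 35092602880) (nat_lit 9) (nat_lit 5) (nat_lit 12) (nat_lit 5) (nat_lit 10) (nat_lit 4) (nat_lit 298) (nat_lit 267) (nat_lit 155)) (XT.lf (nat_lit 0) (nat_lit 64044742199) (nat_lit 228) (nat_lit 31913262787) (nat_lit 76) (nat_lit 68904811389) (nat_lit 9) (nat_lit 5) (nat_lit 12) (nat_lit 5) (nat_lit 10) (nat_lit 4) (nat_lit 299) (nat_lit 267) (nat_lit 154))) (XT.nd (nat_lit 78) (nat_lit 0) (nat_lit 0) (XT.lf (nat_lit 0) (nat_lit 18925511676) (nat_lit 76) (nat_lit 69561932137) (nat_lit 152) (nat_lit 86951177665) (nat_lit 8) (nat_lit 5) (nat_lit 9) (nat_lit 5) (nat_lit 10) (nat_lit 4) (nat_lit 300) (nat_lit 267) (nat_lit 153)) (XT.lf (nat_lit 0) (nat_lit 75645015547) (nat_lit 76) (nat_lit 40112330810) (nat_lit 152) (nat_lit 71033403968) (nat_lit 8) (nat_lit 5) (nat_lit 9) (nat_lit 5) (nat_lit 10) (nat_lit 4) (nat_lit 301) (nat_lit 267) (nat_lit 152))))))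 (XT.nd (nat_lit 468) (nat_lit 152) (nat_lit 0) (XT.nd (nat_lit 234) (nat_lit 76) (nat_lit 0) (XT.nd (nat_lit 78) (nat_lit 76) (nat_lit 0) (XT.lf (nat_lit 0) (nat_lit 136900868542) (nat_lit 76) (nat_lit 8307250008) (nat_lit 152) (nat_lit 53842990700) (nat_lit 8) (nat_lit 5) (nat_lit 9) (nat_lit 5) (nat_lit 10) (nat_lit 4) (nat_lit 302) (nat_lit 267) (nat_lit 151)) (XT.nd (nat_lit 78) (nat_lit 76) (nat_lit 0) (XT.lf (nat_lit 0) (nat_lit 177640589038) (nat_lit 152) (nat_lit 9862589474) (nat_lit 0) (nat_lit 24739069273) (nat_lit 8) (nat_lit 5) (nat_lit 10) (nat_lit 4) (nat_lit 8) (nat_lit 4) (nat_lit 303) (nat_lit 267) (nat_lit 150)) (XT.lf (nat_lit 0) (nat_lit 48834101082) (nat_lit 76) (nat_lit 165223160567) (nat_lit 76) (nat_lit 12320249081) (nat_lit 7) (nat_lit 4) (nat_lit 8) (nat_lit 5) (nat_lit 8) (nat_lit 4) (nat_lit 304) (nat_lit 267) (nat_lit 149)))) (XT.nd (nat_lit 78) (nat_lit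 0) (nat_lit 0) (XT.lf (nat_lit 0) (nat_lit 11432246600) (nat_lit 152) (nat_lit 129125127186) (nat_lit 76) (nat_lit 101041544370) (nat_lit 6) (nat_lit 5) (nat_lit 8) (nat_lit 5) (nat_lit 7) (nat_lit 4) (nat_lit 305) (nat_lit 267) (nat_lit 148)) (XT.nd (nat_lit 78) (nat_lit 0) (nat_lit 0) (XT.lf (nat_lit 0) (nat_lit 36418749312) (nat_lit 152) (nat_lit 77154394721) (nat_lit 76) (nat_lit 144439341296) (nat_lit 6) (nat_lit 5) (nat_lit 8) (nat_lit 5) (nat_lit 7) (nat_lit 4) (nat_lit 306) (nat_lit 267) (nat_lit 147)) (XT.lf (nat_lit 0) (nat_lit 63403635975) (nat_lit 152) (nat_lit 21026935255) (nat_lit 76) (nat_lit 191308610785) (nat_lit 6) (nat_lit 5) (nat_lit 8) (nat_lit 5) (nat_lit 7) (nat_lit 4) (nat_lit 307) (nat_lit 267) (nat_lit 146))))) (XT.nd (nat_lit 234) (nat_lit 76) (nat_lit 0) (XT.nd (nat_lit 78) (nat_lit 0) (nat_lit 0) (XT.lf (nat_lit 0) (nat_lit 41674590159) (nat_lit 76) (nat_lit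 51874501763) (nat_lit 152) (nat_lit 201254781392) (nat_lit 5) (nat_lit 5) (nat_lit 6) (nat_lit 5) (nat_lit 7) (nat_lit 4) (nat_lit 308) (nat_lit 267) (nat_lit 145)) (XT.nd (nat_lit 78) (nat_lit 0) (nat_lit 0) (XT.lf (nat_lit 0) (nat_lit 110587217295) (nat_lit 76) (nat_lit 16093400741) (nat_lit 152) (nat_lit 188667168247) (nat_lit 5) (nat_lit 5) (nat_lit 6) (nat_lit 5) (nat_lit 7) (nat_lit 4) (nat_lit 309) (nat_lit 267) (nat_lit 144)) (XT.lf (nat_lit 0) (nat_lit 163004546350) (nat_lit 152) (nat_lit 153065497239) (nat_lit 0) (nat_lit 21421819274) (nat_lit 5) (nat_lit 5) (nat_lit 7) (nat_lit 4) (nat_lit 5) (nat_lit 4) (nat_lit 310) (nat_lit 267) (nat_lit 143)))) (XT.nd (nat_lit 156) (nat_lit 76) (nat_lit 0) (XT.nd (nat_lit 78) (nat_lit 0) (nat_lit 0) (XT.lf (nat_lit 0) (nat_lit 202651980392) (nat_lit 152) (nat_lit 97653577359) (nat_lit 0) (nat_lit 61068501413) (nat_lit 5) (nat_lit 5)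 (nat_lit 7) (nat_lit 4) (nat_lit 5) (nat_lit 4) (nat_lit 311) (nat_lit 267) (nat_lit 142)) (XT.lf (nat_lit 0) (nat_lit 245470821243) (nat_lit 152) (nat_lit 37809395742) (nat_lit 0) (nat_lit 103886646058) (nat_lit 5) (nat_lit 5) (nat_lit 7) (nat_lit 4) (nat_lit 5) (nat_lit 4) (nat_lit 312) (nat_lit 267) (nat_lit 141))) (XT.nd (nat_lit 78) (nat_lit 0) (nat_lit 0) (XT.lf (nat_lit 0) (nat_lit 28234061924) (nat_lit 76) (nat_lit 264159778128) (nat_lit 76) (nat_lit 122574958306) (nat_lit 4) (nat_lit 4) (nat_lit 5) (nat_lit 5) (nat_lit 5) (nat_lit 4) (nat_lit 313) (nat_lit 267) (nat_lit 140)) (XT.lf (nat_lit 0) (nat_lit 101710625656) (nat_lit 76) (nat_lit 242393503004) (nat_lit 76) (nat_lit 100808086297) (nat_lit 4) (nat_lit 4) (nat_lit 5) (nat_lit 5) (nat_lit 5) (nat_lit 4) (nat_lit 314) (nat_lit 267) (nat_lit 139))))))))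
noncomputable def xc96 : XT := (XT.nd (nat_lit 34242) (nat_lit 0) (nat_lit 684) (XT.nd (nat_lit 936) (nat_lit 0) (nat_lit 0) (XT.nd (nat_lit 468) (nat_lit 76) (nat_lit 0) (XT.nd (nat_lit 234) (nat_lit 76) (nat_lit 0) (XT.nd (nat_lit 78) (nat_lit 0) (nat_lit 0) (XT.lf (nat_lit 0) (nat_lit 181064736351) (nat_lit 76) (nat_lit 218886182163) (nat_lit 76) (nat_lit 77300212785) (nat_lit 4) (nat_lit 4) (nat_lit 5) (nat_lit 5) (nat_lit 5) (nat_lit 4) (nat_lit 315) (nat_lit 267) (nat_lit 138)) (XT.nd (nat_lit 78) (nat_lit 0) (nat_lit 0) (XT.lf (nat_lit 0) (nat_lit 266766640590) (nat_lit 76) (nat_lit 193498512965) (nat_lit 76) (nat_lit 51912031854) (nat_lit 4) (nat_lit 4) (nat_lit 5) (nat_lit 5) (nat_lit 5) (nat_lit 4) (nat_lit 316) (nat_lit 267) (nat_lit 137)) (XT.lf (nat_lit 0) (nat_lit 359324201509) (nat_lit 76) (nat_lit 166080049962) (nat_lit 76) (nat_lit 24493095024) (nat_lit 4) (nat_lit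 4) (nat_lit 5) (nat_lit 5) (nat_lit 5) (nat_lit 4) (nat_lit 317) (nat_lit 267) (nat_lit 136)))) (XT.nd (nat_lit 78) (nat_lit 0) (nat_lit 0) (XT.lf (nat_lit 0) (nat_lit 4863003164) (nat_lit 152) (nat_lit 131472347084) (nat_lit 76) (nat_lit 454289942071) (nat_lit 3) (nat_lit 5) (nat_lit 5) (nat_lit 5) (nat_lit 4) (nat_lit 4) (nat_lit 318) (nat_lit 267) (nat_lit 135)) (XT.nd (nat_lit 78) (nat_lit 0) (nat_lit 0) (XT.lf (nat_lit 0) (nat_lit 35244082717) (nat_lit 152) (nat_lit 68280107843) (nat_lit 76) (nat_lit 531036408414) (nat_lit 3) (nat_lit 5) (nat_lit 5) (nat_lit 5) (nat_lit 4) (nat_lit 4) (nat_lit 319) (nat_lit 267) (nat_lit 134)) (XT.lf (nat_lit 0) (nat_lit 68055423472) (nat_lit 152) (nat_lit 32895211) (nat_lit 76) (nat_lit 613922429912) (nat_lit 3) (nat_lit 5) (nat_lit 5) (nat_lit 5) (nat_lit 4) (nat_lit 4) (nat_lit 320) (nat_lit 267) (nat_lit 133))))) (XT.nd (nat_lit 234) (nat_lit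 0) (nat_lit 0) (XT.nd (nat_lit 78) (nat_lit 0) (nat_lit 0) (XT.lf (nat_lit 0) (nat_lit 77553246207) (nat_lit 76) (nat_lit 27803374234) (nat_lit 152) (nat_lit 627751094220) (nat_lit 2) (nat_lit 5) (nat_lit 3) (nat_lit 5) (nat_lit 4) (nat_lit 4) (nat_lit 321) (nat_lit 267) (nat_lit 132)) (XT.nd (nat_lit 78) (nat_lit 0) (nat_lit 0) (XT.lf (nat_lit 0) (nat_lit 146020320518) (nat_lit 152) (nat_lit 627322308815) (nat_lit 0) (nat_lit 14919536453) (nat_lit 2) (nat_lit 5) (nat_lit 4) (nat_lit 4) (nat_lit 2) (nat_lit 4) (nat_lit 322) (nat_lit 267) (nat_lit 131)) (XT.lf (nat_lit 0) (nat_lit 190659091610) (nat_lit 152) (nat_lit 597554092651) (nat_lit 0) (nat_lit 59558031072) (nat_lit 2) (nat_lit 5) (nat_lit 4) (nat_lit 4) (nat_lit 2) (nat_lit 4) (nat_lit 323) (nat_lit 267) (nat_lit 130)))) (XT.nd (nat_lit 78) (nat_lit 0) (nat_lit 0) (XT.lf (nat_lit 0) (nat_lit 238868787950) (nat_lit 152) (nat_lit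 565404743902) (nat_lit 0) (nat_lit 107767471418) (nat_lit 2) (nat_lit 5) (nat_lit 4) (nat_lit 4) (nat_lit 2) (nat_lit 4) (nat_lit 324) (nat_lit 267) (nat_lit 129)) (XT.nd (nat_lit 78) (nat_lit 0) (nat_lit 0) (XT.lf (nat_lit 0) (nat_lit 290935096627) (nat_lit 152) (nat_lit 530683747907) (nat_lit 0) (nat_lit 159833543064) (nat_lit 2) (nat_lit 5) (nat_lit 4) (nat_lit 4) (nat_lit 2) (nat_lit 4) (nat_lit 325) (nat_lit 267) (nat_lit 128)) (XT.lf (nat_lit 0) (nat_lit 347166558730) (nat_lit 152) (nat_lit 493185350616) (nat_lit 0) (nat_lit 216064785694) (nat_lit 2) (nat_lit 5) (nat_lit 4) (nat_lit 4) (nat_lit 2) (nat_lit 4) (nat_lit 326) (nat_lit 267) (nat_lit 127)))))) (XT.nd (nat_lit 468) (nat_lit 0) (nat_lit 0) (XT.nd (nat_lit 234) (nat_lit 0) (nat_lit 0) (XT.nd (nat_lit 78) (nat_lit 0) (nat_lit 0) (XT.lf (nat_lit 0) (nat_lit 407896397737) (nat_lit 152) (nat_lit 452687339304) (nat_lit 0)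 (nat_lit 276794421485) (nat_lit 2) (nat_lit 5) (nat_lit 4) (nat_lit 4) (nat_lit 2) (nat_lit 4) (nat_lit 327) (nat_lit 267) (nat_lit 126)) (XT.nd (nat_lit 78) (nat_lit 0) (nat_lit 0) (XT.lf (nat_lit 0) (nat_lit 473484494177) (nat_lit 152) (nat_lit 408949725757) (nat_lit 0) (nat_lit 342382329762) (nat_lit 2) (nat_lit 5) (nat_lit 4) (nat_lit 4) (nat_lit 2) (nat_lit 4) (nat_lit 328) (nat_lit 267) (nat_lit 125)) (XT.lf (nat_lit 0) (nat_lit 544319518250) (nat_lit 152) (nat_lit 361713324117) (nat_lit 0) (nat_lit 413217179610) (nat_lit 2) (nat_lit 5) (nat_lit 4) (nat_lit 4) (nat_lit 2) (nat_lit 4) (nat_lit 329) (nat_lit 267) (nat_lit 124)))) (XT.nd (nat_lit 78) (nat_lit 0) (nat_lit 0) (XT.lf (nat_lit 0) (nat_lit 620821233062) (nat_lit 152) (nat_lit 310698214965) (nat_lit 0) (nat_lit 489718733103) (nat_lit 2) (nat_lit 5) (nat_lit 4) (nat_lit 4) (nat_lit 2) (nat_lit 4) (nat_lit 330) (nat_lit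 267) (nat_lit 123)) (XT.nd (nat_lit 78) (nat_lit 0) (nat_lit 0) (XT.lf (nat_lit 0) (nat_lit 703442982109) (nat_lit 152) (nat_lit 255602086545) (nat_lit 0) (nat_lit 572340332779) (nat_lit 2) (nat_lit 5) (nat_lit 4) (nat_lit 4) (nat_lit 2) (nat_lit 4) (nat_lit 331) (nat_lit 267) (nat_lit 122)) (XT.lf (nat_lit 0) (nat_lit 792674375754) (nat_lit 152) (nat_lit 196098443280) (nat_lit 0) (nat_lit 661571588119) (nat_lit 2) (nat_lit 5) (nat_lit 4) (nat_lit 4) (nat_lit 2) (nat_lit 4) (nat_lit 332) (nat_lit 267) (nat_lit 121))))) (XT.nd (nat_lit 32526) (nat_lit 0) (nat_lit 2356) (XT.nd (nat_lit 78) (nat_lit 0) (nat_lit 0) (XT.lf (nat_lit 0) (nat_lit 889044192627) (nat_lit 152) (nat_lit 131834670988) (nat_lit 0) (nat_lit 757941276931) (nat_lit 2) (nat_lit 5) (nat_lit 4) (nat_lit 4) (nat_lit 2) (nat_lit 4) (nat_lit 333) (nat_lit 267) (nat_lit 120)) (XT.nd (nat_lit 32370) (nat_lit 0) (nat_lit 2356)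 (XT.lf (nat_lit 0) (nat_lit 993123513124) (nat_lit 152) (nat_lit 62429947314) (nat_lit 0) (nat_lit 862020478853) (nat_lit 2) (nat_lit 5) (nat_lit 4) (nat_lit 4) (nat_lit 2) (nat_lit 4) (nat_lit 334) (nat_lit 267) (nat_lit 119)) (XT.lf (nat_lit 0) (nat_lit 5311292738) (nat_lit 532) (nat_lit 6210879000) (nat_lit 532) (nat_lit 6210879000) (nat_lit 33) (nat_lit 3) (nat_lit 40) (nat_lit 3) (nat_lit 40) (nat_lit 5) (nat_lit 268) (nat_lit 268) (nat_lit 184)))) (XT.nd (nat_lit 156) (nat_lit 0) (nat_lit 76) (XT.nd (nat_lit 78) (nat_lit 0) (nat_lit 76) (XT.lf (nat_lit 76) (nat_lit 2641777078) (nat_lit 0) (nat_lit 8515440343) (nat_lit 532) (nat_lit 25718481021) (nat_lit 34) (nat_lit 5) (nat_lit 33) (nat_lit 3) (nat_lit 40) (nat_lit 5) (nat_lit 269) (nat_lit 268) (nat_lit 183)) (XT.lf (nat_lit 0) (nat_lit 12251016034) (nat_lit 456) (nat_lit 18938552473) (nat_lit 532) (nat_lit 7167209861) (nat_lit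 34) (nat_lit 5) (nat_lit 40) (nat_lit 5) (nat_lit 41) (nat_lit 5) (nat_lit 270) (nat_lit 268) (nat_lit 182))) (XT.nd (nat_lit 78) (nat_lit 0) (nat_lit 76) (XT.lf (nat_lit 0) (nat_lit 13649206249) (nat_lit 456) (nat_lit 2643597388) (nat_lit 532) (nat_lit 23646214938) (nat_lit 34) (nat_lit 5) (nat_lit 40) (nat_lit 5) (nat_lit 41) (nat_lit 5) (nat_lit 271) (nat_lit 268) (nat_lit 181)) (XT.lf (nat_lit 0) (nat_lit 15538767073) (nat_lit 456) (nat_lit 25883181622) (nat_lit 532) (nat_lit 195551129) (nat_lit 35) (nat_lit 5) (nat_lit 41) (nat_lit 5) (nat_lit 42) (nat_lit 5) (nat_lit 272) (nat_lit 268) (nat_lit 180))))))) (XT.nd (nat_lit 936) (nat_lit 760) (nat_lit 0) (XT.nd (nat_lit 468) (nat_lit 456) (nat_lit 0) (XT.nd (nat_lit 234) (nat_lit 608) (nat_lit 0) (XT.nd (nat_lit 78) (nat_lit 0) (nat_lit 0) (XT.lf (nat_lit 0) (nat_lit 18073126069) (nat_lit 456) (nat_lit 8119665932) (nat_lit 532)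 (nat_lit 17197998257) (nat_lit 35) (nat_lit 5) (nat_lit 41) (nat_lit 5) (nat_lit 42) (nat_lit 5) (nat_lit 273) (nat_lit 268) (nat_lit 179)) (XT.nd (nat_lit 78) (nat_lit 0) (nat_lit 76) (XT.lf (nat_lit 76) (nat_lit 11644732457) (nat_lit 0) (nat_lit 9442118111) (nat_lit 532) (nat_lit 24196983783) (nat_lit 36) (nat_lit 5) (nat_lit 35) (nat_lit 5) (nat_lit 42) (nat_lit 5) (nat_lit 274) (nat_lit 268) (nat_lit 178)) (XT.lf (nat_lit 0) (nat_lit 24774211022) (nat_lit 456) (nat_lit 14075210961) (nat_lit 76) (nat_lit 8444315254) (nat_lit 36) (nat_lit 5) (nat_lit 42) (nat_lit 5) (nat_lit 37) (nat_lit 5) (nat_lit 275) (nat_lit 268) (nat_lit 177)))) (XT.nd (nat_lit 78) (nat_lit 228) (nat_lit 0) (XT.lf (nat_lit 0) (nat_lit 7164202435) (nat_lit 456) (nat_lit 22006912748) (nat_lit 532) (nat_lit 20260169727) (nat_lit 30) (nat_lit 5) (nat_lit 36) (nat_lit 5) (nat_lit 37) (nat_lit 5) (nat_lit 276) (nat_lit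 268) (nat_lit 176)) (XT.nd (nat_lit 78) (nat_lit 228) (nat_lit 0) (XT.lf (nat_lit 0) (nat_lit 30900586108) (nat_lit 456) (nat_lit 3401190591) (nat_lit 532) (nat_lit 17407514991) (nat_lit 30) (nat_lit 5) (nat_lit 36) (nat_lit 5) (nat_lit 37) (nat_lit 5) (nat_lit 277) (nat_lit 268) (nat_lit 175)) (XT.lf (nat_lit 0) (nat_lit 2065515370) (nat_lit 228) (nat_lit 38225896244) (nat_lit 304) (nat_lit 13842260290) (nat_lit 27) (nat_lit 5) (nat_lit 30) (nat_lit 5) (nat_lit 31) (nat_lit 5) (nat_lit 278) (nat_lit 268) (nat_lit 174))))) (XT.nd (nat_lit 234) (nat_lit 228) (nat_lit 0) (XT.nd (nat_lit 78) (nat_lit 228) (nat_lit 0) (XT.lf (nat_lit 0) (nat_lit 27857472173) (nat_lit 228) (nat_lit 19555307403) (nat_lit 304) (nat_lit 9287031432) (nat_lit 27) (nat_lit 5) (nat_lit 30) (nat_lit 5) (nat_lit 31) (nat_lit 5) (nat_lit 279) (nat_lit 268) (nat_lit 173)) (XT.nd (nat_lit 78) (nat_lit 228) (nat_lit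 0) (XT.lf (nat_lit 0) (nat_lit 55116192690) (nat_lit 304) (nat_lit 3775717552) (nat_lit 76) (nat_lit 578356597) (nat_lit 27) (nat_lit 5) (nat_lit 31) (nat_lit 5) (nat_lit 28) (nat_lit 5) (nat_lit 280) (nat_lit 268) (nat_lit 172)) (XT.lf (nat_lit 0) (nat_lit 2035579926) (nat_lit 228) (nat_lit 38441548148) (nat_lit 76) (nat_lit 21894507921) (nat_lit 24) (nat_lit 5) (nat_lit 27) (nat_lit 5) (nat_lit 25) (nat_lit 5) (nat_lit 281) (nat_lit 268) (nat_lit 171)))) (XT.nd (nat_lit 78) (nat_lit 228) (nat_lit 0) (XT.lf (nat_lit 0) (nat_lit 8804990000) (nat_lit 228) (nat_lit 11548026398) (nat_lit 76) (nat_lit 45134755407) (nat_lit 24) (nat_lit 5) (nat_lit 27) (nat_lit 5) (nat_lit 25) (nat_lit 5) (nat_lit 282) (nat_lit 268) (nat_lit 170)) (XT.nd (nat_lit 78) (nat_lit 0) (nat_lit 0) (XT.lf (nat_lit 0) (nat_lit 16601621307) (nat_lit 304) (nat_lit 50446722594) (nat_lit 76) (nat_lit 1766010260) (nat_lit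 21) (nat_lit 5) (nat_lit 25) (nat_lit 5) (nat_lit 22) (nat_lit 5) (nat_lit 283) (nat_lit 268) (nat_lit 169)) (XT.lf (nat_lit 0) (nat_lit 25872714407) (nat_lit 304) (nat_lit 21587753617) (nat_lit 76) (nat_lit 24878545057) (nat_lit 21) (nat_lit 5) (nat_lit 25) (nat_lit 5) (nat_lit 22) (nat_lit 5) (nat_lit 284) (nat_lit 268) (nat_lit 168)))))) (XT.nd (nat_lit 468) (nat_lit 304) (nat_lit 0) (XT.nd (nat_lit 234) (nat_lit 304) (nat_lit 0) (XT.nd (nat_lit 78) (nat_lit 0) (nat_lit 0) (XT.lf (nat_lit 0) (nat_lit 10082067865) (nat_lit 152) (nat_lit 26044175947) (nat_lit 228) (nat_lit 40000148843) (nat_lit 19) (nat_lit 5) (nat_lit 21) (nat_lit 5) (nat_lit 22) (nat_lit 5) (nat_lit 285) (nat_lit 268) (nat_lit 167)) (XT.nd (nat_lit 78) (nat_lit 0) (nat_lit 0) (XT.lf (nat_lit 0) (nat_lit 45511034835) (nat_lit 152) (nat_lit 2277619022) (nat_lit 228) (nat_lit 32381028145) (nat_lit 19) (nat_lit 5) (nat_lit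 21) (nat_lit 5) (nat_lit 22) (nat_lit 5) (nat_lit 286) (nat_lit 268) (nat_lit 166)) (XT.lf (nat_lit 0) (nat_lit 60945054822) (nat_lit 228) (nat_lit 1326764622) (nat_lit 76) (nat_lit 22219741933) (nat_lit 19) (nat_lit 5) (nat_lit 22) (nat_lit 5) (nat_lit 20) (nat_lit 5) (nat_lit 287) (nat_lit 268) (nat_lit 165)))) (XT.nd (nat_lit 78) (nat_lit 152) (nat_lit 0) (XT.lf (nat_lit 0) (nat_lit 36433083585) (nat_lit 152) (nat_lit 39654835437) (nat_lit 228) (nat_lit 12996562220) (nat_lit 17) (nat_lit 5) (nat_lit 19) (nat_lit 5) (nat_lit 20) (nat_lit 5) (nat_lit 288) (nat_lit 268) (nat_lit 164)) (XT.nd (nat_lit 78) (nat_lit 152) (nat_lit 0) (XT.lf (nat_lit 0) (nat_lit 77287267059) (nat_lit 152) (nat_lit 15189856728) (nat_lit 228) (nat_lit 1564923765) (nat_lit 17) (nat_lit 5) (nat_lit 19) (nat_lit 5) (nat_lit 20) (nat_lit 5) (nat_lit 289) (nat_lit 268) (nat_lit 163)) (XT.lf (nat_lit 0) (nat_lit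 11082480521) (nat_lit 152) (nat_lit 76724810164) (nat_lit 76) (nat_lit 11500945783) (nat_lit 15) (nat_lit 5) (nat_lit 17) (nat_lit 5) (nat_lit 16) (nat_lit 5) (nat_lit 290) (nat_lit 268) (nat_lit 162))))) (XT.nd (nat_lit 234) (nat_lit 152) (nat_lit 0) (XT.nd (nat_lit 78) (nat_lit 152) (nat_lit 0) (XT.lf (nat_lit 0) (nat_lit 25520415310) (nat_lit 152) (nat_lit 39386495039) (nat_lit 76) (nat_lit 40016500164) (nat_lit 15) (nat_lit 5) (nat_lit 17) (nat_lit 5) (nat_lit 16) (nat_lit 5) (nat_lit 291) (nat_lit 268) (nat_lit 161)) (XT.nd (nat_lit 78) (nat_lit 0) (nat_lit 0) (XT.lf (nat_lit 0) (nat_lit 986489138) (nat_lit 152) (nat_lit 40149452986) (nat_lit 228) (nat_lit 69850056021) (nat_lit 13) (nat_lit 5) (nat_lit 15) (nat_lit 5) (nat_lit 16) (nat_lit 5) (nat_lit 292) (nat_lit 268) (nat_lit 160)) (XT.lf (nat_lit 0) (nat_lit 46827556744) (nat_lit 152) (nat_lit 12248928682) (nat_lit 228) (nat_lit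 58371049339) (nat_lit 13) (nat_lit 5) (nat_lit 15) (nat_lit 5) (nat_lit 16) (nat_lit 5) (nat_lit 293) (nat_lit 268) (nat_lit 159)))) (XT.nd (nat_lit 156) (nat_lit 76) (nat_lit 0) (XT.nd (nat_lit 78) (nat_lit 76) (nat_lit 0) (XT.lf (nat_lit 0) (nat_lit 78881322136) (nat_lit 228) (nat_lit 28521834606) (nat_lit 76) (nat_lit 16988517215) (nat_lit 13) (nat_lit 5) (nat_lit 16) (nat_lit 5) (nat_lit 14) (nat_lit 4) (nat_lit 294) (nat_lit 268) (nat_lit 158)) (XT.lf (nat_lit 0) (nat_lit 17499895911) (nat_lit 76) (nat_lit 83508702733) (nat_lit 152) (nat_lit 30823704778) (nat_lit 12) (nat_lit 5) (nat_lit 13) (nat_lit 5) (nat_lit 14) (nat_lit 4) (nat_lit 295) (nat_lit 268) (nat_lit 157))) (XT.nd (nat_lit 78) (nat_lit 76) (nat_lit 0) (XT.lf (nat_lit 0) (nat_lit 68823939461) (nat_lit 76) (nat_lit 56861017647) (nat_lit 152) (nat_lit 14120917266) (nat_lit 12) (nat_lit 5) (nat_lit 13) (nat_lit 5) (nat_lit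 14) (nat_lit 4) (nat_lit 296) (nat_lit 268) (nat_lit 156)) (XT.lf (nat_lit 0) (nat_lit 3721200849) (nat_lit 152) (nat_lit 24259081705) (nat_lit 76) (nat_lit 120429584183) (nat_lit 11) (nat_lit 5) (nat_lit 13) (nat_lit 5) (nat_lit 12) (nat_lit 5) (nat_lit 297) (nat_lit 268) (nat_lit 155))))))))
noncomputable def xc97 : XT := (XT.nd (nat_lit 1950) (nat_lit 0) (nat_lit 0) (XT.nd (nat_lit 936) (nat_lit 228) (nat_lit 0) (XT.nd (nat_lit 468) (nat_lit 228) (nat_lit 0) (XT.nd (nat_lit 234) (nat_lit 76) (nat_lit 0) (XT.nd (nat_lit 78) (nat_lit 0) (nat_lit 0) (XT.lf (nat_lit 0) (nat_lit 22984702116) (nat_lit 228) (nat_lit 130530460770) (nat_lit 76) (nat_lit 4097123111) (nat_lit 9) (nat_lit 5) (nat_lit 12) (nat_lit 5) (nat_lit 10) (nat_lit 4) (nat_lit 298) (nat_lit 268) (nat_lit 154)) (XT.nd (nat_lit 78) (nat_lit 0) (nat_lit 0) (XT.lf (nat_lit 0) (nat_lit 45195749759) (nat_lit 228) (nat_lit 84333526566)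 (nat_lit 76) (nat_lit 37909107461) (nat_lit 9) (nat_lit 5) (nat_lit 12) (nat_lit 5) (nat_lit 10) (nat_lit 4) (nat_lit 299) (nat_lit 268) (nat_lit 153)) (XT.lf (nat_lit 0) (nat_lit 69182932315) (nat_lit 228) (nat_lit 34442080272) (nat_lit 76) (nat_lit 74425618847) (nat_lit 9) (nat_lit 5) (nat_lit 12) (nat_lit 5) (nat_lit 10) (nat_lit 4) (nat_lit 300) (nat_lit 268) (nat_lit 152)))) (XT.nd (nat_lit 78) (nat_lit 0) (nat_lit 0) (XT.lf (nat_lit 0) (nat_lit 20463182387) (nat_lit 76) (nat_lit 75117353690) (nat_lit 152) (nat_lit 93892009052) (nat_lit 8) (nat_lit 5) (nat_lit 9) (nat_lit 5) (nat_lit 10) (nat_lit 4) (nat_lit 301) (nat_lit 268) (nat_lit 151)) (XT.nd (nat_lit 78) (nat_lit 0) (nat_lit 0) (XT.lf (nat_lit 0) (nat_lit 81718496214) (nat_lit 76) (nat_lit 43312490406) (nat_lit 152) (nat_lit 76701944040) (nat_lit 8) (nat_lit 5) (nat_lit 9) (nat_lit 5) (nat_lit 10) (nat_lit 4) (nat_lit 302)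 (nat_lit 268) (nat_lit 150)) (XT.lf (nat_lit 0) (nat_lit 147873196750) (nat_lit 76) (nat_lit 8963656982) (nat_lit 152) (nat_lit 58137344543) (nat_lit 8) (nat_lit 5) (nat_lit 9) (nat_lit 5) (nat_lit 10) (nat_lit 4) (nat_lit 303) (nat_lit 268) (nat_lit 149))))) (XT.nd (nat_lit 234) (nat_lit 76) (nat_lit 0) (XT.nd (nat_lit 78) (nat_lit 152) (nat_lit 0) (XT.lf (nat_lit 0) (nat_lit 191863208625) (nat_lit 152) (nat_lit 10632094893) (nat_lit 0) (nat_lit 26725383869) (nat_lit 8) (nat_lit 5) (nat_lit 10) (nat_lit 4) (nat_lit 8) (nat_lit 4) (nat_lit 304) (nat_lit 268) (nat_lit 148)) (XT.nd (nat_lit 78) (nat_lit 76) (nat_lit 0) (XT.lf (nat_lit 0) (nat_lit 52759837193) (nat_lit 76) (nat_lit 178432992590) (nat_lit 76) (nat_lit 13293974659) (nat_lit 7) (nat_lit 4) (nat_lit 8) (nat_lit 5) (nat_lit 8) (nat_lit 4) (nat_lit 305) (nat_lit 268) (nat_lit 147)) (XT.lf (nat_lit 0) (nat_lit 12357288685) (nat_lit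 152) (nat_lit 139436962257) (nat_lit 76) (nat_lit 109131719526) (nat_lit 6) (nat_lit 5) (nat_lit 8) (nat_lit 5) (nat_lit 7) (nat_lit 4) (nat_lit 306) (nat_lit 268) (nat_lit 146)))) (XT.nd (nat_lit 78) (nat_lit 76) (nat_lit 0) (XT.lf (nat_lit 0) (nat_lit 39341936625) (nat_lit 152) (nat_lit 83309917498) (nat_lit 76) (nat_lit 156000832680) (nat_lit 6) (nat_lit 5) (nat_lit 8) (nat_lit 5) (nat_lit 7) (nat_lit 4) (nat_lit 307) (nat_lit 268) (nat_lit 145)) (XT.nd (nat_lit 78) (nat_lit 76) (nat_lit 0) (XT.lf (nat_lit 0) (nat_lit 68484896638) (nat_lit 152) (nat_lit 22693507854) (nat_lit 76) (nat_lit 206619173796) (nat_lit 6) (nat_lit 5) (nat_lit 8) (nat_lit 5) (nat_lit 7) (nat_lit 4) (nat_lit 308) (nat_lit 268) (nat_lit 144)) (XT.lf (nat_lit 0) (nat_lit 45023745107) (nat_lit 76) (nat_lit 56017944790) (nat_lit 152) (nat_lit 217345780459) (nat_lit 5) (nat_lit 5) (nat_lit 6) (nat_lit 5) (nat_lit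 7) (nat_lit 4) (nat_lit 309) (nat_lit 268) (nat_lit 143)))))) (XT.nd (nat_lit 468) (nat_lit 152) (nat_lit 0) (XT.nd (nat_lit 234) (nat_lit 76) (nat_lit 0) (XT.nd (nat_lit 78) (nat_lit 0) (nat_lit 0) (XT.lf (nat_lit 0) (nat_lit 119448257397) (nat_lit 76) (nat_lit 17374838436) (nat_lit 152) (nat_lit 203751853333) (nat_lit 5) (nat_lit 5) (nat_lit 6) (nat_lit 5) (nat_lit 7) (nat_lit 4) (nat_lit 310) (nat_lit 268) (nat_lit 142)) (XT.nd (nat_lit 78) (nat_lit 0) (nat_lit 0) (XT.lf (nat_lit 0) (nat_lit 176052478096) (nat_lit 152) (nat_lit 165297239229) (nat_lit 0) (nat_lit 23140872688) (nat_lit 5) (nat_lit 5) (nat_lit 7) (nat_lit 4) (nat_lit 5) (nat_lit 4) (nat_lit 311) (nat_lit 268) (nat_lit 141)) (XT.lf (nat_lit 0) (nat_lit 218871146265) (nat_lit 152) (nat_lit 105453365595) (nat_lit 0) (nat_lit 65958896222) (nat_lit 5) (nat_lit 5) (nat_lit 7) (nat_lit 4) (nat_lit 5) (nat_lit 4) (nat_lit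 312) (nat_lit 268) (nat_lit 140)))) (XT.nd (nat_lit 78) (nat_lit 76) (nat_lit 0) (XT.lf (nat_lit 0) (nat_lit 265114975315) (nat_lit 152) (nat_lit 40822575223) (nat_lit 0) (nat_lit 112202128387) (nat_lit 5) (nat_lit 5) (nat_lit 7) (nat_lit 4) (nat_lit 5) (nat_lit 4) (nat_lit 313) (nat_lit 268) (nat_lit 139)) (XT.nd (nat_lit 78) (nat_lit 0) (nat_lit 0) (XT.lf (nat_lit 0) (nat_lit 30504066091) (nat_lit 76) (nat_lit 285287560183) (nat_lit 76) (nat_lit 132374160583) (nat_lit 4) (nat_lit 4) (nat_lit 5) (nat_lit 5) (nat_lit 5) (nat_lit 4) (nat_lit 314) (nat_lit 268) (nat_lit 138)) (XT.lf (nat_lit 0) (nat_lit 109857919424) (nat_lit 76) (nat_lit 261780353434) (nat_lit 76) (nat_lit 108866442101) (nat_lit 4) (nat_lit 4) (nat_lit 5) (nat_lit 5) (nat_lit 5) (nat_lit 4) (nat_lit 315) (nat_lit 268) (nat_lit 137))))) (XT.nd (nat_lit 234) (nat_lit 152) (nat_lit 0) (XT.nd (nat_lit 78) (nat_lit 0) (nat_lit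 0) (XT.lf (nat_lit 0) (nat_lit 195559585366) (nat_lit 76) (nat_lit 236392789875) (nat_lit 76) (nat_lit 83478404716) (nat_lit 4) (nat_lit 4) (nat_lit 5) (nat_lit 5) (nat_lit 5) (nat_lit 4) (nat_lit 316) (nat_lit 268) (nat_lit 136)) (XT.nd (nat_lit 78) (nat_lit 0) (nat_lit 0) (XT.lf (nat_lit 0) (nat_lit 288116925639) (nat_lit 76) (nat_lit 208974424687) (nat_lit 76) (nat_lit 56059600799) (nat_lit 4) (nat_lit 4) (nat_lit 5) (nat_lit 5) (nat_lit 5) (nat_lit 4) (nat_lit 317) (nat_lit 268) (nat_lit 135)) (XT.lf (nat_lit 0) (nat_lit 388078428188) (nat_lit 76) (nat_lit 179362778666) (nat_lit 76) (nat_lit 26447548549) (nat_lit 4) (nat_lit 4) (nat_lit 5) (nat_lit 5) (nat_lit 5) (nat_lit 4) (nat_lit 318) (nat_lit 268) (nat_lit 134)))) (XT.nd (nat_lit 156) (nat_lit 76) (nat_lit 0) (XT.nd (nat_lit 78) (nat_lit 0) (nat_lit 0) (XT.lf (nat_lit 0) (nat_lit 5256436244) (nat_lit 152) (nat_lit 141982218867)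 (nat_lit 76) (nat_lit 490636300944) (nat_lit 3) (nat_lit 5) (nat_lit 5) (nat_lit 5) (nat_lit 4) (nat_lit 4) (nat_lit 319) (nat_lit 268) (nat_lit 133)) (XT.lf (nat_lit 0) (nat_lit 38067676767) (nat_lit 152) (nat_lit 73735186856) (nat_lit 76) (nat_lit 573522250260) (nat_lit 3) (nat_lit 5) (nat_lit 5) (nat_lit 5) (nat_lit 4) (nat_lit 4) (nat_lit 320) (nat_lit 268) (nat_lit 132))) (XT.nd (nat_lit 78) (nat_lit 76) (nat_lit 0) (XT.lf (nat_lit 0) (nat_lit 73503623491) (nat_lit 152) (nat_lit 28740147) (nat_lit 76) (nat_lit 663038936503) (nat_lit 3) (nat_lit 5) (nat_lit 5) (nat_lit 5) (nat_lit 4) (nat_lit 4) (nat_lit 321) (nat_lit 268) (nat_lit 131)) (XT.lf (nat_lit 0) (nat_lit 83764120769) (nat_lit 76) (nat_lit 30024675563) (nat_lit 152) (nat_lit 677967237274) (nat_lit 2) (nat_lit 5) (nat_lit 3) (nat_lit 5) (nat_lit 4) (nat_lit 4) (nat_lit 322) (nat_lit 268) (nat_lit 130))))))) (XT.nd (nat_lit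 33306) (nat_lit 0) (nat_lit 1900) (XT.nd (nat_lit 468) (nat_lit 0) (nat_lit 0) (XT.nd (nat_lit 234) (nat_lit 0) (nat_lit 0) (XT.nd (nat_lit 78) (nat_lit 0) (nat_lit 0) (XT.lf (nat_lit 0) (nat_lit 157705388428) (nat_lit 152) (nat_lit 677501758614) (nat_lit 0) (nat_lit 16115710580) (nat_lit 2) (nat_lit 5) (nat_lit 4) (nat_lit 4) (nat_lit 2) (nat_lit 4) (nat_lit 323) (nat_lit 268) (nat_lit 129)) (XT.nd (nat_lit 78) (nat_lit 0) (nat_lit 0) (XT.lf (nat_lit 0) (nat_lit 205915006225) (nat_lit 152) (nat_lit 645352554410) (nat_lit 0) (nat_lit 64325091346) (nat_lit 2) (nat_lit 5) (nat_lit 4) (nat_lit 4) (nat_lit 2) (nat_lit 4) (nat_lit 324) (nat_lit 268) (nat_lit 128)) (XT.lf (nat_lit 0) (nat_lit 257981242177) (nat_lit 152) (nat_lit 610631692253) (nat_lit 0) (nat_lit 116391107824) (nat_lit 2) (nat_lit 5) (nat_lit 4) (nat_lit 4) (nat_lit 2) (nat_lit 4) (nat_lit 325) (nat_lit 268) (nat_lit 127))))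 (XT.nd (nat_lit 78) (nat_lit 0) (nat_lit 0) (XT.lf (nat_lit 0) (nat_lit 314212636941) (nat_lit 152) (nat_lit 573133418887) (nat_lit 0) (nat_lit 172622299373) (nat_lit 2) (nat_lit 5) (nat_lit 4) (nat_lit 4) (nat_lit 2) (nat_lit 4) (nat_lit 326) (nat_lit 268) (nat_lit 126)) (XT.nd (nat_lit 78) (nat_lit 0) (nat_lit 0) (XT.lf (nat_lit 0) (nat_lit 374942413599) (nat_lit 152) (nat_lit 532635522320) (nat_lit 0) (nat_lit 233351887867) (nat_lit 2) (nat_lit 5) (nat_lit 4) (nat_lit 4) (nat_lit 2) (nat_lit 4) (nat_lit 327) (nat_lit 268) (nat_lit 125)) (XT.lf (nat_lit 0) (nat_lit 440530452307) (nat_lit 152) (nat_lit 488898015018) (nat_lit 0) (nat_lit 298939752350) (nat_lit 2) (nat_lit 5) (nat_lit 4) (nat_lit 4) (nat_lit 2) (nat_lit 4) (nat_lit 328) (nat_lit 268) (nat_lit 124))))) (XT.nd (nat_lit 234) (nat_lit 0) (nat_lit 0) (XT.nd (nat_lit 78) (nat_lit 0) (nat_lit 0) (XT.lf (nat_lit 0) (nat_lit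 511365422925) (nat_lit 152) (nat_lit 441661711753) (nat_lit 0) (nat_lit 369774561649) (nat_lit 2) (nat_lit 5) (nat_lit 4) (nat_lit 4) (nat_lit 2) (nat_lit 4) (nat_lit 329) (nat_lit 268) (nat_lit 123)) (XT.nd (nat_lit 78) (nat_lit 0) (nat_lit 0) (XT.lf (nat_lit 0) (nat_lit 587867088241) (nat_lit 152) (nat_lit 390646693689) (nat_lit 0) (nat_lit 446276077595) (nat_lit 2) (nat_lit 5) (nat_lit 4) (nat_lit 4) (nat_lit 2) (nat_lit 4) (nat_lit 330) (nat_lit 268) (nat_lit 122)) (XT.lf (nat_lit 0) (nat_lit 670488791458) (nat_lit 152) (nat_lit 335550649610) (nat_lit 0) (nat_lit 528897642507) (nat_lit 2) (nat_lit 5) (nat_lit 4) (nat_lit 4) (nat_lit 2) (nat_lit 4) (nat_lit 331) (nat_lit 268) (nat_lit 121)))) (XT.nd (nat_lit 78) (nat_lit 0) (nat_lit 0) (XT.lf (nat_lit 0) (nat_lit 759720142669) (nat_lit 152) (nat_lit 276047084438) (nat_lit 0) (nat_lit 618128865657) (nat_lit 2) (nat_lit 5) (nat_lit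 4) (nat_lit 4) (nat_lit 2) (nat_lit 4) (nat_lit 332) (nat_lit 268) (nat_lit 120)) (XT.nd (nat_lit 78) (nat_lit 0) (nat_lit 0) (XT.lf (nat_lit 0) (nat_lit 856089920251) (nat_lit 152) (nat_lit 211783384455) (nat_lit 0) (nat_lit 714498524664) (nat_lit 2) (nat_lit 5) (nat_lit 4) (nat_lit 4) (nat_lit 2) (nat_lit 4) (nat_lit 333) (nat_lit 268) (nat_lit 119)) (XT.lf (nat_lit 0) (nat_lit 960169204367) (nat_lit 152) (nat_lit 142378727734) (nat_lit 0) (nat_lit 818577698989) (nat_lit 2) (nat_lit 5) (nat_lit 4) (nat_lit 4) (nat_lit 2) (nat_lit 4) (nat_lit 334) (nat_lit 268) (nat_lit 118)))))) (XT.nd (nat_lit 468) (nat_lit 456) (nat_lit 0) (XT.nd (nat_lit 234) (nat_lit 0) (nat_lit 76) (XT.nd (nat_lit 78) (nat_lit 0) (nat_lit 0) (XT.lf (nat_lit 0) (nat_lit 5781278921) (nat_lit 532) (nat_lit 6683273454) (nat_lit 532) (nat_lit 6683273454) (nat_lit 33) (nat_lit 3) (nat_lit 40) (nat_lit 3) (nat_lit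 40) (nat_lit 5) (nat_lit 269) (nat_lit 269) (nat_lit 182)) (XT.nd (nat_lit 78) (nat_lit 0) (nat_lit 76) (XT.lf (nat_lit 76) (nat_lit 2900831692) (nat_lit 0) (nat_lit 9233597208) (nat_lit 532) (nat_lit 27684068862) (nat_lit 34) (nat_lit 5) (nat_lit 33) (nat_lit 3) (nat_lit 40) (nat_lit 5) (nat_lit 270) (nat_lit 269) (nat_lit 181)) (XT.lf (nat_lit 0) (nat_lit 13308640020) (nat_lit 456) (nat_lit 20401917255) (nat_lit 532) (nat_lit 7708110106) (nat_lit 34) (nat_lit 5) (nat_lit 40) (nat_lit 5) (nat_lit 41) (nat_lit 5) (nat_lit 271) (nat_lit 269) (nat_lit 180)))) (XT.nd (nat_lit 78) (nat_lit 0) (nat_lit 76) (XT.lf (nat_lit 0) (nat_lit 14812941548) (nat_lit 456) (nat_lit 2807196831) (nat_lit 532) (nat_lit 25507841258) (nat_lit 34) (nat_lit 5) (nat_lit 40) (nat_lit 5) (nat_lit 41) (nat_lit 5) (nat_lit 272) (nat_lit 269) (nat_lit 179)) (XT.nd (nat_lit 78) (nat_lit 0) (nat_lit 0) (XT.lf (nat_lit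 0) (nat_lit 16848968074) (nat_lit 456) (nat_lit 27900862973) (nat_lit 532) (nat_lit 191315127) (nat_lit 35) (nat_lit 5) (nat_lit 41) (nat_lit 5) (nat_lit 42) (nat_lit 5) (nat_lit 273) (nat_lit 269) (nat_lit 178)) (XT.lf (nat_lit 0) (nat_lit 19581105446) (nat_lit 456) (nat_lit 8720189967) (nat_lit 532) (nat_lit 18555430625) (nat_lit 35) (nat_lit 5) (nat_lit 41) (nat_lit 5) (nat_lit 42) (nat_lit 5) (nat_lit 274) (nat_lit 269) (nat_lit 177))))) (XT.nd (nat_lit 234) (nat_lit 228) (nat_lit 0) (XT.nd (nat_lit 78) (nat_lit 380) (nat_lit 0) (XT.lf (nat_lit 76) (nat_lit 12624118541) (nat_lit 0) (nat_lit 10208356966) (nat_lit 532) (nat_lit 26069040795) (nat_lit 36) (nat_lit 5) (nat_lit 35) (nat_lit 5) (nat_lit 42) (nat_lit 5) (nat_lit 275) (nat_lit 269) (nat_lit 176)) (XT.nd (nat_lit 78) (nat_lit 456) (nat_lit 0) (XT.lf (nat_lit 0) (nat_lit 26810236314) (nat_lit 456) (nat_lit 15152067009) (nat_lit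 76) (nat_lit 9110299665) (nat_lit 36) (nat_lit 5) (nat_lit 42) (nat_lit 5) (nat_lit 37) (nat_lit 5) (nat_lit 276) (nat_lit 269) (nat_lit 175)) (XT.lf (nat_lit 0) (nat_lit 7785254880) (nat_lit 456) (nat_lit 23770783767) (nat_lit 532) (nat_lit 21825366841) (nat_lit 30) (nat_lit 5) (nat_lit 36) (nat_lit 5) (nat_lit 37) (nat_lit 5) (nat_lit 277) (nat_lit 269) (nat_lit 174)))) (XT.nd (nat_lit 156) (nat_lit 0) (nat_lit 0) (XT.nd (nat_lit 78) (nat_lit 228) (nat_lit 0) (XT.lf (nat_lit 0) (nat_lit 33416999895) (nat_lit 456) (nat_lit 3676358059) (nat_lit 532) (nat_lit 18748619464) (nat_lit 30) (nat_lit 5) (nat_lit 36) (nat_lit 5) (nat_lit 37) (nat_lit 5) (nat_lit 278) (nat_lit 269) (nat_lit 173)) (XT.lf (nat_lit 0) (nat_lit 2278027185) (nat_lit 228) (nat_lit 41281690913) (nat_lit 304) (nat_lit 14900805039) (nat_lit 27) (nat_lit 5) (nat_lit 30) (nat_lit 5) (nat_lit 31) (nat_lit 5) (nat_lit 279)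 (nat_lit 269) (nat_lit 172))) (XT.nd (nat_lit 78) (nat_lit 0) (nat_lit 0) (XT.lf (nat_lit 0) (nat_lit 30129839007) (nat_lit 228) (nat_lit 21117623634) (nat_lit 304) (nat_lit 9984775359) (nat_lit 27) (nat_lit 5) (nat_lit 30) (nat_lit 5) (nat_lit 31) (nat_lit 5) (nat_lit 280) (nat_lit 269) (nat_lit 171)) (XT.lf (nat_lit 0) (nat_lit 59564109777) (nat_lit 304) (nat_lit 4034000658) (nat_lit 76) (nat_lit 626479655) (nat_lit 27) (nat_lit 5) (nat_lit 31) (nat_lit 5) (nat_lit 28) (nat_lit 5) (nat_lit 281) (nat_lit 269) (nat_lit 170))))))))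
noncomputable def xc98 : XT := (XT.nd (nat_lit 1950) (nat_lit 380) (nat_lit 0) (XT.nd (nat_lit 936) (nat_lit 456) (nat_lit 0) (XT.nd (nat_lit 468) (nat_lit 456) (nat_lit 0) (XT.nd (nat_lit 234) (nat_lit 152) (nat_lit 0) (XT.nd (nat_lit 78) (nat_lit 228) (nat_lit 0) (XT.lf (nat_lit 0) (nat_lit 2236352031) (nat_lit 228) (nat_lit 41472030173) (nat_lit 76) (nat_lit 23649771977) (nat_lit 24) (nat_lit 5) (nat_lit 27) (nat_lit 5) (nat_lit 25) (nat_lit 5) (nat_lit 282) (nat_lit 269) (nat_lit 169)) (XT.nd (nat_lit 78) (nat_lit 228) (nat_lit 0) (XT.lf (nat_lit 0) (nat_lit 9544505598) (nat_lit 228) (nat_lit 12430348299) (nat_lit 76) (nat_lit 48748964934) (nat_lit 24) (nat_lit 5) (nat_lit 27) (nat_lit 5) (nat_lit 25) (nat_lit 5) (nat_lit 283) (nat_lit 269) (nat_lit 168)) (XT.lf (nat_lit 0) (nat_lit 17963407361) (nat_lit 304) (nat_lit 54439326988) (nat_lit 76) (nat_lit 1913922484) (nat_lit 21)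 (nat_lit 5) (nat_lit 25) (nat_lit 5) (nat_lit 22) (nat_lit 5) (nat_lit 284) (nat_lit 269) (nat_lit 167)))) (XT.nd (nat_lit 78) (nat_lit 152) (nat_lit 0) (XT.lf (nat_lit 0) (nat_lit 27973694845) (nat_lit 304) (nat_lit 23274835561) (nat_lit 76) (nat_lit 26874968850) (nat_lit 21) (nat_lit 5) (nat_lit 25) (nat_lit 5) (nat_lit 22) (nat_lit 5) (nat_lit 285) (nat_lit 269) (nat_lit 166)) (XT.nd (nat_lit 78) (nat_lit 0) (nat_lit 0) (XT.lf (nat_lit 0) (nat_lit 10927560542) (nat_lit 152) (nat_lit 28118573871) (nat_lit 228) (nat_lit 43167855063) (nat_lit 19) (nat_lit 5) (nat_lit 21) (nat_lit 5) (nat_lit 22) (nat_lit 5) (nat_lit 286) (nat_lit 269) (nat_lit 165)) (XT.lf (nat_lit 0) (nat_lit 49187961369) (nat_lit 152) (nat_lit 2451369144) (nat_lit 228) (nat_lit 34941597723) (nat_lit 19) (nat_lit 5) (nat_lit 21) (nat_lit 5) (nat_lit 22) (nat_lit 5) (nat_lit 287) (nat_lit 269) (nat_lit 164))))) (XT.nd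 (nat_lit 234) (nat_lit 304) (nat_lit 0) (XT.nd (nat_lit 78) (nat_lit 152) (nat_lit 0) (XT.lf (nat_lit 0) (nat_lit 65846388649) (nat_lit 228) (nat_lit 1397564473) (nat_lit 76) (nat_lit 24004762239) (nat_lit 19) (nat_lit 5) (nat_lit 22) (nat_lit 5) (nat_lit 20) (nat_lit 5) (nat_lit 288) (nat_lit 269) (nat_lit 163)) (XT.nd (nat_lit 78) (nat_lit 0) (nat_lit 0) (XT.lf (nat_lit 0) (nat_lit 39382176875) (nat_lit 152) (nat_lit 42817427667) (nat_lit 228) (nat_lit 14009558805) (nat_lit 17) (nat_lit 5) (nat_lit 19) (nat_lit 5) (nat_lit 20) (nat_lit 5) (nat_lit 289) (nat_lit 269) (nat_lit 162)) (XT.lf (nat_lit 0) (nat_lit 83502143426) (nat_lit 152) (nat_lit 16395976188) (nat_lit 228) (nat_lit 1665369155) (nat_lit 17) (nat_lit 5) (nat_lit 19) (nat_lit 5) (nat_lit 20) (nat_lit 5) (nat_lit 290) (nat_lit 269) (nat_lit 161)))) (XT.nd (nat_lit 78) (nat_lit 152) (nat_lit 0) (XT.lf (nat_lit 0) (nat_lit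 11991863204) (nat_lit 152) (nat_lit 82828763597) (nat_lit 76) (nat_lit 12430363100) (nat_lit 15) (nat_lit 5) (nat_lit 17) (nat_lit 5) (nat_lit 16) (nat_lit 5) (nat_lit 291) (nat_lit 269) (nat_lit 160)) (XT.nd (nat_lit 78) (nat_lit 152) (nat_lit 0) (XT.lf (nat_lit 0) (nat_lit 27583145055) (nat_lit 152) (nat_lit 42505904105) (nat_lit 76) (nat_lit 43226469857) (nat_lit 15) (nat_lit 5) (nat_lit 17) (nat_lit 5) (nat_lit 16) (nat_lit 5) (nat_lit 292) (nat_lit 269) (nat_lit 159)) (XT.lf (nat_lit 0) (nat_lit 1096121070) (nat_lit 152) (nat_lit 43350968881) (nat_lit 228) (nat_lit 75416095308) (nat_lit 13) (nat_lit 5) (nat_lit 15) (nat_lit 5) (nat_lit 16) (nat_lit 5) (nat_lit 293) (nat_lit 269) (nat_lit 158)))))) (XT.nd (nat_lit 468) (nat_lit 152) (nat_lit 0) (XT.nd (nat_lit 234) (nat_lit 228) (nat_lit 0) (XT.nd (nat_lit 78) (nat_lit 76) (nat_lit 0) (XT.lf (nat_lit 0) (nat_lit 50602199062) (nat_lit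 152) (nat_lit 13219175993) (nat_lit 228) (nat_lit 63020395143) (nat_lit 13) (nat_lit 5) (nat_lit 15) (nat_lit 5) (nat_lit 16) (nat_lit 5) (nat_lit 294) (nat_lit 269) (nat_lit 157)) (XT.nd (nat_lit 78) (nat_lit 76) (nat_lit 0) (XT.lf (nat_lit 0) (nat_lit 85209423542) (nat_lit 228) (nat_lit 30776014118) (nat_lit 76) (nat_lit 18356101743) (nat_lit 13) (nat_lit 5) (nat_lit 16) (nat_lit 5) (nat_lit 14) (nat_lit 4) (nat_lit 295) (nat_lit 269) (nat_lit 156)) (XT.lf (nat_lit 0) (nat_lit 18926756934) (nat_lit 76) (nat_lit 90179468064) (nat_lit 152) (nat_lit 33271251306) (nat_lit 12) (nat_lit 5) (nat_lit 13) (nat_lit 5) (nat_lit 14) (nat_lit 4) (nat_lit 296) (nat_lit 269) (nat_lit 155)))) (XT.nd (nat_lit 78) (nat_lit 228) (nat_lit 0) (XT.lf (nat_lit 0) (nat_lit 74354733646) (nat_lit 76) (nat_lit 61400703793) (nat_lit 152) (nat_lit 15233600042) (nat_lit 12) (nat_lit 5) (nat_lit 13) (nat_lit 5)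 (nat_lit 14) (nat_lit 4) (nat_lit 297) (nat_lit 269) (nat_lit 154)) (XT.nd (nat_lit 78) (nat_lit 152) (nat_lit 0) (XT.lf (nat_lit 0) (nat_lit 4033841979) (nat_lit 152) (nat_lit 26175940419) (nat_lit 76) (nat_lit 130071633369) (nat_lit 11) (nat_lit 5) (nat_lit 13) (nat_lit 5) (nat_lit 12) (nat_lit 5) (nat_lit 298) (nat_lit 269) (nat_lit 153)) (XT.lf (nat_lit 0) (nat_lit 24838089025) (nat_lit 228) (nat_lit 140948654094) (nat_lit 76) (nat_lit 4433315506) (nat_lit 9) (nat_lit 5) (nat_lit 12) (nat_lit 5) (nat_lit 10) (nat_lit 4) (nat_lit 299) (nat_lit 269) (nat_lit 152))))) (XT.nd (nat_lit 234) (nat_lit 76) (nat_lit 0) (XT.nd (nat_lit 78) (nat_lit 76) (nat_lit 0) (XT.lf (nat_lit 0) (nat_lit 48824938202) (nat_lit 228) (nat_lit 91057760972) (nat_lit 76) (nat_lit 40949634713) (nat_lit 9) (nat_lit 5) (nat_lit 12) (nat_lit 5) (nat_lit 10) (nat_lit 4) (nat_lit 300) (nat_lit 269) (nat_lit 151))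 (XT.nd (nat_lit 78) (nat_lit 76) (nat_lit 0) (XT.lf (nat_lit 0) (nat_lit 74730093254) (nat_lit 228) (nat_lit 37176661768) (nat_lit 76) (nat_lit 80386889332) (nat_lit 9) (nat_lit 5) (nat_lit 12) (nat_lit 5) (nat_lit 10) (nat_lit 4) (nat_lit 301) (nat_lit 269) (nat_lit 150)) (XT.lf (nat_lit 0) (nat_lit 22120495703) (nat_lit 76) (nat_lit 81118568958) (nat_lit 152) (nat_lit 101390284363) (nat_lit 8) (nat_lit 5) (nat_lit 9) (nat_lit 5) (nat_lit 10) (nat_lit 4) (nat_lit 302) (nat_lit 269) (nat_lit 149)))) (XT.nd (nat_lit 156) (nat_lit 76) (nat_lit 0) (XT.nd (nat_lit 78) (nat_lit 0) (nat_lit 0) (XT.lf (nat_lit 0) (nat_lit 88274733990) (nat_lit 76) (nat_lit 46769922021) (nat_lit 152) (nat_lit 82825983440) (nat_lit 8) (nat_lit 5) (nat_lit 9) (nat_lit 5) (nat_lit 10) (nat_lit 4) (nat_lit 303) (nat_lit 269) (nat_lit 148)) (XT.lf (nat_lit 0) (nat_lit 159720421082) (nat_lit 76) (nat_lit 9673742488)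 (nat_lit 152) (nat_lit 62777113473) (nat_lit 8) (nat_lit 5) (nat_lit 9) (nat_lit 5) (nat_lit 10) (nat_lit 4) (nat_lit 304) (nat_lit 269) (nat_lit 147))) (XT.nd (nat_lit 78) (nat_lit 76) (nat_lit 0) (XT.lf (nat_lit 0) (nat_lit 207222015369) (nat_lit 152) (nat_lit 11465942886) (nat_lit 0) (nat_lit 28869578034) (nat_lit 8) (nat_lit 5) (nat_lit 10) (nat_lit 4) (nat_lit 8) (nat_lit 4) (nat_lit 305) (nat_lit 269) (nat_lit 146)) (XT.lf (nat_lit 0) (nat_lit 56996920485) (nat_lit 76) (nat_lit 192700755435) (nat_lit 76) (nat_lit 14347295144) (nat_lit 7) (nat_lit 4) (nat_lit 8) (nat_lit 5) (nat_lit 8) (nat_lit 4) (nat_lit 306) (nat_lit 269) (nat_lit 145))))))) (XT.nd (nat_lit 936) (nat_lit 152) (nat_lit 0) (XT.nd (nat_lit 468) (nat_lit 76) (nat_lit 0) (XT.nd (nat_lit 234) (nat_lit 76) (nat_lit 0) (XT.nd (nat_lit 78) (nat_lit 0) (nat_lit 0) (XT.lf (nat_lit 0) (nat_lit 13354841565) (nat_lit 152)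 (nat_lit 150576337015) (nat_lit 76) (nat_lit 117868131236) (nat_lit 6) (nat_lit 5) (nat_lit 8) (nat_lit 5) (nat_lit 7) (nat_lit 4) (nat_lit 307) (nat_lit 269) (nat_lit 144)) (XT.nd (nat_lit 78) (nat_lit 0) (nat_lit 0) (XT.lf (nat_lit 0) (nat_lit 42497596911) (nat_lit 152) (nat_lit 89960282915) (nat_lit 76) (nat_lit 168486338320) (nat_lit 6) (nat_lit 5) (nat_lit 8) (nat_lit 5) (nat_lit 7) (nat_lit 4) (nat_lit 308) (nat_lit 269) (nat_lit 143)) (XT.lf (nat_lit 0) (nat_lit 73971378513) (nat_lit 152) (nat_lit 24495629238) (nat_lit 76) (nat_lit 223153743835) (nat_lit 6) (nat_lit 5) (nat_lit 8) (nat_lit 5) (nat_lit 7) (nat_lit 4) (nat_lit 309) (nat_lit 269) (nat_lit 142)))) (XT.nd (nat_lit 78) (nat_lit 0) (nat_lit 0) (XT.lf (nat_lit 0) (nat_lit 48638665751) (nat_lit 76) (nat_lit 60493792999) (nat_lit 152) (nat_lit 234725398105) (nat_lit 5) (nat_lit 5) (nat_lit 6) (nat_lit 5) (nat_lit 7) (nat_lit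 4) (nat_lit 310) (nat_lit 269) (nat_lit 141)) (XT.nd (nat_lit 78) (nat_lit 0) (nat_lit 0) (XT.lf (nat_lit 0) (nat_lit 129016174502) (nat_lit 76) (nat_lit 18759652016) (nat_lit 152) (nat_lit 220044552719) (nat_lit 5) (nat_lit 5) (nat_lit 6) (nat_lit 5) (nat_lit 7) (nat_lit 4) (nat_lit 311) (nat_lit 269) (nat_lit 140)) (XT.lf (nat_lit 0) (nat_lit 190143164715) (nat_lit 152) (nat_lit 178509446189) (nat_lit 0) (nat_lit 24996693148) (nat_lit 5) (nat_lit 5) (nat_lit 7) (nat_lit 4) (nat_lit 5) (nat_lit 4) (nat_lit 312) (nat_lit 269) (nat_lit 139))))) (XT.nd (nat_lit 234) (nat_lit 0) (nat_lit 0) (XT.nd (nat_lit 78) (nat_lit 76) (nat_lit 0) (XT.lf (nat_lit 0) (nat_lit 236386845718) (nat_lit 152) (nat_lit 113878919862) (nat_lit 0) (nat_lit 71239821479) (nat_lit 5) (nat_lit 5) (nat_lit 7) (nat_lit 4) (nat_lit 5) (nat_lit 4) (nat_lit 313) (nat_lit 269) (nat_lit 138)) (XT.nd (nat_lit 78) (nat_lit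 76) (nat_lit 0) (XT.lf (nat_lit 0) (nat_lit 286329736073) (nat_lit 152) (nat_lit 44078459963) (nat_lit 0) (nat_lit 121182200102) (nat_lit 5) (nat_lit 5) (nat_lit 7) (nat_lit 4) (nat_lit 5) (nat_lit 4) (nat_lit 314) (nat_lit 269) (nat_lit 137)) (XT.lf (nat_lit 0) (nat_lit 32954061484) (nat_lit 76) (nat_lit 308106278136) (nat_lit 76) (nat_lit 142958268338) (nat_lit 4) (nat_lit 4) (nat_lit 5) (nat_lit 5) (nat_lit 5) (nat_lit 4) (nat_lit 315) (nat_lit 269) (nat_lit 136)))) (XT.nd (nat_lit 78) (nat_lit 0) (nat_lit 0) (XT.lf (nat_lit 0) (nat_lit 118655506780) (nat_lit 76) (nat_lit 282718812393) (nat_lit 76) (nat_lit 117570363866) (nat_lit 4) (nat_lit 4) (nat_lit 5) (nat_lit 5) (nat_lit 5) (nat_lit 4) (nat_lit 316) (nat_lit 269) (nat_lit 135)) (XT.nd (nat_lit 78) (nat_lit 0) (nat_lit 0) (XT.lf (nat_lit 0) (nat_lit 211212642752) (nat_lit 76) (nat_lit 255300537773) (nat_lit 76) (nat_lit 90151683016)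 (nat_lit 4) (nat_lit 4) (nat_lit 5) (nat_lit 5) (nat_lit 5) (nat_lit 4) (nat_lit 317) (nat_lit 269) (nat_lit 134)) (XT.lf (nat_lit 0) (nat_lit 311173956133) (nat_lit 76) (nat_lit 225688975613) (nat_lit 76) (nat_lit 60539744717) (nat_lit 4) (nat_lit 4) (nat_lit 5) (nat_lit 5) (nat_lit 5) (nat_lit 4) (nat_lit 318) (nat_lit 269) (nat_lit 133)))))) (XT.nd (nat_lit 468) (nat_lit 0) (nat_lit 0) (XT.nd (nat_lit 234) (nat_lit 76) (nat_lit 0) (XT.nd (nat_lit 78) (nat_lit 76) (nat_lit 0) (XT.lf (nat_lit 0) (nat_lit 419131810260) (nat_lit 76) (nat_lit 193708649989) (nat_lit 76) (nat_lit 28559070817) (nat_lit 4) (nat_lit 4) (nat_lit 5) (nat_lit 5) (nat_lit 5) (nat_lit 4) (nat_lit 319) (nat_lit 269) (nat_lit 132)) (XT.nd (nat_lit 78) (nat_lit 0) (nat_lit 0) (XT.lf (nat_lit 0) (nat_lit 5680717285) (nat_lit 152) (nat_lit 153334009697) (nat_lit 76) (nat_lit 529889917217) (nat_lit 3) (nat_lit 5) (nat_lit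 5) (nat_lit 5) (nat_lit 4) (nat_lit 4) (nat_lit 320) (nat_lit 269) (nat_lit 131)) (XT.lf (nat_lit 0) (nat_lit 41116578076) (nat_lit 152) (nat_lit 79627717842) (nat_lit 76) (nat_lit 619406541575) (nat_lit 3) (nat_lit 5) (nat_lit 5) (nat_lit 5) (nat_lit 4) (nat_lit 4) (nat_lit 321) (nat_lit 269) (nat_lit 130)))) (XT.nd (nat_lit 78) (nat_lit 76) (nat_lit 0) (XT.lf (nat_lit 0) (nat_lit 79387142230) (nat_lit 152) (nat_lit 25220875) (nat_lit 76) (nat_lit 716084376696) (nat_lit 3) (nat_lit 5) (nat_lit 5) (nat_lit 5) (nat_lit 4) (nat_lit 4) (nat_lit 322) (nat_lit 269) (nat_lit 129)) (XT.nd (nat_lit 78) (nat_lit 0) (nat_lit 0) (XT.lf (nat_lit 0) (nat_lit 90470921611) (nat_lit 76) (nat_lit 32424104503) (nat_lit 152) (nat_lit 732201234497) (nat_lit 2) (nat_lit 5) (nat_lit 3) (nat_lit 5) (nat_lit 4) (nat_lit 4) (nat_lit 323) (nat_lit 269) (nat_lit 128)) (XT.lf (nat_lit 0) (nat_lit 170324770693)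 (nat_lit 152) (nat_lit 731696468142) (nat_lit 0) (nat_lit 17407206119) (nat_lit 2) (nat_lit 5) (nat_lit 4) (nat_lit 4) (nat_lit 2) (nat_lit 4) (nat_lit 324) (nat_lit 269) (nat_lit 127))))) (XT.nd (nat_lit 234) (nat_lit 0) (nat_lit 0) (XT.nd (nat_lit 78) (nat_lit 0) (nat_lit 0) (XT.lf (nat_lit 0) (nat_lit 222390939307) (nat_lit 152) (nat_lit 696975729910) (nat_lit 0) (nat_lit 69473171517) (nat_lit 2) (nat_lit 5) (nat_lit 4) (nat_lit 4) (nat_lit 2) (nat_lit 4) (nat_lit 325) (nat_lit 269) (nat_lit 126)) (XT.nd (nat_lit 78) (nat_lit 0) (nat_lit 0) (XT.lf (nat_lit 0) (nat_lit 278622271722) (nat_lit 152) (nat_lit 659477571289) (nat_lit 0) (nat_lit 125704315768) (nat_lit 2) (nat_lit 5) (nat_lit 4) (nat_lit 4) (nat_lit 2) (nat_lit 4) (nat_lit 326) (nat_lit 269) (nat_lit 125)) (XT.lf (nat_lit 0) (nat_lit 339351990647) (nat_lit 152) (nat_lit 618979780967) (nat_lit 0) (nat_lit 186433860469) (nat_lit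 2) (nat_lit 5) (nat_lit 4) (nat_lit 4) (nat_lit 2) (nat_lit 4) (nat_lit 327) (nat_lit 269) (nat_lit 124)))) (XT.nd (nat_lit 156) (nat_lit 0) (nat_lit 0) (XT.nd (nat_lit 78) (nat_lit 0) (nat_lit 0) (XT.lf (nat_lit 0) (nat_lit 404939975900) (nat_lit 152) (nat_lit 575242372041) (nat_lit 0) (nat_lit 252021684403) (nat_lit 2) (nat_lit 5) (nat_lit 4) (nat_lit 4) (nat_lit 2) (nat_lit 4) (nat_lit 328) (nat_lit 269) (nat_lit 123)) (XT.lf (nat_lit 0) (nat_lit 475774897023) (nat_lit 152) (nat_lit 528006159863) (nat_lit 0) (nat_lit 322856456155) (nat_lit 2) (nat_lit 5) (nat_lit 4) (nat_lit 4) (nat_lit 2) (nat_lit 4) (nat_lit 329) (nat_lit 269) (nat_lit 122))) (XT.nd (nat_lit 78) (nat_lit 0) (nat_lit 0) (XT.lf (nat_lit 0) (nat_lit 552276516510) (nat_lit 152) (nat_lit 476991226141) (nat_lit 0) (nat_lit 399357937337) (nat_lit 2) (nat_lit 5) (nat_lit 4) (nat_lit 4) (nat_lit 2) (nat_lit 4) (nat_lit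 330) (nat_lit 269) (nat_lit 121)) (XT.lf (nat_lit 0) (nat_lit 634898177292) (nat_lit 152) (nat_lit 421895260154) (nat_lit 0) (nat_lit 481979470059) (nat_lit 2) (nat_lit 5) (nat_lit 4) (nat_lit 4) (nat_lit 2) (nat_lit 4) (nat_lit 331) (nat_lit 269) (nat_lit 120))))))))
noncomputable def xc99 : XT := (XT.nd (nat_lit 34398) (nat_lit 0) (nat_lit 152) (XT.nd (nat_lit 33384) (nat_lit 0) (nat_lit 1140) (XT.nd (nat_lit 32916) (nat_lit 0) (nat_lit 2128) (XT.nd (nat_lit 32682) (nat_lit 0) (nat_lit 2356) (XT.nd (nat_lit 78) (nat_lit 0) (nat_lit 0) (XT.lf (nat_lit 0) (nat_lit 724129489212) (nat_lit 152) (nat_lit 362391767291) (nat_lit 0) (nat_lit 571210663403) (nat_lit 2) (nat_lit 5) (nat_lit 4) (nat_lit 4) (nat_lit 2) (nat_lit 4) (nat_lit 332) (nat_lit 269) (nat_lit 119)) (XT.nd (nat_lit 78) (nat_lit 0) (nat_lit 0) (XT.lf (nat_lit 0) (nat_lit 820499230413) (nat_lit 152) (nat_lit 298128134261)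 (nat_lit 0) (nat_lit 667580294813) (nat_lit 2) (nat_lit 5) (nat_lit 4) (nat_lit 4) (nat_lit 2) (nat_lit 4) (nat_lit 333) (nat_lit 269) (nat_lit 118)) (XT.lf (nat_lit 0) (nat_lit 924578480843) (nat_lit 152) (nat_lit 228723539533) (nat_lit 0) (nat_lit 771659443585) (nat_lit 2) (nat_lit 5) (nat_lit 4) (nat_lit 4) (nat_lit 2) (nat_lit 4) (nat_lit 334) (nat_lit 269) (nat_lit 117)))) (XT.nd (nat_lit 78) (nat_lit 0) (nat_lit 0) (XT.lf (nat_lit 0) (nat_lit 6282432438) (nat_lit 532) (nat_lit 7196951220) (nat_lit 532) (nat_lit 7196951220) (nat_lit 33) (nat_lit 3) (nat_lit 40) (nat_lit 3) (nat_lit 40) (nat_lit 5) (nat_lit 270) (nat_lit 270) (nat_lit 180)) (XT.nd (nat_lit 78) (nat_lit 0) (nat_lit 76) (XT.lf (nat_lit 76) (nat_lit 3173803962) (nat_lit 0) (nat_lit 10003939338) (nat_lit 532) (nat_lit 29820012957) (nat_lit 34) (nat_lit 5) (nat_lit 33) (nat_lit 3) (nat_lit 40) (nat_lit 5) (nat_lit 271)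 (nat_lit 270) (nat_lit 179)) (XT.lf (nat_lit 0) (nat_lit 14439811592) (nat_lit 456) (nat_lit 21989729572) (nat_lit 532) (nat_lit 8296915512) (nat_lit 34) (nat_lit 5) (nat_lit 40) (nat_lit 5) (nat_lit 41) (nat_lit 5) (nat_lit 272) (nat_lit 270) (nat_lit 178))))) (XT.nd (nat_lit 234) (nat_lit 304) (nat_lit 0) (XT.nd (nat_lit 78) (nat_lit 0) (nat_lit 76) (XT.lf (nat_lit 0) (nat_lit 16059532770) (nat_lit 456) (nat_lit 2990716038) (nat_lit 532) (nat_lit 27522687631) (nat_lit 34) (nat_lit 5) (nat_lit 40) (nat_lit 5) (nat_lit 41) (nat_lit 5) (nat_lit 273) (nat_lit 270) (nat_lit 177)) (XT.nd (nat_lit 78) (nat_lit 0) (nat_lit 0) (XT.lf (nat_lit 0) (nat_lit 18254412641) (nat_lit 456) (nat_lit 30087516048) (nat_lit 532) (nat_lit 189576362) (nat_lit 35) (nat_lit 5) (nat_lit 41) (nat_lit 5) (nat_lit 42) (nat_lit 5) (nat_lit 274) (nat_lit 270) (nat_lit 176)) (XT.lf (nat_lit 0) (nat_lit 21200859735)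 (nat_lit 456) (nat_lit 9375753347) (nat_lit 532) (nat_lit 20024083616) (nat_lit 35) (nat_lit 5) (nat_lit 41) (nat_lit 5) (nat_lit 42) (nat_lit 5) (nat_lit 275) (nat_lit 270) (nat_lit 175)))) (XT.nd (nat_lit 78) (nat_lit 380) (nat_lit 0) (XT.lf (nat_lit 76) (nat_lit 13675035238) (nat_lit 0) (nat_lit 11034344287) (nat_lit 532) (nat_lit 28099950126) (nat_lit 36) (nat_lit 5) (nat_lit 35) (nat_lit 5) (nat_lit 42) (nat_lit 5) (nat_lit 276) (nat_lit 270) (nat_lit 174)) (XT.nd (nat_lit 78) (nat_lit 456) (nat_lit 0) (XT.lf (nat_lit 0) (nat_lit 29001427314) (nat_lit 456) (nat_lit 16322084884) (nat_lit 76) (nat_lit 9830926785) (nat_lit 36) (nat_lit 5) (nat_lit 42) (nat_lit 5) (nat_lit 37) (nat_lit 5) (nat_lit 277) (nat_lit 270) (nat_lit 173)) (XT.lf (nat_lit 0) (nat_lit 8449155732) (nat_lit 456) (nat_lit 25675291117) (nat_lit 532) (nat_lit 23523714034) (nat_lit 30) (nat_lit 5) (nat_lit 36) (nat_lit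 5) (nat_lit 37) (nat_lit 5) (nat_lit 278) (nat_lit 270) (nat_lit 172)))))) (XT.nd (nat_lit 468) (nat_lit 532) (nat_lit 0) (XT.nd (nat_lit 234) (nat_lit 228) (nat_lit 0) (XT.nd (nat_lit 78) (nat_lit 228) (nat_lit 0) (XT.lf (nat_lit 0) (nat_lit 36128397351) (nat_lit 456) (nat_lit 3973100638) (nat_lit 532) (nat_lit 20204358878) (nat_lit 30) (nat_lit 5) (nat_lit 36) (nat_lit 5) (nat_lit 37) (nat_lit 5) (nat_lit 279) (nat_lit 270) (nat_lit 171)) (XT.nd (nat_lit 78) (nat_lit 0) (nat_lit 0) (XT.lf (nat_lit 0) (nat_lit 2500796267) (nat_lit 228) (nat_lit 44582274000) (nat_lit 304) (nat_lit 16051000379) (nat_lit 27) (nat_lit 5) (nat_lit 30) (nat_lit 5) (nat_lit 31) (nat_lit 5) (nat_lit 280) (nat_lit 270) (nat_lit 170)) (XT.lf (nat_lit 0) (nat_lit 32577751042) (nat_lit 228) (nat_lit 22805225945) (nat_lit 304) (nat_lit 10744789737) (nat_lit 27) (nat_lit 5) (nat_lit 30) (nat_lit 5) (nat_lit 31)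 (nat_lit 5) (nat_lit 281) (nat_lit 270) (nat_lit 169)))) (XT.nd (nat_lit 78) (nat_lit 228) (nat_lit 0) (XT.lf (nat_lit 0) (nat_lit 64362350417) (nat_lit 304) (nat_lit 4319191305) (nat_lit 76) (nat_lit 678187988) (nat_lit 27) (nat_lit 5) (nat_lit 31) (nat_lit 5) (nat_lit 28) (nat_lit 5) (nat_lit 282) (nat_lit 270) (nat_lit 168)) (XT.nd (nat_lit 78) (nat_lit 0) (nat_lit 0) (XT.lf (nat_lit 0) (nat_lit 2447775377) (nat_lit 228) (nat_lit 44751347947) (nat_lit 76) (nat_lit 25544928823) (nat_lit 24) (nat_lit 5) (nat_lit 27) (nat_lit 5) (nat_lit 25) (nat_lit 5) (nat_lit 283) (nat_lit 270) (nat_lit 167)) (XT.lf (nat_lit 0) (nat_lit 10338172697) (nat_lit 228) (nat_lit 13389179275) (nat_lit 76) (nat_lit 52651822025) (nat_lit 24) (nat_lit 5) (nat_lit 27) (nat_lit 5) (nat_lit 25) (nat_lit 5) (nat_lit 284) (nat_lit 270) (nat_lit 166))))) (XT.nd (nat_lit 234) (nat_lit 152) (nat_lit 0) (XT.nd (nat_lit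 78) (nat_lit 152) (nat_lit 0) (XT.lf (nat_lit 0) (nat_lit 19429334844) (nat_lit 304) (nat_lit 58757493198) (nat_lit 76) (nat_lit 2072721641) (nat_lit 21) (nat_lit 5) (nat_lit 25) (nat_lit 5) (nat_lit 22) (nat_lit 5) (nat_lit 285) (nat_lit 270) (nat_lit 165)) (XT.nd (nat_lit 78) (nat_lit 152) (nat_lit 0) (XT.lf (nat_lit 0) (nat_lit 30238307928) (nat_lit 304) (nat_lit 25102581712) (nat_lit 76) (nat_lit 29030230579) (nat_lit 21) (nat_lit 5) (nat_lit 25) (nat_lit 5) (nat_lit 22) (nat_lit 5) (nat_lit 286) (nat_lit 270) (nat_lit 164)) (XT.lf (nat_lit 0) (nat_lit 11835139226) (nat_lit 152) (nat_lit 30360227003) (nat_lit 228) (nat_lit 46593586547) (nat_lit 19) (nat_lit 5) (nat_lit 21) (nat_lit 5) (nat_lit 22) (nat_lit 5) (nat_lit 287) (nat_lit 270) (nat_lit 163)))) (XT.nd (nat_lit 156) (nat_lit 152) (nat_lit 0) (XT.nd (nat_lit 78) (nat_lit 0) (nat_lit 0) (XT.lf (nat_lit 0) (nat_lit 53153899984)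 (nat_lit 152) (nat_lit 2640226103) (nat_lit 228) (nat_lit 37711280244) (nat_lit 19) (nat_lit 5) (nat_lit 21) (nat_lit 5) (nat_lit 22) (nat_lit 5) (nat_lit 288) (nat_lit 270) (nat_lit 162)) (XT.lf (nat_lit 0) (nat_lit 71136158590) (nat_lit 228) (nat_lit 1479070145) (nat_lit 76) (nat_lit 25931522633) (nat_lit 19) (nat_lit 5) (nat_lit 22) (nat_lit 5) (nat_lit 20) (nat_lit 5) (nat_lit 289) (nat_lit 270) (nat_lit 161))) (XT.nd (nat_lit 78) (nat_lit 0) (nat_lit 0) (XT.lf (nat_lit 0) (nat_lit 42562283435) (nat_lit 152) (nat_lit 46234424587) (nat_lit 228) (nat_lit 15107408222) (nat_lit 17) (nat_lit 5) (nat_lit 19) (nat_lit 5) (nat_lit 20) (nat_lit 5) (nat_lit 290) (nat_lit 270) (nat_lit 160)) (XT.lf (nat_lit 0) (nat_lit 90209659724) (nat_lit 152) (nat_lit 17699879010) (nat_lit 228) (nat_lit 1777380828) (nat_lit 17) (nat_lit 5) (nat_lit 19) (nat_lit 5) (nat_lit 20) (nat_lit 5) (nat_lit 291)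 (nat_lit 270) (nat_lit 159))))))) (XT.nd (nat_lit 936) (nat_lit 304) (nat_lit 0) (XT.nd (nat_lit 468) (nat_lit 304) (nat_lit 0) (XT.nd (nat_lit 234) (nat_lit 76) (nat_lit 0) (XT.nd (nat_lit 78) (nat_lit 152) (nat_lit 0) (XT.lf (nat_lit 0) (nat_lit 12970746075) (nat_lit 152) (nat_lit 89425888262) (nat_lit 76) (nat_lit 13432801112) (nat_lit 15) (nat_lit 5) (nat_lit 17) (nat_lit 5) (nat_lit 16) (nat_lit 5) (nat_lit 292) (nat_lit 270) (nat_lit 158)) (XT.nd (nat_lit 78) (nat_lit 152) (nat_lit 0) (XT.lf (nat_lit 0) (nat_lit 29807883525) (nat_lit 152) (nat_lit 45879361228) (nat_lit 76) (nat_lit 46692003152) (nat_lit 15) (nat_lit 5) (nat_lit 17) (nat_lit 5) (nat_lit 16) (nat_lit 5) (nat_lit 293) (nat_lit 270) (nat_lit 157)) (XT.lf (nat_lit 0) (nat_lit 1210142033) (nat_lit 152) (nat_lit 46810095480) (nat_lit 228) (nat_lit 81430551319) (nat_lit 13) (nat_lit 5) (nat_lit 15) (nat_lit 5) (nat_lit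 16) (nat_lit 5) (nat_lit 294) (nat_lit 270) (nat_lit 156)))) (XT.nd (nat_lit 78) (nat_lit 76) (nat_lit 0) (XT.lf (nat_lit 0) (nat_lit 54674755800) (nat_lit 152) (nat_lit 14268422191) (nat_lit 228) (nat_lit 68044590075) (nat_lit 13) (nat_lit 5) (nat_lit 15) (nat_lit 5) (nat_lit 16) (nat_lit 5) (nat_lit 295) (nat_lit 270) (nat_lit 155)) (XT.nd (nat_lit 78) (nat_lit 76) (nat_lit 0) (XT.lf (nat_lit 0) (nat_lit 92041262847) (nat_lit 228) (nat_lit 33214460769) (nat_lit 76) (nat_lit 19831879964) (nat_lit 13) (nat_lit 5) (nat_lit 16) (nat_lit 5) (nat_lit 14) (nat_lit 4) (nat_lit 296) (nat_lit 270) (nat_lit 154)) (XT.lf (nat_lit 0) (nat_lit 20463933627) (nat_lit 76) (nat_lit 97385311374) (nat_lit 152) (nat_lit 35917219368) (nat_lit 12) (nat_lit 5) (nat_lit 13) (nat_lit 5) (nat_lit 14) (nat_lit 4) (nat_lit 297) (nat_lit 270) (nat_lit 153))))) (XT.nd (nat_lit 234) (nat_lit 76) (nat_lit 0) (XT.nd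 (nat_lit 78) (nat_lit 228) (nat_lit 0) (XT.lf (nat_lit 0) (nat_lit 80324442095) (nat_lit 76) (nat_lit 66304876638) (nat_lit 152) (nat_lit 16437721339) (nat_lit 12) (nat_lit 5) (nat_lit 13) (nat_lit 5) (nat_lit 14) (nat_lit 4) (nat_lit 298) (nat_lit 270) (nat_lit 152)) (XT.nd (nat_lit 78) (nat_lit 152) (nat_lit 0) (XT.lf (nat_lit 0) (nat_lit 4369362319) (nat_lit 152) (nat_lit 28249552843) (nat_lit 76) (nat_lit 140483950502) (nat_lit 11) (nat_lit 5) (nat_lit 13) (nat_lit 5) (nat_lit 12) (nat_lit 5) (nat_lit 299) (nat_lit 270) (nat_lit 151)) (XT.lf (nat_lit 0) (nat_lit 26837662500) (nat_lit 228) (nat_lit 152203761496) (nat_lit 76) (nat_lit 4795201723) (nat_lit 9) (nat_lit 5) (nat_lit 12) (nat_lit 5) (nat_lit 10) (nat_lit 4) (nat_lit 300) (nat_lit 270) (nat_lit 150)))) (XT.nd (nat_lit 78) (nat_lit 76) (nat_lit 0) (XT.lf (nat_lit 0) (nat_lit 52742531734) (nat_lit 228) (nat_lit 98323136548)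 (nat_lit 76) (nat_lit 44232291579) (nat_lit 9) (nat_lit 5) (nat_lit 12) (nat_lit 5) (nat_lit 10) (nat_lit 4) (nat_lit 301) (nat_lit 270) (nat_lit 149)) (XT.nd (nat_lit 78) (nat_lit 76) (nat_lit 0) (XT.lf (nat_lit 0) (nat_lit 80719240043) (nat_lit 228) (nat_lit 40132974985) (nat_lit 76) (nat_lit 86824031302) (nat_lit 9) (nat_lit 5) (nat_lit 12) (nat_lit 5) (nat_lit 10) (nat_lit 4) (nat_lit 302) (nat_lit 270) (nat_lit 148)) (XT.lf (nat_lit 0) (nat_lit 23907503951) (nat_lit 76) (nat_lit 87601047422) (nat_lit 152) (nat_lit 109490288479) (nat_lit 8) (nat_lit 5) (nat_lit 9) (nat_lit 5) (nat_lit 10) (nat_lit 4) (nat_lit 303) (nat_lit 270) (nat_lit 147)))))) (XT.nd (nat_lit 468) (nat_lit 152) (nat_lit 0) (XT.nd (nat_lit 234) (nat_lit 152) (nat_lit 0) (XT.nd (nat_lit 78) (nat_lit 0) (nat_lit 0) (XT.lf (nat_lit 0) (nat_lit 95352794739) (nat_lit 76) (nat_lit 50505027771) (nat_lit 152) (nat_lit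 89441674492) (nat_lit 8) (nat_lit 5) (nat_lit 9) (nat_lit 5) (nat_lit 10) (nat_lit 4) (nat_lit 304) (nat_lit 270) (nat_lit 146)) (XT.nd (nat_lit 78) (nat_lit 0) (nat_lit 0) (XT.lf (nat_lit 0) (nat_lit 172512945537) (nat_lit 76) (nat_lit 10441634468) (nat_lit 152) (nat_lit 67789664382) (nat_lit 8) (nat_lit 5) (nat_lit 9) (nat_lit 5) (nat_lit 10) (nat_lit 4) (nat_lit 305) (nat_lit 270) (nat_lit 145)) (XT.lf (nat_lit 0) (nat_lit 223808135698) (nat_lit 152) (nat_lit 12368883957) (nat_lit 0) (nat_lit 31184428447) (nat_lit 8) (nat_lit 5) (nat_lit 10) (nat_lit 4) (nat_lit 8) (nat_lit 4) (nat_lit 306) (nat_lit 270) (nat_lit 144)))) (XT.nd (nat_lit 78) (nat_lit 76) (nat_lit 0) (XT.lf (nat_lit 0) (nat_lit 61570645590) (nat_lit 76) (nat_lit 208110920325) (nat_lit 76) (nat_lit 15486336054) (nat_lit 7) (nat_lit 4) (nat_lit 8) (nat_lit 5) (nat_lit 8) (nat_lit 4) (nat_lit 307) (nat_lit 270) (nat_lit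 143)) (XT.nd (nat_lit 78) (nat_lit 0) (nat_lit 0) (XT.lf (nat_lit 0) (nat_lit 14430919035) (nat_lit 152) (nat_lit 162609084733) (nat_lit 76) (nat_lit 127302617870) (nat_lit 6) (nat_lit 5) (nat_lit 8) (nat_lit 5) (nat_lit 7) (nat_lit 4) (nat_lit 308) (nat_lit 270) (nat_lit 142)) (XT.lf (nat_lit 0) (nat_lit 45904525169) (nat_lit 152) (nat_lit 97144735878) (nat_lit 76) (nat_lit 181969908474) (nat_lit 6) (nat_lit 5) (nat_lit 8) (nat_lit 5) (nat_lit 7) (nat_lit 4) (nat_lit 309) (nat_lit 270) (nat_lit 141))))) (XT.nd (nat_lit 234) (nat_lit 76) (nat_lit 0) (XT.nd (nat_lit 78) (nat_lit 76) (nat_lit 0) (XT.lf (nat_lit 0) (nat_lit 79895681854) (nat_lit 152) (nat_lit 26443826179) (nat_lit 76) (nat_lit 241010361016) (nat_lit 6) (nat_lit 5) (nat_lit 8) (nat_lit 5) (nat_lit 7) (nat_lit 4) (nat_lit 310) (nat_lit 270) (nat_lit 140)) (XT.nd (nat_lit 78) (nat_lit 0) (nat_lit 0) (XT.lf (nat_lit 0) (nat_lit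 52540922450) (nat_lit 76) (nat_lit 65328506166) (nat_lit 152) (nat_lit 253496532842) (nat_lit 5) (nat_lit 5) (nat_lit 6) (nat_lit 5) (nat_lit 7) (nat_lit 4) (nat_lit 311) (nat_lit 270) (nat_lit 139)) (XT.lf (nat_lit 0) (nat_lit 139347804980) (nat_lit 76) (nat_lit 20255988739) (nat_lit 152) (nat_lit 237641730722) (nat_lit 5) (nat_lit 5) (nat_lit 6) (nat_lit 5) (nat_lit 7) (nat_lit 4) (nat_lit 312) (nat_lit 270) (nat_lit 138)))) (XT.nd (nat_lit 156) (nat_lit 76) (nat_lit 0) (XT.nd (nat_lit 78) (nat_lit 0) (nat_lit 0) (XT.lf (nat_lit 0) (nat_lit 205360180626) (nat_lit 152) (nat_lit 192780280606) (nat_lit 0) (nat_lit 27000330043) (nat_lit 5) (nat_lit 5) (nat_lit 7) (nat_lit 4) (nat_lit 5) (nat_lit 4) (nat_lit 313) (nat_lit 270) (nat_lit 137)) (XT.lf (nat_lit 0) (nat_lit 255302944054) (nat_lit 152) (nat_lit 122980047083) (nat_lit 0) (nat_lit 76942619646) (nat_lit 5) (nat_lit 5) (nat_lit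 7) (nat_lit 4) (nat_lit 5) (nat_lit 4) (nat_lit 314) (nat_lit 270) (nat_lit 136))) (XT.nd (nat_lit 78) (nat_lit 76) (nat_lit 0) (XT.lf (nat_lit 0) (nat_lit 309240884106) (nat_lit 152) (nat_lit 47596230863) (nat_lit 0) (nat_lit 130880120969) (nat_lit 5) (nat_lit 5) (nat_lit 7) (nat_lit 4) (nat_lit 5) (nat_lit 4) (nat_lit 315) (nat_lit 270) (nat_lit 135)) (XT.lf (nat_lit 0) (nat_lit 35598676961) (nat_lit 76) (nat_lit 332751105095) (nat_lit 76) (nat_lit 154389935728) (nat_lit 4) (nat_lit 4) (nat_lit 5) (nat_lit 5) (nat_lit 5) (nat_lit 4) (nat_lit 316) (nat_lit 270) (nat_lit 134))))))))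
noncomputable def xc100 : XT := (XT.nd (nat_lit 34554) (nat_lit 0) (nat_lit 532) (XT.nd (nat_lit 936) (nat_lit 0) (nat_lit 0) (XT.nd (nat_lit 468) (nat_lit 76) (nat_lit 0) (XT.nd (nat_lit 234) (nat_lit 76) (nat_lit 0) (XT.nd (nat_lit 78) (nat_lit 0) (nat_lit 0) (XT.lf (nat_lit 0) (nat_lit 128155623765) (nat_lit 76) (nat_lit 305332914335) (nat_lit 76) (nat_lit 126971368829) (nat_lit 4) (nat_lit 4) (nat_lit 5) (nat_lit 5) (nat_lit 5) (nat_lit 4) (nat_lit 317) (nat_lit 270) (nat_lit 133)) (XT.nd (nat_lit 78) (nat_lit 0) (nat_lit 0) (XT.lf (nat_lit 0) (nat_lit 228116761990) (nat_lit 76) (nat_lit 275721429824) (nat_lit 76) (nat_lit 97359536041) (nat_lit 4) (nat_lit 4) (nat_lit 5) (nat_lit 5) (nat_lit 5) (nat_lit 4) (nat_lit 318) (nat_lit 270) (nat_lit 132)) (XT.lf (nat_lit 0) (nat_lit 336074453935) (nat_lit 76) (nat_lit 243741176096) (nat_lit 76) (nat_lit 65378959835) (nat_lit 4) (nat_lit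 4) (nat_lit 5) (nat_lit 5) (nat_lit 5) (nat_lit 4) (nat_lit 319) (nat_lit 270) (nat_lit 131)))) (XT.nd (nat_lit 78) (nat_lit 76) (nat_lit 0) (XT.lf (nat_lit 0) (nat_lit 452668448888) (nat_lit 76) (nat_lit 209202640538) (nat_lit 76) (nat_lit 30840125686) (nat_lit 4) (nat_lit 4) (nat_lit 5) (nat_lit 5) (nat_lit 5) (nat_lit 4) (nat_lit 320) (nat_lit 270) (nat_lit 130)) (XT.nd (nat_lit 78) (nat_lit 0) (nat_lit 0) (XT.lf (nat_lit 0) (nat_lit 6138403527) (nat_lit 152) (nat_lit 165594911988) (nat_lit 76) (nat_lit 572283435867) (nat_lit 3) (nat_lit 5) (nat_lit 5) (nat_lit 5) (nat_lit 4) (nat_lit 4) (nat_lit 321) (nat_lit 270) (nat_lit 129)) (XT.lf (nat_lit 0) (nat_lit 44408894007) (nat_lit 152) (nat_lit 85992547784) (nat_lit 76) (nat_lit 668961217931) (nat_lit 3) (nat_lit 5) (nat_lit 5) (nat_lit 5) (nat_lit 4) (nat_lit 4) (nat_lit 322) (nat_lit 270) (nat_lit 128))))) (XT.nd (nat_lit 234) (nat_lit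 0) (nat_lit 0) (XT.nd (nat_lit 78) (nat_lit 76) (nat_lit 0) (XT.lf (nat_lit 0) (nat_lit 85740881835) (nat_lit 152) (nat_lit 22250133) (nat_lit 76) (nat_lit 773373120378) (nat_lit 3) (nat_lit 5) (nat_lit 5) (nat_lit 5) (nat_lit 4) (nat_lit 4) (nat_lit 323) (nat_lit 270) (nat_lit 127)) (XT.nd (nat_lit 78) (nat_lit 0) (nat_lit 0) (XT.lf (nat_lit 0) (nat_lit 97713457464) (nat_lit 76) (nat_lit 35015850847) (nat_lit 152) (nat_lit 790774433944) (nat_lit 2) (nat_lit 5) (nat_lit 3) (nat_lit 5) (nat_lit 4) (nat_lit 4) (nat_lit 324) (nat_lit 270) (nat_lit 126)) (XT.lf (nat_lit 0) (nat_lit 183953282520) (nat_lit 152) (nat_lit 790227529249) (nat_lit 0) (nat_lit 18801701927) (nat_lit 2) (nat_lit 5) (nat_lit 4) (nat_lit 4) (nat_lit 2) (nat_lit 4) (nat_lit 325) (nat_lit 270) (nat_lit 125)))) (XT.nd (nat_lit 78) (nat_lit 0) (nat_lit 0) (XT.lf (nat_lit 0) (nat_lit 240184557202) (nat_lit 152) (nat_lit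 752729476873) (nat_lit 0) (nat_lit 75032802385) (nat_lit 2) (nat_lit 5) (nat_lit 4) (nat_lit 4) (nat_lit 2) (nat_lit 4) (nat_lit 326) (nat_lit 270) (nat_lit 124)) (XT.nd (nat_lit 78) (nat_lit 0) (nat_lit 0) (XT.lf (nat_lit 0) (nat_lit 300914222673) (nat_lit 152) (nat_lit 712231784926) (nat_lit 0) (nat_lit 135762306536) (nat_lit 2) (nat_lit 5) (nat_lit 4) (nat_lit 4) (nat_lit 2) (nat_lit 4) (nat_lit 327) (nat_lit 270) (nat_lit 123)) (XT.lf (nat_lit 0) (nat_lit 366502158430) (nat_lit 152) (nat_lit 668494467088) (nat_lit 0) (nat_lit 201350092923) (nat_lit 2) (nat_lit 5) (nat_lit 4) (nat_lit 4) (nat_lit 2) (nat_lit 4) (nat_lit 328) (nat_lit 270) (nat_lit 122)))))) (XT.nd (nat_lit 33072) (nat_lit 0) (nat_lit 2356) (XT.nd (nat_lit 234) (nat_lit 0) (nat_lit 0) (XT.nd (nat_lit 78) (nat_lit 0) (nat_lit 0) (XT.lf (nat_lit 0) (nat_lit 437337033723) (nat_lit 152) (nat_lit 621258339251) (nat_lit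 0) (nat_lit 272184829911) (nat_lit 2) (nat_lit 5) (nat_lit 4) (nat_lit 4) (nat_lit 2) (nat_lit 4) (nat_lit 329) (nat_lit 270) (nat_lit 121)) (XT.nd (nat_lit 78) (nat_lit 0) (nat_lit 0) (XT.lf (nat_lit 0) (nat_lit 513838610776) (nat_lit 152) (nat_lit 570243483622) (nat_lit 0) (nat_lit 348686278903) (nat_lit 2) (nat_lit 5) (nat_lit 4) (nat_lit 4) (nat_lit 2) (nat_lit 4) (nat_lit 330) (nat_lit 270) (nat_lit 120)) (XT.lf (nat_lit 0) (nat_lit 596460232267) (nat_lit 152) (nat_lit 515147589945) (nat_lit 0) (nat_lit 431307781820) (nat_lit 2) (nat_lit 5) (nat_lit 4) (nat_lit 4) (nat_lit 2) (nat_lit 4) (nat_lit 331) (nat_lit 270) (nat_lit 119)))) (XT.nd (nat_lit 78) (nat_lit 0) (nat_lit 0) (XT.lf (nat_lit 0) (nat_lit 685691507806) (nat_lit 152) (nat_lit 455644164034) (nat_lit 0) (nat_lit 520538947567) (nat_lit 2) (nat_lit 5) (nat_lit 4) (nat_lit 4) (nat_lit 2) (nat_lit 4) (nat_lit 332) (nat_lit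 270) (nat_lit 118)) (XT.nd (nat_lit 32682) (nat_lit 0) (nat_lit 2356) (XT.lf (nat_lit 0) (nat_lit 782061215321) (nat_lit 152) (nat_lit 391380592997) (nat_lit 0) (nat_lit 616908553424) (nat_lit 2) (nat_lit 5) (nat_lit 4) (nat_lit 4) (nat_lit 2) (nat_lit 4) (nat_lit 333) (nat_lit 270) (nat_lit 117)) (XT.lf (nat_lit 0) (nat_lit 6818164211) (nat_lit 532) (nat_lit 7754716825) (nat_lit 532) (nat_lit 7754716825) (nat_lit 33) (nat_lit 3) (nat_lit 40) (nat_lit 3) (nat_lit 40) (nat_lit 5) (nat_lit 271) (nat_lit 271) (nat_lit 178))))) (XT.nd (nat_lit 234) (nat_lit 0) (nat_lit 152) (XT.nd (nat_lit 78) (nat_lit 0) (nat_lit 76) (XT.lf (nat_lit 76) (nat_lit 3462778352) (nat_lit 0) (nat_lit 10831392991) (nat_lit 532) (nat_lit 32138071629) (nat_lit 34) (nat_lit 5) (nat_lit 33) (nat_lit 3) (nat_lit 40) (nat_lit 5) (nat_lit 272) (nat_lit 271) (nat_lit 177)) (XT.nd (nat_lit 78) (nat_lit 0) (nat_lit 0)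 (XT.lf (nat_lit 0) (nat_lit 15651992721) (nat_lit 456) (nat_lit 23710892623) (nat_lit 532) (nat_lit 8936797524) (nat_lit 34) (nat_lit 5) (nat_lit 40) (nat_lit 5) (nat_lit 41) (nat_lit 5) (nat_lit 273) (nat_lit 271) (nat_lit 176)) (XT.lf (nat_lit 0) (nat_lit 17397069652) (nat_lit 456) (nat_lit 3194773955) (nat_lit 532) (nat_lit 29702399651) (nat_lit 34) (nat_lit 5) (nat_lit 40) (nat_lit 5) (nat_lit 41) (nat_lit 5) (nat_lit 274) (nat_lit 271) (nat_lit 175)))) (XT.nd (nat_lit 156) (nat_lit 0) (nat_lit 0) (XT.nd (nat_lit 78) (nat_lit 0) (nat_lit 0) (XT.lf (nat_lit 0) (nat_lit 19764085887) (nat_lit 456) (nat_lit 32455580464) (nat_lit 532) (nat_lit 190130009) (nat_lit 35) (nat_lit 5) (nat_lit 41) (nat_lit 5) (nat_lit 42) (nat_lit 5) (nat_lit 275) (nat_lit 271) (nat_lit 174)) (XT.lf (nat_lit 0) (nat_lit 22942595397) (nat_lit 456) (nat_lit 10089760959) (nat_lit 532) (nat_lit 21612480248) (nat_lit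 35) (nat_lit 5) (nat_lit 41) (nat_lit 5) (nat_lit 42) (nat_lit 5) (nat_lit 276) (nat_lit 271) (nat_lit 173))) (XT.nd (nat_lit 78) (nat_lit 0) (nat_lit 76) (XT.lf (nat_lit 76) (nat_lit 14804177988) (nat_lit 0) (nat_lit 11925081168) (nat_lit 532) (nat_lit 30301123492) (nat_lit 36) (nat_lit 5) (nat_lit 35) (nat_lit 5) (nat_lit 42) (nat_lit 5) (nat_lit 277) (nat_lit 271) (nat_lit 172)) (XT.lf (nat_lit 0) (nat_lit 31361298095) (nat_lit 456) (nat_lit 17591716998) (nat_lit 76) (nat_lit 10610373448) (nat_lit 36) (nat_lit 5) (nat_lit 42) (nat_lit 5) (nat_lit 37) (nat_lit 5) (nat_lit 278) (nat_lit 271) (nat_lit 171))))))) (XT.nd (nat_lit 936) (nat_lit 760) (nat_lit 0) (XT.nd (nat_lit 468) (nat_lit 380) (nat_lit 0) (XT.nd (nat_lit 234) (nat_lit 228) (nat_lit 0) (XT.nd (nat_lit 78) (nat_lit 228) (nat_lit 0) (XT.lf (nat_lit 0) (nat_lit 9160308065) (nat_lit 456) (nat_lit 27731753234) (nat_lit 532)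 (nat_lit 25364731395) (nat_lit 30) (nat_lit 5) (nat_lit 36) (nat_lit 5) (nat_lit 37) (nat_lit 5) (nat_lit 279) (nat_lit 271) (nat_lit 170)) (XT.nd (nat_lit 78) (nat_lit 228) (nat_lit 0) (XT.lf (nat_lit 0) (nat_lit 39051280134) (nat_lit 456) (nat_lit 4293206863) (nat_lit 532) (nat_lit 21782855957) (nat_lit 30) (nat_lit 5) (nat_lit 36) (nat_lit 5) (nat_lit 37) (nat_lit 5) (nat_lit 280) (nat_lit 271) (nat_lit 169)) (XT.lf (nat_lit 0) (nat_lit 2735605260) (nat_lit 228) (nat_lit 48147182235) (nat_lit 304) (nat_lit 17299184437) (nat_lit 27) (nat_lit 5) (nat_lit 30) (nat_lit 5) (nat_lit 31) (nat_lit 5) (nat_lit 281) (nat_lit 271) (nat_lit 168)))) (XT.nd (nat_lit 78) (nat_lit 228) (nat_lit 0) (XT.lf (nat_lit 0) (nat_lit 35216142692) (nat_lit 228) (nat_lit 24628094312) (nat_lit 304) (nat_lit 11571135904) (nat_lit 27) (nat_lit 5) (nat_lit 30) (nat_lit 5) (nat_lit 31) (nat_lit 5) (nat_lit 282)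 (nat_lit 271) (nat_lit 167)) (XT.nd (nat_lit 78) (nat_lit 228) (nat_lit 0) (XT.lf (nat_lit 0) (nat_lit 69539726532) (nat_lit 304) (nat_lit 4632551193) (nat_lit 76) (nat_lit 733806162) (nat_lit 27) (nat_lit 5) (nat_lit 31) (nat_lit 5) (nat_lit 28) (nat_lit 5) (nat_lit 283) (nat_lit 271) (nat_lit 166)) (XT.lf (nat_lit 0) (nat_lit 2671473936) (nat_lit 228) (nat_lit 48298495701) (nat_lit 76) (nat_lit 27591245255) (nat_lit 24) (nat_lit 5) (nat_lit 27) (nat_lit 5) (nat_lit 25) (nat_lit 5) (nat_lit 284) (nat_lit 271) (nat_lit 165))))) (XT.nd (nat_lit 234) (nat_lit 152) (nat_lit 0) (XT.nd (nat_lit 78) (nat_lit 228) (nat_lit 0) (XT.lf (nat_lit 0) (nat_lit 11191038114) (nat_lit 228) (nat_lit 14429795023) (nat_lit 76) (nat_lit 56866488275) (nat_lit 24) (nat_lit 5) (nat_lit 27) (nat_lit 5) (nat_lit 25) (nat_lit 5) (nat_lit 285) (nat_lit 271) (nat_lit 164)) (XT.nd (nat_lit 78) (nat_lit 0) (nat_lit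 0) (XT.lf (nat_lit 0) (nat_lit 21008420053) (nat_lit 304) (nat_lit 63426388307) (nat_lit 76) (nat_lit 2243413652) (nat_lit 21) (nat_lit 5) (nat_lit 25) (nat_lit 5) (nat_lit 22) (nat_lit 5) (nat_lit 286) (nat_lit 271) (nat_lit 163)) (XT.lf (nat_lit 0) (nat_lit 32680278508) (nat_lit 304) (nat_lit 27081432373) (nat_lit 76) (nat_lit 31357162246) (nat_lit 21) (nat_lit 5) (nat_lit 25) (nat_lit 5) (nat_lit 22) (nat_lit 5) (nat_lit 287) (nat_lit 271) (nat_lit 162)))) (XT.nd (nat_lit 78) (nat_lit 0) (nat_lit 0) (XT.lf (nat_lit 0) (nat_lit 12810563054) (nat_lit 152) (nat_lit 32782329819) (nat_lit 228) (nat_lit 50297327826) (nat_lit 19) (nat_lit 5) (nat_lit 21) (nat_lit 5) (nat_lit 22) (nat_lit 5) (nat_lit 288) (nat_lit 271) (nat_lit 161)) (XT.nd (nat_lit 78) (nat_lit 0) (nat_lit 0) (XT.lf (nat_lit 0) (nat_lit 57432705213) (nat_lit 152) (nat_lit 2845226280) (nat_lit 228) (nat_lit 40706195956)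 (nat_lit 19) (nat_lit 5) (nat_lit 21) (nat_lit 5) (nat_lit 22) (nat_lit 5) (nat_lit 289) (nat_lit 271) (nat_lit 160)) (XT.lf (nat_lit 0) (nat_lit 76845963185) (nat_lit 228) (nat_lit 1571418832) (nat_lit 76) (nat_lit 28011513765) (nat_lit 19) (nat_lit 5) (nat_lit 22) (nat_lit 5) (nat_lit 20) (nat_lit 5) (nat_lit 290) (nat_lit 271) (nat_lit 159)))))) (XT.nd (nat_lit 468) (nat_lit 304) (nat_lit 0) (XT.nd (nat_lit 234) (nat_lit 152) (nat_lit 0) (XT.nd (nat_lit 78) (nat_lit 152) (nat_lit 0) (XT.lf (nat_lit 0) (nat_lit 45992585391) (nat_lit 152) (nat_lit 49925979227) (nat_lit 228) (nat_lit 16296354713) (nat_lit 17) (nat_lit 5) (nat_lit 19) (nat_lit 5) (nat_lit 20) (nat_lit 5) (nat_lit 291) (nat_lit 271) (nat_lit 158)) (XT.nd (nat_lit 78) (nat_lit 152) (nat_lit 0) (XT.lf (nat_lit 0) (nat_lit 97449876281) (nat_lit 152) (nat_lit 19109203288) (nat_lit 228) (nat_lit 1901380399) (nat_lit 17) (nat_lit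 5) (nat_lit 19) (nat_lit 5) (nat_lit 20) (nat_lit 5) (nat_lit 292) (nat_lit 271) (nat_lit 157)) (XT.lf (nat_lit 0) (nat_lit 14025152859) (nat_lit 152) (nat_lit 96554945243) (nat_lit 76) (nat_lit 14514291596) (nat_lit 15) (nat_lit 5) (nat_lit 17) (nat_lit 5) (nat_lit 16) (nat_lit 5) (nat_lit 293) (nat_lit 271) (nat_lit 156)))) (XT.nd (nat_lit 78) (nat_lit 152) (nat_lit 0) (XT.lf (nat_lit 0) (nat_lit 32208020779) (nat_lit 152) (nat_lit 49526548941) (nat_lit 76) (nat_lit 50433721178) (nat_lit 15) (nat_lit 5) (nat_lit 17) (nat_lit 5) (nat_lit 16) (nat_lit 5) (nat_lit 294) (nat_lit 271) (nat_lit 155)) (XT.nd (nat_lit 78) (nat_lit 0) (nat_lit 0) (XT.lf (nat_lit 0) (nat_lit 1329528222) (nat_lit 152) (nat_lit 50547229155) (nat_lit 228) (nat_lit 87928850350) (nat_lit 13) (nat_lit 5) (nat_lit 15) (nat_lit 5) (nat_lit 16) (nat_lit 5) (nat_lit 295) (nat_lit 271) (nat_lit 154)) (XT.lf (nat_lit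 0) (nat_lit 59069638880) (nat_lit 152) (nat_lit 15402790444) (nat_lit 228) (nat_lit 73473208139) (nat_lit 13) (nat_lit 5) (nat_lit 15) (nat_lit 5) (nat_lit 16) (nat_lit 5) (nat_lit 296) (nat_lit 271) (nat_lit 153))))) (XT.nd (nat_lit 234) (nat_lit 228) (nat_lit 0) (XT.nd (nat_lit 78) (nat_lit 76) (nat_lit 0) (XT.lf (nat_lit 0) (nat_lit 99417497192) (nat_lit 228) (nat_lit 35851354874) (nat_lit 76) (nat_lit 21424680431) (nat_lit 13) (nat_lit 5) (nat_lit 16) (nat_lit 5) (nat_lit 14) (nat_lit 4) (nat_lit 297) (nat_lit 271) (nat_lit 152)) (XT.nd (nat_lit 78) (nat_lit 0) (nat_lit 0) (XT.lf (nat_lit 0) (nat_lit 22120798092) (nat_lit 76) (nat_lit 105168836786) (nat_lit 152) (nat_lit 38777109226) (nat_lit 12) (nat_lit 5) (nat_lit 13) (nat_lit 5) (nat_lit 14) (nat_lit 4) (nat_lit 298) (nat_lit 271) (nat_lit 151)) (XT.lf (nat_lit 0) (nat_lit 86768684291) (nat_lit 76) (nat_lit 71602507974) (nat_lit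 152) (nat_lit 17740250443) (nat_lit 12) (nat_lit 5) (nat_lit 13) (nat_lit 5) (nat_lit 14) (nat_lit 4) (nat_lit 299) (nat_lit 271) (nat_lit 150)))) (XT.nd (nat_lit 156) (nat_lit 0) (nat_lit 0) (XT.nd (nat_lit 78) (nat_lit 152) (nat_lit 0) (XT.lf (nat_lit 0) (nat_lit 4729896372) (nat_lit 152) (nat_lit 30491973508) (nat_lit 76) (nat_lit 151728313373) (nat_lit 11) (nat_lit 5) (nat_lit 13) (nat_lit 5) (nat_lit 12) (nat_lit 5) (nat_lit 300) (nat_lit 271) (nat_lit 149)) (XT.lf (nat_lit 0) (nat_lit 28995414830) (nat_lit 228) (nat_lit 164362242691) (nat_lit 76) (nat_lit 5185008685) (nat_lit 9) (nat_lit 5) (nat_lit 12) (nat_lit 5) (nat_lit 10) (nat_lit 4) (nat_lit 301) (nat_lit 271) (nat_lit 148))) (XT.nd (nat_lit 78) (nat_lit 0) (nat_lit 0) (XT.lf (nat_lit 0) (nat_lit 56971878097) (nat_lit 228) (nat_lit 106172487727) (nat_lit 76) (nat_lit 47776607149) (nat_lit 9) (nat_lit 5) (nat_lit 12) (nat_lit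 5) (nat_lit 10) (nat_lit 4) (nat_lit 302) (nat_lit 271) (nat_lit 147)) (XT.lf (nat_lit 0) (nat_lit 87185986491) (nat_lit 228) (nat_lit 43328335443) (nat_lit 76) (nat_lit 93775261439) (nat_lit 9) (nat_lit 5) (nat_lit 12) (nat_lit 5) (nat_lit 10) (nat_lit 4) (nat_lit 303) (nat_lit 271) (nat_lit 146))))))))
noncomputable def xc101 : XT := (XT.nd (nat_lit 1950) (nat_lit 0) (nat_lit 0) (XT.nd (nat_lit 936) (nat_lit 228) (nat_lit 0) (XT.nd (nat_lit 468) (nat_lit 76) (nat_lit 0) (XT.nd (nat_lit 234) (nat_lit 152) (nat_lit 0) (XT.nd (nat_lit 78) (nat_lit 0) (nat_lit 0) (XT.lf (nat_lit 0) (nat_lit 25834995035) (nat_lit 76) (nat_lit 94603123797) (nat_lit 152) (nat_lit 118239893388) (nat_lit 8) (nat_lit 5) (nat_lit 9) (nat_lit 5) (nat_lit 10) (nat_lit 4) (nat_lit 304) (nat_lit 271) (nat_lit 145)) (XT.nd (nat_lit 78) (nat_lit 0) (nat_lit 0) (XT.lf (nat_lit 0) (nat_lit 102994806066) (nat_lit 76)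 (nat_lit 54539867568) (nat_lit 152) (nat_lit 96588102739) (nat_lit 8) (nat_lit 5) (nat_lit 9) (nat_lit 5) (nat_lit 10) (nat_lit 4) (nat_lit 305) (nat_lit 271) (nat_lit 144)) (XT.lf (nat_lit 0) (nat_lit 186326747613) (nat_lit 76) (nat_lit 11271814833) (nat_lit 152) (nat_lit 73204591503) (nat_lit 8) (nat_lit 5) (nat_lit 9) (nat_lit 5) (nat_lit 10) (nat_lit 4) (nat_lit 306) (nat_lit 271) (nat_lit 143)))) (XT.nd (nat_lit 78) (nat_lit 152) (nat_lit 0) (XT.lf (nat_lit 0) (nat_lit 241719953135) (nat_lit 152) (nat_lit 13346105269) (nat_lit 0) (nat_lit 33683713046) (nat_lit 8) (nat_lit 5) (nat_lit 10) (nat_lit 4) (nat_lit 8) (nat_lit 4) (nat_lit 307) (nat_lit 271) (nat_lit 142)) (XT.nd (nat_lit 78) (nat_lit 76) (nat_lit 0) (XT.lf (nat_lit 0) (nat_lit 66508275516) (nat_lit 76) (nat_lit 224754739473) (nat_lit 76) (nat_lit 16717747481) (nat_lit 7) (nat_lit 4) (nat_lit 8) (nat_lit 5) (nat_lit 8)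 (nat_lit 4) (nat_lit 308) (nat_lit 271) (nat_lit 141)) (XT.lf (nat_lit 0) (nat_lit 15591985617) (nat_lit 152) (nat_lit 175606358113) (nat_lit 76) (nat_lit 137491144974) (nat_lit 6) (nat_lit 5) (nat_lit 8) (nat_lit 5) (nat_lit 7) (nat_lit 4) (nat_lit 309) (nat_lit 271) (nat_lit 140))))) (XT.nd (nat_lit 234) (nat_lit 0) (nat_lit 0) (XT.nd (nat_lit 78) (nat_lit 76) (nat_lit 0) (XT.lf (nat_lit 0) (nat_lit 49582991867) (nat_lit 152) (nat_lit 104905709749) (nat_lit 76) (nat_lit 196531498998) (nat_lit 6) (nat_lit 5) (nat_lit 8) (nat_lit 5) (nat_lit 7) (nat_lit 4) (nat_lit 310) (nat_lit 271) (nat_lit 139)) (XT.nd (nat_lit 78) (nat_lit 76) (nat_lit 0) (XT.lf (nat_lit 0) (nat_lit 86292988888) (nat_lit 152) (nat_lit 28549512830) (nat_lit 76) (nat_lit 260294891607) (nat_lit 6) (nat_lit 5) (nat_lit 8) (nat_lit 5) (nat_lit 7) (nat_lit 4) (nat_lit 311) (nat_lit 271) (nat_lit 138)) (XT.lf (nat_lit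 0) (nat_lit 56753767096) (nat_lit 76) (nat_lit 70550679772) (nat_lit 152) (nat_lit 273770342308) (nat_lit 5) (nat_lit 5) (nat_lit 6) (nat_lit 5) (nat_lit 7) (nat_lit 4) (nat_lit 312) (nat_lit 271) (nat_lit 137)))) (XT.nd (nat_lit 78) (nat_lit 0) (nat_lit 0) (XT.lf (nat_lit 0) (nat_lit 150504491277) (nat_lit 76) (nat_lit 21872665165) (nat_lit 152) (nat_lit 256647594030) (nat_lit 5) (nat_lit 5) (nat_lit 6) (nat_lit 5) (nat_lit 7) (nat_lit 4) (nat_lit 313) (nat_lit 271) (nat_lit 136)) (XT.nd (nat_lit 78) (nat_lit 0) (nat_lit 0) (XT.lf (nat_lit 0) (nat_lit 221793764223) (nat_lit 152) (nat_lit 208194197157) (nat_lit 0) (nat_lit 29163701306) (nat_lit 5) (nat_lit 5) (nat_lit 7) (nat_lit 4) (nat_lit 5) (nat_lit 4) (nat_lit 314) (nat_lit 271) (nat_lit 135)) (XT.lf (nat_lit 0) (nat_lit 275731595456) (nat_lit 152) (nat_lit 132810575019) (nat_lit 0) (nat_lit 83101126309) (nat_lit 5) (nat_lit 5)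 (nat_lit 7) (nat_lit 4) (nat_lit 5) (nat_lit 4) (nat_lit 315) (nat_lit 271) (nat_lit 134)))))) (XT.nd (nat_lit 468) (nat_lit 152) (nat_lit 0) (XT.nd (nat_lit 234) (nat_lit 0) (nat_lit 0) (XT.nd (nat_lit 78) (nat_lit 76) (nat_lit 0) (XT.lf (nat_lit 0) (nat_lit 333984243610) (nat_lit 152) (nat_lit 51396636897) (nat_lit 0) (nat_lit 141353398325) (nat_lit 5) (nat_lit 5) (nat_lit 7) (nat_lit 4) (nat_lit 5) (nat_lit 4) (nat_lit 316) (nat_lit 271) (nat_lit 133)) (XT.nd (nat_lit 78) (nat_lit 0) (nat_lit 0) (XT.lf (nat_lit 0) (nat_lit 38453678934) (nat_lit 76) (nat_lit 359368042531) (nat_lit 76) (nat_lit 166736848970) (nat_lit 4) (nat_lit 4) (nat_lit 5) (nat_lit 5) (nat_lit 5) (nat_lit 4) (nat_lit 317) (nat_lit 271) (nat_lit 132)) (XT.lf (nat_lit 0) (nat_lit 138414654978) (nat_lit 76) (nat_lit 329756629916) (nat_lit 76) (nat_lit 137125113876) (nat_lit 4) (nat_lit 4) (nat_lit 5) (nat_lit 5)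 (nat_lit 5) (nat_lit 4) (nat_lit 318) (nat_lit 271) (nat_lit 131)))) (XT.nd (nat_lit 78) (nat_lit 0) (nat_lit 0) (XT.lf (nat_lit 0) (nat_lit 246372196756) (nat_lit 76) (nat_lit 297776442760) (nat_lit 76) (nat_lit 105144628128) (nat_lit 4) (nat_lit 4) (nat_lit 5) (nat_lit 5) (nat_lit 5) (nat_lit 4) (nat_lit 319) (nat_lit 271) (nat_lit 130)) (XT.nd (nat_lit 78) (nat_lit 0) (nat_lit 0) (XT.lf (nat_lit 0) (nat_lit 362966052665) (nat_lit 76) (nat_lit 263237968842) (nat_lit 76) (nat_lit 70605877737) (nat_lit 4) (nat_lit 4) (nat_lit 5) (nat_lit 5) (nat_lit 5) (nat_lit 4) (nat_lit 320) (nat_lit 271) (nat_lit 129)) (XT.lf (nat_lit 0) (nat_lit 488887149257) (nat_lit 76) (nat_lit 225936535723) (nat_lit 76) (nat_lit 33304188625) (nat_lit 4) (nat_lit 4) (nat_lit 5) (nat_lit 5) (nat_lit 5) (nat_lit 4) (nat_lit 321) (nat_lit 271) (nat_lit 128))))) (XT.nd (nat_lit 234) (nat_lit 76) (nat_lit 0) (XT.nd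 (nat_lit 78) (nat_lit 0) (nat_lit 0) (XT.lf (nat_lit 0) (nat_lit 6632244035) (nat_lit 152) (nat_lit 178837516535) (nat_lit 76) (nat_lit 618068104283) (nat_lit 3) (nat_lit 5) (nat_lit 5) (nat_lit 5) (nat_lit 4) (nat_lit 4) (nat_lit 322) (nat_lit 271) (nat_lit 127)) (XT.nd (nat_lit 78) (nat_lit 0) (nat_lit 0) (XT.lf (nat_lit 0) (nat_lit 47964168700) (nat_lit 152) (nat_lit 92867332706) (nat_lit 76) (nat_lit 722479961242) (nat_lit 3) (nat_lit 5) (nat_lit 5) (nat_lit 5) (nat_lit 4) (nat_lit 4) (nat_lit 323) (nat_lit 271) (nat_lit 126)) (XT.lf (nat_lit 0) (nat_lit 92602525689) (nat_lit 152) (nat_lit 19753384) (nat_lit 76) (nat_lit 835244679153) (nat_lit 3) (nat_lit 5) (nat_lit 5) (nat_lit 5) (nat_lit 4) (nat_lit 4) (nat_lit 324) (nat_lit 271) (nat_lit 125)))) (XT.nd (nat_lit 156) (nat_lit 0) (nat_lit 0) (XT.nd (nat_lit 78) (nat_lit 0) (nat_lit 0) (XT.lf (nat_lit 0) (nat_lit 105534702548)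 (nat_lit 76) (nat_lit 37815248187) (nat_lit 152) (nat_lit 854033902966) (nat_lit 2) (nat_lit 5) (nat_lit 3) (nat_lit 5) (nat_lit 4) (nat_lit 4) (nat_lit 325) (nat_lit 271) (nat_lit 124)) (XT.lf (nat_lit 0) (nat_lit 198671714335) (nat_lit 152) (nat_lit 853441739524) (nat_lit 0) (nat_lit 20307483587) (nat_lit 2) (nat_lit 5) (nat_lit 4) (nat_lit 4) (nat_lit 2) (nat_lit 4) (nat_lit 326) (nat_lit 271) (nat_lit 123))) (XT.nd (nat_lit 78) (nat_lit 0) (nat_lit 0) (XT.lf (nat_lit 0) (nat_lit 259401330310) (nat_lit 152) (nat_lit 812944138666) (nat_lit 0) (nat_lit 81036950192) (nat_lit 2) (nat_lit 5) (nat_lit 4) (nat_lit 4) (nat_lit 2) (nat_lit 4) (nat_lit 327) (nat_lit 271) (nat_lit 122)) (XT.lf (nat_lit 0) (nat_lit 324989220238) (nat_lit 152) (nat_lit 769206905168) (nat_lit 0) (nat_lit 146624701815) (nat_lit 2) (nat_lit 5) (nat_lit 4) (nat_lit 4) (nat_lit 2) (nat_lit 4) (nat_lit 328) (nat_lit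 271) (nat_lit 121))))))) (XT.nd (nat_lit 33618) (nat_lit 0) (nat_lit 1292) (XT.nd (nat_lit 33150) (nat_lit 0) (nat_lit 2356) (XT.nd (nat_lit 234) (nat_lit 0) (nat_lit 0) (XT.nd (nat_lit 78) (nat_lit 0) (nat_lit 0) (XT.lf (nat_lit 0) (nat_lit 395824053096) (nat_lit 152) (nat_lit 721970855425) (nat_lit 0) (nat_lit 217459406613) (nat_lit 2) (nat_lit 5) (nat_lit 4) (nat_lit 4) (nat_lit 2) (nat_lit 4) (nat_lit 329) (nat_lit 271) (nat_lit 120)) (XT.nd (nat_lit 78) (nat_lit 0) (nat_lit 0) (XT.lf (nat_lit 0) (nat_lit 472325590858) (nat_lit 152) (nat_lit 670956072104) (nat_lit 0) (nat_lit 293960825800) (nat_lit 2) (nat_lit 5) (nat_lit 4) (nat_lit 4) (nat_lit 2) (nat_lit 4) (nat_lit 330) (nat_lit 271) (nat_lit 119)) (XT.lf (nat_lit 0) (nat_lit 554947175968) (nat_lit 152) (nat_lit 615860245379) (nat_lit 0) (nat_lit 376582301119) (nat_lit 2) (nat_lit 5) (nat_lit 4) (nat_lit 4) (nat_lit 2) (nat_lit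 4) (nat_lit 331) (nat_lit 271) (nat_lit 118)))) (XT.nd (nat_lit 78) (nat_lit 0) (nat_lit 0) (XT.lf (nat_lit 0) (nat_lit 644178417821) (nat_lit 152) (nat_lit 556356881462) (nat_lit 0) (nat_lit 465813441313) (nat_lit 2) (nat_lit 5) (nat_lit 4) (nat_lit 4) (nat_lit 2) (nat_lit 4) (nat_lit 332) (nat_lit 271) (nat_lit 117)) (XT.nd (nat_lit 32760) (nat_lit 0) (nat_lit 2356) (XT.lf (nat_lit 0) (nat_lit 740548094146) (nat_lit 152) (nat_lit 492093367825) (nat_lit 0) (nat_lit 562183023509) (nat_lit 2) (nat_lit 5) (nat_lit 4) (nat_lit 4) (nat_lit 2) (nat_lit 4) (nat_lit 333) (nat_lit 271) (nat_lit 116)) (XT.lf (nat_lit 0) (nat_lit 7392027136) (nat_lit 532) (nat_lit 8359670224) (nat_lit 532) (nat_lit 8359670224) (nat_lit 33) (nat_lit 3) (nat_lit 40) (nat_lit 3) (nat_lit 40) (nat_lit 5) (nat_lit 272) (nat_lit 272) (nat_lit 176))))) (XT.nd (nat_lit 234) (nat_lit 0) (nat_lit 152) (XT.nd (nat_lit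 78) (nat_lit 0) (nat_lit 76) (XT.lf (nat_lit 76) (nat_lit 3769867556) (nat_lit 0) (nat_lit 11721171324) (nat_lit 532) (nat_lit 34651210669) (nat_lit 34) (nat_lit 5) (nat_lit 33) (nat_lit 3) (nat_lit 40) (nat_lit 5) (nat_lit 273) (nat_lit 272) (nat_lit 175)) (XT.nd (nat_lit 78) (nat_lit 0) (nat_lit 0) (XT.lf (nat_lit 0) (nat_lit 16953017195) (nat_lit 456) (nat_lit 25575172028) (nat_lit 532) (nat_lit 9631275594) (nat_lit 34) (nat_lit 5) (nat_lit 40) (nat_lit 5) (nat_lit 41) (nat_lit 5) (nat_lit 274) (nat_lit 272) (nat_lit 174)) (XT.lf (nat_lit 0) (nat_lit 18834080647) (nat_lit 456) (nat_lit 3420178089) (nat_lit 532) (nat_lit 32059641872) (nat_lit 34) (nat_lit 5) (nat_lit 40) (nat_lit 5) (nat_lit 41) (nat_lit 5) (nat_lit 275) (nat_lit 272) (nat_lit 173)))) (XT.nd (nat_lit 78) (nat_lit 0) (nat_lit 0) (XT.lf (nat_lit 0) (nat_lit 21387496910) (nat_lit 456) (nat_lit 35018644813) (nat_lit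 532) (nat_lit 192812579) (nat_lit 35) (nat_lit 5) (nat_lit 41) (nat_lit 5) (nat_lit 42) (nat_lit 5) (nat_lit 276) (nat_lit 272) (nat_lit 172)) (XT.nd (nat_lit 78) (nat_lit 0) (nat_lit 0) (XT.lf (nat_lit 0) (nat_lit 24817155022) (nat_lit 456) (nat_lit 10866032494) (nat_lit 532) (nat_lit 23329878825) (nat_lit 35) (nat_lit 5) (nat_lit 41) (nat_lit 5) (nat_lit 42) (nat_lit 5) (nat_lit 277) (nat_lit 272) (nat_lit 171)) (XT.lf (nat_lit 76) (nat_lit 16018639053) (nat_lit 0) (nat_lit 12885937231) (nat_lit 532) (nat_lit 32685070501) (nat_lit 36) (nat_lit 5) (nat_lit 35) (nat_lit 5) (nat_lit 42) (nat_lit 5) (nat_lit 278) (nat_lit 272) (nat_lit 170)))))) (XT.nd (nat_lit 468) (nat_lit 608) (nat_lit 0) (XT.nd (nat_lit 234) (nat_lit 228) (nat_lit 0) (XT.nd (nat_lit 78) (nat_lit 456) (nat_lit 0) (XT.lf (nat_lit 0) (nat_lit 33904286816) (nat_lit 456) (nat_lit 18968074698) (nat_lit 76) (nat_lit 11453178392)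 (nat_lit 36) (nat_lit 5) (nat_lit 42) (nat_lit 5) (nat_lit 37) (nat_lit 5) (nat_lit 279) (nat_lit 272) (nat_lit 169)) (XT.nd (nat_lit 78) (nat_lit 0) (nat_lit 0) (XT.lf (nat_lit 0) (nat_lit 9923328076) (nat_lit 456) (nat_lit 29952384395) (nat_lit 532) (nat_lit 27358862100) (nat_lit 30) (nat_lit 5) (nat_lit 36) (nat_lit 5) (nat_lit 37) (nat_lit 5) (nat_lit 280) (nat_lit 272) (nat_lit 168)) (XT.lf (nat_lit 0) (nat_lit 42203341216) (nat_lit 456) (nat_lit 4638599433) (nat_lit 532) (nat_lit 23493032761) (nat_lit 30) (nat_lit 5) (nat_lit 36) (nat_lit 5) (nat_lit 37) (nat_lit 5) (nat_lit 281) (nat_lit 272) (nat_lit 167)))) (XT.nd (nat_lit 78) (nat_lit 0) (nat_lit 0) (XT.lf (nat_lit 0) (nat_lit 2984242168) (nat_lit 228) (nat_lit 51997521898) (nat_lit 304) (nat_lit 18652344181) (nat_lit 27) (nat_lit 5) (nat_lit 30) (nat_lit 5) (nat_lit 31) (nat_lit 5) (nat_lit 282) (nat_lit 272) (nat_lit 166))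 (XT.nd (nat_lit 78) (nat_lit 0) (nat_lit 0) (XT.lf (nat_lit 0) (nat_lit 38061016040) (nat_lit 228) (nat_lit 26597013232) (nat_lit 304) (nat_lit 12468331396) (nat_lit 27) (nat_lit 5) (nat_lit 30) (nat_lit 5) (nat_lit 31) (nat_lit 5) (nat_lit 283) (nat_lit 272) (nat_lit 165)) (XT.lf (nat_lit 0) (nat_lit 75127242859) (nat_lit 304) (nat_lit 4975570054) (nat_lit 76) (nat_lit 793679324) (nat_lit 27) (nat_lit 5) (nat_lit 31) (nat_lit 5) (nat_lit 28) (nat_lit 5) (nat_lit 284) (nat_lit 272) (nat_lit 164))))) (XT.nd (nat_lit 234) (nat_lit 152) (nat_lit 0) (XT.nd (nat_lit 78) (nat_lit 228) (nat_lit 0) (XT.lf (nat_lit 0) (nat_lit 2909091481) (nat_lit 228) (nat_lit 52134117399) (nat_lit 76) (nat_lit 29800878660) (nat_lit 24) (nat_lit 5) (nat_lit 27) (nat_lit 5) (nat_lit 25) (nat_lit 5) (nat_lit 285) (nat_lit 272) (nat_lit 163)) (XT.nd (nat_lit 78) (nat_lit 228) (nat_lit 0) (XT.lf (nat_lit 0) (nat_lit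 12108450451) (nat_lit 228) (nat_lit 15558013849) (nat_lit 76) (nat_lit 61417968248) (nat_lit 24) (nat_lit 5) (nat_lit 27) (nat_lit 5) (nat_lit 25) (nat_lit 5) (nat_lit 286) (nat_lit 272) (nat_lit 162)) (XT.lf (nat_lit 0) (nat_lit 22710302866) (nat_lit 304) (nat_lit 68473318005) (nat_lit 76) (nat_lit 2427065652) (nat_lit 21) (nat_lit 5) (nat_lit 25) (nat_lit 5) (nat_lit 22) (nat_lit 5) (nat_lit 287) (nat_lit 272) (nat_lit 161)))) (XT.nd (nat_lit 156) (nat_lit 0) (nat_lit 0) (XT.nd (nat_lit 78) (nat_lit 152) (nat_lit 0) (XT.lf (nat_lit 0) (nat_lit 35314338945) (nat_lit 304) (nat_lit 29222779030) (nat_lit 76) (nat_lit 33869604586) (nat_lit 21) (nat_lit 5) (nat_lit 25) (nat_lit 5) (nat_lit 22) (nat_lit 5) (nat_lit 288) (nat_lit 272) (nat_lit 160)) (XT.lf (nat_lit 0) (nat_lit 13859938868) (nat_lit 152) (nat_lit 35399158879) (nat_lit 228) (nat_lit 54300755989) (nat_lit 19) (nat_lit 5) (nat_lit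 21) (nat_lit 5) (nat_lit 22) (nat_lit 5) (nat_lit 289) (nat_lit 272) (nat_lit 159))) (XT.nd (nat_lit 78) (nat_lit 0) (nat_lit 0) (XT.lf (nat_lit 0) (nat_lit 62050035306) (nat_lit 152) (nat_lit 3067513525) (nat_lit 228) (nat_lit 43943841574) (nat_lit 19) (nat_lit 5) (nat_lit 21) (nat_lit 5) (nat_lit 22) (nat_lit 5) (nat_lit 290) (nat_lit 272) (nat_lit 158)) (XT.lf (nat_lit 0) (nat_lit 83009854152) (nat_lit 228) (nat_lit 1674861312) (nat_lit 76) (nat_lit 30257123927) (nat_lit 19) (nat_lit 5) (nat_lit 22) (nat_lit 5) (nat_lit 20) (nat_lit 5) (nat_lit 291) (nat_lit 272) (nat_lit 157))))))))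
noncomputable def xc102 : XT := (XT.nd (nat_lit 1950) (nat_lit 228) (nat_lit 0) (XT.nd (nat_lit 936) (nat_lit 304) (nat_lit 0) (XT.nd (nat_lit 468) (nat_lit 304) (nat_lit 0) (XT.nd (nat_lit 234) (nat_lit 152) (nat_lit 0) (XT.nd (nat_lit 78) (nat_lit 152) (nat_lit 0) (XT.lf (nat_lit 0) (nat_lit 49693699425) (nat_lit 152) (nat_lit 53913885303) (nat_lit 228) (nat_lit 17583219669) (nat_lit 17) (nat_lit 5) (nat_lit 19) (nat_lit 5) (nat_lit 20) (nat_lit 5) (nat_lit 292) (nat_lit 272) (nat_lit 156)) (XT.nd (nat_lit 78) (nat_lit 152) (nat_lit 0) (XT.lf (nat_lit 0) (nat_lit 105265965645) (nat_lit 152) (nat_lit 20632224494) (nat_lit 228) (nat_lit 2037895071) (nat_lit 17) (nat_lit 5) (nat_lit 19) (nat_lit 5) (nat_lit 20) (nat_lit 5) (nat_lit 293) (nat_lit 272) (nat_lit 155)) (XT.lf (nat_lit 0) (nat_lit 15161523025) (nat_lit 152) (nat_lit 104257895321) (nat_lit 76) (nat_lit 15681321750) (nat_lit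 15) (nat_lit 5) (nat_lit 17) (nat_lit 5) (nat_lit 16) (nat_lit 5) (nat_lit 294) (nat_lit 272) (nat_lit 154)))) (XT.nd (nat_lit 78) (nat_lit 152) (nat_lit 0) (XT.lf (nat_lit 0) (nat_lit 34797956828) (nat_lit 152) (nat_lit 53468815873) (nat_lit 76) (nat_lit 54473869638) (nat_lit 15) (nat_lit 5) (nat_lit 17) (nat_lit 5) (nat_lit 16) (nat_lit 5) (nat_lit 295) (nat_lit 272) (nat_lit 153)) (XT.nd (nat_lit 78) (nat_lit 0) (nat_lit 0) (XT.lf (nat_lit 0) (nat_lit 1455244754) (nat_lit 152) (nat_lit 54584428300) (nat_lit 228) (nat_lit 94949316580) (nat_lit 13) (nat_lit 5) (nat_lit 15) (nat_lit 5) (nat_lit 16) (nat_lit 5) (nat_lit 296) (nat_lit 272) (nat_lit 152)) (XT.lf (nat_lit 0) (nat_lit 63813130615) (nat_lit 152) (nat_lit 16628921840) (nat_lit 228) (nat_lit 79338248310) (nat_lit 13) (nat_lit 5) (nat_lit 15) (nat_lit 5) (nat_lit 16) (nat_lit 5) (nat_lit 297) (nat_lit 272) (nat_lit 151)))))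 (XT.nd (nat_lit 234) (nat_lit 228) (nat_lit 0) (XT.nd (nat_lit 78) (nat_lit 76) (nat_lit 0) (XT.lf (nat_lit 0) (nat_lit 107381985202) (nat_lit 228) (nat_lit 38702091217) (nat_lit 76) (nat_lit 23144013293) (nat_lit 13) (nat_lit 5) (nat_lit 16) (nat_lit 5) (nat_lit 14) (nat_lit 4) (nat_lit 298) (nat_lit 272) (nat_lit 150)) (XT.nd (nat_lit 78) (nat_lit 0) (nat_lit 0) (XT.lf (nat_lit 0) (nat_lit 23907394188) (nat_lit 76) (nat_lit 113576085585) (nat_lit 152) (nat_lit 41867714443) (nat_lit 12) (nat_lit 5) (nat_lit 13) (nat_lit 5) (nat_lit 14) (nat_lit 4) (nat_lit 299) (nat_lit 272) (nat_lit 149)) (XT.lf (nat_lit 0) (nat_lit 93725857042) (nat_lit 76) (nat_lit 77324914034) (nat_lit 152) (nat_lit 19148763515) (nat_lit 12) (nat_lit 5) (nat_lit 13) (nat_lit 5) (nat_lit 14) (nat_lit 4) (nat_lit 300) (nat_lit 272) (nat_lit 148)))) (XT.nd (nat_lit 78) (nat_lit 152) (nat_lit 0) (XT.lf (nat_lit 0)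 (nat_lit 5117706006) (nat_lit 152) (nat_lit 32916290613) (nat_lit 76) (nat_lit 163871419690) (nat_lit 11) (nat_lit 5) (nat_lit 13) (nat_lit 5) (nat_lit 12) (nat_lit 5) (nat_lit 301) (nat_lit 272) (nat_lit 147)) (XT.nd (nat_lit 78) (nat_lit 0) (nat_lit 0) (XT.lf (nat_lit 0) (nat_lit 31324255260) (nat_lit 228) (nat_lit 177495944566) (nat_lit 76) (nat_lit 5605117013) (nat_lit 9) (nat_lit 5) (nat_lit 12) (nat_lit 5) (nat_lit 10) (nat_lit 4) (nat_lit 302) (nat_lit 272) (nat_lit 146)) (XT.lf (nat_lit 0) (nat_lit 61538153570) (nat_lit 228) (nat_lit 114652140874) (nat_lit 76) (nat_lit 51603650197) (nat_lit 9) (nat_lit 5) (nat_lit 12) (nat_lit 5) (nat_lit 10) (nat_lit 4) (nat_lit 303) (nat_lit 272) (nat_lit 145)))))) (XT.nd (nat_lit 468) (nat_lit 152) (nat_lit 0) (XT.nd (nat_lit 234) (nat_lit 76) (nat_lit 0) (XT.nd (nat_lit 78) (nat_lit 76) (nat_lit 0) (XT.lf (nat_lit 0) (nat_lit 94168759138)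 (nat_lit 228) (nat_lit 46781504249) (nat_lit 76) (nat_lit 101281832794) (nat_lit 9) (nat_lit 5) (nat_lit 12) (nat_lit 5) (nat_lit 10) (nat_lit 4) (nat_lit 304) (nat_lit 272) (nat_lit 144)) (XT.nd (nat_lit 78) (nat_lit 0) (nat_lit 0) (XT.lf (nat_lit 0) (nat_lit 27914561071) (nat_lit 76) (nat_lit 102166223308) (nat_lit 152) (nat_lit 127690838829) (nat_lit 8) (nat_lit 5) (nat_lit 9) (nat_lit 5) (nat_lit 10) (nat_lit 4) (nat_lit 305) (nat_lit 272) (nat_lit 143)) (XT.lf (nat_lit 0) (nat_lit 111246211323) (nat_lit 76) (nat_lit 58898288091) (nat_lit 152) (nat_lit 104307515745) (nat_lit 8) (nat_lit 5) (nat_lit 9) (nat_lit 5) (nat_lit 10) (nat_lit 4) (nat_lit 306) (nat_lit 272) (nat_lit 142)))) (XT.nd (nat_lit 78) (nat_lit 76) (nat_lit 0) (XT.lf (nat_lit 0) (nat_lit 201243832581) (nat_lit 76) (nat_lit 12169144387) (nat_lit 152) (nat_lit 79053889181) (nat_lit 8) (nat_lit 5) (nat_lit 9) (nat_lit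 5) (nat_lit 10) (nat_lit 4) (nat_lit 307) (nat_lit 272) (nat_lit 141)) (XT.nd (nat_lit 78) (nat_lit 76) (nat_lit 0) (XT.lf (nat_lit 0) (nat_lit 261063693573) (nat_lit 152) (nat_lit 14403257508) (nat_lit 0) (nat_lit 36382294113) (nat_lit 8) (nat_lit 5) (nat_lit 10) (nat_lit 4) (nat_lit 8) (nat_lit 4) (nat_lit 308) (nat_lit 272) (nat_lit 140)) (XT.lf (nat_lit 0) (nat_lit 71839207002) (nat_lit 76) (nat_lit 242730785230) (nat_lit 76) (nat_lit 18048741133) (nat_lit 7) (nat_lit 4) (nat_lit 8) (nat_lit 5) (nat_lit 8) (nat_lit 4) (nat_lit 309) (nat_lit 272) (nat_lit 139))))) (XT.nd (nat_lit 234) (nat_lit 76) (nat_lit 0) (XT.nd (nat_lit 78) (nat_lit 0) (nat_lit 0) (XT.lf (nat_lit 0) (nat_lit 16844996953) (nat_lit 152) (nat_lit 189645047319) (nat_lit 76) (nat_lit 148494138281) (nat_lit 6) (nat_lit 5) (nat_lit 8) (nat_lit 5) (nat_lit 7) (nat_lit 4) (nat_lit 310) (nat_lit 272) (nat_lit 138)) (XT.nd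 (nat_lit 78) (nat_lit 0) (nat_lit 0) (XT.lf (nat_lit 0) (nat_lit 53554865000) (nat_lit 152) (nat_lit 113289074452) (nat_lit 76) (nat_lit 212257446427) (nat_lit 6) (nat_lit 5) (nat_lit 8) (nat_lit 5) (nat_lit 7) (nat_lit 4) (nat_lit 311) (nat_lit 272) (nat_lit 137)) (XT.lf (nat_lit 0) (nat_lit 93201274095) (nat_lit 152) (nat_lit 30825055266) (nat_lit 76) (nat_lit 281121656555) (nat_lit 6) (nat_lit 5) (nat_lit 8) (nat_lit 5) (nat_lit 7) (nat_lit 4) (nat_lit 312) (nat_lit 272) (nat_lit 136)))) (XT.nd (nat_lit 156) (nat_lit 0) (nat_lit 0) (XT.nd (nat_lit 78) (nat_lit 0) (nat_lit 0) (XT.lf (nat_lit 0) (nat_lit 61302273925) (nat_lit 76) (nat_lit 76191213160) (nat_lit 152) (nat_lit 295666900110) (nat_lit 5) (nat_lit 5) (nat_lit 6) (nat_lit 5) (nat_lit 7) (nat_lit 4) (nat_lit 313) (nat_lit 272) (nat_lit 135)) (XT.lf (nat_lit 0) (nat_lit 162552448228) (nat_lit 76) (nat_lit 23619218199) (nat_lit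 152) (nat_lit 277174707494) (nat_lit 5) (nat_lit 5) (nat_lit 6) (nat_lit 5) (nat_lit 7) (nat_lit 4) (nat_lit 314) (nat_lit 272) (nat_lit 134))) (XT.nd (nat_lit 78) (nat_lit 0) (nat_lit 0) (XT.lf (nat_lit 0) (nat_lit 239541354136) (nat_lit 152) (nat_lit 224842440495) (nat_lit 0) (nat_lit 31499665089) (nat_lit 5) (nat_lit 5) (nat_lit 7) (nat_lit 4) (nat_lit 5) (nat_lit 4) (nat_lit 315) (nat_lit 272) (nat_lit 133)) (XT.lf (nat_lit 0) (nat_lit 297793908995) (nat_lit 152) (nat_lit 143428668766) (nat_lit 0) (nat_lit 89751871672) (nat_lit 5) (nat_lit 5) (nat_lit 7) (nat_lit 4) (nat_lit 5) (nat_lit 4) (nat_lit 316) (nat_lit 272) (nat_lit 132))))))) (XT.nd (nat_lit 936) (nat_lit 0) (nat_lit 0) (XT.nd (nat_lit 468) (nat_lit 152) (nat_lit 0) (XT.nd (nat_lit 234) (nat_lit 0) (nat_lit 0) (XT.nd (nat_lit 78) (nat_lit 76) (nat_lit 0) (XT.lf (nat_lit 0) (nat_lit 360706488564) (nat_lit 152) (nat_lit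 55502115760) (nat_lit 0) (nat_lit 152664128762) (nat_lit 5) (nat_lit 5) (nat_lit 7) (nat_lit 4) (nat_lit 5) (nat_lit 4) (nat_lit 317) (nat_lit 272) (nat_lit 131)) (XT.nd (nat_lit 78) (nat_lit 0) (nat_lit 0) (XT.lf (nat_lit 0) (nat_lit 41536067057) (nat_lit 76) (nat_lit 388114784484) (nat_lit 76) (nat_lit 180072126091) (nat_lit 4) (nat_lit 4) (nat_lit 5) (nat_lit 5) (nat_lit 5) (nat_lit 4) (nat_lit 318) (nat_lit 272) (nat_lit 130)) (XT.lf (nat_lit 0) (nat_lit 149493469790) (nat_lit 76) (nat_lit 356134658967) (nat_lit 76) (nat_lit 148091724101) (nat_lit 4) (nat_lit 4) (nat_lit 5) (nat_lit 5) (nat_lit 5) (nat_lit 4) (nat_lit 319) (nat_lit 272) (nat_lit 129)))) (XT.nd (nat_lit 78) (nat_lit 0) (nat_lit 0) (XT.lf (nat_lit 0) (nat_lit 266087196954) (nat_lit 76) (nat_lit 321596242123) (nat_lit 76) (nat_lit 113553051263) (nat_lit 4) (nat_lit 4) (nat_lit 5) (nat_lit 5) (nat_lit 5) (nat_lit 4)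 (nat_lit 320) (nat_lit 272) (nat_lit 128)) (XT.nd (nat_lit 78) (nat_lit 0) (nat_lit 0) (XT.lf (nat_lit 0) (nat_lit 392008174338) (nat_lit 76) (nat_lit 284294861851) (nat_lit 76) (nat_lit 76251433960) (nat_lit 4) (nat_lit 4) (nat_lit 5) (nat_lit 5) (nat_lit 5) (nat_lit 4) (nat_lit 321) (nat_lit 272) (nat_lit 127)) (XT.lf (nat_lit 0) (nat_lit 528002600328) (nat_lit 76) (nat_lit 244009472935) (nat_lit 76) (nat_lit 35965825570) (nat_lit 4) (nat_lit 4) (nat_lit 5) (nat_lit 5) (nat_lit 5) (nat_lit 4) (nat_lit 322) (nat_lit 272) (nat_lit 126))))) (XT.nd (nat_lit 234) (nat_lit 76) (nat_lit 0) (XT.nd (nat_lit 78) (nat_lit 0) (nat_lit 0) (XT.lf (nat_lit 0) (nat_lit 7165196866) (nat_lit 152) (nat_lit 193140241098) (nat_lit 76) (nat_lit 667515261770) (nat_lit 3) (nat_lit 5) (nat_lit 5) (nat_lit 5) (nat_lit 4) (nat_lit 4) (nat_lit 323) (nat_lit 272) (nat_lit 125)) (XT.nd (nat_lit 78) (nat_lit 0)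 (nat_lit 0) (XT.lf (nat_lit 0) (nat_lit 51803499703) (nat_lit 152) (nat_lit 100292759360) (nat_lit 76) (nat_lit 780279940682) (nat_lit 3) (nat_lit 5) (nat_lit 5) (nat_lit 5) (nat_lit 4) (nat_lit 4) (nat_lit 324) (nat_lit 272) (nat_lit 124)) (XT.lf (nat_lit 0) (nat_lit 100012762474) (nat_lit 152) (nat_lit 17667022) (nat_lit 76) (nat_lit 902065718801) (nat_lit 3) (nat_lit 5) (nat_lit 5) (nat_lit 5) (nat_lit 4) (nat_lit 4) (nat_lit 325) (nat_lit 272) (nat_lit 123)))) (XT.nd (nat_lit 78) (nat_lit 0) (nat_lit 0) (XT.lf (nat_lit 0) (nat_lit 113981052558) (nat_lit 76) (nat_lit 40838864194) (nat_lit 152) (nat_lit 922354484121) (nat_lit 2) (nat_lit 5) (nat_lit 3) (nat_lit 5) (nat_lit 4) (nat_lit 4) (nat_lit 326) (nat_lit 272) (nat_lit 122)) (XT.nd (nat_lit 78) (nat_lit 0) (nat_lit 0) (XT.lf (nat_lit 0) (nat_lit 214567311232) (nat_lit 152) (nat_lit 921713656133) (nat_lit 0) (nat_lit 21933493030)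 (nat_lit 2) (nat_lit 5) (nat_lit 4) (nat_lit 4) (nat_lit 2) (nat_lit 4) (nat_lit 327) (nat_lit 272) (nat_lit 121)) (XT.lf (nat_lit 0) (nat_lit 280155158726) (nat_lit 152) (nat_lit 877976500729) (nat_lit 0) (nat_lit 87521212463) (nat_lit 2) (nat_lit 5) (nat_lit 4) (nat_lit 4) (nat_lit 2) (nat_lit 4) (nat_lit 328) (nat_lit 272) (nat_lit 120)))))) (XT.nd (nat_lit 33228) (nat_lit 0) (nat_lit 2356) (XT.nd (nat_lit 234) (nat_lit 0) (nat_lit 0) (XT.nd (nat_lit 78) (nat_lit 0) (nat_lit 0) (XT.lf (nat_lit 0) (nat_lit 350989952293) (nat_lit 152) (nat_lit 830740523294) (nat_lit 0) (nat_lit 158355887456) (nat_lit 2) (nat_lit 5) (nat_lit 4) (nat_lit 4) (nat_lit 2) (nat_lit 4) (nat_lit 329) (nat_lit 272) (nat_lit 119)) (XT.nd (nat_lit 78) (nat_lit 0) (nat_lit 0) (XT.lf (nat_lit 0) (nat_lit 427491453674) (nat_lit 152) (nat_lit 779725806926) (nat_lit 0) (nat_lit 234857279045) (nat_lit 2) (nat_lit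 5) (nat_lit 4) (nat_lit 4) (nat_lit 2) (nat_lit 4) (nat_lit 330) (nat_lit 272) (nat_lit 118)) (XT.lf (nat_lit 0) (nat_lit 510113005099) (nat_lit 152) (nat_lit 724630042195) (nat_lit 0) (nat_lit 317478728812) (nat_lit 2) (nat_lit 5) (nat_lit 4) (nat_lit 4) (nat_lit 2) (nat_lit 4) (nat_lit 331) (nat_lit 272) (nat_lit 117)))) (XT.nd (nat_lit 78) (nat_lit 0) (nat_lit 0) (XT.lf (nat_lit 0) (nat_lit 599344215761) (nat_lit 152) (nat_lit 665126735678) (nat_lit 0) (nat_lit 406709845345) (nat_lit 2) (nat_lit 5) (nat_lit 4) (nat_lit 4) (nat_lit 2) (nat_lit 4) (nat_lit 332) (nat_lit 272) (nat_lit 116)) (XT.nd (nat_lit 32838) (nat_lit 0) (nat_lit 2356) (XT.lf (nat_lit 0) (nat_lit 695713863205) (nat_lit 152) (nat_lit 600863275190) (nat_lit 0) (nat_lit 503079405634) (nat_lit 2) (nat_lit 5) (nat_lit 4) (nat_lit 4) (nat_lit 2) (nat_lit 4) (nat_lit 333) (nat_lit 272) (nat_lit 115)) (XT.lf (nat_lit 0)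 (nat_lit 8007746122) (nat_lit 532) (nat_lit 9015220293) (nat_lit 532) (nat_lit 9015220293) (nat_lit 33) (nat_lit 3) (nat_lit 40) (nat_lit 3) (nat_lit 40) (nat_lit 5) (nat_lit 273) (nat_lit 273) (nat_lit 174))))) (XT.nd (nat_lit 234) (nat_lit 0) (nat_lit 152) (XT.nd (nat_lit 78) (nat_lit 0) (nat_lit 76) (XT.lf (nat_lit 76) (nat_lit 4097234512) (nat_lit 0) (nat_lit 12678812642) (nat_lit 532) (nat_lit 37373661869) (nat_lit 34) (nat_lit 5) (nat_lit 33) (nat_lit 3) (nat_lit 40) (nat_lit 5) (nat_lit 274) (nat_lit 273) (nat_lit 173)) (XT.nd (nat_lit 78) (nat_lit 0) (nat_lit 0) (XT.lf (nat_lit 0) (nat_lit 18351152480) (nat_lit 456) (nat_lit 27593243399) (nat_lit 532) (nat_lit 10384231575) (nat_lit 34) (nat_lit 5) (nat_lit 40) (nat_lit 5) (nat_lit 41) (nat_lit 5) (nat_lit 275) (nat_lit 273) (nat_lit 172)) (XT.lf (nat_lit 0) (nat_lit 20379597756) (nat_lit 456) (nat_lit 3667919752) (nat_lit 532)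 (nat_lit 34608166864) (nat_lit 34) (nat_lit 5) (nat_lit 40) (nat_lit 5) (nat_lit 41) (nat_lit 5) (nat_lit 276) (nat_lit 273) (nat_lit 171)))) (XT.nd (nat_lit 156) (nat_lit 0) (nat_lit 0) (XT.nd (nat_lit 78) (nat_lit 0) (nat_lit 0) (XT.lf (nat_lit 0) (nat_lit 23134748508) (nat_lit 456) (nat_lit 37791516637) (nat_lit 532) (nat_lit 197496990) (nat_lit 35) (nat_lit 5) (nat_lit 41) (nat_lit 5) (nat_lit 42) (nat_lit 5) (nat_lit 277) (nat_lit 273) (nat_lit 170)) (XT.lf (nat_lit 0) (nat_lit 26836093946) (nat_lit 456) (nat_lit 11708815316) (nat_lit 532) (nat_lit 25186324135) (nat_lit 35) (nat_lit 5) (nat_lit 41) (nat_lit 5) (nat_lit 42) (nat_lit 5) (nat_lit 278) (nat_lit 273) (nat_lit 169))) (XT.nd (nat_lit 78) (nat_lit 0) (nat_lit 76) (XT.lf (nat_lit 76) (nat_lit 17325959075) (nat_lit 0) (nat_lit 13922684611) (nat_lit 532) (nat_lit 35265460099) (nat_lit 36) (nat_lit 5) (nat_lit 35) (nat_lit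 5) (nat_lit 42) (nat_lit 5) (nat_lit 279) (nat_lit 273) (nat_lit 168)) (XT.lf (nat_lit 0) (nat_lit 36645852047) (nat_lit 456) (nat_lit 20458960608) (nat_lit 76) (nat_lit 12364267255) (nat_lit 36) (nat_lit 5) (nat_lit 42) (nat_lit 5) (nat_lit 37) (nat_lit 5) (nat_lit 280) (nat_lit 273) (nat_lit 167))))))))
noncomputable def xc103 : XT := (XT.nd (nat_lit 1950) (nat_lit 532) (nat_lit 0) (XT.nd (nat_lit 936) (nat_lit 760) (nat_lit 0) (XT.nd (nat_lit 468) (nat_lit 380) (nat_lit 0) (XT.nd (nat_lit 234) (nat_lit 228) (nat_lit 0) (XT.nd (nat_lit 78) (nat_lit 228) (nat_lit 0) (XT.lf (nat_lit 0) (nat_lit 10743081981) (nat_lit 456) (nat_lit 32350367758) (nat_lit 532) (nat_lit 29517523223) (nat_lit 30) (nat_lit 5) (nat_lit 36) (nat_lit 5) (nat_lit 37) (nat_lit 5) (nat_lit 281) (nat_lit 273) (nat_lit 166)) (XT.nd (nat_lit 78) (nat_lit 228) (nat_lit 0) (XT.lf (nat_lit 0) (nat_lit 45603578568) (nat_lit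 456) (nat_lit 5011347213) (nat_lit 532) (nat_lit 25344653303) (nat_lit 30) (nat_lit 5) (nat_lit 36) (nat_lit 5) (nat_lit 37) (nat_lit 5) (nat_lit 282) (nat_lit 273) (nat_lit 165)) (XT.lf (nat_lit 0) (nat_lit 3248520368) (nat_lit 228) (nat_lit 56156093442) (nat_lit 304) (nat_lit 20118147104) (nat_lit 27) (nat_lit 5) (nat_lit 30) (nat_lit 5) (nat_lit 31) (nat_lit 5) (nat_lit 283) (nat_lit 273) (nat_lit 164)))) (XT.nd (nat_lit 78) (nat_lit 228) (nat_lit 0) (XT.lf (nat_lit 0) (nat_lit 41129544384) (nat_lit 228) (nat_lit 28723635208) (nat_lit 304) (nat_lit 13441367712) (nat_lit 27) (nat_lit 5) (nat_lit 30) (nat_lit 5) (nat_lit 31) (nat_lit 5) (nat_lit 284) (nat_lit 273) (nat_lit 163)) (XT.nd (nat_lit 78) (nat_lit 228) (nat_lit 0) (XT.lf (nat_lit 0) (nat_lit 81158288376) (nat_lit 304) (nat_lit 5349965767) (nat_lit 76) (nat_lit 858175615) (nat_lit 27) (nat_lit 5) (nat_lit 31) (nat_lit 5)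 (nat_lit 28) (nat_lit 5) (nat_lit 285) (nat_lit 273) (nat_lit 162)) (XT.lf (nat_lit 0) (nat_lit 3162308881) (nat_lit 228) (nat_lit 56280620147) (nat_lit 76) (nat_lit 32186949797) (nat_lit 24) (nat_lit 5) (nat_lit 27) (nat_lit 5) (nat_lit 25) (nat_lit 5) (nat_lit 286) (nat_lit 273) (nat_lit 161))))) (XT.nd (nat_lit 234) (nat_lit 152) (nat_lit 0) (XT.nd (nat_lit 78) (nat_lit 228) (nat_lit 0) (XT.lf (nat_lit 0) (nat_lit 13096098784) (nat_lit 228) (nat_lit 16780222879) (nat_lit 76) (nat_lit 66333258341) (nat_lit 24) (nat_lit 5) (nat_lit 27) (nat_lit 5) (nat_lit 25) (nat_lit 5) (nat_lit 287) (nat_lit 273) (nat_lit 160)) (XT.nd (nat_lit 78) (nat_lit 0) (nat_lit 0) (XT.lf (nat_lit 0) (nat_lit 24545310574) (nat_lit 304) (nat_lit 73927879805) (nat_lit 76) (nat_lit 2624813645) (nat_lit 21) (nat_lit 5) (nat_lit 25) (nat_lit 5) (nat_lit 22) (nat_lit 5) (nat_lit 288) (nat_lit 273) (nat_lit 159))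 (XT.lf (nat_lit 0) (nat_lit 38156322615) (nat_lit 304) (nat_lit 31539023907) (nat_lit 76) (nat_lit 36582490305) (nat_lit 21) (nat_lit 5) (nat_lit 25) (nat_lit 5) (nat_lit 22) (nat_lit 5) (nat_lit 289) (nat_lit 273) (nat_lit 158)))) (XT.nd (nat_lit 78) (nat_lit 0) (nat_lit 0) (XT.lf (nat_lit 0) (nat_lit 14989765158) (nat_lit 152) (nat_lit 38226155611) (nat_lit 228) (nat_lit 58627362710) (nat_lit 19) (nat_lit 5) (nat_lit 21) (nat_lit 5) (nat_lit 22) (nat_lit 5) (nat_lit 290) (nat_lit 273) (nat_lit 157)) (XT.nd (nat_lit 78) (nat_lit 0) (nat_lit 0) (XT.lf (nat_lit 0) (nat_lit 67033511446) (nat_lit 152) (nat_lit 3308344257) (nat_lit 228) (nat_lit 47443188013) (nat_lit 19) (nat_lit 5) (nat_lit 21) (nat_lit 5) (nat_lit 22) (nat_lit 5) (nat_lit 291) (nat_lit 273) (nat_lit 156)) (XT.lf (nat_lit 0) (nat_lit 89664543301) (nat_lit 228) (nat_lit 1789756402) (nat_lit 76) (nat_lit 32681713956) (nat_lit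 19) (nat_lit 5) (nat_lit 22) (nat_lit 5) (nat_lit 20) (nat_lit 5) (nat_lit 292) (nat_lit 273) (nat_lit 155)))))) (XT.nd (nat_lit 468) (nat_lit 304) (nat_lit 0) (XT.nd (nat_lit 234) (nat_lit 152) (nat_lit 0) (XT.nd (nat_lit 78) (nat_lit 152) (nat_lit 0) (XT.lf (nat_lit 0) (nat_lit 53687805806) (nat_lit 152) (nat_lit 58221704408) (nat_lit 228) (nat_lit 18975436724) (nat_lit 17) (nat_lit 5) (nat_lit 19) (nat_lit 5) (nat_lit 20) (nat_lit 5) (nat_lit 293) (nat_lit 273) (nat_lit 154)) (XT.nd (nat_lit 78) (nat_lit 152) (nat_lit 0) (XT.lf (nat_lit 0) (nat_lit 113704474774) (nat_lit 152) (nat_lit 22277902713) (nat_lit 228) (nat_lit 2187555826) (nat_lit 17) (nat_lit 5) (nat_lit 19) (nat_lit 5) (nat_lit 20) (nat_lit 5) (nat_lit 294) (nat_lit 273) (nat_lit 153)) (XT.lf (nat_lit 0) (nat_lit 16386754484) (nat_lit 152) (nat_lit 112580140851) (nat_lit 76) (nat_lit 16940874496) (nat_lit 15) (nat_lit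 5) (nat_lit 17) (nat_lit 5) (nat_lit 16) (nat_lit 5) (nat_lit 295) (nat_lit 273) (nat_lit 152)))) (XT.nd (nat_lit 78) (nat_lit 152) (nat_lit 0) (XT.lf (nat_lit 0) (nat_lit 37593191167) (nat_lit 152) (nat_lit 57729296980) (nat_lit 76) (nat_lit 58836452362) (nat_lit 15) (nat_lit 5) (nat_lit 17) (nat_lit 5) (nat_lit 16) (nat_lit 5) (nat_lit 296) (nat_lit 273) (nat_lit 151)) (XT.nd (nat_lit 78) (nat_lit 0) (nat_lit 0) (XT.lf (nat_lit 0) (nat_lit 1588257506) (nat_lit 152) (nat_lit 58945541972) (nat_lit 228) (nat_lit 102533394795) (nat_lit 13) (nat_lit 5) (nat_lit 15) (nat_lit 5) (nat_lit 16) (nat_lit 5) (nat_lit 297) (nat_lit 273) (nat_lit 150)) (XT.lf (nat_lit 0) (nat_lit 68933545112) (nat_lit 152) (nat_lit 17954012816) (nat_lit 228) (nat_lit 85674320109) (nat_lit 13) (nat_lit 5) (nat_lit 15) (nat_lit 5) (nat_lit 16) (nat_lit 5) (nat_lit 298) (nat_lit 273) (nat_lit 149))))) (XT.nd (nat_lit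 234) (nat_lit 228) (nat_lit 0) (XT.nd (nat_lit 78) (nat_lit 76) (nat_lit 0) (XT.lf (nat_lit 0) (nat_lit 115982050392) (nat_lit 228) (nat_lit 41783364784) (nat_lit 76) (nat_lit 25000128344) (nat_lit 13) (nat_lit 5) (nat_lit 16) (nat_lit 5) (nat_lit 14) (nat_lit 4) (nat_lit 299) (nat_lit 273) (nat_lit 148)) (XT.nd (nat_lit 78) (nat_lit 0) (nat_lit 0) (XT.lf (nat_lit 0) (nat_lit 25834502397) (nat_lit 76) (nat_lit 122656807082) (nat_lit 152) (nat_lit 45207217743) (nat_lit 12) (nat_lit 5) (nat_lit 13) (nat_lit 5) (nat_lit 14) (nat_lit 4) (nat_lit 300) (nat_lit 273) (nat_lit 147)) (XT.lf (nat_lit 0) (nat_lit 101237366971) (nat_lit 76) (nat_lit 83505939241) (nat_lit 152) (nat_lit 20671485100) (nat_lit 12) (nat_lit 5) (nat_lit 13) (nat_lit 5) (nat_lit 14) (nat_lit 4) (nat_lit 301) (nat_lit 273) (nat_lit 146)))) (XT.nd (nat_lit 156) (nat_lit 0) (nat_lit 0) (XT.nd (nat_lit 78) (nat_lit 152)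 (nat_lit 0) (XT.lf (nat_lit 0) (nat_lit 5535196838) (nat_lit 152) (nat_lit 35536698820) (nat_lit 76) (nat_lit 176985283854) (nat_lit 11) (nat_lit 5) (nat_lit 13) (nat_lit 5) (nat_lit 12) (nat_lit 5) (nat_lit 302) (nat_lit 273) (nat_lit 145)) (XT.lf (nat_lit 0) (nat_lit 33838089409) (nat_lit 228) (nat_lit 191682522102) (nat_lit 76) (nat_lit 6058076814) (nat_lit 9) (nat_lit 5) (nat_lit 12) (nat_lit 5) (nat_lit 10) (nat_lit 4) (nat_lit 303) (nat_lit 273) (nat_lit 144))) (XT.nd (nat_lit 78) (nat_lit 0) (nat_lit 0) (XT.lf (nat_lit 0) (nat_lit 66468514863) (nat_lit 228) (nat_lit 123812184339) (nat_lit 76) (nat_lit 55736155583) (nat_lit 9) (nat_lit 5) (nat_lit 12) (nat_lit 5) (nat_lit 10) (nat_lit 4) (nat_lit 304) (nat_lit 273) (nat_lit 143)) (XT.lf (nat_lit 0) (nat_lit 101709027468) (nat_lit 228) (nat_lit 50512795141) (nat_lit 76) (nat_lit 109388280687) (nat_lit 9) (nat_lit 5) (nat_lit 12)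 (nat_lit 5) (nat_lit 10) (nat_lit 4) (nat_lit 305) (nat_lit 273) (nat_lit 142))))))) (XT.nd (nat_lit 1014) (nat_lit 228) (nat_lit 0) (XT.nd (nat_lit 468) (nat_lit 76) (nat_lit 0) (XT.nd (nat_lit 234) (nat_lit 152) (nat_lit 0) (XT.nd (nat_lit 78) (nat_lit 0) (nat_lit 0) (XT.lf (nat_lit 0) (nat_lit 30158671116) (nat_lit 76) (nat_lit 110335105540) (nat_lit 152) (nat_lit 137899036294) (nat_lit 8) (nat_lit 5) (nat_lit 9) (nat_lit 5) (nat_lit 10) (nat_lit 4) (nat_lit 306) (nat_lit 273) (nat_lit 141)) (XT.nd (nat_lit 78) (nat_lit 0) (nat_lit 0) (XT.lf (nat_lit 0) (nat_lit 120156042635) (nat_lit 76) (nat_lit 63606062590) (nat_lit 152) (nat_lit 112645571040) (nat_lit 8) (nat_lit 5) (nat_lit 9) (nat_lit 5) (nat_lit 10) (nat_lit 4) (nat_lit 307) (nat_lit 273) (nat_lit 140)) (XT.lf (nat_lit 0) (nat_lit 217352722897) (nat_lit 76) (nat_lit 13138890245) (nat_lit 152) (nat_lit 85372139238) (nat_lit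 8) (nat_lit 5) (nat_lit 9) (nat_lit 5) (nat_lit 10) (nat_lit 4) (nat_lit 308) (nat_lit 273) (nat_lit 139)))) (XT.nd (nat_lit 78) (nat_lit 152) (nat_lit 0) (XT.lf (nat_lit 0) (nat_lit 281954056710) (nat_lit 152) (nat_lit 15546485030) (nat_lit 0) (nat_lit 39296207565) (nat_lit 8) (nat_lit 5) (nat_lit 10) (nat_lit 4) (nat_lit 8) (nat_lit 4) (nat_lit 309) (nat_lit 273) (nat_lit 138)) (XT.nd (nat_lit 78) (nat_lit 76) (nat_lit 0) (XT.lf (nat_lit 0) (nat_lit 77595147955) (nat_lit 76) (nat_lit 262145532855) (nat_lit 76) (nat_lit 19487131039) (nat_lit 7) (nat_lit 4) (nat_lit 8) (nat_lit 5) (nat_lit 8) (nat_lit 4) (nat_lit 310) (nat_lit 273) (nat_lit 137)) (XT.lf (nat_lit 0) (nat_lit 18197442804) (nat_lit 152) (nat_lit 204808232515) (nat_lit 76) (nat_lit 160376842963) (nat_lit 6) (nat_lit 5) (nat_lit 8) (nat_lit 5) (nat_lit 7) (nat_lit 4) (nat_lit 311) (nat_lit 273) (nat_lit 136))))) (XT.nd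 (nat_lit 234) (nat_lit 0) (nat_lit 0) (XT.nd (nat_lit 78) (nat_lit 76) (nat_lit 0) (XT.lf (nat_lit 0) (nat_lit 57843741325) (nat_lit 152) (nat_lit 122344405418) (nat_lit 76) (nat_lit 229240980678) (nat_lit 6) (nat_lit 5) (nat_lit 8) (nat_lit 5) (nat_lit 7) (nat_lit 4) (nat_lit 312) (nat_lit 273) (nat_lit 135)) (XT.nd (nat_lit 78) (nat_lit 76) (nat_lit 0) (XT.lf (nat_lit 0) (nat_lit 100661530769) (nat_lit 152) (nat_lit 33283842104) (nat_lit 76) (nat_lit 303614109946) (nat_lit 6) (nat_lit 5) (nat_lit 8) (nat_lit 5) (nat_lit 7) (nat_lit 4) (nat_lit 313) (nat_lit 273) (nat_lit 134)) (XT.lf (nat_lit 0) (nat_lit 66213490699) (nat_lit 76) (nat_lit 82283491528) (nat_lit 152) (nat_lit 319315905768) (nat_lit 5) (nat_lit 5) (nat_lit 6) (nat_lit 5) (nat_lit 7) (nat_lit 4) (nat_lit 314) (nat_lit 273) (nat_lit 133)))) (XT.nd (nat_lit 156) (nat_lit 0) (nat_lit 0) (XT.nd (nat_lit 78) (nat_lit 0) (nat_lit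 0) (XT.lf (nat_lit 0) (nat_lit 175563157846) (nat_lit 76) (nat_lit 25505960576) (nat_lit 152) (nat_lit 299344659696) (nat_lit 5) (nat_lit 5) (nat_lit 6) (nat_lit 5) (nat_lit 7) (nat_lit 4) (nat_lit 315) (nat_lit 273) (nat_lit 132)) (XT.lf (nat_lit 0) (nat_lit 258708167932) (nat_lit 152) (nat_lit 242823583646) (nat_lit 0) (nat_lit 34022096868) (nat_lit 5) (nat_lit 5) (nat_lit 7) (nat_lit 4) (nat_lit 5) (nat_lit 4) (nat_lit 316) (nat_lit 273) (nat_lit 131))) (XT.nd (nat_lit 78) (nat_lit 0) (nat_lit 0) (XT.lf (nat_lit 0) (nat_lit 321620667516) (nat_lit 152) (nat_lit 154897173297) (nat_lit 0) (nat_lit 96934297860) (nat_lit 5) (nat_lit 5) (nat_lit 7) (nat_lit 4) (nat_lit 5) (nat_lit 4) (nat_lit 317) (nat_lit 273) (nat_lit 130)) (XT.lf (nat_lit 0) (nat_lit 389566013021) (nat_lit 152) (nat_lit 59936924863) (nat_lit 0) (nat_lit 164879366892) (nat_lit 5) (nat_lit 5) (nat_lit 7) (nat_lit 4)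 (nat_lit 5) (nat_lit 4) (nat_lit 318) (nat_lit 273) (nat_lit 129)))))) (XT.nd (nat_lit 468) (nat_lit 76) (nat_lit 0) (XT.nd (nat_lit 234) (nat_lit 76) (nat_lit 0) (XT.nd (nat_lit 78) (nat_lit 0) (nat_lit 0) (XT.lf (nat_lit 0) (nat_lit 44864176879) (nat_lit 76) (nat_lit 419161651185) (nat_lit 76) (nat_lit 194474749063) (nat_lit 4) (nat_lit 4) (nat_lit 5) (nat_lit 5) (nat_lit 5) (nat_lit 4) (nat_lit 319) (nat_lit 273) (nat_lit 128)) (XT.nd (nat_lit 78) (nat_lit 0) (nat_lit 0) (XT.lf (nat_lit 0) (nat_lit 161457784835) (nat_lit 76) (nat_lit 384623287187) (nat_lit 76) (nat_lit 159936148033) (nat_lit 4) (nat_lit 4) (nat_lit 5) (nat_lit 5) (nat_lit 5) (nat_lit 4) (nat_lit 320) (nat_lit 273) (nat_lit 127)) (XT.lf (nat_lit 0) (nat_lit 287378651841) (nat_lit 76) (nat_lit 347321955847) (nat_lit 76) (nat_lit 122634597219) (nat_lit 4) (nat_lit 4) (nat_lit 5) (nat_lit 5) (nat_lit 5) (nat_lit 4)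 (nat_lit 321) (nat_lit 273) (nat_lit 126)))) (XT.nd (nat_lit 78) (nat_lit 76) (nat_lit 0) (XT.lf (nat_lit 0) (nat_lit 423372975628) (nat_lit 76) (nat_lit 307036612238) (nat_lit 76) (nat_lit 82349050394) (nat_lit 4) (nat_lit 4) (nat_lit 5) (nat_lit 5) (nat_lit 5) (nat_lit 4) (nat_lit 322) (nat_lit 273) (nat_lit 125)) (XT.nd (nat_lit 78) (nat_lit 76) (nat_lit 0) (XT.lf (nat_lit 0) (nat_lit 570246648486) (nat_lit 76) (nat_lit 263528528398) (nat_lit 76) (nat_lit 38840778392) (nat_lit 4) (nat_lit 4) (nat_lit 5) (nat_lit 5) (nat_lit 5) (nat_lit 4) (nat_lit 323) (nat_lit 273) (nat_lit 124)) (XT.lf (nat_lit 0) (nat_lit 7740447344) (nat_lit 152) (nat_lit 208587793754) (nat_lit 76) (nat_lit 720917948027) (nat_lit 3) (nat_lit 5) (nat_lit 5) (nat_lit 5) (nat_lit 4) (nat_lit 4) (nat_lit 324) (nat_lit 273) (nat_lit 123))))) (XT.nd (nat_lit 234) (nat_lit 0) (nat_lit 0) (XT.nd (nat_lit 78) (nat_lit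 76) (nat_lit 0) (XT.lf (nat_lit 0) (nat_lit 55949663688) (nat_lit 152) (nat_lit 108312785079) (nat_lit 76) (nat_lit 842703692711) (nat_lit 3) (nat_lit 5) (nat_lit 5) (nat_lit 5) (nat_lit 4) (nat_lit 4) (nat_lit 325) (nat_lit 273) (nat_lit 122)) (XT.nd (nat_lit 78) (nat_lit 76) (nat_lit 0) (XT.lf (nat_lit 0) (nat_lit 108015527924) (nat_lit 152) (nat_lit 15936838) (nat_lit 76) (nat_lit 974232232577) (nat_lit 3) (nat_lit 5) (nat_lit 5) (nat_lit 5) (nat_lit 4) (nat_lit 4) (nat_lit 326) (nat_lit 273) (nat_lit 121)) (XT.lf (nat_lit 0) (nat_lit 123102600725) (nat_lit 76) (nat_lit 44104598289) (nat_lit 152) (nat_lit 996141015792) (nat_lit 2) (nat_lit 5) (nat_lit 3) (nat_lit 5) (nat_lit 4) (nat_lit 4) (nat_lit 327) (nat_lit 273) (nat_lit 120)))) (XT.nd (nat_lit 156) (nat_lit 0) (nat_lit 0) (XT.nd (nat_lit 78) (nat_lit 0) (nat_lit 0) (XT.lf (nat_lit 0) (nat_lit 231734290568) (nat_lit 152) (nat_lit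 995447814337) (nat_lit 0) (nat_lit 23689381969) (nat_lit 2) (nat_lit 5) (nat_lit 4) (nat_lit 4) (nat_lit 2) (nat_lit 4) (nat_lit 328) (nat_lit 273) (nat_lit 119)) (XT.lf (nat_lit 0) (nat_lit 302569047754) (nat_lit 152) (nat_lit 948211903855) (nat_lit 0) (nat_lit 94524029364) (nat_lit 2) (nat_lit 5) (nat_lit 4) (nat_lit 4) (nat_lit 2) (nat_lit 4) (nat_lit 329) (nat_lit 273) (nat_lit 118))) (XT.nd (nat_lit 78) (nat_lit 0) (nat_lit 0) (XT.lf (nat_lit 0) (nat_lit 379070515449) (nat_lit 152) (nat_lit 897197249480) (nat_lit 0) (nat_lit 171025395400) (nat_lit 2) (nat_lit 5) (nat_lit 4) (nat_lit 4) (nat_lit 2) (nat_lit 4) (nat_lit 330) (nat_lit 273) (nat_lit 117)) (XT.lf (nat_lit 0) (nat_lit 461692035683) (nat_lit 152) (nat_lit 842101542149) (nat_lit 0) (nat_lit 253646821506) (nat_lit 2) (nat_lit 5) (nat_lit 4) (nat_lit 4) (nat_lit 2) (nat_lit 4) (nat_lit 331) (nat_lit 273) (nat_lit 116))))))))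
noncomputable def xc104 : XT := (XT.nd (nat_lit 34788) (nat_lit 0) (nat_lit 152) (XT.nd (nat_lit 33774) (nat_lit 0) (nat_lit 988) (XT.nd (nat_lit 33306) (nat_lit 0) (nat_lit 2128) (XT.nd (nat_lit 33072) (nat_lit 0) (nat_lit 2356) (XT.nd (nat_lit 78) (nat_lit 0) (nat_lit 0) (XT.lf (nat_lit 0) (nat_lit 550923217465) (nat_lit 152) (nat_lit 782598288781) (nat_lit 0) (nat_lit 342877916132) (nat_lit 2) (nat_lit 5) (nat_lit 4) (nat_lit 4) (nat_lit 2) (nat_lit 4) (nat_lit 332) (nat_lit 273) (nat_lit 115)) (XT.nd (nat_lit 32916) (nat_lit 0) (nat_lit 2356) (XT.lf (nat_lit 0) (nat_lit 647292838169) (nat_lit 152) (nat_lit 718334877506) (nat_lit 0) (nat_lit 439247456136) (nat_lit 2) (nat_lit 5) (nat_lit 4) (nat_lit 4) (nat_lit 2) (nat_lit 4) (nat_lit 333) (nat_lit 273) (nat_lit 114)) (XT.lf (nat_lit 0) (nat_lit 8669247854) (nat_lit 532) (nat_lit 9725100854) (nat_lit 532) (nat_lit 9725100854) (nat_lit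 33) (nat_lit 3) (nat_lit 40) (nat_lit 3) (nat_lit 40) (nat_lit 5) (nat_lit 274) (nat_lit 274) (nat_lit 172)))) (XT.nd (nat_lit 78) (nat_lit 0) (nat_lit 76) (XT.lf (nat_lit 76) (nat_lit 4447113368) (nat_lit 0) (nat_lit 13710219516) (nat_lit 532) (nat_lit 40320991672) (nat_lit 34) (nat_lit 5) (nat_lit 33) (nat_lit 3) (nat_lit 40) (nat_lit 5) (nat_lit 275) (nat_lit 274) (nat_lit 171)) (XT.nd (nat_lit 78) (nat_lit 0) (nat_lit 0) (XT.lf (nat_lit 0) (nat_lit 19855161953) (nat_lit 456) (nat_lit 29776746774) (nat_lit 532) (nat_lit 11199927177) (nat_lit 34) (nat_lit 5) (nat_lit 40) (nat_lit 5) (nat_lit 41) (nat_lit 5) (nat_lit 276) (nat_lit 274) (nat_lit 170)) (XT.lf (nat_lit 0) (nat_lit 22043222313) (nat_lit 456) (nat_lit 3939171761) (nat_lit 532) (nat_lit 37362891580) (nat_lit 34) (nat_lit 5) (nat_lit 40) (nat_lit 5) (nat_lit 41) (nat_lit 5) (nat_lit 277) (nat_lit 274) (nat_lit 169))))) (XT.nd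 (nat_lit 234) (nat_lit 380) (nat_lit 0) (XT.nd (nat_lit 78) (nat_lit 0) (nat_lit 0) (XT.lf (nat_lit 0) (nat_lit 25016608502) (nat_lit 456) (nat_lit 40790301137) (nat_lit 532) (nat_lit 204088420) (nat_lit 35) (nat_lit 5) (nat_lit 41) (nat_lit 5) (nat_lit 42) (nat_lit 5) (nat_lit 278) (nat_lit 274) (nat_lit 168)) (XT.nd (nat_lit 78) (nat_lit 0) (nat_lit 0) (XT.lf (nat_lit 0) (nat_lit 29011759345) (nat_lit 456) (nat_lit 12622801253) (nat_lit 532) (nat_lit 27192703835) (nat_lit 35) (nat_lit 5) (nat_lit 41) (nat_lit 5) (nat_lit 42) (nat_lit 5) (nat_lit 279) (nat_lit 274) (nat_lit 167)) (XT.lf (nat_lit 76) (nat_lit 18734179917) (nat_lit 0) (nat_lit 15041534018) (nat_lit 532) (nat_lit 38057190699) (nat_lit 36) (nat_lit 5) (nat_lit 35) (nat_lit 5) (nat_lit 42) (nat_lit 5) (nat_lit 280) (nat_lit 274) (nat_lit 166)))) (XT.nd (nat_lit 78) (nat_lit 456) (nat_lit 0) (XT.lf (nat_lit 0) (nat_lit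 39602573610) (nat_lit 456) (nat_lit 22072906481) (nat_lit 76) (nat_lit 13348980131) (nat_lit 36) (nat_lit 5) (nat_lit 42) (nat_lit 5) (nat_lit 37) (nat_lit 5) (nat_lit 281) (nat_lit 274) (nat_lit 165)) (XT.nd (nat_lit 78) (nat_lit 0) (nat_lit 0) (XT.lf (nat_lit 0) (nat_lit 11624723035) (nat_lit 456) (nat_lit 34939934054) (nat_lit 532) (nat_lit 31853163896) (nat_lit 30) (nat_lit 5) (nat_lit 36) (nat_lit 5) (nat_lit 37) (nat_lit 5) (nat_lit 282) (nat_lit 274) (nat_lit 164)) (XT.lf (nat_lit 0) (nat_lit 49272415312) (nat_lit 456) (nat_lit 5413678022) (nat_lit 532) (nat_lit 27348372619) (nat_lit 30) (nat_lit 5) (nat_lit 36) (nat_lit 5) (nat_lit 37) (nat_lit 5) (nat_lit 283) (nat_lit 274) (nat_lit 163)))))) (XT.nd (nat_lit 468) (nat_lit 456) (nat_lit 0) (XT.nd (nat_lit 234) (nat_lit 456) (nat_lit 0) (XT.nd (nat_lit 78) (nat_lit 0) (nat_lit 0) (XT.lf (nat_lit 0) (nat_lit 3530297424) (nat_lit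 228) (nat_lit 60647526211) (nat_lit 304) (nat_lit 21704978321) (nat_lit 27) (nat_lit 5) (nat_lit 30) (nat_lit 5) (nat_lit 31) (nat_lit 5) (nat_lit 284) (nat_lit 274) (nat_lit 162)) (XT.nd (nat_lit 78) (nat_lit 0) (nat_lit 0) (XT.lf (nat_lit 0) (nat_lit 44440181479) (nat_lit 228) (nat_lit 31020549446) (nat_lit 304) (nat_lit 14495732174) (nat_lit 27) (nat_lit 5) (nat_lit 30) (nat_lit 5) (nat_lit 31) (nat_lit 5) (nat_lit 285) (nat_lit 274) (nat_lit 161)) (XT.lf (nat_lit 0) (nat_lit 87668840753) (nat_lit 304) (nat_lit 5757687058) (nat_lit 76) (nat_lit 927688670) (nat_lit 27) (nat_lit 5) (nat_lit 31) (nat_lit 5) (nat_lit 28) (nat_lit 5) (nat_lit 286) (nat_lit 274) (nat_lit 160)))) (XT.nd (nat_lit 78) (nat_lit 228) (nat_lit 0) (XT.lf (nat_lit 0) (nat_lit 3432860533) (nat_lit 228) (nat_lit 60762299317) (nat_lit 76) (nat_lit 34763621182) (nat_lit 24) (nat_lit 5) (nat_lit 27) (nat_lit 5) (nat_lit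 25) (nat_lit 5) (nat_lit 287) (nat_lit 274) (nat_lit 159)) (XT.nd (nat_lit 78) (nat_lit 228) (nat_lit 0) (XT.lf (nat_lit 0) (nat_lit 14160052374) (nat_lit 228) (nat_lit 18103408818) (nat_lit 76) (nat_lit 71641507343) (nat_lit 24) (nat_lit 5) (nat_lit 27) (nat_lit 5) (nat_lit 25) (nat_lit 5) (nat_lit 288) (nat_lit 274) (nat_lit 158)) (XT.lf (nat_lit 0) (nat_lit 26524524822) (nat_lit 304) (nat_lit 79822131073) (nat_lit 76) (nat_lit 2837870359) (nat_lit 21) (nat_lit 5) (nat_lit 25) (nat_lit 5) (nat_lit 22) (nat_lit 5) (nat_lit 289) (nat_lit 274) (nat_lit 157))))) (XT.nd (nat_lit 234) (nat_lit 304) (nat_lit 0) (XT.nd (nat_lit 78) (nat_lit 152) (nat_lit 0) (XT.lf (nat_lit 0) (nat_lit 41223263055) (nat_lit 304) (nat_lit 34043646639) (nat_lit 76) (nat_lit 39511933624) (nat_lit 21) (nat_lit 5) (nat_lit 25) (nat_lit 5) (nat_lit 22) (nat_lit 5) (nat_lit 290) (nat_lit 274) (nat_lit 156)) (XT.nd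 (nat_lit 78) (nat_lit 0) (nat_lit 0) (XT.lf (nat_lit 0) (nat_lit 16206977218) (nat_lit 152) (nat_lit 41280016253) (nat_lit 228) (nat_lit 63302587943) (nat_lit 19) (nat_lit 5) (nat_lit 21) (nat_lit 5) (nat_lit 22) (nat_lit 5) (nat_lit 291) (nat_lit 274) (nat_lit 155)) (XT.lf (nat_lit 0) (nat_lit 72412887591) (nat_lit 152) (nat_lit 3569093458) (nat_lit 228) (nat_lit 51224787698) (nat_lit 19) (nat_lit 5) (nat_lit 21) (nat_lit 5) (nat_lit 22) (nat_lit 5) (nat_lit 292) (nat_lit 274) (nat_lit 154)))) (XT.nd (nat_lit 156) (nat_lit 152) (nat_lit 0) (XT.nd (nat_lit 78) (nat_lit 152) (nat_lit 0) (XT.lf (nat_lit 0) (nat_lit 96849624475) (nat_lit 228) (nat_lit 1916567045) (nat_lit 76) (nat_lit 35299697672) (nat_lit 19) (nat_lit 5) (nat_lit 22) (nat_lit 5) (nat_lit 20) (nat_lit 5) (nat_lit 293) (nat_lit 274) (nat_lit 153)) (XT.lf (nat_lit 0) (nat_lit 57998785713) (nat_lit 152) (nat_lit 62874903963)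 (nat_lit 228) (nat_lit 20481091245) (nat_lit 17) (nat_lit 5) (nat_lit 19) (nat_lit 5) (nat_lit 20) (nat_lit 5) (nat_lit 294) (nat_lit 274) (nat_lit 152))) (XT.nd (nat_lit 78) (nat_lit 152) (nat_lit 0) (XT.lf (nat_lit 0) (nat_lit 122815606314) (nat_lit 152) (nat_lit 24055934192) (nat_lit 228) (nat_lit 2351096943) (nat_lit 17) (nat_lit 5) (nat_lit 19) (nat_lit 5) (nat_lit 20) (nat_lit 5) (nat_lit 295) (nat_lit 274) (nat_lit 151)) (XT.lf (nat_lit 0) (nat_lit 17708248355) (nat_lit 152) (nat_lit 121570789006) (nat_lit 76) (nat_lit 18300471449) (nat_lit 15) (nat_lit 5) (nat_lit 17) (nat_lit 5) (nat_lit 16) (nat_lit 5) (nat_lit 296) (nat_lit 274) (nat_lit 150))))))) (XT.nd (nat_lit 936) (nat_lit 304) (nat_lit 0) (XT.nd (nat_lit 468) (nat_lit 304) (nat_lit 0) (XT.nd (nat_lit 234) (nat_lit 76) (nat_lit 0) (XT.nd (nat_lit 78) (nat_lit 152) (nat_lit 0) (XT.lf (nat_lit 0) (nat_lit 40610418232)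 (nat_lit 152) (nat_lit 62333045263) (nat_lit 76) (nat_lit 63547375027) (nat_lit 15) (nat_lit 5) (nat_lit 17) (nat_lit 5) (nat_lit 16) (nat_lit 5) (nat_lit 297) (nat_lit 274) (nat_lit 149)) (XT.nd (nat_lit 78) (nat_lit 0) (nat_lit 0) (XT.lf (nat_lit 0) (nat_lit 1729544076) (nat_lit 152) (nat_lit 63656349430) (nat_lit 228) (nat_lit 110725892243) (nat_lit 13) (nat_lit 5) (nat_lit 15) (nat_lit 5) (nat_lit 16) (nat_lit 5) (nat_lit 298) (nat_lit 274) (nat_lit 148)) (XT.lf (nat_lit 0) (nat_lit 74461400915) (nat_lit 152) (nat_lit 19385856157) (nat_lit 228) (nat_lit 92518845222) (nat_lit 13) (nat_lit 5) (nat_lit 15) (nat_lit 5) (nat_lit 16) (nat_lit 5) (nat_lit 299) (nat_lit 274) (nat_lit 147)))) (XT.nd (nat_lit 78) (nat_lit 76) (nat_lit 0) (XT.lf (nat_lit 0) (nat_lit 125268764607) (nat_lit 228) (nat_lit 45113264993) (nat_lit 76) (nat_lit 27004077215) (nat_lit 13) (nat_lit 5) (nat_lit 16) (nat_lit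 5) (nat_lit 14) (nat_lit 4) (nat_lit 300) (nat_lit 274) (nat_lit 146)) (XT.nd (nat_lit 78) (nat_lit 0) (nat_lit 0) (XT.lf (nat_lit 0) (nat_lit 27913708297) (nat_lit 76) (nat_lit 132464751726) (nat_lit 152) (nat_lit 48815295629) (nat_lit 12) (nat_lit 5) (nat_lit 13) (nat_lit 5) (nat_lit 14) (nat_lit 4) (nat_lit 301) (nat_lit 274) (nat_lit 145)) (XT.lf (nat_lit 0) (nat_lit 109347880133) (nat_lit 76) (nat_lit 90182155193) (nat_lit 152) (nat_lit 22317333970) (nat_lit 12) (nat_lit 5) (nat_lit 13) (nat_lit 5) (nat_lit 14) (nat_lit 4) (nat_lit 302) (nat_lit 274) (nat_lit 144))))) (XT.nd (nat_lit 234) (nat_lit 76) (nat_lit 0) (XT.nd (nat_lit 78) (nat_lit 152) (nat_lit 0) (XT.lf (nat_lit 0) (nat_lit 5984935041) (nat_lit 152) (nat_lit 38368579306) (nat_lit 76) (nat_lit 191147665024) (nat_lit 11) (nat_lit 5) (nat_lit 13) (nat_lit 5) (nat_lit 12) (nat_lit 5) (nat_lit 303) (nat_lit 274) (nat_lit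 143)) (XT.nd (nat_lit 78) (nat_lit 0) (nat_lit 0) (XT.lf (nat_lit 0) (nat_lit 36551904161) (nat_lit 228) (nat_lit 207005894421) (nat_lit 76) (nat_lit 6546624228) (nat_lit 9) (nat_lit 5) (nat_lit 12) (nat_lit 5) (nat_lit 10) (nat_lit 4) (nat_lit 304) (nat_lit 274) (nat_lit 142)) (XT.lf (nat_lit 0) (nat_lit 71792262348) (nat_lit 228) (nat_lit 133706761448) (nat_lit 76) (nat_lit 60198660315) (nat_lit 9) (nat_lit 5) (nat_lit 12) (nat_lit 5) (nat_lit 10) (nat_lit 4) (nat_lit 305) (nat_lit 274) (nat_lit 141)))) (XT.nd (nat_lit 78) (nat_lit 76) (nat_lit 0) (XT.lf (nat_lit 0) (nat_lit 109851551791) (nat_lit 228) (nat_lit 54544191309) (nat_lit 76) (nat_lit 118142687851) (nat_lit 9) (nat_lit 5) (nat_lit 12) (nat_lit 5) (nat_lit 10) (nat_lit 4) (nat_lit 306) (nat_lit 274) (nat_lit 140)) (XT.nd (nat_lit 78) (nat_lit 0) (nat_lit 0) (XT.lf (nat_lit 0) (nat_lit 32580748515) (nat_lit 76) (nat_lit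 119158128291) (nat_lit 152) (nat_lit 148924898119) (nat_lit 8) (nat_lit 5) (nat_lit 9) (nat_lit 5) (nat_lit 10) (nat_lit 4) (nat_lit 307) (nat_lit 274) (nat_lit 139)) (XT.lf (nat_lit 0) (nat_lit 129777214666) (nat_lit 76) (nat_lit 68691042326) (nat_lit 152) (nat_lit 121651604614) (nat_lit 8) (nat_lit 5) (nat_lit 9) (nat_lit 5) (nat_lit 10) (nat_lit 4) (nat_lit 308) (nat_lit 274) (nat_lit 138)))))) (XT.nd (nat_lit 468) (nat_lit 152) (nat_lit 0) (XT.nd (nat_lit 234) (nat_lit 76) (nat_lit 0) (XT.nd (nat_lit 78) (nat_lit 76) (nat_lit 0) (XT.lf (nat_lit 0) (nat_lit 234748985747) (nat_lit 76) (nat_lit 14186755844) (nat_lit 152) (nat_lit 92196713979) (nat_lit 8) (nat_lit 5) (nat_lit 9) (nat_lit 5) (nat_lit 10) (nat_lit 4) (nat_lit 309) (nat_lit 274) (nat_lit 137)) (XT.nd (nat_lit 78) (nat_lit 76) (nat_lit 0) (XT.lf (nat_lit 0) (nat_lit 304514897409) (nat_lit 152) (nat_lit 16782459424) (nat_lit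 0) (nat_lit 42442759043) (nat_lit 8) (nat_lit 5) (nat_lit 10) (nat_lit 4) (nat_lit 8) (nat_lit 4) (nat_lit 310) (nat_lit 274) (nat_lit 136)) (XT.lf (nat_lit 0) (nat_lit 83810308140) (nat_lit 76) (nat_lit 283113990305) (nat_lit 76) (nat_lit 21041378112) (nat_lit 7) (nat_lit 4) (nat_lit 8) (nat_lit 5) (nat_lit 8) (nat_lit 4) (nat_lit 311) (nat_lit 274) (nat_lit 135)))) (XT.nd (nat_lit 78) (nat_lit 0) (nat_lit 0) (XT.lf (nat_lit 0) (nat_lit 19657392975) (nat_lit 152) (nat_lit 221185673532) (nat_lit 76) (nat_lit 173209711268) (nat_lit 6) (nat_lit 5) (nat_lit 8) (nat_lit 5) (nat_lit 7) (nat_lit 4) (nat_lit 312) (nat_lit 274) (nat_lit 134)) (XT.nd (nat_lit 78) (nat_lit 0) (nat_lit 0) (XT.lf (nat_lit 0) (nat_lit 62475087618) (nat_lit 152) (nat_lit 132125274903) (nat_lit 76) (nat_lit 247582778453) (nat_lit 6) (nat_lit 5) (nat_lit 8) (nat_lit 5) (nat_lit 7) (nat_lit 4) (nat_lit 313) (nat_lit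 274) (nat_lit 133)) (XT.lf (nat_lit 0) (nat_lit 108718015255) (nat_lit 152) (nat_lit 35940361557) (nat_lit 76) (nat_lit 327905571447) (nat_lit 6) (nat_lit 5) (nat_lit 8) (nat_lit 5) (nat_lit 7) (nat_lit 4) (nat_lit 314) (nat_lit 274) (nat_lit 132))))) (XT.nd (nat_lit 234) (nat_lit 76) (nat_lit 0) (XT.nd (nat_lit 78) (nat_lit 0) (nat_lit 0) (XT.lf (nat_lit 0) (nat_lit 71516601214) (nat_lit 76) (nat_lit 88863582814) (nat_lit 152) (nat_lit 344857451935) (nat_lit 5) (nat_lit 5) (nat_lit 6) (nat_lit 5) (nat_lit 7) (nat_lit 4) (nat_lit 315) (nat_lit 274) (nat_lit 131)) (XT.nd (nat_lit 78) (nat_lit 0) (nat_lit 0) (XT.lf (nat_lit 0) (nat_lit 189613794972) (nat_lit 76) (nat_lit 27544041093) (nat_lit 152) (nat_lit 323288782198) (nat_lit 5) (nat_lit 5) (nat_lit 6) (nat_lit 5) (nat_lit 7) (nat_lit 4) (nat_lit 316) (nat_lit 274) (nat_lit 130)) (XT.lf (nat_lit 0) (nat_lit 279407826738) (nat_lit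 152) (nat_lit 262244110180) (nat_lit 0) (nat_lit 36745972446) (nat_lit 5) (nat_lit 5) (nat_lit 7) (nat_lit 4) (nat_lit 5) (nat_lit 4) (nat_lit 317) (nat_lit 274) (nat_lit 129)))) (XT.nd (nat_lit 156) (nat_lit 76) (nat_lit 0) (XT.nd (nat_lit 78) (nat_lit 0) (nat_lit 0) (XT.lf (nat_lit 0) (nat_lit 347353103669) (nat_lit 152) (nat_lit 167283984051) (nat_lit 0) (nat_lit 104690993383) (nat_lit 5) (nat_lit 5) (nat_lit 7) (nat_lit 4) (nat_lit 5) (nat_lit 4) (nat_lit 318) (nat_lit 274) (nat_lit 128)) (XT.lf (nat_lit 0) (nat_lit 420733870685) (nat_lit 152) (nat_lit 64727283381) (nat_lit 0) (nat_lit 178071523367) (nat_lit 5) (nat_lit 5) (nat_lit 7) (nat_lit 4) (nat_lit 5) (nat_lit 4) (nat_lit 319) (nat_lit 274) (nat_lit 127))) (XT.nd (nat_lit 78) (nat_lit 0) (nat_lit 0) (XT.lf (nat_lit 0) (nat_lit 48457790159) (nat_lit 76) (nat_lit 452692597634) (nat_lit 76) (nat_lit 210030030843) (nat_lit 4)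 (nat_lit 4) (nat_lit 5) (nat_lit 5) (nat_lit 5) (nat_lit 4) (nat_lit 320) (nat_lit 274) (nat_lit 126)) (XT.lf (nat_lit 0) (nat_lit 174378554964) (nat_lit 76) (nat_lit 415391311601) (nat_lit 76) (nat_lit 172728541594) (nat_lit 4) (nat_lit 4) (nat_lit 5) (nat_lit 5) (nat_lit 5) (nat_lit 4) (nat_lit 321) (nat_lit 274) (nat_lit 125))))))))
noncomputable def xc105 : XT := (XT.nd (nat_lit 34944) (nat_lit 0) (nat_lit 304) (XT.nd (nat_lit 33930) (nat_lit 0) (nat_lit 1672) (XT.nd (nat_lit 468) (nat_lit 76) (nat_lit 0) (XT.nd (nat_lit 234) (nat_lit 76) (nat_lit 0) (XT.nd (nat_lit 78) (nat_lit 0) (nat_lit 0) (XT.lf (nat_lit 0) (nat_lit 310372784121) (nat_lit 76) (nat_lit 375106009943) (nat_lit 76) (nat_lit 132443051773) (nat_lit 4) (nat_lit 4) (nat_lit 5) (nat_lit 5) (nat_lit 5) (nat_lit 4) (nat_lit 322) (nat_lit 274) (nat_lit 124)) (XT.nd (nat_lit 78) (nat_lit 0) (nat_lit 0) (XT.lf (nat_lit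 0) (nat_lit 457246369357) (nat_lit 76) (nat_lit 331597964947) (nat_lit 76) (nat_lit 88934832552) (nat_lit 4) (nat_lit 4) (nat_lit 5) (nat_lit 5) (nat_lit 5) (nat_lit 4) (nat_lit 323) (nat_lit 274) (nat_lit 123)) (XT.lf (nat_lit 0) (nat_lit 615869672660) (nat_lit 76) (nat_lit 284609351161) (nat_lit 76) (nat_lit 41946057446) (nat_lit 4) (nat_lit 4) (nat_lit 5) (nat_lit 5) (nat_lit 5) (nat_lit 4) (nat_lit 324) (nat_lit 274) (nat_lit 122)))) (XT.nd (nat_lit 78) (nat_lit 0) (nat_lit 0) (XT.lf (nat_lit 0) (nat_lit 8361427584) (nat_lit 152) (nat_lit 225271673708) (nat_lit 76) (nat_lit 778592640142) (nat_lit 3) (nat_lit 5) (nat_lit 5) (nat_lit 5) (nat_lit 4) (nat_lit 4) (nat_lit 325) (nat_lit 274) (nat_lit 121)) (XT.nd (nat_lit 78) (nat_lit 0) (nat_lit 0) (XT.lf (nat_lit 0) (nat_lit 60427252016) (nat_lit 152) (nat_lit 116974897194) (nat_lit 76) (nat_lit 910121151343) (nat_lit 3) (nat_lit 5)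 (nat_lit 5) (nat_lit 5) (nat_lit 4) (nat_lit 4) (nat_lit 326) (nat_lit 274) (nat_lit 120)) (XT.lf (nat_lit 0) (nat_lit 116658265744) (nat_lit 152) (nat_lit 14516701) (nat_lit 76) (nat_lit 1052171888234) (nat_lit 3) (nat_lit 5) (nat_lit 5) (nat_lit 5) (nat_lit 4) (nat_lit 4) (nat_lit 327) (nat_lit 274) (nat_lit 119))))) (XT.nd (nat_lit 234) (nat_lit 0) (nat_lit 0) (XT.nd (nat_lit 78) (nat_lit 0) (nat_lit 0) (XT.lf (nat_lit 0) (nat_lit 132953435637) (nat_lit 76) (nat_lit 47631787277) (nat_lit 152) (nat_lit 1075830730647) (nat_lit 2) (nat_lit 5) (nat_lit 3) (nat_lit 5) (nat_lit 4) (nat_lit 4) (nat_lit 328) (nat_lit 274) (nat_lit 118)) (XT.nd (nat_lit 78) (nat_lit 0) (nat_lit 0) (XT.lf (nat_lit 0) (nat_lit 250274400786) (nat_lit 152) (nat_lit 1075081123805) (nat_lit 0) (nat_lit 25585569474) (nat_lit 2) (nat_lit 5) (nat_lit 4) (nat_lit 4) (nat_lit 2) (nat_lit 4) (nat_lit 329) (nat_lit 274)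 (nat_lit 117)) (XT.lf (nat_lit 0) (nat_lit 326775837290) (nat_lit 152) (nat_lit 1024066526831) (nat_lit 0) (nat_lit 102086911850) (nat_lit 2) (nat_lit 5) (nat_lit 4) (nat_lit 4) (nat_lit 2) (nat_lit 4) (nat_lit 330) (nat_lit 274) (nat_lit 116)))) (XT.nd (nat_lit 78) (nat_lit 0) (nat_lit 0) (XT.lf (nat_lit 0) (nat_lit 409397328644) (nat_lit 152) (nat_lit 968970872650) (nat_lit 0) (nat_lit 184708316048) (nat_lit 2) (nat_lit 5) (nat_lit 4) (nat_lit 4) (nat_lit 2) (nat_lit 4) (nat_lit 331) (nat_lit 274) (nat_lit 115)) (XT.nd (nat_lit 33072) (nat_lit 0) (nat_lit 2356) (XT.lf (nat_lit 0) (nat_lit 498628483685) (nat_lit 152) (nat_lit 909467668494) (nat_lit 0) (nat_lit 273939390389) (nat_lit 2) (nat_lit 5) (nat_lit 4) (nat_lit 4) (nat_lit 2) (nat_lit 4) (nat_lit 332) (nat_lit 274) (nat_lit 114)) (XT.lf (nat_lit 0) (nat_lit 9380690669) (nat_lit 532) (nat_lit 10493389219) (nat_lit 532) (nat_lit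 10493389219) (nat_lit 33) (nat_lit 3) (nat_lit 40) (nat_lit 3) (nat_lit 40) (nat_lit 5) (nat_lit 275) (nat_lit 275) (nat_lit 170)))))) (XT.nd (nat_lit 468) (nat_lit 684) (nat_lit 0) (XT.nd (nat_lit 234) (nat_lit 0) (nat_lit 152) (XT.nd (nat_lit 78) (nat_lit 0) (nat_lit 76) (XT.lf (nat_lit 76) (nat_lit 4821829707) (nat_lit 0) (nat_lit 14821699167) (nat_lit 532) (nat_lit 43510179968) (nat_lit 34) (nat_lit 5) (nat_lit 33) (nat_lit 3) (nat_lit 40) (nat_lit 5) (nat_lit 276) (nat_lit 275) (nat_lit 169)) (XT.nd (nat_lit 78) (nat_lit 0) (nat_lit 0) (XT.lf (nat_lit 0) (nat_lit 21474368184) (nat_lit 456) (nat_lit 32138348024) (nat_lit 532) (nat_lit 12083024469) (nat_lit 34) (nat_lit 5) (nat_lit 40) (nat_lit 5) (nat_lit 41) (nat_lit 5) (nat_lit 277) (nat_lit 275) (nat_lit 168)) (XT.lf (nat_lit 0) (nat_lit 23835192389) (nat_lit 456) (nat_lit 4235288380) (nat_lit 532) (nat_lit 40339981349) (nat_lit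 34) (nat_lit 5) (nat_lit 40) (nat_lit 5) (nat_lit 41) (nat_lit 5) (nat_lit 278) (nat_lit 275) (nat_lit 167)))) (XT.nd (nat_lit 78) (nat_lit 0) (nat_lit 0) (XT.lf (nat_lit 0) (nat_lit 27044583370) (nat_lit 456) (nat_lit 44032488850) (nat_lit 532) (nat_lit 212520835) (nat_lit 35) (nat_lit 5) (nat_lit 41) (nat_lit 5) (nat_lit 42) (nat_lit 5) (nat_lit 279) (nat_lit 275) (nat_lit 166)) (XT.nd (nat_lit 78) (nat_lit 0) (nat_lit 0) (XT.lf (nat_lit 0) (nat_lit 31357372489) (nat_lit 456) (nat_lit 13613147225) (nat_lit 532) (nat_lit 29360810273) (nat_lit 35) (nat_lit 5) (nat_lit 41) (nat_lit 5) (nat_lit 42) (nat_lit 5) (nat_lit 280) (nat_lit 275) (nat_lit 165)) (XT.lf (nat_lit 76) (nat_lit 20251899321) (nat_lit 0) (nat_lit 16249173130) (nat_lit 532) (nat_lit 41076469137) (nat_lit 36) (nat_lit 5) (nat_lit 35) (nat_lit 5) (nat_lit 42) (nat_lit 5) (nat_lit 281) (nat_lit 275) (nat_lit 164))))) (XT.nd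 (nat_lit 234) (nat_lit 456) (nat_lit 0) (XT.nd (nat_lit 78) (nat_lit 456) (nat_lit 0) (XT.lf (nat_lit 0) (nat_lit 42792258751) (nat_lit 456) (nat_lit 23819216558) (nat_lit 76) (nat_lit 14413101812) (nat_lit 36) (nat_lit 5) (nat_lit 42) (nat_lit 5) (nat_lit 37) (nat_lit 5) (nat_lit 282) (nat_lit 275) (nat_lit 163)) (XT.nd (nat_lit 78) (nat_lit 0) (nat_lit 0) (XT.lf (nat_lit 0) (nat_lit 12573729080) (nat_lit 456) (nat_lit 37736446401) (nat_lit 532) (nat_lit 34379330945) (nat_lit 30) (nat_lit 5) (nat_lit 36) (nat_lit 5) (nat_lit 37) (nat_lit 5) (nat_lit 283) (nat_lit 275) (nat_lit 162)) (XT.lf (nat_lit 0) (nat_lit 53231827243) (nat_lit 456) (nat_lit 5847992285) (nat_lit 532) (nat_lit 29515792370) (nat_lit 30) (nat_lit 5) (nat_lit 36) (nat_lit 5) (nat_lit 37) (nat_lit 5) (nat_lit 284) (nat_lit 275) (nat_lit 161)))) (XT.nd (nat_lit 156) (nat_lit 228) (nat_lit 0) (XT.nd (nat_lit 78) (nat_lit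 0) (nat_lit 0) (XT.lf (nat_lit 0) (nat_lit 3831493018) (nat_lit 228) (nat_lit 65498424068) (nat_lit 304) (nat_lit 23421983110) (nat_lit 27) (nat_lit 5) (nat_lit 30) (nat_lit 5) (nat_lit 31) (nat_lit 5) (nat_lit 285) (nat_lit 275) (nat_lit 160)) (XT.lf (nat_lit 0) (nat_lit 48012777293) (nat_lit 228) (nat_lit 33501356142) (nat_lit 304) (nat_lit 15637433824) (nat_lit 27) (nat_lit 5) (nat_lit 30) (nat_lit 5) (nat_lit 31) (nat_lit 5) (nat_lit 286) (nat_lit 275) (nat_lit 159))) (XT.nd (nat_lit 78) (nat_lit 228) (nat_lit 0) (XT.lf (nat_lit 0) (nat_lit 94697685210) (nat_lit 304) (nat_lit 6200918647) (nat_lit 76) (nat_lit 1002640223) (nat_lit 27) (nat_lit 5) (nat_lit 31) (nat_lit 5) (nat_lit 28) (nat_lit 5) (nat_lit 287) (nat_lit 275) (nat_lit 158)) (XT.lf (nat_lit 0) (nat_lit 3722550197) (nat_lit 228) (nat_lit 65605475955) (nat_lit 76) (nat_lit 37546181557) (nat_lit 24) (nat_lit 5) (nat_lit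 27) (nat_lit 5) (nat_lit 25) (nat_lit 5) (nat_lit 288) (nat_lit 275) (nat_lit 157))))))) (XT.nd (nat_lit 936) (nat_lit 532) (nat_lit 0) (XT.nd (nat_lit 468) (nat_lit 456) (nat_lit 0) (XT.nd (nat_lit 234) (nat_lit 152) (nat_lit 0) (XT.nd (nat_lit 78) (nat_lit 228) (nat_lit 0) (XT.lf (nat_lit 0) (nat_lit 15306801769) (nat_lit 228) (nat_lit 19535193277) (nat_lit 76) (nat_lit 77374189671) (nat_lit 24) (nat_lit 5) (nat_lit 27) (nat_lit 5) (nat_lit 25) (nat_lit 5) (nat_lit 289) (nat_lit 275) (nat_lit 156)) (XT.nd (nat_lit 78) (nat_lit 0) (nat_lit 0) (XT.lf (nat_lit 0) (nat_lit 28659852207) (nat_lit 304) (nat_lit 86190772687) (nat_lit 76) (nat_lit 3067533409) (nat_lit 21) (nat_lit 5) (nat_lit 25) (nat_lit 5) (nat_lit 22) (nat_lit 5) (nat_lit 290) (nat_lit 275) (nat_lit 155)) (XT.lf (nat_lit 0) (nat_lit 44533499470) (nat_lit 304) (nat_lit 36751278303) (nat_lit 76) (nat_lit 42675326667) (nat_lit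 21) (nat_lit 5) (nat_lit 25) (nat_lit 5) (nat_lit 22) (nat_lit 5) (nat_lit 291) (nat_lit 275) (nat_lit 154)))) (XT.nd (nat_lit 78) (nat_lit 0) (nat_lit 0) (XT.lf (nat_lit 0) (nat_lit 17518993942) (nat_lit 152) (nat_lit 44578789462) (nat_lit 228) (nat_lit 68353965945) (nat_lit 19) (nat_lit 5) (nat_lit 21) (nat_lit 5) (nat_lit 22) (nat_lit 5) (nat_lit 292) (nat_lit 275) (nat_lit 153)) (XT.nd (nat_lit 78) (nat_lit 0) (nat_lit 0) (XT.lf (nat_lit 0) (nat_lit 78220232067) (nat_lit 152) (nat_lit 3851261591) (nat_lit 228) (nat_lit 55310891979) (nat_lit 19) (nat_lit 5) (nat_lit 21) (nat_lit 5) (nat_lit 22) (nat_lit 5) (nat_lit 293) (nat_lit 275) (nat_lit 152)) (XT.lf (nat_lit 0) (nat_lit 104607811948) (nat_lit 228) (nat_lit 2055857884) (nat_lit 76) (nat_lit 38126628390) (nat_lit 19) (nat_lit 5) (nat_lit 22) (nat_lit 5) (nat_lit 20) (nat_lit 5) (nat_lit 294) (nat_lit 275) (nat_lit 151))))) (XT.nd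 (nat_lit 234) (nat_lit 152) (nat_lit 0) (XT.nd (nat_lit 78) (nat_lit 152) (nat_lit 0) (XT.lf (nat_lit 0) (nat_lit 62652367790) (nat_lit 152) (nat_lit 67901006708) (nat_lit 228) (nat_lit 22108964333) (nat_lit 17) (nat_lit 5) (nat_lit 19) (nat_lit 5) (nat_lit 20) (nat_lit 5) (nat_lit 295) (nat_lit 275) (nat_lit 150)) (XT.nd (nat_lit 78) (nat_lit 152) (nat_lit 0) (XT.lf (nat_lit 0) (nat_lit 132653520763) (nat_lit 152) (nat_lit 25976807472) (nat_lit 228) (nat_lit 2529356725) (nat_lit 17) (nat_lit 5) (nat_lit 19) (nat_lit 5) (nat_lit 20) (nat_lit 5) (nat_lit 296) (nat_lit 275) (nat_lit 149)) (XT.lf (nat_lit 0) (nat_lit 19133956159) (nat_lit 152) (nat_lit 131282937797) (nat_lit 76) (nat_lit 19768218865) (nat_lit 15) (nat_lit 5) (nat_lit 17) (nat_lit 5) (nat_lit 16) (nat_lit 5) (nat_lit 297) (nat_lit 275) (nat_lit 148)))) (XT.nd (nat_lit 78) (nat_lit 152) (nat_lit 0) (XT.lf (nat_lit 0) (nat_lit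 43867629408) (nat_lit 152) (nat_lit 67307175617) (nat_lit 76) (nat_lit 68634599936) (nat_lit 15) (nat_lit 5) (nat_lit 17) (nat_lit 5) (nat_lit 16) (nat_lit 5) (nat_lit 298) (nat_lit 275) (nat_lit 147)) (XT.nd (nat_lit 78) (nat_lit 0) (nat_lit 0) (XT.lf (nat_lit 0) (nat_lit 1880104078) (nat_lit 152) (nat_lit 68744711381) (nat_lit 228) (nat_lit 119575240942) (nat_lit 13) (nat_lit 5) (nat_lit 15) (nat_lit 5) (nat_lit 16) (nat_lit 5) (nat_lit 299) (nat_lit 275) (nat_lit 146)) (XT.lf (nat_lit 0) (nat_lit 80429606022) (nat_lit 152) (nat_lit 20932885757) (nat_lit 228) (nat_lit 99912276283) (nat_lit 13) (nat_lit 5) (nat_lit 15) (nat_lit 5) (nat_lit 16) (nat_lit 5) (nat_lit 300) (nat_lit 275) (nat_lit 145)))))) (XT.nd (nat_lit 468) (nat_lit 228) (nat_lit 0) (XT.nd (nat_lit 234) (nat_lit 228) (nat_lit 0) (XT.nd (nat_lit 78) (nat_lit 76) (nat_lit 0) (XT.lf (nat_lit 0) (nat_lit 135297253245) (nat_lit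 228) (nat_lit 48711378856) (nat_lit 76) (nat_lit 29167780111) (nat_lit 13) (nat_lit 5) (nat_lit 16) (nat_lit 5) (nat_lit 14) (nat_lit 4) (nat_lit 301) (nat_lit 275) (nat_lit 144)) (XT.nd (nat_lit 78) (nat_lit 0) (nat_lit 0) (XT.lf (nat_lit 0) (nat_lit 30157475150) (nat_lit 76) (nat_lit 143057988173) (nat_lit 152) (nat_lit 52713232300) (nat_lit 12) (nat_lit 5) (nat_lit 13) (nat_lit 5) (nat_lit 14) (nat_lit 4) (nat_lit 302) (nat_lit 275) (nat_lit 143)) (XT.lf (nat_lit 0) (nat_lit 118105590348) (nat_lit 76) (nat_lit 97393076042) (nat_lit 152) (nat_lit 24095973484) (nat_lit 12) (nat_lit 5) (nat_lit 13) (nat_lit 5) (nat_lit 14) (nat_lit 4) (nat_lit 303) (nat_lit 275) (nat_lit 142)))) (XT.nd (nat_lit 78) (nat_lit 152) (nat_lit 0) (XT.lf (nat_lit 0) (nat_lit 6469664734) (nat_lit 152) (nat_lit 41428587410) (nat_lit 76) (nat_lit 206442529032) (nat_lit 11) (nat_lit 5) (nat_lit 13) (nat_lit 5)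 (nat_lit 12) (nat_lit 5) (nat_lit 304) (nat_lit 275) (nat_lit 141)) (XT.nd (nat_lit 78) (nat_lit 0) (nat_lit 0) (XT.lf (nat_lit 0) (nat_lit 39481858619) (nat_lit 228) (nat_lit 223556738533) (nat_lit 76) (nat_lit 7073698875) (nat_lit 9) (nat_lit 5) (nat_lit 12) (nat_lit 5) (nat_lit 10) (nat_lit 4) (nat_lit 305) (nat_lit 275) (nat_lit 140)) (XT.lf (nat_lit 0) (nat_lit 77541015674) (nat_lit 228) (nat_lit 144394388066) (nat_lit 76) (nat_lit 65017650094) (nat_lit 9) (nat_lit 5) (nat_lit 12) (nat_lit 5) (nat_lit 10) (nat_lit 4) (nat_lit 306) (nat_lit 275) (nat_lit 139))))) (XT.nd (nat_lit 234) (nat_lit 152) (nat_lit 0) (XT.nd (nat_lit 78) (nat_lit 76) (nat_lit 0) (XT.lf (nat_lit 0) (nat_lit 118644650322) (nat_lit 228) (nat_lit 58899472634) (nat_lit 76) (nat_lit 127596970428) (nat_lit 9) (nat_lit 5) (nat_lit 12) (nat_lit 5) (nat_lit 10) (nat_lit 4) (nat_lit 307) (nat_lit 275) (nat_lit 138))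 (XT.nd (nat_lit 78) (nat_lit 0) (nat_lit 0) (XT.lf (nat_lit 0) (nat_lit 35195253415) (nat_lit 76) (nat_lit 128687532933) (nat_lit 152) (nat_lit 160833693571) (nat_lit 8) (nat_lit 5) (nat_lit 9) (nat_lit 5) (nat_lit 10) (nat_lit 4) (nat_lit 308) (nat_lit 275) (nat_lit 137)) (XT.lf (nat_lit 0) (nat_lit 140166840931) (nat_lit 76) (nat_lit 74183320507) (nat_lit 152) (nat_lit 131378921504) (nat_lit 8) (nat_lit 5) (nat_lit 9) (nat_lit 5) (nat_lit 10) (nat_lit 4) (nat_lit 309) (nat_lit 275) (nat_lit 136)))) (XT.nd (nat_lit 156) (nat_lit 152) (nat_lit 0) (XT.nd (nat_lit 78) (nat_lit 0) (nat_lit 0) (XT.lf (nat_lit 0) (nat_lit 253535801914) (nat_lit 76) (nat_lit 15318913714) (nat_lit 152) (nat_lit 99567996024) (nat_lit 8) (nat_lit 5) (nat_lit 9) (nat_lit 5) (nat_lit 10) (nat_lit 4) (nat_lit 310) (nat_lit 275) (nat_lit 135)) (XT.lf (nat_lit 0) (nat_lit 328879961082) (nat_lit 152) (nat_lit 18118416595)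 (nat_lit 0) (nat_lit 45840627359) (nat_lit 8) (nat_lit 5) (nat_lit 10) (nat_lit 4) (nat_lit 8) (nat_lit 4) (nat_lit 311) (nat_lit 275) (nat_lit 134))) (XT.nd (nat_lit 78) (nat_lit 76) (nat_lit 0) (XT.lf (nat_lit 0) (nat_lit 90521604283) (nat_lit 76) (nat_lit 305760378752) (nat_lit 76) (nat_lit 22720638799) (nat_lit 7) (nat_lit 4) (nat_lit 8) (nat_lit 5) (nat_lit 8) (nat_lit 4) (nat_lit 312) (nat_lit 275) (nat_lit 133)) (XT.lf (nat_lit 0) (nat_lit 21233546438) (nat_lit 152) (nat_lit 238874339500) (nat_lit 76) (nat_lit 187068820874) (nat_lit 6) (nat_lit 5) (nat_lit 8) (nat_lit 5) (nat_lit 7) (nat_lit 4) (nat_lit 313) (nat_lit 275) (nat_lit 132))))))))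
noncomputable def xc106 : XT := (XT.nd (nat_lit 35022) (nat_lit 0) (nat_lit 532) (XT.nd (nat_lit 936) (nat_lit 152) (nat_lit 0) (XT.nd (nat_lit 468) (nat_lit 76) (nat_lit 0) (XT.nd (nat_lit 234) (nat_lit 0) (nat_lit 0) (XT.nd (nat_lit 78) (nat_lit 76) (nat_lit 0) (XT.lf (nat_lit 0) (nat_lit 67476392799) (nat_lit 152) (nat_lit 142689567345) (nat_lit 76) (nat_lit 267391560642) (nat_lit 6) (nat_lit 5) (nat_lit 8) (nat_lit 5) (nat_lit 7) (nat_lit 4) (nat_lit 314) (nat_lit 275) (nat_lit 131)) (XT.nd (nat_lit 78) (nat_lit 76) (nat_lit 0) (XT.lf (nat_lit 0) (nat_lit 117418510338) (nat_lit 152) (nat_lit 38810285342) (nat_lit 76) (nat_lit 354140017081) (nat_lit 6) (nat_lit 5) (nat_lit 8) (nat_lit 5) (nat_lit 7) (nat_lit 4) (nat_lit 315) (nat_lit 275) (nat_lit 130)) (XT.lf (nat_lit 0) (nat_lit 77243100143) (nat_lit 76) (nat_lit 95970450616) (nat_lit 152) (nat_lit 372442853393) (nat_lit 5) (nat_lit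 5) (nat_lit 6) (nat_lit 5) (nat_lit 7) (nat_lit 4) (nat_lit 316) (nat_lit 275) (nat_lit 129)))) (XT.nd (nat_lit 78) (nat_lit 0) (nat_lit 0) (XT.lf (nat_lit 0) (nat_lit 204787686378) (nat_lit 76) (nat_lit 29745509914) (nat_lit 152) (nat_lit 349148926721) (nat_lit 5) (nat_lit 5) (nat_lit 6) (nat_lit 5) (nat_lit 7) (nat_lit 4) (nat_lit 317) (nat_lit 275) (nat_lit 128)) (XT.nd (nat_lit 78) (nat_lit 0) (nat_lit 0) (XT.lf (nat_lit 0) (nat_lit 301763029499) (nat_lit 152) (nat_lit 283219043523) (nat_lit 0) (nat_lit 39687457365) (nat_lit 5) (nat_lit 5) (nat_lit 7) (nat_lit 4) (nat_lit 5) (nat_lit 4) (nat_lit 318) (nat_lit 275) (nat_lit 127)) (XT.lf (nat_lit 0) (nat_lit 375143737723) (nat_lit 152) (nat_lit 180662447709) (nat_lit 0) (nat_lit 113067946116) (nat_lit 5) (nat_lit 5) (nat_lit 7) (nat_lit 4) (nat_lit 5) (nat_lit 4) (nat_lit 319) (nat_lit 275) (nat_lit 126))))) (XT.nd (nat_lit 234)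 (nat_lit 0) (nat_lit 0) (XT.nd (nat_lit 78) (nat_lit 76) (nat_lit 0) (XT.lf (nat_lit 0) (nat_lit 454394789377) (nat_lit 152) (nat_lit 69901526176) (nat_lit 0) (nat_lit 192318794554) (nat_lit 5) (nat_lit 5) (nat_lit 7) (nat_lit 4) (nat_lit 5) (nat_lit 4) (nat_lit 320) (nat_lit 275) (nat_lit 125)) (XT.nd (nat_lit 78) (nat_lit 0) (nat_lit 0) (XT.lf (nat_lit 0) (nat_lit 52338253505) (nat_lit 76) (nat_lit 488906303073) (nat_lit 76) (nat_lit 226830120086) (nat_lit 4) (nat_lit 4) (nat_lit 5) (nat_lit 5) (nat_lit 5) (nat_lit 4) (nat_lit 321) (nat_lit 275) (nat_lit 124)) (XT.lf (nat_lit 0) (nat_lit 188332395039) (nat_lit 76) (nat_lit 448621040259) (nat_lit 76) (nat_lit 186544683047) (nat_lit 4) (nat_lit 4) (nat_lit 5) (nat_lit 5) (nat_lit 5) (nat_lit 4) (nat_lit 322) (nat_lit 275) (nat_lit 123)))) (XT.nd (nat_lit 78) (nat_lit 0) (nat_lit 0) (XT.lf (nat_lit 0) (nat_lit 335205899145) (nat_lit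 76) (nat_lit 405113031229) (nat_lit 76) (nat_lit 143036512698) (nat_lit 4) (nat_lit 4) (nat_lit 5) (nat_lit 5) (nat_lit 5) (nat_lit 4) (nat_lit 323) (nat_lit 275) (nat_lit 122)) (XT.nd (nat_lit 78) (nat_lit 0) (nat_lit 0) (XT.lf (nat_lit 0) (nat_lit 493829127326) (nat_lit 76) (nat_lit 358124450745) (nat_lit 76) (nat_lit 96047782844) (nat_lit 4) (nat_lit 4) (nat_lit 5) (nat_lit 5) (nat_lit 5) (nat_lit 4) (nat_lit 324) (nat_lit 275) (nat_lit 121)) (XT.lf (nat_lit 0) (nat_lit 665142069084) (nat_lit 76) (nat_lit 307376847960) (nat_lit 76) (nat_lit 45300041753) (nat_lit 4) (nat_lit 4) (nat_lit 5) (nat_lit 5) (nat_lit 5) (nat_lit 4) (nat_lit 325) (nat_lit 275) (nat_lit 120)))))) (XT.nd (nat_lit 468) (nat_lit 0) (nat_lit 0) (XT.nd (nat_lit 234) (nat_lit 76) (nat_lit 0) (XT.nd (nat_lit 78) (nat_lit 0) (nat_lit 0) (XT.lf (nat_lit 0) (nat_lit 9031837377) (nat_lit 152) (nat_lit 243290712521)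 (nat_lit 76) (nat_lit 840881128404) (nat_lit 3) (nat_lit 5) (nat_lit 5) (nat_lit 5) (nat_lit 4) (nat_lit 4) (nat_lit 326) (nat_lit 275) (nat_lit 119)) (XT.nd (nat_lit 78) (nat_lit 0) (nat_lit 0) (XT.lf (nat_lit 0) (nat_lit 65262816980) (nat_lit 152) (nat_lit 126330393522) (nat_lit 76) (nat_lit 982931840720) (nat_lit 3) (nat_lit 5) (nat_lit 5) (nat_lit 5) (nat_lit 4) (nat_lit 4) (nat_lit 327) (nat_lit 275) (nat_lit 118)) (XT.lf (nat_lit 0) (nat_lit 125992209228) (nat_lit 152) (nat_lit 13367437) (nat_lit 76) (nat_lit 1136346562691) (nat_lit 3) (nat_lit 5) (nat_lit 5) (nat_lit 5) (nat_lit 4) (nat_lit 4) (nat_lit 328) (nat_lit 275) (nat_lit 117)))) (XT.nd (nat_lit 78) (nat_lit 0) (nat_lit 0) (XT.lf (nat_lit 0) (nat_lit 143591962592) (nat_lit 76) (nat_lit 51441319563) (nat_lit 152) (nat_lit 1161895846156) (nat_lit 2) (nat_lit 5) (nat_lit 3) (nat_lit 5) (nat_lit 4) (nat_lit 4) (nat_lit 329)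 (nat_lit 275) (nat_lit 116)) (XT.nd (nat_lit 78) (nat_lit 0) (nat_lit 0) (XT.lf (nat_lit 0) (nat_lit 270297524807) (nat_lit 152) (nat_lit 1161085456921) (nat_lit 0) (nat_lit 27633304048) (nat_lit 2) (nat_lit 5) (nat_lit 4) (nat_lit 4) (nat_lit 2) (nat_lit 4) (nat_lit 330) (nat_lit 275) (nat_lit 115)) (XT.lf (nat_lit 0) (nat_lit 352918989420) (nat_lit 152) (nat_lit 1105989851951) (nat_lit 0) (nat_lit 110254687961) (nat_lit 2) (nat_lit 5) (nat_lit 4) (nat_lit 4) (nat_lit 2) (nat_lit 4) (nat_lit 331) (nat_lit 275) (nat_lit 114))))) (XT.nd (nat_lit 33306) (nat_lit 0) (nat_lit 2432) (XT.nd (nat_lit 33150) (nat_lit 0) (nat_lit 2356) (XT.lf (nat_lit 0) (nat_lit 442150119701) (nat_lit 152) (nat_lit 1046486693363) (nat_lit 0) (nat_lit 199485743520) (nat_lit 2) (nat_lit 5) (nat_lit 4) (nat_lit 4) (nat_lit 2) (nat_lit 4) (nat_lit 332) (nat_lit 275) (nat_lit 113)) (XT.nd (nat_lit 78) (nat_lit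 0) (nat_lit 0) (XT.lf (nat_lit 0) (nat_lit 10146494847) (nat_lit 532) (nat_lit 11324527278) (nat_lit 532) (nat_lit 11324527278) (nat_lit 33) (nat_lit 3) (nat_lit 40) (nat_lit 3) (nat_lit 40) (nat_lit 5) (nat_lit 276) (nat_lit 276) (nat_lit 168)) (XT.lf (nat_lit 76) (nat_lit 5223820314) (nat_lit 0) (nat_lit 16020005480) (nat_lit 532) (nat_lit 46959709182) (nat_lit 34) (nat_lit 5) (nat_lit 33) (nat_lit 3) (nat_lit 40) (nat_lit 5) (nat_lit 277) (nat_lit 276) (nat_lit 167)))) (XT.nd (nat_lit 156) (nat_lit 0) (nat_lit 76) (XT.nd (nat_lit 78) (nat_lit 0) (nat_lit 0) (XT.lf (nat_lit 0) (nat_lit 23218717908) (nat_lit 456) (nat_lit 34691807420) (nat_lit 532) (nat_lit 13038609428) (nat_lit 34) (nat_lit 5) (nat_lit 40) (nat_lit 5) (nat_lit 41) (nat_lit 5) (nat_lit 278) (nat_lit 276) (nat_lit 166)) (XT.lf (nat_lit 0) (nat_lit 25766452474) (nat_lit 456) (nat_lit 4557807333) (nat_lit 532) (nat_lit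 43556941895) (nat_lit 34) (nat_lit 5) (nat_lit 40) (nat_lit 5) (nat_lit 41) (nat_lit 5) (nat_lit 279) (nat_lit 276) (nat_lit 165))) (XT.nd (nat_lit 78) (nat_lit 0) (nat_lit 0) (XT.lf (nat_lit 0) (nat_lit 29230994852) (nat_lit 456) (nat_lit 47537052654) (nat_lit 532) (nat_lit 222754105) (nat_lit 35) (nat_lit 5) (nat_lit 41) (nat_lit 5) (nat_lit 42) (nat_lit 5) (nat_lit 280) (nat_lit 276) (nat_lit 164)) (XT.lf (nat_lit 0) (nat_lit 33887114892) (nat_lit 456) (nat_lit 14685499648) (nat_lit 532) (nat_lit 31703408061) (nat_lit 35) (nat_lit 5) (nat_lit 41) (nat_lit 5) (nat_lit 42) (nat_lit 5) (nat_lit 281) (nat_lit 276) (nat_lit 163))))))) (XT.nd (nat_lit 936) (nat_lit 760) (nat_lit 0) (XT.nd (nat_lit 468) (nat_lit 608) (nat_lit 0) (XT.nd (nat_lit 234) (nat_lit 228) (nat_lit 0) (XT.nd (nat_lit 78) (nat_lit 380) (nat_lit 0) (XT.lf (nat_lit 76) (nat_lit 21888327854) (nat_lit 0) (nat_lit 17552807590)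 (nat_lit 532) (nat_lit 44340898724) (nat_lit 36) (nat_lit 5) (nat_lit 35) (nat_lit 5) (nat_lit 42) (nat_lit 5) (nat_lit 282) (nat_lit 276) (nat_lit 162)) (XT.nd (nat_lit 78) (nat_lit 456) (nat_lit 0) (XT.lf (nat_lit 0) (nat_lit 46234054448) (nat_lit 456) (nat_lit 25708016536) (nat_lit 76) (nat_lit 15562894874) (nat_lit 36) (nat_lit 5) (nat_lit 42) (nat_lit 5) (nat_lit 37) (nat_lit 5) (nat_lit 283) (nat_lit 276) (nat_lit 161)) (XT.lf (nat_lit 0) (nat_lit 13595941023) (nat_lit 456) (nat_lit 40756491762) (nat_lit 532) (nat_lit 37110742181) (nat_lit 30) (nat_lit 5) (nat_lit 36) (nat_lit 5) (nat_lit 37) (nat_lit 5) (nat_lit 284) (nat_lit 276) (nat_lit 160)))) (XT.nd (nat_lit 78) (nat_lit 228) (nat_lit 0) (XT.lf (nat_lit 0) (nat_lit 57505478623) (nat_lit 456) (nat_lit 6316877640) (nat_lit 532) (nat_lit 31859523130) (nat_lit 30) (nat_lit 5) (nat_lit 36) (nat_lit 5) (nat_lit 37) (nat_lit 5)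 (nat_lit 285) (nat_lit 276) (nat_lit 159)) (XT.nd (nat_lit 78) (nat_lit 0) (nat_lit 0) (XT.lf (nat_lit 0) (nat_lit 4154106252) (nat_lit 228) (nat_lit 70737522754) (nat_lit 304) (nat_lit 25279114978) (nat_lit 27) (nat_lit 5) (nat_lit 30) (nat_lit 5) (nat_lit 31) (nat_lit 5) (nat_lit 286) (nat_lit 276) (nat_lit 158)) (XT.lf (nat_lit 0) (nat_lit 51868701137) (nat_lit 228) (nat_lit 36180746819) (nat_lit 304) (nat_lit 16873033363) (nat_lit 27) (nat_lit 5) (nat_lit 30) (nat_lit 5) (nat_lit 31) (nat_lit 5) (nat_lit 287) (nat_lit 276) (nat_lit 157))))) (XT.nd (nat_lit 234) (nat_lit 380) (nat_lit 0) (XT.nd (nat_lit 78) (nat_lit 228) (nat_lit 0) (XT.lf (nat_lit 0) (nat_lit 102286649201) (nat_lit 304) (nat_lit 6682088695) (nat_lit 76) (nat_lit 1083482837) (nat_lit 27) (nat_lit 5) (nat_lit 31) (nat_lit 5) (nat_lit 28) (nat_lit 5) (nat_lit 288) (nat_lit 276) (nat_lit 156)) (XT.nd (nat_lit 78) (nat_lit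 0) (nat_lit 0) (XT.lf (nat_lit 0) (nat_lit 4033266440) (nat_lit 228) (nat_lit 70838647137) (nat_lit 76) (nat_lit 40551136952) (nat_lit 24) (nat_lit 5) (nat_lit 27) (nat_lit 5) (nat_lit 25) (nat_lit 5) (nat_lit 289) (nat_lit 276) (nat_lit 155)) (XT.lf (nat_lit 0) (nat_lit 16543301676) (nat_lit 228) (nat_lit 21083872725) (nat_lit 76) (nat_lit 83565292318) (nat_lit 24) (nat_lit 5) (nat_lit 27) (nat_lit 5) (nat_lit 25) (nat_lit 5) (nat_lit 290) (nat_lit 276) (nat_lit 154)))) (XT.nd (nat_lit 78) (nat_lit 152) (nat_lit 0) (XT.lf (nat_lit 0) (nat_lit 30964099059) (nat_lit 304) (nat_lit 93071349256) (nat_lit 76) (nat_lit 3315193816) (nat_lit 21) (nat_lit 5) (nat_lit 25) (nat_lit 5) (nat_lit 22) (nat_lit 5) (nat_lit 291) (nat_lit 276) (nat_lit 153)) (XT.nd (nat_lit 78) (nat_lit 152) (nat_lit 0) (XT.lf (nat_lit 0) (nat_lit 48106789312) (nat_lit 304) (nat_lit 39677783117) (nat_lit 76) (nat_lit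 46091443295) (nat_lit 21) (nat_lit 5) (nat_lit 25) (nat_lit 5) (nat_lit 22) (nat_lit 5) (nat_lit 292) (nat_lit 276) (nat_lit 152)) (XT.lf (nat_lit 0) (nat_lit 18933766668) (nat_lit 152) (nat_lit 48141982115) (nat_lit 228) (nat_lit 73811284393) (nat_lit 19) (nat_lit 5) (nat_lit 21) (nat_lit 5) (nat_lit 22) (nat_lit 5) (nat_lit 293) (nat_lit 276) (nat_lit 151)))))) (XT.nd (nat_lit 468) (nat_lit 456) (nat_lit 0) (XT.nd (nat_lit 234) (nat_lit 152) (nat_lit 0) (XT.nd (nat_lit 78) (nat_lit 152) (nat_lit 0) (XT.lf (nat_lit 0) (nat_lit 84490122124) (nat_lit 152) (nat_lit 4156482422) (nat_lit 228) (nat_lit 59725579238) (nat_lit 19) (nat_lit 5) (nat_lit 21) (nat_lit 5) (nat_lit 22) (nat_lit 5) (nat_lit 294) (nat_lit 276) (nat_lit 150)) (XT.nd (nat_lit 78) (nat_lit 152) (nat_lit 0) (XT.lf (nat_lit 0) (nat_lit 112985196776) (nat_lit 228) (nat_lit 2208294172) (nat_lit 76) (nat_lit 41179292015)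 (nat_lit 19) (nat_lit 5) (nat_lit 22) (nat_lit 5) (nat_lit 20) (nat_lit 5) (nat_lit 295) (nat_lit 276) (nat_lit 149)) (XT.lf (nat_lit 0) (nat_lit 67676284940) (nat_lit 152) (nat_lit 73329752564) (nat_lit 228) (nat_lit 23868581503) (nat_lit 17) (nat_lit 5) (nat_lit 19) (nat_lit 5) (nat_lit 20) (nat_lit 5) (nat_lit 296) (nat_lit 276) (nat_lit 148)))) (XT.nd (nat_lit 78) (nat_lit 152) (nat_lit 0) (XT.lf (nat_lit 0) (nat_lit 143276661430) (nat_lit 152) (nat_lit 28051864402) (nat_lit 228) (nat_lit 2723279359) (nat_lit 17) (nat_lit 5) (nat_lit 19) (nat_lit 5) (nat_lit 20) (nat_lit 5) (nat_lit 297) (nat_lit 276) (nat_lit 147)) (XT.nd (nat_lit 78) (nat_lit 0) (nat_lit 0) (XT.lf (nat_lit 0) (nat_lit 20672429799) (nat_lit 152) (nat_lit 141773986462) (nat_lit 76) (nat_lit 21352856844) (nat_lit 15) (nat_lit 5) (nat_lit 17) (nat_lit 5) (nat_lit 16) (nat_lit 5) (nat_lit 298) (nat_lit 276) (nat_lit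 146)) (XT.lf (nat_lit 0) (nat_lit 47384222304) (nat_lit 152) (nat_lit 72681021556) (nat_lit 76) (nat_lit 74128312810) (nat_lit 15) (nat_lit 5) (nat_lit 17) (nat_lit 5) (nat_lit 16) (nat_lit 5) (nat_lit 299) (nat_lit 276) (nat_lit 145))))) (XT.nd (nat_lit 234) (nat_lit 304) (nat_lit 0) (XT.nd (nat_lit 78) (nat_lit 0) (nat_lit 0) (XT.lf (nat_lit 0) (nat_lit 2040968917) (nat_lit 152) (nat_lit 74240733761) (nat_lit 228) (nat_lit 129133781924) (nat_lit 13) (nat_lit 5) (nat_lit 15) (nat_lit 5) (nat_lit 16) (nat_lit 5) (nat_lit 300) (nat_lit 276) (nat_lit 144)) (XT.nd (nat_lit 78) (nat_lit 0) (nat_lit 0) (XT.lf (nat_lit 0) (nat_lit 86873656460) (nat_lit 152) (nat_lit 22604225386) (nat_lit 228) (nat_lit 107898334040) (nat_lit 13) (nat_lit 5) (nat_lit 15) (nat_lit 5) (nat_lit 16) (nat_lit 5) (nat_lit 301) (nat_lit 276) (nat_lit 143)) (XT.lf (nat_lit 0) (nat_lit 146127024133) (nat_lit 228) (nat_lit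 52598903588) (nat_lit 76) (nat_lit 31504097511) (nat_lit 13) (nat_lit 5) (nat_lit 16) (nat_lit 5) (nat_lit 14) (nat_lit 4) (nat_lit 302) (nat_lit 276) (nat_lit 142)))) (XT.nd (nat_lit 156) (nat_lit 228) (nat_lit 0) (XT.nd (nat_lit 78) (nat_lit 0) (nat_lit 0) (XT.lf (nat_lit 0) (nat_lit 32579221129) (nat_lit 76) (nat_lit 154499246146) (nat_lit 152) (nat_lit 56924043474) (nat_lit 12) (nat_lit 5) (nat_lit 13) (nat_lit 5) (nat_lit 14) (nat_lit 4) (nat_lit 303) (nat_lit 276) (nat_lit 141)) (XT.lf (nat_lit 0) (nat_lit 127562507915) (nat_lit 76) (nat_lit 105181391495) (nat_lit 152) (nat_lit 26017866724) (nat_lit 12) (nat_lit 5) (nat_lit 13) (nat_lit 5) (nat_lit 14) (nat_lit 4) (nat_lit 304) (nat_lit 276) (nat_lit 140))) (XT.nd (nat_lit 78) (nat_lit 152) (nat_lit 0) (XT.lf (nat_lit 0) (nat_lit 6992326124) (nat_lit 152) (nat_lit 44734748339) (nat_lit 76) (nat_lit 222960546930) (nat_lit 11)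 (nat_lit 5) (nat_lit 13) (nat_lit 5) (nat_lit 12) (nat_lit 5) (nat_lit 305) (nat_lit 276) (nat_lit 139)) (XT.lf (nat_lit 0) (nat_lit 42645381696) (nat_lit 228) (nat_lit 241433023635) (nat_lit 76) (nat_lit 7642462334) (nat_lit 9) (nat_lit 5) (nat_lit 12) (nat_lit 5) (nat_lit 10) (nat_lit 4) (nat_lit 306) (nat_lit 276) (nat_lit 138))))))))
noncomputable def xc107 : XT := (XT.nd (nat_lit 1950) (nat_lit 0) (nat_lit 0) (XT.nd (nat_lit 936) (nat_lit 228) (nat_lit 0) (XT.nd (nat_lit 468) (nat_lit 228) (nat_lit 0) (XT.nd (nat_lit 234) (nat_lit 0) (nat_lit 0) (XT.nd (nat_lit 78) (nat_lit 76) (nat_lit 0) (XT.lf (nat_lit 0) (nat_lit 83748902842) (nat_lit 228) (nat_lit 155938296537) (nat_lit 76) (nat_lit 70221717239) (nat_lit 9) (nat_lit 5) (nat_lit 12) (nat_lit 5) (nat_lit 10) (nat_lit 4) (nat_lit 307) (nat_lit 276) (nat_lit 137)) (XT.nd (nat_lit 78) (nat_lit 76) (nat_lit 0) (XT.lf (nat_lit 0)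 (nat_lit 128140487083) (nat_lit 228) (nat_lit 63604353987) (nat_lit 76) (nat_lit 137807186524) (nat_lit 9) (nat_lit 5) (nat_lit 12) (nat_lit 5) (nat_lit 10) (nat_lit 4) (nat_lit 308) (nat_lit 276) (nat_lit 136)) (XT.lf (nat_lit 0) (nat_lit 38017770995) (nat_lit 76) (nat_lit 138979752970) (nat_lit 152) (nat_lit 173695933984) (nat_lit 8) (nat_lit 5) (nat_lit 9) (nat_lit 5) (nat_lit 10) (nat_lit 4) (nat_lit 309) (nat_lit 276) (nat_lit 135)))) (XT.nd (nat_lit 78) (nat_lit 0) (nat_lit 0) (XT.lf (nat_lit 0) (nat_lit 151386574600) (nat_lit 76) (nat_lit 80115409669) (nat_lit 152) (nat_lit 141885110156) (nat_lit 8) (nat_lit 5) (nat_lit 9) (nat_lit 5) (nat_lit 10) (nat_lit 4) (nat_lit 310) (nat_lit 276) (nat_lit 134)) (XT.nd (nat_lit 78) (nat_lit 0) (nat_lit 0) (XT.lf (nat_lit 0) (nat_lit 273824579396) (nat_lit 76) (nat_lit 16542041183) (nat_lit 152) (nat_lit 107529616198) (nat_lit 8) (nat_lit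 5) (nat_lit 9) (nat_lit 5) (nat_lit 10) (nat_lit 4) (nat_lit 311) (nat_lit 276) (nat_lit 133)) (XT.lf (nat_lit 0) (nat_lit 355193677482) (nat_lit 152) (nat_lit 19562197551) (nat_lit 0) (nat_lit 49509975964) (nat_lit 8) (nat_lit 5) (nat_lit 10) (nat_lit 4) (nat_lit 8) (nat_lit 4) (nat_lit 312) (nat_lit 276) (nat_lit 132))))) (XT.nd (nat_lit 234) (nat_lit 76) (nat_lit 0) (XT.nd (nat_lit 78) (nat_lit 76) (nat_lit 0) (XT.lf (nat_lit 0) (nat_lit 97768880887) (nat_lit 76) (nat_lit 330218867850) (nat_lit 76) (nat_lit 24534818056) (nat_lit 7) (nat_lit 4) (nat_lit 8) (nat_lit 5) (nat_lit 8) (nat_lit 4) (nat_lit 313) (nat_lit 276) (nat_lit 131)) (XT.nd (nat_lit 78) (nat_lit 0) (nat_lit 0) (XT.lf (nat_lit 0) (nat_lit 22935284015) (nat_lit 152) (nat_lit 257978981520) (nat_lit 76) (nat_lit 202036326463) (nat_lit 6) (nat_lit 5) (nat_lit 8) (nat_lit 5) (nat_lit 7) (nat_lit 4) (nat_lit 314) (nat_lit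 276) (nat_lit 130)) (XT.lf (nat_lit 0) (nat_lit 72877331873) (nat_lit 152) (nat_lit 154099820566) (nat_lit 76) (nat_lit 288784737270) (nat_lit 6) (nat_lit 5) (nat_lit 8) (nat_lit 5) (nat_lit 7) (nat_lit 4) (nat_lit 315) (nat_lit 276) (nat_lit 129)))) (XT.nd (nat_lit 78) (nat_lit 76) (nat_lit 0) (XT.lf (nat_lit 0) (nat_lit 126814609360) (nat_lit 152) (nat_lit 41910559868) (nat_lit 76) (nat_lit 382472933056) (nat_lit 6) (nat_lit 5) (nat_lit 8) (nat_lit 5) (nat_lit 7) (nat_lit 4) (nat_lit 316) (nat_lit 276) (nat_lit 128)) (XT.nd (nat_lit 78) (nat_lit 0) (nat_lit 0) (XT.lf (nat_lit 0) (nat_lit 83426981310) (nat_lit 76) (nat_lit 103646184382) (nat_lit 152) (nat_lit 402235542726) (nat_lit 5) (nat_lit 5) (nat_lit 6) (nat_lit 5) (nat_lit 7) (nat_lit 4) (nat_lit 317) (nat_lit 276) (nat_lit 127)) (XT.lf (nat_lit 0) (nat_lit 221174806061) (nat_lit 76) (nat_lit 32123389334) (nat_lit 152) (nat_lit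 377078304805) (nat_lit 5) (nat_lit 5) (nat_lit 6) (nat_lit 5) (nat_lit 7) (nat_lit 4) (nat_lit 318) (nat_lit 276) (nat_lit 126)))))) (XT.nd (nat_lit 468) (nat_lit 152) (nat_lit 0) (XT.nd (nat_lit 234) (nat_lit 76) (nat_lit 0) (XT.nd (nat_lit 78) (nat_lit 0) (nat_lit 0) (XT.lf (nat_lit 0) (nat_lit 325906280897) (nat_lit 152) (nat_lit 305872627129) (nat_lit 0) (nat_lit 42864003271) (nat_lit 5) (nat_lit 5) (nat_lit 7) (nat_lit 4) (nat_lit 5) (nat_lit 4) (nat_lit 319) (nat_lit 276) (nat_lit 125)) (XT.nd (nat_lit 78) (nat_lit 0) (nat_lit 0) (XT.lf (nat_lit 0) (nat_lit 405157282147) (nat_lit 152) (nat_lit 195111795493) (nat_lit 0) (nat_lit 122114816358) (nat_lit 5) (nat_lit 5) (nat_lit 7) (nat_lit 4) (nat_lit 5) (nat_lit 4) (nat_lit 320) (nat_lit 276) (nat_lit 124)) (XT.lf (nat_lit 0) (nat_lit 490748266421) (nat_lit 152) (nat_lit 75490270461) (nat_lit 0) (nat_lit 207705626408) (nat_lit 5)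 (nat_lit 5) (nat_lit 7) (nat_lit 4) (nat_lit 5) (nat_lit 4) (nat_lit 321) (nat_lit 276) (nat_lit 123)))) (XT.nd (nat_lit 78) (nat_lit 0) (nat_lit 0) (XT.lf (nat_lit 0) (nat_lit 56528606079) (nat_lit 76) (nat_lit 528017347810) (nat_lit 76) (nat_lit 244974546476) (nat_lit 4) (nat_lit 4) (nat_lit 5) (nat_lit 5) (nat_lit 5) (nat_lit 4) (nat_lit 322) (nat_lit 276) (nat_lit 122)) (XT.nd (nat_lit 78) (nat_lit 0) (nat_lit 0) (XT.lf (nat_lit 0) (nat_lit 203402035063) (nat_lit 76) (nat_lit 484509372082) (nat_lit 76) (nat_lit 201466421379) (nat_lit 4) (nat_lit 4) (nat_lit 5) (nat_lit 5) (nat_lit 5) (nat_lit 4) (nat_lit 323) (nat_lit 276) (nat_lit 121)) (XT.lf (nat_lit 0) (nat_lit 362025193688) (nat_lit 76) (nat_lit 437520822433) (nat_lit 76) (nat_lit 154477733425) (nat_lit 4) (nat_lit 4) (nat_lit 5) (nat_lit 5) (nat_lit 5) (nat_lit 4) (nat_lit 324) (nat_lit 276) (nat_lit 120))))) (XT.nd (nat_lit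 234) (nat_lit 76) (nat_lit 0) (XT.nd (nat_lit 78) (nat_lit 76) (nat_lit 0) (XT.lf (nat_lit 0) (nat_lit 533338071042) (nat_lit 76) (nat_lit 386773248199) (nat_lit 76) (nat_lit 103730031130) (nat_lit 4) (nat_lit 4) (nat_lit 5) (nat_lit 5) (nat_lit 5) (nat_lit 4) (nat_lit 325) (nat_lit 276) (nat_lit 119)) (XT.nd (nat_lit 78) (nat_lit 76) (nat_lit 0) (XT.lf (nat_lit 0) (nat_lit 718355854546) (nat_lit 76) (nat_lit 331965923014) (nat_lit 76) (nat_lit 48922587370) (nat_lit 4) (nat_lit 4) (nat_lit 5) (nat_lit 5) (nat_lit 5) (nat_lit 4) (nat_lit 326) (nat_lit 276) (nat_lit 118)) (XT.lf (nat_lit 0) (nat_lit 9755666592) (nat_lit 152) (nat_lit 262751658922) (nat_lit 76) (nat_lit 908152542074) (nat_lit 3) (nat_lit 5) (nat_lit 5) (nat_lit 5) (nat_lit 4) (nat_lit 4) (nat_lit 327) (nat_lit 276) (nat_lit 117)))) (XT.nd (nat_lit 156) (nat_lit 76) (nat_lit 0) (XT.nd (nat_lit 78) (nat_lit 0) (nat_lit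 0) (XT.lf (nat_lit 0) (nat_lit 70485029583) (nat_lit 152) (nat_lit 136434685559) (nat_lit 76) (nat_lit 1061567242976) (nat_lit 3) (nat_lit 5) (nat_lit 5) (nat_lit 5) (nat_lit 4) (nat_lit 4) (nat_lit 328) (nat_lit 276) (nat_lit 116)) (XT.lf (nat_lit 0) (nat_lit 136072685267) (nat_lit 152) (nat_lit 12455865) (nat_lit 76) (nat_lit 1227255079371) (nat_lit 3) (nat_lit 5) (nat_lit 5) (nat_lit 5) (nat_lit 4) (nat_lit 4) (nat_lit 329) (nat_lit 276) (nat_lit 115))) (XT.nd (nat_lit 78) (nat_lit 0) (nat_lit 0) (XT.lf (nat_lit 0) (nat_lit 155081250416) (nat_lit 76) (nat_lit 55555758619) (nat_lit 152) (nat_lit 1254846362491) (nat_lit 2) (nat_lit 5) (nat_lit 3) (nat_lit 5) (nat_lit 4) (nat_lit 4) (nat_lit 330) (nat_lit 276) (nat_lit 114)) (XT.lf (nat_lit 0) (nat_lit 291922331557) (nat_lit 152) (nat_lit 1253970444376) (nat_lit 0) (nat_lit 29844730559) (nat_lit 2) (nat_lit 5) (nat_lit 4) (nat_lit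 4) (nat_lit 2) (nat_lit 4) (nat_lit 331) (nat_lit 276) (nat_lit 113))))))) (XT.nd (nat_lit 34164) (nat_lit 0) (nat_lit 836) (XT.nd (nat_lit 33618) (nat_lit 0) (nat_lit 1900) (XT.nd (nat_lit 33384) (nat_lit 0) (nat_lit 2432) (XT.nd (nat_lit 33228) (nat_lit 0) (nat_lit 2356) (XT.lf (nat_lit 0) (nat_lit 381153438912) (nat_lit 152) (nat_lit 1194467327979) (nat_lit 0) (nat_lit 119075768727) (nat_lit 2) (nat_lit 5) (nat_lit 4) (nat_lit 4) (nat_lit 2) (nat_lit 4) (nat_lit 332) (nat_lit 276) (nat_lit 112)) (XT.nd (nat_lit 78) (nat_lit 0) (nat_lit 0) (XT.lf (nat_lit 0) (nat_lit 10971373664) (nat_lit 532) (nat_lit 12223345188) (nat_lit 532) (nat_lit 12223345188) (nat_lit 33) (nat_lit 3) (nat_lit 40) (nat_lit 3) (nat_lit 40) (nat_lit 5) (nat_lit 277) (nat_lit 277) (nat_lit 166)) (XT.lf (nat_lit 76) (nat_lit 5655652748) (nat_lit 0) (nat_lit 17312382993) (nat_lit 532) (nat_lit 50689663914) (nat_lit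 34) (nat_lit 5) (nat_lit 33) (nat_lit 3) (nat_lit 40) (nat_lit 5) (nat_lit 278) (nat_lit 277) (nat_lit 165)))) (XT.nd (nat_lit 78) (nat_lit 0) (nat_lit 0) (XT.lf (nat_lit 0) (nat_lit 25098849317) (nat_lit 456) (nat_lit 37452055609) (nat_lit 532) (nat_lit 14072218589) (nat_lit 34) (nat_lit 5) (nat_lit 40) (nat_lit 5) (nat_lit 41) (nat_lit 5) (nat_lit 279) (nat_lit 277) (nat_lit 164)) (XT.nd (nat_lit 78) (nat_lit 0) (nat_lit 76) (XT.lf (nat_lit 0) (nat_lit 27848726057) (nat_lit 456) (nat_lit 4908453767) (nat_lit 532) (nat_lit 47032719846) (nat_lit 34) (nat_lit 5) (nat_lit 40) (nat_lit 5) (nat_lit 41) (nat_lit 5) (nat_lit 280) (nat_lit 277) (nat_lit 163)) (XT.lf (nat_lit 0) (nat_lit 31589060183) (nat_lit 456) (nat_lit 51324554500) (nat_lit 532) (nat_lit 234771624) (nat_lit 35) (nat_lit 5) (nat_lit 41) (nat_lit 5) (nat_lit 42) (nat_lit 5) (nat_lit 281) (nat_lit 277) (nat_lit 162))))) (XT.nd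 (nat_lit 234) (nat_lit 608) (nat_lit 0) (XT.nd (nat_lit 78) (nat_lit 0) (nat_lit 0) (XT.lf (nat_lit 0) (nat_lit 36616219031) (nat_lit 456) (nat_lit 15846022614) (nat_lit 532) (nat_lit 34234307734) (nat_lit 35) (nat_lit 5) (nat_lit 41) (nat_lit 5) (nat_lit 42) (nat_lit 5) (nat_lit 282) (nat_lit 277) (nat_lit 161)) (XT.nd (nat_lit 78) (nat_lit 0) (nat_lit 76) (XT.lf (nat_lit 76) (nat_lit 23653348632) (nat_lit 0) (nat_lit 18960204873) (nat_lit 532) (nat_lit 47869576705) (nat_lit 36) (nat_lit 5) (nat_lit 35) (nat_lit 5) (nat_lit 42) (nat_lit 5) (nat_lit 283) (nat_lit 277) (nat_lit 160)) (XT.lf (nat_lit 0) (nat_lit 49948566695) (nat_lit 456) (nat_lit 27750308282) (nat_lit 76) (nat_lit 16805135755) (nat_lit 36) (nat_lit 5) (nat_lit 42) (nat_lit 5) (nat_lit 37) (nat_lit 5) (nat_lit 284) (nat_lit 277) (nat_lit 159)))) (XT.nd (nat_lit 156) (nat_lit 228) (nat_lit 0) (XT.nd (nat_lit 78) (nat_lit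 0) (nat_lit 0) (XT.lf (nat_lit 0) (nat_lit 14697602601) (nat_lit 456) (nat_lit 44017979595) (nat_lit 532) (nat_lit 40063367640) (nat_lit 30) (nat_lit 5) (nat_lit 36) (nat_lit 5) (nat_lit 37) (nat_lit 5) (nat_lit 285) (nat_lit 277) (nat_lit 158)) (XT.lf (nat_lit 0) (nat_lit 62118867187) (nat_lit 456) (nat_lit 6823124603) (nat_lit 532) (nat_lit 34393253577) (nat_lit 30) (nat_lit 5) (nat_lit 36) (nat_lit 5) (nat_lit 37) (nat_lit 5) (nat_lit 286) (nat_lit 277) (nat_lit 157))) (XT.nd (nat_lit 78) (nat_lit 0) (nat_lit 0) (XT.lf (nat_lit 0) (nat_lit 4500232586) (nat_lit 228) (nat_lit 76395859931) (nat_lit 304) (nat_lit 27287189391) (nat_lit 27) (nat_lit 5) (nat_lit 30) (nat_lit 5) (nat_lit 31) (nat_lit 5) (nat_lit 287) (nat_lit 277) (nat_lit 156)) (XT.lf (nat_lit 0) (nat_lit 56030972999) (nat_lit 228) (nat_lit 39074591154) (nat_lit 304) (nat_lit 18209677157) (nat_lit 27) (nat_lit 5) (nat_lit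 30) (nat_lit 5) (nat_lit 31) (nat_lit 5) (nat_lit 288) (nat_lit 277) (nat_lit 155)))))) (XT.nd (nat_lit 468) (nat_lit 456) (nat_lit 0) (XT.nd (nat_lit 234) (nat_lit 380) (nat_lit 0) (XT.nd (nat_lit 78) (nat_lit 228) (nat_lit 0) (XT.lf (nat_lit 0) (nat_lit 110480854435) (nat_lit 304) (nat_lit 7203878490) (nat_lit 76) (nat_lit 1170702783) (nat_lit 27) (nat_lit 5) (nat_lit 31) (nat_lit 5) (nat_lit 28) (nat_lit 5) (nat_lit 289) (nat_lit 277) (nat_lit 154)) (XT.nd (nat_lit 78) (nat_lit 0) (nat_lit 0) (XT.lf (nat_lit 0) (nat_lit 4366997908) (nat_lit 228) (nat_lit 76492650006) (nat_lit 76) (nat_lit 43796308902) (nat_lit 24) (nat_lit 5) (nat_lit 27) (nat_lit 5) (nat_lit 25) (nat_lit 5) (nat_lit 290) (nat_lit 277) (nat_lit 153)) (XT.lf (nat_lit 0) (nat_lit 17877015952) (nat_lit 228) (nat_lit 22758463189) (nat_lit 76) (nat_lit 90251516624) (nat_lit 24) (nat_lit 5) (nat_lit 27) (nat_lit 5) (nat_lit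 25) (nat_lit 5) (nat_lit 291) (nat_lit 277) (nat_lit 152)))) (XT.nd (nat_lit 78) (nat_lit 152) (nat_lit 0) (XT.lf (nat_lit 0) (nat_lit 33451050951) (nat_lit 304) (nat_lit 100504466964) (nat_lit 76) (nat_lit 3582344965) (nat_lit 21) (nat_lit 5) (nat_lit 25) (nat_lit 5) (nat_lit 22) (nat_lit 5) (nat_lit 292) (nat_lit 277) (nat_lit 151)) (XT.nd (nat_lit 78) (nat_lit 152) (nat_lit 0) (XT.lf (nat_lit 0) (nat_lit 51964428723) (nat_lit 304) (nat_lit 42840348144) (nat_lit 76) (nat_lit 49780551021) (nat_lit 21) (nat_lit 5) (nat_lit 25) (nat_lit 5) (nat_lit 22) (nat_lit 5) (nat_lit 293) (nat_lit 277) (nat_lit 150)) (XT.lf (nat_lit 0) (nat_lit 20459830495) (nat_lit 152) (nat_lit 51990673929) (nat_lit 228) (nat_lit 79706757422) (nat_lit 19) (nat_lit 5) (nat_lit 21) (nat_lit 5) (nat_lit 22) (nat_lit 5) (nat_lit 294) (nat_lit 277) (nat_lit 149))))) (XT.nd (nat_lit 234) (nat_lit 304) (nat_lit 0)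 (XT.nd (nat_lit 78) (nat_lit 152) (nat_lit 0) (XT.lf (nat_lit 0) (nat_lit 91259852720) (nat_lit 152) (nat_lit 4486531798) (nat_lit 228) (nat_lit 64494894352) (nat_lit 19) (nat_lit 5) (nat_lit 21) (nat_lit 5) (nat_lit 22) (nat_lit 5) (nat_lit 295) (nat_lit 277) (nat_lit 148)) (XT.nd (nat_lit 78) (nat_lit 152) (nat_lit 0) (XT.lf (nat_lit 0) (nat_lit 122031522697) (nat_lit 228) (nat_lit 2374641912) (nat_lit 76) (nat_lit 44475807318) (nat_lit 19) (nat_lit 5) (nat_lit 22) (nat_lit 5) (nat_lit 20) (nat_lit 5) (nat_lit 296) (nat_lit 277) (nat_lit 147)) (XT.lf (nat_lit 0) (nat_lit 73100442370) (nat_lit 152) (nat_lit 79193273818) (nat_lit 228) (nat_lit 25770266261) (nat_lit 17) (nat_lit 5) (nat_lit 19) (nat_lit 5) (nat_lit 20) (nat_lit 5) (nat_lit 297) (nat_lit 277) (nat_lit 146)))) (XT.nd (nat_lit 156) (nat_lit 152) (nat_lit 0) (XT.nd (nat_lit 78) (nat_lit 152) (nat_lit 0) (XT.lf (nat_lit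 0) (nat_lit 154748104192) (nat_lit 152) (nat_lit 30293366377) (nat_lit 228) (nat_lit 2933917853) (nat_lit 17) (nat_lit 5) (nat_lit 19) (nat_lit 5) (nat_lit 20) (nat_lit 5) (nat_lit 298) (nat_lit 277) (nat_lit 145)) (XT.lf (nat_lit 0) (nat_lit 22332874685) (nat_lit 152) (nat_lit 153105971944) (nat_lit 76) (nat_lit 23063812131) (nat_lit 15) (nat_lit 5) (nat_lit 17) (nat_lit 5) (nat_lit 16) (nat_lit 5) (nat_lit 299) (nat_lit 277) (nat_lit 144))) (XT.nd (nat_lit 78) (nat_lit 152) (nat_lit 0) (XT.lf (nat_lit 0) (nat_lit 51181117962) (nat_lit 152) (nat_lit 78486305655) (nat_lit 76) (nat_lit 80061102594) (nat_lit 15) (nat_lit 5) (nat_lit 17) (nat_lit 5) (nat_lit 16) (nat_lit 5) (nat_lit 300) (nat_lit 277) (nat_lit 143)) (XT.lf (nat_lit 0) (nat_lit 2213211204) (nat_lit 152) (nat_lit 80176945026) (nat_lit 228) (nat_lit 139458073047) (nat_lit 13) (nat_lit 5) (nat_lit 15) (nat_lit 5) (nat_lit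 16) (nat_lit 5) (nat_lit 301) (nat_lit 277) (nat_lit 142))))))))
noncomputable def xc108 : XT := (XT.nd (nat_lit 1950) (nat_lit 152) (nat_lit 0) (XT.nd (nat_lit 936) (nat_lit 304) (nat_lit 0) (XT.nd (nat_lit 468) (nat_lit 76) (nat_lit 0) (XT.nd (nat_lit 234) (nat_lit 228) (nat_lit 0) (XT.nd (nat_lit 78) (nat_lit 76) (nat_lit 0) (XT.lf (nat_lit 0) (nat_lit 93831849693) (nat_lit 152) (nat_lit 24409741717) (nat_lit 228) (nat_lit 116524264254) (nat_lit 13) (nat_lit 5) (nat_lit 15) (nat_lit 5) (nat_lit 16) (nat_lit 5) (nat_lit 302) (nat_lit 277) (nat_lit 141)) (XT.nd (nat_lit 78) (nat_lit 76) (nat_lit 0) (XT.lf (nat_lit 0) (nat_lit 157822322061) (nat_lit 228) (nat_lit 56798769255) (nat_lit 76) (nat_lit 34026907301) (nat_lit 13) (nat_lit 5) (nat_lit 16) (nat_lit 5) (nat_lit 14) (nat_lit 4) (nat_lit 303) (nat_lit 277) (nat_lit 140)) (XT.lf (nat_lit 0) (nat_lit 35193401727) (nat_lit 76) (nat_lit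 166856287107) (nat_lit 152) (nat_lit 61472610804) (nat_lit 12) (nat_lit 5) (nat_lit 13) (nat_lit 5) (nat_lit 14) (nat_lit 4) (nat_lit 304) (nat_lit 277) (nat_lit 139)))) (XT.nd (nat_lit 78) (nat_lit 228) (nat_lit 0) (XT.lf (nat_lit 0) (nat_lit 137774770500) (nat_lit 76) (nat_lit 113593218804) (nat_lit 152) (nat_lit 28094336666) (nat_lit 12) (nat_lit 5) (nat_lit 13) (nat_lit 5) (nat_lit 14) (nat_lit 4) (nat_lit 305) (nat_lit 277) (nat_lit 138)) (XT.nd (nat_lit 78) (nat_lit 152) (nat_lit 0) (XT.lf (nat_lit 0) (nat_lit 7556074535) (nat_lit 152) (nat_lit 48306561417) (nat_lit 76) (nat_lit 240799633119) (nat_lit 11) (nat_lit 5) (nat_lit 13) (nat_lit 5) (nat_lit 12) (nat_lit 5) (nat_lit 306) (nat_lit 277) (nat_lit 137)) (XT.lf (nat_lit 0) (nat_lit 46061276968) (nat_lit 228) (nat_lit 260740589069) (nat_lit 76) (nat_lit 8256317782) (nat_lit 9) (nat_lit 5) (nat_lit 12) (nat_lit 5) (nat_lit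 10) (nat_lit 4) (nat_lit 307) (nat_lit 277) (nat_lit 136))))) (XT.nd (nat_lit 234) (nat_lit 0) (nat_lit 0) (XT.nd (nat_lit 78) (nat_lit 76) (nat_lit 0) (XT.lf (nat_lit 0) (nat_lit 90452763899) (nat_lit 228) (nat_lit 168406807985) (nat_lit 76) (nat_lit 75841730971) (nat_lit 9) (nat_lit 5) (nat_lit 12) (nat_lit 5) (nat_lit 10) (nat_lit 4) (nat_lit 308) (nat_lit 277) (nat_lit 135)) (XT.nd (nat_lit 78) (nat_lit 76) (nat_lit 0) (XT.lf (nat_lit 0) (nat_lit 138395382373) (nat_lit 228) (nat_lit 68686635385) (nat_lit 76) (nat_lit 148833869180) (nat_lit 9) (nat_lit 5) (nat_lit 12) (nat_lit 5) (nat_lit 10) (nat_lit 4) (nat_lit 309) (nat_lit 277) (nat_lit 134)) (XT.lf (nat_lit 0) (nat_lit 41065106003) (nat_lit 76) (nat_lit 150095747579) (nat_lit 152) (nat_lit 187587789195) (nat_lit 8) (nat_lit 5) (nat_lit 9) (nat_lit 5) (nat_lit 10) (nat_lit 4) (nat_lit 310) (nat_lit 277) (nat_lit 133)))) (XT.nd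 (nat_lit 78) (nat_lit 0) (nat_lit 0) (XT.lf (nat_lit 0) (nat_lit 163502975873) (nat_lit 76) (nat_lit 86522433527) (nat_lit 152) (nat_lit 153232382388) (nat_lit 8) (nat_lit 5) (nat_lit 9) (nat_lit 5) (nat_lit 10) (nat_lit 4) (nat_lit 311) (nat_lit 277) (nat_lit 132)) (XT.nd (nat_lit 78) (nat_lit 0) (nat_lit 0) (XT.lf (nat_lit 0) (nat_lit 295735615474) (nat_lit 76) (nat_lit 17863359185) (nat_lit 152) (nat_lit 116128710882) (nat_lit 8) (nat_lit 5) (nat_lit 9) (nat_lit 5) (nat_lit 10) (nat_lit 4) (nat_lit 312) (nat_lit 277) (nat_lit 131)) (XT.lf (nat_lit 0) (nat_lit 383612017628) (nat_lit 152) (nat_lit 21122293064) (nat_lit 0) (nat_lit 53472573095) (nat_lit 8) (nat_lit 5) (nat_lit 10) (nat_lit 4) (nat_lit 8) (nat_lit 4) (nat_lit 313) (nat_lit 277) (nat_lit 130)))))) (XT.nd (nat_lit 468) (nat_lit 76) (nat_lit 0) (XT.nd (nat_lit 234) (nat_lit 76) (nat_lit 0) (XT.nd (nat_lit 78) (nat_lit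 76) (nat_lit 0) (XT.lf (nat_lit 0) (nat_lit 105595148097) (nat_lit 76) (nat_lit 356634370075) (nat_lit 76) (nat_lit 26494626951) (nat_lit 7) (nat_lit 4) (nat_lit 8) (nat_lit 5) (nat_lit 8) (nat_lit 4) (nat_lit 314) (nat_lit 277) (nat_lit 129)) (XT.nd (nat_lit 78) (nat_lit 0) (nat_lit 0) (XT.lf (nat_lit 0) (nat_lit 24772724931) (nat_lit 152) (nat_lit 278612751740) (nat_lit 76) (nat_lit 218200947188) (nat_lit 6) (nat_lit 5) (nat_lit 8) (nat_lit 5) (nat_lit 7) (nat_lit 4) (nat_lit 315) (nat_lit 277) (nat_lit 128)) (XT.lf (nat_lit 0) (nat_lit 78709942677) (nat_lit 152) (nat_lit 166423594821) (nat_lit 76) (nat_lit 311889103851) (nat_lit 6) (nat_lit 5) (nat_lit 8) (nat_lit 5) (nat_lit 7) (nat_lit 4) (nat_lit 316) (nat_lit 277) (nat_lit 127)))) (XT.nd (nat_lit 78) (nat_lit 76) (nat_lit 0) (XT.lf (nat_lit 0) (nat_lit 136962022788) (nat_lit 152) (nat_lit 45259505221) (nat_lit 76) (nat_lit 413072237700)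 (nat_lit 6) (nat_lit 5) (nat_lit 8) (nat_lit 5) (nat_lit 7) (nat_lit 4) (nat_lit 317) (nat_lit 277) (nat_lit 126)) (XT.nd (nat_lit 78) (nat_lit 0) (nat_lit 0) (XT.lf (nat_lit 0) (nat_lit 90104940531) (nat_lit 76) (nat_lit 111936248231) (nat_lit 152) (nat_lit 434412037946) (nat_lit 5) (nat_lit 5) (nat_lit 6) (nat_lit 5) (nat_lit 7) (nat_lit 4) (nat_lit 318) (nat_lit 277) (nat_lit 125)) (XT.lf (nat_lit 0) (nat_lit 238872309728) (nat_lit 76) (nat_lit 34691750387) (nat_lit 152) (nat_lit 407242394933) (nat_lit 5) (nat_lit 5) (nat_lit 6) (nat_lit 5) (nat_lit 7) (nat_lit 4) (nat_lit 319) (nat_lit 277) (nat_lit 124))))) (XT.nd (nat_lit 234) (nat_lit 76) (nat_lit 0) (XT.nd (nat_lit 78) (nat_lit 0) (nat_lit 0) (XT.lf (nat_lit 0) (nat_lit 351980677263) (nat_lit 152) (nat_lit 330339059491) (nat_lit 0) (nat_lit 46294451823) (nat_lit 5) (nat_lit 5) (nat_lit 7) (nat_lit 4) (nat_lit 5) (nat_lit 4)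 (nat_lit 320) (nat_lit 277) (nat_lit 123)) (XT.nd (nat_lit 78) (nat_lit 0) (nat_lit 0) (XT.lf (nat_lit 0) (nat_lit 437571618324) (nat_lit 152) (nat_lit 210717611532) (nat_lit 0) (nat_lit 131885231565) (nat_lit 5) (nat_lit 5) (nat_lit 7) (nat_lit 4) (nat_lit 5) (nat_lit 4) (nat_lit 321) (nat_lit 277) (nat_lit 122)) (XT.lf (nat_lit 0) (nat_lit 530009751444) (nat_lit 152) (nat_lit 81526596172) (nat_lit 0) (nat_lit 224323215315) (nat_lit 5) (nat_lit 5) (nat_lit 7) (nat_lit 4) (nat_lit 5) (nat_lit 4) (nat_lit 322) (nat_lit 277) (nat_lit 121)))) (XT.nd (nat_lit 156) (nat_lit 0) (nat_lit 0) (XT.nd (nat_lit 78) (nat_lit 0) (nat_lit 0) (XT.lf (nat_lit 0) (nat_lit 61053717178) (nat_lit 76) (nat_lit 570257484341) (nat_lit 76) (nat_lit 264570809906) (nat_lit 4) (nat_lit 4) (nat_lit 5) (nat_lit 5) (nat_lit 5) (nat_lit 4) (nat_lit 323) (nat_lit 277) (nat_lit 120)) (XT.lf (nat_lit 0) (nat_lit 219676811398)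 (nat_lit 76) (nat_lit 523268963243) (nat_lit 76) (nat_lit 217582160748) (nat_lit 4) (nat_lit 4) (nat_lit 5) (nat_lit 5) (nat_lit 5) (nat_lit 4) (nat_lit 324) (nat_lit 277) (nat_lit 119))) (XT.nd (nat_lit 78) (nat_lit 0) (nat_lit 0) (XT.lf (nat_lit 0) (nat_lit 390989629118) (nat_lit 76) (nat_lit 472521415445) (nat_lit 76) (nat_lit 166834494375) (nat_lit 4) (nat_lit 4) (nat_lit 5) (nat_lit 5) (nat_lit 5) (nat_lit 4) (nat_lit 325) (nat_lit 277) (nat_lit 118)) (XT.lf (nat_lit 0) (nat_lit 576007357406) (nat_lit 76) (nat_lit 417714114738) (nat_lit 76) (nat_lit 112027083877) (nat_lit 4) (nat_lit 4) (nat_lit 5) (nat_lit 5) (nat_lit 5) (nat_lit 4) (nat_lit 326) (nat_lit 277) (nat_lit 117))))))) (XT.nd (nat_lit 34164) (nat_lit 0) (nat_lit 1292) (XT.nd (nat_lit 33696) (nat_lit 0) (nat_lit 2356) (XT.nd (nat_lit 234) (nat_lit 76) (nat_lit 0) (XT.nd (nat_lit 78) (nat_lit 76) (nat_lit 0) (XT.lf (nat_lit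 0) (nat_lit 775826397614) (nat_lit 76) (nat_lit 358522277117) (nat_lit 76) (nat_lit 52835144597) (nat_lit 4) (nat_lit 4) (nat_lit 5) (nat_lit 5) (nat_lit 5) (nat_lit 4) (nat_lit 327) (nat_lit 277) (nat_lit 116)) (XT.nd (nat_lit 78) (nat_lit 0) (nat_lit 0) (XT.lf (nat_lit 0) (nat_lit 10537219220) (nat_lit 152) (nat_lit 283769810669) (nat_lit 76) (nat_lit 980805537105) (nat_lit 3) (nat_lit 5) (nat_lit 5) (nat_lit 5) (nat_lit 4) (nat_lit 4) (nat_lit 328) (nat_lit 277) (nat_lit 115)) (XT.lf (nat_lit 0) (nat_lit 76124849821) (nat_lit 152) (nat_lit 147347626175) (nat_lit 76) (nat_lit 1146493355436) (nat_lit 3) (nat_lit 5) (nat_lit 5) (nat_lit 5) (nat_lit 4) (nat_lit 4) (nat_lit 329) (nat_lit 277) (nat_lit 114)))) (XT.nd (nat_lit 78) (nat_lit 76) (nat_lit 0) (XT.lf (nat_lit 0) (nat_lit 146959442562) (nat_lit 152) (nat_lit 11753974) (nat_lit 76) (nat_lit 1325436164445) (nat_lit 3) (nat_lit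 5) (nat_lit 5) (nat_lit 5) (nat_lit 4) (nat_lit 4) (nat_lit 330) (nat_lit 277) (nat_lit 113)) (XT.nd (nat_lit 78) (nat_lit 0) (nat_lit 0) (XT.lf (nat_lit 0) (nat_lit 167489405813) (nat_lit 76) (nat_lit 59999476417) (nat_lit 152) (nat_lit 1355233084387) (nat_lit 2) (nat_lit 5) (nat_lit 3) (nat_lit 5) (nat_lit 4) (nat_lit 4) (nat_lit 331) (nat_lit 277) (nat_lit 112)) (XT.lf (nat_lit 0) (nat_lit 315276979506) (nat_lit 152) (nat_lit 1354286494622) (nat_lit 0) (nat_lit 32232962457) (nat_lit 2) (nat_lit 5) (nat_lit 4) (nat_lit 4) (nat_lit 2) (nat_lit 4) (nat_lit 332) (nat_lit 277) (nat_lit 111))))) (XT.nd (nat_lit 234) (nat_lit 0) (nat_lit 76) (XT.nd (nat_lit 78) (nat_lit 0) (nat_lit 0) (XT.lf (nat_lit 0) (nat_lit 11860365475) (nat_lit 532) (nat_lit 13195087742) (nat_lit 532) (nat_lit 13195087742) (nat_lit 33) (nat_lit 3) (nat_lit 40) (nat_lit 3) (nat_lit 40) (nat_lit 5) (nat_lit 278) (nat_lit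 278) (nat_lit 164)) (XT.nd (nat_lit 78) (nat_lit 0) (nat_lit 76) (XT.lf (nat_lit 76) (nat_lit 6120044961) (nat_lit 0) (nat_lit 18706613236) (nat_lit 532) (nat_lit 54721841484) (nat_lit 34) (nat_lit 5) (nat_lit 33) (nat_lit 3) (nat_lit 40) (nat_lit 5) (nat_lit 279) (nat_lit 278) (nat_lit 163)) (XT.lf (nat_lit 0) (nat_lit 27126162248) (nat_lit 456) (nat_lit 40435277324) (nat_lit 532) (nat_lit 15189868853) (nat_lit 34) (nat_lit 5) (nat_lit 40) (nat_lit 5) (nat_lit 41) (nat_lit 5) (nat_lit 280) (nat_lit 278) (nat_lit 162)))) (XT.nd (nat_lit 78) (nat_lit 0) (nat_lit 76) (XT.lf (nat_lit 0) (nat_lit 30094591721) (nat_lit 456) (nat_lit 5289146056) (nat_lit 532) (nat_lit 50787812226) (nat_lit 34) (nat_lit 5) (nat_lit 40) (nat_lit 5) (nat_lit 41) (nat_lit 5) (nat_lit 281) (nat_lit 278) (nat_lit 161)) (XT.nd (nat_lit 78) (nat_lit 0) (nat_lit 0) (XT.lf (nat_lit 0) (nat_lit 34132976617) (nat_lit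 456) (nat_lit 55417262374) (nat_lit 532) (nat_lit 248578380) (nat_lit 35) (nat_lit 5) (nat_lit 41) (nat_lit 5) (nat_lit 42) (nat_lit 5) (nat_lit 282) (nat_lit 278) (nat_lit 160)) (XT.lf (nat_lit 0) (nat_lit 39561064348) (nat_lit 456) (nat_lit 17101429899) (nat_lit 532) (nat_lit 36968445896) (nat_lit 35) (nat_lit 5) (nat_lit 41) (nat_lit 5) (nat_lit 42) (nat_lit 5) (nat_lit 283) (nat_lit 278) (nat_lit 159)))))) (XT.nd (nat_lit 468) (nat_lit 608) (nat_lit 0) (XT.nd (nat_lit 234) (nat_lit 228) (nat_lit 0) (XT.nd (nat_lit 78) (nat_lit 380) (nat_lit 0) (XT.lf (nat_lit 76) (nat_lit 25557580300) (nat_lit 0) (nat_lit 20479741321) (nat_lit 532) (nat_lit 51683201556) (nat_lit 36) (nat_lit 5) (nat_lit 35) (nat_lit 5) (nat_lit 42) (nat_lit 5) (nat_lit 284) (nat_lit 278) (nat_lit 158)) (XT.nd (nat_lit 78) (nat_lit 456) (nat_lit 0) (XT.lf (nat_lit 0) (nat_lit 53957987603) (nat_lit 456) (nat_lit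 29958030495) (nat_lit 76) (nat_lit 18147154032) (nat_lit 36) (nat_lit 5) (nat_lit 42) (nat_lit 5) (nat_lit 37) (nat_lit 5) (nat_lit 285) (nat_lit 278) (nat_lit 157)) (XT.lf (nat_lit 0) (nat_lit 15885401804) (nat_lit 456) (nat_lit 47540248289) (nat_lit 532) (nat_lit 43254519085) (nat_lit 30) (nat_lit 5) (nat_lit 36) (nat_lit 5) (nat_lit 37) (nat_lit 5) (nat_lit 286) (nat_lit 278) (nat_lit 156)))) (XT.nd (nat_lit 78) (nat_lit 228) (nat_lit 0) (XT.lf (nat_lit 0) (nat_lit 67099479336) (nat_lit 456) (nat_lit 7369743391) (nat_lit 532) (nat_lit 37131826857) (nat_lit 30) (nat_lit 5) (nat_lit 36) (nat_lit 5) (nat_lit 37) (nat_lit 5) (nat_lit 287) (nat_lit 278) (nat_lit 155)) (XT.nd (nat_lit 78) (nat_lit 0) (nat_lit 0) (XT.lf (nat_lit 0) (nat_lit 4872080611) (nat_lit 228) (nat_lit 82506958900) (nat_lit 304) (nat_lit 29457943362) (nat_lit 27) (nat_lit 5) (nat_lit 30) (nat_lit 5) (nat_lit 31)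 (nat_lit 5) (nat_lit 288) (nat_lit 278) (nat_lit 154)) (XT.lf (nat_lit 0) (nat_lit 60524404004) (nat_lit 228) (nat_lit 42200030831) (nat_lit 304) (nat_lit 19655135422) (nat_lit 27) (nat_lit 5) (nat_lit 30) (nat_lit 5) (nat_lit 31) (nat_lit 5) (nat_lit 289) (nat_lit 278) (nat_lit 153))))) (XT.nd (nat_lit 234) (nat_lit 380) (nat_lit 0) (XT.nd (nat_lit 78) (nat_lit 228) (nat_lit 0) (XT.lf (nat_lit 0) (nat_lit 119328987826) (nat_lit 304) (nat_lit 7769234294) (nat_lit 76) (nat_lit 1264823100) (nat_lit 27) (nat_lit 5) (nat_lit 31) (nat_lit 5) (nat_lit 28) (nat_lit 5) (nat_lit 290) (nat_lit 278) (nat_lit 152)) (XT.nd (nat_lit 78) (nat_lit 0) (nat_lit 0) (XT.lf (nat_lit 0) (nat_lit 4725848613) (nat_lit 228) (nat_lit 82600840382) (nat_lit 76) (nat_lit 47300940393) (nat_lit 24) (nat_lit 5) (nat_lit 27) (nat_lit 5) (nat_lit 25) (nat_lit 5) (nat_lit 291) (nat_lit 278) (nat_lit 151)) (XT.lf (nat_lit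 0) (nat_lit 19315965073) (nat_lit 228) (nat_lit 24568749852) (nat_lit 76) (nat_lit 97472496082) (nat_lit 24) (nat_lit 5) (nat_lit 27) (nat_lit 5) (nat_lit 25) (nat_lit 5) (nat_lit 292) (nat_lit 278) (nat_lit 150)))) (XT.nd (nat_lit 156) (nat_lit 152) (nat_lit 0) (XT.nd (nat_lit 78) (nat_lit 0) (nat_lit 0) (XT.lf (nat_lit 0) (nat_lit 36135557496) (nat_lit 304) (nat_lit 108534030227) (nat_lit 76) (nat_lit 3870592064) (nat_lit 21) (nat_lit 5) (nat_lit 25) (nat_lit 5) (nat_lit 22) (nat_lit 5) (nat_lit 293) (nat_lit 278) (nat_lit 149)) (XT.lf (nat_lit 0) (nat_lit 56129381603) (nat_lit 304) (nat_lit 46257581463) (nat_lit 76) (nat_lit 53764531679) (nat_lit 21) (nat_lit 5) (nat_lit 25) (nat_lit 5) (nat_lit 22) (nat_lit 5) (nat_lit 294) (nat_lit 278) (nat_lit 148))) (XT.nd (nat_lit 78) (nat_lit 0) (nat_lit 0) (XT.lf (nat_lit 0) (nat_lit 22106358440) (nat_lit 152) (nat_lit 56147641530) (nat_lit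 228) (nat_lit 86075213549) (nat_lit 19) (nat_lit 5) (nat_lit 21) (nat_lit 5) (nat_lit 22) (nat_lit 5) (nat_lit 295) (nat_lit 278) (nat_lit 147)) (XT.lf (nat_lit 0) (nat_lit 98569660851) (nat_lit 152) (nat_lit 4843337385) (nat_lit 228) (nat_lit 69647000283) (nat_lit 19) (nat_lit 5) (nat_lit 21) (nat_lit 5) (nat_lit 22) (nat_lit 5) (nat_lit 296) (nat_lit 278) (nat_lit 146))))))))
noncomputable def xc109 : XT := (XT.nd (nat_lit 1950) (nat_lit 152) (nat_lit 0) (XT.nd (nat_lit 936) (nat_lit 304) (nat_lit 0) (XT.nd (nat_lit 468) (nat_lit 304) (nat_lit 0) (XT.nd (nat_lit 234) (nat_lit 304) (nat_lit 0) (XT.nd (nat_lit 78) (nat_lit 152) (nat_lit 0) (XT.lf (nat_lit 0) (nat_lit 131800483281) (nat_lit 228) (nat_lit 2555769134) (nat_lit 76) (nat_lit 48035733994) (nat_lit 19) (nat_lit 5) (nat_lit 22) (nat_lit 5) (nat_lit 20) (nat_lit 5) (nat_lit 297) (nat_lit 278) (nat_lit 145)) (XT.nd (nat_lit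 78) (nat_lit 0) (nat_lit 0) (XT.lf (nat_lit 0) (nat_lit 78957097988) (nat_lit 152) (nat_lit 85526284633) (nat_lit 228) (nat_lit 27825198807) (nat_lit 17) (nat_lit 5) (nat_lit 19) (nat_lit 5) (nat_lit 20) (nat_lit 5) (nat_lit 298) (nat_lit 278) (nat_lit 144)) (XT.lf (nat_lit 0) (nat_lit 167135934221) (nat_lit 152) (nat_lit 32714566159) (nat_lit 228) (nat_lit 3162437990) (nat_lit 17) (nat_lit 5) (nat_lit 19) (nat_lit 5) (nat_lit 20) (nat_lit 5) (nat_lit 299) (nat_lit 278) (nat_lit 143)))) (XT.nd (nat_lit 78) (nat_lit 152) (nat_lit 0) (XT.lf (nat_lit 0) (nat_lit 24125206395) (nat_lit 152) (nat_lit 165345933379) (nat_lit 76) (nat_lit 24911254842) (nat_lit 15) (nat_lit 5) (nat_lit 17) (nat_lit 5) (nat_lit 16) (nat_lit 5) (nat_lit 300) (nat_lit 278) (nat_lit 142)) (XT.nd (nat_lit 78) (nat_lit 152) (nat_lit 0) (XT.lf (nat_lit 0) (nat_lit 55280886782) (nat_lit 152) (nat_lit 84757324626) (nat_lit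 76) (nat_lit 86468155376) (nat_lit 15) (nat_lit 5) (nat_lit 17) (nat_lit 5) (nat_lit 16) (nat_lit 5) (nat_lit 301) (nat_lit 278) (nat_lit 141)) (XT.lf (nat_lit 0) (nat_lit 2397953949) (nat_lit 152) (nat_lit 86588487942) (nat_lit 228) (nat_lit 150609222122) (nat_lit 13) (nat_lit 5) (nat_lit 15) (nat_lit 5) (nat_lit 16) (nat_lit 5) (nat_lit 302) (nat_lit 278) (nat_lit 140))))) (XT.nd (nat_lit 234) (nat_lit 228) (nat_lit 0) (XT.nd (nat_lit 78) (nat_lit 76) (nat_lit 0) (XT.lf (nat_lit 0) (nat_lit 101345514195) (nat_lit 152) (nat_lit 26360101901) (nat_lit 228) (nat_lit 125841115793) (nat_lit 13) (nat_lit 5) (nat_lit 15) (nat_lit 5) (nat_lit 16) (nat_lit 5) (nat_lit 303) (nat_lit 278) (nat_lit 139)) (XT.nd (nat_lit 78) (nat_lit 76) (nat_lit 0) (XT.lf (nat_lit 0) (nat_lit 170452511117) (nat_lit 228) (nat_lit 61335772117) (nat_lit 76) (nat_lit 36751187790) (nat_lit 13) (nat_lit 5) (nat_lit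 16) (nat_lit 5) (nat_lit 14) (nat_lit 4) (nat_lit 304) (nat_lit 278) (nat_lit 138)) (XT.lf (nat_lit 0) (nat_lit 38015597894) (nat_lit 76) (nat_lit 180202304880) (nat_lit 152) (nat_lit 66385827635) (nat_lit 12) (nat_lit 5) (nat_lit 13) (nat_lit 5) (nat_lit 14) (nat_lit 4) (nat_lit 305) (nat_lit 278) (nat_lit 137)))) (XT.nd (nat_lit 78) (nat_lit 228) (nat_lit 0) (XT.lf (nat_lit 0) (nat_lit 148802978093) (nat_lit 76) (nat_lit 122678375202) (nat_lit 152) (nat_lit 30337631716) (nat_lit 12) (nat_lit 5) (nat_lit 13) (nat_lit 5) (nat_lit 14) (nat_lit 4) (nat_lit 306) (nat_lit 278) (nat_lit 136)) (XT.nd (nat_lit 78) (nat_lit 152) (nat_lit 0) (XT.lf (nat_lit 0) (nat_lit 8164300486) (nat_lit 152) (nat_lit 52165113431) (nat_lit 76) (nat_lit 260065526294) (nat_lit 11) (nat_lit 5) (nat_lit 13) (nat_lit 5) (nat_lit 12) (nat_lit 5) (nat_lit 307) (nat_lit 278) (nat_lit 135)) (XT.lf (nat_lit 0) (nat_lit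 49749835448) (nat_lit 228) (nat_lit 281593769272) (nat_lit 76) (nat_lit 8918930939) (nat_lit 9) (nat_lit 5) (nat_lit 12) (nat_lit 5) (nat_lit 10) (nat_lit 4) (nat_lit 308) (nat_lit 278) (nat_lit 134)))))) (XT.nd (nat_lit 468) (nat_lit 228) (nat_lit 0) (XT.nd (nat_lit 234) (nat_lit 0) (nat_lit 0) (XT.nd (nat_lit 78) (nat_lit 76) (nat_lit 0) (XT.lf (nat_lit 0) (nat_lit 97692370495) (nat_lit 228) (nat_lit 181873735103) (nat_lit 76) (nat_lit 81911021055) (nat_lit 9) (nat_lit 5) (nat_lit 12) (nat_lit 5) (nat_lit 10) (nat_lit 4) (nat_lit 309) (nat_lit 278) (nat_lit 133)) (XT.nd (nat_lit 78) (nat_lit 76) (nat_lit 0) (XT.lf (nat_lit 0) (nat_lit 149470147671) (nat_lit 228) (nat_lit 74176364808) (nat_lit 76) (nat_lit 160742385756) (nat_lit 9) (nat_lit 5) (nat_lit 12) (nat_lit 5) (nat_lit 10) (nat_lit 4) (nat_lit 310) (nat_lit 278) (nat_lit 132)) (XT.lf (nat_lit 0) (nat_lit 44355384210) (nat_lit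 76) (nat_lit 162101362094) (nat_lit 152) (nat_lit 202591537719) (nat_lit 8) (nat_lit 5) (nat_lit 9) (nat_lit 5) (nat_lit 10) (nat_lit 4) (nat_lit 311) (nat_lit 278) (nat_lit 131)))) (XT.nd (nat_lit 78) (nat_lit 0) (nat_lit 0) (XT.lf (nat_lit 0) (nat_lit 176587908134) (nat_lit 76) (nat_lit 93442334420) (nat_lit 152) (nat_lit 165487940931) (nat_lit 8) (nat_lit 5) (nat_lit 9) (nat_lit 5) (nat_lit 10) (nat_lit 4) (nat_lit 312) (nat_lit 278) (nat_lit 130)) (XT.nd (nat_lit 78) (nat_lit 0) (nat_lit 0) (XT.lf (nat_lit 0) (nat_lit 319398811185) (nat_lit 76) (nat_lit 19290674412) (nat_lit 152) (nat_lit 125416200301) (nat_lit 8) (nat_lit 5) (nat_lit 9) (nat_lit 5) (nat_lit 10) (nat_lit 4) (nat_lit 313) (nat_lit 278) (nat_lit 129)) (XT.lf (nat_lit 0) (nat_lit 414303418980) (nat_lit 152) (nat_lit 22807892445) (nat_lit 0) (nat_lit 57751921342) (nat_lit 8) (nat_lit 5) (nat_lit 10) (nat_lit 4) (nat_lit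 8) (nat_lit 4) (nat_lit 314) (nat_lit 278) (nat_lit 128))))) (XT.nd (nat_lit 234) (nat_lit 76) (nat_lit 0) (XT.nd (nat_lit 78) (nat_lit 76) (nat_lit 0) (XT.lf (nat_lit 0) (nat_lit 114046838083) (nat_lit 76) (nat_lit 385163398828) (nat_lit 76) (nat_lit 28611645196) (nat_lit 7) (nat_lit 4) (nat_lit 8) (nat_lit 5) (nat_lit 8) (nat_lit 4) (nat_lit 315) (nat_lit 278) (nat_lit 127)) (XT.nd (nat_lit 78) (nat_lit 0) (nat_lit 0) (XT.lf (nat_lit 0) (nat_lit 26756787605) (nat_lit 152) (nat_lit 300897872443) (nat_lit 76) (nat_lit 235658492962) (nat_lit 6) (nat_lit 5) (nat_lit 8) (nat_lit 5) (nat_lit 7) (nat_lit 4) (nat_lit 316) (nat_lit 278) (nat_lit 126)) (XT.lf (nat_lit 0) (nat_lit 85008816499) (nat_lit 152) (nat_lit 179733871818) (nat_lit 76) (nat_lit 336841593270) (nat_lit 6) (nat_lit 5) (nat_lit 8) (nat_lit 5) (nat_lit 7) (nat_lit 4) (nat_lit 317) (nat_lit 278) (nat_lit 125)))) (XT.nd (nat_lit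 156) (nat_lit 0) (nat_lit 0) (XT.nd (nat_lit 78) (nat_lit 76) (nat_lit 0) (XT.lf (nat_lit 0) (nat_lit 147920909063) (nat_lit 152) (nat_lit 48876922501) (nat_lit 76) (nat_lit 446119277004) (nat_lit 6) (nat_lit 5) (nat_lit 8) (nat_lit 5) (nat_lit 7) (nat_lit 4) (nat_lit 318) (nat_lit 278) (nat_lit 124)) (XT.lf (nat_lit 0) (nat_lit 97316594275) (nat_lit 76) (nat_lit 120889749855) (nat_lit 152) (nat_lit 469162987781) (nat_lit 5) (nat_lit 5) (nat_lit 6) (nat_lit 5) (nat_lit 7) (nat_lit 4) (nat_lit 319) (nat_lit 278) (nat_lit 123))) (XT.nd (nat_lit 78) (nat_lit 0) (nat_lit 0) (XT.lf (nat_lit 0) (nat_lit 257985111637) (nat_lit 76) (nat_lit 37465795756) (nat_lit 152) (nat_lit 439819922452) (nat_lit 5) (nat_lit 5) (nat_lit 6) (nat_lit 5) (nat_lit 7) (nat_lit 4) (nat_lit 320) (nat_lit 278) (nat_lit 122)) (XT.lf (nat_lit 0) (nat_lit 380140755153) (nat_lit 152) (nat_lit 356763288324) (nat_lit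 0) (nat_lit 49999146763) (nat_lit 5) (nat_lit 5) (nat_lit 7) (nat_lit 4) (nat_lit 5) (nat_lit 4) (nat_lit 321) (nat_lit 278) (nat_lit 121))))))) (XT.nd (nat_lit 34320) (nat_lit 0) (nat_lit 1596) (XT.nd (nat_lit 468) (nat_lit 76) (nat_lit 0) (XT.nd (nat_lit 234) (nat_lit 0) (nat_lit 0) (XT.nd (nat_lit 78) (nat_lit 76) (nat_lit 0) (XT.lf (nat_lit 0) (nat_lit 472578851224) (nat_lit 152) (nat_lit 227572339041) (nat_lit 0) (nat_lit 142437104529) (nat_lit 5) (nat_lit 5) (nat_lit 7) (nat_lit 4) (nat_lit 5) (nat_lit 4) (nat_lit 322) (nat_lit 278) (nat_lit 120)) (XT.nd (nat_lit 78) (nat_lit 76) (nat_lit 0) (XT.lf (nat_lit 0) (nat_lit 572411923628) (nat_lit 152) (nat_lit 88046241075) (nat_lit 0) (nat_lit 242270048872) (nat_lit 5) (nat_lit 5) (nat_lit 7) (nat_lit 4) (nat_lit 5) (nat_lit 4) (nat_lit 323) (nat_lit 278) (nat_lit 119)) (XT.lf (nat_lit 0) (nat_lit 65940434487) (nat_lit 76) (nat_lit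 615877010305) (nat_lit 76) (nat_lit 285735016975) (nat_lit 4) (nat_lit 4) (nat_lit 5) (nat_lit 5) (nat_lit 5) (nat_lit 4) (nat_lit 324) (nat_lit 278) (nat_lit 118)))) (XT.nd (nat_lit 78) (nat_lit 0) (nat_lit 0) (XT.lf (nat_lit 0) (nat_lit 237253196990) (nat_lit 76) (nat_lit 565129486985) (nat_lit 76) (nat_lit 234987383864) (nat_lit 4) (nat_lit 4) (nat_lit 5) (nat_lit 5) (nat_lit 5) (nat_lit 4) (nat_lit 325) (nat_lit 278) (nat_lit 117)) (XT.nd (nat_lit 78) (nat_lit 0) (nat_lit 0) (XT.lf (nat_lit 0) (nat_lit 422270874152) (nat_lit 76) (nat_lit 510322208943) (nat_lit 76) (nat_lit 180180004162) (nat_lit 4) (nat_lit 4) (nat_lit 5) (nat_lit 5) (nat_lit 5) (nat_lit 4) (nat_lit 326) (nat_lit 278) (nat_lit 116)) (XT.lf (nat_lit 0) (nat_lit 622089867020) (nat_lit 76) (nat_lit 451130392307) (nat_lit 76) (nat_lit 120988093399) (nat_lit 4) (nat_lit 4) (nat_lit 5) (nat_lit 5) (nat_lit 5) (nat_lit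 4) (nat_lit 327) (nat_lit 278) (nat_lit 115))))) (XT.nd (nat_lit 234) (nat_lit 0) (nat_lit 0) (XT.nd (nat_lit 78) (nat_lit 76) (nat_lit 0) (XT.lf (nat_lit 0) (nat_lit 837894288147) (nat_lit 76) (nat_lit 387203270759) (nat_lit 76) (nat_lit 57060884694) (nat_lit 4) (nat_lit 4) (nat_lit 5) (nat_lit 5) (nat_lit 5) (nat_lit 4) (nat_lit 328) (nat_lit 278) (nat_lit 114)) (XT.nd (nat_lit 78) (nat_lit 0) (nat_lit 0) (XT.lf (nat_lit 0) (nat_lit 11381139231) (nat_lit 152) (nat_lit 306469697162) (nat_lit 76) (nat_lit 1059270658798) (nat_lit 3) (nat_lit 5) (nat_lit 5) (nat_lit 5) (nat_lit 4) (nat_lit 4) (nat_lit 329) (nat_lit 278) (nat_lit 113)) (XT.lf (nat_lit 0) (nat_lit 82215710467) (nat_lit 152) (nat_lit 159133863713) (nat_lit 76) (nat_lit 1238213452320) (nat_lit 3) (nat_lit 5) (nat_lit 5) (nat_lit 5) (nat_lit 4) (nat_lit 4) (nat_lit 330) (nat_lit 278) (nat_lit 112)))) (XT.nd (nat_lit 33462)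 (nat_lit 0) (nat_lit 2280) (XT.lf (nat_lit 0) (nat_lit 158717005986) (nat_lit 152) (nat_lit 11238222) (nat_lit 76) (nat_lit 1431471639498) (nat_lit 3) (nat_lit 5) (nat_lit 5) (nat_lit 5) (nat_lit 4) (nat_lit 4) (nat_lit 331) (nat_lit 278) (nat_lit 111)) (XT.nd (nat_lit 78) (nat_lit 0) (nat_lit 0) (XT.lf (nat_lit 0) (nat_lit 12818867139) (nat_lit 532) (nat_lit 14245443508) (nat_lit 532) (nat_lit 14245443508) (nat_lit 33) (nat_lit 3) (nat_lit 40) (nat_lit 3) (nat_lit 40) (nat_lit 5) (nat_lit 279) (nat_lit 279) (nat_lit 162)) (XT.lf (nat_lit 76) (nat_lit 6619885178) (nat_lit 0) (nat_lit 20211063766) (nat_lit 532) (nat_lit 59079873830) (nat_lit 34) (nat_lit 5) (nat_lit 33) (nat_lit 3) (nat_lit 40) (nat_lit 5) (nat_lit 280) (nat_lit 279) (nat_lit 161)))))) (XT.nd (nat_lit 468) (nat_lit 760) (nat_lit 0) (XT.nd (nat_lit 234) (nat_lit 0) (nat_lit 76) (XT.nd (nat_lit 78) (nat_lit 0) (nat_lit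 0) (XT.lf (nat_lit 0) (nat_lit 29312891876) (nat_lit 456) (nat_lit 43659003202) (nat_lit 532) (nat_lit 16398090576) (nat_lit 34) (nat_lit 5) (nat_lit 40) (nat_lit 5) (nat_lit 41) (nat_lit 5) (nat_lit 281) (nat_lit 279) (nat_lit 160)) (XT.nd (nat_lit 78) (nat_lit 0) (nat_lit 76) (XT.lf (nat_lit 0) (nat_lit 32517563363) (nat_lit 456) (nat_lit 5702003382) (nat_lit 532) (nat_lit 54844385552) (nat_lit 34) (nat_lit 5) (nat_lit 40) (nat_lit 5) (nat_lit 41) (nat_lit 5) (nat_lit 282) (nat_lit 279) (nat_lit 159)) (XT.lf (nat_lit 0) (nat_lit 36878010852) (nat_lit 456) (nat_lit 59839278063) (nat_lit 532) (nat_lit 264199412) (nat_lit 35) (nat_lit 5) (nat_lit 41) (nat_lit 5) (nat_lit 42) (nat_lit 5) (nat_lit 283) (nat_lit 279) (nat_lit 158)))) (XT.nd (nat_lit 78) (nat_lit 0) (nat_lit 0) (XT.lf (nat_lit 0) (nat_lit 42739279224) (nat_lit 456) (nat_lit 18459020864) (nat_lit 532) (nat_lit 39921972273)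 (nat_lit 35) (nat_lit 5) (nat_lit 41) (nat_lit 5) (nat_lit 42) (nat_lit 5) (nat_lit 284) (nat_lit 279) (nat_lit 157)) (XT.nd (nat_lit 78) (nat_lit 0) (nat_lit 76) (XT.lf (nat_lit 76) (nat_lit 27612443734) (nat_lit 0) (nat_lit 22120452639) (nat_lit 532) (nat_lit 55804190596) (nat_lit 36) (nat_lit 5) (nat_lit 35) (nat_lit 5) (nat_lit 42) (nat_lit 5) (nat_lit 285) (nat_lit 279) (nat_lit 156)) (XT.lf (nat_lit 0) (nat_lit 58286231183) (nat_lit 456) (nat_lit 32344125567) (nat_lit 76) (nat_lit 19596875100) (nat_lit 36) (nat_lit 5) (nat_lit 42) (nat_lit 5) (nat_lit 37) (nat_lit 5) (nat_lit 286) (nat_lit 279) (nat_lit 155))))) (XT.nd (nat_lit 234) (nat_lit 228) (nat_lit 0) (XT.nd (nat_lit 78) (nat_lit 228) (nat_lit 0) (XT.lf (nat_lit 0) (nat_lit 17166514294) (nat_lit 456) (nat_lit 51344180023) (nat_lit 532) (nat_lit 46702948199) (nat_lit 30) (nat_lit 5) (nat_lit 36) (nat_lit 5) (nat_lit 37)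 (nat_lit 5) (nat_lit 287) (nat_lit 279) (nat_lit 154)) (XT.nd (nat_lit 78) (nat_lit 228) (nat_lit 0) (XT.lf (nat_lit 0) (nat_lit 72476956521) (nat_lit 456) (nat_lit 7959982002) (nat_lit 532) (nat_lit 40091324475) (nat_lit 30) (nat_lit 5) (nat_lit 36) (nat_lit 5) (nat_lit 37) (nat_lit 5) (nat_lit 288) (nat_lit 279) (nat_lit 153)) (XT.lf (nat_lit 0) (nat_lit 5271988879) (nat_lit 228) (nat_lit 89107027080) (nat_lit 304) (nat_lit 31804101139) (nat_lit 27) (nat_lit 5) (nat_lit 30) (nat_lit 5) (nat_lit 31) (nat_lit 5) (nat_lit 289) (nat_lit 279) (nat_lit 152)))) (XT.nd (nat_lit 156) (nat_lit 228) (nat_lit 0) (XT.nd (nat_lit 78) (nat_lit 0) (nat_lit 0) (XT.lf (nat_lit 0) (nat_lit 65375746898) (nat_lit 228) (nat_lit 45575580952) (nat_lit 304) (nat_lit 21217844689) (nat_lit 27) (nat_lit 5) (nat_lit 30) (nat_lit 5) (nat_lit 31) (nat_lit 5) (nat_lit 290) (nat_lit 279) (nat_lit 151)) (XT.lf (nat_lit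 0) (nat_lit 128883593062) (nat_lit 304) (nat_lit 8381381340) (nat_lit 76) (nat_lit 1366406834) (nat_lit 27) (nat_lit 5) (nat_lit 31) (nat_lit 5) (nat_lit 28) (nat_lit 5) (nat_lit 291) (nat_lit 279) (nat_lit 150))) (XT.nd (nat_lit 78) (nat_lit 0) (nat_lit 0) (XT.lf (nat_lit 0) (nat_lit 5112053395) (nat_lit 228) (nat_lit 89199286879) (nat_lit 76) (nat_lit 51085810187) (nat_lit 24) (nat_lit 5) (nat_lit 27) (nat_lit 5) (nat_lit 25) (nat_lit 5) (nat_lit 292) (nat_lit 279) (nat_lit 149)) (XT.lf (nat_lit 0) (nat_lit 20868776439) (nat_lit 228) (nat_lit 26525341753) (nat_lit 76) (nat_lit 105271031474) (nat_lit 24) (nat_lit 5) (nat_lit 27) (nat_lit 5) (nat_lit 25) (nat_lit 5) (nat_lit 293) (nat_lit 279) (nat_lit 148))))))))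
noncomputable def xc110 : XT := (XT.nd (nat_lit 1950) (nat_lit 228) (nat_lit 0) (XT.nd (nat_lit 936) (nat_lit 532) (nat_lit 0) (XT.nd (nat_lit 468) (nat_lit 304) (nat_lit 0) (XT.nd (nat_lit 234) (nat_lit 152) (nat_lit 0) (XT.nd (nat_lit 78) (nat_lit 152) (nat_lit 0) (XT.lf (nat_lit 0) (nat_lit 39033623005) (nat_lit 304) (nat_lit 117207498448) (nat_lit 76) (nat_lit 4181662184) (nat_lit 21) (nat_lit 5) (nat_lit 25) (nat_lit 5) (nat_lit 22) (nat_lit 5) (nat_lit 294) (nat_lit 279) (nat_lit 147)) (XT.nd (nat_lit 78) (nat_lit 152) (nat_lit 0) (XT.lf (nat_lit 0) (nat_lit 60626418159) (nat_lit 304) (nat_lit 49949619280) (nat_lit 76) (nat_lit 58067011579) (nat_lit 21) (nat_lit 5) (nat_lit 25) (nat_lit 5) (nat_lit 22) (nat_lit 5) (nat_lit 295) (nat_lit 279) (nat_lit 146)) (XT.lf (nat_lit 0) (nat_lit 23883218887) (nat_lit 152) (nat_lit 60637492707) (nat_lit 228) (nat_lit 92954299505) (nat_lit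 19) (nat_lit 5) (nat_lit 21) (nat_lit 5) (nat_lit 22) (nat_lit 5) (nat_lit 296) (nat_lit 279) (nat_lit 145)))) (XT.nd (nat_lit 78) (nat_lit 152) (nat_lit 0) (XT.lf (nat_lit 0) (nat_lit 106462966841) (nat_lit 152) (nat_lit 5228989426) (nat_lit 228) (nat_lit 75212342595) (nat_lit 19) (nat_lit 5) (nat_lit 21) (nat_lit 5) (nat_lit 22) (nat_lit 5) (nat_lit 297) (nat_lit 279) (nat_lit 144)) (XT.nd (nat_lit 78) (nat_lit 152) (nat_lit 0) (XT.lf (nat_lit 0) (nat_lit 142350042149) (nat_lit 228) (nat_lit 2752648248) (nat_lit 76) (nat_lit 51880189157) (nat_lit 19) (nat_lit 5) (nat_lit 22) (nat_lit 5) (nat_lit 20) (nat_lit 5) (nat_lit 298) (nat_lit 279) (nat_lit 143)) (XT.lf (nat_lit 0) (nat_lit 85281056284) (nat_lit 152) (nat_lit 92366285989) (nat_lit 228) (nat_lit 30045480183) (nat_lit 17) (nat_lit 5) (nat_lit 19) (nat_lit 5) (nat_lit 20) (nat_lit 5) (nat_lit 299) (nat_lit 279) (nat_lit 142)))))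 (XT.nd (nat_lit 234) (nat_lit 152) (nat_lit 0) (XT.nd (nat_lit 78) (nat_lit 152) (nat_lit 0) (XT.lf (nat_lit 0) (nat_lit 180513651974) (nat_lit 152) (nat_lit 35329785697) (nat_lit 228) (nat_lit 3410123281) (nat_lit 17) (nat_lit 5) (nat_lit 19) (nat_lit 5) (nat_lit 20) (nat_lit 5) (nat_lit 300) (nat_lit 279) (nat_lit 141)) (XT.nd (nat_lit 78) (nat_lit 0) (nat_lit 0) (XT.lf (nat_lit 0) (nat_lit 26060111224) (nat_lit 152) (nat_lit 178566306678) (nat_lit 76) (nat_lit 26906159464) (nat_lit 15) (nat_lit 5) (nat_lit 17) (nat_lit 5) (nat_lit 16) (nat_lit 5) (nat_lit 301) (nat_lit 279) (nat_lit 140)) (XT.lf (nat_lit 0) (nat_lit 59707883946) (nat_lit 152) (nat_lit 91531150067) (nat_lit 76) (nat_lit 93387463579) (nat_lit 15) (nat_lit 5) (nat_lit 17) (nat_lit 5) (nat_lit 16) (nat_lit 5) (nat_lit 302) (nat_lit 279) (nat_lit 139)))) (XT.nd (nat_lit 78) (nat_lit 0) (nat_lit 0) (XT.lf (nat_lit 0)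 (nat_lit 2596379642) (nat_lit 152) (nat_lit 93513327021) (nat_lit 228) (nat_lit 162653247299) (nat_lit 13) (nat_lit 5) (nat_lit 15) (nat_lit 5) (nat_lit 16) (nat_lit 5) (nat_lit 303) (nat_lit 279) (nat_lit 138)) (XT.nd (nat_lit 78) (nat_lit 0) (nat_lit 0) (XT.lf (nat_lit 0) (nat_lit 109459256605) (nat_lit 152) (nat_lit 28466836018) (nat_lit 228) (nat_lit 135904041545) (nat_lit 13) (nat_lit 5) (nat_lit 15) (nat_lit 5) (nat_lit 16) (nat_lit 5) (nat_lit 304) (nat_lit 279) (nat_lit 137)) (XT.lf (nat_lit 0) (nat_lit 184092487118) (nat_lit 228) (nat_lit 66236719381) (nat_lit 76) (nat_lit 39693107149) (nat_lit 13) (nat_lit 5) (nat_lit 16) (nat_lit 5) (nat_lit 14) (nat_lit 4) (nat_lit 305) (nat_lit 279) (nat_lit 136)))))) (XT.nd (nat_lit 468) (nat_lit 228) (nat_lit 0) (XT.nd (nat_lit 234) (nat_lit 152) (nat_lit 0) (XT.nd (nat_lit 78) (nat_lit 76) (nat_lit 0) (XT.lf (nat_lit 0) (nat_lit 41062610496)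 (nat_lit 76) (nat_lit 194616358617) (nat_lit 152) (nat_lit 71692756917) (nat_lit 12) (nat_lit 5) (nat_lit 13) (nat_lit 5) (nat_lit 14) (nat_lit 4) (nat_lit 306) (nat_lit 279) (nat_lit 135)) (XT.nd (nat_lit 78) (nat_lit 76) (nat_lit 0) (XT.lf (nat_lit 0) (nat_lit 160712554091) (nat_lit 76) (nat_lit 132490672391) (nat_lit 152) (nat_lit 32760996949) (nat_lit 12) (nat_lit 5) (nat_lit 13) (nat_lit 5) (nat_lit 14) (nat_lit 4) (nat_lit 307) (nat_lit 279) (nat_lit 134)) (XT.lf (nat_lit 0) (nat_lit 8820650961) (nat_lit 152) (nat_lit 56333201707) (nat_lit 76) (nat_lit 280872416654) (nat_lit 11) (nat_lit 5) (nat_lit 13) (nat_lit 5) (nat_lit 12) (nat_lit 5) (nat_lit 308) (nat_lit 279) (nat_lit 133)))) (XT.nd (nat_lit 78) (nat_lit 0) (nat_lit 0) (XT.lf (nat_lit 0) (nat_lit 53732956992) (nat_lit 228) (nat_lit 304116069407) (nat_lit 76) (nat_lit 9634252457) (nat_lit 9) (nat_lit 5) (nat_lit 12) (nat_lit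 5) (nat_lit 10) (nat_lit 4) (nat_lit 309) (nat_lit 279) (nat_lit 132)) (XT.nd (nat_lit 78) (nat_lit 0) (nat_lit 0) (XT.lf (nat_lit 0) (nat_lit 105510662642) (nat_lit 228) (nat_lit 196418817793) (nat_lit 76) (nat_lit 88465575926) (nat_lit 9) (nat_lit 5) (nat_lit 12) (nat_lit 5) (nat_lit 10) (nat_lit 4) (nat_lit 310) (nat_lit 279) (nat_lit 131)) (XT.lf (nat_lit 0) (nat_lit 161430446991) (nat_lit 228) (nat_lit 80106014624) (nat_lit 76) (nat_lit 173603325865) (nat_lit 9) (nat_lit 5) (nat_lit 12) (nat_lit 5) (nat_lit 10) (nat_lit 4) (nat_lit 311) (nat_lit 279) (nat_lit 130))))) (XT.nd (nat_lit 234) (nat_lit 152) (nat_lit 0) (XT.nd (nat_lit 78) (nat_lit 0) (nat_lit 0) (XT.lf (nat_lit 0) (nat_lit 47908161420) (nat_lit 76) (nat_lit 175067717553) (nat_lit 152) (nat_lit 218796053284) (nat_lit 8) (nat_lit 5) (nat_lit 9) (nat_lit 5) (nat_lit 10) (nat_lit 4) (nat_lit 312) (nat_lit 279) (nat_lit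 129)) (XT.nd (nat_lit 78) (nat_lit 0) (nat_lit 0) (XT.lf (nat_lit 0) (nat_lit 190718965297) (nat_lit 76) (nat_lit 100916097555) (nat_lit 152) (nat_lit 178724376713) (nat_lit 8) (nat_lit 5) (nat_lit 9) (nat_lit 5) (nat_lit 10) (nat_lit 4) (nat_lit 313) (nat_lit 279) (nat_lit 128)) (XT.lf (nat_lit 0) (nat_lit 344954442480) (nat_lit 76) (nat_lit 20832425014) (nat_lit 152) (nat_lit 135447089388) (nat_lit 8) (nat_lit 5) (nat_lit 9) (nat_lit 5) (nat_lit 10) (nat_lit 4) (nat_lit 314) (nat_lit 279) (nat_lit 127)))) (XT.nd (nat_lit 156) (nat_lit 76) (nat_lit 0) (XT.nd (nat_lit 78) (nat_lit 76) (nat_lit 0) (XT.lf (nat_lit 0) (nat_lit 447449784355) (nat_lit 152) (nat_lit 24628936681) (nat_lit 0) (nat_lit 62373397408) (nat_lit 8) (nat_lit 5) (nat_lit 10) (nat_lit 4) (nat_lit 8) (nat_lit 4) (nat_lit 315) (nat_lit 279) (nat_lit 126)) (XT.lf (nat_lit 0) (nat_lit 123174081475) (nat_lit 76) (nat_lit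 415974995380) (nat_lit 76) (nat_lit 30898388959) (nat_lit 7) (nat_lit 4) (nat_lit 8) (nat_lit 5) (nat_lit 8) (nat_lit 4) (nat_lit 316) (nat_lit 279) (nat_lit 125))) (XT.nd (nat_lit 78) (nat_lit 0) (nat_lit 0) (XT.lf (nat_lit 0) (nat_lit 28899255065) (nat_lit 152) (nat_lit 324966359100) (nat_lit 76) (nat_lit 254512432687) (nat_lit 6) (nat_lit 5) (nat_lit 8) (nat_lit 5) (nat_lit 7) (nat_lit 4) (nat_lit 317) (nat_lit 279) (nat_lit 124)) (XT.lf (nat_lit 0) (nat_lit 91811303718) (nat_lit 152) (nat_lit 194109486065) (nat_lit 76) (nat_lit 363790087665) (nat_lit 6) (nat_lit 5) (nat_lit 8) (nat_lit 5) (nat_lit 7) (nat_lit 4) (nat_lit 318) (nat_lit 279) (nat_lit 123))))))) (XT.nd (nat_lit 936) (nat_lit 0) (nat_lit 0) (XT.nd (nat_lit 468) (nat_lit 152) (nat_lit 0) (XT.nd (nat_lit 234) (nat_lit 0) (nat_lit 0) (XT.nd (nat_lit 78) (nat_lit 76) (nat_lit 0) (XT.lf (nat_lit 0) (nat_lit 159756231695)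 (nat_lit 152) (nat_lit 52784210099) (nat_lit 76) (nat_lit 481809899658) (nat_lit 6) (nat_lit 5) (nat_lit 8) (nat_lit 5) (nat_lit 7) (nat_lit 4) (nat_lit 319) (nat_lit 279) (nat_lit 122)) (XT.nd (nat_lit 78) (nat_lit 0) (nat_lit 0) (XT.lf (nat_lit 0) (nat_lit 105104715457) (nat_lit 76) (nat_lit 130559731082) (nat_lit 152) (nat_lit 506694300808) (nat_lit 5) (nat_lit 5) (nat_lit 6) (nat_lit 5) (nat_lit 7) (nat_lit 4) (nat_lit 320) (nat_lit 279) (nat_lit 121)) (XT.lf (nat_lit 0) (nat_lit 278626507271) (nat_lit 76) (nat_lit 40461949452) (nat_lit 152) (nat_lit 475003918104) (nat_lit 5) (nat_lit 5) (nat_lit 6) (nat_lit 5) (nat_lit 7) (nat_lit 4) (nat_lit 321) (nat_lit 279) (nat_lit 120)))) (XT.nd (nat_lit 78) (nat_lit 0) (nat_lit 0) (XT.lf (nat_lit 0) (nat_lit 410553407633) (nat_lit 152) (nat_lit 385301868599) (nat_lit 0) (nat_lit 54000054837) (nat_lit 5) (nat_lit 5) (nat_lit 7) (nat_lit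 4) (nat_lit 5) (nat_lit 4) (nat_lit 322) (nat_lit 279) (nat_lit 119)) (XT.nd (nat_lit 78) (nat_lit 0) (nat_lit 0) (XT.lf (nat_lit 0) (nat_lit 510386448274) (nat_lit 152) (nat_lit 245775827284) (nat_lit 0) (nat_lit 153832976903) (nat_lit 5) (nat_lit 5) (nat_lit 7) (nat_lit 4) (nat_lit 5) (nat_lit 4) (nat_lit 323) (nat_lit 279) (nat_lit 118)) (XT.lf (nat_lit 0) (nat_lit 618206070993) (nat_lit 152) (nat_lit 95087811769) (nat_lit 0) (nat_lit 261652489830) (nat_lit 5) (nat_lit 5) (nat_lit 7) (nat_lit 4) (nat_lit 5) (nat_lit 4) (nat_lit 324) (nat_lit 279) (nat_lit 117))))) (XT.nd (nat_lit 234) (nat_lit 76) (nat_lit 0) (XT.nd (nat_lit 78) (nat_lit 0) (nat_lit 0) (XT.lf (nat_lit 0) (nat_lit 71217743950) (nat_lit 76) (nat_lit 665146251391) (nat_lit 76) (nat_lit 308592568570) (nat_lit 4) (nat_lit 4) (nat_lit 5) (nat_lit 5) (nat_lit 5) (nat_lit 4) (nat_lit 325) (nat_lit 279) (nat_lit 116)) (XT.nd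 (nat_lit 78) (nat_lit 0) (nat_lit 0) (XT.lf (nat_lit 0) (nat_lit 256235373772) (nat_lit 76) (nat_lit 610338994334) (nat_lit 76) (nat_lit 253785217385) (nat_lit 4) (nat_lit 4) (nat_lit 5) (nat_lit 5) (nat_lit 5) (nat_lit 4) (nat_lit 326) (nat_lit 279) (nat_lit 115)) (XT.lf (nat_lit 0) (nat_lit 456054322808) (nat_lit 76) (nat_lit 551147197131) (nat_lit 76) (nat_lit 194593333025) (nat_lit 4) (nat_lit 4) (nat_lit 5) (nat_lit 5) (nat_lit 5) (nat_lit 4) (nat_lit 327) (nat_lit 279) (nat_lit 114)))) (XT.nd (nat_lit 78) (nat_lit 76) (nat_lit 0) (XT.lf (nat_lit 0) (nat_lit 671858703349) (nat_lit 76) (nat_lit 487220093574) (nat_lit 76) (nat_lit 130666148768) (nat_lit 4) (nat_lit 4) (nat_lit 5) (nat_lit 5) (nat_lit 5) (nat_lit 4) (nat_lit 328) (nat_lit 279) (nat_lit 113)) (XT.nd (nat_lit 78) (nat_lit 76) (nat_lit 0) (XT.lf (nat_lit 0) (nat_lit 904927356168) (nat_lit 76) (nat_lit 418178856384)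 (nat_lit 76) (nat_lit 61624836857) (nat_lit 4) (nat_lit 4) (nat_lit 5) (nat_lit 5) (nat_lit 5) (nat_lit 4) (nat_lit 329) (nat_lit 279) (nat_lit 112)) (XT.lf (nat_lit 0) (nat_lit 12292438388) (nat_lit 152) (nat_lit 330985816865) (nat_lit 76) (nat_lit 1144012893399) (nat_lit 3) (nat_lit 5) (nat_lit 5) (nat_lit 5) (nat_lit 4) (nat_lit 4) (nat_lit 330) (nat_lit 279) (nat_lit 111)))))) (XT.nd (nat_lit 33930) (nat_lit 0) (nat_lit 1824) (XT.nd (nat_lit 33696) (nat_lit 0) (nat_lit 2356) (XT.nd (nat_lit 33540) (nat_lit 0) (nat_lit 2280) (XT.lf (nat_lit 0) (nat_lit 88793715470) (nat_lit 152) (nat_lit 171863224597) (nat_lit 76) (nat_lit 1337271067300) (nat_lit 3) (nat_lit 5) (nat_lit 5) (nat_lit 5) (nat_lit 4) (nat_lit 4) (nat_lit 331) (nat_lit 279) (nat_lit 110)) (XT.nd (nat_lit 78) (nat_lit 0) (nat_lit 0) (XT.lf (nat_lit 0) (nat_lit 13852669057) (nat_lit 532) (nat_lit 15380576885) (nat_lit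 532) (nat_lit 15380576885) (nat_lit 33) (nat_lit 3) (nat_lit 40) (nat_lit 3) (nat_lit 40) (nat_lit 5) (nat_lit 280) (nat_lit 280) (nat_lit 160)) (XT.lf (nat_lit 76) (nat_lit 7158252245) (nat_lit 0) (nat_lit 21834740252) (nat_lit 532) (nat_lit 63789361326) (nat_lit 34) (nat_lit 5) (nat_lit 33) (nat_lit 3) (nat_lit 40) (nat_lit 5) (nat_lit 281) (nat_lit 280) (nat_lit 159)))) (XT.nd (nat_lit 78) (nat_lit 0) (nat_lit 0) (XT.lf (nat_lit 0) (nat_lit 31672186471) (nat_lit 456) (nat_lit 47142210163) (nat_lit 532) (nat_lit 17703964071) (nat_lit 34) (nat_lit 5) (nat_lit 40) (nat_lit 5) (nat_lit 41) (nat_lit 5) (nat_lit 282) (nat_lit 280) (nat_lit 158)) (XT.nd (nat_lit 78) (nat_lit 0) (nat_lit 76) (XT.lf (nat_lit 0) (nat_lit 35132175139) (nat_lit 456) (nat_lit 6149355045) (nat_lit 532) (nat_lit 59226405145) (nat_lit 34) (nat_lit 5) (nat_lit 40) (nat_lit 5) (nat_lit 41) (nat_lit 5) (nat_lit 283)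 (nat_lit 280) (nat_lit 157)) (XT.lf (nat_lit 0) (nat_lit 39840594061) (nat_lit 456) (nat_lit 64616676395) (nat_lit 532) (nat_lit 281678611) (nat_lit 35) (nat_lit 5) (nat_lit 41) (nat_lit 5) (nat_lit 42) (nat_lit 5) (nat_lit 284) (nat_lit 280) (nat_lit 156))))) (XT.nd (nat_lit 234) (nat_lit 608) (nat_lit 0) (XT.nd (nat_lit 78) (nat_lit 0) (nat_lit 0) (XT.lf (nat_lit 0) (nat_lit 46169849656) (nat_lit 456) (nat_lit 19926720391) (nat_lit 532) (nat_lit 43112344171) (nat_lit 35) (nat_lit 5) (nat_lit 41) (nat_lit 5) (nat_lit 42) (nat_lit 5) (nat_lit 285) (nat_lit 280) (nat_lit 155)) (XT.nd (nat_lit 78) (nat_lit 0) (nat_lit 76) (XT.lf (nat_lit 76) (nat_lit 29830232967) (nat_lit 0) (nat_lit 23892088174) (nat_lit 532) (nat_lit 60256808523) (nat_lit 36) (nat_lit 5) (nat_lit 35) (nat_lit 5) (nat_lit 42) (nat_lit 5) (nat_lit 286) (nat_lit 280) (nat_lit 154)) (XT.lf (nat_lit 0) (nat_lit 62959078727)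 (nat_lit 456) (nat_lit 34922612945) (nat_lit 76) (nat_lit 21162866488) (nat_lit 36) (nat_lit 5) (nat_lit 42) (nat_lit 5) (nat_lit 37) (nat_lit 5) (nat_lit 287) (nat_lit 280) (nat_lit 153)))) (XT.nd (nat_lit 156) (nat_lit 228) (nat_lit 0) (XT.nd (nat_lit 78) (nat_lit 0) (nat_lit 0) (XT.lf (nat_lit 0) (nat_lit 18548649177) (nat_lit 456) (nat_lit 55452324739) (nat_lit 532) (nat_lit 50428953934) (nat_lit 30) (nat_lit 5) (nat_lit 36) (nat_lit 5) (nat_lit 37) (nat_lit 5) (nat_lit 288) (nat_lit 280) (nat_lit 152)) (XT.lf (nat_lit 0) (nat_lit 78283273913) (nat_lit 456) (nat_lit 8597345668) (nat_lit 532) (nat_lit 43289158100) (nat_lit 30) (nat_lit 5) (nat_lit 36) (nat_lit 5) (nat_lit 37) (nat_lit 5) (nat_lit 289) (nat_lit 280) (nat_lit 151))) (XT.nd (nat_lit 78) (nat_lit 0) (nat_lit 0) (XT.lf (nat_lit 0) (nat_lit 5702442965) (nat_lit 228) (nat_lit 96235170408) (nat_lit 304) (nat_lit 34339446298)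 (nat_lit 27) (nat_lit 5) (nat_lit 30) (nat_lit 5) (nat_lit 31) (nat_lit 5) (nat_lit 290) (nat_lit 280) (nat_lit 150)) (XT.lf (nat_lit 0) (nat_lit 70613857553) (nat_lit 228) (nat_lit 49221239615) (nat_lit 304) (nat_lit 22906954734) (nat_lit 27) (nat_lit 5) (nat_lit 30) (nat_lit 5) (nat_lit 31) (nat_lit 5) (nat_lit 291) (nat_lit 280) (nat_lit 149))))))))
noncomputable def xc111 : XT := (XT.nd (nat_lit 1950) (nat_lit 380) (nat_lit 0) (XT.nd (nat_lit 936) (nat_lit 532) (nat_lit 0) (XT.nd (nat_lit 468) (nat_lit 304) (nat_lit 0) (XT.nd (nat_lit 234) (nat_lit 380) (nat_lit 0) (XT.nd (nat_lit 78) (nat_lit 228) (nat_lit 0) (XT.lf (nat_lit 0) (nat_lit 139201384597) (nat_lit 304) (nat_lit 9043839981) (nat_lit 76) (nat_lit 1476060504) (nat_lit 27) (nat_lit 5) (nat_lit 31) (nat_lit 5) (nat_lit 28) (nat_lit 5) (nat_lit 292) (nat_lit 280) (nat_lit 148)) (XT.nd (nat_lit 78) (nat_lit 0) (nat_lit 0)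 (XT.lf (nat_lit 0) (nat_lit 5527993741) (nat_lit 228) (nat_lit 96326981601) (nat_lit 76) (nat_lit 55173356211) (nat_lit 24) (nat_lit 5) (nat_lit 27) (nat_lit 5) (nat_lit 25) (nat_lit 5) (nat_lit 293) (nat_lit 280) (nat_lit 147)) (XT.lf (nat_lit 0) (nat_lit 22544737882) (nat_lit 228) (nat_lit 28639731845) (nat_lit 76) (nat_lit 113693344742) (nat_lit 24) (nat_lit 5) (nat_lit 27) (nat_lit 5) (nat_lit 25) (nat_lit 5) (nat_lit 294) (nat_lit 280) (nat_lit 146)))) (XT.nd (nat_lit 78) (nat_lit 152) (nat_lit 0) (XT.lf (nat_lit 0) (nat_lit 42162503612) (nat_lit 304) (nat_lit 126576164342) (nat_lit 76) (nat_lit 4517414943) (nat_lit 21) (nat_lit 5) (nat_lit 25) (nat_lit 5) (nat_lit 22) (nat_lit 5) (nat_lit 295) (nat_lit 280) (nat_lit 145)) (XT.nd (nat_lit 78) (nat_lit 152) (nat_lit 0) (XT.lf (nat_lit 0) (nat_lit 65482263802) (nat_lit 304) (nat_lit 53938242543) (nat_lit 76) (nat_lit 62713501935)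 (nat_lit 21) (nat_lit 5) (nat_lit 25) (nat_lit 5) (nat_lit 22) (nat_lit 5) (nat_lit 296) (nat_lit 280) (nat_lit 144)) (XT.lf (nat_lit 0) (nat_lit 25801036695) (nat_lit 152) (nat_lit 65486811615) (nat_lit 228) (nat_lit 100384701141) (nat_lit 19) (nat_lit 5) (nat_lit 21) (nat_lit 5) (nat_lit 22) (nat_lit 5) (nat_lit 297) (nat_lit 280) (nat_lit 143))))) (XT.nd (nat_lit 234) (nat_lit 152) (nat_lit 0) (XT.nd (nat_lit 78) (nat_lit 152) (nat_lit 0) (XT.lf (nat_lit 0) (nat_lit 114986634093) (nat_lit 152) (nat_lit 5645752554) (nat_lit 228) (nat_lit 81223827850) (nat_lit 19) (nat_lit 5) (nat_lit 21) (nat_lit 5) (nat_lit 22) (nat_lit 5) (nat_lit 298) (nat_lit 280) (nat_lit 142)) (XT.nd (nat_lit 78) (nat_lit 152) (nat_lit 0) (XT.lf (nat_lit 0) (nat_lit 153742778207) (nat_lit 228) (nat_lit 2966359407) (nat_lit 76) (nat_lit 56031972981) (nat_lit 19) (nat_lit 5) (nat_lit 22) (nat_lit 5) (nat_lit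 20) (nat_lit 5) (nat_lit 299) (nat_lit 280) (nat_lit 141)) (XT.lf (nat_lit 0) (nat_lit 92109876913) (nat_lit 152) (nat_lit 99753787244) (nat_lit 228) (nat_lit 32444202164) (nat_lit 17) (nat_lit 5) (nat_lit 19) (nat_lit 5) (nat_lit 20) (nat_lit 5) (nat_lit 300) (nat_lit 280) (nat_lit 140)))) (XT.nd (nat_lit 78) (nat_lit 152) (nat_lit 0) (XT.lf (nat_lit 0) (nat_lit 194960610915) (nat_lit 152) (nat_lit 38154500382) (nat_lit 228) (nat_lit 3678380890) (nat_lit 17) (nat_lit 5) (nat_lit 19) (nat_lit 5) (nat_lit 20) (nat_lit 5) (nat_lit 301) (nat_lit 280) (nat_lit 139)) (XT.nd (nat_lit 78) (nat_lit 0) (nat_lit 0) (XT.lf (nat_lit 0) (nat_lit 28149111067) (nat_lit 152) (nat_lit 192845351463) (nat_lit 76) (nat_lit 29060370530) (nat_lit 15) (nat_lit 5) (nat_lit 17) (nat_lit 5) (nat_lit 16) (nat_lit 5) (nat_lit 302) (nat_lit 280) (nat_lit 138)) (XT.lf (nat_lit 0) (nat_lit 64488395166) (nat_lit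 152) (nat_lit 98847846009) (nat_lit 76) (nat_lit 100860051692) (nat_lit 15) (nat_lit 5) (nat_lit 17) (nat_lit 5) (nat_lit 16) (nat_lit 5) (nat_lit 303) (nat_lit 280) (nat_lit 137)))))) (XT.nd (nat_lit 468) (nat_lit 228) (nat_lit 0) (XT.nd (nat_lit 234) (nat_lit 152) (nat_lit 0) (XT.nd (nat_lit 78) (nat_lit 0) (nat_lit 0) (XT.lf (nat_lit 0) (nat_lit 2809739342) (nat_lit 152) (nat_lit 100992472780) (nat_lit 228) (nat_lit 175661466794) (nat_lit 13) (nat_lit 5) (nat_lit 15) (nat_lit 5) (nat_lit 16) (nat_lit 5) (nat_lit 304) (nat_lit 280) (nat_lit 136)) (XT.nd (nat_lit 78) (nat_lit 0) (nat_lit 0) (XT.lf (nat_lit 0) (nat_lit 118221227993) (nat_lit 152) (nat_lit 30742404750) (nat_lit 228) (nat_lit 146772623860) (nat_lit 13) (nat_lit 5) (nat_lit 15) (nat_lit 5) (nat_lit 16) (nat_lit 5) (nat_lit 305) (nat_lit 280) (nat_lit 135)) (XT.lf (nat_lit 0) (nat_lit 198823122638) (nat_lit 228) (nat_lit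 71530586196) (nat_lit 76) (nat_lit 42870119795) (nat_lit 13) (nat_lit 5) (nat_lit 16) (nat_lit 5) (nat_lit 14) (nat_lit 4) (nat_lit 306) (nat_lit 280) (nat_lit 134)))) (XT.nd (nat_lit 78) (nat_lit 76) (nat_lit 0) (XT.lf (nat_lit 0) (nat_lit 44352561698) (nat_lit 76) (nat_lit 210183840613) (nat_lit 152) (nat_lit 77424802189) (nat_lit 12) (nat_lit 5) (nat_lit 13) (nat_lit 5) (nat_lit 14) (nat_lit 4) (nat_lit 307) (nat_lit 280) (nat_lit 133)) (XT.nd (nat_lit 78) (nat_lit 76) (nat_lit 0) (XT.lf (nat_lit 0) (nat_lit 173574134680) (nat_lit 76) (nat_lit 143088234800) (nat_lit 152) (nat_lit 35378751445) (nat_lit 12) (nat_lit 5) (nat_lit 13) (nat_lit 5) (nat_lit 14) (nat_lit 4) (nat_lit 308) (nat_lit 280) (nat_lit 132)) (XT.lf (nat_lit 0) (nat_lit 9529052040) (nat_lit 152) (nat_lit 60835467585) (nat_lit 76) (nat_lit 303343623100) (nat_lit 11) (nat_lit 5) (nat_lit 13) (nat_lit 5) (nat_lit 12)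 (nat_lit 5) (nat_lit 309) (nat_lit 280) (nat_lit 131))))) (XT.nd (nat_lit 234) (nat_lit 76) (nat_lit 0) (XT.nd (nat_lit 78) (nat_lit 0) (nat_lit 0) (XT.lf (nat_lit 0) (nat_lit 58034281058) (nat_lit 228) (nat_lit 328440895591) (nat_lit 76) (nat_lit 10406541901) (nat_lit 9) (nat_lit 5) (nat_lit 12) (nat_lit 5) (nat_lit 10) (nat_lit 4) (nat_lit 310) (nat_lit 280) (nat_lit 130)) (XT.nd (nat_lit 78) (nat_lit 0) (nat_lit 0) (XT.lf (nat_lit 0) (nat_lit 113954004086) (nat_lit 228) (nat_lit 212128194172) (nat_lit 76) (nat_lit 95544256489) (nat_lit 9) (nat_lit 5) (nat_lit 12) (nat_lit 5) (nat_lit 10) (nat_lit 4) (nat_lit 311) (nat_lit 280) (nat_lit 129)) (XT.lf (nat_lit 0) (nat_lit 174347186854) (nat_lit 228) (nat_lit 86510672604) (nat_lit 76) (nat_lit 187492920164) (nat_lit 9) (nat_lit 5) (nat_lit 12) (nat_lit 5) (nat_lit 10) (nat_lit 4) (nat_lit 312) (nat_lit 280) (nat_lit 128)))) (XT.nd (nat_lit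 156) (nat_lit 0) (nat_lit 0) (XT.nd (nat_lit 78) (nat_lit 0) (nat_lit 0) (XT.lf (nat_lit 0) (nat_lit 51744540734) (nat_lit 76) (nat_lit 189071631607) (nat_lit 152) (nat_lit 236297330609) (nat_lit 8) (nat_lit 5) (nat_lit 9) (nat_lit 5) (nat_lit 10) (nat_lit 4) (nat_lit 313) (nat_lit 280) (nat_lit 127)) (XT.lf (nat_lit 0) (nat_lit 205979932891) (nat_lit 76) (nat_lit 108987993368) (nat_lit 152) (nat_lit 193020098204) (nat_lit 8) (nat_lit 5) (nat_lit 9) (nat_lit 5) (nat_lit 10) (nat_lit 4) (nat_lit 314) (nat_lit 280) (nat_lit 126))) (XT.nd (nat_lit 78) (nat_lit 0) (nat_lit 0) (XT.lf (nat_lit 0) (nat_lit 372553992666) (nat_lit 76) (nat_lit 22497730135) (nat_lit 152) (nat_lit 146280792978) (nat_lit 8) (nat_lit 5) (nat_lit 9) (nat_lit 5) (nat_lit 10) (nat_lit 4) (nat_lit 315) (nat_lit 280) (nat_lit 125)) (XT.lf (nat_lit 0) (nat_lit 483247560534) (nat_lit 152) (nat_lit 26596176205) (nat_lit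 0) (nat_lit 67364402909) (nat_lit 8) (nat_lit 5) (nat_lit 10) (nat_lit 4) (nat_lit 8) (nat_lit 4) (nat_lit 316) (nat_lit 280) (nat_lit 124))))))) (XT.nd (nat_lit 1014) (nat_lit 76) (nat_lit 0) (XT.nd (nat_lit 468) (nat_lit 76) (nat_lit 0) (XT.nd (nat_lit 234) (nat_lit 76) (nat_lit 0) (XT.nd (nat_lit 78) (nat_lit 76) (nat_lit 0) (XT.lf (nat_lit 0) (nat_lit 133031005546) (nat_lit 76) (nat_lit 449251730132) (nat_lit 76) (nat_lit 33368384345) (nat_lit 7) (nat_lit 4) (nat_lit 8) (nat_lit 5) (nat_lit 8) (nat_lit 4) (nat_lit 317) (nat_lit 280) (nat_lit 123)) (XT.nd (nat_lit 78) (nat_lit 0) (nat_lit 0) (XT.lf (nat_lit 0) (nat_lit 31212845377) (nat_lit 152) (nat_lit 350960801627) (nat_lit 76) (nat_lit 274874507796) (nat_lit 6) (nat_lit 5) (nat_lit 8) (nat_lit 5) (nat_lit 7) (nat_lit 4) (nat_lit 318) (nat_lit 280) (nat_lit 122)) (XT.lf (nat_lit 0) (nat_lit 99157735707) (nat_lit 152) (nat_lit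 209635591060) (nat_lit 76) (nat_lit 392894295135) (nat_lit 6) (nat_lit 5) (nat_lit 8) (nat_lit 5) (nat_lit 7) (nat_lit 4) (nat_lit 319) (nat_lit 280) (nat_lit 121)))) (XT.nd (nat_lit 78) (nat_lit 76) (nat_lit 0) (XT.lf (nat_lit 0) (nat_lit 172538144759) (nat_lit 152) (nat_lit 57004489601) (nat_lit 76) (nat_lit 520355617980) (nat_lit 6) (nat_lit 5) (nat_lit 8) (nat_lit 5) (nat_lit 7) (nat_lit 4) (nat_lit 320) (nat_lit 280) (nat_lit 120)) (XT.nd (nat_lit 78) (nat_lit 0) (nat_lit 0) (XT.lf (nat_lit 0) (nat_lit 113515487789) (nat_lit 76) (nat_lit 141003481824) (nat_lit 152) (nat_lit 547228365110) (nat_lit 5) (nat_lit 5) (nat_lit 6) (nat_lit 5) (nat_lit 7) (nat_lit 4) (nat_lit 321) (nat_lit 280) (nat_lit 119)) (XT.lf (nat_lit 0) (nat_lit 300918845535) (nat_lit 76) (nat_lit 43697953793) (nat_lit 152) (nat_lit 513002861402) (nat_lit 5) (nat_lit 5) (nat_lit 6) (nat_lit 5) (nat_lit 7) (nat_lit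 4) (nat_lit 322) (nat_lit 280) (nat_lit 118))))) (XT.nd (nat_lit 234) (nat_lit 76) (nat_lit 0) (XT.nd (nat_lit 78) (nat_lit 0) (nat_lit 0) (XT.lf (nat_lit 0) (nat_lit 443398873719) (nat_lit 152) (nat_lit 416123889495) (nat_lit 0) (nat_lit 58320896272) (nat_lit 5) (nat_lit 5) (nat_lit 7) (nat_lit 4) (nat_lit 5) (nat_lit 4) (nat_lit 323) (nat_lit 280) (nat_lit 117)) (XT.nd (nat_lit 78) (nat_lit 0) (nat_lit 0) (XT.lf (nat_lit 0) (nat_lit 551218469205) (nat_lit 152) (nat_lit 265435922548) (nat_lit 0) (nat_lit 166140390100) (nat_lit 5) (nat_lit 5) (nat_lit 7) (nat_lit 4) (nat_lit 5) (nat_lit 4) (nat_lit 324) (nat_lit 280) (nat_lit 116)) (XT.lf (nat_lit 0) (nat_lit 667663579884) (nat_lit 152) (nat_lit 102693011786) (nat_lit 0) (nat_lit 282585406650) (nat_lit 5) (nat_lit 5) (nat_lit 7) (nat_lit 4) (nat_lit 5) (nat_lit 4) (nat_lit 325) (nat_lit 280) (nat_lit 115)))) (XT.nd (nat_lit 156) (nat_lit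 0) (nat_lit 0) (XT.nd (nat_lit 78) (nat_lit 0) (nat_lit 0) (XT.lf (nat_lit 0) (nat_lit 76916942190) (nat_lit 76) (nat_lit 718357162975) (nat_lit 76) (nat_lit 333278902585) (nat_lit 4) (nat_lit 4) (nat_lit 5) (nat_lit 5) (nat_lit 5) (nat_lit 4) (nat_lit 326) (nat_lit 280) (nat_lit 114)) (XT.lf (nat_lit 0) (nat_lit 276735850641) (nat_lit 76) (nat_lit 659165383763) (nat_lit 76) (nat_lit 274087042673) (nat_lit 4) (nat_lit 4) (nat_lit 5) (nat_lit 5) (nat_lit 5) (nat_lit 4) (nat_lit 327) (nat_lit 280) (nat_lit 113))) (XT.nd (nat_lit 78) (nat_lit 0) (nat_lit 0) (XT.lf (nat_lit 0) (nat_lit 492540193602) (nat_lit 76) (nat_lit 595238296866) (nat_lit 76) (nat_lit 210159881054) (nat_lit 4) (nat_lit 4) (nat_lit 5) (nat_lit 5) (nat_lit 5) (nat_lit 4) (nat_lit 328) (nat_lit 280) (nat_lit 112)) (XT.lf (nat_lit 0) (nat_lit 725608811626) (nat_lit 76) (nat_lit 526197075101) (nat_lit 76) (nat_lit 141118590102)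 (nat_lit 4) (nat_lit 4) (nat_lit 5) (nat_lit 5) (nat_lit 5) (nat_lit 4) (nat_lit 329) (nat_lit 280) (nat_lit 111)))))) (XT.nd (nat_lit 34008) (nat_lit 0) (nat_lit 1824) (XT.nd (nat_lit 33774) (nat_lit 0) (nat_lit 2280) (XT.nd (nat_lit 78) (nat_lit 76) (nat_lit 0) (XT.lf (nat_lit 0) (nat_lit 977322852077) (nat_lit 76) (nat_lit 451632585304) (nat_lit 76) (nat_lit 66554036242) (nat_lit 4) (nat_lit 4) (nat_lit 5) (nat_lit 5) (nat_lit 5) (nat_lit 4) (nat_lit 330) (nat_lit 280) (nat_lit 110)) (XT.nd (nat_lit 33618) (nat_lit 0) (nat_lit 2280) (XT.lf (nat_lit 0) (nat_lit 13276526206) (nat_lit 152) (nat_lit 357463433869) (nat_lit 76) (nat_lit 1235534423754) (nat_lit 3) (nat_lit 5) (nat_lit 5) (nat_lit 5) (nat_lit 4) (nat_lit 4) (nat_lit 331) (nat_lit 280) (nat_lit 109)) (XT.lf (nat_lit 0) (nat_lit 14967992103) (nat_lit 532) (nat_lit 16607163208) (nat_lit 532) (nat_lit 16607163208) (nat_lit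 33) (nat_lit 3) (nat_lit 40) (nat_lit 3) (nat_lit 40) (nat_lit 5) (nat_lit 281) (nat_lit 281) (nat_lit 158)))) (XT.nd (nat_lit 78) (nat_lit 0) (nat_lit 76) (XT.lf (nat_lit 76) (nat_lit 7738436646) (nat_lit 0) (nat_lit 23587341990) (nat_lit 532) (nat_lit 68878019139) (nat_lit 34) (nat_lit 5) (nat_lit 33) (nat_lit 3) (nat_lit 40) (nat_lit 5) (nat_lit 282) (nat_lit 281) (nat_lit 157)) (XT.nd (nat_lit 78) (nat_lit 0) (nat_lit 0) (XT.lf (nat_lit 0) (nat_lit 34218189821) (nat_lit 456) (nat_lit 50905430858) (nat_lit 532) (nat_lit 19115159667) (nat_lit 34) (nat_lit 5) (nat_lit 40) (nat_lit 5) (nat_lit 41) (nat_lit 5) (nat_lit 283) (nat_lit 281) (nat_lit 156)) (XT.lf (nat_lit 0) (nat_lit 37954071773) (nat_lit 456) (nat_lit 6633751488) (nat_lit 532) (nat_lit 63959775399) (nat_lit 34) (nat_lit 5) (nat_lit 40) (nat_lit 5) (nat_lit 41) (nat_lit 5) (nat_lit 284) (nat_lit 281) (nat_lit 155))))) (XT.nd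 (nat_lit 234) (nat_lit 608) (nat_lit 0) (XT.nd (nat_lit 78) (nat_lit 0) (nat_lit 0) (XT.lf (nat_lit 0) (nat_lit 43038423154) (nat_lit 456) (nat_lit 69777656671) (nat_lit 532) (nat_lit 301077822) (nat_lit 35) (nat_lit 5) (nat_lit 41) (nat_lit 5) (nat_lit 42) (nat_lit 5) (nat_lit 285) (nat_lit 281) (nat_lit 154)) (XT.nd (nat_lit 78) (nat_lit 0) (nat_lit 0) (XT.lf (nat_lit 0) (nat_lit 49873235376) (nat_lit 456) (nat_lit 21513122990) (nat_lit 532) (nat_lit 46558428855) (nat_lit 35) (nat_lit 5) (nat_lit 41) (nat_lit 5) (nat_lit 42) (nat_lit 5) (nat_lit 286) (nat_lit 281) (nat_lit 153)) (XT.lf (nat_lit 76) (nat_lit 32224190813) (nat_lit 0) (nat_lit 25805169326) (nat_lit 532) (nat_lit 65067307490) (nat_lit 36) (nat_lit 5) (nat_lit 35) (nat_lit 5) (nat_lit 42) (nat_lit 5) (nat_lit 287) (nat_lit 281) (nat_lit 152)))) (XT.nd (nat_lit 156) (nat_lit 228) (nat_lit 0) (XT.nd (nat_lit 78) (nat_lit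 456) (nat_lit 0) (XT.lf (nat_lit 0) (nat_lit 68004334732) (nat_lit 456) (nat_lit 37708669351) (nat_lit 76) (nat_lit 22854388074) (nat_lit 36) (nat_lit 5) (nat_lit 42) (nat_lit 5) (nat_lit 37) (nat_lit 5) (nat_lit 288) (nat_lit 281) (nat_lit 151)) (XT.lf (nat_lit 0) (nat_lit 20040097472) (nat_lit 456) (nat_lit 59889033964) (nat_lit 532) (nat_lit 54454499569) (nat_lit 30) (nat_lit 5) (nat_lit 36) (nat_lit 5) (nat_lit 37) (nat_lit 5) (nat_lit 289) (nat_lit 281) (nat_lit 150))) (XT.nd (nat_lit 78) (nat_lit 228) (nat_lit 0) (XT.lf (nat_lit 0) (nat_lit 84552932456) (nat_lit 456) (nat_lit 9285617809) (nat_lit 532) (nat_lit 46744169748) (nat_lit 30) (nat_lit 5) (nat_lit 36) (nat_lit 5) (nat_lit 37) (nat_lit 5) (nat_lit 290) (nat_lit 281) (nat_lit 149)) (XT.lf (nat_lit 0) (nat_lit 6166092942) (nat_lit 228) (nat_lit 103933624955) (nat_lit 304) (nat_lit 37078900585) (nat_lit 27) (nat_lit 5) (nat_lit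 30) (nat_lit 5) (nat_lit 31) (nat_lit 5) (nat_lit 291) (nat_lit 281) (nat_lit 148))))))))
noncomputable def xc112 : XT := (XT.nd (nat_lit 1950) (nat_lit 304) (nat_lit 0) (XT.nd (nat_lit 936) (nat_lit 532) (nat_lit 0) (XT.nd (nat_lit 468) (nat_lit 456) (nat_lit 0) (XT.nd (nat_lit 234) (nat_lit 228) (nat_lit 0) (XT.nd (nat_lit 78) (nat_lit 228) (nat_lit 0) (XT.lf (nat_lit 0) (nat_lit 76269868509) (nat_lit 228) (nat_lit 53158606297) (nat_lit 304) (nat_lit 24732380172) (nat_lit 27) (nat_lit 5) (nat_lit 30) (nat_lit 5) (nat_lit 31) (nat_lit 5) (nat_lit 292) (nat_lit 281) (nat_lit 147)) (XT.nd (nat_lit 78) (nat_lit 228) (nat_lit 0) (XT.lf (nat_lit 0) (nat_lit 150343585977) (nat_lit 304) (nat_lit 9760444001) (nat_lit 76) (nat_lit 1594437803) (nat_lit 27) (nat_lit 5) (nat_lit 31) (nat_lit 5) (nat_lit 28) (nat_lit 5) (nat_lit 293) (nat_lit 281) (nat_lit 146)) (XT.lf (nat_lit 0) (nat_lit 5976214100)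 (nat_lit 228) (nat_lit 104026068603) (nat_lit 76) (nat_lit 59587808735) (nat_lit 24) (nat_lit 5) (nat_lit 27) (nat_lit 5) (nat_lit 25) (nat_lit 5) (nat_lit 294) (nat_lit 281) (nat_lit 145)))) (XT.nd (nat_lit 78) (nat_lit 228) (nat_lit 0) (XT.lf (nat_lit 0) (nat_lit 24353854746) (nat_lit 228) (nat_lit 30924362683) (nat_lit 76) (nat_lit 122789353087) (nat_lit 24) (nat_lit 5) (nat_lit 27) (nat_lit 5) (nat_lit 25) (nat_lit 5) (nat_lit 295) (nat_lit 281) (nat_lit 144)) (XT.nd (nat_lit 78) (nat_lit 0) (nat_lit 0) (XT.lf (nat_lit 0) (nat_lit 45540811485) (nat_lit 304) (nat_lit 136695455379) (nat_lit 76) (nat_lit 4879853906) (nat_lit 21) (nat_lit 5) (nat_lit 25) (nat_lit 5) (nat_lit 22) (nat_lit 5) (nat_lit 296) (nat_lit 281) (nat_lit 143)) (XT.lf (nat_lit 0) (nat_lit 70725759336) (nat_lit 304) (nat_lit 58247003696) (nat_lit 76) (nat_lit 67731550393) (nat_lit 21) (nat_lit 5) (nat_lit 25) (nat_lit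 5) (nat_lit 22) (nat_lit 5) (nat_lit 297) (nat_lit 281) (nat_lit 142))))) (XT.nd (nat_lit 234) (nat_lit 304) (nat_lit 0) (XT.nd (nat_lit 78) (nat_lit 0) (nat_lit 0) (XT.lf (nat_lit 0) (nat_lit 27871258432) (nat_lit 152) (nat_lit 70724315779) (nat_lit 228) (nat_lit 108410382647) (nat_lit 19) (nat_lit 5) (nat_lit 21) (nat_lit 5) (nat_lit 22) (nat_lit 5) (nat_lit 298) (nat_lit 281) (nat_lit 141)) (XT.nd (nat_lit 78) (nat_lit 0) (nat_lit 0) (XT.lf (nat_lit 0) (nat_lit 124191248896) (nat_lit 152) (nat_lit 6096078717) (nat_lit 228) (nat_lit 87717016869) (nat_lit 19) (nat_lit 5) (nat_lit 21) (nat_lit 5) (nat_lit 22) (nat_lit 5) (nat_lit 299) (nat_lit 281) (nat_lit 140)) (XT.lf (nat_lit 0) (nat_lit 166046257980) (nat_lit 228) (nat_lit 3198094857) (nat_lit 76) (nat_lit 60515704253) (nat_lit 19) (nat_lit 5) (nat_lit 22) (nat_lit 5) (nat_lit 20) (nat_lit 5) (nat_lit 300) (nat_lit 281) (nat_lit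 139)))) (XT.nd (nat_lit 78) (nat_lit 152) (nat_lit 0) (XT.lf (nat_lit 0) (nat_lit 99484099272) (nat_lit 152) (nat_lit 107732545620) (nat_lit 228) (nat_lit 35035523288) (nat_lit 17) (nat_lit 5) (nat_lit 19) (nat_lit 5) (nat_lit 20) (nat_lit 5) (nat_lit 301) (nat_lit 281) (nat_lit 138)) (XT.nd (nat_lit 78) (nat_lit 152) (nat_lit 0) (XT.lf (nat_lit 0) (nat_lit 210562489609) (nat_lit 152) (nat_lit 41205430225) (nat_lit 228) (nat_lit 3968748537) (nat_lit 17) (nat_lit 5) (nat_lit 19) (nat_lit 5) (nat_lit 20) (nat_lit 5) (nat_lit 302) (nat_lit 281) (nat_lit 137)) (XT.lf (nat_lit 0) (nat_lit 30404633013) (nat_lit 152) (nat_lit 208267612854) (nat_lit 76) (nat_lit 31386673345) (nat_lit 15) (nat_lit 5) (nat_lit 17) (nat_lit 5) (nat_lit 16) (nat_lit 5) (nat_lit 303) (nat_lit 281) (nat_lit 136)))))) (XT.nd (nat_lit 468) (nat_lit 304) (nat_lit 0) (XT.nd (nat_lit 234) (nat_lit 76) (nat_lit 0) (XT.nd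 (nat_lit 78) (nat_lit 152) (nat_lit 0) (XT.lf (nat_lit 0) (nat_lit 69650793686) (nat_lit 152) (nat_lit 106750704499) (nat_lit 76) (nat_lit 108930219877) (nat_lit 15) (nat_lit 5) (nat_lit 17) (nat_lit 5) (nat_lit 16) (nat_lit 5) (nat_lit 304) (nat_lit 281) (nat_lit 135)) (XT.nd (nat_lit 78) (nat_lit 0) (nat_lit 0) (XT.lf (nat_lit 0) (nat_lit 3039361877) (nat_lit 152) (nat_lit 109070224167) (nat_lit 228) (nat_lit 189710920241) (nat_lit 13) (nat_lit 5) (nat_lit 15) (nat_lit 5) (nat_lit 16) (nat_lit 5) (nat_lit 305) (nat_lit 281) (nat_lit 134)) (XT.lf (nat_lit 0) (nat_lit 127683410852) (nat_lit 152) (nat_lit 33200272653) (nat_lit 228) (nat_lit 158511226457) (nat_lit 13) (nat_lit 5) (nat_lit 15) (nat_lit 5) (nat_lit 16) (nat_lit 5) (nat_lit 306) (nat_lit 281) (nat_lit 133)))) (XT.nd (nat_lit 78) (nat_lit 76) (nat_lit 0) (XT.lf (nat_lit 0) (nat_lit 214731747269) (nat_lit 228) (nat_lit 77248685754)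 (nat_lit 76) (nat_lit 46301070319) (nat_lit 13) (nat_lit 5) (nat_lit 16) (nat_lit 5) (nat_lit 14) (nat_lit 4) (nat_lit 307) (nat_lit 281) (nat_lit 132)) (XT.nd (nat_lit 78) (nat_lit 0) (nat_lit 0) (XT.lf (nat_lit 0) (nat_lit 47905003913) (nat_lit 76) (nat_lit 226996981768) (nat_lit 152) (nat_lit 83615892605) (nat_lit 12) (nat_lit 5) (nat_lit 13) (nat_lit 5) (nat_lit 14) (nat_lit 4) (nat_lit 308) (nat_lit 281) (nat_lit 131)) (XT.lf (nat_lit 0) (nat_lit 187463988860) (nat_lit 76) (nat_lit 154533843497) (nat_lit 152) (nat_lit 38206372153) (nat_lit 12) (nat_lit 5) (nat_lit 13) (nat_lit 5) (nat_lit 14) (nat_lit 4) (nat_lit 309) (nat_lit 281) (nat_lit 130))))) (XT.nd (nat_lit 234) (nat_lit 76) (nat_lit 0) (XT.nd (nat_lit 78) (nat_lit 152) (nat_lit 0) (XT.lf (nat_lit 0) (nat_lit 10293733030) (nat_lit 152) (nat_lit 65698541052) (nat_lit 76) (nat_lit 327612324466) (nat_lit 11) (nat_lit 5) (nat_lit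 13) (nat_lit 5) (nat_lit 12) (nat_lit 5) (nat_lit 310) (nat_lit 281) (nat_lit 129)) (XT.nd (nat_lit 78) (nat_lit 0) (nat_lit 0) (XT.lf (nat_lit 0) (nat_lit 62679327647) (nat_lit 228) (nat_lit 354712344048) (nat_lit 76) (nat_lit 11240393483) (nat_lit 9) (nat_lit 5) (nat_lit 12) (nat_lit 5) (nat_lit 10) (nat_lit 4) (nat_lit 311) (nat_lit 281) (nat_lit 128)) (XT.lf (nat_lit 0) (nat_lit 123072457842) (nat_lit 228) (nat_lit 229094909715) (nat_lit 76) (nat_lit 103189026851) (nat_lit 9) (nat_lit 5) (nat_lit 12) (nat_lit 5) (nat_lit 10) (nat_lit 4) (nat_lit 312) (nat_lit 281) (nat_lit 127)))) (XT.nd (nat_lit 156) (nat_lit 0) (nat_lit 0) (XT.nd (nat_lit 78) (nat_lit 76) (nat_lit 0) (XT.lf (nat_lit 0) (nat_lit 188296937200) (nat_lit 228) (nat_lit 93428248643) (nat_lit 76) (nat_lit 202493492520) (nat_lit 9) (nat_lit 5) (nat_lit 12) (nat_lit 5) (nat_lit 10) (nat_lit 4) (nat_lit 313) (nat_lit 281)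 (nat_lit 126)) (XT.lf (nat_lit 0) (nat_lit 55887298780) (nat_lit 76) (nat_lit 204196073254) (nat_lit 152) (nat_lit 255199053497) (nat_lit 8) (nat_lit 5) (nat_lit 9) (nat_lit 5) (nat_lit 10) (nat_lit 4) (nat_lit 314) (nat_lit 281) (nat_lit 125))) (XT.nd (nat_lit 78) (nat_lit 0) (nat_lit 0) (XT.lf (nat_lit 0) (nat_lit 222461285659) (nat_lit 76) (nat_lit 117705839429) (nat_lit 152) (nat_lit 208459795356) (nat_lit 8) (nat_lit 5) (nat_lit 9) (nat_lit 5) (nat_lit 10) (nat_lit 4) (nat_lit 315) (nat_lit 281) (nat_lit 124)) (XT.lf (nat_lit 0) (nat_lit 402361051095) (nat_lit 76) (nat_lit 24296443538) (nat_lit 152) (nat_lit 157981487245) (nat_lit 8) (nat_lit 5) (nat_lit 9) (nat_lit 5) (nat_lit 10) (nat_lit 4) (nat_lit 316) (nat_lit 281) (nat_lit 123))))))) (XT.nd (nat_lit 936) (nat_lit 0) (nat_lit 0) (XT.nd (nat_lit 468) (nat_lit 76) (nat_lit 0) (XT.nd (nat_lit 234) (nat_lit 76) (nat_lit 0) (XT.nd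 (nat_lit 78) (nat_lit 152) (nat_lit 0) (XT.lf (nat_lit 0) (nat_lit 521908902954) (nat_lit 152) (nat_lit 28721233631) (nat_lit 0) (nat_lit 72754527115) (nat_lit 8) (nat_lit 5) (nat_lit 10) (nat_lit 4) (nat_lit 8) (nat_lit 4) (nat_lit 317) (nat_lit 281) (nat_lit 122)) (XT.nd (nat_lit 78) (nat_lit 76) (nat_lit 0) (XT.lf (nat_lit 0) (nat_lit 143676055908) (nat_lit 76) (nat_lit 485190784113) (nat_lit 76) (nat_lit 36036246955) (nat_lit 7) (nat_lit 4) (nat_lit 8) (nat_lit 5) (nat_lit 8) (nat_lit 4) (nat_lit 318) (nat_lit 281) (nat_lit 121)) (XT.lf (nat_lit 0) (nat_lit 33711287536) (nat_lit 152) (nat_lit 379035208451) (nat_lit 76) (nat_lit 296865394769) (nat_lit 6) (nat_lit 5) (nat_lit 8) (nat_lit 5) (nat_lit 7) (nat_lit 4) (nat_lit 319) (nat_lit 281) (nat_lit 120)))) (XT.nd (nat_lit 78) (nat_lit 76) (nat_lit 0) (XT.lf (nat_lit 0) (nat_lit 107091664313) (nat_lit 152) (nat_lit 226404163061)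 (nat_lit 76) (nat_lit 424326696477) (nat_lit 6) (nat_lit 5) (nat_lit 8) (nat_lit 5) (nat_lit 7) (nat_lit 4) (nat_lit 320) (nat_lit 281) (nat_lit 119)) (XT.nd (nat_lit 78) (nat_lit 76) (nat_lit 0) (XT.lf (nat_lit 0) (nat_lit 186342409071) (nat_lit 152) (nat_lit 61562742025) (nat_lit 76) (nat_lit 561984861614) (nat_lit 6) (nat_lit 5) (nat_lit 8) (nat_lit 5) (nat_lit 7) (nat_lit 4) (nat_lit 321) (nat_lit 281) (nat_lit 118)) (XT.lf (nat_lit 0) (nat_lit 122598780221) (nat_lit 76) (nat_lit 152282879245) (nat_lit 152) (nat_lit 591005365660) (nat_lit 5) (nat_lit 5) (nat_lit 6) (nat_lit 5) (nat_lit 7) (nat_lit 4) (nat_lit 322) (nat_lit 281) (nat_lit 117))))) (XT.nd (nat_lit 234) (nat_lit 76) (nat_lit 0) (XT.nd (nat_lit 78) (nat_lit 0) (nat_lit 0) (XT.lf (nat_lit 0) (nat_lit 324994254482) (nat_lit 76) (nat_lit 47192974240) (nat_lit 152) (nat_lit 554041915631) (nat_lit 5) (nat_lit 5) (nat_lit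 6) (nat_lit 5) (nat_lit 7) (nat_lit 4) (nat_lit 323) (nat_lit 281) (nat_lit 116)) (XT.nd (nat_lit 78) (nat_lit 0) (nat_lit 0) (XT.lf (nat_lit 0) (nat_lit 478871806828) (nat_lit 152) (nat_lit 449411975730) (nat_lit 0) (nat_lit 62987285607) (nat_lit 5) (nat_lit 5) (nat_lit 7) (nat_lit 4) (nat_lit 5) (nat_lit 4) (nat_lit 324) (nat_lit 281) (nat_lit 115)) (XT.lf (nat_lit 0) (nat_lit 595316894160) (nat_lit 152) (nat_lit 286669106607) (nat_lit 0) (nat_lit 179432285783) (nat_lit 5) (nat_lit 5) (nat_lit 7) (nat_lit 4) (nat_lit 5) (nat_lit 4) (nat_lit 325) (nat_lit 281) (nat_lit 114)))) (XT.nd (nat_lit 78) (nat_lit 76) (nat_lit 0) (XT.lf (nat_lit 0) (nat_lit 721077543514) (nat_lit 152) (nat_lit 110906888149) (nat_lit 0) (nat_lit 305192854437) (nat_lit 5) (nat_lit 5) (nat_lit 7) (nat_lit 4) (nat_lit 5) (nat_lit 4) (nat_lit 326) (nat_lit 281) (nat_lit 113)) (XT.nd (nat_lit 78) (nat_lit 0) (nat_lit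 0) (XT.lf (nat_lit 0) (nat_lit 83071822535) (nat_lit 76) (nat_lit 775825059978) (nat_lit 76) (nat_lit 359940296179) (nat_lit 4) (nat_lit 4) (nat_lit 5) (nat_lit 5) (nat_lit 5) (nat_lit 4) (nat_lit 327) (nat_lit 281) (nat_lit 112)) (XT.lf (nat_lit 0) (nat_lit 298876130701) (nat_lit 76) (nat_lit 711897988506) (nat_lit 76) (nat_lit 296013155520) (nat_lit 4) (nat_lit 4) (nat_lit 5) (nat_lit 5) (nat_lit 5) (nat_lit 4) (nat_lit 328) (nat_lit 281) (nat_lit 111)))))) (XT.nd (nat_lit 34164) (nat_lit 0) (nat_lit 1748) (XT.nd (nat_lit 33930) (nat_lit 0) (nat_lit 2204) (XT.nd (nat_lit 78) (nat_lit 0) (nat_lit 0) (XT.lf (nat_lit 0) (nat_lit 531944716506) (nat_lit 76) (nat_lit 642856781024) (nat_lit 76) (nat_lit 226971883976) (nat_lit 4) (nat_lit 4) (nat_lit 5) (nat_lit 5) (nat_lit 5) (nat_lit 4) (nat_lit 329) (nat_lit 281) (nat_lit 110)) (XT.nd (nat_lit 33774) (nat_lit 0) (nat_lit 2204) (XT.lf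 (nat_lit 0) (nat_lit 783658727126) (nat_lit 76) (nat_lit 568292304451) (nat_lit 76) (nat_lit 152407348086) (nat_lit 4) (nat_lit 4) (nat_lit 5) (nat_lit 5) (nat_lit 5) (nat_lit 4) (nat_lit 330) (nat_lit 281) (nat_lit 109)) (XT.lf (nat_lit 0) (nat_lit 16171526741) (nat_lit 532) (nat_lit 17932427085) (nat_lit 532) (nat_lit 17932427085) (nat_lit 33) (nat_lit 3) (nat_lit 40) (nat_lit 3) (nat_lit 40) (nat_lit 5) (nat_lit 282) (nat_lit 282) (nat_lit 156)))) (XT.nd (nat_lit 78) (nat_lit 0) (nat_lit 76) (XT.lf (nat_lit 76) (nat_lit 8363962384) (nat_lit 0) (nat_lit 25479321220) (nat_lit 532) (nat_lit 74375836893) (nat_lit 34) (nat_lit 5) (nat_lit 33) (nat_lit 3) (nat_lit 40) (nat_lit 5) (nat_lit 283) (nat_lit 282) (nat_lit 155)) (XT.nd (nat_lit 78) (nat_lit 0) (nat_lit 0) (XT.lf (nat_lit 0) (nat_lit 36966128917) (nat_lit 456) (nat_lit 54970872770) (nat_lit 532) (nat_lit 20639981554) (nat_lit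 34) (nat_lit 5) (nat_lit 40) (nat_lit 5) (nat_lit 41) (nat_lit 5) (nat_lit 284) (nat_lit 282) (nat_lit 154)) (XT.lf (nat_lit 0) (nat_lit 41000104840) (nat_lit 456) (nat_lit 7157977018) (nat_lit 532) (nat_lit 69072491796) (nat_lit 34) (nat_lit 5) (nat_lit 40) (nat_lit 5) (nat_lit 41) (nat_lit 5) (nat_lit 285) (nat_lit 282) (nat_lit 153))))) (XT.nd (nat_lit 234) (nat_lit 608) (nat_lit 0) (XT.nd (nat_lit 78) (nat_lit 0) (nat_lit 0) (XT.lf (nat_lit 0) (nat_lit 46490568996) (nat_lit 456) (nat_lit 75352707138) (nat_lit 532) (nat_lit 322476224) (nat_lit 35) (nat_lit 5) (nat_lit 41) (nat_lit 5) (nat_lit 42) (nat_lit 5) (nat_lit 286) (nat_lit 282) (nat_lit 152)) (XT.nd (nat_lit 78) (nat_lit 0) (nat_lit 0) (XT.lf (nat_lit 0) (nat_lit 53871494196) (nat_lit 456) (nat_lit 23227541286) (nat_lit 532) (nat_lit 50280614438) (nat_lit 35) (nat_lit 5) (nat_lit 41) (nat_lit 5) (nat_lit 42) (nat_lit 5)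 (nat_lit 287) (nat_lit 282) (nat_lit 151)) (XT.lf (nat_lit 76) (nat_lit 34808589735) (nat_lit 0) (nat_lit 27871052435) (nat_lit 532) (nat_lit 70264079509) (nat_lit 36) (nat_lit 5) (nat_lit 35) (nat_lit 5) (nat_lit 42) (nat_lit 5) (nat_lit 288) (nat_lit 282) (nat_lit 150)))) (XT.nd (nat_lit 156) (nat_lit 228) (nat_lit 0) (XT.nd (nat_lit 78) (nat_lit 456) (nat_lit 0) (XT.lf (nat_lit 0) (nat_lit 73451994359) (nat_lit 456) (nat_lit 40718716268) (nat_lit 76) (nat_lit 24681446481) (nat_lit 36) (nat_lit 5) (nat_lit 42) (nat_lit 5) (nat_lit 37) (nat_lit 5) (nat_lit 289) (nat_lit 282) (nat_lit 149)) (XT.lf (nat_lit 0) (nat_lit 21649783632) (nat_lit 456) (nat_lit 64680605280) (nat_lit 532) (nat_lit 58803340091) (nat_lit 30) (nat_lit 5) (nat_lit 36) (nat_lit 5) (nat_lit 37) (nat_lit 5) (nat_lit 290) (nat_lit 282) (nat_lit 148))) (XT.nd (nat_lit 78) (nat_lit 228) (nat_lit 0) (XT.lf (nat_lit 0)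 (nat_lit 91323165535) (nat_lit 456) (nat_lit 10028882603) (nat_lit 532) (nat_lit 50476740880) (nat_lit 30) (nat_lit 5) (nat_lit 36) (nat_lit 5) (nat_lit 37) (nat_lit 5) (nat_lit 291) (nat_lit 282) (nat_lit 147)) (XT.lf (nat_lit 0) (nat_lit 6665771444) (nat_lit 228) (nat_lit 112248007093) (nat_lit 304) (nat_lit 40038609908) (nat_lit 27) (nat_lit 5) (nat_lit 30) (nat_lit 5) (nat_lit 31) (nat_lit 5) (nat_lit 292) (nat_lit 282) (nat_lit 146))))))))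
noncomputable def xc113 : XT := (XT.nd (nat_lit 1950) (nat_lit 304) (nat_lit 0) (XT.nd (nat_lit 936) (nat_lit 532) (nat_lit 0) (XT.nd (nat_lit 468) (nat_lit 456) (nat_lit 0) (XT.nd (nat_lit 234) (nat_lit 228) (nat_lit 0) (XT.nd (nat_lit 78) (nat_lit 228) (nat_lit 0) (XT.lf (nat_lit 0) (nat_lit 82377375644) (nat_lit 228) (nat_lit 57411009747) (nat_lit 304) (nat_lit 26704856953) (nat_lit 27) (nat_lit 5) (nat_lit 30) (nat_lit 5) (nat_lit 31) (nat_lit 5) (nat_lit 293) (nat_lit 282) (nat_lit 145)) (XT.nd (nat_lit 78) (nat_lit 228) (nat_lit 0) (XT.lf (nat_lit 0) (nat_lit 162376294573) (nat_lit 304) (nat_lit 10535361159) (nat_lit 76) (nat_lit 1722243563) (nat_lit 27) (nat_lit 5) (nat_lit 31) (nat_lit 5) (nat_lit 28) (nat_lit 5) (nat_lit 294) (nat_lit 282) (nat_lit 144)) (XT.lf (nat_lit 0) (nat_lit 6459438851) (nat_lit 228) (nat_lit 112342091397) (nat_lit 76) (nat_lit 64355334143) (nat_lit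 24) (nat_lit 5) (nat_lit 27) (nat_lit 5) (nat_lit 25) (nat_lit 5) (nat_lit 295) (nat_lit 282) (nat_lit 143)))) (XT.nd (nat_lit 78) (nat_lit 228) (nat_lit 0) (XT.lf (nat_lit 0) (nat_lit 26306910924) (nat_lit 228) (nat_lit 33392698092) (nat_lit 76) (nat_lit 132612964954) (nat_lit 24) (nat_lit 5) (nat_lit 27) (nat_lit 5) (nat_lit 25) (nat_lit 5) (nat_lit 296) (nat_lit 282) (nat_lit 142)) (XT.nd (nat_lit 78) (nat_lit 0) (nat_lit 0) (XT.lf (nat_lit 0) (nat_lit 49188626801) (nat_lit 304) (nat_lit 147625260096) (nat_lit 76) (nat_lit 5271138796) (nat_lit 21) (nat_lit 5) (nat_lit 25) (nat_lit 5) (nat_lit 22) (nat_lit 5) (nat_lit 297) (nat_lit 282) (nat_lit 141)) (XT.lf (nat_lit 0) (nat_lit 76388033414) (nat_lit 304) (nat_lit 62901364257) (nat_lit 76) (nat_lit 73150904589) (nat_lit 21) (nat_lit 5) (nat_lit 25) (nat_lit 5) (nat_lit 22) (nat_lit 5) (nat_lit 298) (nat_lit 282) (nat_lit 140)))))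 (XT.nd (nat_lit 234) (nat_lit 304) (nat_lit 0) (XT.nd (nat_lit 78) (nat_lit 0) (nat_lit 0) (XT.lf (nat_lit 0) (nat_lit 30106222140) (nat_lit 152) (nat_lit 76381025818) (nat_lit 228) (nat_lit 117078845472) (nat_lit 19) (nat_lit 5) (nat_lit 21) (nat_lit 5) (nat_lit 22) (nat_lit 5) (nat_lit 299) (nat_lit 282) (nat_lit 139)) (XT.nd (nat_lit 78) (nat_lit 0) (nat_lit 0) (XT.lf (nat_lit 0) (nat_lit 134131421986) (nat_lit 152) (nat_lit 6582621288) (nat_lit 228) (nat_lit 94730333973) (nat_lit 19) (nat_lit 5) (nat_lit 21) (nat_lit 5) (nat_lit 22) (nat_lit 5) (nat_lit 300) (nat_lit 282) (nat_lit 138)) (XT.lf (nat_lit 0) (nat_lit 179333437284) (nat_lit 228) (nat_lit 3449164237) (nat_lit 76) (nat_lit 65357966623) (nat_lit 19) (nat_lit 5) (nat_lit 22) (nat_lit 5) (nat_lit 20) (nat_lit 5) (nat_lit 301) (nat_lit 282) (nat_lit 137)))) (XT.nd (nat_lit 78) (nat_lit 152) (nat_lit 0) (XT.lf (nat_lit 0)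 (nat_lit 107447484455) (nat_lit 152) (nat_lit 116349825022) (nat_lit 228) (nat_lit 37834751425) (nat_lit 17) (nat_lit 5) (nat_lit 19) (nat_lit 5) (nat_lit 20) (nat_lit 5) (nat_lit 302) (nat_lit 282) (nat_lit 136)) (XT.nd (nat_lit 78) (nat_lit 152) (nat_lit 0) (XT.lf (nat_lit 0) (nat_lit 227411801038) (nat_lit 152) (nat_lit 44500638488) (nat_lit 228) (nat_lit 4282902378) (nat_lit 17) (nat_lit 5) (nat_lit 19) (nat_lit 5) (nat_lit 20) (nat_lit 5) (nat_lit 303) (nat_lit 282) (nat_lit 135)) (XT.lf (nat_lit 0) (nat_lit 32840084123) (nat_lit 152) (nat_lit 224924420780) (nat_lit 76) (nat_lit 33898870221) (nat_lit 15) (nat_lit 5) (nat_lit 17) (nat_lit 5) (nat_lit 16) (nat_lit 5) (nat_lit 304) (nat_lit 282) (nat_lit 134)))))) (XT.nd (nat_lit 468) (nat_lit 304) (nat_lit 0) (XT.nd (nat_lit 234) (nat_lit 76) (nat_lit 0) (XT.nd (nat_lit 78) (nat_lit 152) (nat_lit 0) (XT.lf (nat_lit 0) (nat_lit 75225709468)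 (nat_lit 152) (nat_lit 115286500578) (nat_lit 76) (nat_lit 117645806919) (nat_lit 15) (nat_lit 5) (nat_lit 17) (nat_lit 5) (nat_lit 16) (nat_lit 5) (nat_lit 305) (nat_lit 282) (nat_lit 133)) (XT.nd (nat_lit 78) (nat_lit 0) (nat_lit 0) (XT.lf (nat_lit 0) (nat_lit 3286663253) (nat_lit 152) (nat_lit 117794430548) (nat_lit 228) (nat_lit 204884824127) (nat_lit 13) (nat_lit 5) (nat_lit 15) (nat_lit 5) (nat_lit 16) (nat_lit 5) (nat_lit 306) (nat_lit 282) (nat_lit 132)) (XT.lf (nat_lit 0) (nat_lit 137901928558) (nat_lit 152) (nat_lit 35854987472) (nat_lit 228) (nat_lit 171189374821) (nat_lit 13) (nat_lit 5) (nat_lit 15) (nat_lit 5) (nat_lit 16) (nat_lit 5) (nat_lit 307) (nat_lit 282) (nat_lit 131)))) (XT.nd (nat_lit 78) (nat_lit 76) (nat_lit 0) (XT.lf (nat_lit 0) (nat_lit 231912666012) (nat_lit 228) (nat_lit 83424853473) (nat_lit 76) (nat_lit 50006305586) (nat_lit 13) (nat_lit 5) (nat_lit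 16) (nat_lit 5) (nat_lit 14) (nat_lit 4) (nat_lit 308) (nat_lit 282) (nat_lit 130)) (XT.nd (nat_lit 78) (nat_lit 0) (nat_lit 0) (XT.lf (nat_lit 0) (nat_lit 51741037010) (nat_lit 76) (nat_lit 245155397636) (nat_lit 152) (nat_lit 90302683080) (nat_lit 12) (nat_lit 5) (nat_lit 13) (nat_lit 5) (nat_lit 14) (nat_lit 4) (nat_lit 309) (nat_lit 282) (nat_lit 129)) (XT.lf (nat_lit 0) (nat_lit 202464471658) (nat_lit 76) (nat_lit 166895307760) (nat_lit 152) (nat_lit 41260584765) (nat_lit 12) (nat_lit 5) (nat_lit 13) (nat_lit 5) (nat_lit 14) (nat_lit 4) (nat_lit 310) (nat_lit 282) (nat_lit 128))))) (XT.nd (nat_lit 234) (nat_lit 76) (nat_lit 0) (XT.nd (nat_lit 78) (nat_lit 152) (nat_lit 0) (XT.lf (nat_lit 0) (nat_lit 11119252271) (nat_lit 152) (nat_lit 70951197364) (nat_lit 76) (nat_lit 353822349104) (nat_lit 11) (nat_lit 5) (nat_lit 13) (nat_lit 5) (nat_lit 12) (nat_lit 5) (nat_lit 311) (nat_lit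 282) (nat_lit 127)) (XT.nd (nat_lit 78) (nat_lit 0) (nat_lit 0) (XT.lf (nat_lit 0) (nat_lit 67695649256) (nat_lit 228) (nat_lit 383086053803) (nat_lit 76) (nat_lit 12140763705) (nat_lit 9) (nat_lit 5) (nat_lit 12) (nat_lit 5) (nat_lit 10) (nat_lit 4) (nat_lit 312) (nat_lit 282) (nat_lit 126)) (XT.lf (nat_lit 0) (nat_lit 132920083541) (nat_lit 228) (nat_lit 247419467521) (nat_lit 76) (nat_lit 111445203391) (nat_lit 9) (nat_lit 5) (nat_lit 12) (nat_lit 5) (nat_lit 10) (nat_lit 4) (nat_lit 313) (nat_lit 282) (nat_lit 125)))) (XT.nd (nat_lit 156) (nat_lit 0) (nat_lit 0) (XT.nd (nat_lit 78) (nat_lit 76) (nat_lit 0) (XT.lf (nat_lit 0) (nat_lit 203362385762) (nat_lit 228) (nat_lit 100899698376) (nat_lit 76) (nat_lit 218693948211) (nat_lit 9) (nat_lit 5) (nat_lit 12) (nat_lit 5) (nat_lit 10) (nat_lit 4) (nat_lit 314) (nat_lit 282) (nat_lit 124)) (XT.lf (nat_lit 0) (nat_lit 60361021698) (nat_lit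 76) (nat_lit 220530654107) (nat_lit 152) (nat_lit 275613208606) (nat_lit 8) (nat_lit 5) (nat_lit 9) (nat_lit 5) (nat_lit 10) (nat_lit 4) (nat_lit 315) (nat_lit 282) (nat_lit 123))) (XT.nd (nat_lit 78) (nat_lit 0) (nat_lit 0) (XT.lf (nat_lit 0) (nat_lit 240260724637) (nat_lit 76) (nat_lit 127121283429) (nat_lit 152) (nat_lit 225134940863) (nat_lit 8) (nat_lit 5) (nat_lit 9) (nat_lit 5) (nat_lit 10) (nat_lit 4) (nat_lit 316) (nat_lit 282) (nat_lit 122)) (XT.lf (nat_lit 0) (nat_lit 434552283447) (nat_lit 76) (nat_lit 26239211655) (nat_lit 152) (nat_lit 170618489446) (nat_lit 8) (nat_lit 5) (nat_lit 9) (nat_lit 5) (nat_lit 10) (nat_lit 4) (nat_lit 317) (nat_lit 282) (nat_lit 121))))))) (XT.nd (nat_lit 936) (nat_lit 0) (nat_lit 0) (XT.nd (nat_lit 468) (nat_lit 76) (nat_lit 0) (XT.nd (nat_lit 234) (nat_lit 76) (nat_lit 0) (XT.nd (nat_lit 78) (nat_lit 152) (nat_lit 0) (XT.lf (nat_lit 0) (nat_lit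 563662933414) (nat_lit 152) (nat_lit 31016671803) (nat_lit 0) (nat_lit 78575722594) (nat_lit 8) (nat_lit 5) (nat_lit 10) (nat_lit 4) (nat_lit 8) (nat_lit 4) (nat_lit 318) (nat_lit 282) (nat_lit 120)) (XT.nd (nat_lit 78) (nat_lit 76) (nat_lit 0) (XT.lf (nat_lit 0) (nat_lit 155172343671) (nat_lit 76) (nat_lit 524005117119) (nat_lit 76) (nat_lit 38917767993) (nat_lit 7) (nat_lit 4) (nat_lit 8) (nat_lit 5) (nat_lit 8) (nat_lit 4) (nat_lit 319) (nat_lit 282) (nat_lit 119)) (XT.lf (nat_lit 0) (nat_lit 36409403270) (nat_lit 152) (nat_lit 409355918383) (nat_lit 76) (nat_lit 320615420546) (nat_lit 6) (nat_lit 5) (nat_lit 8) (nat_lit 5) (nat_lit 7) (nat_lit 4) (nat_lit 320) (nat_lit 282) (nat_lit 118)))) (XT.nd (nat_lit 78) (nat_lit 76) (nat_lit 0) (XT.lf (nat_lit 0) (nat_lit 115660120357) (nat_lit 152) (nat_lit 244514545417) (nat_lit 76) (nat_lit 458273567561) (nat_lit 6) (nat_lit 5) (nat_lit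 8) (nat_lit 5) (nat_lit 7) (nat_lit 4) (nat_lit 321) (nat_lit 282) (nat_lit 117)) (XT.nd (nat_lit 78) (nat_lit 76) (nat_lit 0) (XT.lf (nat_lit 0) (nat_lit 201250841518) (nat_lit 152) (nat_lit 66485955194) (nat_lit 76) (nat_lit 606944331437) (nat_lit 6) (nat_lit 5) (nat_lit 8) (nat_lit 5) (nat_lit 7) (nat_lit 4) (nat_lit 322) (nat_lit 282) (nat_lit 116)) (XT.lf (nat_lit 0) (nat_lit 132408443106) (nat_lit 76) (nat_lit 164464754161) (nat_lit 152) (nat_lit 638284707243) (nat_lit 5) (nat_lit 5) (nat_lit 6) (nat_lit 5) (nat_lit 7) (nat_lit 4) (nat_lit 323) (nat_lit 282) (nat_lit 115))))) (XT.nd (nat_lit 234) (nat_lit 76) (nat_lit 0) (XT.nd (nat_lit 78) (nat_lit 0) (nat_lit 0) (XT.lf (nat_lit 0) (nat_lit 350995424902) (nat_lit 76) (nat_lit 50967712713) (nat_lit 152) (nat_lit 598364261779) (nat_lit 5) (nat_lit 5) (nat_lit 6) (nat_lit 5) (nat_lit 7) (nat_lit 4) (nat_lit 324) (nat_lit 282) (nat_lit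 114)) (XT.nd (nat_lit 78) (nat_lit 0) (nat_lit 0) (XT.lf (nat_lit 0) (nat_lit 517182428614) (nat_lit 152) (nat_lit 485363369209) (nat_lit 0) (nat_lit 68026883711) (nat_lit 5) (nat_lit 5) (nat_lit 7) (nat_lit 4) (nat_lit 5) (nat_lit 4) (nat_lit 325) (nat_lit 282) (nat_lit 113)) (XT.lf (nat_lit 0) (nat_lit 642943057952) (nat_lit 152) (nat_lit 309601186451) (nat_lit 0) (nat_lit 193787438327) (nat_lit 5) (nat_lit 5) (nat_lit 7) (nat_lit 4) (nat_lit 5) (nat_lit 4) (nat_lit 326) (nat_lit 282) (nat_lit 112)))) (XT.nd (nat_lit 78) (nat_lit 76) (nat_lit 0) (XT.lf (nat_lit 0) (nat_lit 778764499087) (nat_lit 152) (nat_lit 119778097827) (nat_lit 0) (nat_lit 329608810275) (nat_lit 5) (nat_lit 5) (nat_lit 7) (nat_lit 4) (nat_lit 5) (nat_lit 4) (nat_lit 327) (nat_lit 282) (nat_lit 111)) (XT.nd (nat_lit 78) (nat_lit 0) (nat_lit 0) (XT.lf (nat_lit 0) (nat_lit 89718875753) (nat_lit 76) (nat_lit 837890485185)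 (nat_lit 76) (nat_lit 388734732310) (nat_lit 4) (nat_lit 4) (nat_lit 5) (nat_lit 5) (nat_lit 5) (nat_lit 4) (nat_lit 328) (nat_lit 282) (nat_lit 110)) (XT.lf (nat_lit 0) (nat_lit 322787431726) (nat_lit 76) (nat_lit 768849290928) (nat_lit 76) (nat_lit 319693478736) (nat_lit 4) (nat_lit 4) (nat_lit 5) (nat_lit 5) (nat_lit 5) (nat_lit 4) (nat_lit 329) (nat_lit 282) (nat_lit 109)))))) (XT.nd (nat_lit 34242) (nat_lit 0) (nat_lit 1748) (XT.nd (nat_lit 34008) (nat_lit 0) (nat_lit 2280) (XT.nd (nat_lit 33852) (nat_lit 0) (nat_lit 2204) (XT.lf (nat_lit 0) (nat_lit 574501414724) (nat_lit 76) (nat_lit 694284826600) (nat_lit 76) (nat_lit 245128959486) (nat_lit 4) (nat_lit 4) (nat_lit 5) (nat_lit 5) (nat_lit 5) (nat_lit 4) (nat_lit 330) (nat_lit 282) (nat_lit 108)) (XT.nd (nat_lit 78) (nat_lit 0) (nat_lit 0) (XT.lf (nat_lit 0) (nat_lit 17470474591) (nat_lit 532) (nat_lit 19364184163) (nat_lit 532)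 (nat_lit 19364184163) (nat_lit 33) (nat_lit 3) (nat_lit 40) (nat_lit 3) (nat_lit 40) (nat_lit 5) (nat_lit 283) (nat_lit 283) (nat_lit 154)) (XT.lf (nat_lit 76) (nat_lit 9038609903) (nat_lit 0) (nat_lit 27521946642) (nat_lit 532) (nat_lit 80315252459) (nat_lit 34) (nat_lit 5) (nat_lit 33) (nat_lit 3) (nat_lit 40) (nat_lit 5) (nat_lit 284) (nat_lit 283) (nat_lit 153)))) (XT.nd (nat_lit 78) (nat_lit 0) (nat_lit 0) (XT.lf (nat_lit 0) (nat_lit 39932407494) (nat_lit 456) (nat_lit 59362547602) (nat_lit 532) (nat_lit 22287415601) (nat_lit 34) (nat_lit 5) (nat_lit 40) (nat_lit 5) (nat_lit 41) (nat_lit 5) (nat_lit 285) (nat_lit 283) (nat_lit 152)) (XT.nd (nat_lit 78) (nat_lit 0) (nat_lit 76) (XT.lf (nat_lit 0) (nat_lit 44288435693) (nat_lit 456) (nat_lit 7725064263) (nat_lit 532) (nat_lit 74594805513) (nat_lit 34) (nat_lit 5) (nat_lit 40) (nat_lit 5) (nat_lit 41) (nat_lit 5) (nat_lit 286) (nat_lit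 283) (nat_lit 151)) (XT.lf (nat_lit 0) (nat_lit 50217592284) (nat_lit 456) (nat_lit 81374783390) (nat_lit 532) (nat_lit 345969947) (nat_lit 35) (nat_lit 5) (nat_lit 41) (nat_lit 5) (nat_lit 42) (nat_lit 5) (nat_lit 287) (nat_lit 283) (nat_lit 150))))) (XT.nd (nat_lit 234) (nat_lit 608) (nat_lit 0) (XT.nd (nat_lit 78) (nat_lit 0) (nat_lit 0) (XT.lf (nat_lit 0) (nat_lit 58188415369) (nat_lit 456) (nat_lit 25080059109) (nat_lit 532) (nat_lit 54300929912) (nat_lit 35) (nat_lit 5) (nat_lit 41) (nat_lit 5) (nat_lit 42) (nat_lit 5) (nat_lit 288) (nat_lit 283) (nat_lit 149)) (XT.nd (nat_lit 78) (nat_lit 0) (nat_lit 76) (XT.lf (nat_lit 76) (nat_lit 37598818457) (nat_lit 0) (nat_lit 30101996543) (nat_lit 532) (nat_lit 75877821969) (nat_lit 36) (nat_lit 5) (nat_lit 35) (nat_lit 5) (nat_lit 42) (nat_lit 5) (nat_lit 289) (nat_lit 283) (nat_lit 148)) (XT.lf (nat_lit 0) (nat_lit 79334423497) (nat_lit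 456) (nat_lit 43970515155) (nat_lit 76) (nat_lit 26654853971) (nat_lit 36) (nat_lit 5) (nat_lit 42) (nat_lit 5) (nat_lit 37) (nat_lit 5) (nat_lit 290) (nat_lit 283) (nat_lit 147)))) (XT.nd (nat_lit 156) (nat_lit 228) (nat_lit 0) (XT.nd (nat_lit 78) (nat_lit 0) (nat_lit 0) (XT.lf (nat_lit 0) (nat_lit 23387320473) (nat_lit 456) (nat_lit 69855438304) (nat_lit 532) (nat_lit 63501160587) (nat_lit 30) (nat_lit 5) (nat_lit 36) (nat_lit 5) (nat_lit 37) (nat_lit 5) (nat_lit 291) (nat_lit 283) (nat_lit 146)) (XT.lf (nat_lit 0) (nat_lit 98634161511) (nat_lit 456) (nat_lit 10831549324) (nat_lit 532) (nat_lit 54508910973) (nat_lit 30) (nat_lit 5) (nat_lit 36) (nat_lit 5) (nat_lit 37) (nat_lit 5) (nat_lit 292) (nat_lit 283) (nat_lit 145))) (XT.nd (nat_lit 78) (nat_lit 0) (nat_lit 0) (XT.lf (nat_lit 0) (nat_lit 7204512469) (nat_lit 228) (nat_lit 121227583721) (nat_lit 304) (nat_lit 43236037930) (nat_lit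 27) (nat_lit 5) (nat_lit 30) (nat_lit 5) (nat_lit 31) (nat_lit 5) (nat_lit 293) (nat_lit 283) (nat_lit 144)) (XT.lf (nat_lit 0) (nat_lit 88972639130) (nat_lit 228) (nat_lit 62003646139) (nat_lit 304) (nat_lit 28836004054) (nat_lit 27) (nat_lit 5) (nat_lit 30) (nat_lit 5) (nat_lit 31) (nat_lit 5) (nat_lit 294) (nat_lit 283) (nat_lit 143))))))))
noncomputable def xc114 : XT := (XT.nd (nat_lit 1950) (nat_lit 304) (nat_lit 0) (XT.nd (nat_lit 936) (nat_lit 532) (nat_lit 0) (XT.nd (nat_lit 468) (nat_lit 304) (nat_lit 0) (XT.nd (nat_lit 234) (nat_lit 380) (nat_lit 0) (XT.nd (nat_lit 78) (nat_lit 228) (nat_lit 0) (XT.lf (nat_lit 0) (nat_lit 175370874921) (nat_lit 304) (nat_lit 11373116010) (nat_lit 76) (nat_lit 1860238013) (nat_lit 27) (nat_lit 5) (nat_lit 31) (nat_lit 5) (nat_lit 28) (nat_lit 5) (nat_lit 295) (nat_lit 283) (nat_lit 142)) (XT.nd (nat_lit 78) (nat_lit 0) (nat_lit 0) (XT.lf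 (nat_lit 0) (nat_lit 6980590069) (nat_lit 228) (nat_lit 121324260926) (nat_lit 76) (nat_lit 69504190152) (nat_lit 24) (nat_lit 5) (nat_lit 27) (nat_lit 5) (nat_lit 25) (nat_lit 5) (nat_lit 296) (nat_lit 283) (nat_lit 141)) (XT.lf (nat_lit 0) (nat_lit 28415534271) (nat_lit 228) (nat_lit 36059301177) (nat_lit 76) (nat_lit 143222399630) (nat_lit 24) (nat_lit 5) (nat_lit 27) (nat_lit 5) (nat_lit 25) (nat_lit 5) (nat_lit 297) (nat_lit 283) (nat_lit 140)))) (XT.nd (nat_lit 78) (nat_lit 152) (nat_lit 0) (XT.lf (nat_lit 0) (nat_lit 53127618178) (nat_lit 304) (nat_lit 159430281149) (nat_lit 76) (nat_lit 5693598570) (nat_lit 21) (nat_lit 5) (nat_lit 25) (nat_lit 5) (nat_lit 22) (nat_lit 5) (nat_lit 298) (nat_lit 283) (nat_lit 139)) (XT.nd (nat_lit 78) (nat_lit 152) (nat_lit 0) (XT.lf (nat_lit 0) (nat_lit 82502688340) (nat_lit 304) (nat_lit 67928843995) (nat_lit 76) (nat_lit 79003688688) (nat_lit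 21) (nat_lit 5) (nat_lit 25) (nat_lit 5) (nat_lit 22) (nat_lit 5) (nat_lit 299) (nat_lit 283) (nat_lit 138)) (XT.lf (nat_lit 0) (nat_lit 32519232113) (nat_lit 152) (nat_lit 82490448878) (nat_lit 228) (nat_lit 126441408438) (nat_lit 19) (nat_lit 5) (nat_lit 21) (nat_lit 5) (nat_lit 22) (nat_lit 5) (nat_lit 300) (nat_lit 283) (nat_lit 137))))) (XT.nd (nat_lit 234) (nat_lit 152) (nat_lit 0) (XT.nd (nat_lit 78) (nat_lit 152) (nat_lit 0) (XT.lf (nat_lit 0) (nat_lit 144866113710) (nat_lit 152) (nat_lit 7108250431) (nat_lit 228) (nat_lit 102305293401) (nat_lit 19) (nat_lit 5) (nat_lit 21) (nat_lit 5) (nat_lit 22) (nat_lit 5) (nat_lit 301) (nat_lit 283) (nat_lit 136)) (XT.nd (nat_lit 78) (nat_lit 152) (nat_lit 0) (XT.lf (nat_lit 0) (nat_lit 193683094662) (nat_lit 228) (nat_lit 3721000832) (nat_lit 76) (nat_lit 70587466461) (nat_lit 19) (nat_lit 5) (nat_lit 22) (nat_lit 5) (nat_lit 20) (nat_lit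 5) (nat_lit 302) (nat_lit 283) (nat_lit 135)) (XT.lf (nat_lit 0) (nat_lit 116047276046) (nat_lit 152) (nat_lit 125656675695) (nat_lit 228) (nat_lit 40858433351) (nat_lit 17) (nat_lit 5) (nat_lit 19) (nat_lit 5) (nat_lit 20) (nat_lit 5) (nat_lit 303) (nat_lit 283) (nat_lit 134)))) (XT.nd (nat_lit 78) (nat_lit 152) (nat_lit 0) (XT.lf (nat_lit 0) (nat_lit 245608442190) (nat_lit 152) (nat_lit 48059638337) (nat_lit 228) (nat_lit 4622665876) (nat_lit 17) (nat_lit 5) (nat_lit 19) (nat_lit 5) (nat_lit 20) (nat_lit 5) (nat_lit 304) (nat_lit 283) (nat_lit 133)) (XT.nd (nat_lit 78) (nat_lit 0) (nat_lit 0) (XT.lf (nat_lit 0) (nat_lit 35469931859) (nat_lit 152) (nat_lit 242914429739) (nat_lit 76) (nat_lit 36611862665) (nat_lit 15) (nat_lit 5) (nat_lit 17) (nat_lit 5) (nat_lit 16) (nat_lit 5) (nat_lit 305) (nat_lit 283) (nat_lit 132)) (XT.lf (nat_lit 0) (nat_lit 81246211602) (nat_lit 152) (nat_lit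 124505768121) (nat_lit 76) (nat_lit 127058474089) (nat_lit 15) (nat_lit 5) (nat_lit 17) (nat_lit 5) (nat_lit 16) (nat_lit 5) (nat_lit 306) (nat_lit 283) (nat_lit 131)))))) (XT.nd (nat_lit 468) (nat_lit 228) (nat_lit 0) (XT.nd (nat_lit 234) (nat_lit 152) (nat_lit 0) (XT.nd (nat_lit 78) (nat_lit 0) (nat_lit 0) (XT.lf (nat_lit 0) (nat_lit 3553156348) (nat_lit 152) (nat_lit 127216774813) (nat_lit 228) (nat_lit 221273063990) (nat_lit 13) (nat_lit 5) (nat_lit 15) (nat_lit 5) (nat_lit 16) (nat_lit 5) (nat_lit 307) (nat_lit 283) (nat_lit 130)) (XT.nd (nat_lit 78) (nat_lit 0) (nat_lit 0) (XT.lf (nat_lit 0) (nat_lit 148937379171) (nat_lit 152) (nat_lit 38722265934) (nat_lit 228) (nat_lit 184882167337) (nat_lit 13) (nat_lit 5) (nat_lit 15) (nat_lit 5) (nat_lit 16) (nat_lit 5) (nat_lit 308) (nat_lit 283) (nat_lit 129)) (XT.lf (nat_lit 0) (nat_lit 250467718868) (nat_lit 228) (nat_lit 90095646328)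 (nat_lit 76) (nat_lit 54007795665) (nat_lit 13) (nat_lit 5) (nat_lit 16) (nat_lit 5) (nat_lit 14) (nat_lit 4) (nat_lit 309) (nat_lit 283) (nat_lit 128)))) (XT.nd (nat_lit 78) (nat_lit 76) (nat_lit 0) (XT.lf (nat_lit 0) (nat_lit 55883434497) (nat_lit 76) (nat_lit 264766678321) (nat_lit 152) (nat_lit 97524770727) (nat_lit 12) (nat_lit 5) (nat_lit 13) (nat_lit 5) (nat_lit 14) (nat_lit 4) (nat_lit 310) (nat_lit 283) (nat_lit 127)) (XT.nd (nat_lit 78) (nat_lit 76) (nat_lit 0) (XT.lf (nat_lit 0) (nat_lit 218664513211) (nat_lit 76) (nat_lit 180245866524) (nat_lit 152) (nat_lit 44559462102) (nat_lit 12) (nat_lit 5) (nat_lit 13) (nat_lit 5) (nat_lit 14) (nat_lit 4) (nat_lit 311) (nat_lit 283) (nat_lit 126)) (XT.lf (nat_lit 0) (nat_lit 12010524790) (nat_lit 152) (nat_lit 76624526545) (nat_lit 76) (nat_lit 382129027534) (nat_lit 11) (nat_lit 5) (nat_lit 13) (nat_lit 5) (nat_lit 12) (nat_lit 5)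 (nat_lit 312) (nat_lit 283) (nat_lit 125))))) (XT.nd (nat_lit 234) (nat_lit 76) (nat_lit 0) (XT.nd (nat_lit 78) (nat_lit 0) (nat_lit 0) (XT.lf (nat_lit 0) (nat_lit 73112994782) (nat_lit 228) (nat_lit 413730127949) (nat_lit 76) (nat_lit 13113001090) (nat_lit 9) (nat_lit 5) (nat_lit 12) (nat_lit 5) (nat_lit 10) (nat_lit 4) (nat_lit 313) (nat_lit 283) (nat_lit 124)) (XT.nd (nat_lit 78) (nat_lit 0) (nat_lit 0) (XT.lf (nat_lit 0) (nat_lit 143555258359) (nat_lit 228) (nat_lit 267210422924) (nat_lit 76) (nat_lit 120361723633) (nat_lit 9) (nat_lit 5) (nat_lit 12) (nat_lit 5) (nat_lit 10) (nat_lit 4) (nat_lit 314) (nat_lit 283) (nat_lit 123)) (XT.lf (nat_lit 0) (nat_lit 219632828599) (nat_lit 228) (nat_lit 108969264988) (nat_lit 76) (nat_lit 236190301078) (nat_lit 9) (nat_lit 5) (nat_lit 12) (nat_lit 5) (nat_lit 10) (nat_lit 4) (nat_lit 315) (nat_lit 283) (nat_lit 122)))) (XT.nd (nat_lit 156)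 (nat_lit 0) (nat_lit 0) (XT.nd (nat_lit 78) (nat_lit 0) (nat_lit 0) (XT.lf (nat_lit 0) (nat_lit 65192251698) (nat_lit 76) (nat_lit 238172159070) (nat_lit 152) (nat_lit 297660748516) (nat_lit 8) (nat_lit 5) (nat_lit 9) (nat_lit 5) (nat_lit 10) (nat_lit 4) (nat_lit 316) (nat_lit 283) (nat_lit 121)) (XT.lf (nat_lit 0) (nat_lit 259483756927) (nat_lit 76) (nat_lit 137290108912) (nat_lit 152) (nat_lit 243144331707) (nat_lit 8) (nat_lit 5) (nat_lit 9) (nat_lit 5) (nat_lit 10) (nat_lit 4) (nat_lit 317) (nat_lit 283) (nat_lit 120))) (XT.nd (nat_lit 78) (nat_lit 0) (nat_lit 0) (XT.lf (nat_lit 0) (nat_lit 469318479381) (nat_lit 76) (nat_lit 28337536374) (nat_lit 152) (nat_lit 184266668208) (nat_lit 8) (nat_lit 5) (nat_lit 9) (nat_lit 5) (nat_lit 10) (nat_lit 4) (nat_lit 318) (nat_lit 283) (nat_lit 119)) (XT.lf (nat_lit 0) (nat_lit 608757098253) (nat_lit 152) (nat_lit 33496067516) (nat_lit 0)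 (nat_lit 84862494831) (nat_lit 8) (nat_lit 5) (nat_lit 10) (nat_lit 4) (nat_lit 8) (nat_lit 4) (nat_lit 319) (nat_lit 283) (nat_lit 118))))))) (XT.nd (nat_lit 34788) (nat_lit 0) (nat_lit 1520) (XT.nd (nat_lit 468) (nat_lit 76) (nat_lit 0) (XT.nd (nat_lit 234) (nat_lit 76) (nat_lit 0) (XT.nd (nat_lit 78) (nat_lit 76) (nat_lit 0) (XT.lf (nat_lit 0) (nat_lit 167588020132) (nat_lit 76) (nat_lit 565924729401) (nat_lit 76) (nat_lit 42030007404) (nat_lit 7) (nat_lit 4) (nat_lit 8) (nat_lit 5) (nat_lit 8) (nat_lit 4) (nat_lit 320) (nat_lit 283) (nat_lit 117)) (XT.nd (nat_lit 78) (nat_lit 0) (nat_lit 0) (XT.lf (nat_lit 0) (nat_lit 39323195253) (nat_lit 152) (nat_lit 442102585660) (nat_lit 76) (nat_lit 346265335084) (nat_lit 6) (nat_lit 5) (nat_lit 8) (nat_lit 5) (nat_lit 7) (nat_lit 4) (nat_lit 321) (nat_lit 283) (nat_lit 116)) (XT.lf (nat_lit 0) (nat_lit 124913892690) (nat_lit 152) (nat_lit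 264074036649) (nat_lit 76) (nat_lit 494936083424) (nat_lit 6) (nat_lit 5) (nat_lit 8) (nat_lit 5) (nat_lit 7) (nat_lit 4) (nat_lit 322) (nat_lit 283) (nat_lit 115)))) (XT.nd (nat_lit 78) (nat_lit 76) (nat_lit 0) (XT.lf (nat_lit 0) (nat_lit 217351800232) (nat_lit 152) (nat_lit 71803283090) (nat_lit 76) (nat_lit 655500461710) (nat_lit 6) (nat_lit 5) (nat_lit 8) (nat_lit 5) (nat_lit 7) (nat_lit 4) (nat_lit 323) (nat_lit 283) (nat_lit 114)) (XT.nd (nat_lit 78) (nat_lit 0) (nat_lit 0) (XT.lf (nat_lit 0) (nat_lit 143002627871) (nat_lit 76) (nat_lit 177621286841) (nat_lit 152) (nat_lit 689346551321) (nat_lit 5) (nat_lit 5) (nat_lit 6) (nat_lit 5) (nat_lit 7) (nat_lit 4) (nat_lit 324) (nat_lit 283) (nat_lit 113)) (XT.lf (nat_lit 0) (nat_lit 379076456410) (nat_lit 76) (nat_lit 55044530051) (nat_lit 152) (nat_lit 646232539294) (nat_lit 5) (nat_lit 5) (nat_lit 6) (nat_lit 5) (nat_lit 7) (nat_lit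 4) (nat_lit 325) (nat_lit 283) (nat_lit 112))))) (XT.nd (nat_lit 234) (nat_lit 76) (nat_lit 0) (XT.nd (nat_lit 78) (nat_lit 0) (nat_lit 0) (XT.lf (nat_lit 0) (nat_lit 558557774994) (nat_lit 152) (nat_lit 524191097371) (nat_lit 0) (nat_lit 73469561890) (nat_lit 5) (nat_lit 5) (nat_lit 7) (nat_lit 4) (nat_lit 5) (nat_lit 4) (nat_lit 326) (nat_lit 283) (nat_lit 111)) (XT.nd (nat_lit 78) (nat_lit 0) (nat_lit 0) (XT.lf (nat_lit 0) (nat_lit 694379198969) (nat_lit 152) (nat_lit 334368039354) (nat_lit 0) (nat_lit 209290921802) (nat_lit 5) (nat_lit 5) (nat_lit 7) (nat_lit 4) (nat_lit 5) (nat_lit 4) (nat_lit 327) (nat_lit 283) (nat_lit 110)) (XT.lf (nat_lit 0) (nat_lit 841066303811) (nat_lit 152) (nat_lit 129359195641) (nat_lit 0) (nat_lit 355977967327) (nat_lit 5) (nat_lit 5) (nat_lit 7) (nat_lit 4) (nat_lit 5) (nat_lit 4) (nat_lit 328) (nat_lit 283) (nat_lit 109)))) (XT.nd (nat_lit 78) (nat_lit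 0) (nat_lit 0) (XT.lf (nat_lit 0) (nat_lit 96897506711) (nat_lit 76) (nat_lit 904921227094) (nat_lit 76) (nat_lit 419832835687) (nat_lit 4) (nat_lit 4) (nat_lit 5) (nat_lit 5) (nat_lit 5) (nat_lit 4) (nat_lit 329) (nat_lit 283) (nat_lit 108)) (XT.nd (nat_lit 33930) (nat_lit 0) (nat_lit 2204) (XT.lf (nat_lit 0) (nat_lit 348611464133) (nat_lit 76) (nat_lit 830356774104) (nat_lit 76) (nat_lit 345268331843) (nat_lit 4) (nat_lit 4) (nat_lit 5) (nat_lit 5) (nat_lit 5) (nat_lit 4) (nat_lit 330) (nat_lit 283) (nat_lit 107)) (XT.lf (nat_lit 0) (nat_lit 18872592763) (nat_lit 532) (nat_lit 20910886550) (nat_lit 532) (nat_lit 20910886550) (nat_lit 33) (nat_lit 3) (nat_lit 40) (nat_lit 3) (nat_lit 40) (nat_lit 5) (nat_lit 284) (nat_lit 284) (nat_lit 152)))))) (XT.nd (nat_lit 468) (nat_lit 684) (nat_lit 0) (XT.nd (nat_lit 234) (nat_lit 0) (nat_lit 152) (XT.nd (nat_lit 78) (nat_lit 0) (nat_lit 76)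 (XT.lf (nat_lit 76) (nat_lit 9766440231) (nat_lit 0) (nat_lit 29727371547) (nat_lit 532) (nat_lit 86731340809) (nat_lit 34) (nat_lit 5) (nat_lit 33) (nat_lit 3) (nat_lit 40) (nat_lit 5) (nat_lit 285) (nat_lit 284) (nat_lit 151)) (XT.nd (nat_lit 78) (nat_lit 0) (nat_lit 0) (XT.lf (nat_lit 0) (nat_lit 43134706080) (nat_lit 456) (nat_lit 64106411673) (nat_lit 532) (nat_lit 24067181417) (nat_lit 34) (nat_lit 5) (nat_lit 40) (nat_lit 5) (nat_lit 41) (nat_lit 5) (nat_lit 286) (nat_lit 284) (nat_lit 150)) (XT.lf (nat_lit 0) (nat_lit 47838645721) (nat_lit 456) (nat_lit 8338310387) (nat_lit 532) (nat_lit 80559401591) (nat_lit 34) (nat_lit 5) (nat_lit 40) (nat_lit 5) (nat_lit 41) (nat_lit 5) (nat_lit 287) (nat_lit 284) (nat_lit 149)))) (XT.nd (nat_lit 78) (nat_lit 0) (nat_lit 0) (XT.lf (nat_lit 0) (nat_lit 54241667849) (nat_lit 456) (nat_lit 87879501729) (nat_lit 532) (nat_lit 371671912) (nat_lit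 35) (nat_lit 5) (nat_lit 41) (nat_lit 5) (nat_lit 42) (nat_lit 5) (nat_lit 288) (nat_lit 284) (nat_lit 148)) (XT.nd (nat_lit 78) (nat_lit 0) (nat_lit 0) (XT.lf (nat_lit 0) (nat_lit 62849662842) (nat_lit 456) (nat_lit 27081589455) (nat_lit 532) (nat_lit 58643175017) (nat_lit 35) (nat_lit 5) (nat_lit 41) (nat_lit 5) (nat_lit 42) (nat_lit 5) (nat_lit 289) (nat_lit 284) (nat_lit 147)) (XT.lf (nat_lit 76) (nat_lit 40611474914) (nat_lit 0) (nat_lit 32511236439) (nat_lit 532) (nat_lit 81941717223) (nat_lit 36) (nat_lit 5) (nat_lit 35) (nat_lit 5) (nat_lit 42) (nat_lit 5) (nat_lit 290) (nat_lit 284) (nat_lit 146))))) (XT.nd (nat_lit 234) (nat_lit 456) (nat_lit 0) (XT.nd (nat_lit 78) (nat_lit 456) (nat_lit 0) (XT.lf (nat_lit 0) (nat_lit 85686552538) (nat_lit 456) (nat_lit 47483270896) (nat_lit 76) (nat_lit 28786292161) (nat_lit 36) (nat_lit 5) (nat_lit 42) (nat_lit 5) (nat_lit 37) (nat_lit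 5) (nat_lit 291) (nat_lit 284) (nat_lit 145)) (XT.nd (nat_lit 78) (nat_lit 0) (nat_lit 0) (XT.lf (nat_lit 0) (nat_lit 25263067900) (nat_lit 456) (nat_lit 75444203103) (nat_lit 532) (nat_lit 68575726418) (nat_lit 30) (nat_lit 5) (nat_lit 36) (nat_lit 5) (nat_lit 37) (nat_lit 5) (nat_lit 292) (nat_lit 284) (nat_lit 144)) (XT.lf (nat_lit 0) (nat_lit 106529303496) (nat_lit 456) (nat_lit 11698378579) (nat_lit 532) (nat_lit 58864506243) (nat_lit 30) (nat_lit 5) (nat_lit 36) (nat_lit 5) (nat_lit 37) (nat_lit 5) (nat_lit 293) (nat_lit 284) (nat_lit 143)))) (XT.nd (nat_lit 156) (nat_lit 228) (nat_lit 0) (XT.nd (nat_lit 78) (nat_lit 0) (nat_lit 0) (XT.lf (nat_lit 0) (nat_lit 7785571091) (nat_lit 228) (nat_lit 130925564134) (nat_lit 304) (nat_lit 46690067766) (nat_lit 27) (nat_lit 5) (nat_lit 30) (nat_lit 5) (nat_lit 31) (nat_lit 5) (nat_lit 294) (nat_lit 284) (nat_lit 142)) (XT.lf (nat_lit 0)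 (nat_lit 96094799913) (nat_lit 228) (nat_lit 66963728306) (nat_lit 304) (nat_lit 31138390676) (nat_lit 27) (nat_lit 5) (nat_lit 30) (nat_lit 5) (nat_lit 31) (nat_lit 5) (nat_lit 295) (nat_lit 284) (nat_lit 141))) (XT.nd (nat_lit 78) (nat_lit 228) (nat_lit 0) (XT.lf (nat_lit 0) (nat_lit 189404383033) (nat_lit 304) (nat_lit 12278615118) (nat_lit 76) (nat_lit 2009241353) (nat_lit 27) (nat_lit 5) (nat_lit 31) (nat_lit 5) (nat_lit 28) (nat_lit 5) (nat_lit 296) (nat_lit 284) (nat_lit 140)) (XT.lf (nat_lit 0) (nat_lit 7542806231) (nat_lit 228) (nat_lit 131025745538) (nat_lit 76) (nat_lit 75064893401) (nat_lit 24) (nat_lit 5) (nat_lit 27) (nat_lit 5) (nat_lit 25) (nat_lit 5) (nat_lit 297) (nat_lit 284) (nat_lit 139))))))))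
noncomputable def xc115 : XT := (XT.nd (nat_lit 1950) (nat_lit 76) (nat_lit 0) (XT.nd (nat_lit 936) (nat_lit 532) (nat_lit 0) (XT.nd (nat_lit 468) (nat_lit 456) (nat_lit 0) (XT.nd (nat_lit 234) (nat_lit 152) (nat_lit 0) (XT.nd (nat_lit 78) (nat_lit 228) (nat_lit 0) (XT.lf (nat_lit 0) (nat_lit 30692266786) (nat_lit 228) (nat_lit 38939919103) (nat_lit 76) (nat_lit 154680532374) (nat_lit 24) (nat_lit 5) (nat_lit 27) (nat_lit 5) (nat_lit 25) (nat_lit 5) (nat_lit 298) (nat_lit 284) (nat_lit 138)) (XT.nd (nat_lit 78) (nat_lit 0) (nat_lit 0) (XT.lf (nat_lit 0) (nat_lit 57381172311) (nat_lit 304) (nat_lit 172180417158) (nat_lit 76) (nat_lit 6149745467) (nat_lit 21) (nat_lit 5) (nat_lit 25) (nat_lit 5) (nat_lit 22) (nat_lit 5) (nat_lit 299) (nat_lit 284) (nat_lit 137)) (XT.lf (nat_lit 0) (nat_lit 89106000331) (nat_lit 304) (nat_lit 73359182549) (nat_lit 76) (nat_lit 85324593979) (nat_lit 21)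 (nat_lit 5) (nat_lit 25) (nat_lit 5) (nat_lit 22) (nat_lit 5) (nat_lit 300) (nat_lit 284) (nat_lit 136)))) (XT.nd (nat_lit 78) (nat_lit 0) (nat_lit 0) (XT.lf (nat_lit 0) (nat_lit 35124639168) (nat_lit 152) (nat_lit 89088776862) (nat_lit 228) (nat_lit 136553510660) (nat_lit 19) (nat_lit 5) (nat_lit 21) (nat_lit 5) (nat_lit 22) (nat_lit 5) (nat_lit 301) (nat_lit 284) (nat_lit 135)) (XT.nd (nat_lit 78) (nat_lit 0) (nat_lit 0) (XT.lf (nat_lit 0) (nat_lit 156458984738) (nat_lit 152) (nat_lit 7676069793) (nat_lit 228) (nat_lit 110486744231) (nat_lit 19) (nat_lit 5) (nat_lit 21) (nat_lit 5) (nat_lit 22) (nat_lit 5) (nat_lit 302) (nat_lit 284) (nat_lit 134)) (XT.lf (nat_lit 0) (nat_lit 209180299159) (nat_lit 228) (nat_lit 4015168773) (nat_lit 76) (nat_lit 76235203240) (nat_lit 19) (nat_lit 5) (nat_lit 22) (nat_lit 5) (nat_lit 20) (nat_lit 5) (nat_lit 303) (nat_lit 284) (nat_lit 133))))) (XT.nd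 (nat_lit 234) (nat_lit 152) (nat_lit 0) (XT.nd (nat_lit 78) (nat_lit 152) (nat_lit 0) (XT.lf (nat_lit 0) (nat_lit 125334481341) (nat_lit 152) (nat_lit 135708236389) (nat_lit 228) (nat_lit 44124451823) (nat_lit 17) (nat_lit 5) (nat_lit 19) (nat_lit 5) (nat_lit 20) (nat_lit 5) (nat_lit 304) (nat_lit 284) (nat_lit 132)) (XT.nd (nat_lit 78) (nat_lit 152) (nat_lit 0) (XT.lf (nat_lit 0) (nat_lit 265260287205) (nat_lit 152) (nat_lit 51903508143) (nat_lit 228) (nat_lit 4990019705) (nat_lit 17) (nat_lit 5) (nat_lit 19) (nat_lit 5) (nat_lit 20) (nat_lit 5) (nat_lit 305) (nat_lit 284) (nat_lit 131)) (XT.lf (nat_lit 0) (nat_lit 38309790645) (nat_lit 152) (nat_lit 262344202170) (nat_lit 76) (nat_lit 39541740027) (nat_lit 15) (nat_lit 5) (nat_lit 17) (nat_lit 5) (nat_lit 16) (nat_lit 5) (nat_lit 306) (nat_lit 284) (nat_lit 130)))) (XT.nd (nat_lit 78) (nat_lit 152) (nat_lit 0) (XT.lf (nat_lit 0)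 (nat_lit 87748005046) (nat_lit 152) (nat_lit 134463098138) (nat_lit 76) (nat_lit 137224011598) (nat_lit 15) (nat_lit 5) (nat_lit 17) (nat_lit 5) (nat_lit 16) (nat_lit 5) (nat_lit 307) (nat_lit 284) (nat_lit 129)) (XT.nd (nat_lit 78) (nat_lit 0) (nat_lit 0) (XT.lf (nat_lit 0) (nat_lit 3840461012) (nat_lit 152) (nat_lit 137393079265) (nat_lit 228) (nat_lit 238972726267) (nat_lit 13) (nat_lit 5) (nat_lit 15) (nat_lit 5) (nat_lit 16) (nat_lit 5) (nat_lit 308) (nat_lit 284) (nat_lit 128)) (XT.lf (nat_lit 0) (nat_lit 160855195576) (nat_lit 152) (nat_lit 41819086529) (nat_lit 228) (nat_lit 199670719573) (nat_lit 13) (nat_lit 5) (nat_lit 15) (nat_lit 5) (nat_lit 16) (nat_lit 5) (nat_lit 309) (nat_lit 284) (nat_lit 127)))))) (XT.nd (nat_lit 468) (nat_lit 228) (nat_lit 0) (XT.nd (nat_lit 234) (nat_lit 228) (nat_lit 0) (XT.nd (nat_lit 78) (nat_lit 76) (nat_lit 0) (XT.lf (nat_lit 0) (nat_lit 270506884985)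 (nat_lit 228) (nat_lit 97300558473) (nat_lit 76) (nat_lit 58329264338) (nat_lit 13) (nat_lit 5) (nat_lit 16) (nat_lit 5) (nat_lit 14) (nat_lit 4) (nat_lit 310) (nat_lit 284) (nat_lit 126)) (XT.nd (nat_lit 78) (nat_lit 0) (nat_lit 0) (XT.lf (nat_lit 0) (nat_lit 60356779461) (nat_lit 76) (nat_lit 285947025682) (nat_lit 152) (nat_lit 105324928825) (nat_lit 12) (nat_lit 5) (nat_lit 13) (nat_lit 5) (nat_lit 14) (nat_lit 4) (nat_lit 311) (nat_lit 284) (nat_lit 125)) (XT.lf (nat_lit 0) (nat_lit 236160146680) (nat_lit 76) (nat_lit 194664622045) (nat_lit 152) (nat_lit 48122530589) (nat_lit 12) (nat_lit 5) (nat_lit 13) (nat_lit 5) (nat_lit 14) (nat_lit 4) (nat_lit 312) (nat_lit 284) (nat_lit 124)))) (XT.nd (nat_lit 78) (nat_lit 152) (nat_lit 0) (XT.lf (nat_lit 0) (nat_lit 12972851974) (nat_lit 152) (nat_lit 82752116748) (nat_lit 76) (nat_lit 412700113198) (nat_lit 11) (nat_lit 5) (nat_lit 13)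 (nat_lit 5) (nat_lit 12) (nat_lit 5) (nat_lit 313) (nat_lit 284) (nat_lit 123)) (XT.nd (nat_lit 78) (nat_lit 0) (nat_lit 0) (XT.lf (nat_lit 0) (nat_lit 78963486341) (nat_lit 228) (nat_lit 446826128926) (nat_lit 76) (nat_lit 14162878187) (nat_lit 9) (nat_lit 5) (nat_lit 12) (nat_lit 5) (nat_lit 10) (nat_lit 4) (nat_lit 314) (nat_lit 284) (nat_lit 122)) (XT.lf (nat_lit 0) (nat_lit 155041023450) (nat_lit 228) (nat_lit 288585025963) (nat_lit 76) (nat_lit 129991436533) (nat_lit 9) (nat_lit 5) (nat_lit 12) (nat_lit 5) (nat_lit 10) (nat_lit 4) (nat_lit 315) (nat_lit 284) (nat_lit 121))))) (XT.nd (nat_lit 234) (nat_lit 152) (nat_lit 0) (XT.nd (nat_lit 78) (nat_lit 76) (nat_lit 0) (XT.lf (nat_lit 0) (nat_lit 237204699723) (nat_lit 228) (nat_lit 117684740637) (nat_lit 76) (nat_lit 255086242765) (nat_lit 9) (nat_lit 5) (nat_lit 12) (nat_lit 5) (nat_lit 10) (nat_lit 4) (nat_lit 316) (nat_lit 284)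 (nat_lit 120)) (XT.nd (nat_lit 78) (nat_lit 0) (nat_lit 0) (XT.lf (nat_lit 0) (nat_lit 70409645092) (nat_lit 76) (nat_lit 257225119582) (nat_lit 152) (nat_lit 321472308004) (nat_lit 8) (nat_lit 5) (nat_lit 9) (nat_lit 5) (nat_lit 10) (nat_lit 4) (nat_lit 317) (nat_lit 284) (nat_lit 119)) (XT.lf (nat_lit 0) (nat_lit 280244321609) (nat_lit 76) (nat_lit 148272565576) (nat_lit 152) (nat_lit 262594674176) (nat_lit 8) (nat_lit 5) (nat_lit 9) (nat_lit 5) (nat_lit 10) (nat_lit 4) (nat_lit 318) (nat_lit 284) (nat_lit 118)))) (XT.nd (nat_lit 156) (nat_lit 152) (nat_lit 0) (XT.nd (nat_lit 78) (nat_lit 0) (nat_lit 0) (XT.lf (nat_lit 0) (nat_lit 506865683776) (nat_lit 76) (nat_lit 30603842941) (nat_lit 152) (nat_lit 199006886787) (nat_lit 8) (nat_lit 5) (nat_lit 9) (nat_lit 5) (nat_lit 10) (nat_lit 4) (nat_lit 319) (nat_lit 284) (nat_lit 117)) (XT.lf (nat_lit 0) (nat_lit 657458635047) (nat_lit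 152) (nat_lit 36174091368) (nat_lit 0) (nat_lit 91652106925) (nat_lit 8) (nat_lit 5) (nat_lit 10) (nat_lit 4) (nat_lit 8) (nat_lit 4) (nat_lit 320) (nat_lit 284) (nat_lit 116))) (XT.nd (nat_lit 78) (nat_lit 76) (nat_lit 0) (XT.lf (nat_lit 0) (nat_lit 180996681227) (nat_lit 76) (nat_lit 611198024378) (nat_lit 76) (nat_lit 45391394597) (nat_lit 7) (nat_lit 4) (nat_lit 8) (nat_lit 5) (nat_lit 8) (nat_lit 4) (nat_lit 321) (nat_lit 284) (nat_lit 115)) (XT.lf (nat_lit 0) (nat_lit 42469942266) (nat_lit 152) (nat_lit 477469243993) (nat_lit 76) (nat_lit 373967145648) (nat_lit 6) (nat_lit 5) (nat_lit 8) (nat_lit 5) (nat_lit 7) (nat_lit 4) (nat_lit 322) (nat_lit 284) (nat_lit 114))))))) (XT.nd (nat_lit 35022) (nat_lit 0) (nat_lit 1064) (XT.nd (nat_lit 468) (nat_lit 0) (nat_lit 0) (XT.nd (nat_lit 234) (nat_lit 0) (nat_lit 0) (XT.nd (nat_lit 78) (nat_lit 76) (nat_lit 0) (XT.lf (nat_lit 0) (nat_lit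 134907829469) (nat_lit 152) (nat_lit 285198525767) (nat_lit 76) (nat_lit 534531510614) (nat_lit 6) (nat_lit 5) (nat_lit 8) (nat_lit 5) (nat_lit 7) (nat_lit 4) (nat_lit 323) (nat_lit 284) (nat_lit 113)) (XT.nd (nat_lit 78) (nat_lit 76) (nat_lit 0) (XT.lf (nat_lit 0) (nat_lit 234740708477) (nat_lit 152) (nat_lit 77546218131) (nat_lit 76) (nat_lit 707940999124) (nat_lit 6) (nat_lit 5) (nat_lit 8) (nat_lit 5) (nat_lit 7) (nat_lit 4) (nat_lit 324) (nat_lit 284) (nat_lit 112)) (XT.lf (nat_lit 0) (nat_lit 154444132096) (nat_lit 76) (nat_lit 191830434530) (nat_lit 152) (nat_lit 744493475957) (nat_lit 5) (nat_lit 5) (nat_lit 6) (nat_lit 5) (nat_lit 7) (nat_lit 4) (nat_lit 325) (nat_lit 284) (nat_lit 111)))) (XT.nd (nat_lit 78) (nat_lit 0) (nat_lit 0) (XT.lf (nat_lit 0) (nat_lit 409403771067) (nat_lit 76) (nat_lit 59447578327) (nat_lit 152) (nat_lit 697930402188) (nat_lit 5) (nat_lit 5) (nat_lit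 6) (nat_lit 5) (nat_lit 7) (nat_lit 4) (nat_lit 326) (nat_lit 284) (nat_lit 110)) (XT.nd (nat_lit 78) (nat_lit 0) (nat_lit 0) (XT.lf (nat_lit 0) (nat_lit 603243041791) (nat_lit 152) (nat_lit 566125235149) (nat_lit 0) (nat_lit 79347579072) (nat_lit 5) (nat_lit 5) (nat_lit 7) (nat_lit 4) (nat_lit 5) (nat_lit 4) (nat_lit 327) (nat_lit 284) (nat_lit 109)) (XT.lf (nat_lit 0) (nat_lit 749930131921) (nat_lit 152) (nat_lit 361116417676) (nat_lit 0) (nat_lit 226034614279) (nat_lit 5) (nat_lit 5) (nat_lit 7) (nat_lit 4) (nat_lit 5) (nat_lit 4) (nat_lit 328) (nat_lit 284) (nat_lit 108))))) (XT.nd (nat_lit 34242) (nat_lit 0) (nat_lit 2204) (XT.nd (nat_lit 34086) (nat_lit 0) (nat_lit 2128) (XT.lf (nat_lit 0) (nat_lit 908352160925) (nat_lit 152) (nat_lit 139706945342) (nat_lit 0) (nat_lit 384456592429) (nat_lit 5) (nat_lit 5) (nat_lit 7) (nat_lit 4) (nat_lit 5) (nat_lit 4) (nat_lit 329) (nat_lit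 284) (nat_lit 107)) (XT.nd (nat_lit 78) (nat_lit 0) (nat_lit 0) (XT.lf (nat_lit 0) (nat_lit 20386241238) (nat_lit 532) (nat_lit 22581672129) (nat_lit 532) (nat_lit 22581672129) (nat_lit 33) (nat_lit 3) (nat_lit 40) (nat_lit 3) (nat_lit 40) (nat_lit 5) (nat_lit 285) (nat_lit 285) (nat_lit 150)) (XT.lf (nat_lit 76) (nat_lit 10551820552) (nat_lit 0) (nat_lit 32108706996) (nat_lit 532) (nat_lit 93662018987) (nat_lit 34) (nat_lit 5) (nat_lit 33) (nat_lit 3) (nat_lit 40) (nat_lit 5) (nat_lit 286) (nat_lit 285) (nat_lit 149)))) (XT.nd (nat_lit 156) (nat_lit 0) (nat_lit 76) (XT.nd (nat_lit 78) (nat_lit 0) (nat_lit 0) (XT.lf (nat_lit 0) (nat_lit 46592089209) (nat_lit 456) (nat_lit 69230518110) (nat_lit 532) (nat_lit 25989788928) (nat_lit 34) (nat_lit 5) (nat_lit 40) (nat_lit 5) (nat_lit 41) (nat_lit 5) (nat_lit 287) (nat_lit 285) (nat_lit 148)) (XT.lf (nat_lit 0) (nat_lit 51671854640) (nat_lit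 456) (nat_lit 9001295129) (nat_lit 532) (nat_lit 87001591678) (nat_lit 34) (nat_lit 5) (nat_lit 40) (nat_lit 5) (nat_lit 41) (nat_lit 5) (nat_lit 288) (nat_lit 285) (nat_lit 147))) (XT.nd (nat_lit 78) (nat_lit 0) (nat_lit 0) (XT.lf (nat_lit 0) (nat_lit 58586718169) (nat_lit 456) (nat_lit 94905348550) (nat_lit 532) (nat_lit 399711880) (nat_lit 35) (nat_lit 5) (nat_lit 41) (nat_lit 5) (nat_lit 42) (nat_lit 5) (nat_lit 289) (nat_lit 285) (nat_lit 146)) (XT.lf (nat_lit 0) (nat_lit 67882929288) (nat_lit 456) (nat_lit 29243937614) (nat_lit 532) (nat_lit 63333060700) (nat_lit 35) (nat_lit 5) (nat_lit 41) (nat_lit 5) (nat_lit 42) (nat_lit 5) (nat_lit 290) (nat_lit 285) (nat_lit 145)))))) (XT.nd (nat_lit 468) (nat_lit 608) (nat_lit 0) (XT.nd (nat_lit 234) (nat_lit 228) (nat_lit 0) (XT.nd (nat_lit 78) (nat_lit 380) (nat_lit 0) (XT.lf (nat_lit 76) (nat_lit 43864466107) (nat_lit 0) (nat_lit 35113061428)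 (nat_lit 532) (nat_lit 88491627214) (nat_lit 36) (nat_lit 5) (nat_lit 35) (nat_lit 5) (nat_lit 42) (nat_lit 5) (nat_lit 291) (nat_lit 285) (nat_lit 144)) (XT.nd (nat_lit 78) (nat_lit 456) (nat_lit 0) (XT.lf (nat_lit 0) (nat_lit 92546085077) (nat_lit 456) (nat_lit 51277744062) (nat_lit 76) (nat_lit 31088380952) (nat_lit 36) (nat_lit 5) (nat_lit 42) (nat_lit 5) (nat_lit 37) (nat_lit 5) (nat_lit 292) (nat_lit 285) (nat_lit 143)) (XT.lf (nat_lit 0) (nat_lit 27288195799) (nat_lit 456) (nat_lit 81480022044) (nat_lit 532) (nat_lit 74057046006) (nat_lit 30) (nat_lit 5) (nat_lit 36) (nat_lit 5) (nat_lit 37) (nat_lit 5) (nat_lit 293) (nat_lit 285) (nat_lit 142)))) (XT.nd (nat_lit 78) (nat_lit 228) (nat_lit 0) (XT.lf (nat_lit 0) (nat_lit 115055427837) (nat_lit 456) (nat_lit 12634510619) (nat_lit 532) (nat_lit 63569279219) (nat_lit 30) (nat_lit 5) (nat_lit 36) (nat_lit 5) (nat_lit 37) (nat_lit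 5) (nat_lit 294) (nat_lit 285) (nat_lit 141)) (XT.nd (nat_lit 78) (nat_lit 0) (nat_lit 0) (XT.lf (nat_lit 0) (nat_lit 8412444235) (nat_lit 228) (nat_lit 141399415261) (nat_lit 304) (nat_lit 50421112351) (nat_lit 27) (nat_lit 5) (nat_lit 30) (nat_lit 5) (nat_lit 31) (nat_lit 5) (nat_lit 295) (nat_lit 285) (nat_lit 140)) (XT.lf (nat_lit 0) (nat_lit 103786113032) (nat_lit 228) (nat_lit 72320646939) (nat_lit 304) (nat_lit 33625609305) (nat_lit 27) (nat_lit 5) (nat_lit 30) (nat_lit 5) (nat_lit 31) (nat_lit 5) (nat_lit 296) (nat_lit 285) (nat_lit 139))))) (XT.nd (nat_lit 234) (nat_lit 380) (nat_lit 0) (XT.nd (nat_lit 78) (nat_lit 228) (nat_lit 0) (XT.lf (nat_lit 0) (nat_lit 204560024244) (nat_lit 304) (nat_lit 13257174755) (nat_lit 76) (nat_lit 2170138667) (nat_lit 27) (nat_lit 5) (nat_lit 31) (nat_lit 5) (nat_lit 28) (nat_lit 5) (nat_lit 297) (nat_lit 285) (nat_lit 138)) (XT.nd (nat_lit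 78) (nat_lit 0) (nat_lit 0) (XT.lf (nat_lit 0) (nat_lit 8149462002) (nat_lit 228) (nat_lit 141503984656) (nat_lit 76) (nat_lit 81070400405) (nat_lit 24) (nat_lit 5) (nat_lit 27) (nat_lit 5) (nat_lit 25) (nat_lit 5) (nat_lit 298) (nat_lit 285) (nat_lit 137)) (XT.lf (nat_lit 0) (nat_lit 33150640048) (nat_lit 228) (nat_lit 42051575108) (nat_lit 76) (nat_lit 167055267123) (nat_lit 24) (nat_lit 5) (nat_lit 27) (nat_lit 5) (nat_lit 25) (nat_lit 5) (nat_lit 299) (nat_lit 285) (nat_lit 136)))) (XT.nd (nat_lit 156) (nat_lit 152) (nat_lit 0) (XT.nd (nat_lit 78) (nat_lit 0) (nat_lit 0) (XT.lf (nat_lit 0) (nat_lit 61974533618) (nat_lit 304) (nat_lit 185951175562) (nat_lit 76) (nat_lit 6642290100) (nat_lit 21) (nat_lit 5) (nat_lit 25) (nat_lit 5) (nat_lit 22) (nat_lit 5) (nat_lit 300) (nat_lit 285) (nat_lit 135)) (XT.lf (nat_lit 0) (nat_lit 96237135471) (nat_lit 304) (nat_lit 79224514404) (nat_lit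 76) (nat_lit 92151084641) (nat_lit 21) (nat_lit 5) (nat_lit 25) (nat_lit 5) (nat_lit 22) (nat_lit 5) (nat_lit 301) (nat_lit 285) (nat_lit 134))) (XT.nd (nat_lit 78) (nat_lit 0) (nat_lit 0) (XT.lf (nat_lit 0) (nat_lit 37937926905) (nat_lit 152) (nat_lit 96215100610) (nat_lit 228) (nat_lit 147475039067) (nat_lit 19) (nat_lit 5) (nat_lit 21) (nat_lit 5) (nat_lit 22) (nat_lit 5) (nat_lit 302) (nat_lit 285) (nat_lit 133)) (XT.lf (nat_lit 0) (nat_lit 168978774446) (nat_lit 152) (nat_lit 8289434635) (nat_lit 228) (nat_lit 119323135209) (nat_lit 19) (nat_lit 5) (nat_lit 21) (nat_lit 5) (nat_lit 22) (nat_lit 5) (nat_lit 303) (nat_lit 285) (nat_lit 132))))))))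
noncomputable def xc116 : XT := (XT.nd (nat_lit 1950) (nat_lit 0) (nat_lit 0) (XT.nd (nat_lit 936) (nat_lit 304) (nat_lit 0) (XT.nd (nat_lit 468) (nat_lit 304) (nat_lit 0) (XT.nd (nat_lit 234) (nat_lit 304) (nat_lit 0) (XT.nd (nat_lit 78) (nat_lit 152) (nat_lit 0) (XT.lf (nat_lit 0) (nat_lit 225916915241) (nat_lit 228) (nat_lit 4333371193) (nat_lit 76) (nat_lit 82334653468) (nat_lit 19) (nat_lit 5) (nat_lit 22) (nat_lit 5) (nat_lit 20) (nat_lit 5) (nat_lit 304) (nat_lit 285) (nat_lit 131)) (XT.nd (nat_lit 78) (nat_lit 0) (nat_lit 0) (XT.lf (nat_lit 0) (nat_lit 135364174700) (nat_lit 152) (nat_lit 146564060800) (nat_lit 228) (nat_lit 47652130709) (nat_lit 17) (nat_lit 5) (nat_lit 19) (nat_lit 5) (nat_lit 20) (nat_lit 5) (nat_lit 305) (nat_lit 285) (nat_lit 130)) (XT.lf (nat_lit 0) (nat_lit 286483827637) (nat_lit 152) (nat_lit 56055016108) (nat_lit 228) (nat_lit 5387112707) (nat_lit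 17) (nat_lit 5) (nat_lit 19) (nat_lit 5) (nat_lit 20) (nat_lit 5) (nat_lit 306) (nat_lit 285) (nat_lit 129)))) (XT.nd (nat_lit 78) (nat_lit 152) (nat_lit 0) (XT.lf (nat_lit 0) (nat_lit 41376515115) (nat_lit 152) (nat_lit 283328838869) (nat_lit 76) (nat_lit 42705875139) (nat_lit 15) (nat_lit 5) (nat_lit 17) (nat_lit 5) (nat_lit 16) (nat_lit 5) (nat_lit 307) (nat_lit 285) (nat_lit 128)) (XT.nd (nat_lit 78) (nat_lit 152) (nat_lit 0) (XT.lf (nat_lit 0) (nat_lit 94769642874) (nat_lit 152) (nat_lit 145217461290) (nat_lit 76) (nat_lit 148202669479) (nat_lit 15) (nat_lit 5) (nat_lit 17) (nat_lit 5) (nat_lit 16) (nat_lit 5) (nat_lit 308) (nat_lit 285) (nat_lit 127)) (XT.lf (nat_lit 0) (nat_lit 4150314625) (nat_lit 152) (nat_lit 148383636088) (nat_lit 228) (nat_lit 258088672932) (nat_lit 13) (nat_lit 5) (nat_lit 15) (nat_lit 5) (nat_lit 16) (nat_lit 5) (nat_lit 309) (nat_lit 285) (nat_lit 126)))))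 (XT.nd (nat_lit 234) (nat_lit 228) (nat_lit 0) (XT.nd (nat_lit 78) (nat_lit 76) (nat_lit 0) (XT.lf (nat_lit 0) (nat_lit 173726034122) (nat_lit 152) (nat_lit 45163789824) (nat_lit 228) (nat_lit 215642644328) (nat_lit 13) (nat_lit 5) (nat_lit 15) (nat_lit 5) (nat_lit 16) (nat_lit 5) (nat_lit 310) (nat_lit 285) (nat_lit 125)) (XT.nd (nat_lit 78) (nat_lit 76) (nat_lit 0) (XT.lf (nat_lit 0) (nat_lit 292148934933) (nat_lit 228) (nat_lit 105082254420) (nat_lit 76) (nat_lit 62996329954) (nat_lit 13) (nat_lit 5) (nat_lit 16) (nat_lit 5) (nat_lit 14) (nat_lit 4) (nat_lit 311) (nat_lit 285) (nat_lit 124)) (XT.lf (nat_lit 0) (nat_lit 65187611088) (nat_lit 76) (nat_lit 308821941624) (nat_lit 152) (nat_lit 113749359723) (nat_lit 12) (nat_lit 5) (nat_lit 13) (nat_lit 5) (nat_lit 14) (nat_lit 4) (nat_lit 312) (nat_lit 285) (nat_lit 123)))) (XT.nd (nat_lit 78) (nat_lit 228) (nat_lit 0) (XT.lf (nat_lit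 0) (nat_lit 255055078108) (nat_lit 76) (nat_lit 210237008371) (nat_lit 152) (nat_lit 51970885436) (nat_lit 12) (nat_lit 5) (nat_lit 13) (nat_lit 5) (nat_lit 14) (nat_lit 4) (nat_lit 313) (nat_lit 285) (nat_lit 122)) (XT.nd (nat_lit 78) (nat_lit 152) (nat_lit 0) (XT.lf (nat_lit 0) (nat_lit 14011953452) (nat_lit 152) (nat_lit 89370252549) (nat_lit 76) (nat_lit 445716776799) (nat_lit 11) (nat_lit 5) (nat_lit 13) (nat_lit 5) (nat_lit 12) (nat_lit 5) (nat_lit 314) (nat_lit 285) (nat_lit 121)) (XT.lf (nat_lit 0) (nat_lit 85281810084) (nat_lit 228) (nat_lit 482570153690) (nat_lit 76) (nat_lit 15296626044) (nat_lit 9) (nat_lit 5) (nat_lit 12) (nat_lit 5) (nat_lit 10) (nat_lit 4) (nat_lit 315) (nat_lit 285) (nat_lit 120)))))) (XT.nd (nat_lit 468) (nat_lit 228) (nat_lit 0) (XT.nd (nat_lit 234) (nat_lit 0) (nat_lit 0) (XT.nd (nat_lit 78) (nat_lit 76) (nat_lit 0) (XT.lf (nat_lit 0) (nat_lit 167445457952)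 (nat_lit 228) (nat_lit 311669915494) (nat_lit 76) (nat_lit 140391415902) (nat_lit 9) (nat_lit 5) (nat_lit 12) (nat_lit 5) (nat_lit 10) (nat_lit 4) (nat_lit 316) (nat_lit 285) (nat_lit 119)) (XT.nd (nat_lit 78) (nat_lit 76) (nat_lit 0) (XT.lf (nat_lit 0) (nat_lit 256182142946) (nat_lit 228) (nat_lit 127097749011) (nat_lit 76) (nat_lit 275493757414) (nat_lit 9) (nat_lit 5) (nat_lit 12) (nat_lit 5) (nat_lit 10) (nat_lit 4) (nat_lit 317) (nat_lit 285) (nat_lit 118)) (XT.lf (nat_lit 0) (nat_lit 76044142744) (nat_lit 76) (nat_lit 277802432806) (nat_lit 152) (nat_lit 347188977766) (nat_lit 8) (nat_lit 5) (nat_lit 9) (nat_lit 5) (nat_lit 10) (nat_lit 4) (nat_lit 318) (nat_lit 285) (nat_lit 117)))) (XT.nd (nat_lit 78) (nat_lit 0) (nat_lit 0) (XT.lf (nat_lit 0) (nat_lit 302665465527) (nat_lit 76) (nat_lit 160133726060) (nat_lit 152) (nat_lit 283601215816) (nat_lit 8) (nat_lit 5) (nat_lit 9)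 (nat_lit 5) (nat_lit 10) (nat_lit 4) (nat_lit 319) (nat_lit 285) (nat_lit 116)) (XT.nd (nat_lit 78) (nat_lit 0) (nat_lit 0) (XT.lf (nat_lit 0) (nat_lit 547416418282) (nat_lit 76) (nat_lit 33051553375) (nat_lit 152) (nat_lit 214926481902) (nat_lit 8) (nat_lit 5) (nat_lit 9) (nat_lit 5) (nat_lit 10) (nat_lit 4) (nat_lit 320) (nat_lit 285) (nat_lit 115)) (XT.lf (nat_lit 0) (nat_lit 710056156556) (nat_lit 152) (nat_lit 39066594167) (nat_lit 0) (nat_lit 98984800606) (nat_lit 8) (nat_lit 5) (nat_lit 10) (nat_lit 4) (nat_lit 8) (nat_lit 4) (nat_lit 321) (nat_lit 285) (nat_lit 114))))) (XT.nd (nat_lit 234) (nat_lit 76) (nat_lit 0) (XT.nd (nat_lit 78) (nat_lit 76) (nat_lit 0) (XT.lf (nat_lit 0) (nat_lit 195477804172) (nat_lit 76) (nat_lit 660093280445) (nat_lit 76) (nat_lit 49021837339) (nat_lit 7) (nat_lit 4) (nat_lit 8) (nat_lit 5) (nat_lit 8) (nat_lit 4) (nat_lit 322) (nat_lit 285) (nat_lit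 113)) (XT.nd (nat_lit 78) (nat_lit 0) (nat_lit 0) (XT.lf (nat_lit 0) (nat_lit 45868301874) (nat_lit 152) (nat_lit 515665455907) (nat_lit 76) (nat_lit 403885017777) (nat_lit 6) (nat_lit 5) (nat_lit 8) (nat_lit 5) (nat_lit 7) (nat_lit 4) (nat_lit 323) (nat_lit 285) (nat_lit 112)) (XT.lf (nat_lit 0) (nat_lit 145701163444) (nat_lit 152) (nat_lit 308013178563) (nat_lit 76) (nat_lit 577294494868) (nat_lit 6) (nat_lit 5) (nat_lit 8) (nat_lit 5) (nat_lit 7) (nat_lit 4) (nat_lit 324) (nat_lit 285) (nat_lit 111)))) (XT.nd (nat_lit 156) (nat_lit 0) (nat_lit 0) (XT.nd (nat_lit 78) (nat_lit 76) (nat_lit 0) (XT.lf (nat_lit 0) (nat_lit 253520620356) (nat_lit 152) (nat_lit 83748777374) (nat_lit 76) (nat_lit 764576708133) (nat_lit 6) (nat_lit 5) (nat_lit 8) (nat_lit 5) (nat_lit 7) (nat_lit 4) (nat_lit 325) (nat_lit 285) (nat_lit 110)) (XT.lf (nat_lit 0) (nat_lit 166800772057) (nat_lit 76) (nat_lit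 207176393247) (nat_lit 152) (nat_lit 804052268617) (nat_lit 5) (nat_lit 5) (nat_lit 6) (nat_lit 5) (nat_lit 7) (nat_lit 4) (nat_lit 326) (nat_lit 285) (nat_lit 109))) (XT.nd (nat_lit 78) (nat_lit 0) (nat_lit 0) (XT.lf (nat_lit 0) (nat_lit 442157099968) (nat_lit 76) (nat_lit 64202943811) (nat_lit 152) (nat_lit 753764199718) (nat_lit 5) (nat_lit 5) (nat_lit 6) (nat_lit 5) (nat_lit 7) (nat_lit 4) (nat_lit 327) (nat_lit 285) (nat_lit 108)) (XT.lf (nat_lit 0) (nat_lit 651503037944) (nat_lit 152) (nat_lit 611414268011) (nat_lit 0) (nat_lit 85695773113) (nat_lit 5) (nat_lit 5) (nat_lit 7) (nat_lit 4) (nat_lit 5) (nat_lit 4) (nat_lit 328) (nat_lit 285) (nat_lit 107))))))) (XT.nd (nat_lit 35022) (nat_lit 0) (nat_lit 760) (XT.nd (nat_lit 34554) (nat_lit 0) (nat_lit 1672) (XT.nd (nat_lit 34320) (nat_lit 0) (nat_lit 2204) (XT.nd (nat_lit 34164) (nat_lit 0) (nat_lit 2128) (XT.lf (nat_lit 0) (nat_lit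 809925054335) (nat_lit 152) (nat_lit 390004818174) (nat_lit 0) (nat_lit 244117742416) (nat_lit 5) (nat_lit 5) (nat_lit 7) (nat_lit 4) (nat_lit 5) (nat_lit 4) (nat_lit 329) (nat_lit 285) (nat_lit 106)) (XT.nd (nat_lit 78) (nat_lit 0) (nat_lit 0) (XT.lf (nat_lit 0) (nat_lit 22020433621) (nat_lit 532) (nat_lit 24386418052) (nat_lit 532) (nat_lit 24386418052) (nat_lit 33) (nat_lit 3) (nat_lit 40) (nat_lit 3) (nat_lit 40) (nat_lit 5) (nat_lit 286) (nat_lit 286) (nat_lit 148)) (XT.lf (nat_lit 76) (nat_lit 11399451366) (nat_lit 0) (nat_lit 34680100508) (nat_lit 532) (nat_lit 101148268326) (nat_lit 34) (nat_lit 5) (nat_lit 33) (nat_lit 3) (nat_lit 40) (nat_lit 5) (nat_lit 287) (nat_lit 286) (nat_lit 147)))) (XT.nd (nat_lit 78) (nat_lit 0) (nat_lit 0) (XT.lf (nat_lit 0) (nat_lit 50325120476) (nat_lit 456) (nat_lit 74765181698) (nat_lit 532) (nat_lit 28066599783) (nat_lit 34) (nat_lit 5) (nat_lit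 40) (nat_lit 5) (nat_lit 41) (nat_lit 5) (nat_lit 288) (nat_lit 286) (nat_lit 146)) (XT.nd (nat_lit 78) (nat_lit 0) (nat_lit 76) (XT.lf (nat_lit 0) (nat_lit 55810847577) (nat_lit 456) (nat_lit 9717900720) (nat_lit 532) (nat_lit 93959522476) (nat_lit 34) (nat_lit 5) (nat_lit 40) (nat_lit 5) (nat_lit 41) (nat_lit 5) (nat_lit 289) (nat_lit 286) (nat_lit 145)) (XT.lf (nat_lit 0) (nat_lit 63278556936) (nat_lit 456) (nat_lit 102493906992) (nat_lit 532) (nat_lit 430236683) (nat_lit 35) (nat_lit 5) (nat_lit 41) (nat_lit 5) (nat_lit 42) (nat_lit 5) (nat_lit 290) (nat_lit 286) (nat_lit 144))))) (XT.nd (nat_lit 234) (nat_lit 608) (nat_lit 0) (XT.nd (nat_lit 78) (nat_lit 0) (nat_lit 0) (XT.lf (nat_lit 0) (nat_lit 73318101884) (nat_lit 456) (nat_lit 31579869806) (nat_lit 532) (nat_lit 68398360975) (nat_lit 35) (nat_lit 5) (nat_lit 41) (nat_lit 5) (nat_lit 42) (nat_lit 5) (nat_lit 291) (nat_lit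 286) (nat_lit 143)) (XT.nd (nat_lit 78) (nat_lit 0) (nat_lit 76) (XT.lf (nat_lit 76) (nat_lit 47377115509) (nat_lit 0) (nat_lit 37922900301) (nat_lit 532) (nat_lit 95566304281) (nat_lit 36) (nat_lit 5) (nat_lit 35) (nat_lit 5) (nat_lit 42) (nat_lit 5) (nat_lit 292) (nat_lit 286) (nat_lit 142)) (XT.lf (nat_lit 0) (nat_lit 99953722787) (nat_lit 456) (nat_lit 55376372620) (nat_lit 76) (nat_lit 33574753056) (nat_lit 36) (nat_lit 5) (nat_lit 42) (nat_lit 5) (nat_lit 37) (nat_lit 5) (nat_lit 293) (nat_lit 286) (nat_lit 141)))) (XT.nd (nat_lit 78) (nat_lit 228) (nat_lit 0) (XT.lf (nat_lit 0) (nat_lit 29474751520) (nat_lit 456) (nat_lit 87998666172) (nat_lit 532) (nat_lit 79977547165) (nat_lit 30) (nat_lit 5) (nat_lit 36) (nat_lit 5) (nat_lit 37) (nat_lit 5) (nat_lit 294) (nat_lit 286) (nat_lit 140)) (XT.nd (nat_lit 78) (nat_lit 228) (nat_lit 0) (XT.lf (nat_lit 0) (nat_lit 124263102858) (nat_lit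 456) (nat_lit 13645495880) (nat_lit 532) (nat_lit 68651059963) (nat_lit 30) (nat_lit 5) (nat_lit 36) (nat_lit 5) (nat_lit 37) (nat_lit 5) (nat_lit 295) (nat_lit 286) (nat_lit 139)) (XT.lf (nat_lit 0) (nat_lit 9088892668) (nat_lit 228) (nat_lit 152711202156) (nat_lit 304) (nat_lit 54451234093) (nat_lit 27) (nat_lit 5) (nat_lit 30) (nat_lit 5) (nat_lit 31) (nat_lit 5) (nat_lit 296) (nat_lit 286) (nat_lit 138)))))) (XT.nd (nat_lit 468) (nat_lit 456) (nat_lit 0) (XT.nd (nat_lit 234) (nat_lit 228) (nat_lit 0) (XT.nd (nat_lit 78) (nat_lit 228) (nat_lit 0) (XT.lf (nat_lit 0) (nat_lit 112092199199) (nat_lit 228) (nat_lit 78106144688) (nat_lit 304) (nat_lit 36312355043) (nat_lit 27) (nat_lit 5) (nat_lit 30) (nat_lit 5) (nat_lit 31) (nat_lit 5) (nat_lit 297) (nat_lit 286) (nat_lit 137)) (XT.nd (nat_lit 78) (nat_lit 228) (nat_lit 0) (XT.lf (nat_lit 0) (nat_lit 220927647316) (nat_lit 304) (nat_lit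 14314551228) (nat_lit 76) (nat_lit 2343885225) (nat_lit 27) (nat_lit 5) (nat_lit 31) (nat_lit 5) (nat_lit 28) (nat_lit 5) (nat_lit 298) (nat_lit 286) (nat_lit 136)) (XT.lf (nat_lit 0) (nat_lit 8804189257) (nat_lit 228) (nat_lit 152821027943) (nat_lit 76) (nat_lit 87556302955) (nat_lit 24) (nat_lit 5) (nat_lit 27) (nat_lit 5) (nat_lit 25) (nat_lit 5) (nat_lit 299) (nat_lit 286) (nat_lit 135)))) (XT.nd (nat_lit 78) (nat_lit 228) (nat_lit 0) (XT.lf (nat_lit 0) (nat_lit 35805256340) (nat_lit 228) (nat_lit 45412668260) (nat_lit 76) (nat_lit 180419938972) (nat_lit 24) (nat_lit 5) (nat_lit 27) (nat_lit 5) (nat_lit 25) (nat_lit 5) (nat_lit 300) (nat_lit 286) (nat_lit 134)) (XT.nd (nat_lit 78) (nat_lit 0) (nat_lit 0) (XT.lf (nat_lit 0) (nat_lit 66934954746) (nat_lit 304) (nat_lit 200824118914) (nat_lit 76) (nat_lit 7174157701) (nat_lit 21) (nat_lit 5) (nat_lit 25) (nat_lit 5) (nat_lit 22) (nat_lit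 5) (nat_lit 301) (nat_lit 286) (nat_lit 133)) (XT.lf (nat_lit 0) (nat_lit 103938382641) (nat_lit 304) (nat_lit 85559558248) (nat_lit 76) (nat_lit 99523619925) (nat_lit 21) (nat_lit 5) (nat_lit 25) (nat_lit 5) (nat_lit 22) (nat_lit 5) (nat_lit 302) (nat_lit 286) (nat_lit 132))))) (XT.nd (nat_lit 234) (nat_lit 304) (nat_lit 0) (XT.nd (nat_lit 78) (nat_lit 0) (nat_lit 0) (XT.lf (nat_lit 0) (nat_lit 40975804510) (nat_lit 152) (nat_lit 103911641306) (nat_lit 228) (nat_lit 159270682413) (nat_lit 19) (nat_lit 5) (nat_lit 21) (nat_lit 5) (nat_lit 22) (nat_lit 5) (nat_lit 303) (nat_lit 286) (nat_lit 131)) (XT.nd (nat_lit 78) (nat_lit 0) (nat_lit 0) (XT.lf (nat_lit 0) (nat_lit 182499709229) (nat_lit 152) (nat_lit 8951971487) (nat_lit 228) (nat_lit 128866801045) (nat_lit 19) (nat_lit 5) (nat_lit 21) (nat_lit 5) (nat_lit 22) (nat_lit 5) (nat_lit 304) (nat_lit 286) (nat_lit 130)) (XT.lf (nat_lit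 0) (nat_lit 243992147875) (nat_lit 228) (nat_lit 4677459371) (nat_lit 76) (nat_lit 88921969272) (nat_lit 19) (nat_lit 5) (nat_lit 22) (nat_lit 5) (nat_lit 20) (nat_lit 5) (nat_lit 305) (nat_lit 286) (nat_lit 129)))) (XT.nd (nat_lit 156) (nat_lit 152) (nat_lit 0) (XT.nd (nat_lit 78) (nat_lit 0) (nat_lit 0) (XT.lf (nat_lit 0) (nat_lit 146195824839) (nat_lit 152) (nat_lit 158288470214) (nat_lit 228) (nat_lit 51462348782) (nat_lit 17) (nat_lit 5) (nat_lit 19) (nat_lit 5) (nat_lit 20) (nat_lit 5) (nat_lit 306) (nat_lit 286) (nat_lit 128)) (XT.lf (nat_lit 0) (nat_lit 309404863629) (nat_lit 152) (nat_lit 60538754944) (nat_lit 228) (nat_lit 5816273961) (nat_lit 17) (nat_lit 5) (nat_lit 19) (nat_lit 5) (nat_lit 20) (nat_lit 5) (nat_lit 307) (nat_lit 286) (nat_lit 127))) (XT.nd (nat_lit 78) (nat_lit 0) (nat_lit 0) (XT.lf (nat_lit 0) (nat_lit 44688300607) (nat_lit 152) (nat_lit 305992660146)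 (nat_lit 76) (nat_lit 46123027514) (nat_lit 15) (nat_lit 5) (nat_lit 17) (nat_lit 5) (nat_lit 16) (nat_lit 5) (nat_lit 308) (nat_lit 286) (nat_lit 126)) (XT.lf (nat_lit 0) (nat_lit 102352755306) (nat_lit 152) (nat_lit 156832556496) (nat_lit 76) (nat_lit 160059514856) (nat_lit 15) (nat_lit 5) (nat_lit 17) (nat_lit 5) (nat_lit 16) (nat_lit 5) (nat_lit 309) (nat_lit 286) (nat_lit 125))))))))
noncomputable def xc117 : XT := (XT.nd (nat_lit 36192) (nat_lit 0) (nat_lit 304) (XT.nd (nat_lit 936) (nat_lit 228) (nat_lit 0) (XT.nd (nat_lit 468) (nat_lit 228) (nat_lit 0) (XT.nd (nat_lit 234) (nat_lit 152) (nat_lit 0) (XT.nd (nat_lit 78) (nat_lit 0) (nat_lit 0) (XT.lf (nat_lit 0) (nat_lit 4484583221) (nat_lit 152) (nat_lit 160253564357) (nat_lit 228) (nat_lit 278734162313) (nat_lit 13) (nat_lit 5) (nat_lit 15) (nat_lit 5) (nat_lit 16) (nat_lit 5) (nat_lit 310) (nat_lit 286) (nat_lit 124)) (XT.nd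 (nat_lit 78) (nat_lit 0) (nat_lit 0) (XT.lf (nat_lit 0) (nat_lit 187626194098) (nat_lit 152) (nat_lit 48776186882) (nat_lit 228) (nat_lit 232892570269) (nat_lit 13) (nat_lit 5) (nat_lit 15) (nat_lit 5) (nat_lit 16) (nat_lit 5) (nat_lit 311) (nat_lit 286) (nat_lit 123)) (XT.lf (nat_lit 0) (nat_lit 315522135006) (nat_lit 228) (nat_lit 113486821115) (nat_lit 76) (nat_lit 68036657466) (nat_lit 13) (nat_lit 5) (nat_lit 16) (nat_lit 5) (nat_lit 14) (nat_lit 4) (nat_lit 312) (nat_lit 286) (nat_lit 122)))) (XT.nd (nat_lit 78) (nat_lit 76) (nat_lit 0) (XT.lf (nat_lit 0) (nat_lit 70404582655) (nat_lit 76) (nat_lit 333526971549) (nat_lit 152) (nat_lit 122847968130) (nat_lit 12) (nat_lit 5) (nat_lit 13) (nat_lit 5) (nat_lit 14) (nat_lit 4) (nat_lit 313) (nat_lit 286) (nat_lit 121)) (XT.nd (nat_lit 78) (nat_lit 76) (nat_lit 0) (XT.lf (nat_lit 0) (nat_lit 275461301653) (nat_lit 76) (nat_lit 227055297370)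 (nat_lit 152) (nat_lit 56127315187) (nat_lit 12) (nat_lit 5) (nat_lit 13) (nat_lit 5) (nat_lit 14) (nat_lit 4) (nat_lit 314) (nat_lit 286) (nat_lit 120)) (XT.lf (nat_lit 0) (nat_lit 15134001395) (nat_lit 152) (nat_lit 96518129320) (nat_lit 76) (nat_lit 481374680110) (nat_lit 11) (nat_lit 5) (nat_lit 13) (nat_lit 5) (nat_lit 12) (nat_lit 5) (nat_lit 315) (nat_lit 286) (nat_lit 119))))) (XT.nd (nat_lit 234) (nat_lit 76) (nat_lit 0) (XT.nd (nat_lit 78) (nat_lit 0) (nat_lit 0) (XT.lf (nat_lit 0) (nat_lit 92105422136) (nat_lit 228) (nat_lit 521173995109) (nat_lit 76) (nat_lit 16520971355) (nat_lit 9) (nat_lit 5) (nat_lit 12) (nat_lit 5) (nat_lit 10) (nat_lit 4) (nat_lit 316) (nat_lit 286) (nat_lit 118)) (XT.nd (nat_lit 78) (nat_lit 0) (nat_lit 0) (XT.lf (nat_lit 0) (nat_lit 180842082779) (nat_lit 228) (nat_lit 336601869033) (nat_lit 76) (nat_lit 151623298829) (nat_lit 9) (nat_lit 5) (nat_lit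 12) (nat_lit 5) (nat_lit 10) (nat_lit 4) (nat_lit 317) (nat_lit 286) (nat_lit 117)) (XT.lf (nat_lit 0) (nat_lit 276677629373) (nat_lit 228) (nat_lit 137264050691) (nat_lit 76) (nat_lit 297533785466) (nat_lit 9) (nat_lit 5) (nat_lit 12) (nat_lit 5) (nat_lit 10) (nat_lit 4) (nat_lit 318) (nat_lit 286) (nat_lit 116)))) (XT.nd (nat_lit 78) (nat_lit 0) (nat_lit 0) (XT.lf (nat_lit 0) (nat_lit 82129153968) (nat_lit 76) (nat_lit 300026030429) (nat_lit 152) (nat_lit 374963140159) (nat_lit 8) (nat_lit 5) (nat_lit 9) (nat_lit 5) (nat_lit 10) (nat_lit 4) (nat_lit 319) (nat_lit 286) (nat_lit 115)) (XT.nd (nat_lit 78) (nat_lit 0) (nat_lit 0) (XT.lf (nat_lit 0) (nat_lit 326880072959) (nat_lit 76) (nat_lit 172943871366) (nat_lit 152) (nat_lit 306288428055) (nat_lit 8) (nat_lit 5) (nat_lit 9) (nat_lit 5) (nat_lit 10) (nat_lit 4) (nat_lit 320) (nat_lit 286) (nat_lit 114)) (XT.lf (nat_lit 0) (nat_lit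 591211000439) (nat_lit 76) (nat_lit 35695165813) (nat_lit 152) (nat_lit 232119780986) (nat_lit 8) (nat_lit 5) (nat_lit 9) (nat_lit 5) (nat_lit 10) (nat_lit 4) (nat_lit 321) (nat_lit 286) (nat_lit 113)))))) (XT.nd (nat_lit 468) (nat_lit 0) (nat_lit 0) (XT.nd (nat_lit 234) (nat_lit 76) (nat_lit 0) (XT.nd (nat_lit 78) (nat_lit 152) (nat_lit 0) (XT.lf (nat_lit 0) (nat_lit 766861361276) (nat_lit 152) (nat_lit 42190700413) (nat_lit 0) (nat_lit 106904034866) (nat_lit 8) (nat_lit 5) (nat_lit 10) (nat_lit 4) (nat_lit 8) (nat_lit 4) (nat_lit 322) (nat_lit 286) (nat_lit 112)) (XT.nd (nat_lit 78) (nat_lit 76) (nat_lit 0) (XT.lf (nat_lit 0) (nat_lit 211117218875) (nat_lit 76) (nat_lit 712900240580) (nat_lit 76) (nat_lit 52942839448) (nat_lit 7) (nat_lit 4) (nat_lit 8) (nat_lit 5) (nat_lit 8) (nat_lit 4) (nat_lit 323) (nat_lit 286) (nat_lit 111)) (XT.lf (nat_lit 0) (nat_lit 49538421224) (nat_lit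 152) (nat_lit 556917554171) (nat_lit 76) (nat_lit 436196248279) (nat_lit 6) (nat_lit 5) (nat_lit 8) (nat_lit 5) (nat_lit 7) (nat_lit 4) (nat_lit 324) (nat_lit 286) (nat_lit 110)))) (XT.nd (nat_lit 78) (nat_lit 76) (nat_lit 0) (XT.lf (nat_lit 0) (nat_lit 157357863187) (nat_lit 152) (nat_lit 332653178952) (nat_lit 76) (nat_lit 623478451753) (nat_lit 6) (nat_lit 5) (nat_lit 8) (nat_lit 5) (nat_lit 7) (nat_lit 4) (nat_lit 325) (nat_lit 286) (nat_lit 109)) (XT.nd (nat_lit 78) (nat_lit 76) (nat_lit 0) (XT.lf (nat_lit 0) (nat_lit 273802831713) (nat_lit 152) (nat_lit 90447703733) (nat_lit 76) (nat_lit 825743212650) (nat_lit 6) (nat_lit 5) (nat_lit 8) (nat_lit 5) (nat_lit 7) (nat_lit 4) (nat_lit 326) (nat_lit 286) (nat_lit 108)) (XT.lf (nat_lit 0) (nat_lit 180145784947) (nat_lit 76) (nat_lit 223750096576) (nat_lit 152) (nat_lit 868375862472) (nat_lit 5) (nat_lit 5) (nat_lit 6) (nat_lit 5) (nat_lit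 7) (nat_lit 4) (nat_lit 327) (nat_lit 286) (nat_lit 107))))) (XT.nd (nat_lit 34476) (nat_lit 0) (nat_lit 2204) (XT.nd (nat_lit 34320) (nat_lit 0) (nat_lit 2128) (XT.lf (nat_lit 0) (nat_lit 477530548637) (nat_lit 76) (nat_lit 69338801417) (nat_lit 152) (nat_lit 814064791590) (nat_lit 5) (nat_lit 5) (nat_lit 6) (nat_lit 5) (nat_lit 7) (nat_lit 4) (nat_lit 328) (nat_lit 286) (nat_lit 106)) (XT.nd (nat_lit 78) (nat_lit 0) (nat_lit 0) (XT.lf (nat_lit 0) (nat_lit 23784891600) (nat_lit 532) (nat_lit 26335798705) (nat_lit 532) (nat_lit 26335798705) (nat_lit 33) (nat_lit 3) (nat_lit 40) (nat_lit 3) (nat_lit 40) (nat_lit 5) (nat_lit 287) (nat_lit 287) (nat_lit 146)) (XT.lf (nat_lit 76) (nat_lit 12314395448) (nat_lit 0) (nat_lit 37456820751) (nat_lit 532) (nat_lit 109234375179) (nat_lit 34) (nat_lit 5) (nat_lit 33) (nat_lit 3) (nat_lit 40) (nat_lit 5) (nat_lit 288) (nat_lit 287) (nat_lit 145))))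 (XT.nd (nat_lit 156) (nat_lit 0) (nat_lit 76) (XT.nd (nat_lit 78) (nat_lit 0) (nat_lit 0) (XT.lf (nat_lit 0) (nat_lit 54355986193) (nat_lit 456) (nat_lit 80743157328) (nat_lit 532) (nat_lit 30309893936) (nat_lit 34) (nat_lit 5) (nat_lit 40) (nat_lit 5) (nat_lit 41) (nat_lit 5) (nat_lit 289) (nat_lit 287) (nat_lit 144)) (XT.lf (nat_lit 0) (nat_lit 60280211752) (nat_lit 456) (nat_lit 10492333790) (nat_lit 532) (nat_lit 101474401098) (nat_lit 34) (nat_lit 5) (nat_lit 40) (nat_lit 5) (nat_lit 41) (nat_lit 5) (nat_lit 290) (nat_lit 287) (nat_lit 143))) (XT.nd (nat_lit 78) (nat_lit 0) (nat_lit 0) (XT.lf (nat_lit 0) (nat_lit 68345043577) (nat_lit 456) (nat_lit 110690102128) (nat_lit 532) (nat_lit 463410635) (nat_lit 35) (nat_lit 5) (nat_lit 41) (nat_lit 5) (nat_lit 42) (nat_lit 5) (nat_lit 291) (nat_lit 287) (nat_lit 142)) (XT.lf (nat_lit 0) (nat_lit 79187440856) (nat_lit 456) (nat_lit 34103187703)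 (nat_lit 532) (nat_lit 73869077091) (nat_lit 35) (nat_lit 5) (nat_lit 41) (nat_lit 5) (nat_lit 42) (nat_lit 5) (nat_lit 292) (nat_lit 287) (nat_lit 141))))))) (XT.nd (nat_lit 936) (nat_lit 760) (nat_lit 0) (XT.nd (nat_lit 468) (nat_lit 608) (nat_lit 0) (XT.nd (nat_lit 234) (nat_lit 228) (nat_lit 0) (XT.nd (nat_lit 78) (nat_lit 380) (nat_lit 0) (XT.lf (nat_lit 76) (nat_lit 51170278673) (nat_lit 0) (nat_lit 40957413018) (nat_lit 532) (nat_lit 103207619333) (nat_lit 36) (nat_lit 5) (nat_lit 35) (nat_lit 5) (nat_lit 42) (nat_lit 5) (nat_lit 293) (nat_lit 287) (nat_lit 140)) (XT.nd (nat_lit 78) (nat_lit 456) (nat_lit 0) (XT.lf (nat_lit 0) (nat_lit 107953407874) (nat_lit 456) (nat_lit 59803403753) (nat_lit 76) (nat_lit 36260134559) (nat_lit 36) (nat_lit 5) (nat_lit 42) (nat_lit 5) (nat_lit 37) (nat_lit 5) (nat_lit 294) (nat_lit 287) (nat_lit 139)) (XT.lf (nat_lit 0) (nat_lit 31835732376)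 (nat_lit 456) (nat_lit 95038767254) (nat_lit 532) (nat_lit 86372267980) (nat_lit 30) (nat_lit 5) (nat_lit 36) (nat_lit 5) (nat_lit 37) (nat_lit 5) (nat_lit 295) (nat_lit 287) (nat_lit 138)))) (XT.nd (nat_lit 78) (nat_lit 228) (nat_lit 0) (XT.lf (nat_lit 0) (nat_lit 134206929544) (nat_lit 456) (nat_lit 14737327947) (nat_lit 532) (nat_lit 74139919799) (nat_lit 30) (nat_lit 5) (nat_lit 36) (nat_lit 5) (nat_lit 37) (nat_lit 5) (nat_lit 296) (nat_lit 287) (nat_lit 137)) (XT.nd (nat_lit 78) (nat_lit 0) (nat_lit 0) (XT.lf (nat_lit 0) (nat_lit 9818964382) (nat_lit 228) (nat_lit 164927955730) (nat_lit 304) (nat_lit 58804274482) (nat_lit 27) (nat_lit 5) (nat_lit 30) (nat_lit 5) (nat_lit 31) (nat_lit 5) (nat_lit 297) (nat_lit 287) (nat_lit 136)) (XT.lf (nat_lit 0) (nat_lit 121062316154) (nat_lit 228) (nat_lit 84354504228) (nat_lit 304) (nat_lit 39214511652) (nat_lit 27) (nat_lit 5) (nat_lit 30)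 (nat_lit 5) (nat_lit 31) (nat_lit 5) (nat_lit 298) (nat_lit 287) (nat_lit 135))))) (XT.nd (nat_lit 234) (nat_lit 380) (nat_lit 0) (XT.nd (nat_lit 78) (nat_lit 228) (nat_lit 0) (XT.lf (nat_lit 0) (nat_lit 238604277767) (nat_lit 304) (nat_lit 15456973980) (nat_lit 76) (nat_lit 2531512183) (nat_lit 27) (nat_lit 5) (nat_lit 31) (nat_lit 5) (nat_lit 28) (nat_lit 5) (nat_lit 299) (nat_lit 287) (nat_lit 134)) (XT.nd (nat_lit 78) (nat_lit 0) (nat_lit 0) (XT.lf (nat_lit 0) (nat_lit 9510899479) (nat_lit 228) (nat_lit 165043901978) (nat_lit 76) (nat_lit 94561039116) (nat_lit 24) (nat_lit 5) (nat_lit 27) (nat_lit 5) (nat_lit 25) (nat_lit 5) (nat_lit 300) (nat_lit 287) (nat_lit 133)) (XT.lf (nat_lit 0) (nat_lit 38671875997) (nat_lit 228) (nat_lit 49043081535) (nat_lit 76) (nat_lit 194853748836) (nat_lit 24) (nat_lit 5) (nat_lit 27) (nat_lit 5) (nat_lit 25) (nat_lit 5) (nat_lit 301) (nat_lit 287)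 (nat_lit 132)))) (XT.nd (nat_lit 78) (nat_lit 152) (nat_lit 0) (XT.lf (nat_lit 0) (nat_lit 72291858840) (nat_lit 304) (nat_lit 216887347215) (nat_lit 76) (nat_lit 7748505606) (nat_lit 21) (nat_lit 5) (nat_lit 25) (nat_lit 5) (nat_lit 22) (nat_lit 5) (nat_lit 302) (nat_lit 287) (nat_lit 131)) (XT.nd (nat_lit 78) (nat_lit 152) (nat_lit 0) (XT.lf (nat_lit 0) (nat_lit 112255404840) (nat_lit 304) (nat_lit 92401821785) (nat_lit 76) (nat_lit 107485894045) (nat_lit 21) (nat_lit 5) (nat_lit 25) (nat_lit 5) (nat_lit 22) (nat_lit 5) (nat_lit 303) (nat_lit 287) (nat_lit 130)) (XT.lf (nat_lit 0) (nat_lit 44256306673) (nat_lit 152) (nat_lit 112224000463) (nat_lit 228) (nat_lit 172010313876) (nat_lit 19) (nat_lit 5) (nat_lit 21) (nat_lit 5) (nat_lit 22) (nat_lit 5) (nat_lit 304) (nat_lit 287) (nat_lit 129)))))) (XT.nd (nat_lit 468) (nat_lit 456) (nat_lit 0) (XT.nd (nat_lit 234) (nat_lit 152) (nat_lit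 0) (XT.nd (nat_lit 78) (nat_lit 152) (nat_lit 0) (XT.lf (nat_lit 0) (nat_lit 197101943192) (nat_lit 152) (nat_lit 9667599439) (nat_lit 228) (nat_lit 139174271860) (nat_lit 19) (nat_lit 5) (nat_lit 21) (nat_lit 5) (nat_lit 22) (nat_lit 5) (nat_lit 305) (nat_lit 287) (nat_lit 128)) (XT.nd (nat_lit 78) (nat_lit 152) (nat_lit 0) (XT.lf (nat_lit 0) (nat_lit 263513131001) (nat_lit 228) (nat_lit 5049442885) (nat_lit 76) (nat_lit 96036192801) (nat_lit 19) (nat_lit 5) (nat_lit 22) (nat_lit 5) (nat_lit 20) (nat_lit 5) (nat_lit 306) (nat_lit 287) (nat_lit 127)) (XT.lf (nat_lit 0) (nat_lit 157893648030) (nat_lit 152) (nat_lit 170950934448) (nat_lit 228) (nat_lit 55577662831) (nat_lit 17) (nat_lit 5) (nat_lit 19) (nat_lit 5) (nat_lit 20) (nat_lit 5) (nat_lit 307) (nat_lit 287) (nat_lit 126)))) (XT.nd (nat_lit 78) (nat_lit 152) (nat_lit 0) (XT.lf (nat_lit 0) (nat_lit 334159250130) (nat_lit 152)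 (nat_lit 65381287392) (nat_lit 228) (nat_lit 6280026013) (nat_lit 17) (nat_lit 5) (nat_lit 19) (nat_lit 5) (nat_lit 20) (nat_lit 5) (nat_lit 308) (nat_lit 287) (nat_lit 125)) (XT.nd (nat_lit 78) (nat_lit 0) (nat_lit 0) (XT.lf (nat_lit 0) (nat_lit 48264791509) (nat_lit 152) (nat_lit 330469941757) (nat_lit 76) (nat_lit 49813454732) (nat_lit 15) (nat_lit 5) (nat_lit 17) (nat_lit 5) (nat_lit 16) (nat_lit 5) (nat_lit 309) (nat_lit 287) (nat_lit 124)) (XT.lf (nat_lit 0) (nat_lit 110542296891) (nat_lit 152) (nat_lit 169377187682) (nat_lit 76) (nat_lit 172864817727) (nat_lit 15) (nat_lit 5) (nat_lit 17) (nat_lit 5) (nat_lit 16) (nat_lit 5) (nat_lit 310) (nat_lit 287) (nat_lit 123))))) (XT.nd (nat_lit 234) (nat_lit 304) (nat_lit 0) (XT.nd (nat_lit 78) (nat_lit 0) (nat_lit 0) (XT.lf (nat_lit 0) (nat_lit 4845273255) (nat_lit 152) (nat_lit 173073195684) (nat_lit 228) (nat_lit 301031519737) (nat_lit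 13) (nat_lit 5) (nat_lit 15) (nat_lit 5) (nat_lit 16) (nat_lit 5) (nat_lit 311) (nat_lit 287) (nat_lit 122)) (XT.nd (nat_lit 78) (nat_lit 0) (nat_lit 0) (XT.lf (nat_lit 0) (nat_lit 202638070530) (nat_lit 152) (nat_lit 52677676442) (nat_lit 228) (nat_lit 251522702223) (nat_lit 13) (nat_lit 5) (nat_lit 15) (nat_lit 5) (nat_lit 16) (nat_lit 5) (nat_lit 312) (nat_lit 287) (nat_lit 121)) (XT.lf (nat_lit 0) (nat_lit 340765007726) (nat_lit 228) (nat_lit 122564040416) (nat_lit 76) (nat_lit 73480122570) (nat_lit 13) (nat_lit 5) (nat_lit 16) (nat_lit 5) (nat_lit 14) (nat_lit 4) (nat_lit 313) (nat_lit 287) (nat_lit 120)))) (XT.nd (nat_lit 156) (nat_lit 228) (nat_lit 0) (XT.nd (nat_lit 78) (nat_lit 0) (nat_lit 0) (XT.lf (nat_lit 0) (nat_lit 76038631949) (nat_lit 76) (nat_lit 360208507356) (nat_lit 152) (nat_lit 132674656429) (nat_lit 12) (nat_lit 5) (nat_lit 13) (nat_lit 5) (nat_lit 14) (nat_lit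 4) (nat_lit 314) (nat_lit 287) (nat_lit 119)) (XT.lf (nat_lit 0) (nat_lit 297499763824) (nat_lit 76) (nat_lit 245219145310) (nat_lit 152) (nat_lit 60616436373) (nat_lit 12) (nat_lit 5) (nat_lit 13) (nat_lit 5) (nat_lit 14) (nat_lit 4) (nat_lit 315) (nat_lit 287) (nat_lit 118))) (XT.nd (nat_lit 78) (nat_lit 152) (nat_lit 0) (XT.lf (nat_lit 0) (nat_lit 16345657435) (nat_lit 152) (nat_lit 104238084954) (nat_lit 76) (nat_lit 519885135629) (nat_lit 11) (nat_lit 5) (nat_lit 13) (nat_lit 5) (nat_lit 12) (nat_lit 5) (nat_lit 316) (nat_lit 287) (nat_lit 117)) (XT.lf (nat_lit 0) (nat_lit 99474770899) (nat_lit 228) (nat_lit 562866396476) (nat_lit 76) (nat_lit 17843176522) (nat_lit 9) (nat_lit 5) (nat_lit 12) (nat_lit 5) (nat_lit 10) (nat_lit 4) (nat_lit 317) (nat_lit 287) (nat_lit 116))))))))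
noncomputable def xc118 : XT := (XT.nd (nat_lit 36270) (nat_lit 0) (nat_lit 76) (XT.nd (nat_lit 35256) (nat_lit 0) (nat_lit 1444) (XT.nd (nat_lit 468) (nat_lit 228) (nat_lit 0) (XT.nd (nat_lit 234) (nat_lit 0) (nat_lit 0) (XT.nd (nat_lit 78) (nat_lit 76) (nat_lit 0) (XT.lf (nat_lit 0) (nat_lit 195310296615) (nat_lit 228) (nat_lit 363528612776) (nat_lit 76) (nat_lit 163753651123) (nat_lit 9) (nat_lit 5) (nat_lit 12) (nat_lit 5) (nat_lit 10) (nat_lit 4) (nat_lit 318) (nat_lit 287) (nat_lit 115)) (XT.nd (nat_lit 78) (nat_lit 76) (nat_lit 0) (XT.lf (nat_lit 0) (nat_lit 298812624181) (nat_lit 228) (nat_lit 148243873099) (nat_lit 76) (nat_lit 321336940514) (nat_lit 9) (nat_lit 5) (nat_lit 12) (nat_lit 5) (nat_lit 10) (nat_lit 4) (nat_lit 319) (nat_lit 287) (nat_lit 114)) (XT.lf (nat_lit 0) (nat_lit 88700754980) (nat_lit 76) (nat_lit 324027601031) (nat_lit 152) (nat_lit 404959371904) (nat_lit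 8) (nat_lit 5) (nat_lit 9) (nat_lit 5) (nat_lit 10) (nat_lit 4) (nat_lit 320) (nat_lit 287) (nat_lit 113)))) (XT.nd (nat_lit 78) (nat_lit 0) (nat_lit 0) (XT.lf (nat_lit 0) (nat_lit 353031653512) (nat_lit 76) (nat_lit 186778907157) (nat_lit 152) (nat_lit 330790743532) (nat_lit 8) (nat_lit 5) (nat_lit 9) (nat_lit 5) (nat_lit 10) (nat_lit 4) (nat_lit 321) (nat_lit 287) (nat_lit 112)) (XT.nd (nat_lit 78) (nat_lit 0) (nat_lit 0) (XT.lf (nat_lit 0) (nat_lit 638508968175) (nat_lit 76) (nat_lit 38550340265) (nat_lit 152) (nat_lit 250688660902) (nat_lit 8) (nat_lit 5) (nat_lit 9) (nat_lit 5) (nat_lit 10) (nat_lit 4) (nat_lit 322) (nat_lit 287) (nat_lit 111)) (XT.lf (nat_lit 0) (nat_lit 828210880771) (nat_lit 152) (nat_lit 45564909388) (nat_lit 0) (nat_lit 115456743639) (nat_lit 8) (nat_lit 5) (nat_lit 10) (nat_lit 4) (nat_lit 8) (nat_lit 4) (nat_lit 323) (nat_lit 287) (nat_lit 110))))) (XT.nd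 (nat_lit 234) (nat_lit 76) (nat_lit 0) (XT.nd (nat_lit 78) (nat_lit 76) (nat_lit 0) (XT.lf (nat_lit 0) (nat_lit 228007616935) (nat_lit 76) (nat_lit 769931829185) (nat_lit 76) (nat_lit 57177627990) (nat_lit 7) (nat_lit 4) (nat_lit 8) (nat_lit 5) (nat_lit 8) (nat_lit 4) (nat_lit 324) (nat_lit 287) (nat_lit 109)) (XT.nd (nat_lit 78) (nat_lit 0) (nat_lit 0) (XT.lf (nat_lit 0) (nat_lit 53502056651) (nat_lit 152) (nat_lit 601469982675) (nat_lit 76) (nat_lit 471092316007) (nat_lit 6) (nat_lit 5) (nat_lit 8) (nat_lit 5) (nat_lit 7) (nat_lit 4) (nat_lit 325) (nat_lit 287) (nat_lit 108)) (XT.lf (nat_lit 0) (nat_lit 169947012361) (nat_lit 152) (nat_lit 359264529722) (nat_lit 76) (nat_lit 673357068510) (nat_lit 6) (nat_lit 5) (nat_lit 8) (nat_lit 5) (nat_lit 7) (nat_lit 4) (nat_lit 326) (nat_lit 287) (nat_lit 107)))) (XT.nd (nat_lit 78) (nat_lit 76) (nat_lit 0) (XT.lf (nat_lit 0) (nat_lit 295707539843)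 (nat_lit 152) (nat_lit 97682683415) (nat_lit 76) (nat_lit 891802985047) (nat_lit 6) (nat_lit 5) (nat_lit 8) (nat_lit 5) (nat_lit 7) (nat_lit 4) (nat_lit 327) (nat_lit 287) (nat_lit 106)) (XT.nd (nat_lit 34398) (nat_lit 0) (nat_lit 2128) (XT.lf (nat_lit 0) (nat_lit 194558263179) (nat_lit 76) (nat_lit 241649754395) (nat_lit 152) (nat_lit 937845427669) (nat_lit 5) (nat_lit 5) (nat_lit 6) (nat_lit 5) (nat_lit 7) (nat_lit 4) (nat_lit 328) (nat_lit 287) (nat_lit 105)) (XT.lf (nat_lit 0) (nat_lit 25690103444) (nat_lit 532) (nat_lit 28441348481) (nat_lit 532) (nat_lit 28441348481) (nat_lit 33) (nat_lit 3) (nat_lit 40) (nat_lit 3) (nat_lit 40) (nat_lit 5) (nat_lit 288) (nat_lit 288) (nat_lit 144)))))) (XT.nd (nat_lit 468) (nat_lit 684) (nat_lit 0) (XT.nd (nat_lit 234) (nat_lit 0) (nat_lit 152) (XT.nd (nat_lit 78) (nat_lit 0) (nat_lit 76) (XT.lf (nat_lit 76) (nat_lit 13302108788) (nat_lit 0)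 (nat_lit 40455348751) (nat_lit 532) (nat_lit 117968191541) (nat_lit 34) (nat_lit 5) (nat_lit 33) (nat_lit 3) (nat_lit 40) (nat_lit 5) (nat_lit 289) (nat_lit 288) (nat_lit 143)) (XT.nd (nat_lit 78) (nat_lit 0) (nat_lit 0) (XT.lf (nat_lit 0) (nat_lit 58708628393) (nat_lit 456) (nat_lit 87199833074) (nat_lit 532) (nat_lit 32732941769) (nat_lit 34) (nat_lit 5) (nat_lit 40) (nat_lit 5) (nat_lit 41) (nat_lit 5) (nat_lit 290) (nat_lit 288) (nat_lit 142)) (XT.lf (nat_lit 0) (nat_lit 65106483604) (nat_lit 456) (nat_lit 11329149345) (nat_lit 532) (nat_lit 109590738667) (nat_lit 34) (nat_lit 5) (nat_lit 40) (nat_lit 5) (nat_lit 41) (nat_lit 5) (nat_lit 291) (nat_lit 288) (nat_lit 141)))) (XT.nd (nat_lit 78) (nat_lit 0) (nat_lit 0) (XT.lf (nat_lit 0) (nat_lit 73816249675) (nat_lit 456) (nat_lit 119542466143) (nat_lit 532) (nat_lit 499416115) (nat_lit 35) (nat_lit 5) (nat_lit 41) (nat_lit 5) (nat_lit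 42) (nat_lit 5) (nat_lit 292) (nat_lit 288) (nat_lit 140)) (XT.nd (nat_lit 78) (nat_lit 0) (nat_lit 0) (XT.lf (nat_lit 0) (nat_lit 85525771876) (nat_lit 456) (nat_lit 36828809242) (nat_lit 532) (nat_lit 79777614951) (nat_lit 35) (nat_lit 5) (nat_lit 41) (nat_lit 5) (nat_lit 42) (nat_lit 5) (nat_lit 293) (nat_lit 288) (nat_lit 139)) (XT.lf (nat_lit 76) (nat_lit 55266467774) (nat_lit 0) (nat_lit 44234589643) (nat_lit 532) (nat_lit 111460808705) (nat_lit 36) (nat_lit 5) (nat_lit 35) (nat_lit 5) (nat_lit 42) (nat_lit 5) (nat_lit 294) (nat_lit 288) (nat_lit 138))))) (XT.nd (nat_lit 234) (nat_lit 456) (nat_lit 0) (XT.nd (nat_lit 78) (nat_lit 456) (nat_lit 0) (XT.lf (nat_lit 0) (nat_lit 116592584537) (nat_lit 456) (nat_lit 64585036585) (nat_lit 76) (nat_lit 39160432000) (nat_lit 36) (nat_lit 5) (nat_lit 42) (nat_lit 5) (nat_lit 37) (nat_lit 5) (nat_lit 295) (nat_lit 288) (nat_lit 137)) (XT.nd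 (nat_lit 78) (nat_lit 0) (nat_lit 0) (XT.lf (nat_lit 0) (nat_lit 34385163613) (nat_lit 456) (nat_lit 102642046780) (nat_lit 532) (nat_lit 93279063344) (nat_lit 30) (nat_lit 5) (nat_lit 36) (nat_lit 5) (nat_lit 37) (nat_lit 5) (nat_lit 296) (nat_lit 288) (nat_lit 136)) (XT.lf (nat_lit 0) (nat_lit 144945865988) (nat_lit 456) (nat_lit 15916479132) (nat_lit 532) (nat_lit 80068348499) (nat_lit 30) (nat_lit 5) (nat_lit 36) (nat_lit 5) (nat_lit 37) (nat_lit 5) (nat_lit 297) (nat_lit 288) (nat_lit 135)))) (XT.nd (nat_lit 156) (nat_lit 228) (nat_lit 0) (XT.nd (nat_lit 78) (nat_lit 0) (nat_lit 0) (XT.lf (nat_lit 0) (nat_lit 10607019513) (nat_lit 228) (nat_lit 178122069934) (nat_lit 304) (nat_lit 63505994409) (nat_lit 27) (nat_lit 5) (nat_lit 30) (nat_lit 5) (nat_lit 31) (nat_lit 5) (nat_lit 298) (nat_lit 288) (nat_lit 134)) (XT.lf (nat_lit 0) (nat_lit 130749651428) (nat_lit 228) (nat_lit 91102751367)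 (nat_lit 304) (nat_lit 42349244776) (nat_lit 27) (nat_lit 5) (nat_lit 30) (nat_lit 5) (nat_lit 31) (nat_lit 5) (nat_lit 299) (nat_lit 288) (nat_lit 133))) (XT.nd (nat_lit 78) (nat_lit 228) (nat_lit 0) (XT.lf (nat_lit 0) (nat_lit 257694693604) (nat_lit 304) (nat_lit 16691181635) (nat_lit 76) (nat_lit 2734132728) (nat_lit 27) (nat_lit 5) (nat_lit 31) (nat_lit 5) (nat_lit 28) (nat_lit 5) (nat_lit 300) (nat_lit 288) (nat_lit 132)) (XT.lf (nat_lit 0) (nat_lit 10273807687) (nat_lit 228) (nat_lit 178245006557) (nat_lit 76) (nat_lit 102126121084) (nat_lit 24) (nat_lit 5) (nat_lit 27) (nat_lit 5) (nat_lit 25) (nat_lit 5) (nat_lit 301) (nat_lit 288) (nat_lit 131))))))) (XT.nd (nat_lit 936) (nat_lit 532) (nat_lit 0) (XT.nd (nat_lit 468) (nat_lit 456) (nat_lit 0) (XT.nd (nat_lit 234) (nat_lit 152) (nat_lit 0) (XT.nd (nat_lit 78) (nat_lit 228) (nat_lit 0) (XT.lf (nat_lit 0) (nat_lit 41767511493)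 (nat_lit 228) (nat_lit 52964298818) (nat_lit 76) (nat_lit 210442232853) (nat_lit 24) (nat_lit 5) (nat_lit 27) (nat_lit 5) (nat_lit 25) (nat_lit 5) (nat_lit 302) (nat_lit 288) (nat_lit 130)) (XT.nd (nat_lit 78) (nat_lit 0) (nat_lit 0) (XT.lf (nat_lit 0) (nat_lit 78077014573) (nat_lit 304) (nat_lit 234236019138) (nat_lit 76) (nat_lit 8368742098) (nat_lit 21) (nat_lit 5) (nat_lit 25) (nat_lit 5) (nat_lit 22) (nat_lit 5) (nat_lit 303) (nat_lit 288) (nat_lit 129)) (XT.lf (nat_lit 0) (nat_lit 121237510399) (nat_lit 304) (nat_lit 99791823219) (nat_lit 76) (nat_lit 116085095239) (nat_lit 21) (nat_lit 5) (nat_lit 25) (nat_lit 5) (nat_lit 22) (nat_lit 5) (nat_lit 304) (nat_lit 288) (nat_lit 128)))) (XT.nd (nat_lit 78) (nat_lit 0) (nat_lit 0) (XT.lf (nat_lit 0) (nat_lit 47798901230) (nat_lit 152) (nat_lit 121201429976) (nat_lit 228) (nat_lit 185769404478) (nat_lit 19) (nat_lit 5) (nat_lit 21)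 (nat_lit 5) (nat_lit 22) (nat_lit 5) (nat_lit 305) (nat_lit 288) (nat_lit 127)) (XT.nd (nat_lit 78) (nat_lit 0) (nat_lit 0) (XT.lf (nat_lit 0) (nat_lit 212872033853) (nat_lit 152) (nat_lit 10440553205) (nat_lit 228) (nat_lit 150306607583) (nat_lit 19) (nat_lit 5) (nat_lit 21) (nat_lit 5) (nat_lit 22) (nat_lit 5) (nat_lit 306) (nat_lit 288) (nat_lit 126)) (XT.lf (nat_lit 0) (nat_lit 284595562907) (nat_lit 228) (nat_lit 5451500824) (nat_lit 76) (nat_lit 103719487733) (nat_lit 19) (nat_lit 5) (nat_lit 22) (nat_lit 5) (nat_lit 20) (nat_lit 5) (nat_lit 307) (nat_lit 288) (nat_lit 125))))) (XT.nd (nat_lit 234) (nat_lit 152) (nat_lit 0) (XT.nd (nat_lit 78) (nat_lit 152) (nat_lit 0) (XT.lf (nat_lit 0) (nat_lit 170526989327) (nat_lit 152) (nat_lit 184626483327) (nat_lit 228) (nat_lit 60022440797) (nat_lit 17) (nat_lit 5) (nat_lit 19) (nat_lit 5) (nat_lit 20) (nat_lit 5) (nat_lit 308) (nat_lit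 288) (nat_lit 124)) (XT.nd (nat_lit 78) (nat_lit 152) (nat_lit 0) (XT.lf (nat_lit 0) (nat_lit 360893702599) (nat_lit 152) (nat_lit 70611303460) (nat_lit 228) (nat_lit 6781099335) (nat_lit 17) (nat_lit 5) (nat_lit 19) (nat_lit 5) (nat_lit 20) (nat_lit 5) (nat_lit 309) (nat_lit 288) (nat_lit 123)) (XT.lf (nat_lit 0) (nat_lit 52127198126) (nat_lit 152) (nat_lit 356905709936) (nat_lit 76) (nat_lit 53799032669) (nat_lit 15) (nat_lit 5) (nat_lit 17) (nat_lit 5) (nat_lit 16) (nat_lit 5) (nat_lit 310) (nat_lit 288) (nat_lit 122)))) (XT.nd (nat_lit 78) (nat_lit 152) (nat_lit 0) (XT.lf (nat_lit 0) (nat_lit 119386813324) (nat_lit 152) (nat_lit 182925670881) (nat_lit 76) (nat_lit 186694467551) (nat_lit 15) (nat_lit 5) (nat_lit 17) (nat_lit 5) (nat_lit 16) (nat_lit 5) (nat_lit 311) (nat_lit 288) (nat_lit 121)) (XT.nd (nat_lit 78) (nat_lit 0) (nat_lit 0) (XT.lf (nat_lit 0) (nat_lit 5234544101) (nat_lit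 152) (nat_lit 186918490791) (nat_lit 228) (nat_lit 325112861994) (nat_lit 13) (nat_lit 5) (nat_lit 15) (nat_lit 5) (nat_lit 16) (nat_lit 5) (nat_lit 312) (nat_lit 288) (nat_lit 120)) (XT.lf (nat_lit 0) (nat_lit 218850643010) (nat_lit 152) (nat_lit 56891371532) (nat_lit 228) (nat_lit 271643426436) (nat_lit 13) (nat_lit 5) (nat_lit 15) (nat_lit 5) (nat_lit 16) (nat_lit 5) (nat_lit 313) (nat_lit 288) (nat_lit 119)))))) (XT.nd (nat_lit 468) (nat_lit 228) (nat_lit 0) (XT.nd (nat_lit 234) (nat_lit 228) (nat_lit 0) (XT.nd (nat_lit 78) (nat_lit 76) (nat_lit 0) (XT.lf (nat_lit 0) (nat_lit 368027153062) (nat_lit 228) (nat_lit 132367683551) (nat_lit 76) (nat_lit 79358988913) (nat_lit 13) (nat_lit 5) (nat_lit 16) (nat_lit 5) (nat_lit 14) (nat_lit 4) (nat_lit 314) (nat_lit 288) (nat_lit 118)) (XT.nd (nat_lit 78) (nat_lit 0) (nat_lit 0) (XT.lf (nat_lit 0) (nat_lit 82123165133) (nat_lit 76) (nat_lit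 389024654750) (nat_lit 152) (nat_lit 143287643731) (nat_lit 12) (nat_lit 5) (nat_lit 13) (nat_lit 5) (nat_lit 14) (nat_lit 4) (nat_lit 315) (nat_lit 288) (nat_lit 117)) (XT.lf (nat_lit 0) (nat_lit 321301080697) (nat_lit 76) (nat_lit 264836183237) (nat_lit 152) (nat_lit 65464839049) (nat_lit 12) (nat_lit 5) (nat_lit 13) (nat_lit 5) (nat_lit 14) (nat_lit 4) (nat_lit 316) (nat_lit 288) (nat_lit 116)))) (XT.nd (nat_lit 78) (nat_lit 152) (nat_lit 0) (XT.lf (nat_lit 0) (nat_lit 17654112437) (nat_lit 152) (nat_lit 112575850275) (nat_lit 76) (nat_lit 561476358954) (nat_lit 11) (nat_lit 5) (nat_lit 13) (nat_lit 5) (nat_lit 12) (nat_lit 5) (nat_lit 317) (nat_lit 288) (nat_lit 115)) (XT.nd (nat_lit 78) (nat_lit 0) (nat_lit 0) (XT.lf (nat_lit 0) (nat_lit 107433537028) (nat_lit 228) (nat_lit 607894406547) (nat_lit 76) (nat_lit 19271082854) (nat_lit 9) (nat_lit 5) (nat_lit 12) (nat_lit 5) (nat_lit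 10) (nat_lit 4) (nat_lit 318) (nat_lit 288) (nat_lit 114)) (XT.lf (nat_lit 0) (nat_lit 210935846694) (nat_lit 228) (nat_lit 392609696570) (nat_lit 76) (nat_lit 176854361926) (nat_lit 9) (nat_lit 5) (nat_lit 12) (nat_lit 5) (nat_lit 10) (nat_lit 4) (nat_lit 319) (nat_lit 288) (nat_lit 113))))) (XT.nd (nat_lit 234) (nat_lit 152) (nat_lit 0) (XT.nd (nat_lit 78) (nat_lit 76) (nat_lit 0) (XT.lf (nat_lit 0) (nat_lit 322718306661) (nat_lit 228) (nat_lit 160102266994) (nat_lit 76) (nat_lit 347044283452) (nat_lit 9) (nat_lit 5) (nat_lit 12) (nat_lit 5) (nat_lit 10) (nat_lit 4) (nat_lit 320) (nat_lit 288) (nat_lit 112)) (XT.nd (nat_lit 78) (nat_lit 0) (nat_lit 0) (XT.lf (nat_lit 0) (nat_lit 95797903079) (nat_lit 76) (nat_lit 349949370300) (nat_lit 152) (nat_lit 437355419094) (nat_lit 8) (nat_lit 5) (nat_lit 9) (nat_lit 5) (nat_lit 10) (nat_lit 4) (nat_lit 321) (nat_lit 288) (nat_lit 111)) (XT.lf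 (nat_lit 0) (nat_lit 381275192923) (nat_lit 76) (nat_lit 201720813420) (nat_lit 152) (nat_lit 357253352494) (nat_lit 8) (nat_lit 5) (nat_lit 9) (nat_lit 5) (nat_lit 10) (nat_lit 4) (nat_lit 322) (nat_lit 288) (nat_lit 110)))) (XT.nd (nat_lit 156) (nat_lit 152) (nat_lit 0) (XT.nd (nat_lit 78) (nat_lit 0) (nat_lit 0) (XT.lf (nat_lit 0) (nat_lit 689590618157) (nat_lit 76) (nat_lit 41633991274) (nat_lit 152) (nat_lit 270743151441) (nat_lit 8) (nat_lit 5) (nat_lit 9) (nat_lit 5) (nat_lit 10) (nat_lit 4) (nat_lit 323) (nat_lit 288) (nat_lit 109)) (XT.lf (nat_lit 0) (nat_lit 894468274718) (nat_lit 152) (nat_lit 49209204456) (nat_lit 0) (nat_lit 124693614049) (nat_lit 8) (nat_lit 5) (nat_lit 10) (nat_lit 4) (nat_lit 8) (nat_lit 4) (nat_lit 324) (nat_lit 288) (nat_lit 108))) (XT.nd (nat_lit 78) (nat_lit 76) (nat_lit 0) (XT.lf (nat_lit 0) (nat_lit 246249101247) (nat_lit 76) (nat_lit 831526006314)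 (nat_lit 76) (nat_lit 61751290721) (nat_lit 7) (nat_lit 4) (nat_lit 8) (nat_lit 5) (nat_lit 8) (nat_lit 4) (nat_lit 325) (nat_lit 288) (nat_lit 107)) (XT.lf (nat_lit 0) (nat_lit 57782702776) (nat_lit 152) (nat_lit 649586744672) (nat_lit 76) (nat_lit 508780016673) (nat_lit 6) (nat_lit 5) (nat_lit 8) (nat_lit 5) (nat_lit 7) (nat_lit 4) (nat_lit 326) (nat_lit 288) (nat_lit 106))))))))
noncomputable def xc119 : XT := (XT.nd (nat_lit 36348) (nat_lit 0) (nat_lit 0) (XT.nd (nat_lit 35334) (nat_lit 0) (nat_lit 684) (XT.nd (nat_lit 34866) (nat_lit 0) (nat_lit 1824) (XT.nd (nat_lit 34632) (nat_lit 0) (nat_lit 2052) (XT.nd (nat_lit 78) (nat_lit 0) (nat_lit 0) (XT.lf (nat_lit 0) (nat_lit 183543219269) (nat_lit 152) (nat_lit 388004917454) (nat_lit 76) (nat_lit 727225926015) (nat_lit 6) (nat_lit 5) (nat_lit 8) (nat_lit 5) (nat_lit 7) (nat_lit 4) (nat_lit 327) (nat_lit 288) (nat_lit 105)) (XT.nd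 (nat_lit 34476) (nat_lit 0) (nat_lit 2052) (XT.lf (nat_lit 0) (nat_lit 319364555918) (nat_lit 152) (nat_lit 105496580824) (nat_lit 76) (nat_lit 963147494244) (nat_lit 6) (nat_lit 5) (nat_lit 8) (nat_lit 5) (nat_lit 7) (nat_lit 4) (nat_lit 328) (nat_lit 288) (nat_lit 104)) (XT.lf (nat_lit 0) (nat_lit 27747386921) (nat_lit 532) (nat_lit 30715529712) (nat_lit 532) (nat_lit 30715529712) (nat_lit 33) (nat_lit 3) (nat_lit 40) (nat_lit 3) (nat_lit 40) (nat_lit 5) (nat_lit 289) (nat_lit 289) (nat_lit 142)))) (XT.nd (nat_lit 78) (nat_lit 0) (nat_lit 76) (XT.lf (nat_lit 76) (nat_lit 14368473739) (nat_lit 0) (nat_lit 43693476189) (nat_lit 532) (nat_lit 127401417052) (nat_lit 34) (nat_lit 5) (nat_lit 33) (nat_lit 3) (nat_lit 40) (nat_lit 5) (nat_lit 290) (nat_lit 289) (nat_lit 141)) (XT.nd (nat_lit 78) (nat_lit 0) (nat_lit 0) (XT.lf (nat_lit 0) (nat_lit 63408888028) (nat_lit 456) (nat_lit 94173439027)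 (nat_lit 532) (nat_lit 35350082185) (nat_lit 34) (nat_lit 5) (nat_lit 40) (nat_lit 5) (nat_lit 41) (nat_lit 5) (nat_lit 291) (nat_lit 289) (nat_lit 140)) (XT.lf (nat_lit 0) (nat_lit 70318307258) (nat_lit 456) (nat_lit 12233276947) (nat_lit 532) (nat_lit 118356613570) (nat_lit 34) (nat_lit 5) (nat_lit 40) (nat_lit 5) (nat_lit 41) (nat_lit 5) (nat_lit 292) (nat_lit 289) (nat_lit 139))))) (XT.nd (nat_lit 234) (nat_lit 380) (nat_lit 0) (XT.nd (nat_lit 78) (nat_lit 0) (nat_lit 0) (XT.lf (nat_lit 0) (nat_lit 79724638308) (nat_lit 456) (nat_lit 129103425029) (nat_lit 532) (nat_lit 538454305) (nat_lit 35) (nat_lit 5) (nat_lit 41) (nat_lit 5) (nat_lit 42) (nat_lit 5) (nat_lit 293) (nat_lit 289) (nat_lit 138)) (XT.nd (nat_lit 78) (nat_lit 0) (nat_lit 0) (XT.lf (nat_lit 0) (nat_lit 92370693495) (nat_lit 456) (nat_lit 39772856199) (nat_lit 532) (nat_lit 86158976833) (nat_lit 35) (nat_lit 5) (nat_lit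 41) (nat_lit 5) (nat_lit 42) (nat_lit 5) (nat_lit 294) (nat_lit 289) (nat_lit 137)) (XT.lf (nat_lit 76) (nat_lit 59689985819) (nat_lit 0) (nat_lit 47773857143) (nat_lit 532) (nat_lit 120374741153) (nat_lit 36) (nat_lit 5) (nat_lit 35) (nat_lit 5) (nat_lit 42) (nat_lit 5) (nat_lit 295) (nat_lit 289) (nat_lit 136)))) (XT.nd (nat_lit 78) (nat_lit 456) (nat_lit 0) (XT.lf (nat_lit 0) (nat_lit 125922481040) (nat_lit 456) (nat_lit 69749576593) (nat_lit 76) (nat_lit 42292826467) (nat_lit 36) (nat_lit 5) (nat_lit 42) (nat_lit 5) (nat_lit 37) (nat_lit 5) (nat_lit 296) (nat_lit 289) (nat_lit 135)) (XT.nd (nat_lit 78) (nat_lit 0) (nat_lit 0) (XT.lf (nat_lit 0) (nat_lit 37138182332) (nat_lit 456) (nat_lit 110853563253) (nat_lit 532) (nat_lit 100738828334) (nat_lit 30) (nat_lit 5) (nat_lit 36) (nat_lit 5) (nat_lit 37) (nat_lit 5) (nat_lit 297) (nat_lit 289) (nat_lit 134)) (XT.lf (nat_lit 0) (nat_lit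 156543577517) (nat_lit 456) (nat_lit 17189938879) (nat_lit 532) (nat_lit 86471445937) (nat_lit 30) (nat_lit 5) (nat_lit 36) (nat_lit 5) (nat_lit 37) (nat_lit 5) (nat_lit 298) (nat_lit 289) (nat_lit 133)))))) (XT.nd (nat_lit 468) (nat_lit 456) (nat_lit 0) (XT.nd (nat_lit 234) (nat_lit 456) (nat_lit 0) (XT.nd (nat_lit 78) (nat_lit 0) (nat_lit 0) (XT.lf (nat_lit 0) (nat_lit 11457756983) (nat_lit 228) (nat_lit 192371730715) (nat_lit 304) (nat_lit 68584225991) (nat_lit 27) (nat_lit 5) (nat_lit 30) (nat_lit 5) (nat_lit 31) (nat_lit 5) (nat_lit 299) (nat_lit 289) (nat_lit 132)) (XT.nd (nat_lit 78) (nat_lit 0) (nat_lit 0) (XT.lf (nat_lit 0) (nat_lit 141211638273) (nat_lit 228) (nat_lit 98390874426) (nat_lit 304) (nat_lit 45735102905) (nat_lit 27) (nat_lit 5) (nat_lit 30) (nat_lit 5) (nat_lit 31) (nat_lit 5) (nat_lit 300) (nat_lit 289) (nat_lit 131)) (XT.lf (nat_lit 0) (nat_lit 278312046884)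 (nat_lit 304) (nat_lit 18024461194) (nat_lit 76) (nat_lit 2952948712) (nat_lit 27) (nat_lit 5) (nat_lit 31) (nat_lit 5) (nat_lit 28) (nat_lit 5) (nat_lit 301) (nat_lit 289) (nat_lit 130)))) (XT.nd (nat_lit 78) (nat_lit 228) (nat_lit 0) (XT.lf (nat_lit 0) (nat_lit 11097458058) (nat_lit 228) (nat_lit 192502542971) (nat_lit 76) (nat_lit 110296381243) (nat_lit 24) (nat_lit 5) (nat_lit 27) (nat_lit 5) (nat_lit 25) (nat_lit 5) (nat_lit 302) (nat_lit 289) (nat_lit 129)) (XT.nd (nat_lit 78) (nat_lit 228) (nat_lit 0) (XT.lf (nat_lit 0) (nat_lit 45110528853) (nat_lit 228) (nat_lit 57199531510) (nat_lit 76) (nat_lit 227277769325) (nat_lit 24) (nat_lit 5) (nat_lit 27) (nat_lit 5) (nat_lit 25) (nat_lit 5) (nat_lit 303) (nat_lit 289) (nat_lit 128)) (XT.lf (nat_lit 0) (nat_lit 84324724972) (nat_lit 304) (nat_lit 252972915198) (nat_lit 76) (nat_lit 9038546715) (nat_lit 21) (nat_lit 5) (nat_lit 25)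 (nat_lit 5) (nat_lit 22) (nat_lit 5) (nat_lit 304) (nat_lit 289) (nat_lit 127))))) (XT.nd (nat_lit 234) (nat_lit 304) (nat_lit 0) (XT.nd (nat_lit 78) (nat_lit 152) (nat_lit 0) (XT.lf (nat_lit 0) (nat_lit 130937945706) (nat_lit 304) (nat_lit 107773330678) (nat_lit 76) (nat_lit 125372185496) (nat_lit 21) (nat_lit 5) (nat_lit 25) (nat_lit 5) (nat_lit 22) (nat_lit 5) (nat_lit 305) (nat_lit 289) (nat_lit 126)) (XT.nd (nat_lit 78) (nat_lit 0) (nat_lit 0) (XT.lf (nat_lit 0) (nat_lit 51624605186) (nat_lit 152) (nat_lit 130897123828) (nat_lit 228) (nat_lit 200629469776) (nat_lit 19) (nat_lit 5) (nat_lit 21) (nat_lit 5) (nat_lit 22) (nat_lit 5) (nat_lit 306) (nat_lit 289) (nat_lit 125)) (XT.lf (nat_lit 0) (nat_lit 229903455689) (nat_lit 152) (nat_lit 11275408067) (nat_lit 228) (nat_lit 162329759282) (nat_lit 19) (nat_lit 5) (nat_lit 21) (nat_lit 5) (nat_lit 22) (nat_lit 5) (nat_lit 307) (nat_lit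 289) (nat_lit 124)))) (XT.nd (nat_lit 156) (nat_lit 152) (nat_lit 0) (XT.nd (nat_lit 78) (nat_lit 152) (nat_lit 0) (XT.lf (nat_lit 0) (nat_lit 307364392289) (nat_lit 228) (nat_lit 5885994096) (nat_lit 76) (nat_lit 112017389266) (nat_lit 19) (nat_lit 5) (nat_lit 22) (nat_lit 5) (nat_lit 20) (nat_lit 5) (nat_lit 308) (nat_lit 289) (nat_lit 123)) (XT.lf (nat_lit 0) (nat_lit 184170734083) (nat_lit 152) (nat_lit 199396151138) (nat_lit 228) (nat_lit 64823005728) (nat_lit 17) (nat_lit 5) (nat_lit 19) (nat_lit 5) (nat_lit 20) (nat_lit 5) (nat_lit 309) (nat_lit 289) (nat_lit 122))) (XT.nd (nat_lit 78) (nat_lit 152) (nat_lit 0) (XT.lf (nat_lit 0) (nat_lit 389766666963) (nat_lit 152) (nat_lit 76259790279) (nat_lit 228) (nat_lit 7322448085) (nat_lit 17) (nat_lit 5) (nat_lit 19) (nat_lit 5) (nat_lit 20) (nat_lit 5) (nat_lit 310) (nat_lit 289) (nat_lit 121)) (XT.lf (nat_lit 0) (nat_lit 56298422756)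 (nat_lit 152) (nat_lit 385456600235) (nat_lit 76) (nat_lit 58103385287) (nat_lit 15) (nat_lit 5) (nat_lit 17) (nat_lit 5) (nat_lit 16) (nat_lit 5) (nat_lit 311) (nat_lit 289) (nat_lit 120))))))) (XT.nd (nat_lit 1014) (nat_lit 152) (nat_lit 0) (XT.nd (nat_lit 468) (nat_lit 304) (nat_lit 0) (XT.nd (nat_lit 234) (nat_lit 76) (nat_lit 0) (XT.nd (nat_lit 78) (nat_lit 152) (nat_lit 0) (XT.lf (nat_lit 0) (nat_lit 128938729483) (nat_lit 152) (nat_lit 197558274092) (nat_lit 76) (nat_lit 201630423108) (nat_lit 15) (nat_lit 5) (nat_lit 17) (nat_lit 5) (nat_lit 16) (nat_lit 5) (nat_lit 312) (nat_lit 289) (nat_lit 119)) (XT.nd (nat_lit 78) (nat_lit 0) (nat_lit 0) (XT.lf (nat_lit 0) (nat_lit 5654721368) (nat_lit 152) (nat_lit 201871489476) (nat_lit 228) (nat_lit 351120879875) (nat_lit 13) (nat_lit 5) (nat_lit 15) (nat_lit 5) (nat_lit 16) (nat_lit 5) (nat_lit 313) (nat_lit 289) (nat_lit 118)) (XT.lf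 (nat_lit 0) (nat_lit 236360003469) (nat_lit 152) (nat_lit 61442236275) (nat_lit 228) (nat_lit 293373964367) (nat_lit 13) (nat_lit 5) (nat_lit 15) (nat_lit 5) (nat_lit 16) (nat_lit 5) (nat_lit 314) (nat_lit 289) (nat_lit 117)))) (XT.nd (nat_lit 78) (nat_lit 76) (nat_lit 0) (XT.lf (nat_lit 0) (nat_lit 397470135250) (nat_lit 228) (nat_lit 142955829288) (nat_lit 76) (nat_lit 85708099434) (nat_lit 13) (nat_lit 5) (nat_lit 16) (nat_lit 5) (nat_lit 14) (nat_lit 4) (nat_lit 315) (nat_lit 289) (nat_lit 116)) (XT.nd (nat_lit 78) (nat_lit 0) (nat_lit 0) (XT.lf (nat_lit 0) (nat_lit 88694255165) (nat_lit 76) (nat_lit 420146170002) (nat_lit 152) (nat_lit 154749810568) (nat_lit 12) (nat_lit 5) (nat_lit 13) (nat_lit 5) (nat_lit 14) (nat_lit 4) (nat_lit 316) (nat_lit 289) (nat_lit 115)) (XT.lf (nat_lit 0) (nat_lit 347006312358) (nat_lit 76) (nat_lit 286022654629) (nat_lit 152) (nat_lit 70701244079)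 (nat_lit 12) (nat_lit 5) (nat_lit 13) (nat_lit 5) (nat_lit 14) (nat_lit 4) (nat_lit 317) (nat_lit 289) (nat_lit 114))))) (XT.nd (nat_lit 234) (nat_lit 76) (nat_lit 0) (XT.nd (nat_lit 78) (nat_lit 152) (nat_lit 0) (XT.lf (nat_lit 0) (nat_lit 19067129367) (nat_lit 152) (nat_lit 121580819639) (nat_lit 76) (nat_lit 606394821300) (nat_lit 11) (nat_lit 5) (nat_lit 13) (nat_lit 5) (nat_lit 12) (nat_lit 5) (nat_lit 318) (nat_lit 289) (nat_lit 113)) (XT.nd (nat_lit 78) (nat_lit 0) (nat_lit 0) (XT.lf (nat_lit 0) (nat_lit 116028892536) (nat_lit 228) (nat_lit 656524843118) (nat_lit 76) (nat_lit 20813157180) (nat_lit 9) (nat_lit 5) (nat_lit 12) (nat_lit 5) (nat_lit 10) (nat_lit 4) (nat_lit 319) (nat_lit 289) (nat_lit 112)) (XT.lf (nat_lit 0) (nat_lit 227811337158) (nat_lit 228) (nat_lit 424017439006) (nat_lit 76) (nat_lit 191003069860) (nat_lit 9) (nat_lit 5) (nat_lit 12) (nat_lit 5) (nat_lit 10)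 (nat_lit 4) (nat_lit 320) (nat_lit 289) (nat_lit 111)))) (XT.nd (nat_lit 156) (nat_lit 0) (nat_lit 0) (XT.nd (nat_lit 78) (nat_lit 76) (nat_lit 0) (XT.lf (nat_lit 0) (nat_lit 348536347794) (nat_lit 228) (nat_lit 172909491604) (nat_lit 76) (nat_lit 374808158517) (nat_lit 9) (nat_lit 5) (nat_lit 12) (nat_lit 5) (nat_lit 10) (nat_lit 4) (nat_lit 321) (nat_lit 289) (nat_lit 110)) (XT.lf (nat_lit 0) (nat_lit 103462667853) (nat_lit 76) (nat_lit 377944943712) (nat_lit 152) (nat_lit 472343250288) (nat_lit 8) (nat_lit 5) (nat_lit 9) (nat_lit 5) (nat_lit 10) (nat_lit 4) (nat_lit 322) (nat_lit 289) (nat_lit 109))) (XT.nd (nat_lit 78) (nat_lit 0) (nat_lit 0) (XT.lf (nat_lit 0) (nat_lit 411778071809) (nat_lit 76) (nat_lit 217858130150) (nat_lit 152) (nat_lit 385833062978) (nat_lit 8) (nat_lit 5) (nat_lit 9) (nat_lit 5) (nat_lit 10) (nat_lit 4) (nat_lit 323) (nat_lit 289) (nat_lit 108)) (XT.lf (nat_lit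 0) (nat_lit 744758667102) (nat_lit 76) (nat_lit 44964388034) (nat_lit 152) (nat_lit 292402087152) (nat_lit 8) (nat_lit 5) (nat_lit 9) (nat_lit 5) (nat_lit 10) (nat_lit 4) (nat_lit 324) (nat_lit 289) (nat_lit 107)))))) (XT.nd (nat_lit 35100) (nat_lit 0) (nat_lit 1596) (XT.nd (nat_lit 34866) (nat_lit 0) (nat_lit 2052) (XT.nd (nat_lit 156) (nat_lit 152) (nat_lit 0) (XT.lf (nat_lit 0) (nat_lit 966026185500) (nat_lit 152) (nat_lit 53145171194) (nat_lit 0) (nat_lit 134669386883) (nat_lit 8) (nat_lit 5) (nat_lit 10) (nat_lit 4) (nat_lit 8) (nat_lit 4) (nat_lit 325) (nat_lit 289) (nat_lit 106)) (XT.nd (nat_lit 34632) (nat_lit 0) (nat_lit 2052) (XT.lf (nat_lit 0) (nat_lit 62405731885) (nat_lit 152) (nat_lit 701552966982) (nat_lit 76) (nat_lit 549482688400) (nat_lit 6) (nat_lit 5) (nat_lit 8) (nat_lit 5) (nat_lit 7) (nat_lit 4) (nat_lit 327) (nat_lit 289) (nat_lit 104)) (XT.lf (nat_lit 0) (nat_lit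 29968957025) (nat_lit 532) (nat_lit 33171806171) (nat_lit 532) (nat_lit 33171806171) (nat_lit 33) (nat_lit 3) (nat_lit 40) (nat_lit 3) (nat_lit 40) (nat_lit 5) (nat_lit 290) (nat_lit 290) (nat_lit 140)))) (XT.nd (nat_lit 78) (nat_lit 0) (nat_lit 76) (XT.lf (nat_lit 76) (nat_lit 15519834568) (nat_lit 0) (nat_lit 47190411363) (nat_lit 532) (nat_lit 137589904035) (nat_lit 34) (nat_lit 5) (nat_lit 33) (nat_lit 3) (nat_lit 40) (nat_lit 5) (nat_lit 291) (nat_lit 290) (nat_lit 139)) (XT.nd (nat_lit 78) (nat_lit 0) (nat_lit 0) (XT.lf (nat_lit 0) (nat_lit 68484659224) (nat_lit 456) (nat_lit 101705273088) (nat_lit 532) (nat_lit 38176807102) (nat_lit 34) (nat_lit 5) (nat_lit 40) (nat_lit 5) (nat_lit 41) (nat_lit 5) (nat_lit 292) (nat_lit 290) (nat_lit 138)) (XT.lf (nat_lit 0) (nat_lit 75946605315) (nat_lit 456) (nat_lit 13210049232) (nat_lit 532) (nat_lit 127823955935) (nat_lit 34) (nat_lit 5)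 (nat_lit 40) (nat_lit 5) (nat_lit 41) (nat_lit 5) (nat_lit 293) (nat_lit 290) (nat_lit 137))))) (XT.nd (nat_lit 234) (nat_lit 608) (nat_lit 0) (XT.nd (nat_lit 78) (nat_lit 0) (nat_lit 0) (XT.lf (nat_lit 0) (nat_lit 86105257399) (nat_lit 456) (nat_lit 139429608493) (nat_lit 532) (nat_lit 580746099) (nat_lit 35) (nat_lit 5) (nat_lit 41) (nat_lit 5) (nat_lit 42) (nat_lit 5) (nat_lit 294) (nat_lit 290) (nat_lit 136)) (XT.nd (nat_lit 78) (nat_lit 0) (nat_lit 0) (XT.lf (nat_lit 0) (nat_lit 99762800852) (nat_lit 456) (nat_lit 42952749011) (nat_lit 532) (nat_lit 93050968545) (nat_lit 35) (nat_lit 5) (nat_lit 41) (nat_lit 5) (nat_lit 42) (nat_lit 5) (nat_lit 295) (nat_lit 290) (nat_lit 135)) (XT.lf (nat_lit 76) (nat_lit 64467071364) (nat_lit 0) (nat_lit 51596194666) (nat_lit 532) (nat_lit 130002206515) (nat_lit 36) (nat_lit 5) (nat_lit 35) (nat_lit 5) (nat_lit 42) (nat_lit 5) (nat_lit 296)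 (nat_lit 290) (nat_lit 134)))) (XT.nd (nat_lit 156) (nat_lit 228) (nat_lit 0) (XT.nd (nat_lit 78) (nat_lit 456) (nat_lit 0) (XT.lf (nat_lit 0) (nat_lit 135998414074) (nat_lit 456) (nat_lit 75327602633) (nat_lit 76) (nat_lit 45675875275) (nat_lit 36) (nat_lit 5) (nat_lit 42) (nat_lit 5) (nat_lit 37) (nat_lit 5) (nat_lit 297) (nat_lit 290) (nat_lit 133)) (XT.lf (nat_lit 0) (nat_lit 40111127890) (nat_lit 456) (nat_lit 119721979255) (nat_lit 532) (nat_lit 108795739746) (nat_lit 30) (nat_lit 5) (nat_lit 36) (nat_lit 5) (nat_lit 37) (nat_lit 5) (nat_lit 298) (nat_lit 290) (nat_lit 132))) (XT.nd (nat_lit 78) (nat_lit 228) (nat_lit 0) (XT.lf (nat_lit 0) (nat_lit 169068814618) (nat_lit 456) (nat_lit 18565255232) (nat_lit 532) (nat_lit 93387129340) (nat_lit 30) (nat_lit 5) (nat_lit 36) (nat_lit 5) (nat_lit 37) (nat_lit 5) (nat_lit 299) (nat_lit 290) (nat_lit 131)) (XT.lf (nat_lit 0) (nat_lit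 12376243033) (nat_lit 228) (nat_lit 207761379311) (nat_lit 304) (nat_lit 74069036799) (nat_lit 27) (nat_lit 5) (nat_lit 30) (nat_lit 5) (nat_lit 31) (nat_lit 5) (nat_lit 300) (nat_lit 290) (nat_lit 130))))))))
noncomputable def xc120 : XT := (XT.nd (nat_lit 1950) (nat_lit 76) (nat_lit 0) (XT.nd (nat_lit 936) (nat_lit 532) (nat_lit 0) (XT.nd (nat_lit 468) (nat_lit 456) (nat_lit 0) (XT.nd (nat_lit 234) (nat_lit 228) (nat_lit 0) (XT.nd (nat_lit 78) (nat_lit 228) (nat_lit 0) (XT.lf (nat_lit 0) (nat_lit 152510296642) (nat_lit 228) (nat_lit 106262061176) (nat_lit 304) (nat_lit 49392126626) (nat_lit 27) (nat_lit 5) (nat_lit 30) (nat_lit 5) (nat_lit 31) (nat_lit 5) (nat_lit 301) (nat_lit 290) (nat_lit 129)) (XT.nd (nat_lit 78) (nat_lit 228) (nat_lit 0) (XT.lf (nat_lit 0) (nat_lit 300578534805) (nat_lit 304) (nat_lit 19464690576) (nat_lit 76) (nat_lit 3189257796) (nat_lit 27) (nat_lit 5) (nat_lit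 31) (nat_lit 5) (nat_lit 28) (nat_lit 5) (nat_lit 302) (nat_lit 290) (nat_lit 128)) (XT.lf (nat_lit 0) (nat_lit 11986751407) (nat_lit 228) (nat_lit 207900976766) (nat_lit 76) (nat_lit 119120237895) (nat_lit 24) (nat_lit 5) (nat_lit 27) (nat_lit 5) (nat_lit 25) (nat_lit 5) (nat_lit 303) (nat_lit 290) (nat_lit 127)))) (XT.nd (nat_lit 78) (nat_lit 228) (nat_lit 0) (XT.lf (nat_lit 0) (nat_lit 48720756998) (nat_lit 228) (nat_lit 61773855472) (nat_lit 76) (nat_lit 245460126198) (nat_lit 24) (nat_lit 5) (nat_lit 27) (nat_lit 5) (nat_lit 25) (nat_lit 5) (nat_lit 304) (nat_lit 290) (nat_lit 126)) (XT.nd (nat_lit 78) (nat_lit 0) (nat_lit 0) (XT.lf (nat_lit 0) (nat_lit 91072031187) (nat_lit 304) (nat_lit 273209046193) (nat_lit 76) (nat_lit 9761892155) (nat_lit 21) (nat_lit 5) (nat_lit 25) (nat_lit 5) (nat_lit 22) (nat_lit 5) (nat_lit 305) (nat_lit 290) (nat_lit 125)) (XT.lf (nat_lit 0) (nat_lit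 141414211193) (nat_lit 304) (nat_lit 116393621001) (nat_lit 76) (nat_lit 135402202653) (nat_lit 21) (nat_lit 5) (nat_lit 25) (nat_lit 5) (nat_lit 22) (nat_lit 5) (nat_lit 306) (nat_lit 290) (nat_lit 124))))) (XT.nd (nat_lit 234) (nat_lit 304) (nat_lit 0) (XT.nd (nat_lit 78) (nat_lit 0) (nat_lit 0) (XT.lf (nat_lit 0) (nat_lit 55756109830) (nat_lit 152) (nat_lit 141368533184) (nat_lit 228) (nat_lit 216678552443) (nat_lit 19) (nat_lit 5) (nat_lit 21) (nat_lit 5) (nat_lit 22) (nat_lit 5) (nat_lit 307) (nat_lit 290) (nat_lit 123)) (XT.nd (nat_lit 78) (nat_lit 0) (nat_lit 0) (XT.lf (nat_lit 0) (nat_lit 248297154578) (nat_lit 152) (nat_lit 12177106870) (nat_lit 228) (nat_lit 175314959547) (nat_lit 19) (nat_lit 5) (nat_lit 21) (nat_lit 5) (nat_lit 22) (nat_lit 5) (nat_lit 308) (nat_lit 290) (nat_lit 122)) (XT.lf (nat_lit 0) (nat_lit 331954559062) (nat_lit 228) (nat_lit 6355478910) (nat_lit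 76) (nat_lit 120979074057) (nat_lit 19) (nat_lit 5) (nat_lit 22) (nat_lit 5) (nat_lit 20) (nat_lit 5) (nat_lit 309) (nat_lit 290) (nat_lit 121)))) (XT.nd (nat_lit 78) (nat_lit 152) (nat_lit 0) (XT.lf (nat_lit 0) (nat_lit 198905752214) (nat_lit 152) (nat_lit 215347456694) (nat_lit 228) (nat_lit 70007791374) (nat_lit 17) (nat_lit 5) (nat_lit 19) (nat_lit 5) (nat_lit 20) (nat_lit 5) (nat_lit 310) (nat_lit 290) (nat_lit 120)) (XT.nd (nat_lit 78) (nat_lit 152) (nat_lit 0) (XT.lf (nat_lit 0) (nat_lit 420949259028) (nat_lit 152) (nat_lit 82360215598) (nat_lit 228) (nat_lit 7907267254) (nat_lit 17) (nat_lit 5) (nat_lit 19) (nat_lit 5) (nat_lit 20) (nat_lit 5) (nat_lit 311) (nat_lit 290) (nat_lit 119)) (XT.lf (nat_lit 0) (nat_lit 60803195737) (nat_lit 152) (nat_lit 416291785236) (nat_lit 76) (nat_lit 62752024770) (nat_lit 15) (nat_lit 5) (nat_lit 17) (nat_lit 5) (nat_lit 16) (nat_lit 5) (nat_lit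 312) (nat_lit 290) (nat_lit 118)))))) (XT.nd (nat_lit 468) (nat_lit 304) (nat_lit 0) (XT.nd (nat_lit 234) (nat_lit 76) (nat_lit 0) (XT.nd (nat_lit 78) (nat_lit 152) (nat_lit 0) (XT.lf (nat_lit 0) (nat_lit 139254660397) (nat_lit 152) (nat_lit 213361692484) (nat_lit 76) (nat_lit 217761198309) (nat_lit 15) (nat_lit 5) (nat_lit 17) (nat_lit 5) (nat_lit 16) (nat_lit 5) (nat_lit 313) (nat_lit 290) (nat_lit 117)) (XT.nd (nat_lit 78) (nat_lit 0) (nat_lit 0) (XT.lf (nat_lit 0) (nat_lit 6108311131) (nat_lit 152) (nat_lit 218020796615) (nat_lit 228) (nat_lit 379209683428) (nat_lit 13) (nat_lit 5) (nat_lit 15) (nat_lit 5) (nat_lit 16) (nat_lit 5) (nat_lit 314) (nat_lit 290) (nat_lit 116)) (XT.lf (nat_lit 0) (nat_lit 255269926018) (nat_lit 152) (nat_lit 66357233678) (nat_lit 228) (nat_lit 316843078890) (nat_lit 13) (nat_lit 5) (nat_lit 15) (nat_lit 5) (nat_lit 16) (nat_lit 5) (nat_lit 315) (nat_lit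 290) (nat_lit 115)))) (XT.nd (nat_lit 78) (nat_lit 76) (nat_lit 0) (XT.lf (nat_lit 0) (nat_lit 429268440466) (nat_lit 228) (nat_lit 154391207714) (nat_lit 76) (nat_lit 92565082959) (nat_lit 13) (nat_lit 5) (nat_lit 16) (nat_lit 5) (nat_lit 14) (nat_lit 4) (nat_lit 316) (nat_lit 290) (nat_lit 114)) (XT.nd (nat_lit 78) (nat_lit 0) (nat_lit 0) (XT.lf (nat_lit 0) (nat_lit 95790855954) (nat_lit 76) (nat_lit 453757471689) (nat_lit 152) (nat_lit 167129071253) (nat_lit 12) (nat_lit 5) (nat_lit 13) (nat_lit 5) (nat_lit 14) (nat_lit 4) (nat_lit 317) (nat_lit 290) (nat_lit 113)) (XT.lf (nat_lit 0) (nat_lit 374767799175) (nat_lit 76) (nat_lit 308904104116) (nat_lit 152) (nat_lit 76356673086) (nat_lit 12) (nat_lit 5) (nat_lit 13) (nat_lit 5) (nat_lit 14) (nat_lit 4) (nat_lit 318) (nat_lit 290) (nat_lit 112))))) (XT.nd (nat_lit 234) (nat_lit 76) (nat_lit 0) (XT.nd (nat_lit 78) (nat_lit 152) (nat_lit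 0) (XT.lf (nat_lit 0) (nat_lit 20593089510) (nat_lit 152) (nat_lit 131306343288) (nat_lit 76) (nat_lit 654906710185) (nat_lit 11) (nat_lit 5) (nat_lit 13) (nat_lit 5) (nat_lit 12) (nat_lit 5) (nat_lit 319) (nat_lit 290) (nat_lit 111)) (XT.nd (nat_lit 78) (nat_lit 0) (nat_lit 0) (XT.lf (nat_lit 0) (nat_lit 125311780539) (nat_lit 228) (nat_lit 709045873818) (nat_lit 76) (nat_lit 22478542143) (nat_lit 9) (nat_lit 5) (nat_lit 12) (nat_lit 5) (nat_lit 10) (nat_lit 4) (nat_lit 320) (nat_lit 290) (nat_lit 110)) (XT.lf (nat_lit 0) (nat_lit 246036778019) (nat_lit 228) (nat_lit 457937948247) (nat_lit 76) (nat_lit 206283623216) (nat_lit 9) (nat_lit 5) (nat_lit 12) (nat_lit 5) (nat_lit 10) (nat_lit 4) (nat_lit 321) (nat_lit 290) (nat_lit 109)))) (XT.nd (nat_lit 156) (nat_lit 0) (nat_lit 0) (XT.nd (nat_lit 78) (nat_lit 76) (nat_lit 0) (XT.lf (nat_lit 0) (nat_lit 376419749959) (nat_lit 228) (nat_lit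 186741430674) (nat_lit 76) (nat_lit 404793096168) (nat_lit 9) (nat_lit 5) (nat_lit 12) (nat_lit 5) (nat_lit 10) (nat_lit 4) (nat_lit 322) (nat_lit 290) (nat_lit 108)) (XT.lf (nat_lit 0) (nat_lit 111740480774) (nat_lit 76) (nat_lit 408180216668) (nat_lit 152) (nat_lit 510130193907) (nat_lit 8) (nat_lit 5) (nat_lit 9) (nat_lit 5) (nat_lit 10) (nat_lit 4) (nat_lit 323) (nat_lit 290) (nat_lit 107))) (XT.nd (nat_lit 78) (nat_lit 0) (nat_lit 0) (XT.lf (nat_lit 0) (nat_lit 444721057825) (nat_lit 76) (nat_lit 235286481912) (nat_lit 152) (nat_lit 416699229864) (nat_lit 8) (nat_lit 5) (nat_lit 9) (nat_lit 5) (nat_lit 10) (nat_lit 4) (nat_lit 324) (nat_lit 290) (nat_lit 106)) (XT.lf (nat_lit 0) (nat_lit 804340045906) (nat_lit 76) (nat_lit 48561262550) (nat_lit 152) (nat_lit 315793811391) (nat_lit 8) (nat_lit 5) (nat_lit 9) (nat_lit 5) (nat_lit 10) (nat_lit 4) (nat_lit 325) (nat_lit 290) (nat_lit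 105))))))) (XT.nd (nat_lit 35568) (nat_lit 0) (nat_lit 608) (XT.nd (nat_lit 35100) (nat_lit 0) (nat_lit 1748) (XT.nd (nat_lit 34866) (nat_lit 0) (nat_lit 1976) (XT.nd (nat_lit 78) (nat_lit 76) (nat_lit 0) (XT.lf (nat_lit 0) (nat_lit 1043308665117) (nat_lit 152) (nat_lit 57396125065) (nat_lit 0) (nat_lit 145443181068) (nat_lit 8) (nat_lit 5) (nat_lit 10) (nat_lit 4) (nat_lit 8) (nat_lit 4) (nat_lit 326) (nat_lit 290) (nat_lit 104)) (XT.nd (nat_lit 34710) (nat_lit 0) (nat_lit 1976) (XT.lf (nat_lit 0) (nat_lit 287226404960) (nat_lit 76) (nat_lit 969891320530) (nat_lit 76) (nat_lit 72025796111) (nat_lit 7) (nat_lit 4) (nat_lit 8) (nat_lit 5) (nat_lit 8) (nat_lit 4) (nat_lit 327) (nat_lit 290) (nat_lit 103)) (XT.lf (nat_lit 0) (nat_lit 32367998923) (nat_lit 532) (nat_lit 35824722546) (nat_lit 532) (nat_lit 35824722546) (nat_lit 33) (nat_lit 3) (nat_lit 40) (nat_lit 3) (nat_lit 40) (nat_lit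 5) (nat_lit 291) (nat_lit 291) (nat_lit 138)))) (XT.nd (nat_lit 78) (nat_lit 0) (nat_lit 76) (XT.lf (nat_lit 76) (nat_lit 16763035641) (nat_lit 0) (nat_lit 50966893483) (nat_lit 532) (nat_lit 148593987319) (nat_lit 34) (nat_lit 5) (nat_lit 33) (nat_lit 3) (nat_lit 40) (nat_lit 5) (nat_lit 292) (nat_lit 291) (nat_lit 137)) (XT.nd (nat_lit 78) (nat_lit 0) (nat_lit 0) (XT.lf (nat_lit 0) (nat_lit 73966055550) (nat_lit 456) (nat_lit 109839945055) (nat_lit 532) (nat_lit 41229852855) (nat_lit 34) (nat_lit 5) (nat_lit 40) (nat_lit 5) (nat_lit 41) (nat_lit 5) (nat_lit 293) (nat_lit 291) (nat_lit 136)) (XT.lf (nat_lit 0) (nat_lit 82024762988) (nat_lit 456) (nat_lit 14265232911) (nat_lit 532) (nat_lit 138048854989) (nat_lit 34) (nat_lit 5) (nat_lit 40) (nat_lit 5) (nat_lit 41) (nat_lit 5) (nat_lit 294) (nat_lit 291) (nat_lit 135))))) (XT.nd (nat_lit 234) (nat_lit 380) (nat_lit 0) (XT.nd (nat_lit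 78) (nat_lit 0) (nat_lit 0) (XT.lf (nat_lit 0) (nat_lit 92995948248) (nat_lit 456) (nat_lit 150582184872) (nat_lit 532) (nat_lit 626533162) (nat_lit 35) (nat_lit 5) (nat_lit 41) (nat_lit 5) (nat_lit 42) (nat_lit 5) (nat_lit 295) (nat_lit 291) (nat_lit 134)) (XT.nd (nat_lit 78) (nat_lit 0) (nat_lit 0) (XT.lf (nat_lit 0) (nat_lit 107745927009) (nat_lit 456) (nat_lit 46387309394) (nat_lit 532) (nat_lit 100494423227) (nat_lit 35) (nat_lit 5) (nat_lit 41) (nat_lit 5) (nat_lit 42) (nat_lit 5) (nat_lit 296) (nat_lit 291) (nat_lit 133)) (XT.lf (nat_lit 76) (nat_lit 69626054597) (nat_lit 0) (nat_lit 55724257996) (nat_lit 532) (nat_lit 140400227746) (nat_lit 36) (nat_lit 5) (nat_lit 35) (nat_lit 5) (nat_lit 42) (nat_lit 5) (nat_lit 297) (nat_lit 291) (nat_lit 132)))) (XT.nd (nat_lit 78) (nat_lit 456) (nat_lit 0) (XT.lf (nat_lit 0) (nat_lit 146880117233) (nat_lit 456) (nat_lit 81352147530) (nat_lit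 76) (nat_lit 49329621816) (nat_lit 36) (nat_lit 5) (nat_lit 42) (nat_lit 5) (nat_lit 37) (nat_lit 5) (nat_lit 298) (nat_lit 291) (nat_lit 131)) (XT.nd (nat_lit 78) (nat_lit 0) (nat_lit 0) (XT.lf (nat_lit 0) (nat_lit 43321639325) (nat_lit 456) (nat_lit 129299849857) (nat_lit 532) (nat_lit 117497517193) (nat_lit 30) (nat_lit 5) (nat_lit 36) (nat_lit 5) (nat_lit 37) (nat_lit 5) (nat_lit 299) (nat_lit 291) (nat_lit 130)) (XT.lf (nat_lit 0) (nat_lit 182595820902) (nat_lit 456) (nat_lit 20050579597) (nat_lit 532) (nat_lit 100856357341) (nat_lit 30) (nat_lit 5) (nat_lit 36) (nat_lit 5) (nat_lit 37) (nat_lit 5) (nat_lit 300) (nat_lit 291) (nat_lit 129)))))) (XT.nd (nat_lit 468) (nat_lit 456) (nat_lit 0) (XT.nd (nat_lit 234) (nat_lit 456) (nat_lit 0) (XT.nd (nat_lit 78) (nat_lit 0) (nat_lit 0) (XT.lf (nat_lit 0) (nat_lit 13367941834) (nat_lit 228) (nat_lit 224382212615) (nat_lit 304) (nat_lit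 79992907417) (nat_lit 27) (nat_lit 5) (nat_lit 30) (nat_lit 5) (nat_lit 31) (nat_lit 5) (nat_lit 301) (nat_lit 291) (nat_lit 128)) (XT.nd (nat_lit 78) (nat_lit 0) (nat_lit 0) (XT.lf (nat_lit 0) (nat_lit 164712601260) (nat_lit 228) (nat_lit 114762954736) (nat_lit 304) (nat_lit 53341966826) (nat_lit 27) (nat_lit 5) (nat_lit 30) (nat_lit 5) (nat_lit 31) (nat_lit 5) (nat_lit 302) (nat_lit 291) (nat_lit 127)) (XT.lf (nat_lit 0) (nat_lit 324626124319) (nat_lit 304) (nat_lit 21020384758) (nat_lit 76) (nat_lit 3444461166) (nat_lit 27) (nat_lit 5) (nat_lit 31) (nat_lit 5) (nat_lit 28) (nat_lit 5) (nat_lit 303) (nat_lit 291) (nat_lit 126)))) (XT.nd (nat_lit 78) (nat_lit 228) (nat_lit 0) (XT.lf (nat_lit 0) (nat_lit 12946974702) (nat_lit 228) (nat_lit 224531537724) (nat_lit 76) (nat_lit 128649982229) (nat_lit 24) (nat_lit 5) (nat_lit 27) (nat_lit 5) (nat_lit 25) (nat_lit 5) (nat_lit 304) (nat_lit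 291) (nat_lit 125)) (XT.nd (nat_lit 78) (nat_lit 228) (nat_lit 0) (XT.lf (nat_lit 0) (nat_lit 52619605690) (nat_lit 228) (nat_lit 66714359111) (nat_lit 76) (nat_lit 265097052314) (nat_lit 24) (nat_lit 5) (nat_lit 27) (nat_lit 5) (nat_lit 25) (nat_lit 5) (nat_lit 305) (nat_lit 291) (nat_lit 124)) (XT.lf (nat_lit 0) (nat_lit 98358932415) (nat_lit 304) (nat_lit 295064310507) (nat_lit 76) (nat_lit 10543067895) (nat_lit 21) (nat_lit 5) (nat_lit 25) (nat_lit 5) (nat_lit 22) (nat_lit 5) (nat_lit 306) (nat_lit 291) (nat_lit 123))))) (XT.nd (nat_lit 234) (nat_lit 304) (nat_lit 0) (XT.nd (nat_lit 78) (nat_lit 152) (nat_lit 0) (XT.lf (nat_lit 0) (nat_lit 152728402471) (nat_lit 304) (nat_lit 125703759402) (nat_lit 76) (nat_lit 146234586613) (nat_lit 21) (nat_lit 5) (nat_lit 25) (nat_lit 5) (nat_lit 22) (nat_lit 5) (nat_lit 307) (nat_lit 291) (nat_lit 122)) (XT.nd (nat_lit 78) (nat_lit 0) (nat_lit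 0) (XT.lf (nat_lit 0) (nat_lit 60217915685) (nat_lit 152) (nat_lit 152677706725) (nat_lit 228) (nat_lit 234011743604) (nat_lit 19) (nat_lit 5) (nat_lit 21) (nat_lit 5) (nat_lit 22) (nat_lit 5) (nat_lit 308) (nat_lit 291) (nat_lit 121)) (XT.lf (nat_lit 0) (nat_lit 268162146453) (nat_lit 152) (nat_lit 13150989204) (nat_lit 228) (nat_lit 189339144242) (nat_lit 19) (nat_lit 5) (nat_lit 21) (nat_lit 5) (nat_lit 22) (nat_lit 5) (nat_lit 309) (nat_lit 291) (nat_lit 120)))) (XT.nd (nat_lit 156) (nat_lit 152) (nat_lit 0) (XT.nd (nat_lit 78) (nat_lit 152) (nat_lit 0) (XT.lf (nat_lit 0) (nat_lit 358511794320) (nat_lit 228) (nat_lit 6862721480) (nat_lit 76) (nat_lit 130657651740) (nat_lit 19) (nat_lit 5) (nat_lit 22) (nat_lit 5) (nat_lit 20) (nat_lit 5) (nat_lit 310) (nat_lit 291) (nat_lit 119)) (XT.lf (nat_lit 0) (nat_lit 214819377861) (nat_lit 152) (nat_lit 232574921838) (nat_lit 228) (nat_lit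 75607510353) (nat_lit 17) (nat_lit 5) (nat_lit 19) (nat_lit 5) (nat_lit 20) (nat_lit 5) (nat_lit 311) (nat_lit 291) (nat_lit 118))) (XT.nd (nat_lit 78) (nat_lit 152) (nat_lit 0) (XT.lf (nat_lit 0) (nat_lit 454626278889) (nat_lit 152) (nat_lit 88948726002) (nat_lit 228) (nat_lit 8539011290) (nat_lit 17) (nat_lit 5) (nat_lit 19) (nat_lit 5) (nat_lit 20) (nat_lit 5) (nat_lit 312) (nat_lit 291) (nat_lit 117)) (XT.lf (nat_lit 0) (nat_lit 65668222280) (nat_lit 152) (nat_lit 449593976634) (nat_lit 76) (nat_lit 67772502819) (nat_lit 15) (nat_lit 5) (nat_lit 17) (nat_lit 5) (nat_lit 16) (nat_lit 5) (nat_lit 313) (nat_lit 291) (nat_lit 116))))))))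
noncomputable def xc121 : XT := (XT.nd (nat_lit 36816) (nat_lit 0) (nat_lit 0) (XT.nd (nat_lit 35802) (nat_lit 0) (nat_lit 1444) (XT.nd (nat_lit 468) (nat_lit 304) (nat_lit 0) (XT.nd (nat_lit 234) (nat_lit 76) (nat_lit 0) (XT.nd (nat_lit 78) (nat_lit 152) (nat_lit 0) (XT.lf (nat_lit 0) (nat_lit 150395747011) (nat_lit 152) (nat_lit 230429561752) (nat_lit 76) (nat_lit 235182386828) (nat_lit 15) (nat_lit 5) (nat_lit 17) (nat_lit 5) (nat_lit 16) (nat_lit 5) (nat_lit 314) (nat_lit 291) (nat_lit 115)) (XT.nd (nat_lit 78) (nat_lit 0) (nat_lit 0) (XT.lf (nat_lit 0) (nat_lit 6598015161) (nat_lit 152) (nat_lit 235462107105) (nat_lit 228) (nat_lit 409545714930) (nat_lit 13) (nat_lit 5) (nat_lit 15) (nat_lit 5) (nat_lit 16) (nat_lit 5) (nat_lit 315) (nat_lit 291) (nat_lit 114)) (XT.lf (nat_lit 0) (nat_lit 275692482266) (nat_lit 152) (nat_lit 71665485298) (nat_lit 228) (nat_lit 342189837078) (nat_lit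 13) (nat_lit 5) (nat_lit 15) (nat_lit 5) (nat_lit 16) (nat_lit 5) (nat_lit 316) (nat_lit 291) (nat_lit 113)))) (XT.nd (nat_lit 78) (nat_lit 76) (nat_lit 0) (XT.lf (nat_lit 0) (nat_lit 463610511036) (nat_lit 228) (nat_lit 166741571618) (nat_lit 76) (nat_lit 99970577292) (nat_lit 13) (nat_lit 5) (nat_lit 16) (nat_lit 5) (nat_lit 14) (nat_lit 4) (nat_lit 317) (nat_lit 291) (nat_lit 112)) (XT.nd (nat_lit 78) (nat_lit 0) (nat_lit 0) (XT.lf (nat_lit 0) (nat_lit 103455033530) (nat_lit 76) (nat_lit 490057733421) (nat_lit 152) (nat_lit 180498776102) (nat_lit 12) (nat_lit 5) (nat_lit 13) (nat_lit 5) (nat_lit 14) (nat_lit 4) (nat_lit 318) (nat_lit 291) (nat_lit 111)) (XT.lf (nat_lit 0) (nat_lit 404750064869) (nat_lit 76) (nat_lit 333616121332) (nat_lit 152) (nat_lit 82464632071) (nat_lit 12) (nat_lit 5) (nat_lit 13) (nat_lit 5) (nat_lit 14) (nat_lit 4) (nat_lit 319) (nat_lit 291) (nat_lit 110)))))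 (XT.nd (nat_lit 234) (nat_lit 76) (nat_lit 0) (XT.nd (nat_lit 78) (nat_lit 152) (nat_lit 0) (XT.lf (nat_lit 0) (nat_lit 22241042324) (nat_lit 152) (nat_lit 141810043205) (nat_lit 76) (nat_lit 707299506929) (nat_lit 11) (nat_lit 5) (nat_lit 13) (nat_lit 5) (nat_lit 12) (nat_lit 5) (nat_lit 320) (nat_lit 291) (nat_lit 109)) (XT.nd (nat_lit 78) (nat_lit 0) (nat_lit 0) (XT.lf (nat_lit 0) (nat_lit 135337217324) (nat_lit 228) (nat_lit 765768723465) (nat_lit 76) (nat_lit 24277110484) (nat_lit 9) (nat_lit 5) (nat_lit 12) (nat_lit 5) (nat_lit 10) (nat_lit 4) (nat_lit 321) (nat_lit 291) (nat_lit 108)) (XT.lf (nat_lit 0) (nat_lit 265720177984) (nat_lit 228) (nat_lit 494572224608) (nat_lit 76) (nat_lit 222786576933) (nat_lit 9) (nat_lit 5) (nat_lit 12) (nat_lit 5) (nat_lit 10) (nat_lit 4) (nat_lit 322) (nat_lit 291) (nat_lit 107)))) (XT.nd (nat_lit 78) (nat_lit 76) (nat_lit 0) (XT.lf (nat_lit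 0) (nat_lit 406533753774) (nat_lit 228) (nat_lit 201680041889) (nat_lit 76) (nat_lit 437176788176) (nat_lit 9) (nat_lit 5) (nat_lit 12) (nat_lit 5) (nat_lit 10) (nat_lit 4) (nat_lit 323) (nat_lit 291) (nat_lit 106)) (XT.nd (nat_lit 156) (nat_lit 0) (nat_lit 0) (XT.lf (nat_lit 0) (nat_lit 120680404672) (nat_lit 76) (nat_lit 440834357475) (nat_lit 152) (nat_lit 550940166686) (nat_lit 8) (nat_lit 5) (nat_lit 9) (nat_lit 5) (nat_lit 10) (nat_lit 4) (nat_lit 324) (nat_lit 291) (nat_lit 105)) (XT.lf (nat_lit 0) (nat_lit 868687837230) (nat_lit 76) (nat_lit 52445926477) (nat_lit 152) (nat_lit 341056936730) (nat_lit 8) (nat_lit 5) (nat_lit 9) (nat_lit 5) (nat_lit 10) (nat_lit 4) (nat_lit 326) (nat_lit 291) (nat_lit 103)))))) (XT.nd (nat_lit 468) (nat_lit 456) (nat_lit 0) (XT.nd (nat_lit 234) (nat_lit 0) (nat_lit 76) (XT.nd (nat_lit 78) (nat_lit 0) (nat_lit 0) (XT.lf (nat_lit 0) (nat_lit 34958746566)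 (nat_lit 532) (nat_lit 38689990371) (nat_lit 532) (nat_lit 38689990371) (nat_lit 33) (nat_lit 3) (nat_lit 40) (nat_lit 3) (nat_lit 40) (nat_lit 5) (nat_lit 292) (nat_lit 292) (nat_lit 136)) (XT.nd (nat_lit 78) (nat_lit 0) (nat_lit 76) (XT.lf (nat_lit 76) (nat_lit 18105462502) (nat_lit 0) (nat_lit 55045315959) (nat_lit 532) (nat_lit 160478840806) (nat_lit 34) (nat_lit 5) (nat_lit 33) (nat_lit 3) (nat_lit 40) (nat_lit 5) (nat_lit 293) (nat_lit 292) (nat_lit 135)) (XT.lf (nat_lit 0) (nat_lit 79885589298) (nat_lit 456) (nat_lit 118625640419) (nat_lit 532) (nat_lit 44527299027) (nat_lit 34) (nat_lit 5) (nat_lit 40) (nat_lit 5) (nat_lit 41) (nat_lit 5) (nat_lit 294) (nat_lit 292) (nat_lit 134)))) (XT.nd (nat_lit 78) (nat_lit 0) (nat_lit 76) (XT.lf (nat_lit 0) (nat_lit 88588826716) (nat_lit 456) (nat_lit 15405062433) (nat_lit 532) (nat_lit 149091891113) (nat_lit 34) (nat_lit 5) (nat_lit 40)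 (nat_lit 5) (nat_lit 41) (nat_lit 5) (nat_lit 295) (nat_lit 292) (nat_lit 133)) (XT.nd (nat_lit 78) (nat_lit 0) (nat_lit 0) (XT.lf (nat_lit 0) (nat_lit 100437570487) (nat_lit 456) (nat_lit 162627223053) (nat_lit 532) (nat_lit 676079147) (nat_lit 35) (nat_lit 5) (nat_lit 41) (nat_lit 5) (nat_lit 42) (nat_lit 5) (nat_lit 296) (nat_lit 292) (nat_lit 132)) (XT.lf (nat_lit 0) (nat_lit 116367403373) (nat_lit 456) (nat_lit 50096871360) (nat_lit 532) (nat_lit 108533443134) (nat_lit 35) (nat_lit 5) (nat_lit 41) (nat_lit 5) (nat_lit 42) (nat_lit 5) (nat_lit 297) (nat_lit 292) (nat_lit 131))))) (XT.nd (nat_lit 234) (nat_lit 228) (nat_lit 0) (XT.nd (nat_lit 78) (nat_lit 380) (nat_lit 0) (XT.lf (nat_lit 76) (nat_lit 75197525731) (nat_lit 0) (nat_lit 60182513928) (nat_lit 532) (nat_lit 151630398152) (nat_lit 36) (nat_lit 5) (nat_lit 35) (nat_lit 5) (nat_lit 42) (nat_lit 5) (nat_lit 298) (nat_lit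 292) (nat_lit 130)) (XT.nd (nat_lit 78) (nat_lit 456) (nat_lit 0) (XT.lf (nat_lit 0) (nat_lit 158632095570) (nat_lit 456) (nat_lit 87858893310) (nat_lit 76) (nat_lit 53275714228) (nat_lit 36) (nat_lit 5) (nat_lit 42) (nat_lit 5) (nat_lit 37) (nat_lit 5) (nat_lit 299) (nat_lit 292) (nat_lit 129)) (XT.lf (nat_lit 0) (nat_lit 46788760392) (nat_lit 456) (nat_lit 139643934091) (nat_lit 532) (nat_lit 126895705285) (nat_lit 30) (nat_lit 5) (nat_lit 36) (nat_lit 5) (nat_lit 37) (nat_lit 5) (nat_lit 300) (nat_lit 292) (nat_lit 128)))) (XT.nd (nat_lit 156) (nat_lit 0) (nat_lit 0) (XT.nd (nat_lit 78) (nat_lit 228) (nat_lit 0) (XT.lf (nat_lit 0) (nat_lit 197204773538) (nat_lit 456) (nat_lit 21654715081) (nat_lit 532) (nat_lit 108923372147) (nat_lit 30) (nat_lit 5) (nat_lit 36) (nat_lit 5) (nat_lit 37) (nat_lit 5) (nat_lit 301) (nat_lit 292) (nat_lit 127)) (XT.lf (nat_lit 0) (nat_lit 14438748372)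 (nat_lit 228) (nat_lit 242332723573) (nat_lit 304) (nat_lit 86390923408) (nat_lit 27) (nat_lit 5) (nat_lit 30) (nat_lit 5) (nat_lit 31) (nat_lit 5) (nat_lit 302) (nat_lit 292) (nat_lit 126))) (XT.nd (nat_lit 78) (nat_lit 0) (nat_lit 0) (XT.lf (nat_lit 0) (nat_lit 177890878983) (nat_lit 228) (nat_lit 123943929957) (nat_lit 304) (nat_lit 57608012503) (nat_lit 27) (nat_lit 5) (nat_lit 30) (nat_lit 5) (nat_lit 31) (nat_lit 5) (nat_lit 303) (nat_lit 292) (nat_lit 125)) (XT.lf (nat_lit 0) (nat_lit 350597334575) (nat_lit 304) (nat_lit 22700745764) (nat_lit 76) (nat_lit 3720071855) (nat_lit 27) (nat_lit 5) (nat_lit 31) (nat_lit 5) (nat_lit 28) (nat_lit 5) (nat_lit 304) (nat_lit 292) (nat_lit 124))))))) (XT.nd (nat_lit 936) (nat_lit 380) (nat_lit 0) (XT.nd (nat_lit 468) (nat_lit 456) (nat_lit 0) (XT.nd (nat_lit 234) (nat_lit 152) (nat_lit 0) (XT.nd (nat_lit 78) (nat_lit 228) (nat_lit 0) (XT.lf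 (nat_lit 0) (nat_lit 13983832800) (nat_lit 228) (nat_lit 242492760002) (nat_lit 76) (nat_lit 138942088233) (nat_lit 24) (nat_lit 5) (nat_lit 27) (nat_lit 5) (nat_lit 25) (nat_lit 5) (nat_lit 305) (nat_lit 292) (nat_lit 123)) (XT.nd (nat_lit 78) (nat_lit 228) (nat_lit 0) (XT.lf (nat_lit 0) (nat_lit 56830192777) (nat_lit 228) (nat_lit 72050303451) (nat_lit 76) (nat_lit 286304915968) (nat_lit 24) (nat_lit 5) (nat_lit 27) (nat_lit 5) (nat_lit 25) (nat_lit 5) (nat_lit 306) (nat_lit 292) (nat_lit 122)) (XT.lf (nat_lit 0) (nat_lit 106228623288) (nat_lit 304) (nat_lit 318668204164) (nat_lit 76) (nat_lit 11386705686) (nat_lit 21) (nat_lit 5) (nat_lit 25) (nat_lit 5) (nat_lit 22) (nat_lit 5) (nat_lit 307) (nat_lit 292) (nat_lit 121)))) (XT.nd (nat_lit 78) (nat_lit 152) (nat_lit 0) (XT.lf (nat_lit 0) (nat_lit 164947578631) (nat_lit 304) (nat_lit 135758901651) (nat_lit 76) (nat_lit 157933531652)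 (nat_lit 21) (nat_lit 5) (nat_lit 25) (nat_lit 5) (nat_lit 22) (nat_lit 5) (nat_lit 308) (nat_lit 292) (nat_lit 120)) (XT.nd (nat_lit 78) (nat_lit 0) (nat_lit 0) (XT.lf (nat_lit 0) (nat_lit 65036478114) (nat_lit 152) (nat_lit 164891658249) (nat_lit 228) (nat_lit 252731745992) (nat_lit 19) (nat_lit 5) (nat_lit 21) (nat_lit 5) (nat_lit 22) (nat_lit 5) (nat_lit 309) (nat_lit 292) (nat_lit 119)) (XT.lf (nat_lit 0) (nat_lit 289616163701) (nat_lit 152) (nat_lit 14202822956) (nat_lit 228) (nat_lit 204485408096) (nat_lit 19) (nat_lit 5) (nat_lit 21) (nat_lit 5) (nat_lit 22) (nat_lit 5) (nat_lit 310) (nat_lit 292) (nat_lit 118))))) (XT.nd (nat_lit 234) (nat_lit 304) (nat_lit 0) (XT.nd (nat_lit 78) (nat_lit 152) (nat_lit 0) (XT.lf (nat_lit 0) (nat_lit 387193484207) (nat_lit 228) (nat_lit 7410714043) (nat_lit 76) (nat_lit 141110479721) (nat_lit 19) (nat_lit 5) (nat_lit 22) (nat_lit 5) (nat_lit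 20) (nat_lit 5) (nat_lit 311) (nat_lit 292) (nat_lit 117)) (XT.nd (nat_lit 78) (nat_lit 0) (nat_lit 0) (XT.lf (nat_lit 0) (nat_lit 232005927293) (nat_lit 152) (nat_lit 251180631470) (nat_lit 228) (nat_lit 81655335862) (nat_lit 17) (nat_lit 5) (nat_lit 19) (nat_lit 5) (nat_lit 20) (nat_lit 5) (nat_lit 312) (nat_lit 292) (nat_lit 116)) (XT.lf (nat_lit 0) (nat_lit 490997306388) (nat_lit 152) (nat_lit 96064361013) (nat_lit 228) (nat_lit 9221414306) (nat_lit 17) (nat_lit 5) (nat_lit 19) (nat_lit 5) (nat_lit 20) (nat_lit 5) (nat_lit 313) (nat_lit 292) (nat_lit 115)))) (XT.nd (nat_lit 78) (nat_lit 152) (nat_lit 0) (XT.lf (nat_lit 0) (nat_lit 70922340972) (nat_lit 152) (nat_lit 485560507606) (nat_lit 76) (nat_lit 73194574020) (nat_lit 15) (nat_lit 5) (nat_lit 17) (nat_lit 5) (nat_lit 16) (nat_lit 5) (nat_lit 314) (nat_lit 292) (nat_lit 114)) (XT.nd (nat_lit 78) (nat_lit 152) (nat_lit 0) (XT.lf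 (nat_lit 0) (nat_lit 162428018724) (nat_lit 152) (nat_lit 248863012657) (nat_lit 76) (nat_lit 253997228678) (nat_lit 15) (nat_lit 5) (nat_lit 17) (nat_lit 5) (nat_lit 16) (nat_lit 5) (nat_lit 315) (nat_lit 292) (nat_lit 113)) (XT.lf (nat_lit 0) (nat_lit 7126747270) (nat_lit 152) (nat_lit 254298772827) (nat_lit 228) (nat_lit 442308734973) (nat_lit 13) (nat_lit 5) (nat_lit 15) (nat_lit 5) (nat_lit 16) (nat_lit 5) (nat_lit 316) (nat_lit 292) (nat_lit 112)))))) (XT.nd (nat_lit 468) (nat_lit 76) (nat_lit 0) (XT.nd (nat_lit 234) (nat_lit 228) (nat_lit 0) (XT.nd (nat_lit 78) (nat_lit 76) (nat_lit 0) (XT.lf (nat_lit 0) (nat_lit 297748705751) (nat_lit 152) (nat_lit 77398443709) (nat_lit 228) (nat_lit 369564434090) (nat_lit 13) (nat_lit 5) (nat_lit 15) (nat_lit 5) (nat_lit 16) (nat_lit 5) (nat_lit 317) (nat_lit 292) (nat_lit 111)) (XT.nd (nat_lit 78) (nat_lit 76) (nat_lit 0) (XT.lf (nat_lit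 0) (nat_lit 500699862321) (nat_lit 228) (nat_lit 180080097696) (nat_lit 76) (nat_lit 107968470129) (nat_lit 13) (nat_lit 5) (nat_lit 16) (nat_lit 5) (nat_lit 14) (nat_lit 4) (nat_lit 318) (nat_lit 292) (nat_lit 110)) (XT.lf (nat_lit 0) (nat_lit 111732215620) (nat_lit 76) (nat_lit 529262064027) (nat_lit 152) (nat_lit 194938145911) (nat_lit 12) (nat_lit 5) (nat_lit 13) (nat_lit 5) (nat_lit 14) (nat_lit 4) (nat_lit 319) (nat_lit 292) (nat_lit 109)))) (XT.nd (nat_lit 78) (nat_lit 228) (nat_lit 0) (XT.lf (nat_lit 0) (nat_lit 437130791732) (nat_lit 76) (nat_lit 360305144309) (nat_lit 152) (nat_lit 89061309786) (nat_lit 12) (nat_lit 5) (nat_lit 13) (nat_lit 5) (nat_lit 14) (nat_lit 4) (nat_lit 320) (nat_lit 292) (nat_lit 108)) (XT.nd (nat_lit 78) (nat_lit 152) (nat_lit 0) (XT.lf (nat_lit 0) (nat_lit 24020759226) (nat_lit 152) (nat_lit 153154154320) (nat_lit 76) (nat_lit 763883690331) (nat_lit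 11) (nat_lit 5) (nat_lit 13) (nat_lit 5) (nat_lit 12) (nat_lit 5) (nat_lit 321) (nat_lit 292) (nat_lit 107)) (XT.lf (nat_lit 0) (nat_lit 146164618528) (nat_lit 228) (nat_lit 827029518103) (nat_lit 76) (nat_lit 26219523638) (nat_lit 9) (nat_lit 5) (nat_lit 12) (nat_lit 5) (nat_lit 10) (nat_lit 4) (nat_lit 322) (nat_lit 292) (nat_lit 106))))) (XT.nd (nat_lit 35178) (nat_lit 0) (nat_lit 1900) (XT.nd (nat_lit 78) (nat_lit 76) (nat_lit 0) (XT.lf (nat_lit 0) (nat_lit 286978184647) (nat_lit 228) (nat_lit 534137351429) (nat_lit 76) (nat_lit 240609729306) (nat_lit 9) (nat_lit 5) (nat_lit 12) (nat_lit 5) (nat_lit 10) (nat_lit 4) (nat_lit 323) (nat_lit 292) (nat_lit 105)) (XT.nd (nat_lit 156) (nat_lit 76) (nat_lit 0) (XT.lf (nat_lit 0) (nat_lit 439056817431) (nat_lit 228) (nat_lit 217813842325) (nat_lit 76) (nat_lit 472151140692) (nat_lit 9) (nat_lit 5) (nat_lit 12) (nat_lit 5) (nat_lit 10) (nat_lit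 4) (nat_lit 324) (nat_lit 292) (nat_lit 104)) (XT.lf (nat_lit 0) (nat_lit 518723871404) (nat_lit 76) (nat_lit 274437656460) (nat_lit 152) (nat_lit 486037187524) (nat_lit 8) (nat_lit 5) (nat_lit 9) (nat_lit 5) (nat_lit 10) (nat_lit 4) (nat_lit 326) (nat_lit 292) (nat_lit 102)))) (XT.nd (nat_lit 156) (nat_lit 0) (nat_lit 76) (XT.nd (nat_lit 78) (nat_lit 0) (nat_lit 0) (XT.lf (nat_lit 0) (nat_lit 37756567458) (nat_lit 532) (nat_lit 41784580908) (nat_lit 532) (nat_lit 41784580908) (nat_lit 33) (nat_lit 3) (nat_lit 40) (nat_lit 3) (nat_lit 40) (nat_lit 5) (nat_lit 293) (nat_lit 293) (nat_lit 134)) (XT.lf (nat_lit 76) (nat_lit 19555086067) (nat_lit 0) (nat_lit 59449859443) (nat_lit 532) (nat_lit 173314862835) (nat_lit 34) (nat_lit 5) (nat_lit 33) (nat_lit 3) (nat_lit 40) (nat_lit 5) (nat_lit 294) (nat_lit 293) (nat_lit 133))) (XT.nd (nat_lit 78) (nat_lit 0) (nat_lit 0) (XT.lf (nat_lit 0)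 (nat_lit 86278364858) (nat_lit 456) (nat_lit 128114405438) (nat_lit 532) (nat_lit 48088675288) (nat_lit 34) (nat_lit 5) (nat_lit 40) (nat_lit 5) (nat_lit 41) (nat_lit 5) (nat_lit 295) (nat_lit 293) (nat_lit 132)) (XT.lf (nat_lit 0) (nat_lit 95677718424) (nat_lit 456) (nat_lit 16636276488) (nat_lit 532) (nat_lit 161018494567) (nat_lit 34) (nat_lit 5) (nat_lit 40) (nat_lit 5) (nat_lit 41) (nat_lit 5) (nat_lit 296) (nat_lit 293) (nat_lit 131))))))))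
noncomputable def xc122 : XT := (XT.nd (nat_lit 1950) (nat_lit 228) (nat_lit 0) (XT.nd (nat_lit 936) (nat_lit 684) (nat_lit 0) (XT.nd (nat_lit 468) (nat_lit 684) (nat_lit 0) (XT.nd (nat_lit 234) (nat_lit 380) (nat_lit 0) (XT.nd (nat_lit 78) (nat_lit 0) (nat_lit 0) (XT.lf (nat_lit 0) (nat_lit 108474244832) (nat_lit 456) (nat_lit 175636083503) (nat_lit 532) (nat_lit 729671079) (nat_lit 35) (nat_lit 5) (nat_lit 41) (nat_lit 5) (nat_lit 42) (nat_lit 5) (nat_lit 297) (nat_lit 293) (nat_lit 130)) (XT.nd (nat_lit 78) (nat_lit 0) (nat_lit 0) (XT.lf (nat_lit 0) (nat_lit 125678340741) (nat_lit 456) (nat_lit 54103401259) (nat_lit 532) (nat_lit 117215660807) (nat_lit 35) (nat_lit 5) (nat_lit 41) (nat_lit 5) (nat_lit 42) (nat_lit 5) (nat_lit 298) (nat_lit 293) (nat_lit 129)) (XT.lf (nat_lit 76) (nat_lit 81214516718) (nat_lit 0) (nat_lit 64997385354) (nat_lit 532) (nat_lit 163759245802) (nat_lit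 36) (nat_lit 5) (nat_lit 35) (nat_lit 5) (nat_lit 42) (nat_lit 5) (nat_lit 299) (nat_lit 293) (nat_lit 128)))) (XT.nd (nat_lit 78) (nat_lit 456) (nat_lit 0) (XT.lf (nat_lit 0) (nat_lit 171324008345) (nat_lit 456) (nat_lit 94886382190) (nat_lit 76) (nat_lit 57537533598) (nat_lit 36) (nat_lit 5) (nat_lit 42) (nat_lit 5) (nat_lit 37) (nat_lit 5) (nat_lit 300) (nat_lit 293) (nat_lit 127)) (XT.nd (nat_lit 78) (nat_lit 0) (nat_lit 0) (XT.lf (nat_lit 0) (nat_lit 50533052857) (nat_lit 456) (nat_lit 150815531334) (nat_lit 532) (nat_lit 137045978577) (nat_lit 30) (nat_lit 5) (nat_lit 36) (nat_lit 5) (nat_lit 37) (nat_lit 5) (nat_lit 301) (nat_lit 293) (nat_lit 126)) (XT.lf (nat_lit 0) (nat_lit 212982258785) (nat_lit 456) (nat_lit 23387168691) (nat_lit 532) (nat_lit 117635961243) (nat_lit 30) (nat_lit 5) (nat_lit 36) (nat_lit 5) (nat_lit 37) (nat_lit 5) (nat_lit 302) (nat_lit 293) (nat_lit 125)))))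 (XT.nd (nat_lit 234) (nat_lit 456) (nat_lit 0) (XT.nd (nat_lit 78) (nat_lit 0) (nat_lit 0) (XT.lf (nat_lit 0) (nat_lit 15595023818) (nat_lit 228) (nat_lit 261719284832) (nat_lit 304) (nat_lit 93300982773) (nat_lit 27) (nat_lit 5) (nat_lit 30) (nat_lit 5) (nat_lit 31) (nat_lit 5) (nat_lit 303) (nat_lit 293) (nat_lit 124)) (XT.nd (nat_lit 78) (nat_lit 0) (nat_lit 0) (XT.lf (nat_lit 0) (nat_lit 192123237798) (nat_lit 228) (nat_lit 133859391920) (nat_lit 304) (nat_lit 62215528958) (nat_lit 27) (nat_lit 5) (nat_lit 30) (nat_lit 5) (nat_lit 31) (nat_lit 5) (nat_lit 304) (nat_lit 293) (nat_lit 123)) (XT.lf (nat_lit 0) (nat_lit 378646081826) (nat_lit 304) (nat_lit 24515716799) (nat_lit 76) (nat_lit 4017723723) (nat_lit 27) (nat_lit 5) (nat_lit 31) (nat_lit 5) (nat_lit 28) (nat_lit 5) (nat_lit 305) (nat_lit 293) (nat_lit 122)))) (XT.nd (nat_lit 78) (nat_lit 228) (nat_lit 0) (XT.lf (nat_lit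 0) (nat_lit 15103482602) (nat_lit 228) (nat_lit 261891065627) (nat_lit 76) (nat_lit 150057547393) (nat_lit 24) (nat_lit 5) (nat_lit 27) (nat_lit 5) (nat_lit 25) (nat_lit 5) (nat_lit 306) (nat_lit 293) (nat_lit 121)) (XT.nd (nat_lit 78) (nat_lit 228) (nat_lit 0) (XT.lf (nat_lit 0) (nat_lit 61377481512) (nat_lit 228) (nat_lit 77813295157) (nat_lit 76) (nat_lit 309209394524) (nat_lit 24) (nat_lit 5) (nat_lit 27) (nat_lit 5) (nat_lit 25) (nat_lit 5) (nat_lit 307) (nat_lit 293) (nat_lit 120)) (XT.lf (nat_lit 0) (nat_lit 114727750154) (nat_lit 304) (nat_lit 344160587809) (nat_lit 76) (nat_lit 12297807057) (nat_lit 21) (nat_lit 5) (nat_lit 25) (nat_lit 5) (nat_lit 22) (nat_lit 5) (nat_lit 308) (nat_lit 293) (nat_lit 119)))))) (XT.nd (nat_lit 468) (nat_lit 380) (nat_lit 0) (XT.nd (nat_lit 234) (nat_lit 152) (nat_lit 0) (XT.nd (nat_lit 78) (nat_lit 152) (nat_lit 0) (XT.lf (nat_lit 0) (nat_lit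 178144159924) (nat_lit 304) (nat_lit 146618620553) (nat_lit 76) (nat_lit 170568366885) (nat_lit 21) (nat_lit 5) (nat_lit 25) (nat_lit 5) (nat_lit 22) (nat_lit 5) (nat_lit 309) (nat_lit 293) (nat_lit 118)) (XT.nd (nat_lit 78) (nat_lit 0) (nat_lit 0) (XT.lf (nat_lit 0) (nat_lit 70240364448) (nat_lit 152) (nat_lit 178082763701) (nat_lit 228) (nat_lit 272949482258) (nat_lit 19) (nat_lit 5) (nat_lit 21) (nat_lit 5) (nat_lit 22) (nat_lit 5) (nat_lit 310) (nat_lit 293) (nat_lit 117)) (XT.lf (nat_lit 0) (nat_lit 312786353172) (nat_lit 152) (nat_lit 15338838415) (nat_lit 228) (nat_lit 220843496843) (nat_lit 19) (nat_lit 5) (nat_lit 21) (nat_lit 5) (nat_lit 22) (nat_lit 5) (nat_lit 311) (nat_lit 293) (nat_lit 116)))) (XT.nd (nat_lit 78) (nat_lit 152) (nat_lit 0) (XT.lf (nat_lit 0) (nat_lit 418169602811) (nat_lit 228) (nat_lit 8002692260) (nat_lit 76) (nat_lit 152399503148) (nat_lit 19) (nat_lit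 5) (nat_lit 22) (nat_lit 5) (nat_lit 20) (nat_lit 5) (nat_lit 312) (nat_lit 293) (nat_lit 115)) (XT.nd (nat_lit 78) (nat_lit 0) (nat_lit 0) (XT.lf (nat_lit 0) (nat_lit 250567258132) (nat_lit 152) (nat_lit 271274838405) (nat_lit 228) (nat_lit 88187098021) (nat_lit 17) (nat_lit 5) (nat_lit 19) (nat_lit 5) (nat_lit 20) (nat_lit 5) (nat_lit 313) (nat_lit 293) (nat_lit 114)) (XT.lf (nat_lit 0) (nat_lit 530277884099) (nat_lit 152) (nat_lit 103749284354) (nat_lit 228) (nat_lit 9958511978) (nat_lit 17) (nat_lit 5) (nat_lit 19) (nat_lit 5) (nat_lit 20) (nat_lit 5) (nat_lit 314) (nat_lit 293) (nat_lit 113))))) (XT.nd (nat_lit 234) (nat_lit 76) (nat_lit 0) (XT.nd (nat_lit 78) (nat_lit 152) (nat_lit 0) (XT.lf (nat_lit 0) (nat_lit 76596694873) (nat_lit 152) (nat_lit 524404501885) (nat_lit 76) (nat_lit 79050372260) (nat_lit 15) (nat_lit 5) (nat_lit 17) (nat_lit 5) (nat_lit 16) (nat_lit 5) (nat_lit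 315) (nat_lit 293) (nat_lit 112)) (XT.nd (nat_lit 78) (nat_lit 152) (nat_lit 0) (XT.lf (nat_lit 0) (nat_lit 175422784874) (nat_lit 152) (nat_lit 268771270031) (nat_lit 76) (nat_lit 274317222082) (nat_lit 15) (nat_lit 5) (nat_lit 17) (nat_lit 5) (nat_lit 16) (nat_lit 5) (nat_lit 316) (nat_lit 293) (nat_lit 111)) (XT.lf (nat_lit 0) (nat_lit 7697650850) (nat_lit 152) (nat_lit 274642415011) (nat_lit 228) (nat_lit 477692887517) (nat_lit 13) (nat_lit 5) (nat_lit 15) (nat_lit 5) (nat_lit 16) (nat_lit 5) (nat_lit 317) (nat_lit 293) (nat_lit 110)))) (XT.nd (nat_lit 156) (nat_lit 76) (nat_lit 0) (XT.nd (nat_lit 78) (nat_lit 0) (nat_lit 0) (XT.lf (nat_lit 0) (nat_lit 321569309432) (nat_lit 152) (nat_lit 83590078797) (nat_lit 228) (nat_lit 399129083026) (nat_lit 13) (nat_lit 5) (nat_lit 15) (nat_lit 5) (nat_lit 16) (nat_lit 5) (nat_lit 318) (nat_lit 293) (nat_lit 109)) (XT.lf (nat_lit 0) (nat_lit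 540756288894) (nat_lit 228) (nat_lit 194485819939) (nat_lit 76) (nat_lit 116606159204) (nat_lit 13) (nat_lit 5) (nat_lit 16) (nat_lit 5) (nat_lit 14) (nat_lit 4) (nat_lit 319) (nat_lit 293) (nat_lit 108))) (XT.nd (nat_lit 78) (nat_lit 0) (nat_lit 0) (XT.lf (nat_lit 0) (nat_lit 120671461086) (nat_lit 76) (nat_lit 571602782177) (nat_lit 152) (nat_lit 210532741240) (nat_lit 12) (nat_lit 5) (nat_lit 13) (nat_lit 5) (nat_lit 14) (nat_lit 4) (nat_lit 320) (nat_lit 293) (nat_lit 107)) (XT.lf (nat_lit 0) (nat_lit 472101873789) (nat_lit 76) (nat_lit 389129327176) (nat_lit 152) (nat_lit 96185792028) (nat_lit 12) (nat_lit 5) (nat_lit 13) (nat_lit 5) (nat_lit 14) (nat_lit 4) (nat_lit 321) (nat_lit 293) (nat_lit 106))))))) (XT.nd (nat_lit 36114) (nat_lit 0) (nat_lit 456) (XT.nd (nat_lit 35646) (nat_lit 0) (nat_lit 1596) (XT.nd (nat_lit 35412) (nat_lit 0) (nat_lit 1824) (XT.nd (nat_lit 78) (nat_lit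 152) (nat_lit 0) (XT.lf (nat_lit 0) (nat_lit 25942791634) (nat_lit 152) (nat_lit 165405893095) (nat_lit 76) (nat_lit 824994576613) (nat_lit 11) (nat_lit 5) (nat_lit 13) (nat_lit 5) (nat_lit 12) (nat_lit 5) (nat_lit 322) (nat_lit 293) (nat_lit 105)) (XT.nd (nat_lit 35256) (nat_lit 0) (nat_lit 1824) (XT.lf (nat_lit 0) (nat_lit 157858151366) (nat_lit 228) (nat_lit 893191276637) (nat_lit 76) (nat_lit 28317294990) (nat_lit 9) (nat_lit 5) (nat_lit 12) (nat_lit 5) (nat_lit 10) (nat_lit 4) (nat_lit 323) (nat_lit 293) (nat_lit 104)) (XT.lf (nat_lit 0) (nat_lit 40778054074) (nat_lit 532) (nat_lit 45126825525) (nat_lit 532) (nat_lit 45126825525) (nat_lit 33) (nat_lit 3) (nat_lit 40) (nat_lit 3) (nat_lit 40) (nat_lit 5) (nat_lit 294) (nat_lit 294) (nat_lit 132)))) (XT.nd (nat_lit 78) (nat_lit 0) (nat_lit 76) (XT.lf (nat_lit 76) (nat_lit 21120510240) (nat_lit 0) (nat_lit 64206635413) (nat_lit 532)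 (nat_lit 187178092640) (nat_lit 34) (nat_lit 5) (nat_lit 33) (nat_lit 3) (nat_lit 40) (nat_lit 5) (nat_lit 295) (nat_lit 294) (nat_lit 131)) (XT.nd (nat_lit 78) (nat_lit 0) (nat_lit 0) (XT.lf (nat_lit 0) (nat_lit 93182287352) (nat_lit 456) (nat_lit 138362455152) (nat_lit 532) (nat_lit 51935076871) (nat_lit 34) (nat_lit 5) (nat_lit 40) (nat_lit 5) (nat_lit 41) (nat_lit 5) (nat_lit 296) (nat_lit 294) (nat_lit 130)) (XT.lf (nat_lit 0) (nat_lit 103333466736) (nat_lit 456) (nat_lit 17966157569) (nat_lit 532) (nat_lit 173899332984) (nat_lit 34) (nat_lit 5) (nat_lit 40) (nat_lit 5) (nat_lit 41) (nat_lit 5) (nat_lit 297) (nat_lit 294) (nat_lit 129))))) (XT.nd (nat_lit 234) (nat_lit 380) (nat_lit 0) (XT.nd (nat_lit 78) (nat_lit 0) (nat_lit 0) (XT.lf (nat_lit 0) (nat_lit 117153615065) (nat_lit 456) (nat_lit 189685840730) (nat_lit 532) (nat_lit 787620897) (nat_lit 35) (nat_lit 5) (nat_lit 41)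 (nat_lit 5) (nat_lit 42) (nat_lit 5) (nat_lit 298) (nat_lit 294) (nat_lit 128)) (XT.nd (nat_lit 78) (nat_lit 0) (nat_lit 0) (XT.lf (nat_lit 0) (nat_lit 135733932673) (nat_lit 456) (nat_lit 58430627570) (nat_lit 532) (nat_lit 126592521201) (nat_lit 35) (nat_lit 5) (nat_lit 41) (nat_lit 5) (nat_lit 42) (nat_lit 5) (nat_lit 299) (nat_lit 294) (nat_lit 127)) (XT.lf (nat_lit 76) (nat_lit 87712697370) (nat_lit 0) (nat_lit 70197407932) (nat_lit 532) (nat_lit 176858627268) (nat_lit 36) (nat_lit 5) (nat_lit 35) (nat_lit 5) (nat_lit 42) (nat_lit 5) (nat_lit 300) (nat_lit 294) (nat_lit 126)))) (XT.nd (nat_lit 78) (nat_lit 456) (nat_lit 0) (XT.lf (nat_lit 0) (nat_lit 185031082244) (nat_lit 456) (nat_lit 102476244596) (nat_lit 76) (nat_lit 62140332437) (nat_lit 36) (nat_lit 5) (nat_lit 42) (nat_lit 5) (nat_lit 37) (nat_lit 5) (nat_lit 301) (nat_lit 294) (nat_lit 125)) (XT.nd (nat_lit 78) (nat_lit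 0) (nat_lit 0) (XT.lf (nat_lit 0) (nat_lit 54576718719) (nat_lit 456) (nat_lit 162880844585) (nat_lit 532) (nat_lit 148008471052) (nat_lit 30) (nat_lit 5) (nat_lit 36) (nat_lit 5) (nat_lit 37) (nat_lit 5) (nat_lit 302) (nat_lit 294) (nat_lit 124)) (XT.lf (nat_lit 0) (nat_lit 230021785445) (nat_lit 456) (nat_lit 25258207690) (nat_lit 532) (nat_lit 127045740169) (nat_lit 30) (nat_lit 5) (nat_lit 36) (nat_lit 5) (nat_lit 37) (nat_lit 5) (nat_lit 303) (nat_lit 294) (nat_lit 123)))))) (XT.nd (nat_lit 468) (nat_lit 456) (nat_lit 0) (XT.nd (nat_lit 234) (nat_lit 456) (nat_lit 0) (XT.nd (nat_lit 78) (nat_lit 0) (nat_lit 0) (XT.lf (nat_lit 0) (nat_lit 16843633591) (nat_lit 228) (nat_lit 282656779069) (nat_lit 304) (nat_lit 100764020150) (nat_lit 27) (nat_lit 5) (nat_lit 30) (nat_lit 5) (nat_lit 31) (nat_lit 5) (nat_lit 304) (nat_lit 294) (nat_lit 122)) (XT.nd (nat_lit 78) (nat_lit 0) (nat_lit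 0) (XT.lf (nat_lit 0) (nat_lit 207494030032) (nat_lit 228) (nat_lit 144568098321) (nat_lit 304) (nat_lit 67191807159) (nat_lit 27) (nat_lit 5) (nat_lit 30) (nat_lit 5) (nat_lit 31) (nat_lit 5) (nat_lit 305) (nat_lit 294) (nat_lit 121)) (XT.lf (nat_lit 0) (nat_lit 408938591834) (nat_lit 304) (nat_lit 26476040821) (nat_lit 76) (nat_lit 4339181162) (nat_lit 27) (nat_lit 5) (nat_lit 31) (nat_lit 5) (nat_lit 28) (nat_lit 5) (nat_lit 306) (nat_lit 294) (nat_lit 120)))) (XT.nd (nat_lit 78) (nat_lit 228) (nat_lit 0) (XT.lf (nat_lit 0) (nat_lit 16312569833) (nat_lit 228) (nat_lit 282841394794) (nat_lit 76) (nat_lit 162062230146) (nat_lit 24) (nat_lit 5) (nat_lit 27) (nat_lit 5) (nat_lit 25) (nat_lit 5) (nat_lit 307) (nat_lit 294) (nat_lit 119)) (XT.nd (nat_lit 78) (nat_lit 228) (nat_lit 0) (XT.lf (nat_lit 0) (nat_lit 66288428758) (nat_lit 228) (nat_lit 84037473508) (nat_lit 76) (nat_lit 333946219198)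 (nat_lit 24) (nat_lit 5) (nat_lit 27) (nat_lit 5) (nat_lit 25) (nat_lit 5) (nat_lit 308) (nat_lit 294) (nat_lit 118)) (XT.lf (nat_lit 0) (nat_lit 123906687761) (nat_lit 304) (nat_lit 371692515177) (nat_lit 76) (nat_lit 13281773012) (nat_lit 21) (nat_lit 5) (nat_lit 25) (nat_lit 5) (nat_lit 22) (nat_lit 5) (nat_lit 309) (nat_lit 294) (nat_lit 117))))) (XT.nd (nat_lit 234) (nat_lit 304) (nat_lit 0) (XT.nd (nat_lit 78) (nat_lit 152) (nat_lit 0) (XT.lf (nat_lit 0) (nat_lit 192396357158) (nat_lit 304) (nat_lit 158347258663) (nat_lit 76) (nat_lit 184213967153) (nat_lit 21) (nat_lit 5) (nat_lit 25) (nat_lit 5) (nat_lit 22) (nat_lit 5) (nat_lit 310) (nat_lit 294) (nat_lit 116)) (XT.nd (nat_lit 78) (nat_lit 0) (nat_lit 0) (XT.lf (nat_lit 0) (nat_lit 75860423581) (nat_lit 152) (nat_lit 192329190003) (nat_lit 228) (nat_lit 294784752042) (nat_lit 19) (nat_lit 5) (nat_lit 21) (nat_lit 5) (nat_lit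 22) (nat_lit 5) (nat_lit 311) (nat_lit 294) (nat_lit 115)) (XT.lf (nat_lit 0) (nat_lit 337810029922) (nat_lit 152) (nat_lit 16565765123) (nat_lit 228) (nat_lit 238510338815) (nat_lit 19) (nat_lit 5) (nat_lit 21) (nat_lit 5) (nat_lit 22) (nat_lit 5) (nat_lit 312) (nat_lit 294) (nat_lit 114)))) (XT.nd (nat_lit 156) (nat_lit 152) (nat_lit 0) (XT.nd (nat_lit 78) (nat_lit 152) (nat_lit 0) (XT.lf (nat_lit 0) (nat_lit 451623719619) (nat_lit 228) (nat_lit 8642154121) (nat_lit 76) (nat_lit 164591622050) (nat_lit 19) (nat_lit 5) (nat_lit 22) (nat_lit 5) (nat_lit 20) (nat_lit 5) (nat_lit 313) (nat_lit 294) (nat_lit 113)) (XT.lf (nat_lit 0) (nat_lit 270613373226) (nat_lit 152) (nat_lit 292976616644) (nat_lit 228) (nat_lit 95241495980) (nat_lit 17) (nat_lit 5) (nat_lit 19) (nat_lit 5) (nat_lit 20) (nat_lit 5) (nat_lit 314) (nat_lit 294) (nat_lit 112))) (XT.nd (nat_lit 78) (nat_lit 152) (nat_lit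 0) (XT.lf (nat_lit 0) (nat_lit 572700794867) (nat_lit 152) (nat_lit 112049033738) (nat_lit 228) (nat_lit 10754665267) (nat_lit 17) (nat_lit 5) (nat_lit 19) (nat_lit 5) (nat_lit 20) (nat_lit 5) (nat_lit 315) (nat_lit 294) (nat_lit 111)) (XT.lf (nat_lit 0) (nat_lit 82724916251) (nat_lit 152) (nat_lit 566356136445) (nat_lit 76) (nat_lit 85374601217) (nat_lit 15) (nat_lit 5) (nat_lit 17) (nat_lit 5) (nat_lit 16) (nat_lit 5) (nat_lit 316) (nat_lit 294) (nat_lit 110))))))))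
noncomputable def xc123 : XT := (XT.nd (nat_lit 37206) (nat_lit 0) (nat_lit 76) (XT.nd (nat_lit 36192) (nat_lit 0) (nat_lit 608) (XT.nd (nat_lit 468) (nat_lit 76) (nat_lit 0) (XT.nd (nat_lit 234) (nat_lit 76) (nat_lit 0) (XT.nd (nat_lit 78) (nat_lit 152) (nat_lit 0) (XT.lf (nat_lit 0) (nat_lit 189457057467) (nat_lit 152) (nat_lit 290272299790) (nat_lit 76) (nat_lit 296262784270) (nat_lit 15) (nat_lit 5) (nat_lit 17) (nat_lit 5) (nat_lit 16) (nat_lit 5) (nat_lit 317) (nat_lit 294) (nat_lit 109)) (XT.nd (nat_lit 78) (nat_lit 0) (nat_lit 0) (XT.lf (nat_lit 0) (nat_lit 8314117753) (nat_lit 152) (nat_lit 296613585612) (nat_lit 228) (nat_lit 515907850193) (nat_lit 13) (nat_lit 5) (nat_lit 15) (nat_lit 5) (nat_lit 16) (nat_lit 5) (nat_lit 318) (nat_lit 294) (nat_lit 108)) (XT.lf (nat_lit 0) (nat_lit 347295460515) (nat_lit 152) (nat_lit 90277078989) (nat_lit 228) (nat_lit 431058976034) (nat_lit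 13) (nat_lit 5) (nat_lit 15) (nat_lit 5) (nat_lit 16) (nat_lit 5) (nat_lit 319) (nat_lit 294) (nat_lit 107)))) (XT.nd (nat_lit 78) (nat_lit 76) (nat_lit 0) (XT.lf (nat_lit 0) (nat_lit 584017167166) (nat_lit 228) (nat_lit 210044097766) (nat_lit 76) (nat_lit 125934833238) (nat_lit 13) (nat_lit 5) (nat_lit 16) (nat_lit 5) (nat_lit 14) (nat_lit 4) (nat_lit 320) (nat_lit 294) (nat_lit 106)) (XT.nd (nat_lit 78) (nat_lit 0) (nat_lit 0) (XT.lf (nat_lit 0) (nat_lit 130325750860) (nat_lit 76) (nat_lit 617330793012) (nat_lit 152) (nat_lit 227374969297) (nat_lit 12) (nat_lit 5) (nat_lit 13) (nat_lit 5) (nat_lit 14) (nat_lit 4) (nat_lit 321) (nat_lit 294) (nat_lit 105)) (XT.lf (nat_lit 0) (nat_lit 509870554144) (nat_lit 76) (nat_lit 420259477295) (nat_lit 152) (nat_lit 103880293129) (nat_lit 12) (nat_lit 5) (nat_lit 13) (nat_lit 5) (nat_lit 14) (nat_lit 4) (nat_lit 322) (nat_lit 294) (nat_lit 104)))))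 (XT.nd (nat_lit 35490) (nat_lit 0) (nat_lit 1748) (XT.nd (nat_lit 35334) (nat_lit 0) (nat_lit 1672) (XT.lf (nat_lit 0) (nat_lit 28018533611) (nat_lit 152) (nat_lit 178637855652) (nat_lit 76) (nat_lit 890994306541) (nat_lit 11) (nat_lit 5) (nat_lit 13) (nat_lit 5) (nat_lit 12) (nat_lit 5) (nat_lit 323) (nat_lit 294) (nat_lit 103)) (XT.nd (nat_lit 78) (nat_lit 0) (nat_lit 0) (XT.lf (nat_lit 0) (nat_lit 44041122492) (nat_lit 532) (nat_lit 48736524160) (nat_lit 532) (nat_lit 48736524160) (nat_lit 33) (nat_lit 3) (nat_lit 40) (nat_lit 3) (nat_lit 40) (nat_lit 5) (nat_lit 295) (nat_lit 295) (nat_lit 130)) (XT.lf (nat_lit 76) (nat_lit 22811023220) (nat_lit 0) (nat_lit 69343841156) (nat_lit 532) (nat_lit 202150660335) (nat_lit 34) (nat_lit 5) (nat_lit 33) (nat_lit 3) (nat_lit 40) (nat_lit 5) (nat_lit 296) (nat_lit 295) (nat_lit 129)))) (XT.nd (nat_lit 78) (nat_lit 0) (nat_lit 0) (XT.lf (nat_lit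 0) (nat_lit 100638287783) (nat_lit 456) (nat_lit 149430506158) (nat_lit 532) (nat_lit 56089289365) (nat_lit 34) (nat_lit 5) (nat_lit 40) (nat_lit 5) (nat_lit 41) (nat_lit 5) (nat_lit 297) (nat_lit 295) (nat_lit 128)) (XT.nd (nat_lit 78) (nat_lit 0) (nat_lit 76) (XT.lf (nat_lit 0) (nat_lit 111601456523) (nat_lit 456) (nat_lit 19402574799) (nat_lit 532) (nat_lit 187810729942) (nat_lit 34) (nat_lit 5) (nat_lit 40) (nat_lit 5) (nat_lit 41) (nat_lit 5) (nat_lit 298) (nat_lit 295) (nat_lit 127)) (XT.lf (nat_lit 0) (nat_lit 126527130819) (nat_lit 456) (nat_lit 204859739664) (nat_lit 532) (nat_lit 850267171) (nat_lit 35) (nat_lit 5) (nat_lit 41) (nat_lit 5) (nat_lit 42) (nat_lit 5) (nat_lit 299) (nat_lit 295) (nat_lit 126)))))) (XT.nd (nat_lit 468) (nat_lit 608) (nat_lit 0) (XT.nd (nat_lit 234) (nat_lit 608) (nat_lit 0) (XT.nd (nat_lit 78) (nat_lit 0) (nat_lit 0) (XT.lf (nat_lit 0) (nat_lit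 146593782980) (nat_lit 456) (nat_lit 63104181179) (nat_lit 532) (nat_lit 136719586417) (nat_lit 35) (nat_lit 5) (nat_lit 41) (nat_lit 5) (nat_lit 42) (nat_lit 5) (nat_lit 300) (nat_lit 295) (nat_lit 125)) (XT.nd (nat_lit 78) (nat_lit 0) (nat_lit 76) (XT.lf (nat_lit 76) (nat_lit 94730587057) (nat_lit 0) (nat_lit 75813399254) (nat_lit 532) (nat_lit 191006153013) (nat_lit 36) (nat_lit 5) (nat_lit 35) (nat_lit 5) (nat_lit 42) (nat_lit 5) (nat_lit 301) (nat_lit 295) (nat_lit 124)) (XT.lf (nat_lit 0) (nat_lit 199834557533) (nat_lit 456) (nat_lit 110673445528) (nat_lit 76) (nat_lit 67111384265) (nat_lit 36) (nat_lit 5) (nat_lit 42) (nat_lit 5) (nat_lit 37) (nat_lit 5) (nat_lit 302) (nat_lit 295) (nat_lit 123)))) (XT.nd (nat_lit 78) (nat_lit 228) (nat_lit 0) (XT.lf (nat_lit 0) (nat_lit 58943732102) (nat_lit 456) (nat_lit 175911372803) (nat_lit 532) (nat_lit 159848132094) (nat_lit 30) (nat_lit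 5) (nat_lit 36) (nat_lit 5) (nat_lit 37) (nat_lit 5) (nat_lit 303) (nat_lit 295) (nat_lit 122)) (XT.nd (nat_lit 78) (nat_lit 228) (nat_lit 0) (XT.lf (nat_lit 0) (nat_lit 248424339286) (nat_lit 456) (nat_lit 27278920464) (nat_lit 532) (nat_lit 137208458047) (nat_lit 30) (nat_lit 5) (nat_lit 36) (nat_lit 5) (nat_lit 37) (nat_lit 5) (nat_lit 304) (nat_lit 295) (nat_lit 121)) (XT.lf (nat_lit 0) (nat_lit 18191988361) (nat_lit 228) (nat_lit 305269279772) (nat_lit 304) (nat_lit 108824249062) (nat_lit 27) (nat_lit 5) (nat_lit 30) (nat_lit 5) (nat_lit 31) (nat_lit 5) (nat_lit 305) (nat_lit 295) (nat_lit 120))))) (XT.nd (nat_lit 234) (nat_lit 380) (nat_lit 0) (XT.nd (nat_lit 78) (nat_lit 228) (nat_lit 0) (XT.lf (nat_lit 0) (nat_lit 224094352512) (nat_lit 228) (nat_lit 156133507647) (nat_lit 304) (nat_lit 72566325158) (nat_lit 27) (nat_lit 5) (nat_lit 30) (nat_lit 5) (nat_lit 31) (nat_lit 5)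 (nat_lit 306) (nat_lit 295) (nat_lit 119)) (XT.nd (nat_lit 78) (nat_lit 228) (nat_lit 0) (XT.lf (nat_lit 0) (nat_lit 441654385166) (nat_lit 304) (nat_lit 28593323913) (nat_lit 76) (nat_lit 4686349555) (nat_lit 27) (nat_lit 5) (nat_lit 31) (nat_lit 5) (nat_lit 28) (nat_lit 5) (nat_lit 307) (nat_lit 295) (nat_lit 118)) (XT.lf (nat_lit 0) (nat_lit 17618268683) (nat_lit 228) (nat_lit 305467886691) (nat_lit 76) (nat_lit 175027276254) (nat_lit 24) (nat_lit 5) (nat_lit 27) (nat_lit 5) (nat_lit 25) (nat_lit 5) (nat_lit 308) (nat_lit 295) (nat_lit 117)))) (XT.nd (nat_lit 156) (nat_lit 152) (nat_lit 0) (XT.nd (nat_lit 78) (nat_lit 228) (nat_lit 0) (XT.lf (nat_lit 0) (nat_lit 71592144969) (nat_lit 228) (nat_lit 90759712419) (nat_lit 76) (nat_lit 360661979416) (nat_lit 24) (nat_lit 5) (nat_lit 27) (nat_lit 5) (nat_lit 25) (nat_lit 5) (nat_lit 309) (nat_lit 295) (nat_lit 116)) (XT.lf (nat_lit 0)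 (nat_lit 133819838003) (nat_lit 304) (nat_lit 401427127933) (nat_lit 76) (nat_lit 14344436071) (nat_lit 21) (nat_lit 5) (nat_lit 25) (nat_lit 5) (nat_lit 22) (nat_lit 5) (nat_lit 310) (nat_lit 295) (nat_lit 115))) (XT.nd (nat_lit 78) (nat_lit 152) (nat_lit 0) (XT.lf (nat_lit 0) (nat_lit 207788635380) (nat_lit 304) (nat_lit 171014309303) (nat_lit 76) (nat_lit 198951196764) (nat_lit 21) (nat_lit 5) (nat_lit 25) (nat_lit 5) (nat_lit 22) (nat_lit 5) (nat_lit 311) (nat_lit 295) (nat_lit 114)) (XT.lf (nat_lit 0) (nat_lit 81929969038) (nat_lit 152) (nat_lit 207715358199) (nat_lit 228) (nat_lit 318366941673) (nat_lit 19) (nat_lit 5) (nat_lit 21) (nat_lit 5) (nat_lit 22) (nat_lit 5) (nat_lit 312) (nat_lit 295) (nat_lit 113))))))) (XT.nd (nat_lit 36426) (nat_lit 0) (nat_lit 684) (XT.nd (nat_lit 468) (nat_lit 228) (nat_lit 0) (XT.nd (nat_lit 234) (nat_lit 152) (nat_lit 0) (XT.nd (nat_lit 78)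 (nat_lit 152) (nat_lit 0) (XT.lf (nat_lit 0) (nat_lit 364835491178) (nat_lit 152) (nat_lit 17890871699) (nat_lit 228) (nat_lit 257590619132) (nat_lit 19) (nat_lit 5) (nat_lit 21) (nat_lit 5) (nat_lit 22) (nat_lit 5) (nat_lit 313) (nat_lit 295) (nat_lit 112)) (XT.nd (nat_lit 78) (nat_lit 152) (nat_lit 0) (XT.lf (nat_lit 0) (nat_lit 487754087511) (nat_lit 228) (nat_lit 9332880428) (nat_lit 76) (nat_lit 177759087831) (nat_lit 19) (nat_lit 5) (nat_lit 22) (nat_lit 5) (nat_lit 20) (nat_lit 5) (nat_lit 314) (nat_lit 295) (nat_lit 111)) (XT.lf (nat_lit 0) (nat_lit 292263072752) (nat_lit 152) (nat_lit 316414566935) (nat_lit 228) (nat_lit 102860327077) (nat_lit 17) (nat_lit 5) (nat_lit 19) (nat_lit 5) (nat_lit 20) (nat_lit 5) (nat_lit 315) (nat_lit 295) (nat_lit 110)))) (XT.nd (nat_lit 78) (nat_lit 152) (nat_lit 0) (XT.lf (nat_lit 0) (nat_lit 618517441482) (nat_lit 152) (nat_lit 121012790659)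 (nat_lit 228) (nat_lit 11614586098) (nat_lit 17) (nat_lit 5) (nat_lit 19) (nat_lit 5) (nat_lit 20) (nat_lit 5) (nat_lit 316) (nat_lit 295) (nat_lit 109)) (XT.nd (nat_lit 78) (nat_lit 0) (nat_lit 0) (XT.lf (nat_lit 0) (nat_lit 89343326036) (nat_lit 152) (nat_lit 611664005284) (nat_lit 76) (nat_lit 92204740075) (nat_lit 15) (nat_lit 5) (nat_lit 17) (nat_lit 5) (nat_lit 16) (nat_lit 5) (nat_lit 317) (nat_lit 295) (nat_lit 108)) (XT.lf (nat_lit 0) (nat_lit 204614007699) (nat_lit 152) (nat_lit 313493507776) (nat_lit 76) (nat_lit 319963965124) (nat_lit 15) (nat_lit 5) (nat_lit 17) (nat_lit 5) (nat_lit 16) (nat_lit 5) (nat_lit 318) (nat_lit 295) (nat_lit 107))))) (XT.nd (nat_lit 234) (nat_lit 76) (nat_lit 0) (XT.nd (nat_lit 78) (nat_lit 0) (nat_lit 0) (XT.lf (nat_lit 0) (nat_lit 8979808589) (nat_lit 152) (nat_lit 320342481616) (nat_lit 228) (nat_lit 557180076696) (nat_lit 13) (nat_lit 5)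 (nat_lit 15) (nat_lit 5) (nat_lit 16) (nat_lit 5) (nat_lit 319) (nat_lit 295) (nat_lit 106)) (XT.nd (nat_lit 78) (nat_lit 0) (nat_lit 0) (XT.lf (nat_lit 0) (nat_lit 375079617185) (nat_lit 152) (nat_lit 97499068600) (nat_lit 228) (nat_lit 465543322345) (nat_lit 13) (nat_lit 5) (nat_lit 15) (nat_lit 5) (nat_lit 16) (nat_lit 5) (nat_lit 320) (nat_lit 295) (nat_lit 105)) (XT.lf (nat_lit 0) (nat_lit 630738862179) (nat_lit 228) (nat_lit 226847121672) (nat_lit 76) (nat_lit 136009775331) (nat_lit 13) (nat_lit 5) (nat_lit 16) (nat_lit 5) (nat_lit 14) (nat_lit 4) (nat_lit 321) (nat_lit 295) (nat_lit 104)))) (XT.nd (nat_lit 35568) (nat_lit 0) (nat_lit 1596) (XT.nd (nat_lit 35490) (nat_lit 0) (nat_lit 1596) (XT.lf (nat_lit 0) (nat_lit 140752302088) (nat_lit 76) (nat_lit 666717074922) (nat_lit 152) (nat_lit 245564631415) (nat_lit 12) (nat_lit 5) (nat_lit 13) (nat_lit 5) (nat_lit 14) (nat_lit 4)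 (nat_lit 322) (nat_lit 295) (nat_lit 103)) (XT.lf (nat_lit 0) (nat_lit 47565118816) (nat_lit 532) (nat_lit 52635062514) (nat_lit 532) (nat_lit 52635062514) (nat_lit 33) (nat_lit 3) (nat_lit 40) (nat_lit 3) (nat_lit 40) (nat_lit 5) (nat_lit 296) (nat_lit 296) (nat_lit 128))) (XT.nd (nat_lit 78) (nat_lit 0) (nat_lit 76) (XT.lf (nat_lit 76) (nat_lit 24636652815) (nat_lit 0) (nat_lit 74891927074) (nat_lit 532) (nat_lit 218321273075) (nat_lit 34) (nat_lit 5) (nat_lit 33) (nat_lit 3) (nat_lit 40) (nat_lit 5) (nat_lit 297) (nat_lit 296) (nat_lit 127)) (XT.lf (nat_lit 0) (nat_lit 108690566035) (nat_lit 456) (nat_lit 161384136117) (nat_lit 532) (nat_lit 60575923550) (nat_lit 34) (nat_lit 5) (nat_lit 40) (nat_lit 5) (nat_lit 41) (nat_lit 5) (nat_lit 298) (nat_lit 296) (nat_lit 126)))))) (XT.nd (nat_lit 468) (nat_lit 684) (nat_lit 0) (XT.nd (nat_lit 234) (nat_lit 304) (nat_lit 0) (XT.nd (nat_lit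 78) (nat_lit 0) (nat_lit 76) (XT.lf (nat_lit 0) (nat_lit 120530698257) (nat_lit 456) (nat_lit 20954030289) (nat_lit 532) (nat_lit 202835117075) (nat_lit 34) (nat_lit 5) (nat_lit 40) (nat_lit 5) (nat_lit 41) (nat_lit 5) (nat_lit 299) (nat_lit 296) (nat_lit 125)) (XT.nd (nat_lit 78) (nat_lit 0) (nat_lit 0) (XT.lf (nat_lit 0) (nat_lit 136650352853) (nat_lit 456) (nat_lit 221247688655) (nat_lit 532) (nat_lit 917976989) (nat_lit 35) (nat_lit 5) (nat_lit 41) (nat_lit 5) (nat_lit 42) (nat_lit 5) (nat_lit 300) (nat_lit 296) (nat_lit 124)) (XT.lf (nat_lit 0) (nat_lit 158322259293) (nat_lit 456) (nat_lit 68151746987) (nat_lit 532) (nat_lit 147656864853) (nat_lit 35) (nat_lit 5) (nat_lit 41) (nat_lit 5) (nat_lit 42) (nat_lit 5) (nat_lit 301) (nat_lit 296) (nat_lit 123)))) (XT.nd (nat_lit 78) (nat_lit 380) (nat_lit 0) (XT.lf (nat_lit 76) (nat_lit 102309783248) (nat_lit 0) (nat_lit 81878641536)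 (nat_lit 532) (nat_lit 206285646938) (nat_lit 36) (nat_lit 5) (nat_lit 35) (nat_lit 5) (nat_lit 42) (nat_lit 5) (nat_lit 302) (nat_lit 296) (nat_lit 122)) (XT.nd (nat_lit 78) (nat_lit 456) (nat_lit 0) (XT.lf (nat_lit 0) (nat_lit 215822169796) (nat_lit 456) (nat_lit 119526550734) (nat_lit 76) (nat_lit 72480145172) (nat_lit 36) (nat_lit 5) (nat_lit 42) (nat_lit 5) (nat_lit 37) (nat_lit 5) (nat_lit 303) (nat_lit 296) (nat_lit 121)) (XT.lf (nat_lit 0) (nat_lit 63659981601) (nat_lit 456) (nat_lit 189984334626) (nat_lit 532) (nat_lit 172635111055) (nat_lit 30) (nat_lit 5) (nat_lit 36) (nat_lit 5) (nat_lit 37) (nat_lit 5) (nat_lit 304) (nat_lit 296) (nat_lit 120))))) (XT.nd (nat_lit 234) (nat_lit 456) (nat_lit 0) (XT.nd (nat_lit 78) (nat_lit 228) (nat_lit 0) (XT.lf (nat_lit 0) (nat_lit 268298981736) (nat_lit 456) (nat_lit 29461282248) (nat_lit 532) (nat_lit 148184327648) (nat_lit 30) (nat_lit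 5) (nat_lit 36) (nat_lit 5) (nat_lit 37) (nat_lit 5) (nat_lit 305) (nat_lit 296) (nat_lit 119)) (XT.nd (nat_lit 78) (nat_lit 0) (nat_lit 0) (XT.lf (nat_lit 0) (nat_lit 19648088243) (nat_lit 228) (nat_lit 329690786468) (nat_lit 304) (nat_lit 117529423641) (nat_lit 27) (nat_lit 5) (nat_lit 30) (nat_lit 5) (nat_lit 31) (nat_lit 5) (nat_lit 306) (nat_lit 296) (nat_lit 118)) (XT.lf (nat_lit 0) (nat_lit 242022586651) (nat_lit 228) (nat_lit 168624155217) (nat_lit 304) (nat_lit 78370922517) (nat_lit 27) (nat_lit 5) (nat_lit 30) (nat_lit 5) (nat_lit 31) (nat_lit 5) (nat_lit 307) (nat_lit 296) (nat_lit 117)))) (XT.nd (nat_lit 156) (nat_lit 228) (nat_lit 0) (XT.nd (nat_lit 78) (nat_lit 228) (nat_lit 0) (XT.lf (nat_lit 0) (nat_lit 476987341248) (nat_lit 304) (nat_lit 30880103807) (nat_lit 76) (nat_lit 5061286583) (nat_lit 27) (nat_lit 5) (nat_lit 31) (nat_lit 5) (nat_lit 28) (nat_lit 5) (nat_lit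 308) (nat_lit 296) (nat_lit 116)) (XT.lf (nat_lit 0) (nat_lit 19028324540) (nat_lit 228) (nat_lit 329904614877) (nat_lit 76) (nat_lit 189029516393) (nat_lit 24) (nat_lit 5) (nat_lit 27) (nat_lit 5) (nat_lit 25) (nat_lit 5) (nat_lit 309) (nat_lit 296) (nat_lit 115))) (XT.nd (nat_lit 78) (nat_lit 228) (nat_lit 0) (XT.lf (nat_lit 0) (nat_lit 77320066902) (nat_lit 228) (nat_lit 98019838719) (nat_lit 76) (nat_lit 389514991509) (nat_lit 24) (nat_lit 5) (nat_lit 27) (nat_lit 5) (nat_lit 25) (nat_lit 5) (nat_lit 310) (nat_lit 296) (nat_lit 114)) (XT.lf (nat_lit 0) (nat_lit 144525952497) (nat_lit 304) (nat_lit 433540622192) (nat_lit 76) (nat_lit 15492094883) (nat_lit 21) (nat_lit 5) (nat_lit 25) (nat_lit 5) (nat_lit 22) (nat_lit 5) (nat_lit 311) (nat_lit 296) (nat_lit 113))))))))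
noncomputable def xc124 : XT := (XT.nd (nat_lit 37440) (nat_lit 0) (nat_lit 0) (XT.nd (nat_lit 36426) (nat_lit 0) (nat_lit 836) (XT.nd (nat_lit 468) (nat_lit 304) (nat_lit 0) (XT.nd (nat_lit 234) (nat_lit 152) (nat_lit 0) (XT.nd (nat_lit 78) (nat_lit 152) (nat_lit 0) (XT.lf (nat_lit 0) (nat_lit 224412214594) (nat_lit 304) (nat_lit 184694828144) (nat_lit 76) (nat_lit 214867388733) (nat_lit 21) (nat_lit 5) (nat_lit 25) (nat_lit 5) (nat_lit 22) (nat_lit 5) (nat_lit 312) (nat_lit 296) (nat_lit 112)) (XT.nd (nat_lit 78) (nat_lit 0) (nat_lit 0) (XT.lf (nat_lit 0) (nat_lit 88484976619) (nat_lit 152) (nat_lit 224332443675) (nat_lit 228) (nat_lit 343835790721) (nat_lit 19) (nat_lit 5) (nat_lit 21) (nat_lit 5) (nat_lit 22) (nat_lit 5) (nat_lit 313) (nat_lit 296) (nat_lit 111)) (XT.lf (nat_lit 0) (nat_lit 394022895341) (nat_lit 152) (nat_lit 19322008862) (nat_lit 228) (nat_lit 278197399878) (nat_lit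 19) (nat_lit 5) (nat_lit 21) (nat_lit 5) (nat_lit 22) (nat_lit 5) (nat_lit 314) (nat_lit 296) (nat_lit 110)))) (XT.nd (nat_lit 78) (nat_lit 152) (nat_lit 0) (XT.lf (nat_lit 0) (nat_lit 526774817737) (nat_lit 228) (nat_lit 10078957002) (nat_lit 76) (nat_lit 191979931471) (nat_lit 19) (nat_lit 5) (nat_lit 22) (nat_lit 5) (nat_lit 20) (nat_lit 5) (nat_lit 315) (nat_lit 296) (nat_lit 109)) (XT.nd (nat_lit 78) (nat_lit 0) (nat_lit 0) (XT.lf (nat_lit 0) (nat_lit 315644658410) (nat_lit 152) (nat_lit 341727578792) (nat_lit 228) (nat_lit 111088734363) (nat_lit 17) (nat_lit 5) (nat_lit 19) (nat_lit 5) (nat_lit 20) (nat_lit 5) (nat_lit 316) (nat_lit 296) (nat_lit 108)) (XT.lf (nat_lit 0) (nat_lit 667999336651) (nat_lit 152) (nat_lit 130693671784) (nat_lit 228) (nat_lit 12543365134) (nat_lit 17) (nat_lit 5) (nat_lit 19) (nat_lit 5) (nat_lit 20) (nat_lit 5) (nat_lit 317) (nat_lit 296) (nat_lit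 107))))) (XT.nd (nat_lit 234) (nat_lit 0) (nat_lit 0) (XT.nd (nat_lit 78) (nat_lit 152) (nat_lit 0) (XT.lf (nat_lit 0) (nat_lit 96491149187) (nat_lit 152) (nat_lit 660596592376) (nat_lit 76) (nat_lit 99581265681) (nat_lit 15) (nat_lit 5) (nat_lit 17) (nat_lit 5) (nat_lit 16) (nat_lit 5) (nat_lit 318) (nat_lit 296) (nat_lit 106)) (XT.nd (nat_lit 78) (nat_lit 152) (nat_lit 0) (XT.lf (nat_lit 0) (nat_lit 220983458934) (nat_lit 152) (nat_lit 338572494573) (nat_lit 76) (nat_lit 345561217889) (nat_lit 15) (nat_lit 5) (nat_lit 17) (nat_lit 5) (nat_lit 16) (nat_lit 5) (nat_lit 319) (nat_lit 296) (nat_lit 105)) (XT.lf (nat_lit 0) (nat_lit 9698674599) (nat_lit 152) (nat_lit 345969716527) (nat_lit 228) (nat_lit 601754138599) (nat_lit 13) (nat_lit 5) (nat_lit 15) (nat_lit 5) (nat_lit 16) (nat_lit 5) (nat_lit 320) (nat_lit 296) (nat_lit 104)))) (XT.nd (nat_lit 78) (nat_lit 0) (nat_lit 0) (XT.lf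 (nat_lit 0) (nat_lit 405086432229) (nat_lit 152) (nat_lit 105298842589) (nat_lit 228) (nat_lit 502786469399) (nat_lit 13) (nat_lit 5) (nat_lit 15) (nat_lit 5) (nat_lit 16) (nat_lit 5) (nat_lit 321) (nat_lit 296) (nat_lit 103)) (XT.nd (nat_lit 35568) (nat_lit 0) (nat_lit 1520) (XT.lf (nat_lit 0) (nat_lit 681198246908) (nat_lit 228) (nat_lit 244994459378) (nat_lit 76) (nat_lit 146890690617) (nat_lit 13) (nat_lit 5) (nat_lit 16) (nat_lit 5) (nat_lit 14) (nat_lit 4) (nat_lit 322) (nat_lit 296) (nat_lit 102)) (XT.lf (nat_lit 0) (nat_lit 51370934053) (nat_lit 532) (nat_lit 56845538657) (nat_lit 532) (nat_lit 56845538657) (nat_lit 33) (nat_lit 3) (nat_lit 40) (nat_lit 3) (nat_lit 40) (nat_lit 5) (nat_lit 297) (nat_lit 297) (nat_lit 126)))))) (XT.nd (nat_lit 468) (nat_lit 684) (nat_lit 0) (XT.nd (nat_lit 234) (nat_lit 0) (nat_lit 152) (XT.nd (nat_lit 78) (nat_lit 0) (nat_lit 76) (XT.lf (nat_lit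 76) (nat_lit 26608226104) (nat_lit 0) (nat_lit 80883777319) (nat_lit 532) (nat_lit 235785740280) (nat_lit 34) (nat_lit 5) (nat_lit 33) (nat_lit 3) (nat_lit 40) (nat_lit 5) (nat_lit 298) (nat_lit 297) (nat_lit 125)) (XT.nd (nat_lit 78) (nat_lit 0) (nat_lit 0) (XT.lf (nat_lit 0) (nat_lit 117386853181) (nat_lit 456) (nat_lit 174294172105) (nat_lit 532) (nat_lit 65421561080) (nat_lit 34) (nat_lit 5) (nat_lit 40) (nat_lit 5) (nat_lit 41) (nat_lit 5) (nat_lit 299) (nat_lit 297) (nat_lit 124)) (XT.lf (nat_lit 0) (nat_lit 130174118805) (nat_lit 456) (nat_lit 22629709285) (nat_lit 532) (nat_lit 219061522409) (nat_lit 34) (nat_lit 5) (nat_lit 40) (nat_lit 5) (nat_lit 41) (nat_lit 5) (nat_lit 300) (nat_lit 297) (nat_lit 123)))) (XT.nd (nat_lit 78) (nat_lit 0) (nat_lit 0) (XT.lf (nat_lit 0) (nat_lit 147583282631) (nat_lit 456) (nat_lit 238946792001) (nat_lit 532) (nat_lit 991148039) (nat_lit 35)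 (nat_lit 5) (nat_lit 41) (nat_lit 5) (nat_lit 42) (nat_lit 5) (nat_lit 301) (nat_lit 297) (nat_lit 122)) (XT.nd (nat_lit 78) (nat_lit 0) (nat_lit 0) (XT.lf (nat_lit 0) (nat_lit 170988874805) (nat_lit 456) (nat_lit 73603227721) (nat_lit 532) (nat_lit 159469166719) (nat_lit 35) (nat_lit 5) (nat_lit 41) (nat_lit 5) (nat_lit 42) (nat_lit 5) (nat_lit 302) (nat_lit 297) (nat_lit 121)) (XT.lf (nat_lit 76) (nat_lit 110495208249) (nat_lit 0) (nat_lit 88429078901) (nat_lit 532) (nat_lit 222787642797) (nat_lit 36) (nat_lit 5) (nat_lit 35) (nat_lit 5) (nat_lit 42) (nat_lit 5) (nat_lit 303) (nat_lit 297) (nat_lit 120))))) (XT.nd (nat_lit 234) (nat_lit 456) (nat_lit 0) (XT.nd (nat_lit 78) (nat_lit 456) (nat_lit 0) (XT.lf (nat_lit 0) (nat_lit 233088670111) (nat_lit 456) (nat_lit 129088014269) (nat_lit 76) (nat_lit 78278428327) (nat_lit 36) (nat_lit 5) (nat_lit 42) (nat_lit 5) (nat_lit 37) (nat_lit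 5) (nat_lit 304) (nat_lit 297) (nat_lit 119)) (XT.nd (nat_lit 78) (nat_lit 0) (nat_lit 0) (XT.lf (nat_lit 0) (nat_lit 68753423932) (nat_lit 456) (nat_lit 205183125977) (nat_lit 532) (nat_lit 186445172677) (nat_lit 30) (nat_lit 5) (nat_lit 36) (nat_lit 5) (nat_lit 37) (nat_lit 5) (nat_lit 305) (nat_lit 297) (nat_lit 118)) (XT.lf (nat_lit 0) (nat_lit 289763496388) (nat_lit 456) (nat_lit 31818226106) (nat_lit 532) (nat_lit 160038381950) (nat_lit 30) (nat_lit 5) (nat_lit 36) (nat_lit 5) (nat_lit 37) (nat_lit 5) (nat_lit 306) (nat_lit 297) (nat_lit 117)))) (XT.nd (nat_lit 156) (nat_lit 228) (nat_lit 0) (XT.nd (nat_lit 78) (nat_lit 0) (nat_lit 0) (XT.lf (nat_lit 0) (nat_lit 21220570429) (nat_lit 228) (nat_lit 356066018792) (nat_lit 304) (nat_lit 126931121371) (nat_lit 27) (nat_lit 5) (nat_lit 30) (nat_lit 5) (nat_lit 31) (nat_lit 5) (nat_lit 307) (nat_lit 297) (nat_lit 116)) (XT.lf (nat_lit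 0) (nat_lit 261384981663) (nat_lit 228) (nat_lit 182114059306) (nat_lit 304) (nat_lit 84639988761) (nat_lit 27) (nat_lit 5) (nat_lit 30) (nat_lit 5) (nat_lit 31) (nat_lit 5) (nat_lit 308) (nat_lit 297) (nat_lit 115))) (XT.nd (nat_lit 78) (nat_lit 228) (nat_lit 0) (XT.lf (nat_lit 0) (nat_lit 515146847469) (nat_lit 304) (nat_lit 33349923961) (nat_lit 76) (nat_lit 5466214427) (nat_lit 27) (nat_lit 5) (nat_lit 31) (nat_lit 5) (nat_lit 28) (nat_lit 5) (nat_lit 309) (nat_lit 297) (nat_lit 114)) (XT.lf (nat_lit 0) (nat_lit 20551100073) (nat_lit 228) (nat_lit 356296381573) (nat_lit 76) (nat_lit 204151927464) (nat_lit 24) (nat_lit 5) (nat_lit 27) (nat_lit 5) (nat_lit 25) (nat_lit 5) (nat_lit 310) (nat_lit 297) (nat_lit 113))))))) (XT.nd (nat_lit 36582) (nat_lit 0) (nat_lit 836) (XT.nd (nat_lit 468) (nat_lit 456) (nat_lit 0) (XT.nd (nat_lit 234) (nat_lit 152) (nat_lit 0) (XT.nd (nat_lit 78)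 (nat_lit 228) (nat_lit 0) (XT.lf (nat_lit 0) (nat_lit 83506144078) (nat_lit 228) (nat_lit 105860867951) (nat_lit 76) (nat_lit 420676236903) (nat_lit 24) (nat_lit 5) (nat_lit 27) (nat_lit 5) (nat_lit 25) (nat_lit 5) (nat_lit 311) (nat_lit 297) (nat_lit 112)) (XT.nd (nat_lit 78) (nat_lit 0) (nat_lit 0) (XT.lf (nat_lit 0) (nat_lit 156088480903) (nat_lit 304) (nat_lit 468223292427) (nat_lit 76) (nat_lit 16731551573) (nat_lit 21) (nat_lit 5) (nat_lit 25) (nat_lit 5) (nat_lit 22) (nat_lit 5) (nat_lit 312) (nat_lit 297) (nat_lit 111)) (XT.lf (nat_lit 0) (nat_lit 242365610471) (nat_lit 304) (nat_lit 199469877784) (nat_lit 76) (nat_lit 232056862331) (nat_lit 21) (nat_lit 5) (nat_lit 25) (nat_lit 5) (nat_lit 22) (nat_lit 5) (nat_lit 313) (nat_lit 297) (nat_lit 110)))) (XT.nd (nat_lit 78) (nat_lit 0) (nat_lit 0) (XT.lf (nat_lit 0) (nat_lit 95564297775) (nat_lit 152) (nat_lit 242278916416) (nat_lit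 228) (nat_lit 371342219919) (nat_lit 19) (nat_lit 5) (nat_lit 21) (nat_lit 5) (nat_lit 22) (nat_lit 5) (nat_lit 314) (nat_lit 297) (nat_lit 109)) (XT.nd (nat_lit 78) (nat_lit 0) (nat_lit 0) (XT.lf (nat_lit 0) (nat_lit 425545211252) (nat_lit 152) (nat_lit 20867655910) (nat_lit 228) (nat_lit 300452789962) (nat_lit 19) (nat_lit 5) (nat_lit 21) (nat_lit 5) (nat_lit 22) (nat_lit 5) (nat_lit 315) (nat_lit 297) (nat_lit 108)) (XT.lf (nat_lit 0) (nat_lit 568917148856) (nat_lit 228) (nat_lit 10884798717) (nat_lit 76) (nat_lit 207338425965) (nat_lit 19) (nat_lit 5) (nat_lit 22) (nat_lit 5) (nat_lit 20) (nat_lit 5) (nat_lit 316) (nat_lit 297) (nat_lit 107))))) (XT.nd (nat_lit 234) (nat_lit 152) (nat_lit 0) (XT.nd (nat_lit 78) (nat_lit 152) (nat_lit 0) (XT.lf (nat_lit 0) (nat_lit 340896693907) (nat_lit 152) (nat_lit 369065653495) (nat_lit 228) (nat_lit 119975473989) (nat_lit 17) (nat_lit 5) (nat_lit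 19) (nat_lit 5) (nat_lit 20) (nat_lit 5) (nat_lit 317) (nat_lit 297) (nat_lit 106)) (XT.nd (nat_lit 78) (nat_lit 152) (nat_lit 0) (XT.lf (nat_lit 0) (nat_lit 721439712124) (nat_lit 152) (nat_lit 141149043674) (nat_lit 228) (nat_lit 13546501823) (nat_lit 17) (nat_lit 5) (nat_lit 19) (nat_lit 5) (nat_lit 20) (nat_lit 5) (nat_lit 318) (nat_lit 297) (nat_lit 105)) (XT.lf (nat_lit 0) (nat_lit 104210747251) (nat_lit 152) (nat_lit 713443862521) (nat_lit 76) (nat_lit 107547892450) (nat_lit 15) (nat_lit 5) (nat_lit 17) (nat_lit 5) (nat_lit 16) (nat_lit 5) (nat_lit 319) (nat_lit 297) (nat_lit 104)))) (XT.nd (nat_lit 78) (nat_lit 152) (nat_lit 0) (XT.lf (nat_lit 0) (nat_lit 238662419101) (nat_lit 152) (nat_lit 365657870764) (nat_lit 76) (nat_lit 373206231537) (nat_lit 15) (nat_lit 5) (nat_lit 17) (nat_lit 5) (nat_lit 16) (nat_lit 5) (nat_lit 320) (nat_lit 297) (nat_lit 103)) (XT.nd (nat_lit 35724)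 (nat_lit 0) (nat_lit 1520) (XT.lf (nat_lit 0) (nat_lit 10474981224) (nat_lit 152) (nat_lit 373647153573) (nat_lit 228) (nat_lit 649894174562) (nat_lit 13) (nat_lit 5) (nat_lit 15) (nat_lit 5) (nat_lit 16) (nat_lit 5) (nat_lit 321) (nat_lit 297) (nat_lit 102)) (XT.lf (nat_lit 0) (nat_lit 55481128095) (nat_lit 532) (nat_lit 61392899808) (nat_lit 532) (nat_lit 61392899808) (nat_lit 33) (nat_lit 3) (nat_lit 40) (nat_lit 3) (nat_lit 40) (nat_lit 5) (nat_lit 298) (nat_lit 298) (nat_lit 124)))))) (XT.nd (nat_lit 468) (nat_lit 684) (nat_lit 0) (XT.nd (nat_lit 234) (nat_lit 0) (nat_lit 152) (XT.nd (nat_lit 78) (nat_lit 0) (nat_lit 76) (XT.lf (nat_lit 76) (nat_lit 28737433801) (nat_lit 0) (nat_lit 87354904812) (nat_lit 532) (nat_lit 254647540996) (nat_lit 34) (nat_lit 5) (nat_lit 33) (nat_lit 3) (nat_lit 40) (nat_lit 5) (nat_lit 299) (nat_lit 298) (nat_lit 123)) (XT.nd (nat_lit 78) (nat_lit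 0) (nat_lit 0) (XT.lf (nat_lit 0) (nat_lit 126778694665) (nat_lit 456) (nat_lit 188237110108) (nat_lit 532) (nat_lit 70654911863) (nat_lit 34) (nat_lit 5) (nat_lit 40) (nat_lit 5) (nat_lit 41) (nat_lit 5) (nat_lit 300) (nat_lit 298) (nat_lit 122)) (XT.lf (nat_lit 0) (nat_lit 140588875374) (nat_lit 456) (nat_lit 24439534392) (nat_lit 532) (nat_lit 236586097809) (nat_lit 34) (nat_lit 5) (nat_lit 40) (nat_lit 5) (nat_lit 41) (nat_lit 5) (nat_lit 301) (nat_lit 298) (nat_lit 121)))) (XT.nd (nat_lit 78) (nat_lit 0) (nat_lit 0) (XT.lf (nat_lit 0) (nat_lit 159390718176) (nat_lit 456) (nat_lit 258061925152) (nat_lit 532) (nat_lit 1070210880) (nat_lit 35) (nat_lit 5) (nat_lit 41) (nat_lit 5) (nat_lit 42) (nat_lit 5) (nat_lit 302) (nat_lit 298) (nat_lit 120)) (XT.nd (nat_lit 78) (nat_lit 0) (nat_lit 0) (XT.lf (nat_lit 0) (nat_lit 184668700469) (nat_lit 456) (nat_lit 79490920930) (nat_lit 532)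 (nat_lit 172226488017) (nat_lit 35) (nat_lit 5) (nat_lit 41) (nat_lit 5) (nat_lit 42) (nat_lit 5) (nat_lit 303) (nat_lit 298) (nat_lit 119)) (XT.lf (nat_lit 76) (nat_lit 119335375613) (nat_lit 0) (nat_lit 95503530420) (nat_lit 532) (nat_lit 240609920429) (nat_lit 36) (nat_lit 5) (nat_lit 35) (nat_lit 5) (nat_lit 42) (nat_lit 5) (nat_lit 304) (nat_lit 298) (nat_lit 118))))) (XT.nd (nat_lit 234) (nat_lit 456) (nat_lit 0) (XT.nd (nat_lit 78) (nat_lit 456) (nat_lit 0) (XT.lf (nat_lit 0) (nat_lit 251736386775) (nat_lit 456) (nat_lit 139414489117) (nat_lit 76) (nat_lit 84540592460) (nat_lit 36) (nat_lit 5) (nat_lit 42) (nat_lit 5) (nat_lit 37) (nat_lit 5) (nat_lit 305) (nat_lit 298) (nat_lit 117)) (XT.nd (nat_lit 78) (nat_lit 0) (nat_lit 0) (XT.lf (nat_lit 0) (nat_lit 74254249803) (nat_lit 456) (nat_lit 221597814276) (nat_lit 532) (nat_lit 201360145834) (nat_lit 30) (nat_lit 5) (nat_lit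 36) (nat_lit 5) (nat_lit 37) (nat_lit 5) (nat_lit 306) (nat_lit 298) (nat_lit 116)) (XT.lf (nat_lit 0) (nat_lit 312945087170) (nat_lit 456) (nat_lit 34363719584) (nat_lit 532) (nat_lit 172840859305) (nat_lit 30) (nat_lit 5) (nat_lit 36) (nat_lit 5) (nat_lit 37) (nat_lit 5) (nat_lit 307) (nat_lit 298) (nat_lit 115)))) (XT.nd (nat_lit 156) (nat_lit 228) (nat_lit 0) (XT.nd (nat_lit 78) (nat_lit 0) (nat_lit 0) (XT.lf (nat_lit 0) (nat_lit 22918760583) (nat_lit 228) (nat_lit 384551274066) (nat_lit 304) (nat_lit 137085048528) (nat_lit 27) (nat_lit 5) (nat_lit 30) (nat_lit 5) (nat_lit 31) (nat_lit 5) (nat_lit 308) (nat_lit 298) (nat_lit 114)) (XT.lf (nat_lit 0) (nat_lit 282296284381) (nat_lit 228) (nat_lit 196683159764) (nat_lit 304) (nat_lit 91410666981) (nat_lit 27) (nat_lit 5) (nat_lit 30) (nat_lit 5) (nat_lit 31) (nat_lit 5) (nat_lit 309) (nat_lit 298) (nat_lit 113))) (XT.nd (nat_lit 78)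 (nat_lit 228) (nat_lit 0) (XT.lf (nat_lit 0) (nat_lit 556359040157) (nat_lit 304) (nat_lit 36017413633) (nat_lit 76) (nat_lit 5903532944) (nat_lit 27) (nat_lit 5) (nat_lit 31) (nat_lit 5) (nat_lit 28) (nat_lit 5) (nat_lit 310) (nat_lit 298) (nat_lit 112)) (XT.lf (nat_lit 0) (nat_lit 22195624952) (nat_lit 228) (nat_lit 384799575557) (nat_lit 76) (nat_lit 220484124322) (nat_lit 24) (nat_lit 5) (nat_lit 27) (nat_lit 5) (nat_lit 25) (nat_lit 5) (nat_lit 311) (nat_lit 298) (nat_lit 111))))))))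
noncomputable def xc125 : XT := (XT.nd (nat_lit 37752) (nat_lit 0) (nat_lit 152) (XT.nd (nat_lit 36738) (nat_lit 0) (nat_lit 456) (XT.nd (nat_lit 468) (nat_lit 304) (nat_lit 0) (XT.nd (nat_lit 234) (nat_lit 152) (nat_lit 0) (XT.nd (nat_lit 78) (nat_lit 228) (nat_lit 0) (XT.lf (nat_lit 0) (nat_lit 90187040117) (nat_lit 228) (nat_lit 114329259108) (nat_lit 76) (nat_lit 454330375356) (nat_lit 24) (nat_lit 5) (nat_lit 27) (nat_lit 5) (nat_lit 25) (nat_lit 5) (nat_lit 312) (nat_lit 298) (nat_lit 110)) (XT.nd (nat_lit 78) (nat_lit 0) (nat_lit 0) (XT.lf (nat_lit 0) (nat_lit 168575947070) (nat_lit 304) (nat_lit 505680658959) (nat_lit 76) (nat_lit 18070152087) (nat_lit 21) (nat_lit 5) (nat_lit 25) (nat_lit 5) (nat_lit 22) (nat_lit 5) (nat_lit 313) (nat_lit 298) (nat_lit 109)) (XT.lf (nat_lit 0) (nat_lit 261755218284) (nat_lit 304) (nat_lit 215427007949) (nat_lit 76) (nat_lit 250621482048) (nat_lit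 21) (nat_lit 5) (nat_lit 25) (nat_lit 5) (nat_lit 22) (nat_lit 5) (nat_lit 314) (nat_lit 298) (nat_lit 108)))) (XT.nd (nat_lit 78) (nat_lit 0) (nat_lit 0) (XT.lf (nat_lit 0) (nat_lit 103209890008) (nat_lit 152) (nat_lit 261661124488) (nat_lit 228) (nat_lit 401049225377) (nat_lit 19) (nat_lit 5) (nat_lit 21) (nat_lit 5) (nat_lit 22) (nat_lit 5) (nat_lit 315) (nat_lit 298) (nat_lit 107)) (XT.nd (nat_lit 78) (nat_lit 0) (nat_lit 0) (XT.lf (nat_lit 0) (nat_lit 459589243347) (nat_lit 152) (nat_lit 22536970937) (nat_lit 228) (nat_lit 324488668589) (nat_lit 19) (nat_lit 5) (nat_lit 21) (nat_lit 5) (nat_lit 22) (nat_lit 5) (nat_lit 316) (nat_lit 298) (nat_lit 106)) (XT.lf (nat_lit 0) (nat_lit 614430817147) (nat_lit 228) (nat_lit 11755175511) (nat_lit 76) (nat_lit 223925585756) (nat_lit 19) (nat_lit 5) (nat_lit 22) (nat_lit 5) (nat_lit 20) (nat_lit 5) (nat_lit 317) (nat_lit 298) (nat_lit 105)))))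 (XT.nd (nat_lit 36036) (nat_lit 0) (nat_lit 1368) (XT.nd (nat_lit 78) (nat_lit 152) (nat_lit 0) (XT.lf (nat_lit 0) (nat_lit 368168826217) (nat_lit 152) (nat_lit 398590792949) (nat_lit 228) (nat_lit 129573204019) (nat_lit 17) (nat_lit 5) (nat_lit 19) (nat_lit 5) (nat_lit 20) (nat_lit 5) (nat_lit 318) (nat_lit 298) (nat_lit 104)) (XT.nd (nat_lit 78) (nat_lit 152) (nat_lit 0) (XT.lf (nat_lit 0) (nat_lit 779155256499) (nat_lit 152) (nat_lit 152440862700) (nat_lit 228) (nat_lit 14629936886) (nat_lit 17) (nat_lit 5) (nat_lit 19) (nat_lit 5) (nat_lit 20) (nat_lit 5) (nat_lit 319) (nat_lit 298) (nat_lit 103)) (XT.lf (nat_lit 0) (nat_lit 112547869488) (nat_lit 152) (nat_lit 770518979508) (nat_lit 76) (nat_lit 116151831454) (nat_lit 15) (nat_lit 5) (nat_lit 17) (nat_lit 5) (nat_lit 16) (nat_lit 5) (nat_lit 320) (nat_lit 298) (nat_lit 102)))) (XT.nd (nat_lit 78) (nat_lit 0) (nat_lit 0) (XT.lf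 (nat_lit 0) (nat_lit 59920063573) (nat_lit 532) (nat_lit 66304090072) (nat_lit 532) (nat_lit 66304090072) (nat_lit 33) (nat_lit 3) (nat_lit 40) (nat_lit 3) (nat_lit 40) (nat_lit 5) (nat_lit 299) (nat_lit 299) (nat_lit 122)) (XT.nd (nat_lit 78) (nat_lit 0) (nat_lit 76) (XT.lf (nat_lit 76) (nat_lit 31036899707) (nat_lit 0) (nat_lit 94343661830) (nat_lit 532) (nat_lit 275018436777) (nat_lit 34) (nat_lit 5) (nat_lit 33) (nat_lit 3) (nat_lit 40) (nat_lit 5) (nat_lit 300) (nat_lit 299) (nat_lit 121)) (XT.lf (nat_lit 0) (nat_lit 136921756039) (nat_lit 456) (nat_lit 203295568143) (nat_lit 532) (nat_lit 76306984078) (nat_lit 34) (nat_lit 5) (nat_lit 40) (nat_lit 5) (nat_lit 41) (nat_lit 5) (nat_lit 301) (nat_lit 299) (nat_lit 120)))))) (XT.nd (nat_lit 468) (nat_lit 684) (nat_lit 0) (XT.nd (nat_lit 234) (nat_lit 304) (nat_lit 0) (XT.nd (nat_lit 78) (nat_lit 0) (nat_lit 76) (XT.lf (nat_lit 0)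 (nat_lit 151836694479) (nat_lit 456) (nat_lit 26394224205) (nat_lit 532) (nat_lit 255512688658) (nat_lit 34) (nat_lit 5) (nat_lit 40) (nat_lit 5) (nat_lit 41) (nat_lit 5) (nat_lit 302) (nat_lit 299) (nat_lit 119)) (XT.nd (nat_lit 78) (nat_lit 0) (nat_lit 0) (XT.lf (nat_lit 0) (nat_lit 172142638296) (nat_lit 456) (nat_lit 278706356009) (nat_lit 532) (nat_lit 1155631417) (nat_lit 35) (nat_lit 5) (nat_lit 41) (nat_lit 5) (nat_lit 42) (nat_lit 5) (nat_lit 303) (nat_lit 299) (nat_lit 118)) (XT.lf (nat_lit 0) (nat_lit 199442810086) (nat_lit 456) (nat_lit 85849710202) (nat_lit 532) (nat_lit 186004425269) (nat_lit 35) (nat_lit 5) (nat_lit 41) (nat_lit 5) (nat_lit 42) (nat_lit 5) (nat_lit 304) (nat_lit 299) (nat_lit 117)))) (XT.nd (nat_lit 78) (nat_lit 380) (nat_lit 0) (XT.lf (nat_lit 76) (nat_lit 128882677801) (nat_lit 0) (nat_lit 103143920198) (nat_lit 532) (nat_lit 259858084955) (nat_lit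 36) (nat_lit 5) (nat_lit 35) (nat_lit 5) (nat_lit 42) (nat_lit 5) (nat_lit 305) (nat_lit 299) (nat_lit 116)) (XT.nd (nat_lit 78) (nat_lit 456) (nat_lit 0) (XT.lf (nat_lit 0) (nat_lit 271875831886) (nat_lit 456) (nat_lit 150567162741) (nat_lit 76) (nat_lit 91303745436) (nat_lit 36) (nat_lit 5) (nat_lit 42) (nat_lit 5) (nat_lit 37) (nat_lit 5) (nat_lit 306) (nat_lit 299) (nat_lit 115)) (XT.lf (nat_lit 0) (nat_lit 80195063001) (nat_lit 456) (nat_lit 239325672186) (nat_lit 532) (nat_lit 217468408241) (nat_lit 30) (nat_lit 5) (nat_lit 36) (nat_lit 5) (nat_lit 37) (nat_lit 5) (nat_lit 307) (nat_lit 299) (nat_lit 114))))) (XT.nd (nat_lit 234) (nat_lit 456) (nat_lit 0) (XT.nd (nat_lit 78) (nat_lit 228) (nat_lit 0) (XT.lf (nat_lit 0) (nat_lit 337981132305) (nat_lit 456) (nat_lit 37112847492) (nat_lit 532) (nat_lit 186667619476) (nat_lit 30) (nat_lit 5) (nat_lit 36) (nat_lit 5) (nat_lit 37)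 (nat_lit 5) (nat_lit 308) (nat_lit 299) (nat_lit 113)) (XT.nd (nat_lit 78) (nat_lit 0) (nat_lit 0) (XT.lf (nat_lit 0) (nat_lit 24752728267) (nat_lit 228) (nat_lit 415315353503) (nat_lit 304) (nat_lit 148051370112) (nat_lit 27) (nat_lit 5) (nat_lit 30) (nat_lit 5) (nat_lit 31) (nat_lit 5) (nat_lit 309) (nat_lit 299) (nat_lit 112)) (XT.lf (nat_lit 0) (nat_lit 304880419388) (nat_lit 228) (nat_lit 212417791724) (nat_lit 304) (nat_lit 98723073767) (nat_lit 27) (nat_lit 5) (nat_lit 30) (nat_lit 5) (nat_lit 31) (nat_lit 5) (nat_lit 310) (nat_lit 299) (nat_lit 111)))) (XT.nd (nat_lit 156) (nat_lit 228) (nat_lit 0) (XT.nd (nat_lit 78) (nat_lit 228) (nat_lit 0) (XT.lf (nat_lit 0) (nat_lit 600868144792) (nat_lit 304) (nat_lit 38898374415) (nat_lit 76) (nat_lit 6375833895) (nat_lit 27) (nat_lit 5) (nat_lit 31) (nat_lit 5) (nat_lit 28) (nat_lit 5) (nat_lit 311) (nat_lit 299) (nat_lit 110)) (XT.lf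 (nat_lit 0) (nat_lit 23971649497) (nat_lit 228) (nat_lit 415583098750) (nat_lit 76) (nat_lit 238122890842) (nat_lit 24) (nat_lit 5) (nat_lit 27) (nat_lit 5) (nat_lit 25) (nat_lit 5) (nat_lit 312) (nat_lit 299) (nat_lit 109))) (XT.nd (nat_lit 78) (nat_lit 228) (nat_lit 0) (XT.lf (nat_lit 0) (nat_lit 97402350131) (nat_lit 228) (nat_lit 123475189789) (nat_lit 76) (nat_lit 490676839250) (nat_lit 24) (nat_lit 5) (nat_lit 27) (nat_lit 5) (nat_lit 25) (nat_lit 5) (nat_lit 313) (nat_lit 299) (nat_lit 108)) (XT.lf (nat_lit 0) (nat_lit 182062355221) (nat_lit 304) (nat_lit 546134685697) (nat_lit 76) (nat_lit 19515829745) (nat_lit 21) (nat_lit 5) (nat_lit 25) (nat_lit 5) (nat_lit 22) (nat_lit 5) (nat_lit 314) (nat_lit 299) (nat_lit 107))))))) (XT.nd (nat_lit 36816) (nat_lit 0) (nat_lit 152) (XT.nd (nat_lit 36348) (nat_lit 0) (nat_lit 1216) (XT.nd (nat_lit 234) (nat_lit 152) (nat_lit 0) (XT.nd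 (nat_lit 78) (nat_lit 152) (nat_lit 0) (XT.lf (nat_lit 0) (nat_lit 282695943511) (nat_lit 304) (nat_lit 232660774160) (nat_lit 76) (nat_lit 270671261251) (nat_lit 21) (nat_lit 5) (nat_lit 25) (nat_lit 5) (nat_lit 22) (nat_lit 5) (nat_lit 315) (nat_lit 299) (nat_lit 106)) (XT.nd (nat_lit 78) (nat_lit 0) (nat_lit 0) (XT.lf (nat_lit 0) (nat_lit 111467065648) (nat_lit 152) (nat_lit 282593924220) (nat_lit 228) (nat_lit 433132844361) (nat_lit 19) (nat_lit 5) (nat_lit 21) (nat_lit 5) (nat_lit 22) (nat_lit 5) (nat_lit 316) (nat_lit 299) (nat_lit 105)) (XT.lf (nat_lit 0) (nat_lit 496356738778) (nat_lit 152) (nat_lit 24339845069) (nat_lit 228) (nat_lit 350447466663) (nat_lit 19) (nat_lit 5) (nat_lit 21) (nat_lit 5) (nat_lit 22) (nat_lit 5) (nat_lit 317) (nat_lit 299) (nat_lit 104)))) (XT.nd (nat_lit 78) (nat_lit 152) (nat_lit 0) (XT.lf (nat_lit 0) (nat_lit 663585536619) (nat_lit 228) (nat_lit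 12695240526) (nat_lit 76) (nat_lit 241839706102) (nat_lit 19) (nat_lit 5) (nat_lit 22) (nat_lit 5) (nat_lit 20) (nat_lit 5) (nat_lit 318) (nat_lit 299) (nat_lit 103)) (XT.nd (nat_lit 78) (nat_lit 0) (nat_lit 0) (XT.lf (nat_lit 0) (nat_lit 397622672504) (nat_lit 152) (nat_lit 430477959655) (nat_lit 228) (nat_lit 139938796375) (nat_lit 17) (nat_lit 5) (nat_lit 19) (nat_lit 5) (nat_lit 20) (nat_lit 5) (nat_lit 319) (nat_lit 299) (nat_lit 102)) (XT.lf (nat_lit 0) (nat_lit 841487992009) (nat_lit 152) (nat_lit 164636042151) (nat_lit 228) (nat_lit 15800087425) (nat_lit 17) (nat_lit 5) (nat_lit 19) (nat_lit 5) (nat_lit 20) (nat_lit 5) (nat_lit 320) (nat_lit 299) (nat_lit 101))))) (XT.nd (nat_lit 234) (nat_lit 0) (nat_lit 76) (XT.nd (nat_lit 78) (nat_lit 0) (nat_lit 0) (XT.lf (nat_lit 0) (nat_lit 64714050373) (nat_lit 532) (nat_lit 71608210042) (nat_lit 532) (nat_lit 71608210042) (nat_lit 33)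 (nat_lit 3) (nat_lit 40) (nat_lit 3) (nat_lit 40) (nat_lit 5) (nat_lit 300) (nat_lit 300) (nat_lit 120)) (XT.nd (nat_lit 78) (nat_lit 0) (nat_lit 76) (XT.lf (nat_lit 76) (nat_lit 33520255662) (nat_lit 0) (nat_lit 101891467390) (nat_lit 532) (nat_lit 297019133685) (nat_lit 34) (nat_lit 5) (nat_lit 33) (nat_lit 3) (nat_lit 40) (nat_lit 5) (nat_lit 301) (nat_lit 300) (nat_lit 119)) (XT.lf (nat_lit 0) (nat_lit 147876153072) (nat_lit 456) (nat_lit 219558775688) (nat_lit 532) (nat_lit 82411267827) (nat_lit 34) (nat_lit 5) (nat_lit 40) (nat_lit 5) (nat_lit 41) (nat_lit 5) (nat_lit 302) (nat_lit 300) (nat_lit 118)))) (XT.nd (nat_lit 78) (nat_lit 0) (nat_lit 76) (XT.lf (nat_lit 0) (nat_lit 163984237954) (nat_lit 456) (nat_lit 28505356673) (nat_lit 532) (nat_lit 275953449142) (nat_lit 34) (nat_lit 5) (nat_lit 40) (nat_lit 5) (nat_lit 41) (nat_lit 5) (nat_lit 303) (nat_lit 300) (nat_lit 117))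 (XT.nd (nat_lit 78) (nat_lit 0) (nat_lit 0) (XT.lf (nat_lit 0) (nat_lit 185914617489) (nat_lit 456) (nat_lit 301002415969) (nat_lit 532) (nat_lit 1247913607) (nat_lit 35) (nat_lit 5) (nat_lit 41) (nat_lit 5) (nat_lit 42) (nat_lit 5) (nat_lit 304) (nat_lit 300) (nat_lit 116)) (XT.lf (nat_lit 0) (nat_lit 215398760939) (nat_lit 456) (nat_lit 92717271720) (nat_lit 532) (nat_lit 200884623435) (nat_lit 35) (nat_lit 5) (nat_lit 41) (nat_lit 5) (nat_lit 42) (nat_lit 5) (nat_lit 305) (nat_lit 300) (nat_lit 115)))))) (XT.nd (nat_lit 468) (nat_lit 608) (nat_lit 0) (XT.nd (nat_lit 234) (nat_lit 228) (nat_lit 0) (XT.nd (nat_lit 78) (nat_lit 380) (nat_lit 0) (XT.lf (nat_lit 76) (nat_lit 139193696809) (nat_lit 0) (nat_lit 111395525844) (nat_lit 532) (nat_lit 280646192392) (nat_lit 36) (nat_lit 5) (nat_lit 35) (nat_lit 5) (nat_lit 42) (nat_lit 5) (nat_lit 306) (nat_lit 300) (nat_lit 114)) (XT.nd (nat_lit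 78) (nat_lit 456) (nat_lit 0) (XT.lf (nat_lit 0) (nat_lit 293626356401) (nat_lit 456) (nat_lit 162612119518) (nat_lit 76) (nat_lit 98607964120) (nat_lit 36) (nat_lit 5) (nat_lit 42) (nat_lit 5) (nat_lit 37) (nat_lit 5) (nat_lit 307) (nat_lit 300) (nat_lit 113)) (XT.lf (nat_lit 0) (nat_lit 86611073746) (nat_lit 456) (nat_lit 258471754054) (nat_lit 532) (nat_lit 234865409998) (nat_lit 30) (nat_lit 5) (nat_lit 36) (nat_lit 5) (nat_lit 37) (nat_lit 5) (nat_lit 308) (nat_lit 300) (nat_lit 112)))) (XT.nd (nat_lit 78) (nat_lit 228) (nat_lit 0) (XT.lf (nat_lit 0) (nat_lit 365019998541) (nat_lit 456) (nat_lit 40081901304) (nat_lit 532) (nat_lit 201600593013) (nat_lit 30) (nat_lit 5) (nat_lit 36) (nat_lit 5) (nat_lit 37) (nat_lit 5) (nat_lit 309) (nat_lit 300) (nat_lit 111)) (XT.nd (nat_lit 78) (nat_lit 0) (nat_lit 0) (XT.lf (nat_lit 0) (nat_lit 26733346766) (nat_lit 228) (nat_lit 448540562504)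 (nat_lit 304) (nat_lit 159895066229) (nat_lit 27) (nat_lit 5) (nat_lit 30) (nat_lit 5) (nat_lit 31) (nat_lit 5) (nat_lit 310) (nat_lit 300) (nat_lit 110)) (XT.lf (nat_lit 0) (nat_lit 329271223530) (nat_lit 228) (nat_lit 229411197210) (nat_lit 304) (nat_lit 106620536805) (nat_lit 27) (nat_lit 5) (nat_lit 30) (nat_lit 5) (nat_lit 31) (nat_lit 5) (nat_lit 311) (nat_lit 300) (nat_lit 109))))) (XT.nd (nat_lit 234) (nat_lit 380) (nat_lit 0) (XT.nd (nat_lit 78) (nat_lit 228) (nat_lit 0) (XT.lf (nat_lit 0) (nat_lit 648937923383) (nat_lit 304) (nat_lit 42009873733) (nat_lit 76) (nat_lit 6885916309) (nat_lit 27) (nat_lit 5) (nat_lit 31) (nat_lit 5) (nat_lit 28) (nat_lit 5) (nat_lit 312) (nat_lit 300) (nat_lit 108)) (XT.nd (nat_lit 78) (nat_lit 0) (nat_lit 0) (XT.lf (nat_lit 0) (nat_lit 25889702572) (nat_lit 228) (nat_lit 448829366976) (nat_lit 76) (nat_lit 257172753466) (nat_lit 24) (nat_lit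 5) (nat_lit 27) (nat_lit 5) (nat_lit 25) (nat_lit 5) (nat_lit 313) (nat_lit 300) (nat_lit 107)) (XT.lf (nat_lit 0) (nat_lit 105194835470) (nat_lit 228) (nat_lit 133352853423) (nat_lit 76) (nat_lit 529931015424) (nat_lit 24) (nat_lit 5) (nat_lit 27) (nat_lit 5) (nat_lit 25) (nat_lit 5) (nat_lit 314) (nat_lit 300) (nat_lit 106)))) (XT.nd (nat_lit 156) (nat_lit 152) (nat_lit 0) (XT.nd (nat_lit 78) (nat_lit 0) (nat_lit 0) (XT.lf (nat_lit 0) (nat_lit 196627628605) (nat_lit 304) (nat_lit 589825095344) (nat_lit 76) (nat_lit 21077152272) (nat_lit 21) (nat_lit 5) (nat_lit 25) (nat_lit 5) (nat_lit 22) (nat_lit 5) (nat_lit 315) (nat_lit 300) (nat_lit 105)) (XT.lf (nat_lit 0) (nat_lit 305311882850) (nat_lit 304) (nat_lit 251273297936) (nat_lit 76) (nat_lit 292325014140) (nat_lit 21) (nat_lit 5) (nat_lit 25) (nat_lit 5) (nat_lit 22) (nat_lit 5) (nat_lit 316) (nat_lit 300) (nat_lit 104))) (XT.nd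 (nat_lit 78) (nat_lit 0) (nat_lit 0) (XT.lf (nat_lit 0) (nat_lit 120384760495) (nat_lit 152) (nat_lit 305201360802) (nat_lit 228) (nat_lit 467783198380) (nat_lit 19) (nat_lit 5) (nat_lit 21) (nat_lit 5) (nat_lit 22) (nat_lit 5) (nat_lit 317) (nat_lit 300) (nat_lit 103)) (XT.lf (nat_lit 0) (nat_lit 536065583061) (nat_lit 152) (nat_lit 26286961049) (nat_lit 228) (nat_lit 378483010727) (nat_lit 19) (nat_lit 5) (nat_lit 21) (nat_lit 5) (nat_lit 22) (nat_lit 5) (nat_lit 318) (nat_lit 300) (nat_lit 102))))))))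
noncomputable def xc126 : XT := (XT.nd (nat_lit 74178) (nat_lit 0) (nat_lit 152) (XT.nd (nat_lit 36972) (nat_lit 0) (nat_lit 0) (XT.nd (nat_lit 36504) (nat_lit 0) (nat_lit 608) (XT.nd (nat_lit 36270) (nat_lit 0) (nat_lit 1140) (XT.nd (nat_lit 36114) (nat_lit 0) (nat_lit 1064) (XT.lf (nat_lit 0) (nat_lit 716672597399) (nat_lit 228) (nat_lit 13710560535) (nat_lit 76) (nat_lit 261186945592) (nat_lit 19) (nat_lit 5) (nat_lit 22) (nat_lit 5) (nat_lit 20) (nat_lit 5) (nat_lit 319) (nat_lit 300) (nat_lit 101)) (XT.nd (nat_lit 78) (nat_lit 0) (nat_lit 0) (XT.lf (nat_lit 0) (nat_lit 69891501660) (nat_lit 532) (nat_lit 77336689174) (nat_lit 532) (nat_lit 77336689174) (nat_lit 33) (nat_lit 3) (nat_lit 40) (nat_lit 3) (nat_lit 40) (nat_lit 5) (nat_lit 301) (nat_lit 301) (nat_lit 118)) (XT.lf (nat_lit 76) (nat_lit 36202222462) (nat_lit 0) (nat_lit 110043052798) (nat_lit 532) (nat_lit 320779997342)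 (nat_lit 34) (nat_lit 5) (nat_lit 33) (nat_lit 3) (nat_lit 40) (nat_lit 5) (nat_lit 302) (nat_lit 301) (nat_lit 117)))) (XT.nd (nat_lit 78) (nat_lit 0) (nat_lit 0) (XT.lf (nat_lit 0) (nat_lit 159706808204) (nat_lit 456) (nat_lit 237123102310) (nat_lit 532) (nat_lit 89003933504) (nat_lit 34) (nat_lit 5) (nat_lit 40) (nat_lit 5) (nat_lit 41) (nat_lit 5) (nat_lit 303) (nat_lit 301) (nat_lit 116)) (XT.nd (nat_lit 78) (nat_lit 0) (nat_lit 76) (XT.lf (nat_lit 0) (nat_lit 177103498181) (nat_lit 456) (nat_lit 30785437583) (nat_lit 532) (nat_lit 298029506788) (nat_lit 34) (nat_lit 5) (nat_lit 40) (nat_lit 5) (nat_lit 41) (nat_lit 5) (nat_lit 304) (nat_lit 301) (nat_lit 115)) (XT.lf (nat_lit 0) (nat_lit 200788273968) (nat_lit 456) (nat_lit 325082224711) (nat_lit 532) (nat_lit 1347602385) (nat_lit 35) (nat_lit 5) (nat_lit 41) (nat_lit 5) (nat_lit 42) (nat_lit 5) (nat_lit 305) (nat_lit 301) (nat_lit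 114))))) (XT.nd (nat_lit 234) (nat_lit 608) (nat_lit 0) (XT.nd (nat_lit 78) (nat_lit 0) (nat_lit 0) (XT.lf (nat_lit 0) (nat_lit 232631112813) (nat_lit 456) (nat_lit 100134297407) (nat_lit 532) (nat_lit 216955259689) (nat_lit 35) (nat_lit 5) (nat_lit 41) (nat_lit 5) (nat_lit 42) (nat_lit 5) (nat_lit 306) (nat_lit 301) (nat_lit 113)) (XT.nd (nat_lit 78) (nat_lit 0) (nat_lit 76) (XT.lf (nat_lit 76) (nat_lit 150329539591) (nat_lit 0) (nat_lit 120307246814) (nat_lit 532) (nat_lit 303097425370) (nat_lit 36) (nat_lit 5) (nat_lit 35) (nat_lit 5) (nat_lit 42) (nat_lit 5) (nat_lit 307) (nat_lit 301) (nat_lit 112)) (XT.lf (nat_lit 0) (nat_lit 317116857543) (nat_lit 456) (nat_lit 175620732219) (nat_lit 76) (nat_lit 106496531847) (nat_lit 36) (nat_lit 5) (nat_lit 42) (nat_lit 5) (nat_lit 37) (nat_lit 5) (nat_lit 308) (nat_lit 301) (nat_lit 111)))) (XT.nd (nat_lit 78) (nat_lit 228) (nat_lit 0) (XT.lf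 (nat_lit 0) (nat_lit 93540307472) (nat_lit 456) (nat_lit 279149518464) (nat_lit 532) (nat_lit 253654239076) (nat_lit 30) (nat_lit 5) (nat_lit 36) (nat_lit 5) (nat_lit 37) (nat_lit 5) (nat_lit 309) (nat_lit 301) (nat_lit 110)) (XT.nd (nat_lit 78) (nat_lit 228) (nat_lit 0) (XT.lf (nat_lit 0) (nat_lit 394221920486) (nat_lit 456) (nat_lit 43288475709) (nat_lit 532) (nat_lit 217728266637) (nat_lit 30) (nat_lit 5) (nat_lit 36) (nat_lit 5) (nat_lit 37) (nat_lit 5) (nat_lit 310) (nat_lit 301) (nat_lit 109)) (XT.lf (nat_lit 0) (nat_lit 28872357647) (nat_lit 228) (nat_lit 484423790975) (nat_lit 304) (nat_lit 172686317024) (nat_lit 27) (nat_lit 5) (nat_lit 30) (nat_lit 5) (nat_lit 31) (nat_lit 5) (nat_lit 311) (nat_lit 301) (nat_lit 108)))))) (XT.nd (nat_lit 468) (nat_lit 152) (nat_lit 0) (XT.nd (nat_lit 234) (nat_lit 228) (nat_lit 0) (XT.nd (nat_lit 78) (nat_lit 228) (nat_lit 0) (XT.lf (nat_lit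 0) (nat_lit 355613239134) (nat_lit 228) (nat_lit 247764077682) (nat_lit 304) (nat_lit 115149851505) (nat_lit 27) (nat_lit 5) (nat_lit 30) (nat_lit 5) (nat_lit 31) (nat_lit 5) (nat_lit 312) (nat_lit 301) (nat_lit 107)) (XT.nd (nat_lit 78) (nat_lit 228) (nat_lit 0) (XT.lf (nat_lit 0) (nat_lit 700853237610) (nat_lit 304) (nat_lit 45370345872) (nat_lit 76) (nat_lit 7436803076) (nat_lit 27) (nat_lit 5) (nat_lit 31) (nat_lit 5) (nat_lit 28) (nat_lit 5) (nat_lit 313) (nat_lit 301) (nat_lit 106)) (XT.lf (nat_lit 0) (nat_lit 27961154083) (nat_lit 228) (nat_lit 484735390825) (nat_lit 76) (nat_lit 277746600627) (nat_lit 24) (nat_lit 5) (nat_lit 27) (nat_lit 5) (nat_lit 25) (nat_lit 5) (nat_lit 314) (nat_lit 301) (nat_lit 105)))) (XT.nd (nat_lit 78) (nat_lit 228) (nat_lit 0) (XT.lf (nat_lit 0) (nat_lit 113610677219) (nat_lit 228) (nat_lit 144020780299) (nat_lit 76) (nat_lit 572325521550) (nat_lit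 24) (nat_lit 5) (nat_lit 27) (nat_lit 5) (nat_lit 25) (nat_lit 5) (nat_lit 315) (nat_lit 301) (nat_lit 104)) (XT.nd (nat_lit 78) (nat_lit 0) (nat_lit 0) (XT.lf (nat_lit 0) (nat_lit 212358083206) (nat_lit 304) (nat_lit 637010789864) (nat_lit 76) (nat_lit 22763372592) (nat_lit 21) (nat_lit 5) (nat_lit 25) (nat_lit 5) (nat_lit 22) (nat_lit 5) (nat_lit 316) (nat_lit 301) (nat_lit 103)) (XT.lf (nat_lit 0) (nat_lit 329737059694) (nat_lit 304) (nat_lit 271374871857) (nat_lit 76) (nat_lit 315711059843) (nat_lit 21) (nat_lit 5) (nat_lit 25) (nat_lit 5) (nat_lit 22) (nat_lit 5) (nat_lit 317) (nat_lit 301) (nat_lit 102))))) (XT.nd (nat_lit 36426) (nat_lit 0) (nat_lit 1140) (XT.nd (nat_lit 36270) (nat_lit 0) (nat_lit 1064) (XT.lf (nat_lit 0) (nat_lit 130015823910) (nat_lit 152) (nat_lit 329617403347) (nat_lit 228) (nat_lit 505205619741) (nat_lit 19) (nat_lit 5) (nat_lit 21) (nat_lit 5) (nat_lit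 22) (nat_lit 5) (nat_lit 318) (nat_lit 301) (nat_lit 101)) (XT.nd (nat_lit 78) (nat_lit 0) (nat_lit 0) (XT.lf (nat_lit 0) (nat_lit 75483102364) (nat_lit 532) (nat_lit 83523471983) (nat_lit 532) (nat_lit 83523471983) (nat_lit 33) (nat_lit 3) (nat_lit 40) (nat_lit 3) (nat_lit 40) (nat_lit 5) (nat_lit 302) (nat_lit 302) (nat_lit 116)) (XT.lf (nat_lit 76) (nat_lit 39098697196) (nat_lit 0) (nat_lit 118846726802) (nat_lit 532) (nat_lit 346441825251) (nat_lit 34) (nat_lit 5) (nat_lit 33) (nat_lit 3) (nat_lit 40) (nat_lit 5) (nat_lit 303) (nat_lit 302) (nat_lit 115)))) (XT.nd (nat_lit 156) (nat_lit 0) (nat_lit 76) (XT.nd (nat_lit 78) (nat_lit 0) (nat_lit 0) (XT.lf (nat_lit 0) (nat_lit 172483835445) (nat_lit 456) (nat_lit 256092628621) (nat_lit 532) (nat_lit 96124046068) (nat_lit 34) (nat_lit 5) (nat_lit 40) (nat_lit 5) (nat_lit 41) (nat_lit 5) (nat_lit 304) (nat_lit 302) (nat_lit 114)) (XT.lf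 (nat_lit 0) (nat_lit 191272224873) (nat_lit 456) (nat_lit 33247974559) (nat_lit 532) (nat_lit 321871680186) (nat_lit 34) (nat_lit 5) (nat_lit 40) (nat_lit 5) (nat_lit 41) (nat_lit 5) (nat_lit 305) (nat_lit 302) (nat_lit 113))) (XT.nd (nat_lit 78) (nat_lit 0) (nat_lit 0) (XT.lf (nat_lit 0) (nat_lit 216851753477) (nat_lit 456) (nat_lit 351088473012) (nat_lit 532) (nat_lit 1455286852) (nat_lit 35) (nat_lit 5) (nat_lit 41) (nat_lit 5) (nat_lit 42) (nat_lit 5) (nat_lit 306) (nat_lit 302) (nat_lit 112)) (XT.lf (nat_lit 0) (nat_lit 251241988498) (nat_lit 456) (nat_lit 108144735944) (nat_lit 532) (nat_lit 234311565905) (nat_lit 35) (nat_lit 5) (nat_lit 41) (nat_lit 5) (nat_lit 42) (nat_lit 5) (nat_lit 307) (nat_lit 302) (nat_lit 111))))))) (XT.nd (nat_lit 37284) (nat_lit 0) (nat_lit 228) (XT.nd (nat_lit 468) (nat_lit 456) (nat_lit 0) (XT.nd (nat_lit 234) (nat_lit 228) (nat_lit 0) (XT.nd (nat_lit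 78) (nat_lit 380) (nat_lit 0) (XT.lf (nat_lit 76) (nat_lit 162356200286) (nat_lit 0) (nat_lit 129931894204) (nat_lit 532) (nat_lit 327344822954) (nat_lit 36) (nat_lit 5) (nat_lit 35) (nat_lit 5) (nat_lit 42) (nat_lit 5) (nat_lit 308) (nat_lit 302) (nat_lit 110)) (XT.nd (nat_lit 78) (nat_lit 456) (nat_lit 0) (XT.lf (nat_lit 0) (nat_lit 342486542764) (nat_lit 456) (nat_lit 189670084846) (nat_lit 76) (nat_lit 115016194894) (nat_lit 36) (nat_lit 5) (nat_lit 42) (nat_lit 5) (nat_lit 37) (nat_lit 5) (nat_lit 309) (nat_lit 302) (nat_lit 109)) (XT.lf (nat_lit 0) (nat_lit 101023830275) (nat_lit 456) (nat_lit 301481500591) (nat_lit 532) (nat_lit 273946232075) (nat_lit 30) (nat_lit 5) (nat_lit 36) (nat_lit 5) (nat_lit 37) (nat_lit 5) (nat_lit 310) (nat_lit 302) (nat_lit 108)))) (XT.nd (nat_lit 78) (nat_lit 228) (nat_lit 0) (XT.lf (nat_lit 0) (nat_lit 425759950241) (nat_lit 456) (nat_lit 46751572886)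 (nat_lit 532) (nat_lit 235146207480) (nat_lit 30) (nat_lit 5) (nat_lit 36) (nat_lit 5) (nat_lit 37) (nat_lit 5) (nat_lit 311) (nat_lit 302) (nat_lit 107)) (XT.nd (nat_lit 78) (nat_lit 0) (nat_lit 0) (XT.lf (nat_lit 0) (nat_lit 31182440445) (nat_lit 228) (nat_lit 523177680082) (nat_lit 304) (nat_lit 186500918456) (nat_lit 27) (nat_lit 5) (nat_lit 30) (nat_lit 5) (nat_lit 31) (nat_lit 5) (nat_lit 312) (nat_lit 302) (nat_lit 106)) (XT.lf (nat_lit 0) (nat_lit 384062570660) (nat_lit 228) (nat_lit 267585190776) (nat_lit 304) (nat_lit 124361558209) (nat_lit 27) (nat_lit 5) (nat_lit 30) (nat_lit 5) (nat_lit 31) (nat_lit 5) (nat_lit 313) (nat_lit 302) (nat_lit 105))))) (XT.nd (nat_lit 234) (nat_lit 228) (nat_lit 0) (XT.nd (nat_lit 78) (nat_lit 228) (nat_lit 0) (XT.lf (nat_lit 0) (nat_lit 756921736979) (nat_lit 304) (nat_lit 48999701114) (nat_lit 76) (nat_lit 8031758863) (nat_lit 27) (nat_lit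 5) (nat_lit 31) (nat_lit 5) (nat_lit 28) (nat_lit 5) (nat_lit 314) (nat_lit 302) (nat_lit 104)) (XT.nd (nat_lit 78) (nat_lit 0) (nat_lit 0) (XT.lf (nat_lit 0) (nat_lit 30198282438) (nat_lit 228) (nat_lit 523513943020) (nat_lit 76) (nat_lit 299966351725) (nat_lit 24) (nat_lit 5) (nat_lit 27) (nat_lit 5) (nat_lit 25) (nat_lit 5) (nat_lit 315) (nat_lit 302) (nat_lit 103)) (XT.lf (nat_lit 0) (nat_lit 122699749942) (nat_lit 228) (nat_lit 155542184324) (nat_lit 76) (nat_lit 618111584615) (nat_lit 24) (nat_lit 5) (nat_lit 27) (nat_lit 5) (nat_lit 25) (nat_lit 5) (nat_lit 316) (nat_lit 302) (nat_lit 102)))) (XT.nd (nat_lit 36426) (nat_lit 0) (nat_lit 912) (XT.lf (nat_lit 0) (nat_lit 229346939322) (nat_lit 304) (nat_lit 687971384614) (nat_lit 76) (nat_lit 24584483669) (nat_lit 21) (nat_lit 5) (nat_lit 25) (nat_lit 5) (nat_lit 22) (nat_lit 5) (nat_lit 317) (nat_lit 302) (nat_lit 101)) (XT.nd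 (nat_lit 78) (nat_lit 0) (nat_lit 0) (XT.lf (nat_lit 0) (nat_lit 81521991098) (nat_lit 532) (nat_lit 90205219148) (nat_lit 532) (nat_lit 90205219148) (nat_lit 33) (nat_lit 3) (nat_lit 40) (nat_lit 3) (nat_lit 40) (nat_lit 5) (nat_lit 303) (nat_lit 303) (nat_lit 114)) (XT.lf (nat_lit 76) (nat_lit 42226847547) (nat_lit 0) (nat_lit 128354661946) (nat_lit 532) (nat_lit 374156680978) (nat_lit 34) (nat_lit 5) (nat_lit 33) (nat_lit 3) (nat_lit 40) (nat_lit 5) (nat_lit 304) (nat_lit 303) (nat_lit 113)))))) (XT.nd (nat_lit 468) (nat_lit 760) (nat_lit 0) (XT.nd (nat_lit 234) (nat_lit 0) (nat_lit 76) (XT.nd (nat_lit 78) (nat_lit 0) (nat_lit 0) (XT.lf (nat_lit 0) (nat_lit 186282956019) (nat_lit 456) (nat_lit 276579762956) (nat_lit 532) (nat_lit 103813796471) (nat_lit 34) (nat_lit 5) (nat_lit 40) (nat_lit 5) (nat_lit 41) (nat_lit 5) (nat_lit 305) (nat_lit 303) (nat_lit 112)) (XT.nd (nat_lit 78)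 (nat_lit 0) (nat_lit 76) (XT.lf (nat_lit 0) (nat_lit 206574385954) (nat_lit 456) (nat_lit 35907557010) (nat_lit 532) (nat_lit 347621254154) (nat_lit 34) (nat_lit 5) (nat_lit 40) (nat_lit 5) (nat_lit 41) (nat_lit 5) (nat_lit 306) (nat_lit 303) (nat_lit 111)) (XT.lf (nat_lit 0) (nat_lit 234200251773) (nat_lit 456) (nat_lit 379175268208) (nat_lit 532) (nat_lit 1571603728) (nat_lit 35) (nat_lit 5) (nat_lit 41) (nat_lit 5) (nat_lit 42) (nat_lit 5) (nat_lit 307) (nat_lit 303) (nat_lit 110)))) (XT.nd (nat_lit 78) (nat_lit 0) (nat_lit 0) (XT.lf (nat_lit 0) (nat_lit 271341679076) (nat_lit 456) (nat_lit 116796053111) (nat_lit 532) (nat_lit 253056392963) (nat_lit 35) (nat_lit 5) (nat_lit 41) (nat_lit 5) (nat_lit 42) (nat_lit 5) (nat_lit 308) (nat_lit 303) (nat_lit 109)) (XT.nd (nat_lit 78) (nat_lit 0) (nat_lit 76) (XT.lf (nat_lit 76) (nat_lit 175344951392) (nat_lit 0) (nat_lit 140326503735) (nat_lit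 532) (nat_lit 353532068903) (nat_lit 36) (nat_lit 5) (nat_lit 35) (nat_lit 5) (nat_lit 42) (nat_lit 5) (nat_lit 309) (nat_lit 303) (nat_lit 108)) (XT.lf (nat_lit 0) (nat_lit 369885754780) (nat_lit 456) (nat_lit 204843429330) (nat_lit 76) (nat_lit 124217439472) (nat_lit 36) (nat_lit 5) (nat_lit 42) (nat_lit 5) (nat_lit 37) (nat_lit 5) (nat_lit 310) (nat_lit 303) (nat_lit 107))))) (XT.nd (nat_lit 234) (nat_lit 228) (nat_lit 0) (XT.nd (nat_lit 78) (nat_lit 228) (nat_lit 0) (XT.lf (nat_lit 0) (nat_lit 109105992360) (nat_lit 456) (nat_lit 325600038342) (nat_lit 532) (nat_lit 295861633893) (nat_lit 30) (nat_lit 5) (nat_lit 36) (nat_lit 5) (nat_lit 37) (nat_lit 5) (nat_lit 311) (nat_lit 303) (nat_lit 106)) (XT.nd (nat_lit 78) (nat_lit 228) (nat_lit 0) (XT.lf (nat_lit 0) (nat_lit 459820982985) (nat_lit 456) (nat_lit 50491715109) (nat_lit 532) (nat_lit 253957629312) (nat_lit 30) (nat_lit 5)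 (nat_lit 36) (nat_lit 5) (nat_lit 37) (nat_lit 5) (nat_lit 312) (nat_lit 303) (nat_lit 105)) (XT.lf (nat_lit 0) (nat_lit 33677287899) (nat_lit 228) (nat_lit 565031882340) (nat_lit 304) (nat_lit 201420731362) (nat_lit 27) (nat_lit 5) (nat_lit 30) (nat_lit 5) (nat_lit 31) (nat_lit 5) (nat_lit 313) (nat_lit 303) (nat_lit 104)))) (XT.nd (nat_lit 156) (nat_lit 228) (nat_lit 0) (XT.nd (nat_lit 78) (nat_lit 0) (nat_lit 0) (XT.lf (nat_lit 0) (nat_lit 414787809848) (nat_lit 228) (nat_lit 288991994788) (nat_lit 304) (nat_lit 134310241597) (nat_lit 27) (nat_lit 5) (nat_lit 30) (nat_lit 5) (nat_lit 31) (nat_lit 5) (nat_lit 314) (nat_lit 303) (nat_lit 103)) (XT.lf (nat_lit 0) (nat_lit 817475682008) (nat_lit 304) (nat_lit 52919443641) (nat_lit 76) (nat_lit 8674309468) (nat_lit 27) (nat_lit 5) (nat_lit 31) (nat_lit 5) (nat_lit 28) (nat_lit 5) (nat_lit 315) (nat_lit 303) (nat_lit 102))) (XT.nd (nat_lit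 78) (nat_lit 0) (nat_lit 0) (XT.lf (nat_lit 0) (nat_lit 32614347391) (nat_lit 228) (nat_lit 565394819203) (nat_lit 76) (nat_lit 323963679623) (nat_lit 24) (nat_lit 5) (nat_lit 27) (nat_lit 5) (nat_lit 25) (nat_lit 5) (nat_lit 316) (nat_lit 303) (nat_lit 101)) (XT.lf (nat_lit 0) (nat_lit 132515917306) (nat_lit 228) (nat_lit 167985337534) (nat_lit 76) (nat_lit 667560529680) (nat_lit 24) (nat_lit 5) (nat_lit 27) (nat_lit 5) (nat_lit 25) (nat_lit 5) (nat_lit 317) (nat_lit 303) (nat_lit 100))))))))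
noncomputable def xc127 : XT := (XT.nd (nat_lit 75270) (nat_lit 0) (nat_lit 228) (XT.nd (nat_lit 936) (nat_lit 0) (nat_lit 0) (XT.nd (nat_lit 468) (nat_lit 456) (nat_lit 0) (XT.nd (nat_lit 234) (nat_lit 0) (nat_lit 76) (XT.nd (nat_lit 78) (nat_lit 0) (nat_lit 0) (XT.lf (nat_lit 0) (nat_lit 88043956614) (nat_lit 532) (nat_lit 97421524717) (nat_lit 532) (nat_lit 97421524717) (nat_lit 33) (nat_lit 3) (nat_lit 40) (nat_lit 3) (nat_lit 40) (nat_lit 5) (nat_lit 304) (nat_lit 304) (nat_lit 112)) (XT.nd (nat_lit 78) (nat_lit 0) (nat_lit 76) (XT.lf (nat_lit 76) (nat_lit 45605213608) (nat_lit 0) (nat_lit 138623203797) (nat_lit 532) (nat_lit 404088795109) (nat_lit 34) (nat_lit 5) (nat_lit 33) (nat_lit 3) (nat_lit 40) (nat_lit 5) (nat_lit 305) (nat_lit 304) (nat_lit 111)) (XT.lf (nat_lit 0) (nat_lit 201185947214) (nat_lit 456) (nat_lit 298705907405) (nat_lit 532) (nat_lit 112118751627) (nat_lit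 34) (nat_lit 5) (nat_lit 40) (nat_lit 5) (nat_lit 41) (nat_lit 5) (nat_lit 306) (nat_lit 304) (nat_lit 110)))) (XT.nd (nat_lit 78) (nat_lit 0) (nat_lit 76) (XT.lf (nat_lit 0) (nat_lit 223100665269) (nat_lit 456) (nat_lit 38779942508) (nat_lit 532) (nat_lit 375430816929) (nat_lit 34) (nat_lit 5) (nat_lit 40) (nat_lit 5) (nat_lit 41) (nat_lit 5) (nat_lit 307) (nat_lit 304) (nat_lit 109)) (XT.nd (nat_lit 78) (nat_lit 0) (nat_lit 0) (XT.lf (nat_lit 0) (nat_lit 252936578858) (nat_lit 456) (nat_lit 409509047343) (nat_lit 532) (nat_lit 1697241086) (nat_lit 35) (nat_lit 5) (nat_lit 41) (nat_lit 5) (nat_lit 42) (nat_lit 5) (nat_lit 308) (nat_lit 304) (nat_lit 108)) (XT.lf (nat_lit 0) (nat_lit 293049297608) (nat_lit 456) (nat_lit 126139512988) (nat_lit 532) (nat_lit 273300820196) (nat_lit 35) (nat_lit 5) (nat_lit 41) (nat_lit 5) (nat_lit 42) (nat_lit 5) (nat_lit 309) (nat_lit 304) (nat_lit 107)))))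 (XT.nd (nat_lit 234) (nat_lit 228) (nat_lit 0) (XT.nd (nat_lit 78) (nat_lit 380) (nat_lit 0) (XT.lf (nat_lit 76) (nat_lit 189372766195) (nat_lit 0) (nat_lit 151552673756) (nat_lit 532) (nat_lit 381814343016) (nat_lit 36) (nat_lit 5) (nat_lit 35) (nat_lit 5) (nat_lit 42) (nat_lit 5) (nat_lit 310) (nat_lit 304) (nat_lit 106)) (XT.nd (nat_lit 78) (nat_lit 456) (nat_lit 0) (XT.lf (nat_lit 0) (nat_lit 399476862587) (nat_lit 456) (nat_lit 221230678794) (nat_lit 76) (nat_lit 134154790895) (nat_lit 36) (nat_lit 5) (nat_lit 42) (nat_lit 5) (nat_lit 37) (nat_lit 5) (nat_lit 311) (nat_lit 304) (nat_lit 105)) (XT.lf (nat_lit 0) (nat_lit 117834690938) (nat_lit 456) (nat_lit 351648056587) (nat_lit 532) (nat_lit 319530310190) (nat_lit 30) (nat_lit 5) (nat_lit 36) (nat_lit 5) (nat_lit 37) (nat_lit 5) (nat_lit 312) (nat_lit 304) (nat_lit 104)))) (XT.nd (nat_lit 78) (nat_lit 228) (nat_lit 0) (XT.lf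 (nat_lit 0) (nat_lit 496606864577) (nat_lit 456) (nat_lit 54531066371) (nat_lit 532) (nat_lit 274274004089) (nat_lit 30) (nat_lit 5) (nat_lit 36) (nat_lit 5) (nat_lit 37) (nat_lit 5) (nat_lit 313) (nat_lit 304) (nat_lit 103)) (XT.nd (nat_lit 78) (nat_lit 0) (nat_lit 0) (XT.lf (nat_lit 0) (nat_lit 36371687167) (nat_lit 228) (nat_lit 610234422511) (nat_lit 304) (nat_lit 217534166474) (nat_lit 27) (nat_lit 5) (nat_lit 30) (nat_lit 5) (nat_lit 31) (nat_lit 5) (nat_lit 314) (nat_lit 304) (nat_lit 102)) (XT.lf (nat_lit 0) (nat_lit 447971034854) (nat_lit 228) (nat_lit 312111344727) (nat_lit 304) (nat_lit 145054854076) (nat_lit 27) (nat_lit 5) (nat_lit 30) (nat_lit 5) (nat_lit 31) (nat_lit 5) (nat_lit 315) (nat_lit 304) (nat_lit 101)))))) (XT.nd (nat_lit 37050) (nat_lit 0) (nat_lit 0) (XT.nd (nat_lit 36816) (nat_lit 0) (nat_lit 532) (XT.nd (nat_lit 36660) (nat_lit 0) (nat_lit 456) (XT.lf (nat_lit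 0) (nat_lit 882873913241) (nat_lit 304) (nat_lit 57152798889) (nat_lit 76) (nat_lit 9368262708) (nat_lit 27) (nat_lit 5) (nat_lit 31) (nat_lit 5) (nat_lit 28) (nat_lit 5) (nat_lit 316) (nat_lit 304) (nat_lit 100)) (XT.nd (nat_lit 78) (nat_lit 0) (nat_lit 0) (XT.lf (nat_lit 0) (nat_lit 95087649950) (nat_lit 532) (nat_lit 105215150704) (nat_lit 532) (nat_lit 105215150704) (nat_lit 33) (nat_lit 3) (nat_lit 40) (nat_lit 3) (nat_lit 40) (nat_lit 5) (nat_lit 305) (nat_lit 305) (nat_lit 110)) (XT.lf (nat_lit 76) (nat_lit 49253817817) (nat_lit 0) (nat_lit 149713204901) (nat_lit 532) (nat_lit 436415538337) (nat_lit 34) (nat_lit 5) (nat_lit 33) (nat_lit 3) (nat_lit 40) (nat_lit 5) (nat_lit 306) (nat_lit 305) (nat_lit 109)))) (XT.nd (nat_lit 78) (nat_lit 0) (nat_lit 0) (XT.lf (nat_lit 0) (nat_lit 217281127101) (nat_lit 456) (nat_lit 322602177162) (nat_lit 532) (nat_lit 121088124390) (nat_lit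 34) (nat_lit 5) (nat_lit 40) (nat_lit 5) (nat_lit 41) (nat_lit 5) (nat_lit 307) (nat_lit 305) (nat_lit 108)) (XT.nd (nat_lit 78) (nat_lit 0) (nat_lit 76) (XT.lf (nat_lit 0) (nat_lit 240949000074) (nat_lit 456) (nat_lit 41882150099) (nat_lit 532) (nat_lit 405465164351) (nat_lit 34) (nat_lit 5) (nat_lit 40) (nat_lit 5) (nat_lit 41) (nat_lit 5) (nat_lit 308) (nat_lit 305) (nat_lit 107)) (XT.lf (nat_lit 0) (nat_lit 273171768321) (nat_lit 456) (nat_lit 442269563378) (nat_lit 532) (nat_lit 1832942407) (nat_lit 35) (nat_lit 5) (nat_lit 41) (nat_lit 5) (nat_lit 42) (nat_lit 5) (nat_lit 309) (nat_lit 305) (nat_lit 106))))) (XT.nd (nat_lit 234) (nat_lit 608) (nat_lit 0) (XT.nd (nat_lit 78) (nat_lit 0) (nat_lit 0) (XT.lf (nat_lit 0) (nat_lit 316493485078) (nat_lit 456) (nat_lit 136230481664) (nat_lit 532) (nat_lit 295164813620) (nat_lit 35) (nat_lit 5) (nat_lit 41) (nat_lit 5) (nat_lit 42) (nat_lit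 5) (nat_lit 310) (nat_lit 305) (nat_lit 105)) (XT.nd (nat_lit 78) (nat_lit 0) (nat_lit 76) (XT.lf (nat_lit 76) (nat_lit 204522774984) (nat_lit 0) (nat_lit 163676930284) (nat_lit 532) (nat_lit 412359240630) (nat_lit 36) (nat_lit 5) (nat_lit 35) (nat_lit 5) (nat_lit 42) (nat_lit 5) (nat_lit 311) (nat_lit 305) (nat_lit 104)) (XT.lf (nat_lit 0) (nat_lit 431435223719) (nat_lit 456) (nat_lit 238928940297) (nat_lit 76) (nat_lit 144887136670) (nat_lit 36) (nat_lit 5) (nat_lit 42) (nat_lit 5) (nat_lit 37) (nat_lit 5) (nat_lit 312) (nat_lit 305) (nat_lit 103)))) (XT.nd (nat_lit 156) (nat_lit 228) (nat_lit 0) (XT.nd (nat_lit 78) (nat_lit 0) (nat_lit 0) (XT.lf (nat_lit 0) (nat_lit 127261654133) (nat_lit 456) (nat_lit 379779914127) (nat_lit 532) (nat_lit 345092516887) (nat_lit 30) (nat_lit 5) (nat_lit 36) (nat_lit 5) (nat_lit 37) (nat_lit 5) (nat_lit 313) (nat_lit 305) (nat_lit 102)) (XT.lf (nat_lit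 0) (nat_lit 536335587743) (nat_lit 456) (nat_lit 58893563730) (nat_lit 532) (nat_lit 296215722454) (nat_lit 30) (nat_lit 5) (nat_lit 36) (nat_lit 5) (nat_lit 37) (nat_lit 5) (nat_lit 314) (nat_lit 305) (nat_lit 101))) (XT.nd (nat_lit 36816) (nat_lit 0) (nat_lit 456) (XT.lf (nat_lit 0) (nat_lit 39281607528) (nat_lit 228) (nat_lit 659053167381) (nat_lit 304) (nat_lit 234936708265) (nat_lit 27) (nat_lit 5) (nat_lit 30) (nat_lit 5) (nat_lit 31) (nat_lit 5) (nat_lit 315) (nat_lit 305) (nat_lit 100)) (XT.lf (nat_lit 0) (nat_lit 102694813530) (nat_lit 532) (nat_lit 113632280464) (nat_lit 532) (nat_lit 113632280464) (nat_lit 33) (nat_lit 3) (nat_lit 40) (nat_lit 3) (nat_lit 40) (nat_lit 5) (nat_lit 306) (nat_lit 306) (nat_lit 108))))))) (XT.nd (nat_lit 37908) (nat_lit 0) (nat_lit 228) (XT.nd (nat_lit 468) (nat_lit 228) (nat_lit 0) (XT.nd (nat_lit 234) (nat_lit 0) (nat_lit 152) (XT.nd (nat_lit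 78) (nat_lit 0) (nat_lit 76) (XT.lf (nat_lit 76) (nat_lit 53194283668) (nat_lit 0) (nat_lit 161690385437) (nat_lit 532) (nat_lit 471328472436) (nat_lit 34) (nat_lit 5) (nat_lit 33) (nat_lit 3) (nat_lit 40) (nat_lit 5) (nat_lit 307) (nat_lit 306) (nat_lit 107)) (XT.nd (nat_lit 78) (nat_lit 0) (nat_lit 0) (XT.lf (nat_lit 0) (nat_lit 234663877995) (nat_lit 456) (nat_lit 348410177437) (nat_lit 532) (nat_lit 130775065144) (nat_lit 34) (nat_lit 5) (nat_lit 40) (nat_lit 5) (nat_lit 41) (nat_lit 5) (nat_lit 308) (nat_lit 306) (nat_lit 106)) (XT.lf (nat_lit 0) (nat_lit 260225161492) (nat_lit 456) (nat_lit 45232561090) (nat_lit 532) (nat_lit 437902276390) (nat_lit 34) (nat_lit 5) (nat_lit 40) (nat_lit 5) (nat_lit 41) (nat_lit 5) (nat_lit 309) (nat_lit 306) (nat_lit 105)))) (XT.nd (nat_lit 78) (nat_lit 0) (nat_lit 0) (XT.lf (nat_lit 0) (nat_lit 295025735398) (nat_lit 456) (nat_lit 477650950334)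 (nat_lit 532) (nat_lit 1979510956) (nat_lit 35) (nat_lit 5) (nat_lit 41) (nat_lit 5) (nat_lit 42) (nat_lit 5) (nat_lit 310) (nat_lit 306) (nat_lit 104)) (XT.nd (nat_lit 78) (nat_lit 0) (nat_lit 0) (XT.lf (nat_lit 0) (nat_lit 341813172784) (nat_lit 456) (nat_lit 147128755276) (nat_lit 532) (nat_lit 318777936818) (nat_lit 35) (nat_lit 5) (nat_lit 41) (nat_lit 5) (nat_lit 42) (nat_lit 5) (nat_lit 311) (nat_lit 306) (nat_lit 103)) (XT.lf (nat_lit 76) (nat_lit 220884757728) (nat_lit 0) (nat_lit 176771121254) (nat_lit 532) (nat_lit 445347765693) (nat_lit 36) (nat_lit 5) (nat_lit 35) (nat_lit 5) (nat_lit 42) (nat_lit 5) (nat_lit 312) (nat_lit 306) (nat_lit 102))))) (XT.nd (nat_lit 37128) (nat_lit 0) (nat_lit 228) (XT.nd (nat_lit 78) (nat_lit 456) (nat_lit 0) (XT.lf (nat_lit 0) (nat_lit 465950223481) (nat_lit 456) (nat_lit 258043090225) (nat_lit 76) (nat_lit 156478075457) (nat_lit 36) (nat_lit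 5) (nat_lit 42) (nat_lit 5) (nat_lit 37) (nat_lit 5) (nat_lit 313) (nat_lit 306) (nat_lit 101)) (XT.nd (nat_lit 36972) (nat_lit 0) (nat_lit 228) (XT.lf (nat_lit 0) (nat_lit 137442747574) (nat_lit 456) (nat_lit 410162318413) (nat_lit 532) (nat_lit 372699731236) (nat_lit 30) (nat_lit 5) (nat_lit 36) (nat_lit 5) (nat_lit 37) (nat_lit 5) (nat_lit 314) (nat_lit 306) (nat_lit 100)) (XT.lf (nat_lit 0) (nat_lit 110910528571) (nat_lit 532) (nat_lit 122722792345) (nat_lit 532) (nat_lit 122722792345) (nat_lit 33) (nat_lit 3) (nat_lit 40) (nat_lit 3) (nat_lit 40) (nat_lit 5) (nat_lit 307) (nat_lit 307) (nat_lit 106)))) (XT.nd (nat_lit 156) (nat_lit 0) (nat_lit 76) (XT.nd (nat_lit 78) (nat_lit 0) (nat_lit 76) (XT.lf (nat_lit 76) (nat_lit 57449963901) (nat_lit 0) (nat_lit 174625722705) (nat_lit 532) (nat_lit 509034485341) (nat_lit 34) (nat_lit 5) (nat_lit 33) (nat_lit 3) (nat_lit 40) (nat_lit 5)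 (nat_lit 308) (nat_lit 307) (nat_lit 105)) (XT.lf (nat_lit 0) (nat_lit 253437211764) (nat_lit 456) (nat_lit 376282842542) (nat_lit 532) (nat_lit 141236976736) (nat_lit 34) (nat_lit 5) (nat_lit 40) (nat_lit 5) (nat_lit 41) (nat_lit 5) (nat_lit 309) (nat_lit 307) (nat_lit 104))) (XT.nd (nat_lit 78) (nat_lit 0) (nat_lit 76) (XT.lf (nat_lit 0) (nat_lit 281043381383) (nat_lit 456) (nat_lit 48851027931) (nat_lit 532) (nat_lit 472934371817) (nat_lit 34) (nat_lit 5) (nat_lit 40) (nat_lit 5) (nat_lit 41) (nat_lit 5) (nat_lit 310) (nat_lit 307) (nat_lit 103)) (XT.lf (nat_lit 0) (nat_lit 318627987656) (nat_lit 456) (nat_lit 515862873657) (nat_lit 532) (nat_lit 2137814524) (nat_lit 35) (nat_lit 5) (nat_lit 41) (nat_lit 5) (nat_lit 42) (nat_lit 5) (nat_lit 311) (nat_lit 307) (nat_lit 102)))))) (XT.nd (nat_lit 37518) (nat_lit 0) (nat_lit 0) (XT.nd (nat_lit 37284) (nat_lit 0) (nat_lit 0) (XT.nd (nat_lit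 78) (nat_lit 152) (nat_lit 0) (XT.lf (nat_lit 0) (nat_lit 369158405705) (nat_lit 456) (nat_lit 158898914306) (nat_lit 532) (nat_lit 344280118700) (nat_lit 35) (nat_lit 5) (nat_lit 41) (nat_lit 5) (nat_lit 42) (nat_lit 5) (nat_lit 312) (nat_lit 307) (nat_lit 101)) (XT.nd (nat_lit 37128) (nat_lit 152) (nat_lit 0) (XT.lf (nat_lit 76) (nat_lit 238555676159) (nat_lit 0) (nat_lit 190912842287) (nat_lit 532) (nat_lit 480975403318) (nat_lit 36) (nat_lit 5) (nat_lit 35) (nat_lit 5) (nat_lit 42) (nat_lit 5) (nat_lit 313) (nat_lit 307) (nat_lit 100)) (XT.lf (nat_lit 0) (nat_lit 119783482275) (nat_lit 532) (nat_lit 132540555243) (nat_lit 532) (nat_lit 132540555243) (nat_lit 33) (nat_lit 3) (nat_lit 40) (nat_lit 3) (nat_lit 40) (nat_lit 5) (nat_lit 308) (nat_lit 308) (nat_lit 104)))) (XT.nd (nat_lit 78) (nat_lit 0) (nat_lit 76) (XT.lf (nat_lit 76) (nat_lit 62046078930) (nat_lit 0) (nat_lit 188595871770)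 (nat_lit 532) (nat_lit 549757017068) (nat_lit 34) (nat_lit 5) (nat_lit 33) (nat_lit 3) (nat_lit 40) (nat_lit 5) (nat_lit 309) (nat_lit 308) (nat_lit 103)) (XT.nd (nat_lit 78) (nat_lit 0) (nat_lit 0) (XT.lf (nat_lit 0) (nat_lit 273712380346) (nat_lit 456) (nat_lit 406385342125) (nat_lit 532) (nat_lit 152535854612) (nat_lit 34) (nat_lit 5) (nat_lit 40) (nat_lit 5) (nat_lit 41) (nat_lit 5) (nat_lit 310) (nat_lit 308) (nat_lit 102)) (XT.lf (nat_lit 0) (nat_lit 303527029339) (nat_lit 456) (nat_lit 52758991813) (nat_lit 532) (nat_lit 510769047245) (nat_lit 34) (nat_lit 5) (nat_lit 40) (nat_lit 5) (nat_lit 41) (nat_lit 5) (nat_lit 311) (nat_lit 308) (nat_lit 101))))) (XT.nd (nat_lit 37440) (nat_lit 0) (nat_lit 0) (XT.nd (nat_lit 37284) (nat_lit 152) (nat_lit 0) (XT.lf (nat_lit 0) (nat_lit 344118392500) (nat_lit 456) (nat_lit 557131772630) (nat_lit 532) (nat_lit 2308790554) (nat_lit 35) (nat_lit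 5) (nat_lit 41) (nat_lit 5) (nat_lit 42) (nat_lit 5) (nat_lit 312) (nat_lit 308) (nat_lit 100)) (XT.nd (nat_lit 78) (nat_lit 0) (nat_lit 0) (XT.lf (nat_lit 0) (nat_lit 129366256381) (nat_lit 532) (nat_lit 143143747801) (nat_lit 532) (nat_lit 143143747801) (nat_lit 33) (nat_lit 3) (nat_lit 40) (nat_lit 3) (nat_lit 40) (nat_lit 5) (nat_lit 309) (nat_lit 309) (nat_lit 102)) (XT.lf (nat_lit 76) (nat_lit 67009866340) (nat_lit 0) (nat_lit 203683619743) (nat_lit 532) (nat_lit 593737383731) (nat_lit 34) (nat_lit 5) (nat_lit 33) (nat_lit 3) (nat_lit 40) (nat_lit 5) (nat_lit 310) (nat_lit 309) (nat_lit 101)))) (XT.nd (nat_lit 37440) (nat_lit 76) (nat_lit 0) (XT.nd (nat_lit 78) (nat_lit 0) (nat_lit 0) (XT.lf (nat_lit 0) (nat_lit 295609535075) (nat_lit 456) (nat_lit 438896059909) (nat_lit 532) (nat_lit 164738654168) (nat_lit 34) (nat_lit 5) (nat_lit 40) (nat_lit 5) (nat_lit 41) (nat_lit 5) (nat_lit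 311) (nat_lit 309) (nat_lit 100)) (XT.lf (nat_lit 0) (nat_lit 327809343817) (nat_lit 456) (nat_lit 56979609690) (nat_lit 532) (nat_lit 551630507309) (nat_lit 34) (nat_lit 5) (nat_lit 40) (nat_lit 5) (nat_lit 41) (nat_lit 5) (nat_lit 312) (nat_lit 309) (nat_lit 99))) (XT.nd (nat_lit 78) (nat_lit 0) (nat_lit 0) (XT.lf (nat_lit 0) (nat_lit 139715638787) (nat_lit 532) (nat_lit 154595203163) (nat_lit 532) (nat_lit 154595203163) (nat_lit 33) (nat_lit 3) (nat_lit 40) (nat_lit 3) (nat_lit 40) (nat_lit 5) (nat_lit 310) (nat_lit 310) (nat_lit 100)) (XT.lf (nat_lit 76) (nat_lit 72370742321) (nat_lit 0) (nat_lit 219978376393) (nat_lit 532) (nat_lit 641236207504) (nat_lit 34) (nat_lit 5) (nat_lit 33) (nat_lit 3) (nat_lit 40) (nat_lit 5) (nat_lit 311) (nat_lit 310) (nat_lit 99))))))))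

set_option maxRecDepth 10000000 in
noncomputable def Tp : PT := (PT.nd (nat_lit 4586400) (PT.nd (nat_lit 4361448) (PT.nd (nat_lit 4136730) pc0 pc1) (PT.nd (nat_lit 112866) pc2 pc3)) (PT.nd (nat_lit 149448) (PT.nd (nat_lit 75036) pc4 pc5) (PT.nd (nat_lit 74490) pc6 pc7)))

set_option maxRecDepth 10000000 in
noncomputable def Tx : XT := (XT.nd (nat_lit 7154940) (nat_lit 0) (nat_lit 76) XT.nil (XT.nd (nat_lit 4499976) (nat_lit 0) (nat_lit 0) (XT.nd (nat_lit 2134938) (nat_lit 0) (nat_lit 0) (XT.nd (nat_lit 1462968) (nat_lit 0) (nat_lit 0) (XT.nd (nat_lit 1046448) (nat_lit 0) (nat_lit 0) (XT.nd (nat_lit 711828) (nat_lit 0) (nat_lit 0) (XT.nd (nat_lit 487110) (nat_lit 0) (nat_lit 0) (XT.nd (nat_lit 337038) (nat_lit 0) (nat_lit 0) (XT.nd (nat_lit 224796) (nat_lit 0) (nat_lit 0) xc0 xc1) (XT.nd (nat_lit 75348) (nat_lit 0) (nat_lit 0) xc2 xc3)) (XT.nd (nat_lit 112944) (nat_lit 0) (nat_lit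 0) (XT.nd (nat_lit 74100) (nat_lit 0) (nat_lit 0) xc4 xc5) (XT.nd (nat_lit 73320) (nat_lit 0) (nat_lit 0) xc6 xc7))) (XT.nd (nat_lit 185718) (nat_lit 0) (nat_lit 0) (XT.nd (nat_lit 110292) (nat_lit 0) (nat_lit 0) (XT.nd (nat_lit 38220) (nat_lit 0) (nat_lit 0) xc8 xc9) (XT.nd (nat_lit 37752) (nat_lit 0) (nat_lit 0) xc10 xc11)) (XT.nd (nat_lit 74724) (nat_lit 0) (nat_lit 0) (XT.nd (nat_lit 37440) (nat_lit 0) (nat_lit 0) xc12 xc13) (XT.nd (nat_lit 37128) (nat_lit 0) (nat_lit 0) xc14 xc15)))) (XT.nd (nat_lit 226434) (nat_lit 0) (nat_lit 0) (XT.nd (nat_lit 113880) (nat_lit 0) (nat_lit 0) (XT.nd (nat_lit 40716) (nat_lit 0) (nat_lit 0) (XT.nd (nat_lit 3900) (nat_lit 0) (nat_lit 0) xc16 xc17) (XT.nd (nat_lit 36660) (nat_lit 0) (nat_lit 0) xc18 xc19)) (XT.nd (nat_lit 40248) (nat_lit 0) (nat_lit 0) (XT.nd (nat_lit 36348) (nat_lit 0) (nat_lit 0) xc20 xc21) (XT.nd (nat_lit 36192) (nat_lit 0) (nat_lit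 0) xc22 xc23))) (XT.nd (nat_lit 111384) (nat_lit 0) (nat_lit 0) (XT.nd (nat_lit 39858) (nat_lit 0) (nat_lit 0) (XT.nd (nat_lit 35958) (nat_lit 0) (nat_lit 0) xc24 xc25) (XT.nd (nat_lit 35802) (nat_lit 0) (nat_lit 0) xc26 xc27)) (XT.nd (nat_lit 39390) (nat_lit 0) (nat_lit 0) (XT.nd (nat_lit 35490) (nat_lit 0) (nat_lit 0) xc28 xc29) (XT.nd (nat_lit 35334) (nat_lit 0) (nat_lit 0) xc30 xc31))))) (XT.nd (nat_lit 368628) (nat_lit 0) (nat_lit 0) (XT.nd (nat_lit 186108) (nat_lit 0) (nat_lit 0) (XT.nd (nat_lit 108966) (nat_lit 0) (nat_lit 0) (XT.nd (nat_lit 70200) (nat_lit 0) (nat_lit 0) (XT.nd (nat_lit 35178) (nat_lit 0) (nat_lit 0) xc32 xc33) (XT.nd (nat_lit 3900) (nat_lit 0) (nat_lit 0) xc34 xc35)) (XT.nd (nat_lit 38610) (nat_lit 0) (nat_lit 0) (XT.nd (nat_lit 34710) (nat_lit 0) (nat_lit 0) xc36 xc37) (XT.nd (nat_lit 34554) (nat_lit 0) (nat_lit 0) xc38 xc39))) (XT.nd (nat_lit 76518) (nat_lit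 0) (nat_lit 0) (XT.nd (nat_lit 38298) (nat_lit 0) (nat_lit 0) (XT.nd (nat_lit 34398) (nat_lit 0) (nat_lit 0) xc40 xc41) (XT.nd (nat_lit 34242) (nat_lit 0) (nat_lit 0) xc42 xc43)) (XT.nd (nat_lit 68172) (nat_lit 0) (nat_lit 0) (XT.nd (nat_lit 34164) (nat_lit 0) (nat_lit 0) xc44 xc45) (XT.nd (nat_lit 3900) (nat_lit 76) (nat_lit 0) xc46 xc47)))) (XT.nd (nat_lit 151008) (nat_lit 0) (nat_lit 0) (XT.nd (nat_lit 75348) (nat_lit 0) (nat_lit 0) (XT.nd (nat_lit 37596) (nat_lit 0) (nat_lit 0) (XT.nd (nat_lit 3900) (nat_lit 76) (nat_lit 0) xc48 xc49) (XT.nd (nat_lit 3900) (nat_lit 76) (nat_lit 0) xc50 xc51)) (XT.nd (nat_lit 37752) (nat_lit 0) (nat_lit 0) (XT.nd (nat_lit 3900) (nat_lit 76) (nat_lit 0) xc52 xc53) (XT.nd (nat_lit 3900) (nat_lit 76) (nat_lit 0) xc54 xc55))) (XT.nd (nat_lit 75972) (nat_lit 0) (nat_lit 0) (XT.nd (nat_lit 37908) (nat_lit 0) (nat_lit 0) (XT.nd (nat_lit 3900) (nat_lit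 0) (nat_lit 0) xc56 xc57) (XT.nd (nat_lit 3900) (nat_lit 0) (nat_lit 0) xc58 xc59)) (XT.nd (nat_lit 38064) (nat_lit 0) (nat_lit 0) (XT.nd (nat_lit 3900) (nat_lit 0) (nat_lit 0) xc60 xc61) (XT.nd (nat_lit 3900) (nat_lit 0) (nat_lit 0) xc62 xc63)))))) (XT.nd (nat_lit 751998) (nat_lit 0) (nat_lit 76) (XT.nd (nat_lit 340080) (nat_lit 0) (nat_lit 0) (XT.nd (nat_lit 184548) (nat_lit 0) (nat_lit 0) (XT.nd (nat_lit 76674) (nat_lit 0) (nat_lit 0) (XT.nd (nat_lit 38298) (nat_lit 0) (nat_lit 0) (XT.nd (nat_lit 34398) (nat_lit 0) (nat_lit 76) xc64 xc65) (XT.nd (nat_lit 34476) (nat_lit 0) (nat_lit 76) xc66 xc67)) (XT.nd (nat_lit 38454) (nat_lit 0) (nat_lit 0) (XT.nd (nat_lit 34554) (nat_lit 0) (nat_lit 0) xc68 xc69) (XT.nd (nat_lit 34632) (nat_lit 0) (nat_lit 0) xc70 xc71))) (XT.nd (nat_lit 77532) (nat_lit 0) (nat_lit 0) (XT.nd (nat_lit 38688) (nat_lit 0) (nat_lit 0) (XT.nd (nat_lit 3900) (nat_lit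 152) (nat_lit 0) xc72 xc73) (XT.nd (nat_lit 3900) (nat_lit 76) (nat_lit 0) xc74 xc75)) (XT.nd (nat_lit 38922) (nat_lit 0) (nat_lit 0) (XT.nd (nat_lit 35022) (nat_lit 0) (nat_lit 228) xc76 xc77) (XT.nd (nat_lit 35100) (nat_lit 0) (nat_lit 0) xc78 xc79)))) (XT.nd (nat_lit 220428) (nat_lit 0) (nat_lit 0) (XT.nd (nat_lit 109746) (nat_lit 0) (nat_lit 0) (XT.nd (nat_lit 70434) (nat_lit 0) (nat_lit 0) (XT.nd (nat_lit 35178) (nat_lit 0) (nat_lit 0) xc80 xc81) (XT.nd (nat_lit 3900) (nat_lit 76) (nat_lit 0) xc82 xc83)) (XT.nd (nat_lit 39390) (nat_lit 0) (nat_lit 0) (XT.nd (nat_lit 35490) (nat_lit 0) (nat_lit 152) xc84 xc85) (XT.nd (nat_lit 35568) (nat_lit 0) (nat_lit 0) xc86 xc87))) (XT.nd (nat_lit 79404) (nat_lit 0) (nat_lit 0) (XT.nd (nat_lit 39624) (nat_lit 0) (nat_lit 0) (XT.nd (nat_lit 3900) (nat_lit 152) (nat_lit 0) xc88 xc89) (XT.nd (nat_lit 35802) (nat_lit 0) (nat_lit 76) xc90 xc91))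 (XT.nd (nat_lit 71994) (nat_lit 0) (nat_lit 0) (XT.nd (nat_lit 35958) (nat_lit 0) (nat_lit 0) xc92 xc93) (XT.nd (nat_lit 3900) (nat_lit 76) (nat_lit 0) xc94 xc95))))) (XT.nd (nat_lit 523458) (nat_lit 0) (nat_lit 152) (XT.nd (nat_lit 226434) (nat_lit 0) (nat_lit 0) (XT.nd (nat_lit 112710) (nat_lit 0) (nat_lit 0) (XT.nd (nat_lit 72462) (nat_lit 0) (nat_lit 0) (XT.nd (nat_lit 36192) (nat_lit 0) (nat_lit 0) xc96 xc97) (XT.nd (nat_lit 3900) (nat_lit 0) (nat_lit 0) xc98 xc99)) (XT.nd (nat_lit 73086) (nat_lit 0) (nat_lit 0) (XT.nd (nat_lit 36504) (nat_lit 0) (nat_lit 0) xc100 xc101) (XT.nd (nat_lit 36660) (nat_lit 0) (nat_lit 0) xc102 xc103))) (XT.nd (nat_lit 147732) (nat_lit 0) (nat_lit 0) (XT.nd (nat_lit 73632) (nat_lit 0) (nat_lit 0) (XT.nd (nat_lit 36738) (nat_lit 0) (nat_lit 0) xc104 xc105) (XT.nd (nat_lit 36972) (nat_lit 0) (nat_lit 0) xc106 xc107)) (XT.nd (nat_lit 74412) (nat_lit 0)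 (nat_lit 76) (XT.nd (nat_lit 37128) (nat_lit 0) (nat_lit 76) xc108 xc109) (XT.nd (nat_lit 37362) (nat_lit 0) (nat_lit 0) xc110 xc111)))) (XT.nd (nat_lit 338364) (nat_lit 0) (nat_lit 228) (XT.nd (nat_lit 151008) (nat_lit 0) (nat_lit 76) (XT.nd (nat_lit 75270) (nat_lit 0) (nat_lit 0) (XT.nd (nat_lit 37596) (nat_lit 0) (nat_lit 0) xc112 xc113) (XT.nd (nat_lit 37752) (nat_lit 0) (nat_lit 76) xc114 xc115)) (XT.nd (nat_lit 76128) (nat_lit 0) (nat_lit 0) (XT.nd (nat_lit 37986) (nat_lit 0) (nat_lit 0) xc116 xc117) (XT.nd (nat_lit 38220) (nat_lit 0) (nat_lit 76) xc118 xc119))) (XT.nd (nat_lit 225966) (nat_lit 0) (nat_lit 456) (XT.nd (nat_lit 112242) (nat_lit 0) (nat_lit 152) (XT.nd (nat_lit 38532) (nat_lit 0) (nat_lit 76) xc120 xc121) (XT.nd (nat_lit 39078) (nat_lit 0) (nat_lit 152) xc122 xc123)) (XT.nd (nat_lit 150618) (nat_lit 0) (nat_lit 456) (XT.nd (nat_lit 75036) (nat_lit 0) (nat_lit 152)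 xc124 xc125) (XT.nd (nat_lit 148902) (nat_lit 0) (nat_lit 608) xc126 xc127))))))) XT.nil))

set_option maxRecDepth 10000000 in
noncomputable def Te : XT := XT.nil

set_option maxRecDepth 10000000 in
noncomputable def Tz : ZL := (ZL.cons (nat_lit 76) (nat_lit 3) (nat_lit 89415399159932635897) (ZL.cons (nat_lit 152) (nat_lit 6) (nat_lit 173001672969307358530) (ZL.cons (nat_lit 228) (nat_lit 6) (nat_lit 167687980965519299798) (ZL.cons (nat_lit 304) (nat_lit 3) (nat_lit 83607989671506167304) (ZL.cons (nat_lit 380) (nat_lit 6) (nat_lit 161949193601428196370) (ZL.cons (nat_lit 456) (nat_lit 6) (nat_lit 157170105162382593364) (ZL.cons (nat_lit 532) (nat_lit 3) (nat_lit 78366533311512146131) (ZL.cons (nat_lit 608) (nat_lit 6) (nat_lit 152008689648213342118) (ZL.cons (nat_lit 684) (nat_lit 6) (nat_lit 147748066368996466234) (ZL.cons (nat_lit 760) (nat_lit 3) (nat_lit 73671700527387908532) (ZL.cons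 (nat_lit 836) (nat_lit 6) (nat_lit 143925948647422749786) (ZL.cons (nat_lit 912) (nat_lit 6) (nat_lit 143146593227442240276) (ZL.cons (nat_lit 988) (nat_lit 6) (nat_lit 139393396193902486856) (ZL.cons (nat_lit 1064) (nat_lit 3) (nat_lit 69509353044071313258) (ZL.cons (nat_lit 1140) (nat_lit 6) (nat_lit 136061568786550395298) (ZL.cons (nat_lit 1216) (nat_lit 6) (nat_lit 135339943397679553162) (ZL.cons (nat_lit 1292) (nat_lit 6) (nat_lit 132088505080850276076) (ZL.cons (nat_lit 1368) (nat_lit 3) (nat_lit 65870784898869647140) (ZL.cons (nat_lit 1444) (nat_lit 6) (nat_lit 129245123355036547696) (ZL.cons (nat_lit 1520) (nat_lit 6) (nat_lit 128576951698674656826) (ZL.cons (nat_lit 1596) (nat_lit 6) (nat_lit 126792948550752064442) (ZL.cons (nat_lit 1672) (nat_lit 6) (nat_lit 125827335808046739248) (ZL.cons (nat_lit 1748) (nat_lit 3) (nat_lit 62753049717397915087) (ZL.cons (nat_lit 1824) (nat_lit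 6) (nat_lit 124717449261749214560) (ZL.cons (nat_lit 1900) (nat_lit 6) (nat_lit 123476428105762931658) (ZL.cons (nat_lit 1976) (nat_lit 6) (nat_lit 122857750646168588260) (ZL.cons (nat_lit 2052) (nat_lit 6) (nat_lit 121510297286920811494) (ZL.cons (nat_lit 2128) (nat_lit 6) (nat_lit 120616211414045510388) (ZL.cons (nat_lit 2204) (nat_lit 3) (nat_lit 60159385163851038032) (ZL.cons (nat_lit 2280) (nat_lit 6) (nat_lit 119917292205927240270) (ZL.cons (nat_lit 2356) (nat_lit 6) (nat_lit 118768198542976978320) (ZL.cons (nat_lit 2432) (nat_lit 6) (nat_lit 118195349043352586288) (ZL.cons (nat_lit 2508) (nat_lit 3) (nat_lit 58559904887605864442) (ZL.cons (nat_lit 2584) (nat_lit 6) (nat_lit 117293363792249457920) (ZL.cons (nat_lit 2660) (nat_lit 6) (nat_lit 117815054311611757506) (ZL.cons (nat_lit 2736) (nat_lit 6) (nat_lit 118687972832672626450) (ZL.cons (nat_lit 2812) (nat_lit 6) (nat_lit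 117302760845578882240) (ZL.cons (nat_lit 2888) (nat_lit 6) (nat_lit 116474903555879529364) (ZL.cons (nat_lit 2964) (nat_lit 3) (nat_lit 58099747571299285828) (ZL.cons (nat_lit 3040) (nat_lit 6) (nat_lit 115126097966333798438) (ZL.cons (nat_lit 3116) (nat_lit 6) (nat_lit 115487090321772274838) (ZL.cons (nat_lit 3192) (nat_lit 6) (nat_lit 116211214246607381574) (ZL.cons (nat_lit 3268) (nat_lit 6) (nat_lit 115147238632764546438) (ZL.cons (nat_lit 3344) (nat_lit 6) (nat_lit 114616822429408627886) (ZL.cons (nat_lit 3420) (nat_lit 3) (nat_lit 56726811265353388533) (ZL.cons (nat_lit 3496) (nat_lit 6) (nat_lit 113641060869107524430) (ZL.cons (nat_lit 3572) (nat_lit 6) (nat_lit 114204486630018807980) (ZL.cons (nat_lit 3648) (nat_lit 6) (nat_lit 113437952102519407168) (ZL.cons (nat_lit 3724) (nat_lit 3) (nat_lit 56591472156222223162) (ZL.cons (nat_lit 3800) (nat_lit 6) (nat_lit 112266026519823937382)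 (ZL.cons (nat_lit 3876) (nat_lit 6) (nat_lit 112655898263697491896) (ZL.cons (nat_lit 3952) (nat_lit 6) (nat_lit 112164772149479048792) (ZL.cons (nat_lit 4028) (nat_lit 3) (nat_lit 55676919461111027703) (ZL.cons (nat_lit 4104) (nat_lit 6) (nat_lit 111556272327694862556) (ZL.cons (nat_lit 4180) (nat_lit 3) (nat_lit 55660077001775690148) (ZL.cons (nat_lit 4256) (nat_lit 6) (nat_lit 110899092520167941424) (ZL.cons (nat_lit 4332) (nat_lit 1) (nat_lit 18446744073709551617) ZL.nil)))))))))))))))))))))))))))))))))))))))))))))))))))))))))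

noncomputable def vl : XL := ⟨(nat_lit 0), (nat_lit 76), (nat_lit 355747224), (nat_lit 152), (nat_lit 159604478), (nat_lit 152), (nat_lit 159604478), (nat_lit 1), (nat_lit 4), (nat_lit 2), (nat_lit 5), (nat_lit 2), (nat_lit 4), (nat_lit 0), (nat_lit 0), (nat_lit 0)⟩

noncomputable def cp0 : Nat := (nat_lit 23974128859055715404496938370311766877773327198626005816604212767031303274646802281084892407003361513290253605539254808247200256986362213746657384133246591620628666774037374312529245727771140176877650146615478795884861071839427026019143843428875825308585956222307584649536844756121265771939655882713915319970229197624224835995156275593209502805453015443025411411435399271719739080378074008189136506297477047776583292391273996094430212982772944970037781357434742926397737099488075686091386744762041297004718075833471571419638669307939330232082082169891269351642847174379782913595197634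5398243704422785930041861200447038000207756273185488874469054332753443793934768660883162548051859029845690590196475081290715460709269733584320627533841035108105508657192834779349468994874487388310135626022529986841490929572954784101803722603964766211548445929688059740250812749968307350516547172799890957331465448437985246933157743302320618085110274898873980224627701213064559291110473320306537727824793820772964061839620152372793465878493210000486394097691170347361188922045911338625138873230633544693074682302896644574288590642412385845497040817303679955273300010632756692211930338560959220177394197816818707804743058519467866614259841726822491150173310214146342460780906667172247136125159832029718808504740793759226983840145586698321920)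

noncomputable def cp1 : Nat := (nat_lit 287342062074243362936920078837221778665272616638220005283051570160914210713224629506125964091121129737408269250797306228716304008432167494614593072147860105229283582625038314007419601770225740405025092095846656349346736424520615093761615426395352479084490255255230709003396627129526750587147621109222382615062793404423727529003782704694615802943784047405402661449689622668715159904338895819838359664807785091362204469592431649819612376743275052903781651206217366647511765817126591611768856890281722071067257055609655943050053583717266651120784135808220008578208769926872521262402649915622435779778980197424972997724654384945285596149822950331433084241728380275684611609535162413004195376350642177380175444225167989404857039553539065087552963211764065638572158995528255968516810303037410793130482833916900530187326344625553719513430906327922506954714502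478977132501018663279790302323402387479062206958565383467413706940782292418449400555894755511297206464926370597780238060934193672690889509423084634746769367847532166673732831806063477661997856937236384426016048899121540898290060071599265810908489967795915845586239842027036943403560921119112556183313469936775481997942525310522620715850628590948303178575949005004711555501573404411954667783172168811153310000795590712346037313005273994444554406250413405783745092562976768)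

noncomputable def rc0 : Nat := (nat_lit 287342062074243362936920078837221778665272616638220005283051570160914210713224629506125964091121129737408269250797306228716304008432167494614593072147860105229283582625038314007419601770225740405025092095846656349346736424520615093761615426395352479084490255255230709003396627129526750587147621109222382615062793404423727529003782704694615802943784047405402661449689622668715159904338895819838359664807785091362204469592431649819612376743275052903781651206217366647511765817126591611768856890281722071067257055609655943050053583717266651120784135808220008578208769926872521262402649915622435779778980197424972997724654384945285596149822950331433084241728380275684611609535162413004195376350642177380175444225167989404857039553539065087552963211764065638572158995528255968516810303037410793130482833916900530187326344625553719513430906327922506954714502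478977132501018663279790302323402387479062206958565383467413706940782292418449400555894755511297206464926370597780238060934193672690889509423084634746769367847532166673732831806063477661997856937236384426016048899121540898290060071599265810908489967795915845586239842027036943403560921119112556183313469936775481997942525310522620715850628590948303178575949005004711555501573404411954667783172168811153310000795590712346037313005273994444554406250413405783745092562976768)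

end Vale.Agent.Lib.P154.PChain.BT.S2
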