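import Vale.Agent.Lib.P154.PChain.BT.R2_0

set_option linter.all false

namespace Vale.Agent.Lib.P154.PChain.BT.S3

open Vale.Agent.Lib.P154.Chain

noncomputable def pc0 : PT := (PT.nd (nat_lit 3949374) (PT.nd (nat_lit 3836898) (PT.nd (nat_lit 3761940) (PT.nd (nat_lit 3724500) (PT.nd (nat_lit 3724422) (PT.nd (nat_lit 3686982) PT.nil (PT.lf (nat_lit 76) (nat_lit 3) (nat_lit 1) (nat_lit 1) (nat_lit 131) (nat_lit 98) (nat_lit 131))) (PT.lf (nat_lit 152) (nat_lit 6) (nat_lit 2) (nat_lit 3) (nat_lit 130) (nat_lit 99) (nat_lit 131))) (PT.nd (nat_lit 37362) (PT.lf (nat_lit 152) (nat_lit 6) (nat_lit 2) (nat_lit 1) (nat_lit 131) (nat_lit 99) (nat_lit 130)) (PT.lf (nat_lit 228) (nat_lit 6) (nat_lit 3) (nat_lit 3) (nat_lit 129) (nat_lit 100) (nat_lit 131)))) (PT.nd (nat_lit 37440) (PT.nd (nat_lit 78) (PT.lf (nat_lit 304) (nat_lit 3) (nat_lit 4) (nat_lit 1) (nat_lit 130) (nat_lit 100) (nat_lit 130))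 (PT.lf (nat_lit 228) (nat_lit 6) (nat_lit 3) (nat_lit 1) (nat_lit 131) (nat_lit 100) (nat_lit 129))) (PT.nd (nat_lit 78) (PT.lf (nat_lit 380) (nat_lit 6) (nat_lit 5) (nat_lit 3) (nat_lit 129) (nat_lit 101) (nat_lit 130)) (PT.nd (nat_lit 37362) (PT.lf (nat_lit 380) (nat_lit 6) (nat_lit 5) (nat_lit 1) (nat_lit 130) (nat_lit 101) (nat_lit 129)) (PT.lf (nat_lit 456) (nat_lit 6) (nat_lit 6) (nat_lit 3) (nat_lit 128) (nat_lit 102) (nat_lit 130)))))) (PT.nd (nat_lit 74880) (PT.nd (nat_lit 37440) (PT.nd (nat_lit 78) (PT.lf (nat_lit 532) (nat_lit 3) (nat_lit 7) (nat_lit 1) (nat_lit 129) (nat_lit 102) (nat_lit 129)) (PT.lf (nat_lit 456) (nat_lit 6) (nat_lit 6) (nat_lit 1) (nat_lit 130) (nat_lit 102) (nat_lit 128))) (PT.nd (nat_lit 78) (PT.lf (nat_lit 608) (nat_lit 6) (nat_lit 8) (nat_lit 3) (nat_lit 128) (nat_lit 103) (nat_lit 129)) (PT.lf (nat_lit 608) (nat_lit 6) (nat_lit 8) (nat_lit 1) (nat_lit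 129) (nat_lit 103) (nat_lit 128)))) (PT.nd (nat_lit 156) (PT.nd (nat_lit 78) (PT.lf (nat_lit 684) (nat_lit 6) (nat_lit 9) (nat_lit 3) (nat_lit 127) (nat_lit 104) (nat_lit 129)) (PT.lf (nat_lit 760) (nat_lit 3) (nat_lit 10) (nat_lit 1) (nat_lit 128) (nat_lit 104) (nat_lit 128))) (PT.nd (nat_lit 37284) (PT.lf (nat_lit 684) (nat_lit 6) (nat_lit 9) (nat_lit 1) (nat_lit 129) (nat_lit 104) (nat_lit 127)) (PT.nd (nat_lit 78) (PT.lf (nat_lit 836) (nat_lit 6) (nat_lit 11) (nat_lit 3) (nat_lit 126) (nat_lit 105) (nat_lit 129)) (PT.lf (nat_lit 912) (nat_lit 6) (nat_lit 12) (nat_lit 3) (nat_lit 127) (nat_lit 105) (nat_lit 128))))))) (PT.nd (nat_lit 112320) (PT.nd (nat_lit 37518) (PT.nd (nat_lit 37362) (PT.nd (nat_lit 78) (PT.lf (nat_lit 912) (nat_lit 6) (nat_lit 12) (nat_lit 1) (nat_lit 128) (nat_lit 105) (nat_lit 127)) (PT.lf (nat_lit 836) (nat_lit 6) (nat_lit 11) (nat_lit 1) (nat_lit 129) (nat_lit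 105) (nat_lit 126))) (PT.nd (nat_lit 78) (PT.lf (nat_lit 988) (nat_lit 6) (nat_lit 13) (nat_lit 3) (nat_lit 126) (nat_lit 106) (nat_lit 128)) (PT.lf (nat_lit 1064) (nat_lit 3) (nat_lit 14) (nat_lit 1) (nat_lit 127) (nat_lit 106) (nat_lit 127)))) (PT.nd (nat_lit 37362) (PT.nd (nat_lit 37284) (PT.lf (nat_lit 988) (nat_lit 6) (nat_lit 13) (nat_lit 1) (nat_lit 128) (nat_lit 106) (nat_lit 126)) (PT.lf (nat_lit 1140) (nat_lit 6) (nat_lit 15) (nat_lit 3) (nat_lit 125) (nat_lit 107) (nat_lit 128))) (PT.nd (nat_lit 78) (PT.lf (nat_lit 1216) (nat_lit 6) (nat_lit 16) (nat_lit 3) (nat_lit 126) (nat_lit 107) (nat_lit 127)) (PT.nd (nat_lit 78) (PT.lf (nat_lit 1216) (nat_lit 6) (nat_lit 16) (nat_lit 1) (nat_lit 127) (nat_lit 107) (nat_lit 126)) (PT.lf (nat_lit 1140) (nat_lit 6) (nat_lit 15) (nat_lit 1) (nat_lit 128) (nat_lit 107) (nat_lit 125)))))) (PT.nd (nat_lit 37518) (PT.nd (nat_lit 156) (PT.nd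 (nat_lit 78) (PT.lf (nat_lit 1292) (nat_lit 6) (nat_lit 17) (nat_lit 3) (nat_lit 125) (nat_lit 108) (nat_lit 127)) (PT.lf (nat_lit 1368) (nat_lit 3) (nat_lit 18) (nat_lit 1) (nat_lit 126) (nat_lit 108) (nat_lit 126))) (PT.nd (nat_lit 37284) (PT.lf (nat_lit 1292) (nat_lit 6) (nat_lit 17) (nat_lit 1) (nat_lit 127) (nat_lit 108) (nat_lit 125)) (PT.lf (nat_lit 1444) (nat_lit 6) (nat_lit 19) (nat_lit 3) (nat_lit 124) (nat_lit 109) (nat_lit 127)))) (PT.nd (nat_lit 156) (PT.nd (nat_lit 78) (PT.lf (nat_lit 1520) (nat_lit 6) (nat_lit 20) (nat_lit 3) (nat_lit 125) (nat_lit 109) (nat_lit 126)) (PT.lf (nat_lit 1520) (nat_lit 6) (nat_lit 20) (nat_lit 1) (nat_lit 126) (nat_lit 109) (nat_lit 125))) (PT.nd (nat_lit 37206) (PT.lf (nat_lit 1444) (nat_lit 6) (nat_lit 19) (nat_lit 1) (nat_lit 127) (nat_lit 109) (nat_lit 124)) (PT.nd (nat_lit 78) (PT.lf (nat_lit 1596) (nat_lit 6) (nat_lit 21) (nat_lit 3)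 (nat_lit 123) (nat_lit 110) (nat_lit 127)) (PT.lf (nat_lit 1672) (nat_lit 6) (nat_lit 22) (nat_lit 3) (nat_lit 124) (nat_lit 110) (nat_lit 126))))))))
noncomputable def pc1 : PT := (PT.nd (nat_lit 112554) (PT.nd (nat_lit 74802) (PT.nd (nat_lit 37362) (PT.nd (nat_lit 156) (PT.nd (nat_lit 78) (PT.lf (nat_lit 1748) (nat_lit 3) (nat_lit 23) (nat_lit 1) (nat_lit 125) (nat_lit 110) (nat_lit 125)) (PT.lf (nat_lit 1672) (nat_lit 6) (nat_lit 22) (nat_lit 1) (nat_lit 126) (nat_lit 110) (nat_lit 124))) (PT.nd (nat_lit 37128) (PT.lf (nat_lit 1596) (nat_lit 6) (nat_lit 21) (nat_lit 1) (nat_lit 127) (nat_lit 110) (nat_lit 123)) (PT.lf (nat_lit 1824) (nat_lit 6) (nat_lit 24) (nat_lit 3) (nat_lit 122) (nat_lit 111) (nat_lit 127)))) (PT.nd (nat_lit 156) (PT.nd (nat_lit 78) (PT.lf (nat_lit 1900) (nat_lit 6) (nat_lit 25) (nat_lit 3) (nat_lit 123) (nat_lit 111) (nat_lit 126)) (PT.lf (nat_lit 1976) (nat_lit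 6) (nat_lit 26) (nat_lit 3) (nat_lit 124) (nat_lit 111) (nat_lit 125))) (PT.nd (nat_lit 78) (PT.lf (nat_lit 1976) (nat_lit 6) (nat_lit 26) (nat_lit 1) (nat_lit 125) (nat_lit 111) (nat_lit 124)) (PT.nd (nat_lit 78) (PT.lf (nat_lit 1900) (nat_lit 6) (nat_lit 25) (nat_lit 1) (nat_lit 126) (nat_lit 111) (nat_lit 123)) (PT.lf (nat_lit 1824) (nat_lit 6) (nat_lit 24) (nat_lit 1) (nat_lit 127) (nat_lit 111) (nat_lit 122)))))) (PT.nd (nat_lit 312) (PT.nd (nat_lit 156) (PT.nd (nat_lit 78) (PT.lf (nat_lit 2052) (nat_lit 6) (nat_lit 27) (nat_lit 3) (nat_lit 122) (nat_lit 112) (nat_lit 126)) (PT.lf (nat_lit 2128) (nat_lit 6) (nat_lit 28) (nat_lit 3) (nat_lit 123) (nat_lit 112) (nat_lit 125))) (PT.nd (nat_lit 78) (PT.lf (nat_lit 2204) (nat_lit 3) (nat_lit 29) (nat_lit 1) (nat_lit 124) (nat_lit 112) (nat_lit 124)) (PT.lf (nat_lit 2128) (nat_lit 6) (nat_lit 28) (nat_lit 1) (nat_lit 125) (nat_lit 112)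 (nat_lit 123)))) (PT.nd (nat_lit 37206) (PT.nd (nat_lit 37128) (PT.lf (nat_lit 2052) (nat_lit 6) (nat_lit 27) (nat_lit 1) (nat_lit 126) (nat_lit 112) (nat_lit 122)) (PT.lf (nat_lit 2280) (nat_lit 6) (nat_lit 30) (nat_lit 3) (nat_lit 121) (nat_lit 113) (nat_lit 126))) (PT.nd (nat_lit 78) (PT.lf (nat_lit 2356) (nat_lit 6) (nat_lit 31) (nat_lit 3) (nat_lit 122) (nat_lit 113) (nat_lit 125)) (PT.nd (nat_lit 78) (PT.lf (nat_lit 2432) (nat_lit 6) (nat_lit 32) (nat_lit 3) (nat_lit 123) (nat_lit 113) (nat_lit 124)) (PT.lf (nat_lit 2432) (nat_lit 6) (nat_lit 32) (nat_lit 1) (nat_lit 124) (nat_lit 113) (nat_lit 123))))))) (PT.nd (nat_lit 74568) (PT.nd (nat_lit 37284) (PT.nd (nat_lit 37128) (PT.nd (nat_lit 78) (PT.lf (nat_lit 2356) (nat_lit 6) (nat_lit 31) (nat_lit 1) (nat_lit 125) (nat_lit 113) (nat_lit 122)) (PT.lf (nat_lit 2280) (nat_lit 6) (nat_lit 30) (nat_lit 1) (nat_lit 126) (nat_lit 113)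 (nat_lit 121))) (PT.nd (nat_lit 78) (PT.lf (nat_lit 2736) (nat_lit 6) (nat_lit 36) (nat_lit 3) (nat_lit 120) (nat_lit 114) (nat_lit 126)) (PT.lf (nat_lit 2812) (nat_lit 6) (nat_lit 37) (nat_lit 3) (nat_lit 121) (nat_lit 114) (nat_lit 125)))) (PT.nd (nat_lit 156) (PT.nd (nat_lit 78) (PT.lf (nat_lit 2888) (nat_lit 6) (nat_lit 38) (nat_lit 3) (nat_lit 122) (nat_lit 114) (nat_lit 124)) (PT.lf (nat_lit 2964) (nat_lit 3) (nat_lit 39) (nat_lit 1) (nat_lit 123) (nat_lit 114) (nat_lit 123))) (PT.nd (nat_lit 78) (PT.lf (nat_lit 2888) (nat_lit 6) (nat_lit 38) (nat_lit 1) (nat_lit 124) (nat_lit 114) (nat_lit 122)) (PT.nd (nat_lit 78) (PT.lf (nat_lit 2812) (nat_lit 6) (nat_lit 37) (nat_lit 1) (nat_lit 125) (nat_lit 114) (nat_lit 121)) (PT.lf (nat_lit 2736) (nat_lit 6) (nat_lit 36) (nat_lit 1) (nat_lit 126) (nat_lit 114) (nat_lit 120)))))) (PT.nd (nat_lit 390) (PT.nd (nat_lit 156) (PT.nd (nat_lit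 78) (PT.lf (nat_lit 2660) (nat_lit 6) (nat_lit 35) (nat_lit 3) (nat_lit 119) (nat_lit 115) (nat_lit 126)) (PT.lf (nat_lit 3192) (nat_lit 6) (nat_lit 42) (nat_lit 3) (nat_lit 120) (nat_lit 115) (nat_lit 125))) (PT.nd (nat_lit 78) (PT.lf (nat_lit 3268) (nat_lit 6) (nat_lit 43) (nat_lit 3) (nat_lit 121) (nat_lit 115) (nat_lit 124)) (PT.nd (nat_lit 78) (PT.lf (nat_lit 3344) (nat_lit 6) (nat_lit 44) (nat_lit 3) (nat_lit 122) (nat_lit 115) (nat_lit 123)) (PT.lf (nat_lit 3344) (nat_lit 6) (nat_lit 44) (nat_lit 1) (nat_lit 123) (nat_lit 115) (nat_lit 122))))) (PT.nd (nat_lit 156) (PT.nd (nat_lit 78) (PT.lf (nat_lit 3268) (nat_lit 6) (nat_lit 43) (nat_lit 1) (nat_lit 124) (nat_lit 115) (nat_lit 121)) (PT.lf (nat_lit 3192) (nat_lit 6) (nat_lit 42) (nat_lit 1) (nat_lit 125) (nat_lit 115) (nat_lit 120))) (PT.nd (nat_lit 36894) (PT.lf (nat_lit 2660) (nat_lit 6) (nat_lit 35) (nat_lit 1) (nat_lit 126)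 (nat_lit 115) (nat_lit 119)) (PT.nd (nat_lit 78) (PT.lf (nat_lit 2584) (nat_lit 6) (nat_lit 34) (nat_lit 3) (nat_lit 118) (nat_lit 116) (nat_lit 126)) (PT.lf (nat_lit 3116) (nat_lit 6) (nat_lit 41) (nat_lit 3) (nat_lit 119) (nat_lit 116) (nat_lit 125))))))))
noncomputable def pc2 : PT := (PT.nd (nat_lit 74802) (PT.nd (nat_lit 37440) (PT.nd (nat_lit 312) (PT.nd (nat_lit 156) (PT.nd (nat_lit 78) (PT.lf (nat_lit 3572) (nat_lit 6) (nat_lit 47) (nat_lit 3) (nat_lit 120) (nat_lit 116) (nat_lit 124)) (PT.lf (nat_lit 3648) (nat_lit 6) (nat_lit 48) (nat_lit 3) (nat_lit 121) (nat_lit 116) (nat_lit 123))) (PT.nd (nat_lit 78) (PT.lf (nat_lit 3724) (nat_lit 3) (nat_lit 49) (nat_lit 1) (nat_lit 122) (nat_lit 116) (nat_lit 122)) (PT.lf (nat_lit 3648) (nat_lit 6) (nat_lit 48) (nat_lit 1) (nat_lit 123) (nat_lit 116) (nat_lit 121)))) (PT.nd (nat_lit 156) (PT.nd (nat_lit 78) (PT.lf (nat_lit 3572) (nat_lit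 6) (nat_lit 47) (nat_lit 1) (nat_lit 124) (nat_lit 116) (nat_lit 120)) (PT.lf (nat_lit 3116) (nat_lit 6) (nat_lit 41) (nat_lit 1) (nat_lit 125) (nat_lit 116) (nat_lit 119))) (PT.nd (nat_lit 36816) (PT.lf (nat_lit 2584) (nat_lit 6) (nat_lit 34) (nat_lit 1) (nat_lit 126) (nat_lit 116) (nat_lit 118)) (PT.nd (nat_lit 78) (PT.lf (nat_lit 2508) (nat_lit 3) (nat_lit 33) (nat_lit 3) (nat_lit 117) (nat_lit 117) (nat_lit 126)) (PT.lf (nat_lit 3040) (nat_lit 6) (nat_lit 40) (nat_lit 3) (nat_lit 118) (nat_lit 117) (nat_lit 125)))))) (PT.nd (nat_lit 312) (PT.nd (nat_lit 156) (PT.nd (nat_lit 78) (PT.lf (nat_lit 3496) (nat_lit 6) (nat_lit 46) (nat_lit 3) (nat_lit 119) (nat_lit 117) (nat_lit 124)) (PT.lf (nat_lit 3876) (nat_lit 6) (nat_lit 51) (nat_lit 3) (nat_lit 120) (nat_lit 117) (nat_lit 123))) (PT.nd (nat_lit 78) (PT.lf (nat_lit 3952) (nat_lit 6) (nat_lit 52) (nat_lit 3) (nat_lit 121) (nat_lit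 117) (nat_lit 122)) (PT.lf (nat_lit 3952) (nat_lit 6) (nat_lit 52) (nat_lit 1) (nat_lit 122) (nat_lit 117) (nat_lit 121)))) (PT.nd (nat_lit 156) (PT.nd (nat_lit 78) (PT.lf (nat_lit 3876) (nat_lit 6) (nat_lit 51) (nat_lit 1) (nat_lit 123) (nat_lit 117) (nat_lit 120)) (PT.lf (nat_lit 3496) (nat_lit 6) (nat_lit 46) (nat_lit 1) (nat_lit 124) (nat_lit 117) (nat_lit 119))) (PT.nd (nat_lit 78) (PT.lf (nat_lit 3040) (nat_lit 6) (nat_lit 40) (nat_lit 1) (nat_lit 125) (nat_lit 117) (nat_lit 118)) (PT.nd (nat_lit 36738) (PT.lf (nat_lit 2508) (nat_lit 3) (nat_lit 33) (nat_lit 0) (nat_lit 126) (nat_lit 117) (nat_lit 117)) (PT.lf (nat_lit 2584) (nat_lit 6) (nat_lit 34) (nat_lit 5) (nat_lit 116) (nat_lit 118) (nat_lit 126))))))) (PT.nd (nat_lit 702) (PT.nd (nat_lit 312) (PT.nd (nat_lit 156) (PT.nd (nat_lit 78) (PT.lf (nat_lit 3040) (nat_lit 6) (nat_lit 40) (nat_lit 5) (nat_lit 117) (nat_lit 118) (nat_lit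 125)) (PT.lf (nat_lit 3420) (nat_lit 3) (nat_lit 45) (nat_lit 3) (nat_lit 118) (nat_lit 118) (nat_lit 124))) (PT.nd (nat_lit 78) (PT.lf (nat_lit 3800) (nat_lit 6) (nat_lit 50) (nat_lit 3) (nat_lit 119) (nat_lit 118) (nat_lit 123)) (PT.lf (nat_lit 4104) (nat_lit 6) (nat_lit 54) (nat_lit 3) (nat_lit 120) (nat_lit 118) (nat_lit 122)))) (PT.nd (nat_lit 156) (PT.nd (nat_lit 78) (PT.lf (nat_lit 4180) (nat_lit 3) (nat_lit 55) (nat_lit 1) (nat_lit 121) (nat_lit 118) (nat_lit 121)) (PT.lf (nat_lit 4104) (nat_lit 6) (nat_lit 54) (nat_lit 1) (nat_lit 122) (nat_lit 118) (nat_lit 120))) (PT.nd (nat_lit 78) (PT.lf (nat_lit 3800) (nat_lit 6) (nat_lit 50) (nat_lit 1) (nat_lit 123) (nat_lit 118) (nat_lit 119)) (PT.nd (nat_lit 78) (PT.lf (nat_lit 3420) (nat_lit 3) (nat_lit 45) (nat_lit 0) (nat_lit 124) (nat_lit 118) (nat_lit 118)) (PT.lf (nat_lit 3040) (nat_lit 6) (nat_lit 40) (nat_lit 0) (nat_lit 125)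 (nat_lit 118) (nat_lit 117)))))) (PT.nd (nat_lit 36972) (PT.nd (nat_lit 36738) (PT.nd (nat_lit 36660) (PT.lf (nat_lit 2584) (nat_lit 6) (nat_lit 34) (nat_lit 0) (nat_lit 126) (nat_lit 118) (nat_lit 116)) (PT.lf (nat_lit 2660) (nat_lit 6) (nat_lit 35) (nat_lit 5) (nat_lit 115) (nat_lit 119) (nat_lit 126))) (PT.nd (nat_lit 78) (PT.lf (nat_lit 3116) (nat_lit 6) (nat_lit 41) (nat_lit 5) (nat_lit 116) (nat_lit 119) (nat_lit 125)) (PT.nd (nat_lit 78) (PT.lf (nat_lit 3496) (nat_lit 6) (nat_lit 46) (nat_lit 5) (nat_lit 117) (nat_lit 119) (nat_lit 124)) (PT.lf (nat_lit 3800) (nat_lit 6) (nat_lit 50) (nat_lit 5) (nat_lit 118) (nat_lit 119) (nat_lit 123))))) (PT.nd (nat_lit 156) (PT.nd (nat_lit 78) (PT.lf (nat_lit 4028) (nat_lit 3) (nat_lit 53) (nat_lit 3) (nat_lit 119) (nat_lit 119) (nat_lit 122)) (PT.lf (nat_lit 4256) (nat_lit 6) (nat_lit 56) (nat_lit 3) (nat_lit 120) (nat_lit 119) (nat_lit 121)))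 (PT.nd (nat_lit 78) (PT.lf (nat_lit 4256) (nat_lit 6) (nat_lit 56) (nat_lit 1) (nat_lit 121) (nat_lit 119) (nat_lit 120)) (PT.nd (nat_lit 78) (PT.lf (nat_lit 4028) (nat_lit 3) (nat_lit 53) (nat_lit 0) (nat_lit 122) (nat_lit 119) (nat_lit 119)) (PT.lf (nat_lit 3800) (nat_lit 6) (nat_lit 50) (nat_lit 0) (nat_lit 123) (nat_lit 119) (nat_lit 118))))))))
noncomputable def pc3 : PT := (PT.nd (nat_lit 74334) (PT.nd (nat_lit 37206) (PT.nd (nat_lit 36816) (PT.nd (nat_lit 156) (PT.nd (nat_lit 78) (PT.lf (nat_lit 3496) (nat_lit 6) (nat_lit 46) (nat_lit 0) (nat_lit 124) (nat_lit 119) (nat_lit 117)) (PT.lf (nat_lit 3116) (nat_lit 6) (nat_lit 41) (nat_lit 0) (nat_lit 125) (nat_lit 119) (nat_lit 116))) (PT.nd (nat_lit 36582) (PT.lf (nat_lit 2660) (nat_lit 6) (nat_lit 35) (nat_lit 0) (nat_lit 126) (nat_lit 119) (nat_lit 115)) (PT.lf (nat_lit 2736) (nat_lit 6) (nat_lit 36) (nat_lit 5) (nat_lit 114) (nat_lit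 120) (nat_lit 126)))) (PT.nd (nat_lit 156) (PT.nd (nat_lit 78) (PT.lf (nat_lit 3192) (nat_lit 6) (nat_lit 42) (nat_lit 5) (nat_lit 115) (nat_lit 120) (nat_lit 125)) (PT.lf (nat_lit 3572) (nat_lit 6) (nat_lit 47) (nat_lit 5) (nat_lit 116) (nat_lit 120) (nat_lit 124))) (PT.nd (nat_lit 78) (PT.lf (nat_lit 3876) (nat_lit 6) (nat_lit 51) (nat_lit 5) (nat_lit 117) (nat_lit 120) (nat_lit 123)) (PT.nd (nat_lit 78) (PT.lf (nat_lit 4104) (nat_lit 6) (nat_lit 54) (nat_lit 5) (nat_lit 118) (nat_lit 120) (nat_lit 122)) (PT.lf (nat_lit 4256) (nat_lit 6) (nat_lit 56) (nat_lit 5) (nat_lit 119) (nat_lit 120) (nat_lit 121)))))) (PT.nd (nat_lit 312) (PT.nd (nat_lit 156) (PT.nd (nat_lit 78) (PT.lf (nat_lit 4332) (nat_lit 1) (nat_lit 57) (nat_lit 0) (nat_lit 120) (nat_lit 120) (nat_lit 120)) (PT.lf (nat_lit 4256) (nat_lit 6) (nat_lit 56) (nat_lit 0) (nat_lit 121) (nat_lit 120) (nat_lit 119))) (PT.nd (nat_lit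 78) (PT.lf (nat_lit 4104) (nat_lit 6) (nat_lit 54) (nat_lit 0) (nat_lit 122) (nat_lit 120) (nat_lit 118)) (PT.lf (nat_lit 3876) (nat_lit 6) (nat_lit 51) (nat_lit 0) (nat_lit 123) (nat_lit 120) (nat_lit 117)))) (PT.nd (nat_lit 156) (PT.nd (nat_lit 78) (PT.lf (nat_lit 3572) (nat_lit 6) (nat_lit 47) (nat_lit 0) (nat_lit 124) (nat_lit 120) (nat_lit 116)) (PT.lf (nat_lit 3192) (nat_lit 6) (nat_lit 42) (nat_lit 0) (nat_lit 125) (nat_lit 120) (nat_lit 115))) (PT.nd (nat_lit 36504) (PT.lf (nat_lit 2736) (nat_lit 6) (nat_lit 36) (nat_lit 0) (nat_lit 126) (nat_lit 120) (nat_lit 114)) (PT.nd (nat_lit 78) (PT.lf (nat_lit 2280) (nat_lit 6) (nat_lit 30) (nat_lit 5) (nat_lit 113) (nat_lit 121) (nat_lit 126)) (PT.lf (nat_lit 2812) (nat_lit 6) (nat_lit 37) (nat_lit 5) (nat_lit 114) (nat_lit 121) (nat_lit 125))))))) (PT.nd (nat_lit 702) (PT.nd (nat_lit 312) (PT.nd (nat_lit 156) (PT.nd (nat_lit 78) (PT.lf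 (nat_lit 3268) (nat_lit 6) (nat_lit 43) (nat_lit 5) (nat_lit 115) (nat_lit 121) (nat_lit 124)) (PT.lf (nat_lit 3648) (nat_lit 6) (nat_lit 48) (nat_lit 5) (nat_lit 116) (nat_lit 121) (nat_lit 123))) (PT.nd (nat_lit 78) (PT.lf (nat_lit 3952) (nat_lit 6) (nat_lit 52) (nat_lit 5) (nat_lit 117) (nat_lit 121) (nat_lit 122)) (PT.lf (nat_lit 4180) (nat_lit 3) (nat_lit 55) (nat_lit 4) (nat_lit 118) (nat_lit 121) (nat_lit 121)))) (PT.nd (nat_lit 156) (PT.nd (nat_lit 78) (PT.lf (nat_lit 4256) (nat_lit 6) (nat_lit 56) (nat_lit 4) (nat_lit 119) (nat_lit 121) (nat_lit 120)) (PT.lf (nat_lit 4256) (nat_lit 6) (nat_lit 56) (nat_lit 2) (nat_lit 120) (nat_lit 121) (nat_lit 119))) (PT.nd (nat_lit 78) (PT.lf (nat_lit 4180) (nat_lit 3) (nat_lit 55) (nat_lit 0) (nat_lit 121) (nat_lit 121) (nat_lit 118)) (PT.nd (nat_lit 78) (PT.lf (nat_lit 3952) (nat_lit 6) (nat_lit 52) (nat_lit 0) (nat_lit 122) (nat_lit 121)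 (nat_lit 117)) (PT.lf (nat_lit 3648) (nat_lit 6) (nat_lit 48) (nat_lit 0) (nat_lit 123) (nat_lit 121) (nat_lit 116)))))) (PT.nd (nat_lit 36660) (PT.nd (nat_lit 156) (PT.nd (nat_lit 78) (PT.lf (nat_lit 3268) (nat_lit 6) (nat_lit 43) (nat_lit 0) (nat_lit 124) (nat_lit 121) (nat_lit 115)) (PT.lf (nat_lit 2812) (nat_lit 6) (nat_lit 37) (nat_lit 0) (nat_lit 125) (nat_lit 121) (nat_lit 114))) (PT.nd (nat_lit 36348) (PT.lf (nat_lit 2280) (nat_lit 6) (nat_lit 30) (nat_lit 0) (nat_lit 126) (nat_lit 121) (nat_lit 113)) (PT.nd (nat_lit 78) (PT.lf (nat_lit 1824) (nat_lit 6) (nat_lit 24) (nat_lit 5) (nat_lit 111) (nat_lit 122) (nat_lit 127)) (PT.lf (nat_lit 2052) (nat_lit 6) (nat_lit 27) (nat_lit 5) (nat_lit 112) (nat_lit 122) (nat_lit 126))))) (PT.nd (nat_lit 156) (PT.nd (nat_lit 78) (PT.lf (nat_lit 2356) (nat_lit 6) (nat_lit 31) (nat_lit 5) (nat_lit 113) (nat_lit 122) (nat_lit 125)) (PT.lf (nat_lit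 2888) (nat_lit 6) (nat_lit 38) (nat_lit 5) (nat_lit 114) (nat_lit 122) (nat_lit 124))) (PT.nd (nat_lit 78) (PT.lf (nat_lit 3344) (nat_lit 6) (nat_lit 44) (nat_lit 5) (nat_lit 115) (nat_lit 122) (nat_lit 123)) (PT.nd (nat_lit 78) (PT.lf (nat_lit 3724) (nat_lit 3) (nat_lit 49) (nat_lit 4) (nat_lit 116) (nat_lit 122) (nat_lit 122)) (PT.lf (nat_lit 3952) (nat_lit 6) (nat_lit 52) (nat_lit 4) (nat_lit 117) (nat_lit 122) (nat_lit 121))))))))
noncomputable def pc4 : PT := (PT.nd (nat_lit 37518) (PT.nd (nat_lit 702) (PT.nd (nat_lit 312) (PT.nd (nat_lit 156) (PT.nd (nat_lit 78) (PT.lf (nat_lit 4104) (nat_lit 6) (nat_lit 54) (nat_lit 4) (nat_lit 118) (nat_lit 122) (nat_lit 120)) (PT.lf (nat_lit 4028) (nat_lit 3) (nat_lit 53) (nat_lit 2) (nat_lit 119) (nat_lit 122) (nat_lit 119))) (PT.nd (nat_lit 78) (PT.lf (nat_lit 4104) (nat_lit 6) (nat_lit 54) (nat_lit 2) (nat_lit 120) (nat_lit 122) (nat_lit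 118)) (PT.lf (nat_lit 3952) (nat_lit 6) (nat_lit 52) (nat_lit 2) (nat_lit 121) (nat_lit 122) (nat_lit 117)))) (PT.nd (nat_lit 156) (PT.nd (nat_lit 78) (PT.lf (nat_lit 3724) (nat_lit 3) (nat_lit 49) (nat_lit 0) (nat_lit 122) (nat_lit 122) (nat_lit 116)) (PT.lf (nat_lit 3344) (nat_lit 6) (nat_lit 44) (nat_lit 0) (nat_lit 123) (nat_lit 122) (nat_lit 115))) (PT.nd (nat_lit 78) (PT.lf (nat_lit 2888) (nat_lit 6) (nat_lit 38) (nat_lit 0) (nat_lit 124) (nat_lit 122) (nat_lit 114)) (PT.nd (nat_lit 78) (PT.lf (nat_lit 2356) (nat_lit 6) (nat_lit 31) (nat_lit 0) (nat_lit 125) (nat_lit 122) (nat_lit 113)) (PT.lf (nat_lit 2052) (nat_lit 6) (nat_lit 27) (nat_lit 0) (nat_lit 126) (nat_lit 122) (nat_lit 112)))))) (PT.nd (nat_lit 36426) (PT.nd (nat_lit 36270) (PT.nd (nat_lit 36192) (PT.lf (nat_lit 1824) (nat_lit 6) (nat_lit 24) (nat_lit 0) (nat_lit 127) (nat_lit 122) (nat_lit 111)) (PT.lf (nat_lit 1596)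 (nat_lit 6) (nat_lit 21) (nat_lit 5) (nat_lit 110) (nat_lit 123) (nat_lit 127))) (PT.nd (nat_lit 78) (PT.lf (nat_lit 1900) (nat_lit 6) (nat_lit 25) (nat_lit 5) (nat_lit 111) (nat_lit 123) (nat_lit 126)) (PT.lf (nat_lit 2128) (nat_lit 6) (nat_lit 28) (nat_lit 5) (nat_lit 112) (nat_lit 123) (nat_lit 125)))) (PT.nd (nat_lit 156) (PT.nd (nat_lit 78) (PT.lf (nat_lit 2432) (nat_lit 6) (nat_lit 32) (nat_lit 5) (nat_lit 113) (nat_lit 123) (nat_lit 124)) (PT.lf (nat_lit 2964) (nat_lit 3) (nat_lit 39) (nat_lit 4) (nat_lit 114) (nat_lit 123) (nat_lit 123))) (PT.nd (nat_lit 78) (PT.lf (nat_lit 3344) (nat_lit 6) (nat_lit 44) (nat_lit 4) (nat_lit 115) (nat_lit 123) (nat_lit 122)) (PT.nd (nat_lit 78) (PT.lf (nat_lit 3648) (nat_lit 6) (nat_lit 48) (nat_lit 4) (nat_lit 116) (nat_lit 123) (nat_lit 121)) (PT.lf (nat_lit 3876) (nat_lit 6) (nat_lit 51) (nat_lit 4) (nat_lit 117) (nat_lit 123) (nat_lit 120)))))))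 (PT.nd (nat_lit 702) (PT.nd (nat_lit 312) (PT.nd (nat_lit 156) (PT.nd (nat_lit 78) (PT.lf (nat_lit 3800) (nat_lit 6) (nat_lit 50) (nat_lit 4) (nat_lit 118) (nat_lit 123) (nat_lit 119)) (PT.lf (nat_lit 3800) (nat_lit 6) (nat_lit 50) (nat_lit 2) (nat_lit 119) (nat_lit 123) (nat_lit 118))) (PT.nd (nat_lit 78) (PT.lf (nat_lit 3876) (nat_lit 6) (nat_lit 51) (nat_lit 2) (nat_lit 120) (nat_lit 123) (nat_lit 117)) (PT.lf (nat_lit 3648) (nat_lit 6) (nat_lit 48) (nat_lit 2) (nat_lit 121) (nat_lit 123) (nat_lit 116)))) (PT.nd (nat_lit 156) (PT.nd (nat_lit 78) (PT.lf (nat_lit 3344) (nat_lit 6) (nat_lit 44) (nat_lit 2) (nat_lit 122) (nat_lit 123) (nat_lit 115)) (PT.lf (nat_lit 2964) (nat_lit 3) (nat_lit 39) (nat_lit 0) (nat_lit 123) (nat_lit 123) (nat_lit 114))) (PT.nd (nat_lit 78) (PT.lf (nat_lit 2432) (nat_lit 6) (nat_lit 32) (nat_lit 0) (nat_lit 124) (nat_lit 123) (nat_lit 113)) (PT.nd (nat_lit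 78) (PT.lf (nat_lit 2128) (nat_lit 6) (nat_lit 28) (nat_lit 0) (nat_lit 125) (nat_lit 123) (nat_lit 112)) (PT.lf (nat_lit 1900) (nat_lit 6) (nat_lit 25) (nat_lit 0) (nat_lit 126) (nat_lit 123) (nat_lit 111)))))) (PT.nd (nat_lit 36426) (PT.nd (nat_lit 36192) (PT.nd (nat_lit 36114) (PT.lf (nat_lit 1596) (nat_lit 6) (nat_lit 21) (nat_lit 0) (nat_lit 127) (nat_lit 123) (nat_lit 110)) (PT.lf (nat_lit 1444) (nat_lit 6) (nat_lit 19) (nat_lit 5) (nat_lit 109) (nat_lit 124) (nat_lit 127))) (PT.nd (nat_lit 78) (PT.lf (nat_lit 1672) (nat_lit 6) (nat_lit 22) (nat_lit 5) (nat_lit 110) (nat_lit 124) (nat_lit 126)) (PT.nd (nat_lit 78) (PT.lf (nat_lit 1976) (nat_lit 6) (nat_lit 26) (nat_lit 5) (nat_lit 111) (nat_lit 124) (nat_lit 125)) (PT.lf (nat_lit 2204) (nat_lit 3) (nat_lit 29) (nat_lit 4) (nat_lit 112) (nat_lit 124) (nat_lit 124))))) (PT.nd (nat_lit 156) (PT.nd (nat_lit 78) (PT.lf (nat_lit 2432)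 (nat_lit 6) (nat_lit 32) (nat_lit 4) (nat_lit 113) (nat_lit 124) (nat_lit 123)) (PT.lf (nat_lit 2888) (nat_lit 6) (nat_lit 38) (nat_lit 4) (nat_lit 114) (nat_lit 124) (nat_lit 122))) (PT.nd (nat_lit 78) (PT.lf (nat_lit 3268) (nat_lit 6) (nat_lit 43) (nat_lit 4) (nat_lit 115) (nat_lit 124) (nat_lit 121)) (PT.nd (nat_lit 78) (PT.lf (nat_lit 3572) (nat_lit 6) (nat_lit 47) (nat_lit 4) (nat_lit 116) (nat_lit 124) (nat_lit 120)) (PT.lf (nat_lit 3496) (nat_lit 6) (nat_lit 46) (nat_lit 4) (nat_lit 117) (nat_lit 124) (nat_lit 119))))))))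
noncomputable def pc5 : PT := (PT.nd (nat_lit 37284) (PT.nd (nat_lit 702) (PT.nd (nat_lit 312) (PT.nd (nat_lit 156) (PT.nd (nat_lit 78) (PT.lf (nat_lit 3420) (nat_lit 3) (nat_lit 45) (nat_lit 2) (nat_lit 118) (nat_lit 124) (nat_lit 118)) (PT.lf (nat_lit 3496) (nat_lit 6) (nat_lit 46) (nat_lit 2) (nat_lit 119) (nat_lit 124) (nat_lit 117))) (PT.nd (nat_lit 78) (PT.lf (nat_lit 3572) (nat_lit 6) (nat_lit 47) (nat_lit 2) (nat_lit 120) (nat_lit 124) (nat_lit 116)) (PT.lf (nat_lit 3268) (nat_lit 6) (nat_lit 43) (nat_lit 2) (nat_lit 121) (nat_lit 124) (nat_lit 115)))) (PT.nd (nat_lit 156) (PT.nd (nat_lit 78) (PT.lf (nat_lit 2888) (nat_lit 6) (nat_lit 38) (nat_lit 2) (nat_lit 122) (nat_lit 124) (nat_lit 114)) (PT.lf (nat_lit 2432) (nat_lit 6) (nat_lit 32) (nat_lit 2) (nat_lit 123) (nat_lit 124) (nat_lit 113))) (PT.nd (nat_lit 78) (PT.lf (nat_lit 2204) (nat_lit 3) (nat_lit 29) (nat_lit 0) (nat_lit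 124) (nat_lit 124) (nat_lit 112)) (PT.nd (nat_lit 78) (PT.lf (nat_lit 1976) (nat_lit 6) (nat_lit 26) (nat_lit 0) (nat_lit 125) (nat_lit 124) (nat_lit 111)) (PT.lf (nat_lit 1672) (nat_lit 6) (nat_lit 22) (nat_lit 0) (nat_lit 126) (nat_lit 124) (nat_lit 110)))))) (PT.nd (nat_lit 36192) (PT.nd (nat_lit 36036) (PT.nd (nat_lit 35958) (PT.lf (nat_lit 1444) (nat_lit 6) (nat_lit 19) (nat_lit 0) (nat_lit 127) (nat_lit 124) (nat_lit 109)) (PT.lf (nat_lit 1140) (nat_lit 6) (nat_lit 15) (nat_lit 5) (nat_lit 107) (nat_lit 125) (nat_lit 128))) (PT.nd (nat_lit 78) (PT.lf (nat_lit 1292) (nat_lit 6) (nat_lit 17) (nat_lit 5) (nat_lit 108) (nat_lit 125) (nat_lit 127)) (PT.lf (nat_lit 1520) (nat_lit 6) (nat_lit 20) (nat_lit 5) (nat_lit 109) (nat_lit 125) (nat_lit 126)))) (PT.nd (nat_lit 156) (PT.nd (nat_lit 78) (PT.lf (nat_lit 1748) (nat_lit 3) (nat_lit 23) (nat_lit 4) (nat_lit 110) (nat_lit 125) (nat_lit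 125)) (PT.lf (nat_lit 1976) (nat_lit 6) (nat_lit 26) (nat_lit 4) (nat_lit 111) (nat_lit 125) (nat_lit 124))) (PT.nd (nat_lit 78) (PT.lf (nat_lit 2128) (nat_lit 6) (nat_lit 28) (nat_lit 4) (nat_lit 112) (nat_lit 125) (nat_lit 123)) (PT.nd (nat_lit 78) (PT.lf (nat_lit 2356) (nat_lit 6) (nat_lit 31) (nat_lit 4) (nat_lit 113) (nat_lit 125) (nat_lit 122)) (PT.lf (nat_lit 2812) (nat_lit 6) (nat_lit 37) (nat_lit 4) (nat_lit 114) (nat_lit 125) (nat_lit 121))))))) (PT.nd (nat_lit 702) (PT.nd (nat_lit 312) (PT.nd (nat_lit 156) (PT.nd (nat_lit 78) (PT.lf (nat_lit 3192) (nat_lit 6) (nat_lit 42) (nat_lit 4) (nat_lit 115) (nat_lit 125) (nat_lit 120)) (PT.lf (nat_lit 3116) (nat_lit 6) (nat_lit 41) (nat_lit 4) (nat_lit 116) (nat_lit 125) (nat_lit 119))) (PT.nd (nat_lit 78) (PT.lf (nat_lit 3040) (nat_lit 6) (nat_lit 40) (nat_lit 4) (nat_lit 117) (nat_lit 125) (nat_lit 118)) (PT.lf (nat_lit 3040) (nat_lit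 6) (nat_lit 40) (nat_lit 2) (nat_lit 118) (nat_lit 125) (nat_lit 117)))) (PT.nd (nat_lit 156) (PT.nd (nat_lit 78) (PT.lf (nat_lit 3116) (nat_lit 6) (nat_lit 41) (nat_lit 2) (nat_lit 119) (nat_lit 125) (nat_lit 116)) (PT.lf (nat_lit 3192) (nat_lit 6) (nat_lit 42) (nat_lit 2) (nat_lit 120) (nat_lit 125) (nat_lit 115))) (PT.nd (nat_lit 78) (PT.lf (nat_lit 2812) (nat_lit 6) (nat_lit 37) (nat_lit 2) (nat_lit 121) (nat_lit 125) (nat_lit 114)) (PT.nd (nat_lit 78) (PT.lf (nat_lit 2356) (nat_lit 6) (nat_lit 31) (nat_lit 2) (nat_lit 122) (nat_lit 125) (nat_lit 113)) (PT.lf (nat_lit 2128) (nat_lit 6) (nat_lit 28) (nat_lit 2) (nat_lit 123) (nat_lit 125) (nat_lit 112)))))) (PT.nd (nat_lit 36036) (PT.nd (nat_lit 156) (PT.nd (nat_lit 78) (PT.lf (nat_lit 1976) (nat_lit 6) (nat_lit 26) (nat_lit 2) (nat_lit 124) (nat_lit 125) (nat_lit 111)) (PT.lf (nat_lit 1748) (nat_lit 3) (nat_lit 23) (nat_lit 0) (nat_lit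 125) (nat_lit 125) (nat_lit 110))) (PT.nd (nat_lit 78) (PT.lf (nat_lit 1520) (nat_lit 6) (nat_lit 20) (nat_lit 0) (nat_lit 126) (nat_lit 125) (nat_lit 109)) (PT.nd (nat_lit 78) (PT.lf (nat_lit 1292) (nat_lit 6) (nat_lit 17) (nat_lit 0) (nat_lit 127) (nat_lit 125) (nat_lit 108)) (PT.lf (nat_lit 1140) (nat_lit 6) (nat_lit 15) (nat_lit 0) (nat_lit 128) (nat_lit 125) (nat_lit 107))))) (PT.nd (nat_lit 156) (PT.nd (nat_lit 78) (PT.lf (nat_lit 836) (nat_lit 6) (nat_lit 11) (nat_lit 5) (nat_lit 105) (nat_lit 126) (nat_lit 129)) (PT.lf (nat_lit 988) (nat_lit 6) (nat_lit 13) (nat_lit 5) (nat_lit 106) (nat_lit 126) (nat_lit 128))) (PT.nd (nat_lit 78) (PT.lf (nat_lit 1216) (nat_lit 6) (nat_lit 16) (nat_lit 5) (nat_lit 107) (nat_lit 126) (nat_lit 127)) (PT.nd (nat_lit 78) (PT.lf (nat_lit 1368) (nat_lit 3) (nat_lit 18) (nat_lit 4) (nat_lit 108) (nat_lit 126) (nat_lit 126)) (PT.lf (nat_lit 1520) (nat_lit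 6) (nat_lit 20) (nat_lit 4) (nat_lit 109) (nat_lit 126) (nat_lit 125))))))))
noncomputable def pc6 : PT := (PT.nd (nat_lit 1404) (PT.nd (nat_lit 702) (PT.nd (nat_lit 312) (PT.nd (nat_lit 156) (PT.nd (nat_lit 78) (PT.lf (nat_lit 1672) (nat_lit 6) (nat_lit 22) (nat_lit 4) (nat_lit 110) (nat_lit 126) (nat_lit 124)) (PT.lf (nat_lit 1900) (nat_lit 6) (nat_lit 25) (nat_lit 4) (nat_lit 111) (nat_lit 126) (nat_lit 123))) (PT.nd (nat_lit 78) (PT.lf (nat_lit 2052) (nat_lit 6) (nat_lit 27) (nat_lit 4) (nat_lit 112) (nat_lit 126) (nat_lit 122)) (PT.lf (nat_lit 2280) (nat_lit 6) (nat_lit 30) (nat_lit 4) (nat_lit 113) (nat_lit 126) (nat_lit 121)))) (PT.nd (nat_lit 156) (PT.nd (nat_lit 78) (PT.lf (nat_lit 2736) (nat_lit 6) (nat_lit 36) (nat_lit 4) (nat_lit 114) (nat_lit 126) (nat_lit 120)) (PT.lf (nat_lit 2660) (nat_lit 6) (nat_lit 35) (nat_lit 4) (nat_lit 115) (nat_lit 126) (nat_lit 119))) (PT.nd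 (nat_lit 78) (PT.lf (nat_lit 2584) (nat_lit 6) (nat_lit 34) (nat_lit 4) (nat_lit 116) (nat_lit 126) (nat_lit 118)) (PT.nd (nat_lit 78) (PT.lf (nat_lit 2508) (nat_lit 3) (nat_lit 33) (nat_lit 2) (nat_lit 117) (nat_lit 126) (nat_lit 117)) (PT.lf (nat_lit 2584) (nat_lit 6) (nat_lit 34) (nat_lit 2) (nat_lit 118) (nat_lit 126) (nat_lit 116)))))) (PT.nd (nat_lit 312) (PT.nd (nat_lit 156) (PT.nd (nat_lit 78) (PT.lf (nat_lit 2660) (nat_lit 6) (nat_lit 35) (nat_lit 2) (nat_lit 119) (nat_lit 126) (nat_lit 115)) (PT.lf (nat_lit 2736) (nat_lit 6) (nat_lit 36) (nat_lit 2) (nat_lit 120) (nat_lit 126) (nat_lit 114))) (PT.nd (nat_lit 78) (PT.lf (nat_lit 2280) (nat_lit 6) (nat_lit 30) (nat_lit 2) (nat_lit 121) (nat_lit 126) (nat_lit 113)) (PT.lf (nat_lit 2052) (nat_lit 6) (nat_lit 27) (nat_lit 2) (nat_lit 122) (nat_lit 126) (nat_lit 112)))) (PT.nd (nat_lit 156) (PT.nd (nat_lit 78) (PT.lf (nat_lit 1900)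 (nat_lit 6) (nat_lit 25) (nat_lit 2) (nat_lit 123) (nat_lit 126) (nat_lit 111)) (PT.lf (nat_lit 1672) (nat_lit 6) (nat_lit 22) (nat_lit 2) (nat_lit 124) (nat_lit 126) (nat_lit 110))) (PT.nd (nat_lit 78) (PT.lf (nat_lit 1520) (nat_lit 6) (nat_lit 20) (nat_lit 2) (nat_lit 125) (nat_lit 126) (nat_lit 109)) (PT.nd (nat_lit 78) (PT.lf (nat_lit 1368) (nat_lit 3) (nat_lit 18) (nat_lit 0) (nat_lit 126) (nat_lit 126) (nat_lit 108)) (PT.lf (nat_lit 1216) (nat_lit 6) (nat_lit 16) (nat_lit 0) (nat_lit 127) (nat_lit 126) (nat_lit 107))))))) (PT.nd (nat_lit 36192) (PT.nd (nat_lit 35802) (PT.nd (nat_lit 35646) (PT.nd (nat_lit 78) (PT.lf (nat_lit 988) (nat_lit 6) (nat_lit 13) (nat_lit 0) (nat_lit 128) (nat_lit 126) (nat_lit 106)) (PT.lf (nat_lit 836) (nat_lit 6) (nat_lit 11) (nat_lit 0) (nat_lit 129) (nat_lit 126) (nat_lit 105))) (PT.nd (nat_lit 78) (PT.lf (nat_lit 684) (nat_lit 6) (nat_lit 9) (nat_lit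 5) (nat_lit 104) (nat_lit 127) (nat_lit 129)) (PT.lf (nat_lit 912) (nat_lit 6) (nat_lit 12) (nat_lit 5) (nat_lit 105) (nat_lit 127) (nat_lit 128)))) (PT.nd (nat_lit 156) (PT.nd (nat_lit 78) (PT.lf (nat_lit 1064) (nat_lit 3) (nat_lit 14) (nat_lit 4) (nat_lit 106) (nat_lit 127) (nat_lit 127)) (PT.lf (nat_lit 1216) (nat_lit 6) (nat_lit 16) (nat_lit 4) (nat_lit 107) (nat_lit 127) (nat_lit 126))) (PT.nd (nat_lit 78) (PT.lf (nat_lit 1292) (nat_lit 6) (nat_lit 17) (nat_lit 4) (nat_lit 108) (nat_lit 127) (nat_lit 125)) (PT.nd (nat_lit 78) (PT.lf (nat_lit 1444) (nat_lit 6) (nat_lit 19) (nat_lit 4) (nat_lit 109) (nat_lit 127) (nat_lit 124)) (PT.lf (nat_lit 1596) (nat_lit 6) (nat_lit 21) (nat_lit 4) (nat_lit 110) (nat_lit 127) (nat_lit 123)))))) (PT.nd (nat_lit 1170) (PT.nd (nat_lit 936) (PT.nd (nat_lit 858) (PT.lf (nat_lit 1824) (nat_lit 6) (nat_lit 24) (nat_lit 4) (nat_lit 111) (nat_lit 127)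 (nat_lit 122)) (PT.lf (nat_lit 1824) (nat_lit 6) (nat_lit 24) (nat_lit 2) (nat_lit 122) (nat_lit 127) (nat_lit 111))) (PT.nd (nat_lit 78) (PT.lf (nat_lit 1596) (nat_lit 6) (nat_lit 21) (nat_lit 2) (nat_lit 123) (nat_lit 127) (nat_lit 110)) (PT.nd (nat_lit 78) (PT.lf (nat_lit 1444) (nat_lit 6) (nat_lit 19) (nat_lit 2) (nat_lit 124) (nat_lit 127) (nat_lit 109)) (PT.lf (nat_lit 1292) (nat_lit 6) (nat_lit 17) (nat_lit 2) (nat_lit 125) (nat_lit 127) (nat_lit 108))))) (PT.nd (nat_lit 156) (PT.nd (nat_lit 78) (PT.lf (nat_lit 1216) (nat_lit 6) (nat_lit 16) (nat_lit 2) (nat_lit 126) (nat_lit 127) (nat_lit 107)) (PT.lf (nat_lit 1064) (nat_lit 3) (nat_lit 14) (nat_lit 0) (nat_lit 127) (nat_lit 127) (nat_lit 106))) (PT.nd (nat_lit 78) (PT.lf (nat_lit 912) (nat_lit 6) (nat_lit 12) (nat_lit 0) (nat_lit 128) (nat_lit 127) (nat_lit 105)) (PT.nd (nat_lit 35412) (PT.lf (nat_lit 684) (nat_lit 6) (nat_lit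 9) (nat_lit 0) (nat_lit 129) (nat_lit 127) (nat_lit 104)) (PT.lf (nat_lit 456) (nat_lit 6) (nat_lit 6) (nat_lit 5) (nat_lit 102) (nat_lit 128) (nat_lit 130))))))))
noncomputable def pc7 : PT := (PT.nd (nat_lit 39390) (PT.nd (nat_lit 2028) (PT.nd (nat_lit 312) (PT.nd (nat_lit 156) (PT.nd (nat_lit 78) (PT.lf (nat_lit 608) (nat_lit 6) (nat_lit 8) (nat_lit 5) (nat_lit 103) (nat_lit 128) (nat_lit 129)) (PT.lf (nat_lit 760) (nat_lit 3) (nat_lit 10) (nat_lit 4) (nat_lit 104) (nat_lit 128) (nat_lit 128))) (PT.nd (nat_lit 78) (PT.lf (nat_lit 912) (nat_lit 6) (nat_lit 12) (nat_lit 4) (nat_lit 105) (nat_lit 128) (nat_lit 127)) (PT.lf (nat_lit 988) (nat_lit 6) (nat_lit 13) (nat_lit 4) (nat_lit 106) (nat_lit 128) (nat_lit 126)))) (PT.nd (nat_lit 1482) (PT.nd (nat_lit 1404) (PT.lf (nat_lit 1140) (nat_lit 6) (nat_lit 15) (nat_lit 4) (nat_lit 107) (nat_lit 128) (nat_lit 125)) (PT.lf (nat_lit 1140) (nat_lit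 6) (nat_lit 15) (nat_lit 2) (nat_lit 125) (nat_lit 128) (nat_lit 107))) (PT.nd (nat_lit 78) (PT.lf (nat_lit 988) (nat_lit 6) (nat_lit 13) (nat_lit 2) (nat_lit 126) (nat_lit 128) (nat_lit 106)) (PT.nd (nat_lit 78) (PT.lf (nat_lit 912) (nat_lit 6) (nat_lit 12) (nat_lit 2) (nat_lit 127) (nat_lit 128) (nat_lit 105)) (PT.lf (nat_lit 760) (nat_lit 3) (nat_lit 10) (nat_lit 0) (nat_lit 128) (nat_lit 128) (nat_lit 104)))))) (PT.nd (nat_lit 35412) (PT.nd (nat_lit 35256) (PT.nd (nat_lit 78) (PT.lf (nat_lit 608) (nat_lit 6) (nat_lit 8) (nat_lit 0) (nat_lit 129) (nat_lit 128) (nat_lit 103)) (PT.lf (nat_lit 456) (nat_lit 6) (nat_lit 6) (nat_lit 0) (nat_lit 130) (nat_lit 128) (nat_lit 102))) (PT.nd (nat_lit 78) (PT.lf (nat_lit 228) (nat_lit 6) (nat_lit 3) (nat_lit 5) (nat_lit 100) (nat_lit 129) (nat_lit 131)) (PT.lf (nat_lit 380) (nat_lit 6) (nat_lit 5) (nat_lit 5) (nat_lit 101) (nat_lit 129) (nat_lit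 130)))) (PT.nd (nat_lit 156) (PT.nd (nat_lit 78) (PT.lf (nat_lit 532) (nat_lit 3) (nat_lit 7) (nat_lit 4) (nat_lit 102) (nat_lit 129) (nat_lit 129)) (PT.lf (nat_lit 608) (nat_lit 6) (nat_lit 8) (nat_lit 4) (nat_lit 103) (nat_lit 129) (nat_lit 128))) (PT.nd (nat_lit 78) (PT.lf (nat_lit 684) (nat_lit 6) (nat_lit 9) (nat_lit 4) (nat_lit 104) (nat_lit 129) (nat_lit 127)) (PT.nd (nat_lit 1638) (PT.lf (nat_lit 836) (nat_lit 6) (nat_lit 11) (nat_lit 4) (nat_lit 105) (nat_lit 129) (nat_lit 126)) (PT.lf (nat_lit 836) (nat_lit 6) (nat_lit 11) (nat_lit 2) (nat_lit 126) (nat_lit 129) (nat_lit 105))))))) (PT.nd (nat_lit 37596) (PT.nd (nat_lit 312) (PT.nd (nat_lit 156) (PT.nd (nat_lit 78) (PT.lf (nat_lit 684) (nat_lit 6) (nat_lit 9) (nat_lit 2) (nat_lit 127) (nat_lit 129) (nat_lit 104)) (PT.lf (nat_lit 608) (nat_lit 6) (nat_lit 8) (nat_lit 2) (nat_lit 128) (nat_lit 129) (nat_lit 103))) (PT.nd (nat_lit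 78) (PT.lf (nat_lit 532) (nat_lit 3) (nat_lit 7) (nat_lit 0) (nat_lit 129) (nat_lit 129) (nat_lit 102)) (PT.lf (nat_lit 380) (nat_lit 6) (nat_lit 5) (nat_lit 0) (nat_lit 130) (nat_lit 129) (nat_lit 101)))) (PT.nd (nat_lit 35100) (PT.nd (nat_lit 35022) (PT.lf (nat_lit 228) (nat_lit 6) (nat_lit 3) (nat_lit 0) (nat_lit 131) (nat_lit 129) (nat_lit 100)) (PT.lf (nat_lit 152) (nat_lit 6) (nat_lit 2) (nat_lit 5) (nat_lit 99) (nat_lit 130) (nat_lit 131))) (PT.nd (nat_lit 78) (PT.lf (nat_lit 304) (nat_lit 3) (nat_lit 4) (nat_lit 4) (nat_lit 100) (nat_lit 130) (nat_lit 130)) (PT.nd (nat_lit 78) (PT.lf (nat_lit 380) (nat_lit 6) (nat_lit 5) (nat_lit 4) (nat_lit 101) (nat_lit 130) (nat_lit 129)) (PT.lf (nat_lit 456) (nat_lit 6) (nat_lit 6) (nat_lit 4) (nat_lit 102) (nat_lit 130) (nat_lit 128)))))) (PT.nd (nat_lit 35256) (PT.nd (nat_lit 156) (PT.nd (nat_lit 78) (PT.lf (nat_lit 456) (nat_lit 6) (nat_lit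 6) (nat_lit 2) (nat_lit 128) (nat_lit 130) (nat_lit 102)) (PT.lf (nat_lit 380) (nat_lit 6) (nat_lit 5) (nat_lit 2) (nat_lit 129) (nat_lit 130) (nat_lit 101))) (PT.nd (nat_lit 78) (PT.lf (nat_lit 304) (nat_lit 3) (nat_lit 4) (nat_lit 0) (nat_lit 130) (nat_lit 130) (nat_lit 100)) (PT.nd (nat_lit 34944) (PT.lf (nat_lit 152) (nat_lit 6) (nat_lit 2) (nat_lit 0) (nat_lit 131) (nat_lit 130) (nat_lit 99)) (PT.lf (nat_lit 76) (nat_lit 3) (nat_lit 1) (nat_lit 4) (nat_lit 98) (nat_lit 131) (nat_lit 131))))) (PT.nd (nat_lit 2340) (PT.nd (nat_lit 78) (PT.lf (nat_lit 152) (nat_lit 6) (nat_lit 2) (nat_lit 4) (nat_lit 99) (nat_lit 131) (nat_lit 130)) (PT.lf (nat_lit 228) (nat_lit 6) (nat_lit 3) (nat_lit 4) (nat_lit 100) (nat_lit 131) (nat_lit 129))) (PT.nd (nat_lit 78) (PT.lf (nat_lit 228) (nat_lit 6) (nat_lit 3) (nat_lit 2) (nat_lit 129) (nat_lit 131) (nat_lit 100)) (PT.nd (nat_lit 78) (PT.lf (nat_lit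 152) (nat_lit 6) (nat_lit 2) (nat_lit 2) (nat_lit 130) (nat_lit 131) (nat_lit 99)) (PT.lf (nat_lit 76) (nat_lit 3) (nat_lit 1) (nat_lit 0) (nat_lit 131) (nat_lit 131) (nat_lit 98))))))))
noncomputable def xc0 : XT := (XT.nd (nat_lit 112632) (nat_lit 0) (nat_lit 0) (XT.nd (nat_lit 74958) (nat_lit 0) (nat_lit 0) (XT.nd (nat_lit 37518) (nat_lit 0) (nat_lit 0) (XT.nd (nat_lit 37362) (nat_lit 0) (nat_lit 0) (XT.nd (nat_lit 78) (nat_lit 0) (nat_lit 0) (XT.lf (nat_lit 0) (nat_lit 475054505477) (nat_lit 76) (nat_lit 15468298298) (nat_lit 76) (nat_lit 15468298298) (nat_lit 1) (nat_lit 4) (nat_lit 2) (nat_lit 5) (nat_lit 2) (nat_lit 4) (nat_lit 326) (nat_lit 197) (nat_lit 197)) (XT.lf (nat_lit 0) (nat_lit 1027866542063) (nat_lit 76) (nat_lit 32547740155) (nat_lit 76) (nat_lit 32477441057) (nat_lit 1) (nat_lit 4) (nat_lit 2) (nat_lit 5) (nat_lit 2) (nat_lit 4) (nat_lit 327) (nat_lit 197) (nat_lit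 196))) (XT.nd (nat_lit 78) (nat_lit 0) (nat_lit 0) (XT.lf (nat_lit 0) (nat_lit 405619126896) (nat_lit 76) (nat_lit 14116676466) (nat_lit 76) (nat_lit 14116676466) (nat_lit 1) (nat_lit 4) (nat_lit 2) (nat_lit 5) (nat_lit 2) (nat_lit 4) (nat_lit 324) (nat_lit 198) (nat_lit 198)) (XT.lf (nat_lit 0) (nat_lit 878026029145) (nat_lit 76) (nat_lit 29559134264) (nat_lit 76) (nat_lit 29483211238) (nat_lit 1) (nat_lit 4) (nat_lit 2) (nat_lit 5) (nat_lit 2) (nat_lit 4) (nat_lit 325) (nat_lit 198) (nat_lit 197)))) (XT.nd (nat_lit 37206) (nat_lit 0) (nat_lit 0) (XT.nd (nat_lit 78) (nat_lit 0) (nat_lit 0) (XT.lf (nat_lit 0) (nat_lit 950064737279) (nat_lit 76) (nat_lit 31032465474) (nat_lit 76) (nat_lit 30886243350) (nat_lit 1) (nat_lit 4) (nat_lit 2) (nat_lit 5) (nat_lit 2) (nat_lit 4) (nat_lit 326) (nat_lit 198) (nat_lit 196)) (XT.lf (nat_lit 0) (nat_lit 1027781274241) (nat_lit 76) (nat_lit 32662077414)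 (nat_lit 76) (nat_lit 32450763533) (nat_lit 1) (nat_lit 4) (nat_lit 2) (nat_lit 5) (nat_lit 2) (nat_lit 4) (nat_lit 327) (nat_lit 198) (nat_lit 195))) (XT.nd (nat_lit 78) (nat_lit 0) (nat_lit 0) (XT.lf (nat_lit 0) (nat_lit 345956397942) (nat_lit 76) (nat_lit 13026286907) (nat_lit 76) (nat_lit 13026286907) (nat_lit 1) (nat_lit 4) (nat_lit 2) (nat_lit 5) (nat_lit 2) (nat_lit 4) (nat_lit 322) (nat_lit 199) (nat_lit 199)) (XT.nd (nat_lit 78) (nat_lit 0) (nat_lit 0) (XT.lf (nat_lit 0) (nat_lit 749305631810) (nat_lit 76) (nat_lit 27129261865) (nat_lit 76) (nat_lit 27047264997) (nat_lit 1) (nat_lit 4) (nat_lit 2) (nat_lit 5) (nat_lit 2) (nat_lit 4) (nat_lit 323) (nat_lit 199) (nat_lit 198)) (XT.lf (nat_lit 0) (nat_lit 811190438221) (nat_lit 76) (nat_lit 28336891320) (nat_lit 76) (nat_lit 28178971426) (nat_lit 1) (nat_lit 4) (nat_lit 2) (nat_lit 5) (nat_lit 2) (nat_lit 4) (nat_lit 324) (nat_lit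 199) (nat_lit 197)))))) (XT.nd (nat_lit 37284) (nat_lit 0) (nat_lit 0) (XT.nd (nat_lit 156) (nat_lit 0) (nat_lit 0) (XT.nd (nat_lit 78) (nat_lit 0) (nat_lit 0) (XT.lf (nat_lit 0) (nat_lit 877933939897) (nat_lit 76) (nat_lit 29682618504) (nat_lit 76) (nat_lit 29454399512) (nat_lit 1) (nat_lit 4) (nat_lit 2) (nat_lit 5) (nat_lit 2) (nat_lit 4) (nat_lit 325) (nat_lit 199) (nat_lit 196)) (XT.lf (nat_lit 0) (nat_lit 949931653886) (nat_lit 76) (nat_lit 31174418095) (nat_lit 76) (nat_lit 30881107346) (nat_lit 1) (nat_lit 4) (nat_lit 2) (nat_lit 5) (nat_lit 2) (nat_lit 4) (nat_lit 326) (nat_lit 199) (nat_lit 195))) (XT.nd (nat_lit 36972) (nat_lit 0) (nat_lit 0) (XT.lf (nat_lit 0) (nat_lit 1027610233307) (nat_lit 76) (nat_lit 32821130388) (nat_lit 76) (nat_lit 32467549493) (nat_lit 1) (nat_lit 4) (nat_lit 2) (nat_lit 5) (nat_lit 2) (nat_lit 4) (nat_lit 327) (nat_lit 199) (nat_lit 194)) (XT.nd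 (nat_lit 78) (nat_lit 0) (nat_lit 0) (XT.lf (nat_lit 0) (nat_lit 294661494221) (nat_lit 76) (nat_lit 12165334581) (nat_lit 76) (nat_lit 12165334581) (nat_lit 1) (nat_lit 4) (nat_lit 2) (nat_lit 5) (nat_lit 2) (nat_lit 4) (nat_lit 320) (nat_lit 200) (nat_lit 200)) (XT.lf (nat_lit 0) (nat_lit 638671824753) (nat_lit 76) (nat_lit 25189003413) (nat_lit 76) (nat_lit 25100446796) (nat_lit 1) (nat_lit 4) (nat_lit 2) (nat_lit 5) (nat_lit 2) (nat_lit 4) (nat_lit 321) (nat_lit 200) (nat_lit 199))))) (XT.nd (nat_lit 156) (nat_lit 0) (nat_lit 0) (XT.nd (nat_lit 78) (nat_lit 0) (nat_lit 0) (XT.lf (nat_lit 0) (nat_lit 691861155068) (nat_lit 76) (nat_lit 26164395273) (nat_lit 76) (nat_lit 25993841788) (nat_lit 1) (nat_lit 4) (nat_lit 2) (nat_lit 5) (nat_lit 2) (nat_lit 4) (nat_lit 322) (nat_lit 200) (nat_lit 198)) (XT.lf (nat_lit 0) (nat_lit 749206175422) (nat_lit 76) (nat_lit 27262624843) (nat_lit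 76) (nat_lit 27016148332) (nat_lit 1) (nat_lit 4) (nat_lit 2) (nat_lit 5) (nat_lit 2) (nat_lit 4) (nat_lit 323) (nat_lit 200) (nat_lit 197))) (XT.nd (nat_lit 78) (nat_lit 0) (nat_lit 0) (XT.lf (nat_lit 0) (nat_lit 811046708157) (nat_lit 76) (nat_lit 28490200151) (nat_lit 76) (nat_lit 28173424541) (nat_lit 1) (nat_lit 4) (nat_lit 2) (nat_lit 5) (nat_lit 2) (nat_lit 4) (nat_lit 324) (nat_lit 200) (nat_lit 196)) (XT.nd (nat_lit 78) (nat_lit 0) (nat_lit 0) (XT.lf (nat_lit 0) (nat_lit 877749215688) (nat_lit 76) (nat_lit 29854395716) (nat_lit 76) (nat_lit 29472528349) (nat_lit 1) (nat_lit 4) (nat_lit 2) (nat_lit 5) (nat_lit 2) (nat_lit 4) (nat_lit 325) (nat_lit 200) (nat_lit 195)) (XT.lf (nat_lit 0) (nat_lit 949708972135) (nat_lit 76) (nat_lit 31363295660) (nat_lit 76) (nat_lit 30921158147) (nat_lit 1) (nat_lit 4) (nat_lit 2) (nat_lit 5) (nat_lit 2) (nat_lit 4) (nat_lit 326) (nat_lit 200)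 (nat_lit 194))))))) (XT.nd (nat_lit 37440) (nat_lit 0) (nat_lit 0) (XT.nd (nat_lit 37050) (nat_lit 0) (nat_lit 0) (XT.nd (nat_lit 36894) (nat_lit 0) (nat_lit 0) (XT.nd (nat_lit 36816) (nat_lit 0) (nat_lit 0) (XT.lf (nat_lit 0) (nat_lit 1027352405684) (nat_lit 76) (nat_lit 33025841613) (nat_lit 76) (nat_lit 32527898410) (nat_lit 1) (nat_lit 4) (nat_lit 2) (nat_lit 5) (nat_lit 2) (nat_lit 4) (nat_lit 327) (nat_lit 200) (nat_lit 193)) (XT.lf (nat_lit 0) (nat_lit 250529153508) (nat_lit 76) (nat_lit 11506998181) (nat_lit 76) (nat_lit 11506998181) (nat_lit 1) (nat_lit 4) (nat_lit 2) (nat_lit 5) (nat_lit 2) (nat_lit 4) (nat_lit 318) (nat_lit 201) (nat_lit 201))) (XT.nd (nat_lit 78) (nat_lit 0) (nat_lit 0) (XT.lf (nat_lit 0) (nat_lit 543522208591) (nat_lit 76) (nat_lit 23679947245) (nat_lit 76) (nat_lit 23584306099) (nat_lit 1) (nat_lit 4) (nat_lit 2) (nat_lit 5) (nat_lit 2) (nat_lit 4) (nat_lit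 319) (nat_lit 201) (nat_lit 200)) (XT.lf (nat_lit 0) (nat_lit 589267216361) (nat_lit 76) (nat_lit 24451436339) (nat_lit 76) (nat_lit 24267238575) (nat_lit 1) (nat_lit 4) (nat_lit 2) (nat_lit 5) (nat_lit 2) (nat_lit 4) (nat_lit 320) (nat_lit 201) (nat_lit 199)))) (XT.nd (nat_lit 156) (nat_lit 0) (nat_lit 0) (XT.nd (nat_lit 78) (nat_lit 0) (nat_lit 0) (XT.lf (nat_lit 0) (nat_lit 638564411854) (nat_lit 76) (nat_lit 25333035430) (nat_lit 76) (nat_lit 25066840798) (nat_lit 1) (nat_lit 4) (nat_lit 2) (nat_lit 5) (nat_lit 2) (nat_lit 4) (nat_lit 321) (nat_lit 201) (nat_lit 198)) (XT.lf (nat_lit 0) (nat_lit 691705926599) (nat_lit 76) (nat_lit 26329968810) (nat_lit 76) (nat_lit 25987851152) (nat_lit 1) (nat_lit 4) (nat_lit 2) (nat_lit 5) (nat_lit 2) (nat_lit 4) (nat_lit 322) (nat_lit 201) (nat_lit 197))) (XT.nd (nat_lit 78) (nat_lit 0) (nat_lit 0) (XT.lf (nat_lit 0) (nat_lit 749006673276) (nat_lit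 76) (nat_lit 27448144232) (nat_lit 76) (nat_lit 27035727476) (nat_lit 1) (nat_lit 4) (nat_lit 2) (nat_lit 5) (nat_lit 2) (nat_lit 4) (nat_lit 323) (nat_lit 201) (nat_lit 196)) (XT.nd (nat_lit 78) (nat_lit 0) (nat_lit 0) (XT.lf (nat_lit 0) (nat_lit 810806211865) (nat_lit 76) (nat_lit 28694187920) (nat_lit 76) (nat_lit 28216679407) (nat_lit 1) (nat_lit 4) (nat_lit 2) (nat_lit 5) (nat_lit 2) (nat_lit 4) (nat_lit 324) (nat_lit 201) (nat_lit 195)) (XT.lf (nat_lit 0) (nat_lit 877470761855) (nat_lit 76) (nat_lit 30075483838) (nat_lit 76) (nat_lit 29537705179) (nat_lit 1) (nat_lit 4) (nat_lit 2) (nat_lit 5) (nat_lit 2) (nat_lit 4) (nat_lit 325) (nat_lit 201) (nat_lit 194)))))) (XT.nd (nat_lit 36972) (nat_lit 0) (nat_lit 0) (XT.nd (nat_lit 36738) (nat_lit 0) (nat_lit 0) (XT.nd (nat_lit 78) (nat_lit 0) (nat_lit 0) (XT.lf (nat_lit 0) (nat_lit 949395372430) (nat_lit 76) (nat_lit 31600217443) (nat_lit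 76) (nat_lit 31006633093) (nat_lit 1) (nat_lit 4) (nat_lit 2) (nat_lit 5) (nat_lit 2) (nat_lit 4) (nat_lit 326) (nat_lit 201) (nat_lit 193)) (XT.lf (nat_lit 0) (nat_lit 1027006263505) (nat_lit 76) (nat_lit 33277424192) (nat_lit 76) (nat_lit 32632167907) (nat_lit 1) (nat_lit 4) (nat_lit 2) (nat_lit 5) (nat_lit 2) (nat_lit 4) (nat_lit 327) (nat_lit 201) (nat_lit 192))) (XT.nd (nat_lit 78) (nat_lit 0) (nat_lit 0) (XT.lf (nat_lit 0) (nat_lit 212525137837) (nat_lit 76) (nat_lit 11028755595) (nat_lit 76) (nat_lit 11028755595) (nat_lit 1) (nat_lit 4) (nat_lit 2) (nat_lit 5) (nat_lit 2) (nat_lit 4) (nat_lit 316) (nat_lit 202) (nat_lit 202)) (XT.nd (nat_lit 78) (nat_lit 0) (nat_lit 0) (XT.lf (nat_lit 0) (nat_lit 461623873703) (nat_lit 76) (nat_lit 22552929753) (nat_lit 76) (nat_lit 22449637314) (nat_lit 1) (nat_lit 4) (nat_lit 2) (nat_lit 5) (nat_lit 2) (nat_lit 4) (nat_lit 317) (nat_lit 202)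 (nat_lit 201)) (XT.lf (nat_lit 0) (nat_lit 500998073169) (nat_lit 76) (nat_lit 23144424912) (nat_lit 76) (nat_lit 22945491327) (nat_lit 1) (nat_lit 4) (nat_lit 2) (nat_lit 5) (nat_lit 2) (nat_lit 4) (nat_lit 318) (nat_lit 202) (nat_lit 200))))) (XT.nd (nat_lit 156) (nat_lit 0) (nat_lit 0) (XT.nd (nat_lit 78) (nat_lit 0) (nat_lit 0) (XT.lf (nat_lit 0) (nat_lit 543406202661) (nat_lit 76) (nat_lit 23835501824) (nat_lit 76) (nat_lit 23548011621) (nat_lit 1) (nat_lit 4) (nat_lit 2) (nat_lit 5) (nat_lit 2) (nat_lit 4) (nat_lit 319) (nat_lit 202) (nat_lit 199)) (XT.lf (nat_lit 0) (nat_lit 589099569614) (nat_lit 76) (nat_lit 24630255759) (nat_lit 76) (nat_lit 24260768688) (nat_lit 1) (nat_lit 4) (nat_lit 2) (nat_lit 5) (nat_lit 2) (nat_lit 4) (nat_lit 320) (nat_lit 202) (nat_lit 198))) (XT.nd (nat_lit 78) (nat_lit 0) (nat_lit 0) (XT.lf (nat_lit 0) (nat_lit 638348949536) (nat_lit 76) (nat_lit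 25533396370) (nat_lit 76) (nat_lit 25087986273) (nat_lit 1) (nat_lit 4) (nat_lit 2) (nat_lit 5) (nat_lit 2) (nat_lit 4) (nat_lit 321) (nat_lit 202) (nat_lit 197)) (XT.nd (nat_lit 78) (nat_lit 0) (nat_lit 0) (XT.lf (nat_lit 0) (nat_lit 691446190605) (nat_lit 76) (nat_lit 26550275601) (nat_lit 76) (nat_lit 26034566407) (nat_lit 1) (nat_lit 4) (nat_lit 2) (nat_lit 5) (nat_lit 2) (nat_lit 4) (nat_lit 322) (nat_lit 202) (nat_lit 196)) (XT.lf (nat_lit 0) (nat_lit 748705943137) (nat_lit 76) (nat_lit 27686919405) (nat_lit 76) (nat_lit 27106118453) (nat_lit 1) (nat_lit 4) (nat_lit 2) (nat_lit 5) (nat_lit 2) (nat_lit 4) (nat_lit 323) (nat_lit 202) (nat_lit 195))))))))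
noncomputable def xc1 : XT := (XT.nd (nat_lit 74178) (nat_lit 0) (nat_lit 0) (XT.nd (nat_lit 37128) (nat_lit 0) (nat_lit 0) (XT.nd (nat_lit 36738) (nat_lit 0) (nat_lit 0) (XT.nd (nat_lit 156) (nat_lit 0) (nat_lit 0) (XT.nd (nat_lit 78) (nat_lit 0) (nat_lit 0) (XT.lf (nat_lit 0) (nat_lit 810467524184) (nat_lit 76) (nat_lit 28950063446) (nat_lit 76) (nat_lit 28308992348) (nat_lit 1) (nat_lit 4) (nat_lit 2) (nat_lit 5) (nat_lit 2) (nat_lit 4) (nat_lit 324) (nat_lit 202) (nat_lit 194)) (XT.lf (nat_lit 0) (nat_lit 877096928302) (nat_lit 76) (nat_lit 30347193024) (nat_lit 76) (nat_lit 29650316236) (nat_lit 1) (nat_lit 4) (nat_lit 2) (nat_lit 5) (nat_lit 2) (nat_lit 4) (nat_lit 325) (nat_lit 202) (nat_lit 193))) (XT.nd (nat_lit 78) (nat_lit 0) (nat_lit 0) (XT.lf (nat_lit 0) (nat_lit 948988996402) (nat_lit 76) (nat_lit 31886587425) (nat_lit 76) (nat_lit 31138038701) (nat_lit 1) (nat_lit 4) (nat_lit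 2) (nat_lit 5) (nat_lit 2) (nat_lit 4) (nat_lit 326) (nat_lit 202) (nat_lit 192)) (XT.lf (nat_lit 0) (nat_lit 1026569755557) (nat_lit 76) (nat_lit 33577368986) (nat_lit 76) (nat_lit 32780975877) (nat_lit 1) (nat_lit 4) (nat_lit 2) (nat_lit 5) (nat_lit 2) (nat_lit 4) (nat_lit 327) (nat_lit 202) (nat_lit 191)))) (XT.nd (nat_lit 156) (nat_lit 0) (nat_lit 0) (XT.nd (nat_lit 78) (nat_lit 0) (nat_lit 0) (XT.lf (nat_lit 0) (nat_lit 179761761389) (nat_lit 76) (nat_lit 10711808408) (nat_lit 76) (nat_lit 10711808408) (nat_lit 1) (nat_lit 4) (nat_lit 2) (nat_lit 5) (nat_lit 2) (nat_lit 4) (nat_lit 314) (nat_lit 203) (nat_lit 203)) (XT.lf (nat_lit 0) (nat_lit 391060546652) (nat_lit 76) (nat_lit 21766789242) (nat_lit 76) (nat_lit 21655233409) (nat_lit 1) (nat_lit 4) (nat_lit 2) (nat_lit 5) (nat_lit 2) (nat_lit 4) (nat_lit 315) (nat_lit 203) (nat_lit 202))) (XT.nd (nat_lit 78) (nat_lit 0) (nat_lit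 0) (XT.lf (nat_lit 0) (nat_lit 424985223119) (nat_lit 76) (nat_lit 22198374023) (nat_lit 76) (nat_lit 21983525751) (nat_lit 1) (nat_lit 4) (nat_lit 2) (nat_lit 5) (nat_lit 2) (nat_lit 4) (nat_lit 316) (nat_lit 203) (nat_lit 201)) (XT.nd (nat_lit 78) (nat_lit 0) (nat_lit 0) (XT.lf (nat_lit 0) (nat_lit 461498587298) (nat_lit 76) (nat_lit 22720928697) (nat_lit 76) (nat_lit 22410439278) (nat_lit 1) (nat_lit 4) (nat_lit 2) (nat_lit 5) (nat_lit 2) (nat_lit 4) (nat_lit 317) (nat_lit 203) (nat_lit 200)) (XT.lf (nat_lit 0) (nat_lit 500817014682) (nat_lit 76) (nat_lit 23337549885) (nat_lit 76) (nat_lit 22938503849) (nat_lit 1) (nat_lit 4) (nat_lit 2) (nat_lit 5) (nat_lit 2) (nat_lit 4) (nat_lit 318) (nat_lit 203) (nat_lit 199)))))) (XT.nd (nat_lit 390) (nat_lit 0) (nat_lit 0) (XT.nd (nat_lit 156) (nat_lit 0) (nat_lit 0) (XT.nd (nat_lit 78) (nat_lit 0) (nat_lit 0) (XT.lf (nat_lit 0) (nat_lit 543173503358)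 (nat_lit 76) (nat_lit 24051891639) (nat_lit 76) (nat_lit 23570848734) (nat_lit 1) (nat_lit 4) (nat_lit 2) (nat_lit 5) (nat_lit 2) (nat_lit 4) (nat_lit 319) (nat_lit 203) (nat_lit 198)) (XT.lf (nat_lit 0) (nat_lit 588819054740) (nat_lit 76) (nat_lit 24868187093) (nat_lit 76) (nat_lit 24311221163) (nat_lit 1) (nat_lit 4) (nat_lit 2) (nat_lit 5) (nat_lit 2) (nat_lit 4) (nat_lit 320) (nat_lit 203) (nat_lit 197))) (XT.nd (nat_lit 78) (nat_lit 0) (nat_lit 0) (XT.lf (nat_lit 0) (nat_lit 638024160986) (nat_lit 76) (nat_lit 25791273556) (nat_lit 76) (nat_lit 25164008528) (nat_lit 1) (nat_lit 4) (nat_lit 2) (nat_lit 5) (nat_lit 2) (nat_lit 4) (nat_lit 321) (nat_lit 203) (nat_lit 196)) (XT.nd (nat_lit 78) (nat_lit 0) (nat_lit 0) (XT.lf (nat_lit 0) (nat_lit 691080407909) (nat_lit 76) (nat_lit 26826621169) (nat_lit 76) (nat_lit 26134264384) (nat_lit 1) (nat_lit 4) (nat_lit 2) (nat_lit 5) (nat_lit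 2) (nat_lit 4) (nat_lit 322) (nat_lit 203) (nat_lit 195)) (XT.lf (nat_lit 0) (nat_lit 748302202899) (nat_lit 76) (nat_lit 27980365325) (nat_lit 76) (nat_lit 27227738394) (nat_lit 1) (nat_lit 4) (nat_lit 2) (nat_lit 5) (nat_lit 2) (nat_lit 4) (nat_lit 323) (nat_lit 203) (nat_lit 194))))) (XT.nd (nat_lit 156) (nat_lit 0) (nat_lit 0) (XT.nd (nat_lit 78) (nat_lit 0) (nat_lit 0) (XT.lf (nat_lit 0) (nat_lit 810028638074) (nat_lit 76) (nat_lit 29259343027) (nat_lit 76) (nat_lit 28450910405) (nat_lit 1) (nat_lit 4) (nat_lit 2) (nat_lit 5) (nat_lit 2) (nat_lit 4) (nat_lit 324) (nat_lit 203) (nat_lit 193)) (XT.lf (nat_lit 0) (nat_lit 876625499718) (nat_lit 76) (nat_lit 30671133402) (nat_lit 76) (nat_lit 29811028844) (nat_lit 1) (nat_lit 4) (nat_lit 2) (nat_lit 5) (nat_lit 2) (nat_lit 4) (nat_lit 325) (nat_lit 203) (nat_lit 192))) (XT.nd (nat_lit 78) (nat_lit 0) (nat_lit 0) (XT.lf (nat_lit 0) (nat_lit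 948487435898) (nat_lit 76) (nat_lit 32224102614) (nat_lit 76) (nat_lit 31316153671) (nat_lit 1) (nat_lit 4) (nat_lit 2) (nat_lit 5) (nat_lit 2) (nat_lit 4) (nat_lit 326) (nat_lit 203) (nat_lit 191)) (XT.nd (nat_lit 36348) (nat_lit 0) (nat_lit 0) (XT.lf (nat_lit 0) (nat_lit 1026040295126) (nat_lit 76) (nat_lit 33927453445) (nat_lit 76) (nat_lit 32975204146) (nat_lit 1) (nat_lit 4) (nat_lit 2) (nat_lit 5) (nat_lit 2) (nat_lit 4) (nat_lit 327) (nat_lit 203) (nat_lit 190)) (XT.lf (nat_lit 0) (nat_lit 151476903710) (nat_lit 76) (nat_lit 10540591528) (nat_lit 76) (nat_lit 10540591528) (nat_lit 1) (nat_lit 4) (nat_lit 2) (nat_lit 5) (nat_lit 2) (nat_lit 4) (nat_lit 312) (nat_lit 204) (nat_lit 204))))))) (XT.nd (nat_lit 780) (nat_lit 0) (nat_lit 0) (XT.nd (nat_lit 390) (nat_lit 0) (nat_lit 0) (XT.nd (nat_lit 156) (nat_lit 0) (nat_lit 0) (XT.nd (nat_lit 78) (nat_lit 0) (nat_lit 0) (XT.lf (nat_lit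 0) (nat_lit 330187265429) (nat_lit 76) (nat_lit 21287303429) (nat_lit 76) (nat_lit 21166823129) (nat_lit 1) (nat_lit 4) (nat_lit 2) (nat_lit 5) (nat_lit 2) (nat_lit 4) (nat_lit 313) (nat_lit 204) (nat_lit 203)) (XT.lf (nat_lit 0) (nat_lit 359453266017) (nat_lit 76) (nat_lit 21575748676) (nat_lit 76) (nat_lit 21343712542) (nat_lit 1) (nat_lit 4) (nat_lit 2) (nat_lit 5) (nat_lit 2) (nat_lit 4) (nat_lit 314) (nat_lit 204) (nat_lit 202))) (XT.nd (nat_lit 78) (nat_lit 0) (nat_lit 0) (XT.lf (nat_lit 0) (nat_lit 390925237335) (nat_lit 76) (nat_lit 21948228103) (nat_lit 76) (nat_lit 21612899530) (nat_lit 1) (nat_lit 4) (nat_lit 2) (nat_lit 5) (nat_lit 2) (nat_lit 4) (nat_lit 315) (nat_lit 204) (nat_lit 201)) (XT.nd (nat_lit 78) (nat_lit 0) (nat_lit 0) (XT.lf (nat_lit 0) (nat_lit 424789679953) (nat_lit 76) (nat_lit 22406948994) (nat_lit 76) (nat_lit 21975979275) (nat_lit 1) (nat_lit 4) (nat_lit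 2) (nat_lit 5) (nat_lit 2) (nat_lit 4) (nat_lit 316) (nat_lit 204) (nat_lit 200)) (XT.lf (nat_lit 0) (nat_lit 461247272051) (nat_lit 76) (nat_lit 22954629697) (nat_lit 76) (nat_lit 22435103361) (nat_lit 1) (nat_lit 4) (nat_lit 2) (nat_lit 5) (nat_lit 2) (nat_lit 4) (nat_lit 317) (nat_lit 204) (nat_lit 199))))) (XT.nd (nat_lit 156) (nat_lit 0) (nat_lit 0) (XT.nd (nat_lit 78) (nat_lit 0) (nat_lit 0) (XT.lf (nat_lit 0) (nat_lit 500514058618) (nat_lit 76) (nat_lit 23594515727) (nat_lit 76) (nat_lit 22992992522) (nat_lit 1) (nat_lit 4) (nat_lit 2) (nat_lit 5) (nat_lit 2) (nat_lit 4) (nat_lit 318) (nat_lit 204) (nat_lit 198)) (XT.lf (nat_lit 0) (nat_lit 542822731723) (nat_lit 76) (nat_lit 24330399000) (nat_lit 76) (nat_lit 23652952770) (nat_lit 1) (nat_lit 4) (nat_lit 2) (nat_lit 5) (nat_lit 2) (nat_lit 4) (nat_lit 319) (nat_lit 204) (nat_lit 197))) (XT.nd (nat_lit 78) (nat_lit 0) (nat_lit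 0) (XT.lf (nat_lit 0) (nat_lit 588424009429) (nat_lit 76) (nat_lit 25166640307) (nat_lit 76) (nat_lit 24418894978) (nat_lit 1) (nat_lit 4) (nat_lit 2) (nat_lit 5) (nat_lit 2) (nat_lit 4) (nat_lit 320) (nat_lit 204) (nat_lit 196)) (XT.nd (nat_lit 78) (nat_lit 0) (nat_lit 0) (XT.lf (nat_lit 0) (nat_lit 637588121529) (nat_lit 76) (nat_lit 26108195151) (nat_lit 76) (nat_lit 25295358065) (nat_lit 1) (nat_lit 4) (nat_lit 2) (nat_lit 5) (nat_lit 2) (nat_lit 4) (nat_lit 321) (nat_lit 204) (nat_lit 195)) (XT.lf (nat_lit 0) (nat_lit 690606410910) (nat_lit 76) (nat_lit 27160643116) (nat_lit 76) (nat_lit 26287535885) (nat_lit 1) (nat_lit 4) (nat_lit 2) (nat_lit 5) (nat_lit 2) (nat_lit 4) (nat_lit 322) (nat_lit 204) (nat_lit 194)))))) (XT.nd (nat_lit 36504) (nat_lit 0) (nat_lit 0) (XT.nd (nat_lit 156) (nat_lit 0) (nat_lit 0) (XT.nd (nat_lit 78) (nat_lit 0) (nat_lit 0) (XT.lf (nat_lit 0) (nat_lit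 747793060028) (nat_lit 76) (nat_lit 28330220933) (nat_lit 76) (nat_lit 27401308011) (nat_lit 1) (nat_lit 4) (nat_lit 2) (nat_lit 5) (nat_lit 2) (nat_lit 4) (nat_lit 323) (nat_lit 204) (nat_lit 193)) (XT.lf (nat_lit 0) (nat_lit 809486952730) (nat_lit 76) (nat_lit 29623859431) (nat_lit 76) (nat_lit 28643274573) (nat_lit 1) (nat_lit 4) (nat_lit 2) (nat_lit 5) (nat_lit 2) (nat_lit 4) (nat_lit 324) (nat_lit 204) (nat_lit 192))) (XT.nd (nat_lit 78) (nat_lit 0) (nat_lit 0) (XT.lf (nat_lit 0) (nat_lit 876053682453) (nat_lit 76) (nat_lit 31049224617) (nat_lit 76) (nat_lit 30020795374) (nat_lit 1) (nat_lit 4) (nat_lit 2) (nat_lit 5) (nat_lit 2) (nat_lit 4) (nat_lit 325) (nat_lit 204) (nat_lit 191)) (XT.nd (nat_lit 78) (nat_lit 0) (nat_lit 0) (XT.lf (nat_lit 0) (nat_lit 947887718707) (nat_lit 76) (nat_lit 32614763099) (nat_lit 76) (nat_lit 31542033500) (nat_lit 1) (nat_lit 4) (nat_lit 2) (nat_lit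 5) (nat_lit 2) (nat_lit 4) (nat_lit 326) (nat_lit 204) (nat_lit 190)) (XT.lf (nat_lit 0) (nat_lit 1025414744669) (nat_lit 76) (nat_lit 34329752143) (nat_lit 76) (nat_lit 33216003696) (nat_lit 1) (nat_lit 4) (nat_lit 2) (nat_lit 5) (nat_lit 2) (nat_lit 4) (nat_lit 327) (nat_lit 204) (nat_lit 189))))) (XT.nd (nat_lit 156) (nat_lit 0) (nat_lit 0) (XT.nd (nat_lit 78) (nat_lit 0) (nat_lit 0) (XT.lf (nat_lit 0) (nat_lit 127016010576) (nat_lit 76) (nat_lit 10502356038) (nat_lit 76) (nat_lit 10502356038) (nat_lit 1) (nat_lit 4) (nat_lit 2) (nat_lit 5) (nat_lit 2) (nat_lit 4) (nat_lit 310) (nat_lit 205) (nat_lit 205)) (XT.lf (nat_lit 0) (nat_lit 277591508534) (nat_lit 76) (nat_lit 21086284829) (nat_lit 76) (nat_lit 20956166105) (nat_lit 1) (nat_lit 4) (nat_lit 2) (nat_lit 5) (nat_lit 2) (nat_lit 4) (nat_lit 311) (nat_lit 205) (nat_lit 204))) (XT.nd (nat_lit 78) (nat_lit 0) (nat_lit 0) (XT.lf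 (nat_lit 0) (nat_lit 302877930118) (nat_lit 76) (nat_lit 21245485466) (nat_lit 76) (nat_lit 20994886441) (nat_lit 1) (nat_lit 4) (nat_lit 2) (nat_lit 5) (nat_lit 2) (nat_lit 4) (nat_lit 312) (nat_lit 205) (nat_lit 203)) (XT.nd (nat_lit 78) (nat_lit 0) (nat_lit 0) (XT.lf (nat_lit 0) (nat_lit 330041131367) (nat_lit 76) (nat_lit 21483257398) (nat_lit 76) (nat_lit 21121102540) (nat_lit 1) (nat_lit 4) (nat_lit 2) (nat_lit 5) (nat_lit 2) (nat_lit 4) (nat_lit 313) (nat_lit 205) (nat_lit 202)) (XT.lf (nat_lit 0) (nat_lit 359242079399) (nat_lit 76) (nat_lit 21801009645) (nat_lit 76) (nat_lit 21335562348) (nat_lit 1) (nat_lit 4) (nat_lit 2) (nat_lit 5) (nat_lit 2) (nat_lit 4) (nat_lit 314) (nat_lit 205) (nat_lit 201))))))))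
noncomputable def xc2 : XT := (XT.nd (nat_lit 37440) (nat_lit 0) (nat_lit 0) (XT.nd (nat_lit 702) (nat_lit 0) (nat_lit 0) (XT.nd (nat_lit 312) (nat_lit 0) (nat_lit 0) (XT.nd (nat_lit 156) (nat_lit 0) (nat_lit 0) (XT.nd (nat_lit 78) (nat_lit 0) (nat_lit 0) (XT.lf (nat_lit 0) (nat_lit 390653816868) (nat_lit 76) (nat_lit 22200625183) (nat_lit 76) (nat_lit 21639536739) (nat_lit 1) (nat_lit 4) (nat_lit 2) (nat_lit 5) (nat_lit 2) (nat_lit 4) (nat_lit 315) (nat_lit 205) (nat_lit 200)) (XT.lf (nat_lit 0) (nat_lit 424462487404) (nat_lit 76) (nat_lit 22684472103) (nat_lit 76) (nat_lit 22034827042) (nat_lit 1) (nat_lit 4) (nat_lit 2) (nat_lit 5) (nat_lit 2) (nat_lit 4) (nat_lit 316) (nat_lit 205) (nat_lit 199))) (XT.nd (nat_lit 78) (nat_lit 0) (nat_lit 0) (XT.lf (nat_lit 0) (nat_lit 460868438685) (nat_lit 76) (nat_lit 23255417648) (nat_lit 76) (nat_lit 22523775719) (nat_lit 1) (nat_lit 4) (nat_lit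 2) (nat_lit 5) (nat_lit 2) (nat_lit 4) (nat_lit 317) (nat_lit 205) (nat_lit 198)) (XT.lf (nat_lit 0) (nat_lit 500087409682) (nat_lit 76) (nat_lit 23916845197) (nat_lit 76) (nat_lit 23109280242) (nat_lit 1) (nat_lit 4) (nat_lit 2) (nat_lit 5) (nat_lit 2) (nat_lit 4) (nat_lit 318) (nat_lit 205) (nat_lit 197)))) (XT.nd (nat_lit 156) (nat_lit 0) (nat_lit 0) (XT.nd (nat_lit 78) (nat_lit 0) (nat_lit 0) (XT.lf (nat_lit 0) (nat_lit 542351809110) (nat_lit 76) (nat_lit 24672674322) (nat_lit 76) (nat_lit 23794810269) (nat_lit 1) (nat_lit 4) (nat_lit 2) (nat_lit 5) (nat_lit 2) (nat_lit 4) (nat_lit 319) (nat_lit 205) (nat_lit 196)) (XT.lf (nat_lit 0) (nat_lit 587912092670) (nat_lit 76) (nat_lit 25527384010) (nat_lit 76) (nat_lit 24584428200) (nat_lit 1) (nat_lit 4) (nat_lit 2) (nat_lit 5) (nat_lit 2) (nat_lit 4) (nat_lit 320) (nat_lit 205) (nat_lit 195))) (XT.nd (nat_lit 78) (nat_lit 0) (nat_lit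 0) (XT.lf (nat_lit 0) (nat_lit 637038247229) (nat_lit 76) (nat_lit 26486039207) (nat_lit 76) (nat_lit 25482813251) (nat_lit 1) (nat_lit 4) (nat_lit 2) (nat_lit 5) (nat_lit 2) (nat_lit 4) (nat_lit 321) (nat_lit 205) (nat_lit 194)) (XT.nd (nat_lit 78) (nat_lit 0) (nat_lit 0) (XT.lf (nat_lit 0) (nat_lit 690021390738) (nat_lit 76) (nat_lit 27554320833) (nat_lit 76) (nat_lit 26495289186) (nat_lit 1) (nat_lit 4) (nat_lit 2) (nat_lit 5) (nat_lit 2) (nat_lit 4) (nat_lit 322) (nat_lit 205) (nat_lit 193)) (XT.lf (nat_lit 0) (nat_lit 747175497382) (nat_lit 76) (nat_lit 28738559445) (nat_lit 76) (nat_lit 27627855863) (nat_lit 1) (nat_lit 4) (nat_lit 2) (nat_lit 5) (nat_lit 2) (nat_lit 4) (nat_lit 323) (nat_lit 205) (nat_lit 192)))))) (XT.nd (nat_lit 36348) (nat_lit 0) (nat_lit 0) (XT.nd (nat_lit 156) (nat_lit 0) (nat_lit 0) (XT.nd (nat_lit 78) (nat_lit 0) (nat_lit 0) (XT.lf (nat_lit 0) (nat_lit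 808839258163) (nat_lit 76) (nat_lit 30045772755) (nat_lit 76) (nat_lit 28887224788) (nat_lit 1) (nat_lit 4) (nat_lit 2) (nat_lit 5) (nat_lit 2) (nat_lit 4) (nat_lit 324) (nat_lit 205) (nat_lit 191)) (XT.lf (nat_lit 0) (nat_lit 875378087960) (nat_lit 76) (nat_lit 31483707211) (nat_lit 76) (nat_lit 30280858888) (nat_lit 1) (nat_lit 4) (nat_lit 2) (nat_lit 5) (nat_lit 2) (nat_lit 4) (nat_lit 325) (nat_lit 205) (nat_lit 190))) (XT.nd (nat_lit 78) (nat_lit 0) (nat_lit 0) (XT.lf (nat_lit 0) (nat_lit 947186290948) (nat_lit 76) (nat_lit 33060883907) (nat_lit 76) (nat_lit 31817016735) (nat_lit 1) (nat_lit 4) (nat_lit 2) (nat_lit 5) (nat_lit 2) (nat_lit 4) (nat_lit 326) (nat_lit 205) (nat_lit 189)) (XT.nd (nat_lit 36036) (nat_lit 0) (nat_lit 0) (XT.lf (nat_lit 0) (nat_lit 1024689397221) (nat_lit 76) (nat_lit 34786649073) (nat_lit 76) (nat_lit 33504801486) (nat_lit 1) (nat_lit 4) (nat_lit 2) (nat_lit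 5) (nat_lit 2) (nat_lit 4) (nat_lit 327) (nat_lit 205) (nat_lit 188)) (XT.lf (nat_lit 0) (nat_lit 105816655765) (nat_lit 76) (nat_lit 10586815087) (nat_lit 76) (nat_lit 10586815087) (nat_lit 1) (nat_lit 4) (nat_lit 2) (nat_lit 5) (nat_lit 2) (nat_lit 4) (nat_lit 308) (nat_lit 206) (nat_lit 206))))) (XT.nd (nat_lit 156) (nat_lit 0) (nat_lit 0) (XT.nd (nat_lit 78) (nat_lit 0) (nat_lit 0) (XT.lf (nat_lit 0) (nat_lit 232059856197) (nat_lit 76) (nat_lit 21140812037) (nat_lit 76) (nat_lit 21000283815) (nat_lit 1) (nat_lit 4) (nat_lit 2) (nat_lit 5) (nat_lit 2) (nat_lit 4) (nat_lit 309) (nat_lit 206) (nat_lit 205)) (XT.lf (nat_lit 0) (nat_lit 253950073667) (nat_lit 76) (nat_lit 21182158678) (nat_lit 76) (nat_lit 20911511732) (nat_lit 1) (nat_lit 4) (nat_lit 2) (nat_lit 5) (nat_lit 2) (nat_lit 4) (nat_lit 310) (nat_lit 206) (nat_lit 204))) (XT.nd (nat_lit 78) (nat_lit 0) (nat_lit 0) (XT.lf (nat_lit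 0) (nat_lit 277433683746) (nat_lit 76) (nat_lit 21297915115) (nat_lit 76) (nat_lit 20906787869) (nat_lit 1) (nat_lit 4) (nat_lit 2) (nat_lit 5) (nat_lit 2) (nat_lit 4) (nat_lit 311) (nat_lit 206) (nat_lit 203)) (XT.nd (nat_lit 78) (nat_lit 0) (nat_lit 0) (XT.lf (nat_lit 0) (nat_lit 302649848570) (nat_lit 76) (nat_lit 21488767312) (nat_lit 76) (nat_lit 20986084232) (nat_lit 1) (nat_lit 4) (nat_lit 2) (nat_lit 5) (nat_lit 2) (nat_lit 4) (nat_lit 312) (nat_lit 206) (nat_lit 202)) (XT.lf (nat_lit 0) (nat_lit 329747997262) (nat_lit 76) (nat_lit 21755846244) (nat_lit 76) (nat_lit 21149870726) (nat_lit 1) (nat_lit 4) (nat_lit 2) (nat_lit 5) (nat_lit 2) (nat_lit 4) (nat_lit 313) (nat_lit 206) (nat_lit 201))))))) (XT.nd (nat_lit 780) (nat_lit 0) (nat_lit 0) (XT.nd (nat_lit 390) (nat_lit 0) (nat_lit 0) (XT.nd (nat_lit 156) (nat_lit 0) (nat_lit 0) (XT.nd (nat_lit 78) (nat_lit 0) (nat_lit 0) (XT.lf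 (nat_lit 0) (nat_lit 358888711446) (nat_lit 76) (nat_lit 22100734602) (nat_lit 76) (nat_lit 21399117937) (nat_lit 1) (nat_lit 4) (nat_lit 2) (nat_lit 5) (nat_lit 2) (nat_lit 4) (nat_lit 314) (nat_lit 206) (nat_lit 200)) (XT.lf (nat_lit 0) (nat_lit 390244676833) (nat_lit 76) (nat_lit 22525476169) (nat_lit 76) (nat_lit 21735302886) (nat_lit 1) (nat_lit 4) (nat_lit 2) (nat_lit 5) (nat_lit 2) (nat_lit 4) (nat_lit 315) (nat_lit 206) (nat_lit 199))) (XT.nd (nat_lit 78) (nat_lit 0) (nat_lit 0) (XT.lf (nat_lit 0) (nat_lit 424001706553) (nat_lit 76) (nat_lit 23032587931) (nat_lit 76) (nat_lit 22160417780) (nat_lit 1) (nat_lit 4) (nat_lit 2) (nat_lit 5) (nat_lit 2) (nat_lit 4) (nat_lit 316) (nat_lit 206) (nat_lit 198)) (XT.nd (nat_lit 78) (nat_lit 0) (nat_lit 0) (XT.lf (nat_lit 0) (nat_lit 460359842263) (nat_lit 76) (nat_lit 23625074995) (nat_lit 76) (nat_lit 22676981818) (nat_lit 1) (nat_lit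 4) (nat_lit 2) (nat_lit 5) (nat_lit 2) (nat_lit 4) (nat_lit 317) (nat_lit 206) (nat_lit 197)) (XT.lf (nat_lit 0) (nat_lit 499534539583) (nat_lit 76) (nat_lit 24306448396) (nat_lit 76) (nat_lit 23288056121) (nat_lit 1) (nat_lit 4) (nat_lit 2) (nat_lit 5) (nat_lit 2) (nat_lit 4) (nat_lit 318) (nat_lit 206) (nat_lit 196))))) (XT.nd (nat_lit 156) (nat_lit 0) (nat_lit 0) (XT.nd (nat_lit 78) (nat_lit 0) (nat_lit 0) (XT.lf (nat_lit 0) (nat_lit 541757944866) (nat_lit 76) (nat_lit 25080745902) (nat_lit 76) (nat_lit 23997261870) (nat_lit 1) (nat_lit 4) (nat_lit 2) (nat_lit 5) (nat_lit 2) (nat_lit 4) (nat_lit 319) (nat_lit 206) (nat_lit 195)) (XT.lf (nat_lit 0) (nat_lit 587280270884) (nat_lit 76) (nat_lit 25952555943) (nat_lit 76) (nat_lit 24808801765) (nat_lit 1) (nat_lit 4) (nat_lit 2) (nat_lit 5) (nat_lit 2) (nat_lit 4) (nat_lit 320) (nat_lit 206) (nat_lit 194))) (XT.nd (nat_lit 78) (nat_lit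 0) (nat_lit 0) (XT.lf (nat_lit 0) (nat_lit 636371279571) (nat_lit 76) (nat_lit 26927044801) (nat_lit 76) (nat_lit 25727484932) (nat_lit 1) (nat_lit 4) (nat_lit 2) (nat_lit 5) (nat_lit 2) (nat_lit 4) (nat_lit 321) (nat_lit 206) (nat_lit 193)) (XT.nd (nat_lit 78) (nat_lit 0) (nat_lit 0) (XT.lf (nat_lit 0) (nat_lit 689321880606) (nat_lit 76) (nat_lit 28009987223) (nat_lit 76) (nat_lit 26758755419) (nat_lit 1) (nat_lit 4) (nat_lit 2) (nat_lit 5) (nat_lit 2) (nat_lit 4) (nat_lit 322) (nat_lit 206) (nat_lit 192)) (XT.lf (nat_lit 0) (nat_lit 746445855329) (nat_lit 76) (nat_lit 29207800647) (nat_lit 76) (nat_lit 27908724458) (nat_lit 1) (nat_lit 4) (nat_lit 2) (nat_lit 5) (nat_lit 2) (nat_lit 4) (nat_lit 323) (nat_lit 206) (nat_lit 191)))))) (XT.nd (nat_lit 36192) (nat_lit 0) (nat_lit 0) (XT.nd (nat_lit 156) (nat_lit 0) (nat_lit 0) (XT.nd (nat_lit 78) (nat_lit 0) (nat_lit 0) (XT.lf (nat_lit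 0) (nat_lit 808081716184) (nat_lit 76) (nat_lit 30527583227) (nat_lit 76) (nat_lit 29184206681) (nat_lit 1) (nat_lit 4) (nat_lit 2) (nat_lit 5) (nat_lit 2) (nat_lit 4) (nat_lit 324) (nat_lit 206) (nat_lit 190)) (XT.lf (nat_lit 0) (nat_lit 874594712715) (nat_lit 76) (nat_lit 31977155896) (nat_lit 76) (nat_lit 30592760502) (nat_lit 1) (nat_lit 4) (nat_lit 2) (nat_lit 5) (nat_lit 2) (nat_lit 4) (nat_lit 325) (nat_lit 206) (nat_lit 189))) (XT.nd (nat_lit 78) (nat_lit 0) (nat_lit 0) (XT.lf (nat_lit 0) (nat_lit 946378996014) (nat_lit 76) (nat_lit 33565108714) (nat_lit 76) (nat_lit 32142732905) (nat_lit 1) (nat_lit 4) (nat_lit 2) (nat_lit 5) (nat_lit 2) (nat_lit 4) (nat_lit 326) (nat_lit 206) (nat_lit 188)) (XT.nd (nat_lit 35880) (nat_lit 0) (nat_lit 0) (XT.lf (nat_lit 0) (nat_lit 1023859954426) (nat_lit 76) (nat_lit 35300851773) (nat_lit 76) (nat_lit 33843308912) (nat_lit 1) (nat_lit 4) (nat_lit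 2) (nat_lit 5) (nat_lit 2) (nat_lit 4) (nat_lit 327) (nat_lit 206) (nat_lit 187)) (XT.lf (nat_lit 0) (nat_lit 87395297848) (nat_lit 76) (nat_lit 10785844112) (nat_lit 76) (nat_lit 10785844112) (nat_lit 1) (nat_lit 4) (nat_lit 2) (nat_lit 5) (nat_lit 2) (nat_lit 4) (nat_lit 306) (nat_lit 207) (nat_lit 207))))) (XT.nd (nat_lit 156) (nat_lit 0) (nat_lit 0) (XT.nd (nat_lit 78) (nat_lit 0) (nat_lit 0) (XT.lf (nat_lit 0) (nat_lit 192549393476) (nat_lit 76) (nat_lit 21432578047) (nat_lit 76) (nat_lit 21280807567) (nat_lit 1) (nat_lit 4) (nat_lit 2) (nat_lit 5) (nat_lit 2) (nat_lit 4) (nat_lit 307) (nat_lit 207) (nat_lit 206)) (XT.lf (nat_lit 0) (nat_lit 211544808246) (nat_lit 76) (nat_lit 21365272504) (nat_lit 76) (nat_lit 21072973802) (nat_lit 1) (nat_lit 4) (nat_lit 2) (nat_lit 5) (nat_lit 2) (nat_lit 4) (nat_lit 308) (nat_lit 207) (nat_lit 205))) (XT.nd (nat_lit 78) (nat_lit 0) (nat_lit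 0) (XT.lf (nat_lit 0) (nat_lit 231889405427) (nat_lit 76) (nat_lit 21369372746) (nat_lit 76) (nat_lit 20946955320) (nat_lit 1) (nat_lit 4) (nat_lit 2) (nat_lit 5) (nat_lit 2) (nat_lit 4) (nat_lit 309) (nat_lit 207) (nat_lit 204)) (XT.nd (nat_lit 78) (nat_lit 0) (nat_lit 0) (XT.lf (nat_lit 0) (nat_lit 253703745595) (nat_lit 76) (nat_lit 21444903073) (nat_lit 76) (nat_lit 20902005346) (nat_lit 1) (nat_lit 4) (nat_lit 2) (nat_lit 5) (nat_lit 2) (nat_lit 4) (nat_lit 310) (nat_lit 207) (nat_lit 203)) (XT.lf (nat_lit 0) (nat_lit 277117098913) (nat_lit 76) (nat_lit 21592311070) (nat_lit 76) (nat_lit 20937857509) (nat_lit 1) (nat_lit 4) (nat_lit 2) (nat_lit 5) (nat_lit 2) (nat_lit 4) (nat_lit 311) (nat_lit 207) (nat_lit 202))))))))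
noncomputable def xc3 : XT := (XT.nd (nat_lit 37128) (nat_lit 0) (nat_lit 0) (XT.nd (nat_lit 702) (nat_lit 0) (nat_lit 0) (XT.nd (nat_lit 312) (nat_lit 0) (nat_lit 0) (XT.nd (nat_lit 156) (nat_lit 0) (nat_lit 0) (XT.nd (nat_lit 78) (nat_lit 0) (nat_lit 0) (XT.lf (nat_lit 0) (nat_lit 302268211181) (nat_lit 76) (nat_lit 21812470266) (nat_lit 76) (nat_lit 21054724267) (nat_lit 1) (nat_lit 4) (nat_lit 2) (nat_lit 5) (nat_lit 2) (nat_lit 4) (nat_lit 312) (nat_lit 207) (nat_lit 201)) (XT.lf (nat_lit 0) (nat_lit 329306126025) (nat_lit 76) (nat_lit 22106685310) (nat_lit 76) (nat_lit 21253298164) (nat_lit 1) (nat_lit 4) (nat_lit 2) (nat_lit 5) (nat_lit 2) (nat_lit 4) (nat_lit 313) (nat_lit 207) (nat_lit 200))) (XT.nd (nat_lit 78) (nat_lit 0) (nat_lit 0) (XT.lf (nat_lit 0) (nat_lit 358391068126) (nat_lit 76) (nat_lit 22476699696) (nat_lit 76) (nat_lit 21534755933) (nat_lit 1) (nat_lit 4) (nat_lit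 2) (nat_lit 5) (nat_lit 2) (nat_lit 4) (nat_lit 314) (nat_lit 207) (nat_lit 199)) (XT.lf (nat_lit 0) (nat_lit 389695392697) (nat_lit 76) (nat_lit 22924706104) (nat_lit 76) (nat_lit 21900765473) (nat_lit 1) (nat_lit 4) (nat_lit 2) (nat_lit 5) (nat_lit 2) (nat_lit 4) (nat_lit 315) (nat_lit 207) (nat_lit 198)))) (XT.nd (nat_lit 156) (nat_lit 0) (nat_lit 0) (XT.nd (nat_lit 78) (nat_lit 0) (nat_lit 0) (XT.lf (nat_lit 0) (nat_lit 423404606846) (nat_lit 76) (nat_lit 23453359386) (nat_lit 76) (nat_lit 22353495729) (nat_lit 1) (nat_lit 4) (nat_lit 2) (nat_lit 5) (nat_lit 2) (nat_lit 4) (nat_lit 316) (nat_lit 207) (nat_lit 197)) (XT.lf (nat_lit 0) (nat_lit 459718468879) (nat_lit 76) (nat_lit 24065792302) (nat_lit 76) (nat_lit 22895629547) (nat_lit 1) (nat_lit 4) (nat_lit 2) (nat_lit 5) (nat_lit 2) (nat_lit 4) (nat_lit 317) (nat_lit 207) (nat_lit 196))) (XT.nd (nat_lit 78) (nat_lit 0) (nat_lit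 0) (XT.lf (nat_lit 0) (nat_lit 498852172054) (nat_lit 76) (nat_lit 24765634085) (nat_lit 76) (nat_lit 23530379572) (nat_lit 1) (nat_lit 4) (nat_lit 2) (nat_lit 5) (nat_lit 2) (nat_lit 4) (nat_lit 318) (nat_lit 207) (nat_lit 195)) (XT.nd (nat_lit 78) (nat_lit 0) (nat_lit 0) (XT.lf (nat_lit 0) (nat_lit 541037619795) (nat_lit 76) (nat_lit 25557031944) (nat_lit 76) (nat_lit 24261507285) (nat_lit 1) (nat_lit 4) (nat_lit 2) (nat_lit 5) (nat_lit 2) (nat_lit 4) (nat_lit 319) (nat_lit 207) (nat_lit 194)) (XT.lf (nat_lit 0) (nat_lit 586524799942) (nat_lit 76) (nat_lit 26444675645) (nat_lit 76) (nat_lit 25093345296) (nat_lit 1) (nat_lit 4) (nat_lit 2) (nat_lit 5) (nat_lit 2) (nat_lit 4) (nat_lit 320) (nat_lit 207) (nat_lit 193)))))) (XT.nd (nat_lit 390) (nat_lit 0) (nat_lit 0) (XT.nd (nat_lit 156) (nat_lit 0) (nat_lit 0) (XT.nd (nat_lit 78) (nat_lit 0) (nat_lit 0) (XT.lf (nat_lit 0) (nat_lit 635583266154)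 (nat_lit 76) (nat_lit 27433825298) (nat_lit 76) (nat_lit 26030823014) (nat_lit 1) (nat_lit 4) (nat_lit 2) (nat_lit 5) (nat_lit 2) (nat_lit 4) (nat_lit 321) (nat_lit 207) (nat_lit 192)) (XT.lf (nat_lit 0) (nat_lit 688503735269) (nat_lit 76) (nat_lit 28530342532) (nat_lit 76) (nat_lit 27079495863) (nat_lit 1) (nat_lit 4) (nat_lit 2) (nat_lit 5) (nat_lit 2) (nat_lit 4) (nat_lit 322) (nat_lit 207) (nat_lit 191))) (XT.nd (nat_lit 78) (nat_lit 0) (nat_lit 0) (XT.lf (nat_lit 0) (nat_lit 745599810066) (nat_lit 76) (nat_lit 29740725227) (nat_lit 76) (nat_lit 28245578201) (nat_lit 1) (nat_lit 4) (nat_lit 2) (nat_lit 5) (nat_lit 2) (nat_lit 4) (nat_lit 323) (nat_lit 207) (nat_lit 190)) (XT.nd (nat_lit 78) (nat_lit 0) (nat_lit 0) (XT.lf (nat_lit 0) (nat_lit 807209837655) (nat_lit 76) (nat_lit 31072146019) (nat_lit 76) (nat_lit 29535980145) (nat_lit 1) (nat_lit 4) (nat_lit 2) (nat_lit 5) (nat_lit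 2) (nat_lit 4) (nat_lit 324) (nat_lit 207) (nat_lit 189)) (XT.lf (nat_lit 0) (nat_lit 873698914497) (nat_lit 76) (nat_lit 32532494811) (nat_lit 76) (nat_lit 30958348522) (nat_lit 1) (nat_lit 4) (nat_lit 2) (nat_lit 5) (nat_lit 2) (nat_lit 4) (nat_lit 325) (nat_lit 207) (nat_lit 188))))) (XT.nd (nat_lit 35802) (nat_lit 0) (nat_lit 0) (XT.nd (nat_lit 78) (nat_lit 0) (nat_lit 0) (XT.lf (nat_lit 0) (nat_lit 945461049935) (nat_lit 76) (nat_lit 34130425521) (nat_lit 76) (nat_lit 32521112181) (nat_lit 1) (nat_lit 4) (nat_lit 2) (nat_lit 5) (nat_lit 2) (nat_lit 4) (nat_lit 326) (nat_lit 207) (nat_lit 187)) (XT.lf (nat_lit 0) (nat_lit 1022921501068) (nat_lit 76) (nat_lit 35875407369) (nat_lit 76) (nat_lit 34233531943) (nat_lit 1) (nat_lit 4) (nat_lit 2) (nat_lit 5) (nat_lit 2) (nat_lit 4) (nat_lit 327) (nat_lit 207) (nat_lit 186))) (XT.nd (nat_lit 78) (nat_lit 0) (nat_lit 0) (XT.lf (nat_lit 0)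 (nat_lit 71335918265) (nat_lit 76) (nat_lit 11093227946) (nat_lit 76) (nat_lit 11093227946) (nat_lit 1) (nat_lit 4) (nat_lit 2) (nat_lit 5) (nat_lit 2) (nat_lit 4) (nat_lit 304) (nat_lit 208) (nat_lit 208)) (XT.nd (nat_lit 78) (nat_lit 0) (nat_lit 0) (XT.lf (nat_lit 0) (nat_lit 158163177587) (nat_lit 76) (nat_lit 21947339510) (nat_lit 76) (nat_lit 21783427392) (nat_lit 1) (nat_lit 4) (nat_lit 2) (nat_lit 5) (nat_lit 2) (nat_lit 4) (nat_lit 305) (nat_lit 208) (nat_lit 207)) (XT.lf (nat_lit 0) (nat_lit 174695012149) (nat_lit 76) (nat_lit 21778661941) (nat_lit 76) (nat_lit 21462979342) (nat_lit 1) (nat_lit 4) (nat_lit 2) (nat_lit 5) (nat_lit 2) (nat_lit 4) (nat_lit 306) (nat_lit 208) (nat_lit 206))))))) (XT.nd (nat_lit 780) (nat_lit 0) (nat_lit 0) (XT.nd (nat_lit 390) (nat_lit 0) (nat_lit 0) (XT.nd (nat_lit 156) (nat_lit 0) (nat_lit 0) (XT.nd (nat_lit 78) (nat_lit 0) (nat_lit 0) (XT.lf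 (nat_lit 0) (nat_lit 192365306644) (nat_lit 76) (nat_lit 21679423614) (nat_lit 76) (nat_lit 21223212793) (nat_lit 1) (nat_lit 4) (nat_lit 2) (nat_lit 5) (nat_lit 2) (nat_lit 4) (nat_lit 307) (nat_lit 208) (nat_lit 205)) (XT.lf (nat_lit 0) (nat_lit 211278773928) (nat_lit 76) (nat_lit 21649036450) (nat_lit 76) (nat_lit 21062706905) (nat_lit 1) (nat_lit 4) (nat_lit 2) (nat_lit 5) (nat_lit 2) (nat_lit 4) (nat_lit 308) (nat_lit 208) (nat_lit 204))) (XT.nd (nat_lit 78) (nat_lit 0) (nat_lit 0) (XT.lf (nat_lit 0) (nat_lit 231547493807) (nat_lit 76) (nat_lit 21687320377) (nat_lit 76) (nat_lit 20980510532) (nat_lit 1) (nat_lit 4) (nat_lit 2) (nat_lit 5) (nat_lit 2) (nat_lit 4) (nat_lit 309) (nat_lit 208) (nat_lit 203)) (XT.nd (nat_lit 78) (nat_lit 0) (nat_lit 0) (XT.lf (nat_lit 0) (nat_lit 253291577214) (nat_lit 76) (nat_lit 21794502263) (nat_lit 76) (nat_lit 20976136584) (nat_lit 1) (nat_lit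 4) (nat_lit 2) (nat_lit 5) (nat_lit 2) (nat_lit 4) (nat_lit 310) (nat_lit 208) (nat_lit 202)) (XT.lf (nat_lit 0) (nat_lit 276639877977) (nat_lit 76) (nat_lit 21971217260) (nat_lit 76) (nat_lit 21049559143) (nat_lit 1) (nat_lit 4) (nat_lit 2) (nat_lit 5) (nat_lit 2) (nat_lit 4) (nat_lit 311) (nat_lit 208) (nat_lit 201))))) (XT.nd (nat_lit 156) (nat_lit 0) (nat_lit 0) (XT.nd (nat_lit 78) (nat_lit 0) (nat_lit 0) (XT.lf (nat_lit 0) (nat_lit 301730756396) (nat_lit 76) (nat_lit 22218512568) (nat_lit 76) (nat_lit 21201213304) (nat_lit 1) (nat_lit 4) (nat_lit 2) (nat_lit 5) (nat_lit 2) (nat_lit 4) (nat_lit 312) (nat_lit 208) (nat_lit 200)) (XT.lf (nat_lit 0) (nat_lit 328712899158) (nat_lit 76) (nat_lit 22537853640) (nat_lit 76) (nat_lit 21431997758) (nat_lit 1) (nat_lit 4) (nat_lit 2) (nat_lit 5) (nat_lit 2) (nat_lit 4) (nat_lit 313) (nat_lit 208) (nat_lit 199))) (XT.nd (nat_lit 78) (nat_lit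 0) (nat_lit 0) (XT.lf (nat_lit 0) (nat_lit 357746200442) (nat_lit 76) (nat_lit 22931132868) (nat_lit 76) (nat_lit 21743280119) (nat_lit 1) (nat_lit 4) (nat_lit 2) (nat_lit 5) (nat_lit 2) (nat_lit 4) (nat_lit 314) (nat_lit 208) (nat_lit 198)) (XT.nd (nat_lit 78) (nat_lit 0) (nat_lit 0) (XT.lf (nat_lit 0) (nat_lit 389002709442) (nat_lit 76) (nat_lit 23400680796) (nat_lit 76) (nat_lit 22136905021) (nat_lit 1) (nat_lit 4) (nat_lit 2) (nat_lit 5) (nat_lit 2) (nat_lit 4) (nat_lit 315) (nat_lit 208) (nat_lit 197)) (XT.lf (nat_lit 0) (nat_lit 422667649915) (nat_lit 76) (nat_lit 23949279930) (nat_lit 76) (nat_lit 22615205056) (nat_lit 1) (nat_lit 4) (nat_lit 2) (nat_lit 5) (nat_lit 2) (nat_lit 4) (nat_lit 316) (nat_lit 208) (nat_lit 196)))))) (XT.nd (nat_lit 390) (nat_lit 0) (nat_lit 0) (XT.nd (nat_lit 156) (nat_lit 0) (nat_lit 0) (XT.nd (nat_lit 78) (nat_lit 0) (nat_lit 0) (XT.lf (nat_lit 0)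 (nat_lit 458940517803) (nat_lit 76) (nat_lit 24580181227) (nat_lit 76) (nat_lit 23181014596) (nat_lit 1) (nat_lit 4) (nat_lit 2) (nat_lit 5) (nat_lit 2) (nat_lit 4) (nat_lit 317) (nat_lit 208) (nat_lit 195)) (XT.lf (nat_lit 0) (nat_lit 498036263436) (nat_lit 76) (nat_lit 25297123362) (nat_lit 76) (nat_lit 23837686586) (nat_lit 1) (nat_lit 4) (nat_lit 2) (nat_lit 5) (nat_lit 2) (nat_lit 4) (nat_lit 318) (nat_lit 208) (nat_lit 194))) (XT.nd (nat_lit 78) (nat_lit 0) (nat_lit 0) (XT.lf (nat_lit 0) (nat_lit 540186565305) (nat_lit 76) (nat_lit 26104354881) (nat_lit 76) (nat_lit 24589112414) (nat_lit 1) (nat_lit 4) (nat_lit 2) (nat_lit 5) (nat_lit 2) (nat_lit 4) (nat_lit 319) (nat_lit 208) (nat_lit 193)) (XT.nd (nat_lit 78) (nat_lit 0) (nat_lit 0) (XT.lf (nat_lit 0) (nat_lit 585641202977) (nat_lit 76) (nat_lit 27006659379) (nat_lit 76) (nat_lit 25439744976) (nat_lit 1) (nat_lit 4) (nat_lit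 2) (nat_lit 5) (nat_lit 2) (nat_lit 4) (nat_lit 320) (nat_lit 208) (nat_lit 192)) (XT.lf (nat_lit 0) (nat_lit 634669537269) (nat_lit 76) (nat_lit 28009383844) (nat_lit 76) (nat_lit 26394625056) (nat_lit 1) (nat_lit 4) (nat_lit 2) (nat_lit 5) (nat_lit 2) (nat_lit 4) (nat_lit 321) (nat_lit 208) (nat_lit 191))))) (XT.nd (nat_lit 156) (nat_lit 0) (nat_lit 0) (XT.nd (nat_lit 78) (nat_lit 0) (nat_lit 0) (XT.lf (nat_lit 0) (nat_lit 687562106458) (nat_lit 76) (nat_lit 29118470348) (nat_lit 76) (nat_lit 27459411204) (nat_lit 1) (nat_lit 4) (nat_lit 2) (nat_lit 5) (nat_lit 2) (nat_lit 4) (nat_lit 322) (nat_lit 208) (nat_lit 190)) (XT.lf (nat_lit 0) (nat_lit 744632347990) (nat_lit 76) (nat_lit 30340491255) (nat_lit 76) (nat_lit 28640413263) (nat_lit 1) (nat_lit 4) (nat_lit 2) (nat_lit 5) (nat_lit 2) (nat_lit 4) (nat_lit 323) (nat_lit 208) (nat_lit 189))) (XT.nd (nat_lit 78) (nat_lit 0) (nat_lit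 0) (XT.lf (nat_lit 0) (nat_lit 806218455889) (nat_lit 76) (nat_lit 31682688171) (nat_lit 76) (nat_lit 29944629763) (nat_lit 1) (nat_lit 4) (nat_lit 2) (nat_lit 5) (nat_lit 2) (nat_lit 4) (nat_lit 324) (nat_lit 208) (nat_lit 188)) (XT.nd (nat_lit 78) (nat_lit 0) (nat_lit 0) (XT.lf (nat_lit 0) (nat_lit 872685384870) (nat_lit 76) (nat_lit 33153014855) (nat_lit 76) (nat_lit 31379789395) (nat_lit 1) (nat_lit 4) (nat_lit 2) (nat_lit 5) (nat_lit 2) (nat_lit 4) (nat_lit 325) (nat_lit 208) (nat_lit 187)) (XT.lf (nat_lit 0) (nat_lit 944427013029) (nat_lit 76) (nat_lit 34760184353) (nat_lit 76) (nat_lit 32954396810) (nat_lit 1) (nat_lit 4) (nat_lit 2) (nat_lit 5) (nat_lit 2) (nat_lit 4) (nat_lit 326) (nat_lit 208) (nat_lit 186))))))))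
noncomputable def xc4 : XT := (XT.nd (nat_lit 36972) (nat_lit 0) (nat_lit 0) (XT.nd (nat_lit 36192) (nat_lit 0) (nat_lit 0) (XT.nd (nat_lit 35802) (nat_lit 0) (nat_lit 0) (XT.nd (nat_lit 35646) (nat_lit 0) (nat_lit 0) (XT.nd (nat_lit 35568) (nat_lit 0) (nat_lit 0) (XT.lf (nat_lit 0) (nat_lit 1021868475941) (nat_lit 76) (nat_lit 36513720635) (nat_lit 76) (nat_lit 34677783013) (nat_lit 1) (nat_lit 4) (nat_lit 2) (nat_lit 5) (nat_lit 2) (nat_lit 4) (nat_lit 327) (nat_lit 208) (nat_lit 185)) (XT.lf (nat_lit 0) (nat_lit 57280271655) (nat_lit 76) (nat_lit 11504448446) (nat_lit 76) (nat_lit 11504448446) (nat_lit 1) (nat_lit 4) (nat_lit 2) (nat_lit 5) (nat_lit 2) (nat_lit 4) (nat_lit 302) (nat_lit 209) (nat_lit 209))) (XT.nd (nat_lit 78) (nat_lit 0) (nat_lit 0) (XT.lf (nat_lit 0) (nat_lit 128129188441) (nat_lit 76) (nat_lit 22674453162) (nat_lit 76) (nat_lit 22497428074) (nat_lit 1) (nat_lit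 4) (nat_lit 2) (nat_lit 5) (nat_lit 2) (nat_lit 4) (nat_lit 303) (nat_lit 209) (nat_lit 208)) (XT.lf (nat_lit 0) (nat_lit 142568606299) (nat_lit 76) (nat_lit 22409987506) (nat_lit 76) (nat_lit 22069050300) (nat_lit 1) (nat_lit 4) (nat_lit 2) (nat_lit 5) (nat_lit 2) (nat_lit 4) (nat_lit 304) (nat_lit 209) (nat_lit 207)))) (XT.nd (nat_lit 156) (nat_lit 0) (nat_lit 0) (XT.nd (nat_lit 78) (nat_lit 0) (nat_lit 0) (XT.lf (nat_lit 0) (nat_lit 157964363808) (nat_lit 76) (nat_lit 22213932722) (nat_lit 76) (nat_lit 21721225035) (nat_lit 1) (nat_lit 4) (nat_lit 2) (nat_lit 5) (nat_lit 2) (nat_lit 4) (nat_lit 305) (nat_lit 209) (nat_lit 206)) (XT.lf (nat_lit 0) (nat_lit 174407695085) (nat_lit 76) (nat_lit 22085127002) (nat_lit 76) (nat_lit 21451891094) (nat_lit 1) (nat_lit 4) (nat_lit 2) (nat_lit 5) (nat_lit 2) (nat_lit 4) (nat_lit 306) (nat_lit 209) (nat_lit 205))) (XT.nd (nat_lit 78) (nat_lit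 0) (nat_lit 0) (XT.lf (nat_lit 0) (nat_lit 191996042095) (nat_lit 76) (nat_lit 22022807055) (nat_lit 76) (nat_lit 21259452422) (nat_lit 1) (nat_lit 4) (nat_lit 2) (nat_lit 5) (nat_lit 2) (nat_lit 4) (nat_lit 307) (nat_lit 209) (nat_lit 204)) (XT.nd (nat_lit 78) (nat_lit 0) (nat_lit 0) (XT.lf (nat_lit 0) (nat_lit 210833632077) (nat_lit 76) (nat_lit 22026603575) (nat_lit 76) (nat_lit 21142768642) (nat_lit 1) (nat_lit 4) (nat_lit 2) (nat_lit 5) (nat_lit 2) (nat_lit 4) (nat_lit 308) (nat_lit 209) (nat_lit 203)) (XT.lf (nat_lit 0) (nat_lit 231032095195) (nat_lit 76) (nat_lit 22096539063) (nat_lit 76) (nat_lit 21101148296) (nat_lit 1) (nat_lit 4) (nat_lit 2) (nat_lit 5) (nat_lit 2) (nat_lit 4) (nat_lit 309) (nat_lit 209) (nat_lit 202)))))) (XT.nd (nat_lit 390) (nat_lit 0) (nat_lit 0) (XT.nd (nat_lit 156) (nat_lit 0) (nat_lit 0) (XT.nd (nat_lit 78) (nat_lit 0) (nat_lit 0) (XT.lf (nat_lit 0)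 (nat_lit 252711126046) (nat_lit 76) (nat_lit 22233027949) (nat_lit 76) (nat_lit 21134344743) (nat_lit 1) (nat_lit 4) (nat_lit 2) (nat_lit 5) (nat_lit 2) (nat_lit 4) (nat_lit 310) (nat_lit 209) (nat_lit 201)) (XT.lf (nat_lit 0) (nat_lit 275999192960) (nat_lit 76) (nat_lit 22436879057) (nat_lit 76) (nat_lit 21242554705) (nat_lit 1) (nat_lit 4) (nat_lit 2) (nat_lit 5) (nat_lit 2) (nat_lit 4) (nat_lit 311) (nat_lit 209) (nat_lit 200))) (XT.nd (nat_lit 78) (nat_lit 0) (nat_lit 0) (XT.lf (nat_lit 0) (nat_lit 301034299297) (nat_lit 76) (nat_lit 22709300393) (nat_lit 76) (nat_lit 21426419424) (nat_lit 1) (nat_lit 4) (nat_lit 2) (nat_lit 5) (nat_lit 2) (nat_lit 4) (nat_lit 312) (nat_lit 209) (nat_lit 199)) (XT.nd (nat_lit 78) (nat_lit 0) (nat_lit 0) (XT.lf (nat_lit 0) (nat_lit 327964801243) (nat_lit 76) (nat_lit 23051906307) (nat_lit 76) (nat_lit 21687028469) (nat_lit 1) (nat_lit 4) (nat_lit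 2) (nat_lit 5) (nat_lit 2) (nat_lit 4) (nat_lit 313) (nat_lit 209) (nat_lit 198)) (XT.lf (nat_lit 0) (nat_lit 356950286957) (nat_lit 76) (nat_lit 23466727055) (nat_lit 76) (nat_lit 22025926192) (nat_lit 1) (nat_lit 4) (nat_lit 2) (nat_lit 5) (nat_lit 2) (nat_lit 4) (nat_lit 314) (nat_lit 209) (nat_lit 197))))) (XT.nd (nat_lit 156) (nat_lit 0) (nat_lit 0) (XT.nd (nat_lit 78) (nat_lit 0) (nat_lit 0) (XT.lf (nat_lit 0) (nat_lit 388162522280) (nat_lit 76) (nat_lit 23956220835) (nat_lit 76) (nat_lit 22445120873) (nat_lit 1) (nat_lit 4) (nat_lit 2) (nat_lit 5) (nat_lit 2) (nat_lit 4) (nat_lit 315) (nat_lit 209) (nat_lit 196)) (XT.lf (nat_lit 0) (nat_lit 421786468607) (nat_lit 76) (nat_lit 24523288349) (nat_lit 76) (nat_lit 22947096631) (nat_lit 1) (nat_lit 4) (nat_lit 2) (nat_lit 5) (nat_lit 2) (nat_lit 4) (nat_lit 316) (nat_lit 209) (nat_lit 195))) (XT.nd (nat_lit 78) (nat_lit 0) (nat_lit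 0) (XT.lf (nat_lit 0) (nat_lit 458021378954) (nat_lit 76) (nat_lit 25171290000) (nat_lit 76) (nat_lit 23534828135) (nat_lit 1) (nat_lit 4) (nat_lit 2) (nat_lit 5) (nat_lit 2) (nat_lit 4) (nat_lit 317) (nat_lit 209) (nat_lit 194)) (XT.nd (nat_lit 78) (nat_lit 0) (nat_lit 0) (XT.lf (nat_lit 0) (nat_lit 497081978714) (nat_lit 76) (nat_lit 25904065795) (nat_lit 76) (nat_lit 24211798240) (nat_lit 1) (nat_lit 4) (nat_lit 2) (nat_lit 5) (nat_lit 2) (nat_lit 4) (nat_lit 318) (nat_lit 209) (nat_lit 193)) (XT.lf (nat_lit 0) (nat_lit 539199738109) (nat_lit 76) (nat_lit 26725958111) (nat_lit 76) (nat_lit 24982018620) (nat_lit 1) (nat_lit 4) (nat_lit 2) (nat_lit 5) (nat_lit 2) (nat_lit 4) (nat_lit 319) (nat_lit 209) (nat_lit 192))))))) (XT.nd (nat_lit 36036) (nat_lit 0) (nat_lit 0) (XT.nd (nat_lit 312) (nat_lit 0) (nat_lit 0) (XT.nd (nat_lit 156) (nat_lit 0) (nat_lit 0) (XT.nd (nat_lit 78) (nat_lit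 0) (nat_lit 0) (XT.lf (nat_lit 0) (nat_lit 584624243862) (nat_lit 76) (nat_lit 27641837420) (nat_lit 76) (nat_lit 25850053544) (nat_lit 1) (nat_lit 4) (nat_lit 2) (nat_lit 5) (nat_lit 2) (nat_lit 4) (nat_lit 320) (nat_lit 209) (nat_lit 191)) (XT.lf (nat_lit 0) (nat_lit 633624678227) (nat_lit 76) (nat_lit 28657131155) (nat_lit 76) (nat_lit 26821046923) (nat_lit 1) (nat_lit 4) (nat_lit 2) (nat_lit 5) (nat_lit 2) (nat_lit 4) (nat_lit 321) (nat_lit 209) (nat_lit 190))) (XT.nd (nat_lit 78) (nat_lit 0) (nat_lit 0) (XT.lf (nat_lit 0) (nat_lit 686491414150) (nat_lit 76) (nat_lit 29777855872) (nat_lit 76) (nat_lit 27900752791) (nat_lit 1) (nat_lit 4) (nat_lit 2) (nat_lit 5) (nat_lit 2) (nat_lit 4) (nat_lit 322) (nat_lit 209) (nat_lit 189)) (XT.lf (nat_lit 0) (nat_lit 743537735992) (nat_lit 76) (nat_lit 31010652902) (nat_lit 76) (nat_lit 29095569406) (nat_lit 1) (nat_lit 4) (nat_lit 2) (nat_lit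 5) (nat_lit 2) (nat_lit 4) (nat_lit 323) (nat_lit 209) (nat_lit 188)))) (XT.nd (nat_lit 156) (nat_lit 0) (nat_lit 0) (XT.nd (nat_lit 78) (nat_lit 0) (nat_lit 0) (XT.lf (nat_lit 0) (nat_lit 805101696031) (nat_lit 76) (nat_lit 32362827709) (nat_lit 76) (nat_lit 30412577162) (nat_lit 1) (nat_lit 4) (nat_lit 2) (nat_lit 5) (nat_lit 2) (nat_lit 4) (nat_lit 324) (nat_lit 209) (nat_lit 187)) (XT.lf (nat_lit 0) (nat_lit 871548117733) (nat_lit 76) (nat_lit 33842393182) (nat_lit 76) (nat_lit 31859580550) (nat_lit 1) (nat_lit 4) (nat_lit 2) (nat_lit 5) (nat_lit 2) (nat_lit 4) (nat_lit 325) (nat_lit 209) (nat_lit 186))) (XT.nd (nat_lit 78) (nat_lit 0) (nat_lit 0) (XT.lf (nat_lit 0) (nat_lit 943270757670) (nat_lit 76) (nat_lit 35458117114) (nat_lit 76) (nat_lit 33445154405) (nat_lit 1) (nat_lit 4) (nat_lit 2) (nat_lit 5) (nat_lit 2) (nat_lit 4) (nat_lit 326) (nat_lit 209) (nat_lit 185)) (XT.nd (nat_lit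 35412) (nat_lit 0) (nat_lit 0) (XT.lf (nat_lit 0) (nat_lit 1020694638896) (nat_lit 76) (nat_lit 37219574168) (nat_lit 76) (nat_lit 35178694719) (nat_lit 1) (nat_lit 4) (nat_lit 2) (nat_lit 5) (nat_lit 2) (nat_lit 4) (nat_lit 327) (nat_lit 209) (nat_lit 184)) (XT.lf (nat_lit 0) (nat_lit 44919517744) (nat_lit 76) (nat_lit 12016507223) (nat_lit 76) (nat_lit 12016507223) (nat_lit 1) (nat_lit 4) (nat_lit 2) (nat_lit 5) (nat_lit 2) (nat_lit 4) (nat_lit 300) (nat_lit 210) (nat_lit 210)))))) (XT.nd (nat_lit 390) (nat_lit 0) (nat_lit 0) (XT.nd (nat_lit 156) (nat_lit 0) (nat_lit 0) (XT.nd (nat_lit 78) (nat_lit 0) (nat_lit 0) (XT.lf (nat_lit 0) (nat_lit 101782264125) (nat_lit 76) (nat_lit 23606487682) (nat_lit 76) (nat_lit 23415300587) (nat_lit 1) (nat_lit 4) (nat_lit 2) (nat_lit 5) (nat_lit 2) (nat_lit 4) (nat_lit 301) (nat_lit 210) (nat_lit 209)) (XT.lf (nat_lit 0) (nat_lit 114449054661) (nat_lit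 76) (nat_lit 23250311035) (nat_lit 76) (nat_lit 22882098853) (nat_lit 1) (nat_lit 4) (nat_lit 2) (nat_lit 5) (nat_lit 2) (nat_lit 4) (nat_lit 302) (nat_lit 210) (nat_lit 208))) (XT.nd (nat_lit 78) (nat_lit 0) (nat_lit 0) (XT.lf (nat_lit 0) (nat_lit 127914469560) (nat_lit 76) (nat_lit 22962373830) (nat_lit 76) (nat_lit 22430249529) (nat_lit 1) (nat_lit 4) (nat_lit 2) (nat_lit 5) (nat_lit 2) (nat_lit 4) (nat_lit 303) (nat_lit 210) (nat_lit 207)) (XT.nd (nat_lit 78) (nat_lit 0) (nat_lit 0) (XT.lf (nat_lit 0) (nat_lit 142258303871) (nat_lit 76) (nat_lit 22740969773) (nat_lit 76) (nat_lit 22057074991) (nat_lit 1) (nat_lit 4) (nat_lit 2) (nat_lit 5) (nat_lit 2) (nat_lit 4) (nat_lit 304) (nat_lit 210) (nat_lit 206)) (XT.lf (nat_lit 0) (nat_lit 157565558095) (nat_lit 76) (nat_lit 22584786838) (nat_lit 76) (nat_lit 21760363834) (nat_lit 1) (nat_lit 4) (nat_lit 2) (nat_lit 5) (nat_lit 2) (nat_lit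 4) (nat_lit 305) (nat_lit 210) (nat_lit 205))))) (XT.nd (nat_lit 156) (nat_lit 0) (nat_lit 0) (XT.nd (nat_lit 78) (nat_lit 0) (nat_lit 0) (XT.lf (nat_lit 0) (nat_lit 173926941887) (nat_lit 76) (nat_lit 22492899498) (nat_lit 76) (nat_lit 21538357770) (nat_lit 1) (nat_lit 4) (nat_lit 2) (nat_lit 5) (nat_lit 2) (nat_lit 4) (nat_lit 306) (nat_lit 210) (nat_lit 204)) (XT.lf (nat_lit 0) (nat_lit 191439411594) (nat_lit 76) (nat_lit 22464763235) (nat_lit 76) (nat_lit 21389741207) (nat_lit 1) (nat_lit 4) (nat_lit 2) (nat_lit 5) (nat_lit 2) (nat_lit 4) (nat_lit 307) (nat_lit 210) (nat_lit 203))) (XT.nd (nat_lit 78) (nat_lit 0) (nat_lit 0) (XT.lf (nat_lit 0) (nat_lit 210206744816) (nat_lit 76) (nat_lit 22500211316) (nat_lit 76) (nat_lit 21313633454) (nat_lit 1) (nat_lit 4) (nat_lit 2) (nat_lit 5) (nat_lit 2) (nat_lit 4) (nat_lit 308) (nat_lit 210) (nat_lit 202)) (XT.nd (nat_lit 78) (nat_lit 0)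 (nat_lit 0) (XT.lf (nat_lit 0) (nat_lit 230340155378) (nat_lit 76) (nat_lit 22599453803) (nat_lit 76) (nat_lit 21309583503) (nat_lit 1) (nat_lit 4) (nat_lit 2) (nat_lit 5) (nat_lit 2) (nat_lit 4) (nat_lit 309) (nat_lit 210) (nat_lit 201)) (XT.lf (nat_lit 0) (nat_lit 251958952380) (nat_lit 76) (nat_lit 22763078800) (nat_lit 76) (nat_lit 21377567353) (nat_lit 1) (nat_lit 4) (nat_lit 2) (nat_lit 5) (nat_lit 2) (nat_lit 4) (nat_lit 310) (nat_lit 210) (nat_lit 200))))))))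
noncomputable def xc5 : XT := (XT.nd (nat_lit 36660) (nat_lit 0) (nat_lit 0) (XT.nd (nat_lit 702) (nat_lit 0) (nat_lit 0) (XT.nd (nat_lit 312) (nat_lit 0) (nat_lit 0) (XT.nd (nat_lit 156) (nat_lit 0) (nat_lit 0) (XT.nd (nat_lit 78) (nat_lit 0) (nat_lit 0) (XT.lf (nat_lit 0) (nat_lit 275191247212) (nat_lit 76) (nat_lit 22992055937) (nat_lit 76) (nat_lit 21517987873) (nat_lit 1) (nat_lit 4) (nat_lit 2) (nat_lit 5) (nat_lit 2) (nat_lit 4) (nat_lit 311) (nat_lit 210) (nat_lit 199)) (XT.lf (nat_lit 0) (nat_lit 300174712733) (nat_lit 76) (nat_lit 23287742115) (nat_lit 76) (nat_lit 21731677183) (nat_lit 1) (nat_lit 4) (nat_lit 2) (nat_lit 5) (nat_lit 2) (nat_lit 4) (nat_lit 312) (nat_lit 210) (nat_lit 198))) (XT.nd (nat_lit 78) (nat_lit 0) (nat_lit 0) (XT.lf (nat_lit 0) (nat_lit 327057399108) (nat_lit 76) (nat_lit 23651889549) (nat_lit 76) (nat_lit 22019901590) (nat_lit 1) (nat_lit 4) (nat_lit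 2) (nat_lit 5) (nat_lit 2) (nat_lit 4) (nat_lit 313) (nat_lit 210) (nat_lit 197)) (XT.lf (nat_lit 0) (nat_lit 355998611145) (nat_lit 76) (nat_lit 24086656148) (nat_lit 76) (nat_lit 22384369092) (nat_lit 1) (nat_lit 4) (nat_lit 2) (nat_lit 5) (nat_lit 2) (nat_lit 4) (nat_lit 314) (nat_lit 210) (nat_lit 196)))) (XT.nd (nat_lit 156) (nat_lit 0) (nat_lit 0) (XT.nd (nat_lit 78) (nat_lit 0) (nat_lit 0) (XT.lf (nat_lit 0) (nat_lit 387169852323) (nat_lit 76) (nat_lit 24594618309) (nat_lit 76) (nat_lit 22827239495) (nat_lit 1) (nat_lit 4) (nat_lit 2) (nat_lit 5) (nat_lit 2) (nat_lit 4) (nat_lit 315) (nat_lit 210) (nat_lit 195)) (XT.lf (nat_lit 0) (nat_lit 420755841108) (nat_lit 76) (nat_lit 25178786177) (nat_lit 76) (nat_lit 23351137217) (nat_lit 1) (nat_lit 4) (nat_lit 2) (nat_lit 5) (nat_lit 2) (nat_lit 4) (nat_lit 316) (nat_lit 210) (nat_lit 194))) (XT.nd (nat_lit 78) (nat_lit 0) (nat_lit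 0) (XT.lf (nat_lit 0) (nat_lit 456955605583) (nat_lit 76) (nat_lit 25842621487) (nat_lit 76) (nat_lit 23959166837) (nat_lit 1) (nat_lit 4) (nat_lit 2) (nat_lit 5) (nat_lit 2) (nat_lit 4) (nat_lit 317) (nat_lit 210) (nat_lit 193)) (XT.nd (nat_lit 78) (nat_lit 0) (nat_lit 0) (XT.lf (nat_lit 0) (nat_lit 495983662869) (nat_lit 76) (nat_lit 26590058079) (nat_lit 76) (nat_lit 24654931494) (nat_lit 1) (nat_lit 4) (nat_lit 2) (nat_lit 5) (nat_lit 2) (nat_lit 4) (nat_lit 318) (nat_lit 210) (nat_lit 192)) (XT.lf (nat_lit 0) (nat_lit 538071290344) (nat_lit 76) (nat_lit 27425525207) (nat_lit 76) (nat_lit 25442554236) (nat_lit 1) (nat_lit 4) (nat_lit 2) (nat_lit 5) (nat_lit 2) (nat_lit 4) (nat_lit 319) (nat_lit 210) (nat_lit 191)))))) (XT.nd (nat_lit 390) (nat_lit 0) (nat_lit 0) (XT.nd (nat_lit 156) (nat_lit 0) (nat_lit 0) (XT.nd (nat_lit 78) (nat_lit 0) (nat_lit 0) (XT.lf (nat_lit 0) (nat_lit 583467896170)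 (nat_lit 76) (nat_lit 28353973786) (nat_lit 76) (nat_lit 26326702458) (nat_lit 1) (nat_lit 4) (nat_lit 2) (nat_lit 5) (nat_lit 2) (nat_lit 4) (nat_lit 320) (nat_lit 210) (nat_lit 190)) (XT.lf (nat_lit 0) (nat_lit 632442497270) (nat_lit 76) (nat_lit 29380905734) (nat_lit 76) (nat_lit 27312615558) (nat_lit 1) (nat_lit 4) (nat_lit 2) (nat_lit 5) (nat_lit 2) (nat_lit 4) (nat_lit 321) (nat_lit 210) (nat_lit 189))) (XT.nd (nat_lit 78) (nat_lit 0) (nat_lit 0) (XT.lf (nat_lit 0) (nat_lit 685285313503) (nat_lit 76) (nat_lit 30512406574) (nat_lit 76) (nat_lit 28406135983) (nat_lit 1) (nat_lit 4) (nat_lit 2) (nat_lit 5) (nat_lit 2) (nat_lit 4) (nat_lit 322) (nat_lit 210) (nat_lit 188)) (XT.nd (nat_lit 78) (nat_lit 0) (nat_lit 0) (XT.lf (nat_lit 0) (nat_lit 742309487484) (nat_lit 76) (nat_lit 31755181495) (nat_lit 76) (nat_lit 29613743853) (nat_lit 1) (nat_lit 4) (nat_lit 2) (nat_lit 5) (nat_lit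 2) (nat_lit 4) (nat_lit 323) (nat_lit 210) (nat_lit 187)) (XT.lf (nat_lit 0) (nat_lit 803852940244) (nat_lit 76) (nat_lit 33116595091) (nat_lit 76) (nat_lit 30942595365) (nat_lit 1) (nat_lit 4) (nat_lit 2) (nat_lit 5) (nat_lit 2) (nat_lit 4) (nat_lit 324) (nat_lit 210) (nat_lit 186))))) (XT.nd (nat_lit 156) (nat_lit 0) (nat_lit 0) (XT.nd (nat_lit 78) (nat_lit 0) (nat_lit 0) (XT.lf (nat_lit 0) (nat_lit 870280373725) (nat_lit 76) (nat_lit 34604714998) (nat_lit 76) (nat_lit 32400565193) (nat_lit 1) (nat_lit 4) (nat_lit 2) (nat_lit 5) (nat_lit 2) (nat_lit 4) (nat_lit 325) (nat_lit 210) (nat_lit 185)) (XT.lf (nat_lit 0) (nat_lit 941985431976) (nat_lit 76) (nat_lit 36228359703) (nat_lit 76) (nat_lit 33996293159) (nat_lit 1) (nat_lit 4) (nat_lit 2) (nat_lit 5) (nat_lit 2) (nat_lit 4) (nat_lit 326) (nat_lit 210) (nat_lit 184))) (XT.nd (nat_lit 35256) (nat_lit 0) (nat_lit 0) (XT.lf (nat_lit 0)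 (nat_lit 1019393033863) (nat_lit 76) (nat_lit 37997150804) (nat_lit 76) (nat_lit 35739235428) (nat_lit 1) (nat_lit 4) (nat_lit 2) (nat_lit 5) (nat_lit 2) (nat_lit 4) (nat_lit 327) (nat_lit 210) (nat_lit 183)) (XT.nd (nat_lit 78) (nat_lit 0) (nat_lit 0) (XT.lf (nat_lit 0) (nat_lit 33987036945) (nat_lit 76) (nat_lit 12627778848) (nat_lit 76) (nat_lit 12627778848) (nat_lit 1) (nat_lit 4) (nat_lit 2) (nat_lit 5) (nat_lit 2) (nat_lit 4) (nat_lit 298) (nat_lit 211) (nat_lit 211)) (XT.lf (nat_lit 0) (nat_lit 78548594063) (nat_lit 76) (nat_lit 24738900959) (nat_lit 76) (nat_lit 24532418896) (nat_lit 1) (nat_lit 4) (nat_lit 2) (nat_lit 5) (nat_lit 2) (nat_lit 4) (nat_lit 299) (nat_lit 211) (nat_lit 210))))))) (XT.nd (nat_lit 780) (nat_lit 0) (nat_lit 0) (XT.nd (nat_lit 390) (nat_lit 0) (nat_lit 0) (XT.nd (nat_lit 156) (nat_lit 0) (nat_lit 0) (XT.nd (nat_lit 78) (nat_lit 0) (nat_lit 0) (XT.lf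 (nat_lit 0) (nat_lit 89718627747) (nat_lit 76) (nat_lit 24293741721) (nat_lit 76) (nat_lit 23896072564) (nat_lit 1) (nat_lit 4) (nat_lit 2) (nat_lit 5) (nat_lit 2) (nat_lit 4) (nat_lit 300) (nat_lit 211) (nat_lit 209)) (XT.lf (nat_lit 0) (nat_lit 101550367734) (nat_lit 76) (nat_lit 23917442004) (nat_lit 76) (nat_lit 23342747759) (nat_lit 1) (nat_lit 4) (nat_lit 2) (nat_lit 5) (nat_lit 2) (nat_lit 4) (nat_lit 301) (nat_lit 211) (nat_lit 208))) (XT.nd (nat_lit 78) (nat_lit 0) (nat_lit 0) (XT.lf (nat_lit 0) (nat_lit 114113928039) (nat_lit 76) (nat_lit 23607771883) (nat_lit 76) (nat_lit 22869165519) (nat_lit 1) (nat_lit 4) (nat_lit 2) (nat_lit 5) (nat_lit 2) (nat_lit 4) (nat_lit 302) (nat_lit 211) (nat_lit 207)) (XT.nd (nat_lit 78) (nat_lit 0) (nat_lit 0) (XT.lf (nat_lit 0) (nat_lit 127483759389) (nat_lit 76) (nat_lit 23362896276) (nat_lit 76) (nat_lit 22472519432) (nat_lit 1) (nat_lit 4)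 (nat_lit 2) (nat_lit 5) (nat_lit 2) (nat_lit 4) (nat_lit 303) (nat_lit 211) (nat_lit 206)) (XT.lf (nat_lit 0) (nat_lit 141739090416) (nat_lit 76) (nat_lit 23181364068) (nat_lit 76) (nat_lit 22150459002) (nat_lit 1) (nat_lit 4) (nat_lit 2) (nat_lit 5) (nat_lit 2) (nat_lit 4) (nat_lit 304) (nat_lit 211) (nat_lit 205))))) (XT.nd (nat_lit 156) (nat_lit 0) (nat_lit 0) (XT.nd (nat_lit 78) (nat_lit 0) (nat_lit 0) (XT.lf (nat_lit 0) (nat_lit 156964397154) (nat_lit 76) (nat_lit 23062099513) (nat_lit 76) (nat_lit 21901075722) (nat_lit 1) (nat_lit 4) (nat_lit 2) (nat_lit 5) (nat_lit 2) (nat_lit 4) (nat_lit 305) (nat_lit 211) (nat_lit 204)) (XT.lf (nat_lit 0) (nat_lit 173249903644) (nat_lit 76) (nat_lit 23004395858) (nat_lit 76) (nat_lit 21722891767) (nat_lit 1) (nat_lit 4) (nat_lit 2) (nat_lit 5) (nat_lit 2) (nat_lit 4) (nat_lit 306) (nat_lit 211) (nat_lit 203))) (XT.nd (nat_lit 78) (nat_lit 0)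 (nat_lit 0) (XT.lf (nat_lit 0) (nat_lit 190692116591) (nat_lit 76) (nat_lit 23007911155) (nat_lit 76) (nat_lit 21614851230) (nat_lit 1) (nat_lit 4) (nat_lit 2) (nat_lit 5) (nat_lit 2) (nat_lit 4) (nat_lit 307) (nat_lit 211) (nat_lit 202)) (XT.nd (nat_lit 78) (nat_lit 0) (nat_lit 0) (XT.lf (nat_lit 0) (nat_lit 209394397256) (nat_lit 76) (nat_lit 23072666235) (nat_lit 76) (nat_lit 21576313873) (nat_lit 1) (nat_lit 4) (nat_lit 2) (nat_lit 5) (nat_lit 2) (nat_lit 4) (nat_lit 308) (nat_lit 211) (nat_lit 201)) (XT.lf (nat_lit 0) (nat_lit 229467573970) (nat_lit 76) (nat_lit 23199044834) (nat_lit 76) (nat_lit 21607051324) (nat_lit 1) (nat_lit 4) (nat_lit 2) (nat_lit 5) (nat_lit 2) (nat_lit 4) (nat_lit 309) (nat_lit 211) (nat_lit 200)))))) (XT.nd (nat_lit 390) (nat_lit 0) (nat_lit 0) (XT.nd (nat_lit 156) (nat_lit 0) (nat_lit 0) (XT.nd (nat_lit 78) (nat_lit 0) (nat_lit 0) (XT.lf (nat_lit 0) (nat_lit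 251030598891) (nat_lit 76) (nat_lit 23387795860) (nat_lit 76) (nat_lit 21707245733) (nat_lit 1) (nat_lit 4) (nat_lit 2) (nat_lit 5) (nat_lit 2) (nat_lit 4) (nat_lit 310) (nat_lit 211) (nat_lit 199)) (XT.lf (nat_lit 0) (nat_lit 274211252906) (nat_lit 76) (nat_lit 23640037838) (nat_lit 76) (nat_lit 21877490843) (nat_lit 1) (nat_lit 4) (nat_lit 2) (nat_lit 5) (nat_lit 2) (nat_lit 4) (nat_lit 311) (nat_lit 211) (nat_lit 198))) (XT.nd (nat_lit 78) (nat_lit 0) (nat_lit 0) (XT.lf (nat_lit 0) (nat_lit 299146902856) (nat_lit 76) (nat_lit 23957265536) (nat_lit 76) (nat_lit 22118795515) (nat_lit 1) (nat_lit 4) (nat_lit 2) (nat_lit 5) (nat_lit 2) (nat_lit 4) (nat_lit 312) (nat_lit 211) (nat_lit 197)) (XT.nd (nat_lit 78) (nat_lit 0) (nat_lit 0) (XT.lf (nat_lit 0) (nat_lit 325985315554) (nat_lit 76) (nat_lit 24341358821) (nat_lit 76) (nat_lit 22432589702) (nat_lit 1) (nat_lit 4) (nat_lit 2) (nat_lit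 5) (nat_lit 2) (nat_lit 4) (nat_lit 313) (nat_lit 211) (nat_lit 196)) (XT.lf (nat_lit 0) (nat_lit 354885533446) (nat_lit 76) (nat_lit 24794593802) (nat_lit 76) (nat_lit 22820732926) (nat_lit 1) (nat_lit 4) (nat_lit 2) (nat_lit 5) (nat_lit 2) (nat_lit 4) (nat_lit 314) (nat_lit 211) (nat_lit 195))))) (XT.nd (nat_lit 156) (nat_lit 0) (nat_lit 0) (XT.nd (nat_lit 78) (nat_lit 0) (nat_lit 0) (XT.lf (nat_lit 0) (nat_lit 386018817082) (nat_lit 76) (nat_lit 25319656316) (nat_lit 76) (nat_lit 23285525294) (nat_lit 1) (nat_lit 4) (nat_lit 2) (nat_lit 5) (nat_lit 2) (nat_lit 4) (nat_lit 315) (nat_lit 211) (nat_lit 194)) (XT.lf (nat_lit 0) (nat_lit 419569659996) (nat_lit 76) (nat_lit 25919657844) (nat_lit 76) (nat_lit 23829721131) (nat_lit 1) (nat_lit 4) (nat_lit 2) (nat_lit 5) (nat_lit 2) (nat_lit 4) (nat_lit 316) (nat_lit 211) (nat_lit 193))) (XT.nd (nat_lit 78) (nat_lit 0) (nat_lit 0) (XT.lf (nat_lit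 0) (nat_lit 455736881996) (nat_lit 76) (nat_lit 26598153951) (nat_lit 76) (nat_lit 24456545302) (nat_lit 1) (nat_lit 4) (nat_lit 2) (nat_lit 5) (nat_lit 2) (nat_lit 4) (nat_lit 317) (nat_lit 211) (nat_lit 192)) (XT.nd (nat_lit 78) (nat_lit 0) (nat_lit 0) (XT.lf (nat_lit 0) (nat_lit 494734807362) (nat_lit 76) (nat_lit 27359165354) (nat_lit 76) (nat_lit 25169712321) (nat_lit 1) (nat_lit 4) (nat_lit 2) (nat_lit 5) (nat_lit 2) (nat_lit 4) (nat_lit 318) (nat_lit 211) (nat_lit 191)) (XT.lf (nat_lit 0) (nat_lit 536794534910) (nat_lit 76) (nat_lit 28207201751) (nat_lit 76) (nat_lit 25973448362) (nat_lit 1) (nat_lit 4) (nat_lit 2) (nat_lit 5) (nat_lit 2) (nat_lit 4) (nat_lit 319) (nat_lit 211) (nat_lit 190))))))))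
noncomputable def xc6 : XT := (XT.nd (nat_lit 36504) (nat_lit 0) (nat_lit 0) (XT.nd (nat_lit 35724) (nat_lit 0) (nat_lit 0) (XT.nd (nat_lit 312) (nat_lit 0) (nat_lit 0) (XT.nd (nat_lit 156) (nat_lit 0) (nat_lit 0) (XT.nd (nat_lit 78) (nat_lit 0) (nat_lit 0) (XT.lf (nat_lit 0) (nat_lit 582165307471) (nat_lit 76) (nat_lit 29147288543) (nat_lit 76) (nat_lit 26872516305) (nat_lit 1) (nat_lit 4) (nat_lit 2) (nat_lit 5) (nat_lit 2) (nat_lit 4) (nat_lit 320) (nat_lit 211) (nat_lit 189)) (XT.lf (nat_lit 0) (nat_lit 631115988881) (nat_lit 76) (nat_lit 30184996614) (nat_lit 76) (nat_lit 27872243961) (nat_lit 1) (nat_lit 4) (nat_lit 2) (nat_lit 5) (nat_lit 2) (nat_lit 4) (nat_lit 321) (nat_lit 211) (nat_lit 188))) (XT.nd (nat_lit 78) (nat_lit 0) (nat_lit 0) (XT.lf (nat_lit 0) (nat_lit 683936657253) (nat_lit 76) (nat_lit 31326475346) (nat_lit 76) (nat_lit 28978555642) (nat_lit 1) (nat_lit 4) (nat_lit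 2) (nat_lit 5) (nat_lit 2) (nat_lit 4) (nat_lit 322) (nat_lit 211) (nat_lit 187)) (XT.lf (nat_lit 0) (nat_lit 740940323956) (nat_lit 76) (nat_lit 32578489057) (nat_lit 76) (nat_lit 30198007268) (nat_lit 1) (nat_lit 4) (nat_lit 2) (nat_lit 5) (nat_lit 2) (nat_lit 4) (nat_lit 323) (nat_lit 211) (nat_lit 186)))) (XT.nd (nat_lit 156) (nat_lit 0) (nat_lit 0) (XT.nd (nat_lit 78) (nat_lit 0) (nat_lit 0) (XT.lf (nat_lit 0) (nat_lit 802464788494) (nat_lit 76) (nat_lit 33948457087) (nat_lit 76) (nat_lit 31537825219) (nat_lit 1) (nat_lit 4) (nat_lit 2) (nat_lit 5) (nat_lit 2) (nat_lit 4) (nat_lit 324) (nat_lit 211) (nat_lit 185)) (XT.lf (nat_lit 0) (nat_lit 868874640289) (nat_lit 76) (nat_lit 35444497765) (nat_lit 76) (nat_lit 33005949159) (nat_lit 1) (nat_lit 4) (nat_lit 2) (nat_lit 5) (nat_lit 2) (nat_lit 4) (nat_lit 325) (nat_lit 211) (nat_lit 184))) (XT.nd (nat_lit 78) (nat_lit 0) (nat_lit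 0) (XT.lf (nat_lit 0) (nat_lit 940563419201) (nat_lit 76) (nat_lit 37075476518) (nat_lit 76) (nat_lit 34611079079) (nat_lit 1) (nat_lit 4) (nat_lit 2) (nat_lit 5) (nat_lit 2) (nat_lit 4) (nat_lit 326) (nat_lit 211) (nat_lit 183)) (XT.nd (nat_lit 35100) (nat_lit 0) (nat_lit 0) (XT.lf (nat_lit 0) (nat_lit 1017955947626) (nat_lit 76) (nat_lit 38851058405) (nat_lit 76) (nat_lit 36362726862) (nat_lit 1) (nat_lit 4) (nat_lit 2) (nat_lit 5) (nat_lit 2) (nat_lit 4) (nat_lit 327) (nat_lit 211) (nat_lit 182)) (XT.lf (nat_lit 0) (nat_lit 24252260001) (nat_lit 76) (nat_lit 13337890600) (nat_lit 76) (nat_lit 13337890600) (nat_lit 1) (nat_lit 4) (nat_lit 2) (nat_lit 5) (nat_lit 2) (nat_lit 4) (nat_lit 296) (nat_lit 212) (nat_lit 212)))))) (XT.nd (nat_lit 390) (nat_lit 0) (nat_lit 0) (XT.nd (nat_lit 156) (nat_lit 0) (nat_lit 0) (XT.nd (nat_lit 78) (nat_lit 0) (nat_lit 0) (XT.lf (nat_lit 0) (nat_lit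 57932403406) (nat_lit 76) (nat_lit 26069774234) (nat_lit 76) (nat_lit 25846773607) (nat_lit 1) (nat_lit 4) (nat_lit 2) (nat_lit 5) (nat_lit 2) (nat_lit 4) (nat_lit 297) (nat_lit 212) (nat_lit 211)) (XT.lf (nat_lit 0) (nat_lit 67844033529) (nat_lit 76) (nat_lit 25537143153) (nat_lit 76) (nat_lit 25107660463) (nat_lit 1) (nat_lit 4) (nat_lit 2) (nat_lit 5) (nat_lit 2) (nat_lit 4) (nat_lit 298) (nat_lit 212) (nat_lit 210))) (XT.nd (nat_lit 78) (nat_lit 0) (nat_lit 0) (XT.lf (nat_lit 0) (nat_lit 78298145960) (nat_lit 76) (nat_lit 25074731626) (nat_lit 76) (nat_lit 24454061841) (nat_lit 1) (nat_lit 4) (nat_lit 2) (nat_lit 5) (nat_lit 2) (nat_lit 4) (nat_lit 299) (nat_lit 212) (nat_lit 209)) (XT.nd (nat_lit 78) (nat_lit 0) (nat_lit 0) (XT.lf (nat_lit 0) (nat_lit 89356690994) (nat_lit 76) (nat_lit 24679799437) (nat_lit 76) (nat_lit 23882104564) (nat_lit 1) (nat_lit 4) (nat_lit 2) (nat_lit 5)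 (nat_lit 2) (nat_lit 4) (nat_lit 300) (nat_lit 212) (nat_lit 208)) (XT.lf (nat_lit 0) (nat_lit 101085200750) (nat_lit 76) (nat_lit 24350006245) (nat_lit 76) (nat_lit 23388399254) (nat_lit 1) (nat_lit 4) (nat_lit 2) (nat_lit 5) (nat_lit 2) (nat_lit 4) (nat_lit 301) (nat_lit 212) (nat_lit 207))))) (XT.nd (nat_lit 156) (nat_lit 0) (nat_lit 0) (XT.nd (nat_lit 78) (nat_lit 0) (nat_lit 0) (XT.lf (nat_lit 0) (nat_lit 113553177508) (nat_lit 76) (nat_lit 24083397722) (nat_lit 76) (nat_lit 22970020251) (nat_lit 1) (nat_lit 4) (nat_lit 2) (nat_lit 5) (nat_lit 2) (nat_lit 4) (nat_lit 302) (nat_lit 212) (nat_lit 206)) (XT.lf (nat_lit 0) (nat_lit 126834505574) (nat_lit 76) (nat_lit 23878393965) (nat_lit 76) (nat_lit 22624488271) (nat_lit 1) (nat_lit 4) (nat_lit 2) (nat_lit 5) (nat_lit 2) (nat_lit 4) (nat_lit 303) (nat_lit 212) (nat_lit 205))) (XT.nd (nat_lit 78) (nat_lit 0) (nat_lit 0) (XT.lf (nat_lit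 0) (nat_lit 141007889114) (nat_lit 76) (nat_lit 23733780136) (nat_lit 76) (nat_lit 22349755719) (nat_lit 1) (nat_lit 4) (nat_lit 2) (nat_lit 5) (nat_lit 2) (nat_lit 4) (nat_lit 304) (nat_lit 212) (nat_lit 204)) (XT.nd (nat_lit 78) (nat_lit 0) (nat_lit 0) (XT.lf (nat_lit 0) (nat_lit 156157318551) (nat_lit 76) (nat_lit 23648699266) (nat_lit 76) (nat_lit 22144194548) (nat_lit 1) (nat_lit 4) (nat_lit 2) (nat_lit 5) (nat_lit 2) (nat_lit 4) (nat_lit 305) (nat_lit 212) (nat_lit 203)) (XT.lf (nat_lit 0) (nat_lit 172372568280) (nat_lit 76) (nat_lit 23622647171) (nat_lit 76) (nat_lit 22006586619) (nat_lit 1) (nat_lit 4) (nat_lit 2) (nat_lit 5) (nat_lit 2) (nat_lit 4) (nat_lit 306) (nat_lit 212) (nat_lit 202))))))) (XT.nd (nat_lit 780) (nat_lit 0) (nat_lit 0) (XT.nd (nat_lit 390) (nat_lit 0) (nat_lit 0) (XT.nd (nat_lit 156) (nat_lit 0) (nat_lit 0) (XT.nd (nat_lit 78) (nat_lit 0) (nat_lit 0) (XT.lf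 (nat_lit 0) (nat_lit 189749728671) (nat_lit 76) (nat_lit 23655469468) (nat_lit 76) (nat_lit 21936116478) (nat_lit 1) (nat_lit 4) (nat_lit 2) (nat_lit 5) (nat_lit 2) (nat_lit 4) (nat_lit 307) (nat_lit 212) (nat_lit 201)) (XT.lf (nat_lit 0) (nat_lit 208391775487) (nat_lit 76) (nat_lit 23747360660) (nat_lit 76) (nat_lit 21932366523) (nat_lit 1) (nat_lit 4) (nat_lit 2) (nat_lit 5) (nat_lit 2) (nat_lit 4) (nat_lit 308) (nat_lit 212) (nat_lit 200))) (XT.nd (nat_lit 78) (nat_lit 0) (nat_lit 0) (XT.lf (nat_lit 0) (nat_lit 228409180119) (nat_lit 76) (nat_lit 23898865287) (nat_lit 76) (nat_lit 21995314532) (nat_lit 1) (nat_lit 4) (nat_lit 2) (nat_lit 5) (nat_lit 2) (nat_lit 4) (nat_lit 309) (nat_lit 212) (nat_lit 199)) (XT.nd (nat_lit 78) (nat_lit 0) (nat_lit 0) (XT.lf (nat_lit 0) (nat_lit 249920564223) (nat_lit 76) (nat_lit 24110881154) (nat_lit 76) (nat_lit 22125333532) (nat_lit 1) (nat_lit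 4) (nat_lit 2) (nat_lit 5) (nat_lit 2) (nat_lit 4) (nat_lit 310) (nat_lit 212) (nat_lit 198)) (XT.lf (nat_lit 0) (nat_lit 273053402668) (nat_lit 76) (nat_lit 24384664652) (nat_lit 76) (nat_lit 22323194004) (nat_lit 1) (nat_lit 4) (nat_lit 2) (nat_lit 5) (nat_lit 2) (nat_lit 4) (nat_lit 311) (nat_lit 212) (nat_lit 197))))) (XT.nd (nat_lit 156) (nat_lit 0) (nat_lit 0) (XT.nd (nat_lit 78) (nat_lit 0) (nat_lit 0) (XT.lf (nat_lit 0) (nat_lit 297944778941) (nat_lit 76) (nat_lit 24721838202) (nat_lit 76) (nat_lit 22590068455) (nat_lit 1) (nat_lit 4) (nat_lit 2) (nat_lit 5) (nat_lit 2) (nat_lit 4) (nat_lit 312) (nat_lit 212) (nat_lit 196)) (XT.lf (nat_lit 0) (nat_lit 324742197494) (nat_lit 76) (nat_lit 25124399868) (nat_lit 76) (nat_lit 22927538364) (nat_lit 1) (nat_lit 4) (nat_lit 2) (nat_lit 5) (nat_lit 2) (nat_lit 4) (nat_lit 313) (nat_lit 212) (nat_lit 195))) (XT.nd (nat_lit 78) (nat_lit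 0) (nat_lit 0) (XT.lf (nat_lit 0) (nat_lit 353604457844) (nat_lit 76) (nat_lit 25594735202) (nat_lit 76) (nat_lit 23337603553) (nat_lit 1) (nat_lit 4) (nat_lit 2) (nat_lit 5) (nat_lit 2) (nat_lit 4) (nat_lit 314) (nat_lit 212) (nat_lit 194)) (XT.nd (nat_lit 78) (nat_lit 0) (nat_lit 0) (XT.lf (nat_lit 0) (nat_lit 384702595608) (nat_lit 76) (nat_lit 26135631376) (nat_lit 76) (nat_lit 23822694036) (nat_lit 1) (nat_lit 4) (nat_lit 2) (nat_lit 5) (nat_lit 2) (nat_lit 4) (nat_lit 315) (nat_lit 212) (nat_lit 193)) (XT.lf (nat_lit 0) (nat_lit 418220896048) (nat_lit 76) (nat_lit 26750293701) (nat_lit 76) (nat_lit 24385684425) (nat_lit 1) (nat_lit 4) (nat_lit 2) (nat_lit 5) (nat_lit 2) (nat_lit 4) (nat_lit 316) (nat_lit 212) (nat_lit 192)))))) (XT.nd (nat_lit 390) (nat_lit 0) (nat_lit 0) (XT.nd (nat_lit 156) (nat_lit 0) (nat_lit 0) (XT.nd (nat_lit 78) (nat_lit 0) (nat_lit 0) (XT.lf (nat_lit 0)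 (nat_lit 454357986128) (nat_lit 76) (nat_lit 27442364619) (nat_lit 76) (nat_lit 25029910959) (nat_lit 1) (nat_lit 4) (nat_lit 2) (nat_lit 5) (nat_lit 2) (nat_lit 4) (nat_lit 317) (nat_lit 212) (nat_lit 191)) (XT.lf (nat_lit 0) (nat_lit 493328011567) (nat_lit 76) (nat_lit 28215945293) (nat_lit 76) (nat_lit 25759191276) (nat_lit 1) (nat_lit 4) (nat_lit 2) (nat_lit 5) (nat_lit 2) (nat_lit 4) (nat_lit 318) (nat_lit 212) (nat_lit 190))) (XT.nd (nat_lit 78) (nat_lit 0) (nat_lit 0) (XT.lf (nat_lit 0) (nat_lit 535361905850) (nat_lit 76) (nat_lit 29075619903) (nat_lit 76) (nat_lit 26577847037) (nat_lit 1) (nat_lit 4) (nat_lit 2) (nat_lit 5) (nat_lit 2) (nat_lit 4) (nat_lit 319) (nat_lit 212) (nat_lit 189)) (XT.nd (nat_lit 78) (nat_lit 0) (nat_lit 0) (XT.lf (nat_lit 0) (nat_lit 580708758721) (nat_lit 76) (nat_lit 30026482818) (nat_lit 76) (nat_lit 27490729537) (nat_lit 1) (nat_lit 4) (nat_lit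 2) (nat_lit 5) (nat_lit 2) (nat_lit 4) (nat_lit 320) (nat_lit 212) (nat_lit 188)) (XT.lf (nat_lit 0) (nat_lit 629637292270) (nat_lit 76) (nat_lit 31074168781) (nat_lit 76) (nat_lit 28503248448) (nat_lit 1) (nat_lit 4) (nat_lit 2) (nat_lit 5) (nat_lit 2) (nat_lit 4) (nat_lit 321) (nat_lit 212) (nat_lit 187))))) (XT.nd (nat_lit 156) (nat_lit 0) (nat_lit 0) (XT.nd (nat_lit 78) (nat_lit 0) (nat_lit 0) (XT.lf (nat_lit 0) (nat_lit 682437453364) (nat_lit 76) (nat_lit 32224886301) (nat_lit 76) (nat_lit 29621403884) (nat_lit 1) (nat_lit 4) (nat_lit 2) (nat_lit 5) (nat_lit 2) (nat_lit 4) (nat_lit 322) (nat_lit 212) (nat_lit 186)) (XT.lf (nat_lit 0) (nat_lit 739422131845) (nat_lit 76) (nat_lit 33485454445) (nat_lit 76) (nat_lit 30851821951) (nat_lit 1) (nat_lit 4) (nat_lit 2) (nat_lit 5) (nat_lit 2) (nat_lit 4) (nat_lit 323) (nat_lit 212) (nat_lit 185))) (XT.nd (nat_lit 78) (nat_lit 0) (nat_lit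 0) (XT.lf (nat_lit 0) (nat_lit 800929014697) (nat_lit 76) (nat_lit 34863343247) (nat_lit 76) (nat_lit 32201794014) (nat_lit 1) (nat_lit 4) (nat_lit 2) (nat_lit 5) (nat_lit 2) (nat_lit 4) (nat_lit 324) (nat_lit 212) (nat_lit 184)) (XT.nd (nat_lit 78) (nat_lit 0) (nat_lit 0) (XT.lf (nat_lit 0) (nat_lit 867322587153) (nat_lit 76) (nat_lit 36366717974) (nat_lit 76) (nat_lit 33679319908) (nat_lit 1) (nat_lit 4) (nat_lit 2) (nat_lit 5) (nat_lit 2) (nat_lit 4) (nat_lit 325) (nat_lit 212) (nat_lit 183)) (XT.lf (nat_lit 0) (nat_lit 938996292603) (nat_lit 76) (nat_lit 38004487513) (nat_lit 76) (nat_lit 35293155342) (nat_lit 1) (nat_lit 4) (nat_lit 2) (nat_lit 5) (nat_lit 2) (nat_lit 4) (nat_lit 326) (nat_lit 212) (nat_lit 182))))))))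
noncomputable def xc7 : XT := (XT.nd (nat_lit 36348) (nat_lit 0) (nat_lit 0) (XT.nd (nat_lit 35568) (nat_lit 0) (nat_lit 0) (XT.nd (nat_lit 35178) (nat_lit 0) (nat_lit 0) (XT.nd (nat_lit 35022) (nat_lit 0) (nat_lit 0) (XT.nd (nat_lit 34944) (nat_lit 0) (nat_lit 0) (XT.lf (nat_lit 0) (nat_lit 1016374864119) (nat_lit 76) (nat_lit 39786357164) (nat_lit 76) (nat_lit 37052863786) (nat_lit 1) (nat_lit 4) (nat_lit 2) (nat_lit 5) (nat_lit 2) (nat_lit 4) (nat_lit 327) (nat_lit 212) (nat_lit 181)) (XT.lf (nat_lit 0) (nat_lit 15515366128) (nat_lit 76) (nat_lit 14147625418) (nat_lit 76) (nat_lit 14147625418) (nat_lit 1) (nat_lit 4) (nat_lit 2) (nat_lit 5) (nat_lit 2) (nat_lit 4) (nat_lit 294) (nat_lit 213) (nat_lit 213))) (XT.nd (nat_lit 78) (nat_lit 0) (nat_lit 0) (XT.lf (nat_lit 0) (nat_lit 39504514383) (nat_lit 76) (nat_lit 27599595884) (nat_lit 76) (nat_lit 27358755206) (nat_lit 1) (nat_lit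 4) (nat_lit 2) (nat_lit 5) (nat_lit 2) (nat_lit 4) (nat_lit 295) (nat_lit 213) (nat_lit 212)) (XT.lf (nat_lit 0) (nat_lit 48364076413) (nat_lit 76) (nat_lit 26979893493) (nat_lit 76) (nat_lit 26516052188) (nat_lit 1) (nat_lit 4) (nat_lit 2) (nat_lit 5) (nat_lit 2) (nat_lit 4) (nat_lit 296) (nat_lit 213) (nat_lit 211)))) (XT.nd (nat_lit 156) (nat_lit 0) (nat_lit 0) (XT.nd (nat_lit 78) (nat_lit 0) (nat_lit 0) (XT.lf (nat_lit 0) (nat_lit 57661919455) (nat_lit 76) (nat_lit 26432471355) (nat_lit 76) (nat_lit 25762147987) (nat_lit 1) (nat_lit 4) (nat_lit 2) (nat_lit 5) (nat_lit 2) (nat_lit 4) (nat_lit 297) (nat_lit 213) (nat_lit 210)) (XT.lf (nat_lit 0) (nat_lit 67453141837) (nat_lit 76) (nat_lit 25954085486) (nat_lit 76) (nat_lit 25092575023) (nat_lit 1) (nat_lit 4) (nat_lit 2) (nat_lit 5) (nat_lit 2) (nat_lit 4) (nat_lit 298) (nat_lit 213) (nat_lit 209))) (XT.nd (nat_lit 78) (nat_lit 0)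 (nat_lit 0) (XT.lf (nat_lit 0) (nat_lit 77795765618) (nat_lit 76) (nat_lit 25541901007) (nat_lit 76) (nat_lit 24503365456) (nat_lit 1) (nat_lit 4) (nat_lit 2) (nat_lit 5) (nat_lit 2) (nat_lit 4) (nat_lit 299) (nat_lit 213) (nat_lit 208)) (XT.nd (nat_lit 78) (nat_lit 0) (nat_lit 0) (XT.lf (nat_lit 0) (nat_lit 88751080421) (nat_lit 76) (nat_lit 25193475343) (nat_lit 76) (nat_lit 23991027674) (nat_lit 1) (nat_lit 4) (nat_lit 2) (nat_lit 5) (nat_lit 2) (nat_lit 4) (nat_lit 300) (nat_lit 213) (nat_lit 207)) (XT.lf (nat_lit 0) (nat_lit 100384006629) (nat_lit 76) (nat_lit 24906743749) (nat_lit 76) (nat_lit 23552525600) (nat_lit 1) (nat_lit 4) (nat_lit 2) (nat_lit 5) (nat_lit 2) (nat_lit 4) (nat_lit 301) (nat_lit 213) (nat_lit 206)))))) (XT.nd (nat_lit 390) (nat_lit 0) (nat_lit 0) (XT.nd (nat_lit 156) (nat_lit 0) (nat_lit 0) (XT.nd (nat_lit 78) (nat_lit 0) (nat_lit 0) (XT.lf (nat_lit 0) (nat_lit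 112763480102) (nat_lit 76) (nat_lit 24680007076) (nat_lit 76) (nat_lit 23185260705) (nat_lit 1) (nat_lit 4) (nat_lit 2) (nat_lit 5) (nat_lit 2) (nat_lit 4) (nat_lit 302) (nat_lit 213) (nat_lit 205)) (XT.lf (nat_lit 0) (nat_lit 125962860682) (nat_lit 76) (nat_lit 24511921698) (nat_lit 76) (nat_lit 22887056603) (nat_lit 1) (nat_lit 4) (nat_lit 2) (nat_lit 5) (nat_lit 2) (nat_lit 4) (nat_lit 303) (nat_lit 213) (nat_lit 204))) (XT.nd (nat_lit 78) (nat_lit 0) (nat_lit 0) (XT.lf (nat_lit 0) (nat_lit 140060366921) (nat_lit 76) (nat_lit 24401491555) (nat_lit 76) (nat_lit 22656146159) (nat_lit 1) (nat_lit 4) (nat_lit 2) (nat_lit 5) (nat_lit 2) (nat_lit 4) (nat_lit 304) (nat_lit 213) (nat_lit 203)) (XT.nd (nat_lit 78) (nat_lit 0) (nat_lit 0) (XT.lf (nat_lit 0) (nat_lit 155139539597) (nat_lit 76) (nat_lit 24348062244) (nat_lit 76) (nat_lit 22491161015) (nat_lit 1) (nat_lit 4) (nat_lit 2) (nat_lit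 5) (nat_lit 2) (nat_lit 4) (nat_lit 305) (nat_lit 213) (nat_lit 202)) (XT.lf (nat_lit 0) (nat_lit 171289736770) (nat_lit 76) (nat_lit 24351317149) (nat_lit 76) (nat_lit 22391123481) (nat_lit 1) (nat_lit 4) (nat_lit 2) (nat_lit 5) (nat_lit 2) (nat_lit 4) (nat_lit 306) (nat_lit 213) (nat_lit 201))))) (XT.nd (nat_lit 156) (nat_lit 0) (nat_lit 0) (XT.nd (nat_lit 78) (nat_lit 0) (nat_lit 0) (XT.lf (nat_lit 0) (nat_lit 188606663312) (nat_lit 76) (nat_lit 24411275557) (nat_lit 76) (nat_lit 22355440742) (nat_lit 1) (nat_lit 4) (nat_lit 2) (nat_lit 5) (nat_lit 2) (nat_lit 4) (nat_lit 307) (nat_lit 213) (nat_lit 200)) (XT.lf (nat_lit 0) (nat_lit 207192938047) (nat_lit 76) (nat_lit 24528292778) (nat_lit 76) (nat_lit 22383901345) (nat_lit 1) (nat_lit 4) (nat_lit 2) (nat_lit 5) (nat_lit 2) (nat_lit 4) (nat_lit 308) (nat_lit 213) (nat_lit 199))) (XT.nd (nat_lit 78) (nat_lit 0) (nat_lit 0) (XT.lf (nat_lit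 0) (nat_lit 227158701862) (nat_lit 76) (nat_lit 24703062246) (nat_lit 76) (nat_lit 22476673946) (nat_lit 1) (nat_lit 4) (nat_lit 2) (nat_lit 5) (nat_lit 2) (nat_lit 4) (nat_lit 309) (nat_lit 213) (nat_lit 198)) (XT.nd (nat_lit 78) (nat_lit 0) (nat_lit 0) (XT.lf (nat_lit 0) (nat_lit 248622270395) (nat_lit 76) (nat_lit 24936619634) (nat_lit 76) (nat_lit 22634308307) (nat_lit 1) (nat_lit 4) (nat_lit 2) (nat_lit 5) (nat_lit 2) (nat_lit 4) (nat_lit 310) (nat_lit 213) (nat_lit 197)) (XT.lf (nat_lit 0) (nat_lit 271710835163) (nat_lit 76) (nat_lit 25230348983) (nat_lit 76) (nat_lit 22857738559) (nat_lit 1) (nat_lit 4) (nat_lit 2) (nat_lit 5) (nat_lit 2) (nat_lit 4) (nat_lit 311) (nat_lit 213) (nat_lit 196))))))) (XT.nd (nat_lit 780) (nat_lit 0) (nat_lit 0) (XT.nd (nat_lit 390) (nat_lit 0) (nat_lit 0) (XT.nd (nat_lit 156) (nat_lit 0) (nat_lit 0) (XT.nd (nat_lit 78) (nat_lit 0) (nat_lit 0) (XT.lf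 (nat_lit 0) (nat_lit 296561217291) (nat_lit 76) (nat_lit 25585990914) (nat_lit 76) (nat_lit 23148288733) (nat_lit 1) (nat_lit 4) (nat_lit 2) (nat_lit 5) (nat_lit 2) (nat_lit 4) (nat_lit 312) (nat_lit 213) (nat_lit 195)) (XT.lf (nat_lit 0) (nat_lit 323320678302) (nat_lit 76) (nat_lit 26005652934) (nat_lit 76) (nat_lit 23507680606) (nat_lit 1) (nat_lit 4) (nat_lit 2) (nat_lit 5) (nat_lit 2) (nat_lit 4) (nat_lit 313) (nat_lit 213) (nat_lit 194))) (XT.nd (nat_lit 78) (nat_lit 0) (nat_lit 0) (XT.lf (nat_lit 0) (nat_lit 352147792780) (nat_lit 76) (nat_lit 26491821928) (nat_lit 76) (nat_lit 23938043910) (nat_lit 1) (nat_lit 4) (nat_lit 2) (nat_lit 5) (nat_lit 2) (nat_lit 4) (nat_lit 314) (nat_lit 213) (nat_lit 193)) (XT.nd (nat_lit 78) (nat_lit 0) (nat_lit 0) (XT.lf (nat_lit 0) (nat_lit 383213388070) (nat_lit 76) (nat_lit 27047378898) (nat_lit 76) (nat_lit 24441928945) (nat_lit 1) (nat_lit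 4) (nat_lit 2) (nat_lit 5) (nat_lit 2) (nat_lit 4) (nat_lit 315) (nat_lit 213) (nat_lit 192)) (XT.lf (nat_lit 0) (nat_lit 416701556589) (nat_lit 76) (nat_lit 27675616034) (nat_lit 76) (nat_lit 25022321696) (nat_lit 1) (nat_lit 4) (nat_lit 2) (nat_lit 5) (nat_lit 2) (nat_lit 4) (nat_lit 316) (nat_lit 213) (nat_lit 191))))) (XT.nd (nat_lit 156) (nat_lit 0) (nat_lit 0) (XT.nd (nat_lit 78) (nat_lit 0) (nat_lit 0) (XT.lf (nat_lit 0) (nat_lit 452810746743) (nat_lit 76) (nat_lit 28380256223) (nat_lit 76) (nat_lit 25682661528) (nat_lit 1) (nat_lit 4) (nat_lit 2) (nat_lit 5) (nat_lit 2) (nat_lit 4) (nat_lit 317) (nat_lit 213) (nat_lit 190)) (XT.lf (nat_lit 0) (nat_lit 491754938917) (nat_lit 76) (nat_lit 29165475109) (nat_lit 76) (nat_lit 26426861566) (nat_lit 1) (nat_lit 4) (nat_lit 2) (nat_lit 5) (nat_lit 2) (nat_lit 4) (nat_lit 318) (nat_lit 213) (nat_lit 189))) (XT.nd (nat_lit 78) (nat_lit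 0) (nat_lit 0) (XT.lf (nat_lit 0) (nat_lit 533764913510) (nat_lit 76) (nat_lit 30035925842) (nat_lit 76) (nat_lit 27259331884) (nat_lit 1) (nat_lit 4) (nat_lit 2) (nat_lit 5) (nat_lit 2) (nat_lit 4) (nat_lit 319) (nat_lit 213) (nat_lit 188)) (XT.nd (nat_lit 78) (nat_lit 0) (nat_lit 0) (XT.lf (nat_lit 0) (nat_lit 579089618520) (nat_lit 76) (nat_lit 30996766649) (nat_lit 76) (nat_lit 28185005639) (nat_lit 1) (nat_lit 4) (nat_lit 2) (nat_lit 5) (nat_lit 2) (nat_lit 4) (nat_lit 320) (nat_lit 213) (nat_lit 187)) (XT.lf (nat_lit 0) (nat_lit 627997644791) (nat_lit 76) (nat_lit 32053691400) (nat_lit 76) (nat_lit 29209368306) (nat_lit 1) (nat_lit 4) (nat_lit 2) (nat_lit 5) (nat_lit 2) (nat_lit 4) (nat_lit 321) (nat_lit 213) (nat_lit 186)))))) (XT.nd (nat_lit 390) (nat_lit 0) (nat_lit 0) (XT.nd (nat_lit 156) (nat_lit 0) (nat_lit 0) (XT.nd (nat_lit 78) (nat_lit 0) (nat_lit 0) (XT.lf (nat_lit 0)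 (nat_lit 680778817663) (nat_lit 76) (nat_lit 33212963355) (nat_lit 76) (nat_lit 30338490182) (nat_lit 1) (nat_lit 4) (nat_lit 2) (nat_lit 5) (nat_lit 2) (nat_lit 4) (nat_lit 322) (nat_lit 213) (nat_lit 185)) (XT.lf (nat_lit 0) (nat_lit 737745914458) (nat_lit 76) (nat_lit 34481452271) (nat_lit 76) (nat_lit 31579062360) (nat_lit 1) (nat_lit 4) (nat_lit 2) (nat_lit 5) (nat_lit 2) (nat_lit 4) (nat_lit 323) (nat_lit 213) (nat_lit 184))) (XT.nd (nat_lit 78) (nat_lit 0) (nat_lit 0) (XT.lf (nat_lit 0) (nat_lit 799236517972) (nat_lit 76) (nat_lit 35866675122) (nat_lit 76) (nat_lit 32938436378) (nat_lit 1) (nat_lit 4) (nat_lit 2) (nat_lit 5) (nat_lit 2) (nat_lit 4) (nat_lit 324) (nat_lit 213) (nat_lit 183)) (XT.nd (nat_lit 78) (nat_lit 0) (nat_lit 0) (XT.lf (nat_lit 0) (nat_lit 865615016965) (nat_lit 76) (nat_lit 37376840634) (nat_lit 76) (nat_lit 34424667786) (nat_lit 1) (nat_lit 4) (nat_lit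 2) (nat_lit 5) (nat_lit 2) (nat_lit 4) (nat_lit 325) (nat_lit 213) (nat_lit 182)) (XT.lf (nat_lit 0) (nat_lit 937274765506) (nat_lit 76) (nat_lit 39020897937) (nat_lit 76) (nat_lit 36046563881) (nat_lit 1) (nat_lit 4) (nat_lit 2) (nat_lit 5) (nat_lit 2) (nat_lit 4) (nat_lit 326) (nat_lit 213) (nat_lit 181))))) (XT.nd (nat_lit 34866) (nat_lit 0) (nat_lit 0) (XT.nd (nat_lit 34788) (nat_lit 0) (nat_lit 0) (XT.lf (nat_lit 0) (nat_lit 1014640413957) (nat_lit 76) (nat_lit 40808589592) (nat_lit 76) (nat_lit 37813735900) (nat_lit 1) (nat_lit 4) (nat_lit 2) (nat_lit 5) (nat_lit 2) (nat_lit 4) (nat_lit 327) (nat_lit 213) (nat_lit 180)) (XT.lf (nat_lit 0) (nat_lit 7602724813) (nat_lit 76) (nat_lit 15058845234) (nat_lit 76) (nat_lit 15058845234) (nat_lit 1) (nat_lit 4) (nat_lit 2) (nat_lit 5) (nat_lit 2) (nat_lit 4) (nat_lit 292) (nat_lit 214) (nat_lit 214))) (XT.nd (nat_lit 78) (nat_lit 0) (nat_lit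 0) (XT.lf (nat_lit 0) (nat_lit 22892515027) (nat_lit 76) (nat_lit 29331088684) (nat_lit 76) (nat_lit 29070980752) (nat_lit 1) (nat_lit 4) (nat_lit 2) (nat_lit 5) (nat_lit 2) (nat_lit 4) (nat_lit 293) (nat_lit 214) (nat_lit 213)) (XT.nd (nat_lit 78) (nat_lit 0) (nat_lit 0) (XT.lf (nat_lit 0) (nat_lit 30879053179) (nat_lit 76) (nat_lit 28623692112) (nat_lit 76) (nat_lit 28122743503) (nat_lit 1) (nat_lit 4) (nat_lit 2) (nat_lit 5) (nat_lit 2) (nat_lit 4) (nat_lit 294) (nat_lit 214) (nat_lit 212)) (XT.lf (nat_lit 0) (nat_lit 39212391716) (nat_lit 76) (nat_lit 27991308774) (nat_lit 76) (nat_lit 27267359537) (nat_lit 1) (nat_lit 4) (nat_lit 2) (nat_lit 5) (nat_lit 2) (nat_lit 4) (nat_lit 295) (nat_lit 214) (nat_lit 211))))))))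
noncomputable def xc8 : XT := (XT.nd (nat_lit 1482) (nat_lit 0) (nat_lit 0) (XT.nd (nat_lit 702) (nat_lit 0) (nat_lit 0) (XT.nd (nat_lit 312) (nat_lit 0) (nat_lit 0) (XT.nd (nat_lit 156) (nat_lit 0) (nat_lit 0) (XT.nd (nat_lit 78) (nat_lit 0) (nat_lit 0) (XT.lf (nat_lit 0) (nat_lit 47941913385) (nat_lit 76) (nat_lit 27430191213) (nat_lit 76) (nat_lit 26499759913) (nat_lit 1) (nat_lit 4) (nat_lit 2) (nat_lit 5) (nat_lit 2) (nat_lit 4) (nat_lit 296) (nat_lit 214) (nat_lit 210)) (XT.lf (nat_lit 0) (nat_lit 57119348685) (nat_lit 76) (nat_lit 26937014286) (nat_lit 76) (nat_lit 25815395891) (nat_lit 1) (nat_lit 4) (nat_lit 2) (nat_lit 5) (nat_lit 2) (nat_lit 4) (nat_lit 297) (nat_lit 214) (nat_lit 209))) (XT.nd (nat_lit 78) (nat_lit 0) (nat_lit 0) (XT.lf (nat_lit 0) (nat_lit 66799082417) (nat_lit 76) (nat_lit 26508855465) (nat_lit 76) (nat_lit 25210211982) (nat_lit 1) (nat_lit 4) (nat_lit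 2) (nat_lit 5) (nat_lit 2) (nat_lit 4) (nat_lit 298) (nat_lit 214) (nat_lit 208)) (XT.lf (nat_lit 0) (nat_lit 77038475967) (nat_lit 76) (nat_lit 26143177511) (nat_lit 76) (nat_lit 24680621910) (nat_lit 1) (nat_lit 4) (nat_lit 2) (nat_lit 5) (nat_lit 2) (nat_lit 4) (nat_lit 299) (nat_lit 214) (nat_lit 207)))) (XT.nd (nat_lit 156) (nat_lit 0) (nat_lit 0) (XT.nd (nat_lit 78) (nat_lit 0) (nat_lit 0) (XT.lf (nat_lit 0) (nat_lit 87898207222) (nat_lit 76) (nat_lit 25837813445) (nat_lit 76) (nat_lit 24223487364) (nat_lit 1) (nat_lit 4) (nat_lit 2) (nat_lit 5) (nat_lit 2) (nat_lit 4) (nat_lit 300) (nat_lit 214) (nat_lit 206)) (XT.lf (nat_lit 0) (nat_lit 99442630146) (nat_lit 76) (nat_lit 25590953702) (nat_lit 76) (nat_lit 23836099398) (nat_lit 1) (nat_lit 4) (nat_lit 2) (nat_lit 5) (nat_lit 2) (nat_lit 4) (nat_lit 301) (nat_lit 214) (nat_lit 205))) (XT.nd (nat_lit 78) (nat_lit 0) (nat_lit 0)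 (XT.lf (nat_lit 0) (nat_lit 111740156133) (nat_lit 76) (nat_lit 25401135408) (nat_lit 76) (nat_lit 23516162380) (nat_lit 1) (nat_lit 4) (nat_lit 2) (nat_lit 5) (nat_lit 2) (nat_lit 4) (nat_lit 302) (nat_lit 214) (nat_lit 204)) (XT.nd (nat_lit 78) (nat_lit 0) (nat_lit 0) (XT.lf (nat_lit 0) (nat_lit 124863659412) (nat_lit 76) (nat_lit 25267233715) (nat_lit 76) (nat_lit 23261780387) (nat_lit 1) (nat_lit 4) (nat_lit 2) (nat_lit 5) (nat_lit 2) (nat_lit 4) (nat_lit 303) (nat_lit 214) (nat_lit 203)) (XT.lf (nat_lit 0) (nat_lit 138890908890) (nat_lit 76) (nat_lit 25188455131) (nat_lit 76) (nat_lit 23071445970) (nat_lit 1) (nat_lit 4) (nat_lit 2) (nat_lit 5) (nat_lit 2) (nat_lit 4) (nat_lit 304) (nat_lit 214) (nat_lit 202)))))) (XT.nd (nat_lit 390) (nat_lit 0) (nat_lit 0) (XT.nd (nat_lit 156) (nat_lit 0) (nat_lit 0) (XT.nd (nat_lit 78) (nat_lit 0) (nat_lit 0) (XT.lf (nat_lit 0) (nat_lit 153905029010)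 (nat_lit 76) (nat_lit 25164332821) (nat_lit 76) (nat_lit 22944031221) (nat_lit 1) (nat_lit 4) (nat_lit 2) (nat_lit 5) (nat_lit 2) (nat_lit 4) (nat_lit 305) (nat_lit 214) (nat_lit 201)) (XT.lf (nat_lit 0) (nat_lit 169994992334) (nat_lit 76) (nat_lit 25194723837) (nat_lit 76) (nat_lit 22878781090) (nat_lit 1) (nat_lit 4) (nat_lit 2) (nat_lit 5) (nat_lit 2) (nat_lit 4) (nat_lit 306) (nat_lit 214) (nat_lit 200))) (XT.nd (nat_lit 78) (nat_lit 0) (nat_lit 0) (XT.lf (nat_lit 0) (nat_lit 187256146794) (nat_lit 76) (nat_lit 25279808273) (nat_lit 76) (nat_lit 22875308909) (nat_lit 1) (nat_lit 4) (nat_lit 2) (nat_lit 5) (nat_lit 2) (nat_lit 4) (nat_lit 307) (nat_lit 214) (nat_lit 199)) (XT.nd (nat_lit 78) (nat_lit 0) (nat_lit 0) (XT.lf (nat_lit 0) (nat_lit 205790780712) (nat_lit 76) (nat_lit 25420090335) (nat_lit 76) (nat_lit 22933594103) (nat_lit 1) (nat_lit 4) (nat_lit 2) (nat_lit 5) (nat_lit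 2) (nat_lit 4) (nat_lit 308) (nat_lit 214) (nat_lit 198)) (XT.lf (nat_lit 0) (nat_lit 225708728957) (nat_lit 76) (nat_lit 25616401324) (nat_lit 76) (nat_lit 23053982066) (nat_lit 1) (nat_lit 4) (nat_lit 2) (nat_lit 5) (nat_lit 2) (nat_lit 4) (nat_lit 309) (nat_lit 214) (nat_lit 197))))) (XT.nd (nat_lit 156) (nat_lit 0) (nat_lit 0) (XT.nd (nat_lit 78) (nat_lit 0) (nat_lit 0) (XT.lf (nat_lit 0) (nat_lit 247128023813) (nat_lit 76) (nat_lit 25869904563) (nat_lit 76) (nat_lit 23237186207) (nat_lit 1) (nat_lit 4) (nat_lit 2) (nat_lit 5) (nat_lit 2) (nat_lit 4) (nat_lit 310) (nat_lit 214) (nat_lit 196)) (XT.lf (nat_lit 0) (nat_lit 270175594436) (nat_lit 76) (nat_lit 26182102294) (nat_lit 76) (nat_lit 23484292180) (nat_lit 1) (nat_lit 4) (nat_lit 2) (nat_lit 5) (nat_lit 2) (nat_lit 4) (nat_lit 311) (nat_lit 214) (nat_lit 195))) (XT.nd (nat_lit 78) (nat_lit 0) (nat_lit 0) (XT.lf (nat_lit 0) (nat_lit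 294988019022) (nat_lit 76) (nat_lit 26554844578) (nat_lit 76) (nat_lit 23796764318) (nat_lit 1) (nat_lit 4) (nat_lit 2) (nat_lit 5) (nat_lit 2) (nat_lit 4) (nat_lit 312) (nat_lit 214) (nat_lit 194)) (XT.nd (nat_lit 78) (nat_lit 0) (nat_lit 0) (XT.lf (nat_lit 0) (nat_lit 321712334161) (nat_lit 76) (nat_lit 26990340257) (nat_lit 76) (nat_lit 24176454307) (nat_lit 1) (nat_lit 4) (nat_lit 2) (nat_lit 5) (nat_lit 2) (nat_lit 4) (nat_lit 313) (nat_lit 214) (nat_lit 193)) (XT.lf (nat_lit 0) (nat_lit 350506906165) (nat_lit 76) (nat_lit 27491170048) (nat_lit 76) (nat_lit 24625612162) (nat_lit 1) (nat_lit 4) (nat_lit 2) (nat_lit 5) (nat_lit 2) (nat_lit 4) (nat_lit 314) (nat_lit 214) (nat_lit 192))))))) (XT.nd (nat_lit 702) (nat_lit 0) (nat_lit 0) (XT.nd (nat_lit 312) (nat_lit 0) (nat_lit 0) (XT.nd (nat_lit 156) (nat_lit 0) (nat_lit 0) (XT.nd (nat_lit 78) (nat_lit 0) (nat_lit 0) (XT.lf (nat_lit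 0) (nat_lit 381542369535) (nat_lit 76) (nat_lit 28060301830) (nat_lit 76) (nat_lit 25146899560) (nat_lit 1) (nat_lit 4) (nat_lit 2) (nat_lit 5) (nat_lit 2) (nat_lit 4) (nat_lit 315) (nat_lit 214) (nat_lit 191)) (XT.lf (nat_lit 0) (nat_lit 415002638127) (nat_lit 76) (nat_lit 28701108236) (nat_lit 76) (nat_lit 25743405609) (nat_lit 1) (nat_lit 4) (nat_lit 2) (nat_lit 5) (nat_lit 2) (nat_lit 4) (nat_lit 316) (nat_lit 214) (nat_lit 190))) (XT.nd (nat_lit 78) (nat_lit 0) (nat_lit 0) (XT.lf (nat_lit 0) (nat_lit 451085995016) (nat_lit 76) (nat_lit 29417386637) (nat_lit 76) (nat_lit 26418665162) (nat_lit 1) (nat_lit 4) (nat_lit 2) (nat_lit 5) (nat_lit 2) (nat_lit 4) (nat_lit 317) (nat_lit 214) (nat_lit 189)) (XT.lf (nat_lit 0) (nat_lit 490006267500) (nat_lit 76) (nat_lit 30213381647) (nat_lit 76) (nat_lit 27176679756) (nat_lit 1) (nat_lit 4) (nat_lit 2) (nat_lit 5) (nat_lit 2) (nat_lit 4) (nat_lit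 318) (nat_lit 214) (nat_lit 188)))) (XT.nd (nat_lit 156) (nat_lit 0) (nat_lit 0) (XT.nd (nat_lit 78) (nat_lit 0) (nat_lit 0) (XT.lf (nat_lit 0) (nat_lit 531994094232) (nat_lit 76) (nat_lit 31093810272) (nat_lit 76) (nat_lit 28021941330) (nat_lit 1) (nat_lit 4) (nat_lit 2) (nat_lit 5) (nat_lit 2) (nat_lit 4) (nat_lit 319) (nat_lit 214) (nat_lit 187)) (XT.lf (nat_lit 0) (nat_lit 577298291963) (nat_lit 76) (nat_lit 32063889867) (nat_lit 76) (nat_lit 28959458841) (nat_lit 1) (nat_lit 4) (nat_lit 2) (nat_lit 5) (nat_lit 2) (nat_lit 4) (nat_lit 320) (nat_lit 214) (nat_lit 186))) (XT.nd (nat_lit 78) (nat_lit 0) (nat_lit 0) (XT.lf (nat_lit 0) (nat_lit 626187330013) (nat_lit 76) (nat_lit 33129369052) (nat_lit 76) (nat_lit 29994787948) (nat_lit 1) (nat_lit 4) (nat_lit 2) (nat_lit 5) (nat_lit 2) (nat_lit 4) (nat_lit 321) (nat_lit 214) (nat_lit 185)) (XT.nd (nat_lit 78) (nat_lit 0) (nat_lit 0) (XT.lf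 (nat_lit 0) (nat_lit 678950921199) (nat_lit 76) (nat_lit 34296561779) (nat_lit 76) (nat_lit 31134063935) (nat_lit 1) (nat_lit 4) (nat_lit 2) (nat_lit 5) (nat_lit 2) (nat_lit 4) (nat_lit 322) (nat_lit 214) (nat_lit 184)) (XT.lf (nat_lit 0) (nat_lit 735901738655) (nat_lit 76) (nat_lit 35572384743) (nat_lit 76) (nat_lit 32384038068) (nat_lit 1) (nat_lit 4) (nat_lit 2) (nat_lit 5) (nat_lit 2) (nat_lit 4) (nat_lit 323) (nat_lit 214) (nat_lit 183)))))) (XT.nd (nat_lit 34944) (nat_lit 0) (nat_lit 0) (XT.nd (nat_lit 156) (nat_lit 0) (nat_lit 0) (XT.nd (nat_lit 78) (nat_lit 0) (nat_lit 0) (XT.lf (nat_lit 0) (nat_lit 797377268706) (nat_lit 76) (nat_lit 36964398379) (nat_lit 76) (nat_lit 33752117599) (nat_lit 1) (nat_lit 4) (nat_lit 2) (nat_lit 5) (nat_lit 2) (nat_lit 4) (nat_lit 324) (nat_lit 214) (nat_lit 182)) (XT.lf (nat_lit 0) (nat_lit 863741810790) (nat_lit 76) (nat_lit 38480851656) (nat_lit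 76) (nat_lit 35246409668) (nat_lit 1) (nat_lit 4) (nat_lit 2) (nat_lit 5) (nat_lit 2) (nat_lit 4) (nat_lit 325) (nat_lit 214) (nat_lit 181))) (XT.nd (nat_lit 78) (nat_lit 0) (nat_lit 0) (XT.lf (nat_lit 0) (nat_lit 935388636267) (nat_lit 76) (nat_lit 40130730963) (nat_lit 76) (nat_lit 36875769338) (nat_lit 1) (nat_lit 4) (nat_lit 2) (nat_lit 5) (nat_lit 2) (nat_lit 4) (nat_lit 326) (nat_lit 214) (nat_lit 180)) (XT.nd (nat_lit 34632) (nat_lit 0) (nat_lit 0) (XT.lf (nat_lit 0) (nat_lit 1012742318918) (nat_lit 76) (nat_lit 41923813362) (nat_lit 76) (nat_lit 38649852075) (nat_lit 1) (nat_lit 4) (nat_lit 2) (nat_lit 5) (nat_lit 2) (nat_lit 4) (nat_lit 327) (nat_lit 214) (nat_lit 179)) (XT.lf (nat_lit 0) (nat_lit 362974172) (nat_lit 76) (nat_lit 16074432295) (nat_lit 76) (nat_lit 16074432295) (nat_lit 1) (nat_lit 4) (nat_lit 2) (nat_lit 5) (nat_lit 2) (nat_lit 4) (nat_lit 290) (nat_lit 215)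 (nat_lit 215))))) (XT.nd (nat_lit 156) (nat_lit 0) (nat_lit 0) (XT.nd (nat_lit 78) (nat_lit 0) (nat_lit 0) (XT.lf (nat_lit 0) (nat_lit 7772303997) (nat_lit 76) (nat_lit 31269075375) (nat_lit 76) (nat_lit 30988158808) (nat_lit 1) (nat_lit 4) (nat_lit 2) (nat_lit 5) (nat_lit 2) (nat_lit 4) (nat_lit 291) (nat_lit 215) (nat_lit 214)) (XT.lf (nat_lit 0) (nat_lit 15041636223) (nat_lit 76) (nat_lit 30472407046) (nat_lit 76) (nat_lit 29931382547) (nat_lit 1) (nat_lit 4) (nat_lit 2) (nat_lit 5) (nat_lit 2) (nat_lit 4) (nat_lit 292) (nat_lit 215) (nat_lit 213))) (XT.nd (nat_lit 78) (nat_lit 0) (nat_lit 0) (XT.lf (nat_lit 0) (nat_lit 22577022546) (nat_lit 76) (nat_lit 29754138606) (nat_lit 76) (nat_lit 28972273429) (nat_lit 1) (nat_lit 4) (nat_lit 2) (nat_lit 5) (nat_lit 2) (nat_lit 4) (nat_lit 293) (nat_lit 215) (nat_lit 212)) (XT.nd (nat_lit 78) (nat_lit 0) (nat_lit 0) (XT.lf (nat_lit 0) (nat_lit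 30423117108) (nat_lit 76) (nat_lit 29110013649) (nat_lit 76) (nat_lit 28105147845) (nat_lit 1) (nat_lit 4) (nat_lit 2) (nat_lit 5) (nat_lit 2) (nat_lit 4) (nat_lit 294) (nat_lit 215) (nat_lit 211)) (XT.lf (nat_lit 0) (nat_lit 38626415284) (nat_lit 76) (nat_lit 28536215140) (nat_lit 76) (nat_lit 27324867273) (nat_lit 1) (nat_lit 4) (nat_lit 2) (nat_lit 5) (nat_lit 2) (nat_lit 4) (nat_lit 295) (nat_lit 215) (nat_lit 210))))))))
noncomputable def xc9 : XT := (XT.nd (nat_lit 1482) (nat_lit 0) (nat_lit 0) (XT.nd (nat_lit 702) (nat_lit 0) (nat_lit 0) (XT.nd (nat_lit 312) (nat_lit 0) (nat_lit 0) (XT.nd (nat_lit 156) (nat_lit 0) (nat_lit 0) (XT.nd (nat_lit 78) (nat_lit 0) (nat_lit 0) (XT.lf (nat_lit 0) (nat_lit 47235529212) (nat_lit 76) (nat_lit 28029342790) (nat_lit 76) (nat_lit 26626807828) (nat_lit 1) (nat_lit 4) (nat_lit 2) (nat_lit 5) (nat_lit 2) (nat_lit 4) (nat_lit 296) (nat_lit 215)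 (nat_lit 209)) (XT.lf (nat_lit 0) (nat_lit 56301475862) (nat_lit 76) (nat_lit 27586392911) (nat_lit 76) (nat_lit 26006832862) (nat_lit 1) (nat_lit 4) (nat_lit 2) (nat_lit 5) (nat_lit 2) (nat_lit 4) (nat_lit 297) (nat_lit 215) (nat_lit 208))) (XT.nd (nat_lit 78) (nat_lit 0) (nat_lit 0) (XT.lf (nat_lit 0) (nat_lit 65877979363) (nat_lit 76) (nat_lit 27204740615) (nat_lit 76) (nat_lit 25461268448) (nat_lit 1) (nat_lit 4) (nat_lit 2) (nat_lit 5) (nat_lit 2) (nat_lit 4) (nat_lit 298) (nat_lit 215) (nat_lit 207)) (XT.lf (nat_lit 0) (nat_lit 76021789366) (nat_lit 76) (nat_lit 26882124260) (nat_lit 76) (nat_lit 24986881612) (nat_lit 1) (nat_lit 4) (nat_lit 2) (nat_lit 5) (nat_lit 2) (nat_lit 4) (nat_lit 299) (nat_lit 215) (nat_lit 206)))) (XT.nd (nat_lit 156) (nat_lit 0) (nat_lit 0) (XT.nd (nat_lit 78) (nat_lit 0) (nat_lit 0) (XT.lf (nat_lit 0) (nat_lit 86793017336) (nat_lit 76) (nat_lit 26616632043)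 (nat_lit 76) (nat_lit 24580861174) (nat_lit 1) (nat_lit 4) (nat_lit 2) (nat_lit 5) (nat_lit 2) (nat_lit 4) (nat_lit 300) (nat_lit 215) (nat_lit 205)) (XT.lf (nat_lit 0) (nat_lit 98255492774) (nat_lit 76) (nat_lit 26406690679) (nat_lit 76) (nat_lit 24240801085) (nat_lit 1) (nat_lit 4) (nat_lit 2) (nat_lit 5) (nat_lit 2) (nat_lit 4) (nat_lit 301) (nat_lit 215) (nat_lit 204))) (XT.nd (nat_lit 78) (nat_lit 0) (nat_lit 0) (XT.lf (nat_lit 0) (nat_lit 110477141459) (nat_lit 76) (nat_lit 26251056070) (nat_lit 76) (nat_lit 23964686176) (nat_lit 1) (nat_lit 4) (nat_lit 2) (nat_lit 5) (nat_lit 2) (nat_lit 4) (nat_lit 302) (nat_lit 215) (nat_lit 203)) (XT.nd (nat_lit 78) (nat_lit 0) (nat_lit 0) (XT.lf (nat_lit 0) (nat_lit 123530387977) (nat_lit 76) (nat_lit 26148805937) (nat_lit 76) (nat_lit 23750880209) (nat_lit 1) (nat_lit 4) (nat_lit 2) (nat_lit 5) (nat_lit 2) (nat_lit 4) (nat_lit 303) (nat_lit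 215) (nat_lit 202)) (XT.lf (nat_lit 0) (nat_lit 137492584899) (nat_lit 76) (nat_lit 26099334354) (nat_lit 76) (nat_lit 23598116187) (nat_lit 1) (nat_lit 4) (nat_lit 2) (nat_lit 5) (nat_lit 2) (nat_lit 4) (nat_lit 304) (nat_lit 215) (nat_lit 201)))))) (XT.nd (nat_lit 390) (nat_lit 0) (nat_lit 0) (XT.nd (nat_lit 156) (nat_lit 0) (nat_lit 0) (XT.nd (nat_lit 78) (nat_lit 0) (nat_lit 0) (XT.lf (nat_lit 0) (nat_lit 152446471170) (nat_lit 76) (nat_lit 26102348154) (nat_lit 76) (nat_lit 23505488841) (nat_lit 1) (nat_lit 4) (nat_lit 2) (nat_lit 5) (nat_lit 2) (nat_lit 4) (nat_lit 305) (nat_lit 215) (nat_lit 200)) (XT.lf (nat_lit 0) (nat_lit 168480662413) (nat_lit 76) (nat_lit 26157865199) (nat_lit 76) (nat_lit 23472449268) (nat_lit 1) (nat_lit 4) (nat_lit 2) (nat_lit 5) (nat_lit 2) (nat_lit 4) (nat_lit 306) (nat_lit 215) (nat_lit 199))) (XT.nd (nat_lit 78) (nat_lit 0) (nat_lit 0) (XT.lf (nat_lit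 0) (nat_lit 185690176056) (nat_lit 76) (nat_lit 26266214477) (nat_lit 76) (nat_lit 23498801678) (nat_lit 1) (nat_lit 4) (nat_lit 2) (nat_lit 5) (nat_lit 2) (nat_lit 4) (nat_lit 307) (nat_lit 215) (nat_lit 198)) (XT.nd (nat_lit 78) (nat_lit 0) (nat_lit 0) (XT.lf (nat_lit 0) (nat_lit 204176994404) (nat_lit 76) (nat_lit 26428038059) (nat_lit 76) (nat_lit 23584702234) (nat_lit 1) (nat_lit 4) (nat_lit 2) (nat_lit 5) (nat_lit 2) (nat_lit 4) (nat_lit 308) (nat_lit 215) (nat_lit 197)) (XT.lf (nat_lit 0) (nat_lit 224050668972) (nat_lit 76) (nat_lit 26644294899) (nat_lit 76) (nat_lit 23730659977) (nat_lit 1) (nat_lit 4) (nat_lit 2) (nat_lit 5) (nat_lit 2) (nat_lit 4) (nat_lit 309) (nat_lit 215) (nat_lit 196))))) (XT.nd (nat_lit 156) (nat_lit 0) (nat_lit 0) (XT.nd (nat_lit 78) (nat_lit 0) (nat_lit 0) (XT.lf (nat_lit 0) (nat_lit 245428969683) (nat_lit 76) (nat_lit 26916266519) (nat_lit 76) (nat_lit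 23937539839) (nat_lit 1) (nat_lit 4) (nat_lit 2) (nat_lit 5) (nat_lit 2) (nat_lit 4) (nat_lit 310) (nat_lit 215) (nat_lit 195)) (XT.lf (nat_lit 0) (nat_lit 268438582764) (nat_lit 76) (nat_lit 27245564604) (nat_lit 76) (nat_lit 24206567778) (nat_lit 1) (nat_lit 4) (nat_lit 2) (nat_lit 5) (nat_lit 2) (nat_lit 4) (nat_lit 311) (nat_lit 215) (nat_lit 194))) (XT.nd (nat_lit 78) (nat_lit 0) (nat_lit 0) (XT.lf (nat_lit 0) (nat_lit 293215861478) (nat_lit 76) (nat_lit 27634140547) (nat_lit 76) (nat_lit 24539338031) (nat_lit 1) (nat_lit 4) (nat_lit 2) (nat_lit 5) (nat_lit 2) (nat_lit 4) (nat_lit 312) (nat_lit 215) (nat_lit 193)) (XT.nd (nat_lit 78) (nat_lit 0) (nat_lit 0) (XT.lf (nat_lit 0) (nat_lit 319907634143) (nat_lit 76) (nat_lit 28084297024) (nat_lit 76) (nat_lit 24937822571) (nat_lit 1) (nat_lit 4) (nat_lit 2) (nat_lit 5) (nat_lit 2) (nat_lit 4) (nat_lit 313) (nat_lit 215) (nat_lit 192))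 (XT.lf (nat_lit 0) (nat_lit 348672074226) (nat_lit 76) (nat_lit 28598701626) (nat_lit 76) (nat_lit 25404382789) (nat_lit 1) (nat_lit 4) (nat_lit 2) (nat_lit 5) (nat_lit 2) (nat_lit 4) (nat_lit 314) (nat_lit 215) (nat_lit 191))))))) (XT.nd (nat_lit 780) (nat_lit 0) (nat_lit 0) (XT.nd (nat_lit 390) (nat_lit 0) (nat_lit 0) (XT.nd (nat_lit 156) (nat_lit 0) (nat_lit 0) (XT.nd (nat_lit 78) (nat_lit 0) (nat_lit 0) (XT.lf (nat_lit 0) (nat_lit 379679637670) (nat_lit 76) (nat_lit 29180402678) (nat_lit 76) (nat_lit 25941783484) (nat_lit 1) (nat_lit 4) (nat_lit 2) (nat_lit 5) (nat_lit 2) (nat_lit 4) (nat_lit 315) (nat_lit 215) (nat_lit 190)) (XT.lf (nat_lit 0) (nat_lit 413114072997) (nat_lit 76) (nat_lit 29832847297) (nat_lit 76) (nat_lit 26553209255) (nat_lit 1) (nat_lit 4) (nat_lit 2) (nat_lit 5) (nat_lit 2) (nat_lit 4) (nat_lit 316) (nat_lit 215) (nat_lit 189))) (XT.nd (nat_lit 78) (nat_lit 0)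 (nat_lit 0) (XT.lf (nat_lit 0) (nat_lit 449173510196) (nat_lit 76) (nat_lit 30559901821) (nat_lit 76) (nat_lit 27242283364) (nat_lit 1) (nat_lit 4) (nat_lit 2) (nat_lit 5) (nat_lit 2) (nat_lit 4) (nat_lit 317) (nat_lit 215) (nat_lit 188)) (XT.nd (nat_lit 78) (nat_lit 0) (nat_lit 0) (XT.lf (nat_lit 0) (nat_lit 488071634819) (nat_lit 76) (nat_lit 31365874722) (nat_lit 76) (nat_lit 28013089214) (nat_lit 1) (nat_lit 4) (nat_lit 2) (nat_lit 5) (nat_lit 2) (nat_lit 4) (nat_lit 318) (nat_lit 215) (nat_lit 187)) (XT.lf (nat_lit 0) (nat_lit 530038954272) (nat_lit 76) (nat_lit 32255542136) (nat_lit 76) (nat_lit 28870194543) (nat_lit 1) (nat_lit 4) (nat_lit 2) (nat_lit 5) (nat_lit 2) (nat_lit 4) (nat_lit 319) (nat_lit 215) (nat_lit 186))))) (XT.nd (nat_lit 156) (nat_lit 0) (nat_lit 0) (XT.nd (nat_lit 78) (nat_lit 0) (nat_lit 0) (XT.lf (nat_lit 0) (nat_lit 575324163782) (nat_lit 76) (nat_lit 33234176165)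 (nat_lit 76) (nat_lit 29818678494) (nat_lit 1) (nat_lit 4) (nat_lit 2) (nat_lit 5) (nat_lit 2) (nat_lit 4) (nat_lit 320) (nat_lit 215) (nat_lit 185)) (XT.lf (nat_lit 0) (nat_lit 624195620146) (nat_lit 76) (nat_lit 34307576122) (nat_lit 76) (nat_lit 30864161712) (nat_lit 1) (nat_lit 4) (nat_lit 2) (nat_lit 5) (nat_lit 2) (nat_lit 4) (nat_lit 321) (nat_lit 215) (nat_lit 184))) (XT.nd (nat_lit 78) (nat_lit 0) (nat_lit 0) (XT.lf (nat_lit 0) (nat_lit 676942931993) (nat_lit 76) (nat_lit 35482102897) (nat_lit 76) (nat_lit 32012839655) (nat_lit 1) (nat_lit 4) (nat_lit 2) (nat_lit 5) (nat_lit 2) (nat_lit 4) (nat_lit 322) (nat_lit 215) (nat_lit 183)) (XT.nd (nat_lit 78) (nat_lit 0) (nat_lit 0) (XT.lf (nat_lit 0) (nat_lit 733878675987) (nat_lit 76) (nat_lit 36764716647) (nat_lit 76) (nat_lit 33271519301) (nat_lit 1) (nat_lit 4) (nat_lit 2) (nat_lit 5) (nat_lit 2) (nat_lit 4) (nat_lit 323) (nat_lit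 215) (nat_lit 182)) (XT.lf (nat_lit 0) (nat_lit 795340249129) (nat_lit 76) (nat_lit 38163018047) (nat_lit 76) (nat_lit 34647659493) (nat_lit 1) (nat_lit 4) (nat_lit 2) (nat_lit 5) (nat_lit 2) (nat_lit 4) (nat_lit 324) (nat_lit 215) (nat_lit 181)))))) (XT.nd (nat_lit 34788) (nat_lit 0) (nat_lit 0) (XT.nd (nat_lit 156) (nat_lit 0) (nat_lit 0) (XT.nd (nat_lit 78) (nat_lit 0) (nat_lit 0) (XT.lf (nat_lit 0) (nat_lit 861691868148) (nat_lit 76) (nat_lit 39685293328) (nat_lit 76) (nat_lit 36149415137) (nat_lit 1) (nat_lit 4) (nat_lit 2) (nat_lit 5) (nat_lit 2) (nat_lit 4) (nat_lit 325) (nat_lit 215) (nat_lit 180)) (XT.lf (nat_lit 0) (nat_lit 933326727825) (nat_lit 76) (nat_lit 41340563379) (nat_lit 76) (nat_lit 37785685525) (nat_lit 1) (nat_lit 4) (nat_lit 2) (nat_lit 5) (nat_lit 2) (nat_lit 4) (nat_lit 326) (nat_lit 215) (nat_lit 179))) (XT.nd (nat_lit 34476) (nat_lit 0) (nat_lit 76) (XT.lf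 (nat_lit 0) (nat_lit 1010669331032) (nat_lit 76) (nat_lit 43138637209) (nat_lit 76) (nat_lit 39566167074) (nat_lit 1) (nat_lit 4) (nat_lit 2) (nat_lit 5) (nat_lit 2) (nat_lit 4) (nat_lit 327) (nat_lit 215) (nat_lit 178)) (XT.nd (nat_lit 78) (nat_lit 0) (nat_lit 0) (XT.lf (nat_lit 0) (nat_lit 10960818702) (nat_lit 152) (nat_lit 6133553091) (nat_lit 0) (nat_lit 10960818702) (nat_lit 2) (nat_lit 5) (nat_lit 4) (nat_lit 4) (nat_lit 2) (nat_lit 4) (nat_lit 288) (nat_lit 216) (nat_lit 216)) (XT.lf (nat_lit 0) (nat_lit 27377041148) (nat_lit 152) (nat_lit 5942694593) (nat_lit 0) (nat_lit 27073651257) (nat_lit 2) (nat_lit 5) (nat_lit 4) (nat_lit 4) (nat_lit 2) (nat_lit 4) (nat_lit 289) (nat_lit 216) (nat_lit 215))))) (XT.nd (nat_lit 156) (nat_lit 0) (nat_lit 0) (XT.nd (nat_lit 78) (nat_lit 0) (nat_lit 0) (XT.lf (nat_lit 0) (nat_lit 549029870) (nat_lit 76) (nat_lit 32531958495) (nat_lit 76) (nat_lit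 31947652036) (nat_lit 1) (nat_lit 4) (nat_lit 2) (nat_lit 5) (nat_lit 2) (nat_lit 4) (nat_lit 290) (nat_lit 216) (nat_lit 214)) (XT.lf (nat_lit 0) (nat_lit 7431572119) (nat_lit 76) (nat_lit 31725969291) (nat_lit 76) (nat_lit 30881554900) (nat_lit 1) (nat_lit 4) (nat_lit 2) (nat_lit 5) (nat_lit 2) (nat_lit 4) (nat_lit 291) (nat_lit 216) (nat_lit 213))) (XT.nd (nat_lit 78) (nat_lit 0) (nat_lit 0) (XT.lf (nat_lit 0) (nat_lit 14549225267) (nat_lit 76) (nat_lit 30997634305) (nat_lit 76) (nat_lit 29912379237) (nat_lit 1) (nat_lit 4) (nat_lit 2) (nat_lit 5) (nat_lit 2) (nat_lit 4) (nat_lit 292) (nat_lit 216) (nat_lit 212)) (XT.nd (nat_lit 78) (nat_lit 0) (nat_lit 0) (XT.lf (nat_lit 0) (nat_lit 21944168000) (nat_lit 76) (nat_lit 30342637480) (nat_lit 76) (nat_lit 29034381785) (nat_lit 1) (nat_lit 4) (nat_lit 2) (nat_lit 5) (nat_lit 2) (nat_lit 4) (nat_lit 293) (nat_lit 216) (nat_lit 211)) (XT.lf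 (nat_lit 0) (nat_lit 29660222201) (nat_lit 76) (nat_lit 29757097352) (nat_lit 76) (nat_lit 28242359594) (nat_lit 1) (nat_lit 4) (nat_lit 2) (nat_lit 5) (nat_lit 2) (nat_lit 4) (nat_lit 294) (nat_lit 216) (nat_lit 210))))))))
noncomputable def xc10 : XT := (XT.nd (nat_lit 1482) (nat_lit 0) (nat_lit 0) (XT.nd (nat_lit 702) (nat_lit 0) (nat_lit 0) (XT.nd (nat_lit 312) (nat_lit 0) (nat_lit 0) (XT.nd (nat_lit 156) (nat_lit 0) (nat_lit 0) (XT.nd (nat_lit 78) (nat_lit 0) (nat_lit 0) (XT.lf (nat_lit 0) (nat_lit 37743112636) (nat_lit 76) (nat_lit 29237544055) (nat_lit 76) (nat_lit 27531619201) (nat_lit 1) (nat_lit 4) (nat_lit 2) (nat_lit 5) (nat_lit 2) (nat_lit 4) (nat_lit 295) (nat_lit 216) (nat_lit 209)) (XT.lf (nat_lit 0) (nat_lit 46240737913) (nat_lit 76) (nat_lit 28780898752) (nat_lit 76) (nat_lit 26897948811) (nat_lit 1) (nat_lit 4) (nat_lit 2) (nat_lit 5) (nat_lit 2) (nat_lit 4) (nat_lit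 296) (nat_lit 216) (nat_lit 208))) (XT.nd (nat_lit 78) (nat_lit 0) (nat_lit 0) (XT.lf (nat_lit 0) (nat_lit 55203454332) (nat_lit 76) (nat_lit 28384455399) (nat_lit 76) (nat_lit 26337593340) (nat_lit 1) (nat_lit 4) (nat_lit 2) (nat_lit 5) (nat_lit 2) (nat_lit 4) (nat_lit 297) (nat_lit 216) (nat_lit 207)) (XT.lf (nat_lit 0) (nat_lit 64684374286) (nat_lit 76) (nat_lit 28045864701) (nat_lit 76) (nat_lit 25847232162) (nat_lit 1) (nat_lit 4) (nat_lit 2) (nat_lit 5) (nat_lit 2) (nat_lit 4) (nat_lit 298) (nat_lit 216) (nat_lit 206)))) (XT.nd (nat_lit 156) (nat_lit 0) (nat_lit 0) (XT.nd (nat_lit 78) (nat_lit 0) (nat_lit 0) (XT.lf (nat_lit 0) (nat_lit 74739681004) (nat_lit 76) (nat_lit 27763120196) (nat_lit 76) (nat_lit 25423959434) (nat_lit 1) (nat_lit 4) (nat_lit 2) (nat_lit 5) (nat_lit 2) (nat_lit 4) (nat_lit 299) (nat_lit 216) (nat_lit 205)) (XT.lf (nat_lit 0) (nat_lit 85428961489) (nat_lit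 76) (nat_lit 27534546359) (nat_lit 76) (nat_lit 25065266873) (nat_lit 1) (nat_lit 4) (nat_lit 2) (nat_lit 5) (nat_lit 2) (nat_lit 4) (nat_lit 300) (nat_lit 216) (nat_lit 204))) (XT.nd (nat_lit 78) (nat_lit 0) (nat_lit 0) (XT.lf (nat_lit 0) (nat_lit 96815559625) (nat_lit 76) (nat_lit 27358788680) (nat_lit 76) (nat_lit 24769028893) (nat_lit 1) (nat_lit 4) (nat_lit 2) (nat_lit 5) (nat_lit 2) (nat_lit 4) (nat_lit 301) (nat_lit 216) (nat_lit 203)) (XT.nd (nat_lit 78) (nat_lit 0) (nat_lit 0) (XT.lf (nat_lit 0) (nat_lit 108966951549) (nat_lit 76) (nat_lit 27234805631) (nat_lit 76) (nat_lit 24533490011) (nat_lit 1) (nat_lit 4) (nat_lit 2) (nat_lit 5) (nat_lit 2) (nat_lit 4) (nat_lit 302) (nat_lit 216) (nat_lit 202)) (XT.lf (nat_lit 0) (nat_lit 121955145511) (nat_lit 76) (nat_lit 27161862498) (nat_lit 76) (nat_lit 24357254439) (nat_lit 1) (nat_lit 4) (nat_lit 2) (nat_lit 5) (nat_lit 2) (nat_lit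 4) (nat_lit 303) (nat_lit 216) (nat_lit 201)))))) (XT.nd (nat_lit 390) (nat_lit 0) (nat_lit 0) (XT.nd (nat_lit 156) (nat_lit 0) (nat_lit 0) (XT.nd (nat_lit 78) (nat_lit 0) (nat_lit 0) (XT.lf (nat_lit 0) (nat_lit 135857108585) (nat_lit 76) (nat_lit 27139527025) (nat_lit 76) (nat_lit 24239277820) (nat_lit 1) (nat_lit 4) (nat_lit 2) (nat_lit 5) (nat_lit 2) (nat_lit 4) (nat_lit 304) (nat_lit 216) (nat_lit 200)) (XT.lf (nat_lit 0) (nat_lit 150755222774) (nat_lit 76) (nat_lit 27167666854) (nat_lit 76) (nat_lit 24178861032) (nat_lit 1) (nat_lit 4) (nat_lit 2) (nat_lit 5) (nat_lit 2) (nat_lit 4) (nat_lit 305) (nat_lit 216) (nat_lit 199))) (XT.nd (nat_lit 78) (nat_lit 0) (nat_lit 0) (XT.lf (nat_lit 0) (nat_lit 166737773200) (nat_lit 76) (nat_lit 27246448740) (nat_lit 76) (nat_lit 24175646050) (nat_lit 1) (nat_lit 4) (nat_lit 2) (nat_lit 5) (nat_lit 2) (nat_lit 4) (nat_lit 306) (nat_lit 216) (nat_lit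 198)) (XT.nd (nat_lit 78) (nat_lit 0) (nat_lit 0) (XT.lf (nat_lit 0) (nat_lit 183899471272) (nat_lit 76) (nat_lit 27376339539) (nat_lit 76) (nat_lit 24229613822) (nat_lit 1) (nat_lit 4) (nat_lit 2) (nat_lit 5) (nat_lit 2) (nat_lit 4) (nat_lit 307) (nat_lit 216) (nat_lit 197)) (XT.lf (nat_lit 0) (nat_lit 202342015943) (nat_lit 76) (nat_lit 27558108972) (nat_lit 76) (nat_lit 24341084158) (nat_lit 1) (nat_lit 4) (nat_lit 2) (nat_lit 5) (nat_lit 2) (nat_lit 4) (nat_lit 308) (nat_lit 216) (nat_lit 196))))) (XT.nd (nat_lit 156) (nat_lit 0) (nat_lit 0) (XT.nd (nat_lit 78) (nat_lit 0) (nat_lit 0) (XT.lf (nat_lit 0) (nat_lit 222174696366) (nat_lit 76) (nat_lit 27792834194) (nat_lit 76) (nat_lit 24510717622) (nat_lit 1) (nat_lit 4) (nat_lit 2) (nat_lit 5) (nat_lit 2) (nat_lit 4) (nat_lit 309) (nat_lit 216) (nat_lit 195)) (XT.lf (nat_lit 0) (nat_lit 243515039535) (nat_lit 76) (nat_lit 28081906167)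 (nat_lit 76) (nat_lit 24739519449) (nat_lit 1) (nat_lit 4) (nat_lit 2) (nat_lit 5) (nat_lit 2) (nat_lit 4) (nat_lit 310) (nat_lit 216) (nat_lit 194))) (XT.nd (nat_lit 78) (nat_lit 0) (nat_lit 0) (XT.lf (nat_lit 0) (nat_lit 266489506744) (nat_lit 76) (nat_lit 28427037911) (nat_lit 76) (nat_lit 25028845503) (nat_lit 1) (nat_lit 4) (nat_lit 2) (nat_lit 5) (nat_lit 2) (nat_lit 4) (nat_lit 311) (nat_lit 216) (nat_lit 193)) (XT.nd (nat_lit 78) (nat_lit 0) (nat_lit 0) (XT.lf (nat_lit 0) (nat_lit 291234242984) (nat_lit 76) (nat_lit 28830274651) (nat_lit 76) (nat_lit 25380410308) (nat_lit 1) (nat_lit 4) (nat_lit 2) (nat_lit 5) (nat_lit 2) (nat_lit 4) (nat_lit 312) (nat_lit 216) (nat_lit 192)) (XT.lf (nat_lit 0) (nat_lit 317895883729) (nat_lit 76) (nat_lit 29294005939) (nat_lit 76) (nat_lit 25796297210) (nat_lit 1) (nat_lit 4) (nat_lit 2) (nat_lit 5) (nat_lit 2) (nat_lit 4) (nat_lit 313) (nat_lit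 216) (nat_lit 191))))))) (XT.nd (nat_lit 780) (nat_lit 0) (nat_lit 0) (XT.nd (nat_lit 390) (nat_lit 0) (nat_lit 0) (XT.nd (nat_lit 156) (nat_lit 0) (nat_lit 0) (XT.nd (nat_lit 78) (nat_lit 0) (nat_lit 0) (XT.lf (nat_lit 0) (nat_lit 346632423886) (nat_lit 76) (nat_lit 29820979811) (nat_lit 76) (nat_lit 26278970726) (nat_lit 1) (nat_lit 4) (nat_lit 2) (nat_lit 5) (nat_lit 2) (nat_lit 4) (nat_lit 314) (nat_lit 216) (nat_lit 190)) (XT.lf (nat_lit 0) (nat_lit 377614154064) (nat_lit 76) (nat_lit 30414319076) (nat_lit 76) (nat_lit 26831291142) (nat_lit 1) (nat_lit 4) (nat_lit 2) (nat_lit 5) (nat_lit 2) (nat_lit 4) (nat_lit 315) (nat_lit 216) (nat_lit 189))) (XT.nd (nat_lit 78) (nat_lit 0) (nat_lit 0) (XT.lf (nat_lit 0) (nat_lit 411024669702) (nat_lit 76) (nat_lit 31077539818) (nat_lit 76) (nat_lit 27456531469) (nat_lit 1) (nat_lit 4) (nat_lit 2) (nat_lit 5) (nat_lit 2) (nat_lit 4) (nat_lit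 316) (nat_lit 216) (nat_lit 188)) (XT.nd (nat_lit 78) (nat_lit 0) (nat_lit 0) (XT.lf (nat_lit 0) (nat_lit 447061959039) (nat_lit 76) (nat_lit 31814572234) (nat_lit 76) (nat_lit 28158396834) (nat_lit 1) (nat_lit 4) (nat_lit 2) (nat_lit 5) (nat_lit 2) (nat_lit 4) (nat_lit 317) (nat_lit 216) (nat_lit 187)) (XT.lf (nat_lit 0) (nat_lit 485939576384) (nat_lit 76) (nat_lit 32629783924) (nat_lit 76) (nat_lit 28941046439) (nat_lit 1) (nat_lit 4) (nat_lit 2) (nat_lit 5) (nat_lit 2) (nat_lit 4) (nat_lit 318) (nat_lit 216) (nat_lit 186))))) (XT.nd (nat_lit 156) (nat_lit 0) (nat_lit 0) (XT.nd (nat_lit 78) (nat_lit 0) (nat_lit 0) (XT.lf (nat_lit 0) (nat_lit 527887907616) (nat_lit 76) (nat_lit 33528005771) (nat_lit 76) (nat_lit 29809118209) (nat_lit 1) (nat_lit 4) (nat_lit 2) (nat_lit 5) (nat_lit 2) (nat_lit 4) (nat_lit 319) (nat_lit 216) (nat_lit 185)) (XT.lf (nat_lit 0) (nat_lit 573155535440) (nat_lit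 76) (nat_lit 34514560573) (nat_lit 76) (nat_lit 30767756271) (nat_lit 1) (nat_lit 4) (nat_lit 2) (nat_lit 5) (nat_lit 2) (nat_lit 4) (nat_lit 320) (nat_lit 216) (nat_lit 184))) (XT.nd (nat_lit 78) (nat_lit 0) (nat_lit 0) (XT.lf (nat_lit 0) (nat_lit 622010712464) (nat_lit 76) (nat_lit 35595294579) (nat_lit 76) (nat_lit 31822641444) (nat_lit 1) (nat_lit 4) (nat_lit 2) (nat_lit 5) (nat_lit 2) (nat_lit 4) (nat_lit 321) (nat_lit 216) (nat_lit 183)) (XT.nd (nat_lit 78) (nat_lit 0) (nat_lit 0) (XT.lf (nat_lit 0) (nat_lit 674742950849) (nat_lit 76) (nat_lit 36776612139) (nat_lit 76) (nat_lit 32980024900) (nat_lit 1) (nat_lit 4) (nat_lit 2) (nat_lit 5) (nat_lit 2) (nat_lit 4) (nat_lit 322) (nat_lit 216) (nat_lit 182)) (XT.lf (nat_lit 0) (nat_lit 731664737933) (nat_lit 76) (nat_lit 38065513653) (nat_lit 76) (nat_lit 34246765207) (nat_lit 1) (nat_lit 4) (nat_lit 2) (nat_lit 5) (nat_lit 2) (nat_lit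 4) (nat_lit 323) (nat_lit 216) (nat_lit 181)))))) (XT.nd (nat_lit 34632) (nat_lit 0) (nat_lit 0) (XT.nd (nat_lit 156) (nat_lit 0) (nat_lit 0) (XT.nd (nat_lit 78) (nat_lit 0) (nat_lit 0) (XT.lf (nat_lit 0) (nat_lit 793113388011) (nat_lit 76) (nat_lit 39469637057) (nat_lit 76) (nat_lit 35630368975) (nat_lit 1) (nat_lit 4) (nat_lit 2) (nat_lit 5) (nat_lit 2) (nat_lit 4) (nat_lit 324) (nat_lit 216) (nat_lit 180)) (XT.lf (nat_lit 0) (nat_lit 859453041231) (nat_lit 76) (nat_lit 40997303082) (nat_lit 76) (nat_lit 37139035336) (nat_lit 1) (nat_lit 4) (nat_lit 2) (nat_lit 5) (nat_lit 2) (nat_lit 4) (nat_lit 325) (nat_lit 216) (nat_lit 179))) (XT.nd (nat_lit 78) (nat_lit 0) (nat_lit 0) (XT.lf (nat_lit 0) (nat_lit 931076821463) (nat_lit 76) (nat_lit 42657564564) (nat_lit 76) (nat_lit 38781704536) (nat_lit 1) (nat_lit 4) (nat_lit 2) (nat_lit 5) (nat_lit 2) (nat_lit 4) (nat_lit 326) (nat_lit 216)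 (nat_lit 178)) (XT.nd (nat_lit 34320) (nat_lit 0) (nat_lit 76) (XT.lf (nat_lit 0) (nat_lit 1008409165924) (nat_lit 76) (nat_lit 44460260088) (nat_lit 76) (nat_lit 40568110912) (nat_lit 1) (nat_lit 4) (nat_lit 2) (nat_lit 5) (nat_lit 2) (nat_lit 4) (nat_lit 327) (nat_lit 216) (nat_lit 177)) (XT.lf (nat_lit 0) (nat_lit 6020246034) (nat_lit 152) (nat_lit 12208100818) (nat_lit 0) (nat_lit 6020246034) (nat_lit 2) (nat_lit 5) (nat_lit 4) (nat_lit 4) (nat_lit 2) (nat_lit 4) (nat_lit 286) (nat_lit 217) (nat_lit 217))))) (XT.nd (nat_lit 156) (nat_lit 76) (nat_lit 0) (XT.nd (nat_lit 78) (nat_lit 0) (nat_lit 0) (XT.lf (nat_lit 0) (nat_lit 17001538004) (nat_lit 152) (nat_lit 18479255277) (nat_lit 0) (nat_lit 16673876921) (nat_lit 2) (nat_lit 5) (nat_lit 4) (nat_lit 4) (nat_lit 2) (nat_lit 4) (nat_lit 287) (nat_lit 217) (nat_lit 216)) (XT.lf (nat_lit 0) (nat_lit 22147290037) (nat_lit 152) (nat_lit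 12452062640) (nat_lit 0) (nat_lit 21516239062) (nat_lit 2) (nat_lit 5) (nat_lit 4) (nat_lit 4) (nat_lit 2) (nat_lit 4) (nat_lit 288) (nat_lit 217) (nat_lit 215))) (XT.nd (nat_lit 78) (nat_lit 76) (nat_lit 0) (XT.lf (nat_lit 0) (nat_lit 27508241510) (nat_lit 152) (nat_lit 6298907030) (nat_lit 0) (nat_lit 26596273969) (nat_lit 2) (nat_lit 5) (nat_lit 4) (nat_lit 4) (nat_lit 2) (nat_lit 4) (nat_lit 289) (nat_lit 217) (nat_lit 214)) (XT.nd (nat_lit 78) (nat_lit 0) (nat_lit 0) (XT.lf (nat_lit 0) (nat_lit 17226037) (nat_lit 76) (nat_lit 33099203935) (nat_lit 76) (nat_lit 31927128462) (nat_lit 1) (nat_lit 4) (nat_lit 2) (nat_lit 5) (nat_lit 2) (nat_lit 4) (nat_lit 290) (nat_lit 217) (nat_lit 213)) (XT.lf (nat_lit 0) (nat_lit 6748089209) (nat_lit 76) (nat_lit 32361548075) (nat_lit 76) (nat_lit 30948631924) (nat_lit 1) (nat_lit 4) (nat_lit 2) (nat_lit 5) (nat_lit 2) (nat_lit 4) (nat_lit 291)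 (nat_lit 217) (nat_lit 212))))))))
noncomputable def xc11 : XT := (XT.nd (nat_lit 1482) (nat_lit 0) (nat_lit 0) (XT.nd (nat_lit 702) (nat_lit 0) (nat_lit 0) (XT.nd (nat_lit 312) (nat_lit 0) (nat_lit 0) (XT.nd (nat_lit 156) (nat_lit 0) (nat_lit 0) (XT.nd (nat_lit 78) (nat_lit 0) (nat_lit 0) (XT.lf (nat_lit 0) (nat_lit 13725298768) (nat_lit 76) (nat_lit 31696484705) (nat_lit 76) (nat_lit 30060567926) (nat_lit 1) (nat_lit 4) (nat_lit 2) (nat_lit 5) (nat_lit 2) (nat_lit 4) (nat_lit 292) (nat_lit 217) (nat_lit 211)) (XT.lf (nat_lit 0) (nat_lit 20990201140) (nat_lit 76) (nat_lit 31100072708) (nat_lit 76) (nat_lit 29257673867) (nat_lit 1) (nat_lit 4) (nat_lit 2) (nat_lit 5) (nat_lit 2) (nat_lit 4) (nat_lit 293) (nat_lit 217) (nat_lit 210))) (XT.nd (nat_lit 78) (nat_lit 0) (nat_lit 0) (XT.lf (nat_lit 0) (nat_lit 28585847599) (nat_lit 76) (nat_lit 30568777792) (nat_lit 76) (nat_lit 28535191856)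 (nat_lit 1) (nat_lit 4) (nat_lit 2) (nat_lit 5) (nat_lit 2) (nat_lit 4) (nat_lit 294) (nat_lit 217) (nat_lit 209)) (XT.lf (nat_lit 0) (nat_lit 36557249384) (nat_lit 76) (nat_lit 30099451542) (nat_lit 76) (nat_lit 27888840518) (nat_lit 1) (nat_lit 4) (nat_lit 2) (nat_lit 5) (nat_lit 2) (nat_lit 4) (nat_lit 295) (nat_lit 217) (nat_lit 208)))) (XT.nd (nat_lit 156) (nat_lit 0) (nat_lit 0) (XT.nd (nat_lit 78) (nat_lit 0) (nat_lit 0) (XT.lf (nat_lit 0) (nat_lit 44951644430) (nat_lit 76) (nat_lit 29689312765) (nat_lit 76) (nat_lit 27314789622) (nat_lit 1) (nat_lit 4) (nat_lit 2) (nat_lit 5) (nat_lit 2) (nat_lit 4) (nat_lit 296) (nat_lit 217) (nat_lit 207)) (XT.lf (nat_lit 0) (nat_lit 53818777302) (nat_lit 76) (nat_lit 29335931010) (nat_lit 76) (nat_lit 26809637387) (nat_lit 1) (nat_lit 4) (nat_lit 2) (nat_lit 5) (nat_lit 2) (nat_lit 4) (nat_lit 297) (nat_lit 217) (nat_lit 206))) (XT.nd (nat_lit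 78) (nat_lit 0) (nat_lit 0) (XT.lf (nat_lit 0) (nat_lit 63211193971) (nat_lit 76) (nat_lit 29037212162) (nat_lit 76) (nat_lit 26370390317) (nat_lit 1) (nat_lit 4) (nat_lit 2) (nat_lit 5) (nat_lit 2) (nat_lit 4) (nat_lit 298) (nat_lit 217) (nat_lit 205)) (XT.nd (nat_lit 78) (nat_lit 0) (nat_lit 0) (XT.lf (nat_lit 0) (nat_lit 73184553203) (nat_lit 76) (nat_lit 28791386036) (nat_lit 76) (nat_lit 25994445467) (nat_lit 1) (nat_lit 4) (nat_lit 2) (nat_lit 5) (nat_lit 2) (nat_lit 4) (nat_lit 299) (nat_lit 217) (nat_lit 204)) (XT.lf (nat_lit 0) (nat_lit 83797956386) (nat_lit 76) (nat_lit 28596995884) (nat_lit 76) (nat_lit 25679575015) (nat_lit 1) (nat_lit 4) (nat_lit 2) (nat_lit 5) (nat_lit 2) (nat_lit 4) (nat_lit 300) (nat_lit 217) (nat_lit 203)))))) (XT.nd (nat_lit 390) (nat_lit 0) (nat_lit 0) (XT.nd (nat_lit 156) (nat_lit 0) (nat_lit 0) (XT.nd (nat_lit 78) (nat_lit 0) (nat_lit 0) (XT.lf (nat_lit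 0) (nat_lit 95114297761) (nat_lit 76) (nat_lit 28452889765) (nat_lit 76) (nat_lit 25423913062) (nat_lit 1) (nat_lit 4) (nat_lit 2) (nat_lit 5) (nat_lit 2) (nat_lit 4) (nat_lit 301) (nat_lit 217) (nat_lit 202)) (XT.lf (nat_lit 0) (nat_lit 107200637130) (nat_lit 76) (nat_lit 28358213716) (nat_lit 76) (nat_lit 25225944574) (nat_lit 1) (nat_lit 4) (nat_lit 2) (nat_lit 5) (nat_lit 2) (nat_lit 4) (nat_lit 302) (nat_lit 217) (nat_lit 201))) (XT.nd (nat_lit 78) (nat_lit 0) (nat_lit 0) (XT.lf (nat_lit 0) (nat_lit 120128597243) (nat_lit 76) (nat_lit 28312406694) (nat_lit 76) (nat_lit 25084496405) (nat_lit 1) (nat_lit 4) (nat_lit 2) (nat_lit 5) (nat_lit 2) (nat_lit 4) (nat_lit 303) (nat_lit 217) (nat_lit 200)) (XT.nd (nat_lit 78) (nat_lit 0) (nat_lit 0) (XT.lf (nat_lit 0) (nat_lit 133974788234) (nat_lit 76) (nat_lit 28315197250) (nat_lit 76) (nat_lit 24998730344) (nat_lit 1) (nat_lit 4) (nat_lit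 2) (nat_lit 5) (nat_lit 2) (nat_lit 4) (nat_lit 304) (nat_lit 217) (nat_lit 199)) (XT.lf (nat_lit 0) (nat_lit 148821261607) (nat_lit 76) (nat_lit 28366601921) (nat_lit 76) (nat_lit 24968138147) (nat_lit 1) (nat_lit 4) (nat_lit 2) (nat_lit 5) (nat_lit 2) (nat_lit 4) (nat_lit 305) (nat_lit 217) (nat_lit 198))))) (XT.nd (nat_lit 156) (nat_lit 0) (nat_lit 0) (XT.nd (nat_lit 78) (nat_lit 0) (nat_lit 0) (XT.lf (nat_lit 0) (nat_lit 164755996462) (nat_lit 76) (nat_lit 28466925327) (nat_lit 76) (nat_lit 24992538527) (nat_lit 1) (nat_lit 4) (nat_lit 2) (nat_lit 5) (nat_lit 2) (nat_lit 4) (nat_lit 306) (nat_lit 217) (nat_lit 197)) (XT.lf (nat_lit 0) (nat_lit 181873420858) (nat_lit 76) (nat_lit 28616761977) (nat_lit 76) (nat_lit 25072076079) (nat_lit 1) (nat_lit 4) (nat_lit 2) (nat_lit 5) (nat_lit 2) (nat_lit 4) (nat_lit 307) (nat_lit 217) (nat_lit 196))) (XT.nd (nat_lit 78) (nat_lit 0) (nat_lit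 0) (XT.lf (nat_lit 0) (nat_lit 200274971384) (nat_lit 76) (nat_lit 28816999791) (nat_lit 76) (nat_lit 25207222136) (nat_lit 1) (nat_lit 4) (nat_lit 2) (nat_lit 5) (nat_lit 2) (nat_lit 4) (nat_lit 308) (nat_lit 217) (nat_lit 195)) (XT.nd (nat_lit 78) (nat_lit 0) (nat_lit 0) (XT.lf (nat_lit 0) (nat_lit 220069694264) (nat_lit 76) (nat_lit 29068825366) (nat_lit 76) (nat_lit 25398777565) (nat_lit 1) (nat_lit 4) (nat_lit 2) (nat_lit 5) (nat_lit 2) (nat_lit 4) (nat_lit 309) (nat_lit 217) (nat_lit 194)) (XT.lf (nat_lit 0) (nat_lit 241374891562) (nat_lit 76) (nat_lit 29373730999) (nat_lit 76) (nat_lit 25647877508) (nat_lit 1) (nat_lit 4) (nat_lit 2) (nat_lit 5) (nat_lit 2) (nat_lit 4) (nat_lit 310) (nat_lit 217) (nat_lit 193))))))) (XT.nd (nat_lit 780) (nat_lit 0) (nat_lit 0) (XT.nd (nat_lit 390) (nat_lit 0) (nat_lit 0) (XT.nd (nat_lit 156) (nat_lit 0) (nat_lit 0) (XT.nd (nat_lit 78) (nat_lit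 0) (nat_lit 0) (XT.lf (nat_lit 0) (nat_lit 264316816297) (nat_lit 76) (nat_lit 29733523540) (nat_lit 76) (nat_lit 25955998113) (nat_lit 1) (nat_lit 4) (nat_lit 2) (nat_lit 5) (nat_lit 2) (nat_lit 4) (nat_lit 311) (nat_lit 217) (nat_lit 192)) (XT.lf (nat_lit 0) (nat_lit 289031420616) (nat_lit 76) (nat_lit 30150335092) (nat_lit 76) (nat_lit 26324965280) (nat_lit 1) (nat_lit 4) (nat_lit 2) (nat_lit 5) (nat_lit 2) (nat_lit 4) (nat_lit 312) (nat_lit 217) (nat_lit 191))) (XT.nd (nat_lit 78) (nat_lit 0) (nat_lit 0) (XT.lf (nat_lit 0) (nat_lit 315665161434) (nat_lit 76) (nat_lit 30626635649) (nat_lit 76) (nat_lit 26756965481) (nat_lit 1) (nat_lit 4) (nat_lit 2) (nat_lit 5) (nat_lit 2) (nat_lit 4) (nat_lit 313) (nat_lit 217) (nat_lit 190)) (XT.nd (nat_lit 78) (nat_lit 0) (nat_lit 0) (XT.lf (nat_lit 0) (nat_lit 344375868326) (nat_lit 76) (nat_lit 31165247734) (nat_lit 76) (nat_lit 27254558718)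 (nat_lit 1) (nat_lit 4) (nat_lit 2) (nat_lit 5) (nat_lit 2) (nat_lit 4) (nat_lit 314) (nat_lit 217) (nat_lit 189)) (XT.lf (nat_lit 0) (nat_lit 375333678815) (nat_lit 76) (nat_lit 31769363122) (nat_lit 76) (nat_lit 27820693690) (nat_lit 1) (nat_lit 4) (nat_lit 2) (nat_lit 5) (nat_lit 2) (nat_lit 4) (nat_lit 315) (nat_lit 217) (nat_lit 188))))) (XT.nd (nat_lit 156) (nat_lit 0) (nat_lit 0) (XT.nd (nat_lit 78) (nat_lit 0) (nat_lit 0) (XT.lf (nat_lit 0) (nat_lit 408722046591) (nat_lit 76) (nat_lit 32442561756) (nat_lit 76) (nat_lit 28458725273) (nat_lit 1) (nat_lit 4) (nat_lit 2) (nat_lit 5) (nat_lit 2) (nat_lit 4) (nat_lit 316) (nat_lit 217) (nat_lit 187)) (XT.lf (nat_lit 0) (nat_lit 444738828650) (nat_lit 76) (nat_lit 33188832961) (nat_lit 76) (nat_lit 29172434393) (nat_lit 1) (nat_lit 4) (nat_lit 2) (nat_lit 5) (nat_lit 2) (nat_lit 4) (nat_lit 317) (nat_lit 217) (nat_lit 186))) (XT.nd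 (nat_lit 78) (nat_lit 0) (nat_lit 0) (XT.lf (nat_lit 0) (nat_lit 483597457773) (nat_lit 76) (nat_lit 34012599084) (nat_lit 76) (nat_lit 29966050438) (nat_lit 1) (nat_lit 4) (nat_lit 2) (nat_lit 5) (nat_lit 2) (nat_lit 4) (nat_lit 318) (nat_lit 217) (nat_lit 185)) (XT.nd (nat_lit 78) (nat_lit 0) (nat_lit 0) (XT.lf (nat_lit 0) (nat_lit 525528207319) (nat_lit 76) (nat_lit 34918741704) (nat_lit 76) (nat_lit 30844276319) (nat_lit 1) (nat_lit 4) (nat_lit 2) (nat_lit 5) (nat_lit 2) (nat_lit 4) (nat_lit 319) (nat_lit 217) (nat_lit 184)) (XT.lf (nat_lit 0) (nat_lit 570779555804) (nat_lit 76) (nat_lit 35912630554) (nat_lit 76) (nat_lit 31812316336) (nat_lit 1) (nat_lit 4) (nat_lit 2) (nat_lit 5) (nat_lit 2) (nat_lit 4) (nat_lit 320) (nat_lit 217) (nat_lit 183)))))) (XT.nd (nat_lit 390) (nat_lit 0) (nat_lit 0) (XT.nd (nat_lit 156) (nat_lit 0) (nat_lit 0) (XT.nd (nat_lit 78) (nat_lit 0) (nat_lit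 0) (XT.lf (nat_lit 0) (nat_lit 619619659366) (nat_lit 76) (nat_lit 37000155345) (nat_lit 76) (nat_lit 32875907023) (nat_lit 1) (nat_lit 4) (nat_lit 2) (nat_lit 5) (nat_lit 2) (nat_lit 4) (nat_lit 321) (nat_lit 217) (nat_lit 182)) (XT.lf (nat_lit 0) (nat_lit 672337940842) (nat_lit 76) (nat_lit 38187760669) (nat_lit 76) (nat_lit 34041351140) (nat_lit 1) (nat_lit 4) (nat_lit 2) (nat_lit 5) (nat_lit 2) (nat_lit 4) (nat_lit 322) (nat_lit 217) (nat_lit 181))) (XT.nd (nat_lit 78) (nat_lit 0) (nat_lit 0) (XT.lf (nat_lit 0) (nat_lit 729246804862) (nat_lit 76) (nat_lit 39482484188) (nat_lit 76) (nat_lit 35315555022) (nat_lit 1) (nat_lit 4) (nat_lit 2) (nat_lit 5) (nat_lit 2) (nat_lit 4) (nat_lit 323) (nat_lit 217) (nat_lit 180)) (XT.nd (nat_lit 78) (nat_lit 0) (nat_lit 0) (XT.lf (nat_lit 0) (nat_lit 790683489140) (nat_lit 76) (nat_lit 40891998336) (nat_lit 76) (nat_lit 36706069507) (nat_lit 1)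 (nat_lit 4) (nat_lit 2) (nat_lit 5) (nat_lit 2) (nat_lit 4) (nat_lit 324) (nat_lit 217) (nat_lit 179)) (XT.lf (nat_lit 0) (nat_lit 857012062915) (nat_lit 76) (nat_lit 42424655791) (nat_lit 76) (nat_lit 38221134681) (nat_lit 1) (nat_lit 4) (nat_lit 2) (nat_lit 5) (nat_lit 2) (nat_lit 4) (nat_lit 325) (nat_lit 217) (nat_lit 178))))) (XT.nd (nat_lit 34242) (nat_lit 0) (nat_lit 76) (XT.nd (nat_lit 78) (nat_lit 0) (nat_lit 0) (XT.lf (nat_lit 0) (nat_lit 928625584402) (nat_lit 76) (nat_lit 44089538967) (nat_lit 76) (nat_lit 39869728708) (nat_lit 1) (nat_lit 4) (nat_lit 2) (nat_lit 5) (nat_lit 2) (nat_lit 4) (nat_lit 326) (nat_lit 217) (nat_lit 177)) (XT.lf (nat_lit 0) (nat_lit 1005948430025) (nat_lit 76) (nat_lit 45896513838) (nat_lit 76) (nat_lit 41661621033) (nat_lit 1) (nat_lit 4) (nat_lit 2) (nat_lit 5) (nat_lit 2) (nat_lit 4) (nat_lit 327) (nat_lit 217) (nat_lit 176))) (XT.nd (nat_lit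 78) (nat_lit 0) (nat_lit 0) (XT.lf (nat_lit 0) (nat_lit 1514350143) (nat_lit 152) (nat_lit 17972011812) (nat_lit 0) (nat_lit 1514350143) (nat_lit 2) (nat_lit 5) (nat_lit 4) (nat_lit 4) (nat_lit 2) (nat_lit 4) (nat_lit 284) (nat_lit 218) (nat_lit 218)) (XT.nd (nat_lit 78) (nat_lit 0) (nat_lit 0) (XT.lf (nat_lit 0) (nat_lit 7588627406) (nat_lit 152) (nat_lit 30298083624) (nat_lit 0) (nat_lit 7234753436) (nat_lit 2) (nat_lit 5) (nat_lit 4) (nat_lit 4) (nat_lit 2) (nat_lit 4) (nat_lit 285) (nat_lit 218) (nat_lit 217)) (XT.lf (nat_lit 0) (nat_lit 12284196910) (nat_lit 152) (nat_lit 24615954611) (nat_lit 0) (nat_lit 11602661857) (nat_lit 2) (nat_lit 5) (nat_lit 4) (nat_lit 4) (nat_lit 2) (nat_lit 4) (nat_lit 286) (nat_lit 218) (nat_lit 216))))))))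
noncomputable def xc12 : XT := (XT.nd (nat_lit 1482) (nat_lit 0) (nat_lit 0) (XT.nd (nat_lit 702) (nat_lit 0) (nat_lit 0) (XT.nd (nat_lit 312) (nat_lit 76) (nat_lit 0) (XT.nd (nat_lit 156) (nat_lit 0) (nat_lit 0) (XT.nd (nat_lit 78) (nat_lit 0) (nat_lit 0) (XT.lf (nat_lit 0) (nat_lit 17143234395) (nat_lit 152) (nat_lit 18863964709) (nat_lit 0) (nat_lit 16158309450) (nat_lit 2) (nat_lit 5) (nat_lit 4) (nat_lit 4) (nat_lit 2) (nat_lit 4) (nat_lit 287) (nat_lit 218) (nat_lit 215)) (XT.lf (nat_lit 0) (nat_lit 22194534158) (nat_lit 152) (nat_lit 13008028052) (nat_lit 0) (nat_lit 20928692646) (nat_lit 2) (nat_lit 5) (nat_lit 4) (nat_lit 4) (nat_lit 2) (nat_lit 4) (nat_lit 288) (nat_lit 218) (nat_lit 214))) (XT.nd (nat_lit 78) (nat_lit 0) (nat_lit 0) (XT.lf (nat_lit 0) (nat_lit 27468029826) (nat_lit 152) (nat_lit 7013442794) (nat_lit 0) (nat_lit 25942080382) (nat_lit 2) (nat_lit 5) (nat_lit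 4) (nat_lit 4) (nat_lit 2) (nat_lit 4) (nat_lit 289) (nat_lit 218) (nat_lit 213)) (XT.lf (nat_lit 0) (nat_lit 32994971744) (nat_lit 152) (nat_lit 844685465) (nat_lit 0) (nat_lit 31228181623) (nat_lit 2) (nat_lit 5) (nat_lit 4) (nat_lit 4) (nat_lit 2) (nat_lit 4) (nat_lit 290) (nat_lit 218) (nat_lit 212)))) (XT.nd (nat_lit 156) (nat_lit 0) (nat_lit 0) (XT.nd (nat_lit 78) (nat_lit 0) (nat_lit 0) (XT.lf (nat_lit 0) (nat_lit 5717805000) (nat_lit 76) (nat_lit 33179578121) (nat_lit 76) (nat_lit 31189787373) (nat_lit 1) (nat_lit 4) (nat_lit 2) (nat_lit 5) (nat_lit 2) (nat_lit 4) (nat_lit 291) (nat_lit 218) (nat_lit 211)) (XT.lf (nat_lit 0) (nat_lit 12564974197) (nat_lit 76) (nat_lit 32573099579) (nat_lit 76) (nat_lit 30376826768) (nat_lit 1) (nat_lit 4) (nat_lit 2) (nat_lit 5) (nat_lit 2) (nat_lit 4) (nat_lit 292) (nat_lit 218) (nat_lit 210))) (XT.nd (nat_lit 78) (nat_lit 0) (nat_lit 0) (XT.lf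 (nat_lit 0) (nat_lit 19709468828) (nat_lit 76) (nat_lit 32030932794) (nat_lit 76) (nat_lit 29643472888) (nat_lit 1) (nat_lit 4) (nat_lit 2) (nat_lit 5) (nat_lit 2) (nat_lit 4) (nat_lit 293) (nat_lit 218) (nat_lit 209)) (XT.nd (nat_lit 78) (nat_lit 0) (nat_lit 0) (XT.lf (nat_lit 0) (nat_lit 27193626637) (nat_lit 76) (nat_lit 31549864926) (nat_lit 76) (nat_lit 28985379932) (nat_lit 1) (nat_lit 4) (nat_lit 2) (nat_lit 5) (nat_lit 2) (nat_lit 4) (nat_lit 294) (nat_lit 218) (nat_lit 208)) (XT.lf (nat_lit 0) (nat_lit 35061798191) (nat_lit 76) (nat_lit 31127045202) (nat_lit 76) (nat_lit 28398648089) (nat_lit 1) (nat_lit 4) (nat_lit 2) (nat_lit 5) (nat_lit 2) (nat_lit 4) (nat_lit 295) (nat_lit 218) (nat_lit 207)))))) (XT.nd (nat_lit 390) (nat_lit 0) (nat_lit 0) (XT.nd (nat_lit 156) (nat_lit 0) (nat_lit 0) (XT.nd (nat_lit 78) (nat_lit 0) (nat_lit 0) (XT.lf (nat_lit 0) (nat_lit 43360609690) (nat_lit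 76) (nat_lit 30759968023) (nat_lit 76) (nat_lit 27879800430) (nat_lit 1) (nat_lit 4) (nat_lit 2) (nat_lit 5) (nat_lit 2) (nat_lit 4) (nat_lit 296) (nat_lit 218) (nat_lit 206)) (XT.lf (nat_lit 0) (nat_lit 52139239276) (nat_lit 76) (nat_lit 30446458118) (nat_lit 76) (nat_lit 27425762303) (nat_lit 1) (nat_lit 4) (nat_lit 2) (nat_lit 5) (nat_lit 2) (nat_lit 4) (nat_lit 297) (nat_lit 218) (nat_lit 205))) (XT.nd (nat_lit 78) (nat_lit 0) (nat_lit 0) (XT.lf (nat_lit 0) (nat_lit 61449708460) (nat_lit 76) (nat_lit 30184657649) (nat_lit 76) (nat_lit 27033843110) (nat_lit 1) (nat_lit 4) (nat_lit 2) (nat_lit 5) (nat_lit 2) (nat_lit 4) (nat_lit 298) (nat_lit 218) (nat_lit 204)) (XT.nd (nat_lit 78) (nat_lit 0) (nat_lit 0) (XT.lf (nat_lit 0) (nat_lit 71347190390) (nat_lit 76) (nat_lit 29973015208) (nat_lit 76) (nat_lit 26701720369) (nat_lit 1) (nat_lit 4) (nat_lit 2) (nat_lit 5) (nat_lit 2) (nat_lit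 4) (nat_lit 299) (nat_lit 218) (nat_lit 203)) (XT.lf (nat_lit 0) (nat_lit 81890336812) (nat_lit 76) (nat_lit 29810276616) (nat_lit 76) (nat_lit 26427425943) (nat_lit 1) (nat_lit 4) (nat_lit 2) (nat_lit 5) (nat_lit 2) (nat_lit 4) (nat_lit 300) (nat_lit 218) (nat_lit 202))))) (XT.nd (nat_lit 156) (nat_lit 0) (nat_lit 0) (XT.nd (nat_lit 78) (nat_lit 0) (nat_lit 0) (XT.lf (nat_lit 0) (nat_lit 93141625631) (nat_lit 76) (nat_lit 29695477496) (nat_lit 76) (nat_lit 26209334385) (nat_lit 1) (nat_lit 4) (nat_lit 2) (nat_lit 5) (nat_lit 2) (nat_lit 4) (nat_lit 301) (nat_lit 218) (nat_lit 201)) (XT.lf (nat_lit 0) (nat_lit 105167731151) (nat_lit 76) (nat_lit 29627937558) (nat_lit 76) (nat_lit 26046153300) (nat_lit 1) (nat_lit 4) (nat_lit 2) (nat_lit 5) (nat_lit 2) (nat_lit 4) (nat_lit 302) (nat_lit 218) (nat_lit 200))) (XT.nd (nat_lit 78) (nat_lit 0) (nat_lit 0) (XT.lf (nat_lit 0) (nat_lit 118039919182)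 (nat_lit 76) (nat_lit 29607256565) (nat_lit 76) (nat_lit 25936915690) (nat_lit 1) (nat_lit 4) (nat_lit 2) (nat_lit 5) (nat_lit 2) (nat_lit 4) (nat_lit 303) (nat_lit 218) (nat_lit 199)) (XT.nd (nat_lit 78) (nat_lit 0) (nat_lit 0) (XT.lf (nat_lit 0) (nat_lit 131834469358) (nat_lit 76) (nat_lit 29633311963) (nat_lit 76) (nat_lit 25880974219) (nat_lit 1) (nat_lit 4) (nat_lit 2) (nat_lit 5) (nat_lit 2) (nat_lit 4) (nat_lit 304) (nat_lit 218) (nat_lit 198)) (XT.lf (nat_lit 0) (nat_lit 146633127159) (nat_lit 76) (nat_lit 29706258154) (nat_lit 76) (nat_lit 25877997384) (nat_lit 1) (nat_lit 4) (nat_lit 2) (nat_lit 5) (nat_lit 2) (nat_lit 4) (nat_lit 305) (nat_lit 218) (nat_lit 197))))))) (XT.nd (nat_lit 702) (nat_lit 0) (nat_lit 0) (XT.nd (nat_lit 312) (nat_lit 0) (nat_lit 0) (XT.nd (nat_lit 156) (nat_lit 0) (nat_lit 0) (XT.nd (nat_lit 78) (nat_lit 0) (nat_lit 0) (XT.lf (nat_lit 0) (nat_lit 162523588338)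 (nat_lit 76) (nat_lit 29826527411) (nat_lit 76) (nat_lit 25927967544) (nat_lit 1) (nat_lit 4) (nat_lit 2) (nat_lit 5) (nat_lit 2) (nat_lit 4) (nat_lit 306) (nat_lit 218) (nat_lit 196)) (XT.lf (nat_lit 0) (nat_lit 179600018589) (nat_lit 76) (nat_lit 29994832442) (nat_lit 76) (nat_lit 26031180817) (nat_lit 1) (nat_lit 4) (nat_lit 2) (nat_lit 5) (nat_lit 2) (nat_lit 4) (nat_lit 307) (nat_lit 218) (nat_lit 195))) (XT.nd (nat_lit 78) (nat_lit 0) (nat_lit 0) (XT.lf (nat_lit 0) (nat_lit 197963611572) (nat_lit 76) (nat_lit 30212170610) (nat_lit 76) (nat_lit 26188248839) (nat_lit 1) (nat_lit 4) (nat_lit 2) (nat_lit 5) (nat_lit 2) (nat_lit 4) (nat_lit 308) (nat_lit 218) (nat_lit 194)) (XT.lf (nat_lit 0) (nat_lit 217723188581) (nat_lit 76) (nat_lit 30479829845) (nat_lit 76) (nat_lit 26400102383) (nat_lit 1) (nat_lit 4) (nat_lit 2) (nat_lit 5) (nat_lit 2) (nat_lit 4) (nat_lit 309) (nat_lit 218)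 (nat_lit 193)))) (XT.nd (nat_lit 156) (nat_lit 0) (nat_lit 0) (XT.nd (nat_lit 78) (nat_lit 0) (nat_lit 0) (XT.lf (nat_lit 0) (nat_lit 238995843404) (nat_lit 76) (nat_lit 30799396275) (nat_lit 76) (nat_lit 26667996878) (nat_lit 1) (nat_lit 4) (nat_lit 2) (nat_lit 5) (nat_lit 2) (nat_lit 4) (nat_lit 310) (nat_lit 218) (nat_lit 192)) (XT.lf (nat_lit 0) (nat_lit 261907636219) (nat_lit 76) (nat_lit 31172763627) (nat_lit 76) (nat_lit 26993519845) (nat_lit 1) (nat_lit 4) (nat_lit 2) (nat_lit 5) (nat_lit 2) (nat_lit 4) (nat_lit 311) (nat_lit 218) (nat_lit 191))) (XT.nd (nat_lit 78) (nat_lit 0) (nat_lit 0) (XT.lf (nat_lit 0) (nat_lit 286594340612) (nat_lit 76) (nat_lit 31602144449) (nat_lit 76) (nat_lit 27378600311) (nat_lit 1) (nat_lit 4) (nat_lit 2) (nat_lit 5) (nat_lit 2) (nat_lit 4) (nat_lit 312) (nat_lit 218) (nat_lit 190)) (XT.nd (nat_lit 78) (nat_lit 0) (nat_lit 0) (XT.lf (nat_lit 0) (nat_lit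 313202248165) (nat_lit 76) (nat_lit 32090083219) (nat_lit 76) (nat_lit 27825520233) (nat_lit 1) (nat_lit 4) (nat_lit 2) (nat_lit 5) (nat_lit 2) (nat_lit 4) (nat_lit 313) (nat_lit 218) (nat_lit 189)) (XT.lf (nat_lit 0) (nat_lit 341889035367) (nat_lit 76) (nat_lit 32639471427) (nat_lit 76) (nat_lit 28336928025) (nat_lit 1) (nat_lit 4) (nat_lit 2) (nat_lit 5) (nat_lit 2) (nat_lit 4) (nat_lit 314) (nat_lit 218) (nat_lit 188)))))) (XT.nd (nat_lit 390) (nat_lit 0) (nat_lit 0) (XT.nd (nat_lit 156) (nat_lit 0) (nat_lit 0) (XT.nd (nat_lit 78) (nat_lit 0) (nat_lit 0) (XT.lf (nat_lit 0) (nat_lit 372824697994) (nat_lit 76) (nat_lit 33253564707) (nat_lit 76) (nat_lit 28915854254) (nat_lit 1) (nat_lit 4) (nat_lit 2) (nat_lit 5) (nat_lit 2) (nat_lit 4) (nat_lit 315) (nat_lit 218) (nat_lit 187)) (XT.lf (nat_lit 0) (nat_lit 406192558492) (nat_lit 76) (nat_lit 33936002129) (nat_lit 76) (nat_lit 29565729592)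 (nat_lit 1) (nat_lit 4) (nat_lit 2) (nat_lit 5) (nat_lit 2) (nat_lit 4) (nat_lit 316) (nat_lit 218) (nat_lit 186))) (XT.nd (nat_lit 78) (nat_lit 0) (nat_lit 0) (XT.lf (nat_lit 0) (nat_lit 442190352330) (nat_lit 76) (nat_lit 34690827768) (nat_lit 76) (nat_lit 30290405152) (nat_lit 1) (nat_lit 4) (nat_lit 2) (nat_lit 5) (nat_lit 2) (nat_lit 4) (nat_lit 317) (nat_lit 218) (nat_lit 185)) (XT.nd (nat_lit 78) (nat_lit 0) (nat_lit 0) (XT.lf (nat_lit 0) (nat_lit 481031399767) (nat_lit 76) (nat_lit 35522514664) (nat_lit 76) (nat_lit 31094175309) (nat_lit 1) (nat_lit 4) (nat_lit 2) (nat_lit 5) (nat_lit 2) (nat_lit 4) (nat_lit 318) (nat_lit 218) (nat_lit 184)) (XT.lf (nat_lit 0) (nat_lit 522945869974) (nat_lit 76) (nat_lit 36435991332) (nat_lit 76) (nat_lit 31981803144) (nat_lit 1) (nat_lit 4) (nat_lit 2) (nat_lit 5) (nat_lit 2) (nat_lit 4) (nat_lit 319) (nat_lit 218) (nat_lit 183))))) (XT.nd (nat_lit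 156) (nat_lit 0) (nat_lit 0) (XT.nd (nat_lit 78) (nat_lit 0) (nat_lit 0) (XT.lf (nat_lit 0) (nat_lit 568182144997) (nat_lit 76) (nat_lit 37436670967) (nat_lit 76) (nat_lit 32958548675) (nat_lit 1) (nat_lit 4) (nat_lit 2) (nat_lit 5) (nat_lit 2) (nat_lit 4) (nat_lit 320) (nat_lit 218) (nat_lit 182)) (XT.lf (nat_lit 0) (nat_lit 617008291649) (nat_lit 76) (nat_lit 38530483522) (nat_lit 76) (nat_lit 34030200023) (nat_lit 1) (nat_lit 4) (nat_lit 2) (nat_lit 5) (nat_lit 2) (nat_lit 4) (nat_lit 321) (nat_lit 218) (nat_lit 181))) (XT.nd (nat_lit 78) (nat_lit 0) (nat_lit 0) (XT.lf (nat_lit 0) (nat_lit 669713650061) (nat_lit 76) (nat_lit 39723910851) (nat_lit 76) (nat_lit 35203107715) (nat_lit 1) (nat_lit 4) (nat_lit 2) (nat_lit 5) (nat_lit 2) (nat_lit 4) (nat_lit 322) (nat_lit 218) (nat_lit 180)) (XT.nd (nat_lit 78) (nat_lit 0) (nat_lit 0) (XT.lf (nat_lit 0) (nat_lit 726610548281) (nat_lit 76)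 (nat_lit 41024025114) (nat_lit 76) (nat_lit 36484222315) (nat_lit 1) (nat_lit 4) (nat_lit 2) (nat_lit 5) (nat_lit 2) (nat_lit 4) (nat_lit 323) (nat_lit 218) (nat_lit 179)) (XT.lf (nat_lit 0) (nat_lit 788036153114) (nat_lit 76) (nat_lit 42438530692) (nat_lit 76) (nat_lit 37881135612) (nat_lit 1) (nat_lit 4) (nat_lit 2) (nat_lit 5) (nat_lit 2) (nat_lit 4) (nat_lit 324) (nat_lit 218) (nat_lit 178))))))))
noncomputable def xc13 : XT := (XT.nd (nat_lit 35412) (nat_lit 0) (nat_lit 0) (XT.nd (nat_lit 34632) (nat_lit 0) (nat_lit 0) (XT.nd (nat_lit 34242) (nat_lit 0) (nat_lit 76) (XT.nd (nat_lit 156) (nat_lit 0) (nat_lit 0) (XT.nd (nat_lit 78) (nat_lit 0) (nat_lit 0) (XT.lf (nat_lit 0) (nat_lit 854354468144) (nat_lit 76) (nat_lit 43975809842) (nat_lit 76) (nat_lit 39402125613) (nat_lit 1) (nat_lit 4) (nat_lit 2) (nat_lit 5) (nat_lit 2) (nat_lit 4) (nat_lit 325) (nat_lit 218) (nat_lit 177)) (XT.lf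 (nat_lit 0) (nat_lit 925958490793) (nat_lit 76) (nat_lit 45644972364) (nat_lit 76) (nat_lit 41056205590) (nat_lit 1) (nat_lit 4) (nat_lit 2) (nat_lit 5) (nat_lit 2) (nat_lit 4) (nat_lit 326) (nat_lit 218) (nat_lit 176))) (XT.nd (nat_lit 34008) (nat_lit 0) (nat_lit 228) (XT.lf (nat_lit 0) (nat_lit 1003272541196) (nat_lit 76) (nat_lit 47455909593) (nat_lit 76) (nat_lit 42853177499) (nat_lit 1) (nat_lit 4) (nat_lit 2) (nat_lit 5) (nat_lit 2) (nat_lit 4) (nat_lit 327) (nat_lit 218) (nat_lit 175)) (XT.lf (nat_lit 0) (nat_lit 13028971120) (nat_lit 76) (nat_lit 2597903973) (nat_lit 76) (nat_lit 2597903973) (nat_lit 4) (nat_lit 4) (nat_lit 5) (nat_lit 5) (nat_lit 5) (nat_lit 4) (nat_lit 282) (nat_lit 219) (nat_lit 219)))) (XT.nd (nat_lit 156) (nat_lit 0) (nat_lit 0) (XT.nd (nat_lit 78) (nat_lit 152) (nat_lit 0) (XT.lf (nat_lit 0) (nat_lit 36697023079) (nat_lit 76) (nat_lit 1412297702) (nat_lit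 76) (nat_lit 1011004620) (nat_lit 4) (nat_lit 4) (nat_lit 5) (nat_lit 5) (nat_lit 5) (nat_lit 4) (nat_lit 283) (nat_lit 219) (nat_lit 218)) (XT.lf (nat_lit 0) (nat_lit 3291901516) (nat_lit 152) (nat_lit 36159756836) (nat_lit 0) (nat_lit 2555843659) (nat_lit 2) (nat_lit 5) (nat_lit 4) (nat_lit 4) (nat_lit 2) (nat_lit 4) (nat_lit 284) (nat_lit 219) (nat_lit 217))) (XT.nd (nat_lit 78) (nat_lit 0) (nat_lit 0) (XT.lf (nat_lit 0) (nat_lit 7741659508) (nat_lit 152) (nat_lit 30713569811) (nat_lit 0) (nat_lit 6677940568) (nat_lit 2) (nat_lit 5) (nat_lit 4) (nat_lit 4) (nat_lit 2) (nat_lit 4) (nat_lit 285) (nat_lit 219) (nat_lit 216)) (XT.nd (nat_lit 78) (nat_lit 0) (nat_lit 0) (XT.lf (nat_lit 0) (nat_lit 12335220561) (nat_lit 152) (nat_lit 25216397255) (nat_lit 0) (nat_lit 10968111728) (nat_lit 2) (nat_lit 5) (nat_lit 4) (nat_lit 4) (nat_lit 2) (nat_lit 4) (nat_lit 286) (nat_lit 219) (nat_lit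 215)) (XT.lf (nat_lit 0) (nat_lit 17099805776) (nat_lit 152) (nat_lit 19635663333) (nat_lit 0) (nat_lit 15451780377) (nat_lit 2) (nat_lit 5) (nat_lit 4) (nat_lit 4) (nat_lit 2) (nat_lit 4) (nat_lit 287) (nat_lit 219) (nat_lit 214)))))) (XT.nd (nat_lit 390) (nat_lit 0) (nat_lit 0) (XT.nd (nat_lit 156) (nat_lit 76) (nat_lit 0) (XT.nd (nat_lit 78) (nat_lit 0) (nat_lit 0) (XT.lf (nat_lit 0) (nat_lit 22063649733) (nat_lit 152) (nat_lit 13938297028) (nat_lit 0) (nat_lit 20155516402) (nat_lit 2) (nat_lit 5) (nat_lit 4) (nat_lit 4) (nat_lit 2) (nat_lit 4) (nat_lit 288) (nat_lit 219) (nat_lit 213)) (XT.lf (nat_lit 0) (nat_lit 27256167803) (nat_lit 152) (nat_lit 8090536168) (nat_lit 0) (nat_lit 25107193794) (nat_lit 2) (nat_lit 5) (nat_lit 4) (nat_lit 4) (nat_lit 2) (nat_lit 4) (nat_lit 289) (nat_lit 219) (nat_lit 212))) (XT.nd (nat_lit 78) (nat_lit 76) (nat_lit 0) (XT.lf (nat_lit 0) (nat_lit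 32708130464) (nat_lit 152) (nat_lit 2057727358) (nat_lit 0) (nat_lit 30336155828) (nat_lit 2) (nat_lit 5) (nat_lit 4) (nat_lit 4) (nat_lit 2) (nat_lit 4) (nat_lit 290) (nat_lit 219) (nat_lit 211)) (XT.nd (nat_lit 78) (nat_lit 0) (nat_lit 0) (XT.lf (nat_lit 0) (nat_lit 4334614102) (nat_lit 76) (nat_lit 34184907014) (nat_lit 76) (nat_lit 31606450316) (nat_lit 1) (nat_lit 4) (nat_lit 2) (nat_lit 5) (nat_lit 2) (nat_lit 4) (nat_lit 291) (nat_lit 219) (nat_lit 210)) (XT.lf (nat_lit 0) (nat_lit 11061375558) (nat_lit 76) (nat_lit 33632673684) (nat_lit 76) (nat_lit 30863029891) (nat_lit 1) (nat_lit 4) (nat_lit 2) (nat_lit 5) (nat_lit 2) (nat_lit 4) (nat_lit 292) (nat_lit 219) (nat_lit 209))))) (XT.nd (nat_lit 156) (nat_lit 0) (nat_lit 0) (XT.nd (nat_lit 78) (nat_lit 0) (nat_lit 0) (XT.lf (nat_lit 0) (nat_lit 18094381539) (nat_lit 76) (nat_lit 33140733947) (nat_lit 76) (nat_lit 30194065065) (nat_lit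 1) (nat_lit 4) (nat_lit 2) (nat_lit 5) (nat_lit 2) (nat_lit 4) (nat_lit 293) (nat_lit 219) (nat_lit 208)) (XT.lf (nat_lit 0) (nat_lit 25475309117) (nat_lit 76) (nat_lit 32706172604) (nat_lit 76) (nat_lit 29595591604) (nat_lit 1) (nat_lit 4) (nat_lit 2) (nat_lit 5) (nat_lit 2) (nat_lit 4) (nat_lit 294) (nat_lit 219) (nat_lit 207))) (XT.nd (nat_lit 78) (nat_lit 0) (nat_lit 0) (XT.lf (nat_lit 0) (nat_lit 33247897123) (nat_lit 76) (nat_lit 32326414478) (nat_lit 76) (nat_lit 29064062998) (nat_lit 1) (nat_lit 4) (nat_lit 2) (nat_lit 5) (nat_lit 2) (nat_lit 4) (nat_lit 295) (nat_lit 219) (nat_lit 206)) (XT.nd (nat_lit 78) (nat_lit 0) (nat_lit 0) (XT.lf (nat_lit 0) (nat_lit 41458205338) (nat_lit 76) (nat_lit 31999209149) (nat_lit 76) (nat_lit 28596329447) (nat_lit 1) (nat_lit 4) (nat_lit 2) (nat_lit 5) (nat_lit 2) (nat_lit 4) (nat_lit 296) (nat_lit 219) (nat_lit 205)) (XT.lf (nat_lit 0) (nat_lit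 50154887439) (nat_lit 76) (nat_lit 31722617623) (nat_lit 76) (nat_lit 28189619197) (nat_lit 1) (nat_lit 4) (nat_lit 2) (nat_lit 5) (nat_lit 2) (nat_lit 4) (nat_lit 297) (nat_lit 219) (nat_lit 204))))))) (XT.nd (nat_lit 780) (nat_lit 0) (nat_lit 0) (XT.nd (nat_lit 390) (nat_lit 0) (nat_lit 0) (XT.nd (nat_lit 156) (nat_lit 0) (nat_lit 0) (XT.nd (nat_lit 78) (nat_lit 0) (nat_lit 0) (XT.lf (nat_lit 0) (nat_lit 59389479320) (nat_lit 76) (nat_lit 31495000840) (nat_lit 76) (nat_lit 27841522113) (nat_lit 1) (nat_lit 4) (nat_lit 2) (nat_lit 5) (nat_lit 2) (nat_lit 4) (nat_lit 298) (nat_lit 219) (nat_lit 203)) (XT.lf (nat_lit 0) (nat_lit 69216704490) (nat_lit 76) (nat_lit 31315009958) (nat_lit 76) (nat_lit 27549975398) (nat_lit 1) (nat_lit 4) (nat_lit 2) (nat_lit 5) (nat_lit 2) (nat_lit 4) (nat_lit 299) (nat_lit 219) (nat_lit 202))) (XT.nd (nat_lit 78) (nat_lit 0) (nat_lit 0) (XT.lf (nat_lit 0)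 (nat_lit 79694798356) (nat_lit 76) (nat_lit 31181578366) (nat_lit 76) (nat_lit 27313251367) (nat_lit 1) (nat_lit 4) (nat_lit 2) (nat_lit 5) (nat_lit 2) (nat_lit 4) (nat_lit 300) (nat_lit 219) (nat_lit 201)) (XT.nd (nat_lit 78) (nat_lit 0) (nat_lit 0) (XT.lf (nat_lit 0) (nat_lit 90885853326) (nat_lit 76) (nat_lit 31093915358) (nat_lit 76) (nat_lit 27129947212) (nat_lit 1) (nat_lit 4) (nat_lit 2) (nat_lit 5) (nat_lit 2) (nat_lit 4) (nat_lit 301) (nat_lit 219) (nat_lit 200)) (XT.lf (nat_lit 0) (nat_lit 102856186764) (nat_lit 76) (nat_lit 31051501449) (nat_lit 76) (nat_lit 26998976685) (nat_lit 1) (nat_lit 4) (nat_lit 2) (nat_lit 5) (nat_lit 2) (nat_lit 4) (nat_lit 302) (nat_lit 219) (nat_lit 199))))) (XT.nd (nat_lit 156) (nat_lit 0) (nat_lit 0) (XT.nd (nat_lit 78) (nat_lit 0) (nat_lit 0) (XT.lf (nat_lit 0) (nat_lit 115676733979) (nat_lit 76) (nat_lit 31054085297) (nat_lit 76) (nat_lit 26919563666)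 (nat_lit 1) (nat_lit 4) (nat_lit 2) (nat_lit 5) (nat_lit 2) (nat_lit 4) (nat_lit 303) (nat_lit 219) (nat_lit 198)) (XT.lf (nat_lit 0) (nat_lit 129423468583) (nat_lit 76) (nat_lit 31101682214) (nat_lit 76) (nat_lit 26891237557) (nat_lit 1) (nat_lit 4) (nat_lit 2) (nat_lit 5) (nat_lit 2) (nat_lit 4) (nat_lit 304) (nat_lit 219) (nat_lit 197))) (XT.nd (nat_lit 78) (nat_lit 0) (nat_lit 0) (XT.lf (nat_lit 0) (nat_lit 144177852708) (nat_lit 76) (nat_lit 31194574257) (nat_lit 76) (nat_lit 26913830502) (nat_lit 1) (nat_lit 4) (nat_lit 2) (nat_lit 5) (nat_lit 2) (nat_lit 4) (nat_lit 305) (nat_lit 219) (nat_lit 196)) (XT.nd (nat_lit 78) (nat_lit 0) (nat_lit 0) (XT.lf (nat_lit 0) (nat_lit 160027319742) (nat_lit 76) (nat_lit 31333311896) (nat_lit 76) (nat_lit 26987476383) (nat_lit 1) (nat_lit 4) (nat_lit 2) (nat_lit 5) (nat_lit 2) (nat_lit 4) (nat_lit 306) (nat_lit 219) (nat_lit 195)) (XT.lf (nat_lit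 0) (nat_lit 177065792451) (nat_lit 76) (nat_lit 31518717280) (nat_lit 76) (nat_lit 27112611622) (nat_lit 1) (nat_lit 4) (nat_lit 2) (nat_lit 5) (nat_lit 2) (nat_lit 4) (nat_lit 307) (nat_lit 219) (nat_lit 194)))))) (XT.nd (nat_lit 390) (nat_lit 0) (nat_lit 0) (XT.nd (nat_lit 156) (nat_lit 0) (nat_lit 0) (XT.nd (nat_lit 78) (nat_lit 0) (nat_lit 0) (XT.lf (nat_lit 0) (nat_lit 195394239562) (nat_lit 76) (nat_lit 31751889108) (nat_lit 76) (nat_lit 27289977759) (nat_lit 1) (nat_lit 4) (nat_lit 2) (nat_lit 5) (nat_lit 2) (nat_lit 4) (nat_lit 308) (nat_lit 219) (nat_lit 193)) (XT.lf (nat_lit 0) (nat_lit 215121274097) (nat_lit 76) (nat_lit 32034209139) (nat_lit 76) (nat_lit 27520625854) (nat_lit 1) (nat_lit 4) (nat_lit 2) (nat_lit 5) (nat_lit 2) (nat_lit 4) (nat_lit 309) (nat_lit 219) (nat_lit 192))) (XT.nd (nat_lit 78) (nat_lit 0) (nat_lit 0) (XT.lf (nat_lit 0) (nat_lit 236363797000) (nat_lit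 76) (nat_lit 32367350380) (nat_lit 76) (nat_lit 27805922711) (nat_lit 1) (nat_lit 4) (nat_lit 2) (nat_lit 5) (nat_lit 2) (nat_lit 4) (nat_lit 310) (nat_lit 219) (nat_lit 191)) (XT.nd (nat_lit 78) (nat_lit 0) (nat_lit 0) (XT.lf (nat_lit 0) (nat_lit 259247689888) (nat_lit 76) (nat_lit 32753287002) (nat_lit 76) (nat_lit 28147558977) (nat_lit 1) (nat_lit 4) (nat_lit 2) (nat_lit 5) (nat_lit 2) (nat_lit 4) (nat_lit 311) (nat_lit 219) (nat_lit 190)) (XT.lf (nat_lit 0) (nat_lit 283908561016) (nat_lit 76) (nat_lit 33194306037) (nat_lit 76) (nat_lit 28547559163) (nat_lit 1) (nat_lit 4) (nat_lit 2) (nat_lit 5) (nat_lit 2) (nat_lit 4) (nat_lit 312) (nat_lit 219) (nat_lit 189))))) (XT.nd (nat_lit 156) (nat_lit 0) (nat_lit 0) (XT.nd (nat_lit 78) (nat_lit 0) (nat_lit 0) (XT.lf (nat_lit 0) (nat_lit 310492548879) (nat_lit 76) (nat_lit 33693020931) (nat_lit 76) (nat_lit 29008293641) (nat_lit 1) (nat_lit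 4) (nat_lit 2) (nat_lit 5) (nat_lit 2) (nat_lit 4) (nat_lit 313) (nat_lit 219) (nat_lit 188)) (XT.lf (nat_lit 0) (nat_lit 339157188220) (nat_lit 76) (nat_lit 34252387031) (nat_lit 76) (nat_lit 29532492690) (nat_lit 1) (nat_lit 4) (nat_lit 2) (nat_lit 5) (nat_lit 2) (nat_lit 4) (nat_lit 314) (nat_lit 219) (nat_lit 187))) (XT.nd (nat_lit 78) (nat_lit 0) (nat_lit 0) (XT.lf (nat_lit 0) (nat_lit 370072343569) (nat_lit 76) (nat_lit 34875719099) (nat_lit 76) (nat_lit 30123262674) (nat_lit 1) (nat_lit 4) (nat_lit 2) (nat_lit 5) (nat_lit 2) (nat_lit 4) (nat_lit 315) (nat_lit 219) (nat_lit 186)) (XT.nd (nat_lit 78) (nat_lit 0) (nat_lit 0) (XT.lf (nat_lit 0) (nat_lit 403421215845) (nat_lit 76) (nat_lit 35566710955) (nat_lit 76) (nat_lit 30784104452) (nat_lit 1) (nat_lit 4) (nat_lit 2) (nat_lit 5) (nat_lit 2) (nat_lit 4) (nat_lit 316) (nat_lit 219) (nat_lit 185)) (XT.lf (nat_lit 0) (nat_lit 439401427997)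 (nat_lit 76) (nat_lit 36329457366) (nat_lit 76) (nat_lit 31518934124) (nat_lit 1) (nat_lit 4) (nat_lit 2) (nat_lit 5) (nat_lit 2) (nat_lit 4) (nat_lit 317) (nat_lit 219) (nat_lit 184))))))))
noncomputable def xc14 : XT := (XT.nd (nat_lit 35256) (nat_lit 0) (nat_lit 0) (XT.nd (nat_lit 702) (nat_lit 0) (nat_lit 0) (XT.nd (nat_lit 312) (nat_lit 0) (nat_lit 0) (XT.nd (nat_lit 156) (nat_lit 0) (nat_lit 0) (XT.nd (nat_lit 78) (nat_lit 0) (nat_lit 0) (XT.lf (nat_lit 0) (nat_lit 478226196095) (nat_lit 76) (nat_lit 37168478310) (nat_lit 76) (nat_lit 32332106235) (nat_lit 1) (nat_lit 4) (nat_lit 2) (nat_lit 5) (nat_lit 2) (nat_lit 4) (nat_lit 318) (nat_lit 219) (nat_lit 183)) (XT.lf (nat_lit 0) (nat_lit 520125592840) (nat_lit 76) (nat_lit 38088745763) (nat_lit 76) (nat_lit 33228439584) (nat_lit 1) (nat_lit 4) (nat_lit 2) (nat_lit 5) (nat_lit 2) (nat_lit 4) (nat_lit 319) (nat_lit 219) (nat_lit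 182))) (XT.nd (nat_lit 78) (nat_lit 0) (nat_lit 0) (XT.lf (nat_lit 0) (nat_lit 565347910953) (nat_lit 76) (nat_lit 39095713163) (nat_lit 76) (nat_lit 34213245776) (nat_lit 1) (nat_lit 4) (nat_lit 2) (nat_lit 5) (nat_lit 2) (nat_lit 4) (nat_lit 320) (nat_lit 219) (nat_lit 181)) (XT.lf (nat_lit 0) (nat_lit 614161134542) (nat_lit 76) (nat_lit 40195347722) (nat_lit 76) (nat_lit 35292360699) (nat_lit 1) (nat_lit 4) (nat_lit 2) (nat_lit 5) (nat_lit 2) (nat_lit 4) (nat_lit 321) (nat_lit 219) (nat_lit 180)))) (XT.nd (nat_lit 156) (nat_lit 0) (nat_lit 0) (XT.nd (nat_lit 78) (nat_lit 0) (nat_lit 0) (XT.lf (nat_lit 0) (nat_lit 666854527153) (nat_lit 76) (nat_lit 41394165795) (nat_lit 76) (nat_lit 36472179109) (nat_lit 1) (nat_lit 4) (nat_lit 2) (nat_lit 5) (nat_lit 2) (nat_lit 4) (nat_lit 322) (nat_lit 219) (nat_lit 179)) (XT.lf (nat_lit 0) (nat_lit 723740345929) (nat_lit 76) (nat_lit 42699271488)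 (nat_lit 76) (nat_lit 37759692521) (nat_lit 1) (nat_lit 4) (nat_lit 2) (nat_lit 5) (nat_lit 2) (nat_lit 4) (nat_lit 323) (nat_lit 219) (nat_lit 178))) (XT.nd (nat_lit 78) (nat_lit 0) (nat_lit 0) (XT.lf (nat_lit 0) (nat_lit 785155692017) (nat_lit 76) (nat_lit 44118398761) (nat_lit 76) (nat_lit 39162530645) (nat_lit 1) (nat_lit 4) (nat_lit 2) (nat_lit 5) (nat_lit 2) (nat_lit 4) (nat_lit 324) (nat_lit 219) (nat_lit 177)) (XT.nd (nat_lit 78) (nat_lit 0) (nat_lit 0) (XT.lf (nat_lit 0) (nat_lit 851464508208) (nat_lit 76) (nat_lit 45659957257) (nat_lit 76) (nat_lit 40689006595) (nat_lit 1) (nat_lit 4) (nat_lit 2) (nat_lit 5) (nat_lit 2) (nat_lit 4) (nat_lit 325) (nat_lit 219) (nat_lit 176)) (XT.lf (nat_lit 0) (nat_lit 923059735637) (nat_lit 76) (nat_lit 47333082138) (nat_lit 76) (nat_lit 42348166156) (nat_lit 1) (nat_lit 4) (nat_lit 2) (nat_lit 5) (nat_lit 2) (nat_lit 4) (nat_lit 326) (nat_lit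 219) (nat_lit 175)))))) (XT.nd (nat_lit 34164) (nat_lit 0) (nat_lit 76) (XT.nd (nat_lit 33930) (nat_lit 0) (nat_lit 228) (XT.nd (nat_lit 33852) (nat_lit 0) (nat_lit 228) (XT.lf (nat_lit 0) (nat_lit 1000365642318) (nat_lit 76) (nat_lit 49147688217) (nat_lit 76) (nat_lit 44149841383) (nat_lit 1) (nat_lit 4) (nat_lit 2) (nat_lit 5) (nat_lit 2) (nat_lit 4) (nat_lit 327) (nat_lit 219) (nat_lit 174)) (XT.lf (nat_lit 0) (nat_lit 3032891659) (nat_lit 76) (nat_lit 6412580534) (nat_lit 76) (nat_lit 6412580534) (nat_lit 4) (nat_lit 4) (nat_lit 5) (nat_lit 5) (nat_lit 5) (nat_lit 4) (nat_lit 280) (nat_lit 220) (nat_lit 220))) (XT.nd (nat_lit 78) (nat_lit 0) (nat_lit 0) (XT.lf (nat_lit 0) (nat_lit 15789847078) (nat_lit 76) (nat_lit 9316065084) (nat_lit 76) (nat_lit 8882668556) (nat_lit 4) (nat_lit 4) (nat_lit 5) (nat_lit 5) (nat_lit 5) (nat_lit 4) (nat_lit 281) (nat_lit 220) (nat_lit 219)) (XT.nd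 (nat_lit 78) (nat_lit 0) (nat_lit 0) (XT.lf (nat_lit 0) (nat_lit 25841374002) (nat_lit 76) (nat_lit 5724540635) (nat_lit 76) (nat_lit 4889851025) (nat_lit 4) (nat_lit 4) (nat_lit 5) (nat_lit 5) (nat_lit 5) (nat_lit 4) (nat_lit 282) (nat_lit 220) (nat_lit 218)) (XT.lf (nat_lit 0) (nat_lit 36279928692) (nat_lit 76) (nat_lit 2029304614) (nat_lit 76) (nat_lit 823047336) (nat_lit 4) (nat_lit 4) (nat_lit 5) (nat_lit 5) (nat_lit 5) (nat_lit 4) (nat_lit 283) (nat_lit 220) (nat_lit 217))))) (XT.nd (nat_lit 156) (nat_lit 0) (nat_lit 0) (XT.nd (nat_lit 78) (nat_lit 0) (nat_lit 0) (XT.lf (nat_lit 0) (nat_lit 3347007059) (nat_lit 152) (nat_lit 36808234893) (nat_lit 0) (nat_lit 1870529520) (nat_lit 2) (nat_lit 5) (nat_lit 4) (nat_lit 4) (nat_lit 2) (nat_lit 4) (nat_lit 284) (nat_lit 220) (nat_lit 216)) (XT.lf (nat_lit 0) (nat_lit 7694756599) (nat_lit 152) (nat_lit 31547004325) (nat_lit 0) (nat_lit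 5914889168) (nat_lit 2) (nat_lit 5) (nat_lit 4) (nat_lit 4) (nat_lit 2) (nat_lit 4) (nat_lit 285) (nat_lit 220) (nat_lit 215))) (XT.nd (nat_lit 78) (nat_lit 0) (nat_lit 0) (XT.lf (nat_lit 0) (nat_lit 12193865382) (nat_lit 152) (nat_lit 26221087749) (nat_lit 0) (nat_lit 10133081384) (nat_lit 2) (nat_lit 5) (nat_lit 4) (nat_lit 4) (nat_lit 2) (nat_lit 4) (nat_lit 286) (nat_lit 220) (nat_lit 214)) (XT.nd (nat_lit 78) (nat_lit 0) (nat_lit 0) (XT.lf (nat_lit 0) (nat_lit 16870994791) (nat_lit 152) (nat_lit 20798924178) (nat_lit 0) (nat_lit 14550102862) (nat_lit 2) (nat_lit 5) (nat_lit 4) (nat_lit 4) (nat_lit 2) (nat_lit 4) (nat_lit 287) (nat_lit 220) (nat_lit 213)) (XT.lf (nat_lit 0) (nat_lit 21753861151) (nat_lit 152) (nat_lit 15248382272) (nat_lit 0) (nat_lit 19192128544) (nat_lit 2) (nat_lit 5) (nat_lit 4) (nat_lit 4) (nat_lit 2) (nat_lit 4) (nat_lit 288) (nat_lit 220) (nat_lit 212)))))))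 (XT.nd (nat_lit 780) (nat_lit 0) (nat_lit 0) (XT.nd (nat_lit 390) (nat_lit 0) (nat_lit 0) (XT.nd (nat_lit 156) (nat_lit 76) (nat_lit 0) (XT.nd (nat_lit 78) (nat_lit 0) (nat_lit 0) (XT.lf (nat_lit 0) (nat_lit 26871399964) (nat_lit 152) (nat_lit 9536569931) (nat_lit 0) (nat_lit 24086666729) (nat_lit 2) (nat_lit 5) (nat_lit 4) (nat_lit 4) (nat_lit 2) (nat_lit 4) (nat_lit 289) (nat_lit 220) (nat_lit 211)) (XT.lf (nat_lit 0) (nat_lit 32253937387) (nat_lit 152) (nat_lit 3629639378) (nat_lit 0) (nat_lit 29262722090) (nat_lit 2) (nat_lit 5) (nat_lit 4) (nat_lit 4) (nat_lit 2) (nat_lit 4) (nat_lit 290) (nat_lit 220) (nat_lit 210))) (XT.nd (nat_lit 78) (nat_lit 0) (nat_lit 0) (XT.lf (nat_lit 0) (nat_lit 2590319831) (nat_lit 76) (nat_lit 35383492259) (nat_lit 76) (nat_lit 32201089867) (nat_lit 1) (nat_lit 4) (nat_lit 2) (nat_lit 5) (nat_lit 2) (nat_lit 4) (nat_lit 291) (nat_lit 220) (nat_lit 209))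 (XT.nd (nat_lit 78) (nat_lit 0) (nat_lit 0) (XT.lf (nat_lit 0) (nat_lit 9205592637) (nat_lit 76) (nat_lit 34881485977) (nat_lit 76) (nat_lit 31522058497) (nat_lit 1) (nat_lit 4) (nat_lit 2) (nat_lit 5) (nat_lit 2) (nat_lit 4) (nat_lit 292) (nat_lit 220) (nat_lit 208)) (XT.lf (nat_lit 0) (nat_lit 16135368386) (nat_lit 76) (nat_lit 34436052765) (nat_lit 76) (nat_lit 30912713167) (nat_lit 1) (nat_lit 4) (nat_lit 2) (nat_lit 5) (nat_lit 2) (nat_lit 4) (nat_lit 293) (nat_lit 220) (nat_lit 207))))) (XT.nd (nat_lit 156) (nat_lit 0) (nat_lit 0) (XT.nd (nat_lit 78) (nat_lit 0) (nat_lit 0) (XT.lf (nat_lit 0) (nat_lit 23420712417) (nat_lit 76) (nat_lit 34044553020) (nat_lit 76) (nat_lit 30369442942) (nat_lit 1) (nat_lit 4) (nat_lit 2) (nat_lit 5) (nat_lit 2) (nat_lit 4) (nat_lit 294) (nat_lit 220) (nat_lit 206)) (XT.lf (nat_lit 0) (nat_lit 31104797139) (nat_lit 76) (nat_lit 33704666744) (nat_lit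 76) (nat_lit 29889028443) (nat_lit 1) (nat_lit 4) (nat_lit 2) (nat_lit 5) (nat_lit 2) (nat_lit 4) (nat_lit 295) (nat_lit 220) (nat_lit 205))) (XT.nd (nat_lit 78) (nat_lit 0) (nat_lit 0) (XT.lf (nat_lit 0) (nat_lit 39233157867) (nat_lit 76) (nat_lit 33414379795) (nat_lit 76) (nat_lit 29468622769) (nat_lit 1) (nat_lit 4) (nat_lit 2) (nat_lit 5) (nat_lit 2) (nat_lit 4) (nat_lit 296) (nat_lit 220) (nat_lit 204)) (XT.nd (nat_lit 78) (nat_lit 0) (nat_lit 0) (XT.lf (nat_lit 0) (nat_lit 47853962666) (nat_lit 76) (nat_lit 33171971954) (nat_lit 76) (nat_lit 29105734628) (nat_lit 1) (nat_lit 4) (nat_lit 2) (nat_lit 5) (nat_lit 2) (nat_lit 4) (nat_lit 297) (nat_lit 220) (nat_lit 203)) (XT.lf (nat_lit 0) (nat_lit 57018297787) (nat_lit 76) (nat_lit 32976006730) (nat_lit 76) (nat_lit 28798213571) (nat_lit 1) (nat_lit 4) (nat_lit 2) (nat_lit 5) (nat_lit 2) (nat_lit 4) (nat_lit 298) (nat_lit 220) (nat_lit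 202)))))) (XT.nd (nat_lit 390) (nat_lit 0) (nat_lit 0) (XT.nd (nat_lit 156) (nat_lit 0) (nat_lit 0) (XT.nd (nat_lit 78) (nat_lit 0) (nat_lit 0) (XT.lf (nat_lit 0) (nat_lit 66780470400) (nat_lit 76) (nat_lit 32825322849) (nat_lit 76) (nat_lit 28544237251) (nat_lit 1) (nat_lit 4) (nat_lit 2) (nat_lit 5) (nat_lit 2) (nat_lit 4) (nat_lit 299) (nat_lit 220) (nat_lit 201)) (XT.lf (nat_lit 0) (nat_lit 77198330418) (nat_lit 76) (nat_lit 32719027368) (nat_lit 76) (nat_lit 28342300623) (nat_lit 1) (nat_lit 4) (nat_lit 2) (nat_lit 5) (nat_lit 2) (nat_lit 4) (nat_lit 300) (nat_lit 220) (nat_lit 200))) (XT.nd (nat_lit 78) (nat_lit 0) (nat_lit 0) (XT.lf (nat_lit 0) (nat_lit 88333613307) (nat_lit 76) (nat_lit 32656490388) (nat_lit 76) (nat_lit 28191207026) (nat_lit 1) (nat_lit 4) (nat_lit 2) (nat_lit 5) (nat_lit 2) (nat_lit 4) (nat_lit 301) (nat_lit 220) (nat_lit 199)) (XT.nd (nat_lit 78) (nat_lit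 0) (nat_lit 0) (XT.lf (nat_lit 0) (nat_lit 100252305928) (nat_lit 76) (nat_lit 32637341320) (nat_lit 76) (nat_lit 28090061091) (nat_lit 1) (nat_lit 4) (nat_lit 2) (nat_lit 5) (nat_lit 2) (nat_lit 4) (nat_lit 302) (nat_lit 220) (nat_lit 198)) (XT.lf (nat_lit 0) (nat_lit 113025037572) (nat_lit 76) (nat_lit 32661466688) (nat_lit 76) (nat_lit 28038263433) (nat_lit 1) (nat_lit 4) (nat_lit 2) (nat_lit 5) (nat_lit 2) (nat_lit 4) (nat_lit 303) (nat_lit 220) (nat_lit 197))))) (XT.nd (nat_lit 156) (nat_lit 0) (nat_lit 0) (XT.nd (nat_lit 78) (nat_lit 0) (nat_lit 0) (XT.lf (nat_lit 0) (nat_lit 126727498500) (nat_lit 76) (nat_lit 32729009458) (nat_lit 76) (nat_lit 28035507104) (nat_lit 1) (nat_lit 4) (nat_lit 2) (nat_lit 5) (nat_lit 2) (nat_lit 4) (nat_lit 304) (nat_lit 220) (nat_lit 196)) (XT.lf (nat_lit 0) (nat_lit 141440888480) (nat_lit 76) (nat_lit 32840369881) (nat_lit 76) (nat_lit 28081775770)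 (nat_lit 1) (nat_lit 4) (nat_lit 2) (nat_lit 5) (nat_lit 2) (nat_lit 4) (nat_lit 305) (nat_lit 220) (nat_lit 195))) (XT.nd (nat_lit 78) (nat_lit 0) (nat_lit 0) (XT.lf (nat_lit 0) (nat_lit 157252397971) (nat_lit 76) (nat_lit 32996207873) (nat_lit 76) (nat_lit 28177343616) (nat_lit 1) (nat_lit 4) (nat_lit 2) (nat_lit 5) (nat_lit 2) (nat_lit 4) (nat_lit 306) (nat_lit 220) (nat_lit 194)) (XT.nd (nat_lit 78) (nat_lit 0) (nat_lit 0) (XT.lf (nat_lit 0) (nat_lit 174255724808) (nat_lit 76) (nat_lit 33197446917) (nat_lit 76) (nat_lit 28322776970) (nat_lit 1) (nat_lit 4) (nat_lit 2) (nat_lit 5) (nat_lit 2) (nat_lit 4) (nat_lit 307) (nat_lit 220) (nat_lit 193)) (XT.lf (nat_lit 0) (nat_lit 192551629446) (nat_lit 76) (nat_lit 33445279542) (nat_lit 76) (nat_lit 28518937659) (nat_lit 1) (nat_lit 4) (nat_lit 2) (nat_lit 5) (nat_lit 2) (nat_lit 4) (nat_lit 308) (nat_lit 220) (nat_lit 192))))))))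
noncomputable def xc15 : XT := (XT.nd (nat_lit 35100) (nat_lit 0) (nat_lit 0) (XT.nd (nat_lit 702) (nat_lit 0) (nat_lit 0) (XT.nd (nat_lit 312) (nat_lit 0) (nat_lit 0) (XT.nd (nat_lit 156) (nat_lit 0) (nat_lit 0) (XT.nd (nat_lit 78) (nat_lit 0) (nat_lit 0) (XT.lf (nat_lit 0) (nat_lit 212248532060) (nat_lit 76) (nat_lit 33741174384) (nat_lit 76) (nat_lit 28766988117) (nat_lit 1) (nat_lit 4) (nat_lit 2) (nat_lit 5) (nat_lit 2) (nat_lit 4) (nat_lit 309) (nat_lit 220) (nat_lit 191)) (XT.lf (nat_lit 0) (nat_lit 233463155036) (nat_lit 76) (nat_lit 34086884896) (nat_lit 76) (nat_lit 29068398272) (nat_lit 1) (nat_lit 4) (nat_lit 2) (nat_lit 5) (nat_lit 2) (nat_lit 4) (nat_lit 310) (nat_lit 220) (nat_lit 190))) (XT.nd (nat_lit 78) (nat_lit 0) (nat_lit 0) (XT.lf (nat_lit 0) (nat_lit 256321214660) (nat_lit 76) (nat_lit 34484459731) (nat_lit 76) (nat_lit 29424954258) (nat_lit 1) (nat_lit 4) (nat_lit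 2) (nat_lit 5) (nat_lit 2) (nat_lit 4) (nat_lit 311) (nat_lit 220) (nat_lit 189)) (XT.lf (nat_lit 0) (nat_lit 280958166097) (nat_lit 76) (nat_lit 34936254889) (nat_lit 76) (nat_lit 29838769001) (nat_lit 1) (nat_lit 4) (nat_lit 2) (nat_lit 5) (nat_lit 2) (nat_lit 4) (nat_lit 312) (nat_lit 220) (nat_lit 188)))) (XT.nd (nat_lit 156) (nat_lit 0) (nat_lit 0) (XT.nd (nat_lit 78) (nat_lit 0) (nat_lit 0) (XT.lf (nat_lit 0) (nat_lit 307520006099) (nat_lit 76) (nat_lit 35444947674) (nat_lit 76) (nat_lit 30312294735) (nat_lit 1) (nat_lit 4) (nat_lit 2) (nat_lit 5) (nat_lit 2) (nat_lit 4) (nat_lit 313) (nat_lit 220) (nat_lit 187)) (XT.lf (nat_lit 0) (nat_lit 336164138162) (nat_lit 76) (nat_lit 36013552562) (nat_lit 76) (nat_lit 30848337539) (nat_lit 1) (nat_lit 4) (nat_lit 2) (nat_lit 5) (nat_lit 2) (nat_lit 4) (nat_lit 314) (nat_lit 220) (nat_lit 186))) (XT.nd (nat_lit 78) (nat_lit 0) (nat_lit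 0) (XT.lf (nat_lit 0) (nat_lit 367060305289) (nat_lit 76) (nat_lit 36645439065) (nat_lit 76) (nat_lit 31450073963) (nat_lit 1) (nat_lit 4) (nat_lit 2) (nat_lit 5) (nat_lit 2) (nat_lit 4) (nat_lit 315) (nat_lit 220) (nat_lit 185)) (XT.nd (nat_lit 78) (nat_lit 0) (nat_lit 0) (XT.lf (nat_lit 0) (nat_lit 400391595879) (nat_lit 76) (nat_lit 37344351693) (nat_lit 76) (nat_lit 32121069852) (nat_lit 1) (nat_lit 4) (nat_lit 2) (nat_lit 5) (nat_lit 2) (nat_lit 4) (nat_lit 316) (nat_lit 220) (nat_lit 184)) (XT.lf (nat_lit 0) (nat_lit 436355528692) (nat_lit 76) (nat_lit 38114432152) (nat_lit 76) (nat_lit 32865301479) (nat_lit 1) (nat_lit 4) (nat_lit 2) (nat_lit 5) (nat_lit 2) (nat_lit 4) (nat_lit 317) (nat_lit 220) (nat_lit 183)))))) (XT.nd (nat_lit 390) (nat_lit 0) (nat_lit 0) (XT.nd (nat_lit 156) (nat_lit 0) (nat_lit 0) (XT.nd (nat_lit 78) (nat_lit 0) (nat_lit 0) (XT.lf (nat_lit 0) (nat_lit 475165223328)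 (nat_lit 76) (nat_lit 38960243882) (nat_lit 76) (nat_lit 33687179104) (nat_lit 1) (nat_lit 4) (nat_lit 2) (nat_lit 5) (nat_lit 2) (nat_lit 4) (nat_lit 318) (nat_lit 220) (nat_lit 182)) (XT.lf (nat_lit 0) (nat_lit 517050663164) (nat_lit 76) (nat_lit 39886799099) (nat_lit 76) (nat_lit 34591573114) (nat_lit 1) (nat_lit 4) (nat_lit 2) (nat_lit 5) (nat_lit 2) (nat_lit 4) (nat_lit 319) (nat_lit 220) (nat_lit 181))) (XT.nd (nat_lit 78) (nat_lit 0) (nat_lit 0) (XT.lf (nat_lit 0) (nat_lit 562260058213) (nat_lit 76) (nat_lit 40899588503) (nat_lit 76) (nat_lit 35583842881) (nat_lit 1) (nat_lit 4) (nat_lit 2) (nat_lit 5) (nat_lit 2) (nat_lit 4) (nat_lit 320) (nat_lit 220) (nat_lit 180)) (XT.nd (nat_lit 78) (nat_lit 0) (nat_lit 0) (XT.lf (nat_lit 0) (nat_lit 611061316001) (nat_lit 76) (nat_lit 42004613807) (nat_lit 76) (nat_lit 36669868522) (nat_lit 1) (nat_lit 4) (nat_lit 2) (nat_lit 5) (nat_lit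 2) (nat_lit 4) (nat_lit 321) (nat_lit 220) (nat_lit 179)) (XT.lf (nat_lit 0) (nat_lit 663743629168) (nat_lit 76) (nat_lit 43208423310) (nat_lit 76) (nat_lit 37856085743) (nat_lit 1) (nat_lit 4) (nat_lit 2) (nat_lit 5) (nat_lit 2) (nat_lit 4) (nat_lit 322) (nat_lit 220) (nat_lit 178))))) (XT.nd (nat_lit 156) (nat_lit 0) (nat_lit 0) (XT.nd (nat_lit 78) (nat_lit 0) (nat_lit 0) (XT.lf (nat_lit 0) (nat_lit 720619189198) (nat_lit 76) (nat_lit 44518150697) (nat_lit 76) (nat_lit 39149523982) (nat_lit 1) (nat_lit 4) (nat_lit 2) (nat_lit 5) (nat_lit 2) (nat_lit 4) (nat_lit 323) (nat_lit 220) (nat_lit 177)) (XT.lf (nat_lit 0) (nat_lit 782025036448) (nat_lit 76) (nat_lit 45941557317) (nat_lit 76) (nat_lit 40557848056) (nat_lit 1) (nat_lit 4) (nat_lit 2) (nat_lit 5) (nat_lit 2) (nat_lit 4) (nat_lit 324) (nat_lit 220) (nat_lit 176))) (XT.nd (nat_lit 78) (nat_lit 0) (nat_lit 0) (XT.lf (nat_lit 0) (nat_lit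 848325057420) (nat_lit 76) (nat_lit 47487078171) (nat_lit 76) (nat_lit 42089403591) (nat_lit 1) (nat_lit 4) (nat_lit 2) (nat_lit 5) (nat_lit 2) (nat_lit 4) (nat_lit 325) (nat_lit 220) (nat_lit 175)) (XT.nd (nat_lit 78) (nat_lit 0) (nat_lit 0) (XT.lf (nat_lit 0) (nat_lit 919912141126) (nat_lit 76) (nat_lit 49163871902) (nat_lit 76) (nat_lit 43753266470) (nat_lit 1) (nat_lit 4) (nat_lit 2) (nat_lit 5) (nat_lit 2) (nat_lit 4) (nat_lit 326) (nat_lit 220) (nat_lit 174)) (XT.lf (nat_lit 0) (nat_lit 997210507323) (nat_lit 76) (nat_lit 50981875064) (nat_lit 76) (nat_lit 45559296621) (nat_lit 1) (nat_lit 4) (nat_lit 2) (nat_lit 5) (nat_lit 2) (nat_lit 4) (nat_lit 327) (nat_lit 220) (nat_lit 173))))))) (XT.nd (nat_lit 780) (nat_lit 76) (nat_lit 0) (XT.nd (nat_lit 390) (nat_lit 152) (nat_lit 0) (XT.nd (nat_lit 156) (nat_lit 76) (nat_lit 0) (XT.nd (nat_lit 78) (nat_lit 0) (nat_lit 0) (XT.lf (nat_lit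 0) (nat_lit 3926365115) (nat_lit 152) (nat_lit 5990064805) (nat_lit 0) (nat_lit 3926365115) (nat_lit 5) (nat_lit 5) (nat_lit 7) (nat_lit 4) (nat_lit 5) (nat_lit 4) (nat_lit 278) (nat_lit 221) (nat_lit 221)) (XT.lf (nat_lit 0) (nat_lit 13405153188) (nat_lit 152) (nat_lit 3279990076) (nat_lit 0) (nat_lit 12937084937) (nat_lit 5) (nat_lit 5) (nat_lit 7) (nat_lit 4) (nat_lit 5) (nat_lit 4) (nat_lit 279) (nat_lit 221) (nat_lit 220))) (XT.nd (nat_lit 78) (nat_lit 0) (nat_lit 0) (XT.lf (nat_lit 0) (nat_lit 5831889619) (nat_lit 76) (nat_lit 13396192373) (nat_lit 76) (nat_lit 12494727594) (nat_lit 4) (nat_lit 4) (nat_lit 5) (nat_lit 5) (nat_lit 5) (nat_lit 4) (nat_lit 280) (nat_lit 221) (nat_lit 219)) (XT.nd (nat_lit 78) (nat_lit 0) (nat_lit 0) (XT.lf (nat_lit 0) (nat_lit 15339385140) (nat_lit 76) (nat_lit 9982432549) (nat_lit 76) (nat_lit 8679674689) (nat_lit 4) (nat_lit 4) (nat_lit 5) (nat_lit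 5) (nat_lit 5) (nat_lit 4) (nat_lit 281) (nat_lit 221) (nat_lit 218)) (XT.lf (nat_lit 0) (nat_lit 25190385916) (nat_lit 76) (nat_lit 6479182323) (nat_lit 76) (nat_lit 4804856794) (nat_lit 4) (nat_lit 4) (nat_lit 5) (nat_lit 5) (nat_lit 5) (nat_lit 4) (nat_lit 282) (nat_lit 221) (nat_lit 217))))) (XT.nd (nat_lit 156) (nat_lit 0) (nat_lit 0) (XT.nd (nat_lit 78) (nat_lit 152) (nat_lit 0) (XT.lf (nat_lit 0) (nat_lit 35443268247) (nat_lit 76) (nat_lit 2865681694) (nat_lit 76) (nat_lit 847312027) (nat_lit 4) (nat_lit 4) (nat_lit 5) (nat_lit 5) (nat_lit 5) (nat_lit 4) (nat_lit 283) (nat_lit 221) (nat_lit 216)) (XT.lf (nat_lit 0) (nat_lit 3194343465) (nat_lit 152) (nat_lit 37893300626) (nat_lit 0) (nat_lit 968696748) (nat_lit 2) (nat_lit 5) (nat_lit 4) (nat_lit 4) (nat_lit 2) (nat_lit 4) (nat_lit 284) (nat_lit 221) (nat_lit 215))) (XT.nd (nat_lit 78) (nat_lit 0) (nat_lit 0) (XT.lf (nat_lit 0)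 (nat_lit 7447640736) (nat_lit 152) (nat_lit 32803326037) (nat_lit 0) (nat_lit 4941077452) (nat_lit 2) (nat_lit 5) (nat_lit 4) (nat_lit 4) (nat_lit 2) (nat_lit 4) (nat_lit 285) (nat_lit 221) (nat_lit 214)) (XT.nd (nat_lit 78) (nat_lit 0) (nat_lit 0) (XT.lf (nat_lit 0) (nat_lit 11859293713) (nat_lit 152) (nat_lit 27635979813) (nat_lit 0) (nat_lit 9092622497) (nat_lit 2) (nat_lit 5) (nat_lit 4) (nat_lit 4) (nat_lit 2) (nat_lit 4) (nat_lit 286) (nat_lit 221) (nat_lit 213)) (XT.lf (nat_lit 0) (nat_lit 16455445525) (nat_lit 152) (nat_lit 22360640641) (nat_lit 0) (nat_lit 13447933632) (nat_lit 2) (nat_lit 5) (nat_lit 4) (nat_lit 4) (nat_lit 2) (nat_lit 4) (nat_lit 287) (nat_lit 221) (nat_lit 212)))))) (XT.nd (nat_lit 390) (nat_lit 0) (nat_lit 0) (XT.nd (nat_lit 156) (nat_lit 76) (nat_lit 0) (XT.nd (nat_lit 78) (nat_lit 0) (nat_lit 0) (XT.lf (nat_lit 0) (nat_lit 21263332627) (nat_lit 152) (nat_lit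 16946047253) (nat_lit 0) (nat_lit 18032820106) (nat_lit 2) (nat_lit 5) (nat_lit 4) (nat_lit 4) (nat_lit 2) (nat_lit 4) (nat_lit 288) (nat_lit 221) (nat_lit 211)) (XT.lf (nat_lit 0) (nat_lit 26311446203) (nat_lit 152) (nat_lit 11360113169) (nat_lit 0) (nat_lit 22874451619) (nat_lit 2) (nat_lit 5) (nat_lit 4) (nat_lit 4) (nat_lit 2) (nat_lit 4) (nat_lit 289) (nat_lit 221) (nat_lit 210))) (XT.nd (nat_lit 78) (nat_lit 76) (nat_lit 0) (XT.lf (nat_lit 0) (nat_lit 31629700998) (nat_lit 152) (nat_lit 5569736558) (nat_lit 0) (nat_lit 28001519320) (nat_lit 2) (nat_lit 5) (nat_lit 4) (nat_lit 4) (nat_lit 2) (nat_lit 4) (nat_lit 290) (nat_lit 221) (nat_lit 209)) (XT.nd (nat_lit 78) (nat_lit 0) (nat_lit 0) (XT.lf (nat_lit 0) (nat_lit 474585626) (nat_lit 76) (nat_lit 36782436583) (nat_lit 76) (nat_lit 32977229817) (nat_lit 1) (nat_lit 4) (nat_lit 2) (nat_lit 5) (nat_lit 2) (nat_lit 4) (nat_lit 291)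 (nat_lit 221) (nat_lit 208)) (XT.lf (nat_lit 0) (nat_lit 6986628201) (nat_lit 76) (nat_lit 36326936826) (nat_lit 76) (nat_lit 32357817941) (nat_lit 1) (nat_lit 4) (nat_lit 2) (nat_lit 5) (nat_lit 2) (nat_lit 4) (nat_lit 292) (nat_lit 221) (nat_lit 207))))) (XT.nd (nat_lit 156) (nat_lit 0) (nat_lit 0) (XT.nd (nat_lit 78) (nat_lit 0) (nat_lit 0) (XT.lf (nat_lit 0) (nat_lit 13820820403) (nat_lit 76) (nat_lit 35924565213) (nat_lit 76) (nat_lit 31803675848) (nat_lit 1) (nat_lit 4) (nat_lit 2) (nat_lit 5) (nat_lit 2) (nat_lit 4) (nat_lit 293) (nat_lit 221) (nat_lit 206)) (XT.lf (nat_lit 0) (nat_lit 21017661149) (nat_lit 76) (nat_lit 35572937318) (nat_lit 76) (nat_lit 31311519731) (nat_lit 1) (nat_lit 4) (nat_lit 2) (nat_lit 5) (nat_lit 2) (nat_lit 4) (nat_lit 294) (nat_lit 221) (nat_lit 205))) (XT.nd (nat_lit 78) (nat_lit 0) (nat_lit 0) (XT.lf (nat_lit 0) (nat_lit 28619798385) (nat_lit 76)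 (nat_lit 35269969421) (nat_lit 76) (nat_lit 30878433109) (nat_lit 1) (nat_lit 4) (nat_lit 2) (nat_lit 5) (nat_lit 2) (nat_lit 4) (nat_lit 295) (nat_lit 221) (nat_lit 204)) (XT.nd (nat_lit 78) (nat_lit 0) (nat_lit 0) (XT.lf (nat_lit 0) (nat_lit 36672281811) (nat_lit 76) (nat_lit 35013866156) (nat_lit 76) (nat_lit 30501849544) (nat_lit 1) (nat_lit 4) (nat_lit 2) (nat_lit 5) (nat_lit 2) (nat_lit 4) (nat_lit 296) (nat_lit 221) (nat_lit 203)) (XT.lf (nat_lit 0) (nat_lit 45222829850) (nat_lit 76) (nat_lit 34803109875) (nat_lit 76) (nat_lit 30179537430) (nat_lit 1) (nat_lit 4) (nat_lit 2) (nat_lit 5) (nat_lit 2) (nat_lit 4) (nat_lit 297) (nat_lit 221) (nat_lit 202))))))))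
noncomputable def xc16 : XT := (XT.nd (nat_lit 1482) (nat_lit 0) (nat_lit 0) (XT.nd (nat_lit 702) (nat_lit 0) (nat_lit 0) (XT.nd (nat_lit 312) (nat_lit 0) (nat_lit 0) (XT.nd (nat_lit 156) (nat_lit 0) (nat_lit 0) (XT.nd (nat_lit 78) (nat_lit 0) (nat_lit 0) (XT.lf (nat_lit 0) (nat_lit 54322112414) (nat_lit 76) (nat_lit 34636451651) (nat_lit 76) (nat_lit 29909586768) (nat_lit 1) (nat_lit 4) (nat_lit 2) (nat_lit 5) (nat_lit 2) (nat_lit 4) (nat_lit 298) (nat_lit 221) (nat_lit 201)) (XT.lf (nat_lit 0) (nat_lit 64024051179) (nat_lit 76) (nat_lit 34512903881) (nat_lit 76) (nat_lit 29690397851) (nat_lit 1) (nat_lit 4) (nat_lit 2) (nat_lit 5) (nat_lit 2) (nat_lit 4) (nat_lit 299) (nat_lit 221) (nat_lit 200))) (XT.nd (nat_lit 78) (nat_lit 0) (nat_lit 0) (XT.lf (nat_lit 0) (nat_lit 74386139115) (nat_lit 76) (nat_lit 34431734429) (nat_lit 76) (nat_lit 29520671781) (nat_lit 1) (nat_lit 4) (nat_lit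 2) (nat_lit 5) (nat_lit 2) (nat_lit 4) (nat_lit 300) (nat_lit 221) (nat_lit 199)) (XT.lf (nat_lit 0) (nat_lit 85469781187) (nat_lit 76) (nat_lit 34392462291) (nat_lit 76) (nat_lit 29399402775) (nat_lit 1) (nat_lit 4) (nat_lit 2) (nat_lit 5) (nat_lit 2) (nat_lit 4) (nat_lit 301) (nat_lit 221) (nat_lit 198)))) (XT.nd (nat_lit 156) (nat_lit 0) (nat_lit 0) (XT.nd (nat_lit 78) (nat_lit 0) (nat_lit 0) (XT.lf (nat_lit 0) (nat_lit 97340658238) (nat_lit 76) (nat_lit 34394854743) (nat_lit 76) (nat_lit 29325872201) (nat_lit 1) (nat_lit 4) (nat_lit 2) (nat_lit 5) (nat_lit 2) (nat_lit 4) (nat_lit 302) (nat_lit 221) (nat_lit 197)) (XT.lf (nat_lit 0) (nat_lit 110069116205) (nat_lit 76) (nat_lit 34438925963) (nat_lit 76) (nat_lit 29299644323) (nat_lit 1) (nat_lit 4) (nat_lit 2) (nat_lit 5) (nat_lit 2) (nat_lit 4) (nat_lit 303) (nat_lit 221) (nat_lit 196))) (XT.nd (nat_lit 78) (nat_lit 0) (nat_lit 0)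 (XT.lf (nat_lit 0) (nat_lit 123730582987) (nat_lit 76) (nat_lit 34524937113) (nat_lit 76) (nat_lit 29320563716) (nat_lit 1) (nat_lit 4) (nat_lit 2) (nat_lit 5) (nat_lit 2) (nat_lit 4) (nat_lit 304) (nat_lit 221) (nat_lit 195)) (XT.nd (nat_lit 78) (nat_lit 0) (nat_lit 0) (XT.lf (nat_lit 0) (nat_lit 138406015425) (nat_lit 76) (nat_lit 34653397890) (nat_lit 76) (nat_lit 29388754347) (nat_lit 1) (nat_lit 4) (nat_lit 2) (nat_lit 5) (nat_lit 2) (nat_lit 4) (nat_lit 305) (nat_lit 221) (nat_lit 194)) (XT.lf (nat_lit 0) (nat_lit 154182379045) (nat_lit 76) (nat_lit 34825069542) (nat_lit 76) (nat_lit 29504620308) (nat_lit 1) (nat_lit 4) (nat_lit 2) (nat_lit 5) (nat_lit 2) (nat_lit 4) (nat_lit 306) (nat_lit 221) (nat_lit 193)))))) (XT.nd (nat_lit 390) (nat_lit 0) (nat_lit 0) (XT.nd (nat_lit 156) (nat_lit 0) (nat_lit 0) (XT.nd (nat_lit 78) (nat_lit 0) (nat_lit 0) (XT.lf (nat_lit 0) (nat_lit 171153163408)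 (nat_lit 76) (nat_lit 35040969383) (nat_lit 76) (nat_lit 29668848213) (nat_lit 1) (nat_lit 4) (nat_lit 2) (nat_lit 5) (nat_lit 2) (nat_lit 4) (nat_lit 307) (nat_lit 221) (nat_lit 192)) (XT.lf (nat_lit 0) (nat_lit 189418936125) (nat_lit 76) (nat_lit 35302376819) (nat_lit 76) (nat_lit 29882411265) (nat_lit 1) (nat_lit 4) (nat_lit 2) (nat_lit 5) (nat_lit 2) (nat_lit 4) (nat_lit 308) (nat_lit 221) (nat_lit 191))) (XT.nd (nat_lit 78) (nat_lit 0) (nat_lit 0) (XT.lf (nat_lit 0) (nat_lit 209087938813) (nat_lit 76) (nat_lit 35610840931) (nat_lit 76) (nat_lit 30146575021) (nat_lit 1) (nat_lit 4) (nat_lit 2) (nat_lit 5) (nat_lit 2) (nat_lit 4) (nat_lit 309) (nat_lit 221) (nat_lit 190)) (XT.nd (nat_lit 78) (nat_lit 0) (nat_lit 0) (XT.lf (nat_lit 0) (nat_lit 230276728524) (nat_lit 76) (nat_lit 35968189655) (nat_lit 76) (nat_lit 30462904896) (nat_lit 1) (nat_lit 4) (nat_lit 2) (nat_lit 5) (nat_lit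 2) (nat_lit 4) (nat_lit 310) (nat_lit 221) (nat_lit 189)) (XT.lf (nat_lit 0) (nat_lit 253110868457) (nat_lit 76) (nat_lit 36376540613) (nat_lit 76) (nat_lit 30833275439) (nat_lit 1) (nat_lit 4) (nat_lit 2) (nat_lit 5) (nat_lit 2) (nat_lit 4) (nat_lit 311) (nat_lit 221) (nat_lit 188))))) (XT.nd (nat_lit 156) (nat_lit 0) (nat_lit 0) (XT.nd (nat_lit 78) (nat_lit 0) (nat_lit 0) (XT.lf (nat_lit 0) (nat_lit 277725672034) (nat_lit 76) (nat_lit 36838313663) (nat_lit 76) (nat_lit 31259881438) (nat_lit 1) (nat_lit 4) (nat_lit 2) (nat_lit 5) (nat_lit 2) (nat_lit 4) (nat_lit 312) (nat_lit 221) (nat_lit 187)) (XT.lf (nat_lit 0) (nat_lit 304267004757) (nat_lit 76) (nat_lit 37356245237) (nat_lit 76) (nat_lit 31745250927) (nat_lit 1) (nat_lit 4) (nat_lit 2) (nat_lit 5) (nat_lit 2) (nat_lit 4) (nat_lit 313) (nat_lit 221) (nat_lit 186))) (XT.nd (nat_lit 78) (nat_lit 0) (nat_lit 0) (XT.lf (nat_lit 0) (nat_lit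 332892148599) (nat_lit 76) (nat_lit 37933404559) (nat_lit 76) (nat_lit 32292260171) (nat_lit 1) (nat_lit 4) (nat_lit 2) (nat_lit 5) (nat_lit 2) (nat_lit 4) (nat_lit 314) (nat_lit 221) (nat_lit 185)) (XT.nd (nat_lit 78) (nat_lit 0) (nat_lit 0) (XT.lf (nat_lit 0) (nat_lit 363770734040) (nat_lit 76) (nat_lit 38573211834) (nat_lit 76) (nat_lit 32904150707) (nat_lit 1) (nat_lit 4) (nat_lit 2) (nat_lit 5) (nat_lit 2) (nat_lit 4) (nat_lit 315) (nat_lit 221) (nat_lit 184)) (XT.lf (nat_lit 0) (nat_lit 397085745291) (nat_lit 76) (nat_lit 39279458510) (nat_lit 76) (nat_lit 33584548551) (nat_lit 1) (nat_lit 4) (nat_lit 2) (nat_lit 5) (nat_lit 2) (nat_lit 4) (nat_lit 316) (nat_lit 221) (nat_lit 183))))))) (XT.nd (nat_lit 702) (nat_lit 0) (nat_lit 0) (XT.nd (nat_lit 312) (nat_lit 0) (nat_lit 0) (XT.nd (nat_lit 156) (nat_lit 0) (nat_lit 0) (XT.nd (nat_lit 78) (nat_lit 0) (nat_lit 0) (XT.lf (nat_lit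 0) (nat_lit 433034604641) (nat_lit 76) (nat_lit 40056329755) (nat_lit 76) (nat_lit 34337485691) (nat_lit 1) (nat_lit 4) (nat_lit 2) (nat_lit 5) (nat_lit 2) (nat_lit 4) (nat_lit 317) (nat_lit 221) (nat_lit 182)) (XT.lf (nat_lit 0) (nat_lit 471830342368) (nat_lit 76) (nat_lit 40908429249) (nat_lit 76) (nat_lit 35167423978) (nat_lit 1) (nat_lit 4) (nat_lit 2) (nat_lit 5) (nat_lit 2) (nat_lit 4) (nat_lit 318) (nat_lit 221) (nat_lit 181))) (XT.nd (nat_lit 78) (nat_lit 0) (nat_lit 0) (XT.lf (nat_lit 0) (nat_lit 513702859140) (nat_lit 76) (nat_lit 41840806470) (nat_lit 76) (nat_lit 36079281563) (nat_lit 1) (nat_lit 4) (nat_lit 2) (nat_lit 5) (nat_lit 2) (nat_lit 4) (nat_lit 319) (nat_lit 221) (nat_lit 180)) (XT.lf (nat_lit 0) (nat_lit 558900288388) (nat_lit 76) (nat_lit 42858986618) (nat_lit 76) (nat_lit 37078462047) (nat_lit 1) (nat_lit 4) (nat_lit 2) (nat_lit 5) (nat_lit 2) (nat_lit 4) (nat_lit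 320) (nat_lit 221) (nat_lit 179)))) (XT.nd (nat_lit 156) (nat_lit 0) (nat_lit 0) (XT.nd (nat_lit 78) (nat_lit 0) (nat_lit 0) (XT.lf (nat_lit 0) (nat_lit 607690466732) (nat_lit 76) (nat_lit 43969003352) (nat_lit 76) (nat_lit 38170886500) (nat_lit 1) (nat_lit 4) (nat_lit 2) (nat_lit 5) (nat_lit 2) (nat_lit 4) (nat_lit 321) (nat_lit 221) (nat_lit 178)) (XT.lf (nat_lit 0) (nat_lit 660362521154) (nat_lit 76) (nat_lit 45177434550) (nat_lit 76) (nat_lit 39363028548) (nat_lit 1) (nat_lit 4) (nat_lit 2) (nat_lit 5) (nat_lit 2) (nat_lit 4) (nat_lit 322) (nat_lit 221) (nat_lit 177))) (XT.nd (nat_lit 78) (nat_lit 0) (nat_lit 0) (XT.lf (nat_lit 0) (nat_lit 717228582347) (nat_lit 76) (nat_lit 46491441284) (nat_lit 76) (nat_lit 40661952737) (nat_lit 1) (nat_lit 4) (nat_lit 2) (nat_lit 5) (nat_lit 2) (nat_lit 4) (nat_lit 323) (nat_lit 221) (nat_lit 176)) (XT.nd (nat_lit 78) (nat_lit 0) (nat_lit 0) (XT.lf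 (nat_lit 0) (nat_lit 778625634376) (nat_lit 76) (nat_lit 47918810262) (nat_lit 76) (nat_lit 42075356395) (nat_lit 1) (nat_lit 4) (nat_lit 2) (nat_lit 5) (nat_lit 2) (nat_lit 4) (nat_lit 324) (nat_lit 221) (nat_lit 175)) (XT.lf (nat_lit 0) (nat_lit 844917511625) (nat_lit 76) (nat_lit 49467999966) (nat_lit 76) (nat_lit 43611615247) (nat_lit 1) (nat_lit 4) (nat_lit 2) (nat_lit 5) (nat_lit 2) (nat_lit 4) (nat_lit 325) (nat_lit 221) (nat_lit 174)))))) (XT.nd (nat_lit 33930) (nat_lit 0) (nat_lit 76) (XT.nd (nat_lit 33696) (nat_lit 0) (nat_lit 304) (XT.nd (nat_lit 33618) (nat_lit 0) (nat_lit 456) (XT.lf (nat_lit 0) (nat_lit 916497054848) (nat_lit 76) (nat_lit 51148190780) (nat_lit 76) (nat_lit 45279833051) (nat_lit 1) (nat_lit 4) (nat_lit 2) (nat_lit 5) (nat_lit 2) (nat_lit 4) (nat_lit 326) (nat_lit 221) (nat_lit 173)) (XT.lf (nat_lit 0) (nat_lit 9973964647) (nat_lit 76) (nat_lit 1077598096)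 (nat_lit 76) (nat_lit 1077598096) (nat_lit 7) (nat_lit 4) (nat_lit 8) (nat_lit 5) (nat_lit 8) (nat_lit 4) (nat_lit 276) (nat_lit 222) (nat_lit 222))) (XT.nd (nat_lit 78) (nat_lit 0) (nat_lit 0) (XT.lf (nat_lit 0) (nat_lit 2952371441) (nat_lit 152) (nat_lit 20506742255) (nat_lit 0) (nat_lit 2446857731) (nat_lit 5) (nat_lit 5) (nat_lit 7) (nat_lit 4) (nat_lit 5) (nat_lit 4) (nat_lit 277) (nat_lit 222) (nat_lit 221)) (XT.nd (nat_lit 78) (nat_lit 0) (nat_lit 0) (XT.lf (nat_lit 0) (nat_lit 8220782719) (nat_lit 152) (nat_lit 12224649861) (nat_lit 0) (nat_lit 7247200758) (nat_lit 5) (nat_lit 5) (nat_lit 7) (nat_lit 4) (nat_lit 5) (nat_lit 4) (nat_lit 278) (nat_lit 222) (nat_lit 220)) (XT.lf (nat_lit 0) (nat_lit 13645926768) (nat_lit 152) (nat_lit 3750917966) (nat_lit 0) (nat_lit 12238948279) (nat_lit 5) (nat_lit 5) (nat_lit 7) (nat_lit 4) (nat_lit 5) (nat_lit 4) (nat_lit 279) (nat_lit 222)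 (nat_lit 219))))) (XT.nd (nat_lit 156) (nat_lit 152) (nat_lit 0) (XT.nd (nat_lit 78) (nat_lit 0) (nat_lit 0) (XT.lf (nat_lit 0) (nat_lit 5128822487) (nat_lit 76) (nat_lit 14211205396) (nat_lit 76) (nat_lit 12402933825) (nat_lit 4) (nat_lit 4) (nat_lit 5) (nat_lit 5) (nat_lit 5) (nat_lit 4) (nat_lit 280) (nat_lit 222) (nat_lit 218)) (XT.lf (nat_lit 0) (nat_lit 14435791860) (nat_lit 76) (nat_lit 10885719795) (nat_lit 76) (nat_lit 8705880556) (nat_lit 4) (nat_lit 4) (nat_lit 5) (nat_lit 5) (nat_lit 5) (nat_lit 4) (nat_lit 281) (nat_lit 222) (nat_lit 217))) (XT.nd (nat_lit 78) (nat_lit 152) (nat_lit 0) (XT.lf (nat_lit 0) (nat_lit 24101120277) (nat_lit 76) (nat_lit 7464204961) (nat_lit 76) (nat_lit 4940321584) (nat_lit 4) (nat_lit 4) (nat_lit 5) (nat_lit 5) (nat_lit 5) (nat_lit 4) (nat_lit 282) (nat_lit 222) (nat_lit 216)) (XT.nd (nat_lit 78) (nat_lit 152) (nat_lit 0) (XT.lf (nat_lit 0) (nat_lit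 34182083757) (nat_lit 76) (nat_lit 3926385250) (nat_lit 76) (nat_lit 1083942486) (nat_lit 4) (nat_lit 4) (nat_lit 5) (nat_lit 5) (nat_lit 5) (nat_lit 4) (nat_lit 283) (nat_lit 222) (nat_lit 215)) (XT.lf (nat_lit 0) (nat_lit 2675382234) (nat_lit 76) (nat_lit 160123810) (nat_lit 152) (nat_lit 39263760225) (nat_lit 2) (nat_lit 5) (nat_lit 3) (nat_lit 5) (nat_lit 4) (nat_lit 4) (nat_lit 284) (nat_lit 222) (nat_lit 214))))))))
noncomputable def xc17 : XT := (XT.nd (nat_lit 1482) (nat_lit 0) (nat_lit 0) (XT.nd (nat_lit 702) (nat_lit 0) (nat_lit 0) (XT.nd (nat_lit 312) (nat_lit 76) (nat_lit 0) (XT.nd (nat_lit 156) (nat_lit 0) (nat_lit 0) (XT.nd (nat_lit 78) (nat_lit 0) (nat_lit 0) (XT.lf (nat_lit 0) (nat_lit 6998847529) (nat_lit 152) (nat_lit 34489979818) (nat_lit 0) (nat_lit 3750734684) (nat_lit 2) (nat_lit 5) (nat_lit 4) (nat_lit 4) (nat_lit 2) (nat_lit 4) (nat_lit 285) (nat_lit 222) (nat_lit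 213)) (XT.lf (nat_lit 0) (nat_lit 11329522908) (nat_lit 152) (nat_lit 29469457993) (nat_lit 0) (nat_lit 7840569385) (nat_lit 2) (nat_lit 5) (nat_lit 4) (nat_lit 4) (nat_lit 2) (nat_lit 4) (nat_lit 286) (nat_lit 222) (nat_lit 212))) (XT.nd (nat_lit 78) (nat_lit 0) (nat_lit 0) (XT.lf (nat_lit 0) (nat_lit 15850695463) (nat_lit 152) (nat_lit 24330067339) (nat_lit 0) (nat_lit 12138741313) (nat_lit 2) (nat_lit 5) (nat_lit 4) (nat_lit 4) (nat_lit 2) (nat_lit 4) (nat_lit 287) (nat_lit 222) (nat_lit 211)) (XT.lf (nat_lit 0) (nat_lit 20589157327) (nat_lit 152) (nat_lit 19041352208) (nat_lit 0) (nat_lit 16670721114) (nat_lit 2) (nat_lit 5) (nat_lit 4) (nat_lit 4) (nat_lit 2) (nat_lit 4) (nat_lit 288) (nat_lit 222) (nat_lit 210)))) (XT.nd (nat_lit 156) (nat_lit 76) (nat_lit 0) (XT.nd (nat_lit 78) (nat_lit 0) (nat_lit 0) (XT.lf (nat_lit 0) (nat_lit 25572988275) (nat_lit 152) (nat_lit 13571972066)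 (nat_lit 0) (nat_lit 21463364967) (nat_lit 2) (nat_lit 5) (nat_lit 4) (nat_lit 4) (nat_lit 2) (nat_lit 4) (nat_lit 289) (nat_lit 222) (nat_lit 209)) (XT.lf (nat_lit 0) (nat_lit 30831722118) (nat_lit 152) (nat_lit 7889515772) (nat_lit 0) (nat_lit 26545073723) (nat_lit 2) (nat_lit 5) (nat_lit 4) (nat_lit 4) (nat_lit 2) (nat_lit 4) (nat_lit 290) (nat_lit 222) (nat_lit 208))) (XT.nd (nat_lit 78) (nat_lit 76) (nat_lit 0) (XT.lf (nat_lit 0) (nat_lit 36396521726) (nat_lit 152) (nat_lit 1960309510) (nat_lit 0) (nat_lit 31945961212) (nat_lit 2) (nat_lit 5) (nat_lit 4) (nat_lit 4) (nat_lit 2) (nat_lit 4) (nat_lit 291) (nat_lit 222) (nat_lit 207)) (XT.nd (nat_lit 78) (nat_lit 0) (nat_lit 0) (XT.lf (nat_lit 0) (nat_lit 4391332831) (nat_lit 76) (nat_lit 37977591867) (nat_lit 76) (nat_lit 33375260873) (nat_lit 1) (nat_lit 4) (nat_lit 2) (nat_lit 5) (nat_lit 2) (nat_lit 4) (nat_lit 292) (nat_lit 222)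 (nat_lit 206)) (XT.lf (nat_lit 0) (nat_lit 11137021749) (nat_lit 76) (nat_lit 37615092104) (nat_lit 76) (nat_lit 32872232887) (nat_lit 1) (nat_lit 4) (nat_lit 2) (nat_lit 5) (nat_lit 2) (nat_lit 4) (nat_lit 293) (nat_lit 222) (nat_lit 205)))))) (XT.nd (nat_lit 390) (nat_lit 0) (nat_lit 0) (XT.nd (nat_lit 156) (nat_lit 0) (nat_lit 0) (XT.nd (nat_lit 78) (nat_lit 0) (nat_lit 0) (XT.lf (nat_lit 0) (nat_lit 18251915009) (nat_lit 76) (nat_lit 37300382588) (nat_lit 76) (nat_lit 32427404648) (nat_lit 1) (nat_lit 4) (nat_lit 2) (nat_lit 5) (nat_lit 2) (nat_lit 4) (nat_lit 294) (nat_lit 222) (nat_lit 204)) (XT.lf (nat_lit 0) (nat_lit 25778174943) (nat_lit 76) (nat_lit 37031598376) (nat_lit 76) (nat_lit 32038140135) (nat_lit 1) (nat_lit 4) (nat_lit 2) (nat_lit 5) (nat_lit 2) (nat_lit 4) (nat_lit 295) (nat_lit 222) (nat_lit 203))) (XT.nd (nat_lit 78) (nat_lit 0) (nat_lit 0) (XT.lf (nat_lit 0) (nat_lit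 33760401609) (nat_lit 76) (nat_lit 36807146671) (nat_lit 76) (nat_lit 31702132597) (nat_lit 1) (nat_lit 4) (nat_lit 2) (nat_lit 5) (nat_lit 2) (nat_lit 4) (nat_lit 296) (nat_lit 222) (nat_lit 202)) (XT.nd (nat_lit 78) (nat_lit 0) (nat_lit 0) (XT.lf (nat_lit 0) (nat_lit 42245897091) (nat_lit 76) (nat_lit 36625697390) (nat_lit 76) (nat_lit 31417390877) (nat_lit 1) (nat_lit 4) (nat_lit 2) (nat_lit 5) (nat_lit 2) (nat_lit 4) (nat_lit 297) (nat_lit 222) (nat_lit 201)) (XT.lf (nat_lit 0) (nat_lit 51284945807) (nat_lit 76) (nat_lit 36486175278) (nat_lit 76) (nat_lit 31182227618) (nat_lit 1) (nat_lit 4) (nat_lit 2) (nat_lit 5) (nat_lit 2) (nat_lit 4) (nat_lit 298) (nat_lit 222) (nat_lit 200))))) (XT.nd (nat_lit 156) (nat_lit 0) (nat_lit 0) (XT.nd (nat_lit 78) (nat_lit 0) (nat_lit 0) (XT.lf (nat_lit 0) (nat_lit 60931112490) (nat_lit 76) (nat_lit 36387753536) (nat_lit 76) (nat_lit 30995249259)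 (nat_lit 1) (nat_lit 4) (nat_lit 2) (nat_lit 5) (nat_lit 2) (nat_lit 4) (nat_lit 299) (nat_lit 222) (nat_lit 199)) (XT.lf (nat_lit 0) (nat_lit 71241559609) (nat_lit 76) (nat_lit 36329848925) (nat_lit 76) (nat_lit 30855347780) (nat_lit 1) (nat_lit 4) (nat_lit 2) (nat_lit 5) (nat_lit 2) (nat_lit 4) (nat_lit 300) (nat_lit 222) (nat_lit 198))) (XT.nd (nat_lit 78) (nat_lit 0) (nat_lit 0) (XT.lf (nat_lit 0) (nat_lit 82277386111) (nat_lit 76) (nat_lit 36312118307) (nat_lit 76) (nat_lit 30761694136) (nat_lit 1) (nat_lit 4) (nat_lit 2) (nat_lit 5) (nat_lit 2) (nat_lit 4) (nat_lit 301) (nat_lit 222) (nat_lit 197)) (XT.nd (nat_lit 78) (nat_lit 0) (nat_lit 0) (XT.lf (nat_lit 0) (nat_lit 94103989484) (nat_lit 76) (nat_lit 36334456611) (nat_lit 76) (nat_lit 30713733342) (nat_lit 1) (nat_lit 4) (nat_lit 2) (nat_lit 5) (nat_lit 2) (nat_lit 4) (nat_lit 302) (nat_lit 222) (nat_lit 196)) (XT.lf (nat_lit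 0) (nat_lit 106791453306) (nat_lit 76) (nat_lit 36396996212) (nat_lit 76) (nat_lit 30711181185) (nat_lit 1) (nat_lit 4) (nat_lit 2) (nat_lit 5) (nat_lit 2) (nat_lit 4) (nat_lit 303) (nat_lit 222) (nat_lit 195))))))) (XT.nd (nat_lit 780) (nat_lit 0) (nat_lit 0) (XT.nd (nat_lit 390) (nat_lit 0) (nat_lit 0) (XT.nd (nat_lit 156) (nat_lit 0) (nat_lit 0) (XT.nd (nat_lit 78) (nat_lit 0) (nat_lit 0) (XT.lf (nat_lit 0) (nat_lit 120414962547) (nat_lit 76) (nat_lit 36500107715) (nat_lit 76) (nat_lit 30754022543) (nat_lit 1) (nat_lit 4) (nat_lit 2) (nat_lit 5) (nat_lit 2) (nat_lit 4) (nat_lit 304) (nat_lit 222) (nat_lit 194)) (XT.lf (nat_lit 0) (nat_lit 135055249113) (nat_lit 76) (nat_lit 36644402152) (nat_lit 76) (nat_lit 30842511289) (nat_lit 1) (nat_lit 4) (nat_lit 2) (nat_lit 5) (nat_lit 2) (nat_lit 4) (nat_lit 305) (nat_lit 222) (nat_lit 193))) (XT.nd (nat_lit 78) (nat_lit 0) (nat_lit 0) (XT.lf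 (nat_lit 0) (nat_lit 150799070258) (nat_lit 76) (nat_lit 36830734601) (nat_lit 76) (nat_lit 30977171802) (nat_lit 1) (nat_lit 4) (nat_lit 2) (nat_lit 5) (nat_lit 2) (nat_lit 4) (nat_lit 306) (nat_lit 222) (nat_lit 192)) (XT.nd (nat_lit 78) (nat_lit 0) (nat_lit 0) (XT.lf (nat_lit 0) (nat_lit 167739722701) (nat_lit 76) (nat_lit 37060209253) (nat_lit 76) (nat_lit 31158802070) (nat_lit 1) (nat_lit 4) (nat_lit 2) (nat_lit 5) (nat_lit 2) (nat_lit 4) (nat_lit 307) (nat_lit 222) (nat_lit 191)) (XT.lf (nat_lit 0) (nat_lit 185977595492) (nat_lit 76) (nat_lit 37334185959) (nat_lit 76) (nat_lit 31388478419) (nat_lit 1) (nat_lit 4) (nat_lit 2) (nat_lit 5) (nat_lit 2) (nat_lit 4) (nat_lit 308) (nat_lit 222) (nat_lit 190))))) (XT.nd (nat_lit 156) (nat_lit 0) (nat_lit 0) (XT.nd (nat_lit 78) (nat_lit 0) (nat_lit 0) (XT.lf (nat_lit 0) (nat_lit 205620764914) (nat_lit 76) (nat_lit 37654288284) (nat_lit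 76) (nat_lit 31667561896) (nat_lit 1) (nat_lit 4) (nat_lit 2) (nat_lit 5) (nat_lit 2) (nat_lit 4) (nat_lit 309) (nat_lit 222) (nat_lit 189)) (XT.lf (nat_lit 0) (nat_lit 226785634936) (nat_lit 76) (nat_lit 38022413132) (nat_lit 76) (nat_lit 31997706328) (nat_lit 1) (nat_lit 4) (nat_lit 2) (nat_lit 5) (nat_lit 2) (nat_lit 4) (nat_lit 310) (nat_lit 222) (nat_lit 188))) (XT.nd (nat_lit 78) (nat_lit 0) (nat_lit 0) (XT.lf (nat_lit 0) (nat_lit 249597627008) (nat_lit 76) (nat_lit 38440741982) (nat_lit 76) (nat_lit 32380868127) (nat_lit 1) (nat_lit 4) (nat_lit 2) (nat_lit 5) (nat_lit 2) (nat_lit 4) (nat_lit 311) (nat_lit 222) (nat_lit 187)) (XT.nd (nat_lit 78) (nat_lit 0) (nat_lit 0) (XT.lf (nat_lit 0) (nat_lit 274191923306) (nat_lit 76) (nat_lit 38911753820) (nat_lit 76) (nat_lit 32819317881) (nat_lit 1) (nat_lit 4) (nat_lit 2) (nat_lit 5) (nat_lit 2) (nat_lit 4) (nat_lit 312) (nat_lit 222)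 (nat_lit 186)) (XT.lf (nat_lit 0) (nat_lit 300714267808) (nat_lit 76) (nat_lit 39438239828) (nat_lit 76) (nat_lit 33315653810) (nat_lit 1) (nat_lit 4) (nat_lit 2) (nat_lit 5) (nat_lit 2) (nat_lit 4) (nat_lit 313) (nat_lit 222) (nat_lit 185)))))) (XT.nd (nat_lit 390) (nat_lit 0) (nat_lit 0) (XT.nd (nat_lit 156) (nat_lit 0) (nat_lit 0) (XT.nd (nat_lit 78) (nat_lit 0) (nat_lit 0) (XT.lf (nat_lit 0) (nat_lit 329321829963) (nat_lit 76) (nat_lit 40023319922) (nat_lit 76) (nat_lit 33872817166) (nat_lit 1) (nat_lit 4) (nat_lit 2) (nat_lit 5) (nat_lit 2) (nat_lit 4) (nat_lit 314) (nat_lit 222) (nat_lit 184)) (XT.lf (nat_lit 0) (nat_lit 360184136065) (nat_lit 76) (nat_lit 40670461245) (nat_lit 76) (nat_lit 34494109656) (nat_lit 1) (nat_lit 4) (nat_lit 2) (nat_lit 5) (nat_lit 2) (nat_lit 4) (nat_lit 315) (nat_lit 222) (nat_lit 183))) (XT.nd (nat_lit 78) (nat_lit 0) (nat_lit 0) (XT.lf (nat_lit 0)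 (nat_lit 393484073855) (nat_lit 76) (nat_lit 41383498707) (nat_lit 76) (nat_lit 35183213014) (nat_lit 1) (nat_lit 4) (nat_lit 2) (nat_lit 5) (nat_lit 2) (nat_lit 4) (nat_lit 316) (nat_lit 222) (nat_lit 182)) (XT.nd (nat_lit 78) (nat_lit 0) (nat_lit 0) (XT.lf (nat_lit 0) (nat_lit 429418976295) (nat_lit 76) (nat_lit 42166657716) (nat_lit 76) (nat_lit 35944210815) (nat_lit 1) (nat_lit 4) (nat_lit 2) (nat_lit 5) (nat_lit 2) (nat_lit 4) (nat_lit 317) (nat_lit 222) (nat_lit 181)) (XT.lf (nat_lit 0) (nat_lit 468201790958) (nat_lit 76) (nat_lit 43024579214) (nat_lit 76) (nat_lit 36781612677) (nat_lit 1) (nat_lit 4) (nat_lit 2) (nat_lit 5) (nat_lit 2) (nat_lit 4) (nat_lit 318) (nat_lit 222) (nat_lit 180))))) (XT.nd (nat_lit 156) (nat_lit 0) (nat_lit 0) (XT.nd (nat_lit 78) (nat_lit 0) (nat_lit 0) (XT.lf (nat_lit 0) (nat_lit 510062341929) (nat_lit 76) (nat_lit 43962347180) (nat_lit 76) (nat_lit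 37700380979) (nat_lit 1) (nat_lit 4) (nat_lit 2) (nat_lit 5) (nat_lit 2) (nat_lit 4) (nat_lit 319) (nat_lit 222) (nat_lit 179)) (XT.lf (nat_lit 0) (nat_lit 555248691734) (nat_lit 76) (nat_lit 44985518757) (nat_lit 76) (nat_lit 38705960276) (nat_lit 1) (nat_lit 4) (nat_lit 2) (nat_lit 5) (nat_lit 2) (nat_lit 4) (nat_lit 320) (nat_lit 222) (nat_lit 178))) (XT.nd (nat_lit 78) (nat_lit 0) (nat_lit 0) (XT.lf (nat_lit 0) (nat_lit 604028611332) (nat_lit 76) (nat_lit 46100157186) (nat_lit 76) (nat_lit 39804309555) (nat_lit 1) (nat_lit 4) (nat_lit 2) (nat_lit 5) (nat_lit 2) (nat_lit 4) (nat_lit 321) (nat_lit 222) (nat_lit 177)) (XT.nd (nat_lit 78) (nat_lit 0) (nat_lit 0) (XT.lf (nat_lit 0) (nat_lit 656691166916) (nat_lit 76) (nat_lit 47312867730) (nat_lit 76) (nat_lit 41001937554) (nat_lit 1) (nat_lit 4) (nat_lit 2) (nat_lit 5) (nat_lit 2) (nat_lit 4) (nat_lit 322) (nat_lit 222) (nat_lit 176))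 (XT.lf (nat_lit 0) (nat_lit 713548432888) (nat_lit 76) (nat_lit 48630836822) (nat_lit 76) (nat_lit 42305941326) (nat_lit 1) (nat_lit 4) (nat_lit 2) (nat_lit 5) (nat_lit 2) (nat_lit 4) (nat_lit 323) (nat_lit 222) (nat_lit 175))))))))
noncomputable def xc18 : XT := (XT.nd (nat_lit 34866) (nat_lit 0) (nat_lit 0) (XT.nd (nat_lit 34086) (nat_lit 0) (nat_lit 76) (XT.nd (nat_lit 33696) (nat_lit 0) (nat_lit 304) (XT.nd (nat_lit 156) (nat_lit 0) (nat_lit 0) (XT.nd (nat_lit 78) (nat_lit 0) (nat_lit 0) (XT.lf (nat_lit 0) (nat_lit 774937341195) (nat_lit 76) (nat_lit 50061874650) (nat_lit 76) (nat_lit 43724048303) (nat_lit 1) (nat_lit 4) (nat_lit 2) (nat_lit 5) (nat_lit 2) (nat_lit 4) (nat_lit 324) (nat_lit 222) (nat_lit 174)) (XT.lf (nat_lit 0) (nat_lit 841221677960) (nat_lit 76) (nat_lit 51614461438) (nat_lit 76) (nat_lit 45264662079) (nat_lit 1) (nat_lit 4) (nat_lit 2) (nat_lit 5) (nat_lit 2)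 (nat_lit 4) (nat_lit 325) (nat_lit 222) (nat_lit 173))) (XT.nd (nat_lit 33462) (nat_lit 0) (nat_lit 532) (XT.lf (nat_lit 0) (nat_lit 912794239254) (nat_lit 76) (nat_lit 53297797700) (nat_lit 76) (nat_lit 46936912220) (nat_lit 1) (nat_lit 4) (nat_lit 2) (nat_lit 5) (nat_lit 2) (nat_lit 4) (nat_lit 326) (nat_lit 222) (nat_lit 172)) (XT.lf (nat_lit 0) (nat_lit 5015184023) (nat_lit 152) (nat_lit 638560060) (nat_lit 0) (nat_lit 5015184023) (nat_lit 8) (nat_lit 5) (nat_lit 10) (nat_lit 4) (nat_lit 8) (nat_lit 4) (nat_lit 274) (nat_lit 223) (nat_lit 223)))) (XT.nd (nat_lit 156) (nat_lit 152) (nat_lit 0) (XT.nd (nat_lit 78) (nat_lit 0) (nat_lit 0) (XT.lf (nat_lit 0) (nat_lit 9032586728) (nat_lit 76) (nat_lit 7139693387) (nat_lit 76) (nat_lit 6566440839) (nat_lit 7) (nat_lit 4) (nat_lit 8) (nat_lit 5) (nat_lit 8) (nat_lit 4) (nat_lit 275) (nat_lit 223) (nat_lit 222)) (XT.lf (nat_lit 0) (nat_lit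 19702793758) (nat_lit 76) (nat_lit 2833386388) (nat_lit 76) (nat_lit 1729344444) (nat_lit 7) (nat_lit 4) (nat_lit 8) (nat_lit 5) (nat_lit 8) (nat_lit 4) (nat_lit 276) (nat_lit 223) (nat_lit 221))) (XT.nd (nat_lit 78) (nat_lit 0) (nat_lit 0) (XT.lf (nat_lit 0) (nat_lit 3212406908) (nat_lit 152) (nat_lit 21015344376) (nat_lit 0) (nat_lit 1692870139) (nat_lit 5) (nat_lit 5) (nat_lit 7) (nat_lit 4) (nat_lit 5) (nat_lit 4) (nat_lit 277) (nat_lit 223) (nat_lit 220)) (XT.nd (nat_lit 78) (nat_lit 0) (nat_lit 0) (XT.lf (nat_lit 0) (nat_lit 8353539277) (nat_lit 152) (nat_lit 12959659622) (nat_lit 0) (nat_lit 6400605980) (nat_lit 5) (nat_lit 5) (nat_lit 7) (nat_lit 4) (nat_lit 5) (nat_lit 4) (nat_lit 278) (nat_lit 223) (nat_lit 219)) (XT.lf (nat_lit 0) (nat_lit 13660832485) (nat_lit 152) (nat_lit 4695564430) (nat_lit 0) (nat_lit 11306606106) (nat_lit 5) (nat_lit 5) (nat_lit 7) (nat_lit 4) (nat_lit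 5) (nat_lit 4) (nat_lit 279) (nat_lit 223) (nat_lit 218)))))) (XT.nd (nat_lit 390) (nat_lit 0) (nat_lit 0) (XT.nd (nat_lit 156) (nat_lit 152) (nat_lit 0) (XT.nd (nat_lit 78) (nat_lit 0) (nat_lit 0) (XT.lf (nat_lit 0) (nat_lit 3952415597) (nat_lit 76) (nat_lit 15275029845) (nat_lit 76) (nat_lit 12549235798) (nat_lit 4) (nat_lit 4) (nat_lit 5) (nat_lit 5) (nat_lit 5) (nat_lit 4) (nat_lit 280) (nat_lit 223) (nat_lit 217)) (XT.lf (nat_lit 0) (nat_lit 13073712611) (nat_lit 76) (nat_lit 12031279636) (nat_lit 76) (nat_lit 8961441451) (nat_lit 4) (nat_lit 4) (nat_lit 5) (nat_lit 5) (nat_lit 5) (nat_lit 4) (nat_lit 281) (nat_lit 223) (nat_lit 216))) (XT.nd (nat_lit 78) (nat_lit 152) (nat_lit 0) (XT.lf (nat_lit 0) (nat_lit 22567122177) (nat_lit 76) (nat_lit 8685445720) (nat_lit 76) (nat_lit 5297048148) (nat_lit 4) (nat_lit 4) (nat_lit 5) (nat_lit 5) (nat_lit 5) (nat_lit 4) (nat_lit 282) (nat_lit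 223) (nat_lit 215)) (XT.nd (nat_lit 78) (nat_lit 152) (nat_lit 0) (XT.lf (nat_lit 0) (nat_lit 32488901536) (nat_lit 76) (nat_lit 5217700932) (nat_lit 76) (nat_lit 1534340966) (nat_lit 4) (nat_lit 4) (nat_lit 5) (nat_lit 5) (nat_lit 5) (nat_lit 4) (nat_lit 283) (nat_lit 223) (nat_lit 214)) (XT.lf (nat_lit 0) (nat_lit 728111948) (nat_lit 76) (nat_lit 1557051584) (nat_lit 152) (nat_lit 39868798843) (nat_lit 2) (nat_lit 5) (nat_lit 3) (nat_lit 5) (nat_lit 4) (nat_lit 4) (nat_lit 284) (nat_lit 223) (nat_lit 213))))) (XT.nd (nat_lit 156) (nat_lit 0) (nat_lit 0) (XT.nd (nat_lit 78) (nat_lit 0) (nat_lit 0) (XT.lf (nat_lit 0) (nat_lit 6345717461) (nat_lit 152) (nat_lit 36616960651) (nat_lit 0) (nat_lit 2336806979) (nat_lit 2) (nat_lit 5) (nat_lit 4) (nat_lit 4) (nat_lit 2) (nat_lit 4) (nat_lit 285) (nat_lit 223) (nat_lit 212)) (XT.lf (nat_lit 0) (nat_lit 10601413584) (nat_lit 152) (nat_lit 31732387344)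 (nat_lit 0) (nat_lit 6369502474) (nat_lit 2) (nat_lit 5) (nat_lit 4) (nat_lit 4) (nat_lit 2) (nat_lit 4) (nat_lit 286) (nat_lit 223) (nat_lit 211))) (XT.nd (nat_lit 78) (nat_lit 0) (nat_lit 0) (XT.lf (nat_lit 0) (nat_lit 15053160900) (nat_lit 152) (nat_lit 26718874948) (nat_lit 0) (nat_lit 10614767728) (nat_lit 2) (nat_lit 5) (nat_lit 4) (nat_lit 4) (nat_lit 2) (nat_lit 4) (nat_lit 287) (nat_lit 223) (nat_lit 210)) (XT.nd (nat_lit 78) (nat_lit 0) (nat_lit 0) (XT.lf (nat_lit 0) (nat_lit 19727340137) (nat_lit 152) (nat_lit 21546713759) (nat_lit 0) (nat_lit 15097759870) (nat_lit 2) (nat_lit 5) (nat_lit 4) (nat_lit 4) (nat_lit 2) (nat_lit 4) (nat_lit 288) (nat_lit 223) (nat_lit 209)) (XT.lf (nat_lit 0) (nat_lit 24651650133) (nat_lit 152) (nat_lit 16185253934) (nat_lit 0) (nat_lit 19845044778) (nat_lit 2) (nat_lit 5) (nat_lit 4) (nat_lit 4) (nat_lit 2) (nat_lit 4) (nat_lit 289) (nat_lit 223)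 (nat_lit 208))))))) (XT.nd (nat_lit 780) (nat_lit 0) (nat_lit 0) (XT.nd (nat_lit 390) (nat_lit 0) (nat_lit 0) (XT.nd (nat_lit 156) (nat_lit 76) (nat_lit 0) (XT.nd (nat_lit 78) (nat_lit 0) (nat_lit 0) (XT.lf (nat_lit 0) (nat_lit 29855271984) (nat_lit 152) (nat_lit 10602723859) (nat_lit 0) (nat_lit 24884754511) (nat_lit 2) (nat_lit 5) (nat_lit 4) (nat_lit 4) (nat_lit 2) (nat_lit 4) (nat_lit 290) (nat_lit 223) (nat_lit 207)) (XT.lf (nat_lit 0) (nat_lit 35369041969) (nat_lit 152) (nat_lit 4766041874) (nat_lit 0) (nat_lit 30246754015) (nat_lit 2) (nat_lit 5) (nat_lit 4) (nat_lit 4) (nat_lit 2) (nat_lit 4) (nat_lit 291) (nat_lit 223) (nat_lit 206))) (XT.nd (nat_lit 78) (nat_lit 0) (nat_lit 0) (XT.lf (nat_lit 0) (nat_lit 1404327000) (nat_lit 76) (nat_lit 39843232759) (nat_lit 76) (nat_lit 34580416583) (nat_lit 1) (nat_lit 4) (nat_lit 2) (nat_lit 5) (nat_lit 2) (nat_lit 4) (nat_lit 292) (nat_lit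 223) (nat_lit 205)) (XT.nd (nat_lit 78) (nat_lit 0) (nat_lit 0) (XT.lf (nat_lit 0) (nat_lit 8068068431) (nat_lit 76) (nat_lit 39517651375) (nat_lit 76) (nat_lit 34124716475) (nat_lit 1) (nat_lit 4) (nat_lit 2) (nat_lit 5) (nat_lit 2) (nat_lit 4) (nat_lit 293) (nat_lit 223) (nat_lit 204)) (XT.lf (nat_lit 0) (nat_lit 15107084390) (nat_lit 76) (nat_lit 39237125544) (nat_lit 76) (nat_lit 33723710344) (nat_lit 1) (nat_lit 4) (nat_lit 2) (nat_lit 5) (nat_lit 2) (nat_lit 4) (nat_lit 294) (nat_lit 223) (nat_lit 203))))) (XT.nd (nat_lit 156) (nat_lit 0) (nat_lit 0) (XT.nd (nat_lit 78) (nat_lit 0) (nat_lit 0) (XT.lf (nat_lit 0) (nat_lit 22563087563) (nat_lit 76) (nat_lit 38999992892) (nat_lit 76) (nat_lit 33375021858) (nat_lit 1) (nat_lit 4) (nat_lit 2) (nat_lit 5) (nat_lit 2) (nat_lit 4) (nat_lit 295) (nat_lit 223) (nat_lit 202)) (XT.lf (nat_lit 0) (nat_lit 30480261673) (nat_lit 76) (nat_lit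 38804848187) (nat_lit 76) (nat_lit 33076584715) (nat_lit 1) (nat_lit 4) (nat_lit 2) (nat_lit 5) (nat_lit 2) (nat_lit 4) (nat_lit 296) (nat_lit 223) (nat_lit 201))) (XT.nd (nat_lit 78) (nat_lit 0) (nat_lit 0) (XT.lf (nat_lit 0) (nat_lit 38905523307) (nat_lit 76) (nat_lit 38650535018) (nat_lit 76) (nat_lit 32826630398) (nat_lit 1) (nat_lit 4) (nat_lit 2) (nat_lit 5) (nat_lit 2) (nat_lit 4) (nat_lit 297) (nat_lit 223) (nat_lit 200)) (XT.nd (nat_lit 78) (nat_lit 0) (nat_lit 0) (XT.lf (nat_lit 0) (nat_lit 47888799941) (nat_lit 76) (nat_lit 38536138934) (nat_lit 76) (nat_lit 32623677697) (nat_lit 1) (nat_lit 4) (nat_lit 2) (nat_lit 5) (nat_lit 2) (nat_lit 4) (nat_lit 298) (nat_lit 223) (nat_lit 199)) (XT.lf (nat_lit 0) (nat_lit 57483325807) (nat_lit 76) (nat_lit 38460982034) (nat_lit 76) (nat_lit 32466523929) (nat_lit 1) (nat_lit 4) (nat_lit 2) (nat_lit 5) (nat_lit 2) (nat_lit 4) (nat_lit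 299) (nat_lit 223) (nat_lit 198)))))) (XT.nd (nat_lit 390) (nat_lit 0) (nat_lit 0) (XT.nd (nat_lit 156) (nat_lit 0) (nat_lit 0) (XT.nd (nat_lit 78) (nat_lit 0) (nat_lit 0) (XT.lf (nat_lit 0) (nat_lit 67745957356) (nat_lit 76) (nat_lit 38424618943) (nat_lit 76) (nat_lit 32354237812) (nat_lit 1) (nat_lit 4) (nat_lit 2) (nat_lit 5) (nat_lit 2) (nat_lit 4) (nat_lit 300) (nat_lit 223) (nat_lit 197)) (XT.lf (nat_lit 0) (nat_lit 78737510180) (nat_lit 76) (nat_lit 38426834176) (nat_lit 76) (nat_lit 32286153948) (nat_lit 1) (nat_lit 4) (nat_lit 2) (nat_lit 5) (nat_lit 2) (nat_lit 4) (nat_lit 301) (nat_lit 223) (nat_lit 196))) (XT.nd (nat_lit 78) (nat_lit 0) (nat_lit 0) (XT.lf (nat_lit 0) (nat_lit 90523119409) (nat_lit 76) (nat_lit 38467640861) (nat_lit 76) (nat_lit 32261868875) (nat_lit 1) (nat_lit 4) (nat_lit 2) (nat_lit 5) (nat_lit 2) (nat_lit 4) (nat_lit 302) (nat_lit 223) (nat_lit 195)) (XT.nd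 (nat_lit 78) (nat_lit 0) (nat_lit 0) (XT.lf (nat_lit 0) (nat_lit 103172625689) (nat_lit 76) (nat_lit 38547280815) (nat_lit 76) (nat_lit 32281238684) (nat_lit 1) (nat_lit 4) (nat_lit 2) (nat_lit 5) (nat_lit 2) (nat_lit 4) (nat_lit 303) (nat_lit 223) (nat_lit 194)) (XT.lf (nat_lit 0) (nat_lit 116760989058) (nat_lit 76) (nat_lit 38666225979) (nat_lit 76) (nat_lit 32344378157) (nat_lit 1) (nat_lit 4) (nat_lit 2) (nat_lit 5) (nat_lit 2) (nat_lit 4) (nat_lit 304) (nat_lit 223) (nat_lit 193))))) (XT.nd (nat_lit 156) (nat_lit 0) (nat_lit 0) (XT.nd (nat_lit 78) (nat_lit 0) (nat_lit 0) (XT.lf (nat_lit 0) (nat_lit 131368733150) (nat_lit 76) (nat_lit 38825181212) (nat_lit 76) (nat_lit 32451661454) (nat_lit 1) (nat_lit 4) (nat_lit 2) (nat_lit 5) (nat_lit 2) (nat_lit 4) (nat_lit 305) (nat_lit 223) (nat_lit 192)) (XT.lf (nat_lit 0) (nat_lit 147082422375) (nat_lit 76) (nat_lit 39025088472) (nat_lit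 76) (nat_lit 32603724329) (nat_lit 1) (nat_lit 4) (nat_lit 2) (nat_lit 5) (nat_lit 2) (nat_lit 4) (nat_lit 306) (nat_lit 223) (nat_lit 191))) (XT.nd (nat_lit 78) (nat_lit 0) (nat_lit 0) (XT.lf (nat_lit 0) (nat_lit 163995174891) (nat_lit 76) (nat_lit 39267132395) (nat_lit 76) (nat_lit 32801467895) (nat_lit 1) (nat_lit 4) (nat_lit 2) (nat_lit 5) (nat_lit 2) (nat_lit 4) (nat_lit 307) (nat_lit 223) (nat_lit 190)) (XT.nd (nat_lit 78) (nat_lit 0) (nat_lit 0) (XT.lf (nat_lit 0) (nat_lit 182207214416) (nat_lit 76) (nat_lit 39552747313) (nat_lit 76) (nat_lit 33046063966) (nat_lit 1) (nat_lit 4) (nat_lit 2) (nat_lit 5) (nat_lit 2) (nat_lit 4) (nat_lit 308) (nat_lit 223) (nat_lit 189)) (XT.lf (nat_lit 0) (nat_lit 201826464149) (nat_lit 76) (nat_lit 39883625762) (nat_lit 76) (nat_lit 33338961999) (nat_lit 1) (nat_lit 4) (nat_lit 2) (nat_lit 5) (nat_lit 2) (nat_lit 4) (nat_lit 309) (nat_lit 223)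 (nat_lit 188))))))))
noncomputable def xc19 : XT := (XT.nd (nat_lit 34710) (nat_lit 0) (nat_lit 0) (XT.nd (nat_lit 702) (nat_lit 0) (nat_lit 0) (XT.nd (nat_lit 312) (nat_lit 0) (nat_lit 0) (XT.nd (nat_lit 156) (nat_lit 0) (nat_lit 0) (XT.nd (nat_lit 78) (nat_lit 0) (nat_lit 0) (XT.lf (nat_lit 0) (nat_lit 222969186309) (nat_lit 76) (nat_lit 40261728501) (nat_lit 76) (nat_lit 33681897687) (nat_lit 1) (nat_lit 4) (nat_lit 2) (nat_lit 5) (nat_lit 2) (nat_lit 4) (nat_lit 310) (nat_lit 223) (nat_lit 187)) (XT.lf (nat_lit 0) (nat_lit 245760671103) (nat_lit 76) (nat_lit 40689296139) (nat_lit 76) (nat_lit 34076903241) (nat_lit 1) (nat_lit 4) (nat_lit 2) (nat_lit 5) (nat_lit 2) (nat_lit 4) (nat_lit 311) (nat_lit 223) (nat_lit 186))) (XT.nd (nat_lit 78) (nat_lit 0) (nat_lit 0) (XT.lf (nat_lit 0) (nat_lit 270335979180) (nat_lit 76) (nat_lit 41168862412) (nat_lit 76) (nat_lit 34526319435) (nat_lit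 1) (nat_lit 4) (nat_lit 2) (nat_lit 5) (nat_lit 2) (nat_lit 4) (nat_lit 312) (nat_lit 223) (nat_lit 185)) (XT.lf (nat_lit 0) (nat_lit 296840741996) (nat_lit 76) (nat_lit 41703269192) (nat_lit 76) (nat_lit 35032809476) (nat_lit 1) (nat_lit 4) (nat_lit 2) (nat_lit 5) (nat_lit 2) (nat_lit 4) (nat_lit 313) (nat_lit 223) (nat_lit 184)))) (XT.nd (nat_lit 156) (nat_lit 0) (nat_lit 0) (XT.nd (nat_lit 78) (nat_lit 0) (nat_lit 0) (XT.lf (nat_lit 0) (nat_lit 325432024812) (nat_lit 76) (nat_lit 42295683334) (nat_lit 76) (nat_lit 35599374786) (nat_lit 1) (nat_lit 4) (nat_lit 2) (nat_lit 5) (nat_lit 2) (nat_lit 4) (nat_lit 314) (nat_lit 223) (nat_lit 183)) (XT.lf (nat_lit 0) (nat_lit 356279257452) (nat_lit 76) (nat_lit 42949615442) (nat_lit 76) (nat_lit 36229372790) (nat_lit 1) (nat_lit 4) (nat_lit 2) (nat_lit 5) (nat_lit 2) (nat_lit 4) (nat_lit 315) (nat_lit 223) (nat_lit 182))) (XT.nd (nat_lit 78)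 (nat_lit 0) (nat_lit 0) (XT.lf (nat_lit 0) (nat_lit 389565238332) (nat_lit 76) (nat_lit 43668940669) (nat_lit 76) (nat_lit 36926536809) (nat_lit 1) (nat_lit 4) (nat_lit 2) (nat_lit 5) (nat_lit 2) (nat_lit 4) (nat_lit 316) (nat_lit 223) (nat_lit 181)) (XT.nd (nat_lit 78) (nat_lit 0) (nat_lit 0) (XT.lf (nat_lit 0) (nat_lit 425487217708) (nat_lit 76) (nat_lit 44457921682) (nat_lit 76) (nat_lit 37694998185) (nat_lit 1) (nat_lit 4) (nat_lit 2) (nat_lit 5) (nat_lit 2) (nat_lit 4) (nat_lit 317) (nat_lit 223) (nat_lit 180)) (XT.lf (nat_lit 0) (nat_lit 464258066571) (nat_lit 76) (nat_lit 45321233924) (nat_lit 76) (nat_lit 38539310764) (nat_lit 1) (nat_lit 4) (nat_lit 2) (nat_lit 5) (nat_lit 2) (nat_lit 4) (nat_lit 318) (nat_lit 223) (nat_lit 179)))))) (XT.nd (nat_lit 390) (nat_lit 0) (nat_lit 0) (XT.nd (nat_lit 156) (nat_lit 0) (nat_lit 0) (XT.nd (nat_lit 78) (nat_lit 0) (nat_lit 0) (XT.lf (nat_lit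 0) (nat_lit 506107538097) (nat_lit 76) (nat_lit 46263993320) (nat_lit 76) (nat_lit 39464477879) (nat_lit 1) (nat_lit 4) (nat_lit 2) (nat_lit 5) (nat_lit 2) (nat_lit 4) (nat_lit 319) (nat_lit 223) (nat_lit 178)) (XT.lf (nat_lit 0) (nat_lit 551283629157) (nat_lit 76) (nat_lit 47291786592) (nat_lit 76) (nat_lit 40475982002) (nat_lit 1) (nat_lit 4) (nat_lit 2) (nat_lit 5) (nat_lit 2) (nat_lit 4) (nat_lit 320) (nat_lit 223) (nat_lit 177))) (XT.nd (nat_lit 78) (nat_lit 0) (nat_lit 0) (XT.lf (nat_lit 0) (nat_lit 600054049918) (nat_lit 76) (nat_lit 48410704368) (nat_lit 76) (nat_lit 41579817232) (nat_lit 1) (nat_lit 4) (nat_lit 2) (nat_lit 5) (nat_lit 2) (nat_lit 4) (nat_lit 321) (nat_lit 223) (nat_lit 176)) (XT.nd (nat_lit 78) (nat_lit 0) (nat_lit 0) (XT.lf (nat_lit 0) (nat_lit 652707810281) (nat_lit 76) (nat_lit 49627377270) (nat_lit 76) (nat_lit 42782524814) (nat_lit 1) (nat_lit 4) (nat_lit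 2) (nat_lit 5) (nat_lit 2) (nat_lit 4) (nat_lit 322) (nat_lit 223) (nat_lit 175)) (XT.lf (nat_lit 0) (nat_lit 709556932531) (nat_lit 76) (nat_lit 50949015212) (nat_lit 76) (nat_lit 44091231905) (nat_lit 1) (nat_lit 4) (nat_lit 2) (nat_lit 5) (nat_lit 2) (nat_lit 4) (nat_lit 323) (nat_lit 223) (nat_lit 174))))) (XT.nd (nat_lit 156) (nat_lit 0) (nat_lit 0) (XT.nd (nat_lit 78) (nat_lit 0) (nat_lit 0) (XT.lf (nat_lit 0) (nat_lit 770938300354) (nat_lit 76) (nat_lit 52383450124) (nat_lit 76) (nat_lit 45513693805) (nat_lit 1) (nat_lit 4) (nat_lit 2) (nat_lit 5) (nat_lit 2) (nat_lit 4) (nat_lit 324) (nat_lit 223) (nat_lit 173)) (XT.lf (nat_lit 0) (nat_lit 837215655189) (nat_lit 76) (nat_lit 53939182359) (nat_lit 76) (nat_lit 47058339920) (nat_lit 1) (nat_lit 4) (nat_lit 2) (nat_lit 5) (nat_lit 2) (nat_lit 4) (nat_lit 325) (nat_lit 223) (nat_lit 172))) (XT.nd (nat_lit 33306) (nat_lit 0) (nat_lit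 532) (XT.lf (nat_lit 0) (nat_lit 908781751733) (nat_lit 76) (nat_lit 55625431072) (nat_lit 76) (nat_lit 48734323706) (nat_lit 1) (nat_lit 4) (nat_lit 2) (nat_lit 5) (nat_lit 2) (nat_lit 4) (nat_lit 326) (nat_lit 223) (nat_lit 171)) (XT.nd (nat_lit 78) (nat_lit 152) (nat_lit 0) (XT.lf (nat_lit 0) (nat_lit 8696999415) (nat_lit 152) (nat_lit 366620975) (nat_lit 152) (nat_lit 366620975) (nat_lit 10) (nat_lit 4) (nat_lit 12) (nat_lit 5) (nat_lit 12) (nat_lit 4) (nat_lit 272) (nat_lit 224) (nat_lit 224)) (XT.lf (nat_lit 0) (nat_lit 4809452026) (nat_lit 152) (nat_lit 11049023064) (nat_lit 0) (nat_lit 4190339274) (nat_lit 8) (nat_lit 5) (nat_lit 10) (nat_lit 4) (nat_lit 8) (nat_lit 4) (nat_lit 273) (nat_lit 224) (nat_lit 223))))))) (XT.nd (nat_lit 780) (nat_lit 228) (nat_lit 0) (XT.nd (nat_lit 390) (nat_lit 76) (nat_lit 0) (XT.nd (nat_lit 156) (nat_lit 152) (nat_lit 0) (XT.nd (nat_lit 78) (nat_lit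 76) (nat_lit 0) (XT.lf (nat_lit 0) (nat_lit 10502200511) (nat_lit 152) (nat_lit 1533392964) (nat_lit 0) (nat_lit 9309835211) (nat_lit 8) (nat_lit 5) (nat_lit 10) (nat_lit 4) (nat_lit 8) (nat_lit 4) (nat_lit 274) (nat_lit 224) (nat_lit 222)) (XT.lf (nat_lit 0) (nat_lit 8522704811) (nat_lit 76) (nat_lit 7977076444) (nat_lit 76) (nat_lit 6253921748) (nat_lit 7) (nat_lit 4) (nat_lit 8) (nat_lit 5) (nat_lit 8) (nat_lit 4) (nat_lit 275) (nat_lit 224) (nat_lit 221))) (XT.nd (nat_lit 78) (nat_lit 152) (nat_lit 0) (XT.lf (nat_lit 0) (nat_lit 18965934492) (nat_lit 76) (nat_lit 3767933934) (nat_lit 76) (nat_lit 1553307575) (nat_lit 7) (nat_lit 4) (nat_lit 8) (nat_lit 5) (nat_lit 8) (nat_lit 4) (nat_lit 276) (nat_lit 224) (nat_lit 220)) (XT.nd (nat_lit 78) (nat_lit 0) (nat_lit 0) (XT.lf (nat_lit 0) (nat_lit 3228505082) (nat_lit 152) (nat_lit 22035562558) (nat_lit 0) (nat_lit 685940592) (nat_lit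 5) (nat_lit 5) (nat_lit 7) (nat_lit 4) (nat_lit 5) (nat_lit 4) (nat_lit 277) (nat_lit 224) (nat_lit 219)) (XT.lf (nat_lit 0) (nat_lit 8251786609) (nat_lit 152) (nat_lit 14189514507) (nat_lit 0) (nat_lit 5307929038) (nat_lit 5) (nat_lit 5) (nat_lit 7) (nat_lit 4) (nat_lit 5) (nat_lit 4) (nat_lit 278) (nat_lit 224) (nat_lit 218))))) (XT.nd (nat_lit 156) (nat_lit 0) (nat_lit 0) (XT.nd (nat_lit 78) (nat_lit 76) (nat_lit 0) (XT.lf (nat_lit 0) (nat_lit 13449958667) (nat_lit 152) (nat_lit 6119527374) (nat_lit 0) (nat_lit 10134533428) (nat_lit 5) (nat_lit 5) (nat_lit 7) (nat_lit 4) (nat_lit 5) (nat_lit 4) (nat_lit 279) (nat_lit 224) (nat_lit 217)) (XT.lf (nat_lit 0) (nat_lit 2295697649) (nat_lit 76) (nat_lit 16593969864) (nat_lit 76) (nat_lit 12934500487) (nat_lit 4) (nat_lit 4) (nat_lit 5) (nat_lit 5) (nat_lit 5) (nat_lit 4) (nat_lit 280) (nat_lit 224) (nat_lit 216))) (XT.nd (nat_lit 78) (nat_lit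 0) (nat_lit 0) (XT.lf (nat_lit 0) (nat_lit 11245075812) (nat_lit 76) (nat_lit 13425900573) (nat_lit 76) (nat_lit 9447871810) (nat_lit 4) (nat_lit 4) (nat_lit 5) (nat_lit 5) (nat_lit 5) (nat_lit 4) (nat_lit 281) (nat_lit 224) (nat_lit 215)) (XT.nd (nat_lit 78) (nat_lit 0) (nat_lit 0) (XT.lf (nat_lit 0) (nat_lit 20579301257) (nat_lit 76) (nat_lit 10150141581) (nat_lit 76) (nat_lit 5877150423) (nat_lit 4) (nat_lit 4) (nat_lit 5) (nat_lit 5) (nat_lit 5) (nat_lit 4) (nat_lit 282) (nat_lit 224) (nat_lit 214)) (XT.lf (nat_lit 0) (nat_lit 30353687911) (nat_lit 76) (nat_lit 6747280983) (nat_lit 76) (nat_lit 2201176496) (nat_lit 4) (nat_lit 4) (nat_lit 5) (nat_lit 5) (nat_lit 5) (nat_lit 4) (nat_lit 283) (nat_lit 224) (nat_lit 213)))))) (XT.nd (nat_lit 390) (nat_lit 76) (nat_lit 0) (XT.nd (nat_lit 156) (nat_lit 0) (nat_lit 0) (XT.nd (nat_lit 78) (nat_lit 76) (nat_lit 0) (XT.lf (nat_lit 0) (nat_lit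 1550564842) (nat_lit 152) (nat_lit 1620329271) (nat_lit 76) (nat_lit 39049333658) (nat_lit 3) (nat_lit 5) (nat_lit 5) (nat_lit 5) (nat_lit 4) (nat_lit 4) (nat_lit 284) (nat_lit 224) (nat_lit 212)) (XT.lf (nat_lit 0) (nat_lit 5484380134) (nat_lit 152) (nat_lit 39196872869) (nat_lit 0) (nat_lit 690915508) (nat_lit 2) (nat_lit 5) (nat_lit 4) (nat_lit 4) (nat_lit 2) (nat_lit 4) (nat_lit 285) (nat_lit 224) (nat_lit 211))) (XT.nd (nat_lit 78) (nat_lit 0) (nat_lit 0) (XT.lf (nat_lit 0) (nat_lit 9670651018) (nat_lit 152) (nat_lit 34438177819) (nat_lit 0) (nat_lit 4670704330) (nat_lit 2) (nat_lit 5) (nat_lit 4) (nat_lit 4) (nat_lit 2) (nat_lit 4) (nat_lit 286) (nat_lit 224) (nat_lit 210)) (XT.nd (nat_lit 78) (nat_lit 0) (nat_lit 0) (XT.lf (nat_lit 0) (nat_lit 14058115707) (nat_lit 152) (nat_lit 29541219365) (nat_lit 0) (nat_lit 8866981924) (nat_lit 2) (nat_lit 5) (nat_lit 4) (nat_lit 4) (nat_lit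 2) (nat_lit 4) (nat_lit 287) (nat_lit 224) (nat_lit 209)) (XT.lf (nat_lit 0) (nat_lit 18672773992) (nat_lit 152) (nat_lit 24476978493) (nat_lit 0) (nat_lit 13304615121) (nat_lit 2) (nat_lit 5) (nat_lit 4) (nat_lit 4) (nat_lit 2) (nat_lit 4) (nat_lit 288) (nat_lit 224) (nat_lit 208))))) (XT.nd (nat_lit 156) (nat_lit 76) (nat_lit 0) (XT.nd (nat_lit 78) (nat_lit 0) (nat_lit 0) (XT.lf (nat_lit 0) (nat_lit 23541971995) (nat_lit 152) (nat_lit 19215444887) (nat_lit 0) (nat_lit 18009901006) (nat_lit 2) (nat_lit 5) (nat_lit 4) (nat_lit 4) (nat_lit 2) (nat_lit 4) (nat_lit 289) (nat_lit 224) (nat_lit 207)) (XT.lf (nat_lit 0) (nat_lit 28694564224) (nat_lit 152) (nat_lit 13725439088) (nat_lit 0) (nat_lit 23010722755) (nat_lit 2) (nat_lit 5) (nat_lit 4) (nat_lit 4) (nat_lit 2) (nat_lit 4) (nat_lit 290) (nat_lit 224) (nat_lit 206))) (XT.nd (nat_lit 78) (nat_lit 76) (nat_lit 0) (XT.lf (nat_lit 0) (nat_lit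 34161084559) (nat_lit 152) (nat_lit 7974427730) (nat_lit 0) (nat_lit 28336714867) (nat_lit 2) (nat_lit 5) (nat_lit 4) (nat_lit 4) (nat_lit 2) (nat_lit 4) (nat_lit 291) (nat_lit 224) (nat_lit 205)) (XT.nd (nat_lit 78) (nat_lit 76) (nat_lit 0) (XT.lf (nat_lit 0) (nat_lit 39973927193) (nat_lit 152) (nat_lit 1928330744) (nat_lit 0) (nat_lit 34019438777) (nat_lit 2) (nat_lit 5) (nat_lit 4) (nat_lit 4) (nat_lit 2) (nat_lit 4) (nat_lit 292) (nat_lit 224) (nat_lit 204)) (XT.lf (nat_lit 0) (nat_lit 4595774062) (nat_lit 76) (nat_lit 41643517453) (nat_lit 76) (nat_lit 35568548736) (nat_lit 1) (nat_lit 4) (nat_lit 2) (nat_lit 5) (nat_lit 2) (nat_lit 4) (nat_lit 293) (nat_lit 224) (nat_lit 203))))))))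
noncomputable def xc20 : XT := (XT.nd (nat_lit 1482) (nat_lit 0) (nat_lit 0) (XT.nd (nat_lit 702) (nat_lit 0) (nat_lit 0) (XT.nd (nat_lit 312) (nat_lit 0) (nat_lit 0) (XT.nd (nat_lit 156) (nat_lit 0) (nat_lit 0) (XT.nd (nat_lit 78) (nat_lit 0) (nat_lit 0) (XT.lf (nat_lit 0) (nat_lit 11564533259) (nat_lit 76) (nat_lit 41394643182) (nat_lit 76) (nat_lit 35208118632) (nat_lit 1) (nat_lit 4) (nat_lit 2) (nat_lit 5) (nat_lit 2) (nat_lit 4) (nat_lit 294) (nat_lit 224) (nat_lit 202)) (XT.lf (nat_lit 0) (nat_lit 18955483876) (nat_lit 76) (nat_lit 41186817530) (nat_lit 76) (nat_lit 34897000541) (nat_lit 1) (nat_lit 4) (nat_lit 2) (nat_lit 5) (nat_lit 2) (nat_lit 4) (nat_lit 295) (nat_lit 224) (nat_lit 201))) (XT.nd (nat_lit 78) (nat_lit 0) (nat_lit 0) (XT.lf (nat_lit 0) (nat_lit 26812424137) (nat_lit 76) (nat_lit 41018808936) (nat_lit 76) (nat_lit 34633350800) (nat_lit 1) (nat_lit 4) (nat_lit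 2) (nat_lit 5) (nat_lit 2) (nat_lit 4) (nat_lit 296) (nat_lit 224) (nat_lit 200)) (XT.lf (nat_lit 0) (nat_lit 35181913689) (nat_lit 76) (nat_lit 40889621795) (nat_lit 76) (nat_lit 34415607042) (nat_lit 1) (nat_lit 4) (nat_lit 2) (nat_lit 5) (nat_lit 2) (nat_lit 4) (nat_lit 297) (nat_lit 224) (nat_lit 199)))) (XT.nd (nat_lit 156) (nat_lit 0) (nat_lit 0) (XT.nd (nat_lit 78) (nat_lit 0) (nat_lit 0) (XT.lf (nat_lit 0) (nat_lit 44113549507) (nat_lit 76) (nat_lit 40798490553) (nat_lit 76) (nat_lit 34242478932) (nat_lit 1) (nat_lit 4) (nat_lit 2) (nat_lit 5) (nat_lit 2) (nat_lit 4) (nat_lit 298) (nat_lit 224) (nat_lit 198)) (XT.lf (nat_lit 0) (nat_lit 53660259802) (nat_lit 76) (nat_lit 40744875172) (nat_lit 76) (nat_lit 34112940525) (nat_lit 1) (nat_lit 4) (nat_lit 2) (nat_lit 5) (nat_lit 2) (nat_lit 4) (nat_lit 299) (nat_lit 224) (nat_lit 197))) (XT.nd (nat_lit 78) (nat_lit 0) (nat_lit 0)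 (XT.lf (nat_lit 0) (nat_lit 63878617674) (nat_lit 76) (nat_lit 40728457933) (nat_lit 76) (nat_lit 34026224188) (nat_lit 1) (nat_lit 4) (nat_lit 2) (nat_lit 5) (nat_lit 2) (nat_lit 4) (nat_lit 300) (nat_lit 224) (nat_lit 196)) (XT.nd (nat_lit 78) (nat_lit 0) (nat_lit 0) (XT.lf (nat_lit 0) (nat_lit 74829176354) (nat_lit 76) (nat_lit 40749141548) (nat_lit 76) (nat_lit 33981816046) (nat_lit 1) (nat_lit 4) (nat_lit 2) (nat_lit 5) (nat_lit 2) (nat_lit 4) (nat_lit 301) (nat_lit 224) (nat_lit 195)) (XT.lf (nat_lit 0) (nat_lit 86576828040) (nat_lit 76) (nat_lit 40807048586) (nat_lit 76) (nat_lit 33979452938) (nat_lit 1) (nat_lit 4) (nat_lit 2) (nat_lit 5) (nat_lit 2) (nat_lit 4) (nat_lit 302) (nat_lit 224) (nat_lit 194)))))) (XT.nd (nat_lit 390) (nat_lit 0) (nat_lit 0) (XT.nd (nat_lit 156) (nat_lit 0) (nat_lit 0) (XT.nd (nat_lit 78) (nat_lit 0) (nat_lit 0) (XT.lf (nat_lit 0) (nat_lit 99191188449)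 (nat_lit 76) (nat_lit 40902522200) (nat_lit 76) (nat_lit 34019120862) (nat_lit 1) (nat_lit 4) (nat_lit 2) (nat_lit 5) (nat_lit 2) (nat_lit 4) (nat_lit 303) (nat_lit 224) (nat_lit 193)) (XT.lf (nat_lit 0) (nat_lit 112747009343) (nat_lit 76) (nat_lit 41036128160) (nat_lit 76) (nat_lit 34101054886) (nat_lit 1) (nat_lit 4) (nat_lit 2) (nat_lit 5) (nat_lit 2) (nat_lit 4) (nat_lit 304) (nat_lit 224) (nat_lit 192))) (XT.nd (nat_lit 78) (nat_lit 0) (nat_lit 0) (XT.lf (nat_lit 0) (nat_lit 127324621515) (nat_lit 76) (nat_lit 41208658205) (nat_lit 76) (nat_lit 34225740546) (nat_lit 1) (nat_lit 4) (nat_lit 2) (nat_lit 5) (nat_lit 2) (nat_lit 4) (nat_lit 305) (nat_lit 224) (nat_lit 191)) (XT.nd (nat_lit 78) (nat_lit 0) (nat_lit 0) (XT.lf (nat_lit 0) (nat_lit 143010410813) (nat_lit 76) (nat_lit 41421134735) (nat_lit 76) (nat_lit 34393916719) (nat_lit 1) (nat_lit 4) (nat_lit 2) (nat_lit 5) (nat_lit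 2) (nat_lit 4) (nat_lit 306) (nat_lit 224) (nat_lit 190)) (XT.lf (nat_lit 0) (nat_lit 159897330064) (nat_lit 76) (nat_lit 41674816870) (nat_lit 76) (nat_lit 34606580006) (nat_lit 1) (nat_lit 4) (nat_lit 2) (nat_lit 5) (nat_lit 2) (nat_lit 4) (nat_lit 307) (nat_lit 224) (nat_lit 189))))) (XT.nd (nat_lit 156) (nat_lit 0) (nat_lit 0) (XT.nd (nat_lit 78) (nat_lit 0) (nat_lit 0) (XT.lf (nat_lit 0) (nat_lit 178085449900) (nat_lit 76) (nat_lit 41971207912) (nat_lit 76) (nat_lit 34864990633) (nat_lit 1) (nat_lit 4) (nat_lit 2) (nat_lit 5) (nat_lit 2) (nat_lit 4) (nat_lit 308) (nat_lit 224) (nat_lit 188)) (XT.lf (nat_lit 0) (nat_lit 197682551771) (nat_lit 76) (nat_lit 42312064252) (nat_lit 76) (nat_lit 35170679922) (nat_lit 1) (nat_lit 4) (nat_lit 2) (nat_lit 5) (nat_lit 2) (nat_lit 4) (nat_lit 309) (nat_lit 224) (nat_lit 187))) (XT.nd (nat_lit 78) (nat_lit 0) (nat_lit 0) (XT.lf (nat_lit 0) (nat_lit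 218804766653) (nat_lit 76) (nat_lit 42699405780) (nat_lit 76) (nat_lit 35525459365) (nat_lit 1) (nat_lit 4) (nat_lit 2) (nat_lit 5) (nat_lit 2) (nat_lit 4) (nat_lit 310) (nat_lit 224) (nat_lit 186)) (XT.nd (nat_lit 78) (nat_lit 0) (nat_lit 0) (XT.lf (nat_lit 0) (nat_lit 241577263225) (nat_lit 76) (nat_lit 43135527852) (nat_lit 76) (nat_lit 35931431359) (nat_lit 1) (nat_lit 4) (nat_lit 2) (nat_lit 5) (nat_lit 2) (nat_lit 4) (nat_lit 311) (nat_lit 224) (nat_lit 185)) (XT.lf (nat_lit 0) (nat_lit 266134989616) (nat_lit 76) (nat_lit 43623014897) (nat_lit 76) (nat_lit 36391001665) (nat_lit 1) (nat_lit 4) (nat_lit 2) (nat_lit 5) (nat_lit 2) (nat_lit 4) (nat_lit 312) (nat_lit 224) (nat_lit 184))))))) (XT.nd (nat_lit 702) (nat_lit 0) (nat_lit 0) (XT.nd (nat_lit 312) (nat_lit 0) (nat_lit 0) (XT.nd (nat_lit 156) (nat_lit 0) (nat_lit 0) (XT.nd (nat_lit 78) (nat_lit 0) (nat_lit 0) (XT.lf (nat_lit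 0) (nat_lit 292623473093) (nat_lit 76) (nat_lit 44164755725) (nat_lit 76) (nat_lit 36906893660) (nat_lit 1) (nat_lit 4) (nat_lit 2) (nat_lit 5) (nat_lit 2) (nat_lit 4) (nat_lit 313) (nat_lit 224) (nat_lit 183)) (XT.lf (nat_lit 0) (nat_lit 321199682447) (nat_lit 76) (nat_lit 44763960653) (nat_lit 76) (nat_lit 37482164485) (nat_lit 1) (nat_lit 4) (nat_lit 2) (nat_lit 5) (nat_lit 2) (nat_lit 4) (nat_lit 314) (nat_lit 224) (nat_lit 182))) (XT.nd (nat_lit 78) (nat_lit 0) (nat_lit 0) (XT.lf (nat_lit 0) (nat_lit 352032958178) (nat_lit 76) (nat_lit 45424180526) (nat_lit 76) (nat_lit 38120223149) (nat_lit 1) (nat_lit 4) (nat_lit 2) (nat_lit 5) (nat_lit 2) (nat_lit 4) (nat_lit 315) (nat_lit 224) (nat_lit 181)) (XT.lf (nat_lit 0) (nat_lit 385306015993) (nat_lit 76) (nat_lit 46149327756) (nat_lit 76) (nat_lit 38824850743) (nat_lit 1) (nat_lit 4) (nat_lit 2) (nat_lit 5) (nat_lit 2) (nat_lit 4) (nat_lit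 316) (nat_lit 224) (nat_lit 180)))) (XT.nd (nat_lit 156) (nat_lit 0) (nat_lit 0) (XT.nd (nat_lit 78) (nat_lit 0) (nat_lit 0) (XT.lf (nat_lit 0) (nat_lit 421216029570) (nat_lit 76) (nat_lit 46943699513) (nat_lit 76) (nat_lit 39600222837) (nat_lit 1) (nat_lit 4) (nat_lit 2) (nat_lit 5) (nat_lit 2) (nat_lit 4) (nat_lit 317) (nat_lit 224) (nat_lit 179)) (XT.lf (nat_lit 0) (nat_lit 459975798988) (nat_lit 76) (nat_lit 47812003186) (nat_lit 76) (nat_lit 40450934228) (nat_lit 1) (nat_lit 4) (nat_lit 2) (nat_lit 5) (nat_lit 2) (nat_lit 4) (nat_lit 318) (nat_lit 224) (nat_lit 178))) (XT.nd (nat_lit 78) (nat_lit 0) (nat_lit 0) (XT.lf (nat_lit 0) (nat_lit 501815011769) (nat_lit 76) (nat_lit 48759384276) (nat_lit 76) (nat_lit 41382026170) (nat_lit 1) (nat_lit 4) (nat_lit 2) (nat_lit 5) (nat_lit 2) (nat_lit 4) (nat_lit 319) (nat_lit 224) (nat_lit 177)) (XT.nd (nat_lit 78) (nat_lit 0) (nat_lit 0) (XT.lf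 (nat_lit 0) (nat_lit 546981603991) (nat_lit 76) (nat_lit 49791456895) (nat_lit 76) (nat_lit 42399016243) (nat_lit 1) (nat_lit 4) (nat_lit 2) (nat_lit 5) (nat_lit 2) (nat_lit 4) (nat_lit 320) (nat_lit 224) (nat_lit 176)) (XT.lf (nat_lit 0) (nat_lit 595743229531) (nat_lit 76) (nat_lit 50914337029) (nat_lit 76) (nat_lit 43507931057) (nat_lit 1) (nat_lit 4) (nat_lit 2) (nat_lit 5) (nat_lit 2) (nat_lit 4) (nat_lit 321) (nat_lit 224) (nat_lit 175)))))) (XT.nd (nat_lit 33462) (nat_lit 0) (nat_lit 532) (XT.nd (nat_lit 156) (nat_lit 0) (nat_lit 0) (XT.nd (nat_lit 78) (nat_lit 0) (nat_lit 0) (XT.lf (nat_lit 0) (nat_lit 648388846172) (nat_lit 76) (nat_lit 52134678781) (nat_lit 76) (nat_lit 44715341957) (nat_lit 1) (nat_lit 4) (nat_lit 2) (nat_lit 5) (nat_lit 2) (nat_lit 4) (nat_lit 322) (nat_lit 224) (nat_lit 174)) (XT.lf (nat_lit 0) (nat_lit 705230427938) (nat_lit 76) (nat_lit 53459713807) (nat_lit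 76) (nat_lit 46028403972) (nat_lit 1) (nat_lit 4) (nat_lit 2) (nat_lit 5) (nat_lit 2) (nat_lit 4) (nat_lit 323) (nat_lit 224) (nat_lit 173))) (XT.nd (nat_lit 78) (nat_lit 0) (nat_lit 0) (XT.lf (nat_lit 0) (nat_lit 766604813831) (nat_lit 76) (nat_lit 54897294166) (nat_lit 76) (nat_lit 47454898210) (nat_lit 1) (nat_lit 4) (nat_lit 2) (nat_lit 5) (nat_lit 2) (nat_lit 4) (nat_lit 324) (nat_lit 224) (nat_lit 172)) (XT.nd (nat_lit 78) (nat_lit 0) (nat_lit 0) (XT.lf (nat_lit 0) (nat_lit 832875703918) (nat_lit 76) (nat_lit 56455938852) (nat_lit 76) (nat_lit 49003277970) (nat_lit 1) (nat_lit 4) (nat_lit 2) (nat_lit 5) (nat_lit 2) (nat_lit 4) (nat_lit 325) (nat_lit 224) (nat_lit 171)) (XT.lf (nat_lit 0) (nat_lit 904435814582) (nat_lit 76) (nat_lit 58144884280) (nat_lit 76) (nat_lit 50682718835) (nat_lit 1) (nat_lit 4) (nat_lit 2) (nat_lit 5) (nat_lit 2) (nat_lit 4) (nat_lit 326) (nat_lit 224)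 (nat_lit 170))))) (XT.nd (nat_lit 156) (nat_lit 152) (nat_lit 0) (XT.nd (nat_lit 78) (nat_lit 152) (nat_lit 0) (XT.lf (nat_lit 0) (nat_lit 3131316933) (nat_lit 152) (nat_lit 2111975490) (nat_lit 0) (nat_lit 3131316933) (nat_lit 12) (nat_lit 5) (nat_lit 14) (nat_lit 4) (nat_lit 12) (nat_lit 4) (nat_lit 270) (nat_lit 225) (nat_lit 225)) (XT.lf (nat_lit 0) (nat_lit 6229964131) (nat_lit 152) (nat_lit 6117050557) (nat_lit 152) (nat_lit 5414976696) (nat_lit 10) (nat_lit 4) (nat_lit 12) (nat_lit 5) (nat_lit 12) (nat_lit 4) (nat_lit 271) (nat_lit 225) (nat_lit 224))) (XT.nd (nat_lit 78) (nat_lit 152) (nat_lit 0) (XT.lf (nat_lit 0) (nat_lit 17137489991) (nat_lit 152) (nat_lit 1541445176) (nat_lit 152) (nat_lit 189302927) (nat_lit 10) (nat_lit 4) (nat_lit 12) (nat_lit 5) (nat_lit 12) (nat_lit 4) (nat_lit 272) (nat_lit 225) (nat_lit 223)) (XT.nd (nat_lit 78) (nat_lit 0) (nat_lit 0) (XT.lf (nat_lit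 0) (nat_lit 5171750798) (nat_lit 152) (nat_lit 11582070576) (nat_lit 0) (nat_lit 3310743727) (nat_lit 8) (nat_lit 5) (nat_lit 10) (nat_lit 4) (nat_lit 8) (nat_lit 4) (nat_lit 273) (nat_lit 225) (nat_lit 222)) (XT.lf (nat_lit 0) (nat_lit 10728128646) (nat_lit 152) (nat_lit 2303730145) (nat_lit 0) (nat_lit 8336332178) (nat_lit 8) (nat_lit 5) (nat_lit 10) (nat_lit 4) (nat_lit 8) (nat_lit 4) (nat_lit 274) (nat_lit 225) (nat_lit 221))))))))
noncomputable def xc21 : XT := (XT.nd (nat_lit 1482) (nat_lit 0) (nat_lit 0) (XT.nd (nat_lit 702) (nat_lit 228) (nat_lit 0) (XT.nd (nat_lit 312) (nat_lit 76) (nat_lit 0) (XT.nd (nat_lit 156) (nat_lit 152) (nat_lit 0) (XT.nd (nat_lit 78) (nat_lit 0) (nat_lit 0) (XT.lf (nat_lit 0) (nat_lit 7499919455) (nat_lit 76) (nat_lit 9083552282) (nat_lit 76) (nat_lit 6200284151) (nat_lit 7) (nat_lit 4) (nat_lit 8) (nat_lit 5) (nat_lit 8) (nat_lit 4) (nat_lit 275) (nat_lit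 225) (nat_lit 220)) (XT.lf (nat_lit 0) (nat_lit 17732984923) (nat_lit 76) (nat_lit 4964376890) (nat_lit 76) (nat_lit 1626042404) (nat_lit 7) (nat_lit 4) (nat_lit 8) (nat_lit 5) (nat_lit 8) (nat_lit 4) (nat_lit 276) (nat_lit 225) (nat_lit 219))) (XT.nd (nat_lit 78) (nat_lit 0) (nat_lit 0) (XT.lf (nat_lit 0) (nat_lit 2411042609) (nat_lit 76) (nat_lit 599071942) (nat_lit 152) (nat_lit 22983723786) (nat_lit 5) (nat_lit 5) (nat_lit 6) (nat_lit 5) (nat_lit 7) (nat_lit 4) (nat_lit 277) (nat_lit 225) (nat_lit 218)) (XT.lf (nat_lit 0) (nat_lit 7914921737) (nat_lit 152) (nat_lit 15921502544) (nat_lit 0) (nat_lit 3962694810) (nat_lit 5) (nat_lit 5) (nat_lit 7) (nat_lit 4) (nat_lit 5) (nat_lit 4) (nat_lit 278) (nat_lit 225) (nat_lit 217)))) (XT.nd (nat_lit 156) (nat_lit 0) (nat_lit 0) (XT.nd (nat_lit 78) (nat_lit 76) (nat_lit 0) (XT.lf (nat_lit 0) (nat_lit 13012055694) (nat_lit 152) (nat_lit 8031245095)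 (nat_lit 0) (nat_lit 8715784629) (nat_lit 5) (nat_lit 5) (nat_lit 7) (nat_lit 4) (nat_lit 5) (nat_lit 4) (nat_lit 279) (nat_lit 225) (nat_lit 216)) (XT.lf (nat_lit 0) (nat_lit 148851055) (nat_lit 76) (nat_lit 18175841395) (nat_lit 76) (nat_lit 13561010944) (nat_lit 4) (nat_lit 4) (nat_lit 5) (nat_lit 5) (nat_lit 5) (nat_lit 4) (nat_lit 280) (nat_lit 225) (nat_lit 215))) (XT.nd (nat_lit 78) (nat_lit 0) (nat_lit 0) (XT.lf (nat_lit 0) (nat_lit 8939045097) (nat_lit 76) (nat_lit 15077847028) (nat_lit 76) (nat_lit 10168054182) (nat_lit 4) (nat_lit 4) (nat_lit 5) (nat_lit 5) (nat_lit 5) (nat_lit 4) (nat_lit 281) (nat_lit 225) (nat_lit 214)) (XT.nd (nat_lit 78) (nat_lit 0) (nat_lit 0) (XT.lf (nat_lit 0) (nat_lit 18125877837) (nat_lit 76) (nat_lit 11866972225) (nat_lit 76) (nat_lit 6684066051) (nat_lit 4) (nat_lit 4) (nat_lit 5) (nat_lit 5) (nat_lit 5) (nat_lit 4) (nat_lit 282) (nat_lit 225)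 (nat_lit 213)) (XT.lf (nat_lit 0) (nat_lit 27763789765) (nat_lit 76) (nat_lit 8524189580) (nat_lit 76) (nat_lit 3088400694) (nat_lit 4) (nat_lit 4) (nat_lit 5) (nat_lit 5) (nat_lit 5) (nat_lit 4) (nat_lit 283) (nat_lit 225) (nat_lit 212)))))) (XT.nd (nat_lit 390) (nat_lit 76) (nat_lit 0) (XT.nd (nat_lit 156) (nat_lit 0) (nat_lit 0) (XT.nd (nat_lit 78) (nat_lit 76) (nat_lit 0) (XT.lf (nat_lit 0) (nat_lit 619757550) (nat_lit 152) (nat_lit 4399436565) (nat_lit 76) (nat_lit 37279640988) (nat_lit 3) (nat_lit 5) (nat_lit 5) (nat_lit 5) (nat_lit 4) (nat_lit 4) (nat_lit 284) (nat_lit 225) (nat_lit 211)) (XT.lf (nat_lit 0) (nat_lit 3192771587) (nat_lit 76) (nat_lit 1236261240) (nat_lit 152) (nat_lit 41028045101) (nat_lit 2) (nat_lit 5) (nat_lit 3) (nat_lit 5) (nat_lit 4) (nat_lit 4) (nat_lit 285) (nat_lit 225) (nat_lit 210))) (XT.nd (nat_lit 78) (nat_lit 0) (nat_lit 0) (XT.lf (nat_lit 0) (nat_lit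 8531719582) (nat_lit 152) (nat_lit 37602863731) (nat_lit 0) (nat_lit 2734108001) (nat_lit 2) (nat_lit 5) (nat_lit 4) (nat_lit 4) (nat_lit 2) (nat_lit 4) (nat_lit 286) (nat_lit 225) (nat_lit 209)) (XT.nd (nat_lit 78) (nat_lit 0) (nat_lit 0) (XT.lf (nat_lit 0) (nat_lit 12859663319) (nat_lit 152) (nat_lit 32813825594) (nat_lit 0) (nat_lit 6885026650) (nat_lit 2) (nat_lit 5) (nat_lit 4) (nat_lit 4) (nat_lit 2) (nat_lit 4) (nat_lit 287) (nat_lit 225) (nat_lit 208)) (XT.lf (nat_lit 0) (nat_lit 17419209611) (nat_lit 152) (nat_lit 27849510941) (nat_lit 0) (nat_lit 11280660824) (nat_lit 2) (nat_lit 5) (nat_lit 4) (nat_lit 4) (nat_lit 2) (nat_lit 4) (nat_lit 288) (nat_lit 225) (nat_lit 207))))) (XT.nd (nat_lit 156) (nat_lit 76) (nat_lit 0) (XT.nd (nat_lit 78) (nat_lit 0) (nat_lit 0) (XT.lf (nat_lit 0) (nat_lit 22237377992) (nat_lit 152) (nat_lit 22680501612) (nat_lit 0) (nat_lit 15947058725) (nat_lit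 2) (nat_lit 5) (nat_lit 4) (nat_lit 4) (nat_lit 2) (nat_lit 4) (nat_lit 289) (nat_lit 225) (nat_lit 206)) (XT.lf (nat_lit 0) (nat_lit 27342720571) (nat_lit 152) (nat_lit 17276166440) (nat_lit 0) (nat_lit 20911873081) (nat_lit 2) (nat_lit 5) (nat_lit 4) (nat_lit 4) (nat_lit 2) (nat_lit 4) (nat_lit 290) (nat_lit 225) (nat_lit 205))) (XT.nd (nat_lit 78) (nat_lit 76) (nat_lit 0) (XT.lf (nat_lit 0) (nat_lit 32765491229) (nat_lit 152) (nat_lit 11604479737) (nat_lit 0) (nat_lit 26204525015) (nat_lit 2) (nat_lit 5) (nat_lit 4) (nat_lit 4) (nat_lit 2) (nat_lit 4) (nat_lit 291) (nat_lit 225) (nat_lit 204)) (XT.nd (nat_lit 78) (nat_lit 76) (nat_lit 0) (XT.lf (nat_lit 0) (nat_lit 38537824904) (nat_lit 152) (nat_lit 5631831505) (nat_lit 0) (nat_lit 31856378389) (nat_lit 2) (nat_lit 5) (nat_lit 4) (nat_lit 4) (nat_lit 2) (nat_lit 4) (nat_lit 292) (nat_lit 225) (nat_lit 203)) (XT.lf (nat_lit 0) (nat_lit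 699562079) (nat_lit 76) (nat_lit 44005288061) (nat_lit 76) (nat_lit 37212285713) (nat_lit 1) (nat_lit 4) (nat_lit 2) (nat_lit 5) (nat_lit 2) (nat_lit 4) (nat_lit 293) (nat_lit 225) (nat_lit 202))))))) (XT.nd (nat_lit 780) (nat_lit 0) (nat_lit 0) (XT.nd (nat_lit 390) (nat_lit 0) (nat_lit 0) (XT.nd (nat_lit 156) (nat_lit 0) (nat_lit 0) (XT.nd (nat_lit 78) (nat_lit 0) (nat_lit 0) (XT.lf (nat_lit 0) (nat_lit 7603268721) (nat_lit 76) (nat_lit 43785720791) (nat_lit 76) (nat_lit 36889426004) (nat_lit 1) (nat_lit 4) (nat_lit 2) (nat_lit 5) (nat_lit 2) (nat_lit 4) (nat_lit 294) (nat_lit 225) (nat_lit 201)) (XT.lf (nat_lit 0) (nat_lit 14933985489) (nat_lit 76) (nat_lit 43605031249) (nat_lit 76) (nat_lit 36613095316) (nat_lit 1) (nat_lit 4) (nat_lit 2) (nat_lit 5) (nat_lit 2) (nat_lit 4) (nat_lit 295) (nat_lit 225) (nat_lit 200))) (XT.nd (nat_lit 78) (nat_lit 0) (nat_lit 0) (XT.lf (nat_lit 0) (nat_lit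 22735153669) (nat_lit 76) (nat_lit 43462148684) (nat_lit 76) (nat_lit 36381656134) (nat_lit 1) (nat_lit 4) (nat_lit 2) (nat_lit 5) (nat_lit 2) (nat_lit 4) (nat_lit 296) (nat_lit 225) (nat_lit 199)) (XT.nd (nat_lit 78) (nat_lit 0) (nat_lit 0) (XT.lf (nat_lit 0) (nat_lit 31053002404) (nat_lit 76) (nat_lit 43356226385) (nat_lit 76) (nat_lit 36193736966) (nat_lit 1) (nat_lit 4) (nat_lit 2) (nat_lit 5) (nat_lit 2) (nat_lit 4) (nat_lit 297) (nat_lit 225) (nat_lit 198)) (XT.lf (nat_lit 0) (nat_lit 39936822651) (nat_lit 76) (nat_lit 43286636662) (nat_lit 76) (nat_lit 36048224218) (nat_lit 1) (nat_lit 4) (nat_lit 2) (nat_lit 5) (nat_lit 2) (nat_lit 4) (nat_lit 298) (nat_lit 225) (nat_lit 197))))) (XT.nd (nat_lit 156) (nat_lit 0) (nat_lit 0) (XT.nd (nat_lit 78) (nat_lit 0) (nat_lit 0) (XT.lf (nat_lit 0) (nat_lit 49439259270) (nat_lit 76) (nat_lit 43252967134) (nat_lit 76) (nat_lit 35944255591)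 (nat_lit 1) (nat_lit 4) (nat_lit 2) (nat_lit 5) (nat_lit 2) (nat_lit 4) (nat_lit 299) (nat_lit 225) (nat_lit 196)) (XT.lf (nat_lit 0) (nat_lit 59616622996) (nat_lit 76) (nat_lit 43255018276) (nat_lit 76) (nat_lit 35881214976) (nat_lit 1) (nat_lit 4) (nat_lit 2) (nat_lit 5) (nat_lit 2) (nat_lit 4) (nat_lit 300) (nat_lit 225) (nat_lit 195))) (XT.nd (nat_lit 78) (nat_lit 0) (nat_lit 0) (XT.lf (nat_lit 0) (nat_lit 70529224134) (nat_lit 76) (nat_lit 43292802243) (nat_lit 76) (nat_lit 35858728798) (nat_lit 1) (nat_lit 4) (nat_lit 2) (nat_lit 5) (nat_lit 2) (nat_lit 4) (nat_lit 301) (nat_lit 225) (nat_lit 194)) (XT.nd (nat_lit 78) (nat_lit 0) (nat_lit 0) (XT.lf (nat_lit 0) (nat_lit 82241729949) (nat_lit 76) (nat_lit 43366542942) (nat_lit 76) (nat_lit 35876663805) (nat_lit 1) (nat_lit 4) (nat_lit 2) (nat_lit 5) (nat_lit 2) (nat_lit 4) (nat_lit 302) (nat_lit 225) (nat_lit 193)) (XT.lf (nat_lit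 0) (nat_lit 94823547883) (nat_lit 76) (nat_lit 43476677352) (nat_lit 76) (nat_lit 35935126281) (nat_lit 1) (nat_lit 4) (nat_lit 2) (nat_lit 5) (nat_lit 2) (nat_lit 4) (nat_lit 303) (nat_lit 225) (nat_lit 192)))))) (XT.nd (nat_lit 390) (nat_lit 0) (nat_lit 0) (XT.nd (nat_lit 156) (nat_lit 0) (nat_lit 0) (XT.nd (nat_lit 78) (nat_lit 0) (nat_lit 0) (XT.lf (nat_lit 0) (nat_lit 108349236857) (nat_lit 76) (nat_lit 43623858124) (nat_lit 76) (nat_lit 36034462667) (nat_lit 1) (nat_lit 4) (nat_lit 2) (nat_lit 5) (nat_lit 2) (nat_lit 4) (nat_lit 304) (nat_lit 225) (nat_lit 191)) (XT.lf (nat_lit 0) (nat_lit 122898949102) (nat_lit 76) (nat_lit 43808957439) (nat_lit 76) (nat_lit 36175261626) (nat_lit 1) (nat_lit 4) (nat_lit 2) (nat_lit 5) (nat_lit 2) (nat_lit 4) (nat_lit 305) (nat_lit 225) (nat_lit 190))) (XT.nd (nat_lit 78) (nat_lit 0) (nat_lit 0) (XT.lf (nat_lit 0) (nat_lit 138558905135) (nat_lit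 76) (nat_lit 44033072182) (nat_lit 76) (nat_lit 36358357520) (nat_lit 1) (nat_lit 4) (nat_lit 2) (nat_lit 5) (nat_lit 2) (nat_lit 4) (nat_lit 306) (nat_lit 225) (nat_lit 189)) (XT.nd (nat_lit 78) (nat_lit 0) (nat_lit 0) (XT.lf (nat_lit 0) (nat_lit 155421904696) (nat_lit 76) (nat_lit 44297530440) (nat_lit 76) (nat_lit 36584835363) (nat_lit 1) (nat_lit 4) (nat_lit 2) (nat_lit 5) (nat_lit 2) (nat_lit 4) (nat_lit 307) (nat_lit 225) (nat_lit 188)) (XT.lf (nat_lit 0) (nat_lit 173587876671) (nat_lit 76) (nat_lit 44603899374) (nat_lit 76) (nat_lit 36856037245) (nat_lit 1) (nat_lit 4) (nat_lit 2) (nat_lit 5) (nat_lit 2) (nat_lit 4) (nat_lit 308) (nat_lit 225) (nat_lit 187))))) (XT.nd (nat_lit 156) (nat_lit 0) (nat_lit 0) (XT.nd (nat_lit 78) (nat_lit 0) (nat_lit 0) (XT.lf (nat_lit 0) (nat_lit 193164471264) (nat_lit 76) (nat_lit 44953994502) (nat_lit 76) (nat_lit 37173570290) (nat_lit 1) (nat_lit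 4) (nat_lit 2) (nat_lit 5) (nat_lit 2) (nat_lit 4) (nat_lit 309) (nat_lit 225) (nat_lit 186)) (XT.lf (nat_lit 0) (nat_lit 214267697924) (nat_lit 76) (nat_lit 45349890464) (nat_lit 76) (nat_lit 37539316173) (nat_lit 1) (nat_lit 4) (nat_lit 2) (nat_lit 5) (nat_lit 2) (nat_lit 4) (nat_lit 310) (nat_lit 225) (nat_lit 185))) (XT.nd (nat_lit 78) (nat_lit 0) (nat_lit 0) (XT.lf (nat_lit 0) (nat_lit 237022612811) (nat_lit 76) (nat_lit 45793933309) (nat_lit 76) (nat_lit 37955442279) (nat_lit 1) (nat_lit 4) (nat_lit 2) (nat_lit 5) (nat_lit 2) (nat_lit 4) (nat_lit 311) (nat_lit 225) (nat_lit 184)) (XT.nd (nat_lit 78) (nat_lit 0) (nat_lit 0) (XT.lf (nat_lit 0) (nat_lit 261564059862) (nat_lit 76) (nat_lit 46288754401) (nat_lit 76) (nat_lit 38424414539) (nat_lit 1) (nat_lit 4) (nat_lit 2) (nat_lit 5) (nat_lit 2) (nat_lit 4) (nat_lit 312) (nat_lit 225) (nat_lit 183)) (XT.lf (nat_lit 0) (nat_lit 288037469877)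 (nat_lit 76) (nat_lit 46837286015) (nat_lit 76) (nat_lit 38949012049) (nat_lit 1) (nat_lit 4) (nat_lit 2) (nat_lit 5) (nat_lit 2) (nat_lit 4) (nat_lit 313) (nat_lit 225) (nat_lit 182))))))))
noncomputable def xc22 : XT := (XT.nd (nat_lit 34398) (nat_lit 0) (nat_lit 76) (XT.nd (nat_lit 702) (nat_lit 0) (nat_lit 0) (XT.nd (nat_lit 312) (nat_lit 0) (nat_lit 0) (XT.nd (nat_lit 156) (nat_lit 0) (nat_lit 0) (XT.nd (nat_lit 78) (nat_lit 0) (nat_lit 0) (XT.lf (nat_lit 0) (nat_lit 316599722322) (nat_lit 76) (nat_lit 47442778708) (nat_lit 76) (nat_lit 39532343534) (nat_lit 1) (nat_lit 4) (nat_lit 2) (nat_lit 5) (nat_lit 2) (nat_lit 4) (nat_lit 314) (nat_lit 225) (nat_lit 181)) (XT.lf (nat_lit 0) (nat_lit 347420074988) (nat_lit 76) (nat_lit 48108820584) (nat_lit 76) (nat_lit 40177865773) (nat_lit 1) (nat_lit 4) (nat_lit 2) (nat_lit 5) (nat_lit 2) (nat_lit 4) (nat_lit 315) (nat_lit 225) (nat_lit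 180))) (XT.nd (nat_lit 78) (nat_lit 0) (nat_lit 0) (XT.lf (nat_lit 0) (nat_lit 380681167004) (nat_lit 76) (nat_lit 48839358559) (nat_lit 76) (nat_lit 40889404085) (nat_lit 1) (nat_lit 4) (nat_lit 2) (nat_lit 5) (nat_lit 2) (nat_lit 4) (nat_lit 316) (nat_lit 225) (nat_lit 179)) (XT.lf (nat_lit 0) (nat_lit 416580101136) (nat_lit 76) (nat_lit 49638721746) (nat_lit 76) (nat_lit 41671174991) (nat_lit 1) (nat_lit 4) (nat_lit 2) (nat_lit 5) (nat_lit 2) (nat_lit 4) (nat_lit 317) (nat_lit 225) (nat_lit 178)))) (XT.nd (nat_lit 156) (nat_lit 0) (nat_lit 0) (XT.nd (nat_lit 78) (nat_lit 0) (nat_lit 0) (XT.lf (nat_lit 0) (nat_lit 455329611808) (nat_lit 76) (nat_lit 50511647113) (nat_lit 76) (nat_lit 42527811209) (nat_lit 1) (nat_lit 4) (nat_lit 2) (nat_lit 5) (nat_lit 2) (nat_lit 4) (nat_lit 318) (nat_lit 225) (nat_lit 177)) (XT.lf (nat_lit 0) (nat_lit 497159325752) (nat_lit 76) (nat_lit 51463307550)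 (nat_lit 76) (nat_lit 43464389100) (nat_lit 1) (nat_lit 4) (nat_lit 2) (nat_lit 5) (nat_lit 2) (nat_lit 4) (nat_lit 319) (nat_lit 225) (nat_lit 176))) (XT.nd (nat_lit 78) (nat_lit 0) (nat_lit 0) (XT.lf (nat_lit 0) (nat_lit 542317122753) (nat_lit 76) (nat_lit 52499342527) (nat_lit 76) (nat_lit 44486458758) (nat_lit 1) (nat_lit 4) (nat_lit 2) (nat_lit 5) (nat_lit 2) (nat_lit 4) (nat_lit 320) (nat_lit 225) (nat_lit 175)) (XT.nd (nat_lit 78) (nat_lit 0) (nat_lit 0) (XT.lf (nat_lit 0) (nat_lit 591070604571) (nat_lit 76) (nat_lit 53625891511) (nat_lit 76) (nat_lit 45600076889) (nat_lit 1) (nat_lit 4) (nat_lit 2) (nat_lit 5) (nat_lit 2) (nat_lit 4) (nat_lit 321) (nat_lit 225) (nat_lit 174)) (XT.lf (nat_lit 0) (nat_lit 643708680728) (nat_lit 76) (nat_lit 54849630346) (nat_lit 76) (nat_lit 46811842714) (nat_lit 1) (nat_lit 4) (nat_lit 2) (nat_lit 5) (nat_lit 2) (nat_lit 4) (nat_lit 322) (nat_lit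 225) (nat_lit 173)))))) (XT.nd (nat_lit 33306) (nat_lit 0) (nat_lit 532) (XT.nd (nat_lit 156) (nat_lit 0) (nat_lit 0) (XT.nd (nat_lit 78) (nat_lit 0) (nat_lit 0) (XT.lf (nat_lit 0) (nat_lit 700543280564) (nat_lit 76) (nat_lit 56177810820) (nat_lit 76) (nat_lit 48128937066) (nat_lit 1) (nat_lit 4) (nat_lit 2) (nat_lit 5) (nat_lit 2) (nat_lit 4) (nat_lit 323) (nat_lit 225) (nat_lit 172)) (XT.lf (nat_lit 0) (nat_lit 761911201708) (nat_lit 76) (nat_lit 57618303630) (nat_lit 76) (nat_lit 49559164950) (nat_lit 1) (nat_lit 4) (nat_lit 2) (nat_lit 5) (nat_lit 2) (nat_lit 4) (nat_lit 324) (nat_lit 225) (nat_lit 171))) (XT.nd (nat_lit 78) (nat_lit 0) (nat_lit 0) (XT.lf (nat_lit 0) (nat_lit 828176105915) (nat_lit 76) (nat_lit 59179645031) (nat_lit 76) (nat_lit 51111001789) (nat_lit 1) (nat_lit 4) (nat_lit 2) (nat_lit 5) (nat_lit 2) (nat_lit 4) (nat_lit 325) (nat_lit 225) (nat_lit 170)) (XT.nd (nat_lit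 32994) (nat_lit 0) (nat_lit 988) (XT.lf (nat_lit 0) (nat_lit 899730674099) (nat_lit 76) (nat_lit 60871087416) (nat_lit 76) (nat_lit 52793643654) (nat_lit 1) (nat_lit 4) (nat_lit 2) (nat_lit 5) (nat_lit 2) (nat_lit 4) (nat_lit 326) (nat_lit 225) (nat_lit 169)) (XT.lf (nat_lit 0) (nat_lit 3150321506) (nat_lit 152) (nat_lit 2164607460) (nat_lit 152) (nat_lit 2164607460) (nat_lit 14) (nat_lit 4) (nat_lit 16) (nat_lit 5) (nat_lit 16) (nat_lit 4) (nat_lit 268) (nat_lit 226) (nat_lit 226))))) (XT.nd (nat_lit 156) (nat_lit 304) (nat_lit 0) (XT.nd (nat_lit 78) (nat_lit 0) (nat_lit 0) (XT.lf (nat_lit 0) (nat_lit 1172790635) (nat_lit 152) (nat_lit 14235336283) (nat_lit 0) (nat_lit 414550865) (nat_lit 12) (nat_lit 5) (nat_lit 14) (nat_lit 4) (nat_lit 12) (nat_lit 4) (nat_lit 269) (nat_lit 226) (nat_lit 225)) (XT.lf (nat_lit 0) (nat_lit 6862789011) (nat_lit 152) (nat_lit 4492113852) (nat_lit 0) (nat_lit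 5402475381) (nat_lit 12) (nat_lit 5) (nat_lit 14) (nat_lit 4) (nat_lit 12) (nat_lit 4) (nat_lit 270) (nat_lit 226) (nat_lit 224))) (XT.nd (nat_lit 78) (nat_lit 152) (nat_lit 0) (XT.lf (nat_lit 0) (nat_lit 5696425743) (nat_lit 152) (nat_lit 7096039406) (nat_lit 152) (nat_lit 4985657387) (nat_lit 10) (nat_lit 4) (nat_lit 12) (nat_lit 5) (nat_lit 12) (nat_lit 4) (nat_lit 271) (nat_lit 226) (nat_lit 223)) (XT.nd (nat_lit 78) (nat_lit 76) (nat_lit 0) (XT.lf (nat_lit 0) (nat_lit 90599604) (nat_lit 228) (nat_lit 2526568005) (nat_lit 76) (nat_lit 16274309466) (nat_lit 9) (nat_lit 5) (nat_lit 12) (nat_lit 5) (nat_lit 10) (nat_lit 4) (nat_lit 272) (nat_lit 226) (nat_lit 222)) (XT.lf (nat_lit 0) (nat_lit 5279382547) (nat_lit 152) (nat_lit 12651324401) (nat_lit 0) (nat_lit 2165452966) (nat_lit 8) (nat_lit 5) (nat_lit 10) (nat_lit 4) (nat_lit 8) (nat_lit 4) (nat_lit 273) (nat_lit 226) (nat_lit 221)))))))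 (XT.nd (nat_lit 780) (nat_lit 152) (nat_lit 0) (XT.nd (nat_lit 390) (nat_lit 76) (nat_lit 0) (XT.nd (nat_lit 156) (nat_lit 152) (nat_lit 0) (XT.nd (nat_lit 78) (nat_lit 76) (nat_lit 0) (XT.lf (nat_lit 0) (nat_lit 10709491286) (nat_lit 152) (nat_lit 3592696626) (nat_lit 0) (nat_lit 7104090042) (nat_lit 8) (nat_lit 5) (nat_lit 10) (nat_lit 4) (nat_lit 8) (nat_lit 4) (nat_lit 274) (nat_lit 226) (nat_lit 220)) (XT.lf (nat_lit 0) (nat_lit 5958169709) (nat_lit 76) (nat_lit 10465677792) (nat_lit 76) (nat_lit 6405210193) (nat_lit 7) (nat_lit 4) (nat_lit 8) (nat_lit 5) (nat_lit 8) (nat_lit 4) (nat_lit 275) (nat_lit 226) (nat_lit 219))) (XT.nd (nat_lit 78) (nat_lit 152) (nat_lit 0) (XT.lf (nat_lit 0) (nat_lit 15996638685) (nat_lit 76) (nat_lit 6429805288) (nat_lit 76) (nat_lit 1947979953) (nat_lit 7) (nat_lit 4) (nat_lit 8) (nat_lit 5) (nat_lit 8) (nat_lit 4) (nat_lit 276) (nat_lit 226) (nat_lit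 218)) (XT.nd (nat_lit 78) (nat_lit 0) (nat_lit 0) (XT.lf (nat_lit 0) (nat_lit 379909321) (nat_lit 76) (nat_lit 2181983706) (nat_lit 152) (nat_lit 23490180850) (nat_lit 5) (nat_lit 5) (nat_lit 6) (nat_lit 5) (nat_lit 7) (nat_lit 4) (nat_lit 277) (nat_lit 226) (nat_lit 217)) (XT.lf (nat_lit 0) (nat_lit 7340948424) (nat_lit 152) (nat_lit 18165887367) (nat_lit 0) (nat_lit 2356931537) (nat_lit 5) (nat_lit 5) (nat_lit 7) (nat_lit 4) (nat_lit 5) (nat_lit 4) (nat_lit 278) (nat_lit 226) (nat_lit 216))))) (XT.nd (nat_lit 156) (nat_lit 76) (nat_lit 0) (XT.nd (nat_lit 78) (nat_lit 0) (nat_lit 0) (XT.lf (nat_lit 0) (nat_lit 12344528583) (nat_lit 152) (nat_lit 10442046292) (nat_lit 0) (nat_lit 7041952310) (nat_lit 5) (nat_lit 5) (nat_lit 7) (nat_lit 4) (nat_lit 5) (nat_lit 4) (nat_lit 279) (nat_lit 226) (nat_lit 215)) (XT.lf (nat_lit 0) (nat_lit 17568217471) (nat_lit 152) (nat_lit 2420803540) (nat_lit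 0) (nat_lit 11970678803) (nat_lit 5) (nat_lit 5) (nat_lit 7) (nat_lit 4) (nat_lit 5) (nat_lit 4) (nat_lit 280) (nat_lit 226) (nat_lit 214))) (XT.nd (nat_lit 78) (nat_lit 0) (nat_lit 0) (XT.lf (nat_lit 0) (nat_lit 6141955099) (nat_lit 76) (nat_lit 16996908312) (nat_lit 76) (nat_lit 11126256316) (nat_lit 4) (nat_lit 4) (nat_lit 5) (nat_lit 5) (nat_lit 5) (nat_lit 4) (nat_lit 281) (nat_lit 226) (nat_lit 213)) (XT.nd (nat_lit 78) (nat_lit 0) (nat_lit 0) (XT.lf (nat_lit 0) (nat_lit 15192313113) (nat_lit 76) (nat_lit 13846111462) (nat_lit 76) (nat_lit 7722576754) (nat_lit 4) (nat_lit 4) (nat_lit 5) (nat_lit 5) (nat_lit 5) (nat_lit 4) (nat_lit 282) (nat_lit 226) (nat_lit 212)) (XT.lf (nat_lit 0) (nat_lit 24703859553) (nat_lit 76) (nat_lit 10558956551) (nat_lit 76) (nat_lit 4201271184) (nat_lit 4) (nat_lit 4) (nat_lit 5) (nat_lit 5) (nat_lit 5) (nat_lit 4) (nat_lit 283) (nat_lit 226) (nat_lit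 211)))))) (XT.nd (nat_lit 390) (nat_lit 0) (nat_lit 0) (XT.nd (nat_lit 156) (nat_lit 76) (nat_lit 0) (XT.nd (nat_lit 78) (nat_lit 76) (nat_lit 0) (XT.lf (nat_lit 0) (nat_lit 34732959139) (nat_lit 76) (nat_lit 7115964143) (nat_lit 76) (nat_lit 541472610) (nat_lit 4) (nat_lit 4) (nat_lit 5) (nat_lit 5) (nat_lit 5) (nat_lit 4) (nat_lit 284) (nat_lit 226) (nat_lit 210)) (XT.lf (nat_lit 0) (nat_lit 3173573975) (nat_lit 152) (nat_lit 269411333) (nat_lit 76) (nat_lit 42111723587) (nat_lit 3) (nat_lit 5) (nat_lit 5) (nat_lit 5) (nat_lit 4) (nat_lit 4) (nat_lit 285) (nat_lit 226) (nat_lit 209))) (XT.nd (nat_lit 78) (nat_lit 0) (nat_lit 0) (XT.lf (nat_lit 0) (nat_lit 7177870051) (nat_lit 152) (nat_lit 41245198775) (nat_lit 0) (nat_lit 548237360) (nat_lit 2) (nat_lit 5) (nat_lit 4) (nat_lit 4) (nat_lit 2) (nat_lit 4) (nat_lit 286) (nat_lit 226) (nat_lit 208)) (XT.nd (nat_lit 78) (nat_lit 0) (nat_lit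 0) (XT.lf (nat_lit 0) (nat_lit 11450701796) (nat_lit 152) (nat_lit 36556086857) (nat_lit 0) (nat_lit 4657156987) (nat_lit 2) (nat_lit 5) (nat_lit 4) (nat_lit 4) (nat_lit 2) (nat_lit 4) (nat_lit 287) (nat_lit 226) (nat_lit 207)) (XT.lf (nat_lit 0) (nat_lit 15959218466) (nat_lit 152) (nat_lit 31684296481) (nat_lit 0) (nat_lit 9013903177) (nat_lit 2) (nat_lit 5) (nat_lit 4) (nat_lit 4) (nat_lit 2) (nat_lit 4) (nat_lit 288) (nat_lit 226) (nat_lit 206))))) (XT.nd (nat_lit 156) (nat_lit 0) (nat_lit 0) (XT.nd (nat_lit 78) (nat_lit 0) (nat_lit 0) (XT.lf (nat_lit 0) (nat_lit 20730137196) (nat_lit 152) (nat_lit 26600957779) (nat_lit 0) (nat_lit 13644293685) (nat_lit 2) (nat_lit 5) (nat_lit 4) (nat_lit 4) (nat_lit 2) (nat_lit 4) (nat_lit 289) (nat_lit 226) (nat_lit 205)) (XT.lf (nat_lit 0) (nat_lit 25791730098) (nat_lit 152) (nat_lit 21275947262) (nat_lit 0) (nat_lit 18575767863) (nat_lit 2) (nat_lit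 5) (nat_lit 4) (nat_lit 4) (nat_lit 2) (nat_lit 4) (nat_lit 290) (nat_lit 226) (nat_lit 204))) (XT.nd (nat_lit 78) (nat_lit 0) (nat_lit 0) (XT.lf (nat_lit 0) (nat_lit 31173991797) (nat_lit 152) (nat_lit 15677709312) (nat_lit 0) (nat_lit 23837549261) (nat_lit 2) (nat_lit 5) (nat_lit 4) (nat_lit 4) (nat_lit 2) (nat_lit 4) (nat_lit 291) (nat_lit 226) (nat_lit 203)) (XT.nd (nat_lit 78) (nat_lit 0) (nat_lit 0) (XT.lf (nat_lit 0) (nat_lit 36908817176) (nat_lit 152) (nat_lit 9773069186) (nat_lit 0) (nat_lit 29460818806) (nat_lit 2) (nat_lit 5) (nat_lit 4) (nat_lit 4) (nat_lit 2) (nat_lit 4) (nat_lit 292) (nat_lit 226) (nat_lit 202)) (XT.lf (nat_lit 0) (nat_lit 43030190385) (nat_lit 152) (nat_lit 3527036424) (nat_lit 0) (nat_lit 35478899577) (nat_lit 2) (nat_lit 5) (nat_lit 4) (nat_lit 4) (nat_lit 2) (nat_lit 4) (nat_lit 293) (nat_lit 226) (nat_lit 201))))))))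
noncomputable def xc23 : XT := (XT.nd (nat_lit 1482) (nat_lit 0) (nat_lit 0) (XT.nd (nat_lit 702) (nat_lit 0) (nat_lit 0) (XT.nd (nat_lit 312) (nat_lit 0) (nat_lit 0) (XT.nd (nat_lit 156) (nat_lit 0) (nat_lit 0) (XT.nd (nat_lit 78) (nat_lit 0) (nat_lit 0) (XT.lf (nat_lit 0) (nat_lit 3199816615) (nat_lit 76) (nat_lit 46424527719) (nat_lit 76) (nat_lit 38777595764) (nat_lit 1) (nat_lit 4) (nat_lit 2) (nat_lit 5) (nat_lit 2) (nat_lit 4) (nat_lit 294) (nat_lit 226) (nat_lit 200)) (XT.lf (nat_lit 0) (nat_lit 10474761301) (nat_lit 76) (nat_lit 46268964206) (nat_lit 76) (nat_lit 38533475634) (nat_lit 1) (nat_lit 4) (nat_lit 2) (nat_lit 5) (nat_lit 2) (nat_lit 4) (nat_lit 295) (nat_lit 226) (nat_lit 199))) (XT.nd (nat_lit 78) (nat_lit 0) (nat_lit 0) (XT.lf (nat_lit 0) (nat_lit 18224288664) (nat_lit 76) (nat_lit 46149346483) (nat_lit 76) (nat_lit 38331861043) (nat_lit 1) (nat_lit 4) (nat_lit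 2) (nat_lit 5) (nat_lit 2) (nat_lit 4) (nat_lit 296) (nat_lit 226) (nat_lit 198)) (XT.lf (nat_lit 0) (nat_lit 26494321829) (nat_lit 76) (nat_lit 46064965703) (nat_lit 76) (nat_lit 38171557237) (nat_lit 1) (nat_lit 4) (nat_lit 2) (nat_lit 5) (nat_lit 2) (nat_lit 4) (nat_lit 297) (nat_lit 226) (nat_lit 197)))) (XT.nd (nat_lit 156) (nat_lit 0) (nat_lit 0) (XT.nd (nat_lit 78) (nat_lit 0) (nat_lit 0) (XT.lf (nat_lit 0) (nat_lit 35333868399) (nat_lit 76) (nat_lit 46015321832) (nat_lit 76) (nat_lit 38051614268) (nat_lit 1) (nat_lit 4) (nat_lit 2) (nat_lit 5) (nat_lit 2) (nat_lit 4) (nat_lit 298) (nat_lit 226) (nat_lit 196)) (XT.lf (nat_lit 0) (nat_lit 44795310872) (nat_lit 76) (nat_lit 46000120685) (nat_lit 76) (nat_lit 37971321364) (nat_lit 1) (nat_lit 4) (nat_lit 2) (nat_lit 5) (nat_lit 2) (nat_lit 4) (nat_lit 299) (nat_lit 226) (nat_lit 195))) (XT.nd (nat_lit 78) (nat_lit 0) (nat_lit 0)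 (XT.lf (nat_lit 0) (nat_lit 54934717057) (nat_lit 76) (nat_lit 46019272180) (nat_lit 76) (nat_lit 37930202713) (nat_lit 1) (nat_lit 4) (nat_lit 2) (nat_lit 5) (nat_lit 2) (nat_lit 4) (nat_lit 300) (nat_lit 226) (nat_lit 194)) (XT.nd (nat_lit 78) (nat_lit 0) (nat_lit 0) (XT.lf (nat_lit 0) (nat_lit 65812172323) (nat_lit 76) (nat_lit 46072889808) (nat_lit 76) (nat_lit 37928014650) (nat_lit 1) (nat_lit 4) (nat_lit 2) (nat_lit 5) (nat_lit 2) (nat_lit 4) (nat_lit 301) (nat_lit 226) (nat_lit 193)) (XT.lf (nat_lit 0) (nat_lit 77492135663) (nat_lit 76) (nat_lit 46161291303) (nat_lit 76) (nat_lit 37964744209) (nat_lit 1) (nat_lit 4) (nat_lit 2) (nat_lit 5) (nat_lit 2) (nat_lit 4) (nat_lit 302) (nat_lit 226) (nat_lit 192)))))) (XT.nd (nat_lit 390) (nat_lit 0) (nat_lit 0) (XT.nd (nat_lit 156) (nat_lit 0) (nat_lit 0) (XT.nd (nat_lit 78) (nat_lit 0) (nat_lit 0) (XT.lf (nat_lit 0) (nat_lit 90043821677)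 (nat_lit 76) (nat_lit 46285000525) (nat_lit 76) (nat_lit 38040609047) (nat_lit 1) (nat_lit 4) (nat_lit 2) (nat_lit 5) (nat_lit 2) (nat_lit 4) (nat_lit 303) (nat_lit 226) (nat_lit 191)) (XT.lf (nat_lit 0) (nat_lit 103541610725) (nat_lit 76) (nat_lit 46444750566) (nat_lit 76) (nat_lit 38156058732) (nat_lit 1) (nat_lit 4) (nat_lit 2) (nat_lit 5) (nat_lit 2) (nat_lit 4) (nat_lit 304) (nat_lit 226) (nat_lit 190))) (XT.nd (nat_lit 78) (nat_lit 0) (nat_lit 0) (XT.lf (nat_lit 0) (nat_lit 118065489705) (nat_lit 76) (nat_lit 46641488094) (nat_lit 76) (nat_lit 38311777411) (nat_lit 1) (nat_lit 4) (nat_lit 2) (nat_lit 5) (nat_lit 2) (nat_lit 4) (nat_lit 305) (nat_lit 226) (nat_lit 189)) (XT.nd (nat_lit 78) (nat_lit 0) (nat_lit 0) (XT.lf (nat_lit 0) (nat_lit 133701526048) (nat_lit 76) (nat_lit 46876378960) (nat_lit 76) (nat_lit 38508687862) (nat_lit 1) (nat_lit 4) (nat_lit 2) (nat_lit 5) (nat_lit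 2) (nat_lit 4) (nat_lit 306) (nat_lit 226) (nat_lit 188)) (XT.lf (nat_lit 0) (nat_lit 150542377748) (nat_lit 76) (nat_lit 47150815110) (nat_lit 76) (nat_lit 38747956960) (nat_lit 1) (nat_lit 4) (nat_lit 2) (nat_lit 5) (nat_lit 2) (nat_lit 4) (nat_lit 307) (nat_lit 226) (nat_lit 187))))) (XT.nd (nat_lit 156) (nat_lit 0) (nat_lit 0) (XT.nd (nat_lit 78) (nat_lit 0) (nat_lit 0) (XT.lf (nat_lit 0) (nat_lit 168687842444) (nat_lit 76) (nat_lit 47466422832) (nat_lit 76) (nat_lit 39031002598) (nat_lit 1) (nat_lit 4) (nat_lit 2) (nat_lit 5) (nat_lit 2) (nat_lit 4) (nat_lit 308) (nat_lit 226) (nat_lit 186)) (XT.lf (nat_lit 0) (nat_lit 188245448816) (nat_lit 76) (nat_lit 47825072395) (nat_lit 76) (nat_lit 39359502083) (nat_lit 1) (nat_lit 4) (nat_lit 2) (nat_lit 5) (nat_lit 2) (nat_lit 4) (nat_lit 309) (nat_lit 226) (nat_lit 185))) (XT.nd (nat_lit 78) (nat_lit 0) (nat_lit 0) (XT.lf (nat_lit 0) (nat_lit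 209331093790) (nat_lit 76) (nat_lit 48228889129) (nat_lit 76) (nat_lit 39735402078) (nat_lit 1) (nat_lit 4) (nat_lit 2) (nat_lit 5) (nat_lit 2) (nat_lit 4) (nat_lit 310) (nat_lit 226) (nat_lit 184)) (XT.nd (nat_lit 78) (nat_lit 0) (nat_lit 0) (XT.lf (nat_lit 0) (nat_lit 232069729337) (nat_lit 76) (nat_lit 48680266022) (nat_lit 76) (nat_lit 40160930138) (nat_lit 1) (nat_lit 4) (nat_lit 2) (nat_lit 5) (nat_lit 2) (nat_lit 4) (nat_lit 311) (nat_lit 226) (nat_lit 183)) (XT.lf (nat_lit 0) (nat_lit 256596102927) (nat_lit 76) (nat_lit 49181877900) (nat_lit 76) (nat_lit 40638607912) (nat_lit 1) (nat_lit 4) (nat_lit 2) (nat_lit 5) (nat_lit 2) (nat_lit 4) (nat_lit 312) (nat_lit 226) (nat_lit 182))))))) (XT.nd (nat_lit 780) (nat_lit 0) (nat_lit 0) (XT.nd (nat_lit 390) (nat_lit 0) (nat_lit 0) (XT.nd (nat_lit 156) (nat_lit 0) (nat_lit 0) (XT.nd (nat_lit 78) (nat_lit 0) (nat_lit 0) (XT.lf (nat_lit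 0) (nat_lit 283055556032) (nat_lit 76) (nat_lit 49736697278) (nat_lit 76) (nat_lit 41171266082) (nat_lit 1) (nat_lit 4) (nat_lit 2) (nat_lit 5) (nat_lit 2) (nat_lit 4) (nat_lit 313) (nat_lit 226) (nat_lit 181)) (XT.lf (nat_lit 0) (nat_lit 311604885413) (nat_lit 76) (nat_lit 50348011974) (nat_lit 76) (nat_lit 41762061142) (nat_lit 1) (nat_lit 4) (nat_lit 2) (nat_lit 5) (nat_lit 2) (nat_lit 4) (nat_lit 314) (nat_lit 226) (nat_lit 180))) (XT.nd (nat_lit 78) (nat_lit 0) (nat_lit 0) (XT.lf (nat_lit 0) (nat_lit 342413272279) (nat_lit 76) (nat_lit 51019444595) (nat_lit 76) (nat_lit 42414494100) (nat_lit 1) (nat_lit 4) (nat_lit 2) (nat_lit 5) (nat_lit 2) (nat_lit 4) (nat_lit 315) (nat_lit 226) (nat_lit 179)) (XT.nd (nat_lit 78) (nat_lit 0) (nat_lit 0) (XT.lf (nat_lit 0) (nat_lit 375663284850) (nat_lit 76) (nat_lit 51754974000) (nat_lit 76) (nat_lit 43132431223) (nat_lit 1) (nat_lit 4) (nat_lit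 2) (nat_lit 5) (nat_lit 2) (nat_lit 4) (nat_lit 316) (nat_lit 226) (nat_lit 178)) (XT.lf (nat_lit 0) (nat_lit 411551960237) (nat_lit 76) (nat_lit 52558958882) (nat_lit 76) (nat_lit 43920126956) (nat_lit 1) (nat_lit 4) (nat_lit 2) (nat_lit 5) (nat_lit 2) (nat_lit 4) (nat_lit 317) (nat_lit 226) (nat_lit 177))))) (XT.nd (nat_lit 156) (nat_lit 0) (nat_lit 0) (XT.nd (nat_lit 78) (nat_lit 0) (nat_lit 0) (XT.lf (nat_lit 0) (nat_lit 450291972072) (nat_lit 76) (nat_lit 53436163595) (nat_lit 76) (nat_lit 44782249124) (nat_lit 1) (nat_lit 4) (nat_lit 2) (nat_lit 5) (nat_lit 2) (nat_lit 4) (nat_lit 318) (nat_lit 226) (nat_lit 176)) (XT.lf (nat_lit 0) (nat_lit 492112890795) (nat_lit 76) (nat_lit 54391786391) (nat_lit 76) (nat_lit 45723906600) (nat_lit 1) (nat_lit 4) (nat_lit 2) (nat_lit 5) (nat_lit 2) (nat_lit 4) (nat_lit 319) (nat_lit 226) (nat_lit 175))) (XT.nd (nat_lit 78) (nat_lit 0) (nat_lit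 0) (XT.lf (nat_lit 0) (nat_lit 537262544073) (nat_lit 76) (nat_lit 55431490218) (nat_lit 76) (nat_lit 46750679575) (nat_lit 1) (nat_lit 4) (nat_lit 2) (nat_lit 5) (nat_lit 2) (nat_lit 4) (nat_lit 320) (nat_lit 226) (nat_lit 174)) (XT.nd (nat_lit 78) (nat_lit 0) (nat_lit 0) (XT.lf (nat_lit 0) (nat_lit 586008485407) (nat_lit 76) (nat_lit 56561436285) (nat_lit 76) (nat_lit 47868652631) (nat_lit 1) (nat_lit 4) (nat_lit 2) (nat_lit 5) (nat_lit 2) (nat_lit 4) (nat_lit 321) (nat_lit 226) (nat_lit 173)) (XT.lf (nat_lit 0) (nat_lit 638639579635) (nat_lit 76) (nat_lit 57788320568) (nat_lit 76) (nat_lit 49084450793) (nat_lit 1) (nat_lit 4) (nat_lit 2) (nat_lit 5) (nat_lit 2) (nat_lit 4) (nat_lit 322) (nat_lit 226) (nat_lit 172)))))) (XT.nd (nat_lit 33150) (nat_lit 0) (nat_lit 684) (XT.nd (nat_lit 156) (nat_lit 0) (nat_lit 0) (XT.nd (nat_lit 78) (nat_lit 0) (nat_lit 0) (XT.lf (nat_lit 0) (nat_lit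 695467714722) (nat_lit 76) (nat_lit 59119413493) (nat_lit 76) (nat_lit 50405278791) (nat_lit 1) (nat_lit 4) (nat_lit 2) (nat_lit 5) (nat_lit 2) (nat_lit 4) (nat_lit 323) (nat_lit 226) (nat_lit 171)) (XT.lf (nat_lit 0) (nat_lit 756829649987) (nat_lit 76) (nat_lit 60562603018) (nat_lit 76) (nat_lit 51838963754) (nat_lit 1) (nat_lit 4) (nat_lit 2) (nat_lit 5) (nat_lit 2) (nat_lit 4) (nat_lit 324) (nat_lit 226) (nat_lit 170))) (XT.nd (nat_lit 78) (nat_lit 0) (nat_lit 0) (XT.lf (nat_lit 0) (nat_lit 823089011713) (nat_lit 76) (nat_lit 62126441376) (nat_lit 76) (nat_lit 53394001592) (nat_lit 1) (nat_lit 4) (nat_lit 2) (nat_lit 5) (nat_lit 2) (nat_lit 4) (nat_lit 325) (nat_lit 226) (nat_lit 169)) (XT.nd (nat_lit 32838) (nat_lit 0) (nat_lit 1292) (XT.lf (nat_lit 0) (nat_lit 894638447970) (nat_lit 76) (nat_lit 63820195760) (nat_lit 76) (nat_lit 55079607345) (nat_lit 1) (nat_lit 4) (nat_lit 2)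 (nat_lit 5) (nat_lit 2) (nat_lit 4) (nat_lit 326) (nat_lit 226) (nat_lit 168)) (XT.lf (nat_lit 0) (nat_lit 6318813558) (nat_lit 152) (nat_lit 200895995) (nat_lit 152) (nat_lit 200895995) (nat_lit 18) (nat_lit 4) (nat_lit 20) (nat_lit 5) (nat_lit 20) (nat_lit 4) (nat_lit 266) (nat_lit 227) (nat_lit 227))))) (XT.nd (nat_lit 156) (nat_lit 304) (nat_lit 0) (XT.nd (nat_lit 78) (nat_lit 152) (nat_lit 0) (XT.lf (nat_lit 0) (nat_lit 5346301418) (nat_lit 152) (nat_lit 4336988334) (nat_lit 0) (nat_lit 4486457519) (nat_lit 16) (nat_lit 5) (nat_lit 18) (nat_lit 4) (nat_lit 16) (nat_lit 4) (nat_lit 267) (nat_lit 227) (nat_lit 226)) (XT.lf (nat_lit 0) (nat_lit 6032738662) (nat_lit 152) (nat_lit 5295350008) (nat_lit 152) (nat_lit 3639354351) (nat_lit 14) (nat_lit 4) (nat_lit 16) (nat_lit 5) (nat_lit 16) (nat_lit 4) (nat_lit 268) (nat_lit 227) (nat_lit 225))) (XT.nd (nat_lit 78) (nat_lit 152) (nat_lit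 0) (XT.lf (nat_lit 0) (nat_lit 1036096552) (nat_lit 76) (nat_lit 636717965) (nat_lit 152) (nat_lit 14166338042) (nat_lit 12) (nat_lit 5) (nat_lit 13) (nat_lit 5) (nat_lit 14) (nat_lit 4) (nat_lit 269) (nat_lit 227) (nat_lit 224)) (XT.nd (nat_lit 78) (nat_lit 152) (nat_lit 0) (XT.lf (nat_lit 0) (nat_lit 7206497289) (nat_lit 152) (nat_lit 5298191581) (nat_lit 0) (nat_lit 4277216319) (nat_lit 12) (nat_lit 5) (nat_lit 14) (nat_lit 4) (nat_lit 12) (nat_lit 4) (nat_lit 270) (nat_lit 227) (nat_lit 223)) (XT.lf (nat_lit 0) (nat_lit 4626187259) (nat_lit 152) (nat_lit 8357744661) (nat_lit 152) (nat_lit 4826548515) (nat_lit 10) (nat_lit 4) (nat_lit 12) (nat_lit 5) (nat_lit 12) (nat_lit 4) (nat_lit 271) (nat_lit 227) (nat_lit 222))))))))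
noncomputable def xc24 : XT := (XT.nd (nat_lit 1482) (nat_lit 76) (nat_lit 0) (XT.nd (nat_lit 702) (nat_lit 228) (nat_lit 0) (XT.nd (nat_lit 312) (nat_lit 152) (nat_lit 0) (XT.nd (nat_lit 156) (nat_lit 76) (nat_lit 0) (XT.nd (nat_lit 78) (nat_lit 76) (nat_lit 0) (XT.lf (nat_lit 0) (nat_lit 113380115) (nat_lit 228) (nat_lit 3856095774) (nat_lit 76) (nat_lit 14960989686) (nat_lit 9) (nat_lit 5) (nat_lit 12) (nat_lit 5) (nat_lit 10) (nat_lit 4) (nat_lit 272) (nat_lit 227) (nat_lit 221)) (XT.lf (nat_lit 0) (nat_lit 5132985090) (nat_lit 152) (nat_lit 14263120857) (nat_lit 0) (nat_lit 747680083) (nat_lit 8) (nat_lit 5) (nat_lit 10) (nat_lit 4) (nat_lit 8) (nat_lit 4) (nat_lit 273) (nat_lit 227) (nat_lit 220))) (XT.nd (nat_lit 78) (nat_lit 76) (nat_lit 0) (XT.lf (nat_lit 0) (nat_lit 10446177988) (nat_lit 152) (nat_lit 5407930727) (nat_lit 0) (nat_lit 5605806626) (nat_lit 8) (nat_lit 5) (nat_lit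 10) (nat_lit 4) (nat_lit 8) (nat_lit 4) (nat_lit 274) (nat_lit 227) (nat_lit 219)) (XT.lf (nat_lit 0) (nat_lit 3888319278) (nat_lit 76) (nat_lit 12131643350) (nat_lit 76) (nat_lit 6869914252) (nat_lit 7) (nat_lit 4) (nat_lit 8) (nat_lit 5) (nat_lit 8) (nat_lit 4) (nat_lit 275) (nat_lit 227) (nat_lit 218)))) (XT.nd (nat_lit 156) (nat_lit 76) (nat_lit 0) (XT.nd (nat_lit 78) (nat_lit 76) (nat_lit 0) (XT.lf (nat_lit 0) (nat_lit 13746606317) (nat_lit 76) (nat_lit 8172903149) (nat_lit 76) (nat_lit 2521027999) (nat_lit 7) (nat_lit 4) (nat_lit 8) (nat_lit 5) (nat_lit 8) (nat_lit 4) (nat_lit 276) (nat_lit 227) (nat_lit 217)) (XT.lf (nat_lit 0) (nat_lit 1904146961) (nat_lit 152) (nat_lit 2109620223) (nat_lit 76) (nat_lit 22110144641) (nat_lit 6) (nat_lit 5) (nat_lit 8) (nat_lit 5) (nat_lit 7) (nat_lit 4) (nat_lit 277) (nat_lit 227) (nat_lit 216))) (XT.nd (nat_lit 78) (nat_lit 0) (nat_lit 0) (XT.lf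 (nat_lit 0) (nat_lit 6526465347) (nat_lit 152) (nat_lit 20935969034) (nat_lit 0) (nat_lit 481123585) (nat_lit 5) (nat_lit 5) (nat_lit 7) (nat_lit 4) (nat_lit 5) (nat_lit 4) (nat_lit 278) (nat_lit 227) (nat_lit 215)) (XT.nd (nat_lit 78) (nat_lit 0) (nat_lit 0) (XT.lf (nat_lit 0) (nat_lit 11443421619) (nat_lit 152) (nat_lit 13366217194) (nat_lit 0) (nat_lit 5103117463) (nat_lit 5) (nat_lit 5) (nat_lit 7) (nat_lit 4) (nat_lit 5) (nat_lit 4) (nat_lit 279) (nat_lit 227) (nat_lit 214)) (XT.lf (nat_lit 0) (nat_lit 16586903205) (nat_lit 152) (nat_lit 5487649659) (nat_lit 0) (nat_lit 9973485719) (nat_lit 5) (nat_lit 5) (nat_lit 7) (nat_lit 4) (nat_lit 5) (nat_lit 4) (nat_lit 280) (nat_lit 227) (nat_lit 213)))))) (XT.nd (nat_lit 390) (nat_lit 76) (nat_lit 0) (XT.nd (nat_lit 156) (nat_lit 76) (nat_lit 0) (XT.nd (nat_lit 78) (nat_lit 0) (nat_lit 0) (XT.lf (nat_lit 0) (nat_lit 2837230470) (nat_lit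 76) (nat_lit 19194456642) (nat_lit 76) (nat_lit 12328156445) (nat_lit 4) (nat_lit 4) (nat_lit 5) (nat_lit 5) (nat_lit 5) (nat_lit 4) (nat_lit 281) (nat_lit 227) (nat_lit 212)) (XT.lf (nat_lit 0) (nat_lit 11761222996) (nat_lit 76) (nat_lit 16099287526) (nat_lit 76) (nat_lit 8998836670) (nat_lit 4) (nat_lit 4) (nat_lit 5) (nat_lit 5) (nat_lit 5) (nat_lit 4) (nat_lit 282) (nat_lit 227) (nat_lit 211))) (XT.nd (nat_lit 78) (nat_lit 76) (nat_lit 0) (XT.lf (nat_lit 0) (nat_lit 21155764355) (nat_lit 76) (nat_lit 12863639776) (nat_lit 76) (nat_lit 5546382755) (nat_lit 4) (nat_lit 4) (nat_lit 5) (nat_lit 5) (nat_lit 5) (nat_lit 4) (nat_lit 283) (nat_lit 227) (nat_lit 210)) (XT.nd (nat_lit 78) (nat_lit 76) (nat_lit 0) (XT.lf (nat_lit 0) (nat_lit 31076525903) (nat_lit 76) (nat_lit 9468339183) (nat_lit 76) (nat_lit 1950335712) (nat_lit 4) (nat_lit 4) (nat_lit 5) (nat_lit 5) (nat_lit 5) (nat_lit 4)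 (nat_lit 284) (nat_lit 227) (nat_lit 209)) (XT.lf (nat_lit 0) (nat_lit 1752663397) (nat_lit 152) (nat_lit 4110919848) (nat_lit 76) (nat_lit 39799951739) (nat_lit 3) (nat_lit 5) (nat_lit 5) (nat_lit 5) (nat_lit 4) (nat_lit 4) (nat_lit 285) (nat_lit 227) (nat_lit 208))))) (XT.nd (nat_lit 156) (nat_lit 0) (nat_lit 0) (XT.nd (nat_lit 78) (nat_lit 0) (nat_lit 0) (XT.lf (nat_lit 0) (nat_lit 3669043652) (nat_lit 76) (nat_lit 1962678879) (nat_lit 152) (nat_lit 43454731197) (nat_lit 2) (nat_lit 5) (nat_lit 3) (nat_lit 5) (nat_lit 4) (nat_lit 4) (nat_lit 286) (nat_lit 227) (nat_lit 207)) (XT.lf (nat_lit 0) (nat_lit 9822881736) (nat_lit 152) (nat_lit 40790179517) (nat_lit 0) (nat_lit 2170170744) (nat_lit 2) (nat_lit 5) (nat_lit 4) (nat_lit 4) (nat_lit 2) (nat_lit 4) (nat_lit 287) (nat_lit 227) (nat_lit 206))) (XT.nd (nat_lit 78) (nat_lit 0) (nat_lit 0) (XT.lf (nat_lit 0) (nat_lit 14284148755) (nat_lit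 152) (nat_lit 36004059768) (nat_lit 0) (nat_lit 6490909541) (nat_lit 2) (nat_lit 5) (nat_lit 4) (nat_lit 4) (nat_lit 2) (nat_lit 4) (nat_lit 288) (nat_lit 227) (nat_lit 205)) (XT.nd (nat_lit 78) (nat_lit 0) (nat_lit 0) (XT.lf (nat_lit 0) (nat_lit 19011317810) (nat_lit 152) (nat_lit 31000045720) (nat_lit 0) (nat_lit 11087959871) (nat_lit 2) (nat_lit 5) (nat_lit 4) (nat_lit 4) (nat_lit 2) (nat_lit 4) (nat_lit 289) (nat_lit 227) (nat_lit 204)) (XT.lf (nat_lit 0) (nat_lit 24032401752) (nat_lit 152) (nat_lit 25748483958) (nat_lit 0) (nat_lit 15988563513) (nat_lit 2) (nat_lit 5) (nat_lit 4) (nat_lit 4) (nat_lit 2) (nat_lit 4) (nat_lit 290) (nat_lit 227) (nat_lit 203))))))) (XT.nd (nat_lit 702) (nat_lit 0) (nat_lit 0) (XT.nd (nat_lit 312) (nat_lit 76) (nat_lit 0) (XT.nd (nat_lit 156) (nat_lit 0) (nat_lit 0) (XT.nd (nat_lit 78) (nat_lit 0) (nat_lit 0) (XT.lf (nat_lit 0) (nat_lit 29377155155)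 (nat_lit 152) (nat_lit 20218254114) (nat_lit 0) (nat_lit 21221761082) (nat_lit 2) (nat_lit 5) (nat_lit 4) (nat_lit 4) (nat_lit 2) (nat_lit 4) (nat_lit 291) (nat_lit 227) (nat_lit 202)) (XT.lf (nat_lit 0) (nat_lit 35077250630) (nat_lit 152) (nat_lit 14376584456) (nat_lit 0) (nat_lit 26818564119) (nat_lit 2) (nat_lit 5) (nat_lit 4) (nat_lit 4) (nat_lit 2) (nat_lit 4) (nat_lit 292) (nat_lit 227) (nat_lit 201))) (XT.nd (nat_lit 78) (nat_lit 0) (nat_lit 0) (XT.lf (nat_lit 0) (nat_lit 41166466521) (nat_lit 152) (nat_lit 8188857683) (nat_lit 0) (nat_lit 32812138863) (nat_lit 2) (nat_lit 5) (nat_lit 4) (nat_lit 4) (nat_lit 2) (nat_lit 4) (nat_lit 293) (nat_lit 227) (nat_lit 200)) (XT.lf (nat_lit 0) (nat_lit 47680887071) (nat_lit 152) (nat_lit 1618405785) (nat_lit 0) (nat_lit 39238002796) (nat_lit 2) (nat_lit 5) (nat_lit 4) (nat_lit 4) (nat_lit 2) (nat_lit 4) (nat_lit 294) (nat_lit 227) (nat_lit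 199)))) (XT.nd (nat_lit 156) (nat_lit 0) (nat_lit 0) (XT.nd (nat_lit 78) (nat_lit 0) (nat_lit 0) (XT.lf (nat_lit 0) (nat_lit 5551386280) (nat_lit 76) (nat_lit 49194402670) (nat_lit 76) (nat_lit 40669521527) (nat_lit 1) (nat_lit 4) (nat_lit 2) (nat_lit 5) (nat_lit 2) (nat_lit 4) (nat_lit 295) (nat_lit 227) (nat_lit 198)) (XT.lf (nat_lit 0) (nat_lit 13253098072) (nat_lit 76) (nat_lit 49096326467) (nat_lit 76) (nat_lit 40495522298) (nat_lit 1) (nat_lit 4) (nat_lit 2) (nat_lit 5) (nat_lit 2) (nat_lit 4) (nat_lit 296) (nat_lit 227) (nat_lit 197))) (XT.nd (nat_lit 78) (nat_lit 0) (nat_lit 0) (XT.lf (nat_lit 0) (nat_lit 21478857560) (nat_lit 76) (nat_lit 49031891538) (nat_lit 76) (nat_lit 40360788271) (nat_lit 1) (nat_lit 4) (nat_lit 2) (nat_lit 5) (nat_lit 2) (nat_lit 4) (nat_lit 297) (nat_lit 227) (nat_lit 196)) (XT.nd (nat_lit 78) (nat_lit 0) (nat_lit 0) (XT.lf (nat_lit 0) (nat_lit 30277409984)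 (nat_lit 76) (nat_lit 49000716049) (nat_lit 76) (nat_lit 40264521024) (nat_lit 1) (nat_lit 4) (nat_lit 2) (nat_lit 5) (nat_lit 2) (nat_lit 4) (nat_lit 298) (nat_lit 227) (nat_lit 195)) (XT.lf (nat_lit 0) (nat_lit 39700894916) (nat_lit 76) (nat_lit 49002615255) (nat_lit 76) (nat_lit 40206150084) (nat_lit 1) (nat_lit 4) (nat_lit 2) (nat_lit 5) (nat_lit 2) (nat_lit 4) (nat_lit 299) (nat_lit 227) (nat_lit 194)))))) (XT.nd (nat_lit 390) (nat_lit 0) (nat_lit 0) (XT.nd (nat_lit 156) (nat_lit 0) (nat_lit 0) (XT.nd (nat_lit 78) (nat_lit 0) (nat_lit 0) (XT.lf (nat_lit 0) (nat_lit 49805155229) (nat_lit 76) (nat_lit 49037600410) (nat_lit 76) (nat_lit 40185329549) (nat_lit 1) (nat_lit 4) (nat_lit 2) (nat_lit 5) (nat_lit 2) (nat_lit 4) (nat_lit 300) (nat_lit 227) (nat_lit 193)) (XT.lf (nat_lit 0) (nat_lit 60650068021) (nat_lit 76) (nat_lit 49105878834) (nat_lit 76) (nat_lit 40201936038) (nat_lit 1)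 (nat_lit 4) (nat_lit 2) (nat_lit 5) (nat_lit 2) (nat_lit 4) (nat_lit 301) (nat_lit 227) (nat_lit 192))) (XT.nd (nat_lit 78) (nat_lit 0) (nat_lit 0) (XT.lf (nat_lit 0) (nat_lit 72299899441) (nat_lit 76) (nat_lit 49207855140) (nat_lit 76) (nat_lit 40256067959) (nat_lit 1) (nat_lit 4) (nat_lit 2) (nat_lit 5) (nat_lit 2) (nat_lit 4) (nat_lit 302) (nat_lit 227) (nat_lit 191)) (XT.nd (nat_lit 78) (nat_lit 0) (nat_lit 0) (XT.lf (nat_lit 0) (nat_lit 84823685528) (nat_lit 76) (nat_lit 49344133633) (nat_lit 76) (nat_lit 40348046095) (nat_lit 1) (nat_lit 4) (nat_lit 2) (nat_lit 5) (nat_lit 2) (nat_lit 4) (nat_lit 303) (nat_lit 227) (nat_lit 190)) (XT.lf (nat_lit 0) (nat_lit 98295641311) (nat_lit 76) (nat_lit 49515521887) (nat_lit 76) (nat_lit 40478415501) (nat_lit 1) (nat_lit 4) (nat_lit 2) (nat_lit 5) (nat_lit 2) (nat_lit 4) (nat_lit 304) (nat_lit 227) (nat_lit 189))))) (XT.nd (nat_lit 156) (nat_lit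 0) (nat_lit 0) (XT.nd (nat_lit 78) (nat_lit 0) (nat_lit 0) (XT.lf (nat_lit 0) (nat_lit 112795600601) (nat_lit 76) (nat_lit 49723035538) (nat_lit 76) (nat_lit 40647948736) (nat_lit 1) (nat_lit 4) (nat_lit 2) (nat_lit 5) (nat_lit 2) (nat_lit 4) (nat_lit 305) (nat_lit 227) (nat_lit 188)) (XT.lf (nat_lit 0) (nat_lit 128409489083) (nat_lit 76) (nat_lit 49967904296) (nat_lit 76) (nat_lit 40857650443) (nat_lit 1) (nat_lit 4) (nat_lit 2) (nat_lit 5) (nat_lit 2) (nat_lit 4) (nat_lit 306) (nat_lit 227) (nat_lit 187))) (XT.nd (nat_lit 78) (nat_lit 0) (nat_lit 0) (XT.lf (nat_lit 0) (nat_lit 145229833504) (nat_lit 76) (nat_lit 50251579234) (nat_lit 76) (nat_lit 41108763297) (nat_lit 1) (nat_lit 4) (nat_lit 2) (nat_lit 5) (nat_lit 2) (nat_lit 4) (nat_lit 307) (nat_lit 227) (nat_lit 186)) (XT.nd (nat_lit 78) (nat_lit 0) (nat_lit 0) (XT.lf (nat_lit 0) (nat_lit 163356309979) (nat_lit 76) (nat_lit 50575741390)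 (nat_lit 76) (nat_lit 41402775375) (nat_lit 1) (nat_lit 4) (nat_lit 2) (nat_lit 5) (nat_lit 2) (nat_lit 4) (nat_lit 308) (nat_lit 227) (nat_lit 185)) (XT.lf (nat_lit 0) (nat_lit 182896334665) (nat_lit 76) (nat_lit 50942311725) (nat_lit 76) (nat_lit 41741428971) (nat_lit 1) (nat_lit 4) (nat_lit 2) (nat_lit 5) (nat_lit 2) (nat_lit 4) (nat_lit 309) (nat_lit 227) (nat_lit 184))))))))
noncomputable def xc25 : XT := (XT.nd (nat_lit 34086) (nat_lit 0) (nat_lit 152) (XT.nd (nat_lit 702) (nat_lit 0) (nat_lit 0) (XT.nd (nat_lit 312) (nat_lit 0) (nat_lit 0) (XT.nd (nat_lit 156) (nat_lit 0) (nat_lit 0) (XT.nd (nat_lit 78) (nat_lit 0) (nat_lit 0) (XT.lf (nat_lit 0) (nat_lit 203965700300) (nat_lit 76) (nat_lit 51353462507) (nat_lit 76) (nat_lit 42126730920) (nat_lit 1) (nat_lit 4) (nat_lit 2) (nat_lit 5) (nat_lit 2) (nat_lit 4) (nat_lit 310) (nat_lit 227) (nat_lit 183)) (XT.lf (nat_lit 0) (nat_lit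 226689262385) (nat_lit 76) (nat_lit 51811630186) (nat_lit 76) (nat_lit 42560964495) (nat_lit 1) (nat_lit 4) (nat_lit 2) (nat_lit 5) (nat_lit 2) (nat_lit 4) (nat_lit 311) (nat_lit 227) (nat_lit 182))) (XT.nd (nat_lit 78) (nat_lit 0) (nat_lit 0) (XT.lf (nat_lit 0) (nat_lit 251201679065) (nat_lit 76) (nat_lit 52319529828) (nat_lit 76) (nat_lit 43046702929) (nat_lit 1) (nat_lit 4) (nat_lit 2) (nat_lit 5) (nat_lit 2) (nat_lit 4) (nat_lit 312) (nat_lit 227) (nat_lit 181)) (XT.lf (nat_lit 0) (nat_lit 277648209107) (nat_lit 76) (nat_lit 52880171210) (nat_lit 76) (nat_lit 43586824675) (nat_lit 1) (nat_lit 4) (nat_lit 2) (nat_lit 5) (nat_lit 2) (nat_lit 4) (nat_lit 313) (nat_lit 227) (nat_lit 180)))) (XT.nd (nat_lit 156) (nat_lit 0) (nat_lit 0) (XT.nd (nat_lit 78) (nat_lit 0) (nat_lit 0) (XT.lf (nat_lit 0) (nat_lit 306185572687) (nat_lit 76) (nat_lit 53496876651) (nat_lit 76) (nat_lit 44184530452)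 (nat_lit 1) (nat_lit 4) (nat_lit 2) (nat_lit 5) (nat_lit 2) (nat_lit 4) (nat_lit 314) (nat_lit 227) (nat_lit 179)) (XT.lf (nat_lit 0) (nat_lit 336982880109) (nat_lit 76) (nat_lit 54173300702) (nat_lit 76) (nat_lit 44843362222) (nat_lit 1) (nat_lit 4) (nat_lit 2) (nat_lit 5) (nat_lit 2) (nat_lit 4) (nat_lit 315) (nat_lit 227) (nat_lit 178))) (XT.nd (nat_lit 78) (nat_lit 0) (nat_lit 0) (XT.lf (nat_lit 0) (nat_lit 370222633934) (nat_lit 76) (nat_lit 54913451801) (nat_lit 76) (nat_lit 45567224172) (nat_lit 1) (nat_lit 4) (nat_lit 2) (nat_lit 5) (nat_lit 2) (nat_lit 4) (nat_lit 316) (nat_lit 227) (nat_lit 177)) (XT.nd (nat_lit 78) (nat_lit 0) (nat_lit 0) (XT.lf (nat_lit 0) (nat_lit 406101810483) (nat_lit 76) (nat_lit 55721716030) (nat_lit 76) (nat_lit 46360405855) (nat_lit 1) (nat_lit 4) (nat_lit 2) (nat_lit 5) (nat_lit 2) (nat_lit 4) (nat_lit 317) (nat_lit 227) (nat_lit 176)) (XT.lf (nat_lit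 0) (nat_lit 444833027098) (nat_lit 76) (nat_lit 56602883101) (nat_lit 76) (nat_lit 47227607607) (nat_lit 1) (nat_lit 4) (nat_lit 2) (nat_lit 5) (nat_lit 2) (nat_lit 4) (nat_lit 318) (nat_lit 227) (nat_lit 175)))))) (XT.nd (nat_lit 390) (nat_lit 0) (nat_lit 0) (XT.nd (nat_lit 156) (nat_lit 0) (nat_lit 0) (XT.nd (nat_lit 78) (nat_lit 0) (nat_lit 0) (XT.lf (nat_lit 0) (nat_lit 486645802099) (nat_lit 76) (nat_lit 57562174747) (nat_lit 76) (nat_lit 48173968401) (nat_lit 1) (nat_lit 4) (nat_lit 2) (nat_lit 5) (nat_lit 2) (nat_lit 4) (nat_lit 319) (nat_lit 227) (nat_lit 174)) (XT.lf (nat_lit 0) (nat_lit 531787914893) (nat_lit 76) (nat_lit 58605275657) (nat_lit 76) (nat_lit 49205096301) (nat_lit 1) (nat_lit 4) (nat_lit 2) (nat_lit 5) (nat_lit 2) (nat_lit 4) (nat_lit 320) (nat_lit 227) (nat_lit 173))) (XT.nd (nat_lit 78) (nat_lit 0) (nat_lit 0) (XT.lf (nat_lit 0) (nat_lit 580526874298) (nat_lit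 76) (nat_lit 59738367172) (nat_lit 76) (nat_lit 50327101694) (nat_lit 1) (nat_lit 4) (nat_lit 2) (nat_lit 5) (nat_lit 2) (nat_lit 4) (nat_lit 321) (nat_lit 227) (nat_lit 172)) (XT.nd (nat_lit 78) (nat_lit 0) (nat_lit 0) (XT.lf (nat_lit 0) (nat_lit 633151503776) (nat_lit 76) (nat_lit 60968163906) (nat_lit 76) (nat_lit 51546633502) (nat_lit 1) (nat_lit 4) (nat_lit 2) (nat_lit 5) (nat_lit 2) (nat_lit 4) (nat_lit 322) (nat_lit 227) (nat_lit 171)) (XT.lf (nat_lit 0) (nat_lit 689973652983) (nat_lit 76) (nat_lit 62301953546) (nat_lit 76) (nat_lit 52870918579) (nat_lit 1) (nat_lit 4) (nat_lit 2) (nat_lit 5) (nat_lit 2) (nat_lit 4) (nat_lit 323) (nat_lit 227) (nat_lit 170))))) (XT.nd (nat_lit 156) (nat_lit 0) (nat_lit 0) (XT.nd (nat_lit 78) (nat_lit 0) (nat_lit 0) (XT.lf (nat_lit 0) (nat_lit 751330045767) (nat_lit 76) (nat_lit 63747640028) (nat_lit 76) (nat_lit 54307804541) (nat_lit 1) (nat_lit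 4) (nat_lit 2) (nat_lit 5) (nat_lit 2) (nat_lit 4) (nat_lit 324) (nat_lit 227) (nat_lit 169)) (XT.lf (nat_lit 0) (nat_lit 817584275567) (nat_lit 76) (nat_lit 65313790385) (nat_lit 76) (nat_lit 55865806268) (nat_lit 1) (nat_lit 4) (nat_lit 2) (nat_lit 5) (nat_lit 2) (nat_lit 4) (nat_lit 325) (nat_lit 227) (nat_lit 168))) (XT.nd (nat_lit 32682) (nat_lit 0) (nat_lit 1292) (XT.lf (nat_lit 0) (nat_lit 889128960040) (nat_lit 76) (nat_lit 67009685507) (nat_lit 76) (nat_lit 57554156362) (nat_lit 1) (nat_lit 4) (nat_lit 2) (nat_lit 5) (nat_lit 2) (nat_lit 4) (nat_lit 326) (nat_lit 227) (nat_lit 167)) (XT.nd (nat_lit 78) (nat_lit 152) (nat_lit 0) (XT.lf (nat_lit 0) (nat_lit 957776114) (nat_lit 228) (nat_lit 4158057184) (nat_lit 0) (nat_lit 957776114) (nat_lit 20) (nat_lit 5) (nat_lit 23) (nat_lit 4) (nat_lit 20) (nat_lit 4) (nat_lit 264) (nat_lit 228) (nat_lit 228)) (XT.lf (nat_lit 0) (nat_lit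 1749249061) (nat_lit 152) (nat_lit 5997135984) (nat_lit 152) (nat_lit 5022073003) (nat_lit 18) (nat_lit 4) (nat_lit 20) (nat_lit 5) (nat_lit 20) (nat_lit 4) (nat_lit 265) (nat_lit 228) (nat_lit 227))))))) (XT.nd (nat_lit 780) (nat_lit 304) (nat_lit 0) (XT.nd (nat_lit 390) (nat_lit 380) (nat_lit 0) (XT.nd (nat_lit 156) (nat_lit 304) (nat_lit 0) (XT.nd (nat_lit 78) (nat_lit 76) (nat_lit 0) (XT.lf (nat_lit 0) (nat_lit 390792672) (nat_lit 228) (nat_lit 1076774095) (nat_lit 76) (nat_lit 11981715986) (nat_lit 17) (nat_lit 5) (nat_lit 20) (nat_lit 5) (nat_lit 18) (nat_lit 4) (nat_lit 266) (nat_lit 228) (nat_lit 226)) (XT.lf (nat_lit 0) (nat_lit 5947477547) (nat_lit 152) (nat_lit 4876394188) (nat_lit 0) (nat_lit 3362850480) (nat_lit 16) (nat_lit 5) (nat_lit 18) (nat_lit 4) (nat_lit 16) (nat_lit 4) (nat_lit 267) (nat_lit 228) (nat_lit 225))) (XT.nd (nat_lit 78) (nat_lit 152) (nat_lit 0) (XT.lf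 (nat_lit 0) (nat_lit 5227438031) (nat_lit 152) (nat_lit 6543484857) (nat_lit 152) (nat_lit 3221680237) (nat_lit 14) (nat_lit 4) (nat_lit 16) (nat_lit 5) (nat_lit 16) (nat_lit 4) (nat_lit 268) (nat_lit 228) (nat_lit 224)) (XT.nd (nat_lit 78) (nat_lit 76) (nat_lit 0) (XT.lf (nat_lit 0) (nat_lit 1919875150) (nat_lit 228) (nat_lit 68632370) (nat_lit 76) (nat_lit 13883577744) (nat_lit 13) (nat_lit 5) (nat_lit 16) (nat_lit 5) (nat_lit 14) (nat_lit 4) (nat_lit 269) (nat_lit 228) (nat_lit 223)) (XT.lf (nat_lit 0) (nat_lit 7295795492) (nat_lit 152) (nat_lit 6646960923) (nat_lit 0) (nat_lit 2880188480) (nat_lit 12) (nat_lit 5) (nat_lit 14) (nat_lit 4) (nat_lit 12) (nat_lit 4) (nat_lit 270) (nat_lit 228) (nat_lit 222))))) (XT.nd (nat_lit 156) (nat_lit 228) (nat_lit 0) (XT.nd (nat_lit 78) (nat_lit 0) (nat_lit 0) (XT.lf (nat_lit 0) (nat_lit 3012906525) (nat_lit 152) (nat_lit 9909643092) (nat_lit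 152) (nat_lit 4936707213) (nat_lit 10) (nat_lit 4) (nat_lit 12) (nat_lit 5) (nat_lit 12) (nat_lit 4) (nat_lit 271) (nat_lit 228) (nat_lit 221)) (XT.lf (nat_lit 0) (nat_lit 13259384227) (nat_lit 152) (nat_lit 5607543380) (nat_lit 152) (nat_lit 118562255) (nat_lit 10) (nat_lit 4) (nat_lit 12) (nat_lit 5) (nat_lit 12) (nat_lit 4) (nat_lit 272) (nat_lit 228) (nat_lit 220))) (XT.nd (nat_lit 78) (nat_lit 76) (nat_lit 0) (XT.lf (nat_lit 0) (nat_lit 3764609101) (nat_lit 76) (nat_lit 982420117) (nat_lit 152) (nat_lit 15459929544) (nat_lit 8) (nat_lit 5) (nat_lit 9) (nat_lit 5) (nat_lit 10) (nat_lit 4) (nat_lit 273) (nat_lit 228) (nat_lit 219)) (XT.nd (nat_lit 78) (nat_lit 76) (nat_lit 0) (XT.lf (nat_lit 0) (nat_lit 9936628376) (nat_lit 152) (nat_lit 7760189390) (nat_lit 0) (nat_lit 3832603215) (nat_lit 8) (nat_lit 5) (nat_lit 10) (nat_lit 4) (nat_lit 8) (nat_lit 4) (nat_lit 274) (nat_lit 228)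 (nat_lit 218)) (XT.lf (nat_lit 0) (nat_lit 1278102383) (nat_lit 76) (nat_lit 14091321343) (nat_lit 76) (nat_lit 7597150130) (nat_lit 7) (nat_lit 4) (nat_lit 8) (nat_lit 5) (nat_lit 8) (nat_lit 4) (nat_lit 275) (nat_lit 228) (nat_lit 217)))))) (XT.nd (nat_lit 390) (nat_lit 152) (nat_lit 0) (XT.nd (nat_lit 156) (nat_lit 76) (nat_lit 0) (XT.nd (nat_lit 78) (nat_lit 76) (nat_lit 0) (XT.lf (nat_lit 0) (nat_lit 10969554294) (nat_lit 76) (nat_lit 10203999942) (nat_lit 76) (nat_lit 3348582384) (nat_lit 7) (nat_lit 4) (nat_lit 8) (nat_lit 5) (nat_lit 8) (nat_lit 4) (nat_lit 276) (nat_lit 228) (nat_lit 216)) (XT.lf (nat_lit 0) (nat_lit 1013164958) (nat_lit 152) (nat_lit 5112916747) (nat_lit 76) (nat_lit 20084686862) (nat_lit 6) (nat_lit 5) (nat_lit 8) (nat_lit 5) (nat_lit 7) (nat_lit 4) (nat_lit 277) (nat_lit 228) (nat_lit 215))) (XT.nd (nat_lit 78) (nat_lit 0) (nat_lit 0) (XT.lf (nat_lit 0) (nat_lit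 3762419750) (nat_lit 76) (nat_lit 1731255946) (nat_lit 152) (nat_lit 22543936654) (nat_lit 5) (nat_lit 5) (nat_lit 6) (nat_lit 5) (nat_lit 7) (nat_lit 4) (nat_lit 278) (nat_lit 228) (nat_lit 214)) (XT.nd (nat_lit 78) (nat_lit 0) (nat_lit 0) (XT.lf (nat_lit 0) (nat_lit 10303394909) (nat_lit 152) (nat_lit 16821086221) (nat_lit 0) (nat_lit 2887790697) (nat_lit 5) (nat_lit 5) (nat_lit 7) (nat_lit 4) (nat_lit 5) (nat_lit 4) (nat_lit 279) (nat_lit 228) (nat_lit 213)) (XT.lf (nat_lit 0) (nat_lit 15372610474) (nat_lit 152) (nat_lit 9074625369) (nat_lit 0) (nat_lit 7704123550) (nat_lit 5) (nat_lit 5) (nat_lit 7) (nat_lit 4) (nat_lit 5) (nat_lit 4) (nat_lit 280) (nat_lit 228) (nat_lit 212))))) (XT.nd (nat_lit 156) (nat_lit 76) (nat_lit 0) (XT.nd (nat_lit 78) (nat_lit 76) (nat_lit 0) (XT.lf (nat_lit 0) (nat_lit 20704332428) (nat_lit 152) (nat_lit 962875336) (nat_lit 0) (nat_lit 12801694845) (nat_lit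 5) (nat_lit 5) (nat_lit 7) (nat_lit 4) (nat_lit 5) (nat_lit 4) (nat_lit 281) (nat_lit 228) (nat_lit 211)) (XT.lf (nat_lit 0) (nat_lit 7812275101) (nat_lit 76) (nat_lit 18639852570) (nat_lit 76) (nat_lit 10520408821) (nat_lit 4) (nat_lit 4) (nat_lit 5) (nat_lit 5) (nat_lit 5) (nat_lit 4) (nat_lit 282) (nat_lit 228) (nat_lit 210))) (XT.nd (nat_lit 78) (nat_lit 76) (nat_lit 0) (XT.lf (nat_lit 0) (nat_lit 17098478421) (nat_lit 76) (nat_lit 15451896636) (nat_lit 76) (nat_lit 7131706437) (nat_lit 4) (nat_lit 4) (nat_lit 5) (nat_lit 5) (nat_lit 5) (nat_lit 4) (nat_lit 283) (nat_lit 228) (nat_lit 209)) (XT.nd (nat_lit 78) (nat_lit 76) (nat_lit 0) (XT.lf (nat_lit 0) (nat_lit 26918926972) (nat_lit 76) (nat_lit 12100755132) (nat_lit 76) (nat_lit 3594688591) (nat_lit 4) (nat_lit 4) (nat_lit 5) (nat_lit 5) (nat_lit 5) (nat_lit 4) (nat_lit 284) (nat_lit 228) (nat_lit 208)) (XT.lf (nat_lit 0) (nat_lit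 108032770) (nat_lit 152) (nat_lit 8456707084) (nat_lit 76) (nat_lit 37221953643) (nat_lit 3) (nat_lit 5) (nat_lit 5) (nat_lit 5) (nat_lit 4) (nat_lit 4) (nat_lit 285) (nat_lit 228) (nat_lit 207))))))))
noncomputable def xc26 : XT := (XT.nd (nat_lit 1482) (nat_lit 0) (nat_lit 0) (XT.nd (nat_lit 702) (nat_lit 76) (nat_lit 0) (XT.nd (nat_lit 312) (nat_lit 0) (nat_lit 0) (XT.nd (nat_lit 156) (nat_lit 0) (nat_lit 0) (XT.nd (nat_lit 78) (nat_lit 76) (nat_lit 0) (XT.lf (nat_lit 0) (nat_lit 3880819602) (nat_lit 152) (nat_lit 881853083) (nat_lit 76) (nat_lit 44452308360) (nat_lit 3) (nat_lit 5) (nat_lit 5) (nat_lit 5) (nat_lit 4) (nat_lit 4) (nat_lit 286) (nat_lit 228) (nat_lit 206)) (XT.lf (nat_lit 0) (nat_lit 7365883745) (nat_lit 76) (nat_lit 610199985) (nat_lit 152) (nat_lit 44940521441) (nat_lit 2) (nat_lit 5) (nat_lit 3) (nat_lit 5) (nat_lit 4) (nat_lit 4) (nat_lit 287) (nat_lit 228) (nat_lit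 205))) (XT.nd (nat_lit 78) (nat_lit 0) (nat_lit 0) (XT.lf (nat_lit 0) (nat_lit 12384074141) (nat_lit 152) (nat_lit 40834399399) (nat_lit 0) (nat_lit 3696728843) (nat_lit 2) (nat_lit 5) (nat_lit 4) (nat_lit 4) (nat_lit 2) (nat_lit 4) (nat_lit 288) (nat_lit 228) (nat_lit 204)) (XT.lf (nat_lit 0) (nat_lit 17070734236) (nat_lit 152) (nat_lit 35903834106) (nat_lit 0) (nat_lit 8262908638) (nat_lit 2) (nat_lit 5) (nat_lit 4) (nat_lit 4) (nat_lit 2) (nat_lit 4) (nat_lit 289) (nat_lit 228) (nat_lit 203)))) (XT.nd (nat_lit 156) (nat_lit 0) (nat_lit 0) (XT.nd (nat_lit 78) (nat_lit 0) (nat_lit 0) (XT.lf (nat_lit 0) (nat_lit 22054309883) (nat_lit 152) (nat_lit 30720280449) (nat_lit 0) (nat_lit 13134928451) (nat_lit 2) (nat_lit 5) (nat_lit 4) (nat_lit 4) (nat_lit 2) (nat_lit 4) (nat_lit 290) (nat_lit 228) (nat_lit 202)) (XT.lf (nat_lit 0) (nat_lit 27364333381) (nat_lit 152) (nat_lit 25253021073) (nat_lit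 0) (nat_lit 18341659511) (nat_lit 2) (nat_lit 5) (nat_lit 4) (nat_lit 4) (nat_lit 2) (nat_lit 4) (nat_lit 291) (nat_lit 228) (nat_lit 201))) (XT.nd (nat_lit 78) (nat_lit 0) (nat_lit 0) (XT.lf (nat_lit 0) (nat_lit 33032271538) (nat_lit 152) (nat_lit 19469657405) (nat_lit 0) (nat_lit 23913956521) (nat_lit 2) (nat_lit 5) (nat_lit 4) (nat_lit 4) (nat_lit 2) (nat_lit 4) (nat_lit 292) (nat_lit 228) (nat_lit 200)) (XT.nd (nat_lit 78) (nat_lit 0) (nat_lit 0) (XT.lf (nat_lit 0) (nat_lit 39091712135) (nat_lit 152) (nat_lit 13335917659) (nat_lit 0) (nat_lit 29884840500) (nat_lit 2) (nat_lit 5) (nat_lit 4) (nat_lit 4) (nat_lit 2) (nat_lit 4) (nat_lit 293) (nat_lit 228) (nat_lit 199)) (XT.lf (nat_lit 0) (nat_lit 45578562968) (nat_lit 152) (nat_lit 6815453748) (nat_lit 0) (nat_lit 36289694465) (nat_lit 2) (nat_lit 5) (nat_lit 4) (nat_lit 4) (nat_lit 2) (nat_lit 4) (nat_lit 294) (nat_lit 228) (nat_lit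 198)))))) (XT.nd (nat_lit 390) (nat_lit 0) (nat_lit 0) (XT.nd (nat_lit 156) (nat_lit 0) (nat_lit 0) (XT.nd (nat_lit 78) (nat_lit 0) (nat_lit 0) (XT.lf (nat_lit 0) (nat_lit 134684869) (nat_lit 76) (nat_lit 52398682572) (nat_lit 76) (nat_lit 43033891044) (nat_lit 1) (nat_lit 4) (nat_lit 2) (nat_lit 5) (nat_lit 2) (nat_lit 4) (nat_lit 295) (nat_lit 228) (nat_lit 197)) (XT.lf (nat_lit 0) (nat_lit 7792122984) (nat_lit 76) (nat_lit 52320552221) (nat_lit 76) (nat_lit 42885461594) (nat_lit 1) (nat_lit 4) (nat_lit 2) (nat_lit 5) (nat_lit 2) (nat_lit 4) (nat_lit 296) (nat_lit 228) (nat_lit 196))) (XT.nd (nat_lit 78) (nat_lit 0) (nat_lit 0) (XT.lf (nat_lit 0) (nat_lit 15976888327) (nat_lit 76) (nat_lit 52274585674) (nat_lit 76) (nat_lit 42774403290) (nat_lit 1) (nat_lit 4) (nat_lit 2) (nat_lit 5) (nat_lit 2) (nat_lit 4) (nat_lit 297) (nat_lit 228) (nat_lit 195)) (XT.nd (nat_lit 78) (nat_lit 0)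 (nat_lit 0) (XT.lf (nat_lit 0) (nat_lit 24737483210) (nat_lit 76) (nat_lit 52260510537) (nat_lit 76) (nat_lit 42700058007) (nat_lit 1) (nat_lit 4) (nat_lit 2) (nat_lit 5) (nat_lit 2) (nat_lit 4) (nat_lit 298) (nat_lit 228) (nat_lit 194)) (XT.lf (nat_lit 0) (nat_lit 34125822270) (nat_lit 76) (nat_lit 52278243403) (nat_lit 76) (nat_lit 42661985183) (nat_lit 1) (nat_lit 4) (nat_lit 2) (nat_lit 5) (nat_lit 2) (nat_lit 4) (nat_lit 299) (nat_lit 228) (nat_lit 193))))) (XT.nd (nat_lit 156) (nat_lit 0) (nat_lit 0) (XT.nd (nat_lit 78) (nat_lit 0) (nat_lit 0) (XT.lf (nat_lit 0) (nat_lit 44197540109) (nat_lit 76) (nat_lit 52327889355) (nat_lit 76) (nat_lit 42659959199) (nat_lit 1) (nat_lit 4) (nat_lit 2) (nat_lit 5) (nat_lit 2) (nat_lit 4) (nat_lit 300) (nat_lit 228) (nat_lit 192)) (XT.lf (nat_lit 0) (nat_lit 55012320980) (nat_lit 76) (nat_lit 52409742591) (nat_lit 76) (nat_lit 42693968050) (nat_lit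 1) (nat_lit 4) (nat_lit 2) (nat_lit 5) (nat_lit 2) (nat_lit 4) (nat_lit 301) (nat_lit 228) (nat_lit 191))) (XT.nd (nat_lit 78) (nat_lit 0) (nat_lit 0) (XT.lf (nat_lit 0) (nat_lit 66634252474) (nat_lit 76) (nat_lit 52524288167) (nat_lit 76) (nat_lit 42764213270) (nat_lit 1) (nat_lit 4) (nat_lit 2) (nat_lit 5) (nat_lit 2) (nat_lit 4) (nat_lit 302) (nat_lit 228) (nat_lit 190)) (XT.nd (nat_lit 78) (nat_lit 0) (nat_lit 0) (XT.lf (nat_lit 0) (nat_lit 79132205296) (nat_lit 76) (nat_lit 52672204872) (nat_lit 76) (nat_lit 42871111126) (nat_lit 1) (nat_lit 4) (nat_lit 2) (nat_lit 5) (nat_lit 2) (nat_lit 4) (nat_lit 303) (nat_lit 228) (nat_lit 189)) (XT.lf (nat_lit 0) (nat_lit 92580241388) (nat_lit 76) (nat_lit 52854369249) (nat_lit 76) (nat_lit 43015295088) (nat_lit 1) (nat_lit 4) (nat_lit 2) (nat_lit 5) (nat_lit 2) (nat_lit 4) (nat_lit 304) (nat_lit 228) (nat_lit 188))))))) (XT.nd (nat_lit 780)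 (nat_lit 0) (nat_lit 0) (XT.nd (nat_lit 390) (nat_lit 0) (nat_lit 0) (XT.nd (nat_lit 156) (nat_lit 0) (nat_lit 0) (XT.nd (nat_lit 78) (nat_lit 0) (nat_lit 0) (XT.lf (nat_lit 0) (nat_lit 107058052817) (nat_lit 76) (nat_lit 53071860792) (nat_lit 76) (nat_lit 43197619580) (nat_lit 1) (nat_lit 4) (nat_lit 2) (nat_lit 5) (nat_lit 2) (nat_lit 4) (nat_lit 305) (nat_lit 228) (nat_lit 187)) (XT.lf (nat_lit 0) (nat_lit 122651434021) (nat_lit 76) (nat_lit 53325968338) (nat_lit 76) (nat_lit 43419165042) (nat_lit 1) (nat_lit 4) (nat_lit 2) (nat_lit 5) (nat_lit 2) (nat_lit 4) (nat_lit 306) (nat_lit 228) (nat_lit 186))) (XT.nd (nat_lit 78) (nat_lit 0) (nat_lit 0) (XT.lf (nat_lit 0) (nat_lit 139452790221) (nat_lit 76) (nat_lit 53618197711) (nat_lit 76) (nat_lit 43681244336) (nat_lit 1) (nat_lit 4) (nat_lit 2) (nat_lit 5) (nat_lit 2) (nat_lit 4) (nat_lit 307) (nat_lit 228) (nat_lit 185)) (XT.nd (nat_lit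 78) (nat_lit 0) (nat_lit 0) (XT.lf (nat_lit 0) (nat_lit 157561685010) (nat_lit 76) (nat_lit 53950280639) (nat_lit 76) (nat_lit 43985410525) (nat_lit 1) (nat_lit 4) (nat_lit 2) (nat_lit 5) (nat_lit 2) (nat_lit 4) (nat_lit 308) (nat_lit 228) (nat_lit 184)) (XT.lf (nat_lit 0) (nat_lit 177085430356) (nat_lit 76) (nat_lit 54324185022) (nat_lit 76) (nat_lit 44333466076) (nat_lit 1) (nat_lit 4) (nat_lit 2) (nat_lit 5) (nat_lit 2) (nat_lit 4) (nat_lit 309) (nat_lit 228) (nat_lit 183))))) (XT.nd (nat_lit 156) (nat_lit 0) (nat_lit 0) (XT.nd (nat_lit 78) (nat_lit 0) (nat_lit 0) (XT.lf (nat_lit 0) (nat_lit 198139722530) (nat_lit 76) (nat_lit 54742126590) (nat_lit 76) (nat_lit 44727473539) (nat_lit 1) (nat_lit 4) (nat_lit 2) (nat_lit 5) (nat_lit 2) (nat_lit 4) (nat_lit 310) (nat_lit 228) (nat_lit 182)) (XT.lf (nat_lit 0) (nat_lit 220849327705) (nat_lit 76) (nat_lit 55206582032) (nat_lit 76) (nat_lit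 45169767774) (nat_lit 1) (nat_lit 4) (nat_lit 2) (nat_lit 5) (nat_lit 2) (nat_lit 4) (nat_lit 311) (nat_lit 228) (nat_lit 181))) (XT.nd (nat_lit 78) (nat_lit 0) (nat_lit 0) (XT.lf (nat_lit 0) (nat_lit 245348821321) (nat_lit 76) (nat_lit 55720303679) (nat_lit 76) (nat_lit 45662969784) (nat_lit 1) (nat_lit 4) (nat_lit 2) (nat_lit 5) (nat_lit 2) (nat_lit 4) (nat_lit 312) (nat_lit 228) (nat_lit 180)) (XT.nd (nat_lit 78) (nat_lit 0) (nat_lit 0) (XT.lf (nat_lit 0) (nat_lit 271783385562) (nat_lit 76) (nat_lit 56286335805) (nat_lit 76) (nat_lit 46210002247) (nat_lit 1) (nat_lit 4) (nat_lit 2) (nat_lit 5) (nat_lit 2) (nat_lit 4) (nat_lit 313) (nat_lit 228) (nat_lit 179)) (XT.lf (nat_lit 0) (nat_lit 300309669698) (nat_lit 76) (nat_lit 56908032676) (nat_lit 76) (nat_lit 46814106837) (nat_lit 1) (nat_lit 4) (nat_lit 2) (nat_lit 5) (nat_lit 2) (nat_lit 4) (nat_lit 314) (nat_lit 228) (nat_lit 178))))))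 (XT.nd (nat_lit 390) (nat_lit 0) (nat_lit 0) (XT.nd (nat_lit 156) (nat_lit 0) (nat_lit 0) (XT.nd (nat_lit 78) (nat_lit 0) (nat_lit 0) (XT.lf (nat_lit 0) (nat_lit 331096718375) (nat_lit 76) (nat_lit 57589078421) (nat_lit 76) (nat_lit 47478863433) (nat_lit 1) (nat_lit 4) (nat_lit 2) (nat_lit 5) (nat_lit 2) (nat_lit 4) (nat_lit 315) (nat_lit 228) (nat_lit 177)) (XT.lf (nat_lit 0) (nat_lit 364326973362) (nat_lit 76) (nat_lit 58333508867) (nat_lit 76) (nat_lit 48208211334) (nat_lit 1) (nat_lit 4) (nat_lit 2) (nat_lit 5) (nat_lit 2) (nat_lit 4) (nat_lit 316) (nat_lit 228) (nat_lit 176))) (XT.nd (nat_lit 78) (nat_lit 0) (nat_lit 0) (XT.lf (nat_lit 0) (nat_lit 400197354691) (nat_lit 76) (nat_lit 59145735454) (nat_lit 76) (nat_lit 49006472601) (nat_lit 1) (nat_lit 4) (nat_lit 2) (nat_lit 5) (nat_lit 2) (nat_lit 4) (nat_lit 317) (nat_lit 228) (nat_lit 175)) (XT.nd (nat_lit 78) (nat_lit 0) (nat_lit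 0) (XT.lf (nat_lit 0) (nat_lit 438920427583) (nat_lit 76) (nat_lit 60030571376) (nat_lit 76) (nat_lit 49878377670) (nat_lit 1) (nat_lit 4) (nat_lit 2) (nat_lit 5) (nat_lit 2) (nat_lit 4) (nat_lit 318) (nat_lit 228) (nat_lit 174)) (XT.lf (nat_lit 0) (nat_lit 480725662100) (nat_lit 76) (nat_lit 60993260105) (nat_lit 76) (nat_lit 50829093388) (nat_lit 1) (nat_lit 4) (nat_lit 2) (nat_lit 5) (nat_lit 2) (nat_lit 4) (nat_lit 319) (nat_lit 228) (nat_lit 173))))) (XT.nd (nat_lit 156) (nat_lit 0) (nat_lit 0) (XT.nd (nat_lit 78) (nat_lit 0) (nat_lit 0) (XT.lf (nat_lit 0) (nat_lit 525860792965) (nat_lit 76) (nat_lit 62039506463) (nat_lit 76) (nat_lit 51864253626) (nat_lit 1) (nat_lit 4) (nat_lit 2) (nat_lit 5) (nat_lit 2) (nat_lit 4) (nat_lit 320) (nat_lit 228) (nat_lit 172)) (XT.lf (nat_lit 0) (nat_lit 574593287620) (nat_lit 76) (nat_lit 63175510429) (nat_lit 76) (nat_lit 52989992664) (nat_lit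 1) (nat_lit 4) (nat_lit 2) (nat_lit 5) (nat_lit 2) (nat_lit 4) (nat_lit 321) (nat_lit 228) (nat_lit 171))) (XT.nd (nat_lit 78) (nat_lit 0) (nat_lit 0) (XT.lf (nat_lit 0) (nat_lit 627211931219) (nat_lit 76) (nat_lit 64408003878) (nat_lit 76) (nat_lit 54212981551) (nat_lit 1) (nat_lit 4) (nat_lit 2) (nat_lit 5) (nat_lit 2) (nat_lit 4) (nat_lit 322) (nat_lit 228) (nat_lit 170)) (XT.nd (nat_lit 78) (nat_lit 0) (nat_lit 0) (XT.lf (nat_lit 0) (nat_lit 684028537946) (nat_lit 76) (nat_lit 65744290475) (nat_lit 76) (nat_lit 55540467628) (nat_lit 1) (nat_lit 4) (nat_lit 2) (nat_lit 5) (nat_lit 2) (nat_lit 4) (nat_lit 323) (nat_lit 228) (nat_lit 169)) (XT.lf (nat_lit 0) (nat_lit 745379798803) (nat_lit 76) (nat_lit 67192288955) (nat_lit 76) (nat_lit 56980317478) (nat_lit 1) (nat_lit 4) (nat_lit 2) (nat_lit 5) (nat_lit 2) (nat_lit 4) (nat_lit 324) (nat_lit 228) (nat_lit 168))))))))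
noncomputable def xc27 : XT := (XT.nd (nat_lit 33930) (nat_lit 0) (nat_lit 0) (XT.nd (nat_lit 33150) (nat_lit 0) (nat_lit 380) (XT.nd (nat_lit 32760) (nat_lit 0) (nat_lit 988) (XT.nd (nat_lit 32604) (nat_lit 0) (nat_lit 1672) (XT.nd (nat_lit 78) (nat_lit 0) (nat_lit 0) (XT.lf (nat_lit 0) (nat_lit 811629276819) (nat_lit 76) (nat_lit 68760580051) (nat_lit 76) (nat_lit 58541063546) (nat_lit 1) (nat_lit 4) (nat_lit 2) (nat_lit 5) (nat_lit 2) (nat_lit 4) (nat_lit 325) (nat_lit 228) (nat_lit 167)) (XT.lf (nat_lit 0) (nat_lit 883169561492) (nat_lit 76) (nat_lit 70458457338) (nat_lit 76) (nat_lit 60231954697) (nat_lit 1) (nat_lit 4) (nat_lit 2) (nat_lit 5) (nat_lit 2) (nat_lit 4) (nat_lit 326) (nat_lit 228) (nat_lit 166))) (XT.nd (nat_lit 78) (nat_lit 152) (nat_lit 0) (XT.lf (nat_lit 0) (nat_lit 1541857820) (nat_lit 228) (nat_lit 2440726024) (nat_lit 0) (nat_lit 1541857820) (nat_lit 25) (nat_lit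 5) (nat_lit 28) (nat_lit 4) (nat_lit 25) (nat_lit 4) (nat_lit 262) (nat_lit 229) (nat_lit 229)) (XT.lf (nat_lit 0) (nat_lit 5165837183) (nat_lit 152) (nat_lit 3758690675) (nat_lit 152) (nat_lit 2652969255) (nat_lit 23) (nat_lit 4) (nat_lit 25) (nat_lit 5) (nat_lit 25) (nat_lit 4) (nat_lit 263) (nat_lit 229) (nat_lit 228)))) (XT.nd (nat_lit 156) (nat_lit 304) (nat_lit 0) (XT.nd (nat_lit 78) (nat_lit 152) (nat_lit 0) (XT.lf (nat_lit 0) (nat_lit 2798915286) (nat_lit 228) (nat_lit 8586359069) (nat_lit 0) (nat_lit 770784286) (nat_lit 20) (nat_lit 5) (nat_lit 23) (nat_lit 4) (nat_lit 20) (nat_lit 4) (nat_lit 264) (nat_lit 229) (nat_lit 227)) (XT.lf (nat_lit 0) (nat_lit 1211568655) (nat_lit 152) (nat_lit 7252650527) (nat_lit 152) (nat_lit 4321683433) (nat_lit 18) (nat_lit 4) (nat_lit 20) (nat_lit 5) (nat_lit 20) (nat_lit 4) (nat_lit 265) (nat_lit 229) (nat_lit 226))) (XT.nd (nat_lit 78) (nat_lit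 228) (nat_lit 0) (XT.lf (nat_lit 0) (nat_lit 916793118) (nat_lit 228) (nat_lit 1887500545) (nat_lit 76) (nat_lit 10669775028) (nat_lit 17) (nat_lit 5) (nat_lit 20) (nat_lit 5) (nat_lit 18) (nat_lit 4) (nat_lit 266) (nat_lit 229) (nat_lit 225)) (XT.nd (nat_lit 78) (nat_lit 152) (nat_lit 0) (XT.lf (nat_lit 0) (nat_lit 6293548432) (nat_lit 152) (nat_lit 5958402376) (nat_lit 0) (nat_lit 1968821889) (nat_lit 16) (nat_lit 5) (nat_lit 18) (nat_lit 4) (nat_lit 16) (nat_lit 4) (nat_lit 267) (nat_lit 229) (nat_lit 224)) (XT.lf (nat_lit 0) (nat_lit 3879968967) (nat_lit 152) (nat_lit 8081015824) (nat_lit 152) (nat_lit 3073717472) (nat_lit 14) (nat_lit 4) (nat_lit 16) (nat_lit 5) (nat_lit 16) (nat_lit 4) (nat_lit 268) (nat_lit 229) (nat_lit 223)))))) (XT.nd (nat_lit 390) (nat_lit 152) (nat_lit 0) (XT.nd (nat_lit 156) (nat_lit 304) (nat_lit 0) (XT.nd (nat_lit 78) (nat_lit 76) (nat_lit 0) (XT.lf (nat_lit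 0) (nat_lit 1932482802) (nat_lit 228) (nat_lit 1677719540) (nat_lit 76) (nat_lit 12310616401) (nat_lit 13) (nat_lit 5) (nat_lit 16) (nat_lit 5) (nat_lit 14) (nat_lit 4) (nat_lit 269) (nat_lit 229) (nat_lit 222)) (XT.lf (nat_lit 0) (nat_lit 7131212793) (nat_lit 152) (nat_lit 8546414586) (nat_lit 0) (nat_lit 1203113178) (nat_lit 12) (nat_lit 5) (nat_lit 14) (nat_lit 4) (nat_lit 12) (nat_lit 4) (nat_lit 270) (nat_lit 229) (nat_lit 221))) (XT.nd (nat_lit 78) (nat_lit 152) (nat_lit 0) (XT.lf (nat_lit 0) (nat_lit 847023359) (nat_lit 152) (nat_lit 11760931134) (nat_lit 152) (nat_lit 5316786273) (nat_lit 10) (nat_lit 4) (nat_lit 12) (nat_lit 5) (nat_lit 12) (nat_lit 4) (nat_lit 271) (nat_lit 229) (nat_lit 220)) (XT.nd (nat_lit 78) (nat_lit 152) (nat_lit 0) (XT.lf (nat_lit 0) (nat_lit 10904959406) (nat_lit 152) (nat_lit 7536839674) (nat_lit 152) (nat_lit 614875141) (nat_lit 10) (nat_lit 4) (nat_lit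 12) (nat_lit 5) (nat_lit 12) (nat_lit 4) (nat_lit 272) (nat_lit 229) (nat_lit 219)) (XT.lf (nat_lit 0) (nat_lit 1082738689) (nat_lit 76) (nat_lit 3037811966) (nat_lit 152) (nat_lit 16165435668) (nat_lit 8) (nat_lit 5) (nat_lit 9) (nat_lit 5) (nat_lit 10) (nat_lit 4) (nat_lit 273) (nat_lit 229) (nat_lit 218))))) (XT.nd (nat_lit 156) (nat_lit 152) (nat_lit 0) (XT.nd (nat_lit 78) (nat_lit 0) (nat_lit 0) (XT.lf (nat_lit 0) (nat_lit 9177822898) (nat_lit 152) (nat_lit 10663411926) (nat_lit 0) (nat_lit 1773971935) (nat_lit 8) (nat_lit 5) (nat_lit 10) (nat_lit 4) (nat_lit 8) (nat_lit 4) (nat_lit 274) (nat_lit 229) (nat_lit 217)) (XT.lf (nat_lit 0) (nat_lit 14497851924) (nat_lit 152) (nat_lit 1827522772) (nat_lit 0) (nat_lit 6732754617) (nat_lit 8) (nat_lit 5) (nat_lit 10) (nat_lit 4) (nat_lit 8) (nat_lit 4) (nat_lit 275) (nat_lit 229) (nat_lit 216))) (XT.nd (nat_lit 78) (nat_lit 76) (nat_lit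 0) (XT.lf (nat_lit 0) (nat_lit 7649026012) (nat_lit 76) (nat_lit 12535131795) (nat_lit 76) (nat_lit 4435547133) (nat_lit 7) (nat_lit 4) (nat_lit 8) (nat_lit 5) (nat_lit 8) (nat_lit 4) (nat_lit 276) (nat_lit 229) (nat_lit 215)) (XT.nd (nat_lit 78) (nat_lit 76) (nat_lit 0) (XT.lf (nat_lit 0) (nat_lit 17651447746) (nat_lit 76) (nat_lit 8535602107) (nat_lit 76) (nat_lit 126306930) (nat_lit 7) (nat_lit 4) (nat_lit 8) (nat_lit 5) (nat_lit 8) (nat_lit 4) (nat_lit 277) (nat_lit 229) (nat_lit 214)) (XT.lf (nat_lit 0) (nat_lit 4222417287) (nat_lit 152) (nat_lit 40108732) (nat_lit 76) (nat_lit 23884663918) (nat_lit 6) (nat_lit 5) (nat_lit 8) (nat_lit 5) (nat_lit 7) (nat_lit 4) (nat_lit 278) (nat_lit 229) (nat_lit 213))))))) (XT.nd (nat_lit 780) (nat_lit 76) (nat_lit 0) (XT.nd (nat_lit 390) (nat_lit 152) (nat_lit 0) (XT.nd (nat_lit 156) (nat_lit 76) (nat_lit 0) (XT.nd (nat_lit 78) (nat_lit 0) (nat_lit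 0) (XT.lf (nat_lit 0) (nat_lit 8917692739) (nat_lit 152) (nat_lit 20827126671) (nat_lit 0) (nat_lit 382844150) (nat_lit 5) (nat_lit 5) (nat_lit 7) (nat_lit 4) (nat_lit 5) (nat_lit 4) (nat_lit 279) (nat_lit 229) (nat_lit 212)) (XT.lf (nat_lit 0) (nat_lit 13918143470) (nat_lit 152) (nat_lit 13202986822) (nat_lit 0) (nat_lit 5149144221) (nat_lit 5) (nat_lit 5) (nat_lit 7) (nat_lit 4) (nat_lit 5) (nat_lit 4) (nat_lit 280) (nat_lit 229) (nat_lit 211))) (XT.nd (nat_lit 78) (nat_lit 76) (nat_lit 0) (XT.lf (nat_lit 0) (nat_lit 19186194281) (nat_lit 152) (nat_lit 5204496976) (nat_lit 0) (nat_lit 10200388867) (nat_lit 5) (nat_lit 5) (nat_lit 7) (nat_lit 4) (nat_lit 5) (nat_lit 4) (nat_lit 281) (nat_lit 229) (nat_lit 210)) (XT.nd (nat_lit 78) (nat_lit 0) (nat_lit 0) (XT.lf (nat_lit 0) (nat_lit 3322068255) (nat_lit 76) (nat_lit 21482861794) (nat_lit 76) (nat_lit 12296309930) (nat_lit 4) (nat_lit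 4) (nat_lit 5) (nat_lit 5) (nat_lit 5) (nat_lit 4) (nat_lit 282) (nat_lit 229) (nat_lit 209)) (XT.lf (nat_lit 0) (nat_lit 12507958577) (nat_lit 76) (nat_lit 18339064949) (nat_lit 76) (nat_lit 8966636743) (nat_lit 4) (nat_lit 4) (nat_lit 5) (nat_lit 5) (nat_lit 5) (nat_lit 4) (nat_lit 283) (nat_lit 229) (nat_lit 208))))) (XT.nd (nat_lit 156) (nat_lit 152) (nat_lit 0) (XT.nd (nat_lit 78) (nat_lit 0) (nat_lit 0) (XT.lf (nat_lit 0) (nat_lit 22235524722) (nat_lit 76) (nat_lit 15028811491) (nat_lit 76) (nat_lit 5484275560) (nat_lit 4) (nat_lit 4) (nat_lit 5) (nat_lit 5) (nat_lit 5) (nat_lit 4) (nat_lit 284) (nat_lit 229) (nat_lit 207)) (XT.lf (nat_lit 0) (nat_lit 32562411524) (nat_lit 76) (nat_lit 11532485102) (nat_lit 76) (nat_lit 1828590167) (nat_lit 4) (nat_lit 4) (nat_lit 5) (nat_lit 5) (nat_lit 5) (nat_lit 4) (nat_lit 285) (nat_lit 229) (nat_lit 206))) (XT.nd (nat_lit 78) (nat_lit 76)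 (nat_lit 0) (XT.lf (nat_lit 0) (nat_lit 1957363479) (nat_lit 152) (nat_lit 5838854435) (nat_lit 76) (nat_lit 41559302974) (nat_lit 3) (nat_lit 5) (nat_lit 5) (nat_lit 5) (nat_lit 4) (nat_lit 4) (nat_lit 286) (nat_lit 229) (nat_lit 205)) (XT.nd (nat_lit 78) (nat_lit 0) (nat_lit 0) (XT.lf (nat_lit 0) (nat_lit 2167327055) (nat_lit 76) (nat_lit 3762136985) (nat_lit 152) (nat_lit 47133886467) (nat_lit 2) (nat_lit 5) (nat_lit 3) (nat_lit 5) (nat_lit 4) (nat_lit 4) (nat_lit 287) (nat_lit 229) (nat_lit 204)) (XT.lf (nat_lit 0) (nat_lit 10247734922) (nat_lit 152) (nat_lit 46203939610) (nat_lit 0) (nat_lit 614802976) (nat_lit 2) (nat_lit 5) (nat_lit 4) (nat_lit 4) (nat_lit 2) (nat_lit 4) (nat_lit 288) (nat_lit 229) (nat_lit 203)))))) (XT.nd (nat_lit 390) (nat_lit 76) (nat_lit 0) (XT.nd (nat_lit 156) (nat_lit 0) (nat_lit 0) (XT.nd (nat_lit 78) (nat_lit 0) (nat_lit 0) (XT.lf (nat_lit 0) (nat_lit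 14896886721) (nat_lit 152) (nat_lit 41341382422) (nat_lit 0) (nat_lit 5152398941) (nat_lit 2) (nat_lit 5) (nat_lit 4) (nat_lit 4) (nat_lit 2) (nat_lit 4) (nat_lit 289) (nat_lit 229) (nat_lit 202)) (XT.lf (nat_lit 0) (nat_lit 19845732464) (nat_lit 152) (nat_lit 36220799233) (nat_lit 0) (nat_lit 9997952245) (nat_lit 2) (nat_lit 5) (nat_lit 4) (nat_lit 4) (nat_lit 2) (nat_lit 4) (nat_lit 290) (nat_lit 229) (nat_lit 201))) (XT.nd (nat_lit 78) (nat_lit 0) (nat_lit 0) (XT.lf (nat_lit 0) (nat_lit 25123598645) (nat_lit 152) (nat_lit 30811845847) (nat_lit 0) (nat_lit 15180177279) (nat_lit 2) (nat_lit 5) (nat_lit 4) (nat_lit 4) (nat_lit 2) (nat_lit 4) (nat_lit 291) (nat_lit 229) (nat_lit 200)) (XT.nd (nat_lit 78) (nat_lit 0) (nat_lit 0) (XT.lf (nat_lit 0) (nat_lit 30761761507) (nat_lit 152) (nat_lit 25082469205) (nat_lit 0) (nat_lit 20729783524) (nat_lit 2) (nat_lit 5) (nat_lit 4) (nat_lit 4)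 (nat_lit 2) (nat_lit 4) (nat_lit 292) (nat_lit 229) (nat_lit 199)) (XT.lf (nat_lit 0) (nat_lit 36793632386) (nat_lit 152) (nat_lit 18998717447) (nat_lit 0) (nat_lit 26679657536) (nat_lit 2) (nat_lit 5) (nat_lit 4) (nat_lit 4) (nat_lit 2) (nat_lit 4) (nat_lit 293) (nat_lit 229) (nat_lit 198))))) (XT.nd (nat_lit 156) (nat_lit 76) (nat_lit 0) (XT.nd (nat_lit 78) (nat_lit 0) (nat_lit 0) (XT.lf (nat_lit 0) (nat_lit 43254955703) (nat_lit 152) (nat_lit 12524538711) (nat_lit 0) (nat_lit 33065057827) (nat_lit 2) (nat_lit 5) (nat_lit 4) (nat_lit 4) (nat_lit 2) (nat_lit 4) (nat_lit 294) (nat_lit 229) (nat_lit 197)) (XT.lf (nat_lit 0) (nat_lit 50184020780) (nat_lit 152) (nat_lit 5621567492) (nat_lit 0) (nat_lit 39923823806) (nat_lit 2) (nat_lit 5) (nat_lit 4) (nat_lit 4) (nat_lit 2) (nat_lit 4) (nat_lit 295) (nat_lit 229) (nat_lit 196))) (XT.nd (nat_lit 78) (nat_lit 0) (nat_lit 0) (XT.lf (nat_lit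 0) (nat_lit 1809002068) (nat_lit 76) (nat_lit 55841130268) (nat_lit 76) (nat_lit 45515841536) (nat_lit 1) (nat_lit 4) (nat_lit 2) (nat_lit 5) (nat_lit 2) (nat_lit 4) (nat_lit 296) (nat_lit 229) (nat_lit 195)) (XT.nd (nat_lit 78) (nat_lit 0) (nat_lit 0) (XT.lf (nat_lit 0) (nat_lit 9955809869) (nat_lit 76) (nat_lit 55812264074) (nat_lit 76) (nat_lit 45426705196) (nat_lit 1) (nat_lit 4) (nat_lit 2) (nat_lit 5) (nat_lit 2) (nat_lit 4) (nat_lit 297) (nat_lit 229) (nat_lit 194)) (XT.lf (nat_lit 0) (nat_lit 18681258880) (nat_lit 76) (nat_lit 55814022598) (nat_lit 76) (nat_lit 45372658029) (nat_lit 1) (nat_lit 4) (nat_lit 2) (nat_lit 5) (nat_lit 2) (nat_lit 4) (nat_lit 298) (nat_lit 229) (nat_lit 193))))))))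
noncomputable def xc28 : XT := (XT.nd (nat_lit 1482) (nat_lit 0) (nat_lit 0) (XT.nd (nat_lit 702) (nat_lit 0) (nat_lit 0) (XT.nd (nat_lit 312) (nat_lit 0) (nat_lit 0) (XT.nd (nat_lit 156) (nat_lit 0) (nat_lit 0) (XT.nd (nat_lit 78) (nat_lit 0) (nat_lit 0) (XT.lf (nat_lit 0) (nat_lit 28037055466) (nat_lit 76) (nat_lit 55846416260) (nat_lit 76) (nat_lit 45353379756) (nat_lit 1) (nat_lit 4) (nat_lit 2) (nat_lit 5) (nat_lit 2) (nat_lit 4) (nat_lit 299) (nat_lit 229) (nat_lit 192)) (XT.lf (nat_lit 0) (nat_lit 38078641384) (nat_lit 76) (nat_lit 55909637023) (nat_lit 76) (nat_lit 45368756134) (nat_lit 1) (nat_lit 4) (nat_lit 2) (nat_lit 5) (nat_lit 2) (nat_lit 4) (nat_lit 300) (nat_lit 229) (nat_lit 191))) (XT.nd (nat_lit 78) (nat_lit 0) (nat_lit 0) (XT.lf (nat_lit 0) (nat_lit 48865522329) (nat_lit 76) (nat_lit 56004059529) (nat_lit 76) (nat_lit 45418878284) (nat_lit 1) (nat_lit 4) (nat_lit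 2) (nat_lit 5) (nat_lit 2) (nat_lit 4) (nat_lit 301) (nat_lit 229) (nat_lit 190)) (XT.lf (nat_lit 0) (nat_lit 60461620558) (nat_lit 76) (nat_lit 56130243318) (nat_lit 76) (nat_lit 45504043224) (nat_lit 1) (nat_lit 4) (nat_lit 2) (nat_lit 5) (nat_lit 2) (nat_lit 4) (nat_lit 302) (nat_lit 229) (nat_lit 189)))) (XT.nd (nat_lit 156) (nat_lit 0) (nat_lit 0) (XT.nd (nat_lit 78) (nat_lit 0) (nat_lit 0) (XT.lf (nat_lit 0) (nat_lit 72935653690) (nat_lit 76) (nat_lit 56288936146) (nat_lit 76) (nat_lit 45624755637) (nat_lit 1) (nat_lit 4) (nat_lit 2) (nat_lit 5) (nat_lit 2) (nat_lit 4) (nat_lit 303) (nat_lit 229) (nat_lit 188)) (XT.lf (nat_lit 0) (nat_lit 86361541921) (nat_lit 76) (nat_lit 56481078415) (nat_lit 76) (nat_lit 45781730855) (nat_lit 1) (nat_lit 4) (nat_lit 2) (nat_lit 5) (nat_lit 2) (nat_lit 4) (nat_lit 304) (nat_lit 229) (nat_lit 187))) (XT.nd (nat_lit 78) (nat_lit 0) (nat_lit 0)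 (XT.lf (nat_lit 0) (nat_lit 100818846071) (nat_lit 76) (nat_lit 56707808747) (nat_lit 76) (nat_lit 45975899102) (nat_lit 1) (nat_lit 4) (nat_lit 2) (nat_lit 5) (nat_lit 2) (nat_lit 4) (nat_lit 305) (nat_lit 229) (nat_lit 186)) (XT.nd (nat_lit 78) (nat_lit 0) (nat_lit 0) (XT.lf (nat_lit 0) (nat_lit 116393239054) (nat_lit 76) (nat_lit 56970470727) (nat_lit 76) (nat_lit 46208411004) (nat_lit 1) (nat_lit 4) (nat_lit 2) (nat_lit 5) (nat_lit 2) (nat_lit 4) (nat_lit 306) (nat_lit 229) (nat_lit 185)) (XT.lf (nat_lit 0) (nat_lit 133177013568) (nat_lit 76) (nat_lit 57270620871) (nat_lit 76) (nat_lit 46480644409) (nat_lit 1) (nat_lit 4) (nat_lit 2) (nat_lit 5) (nat_lit 2) (nat_lit 4) (nat_lit 307) (nat_lit 229) (nat_lit 184)))))) (XT.nd (nat_lit 390) (nat_lit 0) (nat_lit 0) (XT.nd (nat_lit 156) (nat_lit 0) (nat_lit 0) (XT.nd (nat_lit 78) (nat_lit 0) (nat_lit 0) (XT.lf (nat_lit 0) (nat_lit 151269629018)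 (nat_lit 76) (nat_lit 57610037848) (nat_lit 76) (nat_lit 46794212554) (nat_lit 1) (nat_lit 4) (nat_lit 2) (nat_lit 5) (nat_lit 2) (nat_lit 4) (nat_lit 308) (nat_lit 229) (nat_lit 183)) (XT.lf (nat_lit 0) (nat_lit 170778300902) (nat_lit 76) (nat_lit 57990733017) (nat_lit 76) (nat_lit 47150973618) (nat_lit 1) (nat_lit 4) (nat_lit 2) (nat_lit 5) (nat_lit 2) (nat_lit 4) (nat_lit 309) (nat_lit 229) (nat_lit 182))) (XT.nd (nat_lit 78) (nat_lit 0) (nat_lit 0) (XT.lf (nat_lit 0) (nat_lit 191818636166) (nat_lit 76) (nat_lit 58414962348) (nat_lit 76) (nat_lit 47553041742) (nat_lit 1) (nat_lit 4) (nat_lit 2) (nat_lit 5) (nat_lit 2) (nat_lit 4) (nat_lit 310) (nat_lit 229) (nat_lit 181)) (XT.nd (nat_lit 78) (nat_lit 0) (nat_lit 0) (XT.lf (nat_lit 0) (nat_lit 214515318277) (nat_lit 76) (nat_lit 58885239795) (nat_lit 76) (nat_lit 48002799552) (nat_lit 1) (nat_lit 4) (nat_lit 2) (nat_lit 5) (nat_lit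 2) (nat_lit 4) (nat_lit 311) (nat_lit 229) (nat_lit 180)) (XT.lf (nat_lit 0) (nat_lit 239002846093) (nat_lit 76) (nat_lit 59404352186) (nat_lit 76) (nat_lit 48502912280) (nat_lit 1) (nat_lit 4) (nat_lit 2) (nat_lit 5) (nat_lit 2) (nat_lit 4) (nat_lit 312) (nat_lit 229) (nat_lit 179))))) (XT.nd (nat_lit 156) (nat_lit 0) (nat_lit 0) (XT.nd (nat_lit 78) (nat_lit 0) (nat_lit 0) (XT.lf (nat_lit 0) (nat_lit 265426330890) (nat_lit 76) (nat_lit 59975375742) (nat_lit 76) (nat_lit 49056343555) (nat_lit 1) (nat_lit 4) (nat_lit 2) (nat_lit 5) (nat_lit 2) (nat_lit 4) (nat_lit 313) (nat_lit 229) (nat_lit 178)) (XT.lf (nat_lit 0) (nat_lit 293942356280) (nat_lit 76) (nat_lit 60601694308) (nat_lit 76) (nat_lit 49666372972) (nat_lit 1) (nat_lit 4) (nat_lit 2) (nat_lit 5) (nat_lit 2) (nat_lit 4) (nat_lit 314) (nat_lit 229) (nat_lit 177))) (XT.nd (nat_lit 78) (nat_lit 0) (nat_lit 0) (XT.lf (nat_lit 0) (nat_lit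 324719906119) (nat_lit 76) (nat_lit 61287019400) (nat_lit 76) (nat_lit 50336615518) (nat_lit 1) (nat_lit 4) (nat_lit 2) (nat_lit 5) (nat_lit 2) (nat_lit 4) (nat_lit 315) (nat_lit 229) (nat_lit 176)) (XT.nd (nat_lit 78) (nat_lit 0) (nat_lit 0) (XT.lf (nat_lit 0) (nat_lit 357941365887) (nat_lit 76) (nat_lit 62035412204) (nat_lit 76) (nat_lit 51071043002) (nat_lit 1) (nat_lit 4) (nat_lit 2) (nat_lit 5) (nat_lit 2) (nat_lit 4) (nat_lit 316) (nat_lit 229) (nat_lit 175)) (XT.lf (nat_lit 0) (nat_lit 393803603493) (nat_lit 76) (nat_lit 62851307641) (nat_lit 76) (nat_lit 51874007587) (nat_lit 1) (nat_lit 4) (nat_lit 2) (nat_lit 5) (nat_lit 2) (nat_lit 4) (nat_lit 317) (nat_lit 229) (nat_lit 174))))))) (XT.nd (nat_lit 32994) (nat_lit 0) (nat_lit 912) (XT.nd (nat_lit 312) (nat_lit 0) (nat_lit 0) (XT.nd (nat_lit 156) (nat_lit 0) (nat_lit 0) (XT.nd (nat_lit 78) (nat_lit 0) (nat_lit 0) (XT.lf (nat_lit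 0) (nat_lit 432519135901) (nat_lit 76) (nat_lit 63739540646) (nat_lit 76) (nat_lit 52750267581) (nat_lit 1) (nat_lit 4) (nat_lit 2) (nat_lit 5) (nat_lit 2) (nat_lit 4) (nat_lit 318) (nat_lit 229) (nat_lit 173)) (XT.lf (nat_lit 0) (nat_lit 474317388488) (nat_lit 76) (nat_lit 64705374822) (nat_lit 76) (nat_lit 53705015637) (nat_lit 1) (nat_lit 4) (nat_lit 2) (nat_lit 5) (nat_lit 2) (nat_lit 4) (nat_lit 319) (nat_lit 229) (nat_lit 172))) (XT.nd (nat_lit 78) (nat_lit 0) (nat_lit 0) (XT.lf (nat_lit 0) (nat_lit 519446054603) (nat_lit 76) (nat_lit 65754533632) (nat_lit 76) (nat_lit 54743909519) (nat_lit 1) (nat_lit 4) (nat_lit 2) (nat_lit 5) (nat_lit 2) (nat_lit 4) (nat_lit 320) (nat_lit 229) (nat_lit 171)) (XT.lf (nat_lit 0) (nat_lit 568172563379) (nat_lit 76) (nat_lit 66893234312) (nat_lit 76) (nat_lit 55873105638) (nat_lit 1) (nat_lit 4) (nat_lit 2) (nat_lit 5) (nat_lit 2) (nat_lit 4) (nat_lit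 321) (nat_lit 229) (nat_lit 170)))) (XT.nd (nat_lit 156) (nat_lit 0) (nat_lit 0) (XT.nd (nat_lit 78) (nat_lit 0) (nat_lit 0) (XT.lf (nat_lit 0) (nat_lit 620785664498) (nat_lit 76) (nat_lit 68128224719) (nat_lit 76) (nat_lit 57099295524) (nat_lit 1) (nat_lit 4) (nat_lit 2) (nat_lit 5) (nat_lit 2) (nat_lit 4) (nat_lit 322) (nat_lit 229) (nat_lit 169)) (XT.lf (nat_lit 0) (nat_lit 677597139298) (nat_lit 76) (nat_lit 69466823314) (nat_lit 76) (nat_lit 58429745489) (nat_lit 1) (nat_lit 4) (nat_lit 2) (nat_lit 5) (nat_lit 2) (nat_lit 4) (nat_lit 323) (nat_lit 229) (nat_lit 168))) (XT.nd (nat_lit 78) (nat_lit 0) (nat_lit 0) (XT.lf (nat_lit 0) (nat_lit 738943648371) (nat_lit 76) (nat_lit 70916962533) (nat_lit 76) (nat_lit 59872339680) (nat_lit 1) (nat_lit 4) (nat_lit 2) (nat_lit 5) (nat_lit 2) (nat_lit 4) (nat_lit 324) (nat_lit 229) (nat_lit 167)) (XT.nd (nat_lit 78) (nat_lit 0) (nat_lit 0) (XT.lf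 (nat_lit 0) (nat_lit 805188726587) (nat_lit 76) (nat_lit 72487235794) (nat_lit 76) (nat_lit 61435626804) (nat_lit 1) (nat_lit 4) (nat_lit 2) (nat_lit 5) (nat_lit 2) (nat_lit 4) (nat_lit 325) (nat_lit 229) (nat_lit 166)) (XT.lf (nat_lit 0) (nat_lit 876724937372) (nat_lit 76) (nat_lit 74186948420) (nat_lit 76) (nat_lit 63128870785) (nat_lit 1) (nat_lit 4) (nat_lit 2) (nat_lit 5) (nat_lit 2) (nat_lit 4) (nat_lit 326) (nat_lit 229) (nat_lit 165)))))) (XT.nd (nat_lit 390) (nat_lit 532) (nat_lit 0) (XT.nd (nat_lit 156) (nat_lit 608) (nat_lit 0) (XT.nd (nat_lit 78) (nat_lit 228) (nat_lit 0) (XT.lf (nat_lit 0) (nat_lit 1743067964) (nat_lit 228) (nat_lit 1572355109) (nat_lit 0) (nat_lit 1743067964) (nat_lit 31) (nat_lit 5) (nat_lit 34) (nat_lit 4) (nat_lit 31) (nat_lit 4) (nat_lit 260) (nat_lit 230) (nat_lit 230)) (XT.lf (nat_lit 0) (nat_lit 6670998976) (nat_lit 228) (nat_lit 2574736975) (nat_lit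 228) (nat_lit 1320848884) (nat_lit 28) (nat_lit 4) (nat_lit 31) (nat_lit 5) (nat_lit 31) (nat_lit 4) (nat_lit 261) (nat_lit 230) (nat_lit 229))) (XT.nd (nat_lit 78) (nat_lit 380) (nat_lit 0) (XT.lf (nat_lit 0) (nat_lit 4108081081) (nat_lit 228) (nat_lit 5141514488) (nat_lit 0) (nat_lit 1808180527) (nat_lit 25) (nat_lit 5) (nat_lit 28) (nat_lit 4) (nat_lit 25) (nat_lit 4) (nat_lit 262) (nat_lit 230) (nat_lit 228)) (XT.nd (nat_lit 78) (nat_lit 228) (nat_lit 0) (XT.lf (nat_lit 0) (nat_lit 4648415462) (nat_lit 152) (nat_lit 5135164531) (nat_lit 152) (nat_lit 1811447847) (nat_lit 23) (nat_lit 4) (nat_lit 25) (nat_lit 5) (nat_lit 25) (nat_lit 4) (nat_lit 263) (nat_lit 230) (nat_lit 227)) (XT.lf (nat_lit 0) (nat_lit 2773060354) (nat_lit 152) (nat_lit 663405468) (nat_lit 228) (nat_lit 8745646773) (nat_lit 20) (nat_lit 5) (nat_lit 22) (nat_lit 5) (nat_lit 23) (nat_lit 4) (nat_lit 264) (nat_lit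 230) (nat_lit 226))))) (XT.nd (nat_lit 156) (nat_lit 304) (nat_lit 0) (XT.nd (nat_lit 78) (nat_lit 76) (nat_lit 0) (XT.lf (nat_lit 0) (nat_lit 133021587) (nat_lit 152) (nat_lit 8796056718) (nat_lit 152) (nat_lit 3891816818) (nat_lit 18) (nat_lit 4) (nat_lit 20) (nat_lit 5) (nat_lit 20) (nat_lit 4) (nat_lit 265) (nat_lit 230) (nat_lit 225)) (XT.lf (nat_lit 0) (nat_lit 1192186240) (nat_lit 228) (nat_lit 3234294537) (nat_lit 76) (nat_lit 9089548670) (nat_lit 17) (nat_lit 5) (nat_lit 20) (nat_lit 5) (nat_lit 18) (nat_lit 4) (nat_lit 266) (nat_lit 230) (nat_lit 224))) (XT.nd (nat_lit 78) (nat_lit 228) (nat_lit 0) (XT.lf (nat_lit 0) (nat_lit 6386564863) (nat_lit 152) (nat_lit 7589424797) (nat_lit 0) (nat_lit 296110834) (nat_lit 16) (nat_lit 5) (nat_lit 18) (nat_lit 4) (nat_lit 16) (nat_lit 4) (nat_lit 267) (nat_lit 230) (nat_lit 223)) (XT.nd (nat_lit 78) (nat_lit 76) (nat_lit 0) (XT.lf (nat_lit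 0) (nat_lit 1982346468) (nat_lit 152) (nat_lit 9917054203) (nat_lit 152) (nat_lit 3194589240) (nat_lit 14) (nat_lit 4) (nat_lit 16) (nat_lit 5) (nat_lit 16) (nat_lit 4) (nat_lit 268) (nat_lit 230) (nat_lit 222)) (XT.lf (nat_lit 0) (nat_lit 1694535815) (nat_lit 228) (nat_lit 3833861850) (nat_lit 76) (nat_lit 10458052942) (nat_lit 13) (nat_lit 5) (nat_lit 16) (nat_lit 5) (nat_lit 14) (nat_lit 4) (nat_lit 269) (nat_lit 230) (nat_lit 221))))))))
noncomputable def xc29 : XT := (XT.nd (nat_lit 1482) (nat_lit 76) (nat_lit 0) (XT.nd (nat_lit 702) (nat_lit 304) (nat_lit 0) (XT.nd (nat_lit 312) (nat_lit 228) (nat_lit 0) (XT.nd (nat_lit 156) (nat_lit 228) (nat_lit 0) (XT.nd (nat_lit 78) (nat_lit 0) (nat_lit 0) (XT.lf (nat_lit 0) (nat_lit 5934888253) (nat_lit 76) (nat_lit 789207373) (nat_lit 152) (nat_lit 10230922956) (nat_lit 12) (nat_lit 5) (nat_lit 13) (nat_lit 5) (nat_lit 14) (nat_lit 4) (nat_lit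 270) (nat_lit 230) (nat_lit 220)) (XT.lf (nat_lit 0) (nat_lit 12067701440) (nat_lit 152) (nat_lit 1823987827) (nat_lit 0) (nat_lit 4114160072) (nat_lit 12) (nat_lit 5) (nat_lit 14) (nat_lit 4) (nat_lit 12) (nat_lit 4) (nat_lit 271) (nat_lit 230) (nat_lit 219))) (XT.nd (nat_lit 78) (nat_lit 76) (nat_lit 0) (XT.lf (nat_lit 0) (nat_lit 7999063337) (nat_lit 152) (nat_lit 9770717787) (nat_lit 152) (nat_lit 1374750796) (nat_lit 10) (nat_lit 4) (nat_lit 12) (nat_lit 5) (nat_lit 12) (nat_lit 4) (nat_lit 272) (nat_lit 230) (nat_lit 218)) (XT.lf (nat_lit 0) (nat_lit 3271628890) (nat_lit 228) (nat_lit 2098781120) (nat_lit 76) (nat_lit 15009837418) (nat_lit 9) (nat_lit 5) (nat_lit 12) (nat_lit 5) (nat_lit 10) (nat_lit 4) (nat_lit 273) (nat_lit 230) (nat_lit 217)))) (XT.nd (nat_lit 156) (nat_lit 152) (nat_lit 0) (XT.nd (nat_lit 78) (nat_lit 0) (nat_lit 0) (XT.lf (nat_lit 0) (nat_lit 7573117115) (nat_lit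 76) (nat_lit 601539529) (nat_lit 152) (nat_lit 13542654806) (nat_lit 8) (nat_lit 5) (nat_lit 9) (nat_lit 5) (nat_lit 10) (nat_lit 4) (nat_lit 274) (nat_lit 230) (nat_lit 216)) (XT.lf (nat_lit 0) (nat_lit 13399357320) (nat_lit 152) (nat_lit 5448446205) (nat_lit 0) (nat_lit 4317318529) (nat_lit 8) (nat_lit 5) (nat_lit 10) (nat_lit 4) (nat_lit 8) (nat_lit 4) (nat_lit 275) (nat_lit 230) (nat_lit 215))) (XT.nd (nat_lit 78) (nat_lit 76) (nat_lit 0) (XT.lf (nat_lit 0) (nat_lit 3765344266) (nat_lit 76) (nat_lit 15180112823) (nat_lit 76) (nat_lit 5788363518) (nat_lit 7) (nat_lit 4) (nat_lit 8) (nat_lit 5) (nat_lit 8) (nat_lit 4) (nat_lit 276) (nat_lit 230) (nat_lit 214)) (XT.nd (nat_lit 78) (nat_lit 76) (nat_lit 0) (XT.lf (nat_lit 0) (nat_lit 13635326897) (nat_lit 76) (nat_lit 11237277681) (nat_lit 76) (nat_lit 1558759381) (nat_lit 7) (nat_lit 4) (nat_lit 8) (nat_lit 5) (nat_lit 8) (nat_lit 4)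 (nat_lit 277) (nat_lit 230) (nat_lit 213)) (XT.lf (nat_lit 0) (nat_lit 2764435211) (nat_lit 152) (nat_lit 4276952963) (nat_lit 76) (nat_lit 21228587978) (nat_lit 6) (nat_lit 5) (nat_lit 8) (nat_lit 5) (nat_lit 7) (nat_lit 4) (nat_lit 278) (nat_lit 230) (nat_lit 212)))))) (XT.nd (nat_lit 390) (nat_lit 152) (nat_lit 0) (XT.nd (nat_lit 156) (nat_lit 76) (nat_lit 0) (XT.nd (nat_lit 78) (nat_lit 0) (nat_lit 0) (XT.lf (nat_lit 0) (nat_lit 4810442160) (nat_lit 76) (nat_lit 2506799547) (nat_lit 152) (nat_lit 22940416662) (nat_lit 5) (nat_lit 5) (nat_lit 6) (nat_lit 5) (nat_lit 7) (nat_lit 4) (nat_lit 279) (nat_lit 230) (nat_lit 211)) (XT.lf (nat_lit 0) (nat_lit 12214883128) (nat_lit 152) (nat_lit 17897198382) (nat_lit 0) (nat_lit 2293407115) (nat_lit 5) (nat_lit 5) (nat_lit 7) (nat_lit 4) (nat_lit 5) (nat_lit 4) (nat_lit 280) (nat_lit 230) (nat_lit 210))) (XT.nd (nat_lit 78) (nat_lit 76) (nat_lit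 0) (XT.lf (nat_lit 0) (nat_lit 17423979178) (nat_lit 152) (nat_lit 10003579080) (nat_lit 0) (nat_lit 7301756716) (nat_lit 5) (nat_lit 5) (nat_lit 7) (nat_lit 4) (nat_lit 5) (nat_lit 4) (nat_lit 281) (nat_lit 230) (nat_lit 209)) (XT.nd (nat_lit 78) (nat_lit 76) (nat_lit 0) (XT.lf (nat_lit 0) (nat_lit 22936260409) (nat_lit 152) (nat_lit 1680443135) (nat_lit 0) (nat_lit 12628161604) (nat_lit 5) (nat_lit 5) (nat_lit 7) (nat_lit 4) (nat_lit 5) (nat_lit 4) (nat_lit 282) (nat_lit 230) (nat_lit 208)) (XT.lf (nat_lit 0) (nat_lit 7357001742) (nat_lit 76) (nat_lit 21542253862) (nat_lit 76) (nat_lit 11062047332) (nat_lit 4) (nat_lit 4) (nat_lit 5) (nat_lit 5) (nat_lit 5) (nat_lit 4) (nat_lit 283) (nat_lit 230) (nat_lit 207))))) (XT.nd (nat_lit 156) (nat_lit 152) (nat_lit 0) (XT.nd (nat_lit 78) (nat_lit 0) (nat_lit 0) (XT.lf (nat_lit 0) (nat_lit 16998565658) (nat_lit 76) (nat_lit 18269859705) (nat_lit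 76) (nat_lit 7630294171) (nat_lit 4) (nat_lit 4) (nat_lit 5) (nat_lit 5) (nat_lit 5) (nat_lit 4) (nat_lit 284) (nat_lit 230) (nat_lit 206)) (XT.lf (nat_lit 0) (nat_lit 27245820769) (nat_lit 76) (nat_lit 14808588224) (nat_lit 76) (nat_lit 4021468058) (nat_lit 4) (nat_lit 4) (nat_lit 5) (nat_lit 5) (nat_lit 5) (nat_lit 4) (nat_lit 285) (nat_lit 230) (nat_lit 205))) (XT.nd (nat_lit 78) (nat_lit 152) (nat_lit 0) (XT.lf (nat_lit 0) (nat_lit 38159491547) (nat_lit 76) (nat_lit 11137928183) (nat_lit 76) (nat_lit 214183355) (nat_lit 4) (nat_lit 4) (nat_lit 5) (nat_lit 5) (nat_lit 5) (nat_lit 4) (nat_lit 286) (nat_lit 230) (nat_lit 204)) (XT.nd (nat_lit 78) (nat_lit 76) (nat_lit 0) (XT.lf (nat_lit 0) (nat_lit 3692045910) (nat_lit 152) (nat_lit 3481555026) (nat_lit 76) (nat_lit 46049679105) (nat_lit 3) (nat_lit 5) (nat_lit 5) (nat_lit 5) (nat_lit 4) (nat_lit 4) (nat_lit 287) (nat_lit 230) (nat_lit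 203)) (XT.lf (nat_lit 0) (nat_lit 5042375664) (nat_lit 76) (nat_lit 2864823570) (nat_lit 152) (nat_lit 49324404251) (nat_lit 2) (nat_lit 5) (nat_lit 3) (nat_lit 5) (nat_lit 4) (nat_lit 4) (nat_lit 288) (nat_lit 230) (nat_lit 202))))))) (XT.nd (nat_lit 780) (nat_lit 0) (nat_lit 0) (XT.nd (nat_lit 390) (nat_lit 76) (nat_lit 0) (XT.nd (nat_lit 156) (nat_lit 0) (nat_lit 0) (XT.nd (nat_lit 78) (nat_lit 0) (nat_lit 0) (XT.lf (nat_lit 0) (nat_lit 12476893205) (nat_lit 152) (nat_lit 47344913178) (nat_lit 0) (nat_lit 1737998131) (nat_lit 2) (nat_lit 5) (nat_lit 4) (nat_lit 4) (nat_lit 2) (nat_lit 4) (nat_lit 289) (nat_lit 230) (nat_lit 201)) (XT.lf (nat_lit 0) (nat_lit 17393581630) (nat_lit 152) (nat_lit 42282635978) (nat_lit 0) (nat_lit 6559045409) (nat_lit 2) (nat_lit 5) (nat_lit 4) (nat_lit 4) (nat_lit 2) (nat_lit 4) (nat_lit 290) (nat_lit 230) (nat_lit 200))) (XT.nd (nat_lit 78) (nat_lit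 0) (nat_lit 0) (XT.lf (nat_lit 0) (nat_lit 22641672516) (nat_lit 152) (nat_lit 36927669618) (nat_lit 0) (nat_lit 11718579677) (nat_lit 2) (nat_lit 5) (nat_lit 4) (nat_lit 4) (nat_lit 2) (nat_lit 4) (nat_lit 291) (nat_lit 230) (nat_lit 199)) (XT.nd (nat_lit 78) (nat_lit 0) (nat_lit 0) (XT.lf (nat_lit 0) (nat_lit 28252265661) (nat_lit 152) (nat_lit 31248280965) (nat_lit 0) (nat_lit 17247175955) (nat_lit 2) (nat_lit 5) (nat_lit 4) (nat_lit 4) (nat_lit 2) (nat_lit 4) (nat_lit 292) (nat_lit 230) (nat_lit 198)) (XT.lf (nat_lit 0) (nat_lit 34258609025) (nat_lit 152) (nat_lit 25210814381) (nat_lit 0) (nat_lit 23177596292) (nat_lit 2) (nat_lit 5) (nat_lit 4) (nat_lit 4) (nat_lit 2) (nat_lit 4) (nat_lit 293) (nat_lit 230) (nat_lit 197))))) (XT.nd (nat_lit 156) (nat_lit 76) (nat_lit 0) (XT.nd (nat_lit 78) (nat_lit 0) (nat_lit 0) (XT.lf (nat_lit 0) (nat_lit 40696295753) (nat_lit 152) (nat_lit 18779492287)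 (nat_lit 0) (nat_lit 29544983922) (nat_lit 2) (nat_lit 5) (nat_lit 4) (nat_lit 4) (nat_lit 2) (nat_lit 4) (nat_lit 294) (nat_lit 230) (nat_lit 196)) (XT.lf (nat_lit 0) (nat_lit 47603475099) (nat_lit 152) (nat_lit 11916203144) (nat_lit 0) (nat_lit 36387071511) (nat_lit 2) (nat_lit 5) (nat_lit 4) (nat_lit 4) (nat_lit 2) (nat_lit 4) (nat_lit 295) (nat_lit 230) (nat_lit 195))) (XT.nd (nat_lit 78) (nat_lit 76) (nat_lit 0) (XT.lf (nat_lit 0) (nat_lit 55021078498) (nat_lit 152) (nat_lit 4580275610) (nat_lit 0) (nat_lit 43744404765) (nat_lit 2) (nat_lit 5) (nat_lit 4) (nat_lit 4) (nat_lit 2) (nat_lit 4) (nat_lit 296) (nat_lit 230) (nat_lit 194)) (XT.nd (nat_lit 78) (nat_lit 0) (nat_lit 0) (XT.lf (nat_lit 0) (nat_lit 3379941721) (nat_lit 76) (nat_lit 59665890759) (nat_lit 76) (nat_lit 48333411335) (nat_lit 1) (nat_lit 4) (nat_lit 2) (nat_lit 5) (nat_lit 2) (nat_lit 4) (nat_lit 297) (nat_lit 230)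 (nat_lit 193)) (XT.lf (nat_lit 0) (nat_lit 12072848258) (nat_lit 76) (nat_lit 59682310079) (nat_lit 76) (nat_lit 48298158719) (nat_lit 1) (nat_lit 4) (nat_lit 2) (nat_lit 5) (nat_lit 2) (nat_lit 4) (nat_lit 298) (nat_lit 230) (nat_lit 192)))))) (XT.nd (nat_lit 390) (nat_lit 0) (nat_lit 0) (XT.nd (nat_lit 156) (nat_lit 0) (nat_lit 0) (XT.nd (nat_lit 78) (nat_lit 0) (nat_lit 0) (XT.lf (nat_lit 0) (nat_lit 21398512923) (nat_lit 76) (nat_lit 59728278553) (nat_lit 76) (nat_lit 48296282808) (nat_lit 1) (nat_lit 4) (nat_lit 2) (nat_lit 5) (nat_lit 2) (nat_lit 4) (nat_lit 299) (nat_lit 230) (nat_lit 191)) (XT.lf (nat_lit 0) (nat_lit 31412198915) (nat_lit 76) (nat_lit 59804068586) (nat_lit 76) (nat_lit 48327772485) (nat_lit 1) (nat_lit 4) (nat_lit 2) (nat_lit 5) (nat_lit 2) (nat_lit 4) (nat_lit 300) (nat_lit 230) (nat_lit 190))) (XT.nd (nat_lit 78) (nat_lit 0) (nat_lit 0) (XT.lf (nat_lit 0) (nat_lit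 42173246594) (nat_lit 76) (nat_lit 59910129305) (nat_lit 76) (nat_lit 48392814355) (nat_lit 1) (nat_lit 4) (nat_lit 2) (nat_lit 5) (nat_lit 2) (nat_lit 4) (nat_lit 301) (nat_lit 230) (nat_lit 189)) (XT.nd (nat_lit 78) (nat_lit 0) (nat_lit 0) (XT.lf (nat_lit 0) (nat_lit 53745425133) (nat_lit 76) (nat_lit 60047089217) (nat_lit 76) (nat_lit 48491793852) (nat_lit 1) (nat_lit 4) (nat_lit 2) (nat_lit 5) (nat_lit 2) (nat_lit 4) (nat_lit 302) (nat_lit 230) (nat_lit 188)) (XT.lf (nat_lit 0) (nat_lit 66197310404) (nat_lit 76) (nat_lit 60215759937) (nat_lit 76) (nat_lit 48625297521) (nat_lit 1) (nat_lit 4) (nat_lit 2) (nat_lit 5) (nat_lit 2) (nat_lit 4) (nat_lit 303) (nat_lit 230) (nat_lit 187))))) (XT.nd (nat_lit 156) (nat_lit 0) (nat_lit 0) (XT.nd (nat_lit 78) (nat_lit 0) (nat_lit 0) (XT.lf (nat_lit 0) (nat_lit 79602691357) (nat_lit 76) (nat_lit 60417140995) (nat_lit 76) (nat_lit 48794116494)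 (nat_lit 1) (nat_lit 4) (nat_lit 2) (nat_lit 5) (nat_lit 2) (nat_lit 4) (nat_lit 304) (nat_lit 230) (nat_lit 186)) (XT.lf (nat_lit 0) (nat_lit 94041007286) (nat_lit 76) (nat_lit 60652425760) (nat_lit 76) (nat_lit 48999251181) (nat_lit 1) (nat_lit 4) (nat_lit 2) (nat_lit 5) (nat_lit 2) (nat_lit 4) (nat_lit 305) (nat_lit 230) (nat_lit 185))) (XT.nd (nat_lit 78) (nat_lit 0) (nat_lit 0) (XT.lf (nat_lit 0) (nat_lit 109597818582) (nat_lit 76) (nat_lit 60923008512) (nat_lit 76) (nat_lit 49241917194) (nat_lit 1) (nat_lit 4) (nat_lit 2) (nat_lit 5) (nat_lit 2) (nat_lit 4) (nat_lit 306) (nat_lit 230) (nat_lit 184)) (XT.nd (nat_lit 78) (nat_lit 0) (nat_lit 0) (XT.lf (nat_lit 0) (nat_lit 126365313757) (nat_lit 76) (nat_lit 61230492705) (nat_lit 76) (nat_lit 49523552555) (nat_lit 1) (nat_lit 4) (nat_lit 2) (nat_lit 5) (nat_lit 2) (nat_lit 4) (nat_lit 307) (nat_lit 230) (nat_lit 183)) (XT.lf (nat_lit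 0) (nat_lit 144442855745) (nat_lit 76) (nat_lit 61576700468) (nat_lit 76) (nat_lit 49845826213) (nat_lit 1) (nat_lit 4) (nat_lit 2) (nat_lit 5) (nat_lit 2) (nat_lit 4) (nat_lit 308) (nat_lit 230) (nat_lit 182))))))))
noncomputable def xc30 : XT := (XT.nd (nat_lit 33618) (nat_lit 0) (nat_lit 380) (XT.nd (nat_lit 702) (nat_lit 0) (nat_lit 0) (XT.nd (nat_lit 312) (nat_lit 0) (nat_lit 0) (XT.nd (nat_lit 156) (nat_lit 0) (nat_lit 0) (XT.nd (nat_lit 78) (nat_lit 0) (nat_lit 0) (XT.lf (nat_lit 0) (nat_lit 163937570720) (nat_lit 76) (nat_lit 61963683400) (nat_lit 76) (nat_lit 50210647938) (nat_lit 1) (nat_lit 4) (nat_lit 2) (nat_lit 5) (nat_lit 2) (nat_lit 4) (nat_lit 309) (nat_lit 230) (nat_lit 181)) (XT.lf (nat_lit 0) (nat_lit 184964982920) (nat_lit 76) (nat_lit 62393734736) (nat_lit 76) (nat_lit 50620179638) (nat_lit 1) (nat_lit 4) (nat_lit 2) (nat_lit 5) (nat_lit 2) (nat_lit 4) (nat_lit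 310) (nat_lit 230) (nat_lit 180))) (XT.nd (nat_lit 78) (nat_lit 0) (nat_lit 0) (XT.lf (nat_lit 0) (nat_lit 207649699231) (nat_lit 76) (nat_lit 62869402927) (nat_lit 76) (nat_lit 51076848165) (nat_lit 1) (nat_lit 4) (nat_lit 2) (nat_lit 5) (nat_lit 2) (nat_lit 4) (nat_lit 311) (nat_lit 230) (nat_lit 179)) (XT.lf (nat_lit 0) (nat_lit 232126147602) (nat_lit 76) (nat_lit 63393506748) (nat_lit 76) (nat_lit 51583359705) (nat_lit 1) (nat_lit 4) (nat_lit 2) (nat_lit 5) (nat_lit 2) (nat_lit 4) (nat_lit 312) (nat_lit 230) (nat_lit 178)))) (XT.nd (nat_lit 156) (nat_lit 0) (nat_lit 0) (XT.nd (nat_lit 78) (nat_lit 0) (nat_lit 0) (XT.lf (nat_lit 0) (nat_lit 258539373654) (nat_lit 76) (nat_lit 63969151999) (nat_lit 76) (nat_lit 52142715807) (nat_lit 1) (nat_lit 4) (nat_lit 2) (nat_lit 5) (nat_lit 2) (nat_lit 4) (nat_lit 313) (nat_lit 230) (nat_lit 177)) (XT.lf (nat_lit 0) (nat_lit 287045900206) (nat_lit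 76) (nat_lit 64599749911) (nat_lit 76) (nat_lit 52758231174) (nat_lit 1) (nat_lit 4) (nat_lit 2) (nat_lit 5) (nat_lit 2) (nat_lit 4) (nat_lit 314) (nat_lit 230) (nat_lit 176))) (XT.nd (nat_lit 78) (nat_lit 0) (nat_lit 0) (XT.lf (nat_lit 0) (nat_lit 317814654825) (nat_lit 76) (nat_lit 65289037361) (nat_lit 76) (nat_lit 53433553304) (nat_lit 1) (nat_lit 4) (nat_lit 2) (nat_lit 5) (nat_lit 2) (nat_lit 4) (nat_lit 315) (nat_lit 230) (nat_lit 175)) (XT.nd (nat_lit 78) (nat_lit 0) (nat_lit 0) (XT.lf (nat_lit 0) (nat_lit 351027970870) (nat_lit 76) (nat_lit 66041099016) (nat_lit 76) (nat_lit 54172684106) (nat_lit 1) (nat_lit 4) (nat_lit 2) (nat_lit 5) (nat_lit 2) (nat_lit 4) (nat_lit 316) (nat_lit 230) (nat_lit 174)) (XT.lf (nat_lit 0) (nat_lit 386882667992) (nat_lit 76) (nat_lit 66860391536) (nat_lit 76) (nat_lit 54980003615) (nat_lit 1) (nat_lit 4) (nat_lit 2) (nat_lit 5) (nat_lit 2) (nat_lit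 4) (nat_lit 317) (nat_lit 230) (nat_lit 173)))))) (XT.nd (nat_lit 390) (nat_lit 0) (nat_lit 0) (XT.nd (nat_lit 156) (nat_lit 0) (nat_lit 0) (XT.nd (nat_lit 78) (nat_lit 0) (nat_lit 0) (XT.lf (nat_lit 0) (nat_lit 425591218470) (nat_lit 76) (nat_lit 67751769988) (nat_lit 76) (nat_lit 55860295947) (nat_lit 1) (nat_lit 4) (nat_lit 2) (nat_lit 5) (nat_lit 2) (nat_lit 4) (nat_lit 318) (nat_lit 230) (nat_lit 172)) (XT.lf (nat_lit 0) (nat_lit 467383006308) (nat_lit 76) (nat_lit 68720516616) (nat_lit 76) (nat_lit 56818777648) (nat_lit 1) (nat_lit 4) (nat_lit 2) (nat_lit 5) (nat_lit 2) (nat_lit 4) (nat_lit 319) (nat_lit 230) (nat_lit 171))) (XT.nd (nat_lit 78) (nat_lit 0) (nat_lit 0) (XT.lf (nat_lit 0) (nat_lit 512505686544) (nat_lit 76) (nat_lit 69772372140) (nat_lit 76) (nat_lit 57861128610) (nat_lit 1) (nat_lit 4) (nat_lit 2) (nat_lit 5) (nat_lit 2) (nat_lit 4) (nat_lit 320) (nat_lit 230) (nat_lit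 170)) (XT.nd (nat_lit 78) (nat_lit 0) (nat_lit 0) (XT.lf (nat_lit 0) (nat_lit 561226652840) (nat_lit 76) (nat_lit 70913569778) (nat_lit 76) (nat_lit 58993525727) (nat_lit 1) (nat_lit 4) (nat_lit 2) (nat_lit 5) (nat_lit 2) (nat_lit 4) (nat_lit 321) (nat_lit 230) (nat_lit 169)) (XT.lf (nat_lit 0) (nat_lit 613834622031) (nat_lit 76) (nat_lit 72150872183) (nat_lit 76) (nat_lit 60222679502) (nat_lit 1) (nat_lit 4) (nat_lit 2) (nat_lit 5) (nat_lit 2) (nat_lit 4) (nat_lit 322) (nat_lit 230) (nat_lit 168))))) (XT.nd (nat_lit 156) (nat_lit 0) (nat_lit 0) (XT.nd (nat_lit 78) (nat_lit 0) (nat_lit 0) (XT.lf (nat_lit 0) (nat_lit 670641345048) (nat_lit 76) (nat_lit 73491611517) (nat_lit 76) (nat_lit 61555873808) (nat_lit 1) (nat_lit 4) (nat_lit 2) (nat_lit 5) (nat_lit 2) (nat_lit 4) (nat_lit 323) (nat_lit 230) (nat_lit 167)) (XT.lf (nat_lit 0) (nat_lit 731983454321) (nat_lit 76) (nat_lit 74943732901)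 (nat_lit 76) (nat_lit 63001009056) (nat_lit 1) (nat_lit 4) (nat_lit 2) (nat_lit 5) (nat_lit 2) (nat_lit 4) (nat_lit 324) (nat_lit 230) (nat_lit 166))) (XT.nd (nat_lit 78) (nat_lit 0) (nat_lit 0) (XT.lf (nat_lit 0) (nat_lit 798224458648) (nat_lit 76) (nat_lit 76515841501) (nat_lit 76) (nat_lit 64566649010) (nat_lit 1) (nat_lit 4) (nat_lit 2) (nat_lit 5) (nat_lit 2) (nat_lit 4) (nat_lit 325) (nat_lit 230) (nat_lit 165)) (XT.nd (nat_lit 32214) (nat_lit 0) (nat_lit 2736) (XT.lf (nat_lit 0) (nat_lit 869756897314) (nat_lit 76) (nat_lit 78217253514) (nat_lit 76) (nat_lit 66262071537) (nat_lit 1) (nat_lit 4) (nat_lit 2) (nat_lit 5) (nat_lit 2) (nat_lit 4) (nat_lit 326) (nat_lit 230) (nat_lit 164)) (XT.lf (nat_lit 0) (nat_lit 1709781070) (nat_lit 304) (nat_lit 1244015170) (nat_lit 0) (nat_lit 1709781070) (nat_lit 37) (nat_lit 5) (nat_lit 41) (nat_lit 4) (nat_lit 37) (nat_lit 4) (nat_lit 258)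 (nat_lit 231) (nat_lit 231))))))) (XT.nd (nat_lit 780) (nat_lit 760) (nat_lit 0) (XT.nd (nat_lit 390) (nat_lit 532) (nat_lit 0) (XT.nd (nat_lit 156) (nat_lit 608) (nat_lit 0) (XT.nd (nat_lit 78) (nat_lit 228) (nat_lit 0) (XT.lf (nat_lit 0) (nat_lit 6951013327) (nat_lit 228) (nat_lit 2089815401) (nat_lit 228) (nat_lit 667906307) (nat_lit 34) (nat_lit 4) (nat_lit 37) (nat_lit 5) (nat_lit 37) (nat_lit 4) (nat_lit 259) (nat_lit 231) (nat_lit 230)) (XT.lf (nat_lit 0) (nat_lit 4669936198) (nat_lit 228) (nat_lit 3394172810) (nat_lit 0) (nat_lit 2061848970) (nat_lit 31) (nat_lit 5) (nat_lit 34) (nat_lit 4) (nat_lit 31) (nat_lit 4) (nat_lit 260) (nat_lit 231) (nat_lit 229))) (XT.nd (nat_lit 78) (nat_lit 380) (nat_lit 0) (XT.lf (nat_lit 0) (nat_lit 6174666773) (nat_lit 228) (nat_lit 4089343581) (nat_lit 228) (nat_lit 320248862) (nat_lit 28) (nat_lit 4) (nat_lit 31) (nat_lit 5) (nat_lit 31) (nat_lit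 4) (nat_lit 261) (nat_lit 231) (nat_lit 228)) (XT.nd (nat_lit 78) (nat_lit 152) (nat_lit 0) (XT.lf (nat_lit 0) (nat_lit 4887347161) (nat_lit 228) (nat_lit 5923242916) (nat_lit 0) (nat_lit 273917013) (nat_lit 25) (nat_lit 5) (nat_lit 28) (nat_lit 4) (nat_lit 25) (nat_lit 4) (nat_lit 262) (nat_lit 231) (nat_lit 227)) (XT.lf (nat_lit 0) (nat_lit 3610505819) (nat_lit 152) (nat_lit 6790547704) (nat_lit 152) (nat_lit 1229139657) (nat_lit 23) (nat_lit 4) (nat_lit 25) (nat_lit 5) (nat_lit 25) (nat_lit 4) (nat_lit 263) (nat_lit 231) (nat_lit 226))))) (XT.nd (nat_lit 156) (nat_lit 304) (nat_lit 0) (XT.nd (nat_lit 78) (nat_lit 0) (nat_lit 0) (XT.lf (nat_lit 0) (nat_lit 1429668610) (nat_lit 152) (nat_lit 2408786984) (nat_lit 228) (nat_lit 8386755798) (nat_lit 20) (nat_lit 5) (nat_lit 22) (nat_lit 5) (nat_lit 23) (nat_lit 4) (nat_lit 264) (nat_lit 231) (nat_lit 225)) (XT.lf (nat_lit 0) (nat_lit 9167023671)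 (nat_lit 228) (nat_lit 1445005135) (nat_lit 0) (nat_lit 2260448803) (nat_lit 20) (nat_lit 5) (nat_lit 23) (nat_lit 4) (nat_lit 20) (nat_lit 4) (nat_lit 265) (nat_lit 231) (nat_lit 224))) (XT.nd (nat_lit 78) (nat_lit 76) (nat_lit 0) (XT.lf (nat_lit 0) (nat_lit 1218603997) (nat_lit 228) (nat_lit 5125137072) (nat_lit 76) (nat_lit 7231672607) (nat_lit 17) (nat_lit 5) (nat_lit 20) (nat_lit 5) (nat_lit 18) (nat_lit 4) (nat_lit 266) (nat_lit 231) (nat_lit 223)) (XT.nd (nat_lit 78) (nat_lit 0) (nat_lit 0) (XT.lf (nat_lit 0) (nat_lit 4533682121) (nat_lit 76) (nat_lit 1720253912) (nat_lit 152) (nat_lit 8085730842) (nat_lit 16) (nat_lit 5) (nat_lit 17) (nat_lit 5) (nat_lit 18) (nat_lit 4) (nat_lit 267) (nat_lit 231) (nat_lit 222)) (XT.lf (nat_lit 0) (nat_lit 11593247812) (nat_lit 152) (nat_lit 461418070) (nat_lit 0) (nat_lit 3115779409) (nat_lit 16) (nat_lit 5) (nat_lit 18) (nat_lit 4) (nat_lit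 16) (nat_lit 4) (nat_lit 268) (nat_lit 231) (nat_lit 221)))))) (XT.nd (nat_lit 390) (nat_lit 228) (nat_lit 0) (XT.nd (nat_lit 156) (nat_lit 228) (nat_lit 0) (XT.nd (nat_lit 78) (nat_lit 76) (nat_lit 0) (XT.lf (nat_lit 0) (nat_lit 1204624132) (nat_lit 228) (nat_lit 6549836439) (nat_lit 76) (nat_lit 8314909213) (nat_lit 13) (nat_lit 5) (nat_lit 16) (nat_lit 5) (nat_lit 14) (nat_lit 4) (nat_lit 269) (nat_lit 231) (nat_lit 220)) (XT.lf (nat_lit 0) (nat_lit 2950982657) (nat_lit 76) (nat_lit 3132924281) (nat_lit 152) (nat_lit 10961718424) (nat_lit 12) (nat_lit 5) (nat_lit 13) (nat_lit 5) (nat_lit 14) (nat_lit 4) (nat_lit 270) (nat_lit 231) (nat_lit 219))) (XT.nd (nat_lit 78) (nat_lit 228) (nat_lit 0) (XT.lf (nat_lit 0) (nat_lit 11291300635) (nat_lit 152) (nat_lit 5030896310) (nat_lit 0) (nat_lit 1781230662) (nat_lit 12) (nat_lit 5) (nat_lit 14) (nat_lit 4) (nat_lit 12) (nat_lit 4) (nat_lit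 271) (nat_lit 231) (nat_lit 218)) (XT.nd (nat_lit 78) (nat_lit 76) (nat_lit 0) (XT.lf (nat_lit 0) (nat_lit 4524475897) (nat_lit 152) (nat_lit 12322415515) (nat_lit 152) (nat_lit 2402692187) (nat_lit 10) (nat_lit 4) (nat_lit 12) (nat_lit 5) (nat_lit 12) (nat_lit 4) (nat_lit 272) (nat_lit 231) (nat_lit 217)) (XT.lf (nat_lit 0) (nat_lit 2187271106) (nat_lit 228) (nat_lit 5815126221) (nat_lit 76) (nat_lit 12488301441) (nat_lit 9) (nat_lit 5) (nat_lit 12) (nat_lit 5) (nat_lit 10) (nat_lit 4) (nat_lit 273) (nat_lit 231) (nat_lit 216))))) (XT.nd (nat_lit 156) (nat_lit 152) (nat_lit 0) (XT.nd (nat_lit 78) (nat_lit 0) (nat_lit 0) (XT.lf (nat_lit 0) (nat_lit 3587776381) (nat_lit 76) (nat_lit 3357599274) (nat_lit 152) (nat_lit 14889754927) (nat_lit 8) (nat_lit 5) (nat_lit 9) (nat_lit 5) (nat_lit 10) (nat_lit 4) (nat_lit 274) (nat_lit 231) (nat_lit 215)) (XT.lf (nat_lit 0) (nat_lit 12047475557)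 (nat_lit 152) (nat_lit 9647032498) (nat_lit 0) (nat_lit 1594675792) (nat_lit 8) (nat_lit 5) (nat_lit 10) (nat_lit 4) (nat_lit 8) (nat_lit 4) (nat_lit 275) (nat_lit 231) (nat_lit 214))) (XT.nd (nat_lit 78) (nat_lit 152) (nat_lit 0) (XT.lf (nat_lit 0) (nat_lit 17461110938) (nat_lit 152) (nat_lit 681956782) (nat_lit 0) (nat_lit 6721542178) (nat_lit 8) (nat_lit 5) (nat_lit 10) (nat_lit 4) (nat_lit 8) (nat_lit 4) (nat_lit 276) (nat_lit 231) (nat_lit 213)) (XT.nd (nat_lit 78) (nat_lit 76) (nat_lit 0) (XT.lf (nat_lit 0) (nat_lit 9042848478) (nat_lit 76) (nat_lit 14264276796) (nat_lit 76) (nat_lit 3259181189) (nat_lit 7) (nat_lit 4) (nat_lit 8) (nat_lit 5) (nat_lit 8) (nat_lit 4) (nat_lit 277) (nat_lit 231) (nat_lit 212)) (XT.lf (nat_lit 0) (nat_lit 1052347659) (nat_lit 152) (nat_lit 9093641096) (nat_lit 76) (nat_lit 18263646957) (nat_lit 6) (nat_lit 5) (nat_lit 8) (nat_lit 5) (nat_lit 7) (nat_lit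 4) (nat_lit 278) (nat_lit 231) (nat_lit 211))))))))
noncomputable def xc31 : XT := (XT.nd (nat_lit 1482) (nat_lit 76) (nat_lit 0) (XT.nd (nat_lit 702) (nat_lit 76) (nat_lit 0) (XT.nd (nat_lit 312) (nat_lit 152) (nat_lit 0) (XT.nd (nat_lit 156) (nat_lit 0) (nat_lit 0) (XT.nd (nat_lit 78) (nat_lit 76) (nat_lit 0) (XT.lf (nat_lit 0) (nat_lit 5468855355) (nat_lit 152) (nat_lit 267446793) (nat_lit 76) (nat_lit 24667909559) (nat_lit 6) (nat_lit 5) (nat_lit 8) (nat_lit 5) (nat_lit 7) (nat_lit 4) (nat_lit 279) (nat_lit 231) (nat_lit 210)) (XT.lf (nat_lit 0) (nat_lit 9357821995) (nat_lit 76) (nat_lit 909107780) (nat_lit 152) (nat_lit 22290163538) (nat_lit 5) (nat_lit 5) (nat_lit 6) (nat_lit 5) (nat_lit 7) (nat_lit 4) (nat_lit 280) (nat_lit 231) (nat_lit 209))) (XT.nd (nat_lit 78) (nat_lit 0) (nat_lit 0) (XT.lf (nat_lit 0) (nat_lit 15407244363) (nat_lit 152) (nat_lit 15388560653) (nat_lit 0) (nat_lit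 4088621311) (nat_lit 5) (nat_lit 5) (nat_lit 7) (nat_lit 4) (nat_lit 5) (nat_lit 4) (nat_lit 281) (nat_lit 231) (nat_lit 208)) (XT.lf (nat_lit 0) (nat_lit 20868981387) (nat_lit 152) (nat_lit 7155334296) (nat_lit 0) (nat_lit 9378250611) (nat_lit 5) (nat_lit 5) (nat_lit 7) (nat_lit 4) (nat_lit 5) (nat_lit 4) (nat_lit 282) (nat_lit 231) (nat_lit 207)))) (XT.nd (nat_lit 156) (nat_lit 76) (nat_lit 0) (XT.nd (nat_lit 78) (nat_lit 0) (nat_lit 0) (XT.lf (nat_lit 0) (nat_lit 1615083726) (nat_lit 76) (nat_lit 25080445234) (nat_lit 76) (nat_lit 13430355454) (nat_lit 4) (nat_lit 4) (nat_lit 5) (nat_lit 5) (nat_lit 5) (nat_lit 4) (nat_lit 283) (nat_lit 231) (nat_lit 206)) (XT.lf (nat_lit 0) (nat_lit 11177015950) (nat_lit 76) (nat_lit 21843105985) (nat_lit 76) (nat_lit 10045461572) (nat_lit 4) (nat_lit 4) (nat_lit 5) (nat_lit 5) (nat_lit 5) (nat_lit 4) (nat_lit 284) (nat_lit 231) (nat_lit 205))) (XT.nd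 (nat_lit 78) (nat_lit 76) (nat_lit 0) (XT.lf (nat_lit 0) (nat_lit 21350538012) (nat_lit 76) (nat_lit 18414292753) (nat_lit 76) (nat_lit 6480023679) (nat_lit 4) (nat_lit 4) (nat_lit 5) (nat_lit 5) (nat_lit 5) (nat_lit 4) (nat_lit 285) (nat_lit 231) (nat_lit 204)) (XT.nd (nat_lit 78) (nat_lit 76) (nat_lit 0) (XT.lf (nat_lit 0) (nat_lit 32195937450) (nat_lit 76) (nat_lit 14773686646) (nat_lit 76) (nat_lit 2712913256) (nat_lit 4) (nat_lit 4) (nat_lit 5) (nat_lit 5) (nat_lit 5) (nat_lit 4) (nat_lit 286) (nat_lit 231) (nat_lit 203)) (XT.lf (nat_lit 0) (nat_lit 1237283145) (nat_lit 152) (nat_lit 9641476565) (nat_lit 76) (nat_lit 42519246162) (nat_lit 3) (nat_lit 5) (nat_lit 5) (nat_lit 5) (nat_lit 4) (nat_lit 4) (nat_lit 287) (nat_lit 231) (nat_lit 202)))))) (XT.nd (nat_lit 390) (nat_lit 0) (nat_lit 0) (XT.nd (nat_lit 156) (nat_lit 0) (nat_lit 0) (XT.nd (nat_lit 78) (nat_lit 76) (nat_lit 0)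 (XT.lf (nat_lit 0) (nat_lit 5340370276) (nat_lit 152) (nat_lit 1338605008) (nat_lit 76) (nat_lit 50732994905) (nat_lit 3) (nat_lit 5) (nat_lit 5) (nat_lit 5) (nat_lit 4) (nat_lit 4) (nat_lit 288) (nat_lit 231) (nat_lit 201)) (XT.lf (nat_lit 0) (nat_lit 7762005810) (nat_lit 76) (nat_lit 2066673745) (nat_lit 152) (nat_lit 51915595675) (nat_lit 2) (nat_lit 5) (nat_lit 3) (nat_lit 5) (nat_lit 4) (nat_lit 4) (nat_lit 289) (nat_lit 231) (nat_lit 200))) (XT.nd (nat_lit 78) (nat_lit 0) (nat_lit 0) (XT.lf (nat_lit 0) (nat_lit 14683326117) (nat_lit 152) (nat_lit 48941712678) (nat_lit 0) (nat_lit 2797829233) (nat_lit 2) (nat_lit 5) (nat_lit 4) (nat_lit 4) (nat_lit 2) (nat_lit 4) (nat_lit 290) (nat_lit 231) (nat_lit 199)) (XT.nd (nat_lit 78) (nat_lit 0) (nat_lit 0) (XT.lf (nat_lit 0) (nat_lit 19903847286) (nat_lit 152) (nat_lit 43636734307) (nat_lit 0) (nat_lit 7936353534) (nat_lit 2) (nat_lit 5)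 (nat_lit 4) (nat_lit 4) (nat_lit 2) (nat_lit 4) (nat_lit 291) (nat_lit 231) (nat_lit 198)) (XT.lf (nat_lit 0) (nat_lit 25488912915) (nat_lit 152) (nat_lit 38003630827) (nat_lit 0) (nat_lit 13445496138) (nat_lit 2) (nat_lit 5) (nat_lit 4) (nat_lit 4) (nat_lit 2) (nat_lit 4) (nat_lit 292) (nat_lit 231) (nat_lit 197))))) (XT.nd (nat_lit 156) (nat_lit 0) (nat_lit 0) (XT.nd (nat_lit 78) (nat_lit 0) (nat_lit 0) (XT.lf (nat_lit 0) (nat_lit 31471619689) (nat_lit 152) (nat_lit 32009020886) (nat_lit 0) (nat_lit 19357903814) (nat_lit 2) (nat_lit 5) (nat_lit 4) (nat_lit 4) (nat_lit 2) (nat_lit 4) (nat_lit 293) (nat_lit 231) (nat_lit 196)) (XT.lf (nat_lit 0) (nat_lit 37887420687) (nat_lit 152) (nat_lit 25617380868) (nat_lit 0) (nat_lit 25708613054) (nat_lit 2) (nat_lit 5) (nat_lit 4) (nat_lit 4) (nat_lit 2) (nat_lit 4) (nat_lit 294) (nat_lit 231) (nat_lit 195))) (XT.nd (nat_lit 78) (nat_lit 0) (nat_lit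 0) (XT.lf (nat_lit 0) (nat_lit 44774335468) (nat_lit 152) (nat_lit 18790834389) (nat_lit 0) (nat_lit 32535257690) (nat_lit 2) (nat_lit 5) (nat_lit 4) (nat_lit 4) (nat_lit 2) (nat_lit 4) (nat_lit 295) (nat_lit 231) (nat_lit 194)) (XT.nd (nat_lit 78) (nat_lit 0) (nat_lit 0) (XT.lf (nat_lit 0) (nat_lit 52173175381) (nat_lit 152) (nat_lit 11488927840) (nat_lit 0) (nat_lit 39878291912) (nat_lit 2) (nat_lit 5) (nat_lit 4) (nat_lit 4) (nat_lit 2) (nat_lit 4) (nat_lit 296) (nat_lit 231) (nat_lit 193)) (XT.lf (nat_lit 0) (nat_lit 60127785402) (nat_lit 152) (nat_lit 3668390663) (nat_lit 0) (nat_lit 47781229998) (nat_lit 2) (nat_lit 5) (nat_lit 4) (nat_lit 4) (nat_lit 2) (nat_lit 4) (nat_lit 297) (nat_lit 231) (nat_lit 192))))))) (XT.nd (nat_lit 780) (nat_lit 0) (nat_lit 0) (XT.nd (nat_lit 390) (nat_lit 0) (nat_lit 0) (XT.nd (nat_lit 156) (nat_lit 0) (nat_lit 0) (XT.nd (nat_lit 78) (nat_lit 0)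 (nat_lit 0) (XT.lf (nat_lit 0) (nat_lit 4873090391) (nat_lit 76) (nat_lit 63888296168) (nat_lit 76) (nat_lit 51493896378) (nat_lit 1) (nat_lit 4) (nat_lit 2) (nat_lit 5) (nat_lit 2) (nat_lit 4) (nat_lit 298) (nat_lit 231) (nat_lit 191)) (XT.lf (nat_lit 0) (nat_lit 14170855130) (nat_lit 76) (nat_lit 63946833912) (nat_lit 76) (nat_lit 51508133766) (nat_lit 1) (nat_lit 4) (nat_lit 2) (nat_lit 5) (nat_lit 2) (nat_lit 4) (nat_lit 299) (nat_lit 231) (nat_lit 190))) (XT.nd (nat_lit 78) (nat_lit 0) (nat_lit 0) (XT.lf (nat_lit 0) (nat_lit 24158707856) (nat_lit 76) (nat_lit 64034262158) (nat_lit 76) (nat_lit 51554543163) (nat_lit 1) (nat_lit 4) (nat_lit 2) (nat_lit 5) (nat_lit 2) (nat_lit 4) (nat_lit 300) (nat_lit 231) (nat_lit 189)) (XT.nd (nat_lit 78) (nat_lit 0) (nat_lit 0) (XT.lf (nat_lit 0) (nat_lit 34895835846) (nat_lit 76) (nat_lit 64151098999) (nat_lit 76) (nat_lit 51633399590) (nat_lit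 1) (nat_lit 4) (nat_lit 2) (nat_lit 5) (nat_lit 2) (nat_lit 4) (nat_lit 301) (nat_lit 231) (nat_lit 188)) (XT.lf (nat_lit 0) (nat_lit 46445866524) (nat_lit 76) (nat_lit 64298036803) (nat_lit 76) (nat_lit 51745170343) (nat_lit 1) (nat_lit 4) (nat_lit 2) (nat_lit 5) (nat_lit 2) (nat_lit 4) (nat_lit 302) (nat_lit 231) (nat_lit 187))))) (XT.nd (nat_lit 156) (nat_lit 0) (nat_lit 0) (XT.nd (nat_lit 78) (nat_lit 0) (nat_lit 0) (XT.lf (nat_lit 0) (nat_lit 58877244516) (nat_lit 76) (nat_lit 64475946312) (nat_lit 76) (nat_lit 51890517767) (nat_lit 1) (nat_lit 4) (nat_lit 2) (nat_lit 5) (nat_lit 2) (nat_lit 4) (nat_lit 303) (nat_lit 231) (nat_lit 186)) (XT.lf (nat_lit 0) (nat_lit 72263637248) (nat_lit 76) (nat_lit 64685881804) (nat_lit 76) (nat_lit 52070303180) (nat_lit 1) (nat_lit 4) (nat_lit 2) (nat_lit 5) (nat_lit 2) (nat_lit 4) (nat_lit 304) (nat_lit 231) (nat_lit 185))) (XT.nd (nat_lit 78)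 (nat_lit 0) (nat_lit 0) (XT.lf (nat_lit 0) (nat_lit 86684371491) (nat_lit 76) (nat_lit 64929087341) (nat_lit 76) (nat_lit 52285591978) (nat_lit 1) (nat_lit 4) (nat_lit 2) (nat_lit 5) (nat_lit 2) (nat_lit 4) (nat_lit 305) (nat_lit 231) (nat_lit 184)) (XT.nd (nat_lit 78) (nat_lit 0) (nat_lit 0) (XT.lf (nat_lit 0) (nat_lit 102224903448) (nat_lit 76) (nat_lit 65207004142) (nat_lit 76) (nat_lit 52537659947) (nat_lit 1) (nat_lit 4) (nat_lit 2) (nat_lit 5) (nat_lit 2) (nat_lit 4) (nat_lit 306) (nat_lit 231) (nat_lit 183)) (XT.lf (nat_lit 0) (nat_lit 118977325161) (nat_lit 76) (nat_lit 65521279120) (nat_lit 76) (nat_lit 52828000821) (nat_lit 1) (nat_lit 4) (nat_lit 2) (nat_lit 5) (nat_lit 2) (nat_lit 4) (nat_lit 307) (nat_lit 231) (nat_lit 182)))))) (XT.nd (nat_lit 390) (nat_lit 0) (nat_lit 0) (XT.nd (nat_lit 156) (nat_lit 0) (nat_lit 0) (XT.nd (nat_lit 78) (nat_lit 0) (nat_lit 0) (XT.lf (nat_lit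 0) (nat_lit 137040910239) (nat_lit 76) (nat_lit 65873774646) (nat_lit 76) (nat_lit 53158335140) (nat_lit 1) (nat_lit 4) (nat_lit 2) (nat_lit 5) (nat_lit 2) (nat_lit 4) (nat_lit 308) (nat_lit 231) (nat_lit 181)) (XT.lf (nat_lit 0) (nat_lit 156522702150) (nat_lit 76) (nat_lit 66266579583) (nat_lit 76) (nat_lit 53530620440) (nat_lit 1) (nat_lit 4) (nat_lit 2) (nat_lit 5) (nat_lit 2) (nat_lit 4) (nat_lit 309) (nat_lit 231) (nat_lit 180))) (XT.nd (nat_lit 78) (nat_lit 0) (nat_lit 0) (XT.lf (nat_lit 0) (nat_lit 177538148549) (nat_lit 76) (nat_lit 66702021663) (nat_lit 76) (nat_lit 53947062857) (nat_lit 1) (nat_lit 4) (nat_lit 2) (nat_lit 5) (nat_lit 2) (nat_lit 4) (nat_lit 310) (nat_lit 231) (nat_lit 179)) (XT.nd (nat_lit 78) (nat_lit 0) (nat_lit 0) (XT.lf (nat_lit 0) (nat_lit 200211785416) (nat_lit 76) (nat_lit 67182681285) (nat_lit 76) (nat_lit 54410130197) (nat_lit 1) (nat_lit 4) (nat_lit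 2) (nat_lit 5) (nat_lit 2) (nat_lit 4) (nat_lit 311) (nat_lit 231) (nat_lit 178)) (XT.lf (nat_lit 0) (nat_lit 224677975042) (nat_lit 76) (nat_lit 67711406800) (nat_lit 76) (nat_lit 54922566563) (nat_lit 1) (nat_lit 4) (nat_lit 2) (nat_lit 5) (nat_lit 2) (nat_lit 4) (nat_lit 312) (nat_lit 231) (nat_lit 177))))) (XT.nd (nat_lit 156) (nat_lit 0) (nat_lit 0) (XT.nd (nat_lit 78) (nat_lit 0) (nat_lit 0) (XT.lf (nat_lit 0) (nat_lit 251081702256) (nat_lit 76) (nat_lit 68291331398) (nat_lit 76) (nat_lit 55487408615) (nat_lit 1) (nat_lit 4) (nat_lit 2) (nat_lit 5) (nat_lit 2) (nat_lit 4) (nat_lit 313) (nat_lit 231) (nat_lit 176)) (XT.lf (nat_lit 0) (nat_lit 279579433588) (nat_lit 76) (nat_lit 68925891668) (nat_lit 76) (nat_lit 56108003566) (nat_lit 1) (nat_lit 4) (nat_lit 2) (nat_lit 5) (nat_lit 2) (nat_lit 4) (nat_lit 314) (nat_lit 231) (nat_lit 175))) (XT.nd (nat_lit 78) (nat_lit 0) (nat_lit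 0) (XT.lf (nat_lit 0) (nat_lit 310340044484) (nat_lit 76) (nat_lit 69618847968) (nat_lit 76) (nat_lit 56788029014) (nat_lit 1) (nat_lit 4) (nat_lit 2) (nat_lit 5) (nat_lit 2) (nat_lit 4) (nat_lit 315) (nat_lit 231) (nat_lit 174)) (XT.nd (nat_lit 78) (nat_lit 0) (nat_lit 0) (XT.lf (nat_lit 0) (nat_lit 343545820045) (nat_lit 76) (nat_lit 70374306706) (nat_lit 76) (nat_lit 57531514741) (nat_lit 1) (nat_lit 4) (nat_lit 2) (nat_lit 5) (nat_lit 2) (nat_lit 4) (nat_lit 316) (nat_lit 231) (nat_lit 173)) (XT.lf (nat_lit 0) (nat_lit 379393535238) (nat_lit 76) (nat_lit 71196744673) (nat_lit 76) (nat_lit 58342866587) (nat_lit 1) (nat_lit 4) (nat_lit 2) (nat_lit 5) (nat_lit 2) (nat_lit 4) (nat_lit 317) (nat_lit 231) (nat_lit 172))))))))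
noncomputable def xc32 : XT := (XT.nd (nat_lit 33462) (nat_lit 0) (nat_lit 228) (XT.nd (nat_lit 32682) (nat_lit 0) (nat_lit 1444) (XT.nd (nat_lit 312) (nat_lit 0) (nat_lit 0) (XT.nd (nat_lit 156) (nat_lit 0) (nat_lit 0) (XT.nd (nat_lit 78) (nat_lit 0) (nat_lit 0) (XT.lf (nat_lit 0) (nat_lit 418095620967) (nat_lit 76) (nat_lit 72091035577) (nat_lit 76) (nat_lit 59226892565) (nat_lit 1) (nat_lit 4) (nat_lit 2) (nat_lit 5) (nat_lit 2) (nat_lit 4) (nat_lit 318) (nat_lit 231) (nat_lit 171)) (XT.lf (nat_lit 0) (nat_lit 459881422925) (nat_lit 76) (nat_lit 73062478920) (nat_lit 76) (nat_lit 60188831345) (nat_lit 1) (nat_lit 4) (nat_lit 2) (nat_lit 5) (nat_lit 2) (nat_lit 4) (nat_lit 319) (nat_lit 231) (nat_lit 170))) (XT.nd (nat_lit 78) (nat_lit 0) (nat_lit 0) (XT.lf (nat_lit 0) (nat_lit 504998560681) (nat_lit 76) (nat_lit 74116831402) (nat_lit 76) (nat_lit 61234383306) (nat_lit 1) (nat_lit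 4) (nat_lit 2) (nat_lit 5) (nat_lit 2) (nat_lit 4) (nat_lit 320) (nat_lit 231) (nat_lit 169)) (XT.lf (nat_lit 0) (nat_lit 553714395049) (nat_lit 76) (nat_lit 75260341037) (nat_lit 76) (nat_lit 62369744312) (nat_lit 1) (nat_lit 4) (nat_lit 2) (nat_lit 5) (nat_lit 2) (nat_lit 4) (nat_lit 321) (nat_lit 231) (nat_lit 168)))) (XT.nd (nat_lit 156) (nat_lit 0) (nat_lit 0) (XT.nd (nat_lit 78) (nat_lit 0) (nat_lit 0) (XT.lf (nat_lit 0) (nat_lit 606317612457) (nat_lit 76) (nat_lit 76499784181) (nat_lit 76) (nat_lit 63601642428) (nat_lit 1) (nat_lit 4) (nat_lit 2) (nat_lit 5) (nat_lit 2) (nat_lit 4) (nat_lit 322) (nat_lit 231) (nat_lit 167)) (XT.lf (nat_lit 0) (nat_lit 663119935674) (nat_lit 76) (nat_lit 77842505680) (nat_lit 76) (nat_lit 64937377790) (nat_lit 1) (nat_lit 4) (nat_lit 2) (nat_lit 5) (nat_lit 2) (nat_lit 4) (nat_lit 323) (nat_lit 231) (nat_lit 166))) (XT.nd (nat_lit 78) (nat_lit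 0) (nat_lit 0) (XT.lf (nat_lit 0) (nat_lit 724457971059) (nat_lit 76) (nat_lit 79296462403) (nat_lit 76) (nat_lit 66384865868) (nat_lit 1) (nat_lit 4) (nat_lit 2) (nat_lit 5) (nat_lit 2) (nat_lit 4) (nat_lit 324) (nat_lit 231) (nat_lit 165)) (XT.nd (nat_lit 78) (nat_lit 0) (nat_lit 0) (XT.lf (nat_lit 0) (nat_lit 790695203266) (nat_lit 76) (nat_lit 80870270390) (nat_lit 76) (nat_lit 67952684369) (nat_lit 1) (nat_lit 4) (nat_lit 2) (nat_lit 5) (nat_lit 2) (nat_lit 4) (nat_lit 325) (nat_lit 231) (nat_lit 164)) (XT.lf (nat_lit 0) (nat_lit 862224149229) (nat_lit 76) (nat_lit 82573255910) (nat_lit 76) (nat_lit 69650124068) (nat_lit 1) (nat_lit 4) (nat_lit 2) (nat_lit 5) (nat_lit 2) (nat_lit 4) (nat_lit 326) (nat_lit 231) (nat_lit 163)))))) (XT.nd (nat_lit 390) (nat_lit 836) (nat_lit 0) (XT.nd (nat_lit 156) (nat_lit 760) (nat_lit 0) (XT.nd (nat_lit 78) (nat_lit 228) (nat_lit 0) (XT.lf (nat_lit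 0) (nat_lit 1554908183) (nat_lit 304) (nat_lit 1220171022) (nat_lit 0) (nat_lit 1554908183) (nat_lit 44) (nat_lit 5) (nat_lit 48) (nat_lit 4) (nat_lit 44) (nat_lit 4) (nat_lit 256) (nat_lit 232) (nat_lit 232)) (XT.lf (nat_lit 0) (nat_lit 6527990603) (nat_lit 228) (nat_lit 2033426842) (nat_lit 228) (nat_lit 420981929) (nat_lit 41) (nat_lit 4) (nat_lit 44) (nat_lit 5) (nat_lit 44) (nat_lit 4) (nat_lit 257) (nat_lit 232) (nat_lit 231))) (XT.nd (nat_lit 78) (nat_lit 456) (nat_lit 0) (XT.lf (nat_lit 0) (nat_lit 4783709061) (nat_lit 304) (nat_lit 2726400220) (nat_lit 0) (nat_lit 1826138144) (nat_lit 37) (nat_lit 5) (nat_lit 41) (nat_lit 4) (nat_lit 37) (nat_lit 4) (nat_lit 258) (nat_lit 232) (nat_lit 230)) (XT.nd (nat_lit 78) (nat_lit 152) (nat_lit 0) (XT.lf (nat_lit 0) (nat_lit 495751869) (nat_lit 304) (nat_lit 3257862079) (nat_lit 76) (nat_lit 5972603580) (nat_lit 33) (nat_lit 5) (nat_lit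 37) (nat_lit 5) (nat_lit 34) (nat_lit 4) (nat_lit 259) (nat_lit 232) (nat_lit 229)) (XT.lf (nat_lit 0) (nat_lit 5620264891) (nat_lit 228) (nat_lit 4144038883) (nat_lit 0) (nat_lit 388635103) (nat_lit 31) (nat_lit 5) (nat_lit 34) (nat_lit 4) (nat_lit 31) (nat_lit 4) (nat_lit 260) (nat_lit 232) (nat_lit 228))))) (XT.nd (nat_lit 156) (nat_lit 380) (nat_lit 0) (XT.nd (nat_lit 78) (nat_lit 152) (nat_lit 0) (XT.lf (nat_lit 0) (nat_lit 419134106) (nat_lit 304) (nat_lit 5447411805) (nat_lit 76) (nat_lit 4752828792) (nat_lit 27) (nat_lit 5) (nat_lit 31) (nat_lit 5) (nat_lit 28) (nat_lit 4) (nat_lit 261) (nat_lit 232) (nat_lit 227)) (XT.lf (nat_lit 0) (nat_lit 3872084676) (nat_lit 152) (nat_lit 1578694930) (nat_lit 228) (nat_lit 5677222719) (nat_lit 25) (nat_lit 5) (nat_lit 27) (nat_lit 5) (nat_lit 28) (nat_lit 4) (nat_lit 262) (nat_lit 232) (nat_lit 226))) (XT.nd (nat_lit 78) (nat_lit 228) (nat_lit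 0) (XT.lf (nat_lit 0) (nat_lit 2045957677) (nat_lit 152) (nat_lit 8734649872) (nat_lit 152) (nat_lit 902593971) (nat_lit 23) (nat_lit 4) (nat_lit 25) (nat_lit 5) (nat_lit 25) (nat_lit 4) (nat_lit 263) (nat_lit 232) (nat_lit 225)) (XT.nd (nat_lit 78) (nat_lit 152) (nat_lit 0) (XT.lf (nat_lit 0) (nat_lit 4001944564) (nat_lit 228) (nat_lit 440807796) (nat_lit 76) (nat_lit 7843124187) (nat_lit 22) (nat_lit 5) (nat_lit 25) (nat_lit 5) (nat_lit 23) (nat_lit 4) (nat_lit 264) (nat_lit 232) (nat_lit 224)) (XT.lf (nat_lit 0) (nat_lit 9166792171) (nat_lit 228) (nat_lit 3557842752) (nat_lit 0) (nat_lit 216954482) (nat_lit 20) (nat_lit 5) (nat_lit 23) (nat_lit 4) (nat_lit 20) (nat_lit 4) (nat_lit 265) (nat_lit 232) (nat_lit 223))))))) (XT.nd (nat_lit 702) (nat_lit 380) (nat_lit 0) (XT.nd (nat_lit 312) (nat_lit 304) (nat_lit 0) (XT.nd (nat_lit 156) (nat_lit 228) (nat_lit 0) (XT.nd (nat_lit 78) (nat_lit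 76) (nat_lit 0) (XT.lf (nat_lit 0) (nat_lit 996202939) (nat_lit 228) (nat_lit 7571233143) (nat_lit 76) (nat_lit 5085137204) (nat_lit 17) (nat_lit 5) (nat_lit 20) (nat_lit 5) (nat_lit 18) (nat_lit 4) (nat_lit 266) (nat_lit 232) (nat_lit 222)) (XT.lf (nat_lit 0) (nat_lit 1820923707) (nat_lit 76) (nat_lit 4056553342) (nat_lit 152) (nat_lit 8547265130) (nat_lit 16) (nat_lit 5) (nat_lit 17) (nat_lit 5) (nat_lit 18) (nat_lit 4) (nat_lit 267) (nat_lit 232) (nat_lit 221))) (XT.nd (nat_lit 78) (nat_lit 228) (nat_lit 0) (XT.lf (nat_lit 0) (nat_lit 11073168145) (nat_lit 152) (nat_lit 3399271068) (nat_lit 0) (nat_lit 790459452) (nat_lit 16) (nat_lit 5) (nat_lit 18) (nat_lit 4) (nat_lit 16) (nat_lit 4) (nat_lit 268) (nat_lit 232) (nat_lit 220)) (XT.lf (nat_lit 0) (nat_lit 459844574) (nat_lit 228) (nat_lit 9841737972) (nat_lit 76) (nat_lit 5868485103) (nat_lit 13) (nat_lit 5) (nat_lit 16) (nat_lit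 5) (nat_lit 14) (nat_lit 4) (nat_lit 269) (nat_lit 232) (nat_lit 219)))) (XT.nd (nat_lit 156) (nat_lit 228) (nat_lit 0) (XT.nd (nat_lit 78) (nat_lit 76) (nat_lit 0) (XT.lf (nat_lit 0) (nat_lit 5197045127) (nat_lit 228) (nat_lit 595023741) (nat_lit 76) (nat_lit 11361519353) (nat_lit 13) (nat_lit 5) (nat_lit 16) (nat_lit 5) (nat_lit 14) (nat_lit 4) (nat_lit 270) (nat_lit 232) (nat_lit 218)) (XT.lf (nat_lit 0) (nat_lit 9384300147) (nat_lit 76) (nat_lit 890530302) (nat_lit 152) (nat_lit 7943189400) (nat_lit 12) (nat_lit 5) (nat_lit 13) (nat_lit 5) (nat_lit 14) (nat_lit 4) (nat_lit 271) (nat_lit 232) (nat_lit 217))) (XT.nd (nat_lit 78) (nat_lit 76) (nat_lit 0) (XT.lf (nat_lit 0) (nat_lit 460606937) (nat_lit 152) (nat_lit 15207054029) (nat_lit 152) (nat_lit 3704790819) (nat_lit 10) (nat_lit 4) (nat_lit 12) (nat_lit 5) (nat_lit 12) (nat_lit 4) (nat_lit 272) (nat_lit 232) (nat_lit 216)) (XT.nd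 (nat_lit 78) (nat_lit 0) (nat_lit 0) (XT.lf (nat_lit 0) (nat_lit 844146894) (nat_lit 228) (nat_lit 10122973799) (nat_lit 76) (nat_lit 9651719406) (nat_lit 9) (nat_lit 5) (nat_lit 12) (nat_lit 5) (nat_lit 10) (nat_lit 4) (nat_lit 273) (nat_lit 232) (nat_lit 215)) (XT.lf (nat_lit 0) (nat_lit 5469661322) (nat_lit 228) (nat_lit 965865262) (nat_lit 76) (nat_lit 15534487458) (nat_lit 9) (nat_lit 5) (nat_lit 12) (nat_lit 5) (nat_lit 10) (nat_lit 4) (nat_lit 274) (nat_lit 232) (nat_lit 214)))))) (XT.nd (nat_lit 390) (nat_lit 152) (nat_lit 0) (XT.nd (nat_lit 156) (nat_lit 152) (nat_lit 0) (XT.nd (nat_lit 78) (nat_lit 0) (nat_lit 0) (XT.lf (nat_lit 0) (nat_lit 8958309112) (nat_lit 76) (nat_lit 1499294560) (nat_lit 152) (nat_lit 12972275790) (nat_lit 8) (nat_lit 5) (nat_lit 9) (nat_lit 5) (nat_lit 10) (nat_lit 4) (nat_lit 275) (nat_lit 232) (nat_lit 213)) (XT.lf (nat_lit 0) (nat_lit 15779611594)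 (nat_lit 152) (nat_lit 5601790357) (nat_lit 0) (nat_lit 3628581492) (nat_lit 8) (nat_lit 5) (nat_lit 10) (nat_lit 4) (nat_lit 8) (nat_lit 4) (nat_lit 276) (nat_lit 232) (nat_lit 212))) (XT.nd (nat_lit 78) (nat_lit 76) (nat_lit 0) (XT.lf (nat_lit 0) (nat_lit 3846797802) (nat_lit 76) (nat_lit 17634537225) (nat_lit 76) (nat_lit 5237648930) (nat_lit 7) (nat_lit 4) (nat_lit 8) (nat_lit 5) (nat_lit 8) (nat_lit 4) (nat_lit 277) (nat_lit 232) (nat_lit 211)) (XT.nd (nat_lit 78) (nat_lit 76) (nat_lit 0) (XT.lf (nat_lit 0) (nat_lit 14032631527) (nat_lit 76) (nat_lit 13579077159) (nat_lit 76) (nat_lit 954542391) (nat_lit 7) (nat_lit 4) (nat_lit 8) (nat_lit 5) (nat_lit 8) (nat_lit 4) (nat_lit 278) (nat_lit 232) (nat_lit 210)) (XT.lf (nat_lit 0) (nat_lit 3435855219) (nat_lit 152) (nat_lit 5791815340) (nat_lit 76) (nat_lit 21336807736) (nat_lit 6) (nat_lit 5) (nat_lit 8) (nat_lit 5) (nat_lit 7) (nat_lit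 4) (nat_lit 279) (nat_lit 232) (nat_lit 209))))) (XT.nd (nat_lit 156) (nat_lit 76) (nat_lit 0) (XT.nd (nat_lit 78) (nat_lit 0) (nat_lit 0) (XT.lf (nat_lit 0) (nat_lit 3555814860) (nat_lit 76) (nat_lit 4535064925) (nat_lit 152) (nat_lit 24633700200) (nat_lit 5) (nat_lit 5) (nat_lit 6) (nat_lit 5) (nat_lit 7) (nat_lit 4) (nat_lit 280) (nat_lit 232) (nat_lit 208)) (XT.lf (nat_lit 0) (nat_lit 13124038814) (nat_lit 152) (nat_lit 21391352696) (nat_lit 0) (nat_lit 541941852) (nat_lit 5) (nat_lit 5) (nat_lit 7) (nat_lit 4) (nat_lit 5) (nat_lit 4) (nat_lit 281) (nat_lit 232) (nat_lit 207))) (XT.nd (nat_lit 78) (nat_lit 76) (nat_lit 0) (XT.lf (nat_lit 0) (nat_lit 18538975648) (nat_lit 152) (nat_lit 13241375958) (nat_lit 0) (nat_lit 5797519681) (nat_lit 5) (nat_lit 5) (nat_lit 7) (nat_lit 4) (nat_lit 5) (nat_lit 4) (nat_lit 282) (nat_lit 232) (nat_lit 206)) (XT.nd (nat_lit 78) (nat_lit 76) (nat_lit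 0) (XT.lf (nat_lit 0) (nat_lit 24296973728) (nat_lit 152) (nat_lit 4599733682) (nat_lit 0) (nat_lit 11407963128) (nat_lit 5) (nat_lit 5) (nat_lit 7) (nat_lit 4) (nat_lit 5) (nat_lit 4) (nat_lit 283) (nat_lit 232) (nat_lit 205)) (XT.lf (nat_lit 0) (nat_lit 4736377525) (nat_lit 76) (nat_lit 25769725125) (nat_lit 76) (nat_lit 12744089865) (nat_lit 4) (nat_lit 4) (nat_lit 5) (nat_lit 5) (nat_lit 5) (nat_lit 4) (nat_lit 284) (nat_lit 232) (nat_lit 204))))))))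
noncomputable def xc33 : XT := (XT.nd (nat_lit 1482) (nat_lit 0) (nat_lit 0) (XT.nd (nat_lit 702) (nat_lit 76) (nat_lit 0) (XT.nd (nat_lit 312) (nat_lit 76) (nat_lit 0) (XT.nd (nat_lit 156) (nat_lit 76) (nat_lit 0) (XT.nd (nat_lit 78) (nat_lit 0) (nat_lit 0) (XT.lf (nat_lit 0) (nat_lit 14841628246) (nat_lit 76) (nat_lit 22370965827) (nat_lit 76) (nat_lit 9218826252) (nat_lit 4) (nat_lit 4) (nat_lit 5) (nat_lit 5) (nat_lit 5) (nat_lit 4) (nat_lit 285) (nat_lit 232) (nat_lit 203)) (XT.lf (nat_lit 0) (nat_lit 25623813479) (nat_lit 76) (nat_lit 18758187436) (nat_lit 76) (nat_lit 5488914235) (nat_lit 4) (nat_lit 4) (nat_lit 5) (nat_lit 5) (nat_lit 5) (nat_lit 4) (nat_lit 286) (nat_lit 232) (nat_lit 202))) (XT.nd (nat_lit 78) (nat_lit 76) (nat_lit 0) (XT.lf (nat_lit 0) (nat_lit 37146827655) (nat_lit 76) (nat_lit 14909980894) (nat_lit 76) (nat_lit 1532250633) (nat_lit 4) (nat_lit 4) (nat_lit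 5) (nat_lit 5) (nat_lit 5) (nat_lit 4) (nat_lit 287) (nat_lit 232) (nat_lit 201)) (XT.lf (nat_lit 0) (nat_lit 2589007180) (nat_lit 152) (nat_lit 8170688746) (nat_lit 76) (nat_lit 46846102033) (nat_lit 3) (nat_lit 5) (nat_lit 5) (nat_lit 5) (nat_lit 4) (nat_lit 4) (nat_lit 288) (nat_lit 232) (nat_lit 200)))) (XT.nd (nat_lit 156) (nat_lit 0) (nat_lit 0) (XT.nd (nat_lit 78) (nat_lit 0) (nat_lit 0) (XT.lf (nat_lit 0) (nat_lit 651172190) (nat_lit 76) (nat_lit 6286540055) (nat_lit 152) (nat_lit 55007403167) (nat_lit 2) (nat_lit 5) (nat_lit 3) (nat_lit 5) (nat_lit 4) (nat_lit 4) (nat_lit 289) (nat_lit 232) (nat_lit 199)) (XT.lf (nat_lit 0) (nat_lit 10368768824) (nat_lit 76) (nat_lit 1351232858) (nat_lit 152) (nat_lit 54907354203) (nat_lit 2) (nat_lit 5) (nat_lit 3) (nat_lit 5) (nat_lit 4) (nat_lit 4) (nat_lit 290) (nat_lit 232) (nat_lit 198))) (XT.nd (nat_lit 78) (nat_lit 0) (nat_lit 0) (XT.lf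 (nat_lit 0) (nat_lit 16893898803) (nat_lit 152) (nat_lit 50978797332) (nat_lit 0) (nat_lit 3811085658) (nat_lit 2) (nat_lit 5) (nat_lit 4) (nat_lit 4) (nat_lit 2) (nat_lit 4) (nat_lit 291) (nat_lit 232) (nat_lit 197)) (XT.nd (nat_lit 78) (nat_lit 0) (nat_lit 0) (XT.lf (nat_lit 0) (nat_lit 22455327844) (nat_lit 152) (nat_lit 45388550495) (nat_lit 0) (nat_lit 9302215600) (nat_lit 2) (nat_lit 5) (nat_lit 4) (nat_lit 4) (nat_lit 2) (nat_lit 4) (nat_lit 292) (nat_lit 232) (nat_lit 196)) (XT.lf (nat_lit 0) (nat_lit 28416148888) (nat_lit 152) (nat_lit 39433622630) (nat_lit 0) (nat_lit 15197944887) (nat_lit 2) (nat_lit 5) (nat_lit 4) (nat_lit 4) (nat_lit 2) (nat_lit 4) (nat_lit 293) (nat_lit 232) (nat_lit 195)))))) (XT.nd (nat_lit 390) (nat_lit 76) (nat_lit 0) (XT.nd (nat_lit 156) (nat_lit 0) (nat_lit 0) (XT.nd (nat_lit 78) (nat_lit 0) (nat_lit 0) (XT.lf (nat_lit 0) (nat_lit 34811685320) (nat_lit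 152) (nat_lit 33078725276) (nat_lit 0) (nat_lit 21533211174) (nat_lit 2) (nat_lit 5) (nat_lit 4) (nat_lit 4) (nat_lit 2) (nat_lit 4) (nat_lit 294) (nat_lit 232) (nat_lit 194)) (XT.lf (nat_lit 0) (nat_lit 41679836615) (nat_lit 152) (nat_lit 26286199781) (nat_lit 0) (nat_lit 28345556779) (nat_lit 2) (nat_lit 5) (nat_lit 4) (nat_lit 4) (nat_lit 2) (nat_lit 4) (nat_lit 295) (nat_lit 232) (nat_lit 193))) (XT.nd (nat_lit 78) (nat_lit 0) (nat_lit 0) (XT.lf (nat_lit 0) (nat_lit 49061302930) (nat_lit 152) (nat_lit 19015794144) (nat_lit 0) (nat_lit 35675351157) (nat_lit 2) (nat_lit 5) (nat_lit 4) (nat_lit 4) (nat_lit 2) (nat_lit 4) (nat_lit 296) (nat_lit 232) (nat_lit 192)) (XT.nd (nat_lit 78) (nat_lit 0) (nat_lit 0) (XT.lf (nat_lit 0) (nat_lit 56999826286) (nat_lit 152) (nat_lit 11224424477) (nat_lit 0) (nat_lit 43566030128) (nat_lit 2) (nat_lit 5) (nat_lit 4) (nat_lit 4) (nat_lit 2) (nat_lit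 4) (nat_lit 297) (nat_lit 232) (nat_lit 191)) (XT.lf (nat_lit 0) (nat_lit 65542449784) (nat_lit 152) (nat_lit 2865919703) (nat_lit 0) (nat_lit 52064353270) (nat_lit 2) (nat_lit 5) (nat_lit 4) (nat_lit 4) (nat_lit 2) (nat_lit 4) (nat_lit 298) (nat_lit 232) (nat_lit 190))))) (XT.nd (nat_lit 156) (nat_lit 0) (nat_lit 0) (XT.nd (nat_lit 78) (nat_lit 0) (nat_lit 0) (XT.lf (nat_lit 0) (nat_lit 6311251521) (nat_lit 76) (nat_lit 68527081181) (nat_lit 76) (nat_lit 55007965819) (nat_lit 1) (nat_lit 4) (nat_lit 2) (nat_lit 5) (nat_lit 2) (nat_lit 4) (nat_lit 299) (nat_lit 232) (nat_lit 189)) (XT.lf (nat_lit 0) (nat_lit 16275184558) (nat_lit 76) (nat_lit 68625285551) (nat_lit 76) (nat_lit 55068189773) (nat_lit 1) (nat_lit 4) (nat_lit 2) (nat_lit 5) (nat_lit 2) (nat_lit 4) (nat_lit 300) (nat_lit 232) (nat_lit 188))) (XT.nd (nat_lit 78) (nat_lit 0) (nat_lit 0) (XT.lf (nat_lit 0) (nat_lit 26990164687)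 (nat_lit 76) (nat_lit 68752100284) (nat_lit 76) (nat_lit 55159837455) (nat_lit 1) (nat_lit 4) (nat_lit 2) (nat_lit 5) (nat_lit 2) (nat_lit 4) (nat_lit 301) (nat_lit 232) (nat_lit 187)) (XT.nd (nat_lit 78) (nat_lit 0) (nat_lit 0) (XT.lf (nat_lit 0) (nat_lit 38519688086) (nat_lit 76) (nat_lit 68908276877) (nat_lit 76) (nat_lit 55283451963) (nat_lit 1) (nat_lit 4) (nat_lit 2) (nat_lit 5) (nat_lit 2) (nat_lit 4) (nat_lit 302) (nat_lit 232) (nat_lit 186)) (XT.lf (nat_lit 0) (nat_lit 50932077857) (nat_lit 76) (nat_lit 69094740819) (nat_lit 76) (nat_lit 55439765828) (nat_lit 1) (nat_lit 4) (nat_lit 2) (nat_lit 5) (nat_lit 2) (nat_lit 4) (nat_lit 303) (nat_lit 232) (nat_lit 185))))))) (XT.nd (nat_lit 780) (nat_lit 0) (nat_lit 0) (XT.nd (nat_lit 390) (nat_lit 0) (nat_lit 0) (XT.nd (nat_lit 156) (nat_lit 0) (nat_lit 0) (XT.nd (nat_lit 78) (nat_lit 0) (nat_lit 0) (XT.lf (nat_lit 0) (nat_lit 64300888902)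 (nat_lit 76) (nat_lit 69312597083) (nat_lit 76) (nat_lit 55629705353) (nat_lit 1) (nat_lit 4) (nat_lit 2) (nat_lit 5) (nat_lit 2) (nat_lit 4) (nat_lit 304) (nat_lit 232) (nat_lit 184)) (XT.lf (nat_lit 0) (nat_lit 78705343806) (nat_lit 76) (nat_lit 69563136669) (nat_lit 76) (nat_lit 55854396106) (nat_lit 1) (nat_lit 4) (nat_lit 2) (nat_lit 5) (nat_lit 2) (nat_lit 4) (nat_lit 305) (nat_lit 232) (nat_lit 183))) (XT.nd (nat_lit 78) (nat_lit 0) (nat_lit 0) (XT.lf (nat_lit 0) (nat_lit 94230802302) (nat_lit 76) (nat_lit 69847844255) (nat_lit 76) (nat_lit 56115169588) (nat_lit 1) (nat_lit 4) (nat_lit 2) (nat_lit 5) (nat_lit 2) (nat_lit 4) (nat_lit 306) (nat_lit 232) (nat_lit 182)) (XT.nd (nat_lit 78) (nat_lit 0) (nat_lit 0) (XT.lf (nat_lit 0) (nat_lit 110969267105) (nat_lit 76) (nat_lit 70168406997) (nat_lit 76) (nat_lit 56413571123) (nat_lit 1) (nat_lit 4) (nat_lit 2) (nat_lit 5) (nat_lit 2)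 (nat_lit 4) (nat_lit 307) (nat_lit 232) (nat_lit 181)) (XT.lf (nat_lit 0) (nat_lit 129019929119) (nat_lit 76) (nat_lit 70526724528) (nat_lit 76) (nat_lit 56751369017) (nat_lit 1) (nat_lit 4) (nat_lit 2) (nat_lit 5) (nat_lit 2) (nat_lit 4) (nat_lit 308) (nat_lit 232) (nat_lit 180))))) (XT.nd (nat_lit 156) (nat_lit 0) (nat_lit 0) (XT.nd (nat_lit 78) (nat_lit 0) (nat_lit 0) (XT.lf (nat_lit 0) (nat_lit 148489755230) (nat_lit 76) (nat_lit 70924920209) (nat_lit 76) (nat_lit 57130565034) (nat_lit 1) (nat_lit 4) (nat_lit 2) (nat_lit 5) (nat_lit 2) (nat_lit 4) (nat_lit 309) (nat_lit 232) (nat_lit 179)) (XT.lf (nat_lit 0) (nat_lit 169494122185) (nat_lit 76) (nat_lit 71365353719) (nat_lit 76) (nat_lit 57553406264) (nat_lit 1) (nat_lit 4) (nat_lit 2) (nat_lit 5) (nat_lit 2) (nat_lit 4) (nat_lit 310) (nat_lit 232) (nat_lit 178))) (XT.nd (nat_lit 78) (nat_lit 0) (nat_lit 0) (XT.lf (nat_lit 0) (nat_lit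 192157500306) (nat_lit 76) (nat_lit 71850635035) (nat_lit 76) (nat_lit 58022398430) (nat_lit 1) (nat_lit 4) (nat_lit 2) (nat_lit 5) (nat_lit 2) (nat_lit 4) (nat_lit 311) (nat_lit 232) (nat_lit 177)) (XT.nd (nat_lit 78) (nat_lit 0) (nat_lit 0) (XT.lf (nat_lit 0) (nat_lit 216614191095) (nat_lit 76) (nat_lit 72383639897) (nat_lit 76) (nat_lit 58540320747) (nat_lit 1) (nat_lit 4) (nat_lit 2) (nat_lit 5) (nat_lit 2) (nat_lit 4) (nat_lit 312) (nat_lit 232) (nat_lit 176)) (XT.lf (nat_lit 0) (nat_lit 243009123088) (nat_lit 76) (nat_lit 72967526853) (nat_lit 76) (nat_lit 59110242382) (nat_lit 1) (nat_lit 4) (nat_lit 2) (nat_lit 5) (nat_lit 2) (nat_lit 4) (nat_lit 313) (nat_lit 232) (nat_lit 175)))))) (XT.nd (nat_lit 390) (nat_lit 0) (nat_lit 0) (XT.nd (nat_lit 156) (nat_lit 0) (nat_lit 0) (XT.nd (nat_lit 78) (nat_lit 0) (nat_lit 0) (XT.lf (nat_lit 0) (nat_lit 271498710697) (nat_lit 76) (nat_lit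 73605755973) (nat_lit 76) (nat_lit 59735540651) (nat_lit 1) (nat_lit 4) (nat_lit 2) (nat_lit 5) (nat_lit 2) (nat_lit 4) (nat_lit 314) (nat_lit 232) (nat_lit 174)) (XT.lf (nat_lit 0) (nat_lit 302251781109) (nat_lit 76) (nat_lit 74302109357) (nat_lit 76) (nat_lit 60419921024) (nat_lit 1) (nat_lit 4) (nat_lit 2) (nat_lit 5) (nat_lit 2) (nat_lit 4) (nat_lit 315) (nat_lit 232) (nat_lit 173))) (XT.nd (nat_lit 78) (nat_lit 0) (nat_lit 0) (XT.lf (nat_lit 0) (nat_lit 335450574741) (nat_lit 76) (nat_lit 75060713542) (nat_lit 76) (nat_lit 61167439088) (nat_lit 1) (nat_lit 4) (nat_lit 2) (nat_lit 5) (nat_lit 2) (nat_lit 4) (nat_lit 316) (nat_lit 232) (nat_lit 172)) (XT.nd (nat_lit 78) (nat_lit 0) (nat_lit 0) (XT.lf (nat_lit 0) (nat_lit 371291825184) (nat_lit 76) (nat_lit 75886063961) (nat_lit 76) (nat_lit 61982524580) (nat_lit 1) (nat_lit 4) (nat_lit 2) (nat_lit 5) (nat_lit 2) (nat_lit 4) (nat_lit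 317) (nat_lit 232) (nat_lit 171)) (XT.lf (nat_lit 0) (nat_lit 409987925034) (nat_lit 76) (nat_lit 76783051580) (nat_lit 76) (nat_lit 62870007636) (nat_lit 1) (nat_lit 4) (nat_lit 2) (nat_lit 5) (nat_lit 2) (nat_lit 4) (nat_lit 318) (nat_lit 232) (nat_lit 170))))) (XT.nd (nat_lit 156) (nat_lit 0) (nat_lit 0) (XT.nd (nat_lit 78) (nat_lit 0) (nat_lit 0) (XT.lf (nat_lit 0) (nat_lit 451768184512) (nat_lit 76) (nat_lit 77756991880) (nat_lit 76) (nat_lit 63835147416) (nat_lit 1) (nat_lit 4) (nat_lit 2) (nat_lit 5) (nat_lit 2) (nat_lit 4) (nat_lit 319) (nat_lit 232) (nat_lit 169)) (XT.lf (nat_lit 0) (nat_lit 496880190341) (nat_lit 76) (nat_lit 78813656359) (nat_lit 76) (nat_lit 64883663266) (nat_lit 1) (nat_lit 4) (nat_lit 2) (nat_lit 5) (nat_lit 2) (nat_lit 4) (nat_lit 320) (nat_lit 232) (nat_lit 168))) (XT.nd (nat_lit 78) (nat_lit 0) (nat_lit 0) (XT.lf (nat_lit 0) (nat_lit 545591272926) (nat_lit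 76) (nat_lit 79959306734) (nat_lit 76) (nat_lit 66021768613) (nat_lit 1) (nat_lit 4) (nat_lit 2) (nat_lit 5) (nat_lit 2) (nat_lit 4) (nat_lit 321) (nat_lit 232) (nat_lit 167)) (XT.nd (nat_lit 78) (nat_lit 0) (nat_lit 0) (XT.lf (nat_lit 0) (nat_lit 598190090533) (nat_lit 76) (nat_lit 81200732043) (nat_lit 76) (nat_lit 67256207785) (nat_lit 1) (nat_lit 4) (nat_lit 2) (nat_lit 5) (nat_lit 2) (nat_lit 4) (nat_lit 322) (nat_lit 232) (nat_lit 166)) (XT.lf (nat_lit 0) (nat_lit 654988339861) (nat_lit 76) (nat_lit 82545288880) (nat_lit 76) (nat_lit 68594295977) (nat_lit 1) (nat_lit 4) (nat_lit 2) (nat_lit 5) (nat_lit 2) (nat_lit 4) (nat_lit 323) (nat_lit 232) (nat_lit 165))))))))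
noncomputable def xc34 : XT := (XT.nd (nat_lit 33306) (nat_lit 0) (nat_lit 152) (XT.nd (nat_lit 32526) (nat_lit 0) (nat_lit 988) (XT.nd (nat_lit 32136) (nat_lit 0) (nat_lit 2432) (XT.nd (nat_lit 156) (nat_lit 0) (nat_lit 0) (XT.nd (nat_lit 78) (nat_lit 0) (nat_lit 0) (XT.lf (nat_lit 0) (nat_lit 716322603127) (nat_lit 76) (nat_lit 84000944991) (nat_lit 76) (nat_lit 70043962601) (nat_lit 1) (nat_lit 4) (nat_lit 2) (nat_lit 5) (nat_lit 2) (nat_lit 4) (nat_lit 324) (nat_lit 232) (nat_lit 164)) (XT.lf (nat_lit 0) (nat_lit 782556342632) (nat_lit 76) (nat_lit 85576326485) (nat_lit 76) (nat_lit 71613798275) (nat_lit 1) (nat_lit 4) (nat_lit 2) (nat_lit 5) (nat_lit 2) (nat_lit 4) (nat_lit 325) (nat_lit 232) (nat_lit 163))) (XT.nd (nat_lit 31902) (nat_lit 0) (nat_lit 3876) (XT.lf (nat_lit 0) (nat_lit 854082054609) (nat_lit 76) (nat_lit 87280768956) (nat_lit 76) (nat_lit 73313105727) (nat_lit 1)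 (nat_lit 4) (nat_lit 2) (nat_lit 5) (nat_lit 2) (nat_lit 4) (nat_lit 326) (nat_lit 232) (nat_lit 162)) (XT.lf (nat_lit 0) (nat_lit 1364569468) (nat_lit 380) (nat_lit 1320862794) (nat_lit 0) (nat_lit 1364569468) (nat_lit 52) (nat_lit 5) (nat_lit 57) (nat_lit 4) (nat_lit 52) (nat_lit 4) (nat_lit 254) (nat_lit 233) (nat_lit 233)))) (XT.nd (nat_lit 156) (nat_lit 836) (nat_lit 0) (XT.nd (nat_lit 78) (nat_lit 304) (nat_lit 0) (XT.lf (nat_lit 0) (nat_lit 5799580472) (nat_lit 304) (nat_lit 2199671470) (nat_lit 304) (nat_lit 371158938) (nat_lit 48) (nat_lit 4) (nat_lit 52) (nat_lit 5) (nat_lit 52) (nat_lit 4) (nat_lit 255) (nat_lit 233) (nat_lit 232)) (XT.lf (nat_lit 0) (nat_lit 4678033176) (nat_lit 304) (nat_lit 2667041374) (nat_lit 0) (nat_lit 1324147756) (nat_lit 44) (nat_lit 5) (nat_lit 48) (nat_lit 4) (nat_lit 44) (nat_lit 4) (nat_lit 256) (nat_lit 233) (nat_lit 231))) (XT.nd (nat_lit 78)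 (nat_lit 532) (nat_lit 0) (XT.lf (nat_lit 0) (nat_lit 930859943) (nat_lit 304) (nat_lit 2938627085) (nat_lit 76) (nat_lit 5130323809) (nat_lit 40) (nat_lit 5) (nat_lit 44) (nat_lit 5) (nat_lit 41) (nat_lit 4) (nat_lit 257) (nat_lit 233) (nat_lit 230)) (XT.nd (nat_lit 78) (nat_lit 304) (nat_lit 0) (XT.lf (nat_lit 0) (nat_lit 5920555591) (nat_lit 228) (nat_lit 6204008) (nat_lit 304) (nat_lit 3436815275) (nat_lit 37) (nat_lit 5) (nat_lit 40) (nat_lit 5) (nat_lit 41) (nat_lit 4) (nat_lit 258) (nat_lit 233) (nat_lit 229)) (XT.lf (nat_lit 0) (nat_lit 1410683825) (nat_lit 304) (nat_lit 4259824204) (nat_lit 76) (nat_lit 4090842207) (nat_lit 33) (nat_lit 5) (nat_lit 37) (nat_lit 5) (nat_lit 34) (nat_lit 4) (nat_lit 259) (nat_lit 233) (nat_lit 228)))))) (XT.nd (nat_lit 390) (nat_lit 608) (nat_lit 0) (XT.nd (nat_lit 156) (nat_lit 380) (nat_lit 0) (XT.nd (nat_lit 78) (nat_lit 304) (nat_lit 0) (XT.lf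 (nat_lit 0) (nat_lit 4773193990) (nat_lit 152) (nat_lit 1594453482) (nat_lit 228) (nat_lit 3829192493) (nat_lit 31) (nat_lit 5) (nat_lit 33) (nat_lit 5) (nat_lit 34) (nat_lit 4) (nat_lit 260) (nat_lit 233) (nat_lit 227)) (XT.lf (nat_lit 0) (nat_lit 913146333) (nat_lit 304) (nat_lit 7009601407) (nat_lit 76) (nat_lit 2749671276) (nat_lit 27) (nat_lit 5) (nat_lit 31) (nat_lit 5) (nat_lit 28) (nat_lit 4) (nat_lit 261) (nat_lit 233) (nat_lit 226))) (XT.nd (nat_lit 78) (nat_lit 228) (nat_lit 0) (XT.lf (nat_lit 0) (nat_lit 2057761701) (nat_lit 152) (nat_lit 3728071601) (nat_lit 228) (nat_lit 5403480447) (nat_lit 25) (nat_lit 5) (nat_lit 27) (nat_lit 5) (nat_lit 28) (nat_lit 4) (nat_lit 262) (nat_lit 233) (nat_lit 225)) (XT.nd (nat_lit 78) (nat_lit 228) (nat_lit 0) (XT.lf (nat_lit 0) (nat_lit 10925342186) (nat_lit 228) (nat_lit 52756007) (nat_lit 0) (nat_lit 776226247) (nat_lit 25) (nat_lit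 5) (nat_lit 28) (nat_lit 4) (nat_lit 25) (nat_lit 4) (nat_lit 263) (nat_lit 233) (nat_lit 224)) (XT.lf (nat_lit 0) (nat_lit 3951701985) (nat_lit 228) (nat_lit 2800662288) (nat_lit 76) (nat_lit 5610913260) (nat_lit 22) (nat_lit 5) (nat_lit 25) (nat_lit 5) (nat_lit 23) (nat_lit 4) (nat_lit 264) (nat_lit 233) (nat_lit 223))))) (XT.nd (nat_lit 156) (nat_lit 228) (nat_lit 0) (XT.nd (nat_lit 78) (nat_lit 228) (nat_lit 0) (XT.lf (nat_lit 0) (nat_lit 6770574238) (nat_lit 152) (nat_lit 2189922176) (nat_lit 228) (nat_lit 4066537950) (nat_lit 20) (nat_lit 5) (nat_lit 22) (nat_lit 5) (nat_lit 23) (nat_lit 4) (nat_lit 265) (nat_lit 233) (nat_lit 222)) (XT.lf (nat_lit 0) (nat_lit 523665133) (nat_lit 228) (nat_lit 10587078134) (nat_lit 76) (nat_lit 2637222250) (nat_lit 17) (nat_lit 5) (nat_lit 20) (nat_lit 5) (nat_lit 18) (nat_lit 4) (nat_lit 266) (nat_lit 233) (nat_lit 221))) (XT.nd (nat_lit 78) (nat_lit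 228) (nat_lit 0) (XT.lf (nat_lit 0) (nat_lit 5273079739) (nat_lit 228) (nat_lit 1419718077) (nat_lit 76) (nat_lit 7834126606) (nat_lit 17) (nat_lit 5) (nat_lit 20) (nat_lit 5) (nat_lit 18) (nat_lit 4) (nat_lit 267) (nat_lit 233) (nat_lit 220)) (XT.nd (nat_lit 78) (nat_lit 152) (nat_lit 0) (XT.lf (nat_lit 0) (nat_lit 8430151048) (nat_lit 76) (nat_lit 1904716649) (nat_lit 152) (nat_lit 5037090808) (nat_lit 16) (nat_lit 5) (nat_lit 17) (nat_lit 5) (nat_lit 18) (nat_lit 4) (nat_lit 268) (nat_lit 233) (nat_lit 219)) (XT.lf (nat_lit 0) (nat_lit 2550850349) (nat_lit 152) (nat_lit 13175641076) (nat_lit 152) (nat_lit 562210618) (nat_lit 14) (nat_lit 4) (nat_lit 16) (nat_lit 5) (nat_lit 16) (nat_lit 4) (nat_lit 269) (nat_lit 233) (nat_lit 218))))))) (XT.nd (nat_lit 780) (nat_lit 228) (nat_lit 0) (XT.nd (nat_lit 390) (nat_lit 228) (nat_lit 0) (XT.nd (nat_lit 156) (nat_lit 228) (nat_lit 0) (XT.nd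 (nat_lit 78) (nat_lit 76) (nat_lit 0) (XT.lf (nat_lit 0) (nat_lit 4104086829) (nat_lit 228) (nat_lit 4630188478) (nat_lit 76) (nat_lit 8542980025) (nat_lit 13) (nat_lit 5) (nat_lit 16) (nat_lit 5) (nat_lit 14) (nat_lit 4) (nat_lit 270) (nat_lit 233) (nat_lit 217)) (XT.lf (nat_lit 0) (nat_lit 5074310399) (nat_lit 76) (nat_lit 3957958368) (nat_lit 152) (nat_lit 9317036294) (nat_lit 12) (nat_lit 5) (nat_lit 13) (nat_lit 5) (nat_lit 14) (nat_lit 4) (nat_lit 271) (nat_lit 233) (nat_lit 216))) (XT.nd (nat_lit 78) (nat_lit 228) (nat_lit 0) (XT.lf (nat_lit 0) (nat_lit 14290935099) (nat_lit 152) (nat_lit 4081667372) (nat_lit 0) (nat_lit 1137970448) (nat_lit 12) (nat_lit 5) (nat_lit 14) (nat_lit 4) (nat_lit 12) (nat_lit 4) (nat_lit 272) (nat_lit 233) (nat_lit 215)) (XT.nd (nat_lit 78) (nat_lit 76) (nat_lit 0) (XT.lf (nat_lit 0) (nat_lit 5704611388) (nat_lit 152) (nat_lit 14269181290) (nat_lit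 152) (nat_lit 791020598) (nat_lit 10) (nat_lit 4) (nat_lit 12) (nat_lit 5) (nat_lit 12) (nat_lit 4) (nat_lit 273) (nat_lit 233) (nat_lit 214)) (XT.lf (nat_lit 0) (nat_lit 3788908764) (nat_lit 228) (nat_lit 6012005169) (nat_lit 76) (nat_lit 12319340200) (nat_lit 9) (nat_lit 5) (nat_lit 12) (nat_lit 5) (nat_lit 10) (nat_lit 4) (nat_lit 274) (nat_lit 233) (nat_lit 213))))) (XT.nd (nat_lit 156) (nat_lit 152) (nat_lit 0) (XT.nd (nat_lit 78) (nat_lit 0) (nat_lit 0) (XT.lf (nat_lit 0) (nat_lit 3629329058) (nat_lit 76) (nat_lit 4998671129) (nat_lit 152) (nat_lit 14959658470) (nat_lit 8) (nat_lit 5) (nat_lit 9) (nat_lit 5) (nat_lit 10) (nat_lit 4) (nat_lit 275) (nat_lit 233) (nat_lit 212)) (XT.lf (nat_lit 0) (nat_lit 13832207042) (nat_lit 152) (nat_lit 11143825560) (nat_lit 0) (nat_lit 197709492) (nat_lit 8) (nat_lit 5) (nat_lit 10) (nat_lit 4) (nat_lit 8) (nat_lit 4) (nat_lit 276) (nat_lit 233)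 (nat_lit 211))) (XT.nd (nat_lit 78) (nat_lit 152) (nat_lit 0) (XT.lf (nat_lit 0) (nat_lit 19415384151) (nat_lit 152) (nat_lit 1920128425) (nat_lit 0) (nat_lit 5553240127) (nat_lit 8) (nat_lit 5) (nat_lit 10) (nat_lit 4) (nat_lit 8) (nat_lit 4) (nat_lit 277) (nat_lit 233) (nat_lit 210)) (XT.nd (nat_lit 78) (nat_lit 76) (nat_lit 0) (XT.lf (nat_lit 0) (nat_lit 8104870488) (nat_lit 76) (nat_lit 17354242998) (nat_lit 76) (nat_lit 3281315202) (nat_lit 7) (nat_lit 4) (nat_lit 8) (nat_lit 5) (nat_lit 8) (nat_lit 4) (nat_lit 278) (nat_lit 233) (nat_lit 209)) (XT.lf (nat_lit 0) (nat_lit 1131089406) (nat_lit 152) (nat_lit 11949364671) (nat_lit 76) (nat_lit 17662709005) (nat_lit 6) (nat_lit 5) (nat_lit 8) (nat_lit 5) (nat_lit 7) (nat_lit 4) (nat_lit 279) (nat_lit 233) (nat_lit 208)))))) (XT.nd (nat_lit 390) (nat_lit 152) (nat_lit 0) (XT.nd (nat_lit 156) (nat_lit 0) (nat_lit 0) (XT.nd (nat_lit 78)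 (nat_lit 76) (nat_lit 0) (XT.lf (nat_lit 0) (nat_lit 5682019716) (nat_lit 152) (nat_lit 2800670646) (nat_lit 76) (nat_lit 24425841708) (nat_lit 6) (nat_lit 5) (nat_lit 8) (nat_lit 5) (nat_lit 7) (nat_lit 4) (nat_lit 280) (nat_lit 233) (nat_lit 207)) (XT.lf (nat_lit 0) (nat_lit 7144642048) (nat_lit 76) (nat_lit 3470372619) (nat_lit 152) (nat_lit 24631336933) (nat_lit 5) (nat_lit 5) (nat_lit 6) (nat_lit 5) (nat_lit 7) (nat_lit 4) (nat_lit 281) (nat_lit 233) (nat_lit 206))) (XT.nd (nat_lit 78) (nat_lit 0) (nat_lit 0) (XT.lf (nat_lit 0) (nat_lit 15932435749) (nat_lit 152) (nat_lit 19974633553) (nat_lit 0) (nat_lit 1864749667) (nat_lit 5) (nat_lit 5) (nat_lit 7) (nat_lit 4) (nat_lit 5) (nat_lit 4) (nat_lit 282) (nat_lit 233) (nat_lit 205)) (XT.nd (nat_lit 78) (nat_lit 0) (nat_lit 0) (XT.lf (nat_lit 0) (nat_lit 21650310208) (nat_lit 152) (nat_lit 11404364407) (nat_lit 0) (nat_lit 7445999467)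 (nat_lit 5) (nat_lit 5) (nat_lit 7) (nat_lit 4) (nat_lit 5) (nat_lit 4) (nat_lit 283) (nat_lit 233) (nat_lit 204)) (XT.lf (nat_lit 0) (nat_lit 27748339504) (nat_lit 152) (nat_lit 2285933091) (nat_lit 0) (nat_lit 13417524447) (nat_lit 5) (nat_lit 5) (nat_lit 7) (nat_lit 4) (nat_lit 5) (nat_lit 4) (nat_lit 284) (nat_lit 233) (nat_lit 203))))) (XT.nd (nat_lit 156) (nat_lit 76) (nat_lit 0) (XT.nd (nat_lit 78) (nat_lit 0) (nat_lit 0) (XT.lf (nat_lit 0) (nat_lit 7680520153) (nat_lit 76) (nat_lit 26702054398) (nat_lit 76) (nat_lit 12254105715) (nat_lit 4) (nat_lit 4) (nat_lit 5) (nat_lit 5) (nat_lit 5) (nat_lit 4) (nat_lit 285) (nat_lit 233) (nat_lit 202)) (XT.lf (nat_lit 0) (nat_lit 18404173715) (nat_lit 76) (nat_lit 23115042411) (nat_lit 76) (nat_lit 8558636668) (nat_lit 4) (nat_lit 4) (nat_lit 5) (nat_lit 5) (nat_lit 5) (nat_lit 4) (nat_lit 286) (nat_lit 233) (nat_lit 201))) (XT.nd (nat_lit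 78) (nat_lit 76) (nat_lit 0) (XT.lf (nat_lit 0) (nat_lit 29872991899) (nat_lit 76) (nat_lit 19290693651) (nat_lit 76) (nat_lit 4633864703) (nat_lit 4) (nat_lit 4) (nat_lit 5) (nat_lit 5) (nat_lit 5) (nat_lit 4) (nat_lit 287) (nat_lit 233) (nat_lit 200)) (XT.nd (nat_lit 78) (nat_lit 76) (nat_lit 0) (XT.lf (nat_lit 0) (nat_lit 42154938073) (nat_lit 76) (nat_lit 15206345310) (nat_lit 76) (nat_lit 456531915) (nat_lit 4) (nat_lit 4) (nat_lit 5) (nat_lit 5) (nat_lit 5) (nat_lit 4) (nat_lit 288) (nat_lit 233) (nat_lit 199)) (XT.lf (nat_lit 0) (nat_lit 3870151573) (nat_lit 152) (nat_lit 6902099380) (nat_lit 76) (nat_lit 51387099675) (nat_lit 3) (nat_lit 5) (nat_lit 5) (nat_lit 5) (nat_lit 4) (nat_lit 4) (nat_lit 289) (nat_lit 233) (nat_lit 198))))))))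
noncomputable def xc35 : XT := (XT.nd (nat_lit 1482) (nat_lit 0) (nat_lit 0) (XT.nd (nat_lit 702) (nat_lit 76) (nat_lit 0) (XT.nd (nat_lit 312) (nat_lit 0) (nat_lit 0) (XT.nd (nat_lit 156) (nat_lit 0) (nat_lit 0) (XT.nd (nat_lit 78) (nat_lit 0) (nat_lit 0) (XT.lf (nat_lit 0) (nat_lit 2541972029) (nat_lit 76) (nat_lit 5973931050) (nat_lit 152) (nat_lit 58332542526) (nat_lit 2) (nat_lit 5) (nat_lit 3) (nat_lit 5) (nat_lit 4) (nat_lit 4) (nat_lit 290) (nat_lit 233) (nat_lit 197)) (XT.lf (nat_lit 0) (nat_lit 12900775944) (nat_lit 76) (nat_lit 704209070) (nat_lit 152) (nat_lit 58304152822) (nat_lit 2) (nat_lit 5) (nat_lit 3) (nat_lit 5) (nat_lit 4) (nat_lit 4) (nat_lit 291) (nat_lit 233) (nat_lit 196))) (XT.nd (nat_lit 78) (nat_lit 0) (nat_lit 0) (XT.lf (nat_lit 0) (nat_lit 19133533648) (nat_lit 152) (nat_lit 53446802455) (nat_lit 0) (nat_lit 4792781569) (nat_lit 2) (nat_lit 5) (nat_lit 4)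 (nat_lit 4) (nat_lit 2) (nat_lit 4) (nat_lit 292) (nat_lit 233) (nat_lit 195)) (XT.lf (nat_lit 0) (nat_lit 25074090127) (nat_lit 152) (nat_lit 47528617254) (nat_lit 0) (nat_lit 10673067903) (nat_lit 2) (nat_lit 5) (nat_lit 4) (nat_lit 4) (nat_lit 2) (nat_lit 4) (nat_lit 293) (nat_lit 233) (nat_lit 194)))) (XT.nd (nat_lit 156) (nat_lit 0) (nat_lit 0) (XT.nd (nat_lit 78) (nat_lit 0) (nat_lit 0) (XT.lf (nat_lit 0) (nat_lit 31450863073) (nat_lit 152) (nat_lit 41207740884) (nat_lit 0) (nat_lit 16994035158) (nat_lit 2) (nat_lit 5) (nat_lit 4) (nat_lit 4) (nat_lit 2) (nat_lit 4) (nat_lit 294) (nat_lit 233) (nat_lit 193)) (XT.lf (nat_lit 0) (nat_lit 38301640770) (nat_lit 152) (nat_lit 34446716301) (nat_lit 0) (nat_lit 23793140919) (nat_lit 2) (nat_lit 5) (nat_lit 4) (nat_lit 4) (nat_lit 2) (nat_lit 4) (nat_lit 295) (nat_lit 233) (nat_lit 192))) (XT.nd (nat_lit 78) (nat_lit 0) (nat_lit 0) (XT.lf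 (nat_lit 0) (nat_lit 45667020419) (nat_lit 152) (nat_lit 27205478174) (nat_lit 0) (nat_lit 31110676184) (nat_lit 2) (nat_lit 5) (nat_lit 4) (nat_lit 4) (nat_lit 2) (nat_lit 4) (nat_lit 296) (nat_lit 233) (nat_lit 191)) (XT.nd (nat_lit 78) (nat_lit 0) (nat_lit 0) (XT.lf (nat_lit 0) (nat_lit 53590648714) (nat_lit 152) (nat_lit 19441115463) (nat_lit 0) (nat_lit 38990004123) (nat_lit 2) (nat_lit 5) (nat_lit 4) (nat_lit 4) (nat_lit 2) (nat_lit 4) (nat_lit 297) (nat_lit 233) (nat_lit 190)) (XT.lf (nat_lit 0) (nat_lit 62119480490) (nat_lit 152) (nat_lit 11107617128) (nat_lit 0) (nat_lit 47477817050) (nat_lit 2) (nat_lit 5) (nat_lit 4) (nat_lit 4) (nat_lit 2) (nat_lit 4) (nat_lit 298) (nat_lit 233) (nat_lit 189)))))) (XT.nd (nat_lit 390) (nat_lit 0) (nat_lit 0) (XT.nd (nat_lit 156) (nat_lit 0) (nat_lit 0) (XT.nd (nat_lit 78) (nat_lit 76) (nat_lit 0) (XT.lf (nat_lit 0) (nat_lit 71304056972) (nat_lit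 152) (nat_lit 2155599476) (nat_lit 0) (nat_lit 56624413117) (nat_lit 2) (nat_lit 5) (nat_lit 4) (nat_lit 4) (nat_lit 2) (nat_lit 4) (nat_lit 299) (nat_lit 233) (nat_lit 188)) (XT.lf (nat_lit 0) (nat_lit 7714911845) (nat_lit 76) (nat_lit 73604344830) (nat_lit 76) (nat_lit 58889533923) (nat_lit 1) (nat_lit 4) (nat_lit 2) (nat_lit 5) (nat_lit 2) (nat_lit 4) (nat_lit 300) (nat_lit 233) (nat_lit 187))) (XT.nd (nat_lit 78) (nat_lit 0) (nat_lit 0) (XT.lf (nat_lit 0) (nat_lit 18409384695) (nat_lit 76) (nat_lit 73740398352) (nat_lit 76) (nat_lit 58993025361) (nat_lit 1) (nat_lit 4) (nat_lit 2) (nat_lit 5) (nat_lit 2) (nat_lit 4) (nat_lit 301) (nat_lit 233) (nat_lit 186)) (XT.nd (nat_lit 78) (nat_lit 0) (nat_lit 0) (XT.lf (nat_lit 0) (nat_lit 29919919873) (nat_lit 76) (nat_lit 73905129378) (nat_lit 76) (nat_lit 59127606309) (nat_lit 1) (nat_lit 4) (nat_lit 2) (nat_lit 5) (nat_lit 2) (nat_lit 4)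 (nat_lit 302) (nat_lit 233) (nat_lit 185)) (XT.lf (nat_lit 0) (nat_lit 42314727958) (nat_lit 76) (nat_lit 74099514093) (nat_lit 76) (nat_lit 59294074285) (nat_lit 1) (nat_lit 4) (nat_lit 2) (nat_lit 5) (nat_lit 2) (nat_lit 4) (nat_lit 303) (nat_lit 233) (nat_lit 184))))) (XT.nd (nat_lit 156) (nat_lit 0) (nat_lit 0) (XT.nd (nat_lit 78) (nat_lit 0) (nat_lit 0) (XT.lf (nat_lit 0) (nat_lit 55667259664) (nat_lit 76) (nat_lit 74324704405) (nat_lit 76) (nat_lit 59493415765) (nat_lit 1) (nat_lit 4) (nat_lit 2) (nat_lit 5) (nat_lit 2) (nat_lit 4) (nat_lit 304) (nat_lit 233) (nat_lit 183)) (XT.lf (nat_lit 0) (nat_lit 70056641106) (nat_lit 76) (nat_lit 74582034776) (nat_lit 76) (nat_lit 59726812032) (nat_lit 1) (nat_lit 4) (nat_lit 2) (nat_lit 5) (nat_lit 2) (nat_lit 4) (nat_lit 305) (nat_lit 233) (nat_lit 182))) (XT.nd (nat_lit 78) (nat_lit 0) (nat_lit 0) (XT.lf (nat_lit 0) (nat_lit 85568142692)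 (nat_lit 76) (nat_lit 74873030127) (nat_lit 76) (nat_lit 59995646174) (nat_lit 1) (nat_lit 4) (nat_lit 2) (nat_lit 5) (nat_lit 2) (nat_lit 4) (nat_lit 306) (nat_lit 233) (nat_lit 181)) (XT.nd (nat_lit 78) (nat_lit 0) (nat_lit 0) (XT.lf (nat_lit 0) (nat_lit 102293684431) (nat_lit 76) (nat_lit 75199414873) (nat_lit 76) (nat_lit 60301511285) (nat_lit 1) (nat_lit 4) (nat_lit 2) (nat_lit 5) (nat_lit 2) (nat_lit 4) (nat_lit 307) (nat_lit 233) (nat_lit 180)) (XT.lf (nat_lit 0) (nat_lit 120332380645) (nat_lit 76) (nat_lit 75563123148) (nat_lit 76) (nat_lit 60646219896) (nat_lit 1) (nat_lit 4) (nat_lit 2) (nat_lit 5) (nat_lit 2) (nat_lit 4) (nat_lit 308) (nat_lit 233) (nat_lit 179))))))) (XT.nd (nat_lit 780) (nat_lit 0) (nat_lit 0) (XT.nd (nat_lit 390) (nat_lit 0) (nat_lit 0) (XT.nd (nat_lit 156) (nat_lit 0) (nat_lit 0) (XT.nd (nat_lit 78) (nat_lit 0) (nat_lit 0) (XT.lf (nat_lit 0) (nat_lit 139791127311)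 (nat_lit 76) (nat_lit 75966310259) (nat_lit 76) (nat_lit 61031814726) (nat_lit 1) (nat_lit 4) (nat_lit 2) (nat_lit 5) (nat_lit 2) (nat_lit 4) (nat_lit 309) (nat_lit 233) (nat_lit 178)) (XT.lf (nat_lit 0) (nat_lit 160785235521) (nat_lit 76) (nat_lit 76411365464) (nat_lit 76) (nat_lit 61460580782) (nat_lit 1) (nat_lit 4) (nat_lit 2) (nat_lit 5) (nat_lit 2) (nat_lit 4) (nat_lit 310) (nat_lit 233) (nat_lit 177))) (XT.nd (nat_lit 78) (nat_lit 0) (nat_lit 0) (XT.lf (nat_lit 0) (nat_lit 183439114805) (nat_lit 76) (nat_lit 76900926126) (nat_lit 76) (nat_lit 61935058899) (nat_lit 1) (nat_lit 4) (nat_lit 2) (nat_lit 5) (nat_lit 2) (nat_lit 4) (nat_lit 311) (nat_lit 233) (nat_lit 176)) (XT.nd (nat_lit 78) (nat_lit 0) (nat_lit 0) (XT.lf (nat_lit 0) (nat_lit 207887010373) (nat_lit 76) (nat_lit 77437893347) (nat_lit 76) (nat_lit 62458060799) (nat_lit 1) (nat_lit 4) (nat_lit 2) (nat_lit 5) (nat_lit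 2) (nat_lit 4) (nat_lit 312) (nat_lit 233) (nat_lit 175)) (XT.lf (nat_lit 0) (nat_lit 234273798643) (nat_lit 76) (nat_lit 78025449152) (nat_lit 76) (nat_lit 63032685753) (nat_lit 1) (nat_lit 4) (nat_lit 2) (nat_lit 5) (nat_lit 2) (nat_lit 4) (nat_lit 313) (nat_lit 233) (nat_lit 174))))) (XT.nd (nat_lit 156) (nat_lit 0) (nat_lit 0) (XT.nd (nat_lit 78) (nat_lit 0) (nat_lit 0) (XT.lf (nat_lit 0) (nat_lit 262755845769) (nat_lit 76) (nat_lit 78667075356) (nat_lit 76) (nat_lit 63662338946) (nat_lit 1) (nat_lit 4) (nat_lit 2) (nat_lit 5) (nat_lit 2) (nat_lit 4) (nat_lit 314) (nat_lit 233) (nat_lit 173)) (XT.lf (nat_lit 0) (nat_lit 293501934251) (nat_lit 76) (nat_lit 79366574187) (nat_lit 76) (nat_lit 64350751656) (nat_lit 1) (nat_lit 4) (nat_lit 2) (nat_lit 5) (nat_lit 2) (nat_lit 4) (nat_lit 315) (nat_lit 233) (nat_lit 172))) (XT.nd (nat_lit 78) (nat_lit 0) (nat_lit 0) (XT.lf (nat_lit 0) (nat_lit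 326694263134) (nat_lit 76) (nat_lit 80128090824) (nat_lit 76) (nat_lit 65102003366) (nat_lit 1) (nat_lit 4) (nat_lit 2) (nat_lit 5) (nat_lit 2) (nat_lit 4) (nat_lit 316) (nat_lit 233) (nat_lit 171)) (XT.nd (nat_lit 78) (nat_lit 0) (nat_lit 0) (XT.lf (nat_lit 0) (nat_lit 362529527698) (nat_lit 76) (nat_lit 80956137958) (nat_lit 76) (nat_lit 65920545937) (nat_lit 1) (nat_lit 4) (nat_lit 2) (nat_lit 5) (nat_lit 2) (nat_lit 4) (nat_lit 317) (nat_lit 233) (nat_lit 170)) (XT.lf (nat_lit 0) (nat_lit 401220085067) (nat_lit 76) (nat_lit 81855622534) (nat_lit 76) (nat_lit 66811229993) (nat_lit 1) (nat_lit 4) (nat_lit 2) (nat_lit 5) (nat_lit 2) (nat_lit 4) (nat_lit 318) (nat_lit 233) (nat_lit 169)))))) (XT.nd (nat_lit 390) (nat_lit 0) (nat_lit 0) (XT.nd (nat_lit 156) (nat_lit 0) (nat_lit 0) (XT.nd (nat_lit 78) (nat_lit 0) (nat_lit 0) (XT.lf (nat_lit 0) (nat_lit 442995212618) (nat_lit 76) (nat_lit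 82831874832) (nat_lit 76) (nat_lit 67779333661) (nat_lit 1) (nat_lit 4) (nat_lit 2) (nat_lit 5) (nat_lit 2) (nat_lit 4) (nat_lit 319) (nat_lit 233) (nat_lit 168)) (XT.lf (nat_lit 0) (nat_lit 488102466663) (nat_lit 76) (nat_lit 83890680050) (nat_lit 76) (nat_lit 68830593851) (nat_lit 1) (nat_lit 4) (nat_lit 2) (nat_lit 5) (nat_lit 2) (nat_lit 4) (nat_lit 320) (nat_lit 233) (nat_lit 167))) (XT.nd (nat_lit 78) (nat_lit 0) (nat_lit 0) (XT.lf (nat_lit 0) (nat_lit 536809149448) (nat_lit 76) (nat_lit 85038312590) (nat_lit 76) (nat_lit 69971240255) (nat_lit 1) (nat_lit 4) (nat_lit 2) (nat_lit 5) (nat_lit 2) (nat_lit 4) (nat_lit 321) (nat_lit 233) (nat_lit 166)) (XT.nd (nat_lit 78) (nat_lit 0) (nat_lit 0) (XT.lf (nat_lit 0) (nat_lit 589403893167) (nat_lit 76) (nat_lit 86281573238) (nat_lit 76) (nat_lit 71208032257) (nat_lit 1) (nat_lit 4) (nat_lit 2) (nat_lit 5) (nat_lit 2) (nat_lit 4) (nat_lit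 322) (nat_lit 233) (nat_lit 165)) (XT.lf (nat_lit 0) (nat_lit 646198370375) (nat_lit 76) (nat_lit 87627829463) (nat_lit 76) (nat_lit 72548298996) (nat_lit 1) (nat_lit 4) (nat_lit 2) (nat_lit 5) (nat_lit 2) (nat_lit 4) (nat_lit 323) (nat_lit 233) (nat_lit 164))))) (XT.nd (nat_lit 156) (nat_lit 0) (nat_lit 0) (XT.nd (nat_lit 78) (nat_lit 0) (nat_lit 0) (XT.lf (nat_lit 0) (nat_lit 707529140938) (nat_lit 76) (nat_lit 89085059080) (nat_lit 76) (nat_lit 73999982793) (nat_lit 1) (nat_lit 4) (nat_lit 2) (nat_lit 5) (nat_lit 2) (nat_lit 4) (nat_lit 324) (nat_lit 233) (nat_lit 163)) (XT.lf (nat_lit 0) (nat_lit 773759646459) (nat_lit 76) (nat_lit 90661897525) (nat_lit 76) (nat_lit 75571686218) (nat_lit 1) (nat_lit 4) (nat_lit 2) (nat_lit 5) (nat_lit 2) (nat_lit 4) (nat_lit 325) (nat_lit 233) (nat_lit 162))) (XT.nd (nat_lit 31746) (nat_lit 0) (nat_lit 4256) (XT.lf (nat_lit 0) (nat_lit 845282364007)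 (nat_lit 76) (nat_lit 92367689025) (nat_lit 76) (nat_lit 77272723071) (nat_lit 1) (nat_lit 4) (nat_lit 2) (nat_lit 5) (nat_lit 2) (nat_lit 4) (nat_lit 326) (nat_lit 233) (nat_lit 161)) (XT.nd (nat_lit 78) (nat_lit 380) (nat_lit 0) (XT.lf (nat_lit 0) (nat_lit 1204831664) (nat_lit 380) (nat_lit 1407862133) (nat_lit 0) (nat_lit 1204831664) (nat_lit 62) (nat_lit 5) (nat_lit 67) (nat_lit 4) (nat_lit 62) (nat_lit 4) (nat_lit 252) (nat_lit 234) (nat_lit 234)) (XT.lf (nat_lit 0) (nat_lit 5069802745) (nat_lit 380) (nat_lit 2431445304) (nat_lit 380) (nat_lit 357912093) (nat_lit 57) (nat_lit 4) (nat_lit 62) (nat_lit 5) (nat_lit 62) (nat_lit 4) (nat_lit 253) (nat_lit 234) (nat_lit 233))))))))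
noncomputable def xc36 : XT := (XT.nd (nat_lit 1482) (nat_lit 760) (nat_lit 0) (XT.nd (nat_lit 702) (nat_lit 1140) (nat_lit 0) (XT.nd (nat_lit 312) (nat_lit 988) (nat_lit 0) (XT.nd (nat_lit 156) (nat_lit 532) (nat_lit 0) (XT.nd (nat_lit 78) (nat_lit 380) (nat_lit 0) (XT.lf (nat_lit 0) (nat_lit 4528336833) (nat_lit 380) (nat_lit 2856080558) (nat_lit 0) (nat_lit 725030767) (nat_lit 52) (nat_lit 5) (nat_lit 57) (nat_lit 4) (nat_lit 52) (nat_lit 4) (nat_lit 254) (nat_lit 234) (nat_lit 232)) (XT.lf (nat_lit 0) (nat_lit 1200572755) (nat_lit 380) (nat_lit 3035199075) (nat_lit 76) (nat_lit 4152193558) (nat_lit 47) (nat_lit 5) (nat_lit 52) (nat_lit 5) (nat_lit 48) (nat_lit 4) (nat_lit 255) (nat_lit 234) (nat_lit 231))) (XT.nd (nat_lit 78) (nat_lit 304) (nat_lit 0) (XT.lf (nat_lit 0) (nat_lit 5336858986) (nat_lit 228) (nat_lit 712354178) (nat_lit 304) (nat_lit 2647250435) (nat_lit 44) (nat_lit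 5) (nat_lit 47) (nat_lit 5) (nat_lit 48) (nat_lit 4) (nat_lit 256) (nat_lit 234) (nat_lit 230)) (XT.lf (nat_lit 0) (nat_lit 2054690048) (nat_lit 304) (nat_lit 3897942736) (nat_lit 76) (nat_lit 3082703679) (nat_lit 40) (nat_lit 5) (nat_lit 44) (nat_lit 5) (nat_lit 41) (nat_lit 4) (nat_lit 257) (nat_lit 234) (nat_lit 229)))) (XT.nd (nat_lit 156) (nat_lit 456) (nat_lit 0) (XT.nd (nat_lit 78) (nat_lit 304) (nat_lit 0) (XT.lf (nat_lit 0) (nat_lit 4732113818) (nat_lit 228) (nat_lit 2156755407) (nat_lit 304) (nat_lit 2518760593) (nat_lit 37) (nat_lit 5) (nat_lit 40) (nat_lit 5) (nat_lit 41) (nat_lit 4) (nat_lit 258) (nat_lit 234) (nat_lit 228)) (XT.lf (nat_lit 0) (nat_lit 2103688552) (nat_lit 304) (nat_lit 5759117746) (nat_lit 76) (nat_lit 1952056446) (nat_lit 33) (nat_lit 5) (nat_lit 37) (nat_lit 5) (nat_lit 34) (nat_lit 4) (nat_lit 259) (nat_lit 234) (nat_lit 227))) (XT.nd (nat_lit 78) (nat_lit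 304) (nat_lit 0) (XT.lf (nat_lit 0) (nat_lit 3032478689) (nat_lit 152) (nat_lit 3869620627) (nat_lit 228) (nat_lit 3356542756) (nat_lit 31) (nat_lit 5) (nat_lit 33) (nat_lit 5) (nat_lit 34) (nat_lit 4) (nat_lit 260) (nat_lit 234) (nat_lit 226)) (XT.nd (nat_lit 78) (nat_lit 0) (nat_lit 0) (XT.lf (nat_lit 0) (nat_lit 1174965261) (nat_lit 304) (nat_lit 9100418687) (nat_lit 76) (nat_lit 468572544) (nat_lit 27) (nat_lit 5) (nat_lit 31) (nat_lit 5) (nat_lit 28) (nat_lit 4) (nat_lit 261) (nat_lit 234) (nat_lit 225)) (XT.lf (nat_lit 0) (nat_lit 5894569374) (nat_lit 304) (nat_lit 278605421) (nat_lit 76) (nat_lit 5095626115) (nat_lit 27) (nat_lit 5) (nat_lit 31) (nat_lit 5) (nat_lit 28) (nat_lit 4) (nat_lit 262) (nat_lit 234) (nat_lit 224)))))) (XT.nd (nat_lit 390) (nat_lit 380) (nat_lit 0) (XT.nd (nat_lit 156) (nat_lit 380) (nat_lit 0) (XT.nd (nat_lit 78) (nat_lit 228) (nat_lit 0) (XT.lf (nat_lit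 0) (nat_lit 9197255554) (nat_lit 152) (nat_lit 1705129999) (nat_lit 228) (nat_lit 938284332) (nat_lit 25) (nat_lit 5) (nat_lit 27) (nat_lit 5) (nat_lit 28) (nat_lit 4) (nat_lit 263) (nat_lit 234) (nat_lit 223)) (XT.lf (nat_lit 0) (nat_lit 3665108989) (nat_lit 228) (nat_lit 5709637512) (nat_lit 76) (nat_lit 3084242579) (nat_lit 22) (nat_lit 5) (nat_lit 25) (nat_lit 5) (nat_lit 23) (nat_lit 4) (nat_lit 264) (nat_lit 234) (nat_lit 222))) (XT.nd (nat_lit 78) (nat_lit 228) (nat_lit 0) (XT.lf (nat_lit 0) (nat_lit 3599707095) (nat_lit 152) (nat_lit 4921266497) (nat_lit 228) (nat_lit 4609642249) (nat_lit 20) (nat_lit 5) (nat_lit 22) (nat_lit 5) (nat_lit 23) (nat_lit 4) (nat_lit 265) (nat_lit 234) (nat_lit 221)) (XT.nd (nat_lit 78) (nat_lit 228) (nat_lit 0) (XT.lf (nat_lit 0) (nat_lit 13538547135) (nat_lit 152) (nat_lit 122049344) (nat_lit 228) (nat_lit 201042133) (nat_lit 20) (nat_lit 5) (nat_lit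 22) (nat_lit 5) (nat_lit 23) (nat_lit 4) (nat_lit 266) (nat_lit 234) (nat_lit 220)) (XT.lf (nat_lit 0) (nat_lit 4451836644) (nat_lit 228) (nat_lit 5177365017) (nat_lit 76) (nat_lit 5016883758) (nat_lit 17) (nat_lit 5) (nat_lit 20) (nat_lit 5) (nat_lit 18) (nat_lit 4) (nat_lit 267) (nat_lit 234) (nat_lit 219))))) (XT.nd (nat_lit 156) (nat_lit 304) (nat_lit 0) (XT.nd (nat_lit 78) (nat_lit 0) (nat_lit 0) (XT.lf (nat_lit 0) (nat_lit 4400778509) (nat_lit 76) (nat_lit 4961261928) (nat_lit 152) (nat_lit 6136827199) (nat_lit 16) (nat_lit 5) (nat_lit 17) (nat_lit 5) (nat_lit 18) (nat_lit 4) (nat_lit 268) (nat_lit 234) (nat_lit 218)) (XT.lf (nat_lit 0) (nat_lit 14581062246) (nat_lit 152) (nat_lit 1779461013) (nat_lit 0) (nat_lit 63874426) (nat_lit 16) (nat_lit 5) (nat_lit 18) (nat_lit 4) (nat_lit 16) (nat_lit 4) (nat_lit 269) (nat_lit 234) (nat_lit 217))) (XT.nd (nat_lit 78) (nat_lit 76) (nat_lit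 0) (XT.lf (nat_lit 0) (nat_lit 2752482145) (nat_lit 228) (nat_lit 9272873515) (nat_lit 76) (nat_lit 5394307534) (nat_lit 13) (nat_lit 5) (nat_lit 16) (nat_lit 5) (nat_lit 14) (nat_lit 4) (nat_lit 270) (nat_lit 234) (nat_lit 216)) (XT.nd (nat_lit 78) (nat_lit 0) (nat_lit 0) (XT.lf (nat_lit 0) (nat_lit 147187374) (nat_lit 76) (nat_lit 7380335356) (nat_lit 152) (nat_lit 10971974974) (nat_lit 12) (nat_lit 5) (nat_lit 13) (nat_lit 5) (nat_lit 14) (nat_lit 4) (nat_lit 271) (nat_lit 234) (nat_lit 215)) (XT.lf (nat_lit 0) (nat_lit 10399823257) (nat_lit 76) (nat_lit 2295549095) (nat_lit 152) (nat_lit 6970052298) (nat_lit 12) (nat_lit 5) (nat_lit 13) (nat_lit 5) (nat_lit 14) (nat_lit 4) (nat_lit 272) (nat_lit 234) (nat_lit 214))))))) (XT.nd (nat_lit 702) (nat_lit 304) (nat_lit 0) (XT.nd (nat_lit 312) (nat_lit 152) (nat_lit 0) (XT.nd (nat_lit 156) (nat_lit 76) (nat_lit 0) (XT.nd (nat_lit 78) (nat_lit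 76) (nat_lit 0) (XT.lf (nat_lit 0) (nat_lit 267484857) (nat_lit 152) (nat_lit 17922216551) (nat_lit 152) (nat_lit 2739499519) (nat_lit 10) (nat_lit 4) (nat_lit 12) (nat_lit 5) (nat_lit 12) (nat_lit 4) (nat_lit 273) (nat_lit 234) (nat_lit 213)) (XT.lf (nat_lit 0) (nat_lit 1837142722) (nat_lit 228) (nat_lit 11695377641) (nat_lit 76) (nat_lit 8757021569) (nat_lit 9) (nat_lit 5) (nat_lit 12) (nat_lit 5) (nat_lit 10) (nat_lit 4) (nat_lit 274) (nat_lit 234) (nat_lit 212))) (XT.nd (nat_lit 78) (nat_lit 76) (nat_lit 0) (XT.lf (nat_lit 0) (nat_lit 6558782540) (nat_lit 228) (nat_lit 2274167114) (nat_lit 76) (nat_lit 14929958783) (nat_lit 9) (nat_lit 5) (nat_lit 12) (nat_lit 5) (nat_lit 10) (nat_lit 4) (nat_lit 275) (nat_lit 234) (nat_lit 211)) (XT.lf (nat_lit 0) (nat_lit 7955130011) (nat_lit 76) (nat_lit 3710152980) (nat_lit 152) (nat_lit 13688676985) (nat_lit 8) (nat_lit 5) (nat_lit 9) (nat_lit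 5) (nat_lit 10) (nat_lit 4) (nat_lit 276) (nat_lit 234) (nat_lit 210)))) (XT.nd (nat_lit 156) (nat_lit 76) (nat_lit 0) (XT.nd (nat_lit 78) (nat_lit 76) (nat_lit 0) (XT.lf (nat_lit 0) (nat_lit 17136379558) (nat_lit 152) (nat_lit 8211437937) (nat_lit 0) (nat_lit 1726833766) (nat_lit 8) (nat_lit 5) (nat_lit 10) (nat_lit 4) (nat_lit 8) (nat_lit 4) (nat_lit 277) (nat_lit 234) (nat_lit 209)) (XT.lf (nat_lit 0) (nat_lit 1515406043) (nat_lit 76) (nat_lit 21511679643) (nat_lit 76) (nat_lit 5906963692) (nat_lit 7) (nat_lit 4) (nat_lit 8) (nat_lit 5) (nat_lit 8) (nat_lit 4) (nat_lit 278) (nat_lit 234) (nat_lit 208))) (XT.nd (nat_lit 78) (nat_lit 76) (nat_lit 0) (XT.lf (nat_lit 0) (nat_lit 12140030413) (nat_lit 76) (nat_lit 17292773450) (nat_lit 76) (nat_lit 1507344388) (nat_lit 7) (nat_lit 4) (nat_lit 8) (nat_lit 5) (nat_lit 8) (nat_lit 4) (nat_lit 279) (nat_lit 234) (nat_lit 207)) (XT.nd (nat_lit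 78) (nat_lit 0) (nat_lit 0) (XT.lf (nat_lit 0) (nat_lit 3046850707) (nat_lit 152) (nat_lit 9706712066) (nat_lit 76) (nat_lit 20355438090) (nat_lit 6) (nat_lit 5) (nat_lit 8) (nat_lit 5) (nat_lit 7) (nat_lit 4) (nat_lit 280) (nat_lit 234) (nat_lit 206)) (XT.lf (nat_lit 0) (nat_lit 7826649949) (nat_lit 152) (nat_lit 63055984) (nat_lit 76) (nat_lit 27564827901) (nat_lit 6) (nat_lit 5) (nat_lit 8) (nat_lit 5) (nat_lit 7) (nat_lit 4) (nat_lit 281) (nat_lit 234) (nat_lit 205)))))) (XT.nd (nat_lit 390) (nat_lit 152) (nat_lit 0) (XT.nd (nat_lit 156) (nat_lit 76) (nat_lit 0) (XT.nd (nat_lit 78) (nat_lit 0) (nat_lit 0) (XT.lf (nat_lit 0) (nat_lit 10549171230) (nat_lit 76) (nat_lit 2524153406) (nat_lit 152) (nat_lit 24910263569) (nat_lit 5) (nat_lit 5) (nat_lit 6) (nat_lit 5) (nat_lit 7) (nat_lit 4) (nat_lit 282) (nat_lit 234) (nat_lit 204)) (XT.lf (nat_lit 0) (nat_lit 18714638487) (nat_lit 152)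 (nat_lit 18890824952) (nat_lit 0) (nat_lit 3110853910) (nat_lit 5) (nat_lit 5) (nat_lit 7) (nat_lit 4) (nat_lit 5) (nat_lit 4) (nat_lit 283) (nat_lit 234) (nat_lit 203))) (XT.nd (nat_lit 78) (nat_lit 76) (nat_lit 0) (XT.lf (nat_lit 0) (nat_lit 24778268246) (nat_lit 152) (nat_lit 9833584591) (nat_lit 0) (nat_lit 9057350044) (nat_lit 5) (nat_lit 5) (nat_lit 7) (nat_lit 4) (nat_lit 5) (nat_lit 4) (nat_lit 284) (nat_lit 234) (nat_lit 202)) (XT.nd (nat_lit 78) (nat_lit 76) (nat_lit 0) (XT.lf (nat_lit 0) (nat_lit 31260737425) (nat_lit 152) (nat_lit 169614249) (nat_lit 0) (nat_lit 15431362162) (nat_lit 5) (nat_lit 5) (nat_lit 7) (nat_lit 4) (nat_lit 5) (nat_lit 4) (nat_lit 285) (nat_lit 234) (nat_lit 201)) (XT.lf (nat_lit 0) (nat_lit 10494235107) (nat_lit 76) (nat_lit 27870069969) (nat_lit 76) (nat_lit 11940271502) (nat_lit 4) (nat_lit 4) (nat_lit 5) (nat_lit 5) (nat_lit 5) (nat_lit 4) (nat_lit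 286) (nat_lit 234) (nat_lit 200))))) (XT.nd (nat_lit 156) (nat_lit 152) (nat_lit 0) (XT.nd (nat_lit 78) (nat_lit 0) (nat_lit 0) (XT.lf (nat_lit 0) (nat_lit 21912871817) (nat_lit 76) (nat_lit 24067811747) (nat_lit 76) (nat_lit 8045028832) (nat_lit 4) (nat_lit 4) (nat_lit 5) (nat_lit 5) (nat_lit 5) (nat_lit 4) (nat_lit 287) (nat_lit 234) (nat_lit 199)) (XT.lf (nat_lit 0) (nat_lit 34148353663) (nat_lit 76) (nat_lit 20003917609) (nat_lit 76) (nat_lit 3895037983) (nat_lit 4) (nat_lit 4) (nat_lit 5) (nat_lit 5) (nat_lit 5) (nat_lit 4) (nat_lit 288) (nat_lit 234) (nat_lit 198))) (XT.nd (nat_lit 78) (nat_lit 76) (nat_lit 0) (XT.lf (nat_lit 0) (nat_lit 517192853) (nat_lit 152) (nat_lit 15128353454) (nat_lit 76) (nat_lit 46747235439) (nat_lit 3) (nat_lit 5) (nat_lit 5) (nat_lit 5) (nat_lit 4) (nat_lit 4) (nat_lit 289) (nat_lit 234) (nat_lit 197)) (XT.nd (nat_lit 78) (nat_lit 76) (nat_lit 0) (XT.lf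 (nat_lit 0) (nat_lit 5100566013) (nat_lit 152) (nat_lit 5806252528) (nat_lit 76) (nat_lit 56178202663) (nat_lit 3) (nat_lit 5) (nat_lit 5) (nat_lit 5) (nat_lit 4) (nat_lit 4) (nat_lit 290) (nat_lit 234) (nat_lit 196)) (XT.lf (nat_lit 0) (nat_lit 4321723879) (nat_lit 76) (nat_lit 5752658111) (nat_lit 152) (nat_lit 62077118413) (nat_lit 2) (nat_lit 5) (nat_lit 3) (nat_lit 5) (nat_lit 4) (nat_lit 4) (nat_lit 291) (nat_lit 234) (nat_lit 195))))))))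
noncomputable def xc37 : XT := (XT.nd (nat_lit 1482) (nat_lit 0) (nat_lit 0) (XT.nd (nat_lit 702) (nat_lit 76) (nat_lit 0) (XT.nd (nat_lit 312) (nat_lit 0) (nat_lit 0) (XT.nd (nat_lit 156) (nat_lit 0) (nat_lit 0) (XT.nd (nat_lit 78) (nat_lit 0) (nat_lit 0) (XT.lf (nat_lit 0) (nat_lit 15392462175) (nat_lit 76) (nat_lit 113150034) (nat_lit 152) (nat_lit 62114755867) (nat_lit 2) (nat_lit 5) (nat_lit 3) (nat_lit 5) (nat_lit 4) (nat_lit 4) (nat_lit 292) (nat_lit 234) (nat_lit 194)) (XT.lf (nat_lit 0) (nat_lit 21425638613) (nat_lit 152) (nat_lit 56341975095) (nat_lit 0) (nat_lit 5756458775) (nat_lit 2) (nat_lit 5) (nat_lit 4) (nat_lit 4) (nat_lit 2) (nat_lit 4) (nat_lit 293) (nat_lit 234) (nat_lit 193))) (XT.nd (nat_lit 78) (nat_lit 0) (nat_lit 0) (XT.lf (nat_lit 0) (nat_lit 27785037961) (nat_lit 152) (nat_lit 50052599637) (nat_lit 0) (nat_lit 12064186187) (nat_lit 2) (nat_lit 5) (nat_lit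 4) (nat_lit 4) (nat_lit 2) (nat_lit 4) (nat_lit 294) (nat_lit 234) (nat_lit 192)) (XT.lf (nat_lit 0) (nat_lit 34619728992) (nat_lit 152) (nat_lit 43320742565) (nat_lit 0) (nat_lit 18851032834) (nat_lit 2) (nat_lit 5) (nat_lit 4) (nat_lit 4) (nat_lit 2) (nat_lit 4) (nat_lit 295) (nat_lit 234) (nat_lit 191)))) (XT.nd (nat_lit 156) (nat_lit 0) (nat_lit 0) (XT.nd (nat_lit 78) (nat_lit 0) (nat_lit 0) (XT.lf (nat_lit 0) (nat_lit 41970213581) (nat_lit 152) (nat_lit 36106511393) (nat_lit 0) (nat_lit 26157217066) (nat_lit 2) (nat_lit 5) (nat_lit 4) (nat_lit 4) (nat_lit 2) (nat_lit 4) (nat_lit 296) (nat_lit 234) (nat_lit 190)) (XT.lf (nat_lit 0) (nat_lit 49880050154) (nat_lit 152) (nat_lit 28367155121) (nat_lit 0) (nat_lit 34026034790) (nat_lit 2) (nat_lit 5) (nat_lit 4) (nat_lit 4) (nat_lit 2) (nat_lit 4) (nat_lit 297) (nat_lit 234) (nat_lit 189))) (XT.nd (nat_lit 78) (nat_lit 0) (nat_lit 0)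 (XT.lf (nat_lit 0) (nat_lit 58396111816) (nat_lit 152) (nat_lit 20056810896) (nat_lit 0) (nat_lit 42504116038) (nat_lit 2) (nat_lit 5) (nat_lit 4) (nat_lit 4) (nat_lit 2) (nat_lit 4) (nat_lit 298) (nat_lit 234) (nat_lit 188)) (XT.nd (nat_lit 78) (nat_lit 0) (nat_lit 0) (XT.lf (nat_lit 0) (nat_lit 67568864119) (nat_lit 152) (nat_lit 11126232236) (nat_lit 0) (nat_lit 51641701289) (nat_lit 2) (nat_lit 5) (nat_lit 4) (nat_lit 4) (nat_lit 2) (nat_lit 4) (nat_lit 299) (nat_lit 234) (nat_lit 187)) (XT.lf (nat_lit 0) (nat_lit 77452664113) (nat_lit 152) (nat_lit 1522497191) (nat_lit 0) (nat_lit 61492939199) (nat_lit 2) (nat_lit 5) (nat_lit 4) (nat_lit 4) (nat_lit 2) (nat_lit 4) (nat_lit 300) (nat_lit 234) (nat_lit 186)))))) (XT.nd (nat_lit 390) (nat_lit 0) (nat_lit 0) (XT.nd (nat_lit 156) (nat_lit 0) (nat_lit 0) (XT.nd (nat_lit 78) (nat_lit 0) (nat_lit 0) (XT.lf (nat_lit 0) (nat_lit 9102646804)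 (nat_lit 76) (nat_lit 79145553488) (nat_lit 76) (nat_lit 63155678495) (nat_lit 1) (nat_lit 4) (nat_lit 2) (nat_lit 5) (nat_lit 2) (nat_lit 4) (nat_lit 301) (nat_lit 234) (nat_lit 185)) (XT.lf (nat_lit 0) (nat_lit 20595600296) (nat_lit 76) (nat_lit 79318205286) (nat_lit 76) (nat_lit 63300413555) (nat_lit 1) (nat_lit 4) (nat_lit 2) (nat_lit 5) (nat_lit 2) (nat_lit 4) (nat_lit 302) (nat_lit 234) (nat_lit 184))) (XT.nd (nat_lit 78) (nat_lit 0) (nat_lit 0) (XT.lf (nat_lit 0) (nat_lit 32974129041) (nat_lit 76) (nat_lit 79519924049) (nat_lit 76) (nat_lit 63476283485) (nat_lit 1) (nat_lit 4) (nat_lit 2) (nat_lit 5) (nat_lit 2) (nat_lit 4) (nat_lit 303) (nat_lit 234) (nat_lit 183)) (XT.nd (nat_lit 78) (nat_lit 0) (nat_lit 0) (XT.lf (nat_lit 0) (nat_lit 46311587286) (nat_lit 76) (nat_lit 79751905147) (nat_lit 76) (nat_lit 63684330479) (nat_lit 1) (nat_lit 4) (nat_lit 2) (nat_lit 5) (nat_lit 2)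 (nat_lit 4) (nat_lit 304) (nat_lit 234) (nat_lit 182)) (XT.lf (nat_lit 0) (nat_lit 60687011818) (nat_lit 76) (nat_lit 80015523282) (nat_lit 76) (nat_lit 63925787406) (nat_lit 1) (nat_lit 4) (nat_lit 2) (nat_lit 5) (nat_lit 2) (nat_lit 4) (nat_lit 305) (nat_lit 234) (nat_lit 181))))) (XT.nd (nat_lit 156) (nat_lit 0) (nat_lit 0) (XT.nd (nat_lit 78) (nat_lit 0) (nat_lit 0) (XT.lf (nat_lit 0) (nat_lit 76185590340) (nat_lit 76) (nat_lit 80312340637) (nat_lit 76) (nat_lit 64202085124) (nat_lit 1) (nat_lit 4) (nat_lit 2) (nat_lit 5) (nat_lit 2) (nat_lit 4) (nat_lit 306) (nat_lit 234) (nat_lit 180)) (XT.lf (nat_lit 0) (nat_lit 92899166279) (nat_lit 76) (nat_lit 80644116128) (nat_lit 76) (nat_lit 64514860952) (nat_lit 1) (nat_lit 4) (nat_lit 2) (nat_lit 5) (nat_lit 2) (nat_lit 4) (nat_lit 307) (nat_lit 234) (nat_lit 179))) (XT.nd (nat_lit 78) (nat_lit 0) (nat_lit 0) (XT.lf (nat_lit 0) (nat_lit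 110926783048) (nat_lit 76) (nat_lit 81012815833) (nat_lit 76) (nat_lit 64865968376) (nat_lit 1) (nat_lit 4) (nat_lit 2) (nat_lit 5) (nat_lit 2) (nat_lit 4) (nat_lit 308) (nat_lit 234) (nat_lit 178)) (XT.nd (nat_lit 78) (nat_lit 0) (nat_lit 0) (XT.lf (nat_lit 0) (nat_lit 130375270969) (nat_lit 76) (nat_lit 81420624638) (nat_lit 76) (nat_lit 65257488032) (nat_lit 1) (nat_lit 4) (nat_lit 2) (nat_lit 5) (nat_lit 2) (nat_lit 4) (nat_lit 309) (nat_lit 234) (nat_lit 177)) (XT.lf (nat_lit 0) (nat_lit 151359880341) (nat_lit 76) (nat_lit 81869959190) (nat_lit 76) (nat_lit 65691740038) (nat_lit 1) (nat_lit 4) (nat_lit 2) (nat_lit 5) (nat_lit 2) (nat_lit 4) (nat_lit 310) (nat_lit 234) (nat_lit 176))))))) (XT.nd (nat_lit 780) (nat_lit 0) (nat_lit 0) (XT.nd (nat_lit 390) (nat_lit 0) (nat_lit 0) (XT.nd (nat_lit 156) (nat_lit 0) (nat_lit 0) (XT.nd (nat_lit 78) (nat_lit 0) (nat_lit 0) (XT.lf (nat_lit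 0) (nat_lit 174004964405) (nat_lit 76) (nat_lit 82363482210) (nat_lit 76) (nat_lit 66171297739) (nat_lit 1) (nat_lit 4) (nat_lit 2) (nat_lit 5) (nat_lit 2) (nat_lit 4) (nat_lit 311) (nat_lit 234) (nat_lit 175)) (XT.lf (nat_lit 0) (nat_lit 198444716250) (nat_lit 76) (nat_lit 82904118280) (nat_lit 76) (nat_lit 66699002957) (nat_lit 1) (nat_lit 4) (nat_lit 2) (nat_lit 5) (nat_lit 2) (nat_lit 4) (nat_lit 312) (nat_lit 234) (nat_lit 174))) (XT.nd (nat_lit 78) (nat_lit 0) (nat_lit 0) (XT.lf (nat_lit 0) (nat_lit 224823964037) (nat_lit 76) (nat_lit 83495071170) (nat_lit 76) (nat_lit 67277982836) (nat_lit 1) (nat_lit 4) (nat_lit 2) (nat_lit 5) (nat_lit 2) (nat_lit 4) (nat_lit 313) (nat_lit 234) (nat_lit 173)) (XT.nd (nat_lit 78) (nat_lit 0) (nat_lit 0) (XT.lf (nat_lit 0) (nat_lit 253299029233) (nat_lit 76) (nat_lit 84139842821) (nat_lit 76) (nat_lit 67911668366) (nat_lit 1) (nat_lit 4) (nat_lit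 2) (nat_lit 5) (nat_lit 2) (nat_lit 4) (nat_lit 314) (nat_lit 234) (nat_lit 172)) (XT.lf (nat_lit 0) (nat_lit 284038652966) (nat_lit 76) (nat_lit 84842254104) (nat_lit 76) (nat_lit 68603814721) (nat_lit 1) (nat_lit 4) (nat_lit 2) (nat_lit 5) (nat_lit 2) (nat_lit 4) (nat_lit 315) (nat_lit 234) (nat_lit 171))))) (XT.nd (nat_lit 156) (nat_lit 0) (nat_lit 0) (XT.nd (nat_lit 78) (nat_lit 0) (nat_lit 0) (XT.lf (nat_lit 0) (nat_lit 317224995969) (nat_lit 76) (nat_lit 85606467455) (nat_lit 76) (nat_lit 69358523511) (nat_lit 1) (nat_lit 4) (nat_lit 2) (nat_lit 5) (nat_lit 2) (nat_lit 4) (nat_lit 316) (nat_lit 234) (nat_lit 170)) (XT.lf (nat_lit 0) (nat_lit 353054718052) (nat_lit 76) (nat_lit 86437011546) (nat_lit 76) (nat_lit 70180267081) (nat_lit 1) (nat_lit 4) (nat_lit 2) (nat_lit 5) (nat_lit 2) (nat_lit 4) (nat_lit 317) (nat_lit 234) (nat_lit 169))) (XT.nd (nat_lit 78) (nat_lit 0) (nat_lit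 0) (XT.lf (nat_lit 0) (nat_lit 391740143495) (nat_lit 76) (nat_lit 87338808120) (nat_lit 76) (nat_lit 71073915025) (nat_lit 1) (nat_lit 4) (nat_lit 2) (nat_lit 5) (nat_lit 2) (nat_lit 4) (nat_lit 318) (nat_lit 234) (nat_lit 168)) (XT.nd (nat_lit 78) (nat_lit 0) (nat_lit 0) (XT.lf (nat_lit 0) (nat_lit 433510519262) (nat_lit 76) (nat_lit 88317201157) (nat_lit 76) (nat_lit 72044763034) (nat_lit 1) (nat_lit 4) (nat_lit 2) (nat_lit 5) (nat_lit 2) (nat_lit 4) (nat_lit 319) (nat_lit 234) (nat_lit 167)) (XT.lf (nat_lit 0) (nat_lit 478613373507) (nat_lit 76) (nat_lit 89377988541) (nat_lit 76) (nat_lit 73098564281) (nat_lit 1) (nat_lit 4) (nat_lit 2) (nat_lit 5) (nat_lit 2) (nat_lit 4) (nat_lit 320) (nat_lit 234) (nat_lit 166)))))) (XT.nd (nat_lit 390) (nat_lit 0) (nat_lit 0) (XT.nd (nat_lit 156) (nat_lit 0) (nat_lit 0) (XT.nd (nat_lit 78) (nat_lit 0) (nat_lit 0) (XT.lf (nat_lit 0) (nat_lit 527315982403)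 (nat_lit 76) (nat_lit 90527456419) (nat_lit 76) (nat_lit 74241563515) (nat_lit 1) (nat_lit 4) (nat_lit 2) (nat_lit 5) (nat_lit 2) (nat_lit 4) (nat_lit 321) (nat_lit 234) (nat_lit 165)) (XT.lf (nat_lit 0) (nat_lit 579906954003) (nat_lit 76) (nat_lit 91772416454) (nat_lit 76) (nat_lit 75480534063) (nat_lit 1) (nat_lit 4) (nat_lit 2) (nat_lit 5) (nat_lit 2) (nat_lit 4) (nat_lit 322) (nat_lit 234) (nat_lit 164))) (XT.nd (nat_lit 78) (nat_lit 0) (nat_lit 0) (XT.lf (nat_lit 0) (nat_lit 636697938509) (nat_lit 76) (nat_lit 93120246186) (nat_lit 76) (nat_lit 76822817975) (nat_lit 1) (nat_lit 4) (nat_lit 2) (nat_lit 5) (nat_lit 2) (nat_lit 4) (nat_lit 323) (nat_lit 234) (nat_lit 163)) (XT.nd (nat_lit 78) (nat_lit 0) (nat_lit 0) (XT.lf (nat_lit 0) (nat_lit 698025475087) (nat_lit 76) (nat_lit 94578932755) (nat_lit 76) (nat_lit 78276369524) (nat_lit 1) (nat_lit 4) (nat_lit 2) (nat_lit 5) (nat_lit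 2) (nat_lit 4) (nat_lit 324) (nat_lit 234) (nat_lit 162)) (XT.lf (nat_lit 0) (nat_lit 764252986178) (nat_lit 76) (nat_lit 96157120228) (nat_lit 76) (nat_lit 79849802350) (nat_lit 1) (nat_lit 4) (nat_lit 2) (nat_lit 5) (nat_lit 2) (nat_lit 4) (nat_lit 325) (nat_lit 234) (nat_lit 161))))) (XT.nd (nat_lit 31668) (nat_lit 0) (nat_lit 4180) (XT.nd (nat_lit 31590) (nat_lit 0) (nat_lit 5700) (XT.lf (nat_lit 0) (nat_lit 835772931105) (nat_lit 76) (nat_lit 97864160828) (nat_lit 76) (nat_lit 81552440499) (nat_lit 1) (nat_lit 4) (nat_lit 2) (nat_lit 5) (nat_lit 2) (nat_lit 4) (nat_lit 326) (nat_lit 234) (nat_lit 160)) (XT.lf (nat_lit 0) (nat_lit 1126950999) (nat_lit 684) (nat_lit 1373899847) (nat_lit 0) (nat_lit 1126950999) (nat_lit 76) (nat_lit 5) (nat_lit 85) (nat_lit 4) (nat_lit 76) (nat_lit 4) (nat_lit 250) (nat_lit 235) (nat_lit 235))) (XT.nd (nat_lit 78) (nat_lit 836) (nat_lit 0) (XT.lf (nat_lit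 0) (nat_lit 4573016460) (nat_lit 684) (nat_lit 2608162307) (nat_lit 684) (nat_lit 256775646) (nat_lit 67) (nat_lit 4) (nat_lit 76) (nat_lit 5) (nat_lit 76) (nat_lit 4) (nat_lit 251) (nat_lit 235) (nat_lit 234)) (XT.nd (nat_lit 78) (nat_lit 456) (nat_lit 0) (XT.lf (nat_lit 0) (nat_lit 4470368469) (nat_lit 380) (nat_lit 3016952610) (nat_lit 0) (nat_lit 157419390) (nat_lit 62) (nat_lit 5) (nat_lit 67) (nat_lit 4) (nat_lit 62) (nat_lit 4) (nat_lit 252) (nat_lit 235) (nat_lit 233)) (XT.lf (nat_lit 0) (nat_lit 1463698941) (nat_lit 456) (nat_lit 3232304407) (nat_lit 76) (nat_lit 3180950286) (nat_lit 56) (nat_lit 5) (nat_lit 62) (nat_lit 5) (nat_lit 57) (nat_lit 4) (nat_lit 253) (nat_lit 235) (nat_lit 232))))))))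
noncomputable def xc38 : XT := (XT.nd (nat_lit 1482) (nat_lit 760) (nat_lit 0) (XT.nd (nat_lit 702) (nat_lit 1140) (nat_lit 0) (XT.nd (nat_lit 312) (nat_lit 988) (nat_lit 0) (XT.nd (nat_lit 156) (nat_lit 532) (nat_lit 0) (XT.nd (nat_lit 78) (nat_lit 380) (nat_lit 0) (XT.lf (nat_lit 0) (nat_lit 4612089315) (nat_lit 304) (nat_lit 1545323888) (nat_lit 380) (nat_lit 1979218667) (nat_lit 52) (nat_lit 5) (nat_lit 56) (nat_lit 5) (nat_lit 57) (nat_lit 4) (nat_lit 254) (nat_lit 235) (nat_lit 231)) (XT.lf (nat_lit 0) (nat_lit 2559532193) (nat_lit 380) (nat_lit 3949764021) (nat_lit 76) (nat_lit 1914728429) (nat_lit 47) (nat_lit 5) (nat_lit 52) (nat_lit 5) (nat_lit 48) (nat_lit 4) (nat_lit 255) (nat_lit 235) (nat_lit 230))) (XT.nd (nat_lit 78) (nat_lit 304) (nat_lit 0) (XT.lf (nat_lit 0) (nat_lit 4204982354) (nat_lit 228) (nat_lit 3040539388) (nat_lit 304) (nat_lit 1495636350) (nat_lit 44) (nat_lit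 5) (nat_lit 47) (nat_lit 5) (nat_lit 48) (nat_lit 4) (nat_lit 256) (nat_lit 235) (nat_lit 229)) (XT.lf (nat_lit 0) (nat_lit 2970642171) (nat_lit 304) (nat_lit 5331467849) (nat_lit 76) (nat_lit 787405389) (nat_lit 40) (nat_lit 5) (nat_lit 44) (nat_lit 5) (nat_lit 41) (nat_lit 4) (nat_lit 257) (nat_lit 235) (nat_lit 228)))) (XT.nd (nat_lit 156) (nat_lit 456) (nat_lit 0) (XT.nd (nat_lit 78) (nat_lit 304) (nat_lit 0) (XT.lf (nat_lit 0) (nat_lit 3068405804) (nat_lit 228) (nat_lit 4577879685) (nat_lit 304) (nat_lit 1823860527) (nat_lit 37) (nat_lit 5) (nat_lit 40) (nat_lit 5) (nat_lit 41) (nat_lit 4) (nat_lit 258) (nat_lit 235) (nat_lit 227)) (XT.lf (nat_lit 0) (nat_lit 2114714929) (nat_lit 228) (nat_lit 471519557) (nat_lit 304) (nat_lit 7300469592) (nat_lit 33) (nat_lit 5) (nat_lit 36) (nat_lit 5) (nat_lit 37) (nat_lit 5) (nat_lit 259) (nat_lit 235) (nat_lit 226))) (XT.nd (nat_lit 78) (nat_lit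 304) (nat_lit 0) (XT.lf (nat_lit 0) (nat_lit 783020465) (nat_lit 152) (nat_lit 6437498773) (nat_lit 228) (nat_lit 3118505614) (nat_lit 31) (nat_lit 5) (nat_lit 33) (nat_lit 5) (nat_lit 34) (nat_lit 4) (nat_lit 260) (nat_lit 235) (nat_lit 225)) (XT.nd (nat_lit 78) (nat_lit 228) (nat_lit 0) (XT.lf (nat_lit 0) (nat_lit 1254651807) (nat_lit 228) (nat_lit 903597602) (nat_lit 76) (nat_lit 8673736179) (nat_lit 30) (nat_lit 5) (nat_lit 33) (nat_lit 5) (nat_lit 31) (nat_lit 5) (nat_lit 261) (nat_lit 235) (nat_lit 224)) (XT.lf (nat_lit 0) (nat_lit 5813750755) (nat_lit 304) (nat_lit 3076818758) (nat_lit 76) (nat_lit 2474559400) (nat_lit 27) (nat_lit 5) (nat_lit 31) (nat_lit 5) (nat_lit 28) (nat_lit 4) (nat_lit 262) (nat_lit 235) (nat_lit 223)))))) (XT.nd (nat_lit 390) (nat_lit 380) (nat_lit 0) (XT.nd (nat_lit 156) (nat_lit 380) (nat_lit 0) (XT.nd (nat_lit 78) (nat_lit 228) (nat_lit 0) (XT.lf (nat_lit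 0) (nat_lit 6147372898) (nat_lit 152) (nat_lit 4522877034) (nat_lit 228) (nat_lit 1274567184) (nat_lit 25) (nat_lit 5) (nat_lit 27) (nat_lit 5) (nat_lit 28) (nat_lit 4) (nat_lit 263) (nat_lit 235) (nat_lit 222)) (XT.lf (nat_lit 0) (nat_lit 3140467248) (nat_lit 228) (nat_lit 9184971840) (nat_lit 76) (nat_lit 248139280) (nat_lit 22) (nat_lit 5) (nat_lit 25) (nat_lit 5) (nat_lit 23) (nat_lit 4) (nat_lit 264) (nat_lit 235) (nat_lit 221))) (XT.nd (nat_lit 78) (nat_lit 380) (nat_lit 0) (XT.lf (nat_lit 0) (nat_lit 7844367645) (nat_lit 228) (nat_lit 139362903) (nat_lit 76) (nat_lit 5269279677) (nat_lit 22) (nat_lit 5) (nat_lit 25) (nat_lit 5) (nat_lit 23) (nat_lit 4) (nat_lit 265) (nat_lit 235) (nat_lit 220)) (XT.nd (nat_lit 78) (nat_lit 228) (nat_lit 0) (XT.lf (nat_lit 0) (nat_lit 9652801215) (nat_lit 152) (nat_lit 3238054292) (nat_lit 228) (nat_lit 1098025803) (nat_lit 20) (nat_lit 5) (nat_lit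 22) (nat_lit 5) (nat_lit 23) (nat_lit 4) (nat_lit 266) (nat_lit 235) (nat_lit 219)) (XT.lf (nat_lit 0) (nat_lit 3380451418) (nat_lit 228) (nat_lit 9532565580) (nat_lit 76) (nat_lit 1871335799) (nat_lit 17) (nat_lit 5) (nat_lit 20) (nat_lit 5) (nat_lit 18) (nat_lit 4) (nat_lit 267) (nat_lit 235) (nat_lit 218))))) (XT.nd (nat_lit 156) (nat_lit 304) (nat_lit 0) (XT.nd (nat_lit 78) (nat_lit 76) (nat_lit 0) (XT.lf (nat_lit 0) (nat_lit 8139840829) (nat_lit 228) (nat_lit 227460109) (nat_lit 76) (nat_lit 7277531208) (nat_lit 17) (nat_lit 5) (nat_lit 20) (nat_lit 5) (nat_lit 18) (nat_lit 4) (nat_lit 268) (nat_lit 235) (nat_lit 217)) (XT.lf (nat_lit 0) (nat_lit 9883817906) (nat_lit 76) (nat_lit 3392347711) (nat_lit 152) (nat_lit 3298476256) (nat_lit 16) (nat_lit 5) (nat_lit 17) (nat_lit 5) (nat_lit 18) (nat_lit 4) (nat_lit 269) (nat_lit 235) (nat_lit 216))) (XT.nd (nat_lit 78) (nat_lit 76) (nat_lit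 0) (XT.lf (nat_lit 0) (nat_lit 1134221567) (nat_lit 228) (nat_lit 14550591059) (nat_lit 76) (nat_lit 1896843079) (nat_lit 13) (nat_lit 5) (nat_lit 16) (nat_lit 5) (nat_lit 14) (nat_lit 4) (nat_lit 270) (nat_lit 235) (nat_lit 215)) (XT.nd (nat_lit 78) (nat_lit 76) (nat_lit 0) (XT.lf (nat_lit 0) (nat_lit 5836394557) (nat_lit 228) (nat_lit 5252592270) (nat_lit 76) (nat_lit 7576265019) (nat_lit 13) (nat_lit 5) (nat_lit 16) (nat_lit 5) (nat_lit 14) (nat_lit 4) (nat_lit 271) (nat_lit 235) (nat_lit 214)) (XT.lf (nat_lit 0) (nat_lit 4714117943) (nat_lit 76) (nat_lit 6138312239) (nat_lit 152) (nat_lit 8986448805) (nat_lit 12) (nat_lit 5) (nat_lit 13) (nat_lit 5) (nat_lit 14) (nat_lit 4) (nat_lit 272) (nat_lit 235) (nat_lit 213))))))) (XT.nd (nat_lit 780) (nat_lit 228) (nat_lit 0) (XT.nd (nat_lit 390) (nat_lit 228) (nat_lit 0) (XT.nd (nat_lit 156) (nat_lit 152) (nat_lit 0) (XT.nd (nat_lit 78)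 (nat_lit 152) (nat_lit 0) (XT.lf (nat_lit 0) (nat_lit 15449545765) (nat_lit 76) (nat_lit 782480110) (nat_lit 152) (nat_lit 4876467439) (nat_lit 12) (nat_lit 5) (nat_lit 13) (nat_lit 5) (nat_lit 14) (nat_lit 4) (nat_lit 273) (nat_lit 235) (nat_lit 212)) (XT.lf (nat_lit 0) (nat_lit 4422491879) (nat_lit 152) (nat_lit 17645732274) (nat_lit 152) (nat_lit 410336144) (nat_lit 10) (nat_lit 4) (nat_lit 12) (nat_lit 5) (nat_lit 12) (nat_lit 4) (nat_lit 274) (nat_lit 235) (nat_lit 211))) (XT.nd (nat_lit 78) (nat_lit 76) (nat_lit 0) (XT.lf (nat_lit 0) (nat_lit 4268152172) (nat_lit 228) (nat_lit 8724712974) (nat_lit 76) (nat_lit 10962279004) (nat_lit 9) (nat_lit 5) (nat_lit 12) (nat_lit 5) (nat_lit 10) (nat_lit 4) (nat_lit 275) (nat_lit 235) (nat_lit 210)) (XT.nd (nat_lit 78) (nat_lit 0) (nat_lit 0) (XT.lf (nat_lit 0) (nat_lit 1199221805) (nat_lit 76) (nat_lit 8017836582) (nat_lit 152) (nat_lit 16337093662)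 (nat_lit 8) (nat_lit 5) (nat_lit 9) (nat_lit 5) (nat_lit 10) (nat_lit 4) (nat_lit 276) (nat_lit 235) (nat_lit 209)) (XT.lf (nat_lit 0) (nat_lit 12051292322) (nat_lit 76) (nat_lit 2559424203) (nat_lit 152) (nat_lit 12668069702) (nat_lit 8) (nat_lit 5) (nat_lit 9) (nat_lit 5) (nat_lit 10) (nat_lit 4) (nat_lit 277) (nat_lit 235) (nat_lit 208))))) (XT.nd (nat_lit 156) (nat_lit 152) (nat_lit 0) (XT.nd (nat_lit 78) (nat_lit 76) (nat_lit 0) (XT.lf (nat_lit 0) (nat_lit 20391374245) (nat_lit 152) (nat_lit 5589980485) (nat_lit 0) (nat_lit 3162397747) (nat_lit 8) (nat_lit 5) (nat_lit 10) (nat_lit 4) (nat_lit 8) (nat_lit 4) (nat_lit 278) (nat_lit 235) (nat_lit 207)) (XT.lf (nat_lit 0) (nat_lit 4772536939) (nat_lit 76) (nat_lit 21890198285) (nat_lit 76) (nat_lit 4493894833) (nat_lit 7) (nat_lit 4) (nat_lit 8) (nat_lit 5) (nat_lit 8) (nat_lit 4) (nat_lit 279) (nat_lit 235) (nat_lit 206))) (XT.nd (nat_lit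 78) (nat_lit 76) (nat_lit 0) (XT.lf (nat_lit 0) (nat_lit 114240704) (nat_lit 152) (nat_lit 17317042371) (nat_lit 76) (nat_lit 15898667062) (nat_lit 6) (nat_lit 5) (nat_lit 8) (nat_lit 5) (nat_lit 7) (nat_lit 4) (nat_lit 280) (nat_lit 235) (nat_lit 205)) (XT.nd (nat_lit 78) (nat_lit 76) (nat_lit 0) (XT.lf (nat_lit 0) (nat_lit 4855477148) (nat_lit 152) (nat_lit 7740963556) (nat_lit 76) (nat_lit 23081020226) (nat_lit 6) (nat_lit 5) (nat_lit 8) (nat_lit 5) (nat_lit 7) (nat_lit 4) (nat_lit 281) (nat_lit 235) (nat_lit 204)) (XT.lf (nat_lit 0) (nat_lit 2552756919) (nat_lit 76) (nat_lit 7388842183) (nat_lit 152) (nat_lit 28272989837) (nat_lit 5) (nat_lit 5) (nat_lit 6) (nat_lit 5) (nat_lit 7) (nat_lit 4) (nat_lit 282) (nat_lit 235) (nat_lit 203)))))) (XT.nd (nat_lit 390) (nat_lit 152) (nat_lit 0) (XT.nd (nat_lit 156) (nat_lit 76) (nat_lit 0) (XT.nd (nat_lit 78) (nat_lit 0) (nat_lit 0) (XT.lf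 (nat_lit 0) (nat_lit 13821909642) (nat_lit 76) (nat_lit 1676832401) (nat_lit 152) (nat_lit 25452827180) (nat_lit 5) (nat_lit 5) (nat_lit 6) (nat_lit 5) (nat_lit 7) (nat_lit 4) (nat_lit 283) (nat_lit 235) (nat_lit 202)) (XT.lf (nat_lit 0) (nat_lit 21504340326) (nat_lit 152) (nat_lit 18102897459) (nat_lit 0) (nat_lit 4300157982) (nat_lit 5) (nat_lit 5) (nat_lit 7) (nat_lit 4) (nat_lit 5) (nat_lit 4) (nat_lit 284) (nat_lit 235) (nat_lit 201))) (XT.nd (nat_lit 78) (nat_lit 76) (nat_lit 0) (XT.lf (nat_lit 0) (nat_lit 27957317446) (nat_lit 152) (nat_lit 8491388499) (nat_lit 0) (nat_lit 10652711898) (nat_lit 5) (nat_lit 5) (nat_lit 7) (nat_lit 4) (nat_lit 5) (nat_lit 4) (nat_lit 285) (nat_lit 235) (nat_lit 200)) (XT.nd (nat_lit 78) (nat_lit 0) (nat_lit 0) (XT.lf (nat_lit 0) (nat_lit 1847123945) (nat_lit 76) (nat_lit 33051448052) (nat_lit 76) (nat_lit 15653858055) (nat_lit 4) (nat_lit 4) (nat_lit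 5) (nat_lit 5) (nat_lit 5) (nat_lit 4) (nat_lit 286) (nat_lit 235) (nat_lit 199)) (XT.lf (nat_lit 0) (nat_lit 13219296327) (nat_lit 76) (nat_lit 29269644033) (nat_lit 76) (nat_lit 11785957325) (nat_lit 4) (nat_lit 4) (nat_lit 5) (nat_lit 5) (nat_lit 5) (nat_lit 4) (nat_lit 287) (nat_lit 235) (nat_lit 198))))) (XT.nd (nat_lit 156) (nat_lit 152) (nat_lit 0) (XT.nd (nat_lit 78) (nat_lit 0) (nat_lit 0) (XT.lf (nat_lit 0) (nat_lit 25411755648) (nat_lit 76) (nat_lit 25224688971) (nat_lit 76) (nat_lit 7661283086) (nat_lit 4) (nat_lit 4) (nat_lit 5) (nat_lit 5) (nat_lit 5) (nat_lit 4) (nat_lit 288) (nat_lit 235) (nat_lit 197)) (XT.lf (nat_lit 0) (nat_lit 38496753517) (nat_lit 76) (nat_lit 20892612762) (nat_lit 76) (nat_lit 3255392824) (nat_lit 4) (nat_lit 4) (nat_lit 5) (nat_lit 5) (nat_lit 5) (nat_lit 4) (nat_lit 289) (nat_lit 235) (nat_lit 196))) (XT.nd (nat_lit 78) (nat_lit 76) (nat_lit 0)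 (XT.lf (nat_lit 0) (nat_lit 1411163016) (nat_lit 152) (nat_lit 14812682099) (nat_lit 76) (nat_lit 51116768917) (nat_lit 3) (nat_lit 5) (nat_lit 5) (nat_lit 5) (nat_lit 4) (nat_lit 4) (nat_lit 290) (nat_lit 235) (nat_lit 195)) (XT.nd (nat_lit 78) (nat_lit 76) (nat_lit 0) (XT.lf (nat_lit 0) (nat_lit 6298050864) (nat_lit 152) (nat_lit 4857845663) (nat_lit 76) (nat_lit 61255565026) (nat_lit 3) (nat_lit 5) (nat_lit 5) (nat_lit 5) (nat_lit 4) (nat_lit 4) (nat_lit 291) (nat_lit 235) (nat_lit 194)) (XT.lf (nat_lit 0) (nat_lit 6018965637) (nat_lit 76) (nat_lit 5613430240) (nat_lit 152) (nat_lit 66252797903) (nat_lit 2) (nat_lit 5) (nat_lit 3) (nat_lit 5) (nat_lit 4) (nat_lit 4) (nat_lit 292) (nat_lit 235) (nat_lit 193))))))))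
noncomputable def xc39 : XT := (XT.nd (nat_lit 1482) (nat_lit 0) (nat_lit 0) (XT.nd (nat_lit 702) (nat_lit 76) (nat_lit 0) (XT.nd (nat_lit 312) (nat_lit 0) (nat_lit 0) (XT.nd (nat_lit 156) (nat_lit 0) (nat_lit 0) (XT.nd (nat_lit 78) (nat_lit 0) (nat_lit 0) (XT.lf (nat_lit 0) (nat_lit 17449173894) (nat_lit 152) (nat_lit 65925923461) (nat_lit 0) (nat_lit 418982042) (nat_lit 2) (nat_lit 5) (nat_lit 4) (nat_lit 4) (nat_lit 2) (nat_lit 4) (nat_lit 293) (nat_lit 235) (nat_lit 192)) (XT.lf (nat_lit 0) (nat_lit 23792486576) (nat_lit 152) (nat_lit 59665715514) (nat_lit 0) (nat_lit 6714450340) (nat_lit 2) (nat_lit 5) (nat_lit 4) (nat_lit 4) (nat_lit 2) (nat_lit 4) (nat_lit 294) (nat_lit 235) (nat_lit 191))) (XT.nd (nat_lit 78) (nat_lit 0) (nat_lit 0) (XT.lf (nat_lit 0) (nat_lit 30612282547) (nat_lit 152) (nat_lit 52960865396) (nat_lit 0) (nat_lit 13489945955) (nat_lit 2) (nat_lit 5) (nat_lit 4)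 (nat_lit 4) (nat_lit 2) (nat_lit 4) (nat_lit 295) (nat_lit 235) (nat_lit 190)) (XT.lf (nat_lit 0) (nat_lit 37948975414) (nat_lit 152) (nat_lit 45771640663) (nat_lit 0) (nat_lit 20785619972) (nat_lit 2) (nat_lit 5) (nat_lit 4) (nat_lit 4) (nat_lit 2) (nat_lit 4) (nat_lit 296) (nat_lit 235) (nat_lit 189)))) (XT.nd (nat_lit 156) (nat_lit 0) (nat_lit 0) (XT.nd (nat_lit 78) (nat_lit 0) (nat_lit 0) (XT.lf (nat_lit 0) (nat_lit 45846041873) (nat_lit 152) (nat_lit 38055438501) (nat_lit 0) (nat_lit 28644706016) (nat_lit 2) (nat_lit 5) (nat_lit 4) (nat_lit 4) (nat_lit 2) (nat_lit 4) (nat_lit 297) (nat_lit 235) (nat_lit 188)) (XT.lf (nat_lit 0) (nat_lit 54350279356) (nat_lit 152) (nat_lit 29766533268) (nat_lit 0) (nat_lit 37113776449) (nat_lit 2) (nat_lit 5) (nat_lit 4) (nat_lit 4) (nat_lit 2) (nat_lit 4) (nat_lit 298) (nat_lit 235) (nat_lit 187))) (XT.nd (nat_lit 78) (nat_lit 0) (nat_lit 0) (XT.lf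 (nat_lit 0) (nat_lit 63512083345) (nat_lit 152) (nat_lit 20855805525) (nat_lit 0) (nat_lit 46243018353) (nat_lit 2) (nat_lit 5) (nat_lit 4) (nat_lit 4) (nat_lit 2) (nat_lit 4) (nat_lit 299) (nat_lit 235) (nat_lit 186)) (XT.nd (nat_lit 78) (nat_lit 0) (nat_lit 0) (XT.lf (nat_lit 0) (nat_lit 73385746012) (nat_lit 152) (nat_lit 11270450960) (nat_lit 0) (nat_lit 56086530941) (nat_lit 2) (nat_lit 5) (nat_lit 4) (nat_lit 4) (nat_lit 2) (nat_lit 4) (nat_lit 300) (nat_lit 235) (nat_lit 185)) (XT.lf (nat_lit 0) (nat_lit 84029777949) (nat_lit 152) (nat_lit 953667471) (nat_lit 0) (nat_lit 66702646139) (nat_lit 2) (nat_lit 5) (nat_lit 4) (nat_lit 4) (nat_lit 2) (nat_lit 4) (nat_lit 301) (nat_lit 235) (nat_lit 184)))))) (XT.nd (nat_lit 390) (nat_lit 0) (nat_lit 0) (XT.nd (nat_lit 156) (nat_lit 0) (nat_lit 0) (XT.nd (nat_lit 78) (nat_lit 0) (nat_lit 0) (XT.lf (nat_lit 0) (nat_lit 10491474127) (nat_lit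 76) (nat_lit 85179582087) (nat_lit 76) (nat_lit 67826601446) (nat_lit 1) (nat_lit 4) (nat_lit 2) (nat_lit 5) (nat_lit 2) (nat_lit 4) (nat_lit 302) (nat_lit 235) (nat_lit 183)) (XT.lf (nat_lit 0) (nat_lit 22854929411) (nat_lit 76) (nat_lit 85388091636) (nat_lit 76) (nat_lit 68011176890) (nat_lit 1) (nat_lit 4) (nat_lit 2) (nat_lit 5) (nat_lit 2) (nat_lit 4) (nat_lit 303) (nat_lit 235) (nat_lit 182))) (XT.nd (nat_lit 78) (nat_lit 0) (nat_lit 0) (XT.lf (nat_lit 0) (nat_lit 36178430746) (nat_lit 76) (nat_lit 85626360498) (nat_lit 76) (nat_lit 68227284544) (nat_lit 1) (nat_lit 4) (nat_lit 2) (nat_lit 5) (nat_lit 2) (nat_lit 4) (nat_lit 304) (nat_lit 235) (nat_lit 181)) (XT.nd (nat_lit 78) (nat_lit 0) (nat_lit 0) (XT.lf (nat_lit 0) (nat_lit 50540932214) (nat_lit 76) (nat_lit 85895800637) (nat_lit 76) (nat_lit 68476205047) (nat_lit 1) (nat_lit 4) (nat_lit 2) (nat_lit 5) (nat_lit 2) (nat_lit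 4) (nat_lit 305) (nat_lit 235) (nat_lit 180)) (XT.lf (nat_lit 0) (nat_lit 66027544936) (nat_lit 76) (nat_lit 86198008736) (nat_lit 76) (nat_lit 68759413482) (nat_lit 1) (nat_lit 4) (nat_lit 2) (nat_lit 5) (nat_lit 2) (nat_lit 4) (nat_lit 306) (nat_lit 235) (nat_lit 179))))) (XT.nd (nat_lit 156) (nat_lit 0) (nat_lit 0) (XT.nd (nat_lit 78) (nat_lit 0) (nat_lit 0) (XT.lf (nat_lit 0) (nat_lit 82730041430) (nat_lit 76) (nat_lit 86534775657) (nat_lit 76) (nat_lit 69078588122) (nat_lit 1) (nat_lit 4) (nat_lit 2) (nat_lit 5) (nat_lit 2) (nat_lit 4) (nat_lit 307) (nat_lit 235) (nat_lit 178)) (XT.lf (nat_lit 0) (nat_lit 100747399454) (nat_lit 76) (nat_lit 86908097056) (nat_lit 76) (nat_lit 69435620373) (nat_lit 1) (nat_lit 4) (nat_lit 2) (nat_lit 5) (nat_lit 2) (nat_lit 4) (nat_lit 308) (nat_lit 235) (nat_lit 177))) (XT.nd (nat_lit 78) (nat_lit 0) (nat_lit 0) (XT.lf (nat_lit 0) (nat_lit 120186388537)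 (nat_lit 76) (nat_lit 87320185209) (nat_lit 76) (nat_lit 69832625980) (nat_lit 1) (nat_lit 4) (nat_lit 2) (nat_lit 5) (nat_lit 2) (nat_lit 4) (nat_lit 309) (nat_lit 235) (nat_lit 176)) (XT.nd (nat_lit 78) (nat_lit 0) (nat_lit 0) (XT.lf (nat_lit 0) (nat_lit 141162202689) (nat_lit 76) (nat_lit 87773482118) (nat_lit 76) (nat_lit 70271957569) (nat_lit 1) (nat_lit 4) (nat_lit 2) (nat_lit 5) (nat_lit 2) (nat_lit 4) (nat_lit 310) (nat_lit 235) (nat_lit 175)) (XT.lf (nat_lit 0) (nat_lit 163799143030) (nat_lit 76) (nat_lit 88270673989) (nat_lit 76) (nat_lit 70756218588) (nat_lit 1) (nat_lit 4) (nat_lit 2) (nat_lit 5) (nat_lit 2) (nat_lit 4) (nat_lit 311) (nat_lit 235) (nat_lit 174))))))) (XT.nd (nat_lit 780) (nat_lit 0) (nat_lit 0) (XT.nd (nat_lit 390) (nat_lit 0) (nat_lit 0) (XT.nd (nat_lit 156) (nat_lit 0) (nat_lit 0) (XT.nd (nat_lit 78) (nat_lit 0) (nat_lit 0) (XT.lf (nat_lit 0) (nat_lit 188231354391)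 (nat_lit 76) (nat_lit 88814707142) (nat_lit 76) (nat_lit 71288278731) (nat_lit 1) (nat_lit 4) (nat_lit 2) (nat_lit 5) (nat_lit 2) (nat_lit 4) (nat_lit 312) (nat_lit 235) (nat_lit 173)) (XT.lf (nat_lit 0) (nat_lit 214603620248) (nat_lit 76) (nat_lit 89408805479) (nat_lit 76) (nat_lit 71871290946) (nat_lit 1) (nat_lit 4) (nat_lit 2) (nat_lit 5) (nat_lit 2) (nat_lit 4) (nat_lit 313) (nat_lit 235) (nat_lit 172))) (XT.nd (nat_lit 78) (nat_lit 0) (nat_lit 0) (XT.lf (nat_lit 0) (nat_lit 243072220695) (nat_lit 76) (nat_lit 90056489582) (nat_lit 76) (nat_lit 72508710122) (nat_lit 1) (nat_lit 4) (nat_lit 2) (nat_lit 5) (nat_lit 2) (nat_lit 4) (nat_lit 314) (nat_lit 235) (nat_lit 171)) (XT.nd (nat_lit 78) (nat_lit 0) (nat_lit 0) (XT.lf (nat_lit 0) (nat_lit 273805858549) (nat_lit 76) (nat_lit 90761597579) (nat_lit 76) (nat_lit 73204313557) (nat_lit 1) (nat_lit 4) (nat_lit 2) (nat_lit 5) (nat_lit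 2) (nat_lit 4) (nat_lit 315) (nat_lit 235) (nat_lit 170)) (XT.lf (nat_lit 0) (nat_lit 306986659071) (nat_lit 76) (nat_lit 91528307888) (nat_lit 76) (nat_lit 73962223346) (nat_lit 1) (nat_lit 4) (nat_lit 2) (nat_lit 5) (nat_lit 2) (nat_lit 4) (nat_lit 316) (nat_lit 235) (nat_lit 169))))) (XT.nd (nat_lit 156) (nat_lit 0) (nat_lit 0) (XT.nd (nat_lit 78) (nat_lit 0) (nat_lit 0) (XT.lf (nat_lit 0) (nat_lit 342811249228) (nat_lit 76) (nat_lit 92361163977) (nat_lit 76) (nat_lit 74786930805) (nat_lit 1) (nat_lit 4) (nat_lit 2) (nat_lit 5) (nat_lit 2) (nat_lit 4) (nat_lit 317) (nat_lit 235) (nat_lit 168)) (XT.lf (nat_lit 0) (nat_lit 381491922887) (nat_lit 76) (nat_lit 93265101290) (nat_lit 76) (nat_lit 75683323090) (nat_lit 1) (nat_lit 4) (nat_lit 2) (nat_lit 5) (nat_lit 2) (nat_lit 4) (nat_lit 318) (nat_lit 235) (nat_lit 167))) (XT.nd (nat_lit 78) (nat_lit 0) (nat_lit 0) (XT.lf (nat_lit 0) (nat_lit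 423257898854) (nat_lit 76) (nat_lit 94245476492) (nat_lit 76) (nat_lit 76656712155) (nat_lit 1) (nat_lit 4) (nat_lit 2) (nat_lit 5) (nat_lit 2) (nat_lit 4) (nat_lit 319) (nat_lit 235) (nat_lit 166)) (XT.nd (nat_lit 78) (nat_lit 0) (nat_lit 0) (XT.lf (nat_lit 0) (nat_lit 468356679211) (nat_lit 76) (nat_lit 95308099214) (nat_lit 76) (nat_lit 77712866232) (nat_lit 1) (nat_lit 4) (nat_lit 2) (nat_lit 5) (nat_lit 2) (nat_lit 4) (nat_lit 320) (nat_lit 235) (nat_lit 165)) (XT.lf (nat_lit 0) (nat_lit 517055515987) (nat_lit 76) (nat_lit 96459266481) (nat_lit 76) (nat_lit 78858044012) (nat_lit 1) (nat_lit 4) (nat_lit 2) (nat_lit 5) (nat_lit 2) (nat_lit 4) (nat_lit 321) (nat_lit 235) (nat_lit 164)))))) (XT.nd (nat_lit 31824) (nat_lit 0) (nat_lit 4180) (XT.nd (nat_lit 156) (nat_lit 0) (nat_lit 0) (XT.nd (nat_lit 78) (nat_lit 0) (nat_lit 0) (XT.lf (nat_lit 0) (nat_lit 569642994884) (nat_lit 76) (nat_lit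 97705800022) (nat_lit 76) (nat_lit 80099031733) (nat_lit 1) (nat_lit 4) (nat_lit 2) (nat_lit 5) (nat_lit 2) (nat_lit 4) (nat_lit 322) (nat_lit 235) (nat_lit 163)) (XT.lf (nat_lit 0) (nat_lit 626430745405) (nat_lit 76) (nat_lit 99055086705) (nat_lit 76) (nat_lit 81443183397) (nat_lit 1) (nat_lit 4) (nat_lit 2) (nat_lit 5) (nat_lit 2) (nat_lit 4) (nat_lit 323) (nat_lit 235) (nat_lit 162))) (XT.nd (nat_lit 78) (nat_lit 0) (nat_lit 0) (XT.lf (nat_lit 0) (nat_lit 687755287554) (nat_lit 76) (nat_lit 100515122302) (nat_lit 76) (nat_lit 82898464347) (nat_lit 1) (nat_lit 4) (nat_lit 2) (nat_lit 5) (nat_lit 2) (nat_lit 4) (nat_lit 324) (nat_lit 235) (nat_lit 161)) (XT.nd (nat_lit 31512) (nat_lit 0) (nat_lit 6916) (XT.lf (nat_lit 0) (nat_lit 753980026024) (nat_lit 76) (nat_lit 102094558876) (nat_lit 76) (nat_lit 84473498469) (nat_lit 1) (nat_lit 4) (nat_lit 2) (nat_lit 5) (nat_lit 2) (nat_lit 4)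 (nat_lit 325) (nat_lit 235) (nat_lit 160)) (XT.lf (nat_lit 0) (nat_lit 1171464485) (nat_lit 532) (nat_lit 1134261871) (nat_lit 0) (nat_lit 1171464485) (nat_lit 92) (nat_lit 5) (nat_lit 99) (nat_lit 4) (nat_lit 92) (nat_lit 4) (nat_lit 248) (nat_lit 236) (nat_lit 236))))) (XT.nd (nat_lit 156) (nat_lit 1520) (nat_lit 0) (XT.nd (nat_lit 78) (nat_lit 608) (nat_lit 0) (XT.lf (nat_lit 0) (nat_lit 29304366) (nat_lit 608) (nat_lit 2606398522) (nat_lit 76) (nat_lit 4462794399) (nat_lit 84) (nat_lit 5) (nat_lit 92) (nat_lit 5) (nat_lit 85) (nat_lit 4) (nat_lit 249) (nat_lit 236) (nat_lit 235)) (XT.lf (nat_lit 0) (nat_lit 4325850820) (nat_lit 608) (nat_lit 289407369) (nat_lit 684) (nat_lit 2650107621) (nat_lit 76) (nat_lit 5) (nat_lit 84) (nat_lit 5) (nat_lit 85) (nat_lit 4) (nat_lit 250) (nat_lit 236) (nat_lit 234))) (XT.nd (nat_lit 78) (nat_lit 760) (nat_lit 0) (XT.lf (nat_lit 0) (nat_lit 1844599846)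 (nat_lit 760) (nat_lit 3286664441) (nat_lit 76) (nat_lit 2324729523) (nat_lit 66) (nat_lit 5) (nat_lit 76) (nat_lit 5) (nat_lit 67) (nat_lit 4) (nat_lit 251) (nat_lit 236) (nat_lit 233)) (XT.nd (nat_lit 78) (nat_lit 456) (nat_lit 0) (XT.lf (nat_lit 0) (nat_lit 4013089726) (nat_lit 304) (nat_lit 2375748770) (nat_lit 380) (nat_lit 1283173434) (nat_lit 62) (nat_lit 5) (nat_lit 66) (nat_lit 5) (nat_lit 67) (nat_lit 4) (nat_lit 252) (nat_lit 236) (nat_lit 232)) (XT.lf (nat_lit 0) (nat_lit 3087569816) (nat_lit 456) (nat_lit 4099658767) (nat_lit 76) (nat_lit 726475702) (nat_lit 56) (nat_lit 5) (nat_lit 62) (nat_lit 5) (nat_lit 57) (nat_lit 4) (nat_lit 253) (nat_lit 236) (nat_lit 231))))))))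
noncomputable def xc40 : XT := (XT.nd (nat_lit 1482) (nat_lit 760) (nat_lit 0) (XT.nd (nat_lit 702) (nat_lit 1064) (nat_lit 0) (XT.nd (nat_lit 312) (nat_lit 988) (nat_lit 0) (XT.nd (nat_lit 156) (nat_lit 532) (nat_lit 0) (XT.nd (nat_lit 78) (nat_lit 380) (nat_lit 0) (XT.lf (nat_lit 0) (nat_lit 3539953138) (nat_lit 304) (nat_lit 4077201762) (nat_lit 380) (nat_lit 565004139) (nat_lit 52) (nat_lit 5) (nat_lit 56) (nat_lit 5) (nat_lit 57) (nat_lit 4) (nat_lit 254) (nat_lit 236) (nat_lit 230)) (XT.lf (nat_lit 0) (nat_lit 3155446120) (nat_lit 304) (nat_lit 579249459) (nat_lit 380) (nat_lit 4743944306) (nat_lit 47) (nat_lit 5) (nat_lit 51) (nat_lit 5) (nat_lit 52) (nat_lit 5) (nat_lit 255) (nat_lit 236) (nat_lit 229))) (XT.nd (nat_lit 78) (nat_lit 304) (nat_lit 0) (XT.lf (nat_lit 0) (nat_lit 2622268702) (nat_lit 228) (nat_lit 5630422223) (nat_lit 304) (nat_lit 551947578) (nat_lit 44) (nat_lit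 5) (nat_lit 47) (nat_lit 5) (nat_lit 48) (nat_lit 4) (nat_lit 256) (nat_lit 236) (nat_lit 228)) (XT.lf (nat_lit 0) (nat_lit 1885009551) (nat_lit 228) (nat_lit 1827669671) (nat_lit 304) (nat_lit 5448562764) (nat_lit 40) (nat_lit 5) (nat_lit 43) (nat_lit 5) (nat_lit 44) (nat_lit 5) (nat_lit 257) (nat_lit 236) (nat_lit 227)))) (XT.nd (nat_lit 156) (nat_lit 684) (nat_lit 0) (XT.nd (nat_lit 78) (nat_lit 76) (nat_lit 0) (XT.lf (nat_lit 0) (nat_lit 919572537) (nat_lit 228) (nat_lit 7283924244) (nat_lit 304) (nat_lit 1347997150) (nat_lit 37) (nat_lit 5) (nat_lit 40) (nat_lit 5) (nat_lit 41) (nat_lit 4) (nat_lit 258) (nat_lit 236) (nat_lit 226)) (XT.lf (nat_lit 0) (nat_lit 2895510687) (nat_lit 304) (nat_lit 351535788) (nat_lit 76) (nat_lit 6728537013) (nat_lit 36) (nat_lit 5) (nat_lit 40) (nat_lit 5) (nat_lit 37) (nat_lit 5) (nat_lit 259) (nat_lit 236) (nat_lit 225))) (XT.nd (nat_lit 78) (nat_lit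 456) (nat_lit 0) (XT.lf (nat_lit 0) (nat_lit 7355840396) (nat_lit 304) (nat_lit 1924866039) (nat_lit 76) (nat_lit 1156205898) (nat_lit 33) (nat_lit 5) (nat_lit 37) (nat_lit 5) (nat_lit 34) (nat_lit 4) (nat_lit 260) (nat_lit 236) (nat_lit 224)) (XT.nd (nat_lit 78) (nat_lit 228) (nat_lit 0) (XT.lf (nat_lit 0) (nat_lit 1150637587) (nat_lit 228) (nat_lit 3930807138) (nat_lit 76) (nat_lit 5855685261) (nat_lit 30) (nat_lit 5) (nat_lit 33) (nat_lit 5) (nat_lit 31) (nat_lit 5) (nat_lit 261) (nat_lit 236) (nat_lit 223)) (XT.lf (nat_lit 0) (nat_lit 5053538930) (nat_lit 228) (nat_lit 464484059) (nat_lit 304) (nat_lit 5962089377) (nat_lit 27) (nat_lit 5) (nat_lit 30) (nat_lit 5) (nat_lit 31) (nat_lit 5) (nat_lit 262) (nat_lit 236) (nat_lit 222)))))) (XT.nd (nat_lit 390) (nat_lit 304) (nat_lit 0) (XT.nd (nat_lit 156) (nat_lit 532) (nat_lit 0) (XT.nd (nat_lit 78) (nat_lit 76) (nat_lit 0) (XT.lf (nat_lit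 0) (nat_lit 2546992853) (nat_lit 152) (nat_lit 7668047074) (nat_lit 228) (nat_lit 1852969365) (nat_lit 25) (nat_lit 5) (nat_lit 27) (nat_lit 5) (nat_lit 28) (nat_lit 4) (nat_lit 263) (nat_lit 236) (nat_lit 221)) (XT.lf (nat_lit 0) (nat_lit 2430865255) (nat_lit 228) (nat_lit 570040721) (nat_lit 76) (nat_lit 9704008593) (nat_lit 24) (nat_lit 5) (nat_lit 27) (nat_lit 5) (nat_lit 25) (nat_lit 5) (nat_lit 264) (nat_lit 236) (nat_lit 220))) (XT.nd (nat_lit 78) (nat_lit 380) (nat_lit 0) (XT.lf (nat_lit 0) (nat_lit 6989899014) (nat_lit 228) (nat_lit 4339171800) (nat_lit 76) (nat_lit 2062710507) (nat_lit 22) (nat_lit 5) (nat_lit 25) (nat_lit 5) (nat_lit 23) (nat_lit 4) (nat_lit 265) (nat_lit 236) (nat_lit 219)) (XT.nd (nat_lit 78) (nat_lit 228) (nat_lit 0) (XT.lf (nat_lit 0) (nat_lit 5182583268) (nat_lit 152) (nat_lit 6701909907) (nat_lit 228) (nat_lit 2250931289) (nat_lit 20) (nat_lit 5) (nat_lit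 22) (nat_lit 5) (nat_lit 23) (nat_lit 4) (nat_lit 266) (nat_lit 236) (nat_lit 218)) (XT.lf (nat_lit 0) (nat_lit 403962468) (nat_lit 152) (nat_lit 1674760344) (nat_lit 228) (nat_lit 12862515721) (nat_lit 17) (nat_lit 5) (nat_lit 19) (nat_lit 5) (nat_lit 20) (nat_lit 5) (nat_lit 267) (nat_lit 236) (nat_lit 217))))) (XT.nd (nat_lit 156) (nat_lit 228) (nat_lit 0) (XT.nd (nat_lit 78) (nat_lit 76) (nat_lit 0) (XT.lf (nat_lit 0) (nat_lit 6735940544) (nat_lit 228) (nat_lit 5328417022) (nat_lit 76) (nat_lit 3742613727) (nat_lit 17) (nat_lit 5) (nat_lit 20) (nat_lit 5) (nat_lit 18) (nat_lit 4) (nat_lit 268) (nat_lit 236) (nat_lit 216)) (XT.lf (nat_lit 0) (nat_lit 4497125291) (nat_lit 76) (nat_lit 7220646101) (nat_lit 152) (nat_lit 5026868424) (nat_lit 16) (nat_lit 5) (nat_lit 17) (nat_lit 5) (nat_lit 18) (nat_lit 4) (nat_lit 269) (nat_lit 236) (nat_lit 215))) (XT.nd (nat_lit 78) (nat_lit 228)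 (nat_lit 0) (XT.lf (nat_lit 0) (nat_lit 15073509206) (nat_lit 76) (nat_lit 1978365869) (nat_lit 152) (nat_lit 708018691) (nat_lit 16) (nat_lit 5) (nat_lit 17) (nat_lit 5) (nat_lit 18) (nat_lit 4) (nat_lit 270) (nat_lit 236) (nat_lit 214)) (XT.nd (nat_lit 78) (nat_lit 0) (nat_lit 0) (XT.lf (nat_lit 0) (nat_lit 3876546181) (nat_lit 228) (nat_lit 11305276190) (nat_lit 76) (nat_lit 3669343195) (nat_lit 13) (nat_lit 5) (nat_lit 16) (nat_lit 5) (nat_lit 14) (nat_lit 4) (nat_lit 271) (nat_lit 236) (nat_lit 213)) (XT.lf (nat_lit 0) (nat_lit 8758479168) (nat_lit 228) (nat_lit 1590056917) (nat_lit 76) (nat_lit 9683063137) (nat_lit 13) (nat_lit 5) (nat_lit 16) (nat_lit 5) (nat_lit 14) (nat_lit 4) (nat_lit 272) (nat_lit 236) (nat_lit 212))))))) (XT.nd (nat_lit 702) (nat_lit 228) (nat_lit 0) (XT.nd (nat_lit 312) (nat_lit 228) (nat_lit 0) (XT.nd (nat_lit 156) (nat_lit 228) (nat_lit 0) (XT.nd (nat_lit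 78) (nat_lit 0) (nat_lit 0) (XT.lf (nat_lit 0) (nat_lit 8996559090) (nat_lit 76) (nat_lit 5058346743) (nat_lit 152) (nat_lit 7250560040) (nat_lit 12) (nat_lit 5) (nat_lit 13) (nat_lit 5) (nat_lit 14) (nat_lit 4) (nat_lit 273) (nat_lit 236) (nat_lit 211)) (XT.lf (nat_lit 0) (nat_lit 19701476702) (nat_lit 152) (nat_lit 2393555462) (nat_lit 0) (nat_lit 590068982) (nat_lit 12) (nat_lit 5) (nat_lit 14) (nat_lit 4) (nat_lit 12) (nat_lit 4) (nat_lit 274) (nat_lit 236) (nat_lit 210))) (XT.nd (nat_lit 78) (nat_lit 0) (nat_lit 0) (XT.lf (nat_lit 0) (nat_lit 1685870979) (nat_lit 228) (nat_lit 15876695173) (nat_lit 76) (nat_lit 6605772017) (nat_lit 9) (nat_lit 5) (nat_lit 12) (nat_lit 5) (nat_lit 10) (nat_lit 4) (nat_lit 275) (nat_lit 236) (nat_lit 209)) (XT.lf (nat_lit 0) (nat_lit 6567798818) (nat_lit 228) (nat_lit 6073671769) (nat_lit 76) (nat_lit 13129295369) (nat_lit 9) (nat_lit 5) (nat_lit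 12) (nat_lit 5) (nat_lit 10) (nat_lit 4) (nat_lit 276) (nat_lit 236) (nat_lit 208)))) (XT.nd (nat_lit 156) (nat_lit 152) (nat_lit 0) (XT.nd (nat_lit 78) (nat_lit 0) (nat_lit 0) (XT.lf (nat_lit 0) (nat_lit 4498633541) (nat_lit 76) (nat_lit 7318947754) (nat_lit 152) (nat_lit 15685078338) (nat_lit 8) (nat_lit 5) (nat_lit 9) (nat_lit 5) (nat_lit 10) (nat_lit 4) (nat_lit 277) (nat_lit 236) (nat_lit 207)) (XT.lf (nat_lit 0) (nat_lit 15981575329) (nat_lit 76) (nat_lit 1523145034) (nat_lit 152) (nat_lit 11867642299) (nat_lit 8) (nat_lit 5) (nat_lit 9) (nat_lit 5) (nat_lit 10) (nat_lit 4) (nat_lit 278) (nat_lit 236) (nat_lit 206))) (XT.nd (nat_lit 78) (nat_lit 152) (nat_lit 0) (XT.lf (nat_lit 0) (nat_lit 23637982815) (nat_lit 152) (nat_lit 3226502925) (nat_lit 0) (nat_lit 4527715767) (nat_lit 8) (nat_lit 5) (nat_lit 10) (nat_lit 4) (nat_lit 8) (nat_lit 4) (nat_lit 279) (nat_lit 236) (nat_lit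 205)) (XT.nd (nat_lit 78) (nat_lit 76) (nat_lit 0) (XT.lf (nat_lit 0) (nat_lit 7842867341) (nat_lit 76) (nat_lit 22490509029) (nat_lit 76) (nat_lit 3236786088) (nat_lit 7) (nat_lit 4) (nat_lit 8) (nat_lit 5) (nat_lit 8) (nat_lit 4) (nat_lit 280) (nat_lit 236) (nat_lit 204)) (XT.lf (nat_lit 0) (nat_lit 1572341428) (nat_lit 152) (nat_lit 16163252543) (nat_lit 76) (nat_lit 18186437361) (nat_lit 6) (nat_lit 5) (nat_lit 8) (nat_lit 5) (nat_lit 7) (nat_lit 4) (nat_lit 281) (nat_lit 236) (nat_lit 203)))))) (XT.nd (nat_lit 390) (nat_lit 152) (nat_lit 0) (XT.nd (nat_lit 156) (nat_lit 0) (nat_lit 0) (XT.nd (nat_lit 78) (nat_lit 76) (nat_lit 0) (XT.lf (nat_lit 0) (nat_lit 6585546308) (nat_lit 152) (nat_lit 6009172845) (nat_lit 76) (nat_lit 25868128635) (nat_lit 6) (nat_lit 5) (nat_lit 8) (nat_lit 5) (nat_lit 7) (nat_lit 4) (nat_lit 282) (nat_lit 236) (nat_lit 202)) (XT.lf (nat_lit 0) (nat_lit 5005870726)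 (nat_lit 76) (nat_lit 7008418746) (nat_lit 152) (nat_lit 29191998029) (nat_lit 5) (nat_lit 5) (nat_lit 6) (nat_lit 5) (nat_lit 7) (nat_lit 4) (nat_lit 283) (nat_lit 236) (nat_lit 201))) (XT.nd (nat_lit 78) (nat_lit 0) (nat_lit 0) (XT.lf (nat_lit 0) (nat_lit 17009970982) (nat_lit 76) (nat_lit 911413426) (nat_lit 152) (nat_lit 26245691322) (nat_lit 5) (nat_lit 5) (nat_lit 6) (nat_lit 5) (nat_lit 7) (nat_lit 4) (nat_lit 284) (nat_lit 236) (nat_lit 200)) (XT.nd (nat_lit 78) (nat_lit 0) (nat_lit 0) (XT.lf (nat_lit 0) (nat_lit 24332824349) (nat_lit 152) (nat_lit 17579941423) (nat_lit 0) (nat_lit 5450442705) (nat_lit 5) (nat_lit 5) (nat_lit 7) (nat_lit 4) (nat_lit 5) (nat_lit 4) (nat_lit 285) (nat_lit 236) (nat_lit 199)) (XT.lf (nat_lit 0) (nat_lit 31219955432) (nat_lit 152) (nat_lit 7345525659) (nat_lit 0) (nat_lit 12251477076) (nat_lit 5) (nat_lit 5) (nat_lit 7) (nat_lit 4) (nat_lit 5) (nat_lit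 4) (nat_lit 286) (nat_lit 236) (nat_lit 198))))) (XT.nd (nat_lit 156) (nat_lit 76) (nat_lit 0) (XT.nd (nat_lit 78) (nat_lit 0) (nat_lit 0) (XT.lf (nat_lit 0) (nat_lit 3740747946) (nat_lit 76) (nat_lit 34927016180) (nat_lit 76) (nat_lit 15878818647) (nat_lit 4) (nat_lit 4) (nat_lit 5) (nat_lit 5) (nat_lit 5) (nat_lit 4) (nat_lit 287) (nat_lit 236) (nat_lit 197)) (XT.lf (nat_lit 0) (nat_lit 15893371594) (nat_lit 76) (nat_lit 30899597300) (nat_lit 76) (nat_lit 11777585714) (nat_lit 4) (nat_lit 4) (nat_lit 5) (nat_lit 5) (nat_lit 5) (nat_lit 4) (nat_lit 288) (nat_lit 236) (nat_lit 196))) (XT.nd (nat_lit 78) (nat_lit 76) (nat_lit 0) (XT.lf (nat_lit 0) (nat_lit 28941484582) (nat_lit 76) (nat_lit 26583758297) (nat_lit 76) (nat_lit 7393400365) (nat_lit 4) (nat_lit 4) (nat_lit 5) (nat_lit 5) (nat_lit 5) (nat_lit 4) (nat_lit 289) (nat_lit 236) (nat_lit 195)) (XT.nd (nat_lit 78) (nat_lit 76) (nat_lit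 0) (XT.lf (nat_lit 0) (nat_lit 42962409059) (nat_lit 76) (nat_lit 21953923828) (nat_lit 76) (nat_lit 2700282243) (nat_lit 4) (nat_lit 4) (nat_lit 5) (nat_lit 5) (nat_lit 5) (nat_lit 4) (nat_lit 290) (nat_lit 236) (nat_lit 194)) (XT.lf (nat_lit 0) (nat_lit 2255018622) (nat_lit 152) (nat_lit 14689449383) (nat_lit 76) (nat_lit 55746023532) (nat_lit 3) (nat_lit 5) (nat_lit 5) (nat_lit 5) (nat_lit 4) (nat_lit 4) (nat_lit 291) (nat_lit 236) (nat_lit 193))))))))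
noncomputable def xc41 : XT := (XT.nd (nat_lit 1482) (nat_lit 0) (nat_lit 0) (XT.nd (nat_lit 702) (nat_lit 76) (nat_lit 0) (XT.nd (nat_lit 312) (nat_lit 0) (nat_lit 0) (XT.nd (nat_lit 156) (nat_lit 0) (nat_lit 0) (XT.nd (nat_lit 78) (nat_lit 76) (nat_lit 0) (XT.lf (nat_lit 0) (nat_lit 7478712123) (nat_lit 152) (nat_lit 4035133239) (nat_lit 76) (nat_lit 66655929767) (nat_lit 3) (nat_lit 5) (nat_lit 5) (nat_lit 5) (nat_lit 4) (nat_lit 4) (nat_lit 292) (nat_lit 236) (nat_lit 192)) (XT.lf (nat_lit 0) (nat_lit 7659179602) (nat_lit 76) (nat_lit 5548581030) (nat_lit 152) (nat_lit 70875303986) (nat_lit 2) (nat_lit 5) (nat_lit 3) (nat_lit 5) (nat_lit 4) (nat_lit 4) (nat_lit 293) (nat_lit 236) (nat_lit 191))) (XT.nd (nat_lit 78) (nat_lit 0) (nat_lit 0) (XT.lf (nat_lit 0) (nat_lit 19449549355) (nat_lit 152) (nat_lit 70104055125) (nat_lit 0) (nat_lit 913125479) (nat_lit 2) (nat_lit 5) (nat_lit 4)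 (nat_lit 4) (nat_lit 2) (nat_lit 4) (nat_lit 294) (nat_lit 236) (nat_lit 190)) (XT.lf (nat_lit 0) (nat_lit 26255553604) (nat_lit 152) (nat_lit 63424211447) (nat_lit 0) (nat_lit 7678110879) (nat_lit 2) (nat_lit 5) (nat_lit 4) (nat_lit 4) (nat_lit 2) (nat_lit 4) (nat_lit 295) (nat_lit 236) (nat_lit 189)))) (XT.nd (nat_lit 156) (nat_lit 0) (nat_lit 0) (XT.nd (nat_lit 78) (nat_lit 0) (nat_lit 0) (XT.lf (nat_lit 0) (nat_lit 33579476357) (nat_lit 152) (nat_lit 56258140824) (nat_lit 0) (nat_lit 14964053216) (nat_lit 2) (nat_lit 5) (nat_lit 4) (nat_lit 4) (nat_lit 2) (nat_lit 4) (nat_lit 296) (nat_lit 236) (nat_lit 188)) (XT.lf (nat_lit 0) (nat_lit 41464718637) (nat_lit 152) (nat_lit 48563377653) (nat_lit 0) (nat_lit 22814128445) (nat_lit 2) (nat_lit 5) (nat_lit 4) (nat_lit 4) (nat_lit 2) (nat_lit 4) (nat_lit 297) (nat_lit 236) (nat_lit 187))) (XT.nd (nat_lit 78) (nat_lit 0) (nat_lit 0) (XT.lf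 (nat_lit 0) (nat_lit 49958007806) (nat_lit 152) (nat_lit 40294323338) (nat_lit 0) (nat_lit 31274855530) (nat_lit 2) (nat_lit 5) (nat_lit 4) (nat_lit 4) (nat_lit 2) (nat_lit 4) (nat_lit 298) (nat_lit 236) (nat_lit 186)) (XT.nd (nat_lit 78) (nat_lit 0) (nat_lit 0) (XT.lf (nat_lit 0) (nat_lit 59109674467) (nat_lit 152) (nat_lit 31401976075) (nat_lit 0) (nat_lit 40396372113) (nat_lit 2) (nat_lit 5) (nat_lit 4) (nat_lit 4) (nat_lit 2) (nat_lit 4) (nat_lit 299) (nat_lit 236) (nat_lit 185)) (XT.lf (nat_lit 0) (nat_lit 68973950719) (nat_lit 152) (nat_lit 21833640472) (nat_lit 0) (nat_lit 50232731626) (nat_lit 2) (nat_lit 5) (nat_lit 4) (nat_lit 4) (nat_lit 2) (nat_lit 4) (nat_lit 300) (nat_lit 236) (nat_lit 184)))))) (XT.nd (nat_lit 390) (nat_lit 0) (nat_lit 0) (XT.nd (nat_lit 156) (nat_lit 76) (nat_lit 0) (XT.nd (nat_lit 78) (nat_lit 0) (nat_lit 0) (XT.lf (nat_lit 0) (nat_lit 79609291531) (nat_lit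 152) (nat_lit 11532615282) (nat_lit 0) (nat_lit 60842223606) (nat_lit 2) (nat_lit 5) (nat_lit 4) (nat_lit 4) (nat_lit 2) (nat_lit 4) (nat_lit 301) (nat_lit 236) (nat_lit 183)) (XT.lf (nat_lit 0) (nat_lit 91078721146) (nat_lit 152) (nat_lit 437857392) (nat_lit 0) (nat_lit 72287719117) (nat_lit 2) (nat_lit 5) (nat_lit 4) (nat_lit 4) (nat_lit 2) (nat_lit 4) (nat_lit 302) (nat_lit 236) (nat_lit 182))) (XT.nd (nat_lit 78) (nat_lit 0) (nat_lit 0) (XT.lf (nat_lit 0) (nat_lit 11897163438) (nat_lit 76) (nat_lit 91738791179) (nat_lit 76) (nat_lit 72925627942) (nat_lit 1) (nat_lit 4) (nat_lit 2) (nat_lit 5) (nat_lit 2) (nat_lit 4) (nat_lit 303) (nat_lit 236) (nat_lit 181)) (XT.nd (nat_lit 78) (nat_lit 0) (nat_lit 0) (XT.lf (nat_lit 0) (nat_lit 25207741709) (nat_lit 76) (nat_lit 91982882045) (nat_lit 76) (nat_lit 73149199171) (nat_lit 1) (nat_lit 4) (nat_lit 2) (nat_lit 5) (nat_lit 2) (nat_lit 4)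 (nat_lit 304) (nat_lit 236) (nat_lit 180)) (XT.lf (nat_lit 0) (nat_lit 39558277377) (nat_lit 76) (nat_lit 92257712928) (nat_lit 76) (nat_lit 73405030391) (nat_lit 1) (nat_lit 4) (nat_lit 2) (nat_lit 5) (nat_lit 2) (nat_lit 4) (nat_lit 305) (nat_lit 236) (nat_lit 179))))) (XT.nd (nat_lit 156) (nat_lit 0) (nat_lit 0) (XT.nd (nat_lit 78) (nat_lit 0) (nat_lit 0) (XT.lf (nat_lit 0) (nat_lit 55033810654) (nat_lit 76) (nat_lit 92564912457) (nat_lit 76) (nat_lit 73694637639) (nat_lit 1) (nat_lit 4) (nat_lit 2) (nat_lit 5) (nat_lit 2) (nat_lit 4) (nat_lit 306) (nat_lit 236) (nat_lit 178)) (XT.lf (nat_lit 0) (nat_lit 71726048403) (nat_lit 76) (nat_lit 92906301073) (nat_lit 76) (nat_lit 74019737105) (nat_lit 1) (nat_lit 4) (nat_lit 2) (nat_lit 5) (nat_lit 2) (nat_lit 4) (nat_lit 307) (nat_lit 236) (nat_lit 177))) (XT.nd (nat_lit 78) (nat_lit 0) (nat_lit 0) (XT.lf (nat_lit 0) (nat_lit 89733907590)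 (nat_lit 76) (nat_lit 93283901819) (nat_lit 76) (nat_lit 74382255306) (nat_lit 1) (nat_lit 4) (nat_lit 2) (nat_lit 5) (nat_lit 2) (nat_lit 4) (nat_lit 308) (nat_lit 236) (nat_lit 176)) (XT.nd (nat_lit 78) (nat_lit 0) (nat_lit 0) (XT.lf (nat_lit 0) (nat_lit 109164101453) (nat_lit 76) (nat_lit 93699952330) (nat_lit 76) (nat_lit 74784340497) (nat_lit 1) (nat_lit 4) (nat_lit 2) (nat_lit 5) (nat_lit 2) (nat_lit 4) (nat_lit 309) (nat_lit 236) (nat_lit 175)) (XT.lf (nat_lit 0) (nat_lit 130131771881) (nat_lit 76) (nat_lit 94156918089) (nat_lit 76) (nat_lit 75228375405) (nat_lit 1) (nat_lit 4) (nat_lit 2) (nat_lit 5) (nat_lit 2) (nat_lit 4) (nat_lit 310) (nat_lit 236) (nat_lit 174))))))) (XT.nd (nat_lit 780) (nat_lit 0) (nat_lit 0) (XT.nd (nat_lit 390) (nat_lit 0) (nat_lit 0) (XT.nd (nat_lit 156) (nat_lit 0) (nat_lit 0) (XT.nd (nat_lit 78) (nat_lit 0) (nat_lit 0) (XT.lf (nat_lit 0) (nat_lit 152761171738)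 (nat_lit 76) (nat_lit 94657507043) (nat_lit 76) (nat_lit 75716991348) (nat_lit 1) (nat_lit 4) (nat_lit 2) (nat_lit 5) (nat_lit 2) (nat_lit 4) (nat_lit 311) (nat_lit 236) (nat_lit 173)) (XT.lf (nat_lit 0) (nat_lit 177186401170) (nat_lit 76) (nat_lit 95204685644) (nat_lit 76) (nat_lit 76253083828) (nat_lit 1) (nat_lit 4) (nat_lit 2) (nat_lit 5) (nat_lit 2) (nat_lit 4) (nat_lit 312) (nat_lit 236) (nat_lit 172))) (XT.nd (nat_lit 78) (nat_lit 0) (nat_lit 0) (XT.lf (nat_lit 0) (nat_lit 203552202278) (nat_lit 76) (nat_lit 95801696433) (nat_lit 76) (nat_lit 76839829689) (nat_lit 1) (nat_lit 4) (nat_lit 2) (nat_lit 5) (nat_lit 2) (nat_lit 4) (nat_lit 313) (nat_lit 236) (nat_lit 171)) (XT.nd (nat_lit 78) (nat_lit 0) (nat_lit 0) (XT.lf (nat_lit 0) (nat_lit 232014816846) (nat_lit 76) (nat_lit 96452077250) (nat_lit 76) (nat_lit 77480705944) (nat_lit 1) (nat_lit 4) (nat_lit 2) (nat_lit 5) (nat_lit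 2) (nat_lit 4) (nat_lit 314) (nat_lit 236) (nat_lit 170)) (XT.lf (nat_lit 0) (nat_lit 262742912219) (nat_lit 76) (nat_lit 97159682205) (nat_lit 76) (nat_lit 78179510379) (nat_lit 1) (nat_lit 4) (nat_lit 2) (nat_lit 5) (nat_lit 2) (nat_lit 4) (nat_lit 315) (nat_lit 236) (nat_lit 169))))) (XT.nd (nat_lit 156) (nat_lit 0) (nat_lit 0) (XT.nd (nat_lit 78) (nat_lit 0) (nat_lit 0) (XT.lf (nat_lit 0) (nat_lit 295918580814) (nat_lit 76) (nat_lit 97928704511) (nat_lit 76) (nat_lit 78940384055) (nat_lit 1) (nat_lit 4) (nat_lit 2) (nat_lit 5) (nat_lit 2) (nat_lit 4) (nat_lit 316) (nat_lit 236) (nat_lit 168)) (XT.lf (nat_lit 0) (nat_lit 331738419187) (nat_lit 76) (nat_lit 98763701339) (nat_lit 76) (nat_lit 79767835855) (nat_lit 1) (nat_lit 4) (nat_lit 2) (nat_lit 5) (nat_lit 2) (nat_lit 4) (nat_lit 317) (nat_lit 236) (nat_lit 167))) (XT.nd (nat_lit 78) (nat_lit 0) (nat_lit 0) (XT.lf (nat_lit 0) (nat_lit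 370414693046) (nat_lit 76) (nat_lit 99669620818) (nat_lit 76) (nat_lit 80666769197) (nat_lit 1) (nat_lit 4) (nat_lit 2) (nat_lit 5) (nat_lit 2) (nat_lit 4) (nat_lit 318) (nat_lit 236) (nat_lit 166)) (XT.nd (nat_lit 78) (nat_lit 0) (nat_lit 0) (XT.lf (nat_lit 0) (nat_lit 412176595125) (nat_lit 76) (nat_lit 100651831358) (nat_lit 76) (nat_lit 81642511092) (nat_lit 1) (nat_lit 4) (nat_lit 2) (nat_lit 5) (nat_lit 2) (nat_lit 4) (nat_lit 319) (nat_lit 236) (nat_lit 165)) (XT.lf (nat_lit 0) (nat_lit 457271603362) (nat_lit 76) (nat_lit 101716153468) (nat_lit 76) (nat_lit 82700843716) (nat_lit 1) (nat_lit 4) (nat_lit 2) (nat_lit 5) (nat_lit 2) (nat_lit 4) (nat_lit 320) (nat_lit 236) (nat_lit 164)))))) (XT.nd (nat_lit 31668) (nat_lit 0) (nat_lit 5700) (XT.nd (nat_lit 156) (nat_lit 0) (nat_lit 0) (XT.nd (nat_lit 78) (nat_lit 0) (nat_lit 0) (XT.lf (nat_lit 0) (nat_lit 505966947436) (nat_lit 76)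 (nat_lit 102868894241) (nat_lit 76) (nat_lit 83848038668) (nat_lit 1) (nat_lit 4) (nat_lit 2) (nat_lit 5) (nat_lit 2) (nat_lit 4) (nat_lit 321) (nat_lit 236) (nat_lit 163)) (XT.lf (nat_lit 0) (nat_lit 558551192348) (nat_lit 76) (nat_lit 104116884734) (nat_lit 76) (nat_lit 85090894142) (nat_lit 1) (nat_lit 4) (nat_lit 2) (nat_lit 5) (nat_lit 2) (nat_lit 4) (nat_lit 322) (nat_lit 236) (nat_lit 162))) (XT.nd (nat_lit 78) (nat_lit 0) (nat_lit 0) (XT.lf (nat_lit 0) (nat_lit 615335948439) (nat_lit 76) (nat_lit 105467520445) (nat_lit 76) (nat_lit 86436775206) (nat_lit 1) (nat_lit 4) (nat_lit 2) (nat_lit 5) (nat_lit 2) (nat_lit 4) (nat_lit 323) (nat_lit 236) (nat_lit 161)) (XT.nd (nat_lit 78) (nat_lit 0) (nat_lit 0) (XT.lf (nat_lit 0) (nat_lit 676657717968) (nat_lit 76) (nat_lit 106928805143) (nat_lit 76) (nat_lit 87893657452) (nat_lit 1) (nat_lit 4) (nat_lit 2) (nat_lit 5) (nat_lit 2) (nat_lit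 4) (nat_lit 324) (nat_lit 236) (nat_lit 160)) (XT.lf (nat_lit 0) (nat_lit 742879889197) (nat_lit 76) (nat_lit 108509398291) (nat_lit 76) (nat_lit 89470174257) (nat_lit 1) (nat_lit 4) (nat_lit 2) (nat_lit 5) (nat_lit 2) (nat_lit 4) (nat_lit 325) (nat_lit 236) (nat_lit 159))))) (XT.nd (nat_lit 156) (nat_lit 1672) (nat_lit 0) (XT.nd (nat_lit 78) (nat_lit 456) (nat_lit 0) (XT.lf (nat_lit 0) (nat_lit 1371396642) (nat_lit 380) (nat_lit 620206012) (nat_lit 0) (nat_lit 1371396642) (nat_lit 104) (nat_lit 5) (nat_lit 109) (nat_lit 4) (nat_lit 104) (nat_lit 4) (nat_lit 246) (nat_lit 237) (nat_lit 237)) (XT.lf (nat_lit 0) (nat_lit 563703203) (nat_lit 456) (nat_lit 1868188217) (nat_lit 76) (nat_lit 4402278407) (nat_lit 98) (nat_lit 5) (nat_lit 104) (nat_lit 5) (nat_lit 99) (nat_lit 4) (nat_lit 247) (nat_lit 237) (nat_lit 236))) (XT.nd (nat_lit 78) (nat_lit 1216) (nat_lit 0) (XT.lf (nat_lit 0) (nat_lit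 4515427570) (nat_lit 456) (nat_lit 527988748) (nat_lit 532) (nat_lit 1920900141) (nat_lit 92) (nat_lit 5) (nat_lit 98) (nat_lit 5) (nat_lit 99) (nat_lit 4) (nat_lit 248) (nat_lit 237) (nat_lit 235)) (XT.nd (nat_lit 78) (nat_lit 608) (nat_lit 0) (XT.lf (nat_lit 0) (nat_lit 2442559766) (nat_lit 608) (nat_lit 3007971218) (nat_lit 76) (nat_lit 1666214907) (nat_lit 84) (nat_lit 5) (nat_lit 92) (nat_lit 5) (nat_lit 85) (nat_lit 4) (nat_lit 249) (nat_lit 237) (nat_lit 234)) (XT.lf (nat_lit 0) (nat_lit 3747003579) (nat_lit 608) (nat_lit 3105822120) (nat_lit 684) (nat_lit 440364822) (nat_lit 76) (nat_lit 5) (nat_lit 84) (nat_lit 5) (nat_lit 85) (nat_lit 4) (nat_lit 250) (nat_lit 237) (nat_lit 233))))))))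
noncomputable def xc42 : XT := (XT.nd (nat_lit 1482) (nat_lit 988) (nat_lit 0) (XT.nd (nat_lit 702) (nat_lit 1444) (nat_lit 0) (XT.nd (nat_lit 312) (nat_lit 1140) (nat_lit 0) (XT.nd (nat_lit 156) (nat_lit 760) (nat_lit 0) (XT.nd (nat_lit 78) (nat_lit 380) (nat_lit 0) (XT.lf (nat_lit 0) (nat_lit 3383272924) (nat_lit 684) (nat_lit 390006441) (nat_lit 760) (nat_lit 3720029186) (nat_lit 66) (nat_lit 5) (nat_lit 75) (nat_lit 5) (nat_lit 76) (nat_lit 5) (nat_lit 251) (nat_lit 237) (nat_lit 232)) (XT.lf (nat_lit 0) (nat_lit 412965607) (nat_lit 380) (nat_lit 4720864623) (nat_lit 76) (nat_lit 2584425314) (nat_lit 61) (nat_lit 5) (nat_lit 66) (nat_lit 5) (nat_lit 62) (nat_lit 5) (nat_lit 252) (nat_lit 237) (nat_lit 231))) (XT.nd (nat_lit 78) (nat_lit 380) (nat_lit 0) (XT.lf (nat_lit 0) (nat_lit 2545813804) (nat_lit 380) (nat_lit 2020510925) (nat_lit 456) (nat_lit 3402007258) (nat_lit 56) (nat_lit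 5) (nat_lit 61) (nat_lit 5) (nat_lit 62) (nat_lit 5) (nat_lit 253) (nat_lit 237) (nat_lit 230)) (XT.lf (nat_lit 0) (nat_lit 636585646) (nat_lit 380) (nat_lit 6214267249) (nat_lit 76) (nat_lit 1395517882) (nat_lit 51) (nat_lit 5) (nat_lit 56) (nat_lit 5) (nat_lit 52) (nat_lit 5) (nat_lit 254) (nat_lit 237) (nat_lit 229)))) (XT.nd (nat_lit 156) (nat_lit 532) (nat_lit 0) (XT.nd (nat_lit 78) (nat_lit 304) (nat_lit 0) (XT.lf (nat_lit 0) (nat_lit 1361354298) (nat_lit 304) (nat_lit 3397532842) (nat_lit 380) (nat_lit 3791954605) (nat_lit 47) (nat_lit 5) (nat_lit 51) (nat_lit 5) (nat_lit 52) (nat_lit 5) (nat_lit 255) (nat_lit 237) (nat_lit 228)) (XT.lf (nat_lit 0) (nat_lit 183345866) (nat_lit 304) (nat_lit 8310899217) (nat_lit 76) (nat_lit 392888068) (nat_lit 43) (nat_lit 5) (nat_lit 47) (nat_lit 5) (nat_lit 44) (nat_lit 5) (nat_lit 256) (nat_lit 237) (nat_lit 227))) (XT.nd (nat_lit 78) (nat_lit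 532) (nat_lit 0) (XT.lf (nat_lit 0) (nat_lit 4281157978) (nat_lit 304) (nat_lit 465311697) (nat_lit 76) (nat_lit 4504673584) (nat_lit 43) (nat_lit 5) (nat_lit 47) (nat_lit 5) (nat_lit 44) (nat_lit 5) (nat_lit 257) (nat_lit 237) (nat_lit 226)) (XT.nd (nat_lit 78) (nat_lit 304) (nat_lit 0) (XT.lf (nat_lit 0) (nat_lit 7968604984) (nat_lit 228) (nat_lit 632033101) (nat_lit 304) (nat_lit 1049675895) (nat_lit 40) (nat_lit 5) (nat_lit 43) (nat_lit 5) (nat_lit 44) (nat_lit 5) (nat_lit 258) (nat_lit 237) (nat_lit 225)) (XT.lf (nat_lit 0) (nat_lit 3037272965) (nat_lit 304) (nat_lit 3251976875) (nat_lit 76) (nat_lit 3792581676) (nat_lit 36) (nat_lit 5) (nat_lit 40) (nat_lit 5) (nat_lit 37) (nat_lit 5) (nat_lit 259) (nat_lit 237) (nat_lit 224)))))) (XT.nd (nat_lit 390) (nat_lit 532) (nat_lit 0) (XT.nd (nat_lit 156) (nat_lit 456) (nat_lit 0) (XT.nd (nat_lit 78) (nat_lit 228) (nat_lit 0) (XT.lf (nat_lit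 0) (nat_lit 5392728004) (nat_lit 228) (nat_lit 1935761741) (nat_lit 304) (nat_lit 3223413592) (nat_lit 33) (nat_lit 5) (nat_lit 36) (nat_lit 5) (nat_lit 37) (nat_lit 5) (nat_lit 260) (nat_lit 237) (nat_lit 223)) (XT.lf (nat_lit 0) (nat_lit 828964472) (nat_lit 228) (nat_lit 7500951777) (nat_lit 76) (nat_lit 2731763603) (nat_lit 30) (nat_lit 5) (nat_lit 33) (nat_lit 5) (nat_lit 31) (nat_lit 5) (nat_lit 261) (nat_lit 237) (nat_lit 222))) (XT.nd (nat_lit 78) (nat_lit 228) (nat_lit 0) (XT.lf (nat_lit 0) (nat_lit 1227037769) (nat_lit 228) (nat_lit 3816381594) (nat_lit 304) (nat_lit 6569124005) (nat_lit 27) (nat_lit 5) (nat_lit 30) (nat_lit 5) (nat_lit 31) (nat_lit 5) (nat_lit 262) (nat_lit 237) (nat_lit 221)) (XT.nd (nat_lit 78) (nat_lit 228) (nat_lit 0) (XT.lf (nat_lit 0) (nat_lit 9559432239) (nat_lit 304) (nat_lit 1573202970) (nat_lit 76) (nat_lit 1077072519) (nat_lit 27) (nat_lit 5) (nat_lit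 31) (nat_lit 5) (nat_lit 28) (nat_lit 4) (nat_lit 263) (nat_lit 237) (nat_lit 220)) (XT.lf (nat_lit 0) (nat_lit 1547418442) (nat_lit 228) (nat_lit 5001724136) (nat_lit 76) (nat_lit 6303867372) (nat_lit 24) (nat_lit 5) (nat_lit 27) (nat_lit 5) (nat_lit 25) (nat_lit 5) (nat_lit 264) (nat_lit 237) (nat_lit 219))))) (XT.nd (nat_lit 156) (nat_lit 228) (nat_lit 0) (XT.nd (nat_lit 78) (nat_lit 152) (nat_lit 0) (XT.lf (nat_lit 0) (nat_lit 4385582388) (nat_lit 152) (nat_lit 1534680946) (nat_lit 228) (nat_lit 7629100184) (nat_lit 22) (nat_lit 5) (nat_lit 24) (nat_lit 5) (nat_lit 25) (nat_lit 5) (nat_lit 265) (nat_lit 237) (nat_lit 218)) (XT.lf (nat_lit 0) (nat_lit 101403112) (nat_lit 152) (nat_lit 10534142741) (nat_lit 228) (nat_lit 3666590624) (nat_lit 20) (nat_lit 5) (nat_lit 22) (nat_lit 5) (nat_lit 23) (nat_lit 4) (nat_lit 266) (nat_lit 237) (nat_lit 217))) (XT.nd (nat_lit 78) (nat_lit 152)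 (nat_lit 0) (XT.lf (nat_lit 0) (nat_lit 628587238) (nat_lit 228) (nat_lit 4950109114) (nat_lit 76) (nat_lit 9534493449) (nat_lit 19) (nat_lit 5) (nat_lit 22) (nat_lit 5) (nat_lit 20) (nat_lit 5) (nat_lit 267) (nat_lit 237) (nat_lit 216)) (XT.nd (nat_lit 78) (nat_lit 0) (nat_lit 0) (XT.lf (nat_lit 0) (nat_lit 4913853276) (nat_lit 152) (nat_lit 161987488) (nat_lit 228) (nat_lit 10913714107) (nat_lit 17) (nat_lit 5) (nat_lit 19) (nat_lit 5) (nat_lit 20) (nat_lit 5) (nat_lit 268) (nat_lit 237) (nat_lit 215)) (XT.lf (nat_lit 0) (nat_lit 9919751498) (nat_lit 228) (nat_lit 1496499536) (nat_lit 76) (nat_lit 5517992530) (nat_lit 17) (nat_lit 5) (nat_lit 20) (nat_lit 5) (nat_lit 18) (nat_lit 4) (nat_lit 269) (nat_lit 237) (nat_lit 214))))))) (XT.nd (nat_lit 780) (nat_lit 304) (nat_lit 0) (XT.nd (nat_lit 390) (nat_lit 304) (nat_lit 0) (XT.nd (nat_lit 156) (nat_lit 76) (nat_lit 0) (XT.nd (nat_lit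 78) (nat_lit 228) (nat_lit 0) (XT.lf (nat_lit 0) (nat_lit 8930030376) (nat_lit 76) (nat_lit 6237770327) (nat_lit 152) (nat_lit 2786114504) (nat_lit 16) (nat_lit 5) (nat_lit 17) (nat_lit 5) (nat_lit 18) (nat_lit 4) (nat_lit 270) (nat_lit 237) (nat_lit 213)) (XT.lf (nat_lit 0) (nat_lit 996392966) (nat_lit 152) (nat_lit 647786474) (nat_lit 228) (nat_lit 17413770344) (nat_lit 13) (nat_lit 5) (nat_lit 15) (nat_lit 5) (nat_lit 16) (nat_lit 5) (nat_lit 271) (nat_lit 237) (nat_lit 212))) (XT.nd (nat_lit 78) (nat_lit 76) (nat_lit 0) (XT.lf (nat_lit 0) (nat_lit 6459978251) (nat_lit 228) (nat_lit 8429380938) (nat_lit 76) (nat_lit 5352424832) (nat_lit 13) (nat_lit 5) (nat_lit 16) (nat_lit 5) (nat_lit 14) (nat_lit 4) (nat_lit 272) (nat_lit 237) (nat_lit 211)) (XT.nd (nat_lit 78) (nat_lit 0) (nat_lit 0) (XT.lf (nat_lit 0) (nat_lit 1841987471) (nat_lit 76) (nat_lit 9750843778) (nat_lit 152) (nat_lit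 9931085026) (nat_lit 12) (nat_lit 5) (nat_lit 13) (nat_lit 5) (nat_lit 14) (nat_lit 4) (nat_lit 273) (nat_lit 237) (nat_lit 210)) (XT.lf (nat_lit 0) (nat_lit 13064459153) (nat_lit 76) (nat_lit 4116109068) (nat_lit 152) (nat_lit 5726005504) (nat_lit 12) (nat_lit 5) (nat_lit 13) (nat_lit 5) (nat_lit 14) (nat_lit 4) (nat_lit 274) (nat_lit 237) (nat_lit 209))))) (XT.nd (nat_lit 156) (nat_lit 76) (nat_lit 0) (XT.nd (nat_lit 78) (nat_lit 76) (nat_lit 0) (XT.lf (nat_lit 0) (nat_lit 610878495) (nat_lit 152) (nat_lit 22548752840) (nat_lit 152) (nat_lit 1243152076) (nat_lit 10) (nat_lit 4) (nat_lit 12) (nat_lit 5) (nat_lit 12) (nat_lit 4) (nat_lit 275) (nat_lit 237) (nat_lit 208)) (XT.lf (nat_lit 0) (nat_lit 3633883687) (nat_lit 228) (nat_lit 14045887970) (nat_lit 76) (nat_lit 8328709746) (nat_lit 9) (nat_lit 5) (nat_lit 12) (nat_lit 5) (nat_lit 10) (nat_lit 4) (nat_lit 276) (nat_lit 237) (nat_lit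 207))) (XT.nd (nat_lit 78) (nat_lit 76) (nat_lit 0) (XT.lf (nat_lit 0) (nat_lit 8772058863) (nat_lit 228) (nat_lit 3688322161) (nat_lit 76) (nat_lit 15285635265) (nat_lit 9) (nat_lit 5) (nat_lit 12) (nat_lit 5) (nat_lit 10) (nat_lit 4) (nat_lit 277) (nat_lit 237) (nat_lit 206)) (XT.nd (nat_lit 78) (nat_lit 0) (nat_lit 0) (XT.lf (nat_lit 0) (nat_lit 7604986836) (nat_lit 76) (nat_lit 6755358846) (nat_lit 152) (nat_lit 15260372588) (nat_lit 8) (nat_lit 5) (nat_lit 9) (nat_lit 5) (nat_lit 10) (nat_lit 4) (nat_lit 278) (nat_lit 237) (nat_lit 205)) (XT.lf (nat_lit 0) (nat_lit 19803122293) (nat_lit 76) (nat_lit 581010778) (nat_lit 152) (nat_lit 11261949963) (nat_lit 8) (nat_lit 5) (nat_lit 9) (nat_lit 5) (nat_lit 10) (nat_lit 4) (nat_lit 279) (nat_lit 237) (nat_lit 204)))))) (XT.nd (nat_lit 390) (nat_lit 76) (nat_lit 0) (XT.nd (nat_lit 156) (nat_lit 152) (nat_lit 0) (XT.nd (nat_lit 78) (nat_lit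 76) (nat_lit 0) (XT.lf (nat_lit 0) (nat_lit 26913879662) (nat_lit 152) (nat_lit 1074921513) (nat_lit 0) (nat_lit 5843573461) (nat_lit 8) (nat_lit 5) (nat_lit 10) (nat_lit 4) (nat_lit 8) (nat_lit 4) (nat_lit 280) (nat_lit 237) (nat_lit 203)) (XT.lf (nat_lit 0) (nat_lit 10775275677) (nat_lit 76) (nat_lit 23303034115) (nat_lit 76) (nat_lit 2109737608) (nat_lit 7) (nat_lit 4) (nat_lit 8) (nat_lit 5) (nat_lit 8) (nat_lit 4) (nat_lit 281) (nat_lit 237) (nat_lit 202))) (XT.nd (nat_lit 78) (nat_lit 76) (nat_lit 0) (XT.lf (nat_lit 0) (nat_lit 2940379657) (nat_lit 152) (nat_lit 15279398122) (nat_lit 76) (nat_lit 20512303082) (nat_lit 6) (nat_lit 5) (nat_lit 8) (nat_lit 5) (nat_lit 7) (nat_lit 4) (nat_lit 282) (nat_lit 237) (nat_lit 201)) (XT.nd (nat_lit 78) (nat_lit 76) (nat_lit 0) (XT.lf (nat_lit 0) (nat_lit 8262622342) (nat_lit 152) (nat_lit 4474244983) (nat_lit 76) (nat_lit 28744014789) (nat_lit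 6) (nat_lit 5) (nat_lit 8) (nat_lit 5) (nat_lit 7) (nat_lit 4) (nat_lit 283) (nat_lit 237) (nat_lit 200)) (XT.lf (nat_lit 0) (nat_lit 7334403873) (nat_lit 76) (nat_lit 6736161165) (nat_lit 152) (nat_lit 30376096730) (nat_lit 5) (nat_lit 5) (nat_lit 6) (nat_lit 5) (nat_lit 7) (nat_lit 4) (nat_lit 284) (nat_lit 237) (nat_lit 199))))) (XT.nd (nat_lit 156) (nat_lit 76) (nat_lit 0) (XT.nd (nat_lit 78) (nat_lit 0) (nat_lit 0) (XT.lf (nat_lit 0) (nat_lit 20156012632) (nat_lit 76) (nat_lit 213094018) (nat_lit 152) (nat_lit 27279364089) (nat_lit 5) (nat_lit 5) (nat_lit 6) (nat_lit 5) (nat_lit 7) (nat_lit 4) (nat_lit 285) (nat_lit 237) (nat_lit 198)) (XT.lf (nat_lit 0) (nat_lit 27229498991) (nat_lit 152) (nat_lit 17296360885) (nat_lit 0) (nat_lit 6577726478) (nat_lit 5) (nat_lit 5) (nat_lit 7) (nat_lit 4) (nat_lit 5) (nat_lit 4) (nat_lit 286) (nat_lit 237) (nat_lit 197))) (XT.nd (nat_lit 78) (nat_lit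 76) (nat_lit 0) (XT.lf (nat_lit 0) (nat_lit 34597226583) (nat_lit 152) (nat_lit 6368375257) (nat_lit 0) (nat_lit 13871640017) (nat_lit 5) (nat_lit 5) (nat_lit 7) (nat_lit 4) (nat_lit 5) (nat_lit 4) (nat_lit 287) (nat_lit 237) (nat_lit 196)) (XT.nd (nat_lit 78) (nat_lit 0) (nat_lit 0) (XT.lf (nat_lit 0) (nat_lit 5536796263) (nat_lit 76) (nat_lit 37062271682) (nat_lit 76) (nat_lit 16268338771) (nat_lit 4) (nat_lit 4) (nat_lit 5) (nat_lit 5) (nat_lit 5) (nat_lit 4) (nat_lit 288) (nat_lit 237) (nat_lit 195)) (XT.lf (nat_lit 0) (nat_lit 18550756583) (nat_lit 76) (nat_lit 32761467128) (nat_lit 76) (nat_lit 11904250564) (nat_lit 4) (nat_lit 4) (nat_lit 5) (nat_lit 5) (nat_lit 5) (nat_lit 4) (nat_lit 289) (nat_lit 237) (nat_lit 194))))))))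
noncomputable def xc43 : XT := (XT.nd (nat_lit 1482) (nat_lit 0) (nat_lit 0) (XT.nd (nat_lit 702) (nat_lit 76) (nat_lit 0) (XT.nd (nat_lit 312) (nat_lit 76) (nat_lit 0) (XT.nd (nat_lit 156) (nat_lit 76) (nat_lit 0) (XT.nd (nat_lit 78) (nat_lit 0) (nat_lit 0) (XT.lf (nat_lit 0) (nat_lit 32540058220) (nat_lit 76) (nat_lit 28145553446) (nat_lit 76) (nat_lit 7229740906) (nat_lit 4) (nat_lit 4) (nat_lit 5) (nat_lit 5) (nat_lit 5) (nat_lit 4) (nat_lit 290) (nat_lit 237) (nat_lit 193)) (XT.lf (nat_lit 0) (nat_lit 47587600739) (nat_lit 76) (nat_lit 23187177072) (nat_lit 76) (nat_lit 2217109000) (nat_lit 4) (nat_lit 4) (nat_lit 5) (nat_lit 5) (nat_lit 5) (nat_lit 4) (nat_lit 291) (nat_lit 237) (nat_lit 192))) (XT.nd (nat_lit 78) (nat_lit 0) (nat_lit 0) (XT.lf (nat_lit 0) (nat_lit 3062102695) (nat_lit 152) (nat_lit 14742994150) (nat_lit 76) (nat_lit 60668593877) (nat_lit 3) (nat_lit 5) (nat_lit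 5) (nat_lit 5) (nat_lit 4) (nat_lit 4) (nat_lit 292) (nat_lit 237) (nat_lit 191)) (XT.lf (nat_lit 0) (nat_lit 8657270743) (nat_lit 152) (nat_lit 3319415024) (nat_lit 76) (nat_lit 72417004576) (nat_lit 3) (nat_lit 5) (nat_lit 5) (nat_lit 5) (nat_lit 4) (nat_lit 4) (nat_lit 293) (nat_lit 237) (nat_lit 190)))) (XT.nd (nat_lit 156) (nat_lit 0) (nat_lit 0) (XT.nd (nat_lit 78) (nat_lit 0) (nat_lit 0) (XT.lf (nat_lit 0) (nat_lit 9265309644) (nat_lit 76) (nat_lit 5551860836) (nat_lit 152) (nat_lit 75964294570) (nat_lit 2) (nat_lit 5) (nat_lit 3) (nat_lit 5) (nat_lit 4) (nat_lit 4) (nat_lit 294) (nat_lit 237) (nat_lit 189)) (XT.lf (nat_lit 0) (nat_lit 21523724509) (nat_lit 152) (nat_lit 74772785731) (nat_lit 0) (nat_lit 1381087102) (nat_lit 2) (nat_lit 5) (nat_lit 4) (nat_lit 4) (nat_lit 2) (nat_lit 4) (nat_lit 295) (nat_lit 237) (nat_lit 188))) (XT.nd (nat_lit 78) (nat_lit 0) (nat_lit 0) (XT.lf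 (nat_lit 0) (nat_lit 28835823082) (nat_lit 152) (nat_lit 67628154100) (nat_lit 0) (nat_lit 8658018624) (nat_lit 2) (nat_lit 5) (nat_lit 4) (nat_lit 4) (nat_lit 2) (nat_lit 4) (nat_lit 296) (nat_lit 237) (nat_lit 187)) (XT.nd (nat_lit 78) (nat_lit 0) (nat_lit 0) (XT.lf (nat_lit 0) (nat_lit 36710117049) (nat_lit 152) (nat_lit 59953241847) (nat_lit 0) (nat_lit 16499750506) (nat_lit 2) (nat_lit 5) (nat_lit 4) (nat_lit 4) (nat_lit 2) (nat_lit 4) (nat_lit 297) (nat_lit 237) (nat_lit 186)) (XT.lf (nat_lit 0) (nat_lit 45193268890) (nat_lit 152) (nat_lit 51702568011) (nat_lit 0) (nat_lit 24952752270) (nat_lit 2) (nat_lit 5) (nat_lit 4) (nat_lit 4) (nat_lit 2) (nat_lit 4) (nat_lit 298) (nat_lit 237) (nat_lit 185)))))) (XT.nd (nat_lit 390) (nat_lit 0) (nat_lit 0) (XT.nd (nat_lit 156) (nat_lit 76) (nat_lit 0) (XT.nd (nat_lit 78) (nat_lit 0) (nat_lit 0) (XT.lf (nat_lit 0) (nat_lit 54335549137) (nat_lit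 152) (nat_lit 42827239710) (nat_lit 0) (nat_lit 34067115777) (nat_lit 2) (nat_lit 5) (nat_lit 4) (nat_lit 4) (nat_lit 2) (nat_lit 4) (nat_lit 299) (nat_lit 237) (nat_lit 184)) (XT.lf (nat_lit 0) (nat_lit 64191134264) (nat_lit 152) (nat_lit 33274662406) (nat_lit 0) (nat_lit 43896852072) (nat_lit 2) (nat_lit 5) (nat_lit 4) (nat_lit 4) (nat_lit 2) (nat_lit 4) (nat_lit 300) (nat_lit 237) (nat_lit 183))) (XT.nd (nat_lit 78) (nat_lit 76) (nat_lit 0) (XT.lf (nat_lit 0) (nat_lit 74818427738) (nat_lit 152) (nat_lit 22988228233) (nat_lit 0) (nat_lit 54500211442) (nat_lit 2) (nat_lit 5) (nat_lit 4) (nat_lit 4) (nat_lit 2) (nat_lit 4) (nat_lit 301) (nat_lit 237) (nat_lit 182)) (XT.nd (nat_lit 78) (nat_lit 76) (nat_lit 0) (XT.lf (nat_lit 0) (nat_lit 86280406115) (nat_lit 152) (nat_lit 11906980545) (nat_lit 0) (nat_lit 65940028611) (nat_lit 2) (nat_lit 5) (nat_lit 4) (nat_lit 4) (nat_lit 2) (nat_lit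 4) (nat_lit 302) (nat_lit 237) (nat_lit 181)) (XT.lf (nat_lit 0) (nat_lit 35896214) (nat_lit 76) (nat_lit 98609656454) (nat_lit 76) (nat_lit 78248759313) (nat_lit 1) (nat_lit 4) (nat_lit 2) (nat_lit 5) (nat_lit 2) (nat_lit 4) (nat_lit 303) (nat_lit 237) (nat_lit 180))))) (XT.nd (nat_lit 156) (nat_lit 0) (nat_lit 0) (XT.nd (nat_lit 78) (nat_lit 0) (nat_lit 0) (XT.lf (nat_lit 0) (nat_lit 13334508685) (nat_lit 76) (nat_lit 98859138064) (nat_lit 76) (nat_lit 78479241260) (nat_lit 1) (nat_lit 4) (nat_lit 2) (nat_lit 5) (nat_lit 2) (nat_lit 4) (nat_lit 304) (nat_lit 237) (nat_lit 179)) (XT.lf (nat_lit 0) (nat_lit 27673964909) (nat_lit 76) (nat_lit 99138960378) (nat_lit 76) (nat_lit 78741471293) (nat_lit 1) (nat_lit 4) (nat_lit 2) (nat_lit 5) (nat_lit 2) (nat_lit 4) (nat_lit 305) (nat_lit 237) (nat_lit 178))) (XT.nd (nat_lit 78) (nat_lit 0) (nat_lit 0) (XT.lf (nat_lit 0) (nat_lit 43139239440)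 (nat_lit 76) (nat_lit 99450781601) (nat_lit 76) (nat_lit 79037003367) (nat_lit 1) (nat_lit 4) (nat_lit 2) (nat_lit 5) (nat_lit 2) (nat_lit 4) (nat_lit 306) (nat_lit 237) (nat_lit 177)) (XT.nd (nat_lit 78) (nat_lit 0) (nat_lit 0) (XT.lf (nat_lit 0) (nat_lit 59821978352) (nat_lit 76) (nat_lit 99796449563) (nat_lit 76) (nat_lit 79367588784) (nat_lit 1) (nat_lit 4) (nat_lit 2) (nat_lit 5) (nat_lit 2) (nat_lit 4) (nat_lit 307) (nat_lit 237) (nat_lit 176)) (XT.lf (nat_lit 0) (nat_lit 77821042318) (nat_lit 76) (nat_lit 100178012668) (nat_lit 76) (nat_lit 79735186568) (nat_lit 1) (nat_lit 4) (nat_lit 2) (nat_lit 5) (nat_lit 2) (nat_lit 4) (nat_lit 308) (nat_lit 237) (nat_lit 175))))))) (XT.nd (nat_lit 780) (nat_lit 0) (nat_lit 0) (XT.nd (nat_lit 390) (nat_lit 0) (nat_lit 0) (XT.nd (nat_lit 156) (nat_lit 0) (nat_lit 0) (XT.nd (nat_lit 78) (nat_lit 0) (nat_lit 0) (XT.lf (nat_lit 0) (nat_lit 97243092458)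 (nat_lit 76) (nat_lit 100597732028) (nat_lit 76) (nat_lit 80141975077) (nat_lit 1) (nat_lit 4) (nat_lit 2) (nat_lit 5) (nat_lit 2) (nat_lit 4) (nat_lit 309) (nat_lit 237) (nat_lit 174)) (XT.lf (nat_lit 0) (nat_lit 118203222403) (nat_lit 76) (nat_lit 101058094871) (nat_lit 76) (nat_lit 80590364909) (nat_lit 1) (nat_lit 4) (nat_lit 2) (nat_lit 5) (nat_lit 2) (nat_lit 4) (nat_lit 310) (nat_lit 237) (nat_lit 173))) (XT.nd (nat_lit 78) (nat_lit 0) (nat_lit 0) (XT.lf (nat_lit 0) (nat_lit 140825640330) (nat_lit 76) (nat_lit 101561829273) (nat_lit 76) (nat_lit 81083013190) (nat_lit 1) (nat_lit 4) (nat_lit 2) (nat_lit 5) (nat_lit 2) (nat_lit 4) (nat_lit 311) (nat_lit 237) (nat_lit 172)) (XT.nd (nat_lit 78) (nat_lit 0) (nat_lit 0) (XT.lf (nat_lit 0) (nat_lit 165244405013) (nat_lit 76) (nat_lit 102111920325) (nat_lit 76) (nat_lit 81622839315) (nat_lit 1) (nat_lit 4) (nat_lit 2) (nat_lit 5) (nat_lit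 2) (nat_lit 4) (nat_lit 312) (nat_lit 237) (nat_lit 171)) (XT.lf (nat_lit 0) (nat_lit 191604220242) (nat_lit 76) (nat_lit 102711627828) (nat_lit 76) (nat_lit 82213042256) (nat_lit 1) (nat_lit 4) (nat_lit 2) (nat_lit 5) (nat_lit 2) (nat_lit 4) (nat_lit 313) (nat_lit 237) (nat_lit 170))))) (XT.nd (nat_lit 156) (nat_lit 0) (nat_lit 0) (XT.nd (nat_lit 78) (nat_lit 0) (nat_lit 0) (XT.lf (nat_lit 0) (nat_lit 220061292328) (nat_lit 76) (nat_lit 103364505603) (nat_lit 76) (nat_lit 82857119511) (nat_lit 1) (nat_lit 4) (nat_lit 2) (nat_lit 5) (nat_lit 2) (nat_lit 4) (nat_lit 314) (nat_lit 237) (nat_lit 169)) (XT.lf (nat_lit 0) (nat_lit 250784255775) (nat_lit 76) (nat_lit 104074422556) (nat_lit 76) (nat_lit 83558887833) (nat_lit 1) (nat_lit 4) (nat_lit 2) (nat_lit 5) (nat_lit 2) (nat_lit 4) (nat_lit 315) (nat_lit 237) (nat_lit 168))) (XT.nd (nat_lit 78) (nat_lit 0) (nat_lit 0) (XT.lf (nat_lit 0)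 (nat_lit 283955172587) (nat_lit 76) (nat_lit 104845585601) (nat_lit 76) (nat_lit 84322505851) (nat_lit 1) (nat_lit 4) (nat_lit 2) (nat_lit 5) (nat_lit 2) (nat_lit 4) (nat_lit 316) (nat_lit 237) (nat_lit 167)) (XT.nd (nat_lit 78) (nat_lit 0) (nat_lit 0) (XT.lf (nat_lit 0) (nat_lit 319770611159) (nat_lit 76) (nat_lit 105682564595) (nat_lit 76) (nat_lit 85152498707) (nat_lit 1) (nat_lit 4) (nat_lit 2) (nat_lit 5) (nat_lit 2) (nat_lit 4) (nat_lit 317) (nat_lit 237) (nat_lit 166)) (XT.lf (nat_lit 0) (nat_lit 358442811129) (nat_lit 76) (nat_lit 106590319411) (nat_lit 76) (nat_lit 86053784879) (nat_lit 1) (nat_lit 4) (nat_lit 2) (nat_lit 5) (nat_lit 2) (nat_lit 4) (nat_lit 318) (nat_lit 237) (nat_lit 165)))))) (XT.nd (nat_lit 390) (nat_lit 0) (nat_lit 0) (XT.nd (nat_lit 156) (nat_lit 0) (nat_lit 0) (XT.nd (nat_lit 78) (nat_lit 0) (nat_lit 0) (XT.lf (nat_lit 0) (nat_lit 400200941089) (nat_lit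 76) (nat_lit 107574229340) (nat_lit 76) (nat_lit 87031705321) (nat_lit 1) (nat_lit 4) (nat_lit 2) (nat_lit 5) (nat_lit 2) (nat_lit 4) (nat_lit 319) (nat_lit 237) (nat_lit 164)) (XT.lf (nat_lit 0) (nat_lit 445292456623) (nat_lit 76) (nat_lit 108640124956) (nat_lit 76) (nat_lit 88092055117) (nat_lit 1) (nat_lit 4) (nat_lit 2) (nat_lit 5) (nat_lit 2) (nat_lit 4) (nat_lit 320) (nat_lit 237) (nat_lit 163))) (XT.nd (nat_lit 78) (nat_lit 0) (nat_lit 0) (XT.lf (nat_lit 0) (nat_lit 493984566713) (nat_lit 76) (nat_lit 109794322680) (nat_lit 76) (nat_lit 89241117822) (nat_lit 1) (nat_lit 4) (nat_lit 2) (nat_lit 5) (nat_lit 2) (nat_lit 4) (nat_lit 321) (nat_lit 237) (nat_lit 162)) (XT.nd (nat_lit 78) (nat_lit 0) (nat_lit 0) (XT.lf (nat_lit 0) (nat_lit 546565817195) (nat_lit 76) (nat_lit 111043662201) (nat_lit 76) (nat_lit 90485702696) (nat_lit 1) (nat_lit 4) (nat_lit 2) (nat_lit 5) (nat_lit 2) (nat_lit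 4) (nat_lit 322) (nat_lit 237) (nat_lit 161)) (XT.lf (nat_lit 0) (nat_lit 603347800666) (nat_lit 76) (nat_lit 112395547013) (nat_lit 76) (nat_lit 91833185056) (nat_lit 1) (nat_lit 4) (nat_lit 2) (nat_lit 5) (nat_lit 2) (nat_lit 4) (nat_lit 323) (nat_lit 237) (nat_lit 160))))) (XT.nd (nat_lit 31278) (nat_lit 0) (nat_lit 7828) (XT.nd (nat_lit 78) (nat_lit 0) (nat_lit 0) (XT.lf (nat_lit 0) (nat_lit 664667002953) (nat_lit 76) (nat_lit 113857988285) (nat_lit 76) (nat_lit 93291549985) (nat_lit 1) (nat_lit 4) (nat_lit 2) (nat_lit 5) (nat_lit 2) (nat_lit 4) (nat_lit 324) (nat_lit 237) (nat_lit 159)) (XT.lf (nat_lit 0) (nat_lit 730886797108) (nat_lit 76) (nat_lit 115439652336) (nat_lit 76) (nat_lit 94869439643) (nat_lit 1) (nat_lit 4) (nat_lit 2) (nat_lit 5) (nat_lit 2) (nat_lit 4) (nat_lit 325) (nat_lit 237) (nat_lit 158))) (XT.nd (nat_lit 78) (nat_lit 380) (nat_lit 0) (XT.lf (nat_lit 0) (nat_lit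 233707507) (nat_lit 228) (nat_lit 1524731215) (nat_lit 228) (nat_lit 1524731215) (nat_lit 109) (nat_lit 4) (nat_lit 112) (nat_lit 5) (nat_lit 112) (nat_lit 4) (nat_lit 244) (nat_lit 238) (nat_lit 238)) (XT.nd (nat_lit 78) (nat_lit 304) (nat_lit 0) (XT.lf (nat_lit 0) (nat_lit 1418639378) (nat_lit 304) (nat_lit 520755550) (nat_lit 76) (nat_lit 4701236764) (nat_lit 108) (nat_lit 5) (nat_lit 112) (nat_lit 5) (nat_lit 109) (nat_lit 4) (nat_lit 245) (nat_lit 238) (nat_lit 237)) (XT.lf (nat_lit 0) (nat_lit 5332478840) (nat_lit 304) (nat_lit 490162082) (nat_lit 380) (nat_lit 913748954) (nat_lit 104) (nat_lit 5) (nat_lit 108) (nat_lit 5) (nat_lit 109) (nat_lit 4) (nat_lit 246) (nat_lit 238) (nat_lit 236))))))))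
noncomputable def xc44 : XT := (XT.nd (nat_lit 1482) (nat_lit 1368) (nat_lit 0) (XT.nd (nat_lit 702) (nat_lit 2052) (nat_lit 0) (XT.nd (nat_lit 312) (nat_lit 1824) (nat_lit 0) (XT.nd (nat_lit 156) (nat_lit 1216) (nat_lit 0) (XT.nd (nat_lit 78) (nat_lit 532) (nat_lit 0) (XT.lf (nat_lit 0) (nat_lit 3339141636) (nat_lit 456) (nat_lit 2244017695) (nat_lit 76) (nat_lit 1269764072) (nat_lit 98) (nat_lit 5) (nat_lit 104) (nat_lit 5) (nat_lit 99) (nat_lit 4) (nat_lit 247) (nat_lit 238) (nat_lit 235)) (XT.lf (nat_lit 0) (nat_lit 625112214) (nat_lit 532) (nat_lit 3025271229) (nat_lit 76) (nat_lit 3342085303) (nat_lit 91) (nat_lit 5) (nat_lit 98) (nat_lit 5) (nat_lit 92) (nat_lit 5) (nat_lit 248) (nat_lit 238) (nat_lit 234))) (XT.nd (nat_lit 78) (nat_lit 684) (nat_lit 0) (XT.lf (nat_lit 0) (nat_lit 3361235202) (nat_lit 532) (nat_lit 1362276386) (nat_lit 608) (nat_lit 2430857757) (nat_lit 84) (nat_lit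 5) (nat_lit 91) (nat_lit 5) (nat_lit 92) (nat_lit 5) (nat_lit 249) (nat_lit 238) (nat_lit 233)) (XT.lf (nat_lit 0) (nat_lit 1551162131) (nat_lit 684) (nat_lit 4560076127) (nat_lit 76) (nat_lit 1228571176) (nat_lit 75) (nat_lit 5) (nat_lit 84) (nat_lit 5) (nat_lit 76) (nat_lit 5) (nat_lit 250) (nat_lit 238) (nat_lit 232)))) (XT.nd (nat_lit 156) (nat_lit 760) (nat_lit 0) (XT.nd (nat_lit 78) (nat_lit 380) (nat_lit 0) (XT.lf (nat_lit 0) (nat_lit 2177780857) (nat_lit 684) (nat_lit 3406003590) (nat_lit 760) (nat_lit 1964792069) (nat_lit 66) (nat_lit 5) (nat_lit 75) (nat_lit 5) (nat_lit 76) (nat_lit 5) (nat_lit 251) (nat_lit 238) (nat_lit 231)) (XT.lf (nat_lit 0) (nat_lit 1560541968) (nat_lit 304) (nat_lit 344499976) (nat_lit 380) (nat_lit 5878030524) (nat_lit 61) (nat_lit 5) (nat_lit 65) (nat_lit 5) (nat_lit 66) (nat_lit 5) (nat_lit 252) (nat_lit 238) (nat_lit 230))) (XT.nd (nat_lit 78) (nat_lit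 380) (nat_lit 0) (XT.lf (nat_lit 0) (nat_lit 849327009) (nat_lit 380) (nat_lit 5043315502) (nat_lit 456) (nat_lit 2149322158) (nat_lit 56) (nat_lit 5) (nat_lit 61) (nat_lit 5) (nat_lit 62) (nat_lit 5) (nat_lit 253) (nat_lit 238) (nat_lit 229)) (XT.nd (nat_lit 78) (nat_lit 0) (nat_lit 0) (XT.lf (nat_lit 0) (nat_lit 57833124) (nat_lit 304) (nat_lit 1608947488) (nat_lit 380) (nat_lit 6661830226) (nat_lit 51) (nat_lit 5) (nat_lit 55) (nat_lit 5) (nat_lit 56) (nat_lit 5) (nat_lit 254) (nat_lit 238) (nat_lit 228)) (XT.lf (nat_lit 0) (nat_lit 5621129814) (nat_lit 380) (nat_lit 857855081) (nat_lit 76) (nat_lit 2162925507) (nat_lit 51) (nat_lit 5) (nat_lit 56) (nat_lit 5) (nat_lit 52) (nat_lit 5) (nat_lit 255) (nat_lit 238) (nat_lit 227)))))) (XT.nd (nat_lit 390) (nat_lit 684) (nat_lit 0) (XT.nd (nat_lit 156) (nat_lit 760) (nat_lit 0) (XT.nd (nat_lit 78) (nat_lit 228) (nat_lit 0) (XT.lf (nat_lit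 0) (nat_lit 783343804) (nat_lit 380) (nat_lit 1929142958) (nat_lit 76) (nat_lit 6272817775) (nat_lit 46) (nat_lit 5) (nat_lit 51) (nat_lit 5) (nat_lit 47) (nat_lit 5) (nat_lit 256) (nat_lit 238) (nat_lit 226)) (XT.lf (nat_lit 0) (nat_lit 4696330510) (nat_lit 304) (nat_lit 3232862966) (nat_lit 76) (nat_lit 1429714341) (nat_lit 43) (nat_lit 5) (nat_lit 47) (nat_lit 5) (nat_lit 44) (nat_lit 5) (nat_lit 257) (nat_lit 238) (nat_lit 225))) (XT.nd (nat_lit 78) (nat_lit 532) (nat_lit 0) (XT.lf (nat_lit 0) (nat_lit 4974175632) (nat_lit 228) (nat_lit 3892244115) (nat_lit 304) (nat_lit 899454167) (nat_lit 40) (nat_lit 5) (nat_lit 43) (nat_lit 5) (nat_lit 44) (nat_lit 5) (nat_lit 258) (nat_lit 238) (nat_lit 224)) (XT.nd (nat_lit 78) (nat_lit 228) (nat_lit 0) (XT.lf (nat_lit 0) (nat_lit 2979344765) (nat_lit 304) (nat_lit 6671480214) (nat_lit 76) (nat_lit 556903629) (nat_lit 36) (nat_lit 5) (nat_lit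 40) (nat_lit 5) (nat_lit 37) (nat_lit 5) (nat_lit 259) (nat_lit 238) (nat_lit 223)) (XT.lf (nat_lit 0) (nat_lit 1728163749) (nat_lit 228) (nat_lit 5391241612) (nat_lit 304) (nat_lit 3566218926) (nat_lit 33) (nat_lit 5) (nat_lit 36) (nat_lit 5) (nat_lit 37) (nat_lit 5) (nat_lit 260) (nat_lit 238) (nat_lit 222))))) (XT.nd (nat_lit 156) (nat_lit 456) (nat_lit 0) (XT.nd (nat_lit 78) (nat_lit 152) (nat_lit 0) (XT.lf (nat_lit 0) (nat_lit 306167821) (nat_lit 304) (nat_lit 426836497) (nat_lit 76) (nat_lit 10472446861) (nat_lit 32) (nat_lit 5) (nat_lit 36) (nat_lit 5) (nat_lit 33) (nat_lit 5) (nat_lit 261) (nat_lit 238) (nat_lit 221)) (XT.lf (nat_lit 0) (nat_lit 4396738362) (nat_lit 228) (nat_lit 3070438468) (nat_lit 76) (nat_lit 4295549315) (nat_lit 30) (nat_lit 5) (nat_lit 33) (nat_lit 5) (nat_lit 31) (nat_lit 5) (nat_lit 262) (nat_lit 238) (nat_lit 220))) (XT.nd (nat_lit 78) (nat_lit 228)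 (nat_lit 0) (XT.lf (nat_lit 0) (nat_lit 6137166955) (nat_lit 228) (nat_lit 2626943802) (nat_lit 304) (nat_lit 3603412912) (nat_lit 27) (nat_lit 5) (nat_lit 30) (nat_lit 5) (nat_lit 31) (nat_lit 5) (nat_lit 263) (nat_lit 238) (nat_lit 219)) (XT.nd (nat_lit 78) (nat_lit 0) (nat_lit 0) (XT.lf (nat_lit 0) (nat_lit 427918065) (nat_lit 228) (nat_lit 10037094257) (nat_lit 76) (nat_lit 2556578465) (nat_lit 24) (nat_lit 5) (nat_lit 27) (nat_lit 5) (nat_lit 25) (nat_lit 5) (nat_lit 264) (nat_lit 238) (nat_lit 218)) (XT.lf (nat_lit 0) (nat_lit 4658672683) (nat_lit 228) (nat_lit 901065453) (nat_lit 76) (nat_lit 8165474966) (nat_lit 24) (nat_lit 5) (nat_lit 27) (nat_lit 5) (nat_lit 25) (nat_lit 5) (nat_lit 265) (nat_lit 238) (nat_lit 217))))))) (XT.nd (nat_lit 702) (nat_lit 456) (nat_lit 0) (XT.nd (nat_lit 312) (nat_lit 380) (nat_lit 0) (XT.nd (nat_lit 156) (nat_lit 228) (nat_lit 0) (XT.nd (nat_lit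 78) (nat_lit 152) (nat_lit 0) (XT.lf (nat_lit 0) (nat_lit 9041626457) (nat_lit 152) (nat_lit 185641518) (nat_lit 228) (nat_lit 5258204514) (nat_lit 22) (nat_lit 5) (nat_lit 24) (nat_lit 5) (nat_lit 25) (nat_lit 5) (nat_lit 266) (nat_lit 238) (nat_lit 216)) (XT.lf (nat_lit 0) (nat_lit 4347048867) (nat_lit 152) (nat_lit 9850280718) (nat_lit 228) (nat_lit 1107716981) (nat_lit 20) (nat_lit 5) (nat_lit 22) (nat_lit 5) (nat_lit 23) (nat_lit 4) (nat_lit 267) (nat_lit 238) (nat_lit 215))) (XT.nd (nat_lit 78) (nat_lit 152) (nat_lit 0) (XT.lf (nat_lit 0) (nat_lit 3235274820) (nat_lit 228) (nat_lit 1332910912) (nat_lit 76) (nat_lit 11621200576) (nat_lit 19) (nat_lit 5) (nat_lit 22) (nat_lit 5) (nat_lit 20) (nat_lit 5) (nat_lit 268) (nat_lit 238) (nat_lit 214)) (XT.lf (nat_lit 0) (nat_lit 7928191168) (nat_lit 228) (nat_lit 8016257015) (nat_lit 76) (nat_lit 1197291508) (nat_lit 17) (nat_lit 5) (nat_lit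 20) (nat_lit 5) (nat_lit 18) (nat_lit 4) (nat_lit 269) (nat_lit 238) (nat_lit 213)))) (XT.nd (nat_lit 156) (nat_lit 304) (nat_lit 0) (XT.nd (nat_lit 78) (nat_lit 0) (nat_lit 0) (XT.lf (nat_lit 0) (nat_lit 2101762338) (nat_lit 76) (nat_lit 10911989741) (nat_lit 152) (nat_lit 5155890120) (nat_lit 16) (nat_lit 5) (nat_lit 17) (nat_lit 5) (nat_lit 18) (nat_lit 4) (nat_lit 270) (nat_lit 238) (nat_lit 212)) (XT.lf (nat_lit 0) (nat_lit 13136489616) (nat_lit 76) (nat_lit 5398891179) (nat_lit 152) (nat_lit 743139987) (nat_lit 16) (nat_lit 5) (nat_lit 17) (nat_lit 5) (nat_lit 18) (nat_lit 4) (nat_lit 271) (nat_lit 238) (nat_lit 211))) (XT.nd (nat_lit 78) (nat_lit 76) (nat_lit 0) (XT.lf (nat_lit 0) (nat_lit 3869706095) (nat_lit 228) (nat_lit 15995264660) (nat_lit 76) (nat_lit 609388200) (nat_lit 13) (nat_lit 5) (nat_lit 16) (nat_lit 5) (nat_lit 14) (nat_lit 4) (nat_lit 272) (nat_lit 238) (nat_lit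 210)) (XT.nd (nat_lit 78) (nat_lit 76) (nat_lit 0) (XT.lf (nat_lit 0) (nat_lit 8925772032) (nat_lit 228) (nat_lit 5862718598) (nat_lit 76) (nat_lit 6971920414) (nat_lit 13) (nat_lit 5) (nat_lit 16) (nat_lit 5) (nat_lit 14) (nat_lit 4) (nat_lit 273) (nat_lit 238) (nat_lit 209)) (XT.lf (nat_lit 0) (nat_lit 5089508817) (nat_lit 76) (nat_lit 9283776638) (nat_lit 152) (nat_lit 8776868736) (nat_lit 12) (nat_lit 5) (nat_lit 13) (nat_lit 5) (nat_lit 14) (nat_lit 4) (nat_lit 274) (nat_lit 238) (nat_lit 208)))))) (XT.nd (nat_lit 390) (nat_lit 152) (nat_lit 0) (XT.nd (nat_lit 156) (nat_lit 76) (nat_lit 0) (XT.nd (nat_lit 78) (nat_lit 228) (nat_lit 0) (XT.lf (nat_lit 0) (nat_lit 16980136577) (nat_lit 76) (nat_lit 3290643494) (nat_lit 152) (nat_lit 4379731230) (nat_lit 12) (nat_lit 5) (nat_lit 13) (nat_lit 5) (nat_lit 14) (nat_lit 4) (nat_lit 275) (nat_lit 238) (nat_lit 207)) (XT.lf (nat_lit 0) (nat_lit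 379203616) (nat_lit 228) (nat_lit 22803052146) (nat_lit 76) (nat_lit 3087387469) (nat_lit 9) (nat_lit 5) (nat_lit 12) (nat_lit 5) (nat_lit 10) (nat_lit 4) (nat_lit 276) (nat_lit 238) (nat_lit 206))) (XT.nd (nat_lit 78) (nat_lit 76) (nat_lit 0) (XT.lf (nat_lit 0) (nat_lit 5479072288) (nat_lit 228) (nat_lit 12511000351) (nat_lit 76) (nat_lit 10019077142) (nat_lit 9) (nat_lit 5) (nat_lit 12) (nat_lit 5) (nat_lit 10) (nat_lit 4) (nat_lit 277) (nat_lit 238) (nat_lit 205)) (XT.nd (nat_lit 78) (nat_lit 76) (nat_lit 0) (XT.lf (nat_lit 0) (nat_lit 10913154967) (nat_lit 228) (nat_lit 1521759548) (nat_lit 76) (nat_lit 17456699620) (nat_lit 9) (nat_lit 5) (nat_lit 12) (nat_lit 5) (nat_lit 10) (nat_lit 4) (nat_lit 278) (nat_lit 238) (nat_lit 204)) (XT.lf (nat_lit 0) (nat_lit 10568034799) (nat_lit 76) (nat_lit 6310615463) (nat_lit 152) (nat_lit 15041291543) (nat_lit 8) (nat_lit 5) (nat_lit 9) (nat_lit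 5) (nat_lit 10) (nat_lit 4) (nat_lit 279) (nat_lit 238) (nat_lit 203))))) (XT.nd (nat_lit 156) (nat_lit 76) (nat_lit 0) (XT.nd (nat_lit 78) (nat_lit 76) (nat_lit 0) (XT.lf (nat_lit 0) (nat_lit 23287342945) (nat_lit 152) (nat_lit 10549395470) (nat_lit 0) (nat_lit 275592411) (nat_lit 8) (nat_lit 5) (nat_lit 10) (nat_lit 4) (nat_lit 8) (nat_lit 4) (nat_lit 280) (nat_lit 238) (nat_lit 202)) (XT.lf (nat_lit 0) (nat_lit 934939432) (nat_lit 76) (nat_lit 29333940340) (nat_lit 76) (nat_lit 6208309893) (nat_lit 7) (nat_lit 4) (nat_lit 8) (nat_lit 5) (nat_lit 8) (nat_lit 4) (nat_lit 281) (nat_lit 238) (nat_lit 201))) (XT.nd (nat_lit 78) (nat_lit 76) (nat_lit 0) (XT.lf (nat_lit 0) (nat_lit 13613445664) (nat_lit 76) (nat_lit 24321327224) (nat_lit 76) (nat_lit 1090252412) (nat_lit 7) (nat_lit 4) (nat_lit 8) (nat_lit 5) (nat_lit 8) (nat_lit 4) (nat_lit 282) (nat_lit 238) (nat_lit 200)) (XT.nd (nat_lit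 78) (nat_lit 0) (nat_lit 0) (XT.lf (nat_lit 0) (nat_lit 4240639964) (nat_lit 152) (nat_lit 14635396555) (nat_lit 76) (nat_lit 22899987201) (nat_lit 6) (nat_lit 5) (nat_lit 8) (nat_lit 5) (nat_lit 7) (nat_lit 4) (nat_lit 283) (nat_lit 238) (nat_lit 199)) (XT.lf (nat_lit 0) (nat_lit 9909770957) (nat_lit 152) (nat_lit 3104079567) (nat_lit 76) (nat_lit 31734924744) (nat_lit 6) (nat_lit 5) (nat_lit 8) (nat_lit 5) (nat_lit 7) (nat_lit 4) (nat_lit 284) (nat_lit 238) (nat_lit 198))))))))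
noncomputable def xc45 : XT := (XT.nd (nat_lit 1482) (nat_lit 76) (nat_lit 0) (XT.nd (nat_lit 702) (nat_lit 76) (nat_lit 0) (XT.nd (nat_lit 312) (nat_lit 152) (nat_lit 0) (XT.nd (nat_lit 156) (nat_lit 0) (nat_lit 0) (XT.nd (nat_lit 78) (nat_lit 0) (nat_lit 0) (XT.lf (nat_lit 0) (nat_lit 9574159860) (nat_lit 76) (nat_lit 6560949908) (nat_lit 152) (nat_lit 31819163600) (nat_lit 5) (nat_lit 5) (nat_lit 6) (nat_lit 5) (nat_lit 7) (nat_lit 4) (nat_lit 285) (nat_lit 238) (nat_lit 197)) (XT.lf (nat_lit 0) (nat_lit 22874716745) (nat_lit 152) (nat_lit 28123469147) (nat_lit 0) (nat_lit 417269201) (nat_lit 5) (nat_lit 5) (nat_lit 7) (nat_lit 4) (nat_lit 5) (nat_lit 4) (nat_lit 286) (nat_lit 238) (nat_lit 196))) (XT.nd (nat_lit 78) (nat_lit 0) (nat_lit 0) (XT.lf (nat_lit 0) (nat_lit 30222372537) (nat_lit 152) (nat_lit 17231187853) (nat_lit 0) (nat_lit 7696578648) (nat_lit 5) (nat_lit 5) (nat_lit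 7) (nat_lit 4) (nat_lit 5) (nat_lit 4) (nat_lit 287) (nat_lit 238) (nat_lit 195)) (XT.lf (nat_lit 0) (nat_lit 38119183994) (nat_lit 152) (nat_lit 5536287960) (nat_lit 0) (nat_lit 15530106452) (nat_lit 5) (nat_lit 5) (nat_lit 7) (nat_lit 4) (nat_lit 5) (nat_lit 4) (nat_lit 288) (nat_lit 238) (nat_lit 194)))) (XT.nd (nat_lit 156) (nat_lit 76) (nat_lit 0) (XT.nd (nat_lit 78) (nat_lit 0) (nat_lit 0) (XT.lf (nat_lit 0) (nat_lit 7262994836) (nat_lit 76) (nat_lit 39462347902) (nat_lit 76) (nat_lit 16814674385) (nat_lit 4) (nat_lit 4) (nat_lit 5) (nat_lit 5) (nat_lit 5) (nat_lit 4) (nat_lit 289) (nat_lit 238) (nat_lit 193)) (XT.lf (nat_lit 0) (nat_lit 21223016065) (nat_lit 76) (nat_lit 34859323837) (nat_lit 76) (nat_lit 12157394787) (nat_lit 4) (nat_lit 4) (nat_lit 5) (nat_lit 5) (nat_lit 5) (nat_lit 4) (nat_lit 290) (nat_lit 238) (nat_lit 192))) (XT.nd (nat_lit 78) (nat_lit 76) (nat_lit 0)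 (XT.lf (nat_lit 0) (nat_lit 36243447095) (nat_lit 76) (nat_lit 29912882294) (nat_lit 76) (nat_lit 7160716640) (nat_lit 4) (nat_lit 4) (nat_lit 5) (nat_lit 5) (nat_lit 5) (nat_lit 4) (nat_lit 291) (nat_lit 238) (nat_lit 191)) (XT.nd (nat_lit 78) (nat_lit 76) (nat_lit 0) (XT.lf (nat_lit 0) (nat_lit 52413297888) (nat_lit 76) (nat_lit 24593711027) (nat_lit 76) (nat_lit 1795029999) (nat_lit 4) (nat_lit 4) (nat_lit 5) (nat_lit 5) (nat_lit 5) (nat_lit 4) (nat_lit 292) (nat_lit 238) (nat_lit 190)) (XT.lf (nat_lit 0) (nat_lit 3844350216) (nat_lit 152) (nat_lit 14960832874) (nat_lit 76) (nat_lit 65918933635) (nat_lit 3) (nat_lit 5) (nat_lit 5) (nat_lit 5) (nat_lit 4) (nat_lit 4) (nat_lit 293) (nat_lit 238) (nat_lit 189)))))) (XT.nd (nat_lit 390) (nat_lit 0) (nat_lit 0) (XT.nd (nat_lit 156) (nat_lit 0) (nat_lit 0) (XT.nd (nat_lit 78) (nat_lit 76) (nat_lit 0) (XT.lf (nat_lit 0) (nat_lit 9847333242)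 (nat_lit 152) (nat_lit 2694597107) (nat_lit 76) (nat_lit 78577820728) (nat_lit 3) (nat_lit 5) (nat_lit 5) (nat_lit 5) (nat_lit 4) (nat_lit 4) (nat_lit 294) (nat_lit 238) (nat_lit 188)) (XT.lf (nat_lit 0) (nat_lit 10858211091) (nat_lit 76) (nat_lit 5618260494) (nat_lit 152) (nat_lit 81543295358) (nat_lit 2) (nat_lit 5) (nat_lit 3) (nat_lit 5) (nat_lit 4) (nat_lit 4) (nat_lit 295) (nat_lit 238) (nat_lit 187))) (XT.nd (nat_lit 78) (nat_lit 0) (nat_lit 0) (XT.lf (nat_lit 0) (nat_lit 23689905053) (nat_lit 152) (nat_lit 79949058347) (nat_lit 0) (nat_lit 1830147103) (nat_lit 2) (nat_lit 5) (nat_lit 4) (nat_lit 4) (nat_lit 2) (nat_lit 4) (nat_lit 296) (nat_lit 238) (nat_lit 186)) (XT.nd (nat_lit 78) (nat_lit 0) (nat_lit 0) (XT.lf (nat_lit 0) (nat_lit 31554061691) (nat_lit 152) (nat_lit 72292526573) (nat_lit 0) (nat_lit 9664153663) (nat_lit 2) (nat_lit 5) (nat_lit 4) (nat_lit 4) (nat_lit 2) (nat_lit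 4) (nat_lit 297) (nat_lit 238) (nat_lit 185)) (XT.lf (nat_lit 0) (nat_lit 40027827118) (nat_lit 152) (nat_lit 64058871700) (nat_lit 0) (nat_lit 18110002351) (nat_lit 2) (nat_lit 5) (nat_lit 4) (nat_lit 4) (nat_lit 2) (nat_lit 4) (nat_lit 298) (nat_lit 238) (nat_lit 184))))) (XT.nd (nat_lit 156) (nat_lit 0) (nat_lit 0) (XT.nd (nat_lit 78) (nat_lit 0) (nat_lit 0) (XT.lf (nat_lit 0) (nat_lit 49161416240) (nat_lit 152) (nat_lit 55199301697) (nat_lit 0) (nat_lit 27217742640) (nat_lit 2) (nat_lit 5) (nat_lit 4) (nat_lit 4) (nat_lit 2) (nat_lit 4) (nat_lit 299) (nat_lit 238) (nat_lit 183)) (XT.lf (nat_lit 0) (nat_lit 59008954030) (nat_lit 152) (nat_lit 45661315410) (nat_lit 0) (nat_lit 37041346326) (nat_lit 2) (nat_lit 5) (nat_lit 4) (nat_lit 4) (nat_lit 2) (nat_lit 4) (nat_lit 300) (nat_lit 238) (nat_lit 182))) (XT.nd (nat_lit 78) (nat_lit 0) (nat_lit 0) (XT.lf (nat_lit 0) (nat_lit 69628796266)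 (nat_lit 152) (nat_lit 35388391439) (nat_lit 0) (nat_lit 47639027354) (nat_lit 2) (nat_lit 5) (nat_lit 4) (nat_lit 4) (nat_lit 2) (nat_lit 4) (nat_lit 301) (nat_lit 238) (nat_lit 181)) (XT.nd (nat_lit 78) (nat_lit 0) (nat_lit 0) (XT.lf (nat_lit 0) (nat_lit 81083875347) (nat_lit 152) (nat_lit 24319653196) (nat_lit 0) (nat_lit 59073586799) (nat_lit 2) (nat_lit 5) (nat_lit 4) (nat_lit 4) (nat_lit 2) (nat_lit 4) (nat_lit 302) (nat_lit 238) (nat_lit 180)) (XT.lf (nat_lit 0) (nat_lit 93442073224) (nat_lit 152) (nat_lit 12389508159) (nat_lit 0) (nat_lit 71412785013) (nat_lit 2) (nat_lit 5) (nat_lit 4) (nat_lit 4) (nat_lit 2) (nat_lit 4) (nat_lit 303) (nat_lit 238) (nat_lit 179))))))) (XT.nd (nat_lit 780) (nat_lit 0) (nat_lit 0) (XT.nd (nat_lit 390) (nat_lit 0) (nat_lit 0) (XT.nd (nat_lit 156) (nat_lit 0) (nat_lit 0) (XT.nd (nat_lit 78) (nat_lit 0) (nat_lit 0) (XT.lf (nat_lit 0) (nat_lit 488371774)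 (nat_lit 76) (nat_lit 106295876739) (nat_lit 76) (nat_lit 84248996247) (nat_lit 1) (nat_lit 4) (nat_lit 2) (nat_lit 5) (nat_lit 2) (nat_lit 4) (nat_lit 304) (nat_lit 238) (nat_lit 178)) (XT.lf (nat_lit 0) (nat_lit 14817569253) (nat_lit 76) (nat_lit 106580320748) (nat_lit 76) (nat_lit 84517151106) (nat_lit 1) (nat_lit 4) (nat_lit 2) (nat_lit 5) (nat_lit 2) (nat_lit 4) (nat_lit 305) (nat_lit 238) (nat_lit 177))) (XT.nd (nat_lit 78) (nat_lit 0) (nat_lit 0) (XT.lf (nat_lit 0) (nat_lit 30273344947) (nat_lit 76) (nat_lit 106896421318) (nat_lit 76) (nat_lit 84818169130) (nat_lit 1) (nat_lit 4) (nat_lit 2) (nat_lit 5) (nat_lit 2) (nat_lit 4) (nat_lit 306) (nat_lit 238) (nat_lit 176)) (XT.nd (nat_lit 78) (nat_lit 0) (nat_lit 0) (XT.lf (nat_lit 0) (nat_lit 46947288638) (nat_lit 76) (nat_lit 107246051638) (nat_lit 76) (nat_lit 85153834131) (nat_lit 1) (nat_lit 4) (nat_lit 2) (nat_lit 5) (nat_lit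 2) (nat_lit 4) (nat_lit 307) (nat_lit 238) (nat_lit 175)) (XT.lf (nat_lit 0) (nat_lit 64938208881) (nat_lit 76) (nat_lit 107631283592) (nat_lit 76) (nat_lit 85526135233) (nat_lit 1) (nat_lit 4) (nat_lit 2) (nat_lit 5) (nat_lit 2) (nat_lit 4) (nat_lit 308) (nat_lit 238) (nat_lit 174))))) (XT.nd (nat_lit 156) (nat_lit 0) (nat_lit 0) (XT.nd (nat_lit 78) (nat_lit 0) (nat_lit 0) (XT.lf (nat_lit 0) (nat_lit 84352718537) (nat_lit 76) (nat_lit 108054400036) (nat_lit 76) (nat_lit 85937278667) (nat_lit 1) (nat_lit 4) (nat_lit 2) (nat_lit 5) (nat_lit 2) (nat_lit 4) (nat_lit 309) (nat_lit 238) (nat_lit 173)) (XT.lf (nat_lit 0) (nat_lit 105305866553) (nat_lit 76) (nat_lit 108517908327) (nat_lit 76) (nat_lit 86389700836) (nat_lit 1) (nat_lit 4) (nat_lit 2) (nat_lit 5) (nat_lit 2) (nat_lit 4) (nat_lit 310) (nat_lit 238) (nat_lit 172))) (XT.nd (nat_lit 78) (nat_lit 0) (nat_lit 0) (XT.lf (nat_lit 0)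 (nat_lit 127921819731) (nat_lit 76) (nat_lit 109024555180) (nat_lit 76) (nat_lit 86886082762) (nat_lit 1) (nat_lit 4) (nat_lit 2) (nat_lit 5) (nat_lit 2) (nat_lit 4) (nat_lit 311) (nat_lit 238) (nat_lit 171)) (XT.nd (nat_lit 78) (nat_lit 0) (nat_lit 0) (XT.lf (nat_lit 0) (nat_lit 152334598534) (nat_lit 76) (nat_lit 109577342947) (nat_lit 76) (nat_lit 87429365967) (nat_lit 1) (nat_lit 4) (nat_lit 2) (nat_lit 5) (nat_lit 2) (nat_lit 4) (nat_lit 312) (nat_lit 238) (nat_lit 170)) (XT.lf (nat_lit 0) (nat_lit 178688871282) (nat_lit 76) (nat_lit 110179547407) (nat_lit 76) (nat_lit 88022769907) (nat_lit 1) (nat_lit 4) (nat_lit 2) (nat_lit 5) (nat_lit 2) (nat_lit 4) (nat_lit 313) (nat_lit 238) (nat_lit 169)))))) (XT.nd (nat_lit 390) (nat_lit 0) (nat_lit 0) (XT.nd (nat_lit 156) (nat_lit 0) (nat_lit 0) (XT.nd (nat_lit 78) (nat_lit 0) (nat_lit 0) (XT.lf (nat_lit 0) (nat_lit 207140811442) (nat_lit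 76) (nat_lit 110834737180) (nat_lit 76) (nat_lit 88669811050) (nat_lit 1) (nat_lit 4) (nat_lit 2) (nat_lit 5) (nat_lit 2) (nat_lit 4) (nat_lit 314) (nat_lit 238) (nat_lit 168)) (XT.lf (nat_lit 0) (nat_lit 237859023105) (nat_lit 76) (nat_lit 111546794872) (nat_lit 76) (nat_lit 89374323713) (nat_lit 1) (nat_lit 4) (nat_lit 2) (nat_lit 5) (nat_lit 2) (nat_lit 4) (nat_lit 315) (nat_lit 238) (nat_lit 167))) (XT.nd (nat_lit 78) (nat_lit 0) (nat_lit 0) (XT.lf (nat_lit 0) (nat_lit 271025540117) (nat_lit 76) (nat_lit 112319940083) (nat_lit 76) (nat_lit 90140482788) (nat_lit 1) (nat_lit 4) (nat_lit 2) (nat_lit 5) (nat_lit 2) (nat_lit 4) (nat_lit 316) (nat_lit 238) (nat_lit 166)) (XT.nd (nat_lit 78) (nat_lit 0) (nat_lit 0) (XT.lf (nat_lit 0) (nat_lit 306836904801) (nat_lit 76) (nat_lit 113158754414) (nat_lit 76) (nat_lit 90972828474) (nat_lit 1) (nat_lit 4) (nat_lit 2) (nat_lit 5) (nat_lit 2) (nat_lit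 4) (nat_lit 317) (nat_lit 238) (nat_lit 165)) (XT.lf (nat_lit 0) (nat_lit 345505332652) (nat_lit 76) (nat_lit 114068208619) (nat_lit 76) (nat_lit 91876293192) (nat_lit 1) (nat_lit 4) (nat_lit 2) (nat_lit 5) (nat_lit 2) (nat_lit 4) (nat_lit 318) (nat_lit 238) (nat_lit 164))))) (XT.nd (nat_lit 156) (nat_lit 0) (nat_lit 0) (XT.nd (nat_lit 78) (nat_lit 0) (nat_lit 0) (XT.lf (nat_lit 0) (nat_lit 387259969908) (nat_lit 76) (nat_lit 115053692054) (nat_lit 76) (nat_lit 92856230807) (nat_lit 1) (nat_lit 4) (nat_lit 2) (nat_lit 5) (nat_lit 2) (nat_lit 4) (nat_lit 319) (nat_lit 238) (nat_lit 163)) (XT.lf (nat_lit 0) (nat_lit 432348251458) (nat_lit 76) (nat_lit 116121044621) (nat_lit 76) (nat_lit 93918448355) (nat_lit 1) (nat_lit 4) (nat_lit 2) (nat_lit 5) (nat_lit 2) (nat_lit 4) (nat_lit 320) (nat_lit 238) (nat_lit 162))) (XT.nd (nat_lit 78) (nat_lit 0) (nat_lit 0) (XT.lf (nat_lit 0) (nat_lit 481037367118)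 (nat_lit 76) (nat_lit 117276591374) (nat_lit 76) (nat_lit 95069240460) (nat_lit 1) (nat_lit 4) (nat_lit 2) (nat_lit 5) (nat_lit 2) (nat_lit 4) (nat_lit 321) (nat_lit 238) (nat_lit 161)) (XT.nd (nat_lit 78) (nat_lit 0) (nat_lit 0) (XT.lf (nat_lit 0) (nat_lit 533615844980) (nat_lit 76) (nat_lit 118527179996) (nat_lit 76) (nat_lit 96315426631) (nat_lit 1) (nat_lit 4) (nat_lit 2) (nat_lit 5) (nat_lit 2) (nat_lit 4) (nat_lit 322) (nat_lit 238) (nat_lit 160)) (XT.lf (nat_lit 0) (nat_lit 590395261210) (nat_lit 76) (nat_lit 119880221382) (nat_lit 76) (nat_lit 97664391674) (nat_lit 1) (nat_lit 4) (nat_lit 2) (nat_lit 5) (nat_lit 2) (nat_lit 4) (nat_lit 323) (nat_lit 238) (nat_lit 159))))))))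
noncomputable def xc46 : XT := (XT.nd (nat_lit 32448) (nat_lit 0) (nat_lit 608) (XT.nd (nat_lit 31668) (nat_lit 0) (nat_lit 2964) (XT.nd (nat_lit 31278) (nat_lit 0) (nat_lit 6840) (XT.nd (nat_lit 31122) (nat_lit 0) (nat_lit 8436) (XT.nd (nat_lit 78) (nat_lit 0) (nat_lit 0) (XT.lf (nat_lit 0) (nat_lit 651712086422) (nat_lit 76) (nat_lit 121343733557) (nat_lit 76) (nat_lit 99124129456) (nat_lit 1) (nat_lit 4) (nat_lit 2) (nat_lit 5) (nat_lit 2) (nat_lit 4) (nat_lit 324) (nat_lit 238) (nat_lit 158)) (XT.lf (nat_lit 0) (nat_lit 717929679581) (nat_lit 76) (nat_lit 122926389184) (nat_lit 76) (nat_lit 100703290275) (nat_lit 1) (nat_lit 4) (nat_lit 2) (nat_lit 5) (nat_lit 2) (nat_lit 4) (nat_lit 325) (nat_lit 238) (nat_lit 157))) (XT.nd (nat_lit 78) (nat_lit 228) (nat_lit 0) (XT.lf (nat_lit 0) (nat_lit 1504497653) (nat_lit 76) (nat_lit 865713084) (nat_lit 76) (nat_lit 865713084) (nat_lit 115)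 (nat_lit 4) (nat_lit 116) (nat_lit 5) (nat_lit 116) (nat_lit 4) (nat_lit 242) (nat_lit 239) (nat_lit 239)) (XT.lf (nat_lit 0) (nat_lit 1595298856) (nat_lit 152) (nat_lit 1079699491) (nat_lit 228) (nat_lit 3838632485) (nat_lit 112) (nat_lit 5) (nat_lit 114) (nat_lit 5) (nat_lit 115) (nat_lit 4) (nat_lit 243) (nat_lit 239) (nat_lit 238)))) (XT.nd (nat_lit 156) (nat_lit 1292) (nat_lit 0) (XT.nd (nat_lit 78) (nat_lit 0) (nat_lit 0) (XT.lf (nat_lit 0) (nat_lit 315616586) (nat_lit 228) (nat_lit 111643954) (nat_lit 304) (nat_lit 6150038169) (nat_lit 108) (nat_lit 5) (nat_lit 111) (nat_lit 5) (nat_lit 112) (nat_lit 5) (nat_lit 244) (nat_lit 239) (nat_lit 237)) (XT.lf (nat_lit 0) (nat_lit 4604001395) (nat_lit 304) (nat_lit 869015768) (nat_lit 76) (nat_lit 1186980342) (nat_lit 108) (nat_lit 5) (nat_lit 112) (nat_lit 5) (nat_lit 109) (nat_lit 4) (nat_lit 245) (nat_lit 239) (nat_lit 236))) (XT.nd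 (nat_lit 78) (nat_lit 912) (nat_lit 0) (XT.lf (nat_lit 0) (nat_lit 1990639763) (nat_lit 380) (nat_lit 1959019071) (nat_lit 76) (nat_lit 2814784363) (nat_lit 103) (nat_lit 5) (nat_lit 108) (nat_lit 5) (nat_lit 104) (nat_lit 5) (nat_lit 246) (nat_lit 239) (nat_lit 235)) (XT.nd (nat_lit 78) (nat_lit 532) (nat_lit 0) (XT.lf (nat_lit 0) (nat_lit 3907706118) (nat_lit 380) (nat_lit 2104618471) (nat_lit 456) (nat_lit 878934632) (nat_lit 98) (nat_lit 5) (nat_lit 103) (nat_lit 5) (nat_lit 104) (nat_lit 5) (nat_lit 247) (nat_lit 239) (nat_lit 234)) (XT.lf (nat_lit 0) (nat_lit 2966051714) (nat_lit 532) (nat_lit 3980829614) (nat_lit 76) (nat_lit 93136884) (nat_lit 91) (nat_lit 5) (nat_lit 98) (nat_lit 5) (nat_lit 92) (nat_lit 5) (nat_lit 248) (nat_lit 239) (nat_lit 233)))))) (XT.nd (nat_lit 390) (nat_lit 1596) (nat_lit 0) (XT.nd (nat_lit 156) (nat_lit 1064) (nat_lit 0) (XT.nd (nat_lit 78) (nat_lit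 684) (nat_lit 0) (XT.lf (nat_lit 0) (nat_lit 2235808385) (nat_lit 532) (nat_lit 4658670204) (nat_lit 608) (nat_lit 316671916) (nat_lit 84) (nat_lit 5) (nat_lit 91) (nat_lit 5) (nat_lit 92) (nat_lit 5) (nat_lit 249) (nat_lit 239) (nat_lit 232)) (XT.lf (nat_lit 0) (nat_lit 1407219944) (nat_lit 608) (nat_lit 2002777098) (nat_lit 684) (nat_lit 3994973766) (nat_lit 75) (nat_lit 5) (nat_lit 83) (nat_lit 5) (nat_lit 84) (nat_lit 5) (nat_lit 250) (nat_lit 239) (nat_lit 231))) (XT.nd (nat_lit 78) (nat_lit 380) (nat_lit 0) (XT.lf (nat_lit 0) (nat_lit 585079930) (nat_lit 684) (nat_lit 6664268441) (nat_lit 760) (nat_lit 374651626) (nat_lit 66) (nat_lit 5) (nat_lit 75) (nat_lit 5) (nat_lit 76) (nat_lit 5) (nat_lit 251) (nat_lit 239) (nat_lit 230)) (XT.nd (nat_lit 78) (nat_lit 304) (nat_lit 0) (XT.lf (nat_lit 0) (nat_lit 3288274118) (nat_lit 760) (nat_lit 316674818) (nat_lit 76) (nat_lit 4260634209)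 (nat_lit 65) (nat_lit 5) (nat_lit 75) (nat_lit 5) (nat_lit 66) (nat_lit 5) (nat_lit 252) (nat_lit 239) (nat_lit 229)) (XT.lf (nat_lit 0) (nat_lit 6899161033) (nat_lit 304) (nat_lit 186290627) (nat_lit 380) (nat_lit 1049033568) (nat_lit 61) (nat_lit 5) (nat_lit 65) (nat_lit 5) (nat_lit 66) (nat_lit 5) (nat_lit 253) (nat_lit 239) (nat_lit 228))))) (XT.nd (nat_lit 156) (nat_lit 836) (nat_lit 0) (XT.nd (nat_lit 78) (nat_lit 304) (nat_lit 0) (XT.lf (nat_lit 0) (nat_lit 2588628249) (nat_lit 456) (nat_lit 2310568578) (nat_lit 76) (nat_lit 3528667865) (nat_lit 55) (nat_lit 5) (nat_lit 61) (nat_lit 5) (nat_lit 56) (nat_lit 5) (nat_lit 254) (nat_lit 239) (nat_lit 227)) (XT.lf (nat_lit 0) (nat_lit 5248097948) (nat_lit 304) (nat_lit 1110395893) (nat_lit 380) (nat_lit 2392293649) (nat_lit 51) (nat_lit 5) (nat_lit 55) (nat_lit 5) (nat_lit 56) (nat_lit 5) (nat_lit 255) (nat_lit 239) (nat_lit 226)))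 (XT.nd (nat_lit 78) (nat_lit 456) (nat_lit 0) (XT.lf (nat_lit 0) (nat_lit 1222693975) (nat_lit 380) (nat_lit 4895905836) (nat_lit 76) (nat_lit 2983894156) (nat_lit 46) (nat_lit 5) (nat_lit 51) (nat_lit 5) (nat_lit 47) (nat_lit 5) (nat_lit 256) (nat_lit 239) (nat_lit 225)) (XT.nd (nat_lit 78) (nat_lit 228) (nat_lit 0) (XT.lf (nat_lit 0) (nat_lit 2959431954) (nat_lit 228) (nat_lit 2003068374) (nat_lit 304) (nat_lit 4522581770) (nat_lit 43) (nat_lit 5) (nat_lit 46) (nat_lit 5) (nat_lit 47) (nat_lit 5) (nat_lit 257) (nat_lit 239) (nat_lit 224)) (XT.lf (nat_lit 0) (nat_lit 1479478685) (nat_lit 228) (nat_lit 7472238842) (nat_lit 304) (nat_lit 949675969) (nat_lit 40) (nat_lit 5) (nat_lit 43) (nat_lit 5) (nat_lit 44) (nat_lit 5) (nat_lit 258) (nat_lit 239) (nat_lit 223))))))) (XT.nd (nat_lit 780) (nat_lit 760) (nat_lit 0) (XT.nd (nat_lit 390) (nat_lit 608) (nat_lit 0) (XT.nd (nat_lit 156) (nat_lit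 684) (nat_lit 0) (XT.nd (nat_lit 78) (nat_lit 228) (nat_lit 0) (XT.lf (nat_lit 0) (nat_lit 2774838607) (nat_lit 304) (nat_lit 316587896) (nat_lit 76) (nat_lit 7259921528) (nat_lit 39) (nat_lit 5) (nat_lit 43) (nat_lit 5) (nat_lit 40) (nat_lit 5) (nat_lit 259) (nat_lit 239) (nat_lit 222)) (XT.lf (nat_lit 0) (nat_lit 6747478532) (nat_lit 304) (nat_lit 2404284980) (nat_lit 76) (nat_lit 1686097573) (nat_lit 36) (nat_lit 5) (nat_lit 40) (nat_lit 5) (nat_lit 37) (nat_lit 5) (nat_lit 260) (nat_lit 239) (nat_lit 221))) (XT.nd (nat_lit 78) (nat_lit 456) (nat_lit 0) (XT.lf (nat_lit 0) (nat_lit 6458688644) (nat_lit 228) (nat_lit 4570287921) (nat_lit 304) (nat_lit 335240706) (nat_lit 33) (nat_lit 5) (nat_lit 36) (nat_lit 5) (nat_lit 37) (nat_lit 5) (nat_lit 261) (nat_lit 239) (nat_lit 220)) (XT.nd (nat_lit 78) (nat_lit 228) (nat_lit 0) (XT.lf (nat_lit 0) (nat_lit 3552833917) (nat_lit 228) (nat_lit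 7908049770) (nat_lit 76) (nat_lit 471732677) (nat_lit 30) (nat_lit 5) (nat_lit 33) (nat_lit 5) (nat_lit 31) (nat_lit 5) (nat_lit 262) (nat_lit 239) (nat_lit 219)) (XT.lf (nat_lit 0) (nat_lit 1029806313) (nat_lit 228) (nat_lit 6736684065) (nat_lit 304) (nat_lit 4778795549) (nat_lit 27) (nat_lit 5) (nat_lit 30) (nat_lit 5) (nat_lit 31) (nat_lit 5) (nat_lit 263) (nat_lit 239) (nat_lit 218))))) (XT.nd (nat_lit 156) (nat_lit 380) (nat_lit 0) (XT.nd (nat_lit 78) (nat_lit 228) (nat_lit 0) (XT.lf (nat_lit 0) (nat_lit 10753625705) (nat_lit 228) (nat_lit 1555593545) (nat_lit 304) (nat_lit 898509494) (nat_lit 27) (nat_lit 5) (nat_lit 30) (nat_lit 5) (nat_lit 31) (nat_lit 5) (nat_lit 264) (nat_lit 239) (nat_lit 217)) (XT.lf (nat_lit 0) (nat_lit 3228318886) (nat_lit 228) (nat_lit 6672657525) (nat_lit 76) (nat_lit 4017862338) (nat_lit 24) (nat_lit 5) (nat_lit 27) (nat_lit 5) (nat_lit 25) (nat_lit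 5) (nat_lit 265) (nat_lit 239) (nat_lit 216))) (XT.nd (nat_lit 78) (nat_lit 228) (nat_lit 0) (XT.lf (nat_lit 0) (nat_lit 2980966514) (nat_lit 152) (nat_lit 4658207313) (nat_lit 228) (nat_lit 7047952131) (nat_lit 22) (nat_lit 5) (nat_lit 24) (nat_lit 5) (nat_lit 25) (nat_lit 5) (nat_lit 266) (nat_lit 239) (nat_lit 215)) (XT.nd (nat_lit 78) (nat_lit 228) (nat_lit 0) (XT.lf (nat_lit 0) (nat_lit 12411189798) (nat_lit 228) (nat_lit 2078162377) (nat_lit 76) (nat_lit 1027380516) (nat_lit 22) (nat_lit 5) (nat_lit 25) (nat_lit 5) (nat_lit 23) (nat_lit 4) (nat_lit 267) (nat_lit 239) (nat_lit 214)) (XT.lf (nat_lit 0) (nat_lit 1208993425) (nat_lit 228) (nat_lit 8100027040) (nat_lit 76) (nat_lit 7098346439) (nat_lit 19) (nat_lit 5) (nat_lit 22) (nat_lit 5) (nat_lit 20) (nat_lit 5) (nat_lit 268) (nat_lit 239) (nat_lit 213)))))) (XT.nd (nat_lit 390) (nat_lit 304) (nat_lit 0) (XT.nd (nat_lit 156) (nat_lit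 304) (nat_lit 0) (XT.nd (nat_lit 78) (nat_lit 0) (nat_lit 0) (XT.lf (nat_lit 0) (nat_lit 2067300847) (nat_lit 152) (nat_lit 3650773796) (nat_lit 228) (nat_lit 11650943851) (nat_lit 17) (nat_lit 5) (nat_lit 19) (nat_lit 5) (nat_lit 20) (nat_lit 5) (nat_lit 269) (nat_lit 239) (nat_lit 212)) (XT.lf (nat_lit 0) (nat_lit 10662081703) (nat_lit 228) (nat_lit 5277268393) (nat_lit 76) (nat_lit 2464747167) (nat_lit 17) (nat_lit 5) (nat_lit 20) (nat_lit 5) (nat_lit 18) (nat_lit 4) (nat_lit 270) (nat_lit 239) (nat_lit 211))) (XT.nd (nat_lit 78) (nat_lit 228) (nat_lit 0) (XT.lf (nat_lit 0) (nat_lit 5503289260) (nat_lit 76) (nat_lit 10546151908) (nat_lit 152) (nat_lit 3470339406) (nat_lit 16) (nat_lit 5) (nat_lit 17) (nat_lit 5) (nat_lit 18) (nat_lit 4) (nat_lit 271) (nat_lit 239) (nat_lit 210)) (XT.nd (nat_lit 78) (nat_lit 152) (nat_lit 0) (XT.lf (nat_lit 0) (nat_lit 1103533891) (nat_lit 152) (nat_lit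 3561545431) (nat_lit 76) (nat_lit 16059061878) (nat_lit 15) (nat_lit 5) (nat_lit 17) (nat_lit 5) (nat_lit 16) (nat_lit 5) (nat_lit 272) (nat_lit 239) (nat_lit 209)) (XT.lf (nat_lit 0) (nat_lit 5983908065) (nat_lit 228) (nat_lit 14273948042) (nat_lit 76) (nat_lit 1761196290) (nat_lit 13) (nat_lit 5) (nat_lit 16) (nat_lit 5) (nat_lit 14) (nat_lit 4) (nat_lit 273) (nat_lit 239) (nat_lit 208))))) (XT.nd (nat_lit 156) (nat_lit 228) (nat_lit 0) (XT.nd (nat_lit 78) (nat_lit 76) (nat_lit 0) (XT.lf (nat_lit 0) (nat_lit 11310783316) (nat_lit 228) (nat_lit 3553089983) (nat_lit 76) (nat_lit 8551023152) (nat_lit 13) (nat_lit 5) (nat_lit 16) (nat_lit 5) (nat_lit 14) (nat_lit 4) (nat_lit 274) (nat_lit 239) (nat_lit 207)) (XT.lf (nat_lit 0) (nat_lit 8154559052) (nat_lit 76) (nat_lit 8957261825) (nat_lit 152) (nat_lit 7808319425) (nat_lit 12) (nat_lit 5) (nat_lit 13) (nat_lit 5) (nat_lit 14) (nat_lit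 4) (nat_lit 275) (nat_lit 239) (nat_lit 206))) (XT.nd (nat_lit 78) (nat_lit 228) (nat_lit 0) (XT.lf (nat_lit 0) (nat_lit 20799556327) (nat_lit 76) (nat_lit 2563879286) (nat_lit 152) (nat_lit 3183166386) (nat_lit 12) (nat_lit 5) (nat_lit 13) (nat_lit 5) (nat_lit 14) (nat_lit 4) (nat_lit 276) (nat_lit 239) (nat_lit 205)) (XT.nd (nat_lit 78) (nat_lit 0) (nat_lit 0) (XT.lf (nat_lit 0) (nat_lit 1848871300) (nat_lit 228) (nat_lit 22165667932) (nat_lit 76) (nat_lit 4282592001) (nat_lit 9) (nat_lit 5) (nat_lit 12) (nat_lit 5) (nat_lit 10) (nat_lit 4) (nat_lit 277) (nat_lit 239) (nat_lit 204)) (XT.lf (nat_lit 0) (nat_lit 7250112326) (nat_lit 228) (nat_lit 11232594836) (nat_lit 76) (nat_lit 11698578808) (nat_lit 9) (nat_lit 5) (nat_lit 12) (nat_lit 5) (nat_lit 10) (nat_lit 4) (nat_lit 278) (nat_lit 239) (nat_lit 203))))))))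
noncomputable def xc47 : XT := (XT.nd (nat_lit 1482) (nat_lit 76) (nat_lit 0) (XT.nd (nat_lit 702) (nat_lit 228) (nat_lit 0) (XT.nd (nat_lit 312) (nat_lit 152) (nat_lit 0) (XT.nd (nat_lit 156) (nat_lit 76) (nat_lit 0) (XT.nd (nat_lit 78) (nat_lit 0) (nat_lit 0) (XT.lf (nat_lit 0) (nat_lit 482388715) (nat_lit 76) (nat_lit 12545344769) (nat_lit 152) (nat_lit 19191318587) (nat_lit 8) (nat_lit 5) (nat_lit 9) (nat_lit 5) (nat_lit 10) (nat_lit 4) (nat_lit 279) (nat_lit 239) (nat_lit 202)) (XT.lf (nat_lit 0) (nat_lit 13432209593) (nat_lit 76) (nat_lit 5970838421) (nat_lit 152) (nat_lit 15010103396) (nat_lit 8) (nat_lit 5) (nat_lit 9) (nat_lit 5) (nat_lit 10) (nat_lit 4) (nat_lit 280) (nat_lit 239) (nat_lit 201))) (XT.nd (nat_lit 78) (nat_lit 76) (nat_lit 0) (XT.lf (nat_lit 0) (nat_lit 26249675486) (nat_lit 152) (nat_lit 9480448250) (nat_lit 0) (nat_lit 1054670325) (nat_lit 8) (nat_lit 5) (nat_lit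 10) (nat_lit 4) (nat_lit 8) (nat_lit 4) (nat_lit 281) (nat_lit 239) (nat_lit 200)) (XT.lf (nat_lit 0) (nat_lit 2839501192) (nat_lit 76) (nat_lit 30897368883) (nat_lit 76) (nat_lit 5604730051) (nat_lit 7) (nat_lit 4) (nat_lit 8) (nat_lit 5) (nat_lit 8) (nat_lit 4) (nat_lit 282) (nat_lit 239) (nat_lit 199)))) (XT.nd (nat_lit 156) (nat_lit 76) (nat_lit 0) (XT.nd (nat_lit 78) (nat_lit 76) (nat_lit 0) (XT.lf (nat_lit 0) (nat_lit 16396749655) (nat_lit 76) (nat_lit 25541767953) (nat_lit 76) (nat_lit 158727574) (nat_lit 7) (nat_lit 4) (nat_lit 8) (nat_lit 5) (nat_lit 8) (nat_lit 4) (nat_lit 283) (nat_lit 239) (nat_lit 198)) (XT.lf (nat_lit 0) (nat_lit 5492982668) (nat_lit 152) (nat_lit 14206131043) (nat_lit 76) (nat_lit 25372160966) (nat_lit 6) (nat_lit 5) (nat_lit 8) (nat_lit 5) (nat_lit 7) (nat_lit 4) (nat_lit 284) (nat_lit 239) (nat_lit 197))) (XT.nd (nat_lit 78) (nat_lit 76) (nat_lit 0)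 (XT.lf (nat_lit 0) (nat_lit 11548007733) (nat_lit 152) (nat_lit 1870834417) (nat_lit 76) (nat_lit 34866473157) (nat_lit 6) (nat_lit 5) (nat_lit 8) (nat_lit 5) (nat_lit 7) (nat_lit 4) (nat_lit 285) (nat_lit 239) (nat_lit 196)) (XT.nd (nat_lit 78) (nat_lit 0) (nat_lit 0) (XT.lf (nat_lit 0) (nat_lit 11757276871) (nat_lit 76) (nat_lit 6473596691) (nat_lit 152) (nat_lit 33518485381) (nat_lit 5) (nat_lit 5) (nat_lit 6) (nat_lit 5) (nat_lit 7) (nat_lit 4) (nat_lit 286) (nat_lit 239) (nat_lit 195)) (XT.lf (nat_lit 0) (nat_lit 25458873369) (nat_lit 152) (nat_lit 29031789361) (nat_lit 0) (nat_lit 999385970) (nat_lit 5) (nat_lit 5) (nat_lit 7) (nat_lit 4) (nat_lit 5) (nat_lit 4) (nat_lit 287) (nat_lit 239) (nat_lit 194)))))) (XT.nd (nat_lit 390) (nat_lit 152) (nat_lit 0) (XT.nd (nat_lit 156) (nat_lit 76) (nat_lit 0) (XT.nd (nat_lit 78) (nat_lit 0) (nat_lit 0) (XT.lf (nat_lit 0) (nat_lit 33338476492)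 (nat_lit 152) (nat_lit 17367500180) (nat_lit 0) (nat_lit 8820393118) (nat_lit 5) (nat_lit 5) (nat_lit 7) (nat_lit 4) (nat_lit 5) (nat_lit 4) (nat_lit 288) (nat_lit 239) (nat_lit 193)) (XT.lf (nat_lit 0) (nat_lit 41815305891) (nat_lit 152) (nat_lit 4829021829) (nat_lit 0) (nat_lit 17242966985) (nat_lit 5) (nat_lit 5) (nat_lit 7) (nat_lit 4) (nat_lit 5) (nat_lit 4) (nat_lit 289) (nat_lit 239) (nat_lit 192))) (XT.nd (nat_lit 78) (nat_lit 0) (nat_lit 0) (XT.lf (nat_lit 0) (nat_lit 8944218640) (nat_lit 76) (nat_lit 42135020307) (nat_lit 76) (nat_lit 17512444796) (nat_lit 4) (nat_lit 4) (nat_lit 5) (nat_lit 5) (nat_lit 5) (nat_lit 4) (nat_lit 290) (nat_lit 239) (nat_lit 191)) (XT.nd (nat_lit 78) (nat_lit 0) (nat_lit 0) (XT.lf (nat_lit 0) (nat_lit 23939546440) (nat_lit 76) (nat_lit 37199629533) (nat_lit 76) (nat_lit 12530538648) (nat_lit 4) (nat_lit 4) (nat_lit 5) (nat_lit 5) (nat_lit 5) (nat_lit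 4) (nat_lit 291) (nat_lit 239) (nat_lit 190)) (XT.lf (nat_lit 0) (nat_lit 40086153502) (nat_lit 76) (nat_lit 31890690460) (nat_lit 76) (nat_lit 7178529784) (nat_lit 4) (nat_lit 4) (nat_lit 5) (nat_lit 5) (nat_lit 5) (nat_lit 4) (nat_lit 292) (nat_lit 239) (nat_lit 189))))) (XT.nd (nat_lit 156) (nat_lit 76) (nat_lit 0) (XT.nd (nat_lit 78) (nat_lit 76) (nat_lit 0) (XT.lf (nat_lit 0) (nat_lit 57479723423) (nat_lit 76) (nat_lit 26176742708) (nat_lit 76) (nat_lit 1424702597) (nat_lit 4) (nat_lit 4) (nat_lit 5) (nat_lit 5) (nat_lit 5) (nat_lit 4) (nat_lit 293) (nat_lit 239) (nat_lit 188)) (XT.lf (nat_lit 0) (nat_lit 4612528640) (nat_lit 152) (nat_lit 15333281801) (nat_lit 76) (nat_lit 71532685164) (nat_lit 3) (nat_lit 5) (nat_lit 5) (nat_lit 5) (nat_lit 4) (nat_lit 4) (nat_lit 294) (nat_lit 239) (nat_lit 187))) (XT.nd (nat_lit 78) (nat_lit 76) (nat_lit 0) (XT.lf (nat_lit 0) (nat_lit 11061629537)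 (nat_lit 152) (nat_lit 2146815151) (nat_lit 76) (nat_lit 85179080495) (nat_lit 3) (nat_lit 5) (nat_lit 5) (nat_lit 5) (nat_lit 4) (nat_lit 4) (nat_lit 295) (nat_lit 239) (nat_lit 186)) (XT.nd (nat_lit 78) (nat_lit 0) (nat_lit 0) (XT.lf (nat_lit 0) (nat_lit 12457043454) (nat_lit 76) (nat_lit 5743862272) (nat_lit 152) (nat_lit 87639681845) (nat_lit 2) (nat_lit 5) (nat_lit 3) (nat_lit 5) (nat_lit 4) (nat_lit 4) (nat_lit 296) (nat_lit 239) (nat_lit 185)) (XT.lf (nat_lit 0) (nat_lit 25965998163) (nat_lit 152) (nat_lit 85654353520) (nat_lit 0) (nat_lit 2266830675) (nat_lit 2) (nat_lit 5) (nat_lit 4) (nat_lit 4) (nat_lit 2) (nat_lit 4) (nat_lit 297) (nat_lit 239) (nat_lit 184))))))) (XT.nd (nat_lit 780) (nat_lit 0) (nat_lit 0) (XT.nd (nat_lit 390) (nat_lit 76) (nat_lit 0) (XT.nd (nat_lit 156) (nat_lit 0) (nat_lit 0) (XT.nd (nat_lit 78) (nat_lit 0) (nat_lit 0) (XT.lf (nat_lit 0) (nat_lit 34431072466)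 (nat_lit 152) (nat_lit 77436456945) (nat_lit 0) (nat_lit 10706056145) (nat_lit 2) (nat_lit 5) (nat_lit 4) (nat_lit 4) (nat_lit 2) (nat_lit 4) (nat_lit 298) (nat_lit 239) (nat_lit 183)) (XT.lf (nat_lit 0) (nat_lit 43556614250) (nat_lit 152) (nat_lit 68591477959) (nat_lit 0) (nat_lit 19807663825) (nat_lit 2) (nat_lit 5) (nat_lit 4) (nat_lit 4) (nat_lit 2) (nat_lit 4) (nat_lit 299) (nat_lit 239) (nat_lit 182))) (XT.nd (nat_lit 78) (nat_lit 0) (nat_lit 0) (XT.lf (nat_lit 0) (nat_lit 53396700801) (nat_lit 152) (nat_lit 59067001873) (nat_lit 0) (nat_lit 29625589169) (nat_lit 2) (nat_lit 5) (nat_lit 4) (nat_lit 4) (nat_lit 2) (nat_lit 4) (nat_lit 300) (nat_lit 239) (nat_lit 181)) (XT.nd (nat_lit 78) (nat_lit 0) (nat_lit 0) (XT.lf (nat_lit 0) (nat_lit 64009643742) (nat_lit 152) (nat_lit 48806587347) (nat_lit 0) (nat_lit 40218012473) (nat_lit 2) (nat_lit 5) (nat_lit 4) (nat_lit 4) (nat_lit 2)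 (nat_lit 4) (nat_lit 301) (nat_lit 239) (nat_lit 180)) (XT.lf (nat_lit 0) (nat_lit 75458334587) (nat_lit 152) (nat_lit 37749431924) (nat_lit 0) (nat_lit 51647703655) (nat_lit 2) (nat_lit 5) (nat_lit 4) (nat_lit 4) (nat_lit 2) (nat_lit 4) (nat_lit 302) (nat_lit 239) (nat_lit 179))))) (XT.nd (nat_lit 156) (nat_lit 76) (nat_lit 0) (XT.nd (nat_lit 78) (nat_lit 0) (nat_lit 0) (XT.lf (nat_lit 0) (nat_lit 87810617431) (nat_lit 152) (nat_lit 25830011720) (nat_lit 0) (nat_lit 63982394218) (nat_lit 2) (nat_lit 5) (nat_lit 4) (nat_lit 4) (nat_lit 2) (nat_lit 4) (nat_lit 303) (nat_lit 239) (nat_lit 178)) (XT.lf (nat_lit 0) (nat_lit 101139690986) (nat_lit 152) (nat_lit 12977693134) (nat_lit 0) (nat_lit 77295178624) (nat_lit 2) (nat_lit 5) (nat_lit 4) (nat_lit 4) (nat_lit 2) (nat_lit 4) (nat_lit 304) (nat_lit 239) (nat_lit 177))) (XT.nd (nat_lit 78) (nat_lit 0) (nat_lit 0) (XT.lf (nat_lit 0) (nat_lit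 912904361) (nat_lit 76) (nat_lit 114625890988) (nat_lit 76) (nat_lit 90766296080) (nat_lit 1) (nat_lit 4) (nat_lit 2) (nat_lit 5) (nat_lit 2) (nat_lit 4) (nat_lit 305) (nat_lit 239) (nat_lit 176)) (XT.nd (nat_lit 78) (nat_lit 0) (nat_lit 0) (XT.lf (nat_lit 0) (nat_lit 16359884835) (nat_lit 76) (nat_lit 114945953916) (nat_lit 76) (nat_lit 91072393689) (nat_lit 1) (nat_lit 4) (nat_lit 2) (nat_lit 5) (nat_lit 2) (nat_lit 4) (nat_lit 306) (nat_lit 239) (nat_lit 175)) (XT.lf (nat_lit 0) (nat_lit 33025684803) (nat_lit 76) (nat_lit 115299253087) (nat_lit 76) (nat_lit 91412762007) (nat_lit 1) (nat_lit 4) (nat_lit 2) (nat_lit 5) (nat_lit 2) (nat_lit 4) (nat_lit 307) (nat_lit 239) (nat_lit 174)))))) (XT.nd (nat_lit 390) (nat_lit 0) (nat_lit 0) (XT.nd (nat_lit 156) (nat_lit 0) (nat_lit 0) (XT.nd (nat_lit 78) (nat_lit 0) (nat_lit 0) (XT.lf (nat_lit 0) (nat_lit 51009064563) (nat_lit 76) (nat_lit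 115687882124) (nat_lit 76) (nat_lit 91789418034) (nat_lit 1) (nat_lit 4) (nat_lit 2) (nat_lit 5) (nat_lit 2) (nat_lit 4) (nat_lit 308) (nat_lit 239) (nat_lit 173)) (XT.lf (nat_lit 0) (nat_lit 70416592290) (nat_lit 76) (nat_lit 116114144016) (nat_lit 76) (nat_lit 92204593805) (nat_lit 1) (nat_lit 4) (nat_lit 2) (nat_lit 5) (nat_lit 2) (nat_lit 4) (nat_lit 309) (nat_lit 239) (nat_lit 172))) (XT.nd (nat_lit 78) (nat_lit 0) (nat_lit 0) (XT.lf (nat_lit 0) (nat_lit 91363275556) (nat_lit 76) (nat_lit 116580564758) (nat_lit 76) (nat_lit 92660749620) (nat_lit 1) (nat_lit 4) (nat_lit 2) (nat_lit 5) (nat_lit 2) (nat_lit 4) (nat_lit 310) (nat_lit 239) (nat_lit 171)) (XT.nd (nat_lit 78) (nat_lit 0) (nat_lit 0) (XT.lf (nat_lit 0) (nat_lit 113973242855) (nat_lit 76) (nat_lit 117089908326) (nat_lit 76) (nat_lit 93160588625) (nat_lit 1) (nat_lit 4) (nat_lit 2) (nat_lit 5) (nat_lit 2) (nat_lit 4) (nat_lit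 311) (nat_lit 239) (nat_lit 170)) (XT.lf (nat_lit 0) (nat_lit 138380479177) (nat_lit 76) (nat_lit 117645193050) (nat_lit 76) (nat_lit 93707072829) (nat_lit 1) (nat_lit 4) (nat_lit 2) (nat_lit 5) (nat_lit 2) (nat_lit 4) (nat_lit 312) (nat_lit 239) (nat_lit 169))))) (XT.nd (nat_lit 156) (nat_lit 0) (nat_lit 0) (XT.nd (nat_lit 78) (nat_lit 0) (nat_lit 0) (XT.lf (nat_lit 0) (nat_lit 164729619998) (nat_lit 76) (nat_lit 118249709509) (nat_lit 76) (nat_lit 94303440658) (nat_lit 1) (nat_lit 4) (nat_lit 2) (nat_lit 5) (nat_lit 2) (nat_lit 4) (nat_lit 313) (nat_lit 239) (nat_lit 168)) (XT.lf (nat_lit 0) (nat_lit 193176808375) (nat_lit 76) (nat_lit 118907040020) (nat_lit 76) (nat_lit 94953226142) (nat_lit 1) (nat_lit 4) (nat_lit 2) (nat_lit 5) (nat_lit 2) (nat_lit 4) (nat_lit 314) (nat_lit 239) (nat_lit 167))) (XT.nd (nat_lit 78) (nat_lit 0) (nat_lit 0) (XT.lf (nat_lit 0) (nat_lit 223890620238)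 (nat_lit 76) (nat_lit 119621079877) (nat_lit 76) (nat_lit 95660279862) (nat_lit 1) (nat_lit 4) (nat_lit 2) (nat_lit 5) (nat_lit 2) (nat_lit 4) (nat_lit 315) (nat_lit 239) (nat_lit 166)) (XT.nd (nat_lit 78) (nat_lit 0) (nat_lit 0) (XT.lf (nat_lit 0) (nat_lit 257053063361) (nat_lit 76) (nat_lit 120396060427) (nat_lit 76) (nat_lit 96428791766) (nat_lit 1) (nat_lit 4) (nat_lit 2) (nat_lit 5) (nat_lit 2) (nat_lit 4) (nat_lit 316) (nat_lit 239) (nat_lit 165)) (XT.lf (nat_lit 0) (nat_lit 292860655925) (nat_lit 76) (nat_lit 121236574146) (nat_lit 76) (nat_lit 97263315999) (nat_lit 1) (nat_lit 4) (nat_lit 2) (nat_lit 5) (nat_lit 2) (nat_lit 4) (nat_lit 317) (nat_lit 239) (nat_lit 164))))))))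
noncomputable def xc48 : XT := (XT.nd (nat_lit 32292) (nat_lit 0) (nat_lit 1368) (XT.nd (nat_lit 31512) (nat_lit 0) (nat_lit 6232) (XT.nd (nat_lit 312) (nat_lit 0) (nat_lit 0) (XT.nd (nat_lit 156) (nat_lit 0) (nat_lit 0) (XT.nd (nat_lit 78) (nat_lit 0) (nat_lit 0) (XT.lf (nat_lit 0) (nat_lit 331525591073) (nat_lit 76) (nat_lit 122147601857) (nat_lit 76) (nat_lit 98168797889) (nat_lit 1) (nat_lit 4) (nat_lit 2) (nat_lit 5) (nat_lit 2) (nat_lit 4) (nat_lit 318) (nat_lit 239) (nat_lit 163)) (XT.lf (nat_lit 0) (nat_lit 373276994345) (nat_lit 76) (nat_lit 123134542243) (nat_lit 76) (nat_lit 99150603256) (nat_lit 1) (nat_lit 4) (nat_lit 2) (nat_lit 5) (nat_lit 2) (nat_lit 4) (nat_lit 319) (nat_lit 239) (nat_lit 162))) (XT.nd (nat_lit 78) (nat_lit 0) (nat_lit 0) (XT.lf (nat_lit 0) (nat_lit 418362281465) (nat_lit 76) (nat_lit 124203243839) (nat_lit 76) (nat_lit 100214550205) (nat_lit 1) (nat_lit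 4) (nat_lit 2) (nat_lit 5) (nat_lit 2) (nat_lit 4) (nat_lit 320) (nat_lit 239) (nat_lit 161)) (XT.lf (nat_lit 0) (nat_lit 467048624505) (nat_lit 76) (nat_lit 125360039692) (nat_lit 76) (nat_lit 101366943607) (nat_lit 1) (nat_lit 4) (nat_lit 2) (nat_lit 5) (nat_lit 2) (nat_lit 4) (nat_lit 321) (nat_lit 239) (nat_lit 160)))) (XT.nd (nat_lit 156) (nat_lit 0) (nat_lit 0) (XT.nd (nat_lit 78) (nat_lit 0) (nat_lit 0) (XT.lf (nat_lit 0) (nat_lit 519624535126) (nat_lit 76) (nat_lit 126611784888) (nat_lit 76) (nat_lit 102614612459) (nat_lit 1) (nat_lit 4) (nat_lit 2) (nat_lit 5) (nat_lit 2) (nat_lit 4) (nat_lit 322) (nat_lit 239) (nat_lit 159)) (XT.lf (nat_lit 0) (nat_lit 576401574281) (nat_lit 76) (nat_lit 127965897177) (nat_lit 76) (nat_lit 103964950356) (nat_lit 1) (nat_lit 4) (nat_lit 2) (nat_lit 5) (nat_lit 2) (nat_lit 4) (nat_lit 323) (nat_lit 239) (nat_lit 158))) (XT.nd (nat_lit 78) (nat_lit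 0) (nat_lit 0) (XT.lf (nat_lit 0) (nat_lit 637716198498) (nat_lit 76) (nat_lit 129430400928) (nat_lit 76) (nat_lit 105425959299) (nat_lit 1) (nat_lit 4) (nat_lit 2) (nat_lit 5) (nat_lit 2) (nat_lit 4) (nat_lit 324) (nat_lit 239) (nat_lit 157)) (XT.nd (nat_lit 30888) (nat_lit 0) (nat_lit 8816) (XT.lf (nat_lit 0) (nat_lit 703931753698) (nat_lit 76) (nat_lit 131013974681) (nat_lit 76) (nat_lit 107006297119) (nat_lit 1) (nat_lit 4) (nat_lit 2) (nat_lit 5) (nat_lit 2) (nat_lit 4) (nat_lit 325) (nat_lit 239) (nat_lit 156)) (XT.lf (nat_lit 0) (nat_lit 1073741823) (nat_lit 0) (nat_lit 0) (nat_lit 0) (nat_lit 0) (nat_lit 117) (nat_lit 0) (nat_lit 1) (nat_lit 0) (nat_lit 1) (nat_lit 0) (nat_lit 240) (nat_lit 240) (nat_lit 240)))))) (XT.nd (nat_lit 390) (nat_lit 1824) (nat_lit 0) (XT.nd (nat_lit 156) (nat_lit 532) (nat_lit 0) (XT.nd (nat_lit 78) (nat_lit 152) (nat_lit 0) (XT.lf (nat_lit 0) (nat_lit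 4384027237) (nat_lit 76) (nat_lit 1883020058) (nat_lit 0) (nat_lit 184503658) (nat_lit 116) (nat_lit 5) (nat_lit 117) (nat_lit 0) (nat_lit 116) (nat_lit 4) (nat_lit 241) (nat_lit 240) (nat_lit 239)) (XT.lf (nat_lit 0) (nat_lit 2173272641) (nat_lit 152) (nat_lit 3632762421) (nat_lit 76) (nat_lit 676024047) (nat_lit 114) (nat_lit 5) (nat_lit 116) (nat_lit 5) (nat_lit 115) (nat_lit 4) (nat_lit 242) (nat_lit 240) (nat_lit 238))) (XT.nd (nat_lit 78) (nat_lit 380) (nat_lit 0) (XT.lf (nat_lit 0) (nat_lit 1266177834) (nat_lit 152) (nat_lit 5053121561) (nat_lit 228) (nat_lit 214687244) (nat_lit 112) (nat_lit 5) (nat_lit 114) (nat_lit 5) (nat_lit 115) (nat_lit 4) (nat_lit 243) (nat_lit 240) (nat_lit 237)) (XT.nd (nat_lit 78) (nat_lit 304) (nat_lit 0) (XT.lf (nat_lit 0) (nat_lit 3739252126) (nat_lit 228) (nat_lit 224316062) (nat_lit 76) (nat_lit 2642155125) (nat_lit 111) (nat_lit 5) (nat_lit 114)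 (nat_lit 5) (nat_lit 112) (nat_lit 5) (nat_lit 244) (nat_lit 240) (nat_lit 236)) (XT.lf (nat_lit 0) (nat_lit 982494632) (nat_lit 304) (nat_lit 1570022612) (nat_lit 76) (nat_lit 4146205516) (nat_lit 107) (nat_lit 5) (nat_lit 111) (nat_lit 5) (nat_lit 108) (nat_lit 5) (nat_lit 245) (nat_lit 240) (nat_lit 235))))) (XT.nd (nat_lit 156) (nat_lit 1064) (nat_lit 0) (XT.nd (nat_lit 78) (nat_lit 456) (nat_lit 0) (XT.lf (nat_lit 0) (nat_lit 3955691182) (nat_lit 304) (nat_lit 798561938) (nat_lit 380) (nat_lit 2058661775) (nat_lit 103) (nat_lit 5) (nat_lit 107) (nat_lit 5) (nat_lit 108) (nat_lit 5) (nat_lit 246) (nat_lit 240) (nat_lit 234)) (XT.lf (nat_lit 0) (nat_lit 1587290616) (nat_lit 456) (nat_lit 4107335407) (nat_lit 76) (nat_lit 1253970508) (nat_lit 97) (nat_lit 5) (nat_lit 103) (nat_lit 5) (nat_lit 98) (nat_lit 5) (nat_lit 247) (nat_lit 240) (nat_lit 233))) (XT.nd (nat_lit 78) (nat_lit 608)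 (nat_lit 0) (XT.lf (nat_lit 0) (nat_lit 1760611005) (nat_lit 456) (nat_lit 3470850085) (nat_lit 532) (nat_lit 1874575591) (nat_lit 91) (nat_lit 5) (nat_lit 97) (nat_lit 5) (nat_lit 98) (nat_lit 5) (nat_lit 248) (nat_lit 240) (nat_lit 232)) (XT.nd (nat_lit 78) (nat_lit 0) (nat_lit 0) (XT.lf (nat_lit 0) (nat_lit 712168146) (nat_lit 532) (nat_lit 901695459) (nat_lit 608) (nat_lit 5672911917) (nat_lit 83) (nat_lit 5) (nat_lit 90) (nat_lit 5) (nat_lit 91) (nat_lit 5) (nat_lit 249) (nat_lit 240) (nat_lit 231)) (XT.lf (nat_lit 0) (nat_lit 5159057253) (nat_lit 608) (nat_lit 351570293) (nat_lit 76) (nat_lit 1978886624) (nat_lit 83) (nat_lit 5) (nat_lit 91) (nat_lit 5) (nat_lit 84) (nat_lit 5) (nat_lit 250) (nat_lit 240) (nat_lit 230))))))) (XT.nd (nat_lit 702) (nat_lit 1520) (nat_lit 0) (XT.nd (nat_lit 312) (nat_lit 1216) (nat_lit 0) (XT.nd (nat_lit 156) (nat_lit 760) (nat_lit 0) (XT.nd (nat_lit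 78) (nat_lit 684) (nat_lit 0) (XT.lf (nat_lit 0) (nat_lit 1088213857) (nat_lit 684) (nat_lit 1416264228) (nat_lit 76) (nat_lit 5211604565) (nat_lit 74) (nat_lit 5) (nat_lit 83) (nat_lit 5) (nat_lit 75) (nat_lit 5) (nat_lit 251) (nat_lit 240) (nat_lit 229)) (XT.lf (nat_lit 0) (nat_lit 4554931440) (nat_lit 760) (nat_lit 2548814039) (nat_lit 76) (nat_lit 863327430) (nat_lit 65) (nat_lit 5) (nat_lit 75) (nat_lit 5) (nat_lit 66) (nat_lit 5) (nat_lit 252) (nat_lit 240) (nat_lit 228))) (XT.nd (nat_lit 78) (nat_lit 456) (nat_lit 0) (XT.lf (nat_lit 0) (nat_lit 4474252939) (nat_lit 304) (nat_lit 3727128281) (nat_lit 380) (nat_lit 42582688) (nat_lit 61) (nat_lit 5) (nat_lit 65) (nat_lit 5) (nat_lit 66) (nat_lit 5) (nat_lit 253) (nat_lit 240) (nat_lit 227)) (XT.lf (nat_lit 0) (nat_lit 3355701343) (nat_lit 456) (nat_lit 5123735181) (nat_lit 76) (nat_lit 67878481) (nat_lit 55) (nat_lit 5) (nat_lit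 61) (nat_lit 5) (nat_lit 56) (nat_lit 5) (nat_lit 254) (nat_lit 240) (nat_lit 226)))) (XT.nd (nat_lit 156) (nat_lit 532) (nat_lit 0) (XT.nd (nat_lit 78) (nat_lit 380) (nat_lit 0) (XT.lf (nat_lit 0) (nat_lit 2223593105) (nat_lit 304) (nat_lit 4752590475) (nat_lit 380) (nat_lit 1901892889) (nat_lit 51) (nat_lit 5) (nat_lit 55) (nat_lit 5) (nat_lit 56) (nat_lit 5) (nat_lit 255) (nat_lit 240) (nat_lit 225)) (XT.lf (nat_lit 0) (nat_lit 876334245) (nat_lit 304) (nat_lit 621938479) (nat_lit 380) (nat_lit 7741409534) (nat_lit 46) (nat_lit 5) (nat_lit 50) (nat_lit 5) (nat_lit 51) (nat_lit 5) (nat_lit 256) (nat_lit 240) (nat_lit 224))) (XT.nd (nat_lit 78) (nat_lit 532) (nat_lit 0) (XT.lf (nat_lit 0) (nat_lit 5089290969) (nat_lit 380) (nat_lit 705924557) (nat_lit 76) (nat_lit 3834795967) (nat_lit 46) (nat_lit 5) (nat_lit 51) (nat_lit 5) (nat_lit 47) (nat_lit 5) (nat_lit 257) (nat_lit 240) (nat_lit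 223)) (XT.nd (nat_lit 78) (nat_lit 304) (nat_lit 0) (XT.lf (nat_lit 0) (nat_lit 7578727168) (nat_lit 228) (nat_lit 1338809407) (nat_lit 304) (nat_lit 1137114247) (nat_lit 43) (nat_lit 5) (nat_lit 46) (nat_lit 5) (nat_lit 47) (nat_lit 5) (nat_lit 258) (nat_lit 240) (nat_lit 222)) (XT.lf (nat_lit 0) (nat_lit 2447138183) (nat_lit 304) (nat_lit 4595136384) (nat_lit 76) (nat_lit 3470036519) (nat_lit 39) (nat_lit 5) (nat_lit 43) (nat_lit 5) (nat_lit 40) (nat_lit 5) (nat_lit 259) (nat_lit 240) (nat_lit 221)))))) (XT.nd (nat_lit 390) (nat_lit 608) (nat_lit 0) (XT.nd (nat_lit 156) (nat_lit 456) (nat_lit 0) (XT.nd (nat_lit 78) (nat_lit 228) (nat_lit 0) (XT.lf (nat_lit 0) (nat_lit 3936406459) (nat_lit 228) (nat_lit 2307026669) (nat_lit 304) (nat_lit 4764436353) (nat_lit 36) (nat_lit 5) (nat_lit 39) (nat_lit 5) (nat_lit 40) (nat_lit 5) (nat_lit 260) (nat_lit 240) (nat_lit 220)) (XT.lf (nat_lit 0)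 (nat_lit 1569619493) (nat_lit 228) (nat_lit 8768386204) (nat_lit 304) (nat_lit 1205777441) (nat_lit 33) (nat_lit 5) (nat_lit 36) (nat_lit 5) (nat_lit 37) (nat_lit 5) (nat_lit 261) (nat_lit 240) (nat_lit 219))) (XT.nd (nat_lit 78) (nat_lit 380) (nat_lit 0) (XT.lf (nat_lit 0) (nat_lit 2567680610) (nat_lit 304) (nat_lit 1251140304) (nat_lit 76) (nat_lit 8301351095) (nat_lit 32) (nat_lit 5) (nat_lit 36) (nat_lit 5) (nat_lit 33) (nat_lit 5) (nat_lit 262) (nat_lit 240) (nat_lit 218)) (XT.nd (nat_lit 78) (nat_lit 228) (nat_lit 0) (XT.lf (nat_lit 0) (nat_lit 6616629876) (nat_lit 228) (nat_lit 4547249654) (nat_lit 76) (nat_lit 1577369846) (nat_lit 30) (nat_lit 5) (nat_lit 33) (nat_lit 5) (nat_lit 31) (nat_lit 5) (nat_lit 263) (nat_lit 240) (nat_lit 217)) (XT.lf (nat_lit 0) (nat_lit 4932084702) (nat_lit 228) (nat_lit 6089039382) (nat_lit 304) (nat_lit 2389639516) (nat_lit 27) (nat_lit 5) (nat_lit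 30) (nat_lit 5) (nat_lit 31) (nat_lit 5) (nat_lit 264) (nat_lit 240) (nat_lit 216))))) (XT.nd (nat_lit 156) (nat_lit 380) (nat_lit 0) (XT.nd (nat_lit 78) (nat_lit 0) (nat_lit 0) (XT.lf (nat_lit 0) (nat_lit 1022222694) (nat_lit 152) (nat_lit 538438378) (nat_lit 228) (nat_lit 12573730034) (nat_lit 24) (nat_lit 5) (nat_lit 26) (nat_lit 5) (nat_lit 27) (nat_lit 5) (nat_lit 265) (nat_lit 240) (nat_lit 215)) (XT.lf (nat_lit 0) (nat_lit 5858127071) (nat_lit 228) (nat_lit 3633592665) (nat_lit 76) (nat_lit 5416758400) (nat_lit 24) (nat_lit 5) (nat_lit 27) (nat_lit 5) (nat_lit 25) (nat_lit 5) (nat_lit 266) (nat_lit 240) (nat_lit 214))) (XT.nd (nat_lit 78) (nat_lit 228) (nat_lit 0) (XT.lf (nat_lit 0) (nat_lit 6637048397) (nat_lit 152) (nat_lit 3862490569) (nat_lit 228) (nat_lit 5245196823) (nat_lit 22) (nat_lit 5) (nat_lit 24) (nat_lit 5) (nat_lit 25) (nat_lit 5) (nat_lit 267) (nat_lit 240) (nat_lit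 213)) (XT.nd (nat_lit 78) (nat_lit 76) (nat_lit 0) (XT.lf (nat_lit 0) (nat_lit 1045264844) (nat_lit 152) (nat_lit 14474651516) (nat_lit 228) (nat_lit 1127827559) (nat_lit 20) (nat_lit 5) (nat_lit 22) (nat_lit 5) (nat_lit 23) (nat_lit 4) (nat_lit 268) (nat_lit 240) (nat_lit 212)) (XT.lf (nat_lit 0) (nat_lit 3335066119) (nat_lit 228) (nat_lit 5562216151) (nat_lit 76) (nat_lit 8717206485) (nat_lit 19) (nat_lit 5) (nat_lit 22) (nat_lit 5) (nat_lit 20) (nat_lit 5) (nat_lit 269) (nat_lit 240) (nat_lit 211))))))))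
noncomputable def xc49 : XT := (XT.nd (nat_lit 1482) (nat_lit 304) (nat_lit 0) (XT.nd (nat_lit 702) (nat_lit 304) (nat_lit 0) (XT.nd (nat_lit 312) (nat_lit 456) (nat_lit 0) (XT.nd (nat_lit 156) (nat_lit 152) (nat_lit 0) (XT.nd (nat_lit 78) (nat_lit 0) (nat_lit 0) (XT.lf (nat_lit 0) (nat_lit 5280046414) (nat_lit 152) (nat_lit 2822082813) (nat_lit 228) (nat_lit 10556376761) (nat_lit 17) (nat_lit 5) (nat_lit 19) (nat_lit 5) (nat_lit 20) (nat_lit 5) (nat_lit 270) (nat_lit 240) (nat_lit 210)) (XT.lf (nat_lit 0) (nat_lit 13315147041) (nat_lit 228) (nat_lit 2801396724) (nat_lit 76) (nat_lit 3666447121) (nat_lit 17) (nat_lit 5) (nat_lit 20) (nat_lit 5) (nat_lit 18) (nat_lit 4) (nat_lit 271) (nat_lit 240) (nat_lit 209))) (XT.nd (nat_lit 78) (nat_lit 76) (nat_lit 0) (XT.lf (nat_lit 0) (nat_lit 8715659683) (nat_lit 76) (nat_lit 10327775291) (nat_lit 152) (nat_lit 1949250918) (nat_lit 16) (nat_lit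 5) (nat_lit 17) (nat_lit 5) (nat_lit 18) (nat_lit 4) (nat_lit 272) (nat_lit 240) (nat_lit 208)) (XT.lf (nat_lit 0) (nat_lit 2803988368) (nat_lit 152) (nat_lit 1223597382) (nat_lit 76) (nat_lit 18271078156) (nat_lit 15) (nat_lit 5) (nat_lit 17) (nat_lit 5) (nat_lit 16) (nat_lit 5) (nat_lit 273) (nat_lit 240) (nat_lit 207)))) (XT.nd (nat_lit 156) (nat_lit 304) (nat_lit 0) (XT.nd (nat_lit 78) (nat_lit 0) (nat_lit 0) (XT.lf (nat_lit 0) (nat_lit 8009796192) (nat_lit 228) (nat_lit 12843043419) (nat_lit 76) (nat_lit 2847785609) (nat_lit 13) (nat_lit 5) (nat_lit 16) (nat_lit 5) (nat_lit 14) (nat_lit 4) (nat_lit 274) (nat_lit 240) (nat_lit 206)) (XT.lf (nat_lit 0) (nat_lit 13648215872) (nat_lit 228) (nat_lit 1455096009) (nat_lit 76) (nat_lit 10110747241) (nat_lit 13) (nat_lit 5) (nat_lit 16) (nat_lit 5) (nat_lit 14) (nat_lit 4) (nat_lit 275) (nat_lit 240) (nat_lit 205))) (XT.nd (nat_lit 78) (nat_lit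 228) (nat_lit 0) (XT.lf (nat_lit 0) (nat_lit 11085635650) (nat_lit 76) (nat_lit 8757161579) (nat_lit 152) (nat_lit 7000630033) (nat_lit 12) (nat_lit 5) (nat_lit 13) (nat_lit 5) (nat_lit 14) (nat_lit 4) (nat_lit 276) (nat_lit 240) (nat_lit 204)) (XT.nd (nat_lit 78) (nat_lit 228) (nat_lit 0) (XT.lf (nat_lit 0) (nat_lit 24573439235) (nat_lit 76) (nat_lit 1920210746) (nat_lit 152) (nat_lit 2111565117) (nat_lit 12) (nat_lit 5) (nat_lit 13) (nat_lit 5) (nat_lit 14) (nat_lit 4) (nat_lit 277) (nat_lit 240) (nat_lit 203)) (XT.lf (nat_lit 0) (nat_lit 3230775684) (nat_lit 228) (nat_lit 21828471790) (nat_lit 76) (nat_lit 5438139633) (nat_lit 9) (nat_lit 5) (nat_lit 12) (nat_lit 5) (nat_lit 10) (nat_lit 4) (nat_lit 278) (nat_lit 240) (nat_lit 202)))))) (XT.nd (nat_lit 390) (nat_lit 152) (nat_lit 0) (XT.nd (nat_lit 156) (nat_lit 76) (nat_lit 0) (XT.nd (nat_lit 78) (nat_lit 76) (nat_lit 0) (XT.lf (nat_lit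 0) (nat_lit 8972708979) (nat_lit 228) (nat_lit 10177082445) (nat_lit 76) (nat_lit 13387187588) (nat_lit 9) (nat_lit 5) (nat_lit 12) (nat_lit 5) (nat_lit 10) (nat_lit 4) (nat_lit 279) (nat_lit 240) (nat_lit 201)) (XT.lf (nat_lit 0) (nat_lit 2390176117) (nat_lit 76) (nat_lit 12766910981) (nat_lit 152) (nat_lit 19583576416) (nat_lit 8) (nat_lit 5) (nat_lit 9) (nat_lit 5) (nat_lit 10) (nat_lit 4) (nat_lit 280) (nat_lit 240) (nat_lit 200))) (XT.nd (nat_lit 78) (nat_lit 76) (nat_lit 0) (XT.lf (nat_lit 0) (nat_lit 16237523680) (nat_lit 76) (nat_lit 5724374597) (nat_lit 152) (nat_lit 15152534206) (nat_lit 8) (nat_lit 5) (nat_lit 9) (nat_lit 5) (nat_lit 10) (nat_lit 4) (nat_lit 281) (nat_lit 240) (nat_lit 199)) (XT.nd (nat_lit 78) (nat_lit 76) (nat_lit 0) (XT.lf (nat_lit 0) (nat_lit 29292160761) (nat_lit 152) (nat_lit 8598881660) (nat_lit 0) (nat_lit 1788075605) (nat_lit 8) (nat_lit 5) (nat_lit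 10) (nat_lit 4) (nat_lit 8) (nat_lit 4) (nat_lit 282) (nat_lit 240) (nat_lit 198)) (XT.lf (nat_lit 0) (nat_lit 4635391229) (nat_lit 76) (nat_lit 32697616311) (nat_lit 76) (nat_lit 5109826019) (nat_lit 7) (nat_lit 4) (nat_lit 8) (nat_lit 5) (nat_lit 8) (nat_lit 4) (nat_lit 283) (nat_lit 240) (nat_lit 197))))) (XT.nd (nat_lit 156) (nat_lit 76) (nat_lit 0) (XT.nd (nat_lit 78) (nat_lit 0) (nat_lit 0) (XT.lf (nat_lit 0) (nat_lit 679516014) (nat_lit 152) (nat_lit 26272287218) (nat_lit 76) (nat_lit 18469993404) (nat_lit 6) (nat_lit 5) (nat_lit 8) (nat_lit 5) (nat_lit 7) (nat_lit 4) (nat_lit 284) (nat_lit 240) (nat_lit 196)) (XT.lf (nat_lit 0) (nat_lit 6715250078) (nat_lit 152) (nat_lit 13970796050) (nat_lit 76) (nat_lit 27950780541) (nat_lit 6) (nat_lit 5) (nat_lit 8) (nat_lit 5) (nat_lit 7) (nat_lit 4) (nat_lit 285) (nat_lit 240) (nat_lit 195))) (XT.nd (nat_lit 78) (nat_lit 76) (nat_lit 0)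 (XT.lf (nat_lit 0) (nat_lit 13196689829) (nat_lit 152) (nat_lit 750292396) (nat_lit 76) (nat_lit 38163982397) (nat_lit 6) (nat_lit 5) (nat_lit 8) (nat_lit 5) (nat_lit 7) (nat_lit 4) (nat_lit 286) (nat_lit 240) (nat_lit 194)) (XT.nd (nat_lit 78) (nat_lit 0) (nat_lit 0) (XT.lf (nat_lit 0) (nat_lit 13912866070) (nat_lit 76) (nat_lit 6466596558) (nat_lit 152) (nat_lit 35474474408) (nat_lit 5) (nat_lit 5) (nat_lit 6) (nat_lit 5) (nat_lit 7) (nat_lit 4) (nat_lit 287) (nat_lit 240) (nat_lit 193)) (XT.lf (nat_lit 0) (nat_lit 28142170416) (nat_lit 152) (nat_lit 30204163342) (nat_lit 0) (nat_lit 1549788865) (nat_lit 5) (nat_lit 5) (nat_lit 7) (nat_lit 4) (nat_lit 5) (nat_lit 4) (nat_lit 288) (nat_lit 240) (nat_lit 192))))))) (XT.nd (nat_lit 780) (nat_lit 76) (nat_lit 0) (XT.nd (nat_lit 390) (nat_lit 152) (nat_lit 0) (XT.nd (nat_lit 156) (nat_lit 76) (nat_lit 0) (XT.nd (nat_lit 78) (nat_lit 0)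 (nat_lit 0) (XT.lf (nat_lit 0) (nat_lit 36604246443) (nat_lit 152) (nat_lit 17691928743) (nat_lit 0) (nat_lit 9961628287) (nat_lit 5) (nat_lit 5) (nat_lit 7) (nat_lit 4) (nat_lit 5) (nat_lit 4) (nat_lit 289) (nat_lit 240) (nat_lit 191)) (XT.lf (nat_lit 0) (nat_lit 45714874651) (nat_lit 152) (nat_lit 4229258897) (nat_lit 0) (nat_lit 19025741121) (nat_lit 5) (nat_lit 5) (nat_lit 7) (nat_lit 4) (nat_lit 5) (nat_lit 4) (nat_lit 290) (nat_lit 240) (nat_lit 190))) (XT.nd (nat_lit 78) (nat_lit 0) (nat_lit 0) (XT.lf (nat_lit 0) (nat_lit 10602986771) (nat_lit 76) (nat_lit 45090599514) (nat_lit 76) (nat_lit 18358396194) (nat_lit 4) (nat_lit 4) (nat_lit 5) (nat_lit 5) (nat_lit 5) (nat_lit 4) (nat_lit 291) (nat_lit 240) (nat_lit 189)) (XT.nd (nat_lit 78) (nat_lit 0) (nat_lit 0) (XT.lf (nat_lit 0) (nat_lit 26728071858) (nat_lit 76) (nat_lit 39791134695) (nat_lit 76) (nat_lit 13019051938) (nat_lit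 4) (nat_lit 4) (nat_lit 5) (nat_lit 5) (nat_lit 5) (nat_lit 4) (nat_lit 292) (nat_lit 240) (nat_lit 188)) (XT.lf (nat_lit 0) (nat_lit 44101714025) (nat_lit 76) (nat_lit 34085959400) (nat_lit 76) (nat_lit 7276951239) (nat_lit 4) (nat_lit 4) (nat_lit 5) (nat_lit 5) (nat_lit 5) (nat_lit 4) (nat_lit 293) (nat_lit 240) (nat_lit 187))))) (XT.nd (nat_lit 156) (nat_lit 76) (nat_lit 0) (XT.nd (nat_lit 78) (nat_lit 76) (nat_lit 0) (XT.lf (nat_lit 0) (nat_lit 62826868188) (nat_lit 76) (nat_lit 27941265183) (nat_lit 76) (nat_lit 1098066834) (nat_lit 4) (nat_lit 4) (nat_lit 5) (nat_lit 5) (nat_lit 5) (nat_lit 4) (nat_lit 294) (nat_lit 240) (nat_lit 186)) (XT.lf (nat_lit 0) (nat_lit 5376447261) (nat_lit 152) (nat_lit 15853139044) (nat_lit 76) (nat_lit 77546998227) (nat_lit 3) (nat_lit 5) (nat_lit 5) (nat_lit 5) (nat_lit 4) (nat_lit 4) (nat_lit 295) (nat_lit 240) (nat_lit 185))) (XT.nd (nat_lit 78)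 (nat_lit 76) (nat_lit 0) (XT.lf (nat_lit 0) (nat_lit 12312223168) (nat_lit 152) (nat_lit 1664111011) (nat_lit 76) (nat_lit 92263497907) (nat_lit 3) (nat_lit 5) (nat_lit 5) (nat_lit 5) (nat_lit 4) (nat_lit 4) (nat_lit 296) (nat_lit 240) (nat_lit 184)) (XT.nd (nat_lit 78) (nat_lit 0) (nat_lit 0) (XT.lf (nat_lit 0) (nat_lit 14079614712) (nat_lit 76) (nat_lit 5925714308) (nat_lit 152) (nat_lit 94284706581) (nat_lit 2) (nat_lit 5) (nat_lit 3) (nat_lit 5) (nat_lit 4) (nat_lit 4) (nat_lit 297) (nat_lit 240) (nat_lit 183)) (XT.lf (nat_lit 0) (nat_lit 28369838978) (nat_lit 152) (nat_lit 91914598325) (nat_lit 0) (nat_lit 2697038416) (nat_lit 2) (nat_lit 5) (nat_lit 4) (nat_lit 4) (nat_lit 2) (nat_lit 4) (nat_lit 298) (nat_lit 240) (nat_lit 182)))))) (XT.nd (nat_lit 390) (nat_lit 76) (nat_lit 0) (XT.nd (nat_lit 156) (nat_lit 0) (nat_lit 0) (XT.nd (nat_lit 78) (nat_lit 0) (nat_lit 0) (XT.lf (nat_lit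 0) (nat_lit 37487929524) (nat_lit 152) (nat_lit 83083129540) (nat_lit 0) (nat_lit 11792967754) (nat_lit 2) (nat_lit 5) (nat_lit 4) (nat_lit 4) (nat_lit 2) (nat_lit 4) (nat_lit 299) (nat_lit 240) (nat_lit 181)) (XT.lf (nat_lit 0) (nat_lit 47321116780) (nat_lit 152) (nat_lit 73571162900) (nat_lit 0) (nat_lit 21605635373) (nat_lit 2) (nat_lit 5) (nat_lit 4) (nat_lit 4) (nat_lit 2) (nat_lit 4) (nat_lit 300) (nat_lit 240) (nat_lit 180))) (XT.nd (nat_lit 78) (nat_lit 0) (nat_lit 0) (XT.lf (nat_lit 0) (nat_lit 57927671485) (nat_lit 152) (nat_lit 63322331193) (nat_lit 0) (nat_lit 32193190415) (nat_lit 2) (nat_lit 5) (nat_lit 4) (nat_lit 4) (nat_lit 2) (nat_lit 4) (nat_lit 301) (nat_lit 240) (nat_lit 179)) (XT.nd (nat_lit 78) (nat_lit 0) (nat_lit 0) (XT.lf (nat_lit 0) (nat_lit 69370447297) (nat_lit 152) (nat_lit 52275900604) (nat_lit 0) (nat_lit 43618373946) (nat_lit 2) (nat_lit 5) (nat_lit 4)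 (nat_lit 4) (nat_lit 2) (nat_lit 4) (nat_lit 302) (nat_lit 240) (nat_lit 178)) (XT.lf (nat_lit 0) (nat_lit 81717253258) (nat_lit 152) (nat_lit 40366410801) (nat_lit 0) (nat_lit 55948890757) (nat_lit 2) (nat_lit 5) (nat_lit 4) (nat_lit 4) (nat_lit 2) (nat_lit 4) (nat_lit 303) (nat_lit 240) (nat_lit 177))))) (XT.nd (nat_lit 156) (nat_lit 76) (nat_lit 0) (XT.nd (nat_lit 78) (nat_lit 0) (nat_lit 0) (XT.lf (nat_lit 0) (nat_lit 95041255625) (nat_lit 152) (nat_lit 27523287031) (nat_lit 0) (nat_lit 69257810579) (nat_lit 2) (nat_lit 5) (nat_lit 4) (nat_lit 4) (nat_lit 2) (nat_lit 4) (nat_lit 304) (nat_lit 240) (nat_lit 176)) (XT.lf (nat_lit 0) (nat_lit 109421411449) (nat_lit 152) (nat_lit 13670421893) (nat_lit 0) (nat_lit 83624001084) (nat_lit 2) (nat_lit 5) (nat_lit 4) (nat_lit 4) (nat_lit 2) (nat_lit 4) (nat_lit 305) (nat_lit 240) (nat_lit 175))) (XT.nd (nat_lit 78) (nat_lit 0) (nat_lit 0)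 (XT.lf (nat_lit 0) (nat_lit 1316408971) (nat_lit 76) (nat_lit 123647080331) (nat_lit 76) (nat_lit 97836739114) (nat_lit 1) (nat_lit 4) (nat_lit 2) (nat_lit 5) (nat_lit 2) (nat_lit 4) (nat_lit 306) (nat_lit 240) (nat_lit 174)) (XT.nd (nat_lit 78) (nat_lit 0) (nat_lit 0) (XT.lf (nat_lit 0) (nat_lit 17974668456) (nat_lit 76) (nat_lit 124003776585) (nat_lit 76) (nat_lit 98181462357) (nat_lit 1) (nat_lit 4) (nat_lit 2) (nat_lit 5) (nat_lit 2) (nat_lit 4) (nat_lit 307) (nat_lit 240) (nat_lit 173)) (XT.lf (nat_lit 0) (nat_lit 35951066286) (nat_lit 76) (nat_lit 124395551070) (nat_lit 76) (nat_lit 98562150721) (nat_lit 1) (nat_lit 4) (nat_lit 2) (nat_lit 5) (nat_lit 2) (nat_lit 4) (nat_lit 308) (nat_lit 240) (nat_lit 172))))))))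
noncomputable def xc50 : XT := (XT.nd (nat_lit 32370) (nat_lit 0) (nat_lit 2356) (XT.nd (nat_lit 702) (nat_lit 0) (nat_lit 0) (XT.nd (nat_lit 312) (nat_lit 0) (nat_lit 0) (XT.nd (nat_lit 156) (nat_lit 0) (nat_lit 0) (XT.nd (nat_lit 78) (nat_lit 0) (nat_lit 0) (XT.lf (nat_lit 0) (nat_lit 55352129263) (nat_lit 76) (nat_lit 124824725413) (nat_lit 76) (nat_lit 98981060137) (nat_lit 1) (nat_lit 4) (nat_lit 2) (nat_lit 5) (nat_lit 2) (nat_lit 4) (nat_lit 309) (nat_lit 240) (nat_lit 171)) (XT.lf (nat_lit 0) (nat_lit 76292826650) (nat_lit 76) (nat_lit 125293842870) (nat_lit 76) (nat_lit 99440673031) (nat_lit 1) (nat_lit 4) (nat_lit 2) (nat_lit 5) (nat_lit 2) (nat_lit 4) (nat_lit 310) (nat_lit 240) (nat_lit 170))) (XT.nd (nat_lit 78) (nat_lit 0) (nat_lit 0) (XT.lf (nat_lit 0) (nat_lit 98897251468) (nat_lit 76) (nat_lit 125805683395) (nat_lit 76) (nat_lit 99943713036) (nat_lit 1) (nat_lit 4) (nat_lit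 2) (nat_lit 5) (nat_lit 2) (nat_lit 4) (nat_lit 311) (nat_lit 240) (nat_lit 169)) (XT.lf (nat_lit 0) (nat_lit 123299355864) (nat_lit 76) (nat_lit 126363280117) (nat_lit 76) (nat_lit 100493161128) (nat_lit 1) (nat_lit 4) (nat_lit 2) (nat_lit 5) (nat_lit 2) (nat_lit 4) (nat_lit 312) (nat_lit 240) (nat_lit 168)))) (XT.nd (nat_lit 156) (nat_lit 0) (nat_lit 0) (XT.nd (nat_lit 78) (nat_lit 0) (nat_lit 0) (XT.lf (nat_lit 0) (nat_lit 149643744902) (nat_lit 76) (nat_lit 126969937314) (nat_lit 76) (nat_lit 101092273298) (nat_lit 1) (nat_lit 4) (nat_lit 2) (nat_lit 5) (nat_lit 2) (nat_lit 4) (nat_lit 313) (nat_lit 240) (nat_lit 167)) (XT.lf (nat_lit 0) (nat_lit 178086533478) (nat_lit 76) (nat_lit 127629249992) (nat_lit 76) (nat_lit 101744599838) (nat_lit 1) (nat_lit 4) (nat_lit 2) (nat_lit 5) (nat_lit 2) (nat_lit 4) (nat_lit 314) (nat_lit 240) (nat_lit 166))) (XT.nd (nat_lit 78) (nat_lit 0) (nat_lit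 0) (XT.lf (nat_lit 0) (nat_lit 208796271452) (nat_lit 76) (nat_lit 128345125187) (nat_lit 76) (nat_lit 102454006388) (nat_lit 1) (nat_lit 4) (nat_lit 2) (nat_lit 5) (nat_lit 2) (nat_lit 4) (nat_lit 315) (nat_lit 240) (nat_lit 165)) (XT.nd (nat_lit 78) (nat_lit 0) (nat_lit 0) (XT.lf (nat_lit 0) (nat_lit 241954942456) (nat_lit 76) (nat_lit 129121805124) (nat_lit 76) (nat_lit 103224696839) (nat_lit 1) (nat_lit 4) (nat_lit 2) (nat_lit 5) (nat_lit 2) (nat_lit 4) (nat_lit 316) (nat_lit 240) (nat_lit 164)) (XT.lf (nat_lit 0) (nat_lit 277759042318) (nat_lit 76) (nat_lit 129963892350) (nat_lit 76) (nat_lit 104061238244) (nat_lit 1) (nat_lit 4) (nat_lit 2) (nat_lit 5) (nat_lit 2) (nat_lit 4) (nat_lit 317) (nat_lit 240) (nat_lit 163)))))) (XT.nd (nat_lit 390) (nat_lit 0) (nat_lit 0) (XT.nd (nat_lit 156) (nat_lit 0) (nat_lit 0) (XT.nd (nat_lit 78) (nat_lit 0) (nat_lit 0) (XT.lf (nat_lit 0) (nat_lit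 316420743481) (nat_lit 76) (nat_lit 130876377012) (nat_lit 76) (nat_lit 104968587887) (nat_lit 1) (nat_lit 4) (nat_lit 2) (nat_lit 5) (nat_lit 2) (nat_lit 4) (nat_lit 318) (nat_lit 240) (nat_lit 162)) (XT.lf (nat_lit 0) (nat_lit 358169152324) (nat_lit 76) (nat_lit 131864666427) (nat_lit 76) (nat_lit 105952122655) (nat_lit 1) (nat_lit 4) (nat_lit 2) (nat_lit 5) (nat_lit 2) (nat_lit 4) (nat_lit 319) (nat_lit 240) (nat_lit 161))) (XT.nd (nat_lit 78) (nat_lit 0) (nat_lit 0) (XT.lf (nat_lit 0) (nat_lit 403251666823) (nat_lit 76) (nat_lit 132934617123) (nat_lit 76) (nat_lit 107017670900) (nat_lit 1) (nat_lit 4) (nat_lit 2) (nat_lit 5) (nat_lit 2) (nat_lit 4) (nat_lit 320) (nat_lit 240) (nat_lit 160)) (XT.nd (nat_lit 78) (nat_lit 0) (nat_lit 0) (XT.lf (nat_lit 0) (nat_lit 451935442622) (nat_lit 76) (nat_lit 134092569551) (nat_lit 76) (nat_lit 108171546984) (nat_lit 1) (nat_lit 4) (nat_lit 2)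 (nat_lit 5) (nat_lit 2) (nat_lit 4) (nat_lit 321) (nat_lit 240) (nat_lit 159)) (XT.lf (nat_lit 0) (nat_lit 504508976168) (nat_lit 76) (nat_lit 135345385650) (nat_lit 76) (nat_lit 109420588690) (nat_lit 1) (nat_lit 4) (nat_lit 2) (nat_lit 5) (nat_lit 2) (nat_lit 4) (nat_lit 322) (nat_lit 240) (nat_lit 158))))) (XT.nd (nat_lit 156) (nat_lit 0) (nat_lit 0) (XT.nd (nat_lit 78) (nat_lit 0) (nat_lit 0) (XT.lf (nat_lit 0) (nat_lit 561283814328) (nat_lit 76) (nat_lit 136700489515) (nat_lit 76) (nat_lit 110772197747) (nat_lit 1) (nat_lit 4) (nat_lit 2) (nat_lit 5) (nat_lit 2) (nat_lit 4) (nat_lit 323) (nat_lit 240) (nat_lit 157)) (XT.lf (nat_lit 0) (nat_lit 622596400586) (nat_lit 76) (nat_lit 138165911392) (nat_lit 76) (nat_lit 112234383691) (nat_lit 1) (nat_lit 4) (nat_lit 2) (nat_lit 5) (nat_lit 2) (nat_lit 4) (nat_lit 324) (nat_lit 240) (nat_lit 156))) (XT.nd (nat_lit 30966) (nat_lit 0) (nat_lit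 8512) (XT.lf (nat_lit 0) (nat_lit 688810068788) (nat_lit 76) (nat_lit 139750335262) (nat_lit 76) (nat_lit 113815811327) (nat_lit 1) (nat_lit 4) (nat_lit 2) (nat_lit 5) (nat_lit 2) (nat_lit 4) (nat_lit 325) (nat_lit 240) (nat_lit 155)) (XT.nd (nat_lit 78) (nat_lit 0) (nat_lit 0) (XT.lf (nat_lit 0) (nat_lit 1005975404) (nat_lit 228) (nat_lit 1114831405) (nat_lit 228) (nat_lit 1114831405) (nat_lit 113) (nat_lit 3) (nat_lit 116) (nat_lit 3) (nat_lit 116) (nat_lit 5) (nat_lit 241) (nat_lit 241) (nat_lit 238)) (XT.lf (nat_lit 76) (nat_lit 2357278443) (nat_lit 0) (nat_lit 3613970302) (nat_lit 228) (nat_lit 540934983) (nat_lit 114) (nat_lit 5) (nat_lit 113) (nat_lit 3) (nat_lit 116) (nat_lit 5) (nat_lit 242) (nat_lit 241) (nat_lit 237))))))) (XT.nd (nat_lit 780) (nat_lit 2508) (nat_lit 0) (XT.nd (nat_lit 390) (nat_lit 2432) (nat_lit 0) (XT.nd (nat_lit 156) (nat_lit 684) (nat_lit 0) (XT.nd (nat_lit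 78) (nat_lit 304) (nat_lit 0) (XT.lf (nat_lit 76) (nat_lit 571288592) (nat_lit 0) (nat_lit 2653560681) (nat_lit 304) (nat_lit 3348317374) (nat_lit 111) (nat_lit 5) (nat_lit 110) (nat_lit 5) (nat_lit 114) (nat_lit 5) (nat_lit 243) (nat_lit 241) (nat_lit 236)) (XT.lf (nat_lit 0) (nat_lit 309261803) (nat_lit 304) (nat_lit 1061382853) (nat_lit 380) (nat_lit 5284701494) (nat_lit 106) (nat_lit 5) (nat_lit 110) (nat_lit 5) (nat_lit 111) (nat_lit 5) (nat_lit 244) (nat_lit 241) (nat_lit 235))) (XT.nd (nat_lit 78) (nat_lit 760) (nat_lit 0) (XT.lf (nat_lit 0) (nat_lit 3862239988) (nat_lit 304) (nat_lit 2624312006) (nat_lit 76) (nat_lit 270665855) (nat_lit 107) (nat_lit 5) (nat_lit 111) (nat_lit 5) (nat_lit 108) (nat_lit 5) (nat_lit 245) (nat_lit 241) (nat_lit 234)) (XT.nd (nat_lit 78) (nat_lit 380) (nat_lit 0) (XT.lf (nat_lit 0) (nat_lit 559169963) (nat_lit 380) (nat_lit 4134553112) (nat_lit 76)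 (nat_lit 2186833861) (nat_lit 102) (nat_lit 5) (nat_lit 107) (nat_lit 5) (nat_lit 103) (nat_lit 5) (nat_lit 246) (nat_lit 241) (nat_lit 233)) (XT.lf (nat_lit 0) (nat_lit 1397615791) (nat_lit 380) (nat_lit 2548772599) (nat_lit 456) (nat_lit 3078618372) (nat_lit 97) (nat_lit 5) (nat_lit 102) (nat_lit 5) (nat_lit 103) (nat_lit 5) (nat_lit 247) (nat_lit 241) (nat_lit 232))))) (XT.nd (nat_lit 156) (nat_lit 1900) (nat_lit 0) (XT.nd (nat_lit 78) (nat_lit 0) (nat_lit 0) (XT.lf (nat_lit 0) (nat_lit 111238115) (nat_lit 456) (nat_lit 75791373) (nat_lit 532) (nat_lit 7006146296) (nat_lit 90) (nat_lit 5) (nat_lit 96) (nat_lit 5) (nat_lit 97) (nat_lit 5) (nat_lit 248) (nat_lit 241) (nat_lit 231)) (XT.lf (nat_lit 0) (nat_lit 3469380138) (nat_lit 532) (nat_lit 1187444662) (nat_lit 76) (nat_lit 2723529537) (nat_lit 90) (nat_lit 5) (nat_lit 97) (nat_lit 5) (nat_lit 91) (nat_lit 5) (nat_lit 249) (nat_lit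 241) (nat_lit 230))) (XT.nd (nat_lit 78) (nat_lit 1368) (nat_lit 0) (XT.lf (nat_lit 0) (nat_lit 5125236334) (nat_lit 532) (nat_lit 1712713689) (nat_lit 608) (nat_lit 754528370) (nat_lit 83) (nat_lit 5) (nat_lit 90) (nat_lit 5) (nat_lit 91) (nat_lit 5) (nat_lit 250) (nat_lit 241) (nat_lit 229)) (XT.nd (nat_lit 78) (nat_lit 684) (nat_lit 0) (XT.lf (nat_lit 0) (nat_lit 2432153395) (nat_lit 684) (nat_lit 3817813372) (nat_lit 76) (nat_lit 1577416078) (nat_lit 74) (nat_lit 5) (nat_lit 83) (nat_lit 5) (nat_lit 75) (nat_lit 5) (nat_lit 251) (nat_lit 241) (nat_lit 228)) (XT.lf (nat_lit 0) (nat_lit 2842928280) (nat_lit 684) (nat_lit 2890353838) (nat_lit 760) (nat_lit 2353822958) (nat_lit 65) (nat_lit 5) (nat_lit 74) (nat_lit 5) (nat_lit 75) (nat_lit 5) (nat_lit 252) (nat_lit 241) (nat_lit 227)))))) (XT.nd (nat_lit 390) (nat_lit 1064) (nat_lit 0) (XT.nd (nat_lit 156) (nat_lit 684) (nat_lit 0) (XT.nd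 (nat_lit 78) (nat_lit 380) (nat_lit 0) (XT.lf (nat_lit 0) (nat_lit 785538775) (nat_lit 380) (nat_lit 6760554220) (nat_lit 76) (nat_lit 827393569) (nat_lit 60) (nat_lit 5) (nat_lit 65) (nat_lit 5) (nat_lit 61) (nat_lit 5) (nat_lit 253) (nat_lit 241) (nat_lit 226)) (XT.lf (nat_lit 0) (nat_lit 225134170) (nat_lit 380) (nat_lit 3805929634) (nat_lit 456) (nat_lit 4653679915) (nat_lit 55) (nat_lit 5) (nat_lit 60) (nat_lit 5) (nat_lit 61) (nat_lit 5) (nat_lit 254) (nat_lit 241) (nat_lit 225))) (XT.nd (nat_lit 78) (nat_lit 684) (nat_lit 0) (XT.lf (nat_lit 0) (nat_lit 7462813517) (nat_lit 456) (nat_lit 1230080010) (nat_lit 76) (nat_lit 332390408) (nat_lit 55) (nat_lit 5) (nat_lit 61) (nat_lit 5) (nat_lit 56) (nat_lit 5) (nat_lit 255) (nat_lit 241) (nat_lit 224)) (XT.nd (nat_lit 78) (nat_lit 304) (nat_lit 0) (XT.lf (nat_lit 0) (nat_lit 1702044249) (nat_lit 380) (nat_lit 2903983439) (nat_lit 76)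 (nat_lit 4787138135) (nat_lit 50) (nat_lit 5) (nat_lit 55) (nat_lit 5) (nat_lit 51) (nat_lit 5) (nat_lit 256) (nat_lit 241) (nat_lit 223)) (XT.lf (nat_lit 0) (nat_lit 5012496071) (nat_lit 304) (nat_lit 86108322) (nat_lit 380) (nat_lit 4694892919) (nat_lit 46) (nat_lit 5) (nat_lit 50) (nat_lit 5) (nat_lit 51) (nat_lit 5) (nat_lit 257) (nat_lit 241) (nat_lit 222))))) (XT.nd (nat_lit 156) (nat_lit 532) (nat_lit 0) (XT.nd (nat_lit 78) (nat_lit 304) (nat_lit 0) (XT.lf (nat_lit 0) (nat_lit 3270301155) (nat_lit 228) (nat_lit 5508314322) (nat_lit 304) (nat_lit 1447191547) (nat_lit 43) (nat_lit 5) (nat_lit 46) (nat_lit 5) (nat_lit 47) (nat_lit 5) (nat_lit 258) (nat_lit 241) (nat_lit 221)) (XT.lf (nat_lit 0) (nat_lit 1254739985) (nat_lit 228) (nat_lit 685930561) (nat_lit 304) (nat_lit 8753582631) (nat_lit 39) (nat_lit 5) (nat_lit 42) (nat_lit 5) (nat_lit 43) (nat_lit 5) (nat_lit 259) (nat_lit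 241) (nat_lit 220))) (XT.nd (nat_lit 78) (nat_lit 532) (nat_lit 0) (XT.lf (nat_lit 0) (nat_lit 5592121364) (nat_lit 304) (nat_lit 1117995630) (nat_lit 76) (nat_lit 4487147983) (nat_lit 39) (nat_lit 5) (nat_lit 43) (nat_lit 5) (nat_lit 40) (nat_lit 5) (nat_lit 260) (nat_lit 241) (nat_lit 219)) (XT.nd (nat_lit 78) (nat_lit 304) (nat_lit 0) (XT.lf (nat_lit 0) (nat_lit 7928982418) (nat_lit 228) (nat_lit 1602095962) (nat_lit 304) (nat_lit 2210076584) (nat_lit 36) (nat_lit 5) (nat_lit 39) (nat_lit 5) (nat_lit 40) (nat_lit 5) (nat_lit 261) (nat_lit 241) (nat_lit 218)) (XT.lf (nat_lit 0) (nat_lit 1441433120) (nat_lit 304) (nat_lit 7009933790) (nat_lit 76) (nat_lit 3874837974) (nat_lit 32) (nat_lit 5) (nat_lit 36) (nat_lit 5) (nat_lit 33) (nat_lit 5) (nat_lit 262) (nat_lit 241) (nat_lit 217))))))))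
noncomputable def xc51 : XT := (XT.nd (nat_lit 1482) (nat_lit 456) (nat_lit 0) (XT.nd (nat_lit 702) (nat_lit 684) (nat_lit 0) (XT.nd (nat_lit 312) (nat_lit 532) (nat_lit 0) (XT.nd (nat_lit 156) (nat_lit 456) (nat_lit 0) (XT.nd (nat_lit 78) (nat_lit 0) (nat_lit 0) (XT.lf (nat_lit 0) (nat_lit 2183306560) (nat_lit 152) (nat_lit 3125721362) (nat_lit 228) (nat_lit 7647481726) (nat_lit 30) (nat_lit 5) (nat_lit 32) (nat_lit 5) (nat_lit 33) (nat_lit 5) (nat_lit 263) (nat_lit 241) (nat_lit 216)) (XT.lf (nat_lit 0) (nat_lit 9528992883) (nat_lit 228) (nat_lit 1487294974) (nat_lit 76) (nat_lit 2619110320) (nat_lit 30) (nat_lit 5) (nat_lit 33) (nat_lit 5) (nat_lit 31) (nat_lit 5) (nat_lit 264) (nat_lit 241) (nat_lit 215))) (XT.nd (nat_lit 78) (nat_lit 228) (nat_lit 0) (XT.lf (nat_lit 0) (nat_lit 8601594794) (nat_lit 228) (nat_lit 5558861942) (nat_lit 304) (nat_lit 204730707) (nat_lit 27) (nat_lit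 5) (nat_lit 30) (nat_lit 5) (nat_lit 31) (nat_lit 5) (nat_lit 265) (nat_lit 241) (nat_lit 214)) (XT.lf (nat_lit 0) (nat_lit 3872307751) (nat_lit 228) (nat_lit 10843842959) (nat_lit 76) (nat_lit 434753311) (nat_lit 24) (nat_lit 5) (nat_lit 27) (nat_lit 5) (nat_lit 25) (nat_lit 5) (nat_lit 266) (nat_lit 241) (nat_lit 213)))) (XT.nd (nat_lit 156) (nat_lit 380) (nat_lit 0) (XT.nd (nat_lit 78) (nat_lit 152) (nat_lit 0) (XT.lf (nat_lit 0) (nat_lit 8359992836) (nat_lit 228) (nat_lit 861113530) (nat_lit 76) (nat_lit 6773853423) (nat_lit 24) (nat_lit 5) (nat_lit 27) (nat_lit 5) (nat_lit 25) (nat_lit 5) (nat_lit 267) (nat_lit 241) (nat_lit 212)) (XT.lf (nat_lit 0) (nat_lit 10098057332) (nat_lit 152) (nat_lit 3169798002) (nat_lit 228) (nat_lit 3635841824) (nat_lit 22) (nat_lit 5) (nat_lit 24) (nat_lit 5) (nat_lit 25) (nat_lit 5) (nat_lit 268) (nat_lit 241) (nat_lit 211))) (XT.nd (nat_lit 78) (nat_lit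 152) (nat_lit 0) (XT.lf (nat_lit 0) (nat_lit 699962322) (nat_lit 228) (nat_lit 13881833269) (nat_lit 76) (nat_lit 3301063609) (nat_lit 19) (nat_lit 5) (nat_lit 22) (nat_lit 5) (nat_lit 20) (nat_lit 5) (nat_lit 269) (nat_lit 241) (nat_lit 210)) (XT.nd (nat_lit 78) (nat_lit 152) (nat_lit 0) (XT.lf (nat_lit 0) (nat_lit 5341714704) (nat_lit 228) (nat_lit 3275872240) (nat_lit 76) (nat_lit 10315639529) (nat_lit 19) (nat_lit 5) (nat_lit 22) (nat_lit 5) (nat_lit 20) (nat_lit 5) (nat_lit 270) (nat_lit 241) (nat_lit 209)) (XT.lf (nat_lit 0) (nat_lit 8315071440) (nat_lit 152) (nat_lit 2086984480) (nat_lit 228) (nat_lit 9663367527) (nat_lit 17) (nat_lit 5) (nat_lit 19) (nat_lit 5) (nat_lit 20) (nat_lit 5) (nat_lit 271) (nat_lit 241) (nat_lit 208)))))) (XT.nd (nat_lit 390) (nat_lit 304) (nat_lit 0) (XT.nd (nat_lit 156) (nat_lit 304) (nat_lit 0) (XT.nd (nat_lit 78) (nat_lit 76) (nat_lit 0) (XT.lf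 (nat_lit 0) (nat_lit 15923653388) (nat_lit 228) (nat_lit 540895001) (nat_lit 76) (nat_lit 4820977037) (nat_lit 17) (nat_lit 5) (nat_lit 20) (nat_lit 5) (nat_lit 18) (nat_lit 4) (nat_lit 272) (nat_lit 241) (nat_lit 207)) (XT.lf (nat_lit 0) (nat_lit 11789547645) (nat_lit 76) (nat_lit 10243444529) (nat_lit 152) (nat_lit 563082246) (nat_lit 16) (nat_lit 5) (nat_lit 17) (nat_lit 5) (nat_lit 18) (nat_lit 4) (nat_lit 273) (nat_lit 241) (nat_lit 206))) (XT.nd (nat_lit 78) (nat_lit 76) (nat_lit 0) (XT.lf (nat_lit 0) (nat_lit 957862111) (nat_lit 152) (nat_lit 3467577678) (nat_lit 228) (nat_lit 19584860062) (nat_lit 13) (nat_lit 5) (nat_lit 15) (nat_lit 5) (nat_lit 16) (nat_lit 5) (nat_lit 274) (nat_lit 241) (nat_lit 205)) (XT.nd (nat_lit 78) (nat_lit 76) (nat_lit 0) (XT.lf (nat_lit 0) (nat_lit 9977033490) (nat_lit 228) (nat_lit 11664708030) (nat_lit 76) (nat_lit 3886388306) (nat_lit 13) (nat_lit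 5) (nat_lit 16) (nat_lit 5) (nat_lit 14) (nat_lit 4) (nat_lit 275) (nat_lit 241) (nat_lit 204)) (XT.lf (nat_lit 0) (nat_lit 486453702) (nat_lit 76) (nat_lit 15489412125) (nat_lit 152) (nat_lit 11191470306) (nat_lit 12) (nat_lit 5) (nat_lit 13) (nat_lit 5) (nat_lit 14) (nat_lit 4) (nat_lit 276) (nat_lit 241) (nat_lit 203))))) (XT.nd (nat_lit 156) (nat_lit 304) (nat_lit 0) (XT.nd (nat_lit 78) (nat_lit 0) (nat_lit 0) (XT.lf (nat_lit 0) (nat_lit 13926114652) (nat_lit 76) (nat_lit 8671828132) (nat_lit 152) (nat_lit 6332666935) (nat_lit 12) (nat_lit 5) (nat_lit 13) (nat_lit 5) (nat_lit 14) (nat_lit 4) (nat_lit 277) (nat_lit 241) (nat_lit 202)) (XT.lf (nat_lit 0) (nat_lit 28348229328) (nat_lit 76) (nat_lit 1346136520) (nat_lit 152) (nat_lit 1143440789) (nat_lit 12) (nat_lit 5) (nat_lit 13) (nat_lit 5) (nat_lit 14) (nat_lit 4) (nat_lit 278) (nat_lit 241) (nat_lit 201))) (XT.nd (nat_lit 78) (nat_lit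 76) (nat_lit 0) (XT.lf (nat_lit 0) (nat_lit 4547189282) (nat_lit 228) (nat_lit 21765379183) (nat_lit 76) (nat_lit 6570156058) (nat_lit 9) (nat_lit 5) (nat_lit 12) (nat_lit 5) (nat_lit 10) (nat_lit 4) (nat_lit 279) (nat_lit 241) (nat_lit 200)) (XT.nd (nat_lit 78) (nat_lit 76) (nat_lit 0) (XT.lf (nat_lit 0) (nat_lit 10670110459) (nat_lit 228) (nat_lit 9315906124) (nat_lit 76) (nat_lit 15103500793) (nat_lit 9) (nat_lit 5) (nat_lit 12) (nat_lit 5) (nat_lit 10) (nat_lit 4) (nat_lit 280) (nat_lit 241) (nat_lit 199)) (XT.lf (nat_lit 0) (nat_lit 4183924762) (nat_lit 76) (nat_lit 13117772288) (nat_lit 152) (nat_lit 20170283399) (nat_lit 8) (nat_lit 5) (nat_lit 9) (nat_lit 5) (nat_lit 10) (nat_lit 4) (nat_lit 281) (nat_lit 241) (nat_lit 198))))))) (XT.nd (nat_lit 780) (nat_lit 228) (nat_lit 0) (XT.nd (nat_lit 390) (nat_lit 76) (nat_lit 0) (XT.nd (nat_lit 156) (nat_lit 152) (nat_lit 0) (XT.nd (nat_lit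 78) (nat_lit 0) (nat_lit 0) (XT.lf (nat_lit 0) (nat_lit 19020353867) (nat_lit 76) (nat_lit 5561499035) (nat_lit 152) (nat_lit 15457348859) (nat_lit 8) (nat_lit 5) (nat_lit 9) (nat_lit 5) (nat_lit 10) (nat_lit 4) (nat_lit 282) (nat_lit 241) (nat_lit 197)) (XT.lf (nat_lit 0) (nat_lit 32443585093) (nat_lit 152) (nat_lit 7880754427) (nat_lit 0) (nat_lit 2487561686) (nat_lit 8) (nat_lit 5) (nat_lit 10) (nat_lit 4) (nat_lit 8) (nat_lit 4) (nat_lit 283) (nat_lit 241) (nat_lit 196))) (XT.nd (nat_lit 78) (nat_lit 76) (nat_lit 0) (XT.lf (nat_lit 0) (nat_lit 6351155606) (nat_lit 76) (nat_lit 34737686519) (nat_lit 76) (nat_lit 4709899449) (nat_lit 7) (nat_lit 4) (nat_lit 8) (nat_lit 5) (nat_lit 8) (nat_lit 4) (nat_lit 284) (nat_lit 241) (nat_lit 195)) (XT.nd (nat_lit 78) (nat_lit 0) (nat_lit 0) (XT.lf (nat_lit 0) (nat_lit 1458718772) (nat_lit 152) (nat_lit 27103861421) (nat_lit 76) (nat_lit 20455784264)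 (nat_lit 6) (nat_lit 5) (nat_lit 8) (nat_lit 5) (nat_lit 7) (nat_lit 4) (nat_lit 285) (nat_lit 241) (nat_lit 194)) (XT.lf (nat_lit 0) (nat_lit 7923619600) (nat_lit 152) (nat_lit 13912340498) (nat_lit 76) (nat_lit 30657390565) (nat_lit 6) (nat_lit 5) (nat_lit 8) (nat_lit 5) (nat_lit 7) (nat_lit 4) (nat_lit 286) (nat_lit 241) (nat_lit 193))))) (XT.nd (nat_lit 156) (nat_lit 0) (nat_lit 0) (XT.nd (nat_lit 78) (nat_lit 0) (nat_lit 0) (XT.lf (nat_lit 0) (nat_lit 287898039) (nat_lit 76) (nat_lit 14590456608) (nat_lit 152) (nat_lit 41369390048) (nat_lit 5) (nat_lit 5) (nat_lit 6) (nat_lit 5) (nat_lit 7) (nat_lit 4) (nat_lit 287) (nat_lit 241) (nat_lit 192)) (XT.lf (nat_lit 0) (nat_lit 16067568066) (nat_lit 76) (nat_lit 6533917537) (nat_lit 152) (nat_lit 37690441788) (nat_lit 5) (nat_lit 5) (nat_lit 6) (nat_lit 5) (nat_lit 7) (nat_lit 4) (nat_lit 288) (nat_lit 241) (nat_lit 191))) (XT.nd (nat_lit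 78) (nat_lit 0) (nat_lit 0) (XT.lf (nat_lit 0) (nat_lit 30947888337) (nat_lit 152) (nat_lit 31634411732) (nat_lit 0) (nat_lit 2077108751) (nat_lit 5) (nat_lit 5) (nat_lit 7) (nat_lit 4) (nat_lit 5) (nat_lit 4) (nat_lit 289) (nat_lit 241) (nat_lit 190)) (XT.nd (nat_lit 78) (nat_lit 0) (nat_lit 0) (XT.lf (nat_lit 0) (nat_lit 40045867907) (nat_lit 152) (nat_lit 18194241674) (nat_lit 0) (nat_lit 11132018529) (nat_lit 5) (nat_lit 5) (nat_lit 7) (nat_lit 4) (nat_lit 5) (nat_lit 4) (nat_lit 290) (nat_lit 241) (nat_lit 189)) (XT.lf (nat_lit 0) (nat_lit 49847325501) (nat_lit 152) (nat_lit 3722190935) (nat_lit 0) (nat_lit 20893596687) (nat_lit 5) (nat_lit 5) (nat_lit 7) (nat_lit 4) (nat_lit 5) (nat_lit 4) (nat_lit 291) (nat_lit 241) (nat_lit 188)))))) (XT.nd (nat_lit 390) (nat_lit 76) (nat_lit 0) (XT.nd (nat_lit 156) (nat_lit 76) (nat_lit 0) (XT.nd (nat_lit 78) (nat_lit 0) (nat_lit 0) (XT.lf (nat_lit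 0) (nat_lit 12259893956) (nat_lit 76) (nat_lit 48341861178) (nat_lit 76) (nat_lit 19351206961) (nat_lit 4) (nat_lit 4) (nat_lit 5) (nat_lit 5) (nat_lit 5) (nat_lit 4) (nat_lit 292) (nat_lit 241) (nat_lit 187)) (XT.lf (nat_lit 0) (nat_lit 29615084499) (nat_lit 76) (nat_lit 42644808528) (nat_lit 76) (nat_lit 13619964123) (nat_lit 4) (nat_lit 4) (nat_lit 5) (nat_lit 5) (nat_lit 5) (nat_lit 4) (nat_lit 293) (nat_lit 241) (nat_lit 186))) (XT.nd (nat_lit 78) (nat_lit 76) (nat_lit 0) (XT.lf (nat_lit 0) (nat_lit 48323153825) (nat_lit 76) (nat_lit 36507635279) (nat_lit 76) (nat_lit 7451133292) (nat_lit 4) (nat_lit 4) (nat_lit 5) (nat_lit 5) (nat_lit 5) (nat_lit 4) (nat_lit 294) (nat_lit 241) (nat_lit 185)) (XT.nd (nat_lit 78) (nat_lit 76) (nat_lit 0) (XT.lf (nat_lit 0) (nat_lit 68494964568) (nat_lit 76) (nat_lit 29893972997) (nat_lit 76) (nat_lit 808158434) (nat_lit 4) (nat_lit 4) (nat_lit 5)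 (nat_lit 5) (nat_lit 5) (nat_lit 4) (nat_lit 295) (nat_lit 241) (nat_lit 184)) (XT.lf (nat_lit 0) (nat_lit 6145140142) (nat_lit 152) (nat_lit 16515418545) (nat_lit 76) (nat_lit 84000842318) (nat_lit 3) (nat_lit 5) (nat_lit 5) (nat_lit 5) (nat_lit 4) (nat_lit 4) (nat_lit 296) (nat_lit 241) (nat_lit 183))))) (XT.nd (nat_lit 156) (nat_lit 0) (nat_lit 0) (XT.nd (nat_lit 78) (nat_lit 76) (nat_lit 0) (XT.lf (nat_lit 0) (nat_lit 13610698336) (nat_lit 152) (nat_lit 1236155056) (nat_lit 76) (nat_lit 99876137214) (nat_lit 3) (nat_lit 5) (nat_lit 5) (nat_lit 5) (nat_lit 4) (nat_lit 4) (nat_lit 297) (nat_lit 241) (nat_lit 182)) (XT.lf (nat_lit 0) (nat_lit 15742684662) (nat_lit 76) (nat_lit 6161725375) (nat_lit 152) (nat_lit 101513568659) (nat_lit 2) (nat_lit 5) (nat_lit 3) (nat_lit 5) (nat_lit 4) (nat_lit 4) (nat_lit 298) (nat_lit 241) (nat_lit 181))) (XT.nd (nat_lit 78) (nat_lit 0) (nat_lit 0)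 (XT.lf (nat_lit 0) (nat_lit 30919399486) (nat_lit 152) (nat_lit 98760132895) (nat_lit 0) (nat_lit 3126159931) (nat_lit 2) (nat_lit 5) (nat_lit 4) (nat_lit 4) (nat_lit 2) (nat_lit 4) (nat_lit 299) (nat_lit 241) (nat_lit 180)) (XT.nd (nat_lit 78) (nat_lit 0) (nat_lit 0) (XT.lf (nat_lit 0) (nat_lit 40746198506) (nat_lit 152) (nat_lit 89259749074) (nat_lit 0) (nat_lit 12933959287) (nat_lit 2) (nat_lit 5) (nat_lit 4) (nat_lit 4) (nat_lit 2) (nat_lit 4) (nat_lit 300) (nat_lit 241) (nat_lit 179)) (XT.lf (nat_lit 0) (nat_lit 51346838178) (nat_lit 152) (nat_lit 79021642201) (nat_lit 0) (nat_lit 23517006678) (nat_lit 2) (nat_lit 5) (nat_lit 4) (nat_lit 4) (nat_lit 2) (nat_lit 4) (nat_lit 301) (nat_lit 241) (nat_lit 178))))))))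
noncomputable def xc52 : XT := (XT.nd (nat_lit 1482) (nat_lit 0) (nat_lit 0) (XT.nd (nat_lit 702) (nat_lit 0) (nat_lit 0) (XT.nd (nat_lit 312) (nat_lit 76) (nat_lit 0) (XT.nd (nat_lit 156) (nat_lit 0) (nat_lit 0) (XT.nd (nat_lit 78) (nat_lit 0) (nat_lit 0) (XT.lf (nat_lit 0) (nat_lit 62784137107) (nat_lit 152) (nat_lit 67985142012) (nat_lit 0) (nat_lit 34938016458) (nat_lit 2) (nat_lit 5) (nat_lit 4) (nat_lit 4) (nat_lit 2) (nat_lit 4) (nat_lit 302) (nat_lit 241) (nat_lit 177)) (XT.lf (nat_lit 0) (nat_lit 75125871880) (nat_lit 152) (nat_lit 56084847025) (nat_lit 0) (nat_lit 47264668685) (nat_lit 2) (nat_lit 5) (nat_lit 4) (nat_lit 4) (nat_lit 2) (nat_lit 4) (nat_lit 303) (nat_lit 241) (nat_lit 176))) (XT.nd (nat_lit 78) (nat_lit 0) (nat_lit 0) (XT.lf (nat_lit 0) (nat_lit 88445178703) (nat_lit 152) (nat_lit 43250236973) (nat_lit 0) (nat_lit 60570010188) (nat_lit 2) (nat_lit 5) (nat_lit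 4) (nat_lit 4) (nat_lit 2) (nat_lit 4) (nat_lit 304) (nat_lit 241) (nat_lit 175)) (XT.lf (nat_lit 0) (nat_lit 102820986802) (nat_lit 152) (nat_lit 29405254908) (nat_lit 0) (nat_lit 74932887435) (nat_lit 2) (nat_lit 5) (nat_lit 4) (nat_lit 4) (nat_lit 2) (nat_lit 4) (nat_lit 305) (nat_lit 241) (nat_lit 174)))) (XT.nd (nat_lit 156) (nat_lit 0) (nat_lit 0) (XT.nd (nat_lit 78) (nat_lit 76) (nat_lit 0) (XT.lf (nat_lit 0) (nat_lit 118338486149) (nat_lit 152) (nat_lit 14467856492) (nat_lit 0) (nat_lit 90438413772) (nat_lit 2) (nat_lit 5) (nat_lit 4) (nat_lit 4) (nat_lit 2) (nat_lit 4) (nat_lit 306) (nat_lit 241) (nat_lit 173)) (XT.lf (nat_lit 0) (nat_lit 1705048388) (nat_lit 76) (nat_lit 133411204494) (nat_lit 76) (nat_lit 105500045995) (nat_lit 1) (nat_lit 4) (nat_lit 2) (nat_lit 5) (nat_lit 2) (nat_lit 4) (nat_lit 307) (nat_lit 241) (nat_lit 172))) (XT.nd (nat_lit 78) (nat_lit 0) (nat_lit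 0) (XT.lf (nat_lit 0) (nat_lit 19674981468) (nat_lit 76) (nat_lit 133805891431) (nat_lit 76) (nat_lit 105884468005) (nat_lit 1) (nat_lit 4) (nat_lit 2) (nat_lit 5) (nat_lit 2) (nat_lit 4) (nat_lit 308) (nat_lit 241) (nat_lit 171)) (XT.nd (nat_lit 78) (nat_lit 0) (nat_lit 0) (XT.lf (nat_lit 0) (nat_lit 39070058566) (nat_lit 76) (nat_lit 134237762488) (nat_lit 76) (nat_lit 106306834501) (nat_lit 1) (nat_lit 4) (nat_lit 2) (nat_lit 5) (nat_lit 2) (nat_lit 4) (nat_lit 309) (nat_lit 241) (nat_lit 170)) (XT.lf (nat_lit 0) (nat_lit 60005213472) (nat_lit 76) (nat_lit 134709376902) (nat_lit 76) (nat_lit 106769648394) (nat_lit 1) (nat_lit 4) (nat_lit 2) (nat_lit 5) (nat_lit 2) (nat_lit 4) (nat_lit 310) (nat_lit 241) (nat_lit 169)))))) (XT.nd (nat_lit 390) (nat_lit 0) (nat_lit 0) (XT.nd (nat_lit 156) (nat_lit 0) (nat_lit 0) (XT.nd (nat_lit 78) (nat_lit 0) (nat_lit 0) (XT.lf (nat_lit 0) (nat_lit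 82604506364) (nat_lit 76) (nat_lit 135223529425) (nat_lit 76) (nat_lit 107275652287) (nat_lit 1) (nat_lit 4) (nat_lit 2) (nat_lit 5) (nat_lit 2) (nat_lit 4) (nat_lit 311) (nat_lit 241) (nat_lit 168)) (XT.lf (nat_lit 0) (nat_lit 107001858976) (nat_lit 76) (nat_lit 135783266887) (nat_lit 76) (nat_lit 107827844721) (nat_lit 1) (nat_lit 4) (nat_lit 2) (nat_lit 5) (nat_lit 2) (nat_lit 4) (nat_lit 312) (nat_lit 241) (nat_lit 167))) (XT.nd (nat_lit 78) (nat_lit 0) (nat_lit 0) (XT.lf (nat_lit 0) (nat_lit 133341848213) (nat_lit 76) (nat_lit 136391906249) (nat_lit 76) (nat_lit 108429497947) (nat_lit 1) (nat_lit 4) (nat_lit 2) (nat_lit 5) (nat_lit 2) (nat_lit 4) (nat_lit 313) (nat_lit 241) (nat_lit 166)) (XT.nd (nat_lit 78) (nat_lit 0) (nat_lit 0) (XT.lf (nat_lit 0) (nat_lit 161780562901) (nat_lit 76) (nat_lit 137053054265) (nat_lit 76) (nat_lit 109084177317) (nat_lit 1) (nat_lit 4) (nat_lit 2)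 (nat_lit 5) (nat_lit 2) (nat_lit 4) (nat_lit 314) (nat_lit 241) (nat_lit 165)) (XT.lf (nat_lit 0) (nat_lit 192486528756) (nat_lit 76) (nat_lit 137770628848) (nat_lit 76) (nat_lit 109795762413) (nat_lit 1) (nat_lit 4) (nat_lit 2) (nat_lit 5) (nat_lit 2) (nat_lit 4) (nat_lit 315) (nat_lit 241) (nat_lit 164))))) (XT.nd (nat_lit 156) (nat_lit 0) (nat_lit 0) (XT.nd (nat_lit 78) (nat_lit 0) (nat_lit 0) (XT.lf (nat_lit 0) (nat_lit 225641707057) (nat_lit 76) (nat_lit 138548882291) (nat_lit 76) (nat_lit 110568470037) (nat_lit 1) (nat_lit 4) (nat_lit 2) (nat_lit 5) (nat_lit 2) (nat_lit 4) (nat_lit 316) (nat_lit 241) (nat_lit 163)) (XT.lf (nat_lit 0) (nat_lit 261442572934) (nat_lit 76) (nat_lit 139392426469) (nat_lit 76) (nat_lit 111406879195) (nat_lit 1) (nat_lit 4) (nat_lit 2) (nat_lit 5) (nat_lit 2) (nat_lit 4) (nat_lit 317) (nat_lit 241) (nat_lit 162))) (XT.nd (nat_lit 78) (nat_lit 0) (nat_lit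 0) (XT.lf (nat_lit 0) (nat_lit 300101279668) (nat_lit 76) (nat_lit 140306260159) (nat_lit 76) (nat_lit 112315958238) (nat_lit 1) (nat_lit 4) (nat_lit 2) (nat_lit 5) (nat_lit 2) (nat_lit 4) (nat_lit 318) (nat_lit 241) (nat_lit 161)) (XT.nd (nat_lit 78) (nat_lit 0) (nat_lit 0) (XT.lf (nat_lit 0) (nat_lit 341846915890) (nat_lit 76) (nat_lit 141295798674) (nat_lit 76) (nat_lit 113301094302) (nat_lit 1) (nat_lit 4) (nat_lit 2) (nat_lit 5) (nat_lit 2) (nat_lit 4) (nat_lit 319) (nat_lit 241) (nat_lit 160)) (XT.lf (nat_lit 0) (nat_lit 386926863148) (nat_lit 76) (nat_lit 142366905945) (nat_lit 76) (nat_lit 114368125229) (nat_lit 1) (nat_lit 4) (nat_lit 2) (nat_lit 5) (nat_lit 2) (nat_lit 4) (nat_lit 320) (nat_lit 241) (nat_lit 159))))))) (XT.nd (nat_lit 31668) (nat_lit 0) (nat_lit 4104) (XT.nd (nat_lit 312) (nat_lit 0) (nat_lit 0) (XT.nd (nat_lit 156) (nat_lit 0) (nat_lit 0) (XT.nd (nat_lit 78)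 (nat_lit 0) (nat_lit 0) (XT.lf (nat_lit 0) (nat_lit 435608261872) (nat_lit 76) (nat_lit 143525929275) (nat_lit 76) (nat_lit 115523374167) (nat_lit 1) (nat_lit 4) (nat_lit 2) (nat_lit 5) (nat_lit 2) (nat_lit 4) (nat_lit 321) (nat_lit 241) (nat_lit 158)) (XT.lf (nat_lit 0) (nat_lit 488179594423) (nat_lit 76) (nat_lit 144779736950) (nat_lit 76) (nat_lit 116773687034) (nat_lit 1) (nat_lit 4) (nat_lit 2) (nat_lit 5) (nat_lit 2) (nat_lit 4) (nat_lit 322) (nat_lit 241) (nat_lit 157))) (XT.nd (nat_lit 78) (nat_lit 0) (nat_lit 0) (XT.lf (nat_lit 0) (nat_lit 544952394624) (nat_lit 76) (nat_lit 146135758942) (nat_lit 76) (nat_lit 118126473092) (nat_lit 1) (nat_lit 4) (nat_lit 2) (nat_lit 5) (nat_lit 2) (nat_lit 4) (nat_lit 323) (nat_lit 241) (nat_lit 156)) (XT.lf (nat_lit 0) (nat_lit 606263093883) (nat_lit 76) (nat_lit 147602030935) (nat_lit 76) (nat_lit 119589748851) (nat_lit 1) (nat_lit 4) (nat_lit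 2) (nat_lit 5) (nat_lit 2) (nat_lit 4) (nat_lit 324) (nat_lit 241) (nat_lit 155)))) (XT.nd (nat_lit 31122) (nat_lit 0) (nat_lit 7980) (XT.nd (nat_lit 31044) (nat_lit 0) (nat_lit 8284) (XT.lf (nat_lit 0) (nat_lit 672475014864) (nat_lit 76) (nat_lit 149187241950) (nat_lit 76) (nat_lit 121172185576) (nat_lit 1) (nat_lit 4) (nat_lit 2) (nat_lit 5) (nat_lit 2) (nat_lit 4) (nat_lit 325) (nat_lit 241) (nat_lit 154)) (XT.lf (nat_lit 0) (nat_lit 763722971) (nat_lit 0) (nat_lit 763722971) (nat_lit 228) (nat_lit 1753692662) (nat_lit 110) (nat_lit 5) (nat_lit 110) (nat_lit 3) (nat_lit 113) (nat_lit 3) (nat_lit 242) (nat_lit 242) (nat_lit 236))) (XT.nd (nat_lit 78) (nat_lit 304) (nat_lit 0) (XT.lf (nat_lit 0) (nat_lit 6216295023) (nat_lit 0) (nat_lit 383860277) (nat_lit 228) (nat_lit 33861038) (nat_lit 110) (nat_lit 5) (nat_lit 110) (nat_lit 3) (nat_lit 113) (nat_lit 3) (nat_lit 243) (nat_lit 242)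 (nat_lit 235)) (XT.nd (nat_lit 78) (nat_lit 0) (nat_lit 0) (XT.lf (nat_lit 0) (nat_lit 3336317714) (nat_lit 304) (nat_lit 2273357093) (nat_lit 380) (nat_lit 1113897294) (nat_lit 106) (nat_lit 5) (nat_lit 110) (nat_lit 5) (nat_lit 111) (nat_lit 5) (nat_lit 244) (nat_lit 242) (nat_lit 234)) (XT.lf (nat_lit 76) (nat_lit 2787567245) (nat_lit 0) (nat_lit 3920290616) (nat_lit 380) (nat_lit 127489140) (nat_lit 107) (nat_lit 5) (nat_lit 106) (nat_lit 5) (nat_lit 111) (nat_lit 5) (nat_lit 245) (nat_lit 242) (nat_lit 233)))))) (XT.nd (nat_lit 390) (nat_lit 2052) (nat_lit 0) (XT.nd (nat_lit 156) (nat_lit 1444) (nat_lit 0) (XT.nd (nat_lit 78) (nat_lit 0) (nat_lit 76) (XT.lf (nat_lit 76) (nat_lit 1163816220) (nat_lit 0) (nat_lit 1869158393) (nat_lit 456) (nat_lit 3934539486) (nat_lit 102) (nat_lit 5) (nat_lit 101) (nat_lit 5) (nat_lit 107) (nat_lit 5) (nat_lit 246) (nat_lit 242) (nat_lit 232)) (XT.lf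 (nat_lit 0) (nat_lit 6230534275) (nat_lit 380) (nat_lit 387565352) (nat_lit 76) (nat_lit 504026003) (nat_lit 102) (nat_lit 5) (nat_lit 107) (nat_lit 5) (nat_lit 103) (nat_lit 5) (nat_lit 247) (nat_lit 242) (nat_lit 231))) (XT.nd (nat_lit 78) (nat_lit 1064) (nat_lit 0) (XT.lf (nat_lit 0) (nat_lit 2163344872) (nat_lit 456) (nat_lit 1922895949) (nat_lit 76) (nat_lit 3209980766) (nat_lit 96) (nat_lit 5) (nat_lit 102) (nat_lit 5) (nat_lit 97) (nat_lit 5) (nat_lit 248) (nat_lit 242) (nat_lit 230)) (XT.nd (nat_lit 78) (nat_lit 608) (nat_lit 0) (XT.lf (nat_lit 0) (nat_lit 4044610726) (nat_lit 456) (nat_lit 1201833614) (nat_lit 532) (nat_lit 2247472579) (nat_lit 90) (nat_lit 5) (nat_lit 96) (nat_lit 5) (nat_lit 97) (nat_lit 5) (nat_lit 249) (nat_lit 242) (nat_lit 229)) (XT.lf (nat_lit 0) (nat_lit 705380587) (nat_lit 608) (nat_lit 5017913530) (nat_lit 76) (nat_lit 1991251001) (nat_lit 82) (nat_lit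 5) (nat_lit 90) (nat_lit 5) (nat_lit 83) (nat_lit 5) (nat_lit 250) (nat_lit 242) (nat_lit 228))))) (XT.nd (nat_lit 156) (nat_lit 1444) (nat_lit 0) (XT.nd (nat_lit 78) (nat_lit 0) (nat_lit 0) (XT.lf (nat_lit 0) (nat_lit 1289810726) (nat_lit 608) (nat_lit 2399912862) (nat_lit 684) (nat_lit 4268498952) (nat_lit 74) (nat_lit 5) (nat_lit 82) (nat_lit 5) (nat_lit 83) (nat_lit 5) (nat_lit 251) (nat_lit 242) (nat_lit 227)) (XT.lf (nat_lit 0) (nat_lit 6806008143) (nat_lit 684) (nat_lit 158884564) (nat_lit 76) (nat_lit 1262713280) (nat_lit 74) (nat_lit 5) (nat_lit 83) (nat_lit 5) (nat_lit 75) (nat_lit 5) (nat_lit 252) (nat_lit 242) (nat_lit 226))) (XT.nd (nat_lit 78) (nat_lit 684) (nat_lit 0) (XT.lf (nat_lit 0) (nat_lit 1547794330) (nat_lit 760) (nat_lit 1684418083) (nat_lit 76) (nat_lit 5288423454) (nat_lit 64) (nat_lit 5) (nat_lit 74) (nat_lit 5) (nat_lit 65) (nat_lit 5) (nat_lit 253) (nat_lit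 242) (nat_lit 225)) (XT.nd (nat_lit 78) (nat_lit 380) (nat_lit 0) (XT.lf (nat_lit 0) (nat_lit 4618813534) (nat_lit 380) (nat_lit 3330566801) (nat_lit 76) (nat_lit 891580105) (nat_lit 60) (nat_lit 5) (nat_lit 65) (nat_lit 5) (nat_lit 61) (nat_lit 5) (nat_lit 254) (nat_lit 242) (nat_lit 224)) (XT.lf (nat_lit 0) (nat_lit 4041409151) (nat_lit 380) (nat_lit 3862581730) (nat_lit 456) (nat_lit 1285155176) (nat_lit 55) (nat_lit 5) (nat_lit 60) (nat_lit 5) (nat_lit 61) (nat_lit 5) (nat_lit 255) (nat_lit 242) (nat_lit 223))))))))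
noncomputable def xc53 : XT := (XT.nd (nat_lit 1482) (nat_lit 836) (nat_lit 0) (XT.nd (nat_lit 702) (nat_lit 1140) (nat_lit 0) (XT.nd (nat_lit 312) (nat_lit 912) (nat_lit 0) (XT.nd (nat_lit 156) (nat_lit 304) (nat_lit 0) (XT.nd (nat_lit 78) (nat_lit 304) (nat_lit 0) (XT.lf (nat_lit 0) (nat_lit 1761750333) (nat_lit 380) (nat_lit 7158176881) (nat_lit 76) (nat_lit 647600263) (nat_lit 50) (nat_lit 5) (nat_lit 55) (nat_lit 5) (nat_lit 51) (nat_lit 5) (nat_lit 256) (nat_lit 242) (nat_lit 222)) (XT.lf (nat_lit 0) (nat_lit 524863394) (nat_lit 304) (nat_lit 4485416146) (nat_lit 380) (nat_lit 4965239633) (nat_lit 46) (nat_lit 5) (nat_lit 50) (nat_lit 5) (nat_lit 51) (nat_lit 5) (nat_lit 257) (nat_lit 242) (nat_lit 221))) (XT.nd (nat_lit 78) (nat_lit 304) (nat_lit 0) (XT.lf (nat_lit 0) (nat_lit 8496821047) (nat_lit 380) (nat_lit 1524964937) (nat_lit 76) (nat_lit 395955876) (nat_lit 46) (nat_lit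 5) (nat_lit 51) (nat_lit 5) (nat_lit 47) (nat_lit 5) (nat_lit 258) (nat_lit 242) (nat_lit 220)) (XT.lf (nat_lit 0) (nat_lit 1366555597) (nat_lit 304) (nat_lit 3904762385) (nat_lit 76) (nat_lit 5621228441) (nat_lit 42) (nat_lit 5) (nat_lit 46) (nat_lit 5) (nat_lit 43) (nat_lit 5) (nat_lit 259) (nat_lit 242) (nat_lit 219)))) (XT.nd (nat_lit 156) (nat_lit 456) (nat_lit 0) (XT.nd (nat_lit 78) (nat_lit 228) (nat_lit 0) (XT.lf (nat_lit 0) (nat_lit 4782197521) (nat_lit 228) (nat_lit 33434604) (nat_lit 304) (nat_lit 6590240365) (nat_lit 39) (nat_lit 5) (nat_lit 42) (nat_lit 5) (nat_lit 43) (nat_lit 5) (nat_lit 260) (nat_lit 242) (nat_lit 218)) (XT.lf (nat_lit 0) (nat_lit 2157885383) (nat_lit 228) (nat_lit 6443770373) (nat_lit 304) (nat_lit 3355934458) (nat_lit 36) (nat_lit 5) (nat_lit 39) (nat_lit 5) (nat_lit 40) (nat_lit 5) (nat_lit 261) (nat_lit 242) (nat_lit 217))) (XT.nd (nat_lit 78) (nat_lit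 380) (nat_lit 0) (XT.lf (nat_lit 0) (nat_lit 125692033) (nat_lit 304) (nat_lit 839846207) (nat_lit 76) (nat_lit 11588483960) (nat_lit 35) (nat_lit 5) (nat_lit 39) (nat_lit 5) (nat_lit 36) (nat_lit 5) (nat_lit 262) (nat_lit 242) (nat_lit 216)) (XT.nd (nat_lit 78) (nat_lit 152) (nat_lit 0) (XT.lf (nat_lit 0) (nat_lit 3873271224) (nat_lit 304) (nat_lit 4362711231) (nat_lit 76) (nat_lit 4954493133) (nat_lit 32) (nat_lit 5) (nat_lit 36) (nat_lit 5) (nat_lit 33) (nat_lit 5) (nat_lit 263) (nat_lit 242) (nat_lit 215)) (XT.lf (nat_lit 0) (nat_lit 5426571827) (nat_lit 152) (nat_lit 2500016910) (nat_lit 228) (nat_lit 5951244646) (nat_lit 30) (nat_lit 5) (nat_lit 32) (nat_lit 5) (nat_lit 33) (nat_lit 5) (nat_lit 264) (nat_lit 242) (nat_lit 214)))))) (XT.nd (nat_lit 390) (nat_lit 532) (nat_lit 0) (XT.nd (nat_lit 156) (nat_lit 304) (nat_lit 0) (XT.nd (nat_lit 78) (nat_lit 76) (nat_lit 0) (XT.lf (nat_lit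 0) (nat_lit 1372965525) (nat_lit 228) (nat_lit 10982849001) (nat_lit 304) (nat_lit 2262046777) (nat_lit 27) (nat_lit 5) (nat_lit 30) (nat_lit 5) (nat_lit 31) (nat_lit 5) (nat_lit 265) (nat_lit 242) (nat_lit 213)) (XT.lf (nat_lit 0) (nat_lit 1757873207) (nat_lit 304) (nat_lit 3343755969) (nat_lit 76) (nat_lit 10309814775) (nat_lit 26) (nat_lit 5) (nat_lit 30) (nat_lit 5) (nat_lit 27) (nat_lit 5) (nat_lit 266) (nat_lit 242) (nat_lit 212))) (XT.nd (nat_lit 78) (nat_lit 152) (nat_lit 0) (XT.lf (nat_lit 0) (nat_lit 6064699407) (nat_lit 228) (nat_lit 8875085073) (nat_lit 76) (nat_lit 1324861679) (nat_lit 24) (nat_lit 5) (nat_lit 27) (nat_lit 5) (nat_lit 25) (nat_lit 5) (nat_lit 267) (nat_lit 242) (nat_lit 211)) (XT.nd (nat_lit 78) (nat_lit 0) (nat_lit 0) (XT.lf (nat_lit 0) (nat_lit 1752251989) (nat_lit 152) (nat_lit 9047052501) (nat_lit 228) (nat_lit 6382837737) (nat_lit 22) (nat_lit 5) (nat_lit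 24) (nat_lit 5) (nat_lit 25) (nat_lit 5) (nat_lit 268) (nat_lit 242) (nat_lit 210)) (XT.lf (nat_lit 0) (nat_lit 13417943297) (nat_lit 152) (nat_lit 2564592565) (nat_lit 228) (nat_lit 2187193784) (nat_lit 22) (nat_lit 5) (nat_lit 24) (nat_lit 5) (nat_lit 25) (nat_lit 5) (nat_lit 269) (nat_lit 242) (nat_lit 209))))) (XT.nd (nat_lit 156) (nat_lit 304) (nat_lit 0) (XT.nd (nat_lit 78) (nat_lit 0) (nat_lit 0) (XT.lf (nat_lit 0) (nat_lit 2366925322) (nat_lit 228) (nat_lit 12463378816) (nat_lit 76) (nat_lit 4399460295) (nat_lit 19) (nat_lit 5) (nat_lit 22) (nat_lit 5) (nat_lit 20) (nat_lit 5) (nat_lit 270) (nat_lit 242) (nat_lit 208)) (XT.lf (nat_lit 0) (nat_lit 7260687079) (nat_lit 228) (nat_lit 1196274320) (nat_lit 76) (nat_lit 11913401430) (nat_lit 19) (nat_lit 5) (nat_lit 22) (nat_lit 5) (nat_lit 20) (nat_lit 5) (nat_lit 271) (nat_lit 242) (nat_lit 207))) (XT.nd (nat_lit 78) (nat_lit 152)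 (nat_lit 0) (XT.lf (nat_lit 0) (nat_lit 11220178829) (nat_lit 152) (nat_lit 1430156409) (nat_lit 228) (nat_lit 8946794118) (nat_lit 17) (nat_lit 5) (nat_lit 19) (nat_lit 5) (nat_lit 20) (nat_lit 5) (nat_lit 272) (nat_lit 242) (nat_lit 206)) (XT.nd (nat_lit 78) (nat_lit 76) (nat_lit 0) (XT.lf (nat_lit 0) (nat_lit 1597106349) (nat_lit 76) (nat_lit 16948500973) (nat_lit 152) (nat_lit 4372836478) (nat_lit 16) (nat_lit 5) (nat_lit 17) (nat_lit 5) (nat_lit 18) (nat_lit 4) (nat_lit 273) (nat_lit 242) (nat_lit 205)) (XT.lf (nat_lit 0) (nat_lit 691129020) (nat_lit 152) (nat_lit 9579434215) (nat_lit 76) (nat_lit 14067459440) (nat_lit 15) (nat_lit 5) (nat_lit 17) (nat_lit 5) (nat_lit 16) (nat_lit 5) (nat_lit 274) (nat_lit 242) (nat_lit 204))))))) (XT.nd (nat_lit 780) (nat_lit 304) (nat_lit 0) (XT.nd (nat_lit 390) (nat_lit 304) (nat_lit 0) (XT.nd (nat_lit 156) (nat_lit 76) (nat_lit 0) (XT.nd (nat_lit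 78) (nat_lit 0) (nat_lit 0) (XT.lf (nat_lit 0) (nat_lit 3026124785) (nat_lit 152) (nat_lit 2969439547) (nat_lit 228) (nat_lit 19872696954) (nat_lit 13) (nat_lit 5) (nat_lit 15) (nat_lit 5) (nat_lit 16) (nat_lit 5) (nat_lit 275) (nat_lit 242) (nat_lit 203)) (XT.lf (nat_lit 0) (nat_lit 11912416336) (nat_lit 228) (nat_lit 10706784824) (nat_lit 76) (nat_lit 4892412410) (nat_lit 13) (nat_lit 5) (nat_lit 16) (nat_lit 5) (nat_lit 14) (nat_lit 4) (nat_lit 276) (nat_lit 242) (nat_lit 202))) (XT.nd (nat_lit 78) (nat_lit 0) (nat_lit 0) (XT.lf (nat_lit 0) (nat_lit 2334284951) (nat_lit 76) (nat_lit 16000874009) (nat_lit 152) (nat_lit 10949738393) (nat_lit 12) (nat_lit 5) (nat_lit 13) (nat_lit 5) (nat_lit 14) (nat_lit 4) (nat_lit 277) (nat_lit 242) (nat_lit 201)) (XT.nd (nat_lit 78) (nat_lit 0) (nat_lit 0) (XT.lf (nat_lit 0) (nat_lit 16715125077) (nat_lit 76) (nat_lit 8691786341) (nat_lit 152) (nat_lit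 5786456644) (nat_lit 12) (nat_lit 5) (nat_lit 13) (nat_lit 5) (nat_lit 14) (nat_lit 4) (nat_lit 278) (nat_lit 242) (nat_lit 200)) (XT.lf (nat_lit 0) (nat_lit 32166940686) (nat_lit 76) (nat_lit 829949625) (nat_lit 152) (nat_lit 260079343) (nat_lit 12) (nat_lit 5) (nat_lit 13) (nat_lit 5) (nat_lit 14) (nat_lit 4) (nat_lit 279) (nat_lit 242) (nat_lit 199))))) (XT.nd (nat_lit 156) (nat_lit 76) (nat_lit 0) (XT.nd (nat_lit 78) (nat_lit 0) (nat_lit 0) (XT.lf (nat_lit 0) (nat_lit 5817987353) (nat_lit 228) (nat_lit 21955366076) (nat_lit 76) (nat_lit 7693303912) (nat_lit 9) (nat_lit 5) (nat_lit 12) (nat_lit 5) (nat_lit 10) (nat_lit 4) (nat_lit 280) (nat_lit 242) (nat_lit 198)) (XT.lf (nat_lit 0) (nat_lit 12363555341) (nat_lit 228) (nat_lit 8624842094) (nat_lit 76) (nat_lit 16865054347) (nat_lit 9) (nat_lit 5) (nat_lit 12) (nat_lit 5) (nat_lit 10) (nat_lit 4) (nat_lit 281) (nat_lit 242) (nat_lit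 197))) (XT.nd (nat_lit 78) (nat_lit 0) (nat_lit 0) (XT.lf (nat_lit 0) (nat_lit 5892553828) (nat_lit 76) (nat_lit 13592355618) (nat_lit 152) (nat_lit 20943731919) (nat_lit 8) (nat_lit 5) (nat_lit 9) (nat_lit 5) (nat_lit 10) (nat_lit 4) (nat_lit 282) (nat_lit 242) (nat_lit 196)) (XT.nd (nat_lit 78) (nat_lit 0) (nat_lit 0) (XT.lf (nat_lit 0) (nat_lit 21814125773) (nat_lit 76) (nat_lit 5474161131) (nat_lit 152) (nat_lit 15915997738) (nat_lit 8) (nat_lit 5) (nat_lit 9) (nat_lit 5) (nat_lit 10) (nat_lit 4) (nat_lit 283) (nat_lit 242) (nat_lit 195)) (XT.lf (nat_lit 0) (nat_lit 35731845796) (nat_lit 152) (nat_lit 7305764022) (nat_lit 0) (nat_lit 3163624262) (nat_lit 8) (nat_lit 5) (nat_lit 10) (nat_lit 4) (nat_lit 8) (nat_lit 4) (nat_lit 284) (nat_lit 242) (nat_lit 194)))))) (XT.nd (nat_lit 390) (nat_lit 76) (nat_lit 0) (XT.nd (nat_lit 156) (nat_lit 76) (nat_lit 0) (XT.nd (nat_lit 78) (nat_lit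 76) (nat_lit 0) (XT.lf (nat_lit 0) (nat_lit 8012311392) (nat_lit 76) (nat_lit 37023097963) (nat_lit 76) (nat_lit 4393350655) (nat_lit 7) (nat_lit 4) (nat_lit 8) (nat_lit 5) (nat_lit 8) (nat_lit 4) (nat_lit 285) (nat_lit 242) (nat_lit 193)) (XT.lf (nat_lit 0) (nat_lit 2196851011) (nat_lit 152) (nat_lit 28183171042) (nat_lit 76) (nat_lit 22527939209) (nat_lit 6) (nat_lit 5) (nat_lit 8) (nat_lit 5) (nat_lit 7) (nat_lit 4) (nat_lit 286) (nat_lit 242) (nat_lit 192))) (XT.nd (nat_lit 78) (nat_lit 76) (nat_lit 0) (XT.lf (nat_lit 0) (nat_lit 9132911702) (nat_lit 152) (nat_lit 14016995059) (nat_lit 76) (nat_lit 33513400518) (nat_lit 6) (nat_lit 5) (nat_lit 8) (nat_lit 5) (nat_lit 7) (nat_lit 4) (nat_lit 287) (nat_lit 242) (nat_lit 191)) (XT.nd (nat_lit 78) (nat_lit 0) (nat_lit 0) (XT.lf (nat_lit 0) (nat_lit 1275441651) (nat_lit 76) (nat_lit 15341020224) (nat_lit 152) (nat_lit 44103024055) (nat_lit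 5) (nat_lit 5) (nat_lit 6) (nat_lit 5) (nat_lit 7) (nat_lit 4) (nat_lit 288) (nat_lit 242) (nat_lit 190)) (XT.lf (nat_lit 0) (nat_lit 18246039964) (nat_lit 76) (nat_lit 6670822688) (nat_lit 152) (nat_lit 40172420467) (nat_lit 5) (nat_lit 5) (nat_lit 6) (nat_lit 5) (nat_lit 7) (nat_lit 4) (nat_lit 289) (nat_lit 242) (nat_lit 189))))) (XT.nd (nat_lit 156) (nat_lit 76) (nat_lit 0) (XT.nd (nat_lit 78) (nat_lit 0) (nat_lit 0) (XT.lf (nat_lit 0) (nat_lit 33898980283) (nat_lit 152) (nat_lit 33319755997) (nat_lit 0) (nat_lit 2589073728) (nat_lit 5) (nat_lit 5) (nat_lit 7) (nat_lit 4) (nat_lit 5) (nat_lit 4) (nat_lit 290) (nat_lit 242) (nat_lit 188)) (XT.lf (nat_lit 0) (nat_lit 43689593708) (nat_lit 152) (nat_lit 18866995199) (nat_lit 0) (nat_lit 12342761750) (nat_lit 5) (nat_lit 5) (nat_lit 7) (nat_lit 4) (nat_lit 5) (nat_lit 4) (nat_lit 291) (nat_lit 242) (nat_lit 187))) (XT.nd (nat_lit 78)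 (nat_lit 76) (nat_lit 0) (XT.lf (nat_lit 0) (nat_lit 54242571141) (nat_lit 152) (nat_lit 3295164535) (nat_lit 0) (nat_lit 22861548995) (nat_lit 5) (nat_lit 5) (nat_lit 7) (nat_lit 4) (nat_lit 5) (nat_lit 4) (nat_lit 292) (nat_lit 242) (nat_lit 186)) (XT.nd (nat_lit 78) (nat_lit 0) (nat_lit 0) (XT.lf (nat_lit 0) (nat_lit 13933988150) (nat_lit 76) (nat_lit 51904009200) (nat_lit 76) (nat_lit 20491329471) (nat_lit 4) (nat_lit 4) (nat_lit 5) (nat_lit 5) (nat_lit 5) (nat_lit 4) (nat_lit 293) (nat_lit 242) (nat_lit 185)) (XT.lf (nat_lit 0) (nat_lit 32626238183) (nat_lit 76) (nat_lit 45773799810) (nat_lit 76) (nat_lit 14331807505) (nat_lit 4) (nat_lit 4) (nat_lit 5) (nat_lit 5) (nat_lit 5) (nat_lit 4) (nat_lit 294) (nat_lit 242) (nat_lit 184))))))))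
noncomputable def xc54 : XT := (XT.nd (nat_lit 1482) (nat_lit 0) (nat_lit 0) (XT.nd (nat_lit 702) (nat_lit 76) (nat_lit 0) (XT.nd (nat_lit 312) (nat_lit 76) (nat_lit 0) (XT.nd (nat_lit 156) (nat_lit 76) (nat_lit 0) (XT.nd (nat_lit 78) (nat_lit 0) (nat_lit 0) (XT.lf (nat_lit 0) (nat_lit 52783401431) (nat_lit 76) (nat_lit 39166585546) (nat_lit 76) (nat_lit 7697451967) (nat_lit 4) (nat_lit 4) (nat_lit 5) (nat_lit 5) (nat_lit 5) (nat_lit 4) (nat_lit 295) (nat_lit 242) (nat_lit 183)) (XT.lf (nat_lit 0) (nat_lit 74524927752) (nat_lit 76) (nat_lit 32043212545) (nat_lit 76) (nat_lit 548948157) (nat_lit 4) (nat_lit 4) (nat_lit 5) (nat_lit 5) (nat_lit 5) (nat_lit 4) (nat_lit 296) (nat_lit 242) (nat_lit 182))) (XT.nd (nat_lit 78) (nat_lit 0) (nat_lit 0) (XT.lf (nat_lit 0) (nat_lit 6927026645) (nat_lit 152) (nat_lit 17317129033) (nat_lit 76) (nat_lit 90935316625) (nat_lit 3) (nat_lit 5) (nat_lit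 5) (nat_lit 5) (nat_lit 4) (nat_lit 4) (nat_lit 297) (nat_lit 242) (nat_lit 181)) (XT.lf (nat_lit 0) (nat_lit 14968327621) (nat_lit 152) (nat_lit 854007649) (nat_lit 76) (nat_lit 108064753119) (nat_lit 3) (nat_lit 5) (nat_lit 5) (nat_lit 5) (nat_lit 4) (nat_lit 4) (nat_lit 298) (nat_lit 242) (nat_lit 180)))) (XT.nd (nat_lit 156) (nat_lit 0) (nat_lit 0) (XT.nd (nat_lit 78) (nat_lit 0) (nat_lit 0) (XT.lf (nat_lit 0) (nat_lit 17462233842) (nat_lit 76) (nat_lit 6450577261) (nat_lit 152) (nat_lit 109365523109) (nat_lit 2) (nat_lit 5) (nat_lit 3) (nat_lit 5) (nat_lit 4) (nat_lit 4) (nat_lit 299) (nat_lit 242) (nat_lit 179)) (XT.lf (nat_lit 0) (nat_lit 33632983501) (nat_lit 152) (nat_lit 106225729795) (nat_lit 0) (nat_lit 3559173200) (nat_lit 2) (nat_lit 5) (nat_lit 4) (nat_lit 4) (nat_lit 2) (nat_lit 4) (nat_lit 300) (nat_lit 242) (nat_lit 178))) (XT.nd (nat_lit 78) (nat_lit 0) (nat_lit 0)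 (XT.lf (nat_lit 0) (nat_lit 44228146290) (nat_lit 152) (nat_lit 95997553323) (nat_lit 0) (nat_lit 14138046840) (nat_lit 2) (nat_lit 5) (nat_lit 4) (nat_lit 4) (nat_lit 2) (nat_lit 4) (nat_lit 301) (nat_lit 242) (nat_lit 177)) (XT.nd (nat_lit 78) (nat_lit 0) (nat_lit 0) (XT.lf (nat_lit 0) (nat_lit 55660374032) (nat_lit 152) (nat_lit 84970247950) (nat_lit 0) (nat_lit 25555192036) (nat_lit 2) (nat_lit 5) (nat_lit 4) (nat_lit 4) (nat_lit 2) (nat_lit 4) (nat_lit 302) (nat_lit 242) (nat_lit 176)) (XT.lf (nat_lit 0) (nat_lit 67997413260) (nat_lit 152) (nat_lit 73078466681) (nat_lit 0) (nat_lit 37878265945) (nat_lit 2) (nat_lit 5) (nat_lit 4) (nat_lit 4) (nat_lit 2) (nat_lit 4) (nat_lit 303) (nat_lit 242) (nat_lit 175)))))) (XT.nd (nat_lit 390) (nat_lit 0) (nat_lit 0) (XT.nd (nat_lit 156) (nat_lit 76) (nat_lit 0) (XT.nd (nat_lit 78) (nat_lit 0) (nat_lit 0) (XT.lf (nat_lit 0) (nat_lit 81312372357)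 (nat_lit 152) (nat_lit 60251739702) (nat_lit 0) (nat_lit 51180294190) (nat_lit 2) (nat_lit 5) (nat_lit 4) (nat_lit 4) (nat_lit 2) (nat_lit 4) (nat_lit 304) (nat_lit 242) (nat_lit 174)) (XT.lf (nat_lit 0) (nat_lit 95684154783) (nat_lit 152) (nat_lit 46414056779) (nat_lit 0) (nat_lit 65540103605) (nat_lit 2) (nat_lit 5) (nat_lit 4) (nat_lit 4) (nat_lit 2) (nat_lit 4) (nat_lit 305) (nat_lit 242) (nat_lit 173))) (XT.nd (nat_lit 78) (nat_lit 76) (nat_lit 0) (XT.lf (nat_lit 0) (nat_lit 111197926657) (nat_lit 152) (nat_lit 31483416827) (nat_lit 0) (nat_lit 81042789357) (nat_lit 2) (nat_lit 5) (nat_lit 4) (nat_lit 4) (nat_lit 2) (nat_lit 4) (nat_lit 306) (nat_lit 242) (nat_lit 172)) (XT.nd (nat_lit 78) (nat_lit 76) (nat_lit 0) (XT.lf (nat_lit 0) (nat_lit 127945621440) (nat_lit 152) (nat_lit 15371341980) (nat_lit 0) (nat_lit 97780219214) (nat_lit 2) (nat_lit 5) (nat_lit 4) (nat_lit 4) (nat_lit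 2) (nat_lit 4) (nat_lit 307) (nat_lit 242) (nat_lit 171)) (XT.lf (nat_lit 0) (nat_lit 2084359236) (nat_lit 76) (nat_lit 143974668186) (nat_lit 76) (nat_lit 113799761397) (nat_lit 1) (nat_lit 4) (nat_lit 2) (nat_lit 5) (nat_lit 2) (nat_lit 4) (nat_lit 308) (nat_lit 242) (nat_lit 170))))) (XT.nd (nat_lit 156) (nat_lit 0) (nat_lit 0) (XT.nd (nat_lit 78) (nat_lit 0) (nat_lit 0) (XT.lf (nat_lit 0) (nat_lit 21473893853) (nat_lit 76) (nat_lit 144409036201) (nat_lit 76) (nat_lit 114225328892) (nat_lit 1) (nat_lit 4) (nat_lit 2) (nat_lit 5) (nat_lit 2) (nat_lit 4) (nat_lit 309) (nat_lit 242) (nat_lit 169)) (XT.lf (nat_lit 0) (nat_lit 42403916833) (nat_lit 76) (nat_lit 144882962613) (nat_lit 76) (nat_lit 114691106674) (nat_lit 1) (nat_lit 4) (nat_lit 2) (nat_lit 5) (nat_lit 2) (nat_lit 4) (nat_lit 310) (nat_lit 242) (nat_lit 168))) (XT.nd (nat_lit 78) (nat_lit 0) (nat_lit 0) (XT.lf (nat_lit 0)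 (nat_lit 64998457941) (nat_lit 76) (nat_lit 145399255875) (nat_lit 76) (nat_lit 115199854908) (nat_lit 1) (nat_lit 4) (nat_lit 2) (nat_lit 5) (nat_lit 2) (nat_lit 4) (nat_lit 311) (nat_lit 242) (nat_lit 167)) (XT.nd (nat_lit 78) (nat_lit 0) (nat_lit 0) (XT.lf (nat_lit 0) (nat_lit 89391410753) (nat_lit 76) (nat_lit 145960975502) (nat_lit 76) (nat_lit 115754588398) (nat_lit 1) (nat_lit 4) (nat_lit 2) (nat_lit 5) (nat_lit 2) (nat_lit 4) (nat_lit 312) (nat_lit 242) (nat_lit 166)) (XT.lf (nat_lit 0) (nat_lit 115727326101) (nat_lit 76) (nat_lit 146571450203) (nat_lit 76) (nat_lit 116358594454) (nat_lit 1) (nat_lit 4) (nat_lit 2) (nat_lit 5) (nat_lit 2) (nat_lit 4) (nat_lit 313) (nat_lit 242) (nat_lit 165))))))) (XT.nd (nat_lit 780) (nat_lit 0) (nat_lit 0) (XT.nd (nat_lit 390) (nat_lit 0) (nat_lit 0) (XT.nd (nat_lit 156) (nat_lit 0) (nat_lit 0) (XT.nd (nat_lit 78) (nat_lit 0) (nat_lit 0) (XT.lf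 (nat_lit 0) (nat_lit 144162268670) (nat_lit 76) (nat_lit 147234297606) (nat_lit 76) (nat_lit 117015452371) (nat_lit 1) (nat_lit 4) (nat_lit 2) (nat_lit 5) (nat_lit 2) (nat_lit 4) (nat_lit 314) (nat_lit 242) (nat_lit 164)) (XT.lf (nat_lit 0) (nat_lit 174864741821) (nat_lit 76) (nat_lit 147953445696) (nat_lit 76) (nat_lit 117729054640) (nat_lit 1) (nat_lit 4) (nat_lit 2) (nat_lit 5) (nat_lit 2) (nat_lit 4) (nat_lit 315) (nat_lit 242) (nat_lit 163))) (XT.nd (nat_lit 78) (nat_lit 0) (nat_lit 0) (XT.lf (nat_lit 0) (nat_lit 208016686138) (nat_lit 76) (nat_lit 148733156090) (nat_lit 76) (nat_lit 118503630015) (nat_lit 1) (nat_lit 4) (nat_lit 2) (nat_lit 5) (nat_lit 2) (nat_lit 4) (nat_lit 316) (nat_lit 242) (nat_lit 162)) (XT.nd (nat_lit 78) (nat_lit 0) (nat_lit 0) (XT.lf (nat_lit 0) (nat_lit 243814557586) (nat_lit 76) (nat_lit 149578049296) (nat_lit 76) (nat_lit 119343768573) (nat_lit 1) (nat_lit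 4) (nat_lit 2) (nat_lit 5) (nat_lit 2) (nat_lit 4) (nat_lit 317) (nat_lit 242) (nat_lit 161)) (XT.lf (nat_lit 0) (nat_lit 282470491699) (nat_lit 76) (nat_lit 150493132087) (nat_lit 76) (nat_lit 120254448913) (nat_lit 1) (nat_lit 4) (nat_lit 2) (nat_lit 5) (nat_lit 2) (nat_lit 4) (nat_lit 318) (nat_lit 242) (nat_lit 160))))) (XT.nd (nat_lit 156) (nat_lit 0) (nat_lit 0) (XT.nd (nat_lit 78) (nat_lit 0) (nat_lit 0) (XT.lf (nat_lit 0) (nat_lit 324213560680) (nat_lit 76) (nat_lit 151483827177) (nat_lit 76) (nat_lit 121241067659) (nat_lit 1) (nat_lit 4) (nat_lit 2) (nat_lit 5) (nat_lit 2) (nat_lit 4) (nat_lit 319) (nat_lit 242) (nat_lit 159)) (XT.lf (nat_lit 0) (nat_lit 369291130864) (nat_lit 76) (nat_lit 152556005350) (nat_lit 76) (nat_lit 122309471440) (nat_lit 1) (nat_lit 4) (nat_lit 2) (nat_lit 5) (nat_lit 2) (nat_lit 4) (nat_lit 320) (nat_lit 242) (nat_lit 158))) (XT.nd (nat_lit 78) (nat_lit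 0) (nat_lit 0) (XT.lf (nat_lit 0) (nat_lit 417970328592) (nat_lit 76) (nat_lit 153716020256) (nat_lit 76) (nat_lit 123465991539) (nat_lit 1) (nat_lit 4) (nat_lit 2) (nat_lit 5) (nat_lit 2) (nat_lit 4) (nat_lit 321) (nat_lit 242) (nat_lit 157)) (XT.nd (nat_lit 78) (nat_lit 0) (nat_lit 0) (XT.lf (nat_lit 0) (nat_lit 470539623184) (nat_lit 76) (nat_lit 154970746057) (nat_lit 76) (nat_lit 124717481407) (nat_lit 1) (nat_lit 4) (nat_lit 2) (nat_lit 5) (nat_lit 2) (nat_lit 4) (nat_lit 322) (nat_lit 242) (nat_lit 156)) (XT.lf (nat_lit 0) (nat_lit 527310536386) (nat_lit 76) (nat_lit 156327618166) (nat_lit 76) (nat_lit 126071357281) (nat_lit 1) (nat_lit 4) (nat_lit 2) (nat_lit 5) (nat_lit 2) (nat_lit 4) (nat_lit 323) (nat_lit 242) (nat_lit 155)))))) (XT.nd (nat_lit 31434) (nat_lit 0) (nat_lit 6688) (XT.nd (nat_lit 31200) (nat_lit 0) (nat_lit 7524) (XT.nd (nat_lit 78) (nat_lit 0) (nat_lit 0) (XT.lf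 (nat_lit 0) (nat_lit 588619488425) (nat_lit 76) (nat_lit 157794677304) (nat_lit 76) (nat_lit 127535642128) (nat_lit 1) (nat_lit 4) (nat_lit 2) (nat_lit 5) (nat_lit 2) (nat_lit 4) (nat_lit 324) (nat_lit 242) (nat_lit 154)) (XT.lf (nat_lit 0) (nat_lit 654829791608) (nat_lit 76) (nat_lit 159380617158) (nat_lit 76) (nat_lit 129119013194) (nat_lit 1) (nat_lit 4) (nat_lit 2) (nat_lit 5) (nat_lit 2) (nat_lit 4) (nat_lit 325) (nat_lit 242) (nat_lit 153))) (XT.nd (nat_lit 78) (nat_lit 380) (nat_lit 0) (XT.lf (nat_lit 0) (nat_lit 1580655561) (nat_lit 380) (nat_lit 887767520) (nat_lit 380) (nat_lit 887767520) (nat_lit 105) (nat_lit 3) (nat_lit 110) (nat_lit 3) (nat_lit 110) (nat_lit 5) (nat_lit 243) (nat_lit 243) (nat_lit 234)) (XT.nd (nat_lit 78) (nat_lit 380) (nat_lit 0) (XT.lf (nat_lit 76) (nat_lit 2980896467) (nat_lit 0) (nat_lit 3352511241) (nat_lit 380) (nat_lit 479184042) (nat_lit 106) (nat_lit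 5) (nat_lit 105) (nat_lit 3) (nat_lit 110) (nat_lit 5) (nat_lit 244) (nat_lit 243) (nat_lit 233)) (XT.lf (nat_lit 76) (nat_lit 1076288356) (nat_lit 0) (nat_lit 1410436962) (nat_lit 456) (nat_lit 4446446761) (nat_lit 101) (nat_lit 5) (nat_lit 100) (nat_lit 5) (nat_lit 106) (nat_lit 5) (nat_lit 245) (nat_lit 243) (nat_lit 232))))) (XT.nd (nat_lit 156) (nat_lit 456) (nat_lit 0) (XT.nd (nat_lit 78) (nat_lit 456) (nat_lit 0) (XT.lf (nat_lit 0) (nat_lit 5464961601) (nat_lit 380) (nat_lit 751658856) (nat_lit 456) (nat_lit 858205315) (nat_lit 101) (nat_lit 5) (nat_lit 106) (nat_lit 5) (nat_lit 107) (nat_lit 5) (nat_lit 246) (nat_lit 243) (nat_lit 231)) (XT.lf (nat_lit 0) (nat_lit 1234838882) (nat_lit 456) (nat_lit 2539958406) (nat_lit 532) (nat_lit 3461738723) (nat_lit 95) (nat_lit 5) (nat_lit 101) (nat_lit 5) (nat_lit 102) (nat_lit 5) (nat_lit 247) (nat_lit 243) (nat_lit 230))) (XT.nd (nat_lit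 78) (nat_lit 456) (nat_lit 0) (XT.lf (nat_lit 76) (nat_lit 3094898449) (nat_lit 0) (nat_lit 964377582) (nat_lit 532) (nat_lit 3361312274) (nat_lit 96) (nat_lit 5) (nat_lit 95) (nat_lit 5) (nat_lit 102) (nat_lit 5) (nat_lit 248) (nat_lit 243) (nat_lit 229)) (XT.nd (nat_lit 78) (nat_lit 76) (nat_lit 0) (XT.lf (nat_lit 0) (nat_lit 1488378197) (nat_lit 456) (nat_lit 5485328002) (nat_lit 532) (nat_lit 653524072) (nat_lit 90) (nat_lit 5) (nat_lit 96) (nat_lit 5) (nat_lit 97) (nat_lit 5) (nat_lit 249) (nat_lit 243) (nat_lit 228)) (XT.lf (nat_lit 0) (nat_lit 2064785488) (nat_lit 532) (nat_lit 158428088) (nat_lit 76) (nat_lit 5633029488) (nat_lit 89) (nat_lit 5) (nat_lit 96) (nat_lit 5) (nat_lit 90) (nat_lit 5) (nat_lit 250) (nat_lit 243) (nat_lit 227))))))))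
noncomputable def xc55 : XT := (XT.nd (nat_lit 1482) (nat_lit 1292) (nat_lit 0) (XT.nd (nat_lit 702) (nat_lit 1520) (nat_lit 0) (XT.nd (nat_lit 312) (nat_lit 1368) (nat_lit 0) (XT.nd (nat_lit 156) (nat_lit 1064) (nat_lit 0) (XT.nd (nat_lit 78) (nat_lit 608) (nat_lit 0) (XT.lf (nat_lit 0) (nat_lit 4889954627) (nat_lit 608) (nat_lit 1807839736) (nat_lit 76) (nat_lit 1410503825) (nat_lit 82) (nat_lit 5) (nat_lit 90) (nat_lit 5) (nat_lit 83) (nat_lit 5) (nat_lit 251) (nat_lit 243) (nat_lit 226)) (XT.lf (nat_lit 0) (nat_lit 4847550774) (nat_lit 608) (nat_lit 3013641169) (nat_lit 684) (nat_lit 524130026) (nat_lit 74) (nat_lit 5) (nat_lit 82) (nat_lit 5) (nat_lit 83) (nat_lit 5) (nat_lit 252) (nat_lit 243) (nat_lit 225))) (XT.nd (nat_lit 78) (nat_lit 304) (nat_lit 0) (XT.lf (nat_lit 0) (nat_lit 2222630120) (nat_lit 760) (nat_lit 5391425140) (nat_lit 76) (nat_lit 1073633486) (nat_lit 64) (nat_lit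 5) (nat_lit 74) (nat_lit 5) (nat_lit 65) (nat_lit 5) (nat_lit 253) (nat_lit 243) (nat_lit 224)) (XT.lf (nat_lit 0) (nat_lit 1609930990) (nat_lit 304) (nat_lit 3523515774) (nat_lit 380) (nat_lit 3882893466) (nat_lit 60) (nat_lit 5) (nat_lit 64) (nat_lit 5) (nat_lit 65) (nat_lit 5) (nat_lit 254) (nat_lit 243) (nat_lit 223)))) (XT.nd (nat_lit 156) (nat_lit 912) (nat_lit 0) (XT.nd (nat_lit 78) (nat_lit 456) (nat_lit 0) (XT.lf (nat_lit 0) (nat_lit 8220856045) (nat_lit 380) (nat_lit 192663931) (nat_lit 76) (nat_lit 961187592) (nat_lit 60) (nat_lit 5) (nat_lit 65) (nat_lit 5) (nat_lit 61) (nat_lit 5) (nat_lit 255) (nat_lit 243) (nat_lit 222)) (XT.lf (nat_lit 0) (nat_lit 1760956691) (nat_lit 456) (nat_lit 2168341266) (nat_lit 76) (nat_lit 5830341927) (nat_lit 54) (nat_lit 5) (nat_lit 60) (nat_lit 5) (nat_lit 55) (nat_lit 5) (nat_lit 256) (nat_lit 243) (nat_lit 221))) (XT.nd (nat_lit 78) (nat_lit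 608) (nat_lit 0) (XT.lf (nat_lit 0) (nat_lit 4832206252) (nat_lit 380) (nat_lit 4356417510) (nat_lit 76) (nat_lit 988111297) (nat_lit 50) (nat_lit 5) (nat_lit 55) (nat_lit 5) (nat_lit 51) (nat_lit 5) (nat_lit 257) (nat_lit 243) (nat_lit 220)) (XT.nd (nat_lit 78) (nat_lit 304) (nat_lit 0) (XT.lf (nat_lit 0) (nat_lit 3794618087) (nat_lit 304) (nat_lit 4379392998) (nat_lit 380) (nat_lit 2452405253) (nat_lit 46) (nat_lit 5) (nat_lit 50) (nat_lit 5) (nat_lit 51) (nat_lit 5) (nat_lit 258) (nat_lit 243) (nat_lit 219)) (XT.lf (nat_lit 0) (nat_lit 631007757) (nat_lit 304) (nat_lit 9603691410) (nat_lit 76) (nat_lit 878185896) (nat_lit 42) (nat_lit 5) (nat_lit 46) (nat_lit 5) (nat_lit 43) (nat_lit 5) (nat_lit 259) (nat_lit 243) (nat_lit 218)))))) (XT.nd (nat_lit 390) (nat_lit 760) (nat_lit 0) (XT.nd (nat_lit 156) (nat_lit 532) (nat_lit 0) (XT.nd (nat_lit 78) (nat_lit 228) (nat_lit 0) (XT.lf (nat_lit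 0) (nat_lit 3944585264) (nat_lit 304) (nat_lit 1145485573) (nat_lit 76) (nat_lit 6543096311) (nat_lit 42) (nat_lit 5) (nat_lit 46) (nat_lit 5) (nat_lit 43) (nat_lit 5) (nat_lit 260) (nat_lit 243) (nat_lit 217)) (XT.lf (nat_lit 0) (nat_lit 7541498598) (nat_lit 304) (nat_lit 4100917368) (nat_lit 76) (nat_lit 552092075) (nat_lit 39) (nat_lit 5) (nat_lit 43) (nat_lit 5) (nat_lit 40) (nat_lit 5) (nat_lit 261) (nat_lit 243) (nat_lit 216))) (XT.nd (nat_lit 78) (nat_lit 304) (nat_lit 0) (XT.lf (nat_lit 0) (nat_lit 5249964026) (nat_lit 228) (nat_lit 6253163907) (nat_lit 304) (nat_lit 1294103019) (nat_lit 36) (nat_lit 5) (nat_lit 39) (nat_lit 5) (nat_lit 40) (nat_lit 5) (nat_lit 262) (nat_lit 243) (nat_lit 215)) (XT.nd (nat_lit 78) (nat_lit 0) (nat_lit 0) (XT.lf (nat_lit 0) (nat_lit 1932629417) (nat_lit 228) (nat_lit 321923076) (nat_lit 304) (nat_lit 11192296120) (nat_lit 32) (nat_lit 5) (nat_lit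 35) (nat_lit 5) (nat_lit 36) (nat_lit 5) (nat_lit 263) (nat_lit 243) (nat_lit 214)) (XT.lf (nat_lit 0) (nat_lit 6169178407) (nat_lit 304) (nat_lit 1961370393) (nat_lit 76) (nat_lit 6010718942) (nat_lit 32) (nat_lit 5) (nat_lit 36) (nat_lit 5) (nat_lit 33) (nat_lit 5) (nat_lit 264) (nat_lit 243) (nat_lit 213))))) (XT.nd (nat_lit 156) (nat_lit 380) (nat_lit 0) (XT.nd (nat_lit 78) (nat_lit 228) (nat_lit 0) (XT.lf (nat_lit 0) (nat_lit 8491528114) (nat_lit 152) (nat_lit 1949193364) (nat_lit 228) (nat_lit 4448575683) (nat_lit 30) (nat_lit 5) (nat_lit 32) (nat_lit 5) (nat_lit 33) (nat_lit 5) (nat_lit 265) (nat_lit 243) (nat_lit 212)) (XT.lf (nat_lit 0) (nat_lit 4082558359) (nat_lit 228) (nat_lit 11053910914) (nat_lit 304) (nat_lit 556801632) (nat_lit 27) (nat_lit 5) (nat_lit 30) (nat_lit 5) (nat_lit 31) (nat_lit 5) (nat_lit 266) (nat_lit 243) (nat_lit 211))) (XT.nd (nat_lit 78) (nat_lit 304)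 (nat_lit 0) (XT.lf (nat_lit 0) (nat_lit 3589094197) (nat_lit 304) (nat_lit 1144288032) (nat_lit 76) (nat_lit 11822558949) (nat_lit 26) (nat_lit 5) (nat_lit 30) (nat_lit 5) (nat_lit 27) (nat_lit 5) (nat_lit 267) (nat_lit 243) (nat_lit 210)) (XT.nd (nat_lit 78) (nat_lit 152) (nat_lit 0) (XT.lf (nat_lit 0) (nat_lit 8163907455) (nat_lit 228) (nat_lit 7153451513) (nat_lit 76) (nat_lit 2164156600) (nat_lit 24) (nat_lit 5) (nat_lit 27) (nat_lit 5) (nat_lit 25) (nat_lit 5) (nat_lit 268) (nat_lit 243) (nat_lit 209)) (XT.lf (nat_lit 0) (nat_lit 4218396387) (nat_lit 152) (nat_lit 8975641445) (nat_lit 228) (nat_lit 5282802362) (nat_lit 22) (nat_lit 5) (nat_lit 24) (nat_lit 5) (nat_lit 25) (nat_lit 5) (nat_lit 269) (nat_lit 243) (nat_lit 208))))))) (XT.nd (nat_lit 780) (nat_lit 532) (nat_lit 0) (XT.nd (nat_lit 390) (nat_lit 304) (nat_lit 0) (XT.nd (nat_lit 156) (nat_lit 228) (nat_lit 0) (XT.nd (nat_lit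 78) (nat_lit 228) (nat_lit 0) (XT.lf (nat_lit 0) (nat_lit 16645049352) (nat_lit 152) (nat_lit 2033486585) (nat_lit 228) (nat_lit 870815218) (nat_lit 22) (nat_lit 5) (nat_lit 24) (nat_lit 5) (nat_lit 25) (nat_lit 5) (nat_lit 270) (nat_lit 243) (nat_lit 207)) (XT.lf (nat_lit 0) (nat_lit 3937423050) (nat_lit 228) (nat_lit 11292238289) (nat_lit 76) (nat_lit 5466704840) (nat_lit 19) (nat_lit 5) (nat_lit 22) (nat_lit 5) (nat_lit 20) (nat_lit 5) (nat_lit 271) (nat_lit 243) (nat_lit 206))) (XT.nd (nat_lit 78) (nat_lit 76) (nat_lit 0) (XT.lf (nat_lit 0) (nat_lit 739288194) (nat_lit 152) (nat_lit 8392632973) (nat_lit 228) (nat_lit 12801031155) (nat_lit 17) (nat_lit 5) (nat_lit 19) (nat_lit 5) (nat_lit 20) (nat_lit 5) (nat_lit 272) (nat_lit 243) (nat_lit 205)) (XT.nd (nat_lit 78) (nat_lit 76) (nat_lit 0) (XT.lf (nat_lit 0) (nat_lit 14038147794) (nat_lit 152) (nat_lit 838304494) (nat_lit 228) (nat_lit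 8385409037) (nat_lit 17) (nat_lit 5) (nat_lit 19) (nat_lit 5) (nat_lit 20) (nat_lit 5) (nat_lit 273) (nat_lit 243) (nat_lit 204)) (XT.lf (nat_lit 0) (nat_lit 3611524493) (nat_lit 76) (nat_lit 17581554892) (nat_lit 152) (nat_lit 3498487754) (nat_lit 16) (nat_lit 5) (nat_lit 17) (nat_lit 5) (nat_lit 18) (nat_lit 4) (nat_lit 274) (nat_lit 243) (nat_lit 203))))) (XT.nd (nat_lit 156) (nat_lit 76) (nat_lit 0) (XT.nd (nat_lit 78) (nat_lit 152) (nat_lit 0) (XT.lf (nat_lit 0) (nat_lit 1843636356) (nat_lit 152) (nat_lit 8560706556) (nat_lit 76) (nat_lit 15823955092) (nat_lit 15) (nat_lit 5) (nat_lit 17) (nat_lit 5) (nat_lit 16) (nat_lit 5) (nat_lit 275) (nat_lit 243) (nat_lit 202)) (XT.lf (nat_lit 0) (nat_lit 4975719658) (nat_lit 152) (nat_lit 2542090438) (nat_lit 228) (nat_lit 20366017587) (nat_lit 13) (nat_lit 5) (nat_lit 15) (nat_lit 5) (nat_lit 16) (nat_lit 5) (nat_lit 276) (nat_lit 243) (nat_lit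 201))) (XT.nd (nat_lit 78) (nat_lit 76) (nat_lit 0) (XT.lf (nat_lit 0) (nat_lit 13840392640) (nat_lit 228) (nat_lit 9942014296) (nat_lit 76) (nat_lit 5879752795) (nat_lit 13) (nat_lit 5) (nat_lit 16) (nat_lit 5) (nat_lit 14) (nat_lit 4) (nat_lit 277) (nat_lit 243) (nat_lit 200)) (XT.nd (nat_lit 78) (nat_lit 0) (nat_lit 0) (XT.lf (nat_lit 0) (nat_lit 4071880760) (nat_lit 76) (nat_lit 16657066113) (nat_lit 152) (nat_lit 10850880756) (nat_lit 12) (nat_lit 5) (nat_lit 13) (nat_lit 5) (nat_lit 14) (nat_lit 4) (nat_lit 278) (nat_lit 243) (nat_lit 199)) (XT.lf (nat_lit 0) (nat_lit 19488310095) (nat_lit 76) (nat_lit 8809464603) (nat_lit 152) (nat_lit 5346746593) (nat_lit 12) (nat_lit 5) (nat_lit 13) (nat_lit 5) (nat_lit 14) (nat_lit 4) (nat_lit 279) (nat_lit 243) (nat_lit 198)))))) (XT.nd (nat_lit 390) (nat_lit 228) (nat_lit 0) (XT.nd (nat_lit 156) (nat_lit 76) (nat_lit 0) (XT.nd (nat_lit 78)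 (nat_lit 0) (nat_lit 0) (XT.lf (nat_lit 0) (nat_lit 190854033) (nat_lit 152) (nat_lit 349245781) (nat_lit 228) (nat_lit 35335811729) (nat_lit 9) (nat_lit 5) (nat_lit 11) (nat_lit 5) (nat_lit 12) (nat_lit 5) (nat_lit 280) (nat_lit 243) (nat_lit 197)) (XT.lf (nat_lit 0) (nat_lit 7061052308) (nat_lit 228) (nat_lit 22381854140) (nat_lit 76) (nat_lit 8821058493) (nat_lit 9) (nat_lit 5) (nat_lit 12) (nat_lit 5) (nat_lit 10) (nat_lit 4) (nat_lit 281) (nat_lit 243) (nat_lit 196))) (XT.nd (nat_lit 78) (nat_lit 76) (nat_lit 0) (XT.lf (nat_lit 0) (nat_lit 14072663812) (nat_lit 228) (nat_lit 8083402404) (nat_lit 76) (nat_lit 18688601535) (nat_lit 9) (nat_lit 5) (nat_lit 12) (nat_lit 5) (nat_lit 10) (nat_lit 4) (nat_lit 282) (nat_lit 243) (nat_lit 195)) (XT.nd (nat_lit 78) (nat_lit 0) (nat_lit 0) (XT.lf (nat_lit 0) (nat_lit 7541868873) (nat_lit 76) (nat_lit 14186912746) (nat_lit 152) (nat_lit 21898916556)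 (nat_lit 8) (nat_lit 5) (nat_lit 9) (nat_lit 5) (nat_lit 10) (nat_lit 4) (nat_lit 283) (nat_lit 243) (nat_lit 194)) (XT.lf (nat_lit 0) (nat_lit 24649913926) (nat_lit 76) (nat_lit 5455768724) (nat_lit 152) (nat_lit 16522320227) (nat_lit 8) (nat_lit 5) (nat_lit 9) (nat_lit 5) (nat_lit 10) (nat_lit 4) (nat_lit 284) (nat_lit 243) (nat_lit 193))))) (XT.nd (nat_lit 156) (nat_lit 152) (nat_lit 0) (XT.nd (nat_lit 78) (nat_lit 76) (nat_lit 0) (XT.lf (nat_lit 0) (nat_lit 39184335414) (nat_lit 152) (nat_lit 6856745411) (nat_lit 0) (nat_lit 3825714239) (nat_lit 8) (nat_lit 5) (nat_lit 10) (nat_lit 4) (nat_lit 8) (nat_lit 4) (nat_lit 285) (nat_lit 243) (nat_lit 192)) (XT.lf (nat_lit 0) (nat_lit 9641862266) (nat_lit 76) (nat_lit 39561760376) (nat_lit 76) (nat_lit 4150390767) (nat_lit 7) (nat_lit 4) (nat_lit 8) (nat_lit 5) (nat_lit 8) (nat_lit 4) (nat_lit 286) (nat_lit 243) (nat_lit 191))) (XT.nd (nat_lit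 78) (nat_lit 76) (nat_lit 0) (XT.lf (nat_lit 0) (nat_lit 2905379217) (nat_lit 152) (nat_lit 29504183356) (nat_lit 76) (nat_lit 24703710186) (nat_lit 6) (nat_lit 5) (nat_lit 8) (nat_lit 5) (nat_lit 7) (nat_lit 4) (nat_lit 287) (nat_lit 243) (nat_lit 190)) (XT.nd (nat_lit 78) (nat_lit 76) (nat_lit 0) (XT.lf (nat_lit 0) (nat_lit 10356859569) (nat_lit 152) (nat_lit 14273871915) (nat_lit 76) (nat_lit 36540339078) (nat_lit 6) (nat_lit 5) (nat_lit 8) (nat_lit 5) (nat_lit 7) (nat_lit 4) (nat_lit 288) (nat_lit 243) (nat_lit 189)) (XT.lf (nat_lit 0) (nat_lit 2204390366) (nat_lit 76) (nat_lit 16211071978) (nat_lit 152) (nat_lit 47137509809) (nat_lit 5) (nat_lit 5) (nat_lit 6) (nat_lit 5) (nat_lit 7) (nat_lit 4) (nat_lit 289) (nat_lit 243) (nat_lit 188))))))))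
noncomputable def xc56 : XT := (XT.nd (nat_lit 1482) (nat_lit 76) (nat_lit 0) (XT.nd (nat_lit 702) (nat_lit 76) (nat_lit 0) (XT.nd (nat_lit 312) (nat_lit 152) (nat_lit 0) (XT.nd (nat_lit 156) (nat_lit 0) (nat_lit 0) (XT.nd (nat_lit 78) (nat_lit 0) (nat_lit 0) (XT.lf (nat_lit 0) (nat_lit 20471383700) (nat_lit 76) (nat_lit 6873720111) (nat_lit 152) (nat_lit 42929032465) (nat_lit 5) (nat_lit 5) (nat_lit 6) (nat_lit 5) (nat_lit 7) (nat_lit 4) (nat_lit 290) (nat_lit 243) (nat_lit 187)) (XT.lf (nat_lit 0) (nat_lit 37018358306) (nat_lit 152) (nat_lit 35260534801) (nat_lit 0) (nat_lit 3092664198) (nat_lit 5) (nat_lit 5) (nat_lit 7) (nat_lit 4) (nat_lit 5) (nat_lit 4) (nat_lit 291) (nat_lit 243) (nat_lit 186))) (XT.nd (nat_lit 78) (nat_lit 0) (nat_lit 0) (XT.lf (nat_lit 0) (nat_lit 47562038612) (nat_lit 152) (nat_lit 19705242152) (nat_lit 0) (nat_lit 13604686923) (nat_lit 5) (nat_lit 5) (nat_lit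 7) (nat_lit 4) (nat_lit 5) (nat_lit 4) (nat_lit 292) (nat_lit 243) (nat_lit 185)) (XT.lf (nat_lit 0) (nat_lit 58931307766) (nat_lit 152) (nat_lit 2937377084) (nat_lit 0) (nat_lit 24944643501) (nat_lit 5) (nat_lit 5) (nat_lit 7) (nat_lit 4) (nat_lit 5) (nat_lit 4) (nat_lit 293) (nat_lit 243) (nat_lit 184)))) (XT.nd (nat_lit 156) (nat_lit 76) (nat_lit 0) (XT.nd (nat_lit 78) (nat_lit 0) (nat_lit 0) (XT.lf (nat_lit 0) (nat_lit 15643102502) (nat_lit 76) (nat_lit 55794669380) (nat_lit 76) (nat_lit 21780863841) (nat_lit 4) (nat_lit 4) (nat_lit 5) (nat_lit 5) (nat_lit 5) (nat_lit 4) (nat_lit 294) (nat_lit 243) (nat_lit 183)) (XT.lf (nat_lit 0) (nat_lit 35786703256) (nat_lit 76) (nat_lit 49193425503) (nat_lit 76) (nat_lit 15154489154) (nat_lit 4) (nat_lit 4) (nat_lit 5) (nat_lit 5) (nat_lit 5) (nat_lit 4) (nat_lit 295) (nat_lit 243) (nat_lit 182))) (XT.nd (nat_lit 78) (nat_lit 76) (nat_lit 0)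 (XT.lf (nat_lit 0) (nat_lit 57515671711) (nat_lit 76) (nat_lit 42075580638) (nat_lit 76) (nat_lit 8013375021) (nat_lit 4) (nat_lit 4) (nat_lit 5) (nat_lit 5) (nat_lit 5) (nat_lit 4) (nat_lit 296) (nat_lit 243) (nat_lit 181)) (XT.nd (nat_lit 78) (nat_lit 76) (nat_lit 0) (XT.lf (nat_lit 0) (nat_lit 80958772125) (nat_lit 76) (nat_lit 34398954963) (nat_lit 76) (nat_lit 315203728) (nat_lit 4) (nat_lit 4) (nat_lit 5) (nat_lit 5) (nat_lit 5) (nat_lit 4) (nat_lit 297) (nat_lit 243) (nat_lit 180)) (XT.lf (nat_lit 0) (nat_lit 7730053052) (nat_lit 152) (nat_lit 18257092123) (nat_lit 76) (nat_lit 98393961332) (nat_lit 3) (nat_lit 5) (nat_lit 5) (nat_lit 5) (nat_lit 4) (nat_lit 4) (nat_lit 298) (nat_lit 243) (nat_lit 179)))))) (XT.nd (nat_lit 390) (nat_lit 0) (nat_lit 0) (XT.nd (nat_lit 156) (nat_lit 0) (nat_lit 0) (XT.nd (nat_lit 78) (nat_lit 76) (nat_lit 0) (XT.lf (nat_lit 0) (nat_lit 16396223716)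 (nat_lit 152) (nat_lit 509914157) (nat_lit 76) (nat_lit 116880136495) (nat_lit 3) (nat_lit 5) (nat_lit 5) (nat_lit 5) (nat_lit 4) (nat_lit 4) (nat_lit 299) (nat_lit 243) (nat_lit 178)) (XT.lf (nat_lit 0) (nat_lit 19253703639) (nat_lit 76) (nat_lit 6791652469) (nat_lit 152) (nat_lit 117884028467) (nat_lit 2) (nat_lit 5) (nat_lit 3) (nat_lit 5) (nat_lit 4) (nat_lit 4) (nat_lit 300) (nat_lit 243) (nat_lit 177))) (XT.nd (nat_lit 78) (nat_lit 0) (nat_lit 0) (XT.lf (nat_lit 0) (nat_lit 36529410981) (nat_lit 152) (nat_lit 114350662552) (nat_lit 0) (nat_lit 4000731880) (nat_lit 2) (nat_lit 5) (nat_lit 4) (nat_lit 4) (nat_lit 2) (nat_lit 4) (nat_lit 301) (nat_lit 243) (nat_lit 176)) (XT.nd (nat_lit 78) (nat_lit 0) (nat_lit 0) (XT.lf (nat_lit 0) (nat_lit 47956943178) (nat_lit 152) (nat_lit 103331870897) (nat_lit 0) (nat_lit 15414298757) (nat_lit 2) (nat_lit 5) (nat_lit 4) (nat_lit 4) (nat_lit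 2) (nat_lit 4) (nat_lit 302) (nat_lit 243) (nat_lit 175)) (XT.lf (nat_lit 0) (nat_lit 60289634681) (nat_lit 152) (nat_lit 91447972701) (nat_lit 0) (nat_lit 27734059408) (nat_lit 2) (nat_lit 5) (nat_lit 4) (nat_lit 4) (nat_lit 2) (nat_lit 4) (nat_lit 303) (nat_lit 243) (nat_lit 174))))) (XT.nd (nat_lit 156) (nat_lit 0) (nat_lit 0) (XT.nd (nat_lit 78) (nat_lit 0) (nat_lit 0) (XT.lf (nat_lit 0) (nat_lit 73600568105) (nat_lit 152) (nat_lit 78628544863) (nat_lit 0) (nat_lit 41033019822) (nat_lit 2) (nat_lit 5) (nat_lit 4) (nat_lit 4) (nat_lit 2) (nat_lit 4) (nat_lit 304) (nat_lit 243) (nat_lit 173)) (XT.lf (nat_lit 0) (nat_lit 87968623057) (nat_lit 152) (nat_lit 64797620404) (nat_lit 0) (nat_lit 55389988652) (nat_lit 2) (nat_lit 5) (nat_lit 4) (nat_lit 4) (nat_lit 2) (nat_lit 4) (nat_lit 305) (nat_lit 243) (nat_lit 172))) (XT.nd (nat_lit 78) (nat_lit 0) (nat_lit 0) (XT.lf (nat_lit 0) (nat_lit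 103478943565) (nat_lit 152) (nat_lit 49873238289) (nat_lit 0) (nat_lit 70890044233) (nat_lit 2) (nat_lit 5) (nat_lit 4) (nat_lit 4) (nat_lit 2) (nat_lit 4) (nat_lit 306) (nat_lit 243) (nat_lit 171)) (XT.nd (nat_lit 78) (nat_lit 0) (nat_lit 0) (XT.lf (nat_lit 0) (nat_lit 120223442640) (nat_lit 152) (nat_lit 33766957736) (nat_lit 0) (nat_lit 87625038746) (nat_lit 2) (nat_lit 5) (nat_lit 4) (nat_lit 4) (nat_lit 2) (nat_lit 4) (nat_lit 307) (nat_lit 243) (nat_lit 170)) (XT.lf (nat_lit 0) (nat_lit 138301346944) (nat_lit 152) (nat_lit 16383334118) (nat_lit 0) (nat_lit 105694142529) (nat_lit 2) (nat_lit 5) (nat_lit 4) (nat_lit 4) (nat_lit 2) (nat_lit 4) (nat_lit 308) (nat_lit 243) (nat_lit 169))))))) (XT.nd (nat_lit 702) (nat_lit 0) (nat_lit 0) (XT.nd (nat_lit 312) (nat_lit 0) (nat_lit 0) (XT.nd (nat_lit 156) (nat_lit 0) (nat_lit 0) (XT.nd (nat_lit 78) (nat_lit 0) (nat_lit 0) (XT.lf (nat_lit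 0) (nat_lit 2459361556) (nat_lit 76) (nat_lit 155398820766) (nat_lit 76) (nat_lit 122783467722) (nat_lit 1) (nat_lit 4) (nat_lit 2) (nat_lit 5) (nat_lit 2) (nat_lit 4) (nat_lit 309) (nat_lit 243) (nat_lit 168)) (XT.lf (nat_lit 0) (nat_lit 23384632752) (nat_lit 76) (nat_lit 155874887917) (nat_lit 76) (nat_lit 123251989845) (nat_lit 1) (nat_lit 4) (nat_lit 2) (nat_lit 5) (nat_lit 2) (nat_lit 4) (nat_lit 310) (nat_lit 243) (nat_lit 167))) (XT.nd (nat_lit 78) (nat_lit 0) (nat_lit 0) (XT.lf (nat_lit 0) (nat_lit 45974774060) (nat_lit 76) (nat_lit 156393163344) (nat_lit 76) (nat_lit 123763279136) (nat_lit 1) (nat_lit 4) (nat_lit 2) (nat_lit 5) (nat_lit 2) (nat_lit 4) (nat_lit 311) (nat_lit 243) (nat_lit 166)) (XT.lf (nat_lit 0) (nat_lit 70363652983) (nat_lit 76) (nat_lit 156956718310) (nat_lit 76) (nat_lit 124320365456) (nat_lit 1) (nat_lit 4) (nat_lit 2) (nat_lit 5) (nat_lit 2) (nat_lit 4)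 (nat_lit 312) (nat_lit 243) (nat_lit 165)))) (XT.nd (nat_lit 156) (nat_lit 0) (nat_lit 0) (XT.nd (nat_lit 78) (nat_lit 0) (nat_lit 0) (XT.lf (nat_lit 0) (nat_lit 96695796212) (nat_lit 76) (nat_lit 157568892398) (nat_lit 76) (nat_lit 124926550058) (nat_lit 1) (nat_lit 4) (nat_lit 2) (nat_lit 5) (nat_lit 2) (nat_lit 4) (nat_lit 313) (nat_lit 243) (nat_lit 164)) (XT.lf (nat_lit 0) (nat_lit 125127246078) (nat_lit 76) (nat_lit 158233313308) (nat_lit 76) (nat_lit 125585425147) (nat_lit 1) (nat_lit 4) (nat_lit 2) (nat_lit 5) (nat_lit 2) (nat_lit 4) (nat_lit 314) (nat_lit 243) (nat_lit 163))) (XT.nd (nat_lit 78) (nat_lit 0) (nat_lit 0) (XT.lf (nat_lit 0) (nat_lit 155826485245) (nat_lit 76) (nat_lit 158953918349) (nat_lit 76) (nat_lit 126300895169) (nat_lit 1) (nat_lit 4) (nat_lit 2) (nat_lit 5) (nat_lit 2) (nat_lit 4) (nat_lit 315) (nat_lit 243) (nat_lit 162)) (XT.nd (nat_lit 78) (nat_lit 0)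 (nat_lit 0) (XT.lf (nat_lit 0) (nat_lit 188975435132) (nat_lit 76) (nat_lit 159734977772) (nat_lit 76) (nat_lit 127077199945) (nat_lit 1) (nat_lit 4) (nat_lit 2) (nat_lit 5) (nat_lit 2) (nat_lit 4) (nat_lit 316) (nat_lit 243) (nat_lit 161)) (XT.lf (nat_lit 0) (nat_lit 224770533959) (nat_lit 76) (nat_lit 160581120078) (nat_lit 76) (nat_lit 127918939800) (nat_lit 1) (nat_lit 4) (nat_lit 2) (nat_lit 5) (nat_lit 2) (nat_lit 4) (nat_lit 317) (nat_lit 243) (nat_lit 160)))))) (XT.nd (nat_lit 390) (nat_lit 0) (nat_lit 0) (XT.nd (nat_lit 156) (nat_lit 0) (nat_lit 0) (XT.nd (nat_lit 78) (nat_lit 0) (nat_lit 0) (XT.lf (nat_lit 0) (nat_lit 263423900832) (nat_lit 76) (nat_lit 161497359444) (nat_lit 76) (nat_lit 128831102822) (nat_lit 1) (nat_lit 4) (nat_lit 2) (nat_lit 5) (nat_lit 2) (nat_lit 4) (nat_lit 318) (nat_lit 243) (nat_lit 159)) (XT.lf (nat_lit 0) (nat_lit 305164592738) (nat_lit 76) (nat_lit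 162489125436) (nat_lit 76) (nat_lit 129819094421) (nat_lit 1) (nat_lit 4) (nat_lit 2) (nat_lit 5) (nat_lit 2) (nat_lit 4) (nat_lit 319) (nat_lit 243) (nat_lit 158))) (XT.nd (nat_lit 78) (nat_lit 0) (nat_lit 0) (XT.lf (nat_lit 0) (nat_lit 350239961926) (nat_lit 76) (nat_lit 163562295186) (nat_lit 76) (nat_lit 130888769363) (nat_lit 1) (nat_lit 4) (nat_lit 2) (nat_lit 5) (nat_lit 2) (nat_lit 4) (nat_lit 320) (nat_lit 243) (nat_lit 157)) (XT.nd (nat_lit 78) (nat_lit 0) (nat_lit 0) (XT.lf (nat_lit 0) (nat_lit 398917121695) (nat_lit 76) (nat_lit 164723228218) (nat_lit 76) (nat_lit 132046466463) (nat_lit 1) (nat_lit 4) (nat_lit 2) (nat_lit 5) (nat_lit 2) (nat_lit 4) (nat_lit 321) (nat_lit 243) (nat_lit 156)) (XT.lf (nat_lit 0) (nat_lit 451484529289) (nat_lit 76) (nat_lit 165978804136) (nat_lit 76) (nat_lit 133299046146) (nat_lit 1) (nat_lit 4) (nat_lit 2) (nat_lit 5) (nat_lit 2) (nat_lit 4)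 (nat_lit 322) (nat_lit 243) (nat_lit 155))))) (XT.nd (nat_lit 156) (nat_lit 0) (nat_lit 0) (XT.nd (nat_lit 78) (nat_lit 0) (nat_lit 0) (XT.lf (nat_lit 0) (nat_lit 508253695270) (nat_lit 76) (nat_lit 167336463390) (nat_lit 76) (nat_lit 134653931108) (nat_lit 1) (nat_lit 4) (nat_lit 2) (nat_lit 5) (nat_lit 2) (nat_lit 4) (nat_lit 323) (nat_lit 243) (nat_lit 154)) (XT.lf (nat_lit 0) (nat_lit 569561029511) (nat_lit 76) (nat_lit 168804251367) (nat_lit 76) (nat_lit 136119150297) (nat_lit 1) (nat_lit 4) (nat_lit 2) (nat_lit 5) (nat_lit 2) (nat_lit 4) (nat_lit 324) (nat_lit 243) (nat_lit 153))) (XT.nd (nat_lit 31200) (nat_lit 0) (nat_lit 7524) (XT.lf (nat_lit 0) (nat_lit 635769834734) (nat_lit 76) (nat_lit 170390866070) (nat_lit 76) (nat_lit 137703386493) (nat_lit 1) (nat_lit 4) (nat_lit 2) (nat_lit 5) (nat_lit 2) (nat_lit 4) (nat_lit 325) (nat_lit 243) (nat_lit 152)) (XT.nd (nat_lit 78) (nat_lit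 0) (nat_lit 0) (XT.lf (nat_lit 0) (nat_lit 576235532) (nat_lit 0) (nat_lit 576235532) (nat_lit 380) (nat_lit 2308404065) (nat_lit 100) (nat_lit 5) (nat_lit 100) (nat_lit 3) (nat_lit 105) (nat_lit 3) (nat_lit 244) (nat_lit 244) (nat_lit 232)) (XT.lf (nat_lit 0) (nat_lit 5083111070) (nat_lit 380) (nat_lit 963271995) (nat_lit 456) (nat_lit 1004872396) (nat_lit 100) (nat_lit 5) (nat_lit 105) (nat_lit 3) (nat_lit 106) (nat_lit 5) (nat_lit 245) (nat_lit 244) (nat_lit 231))))))))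
noncomputable def xc57 : XT := (XT.nd (nat_lit 1482) (nat_lit 1824) (nat_lit 0) (XT.nd (nat_lit 702) (nat_lit 2432) (nat_lit 0) (XT.nd (nat_lit 312) (nat_lit 1824) (nat_lit 0) (XT.nd (nat_lit 156) (nat_lit 456) (nat_lit 0) (XT.nd (nat_lit 78) (nat_lit 0) (nat_lit 0) (XT.lf (nat_lit 0) (nat_lit 679487476) (nat_lit 456) (nat_lit 3020753273) (nat_lit 532) (nat_lit 3500646789) (nat_lit 94) (nat_lit 5) (nat_lit 100) (nat_lit 5) (nat_lit 101) (nat_lit 5) (nat_lit 246) (nat_lit 244) (nat_lit 230)) (XT.lf (nat_lit 76) (nat_lit 2294453436) (nat_lit 0) (nat_lit 976457183) (nat_lit 532) (nat_lit 4101072365) (nat_lit 95) (nat_lit 5) (nat_lit 94) (nat_lit 5) (nat_lit 101) (nat_lit 5) (nat_lit 247) (nat_lit 244) (nat_lit 229))) (XT.nd (nat_lit 78) (nat_lit 532) (nat_lit 0) (XT.lf (nat_lit 76) (nat_lit 409254121) (nat_lit 0) (nat_lit 5515927203) (nat_lit 532) (nat_lit 1639875445) (nat_lit 96) (nat_lit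 5) (nat_lit 95) (nat_lit 5) (nat_lit 102) (nat_lit 5) (nat_lit 248) (nat_lit 244) (nat_lit 228)) (XT.lf (nat_lit 0) (nat_lit 867411563) (nat_lit 532) (nat_lit 1448953481) (nat_lit 608) (nat_lit 5463268630) (nat_lit 88) (nat_lit 5) (nat_lit 95) (nat_lit 5) (nat_lit 96) (nat_lit 5) (nat_lit 249) (nat_lit 244) (nat_lit 227)))) (XT.nd (nat_lit 156) (nat_lit 1368) (nat_lit 0) (XT.nd (nat_lit 78) (nat_lit 532) (nat_lit 0) (XT.lf (nat_lit 0) (nat_lit 3404162038) (nat_lit 532) (nat_lit 3351416457) (nat_lit 76) (nat_lit 1261008926) (nat_lit 89) (nat_lit 5) (nat_lit 96) (nat_lit 5) (nat_lit 90) (nat_lit 5) (nat_lit 250) (nat_lit 244) (nat_lit 226)) (XT.lf (nat_lit 0) (nat_lit 2948761802) (nat_lit 532) (nat_lit 3111854067) (nat_lit 608) (nat_lit 2216850411) (nat_lit 82) (nat_lit 5) (nat_lit 89) (nat_lit 5) (nat_lit 90) (nat_lit 5) (nat_lit 251) (nat_lit 244) (nat_lit 225))) (XT.nd (nat_lit 78)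 (nat_lit 684) (nat_lit 0) (XT.lf (nat_lit 0) (nat_lit 265536517) (nat_lit 684) (nat_lit 7387146005) (nat_lit 76) (nat_lit 911604417) (nat_lit 73) (nat_lit 5) (nat_lit 82) (nat_lit 5) (nat_lit 74) (nat_lit 5) (nat_lit 252) (nat_lit 244) (nat_lit 224)) (XT.nd (nat_lit 78) (nat_lit 684) (nat_lit 0) (XT.lf (nat_lit 0) (nat_lit 2842897371) (nat_lit 684) (nat_lit 725259273) (nat_lit 76) (nat_lit 5306035892) (nat_lit 73) (nat_lit 5) (nat_lit 82) (nat_lit 5) (nat_lit 74) (nat_lit 5) (nat_lit 253) (nat_lit 244) (nat_lit 223)) (XT.lf (nat_lit 0) (nat_lit 5582564006) (nat_lit 760) (nat_lit 2695355193) (nat_lit 76) (nat_lit 933775639) (nat_lit 64) (nat_lit 5) (nat_lit 74) (nat_lit 5) (nat_lit 65) (nat_lit 5) (nat_lit 254) (nat_lit 244) (nat_lit 222)))))) (XT.nd (nat_lit 390) (nat_lit 1064) (nat_lit 0) (XT.nd (nat_lit 156) (nat_lit 608) (nat_lit 0) (XT.nd (nat_lit 78) (nat_lit 456) (nat_lit 0) (XT.lf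 (nat_lit 0) (nat_lit 4730197133) (nat_lit 304) (nat_lit 3807041256) (nat_lit 380) (nat_lit 1039732122) (nat_lit 60) (nat_lit 5) (nat_lit 64) (nat_lit 5) (nat_lit 65) (nat_lit 5) (nat_lit 255) (nat_lit 244) (nat_lit 221)) (XT.lf (nat_lit 0) (nat_lit 1664851785) (nat_lit 456) (nat_lit 7200349292) (nat_lit 76) (nat_lit 1107180750) (nat_lit 54) (nat_lit 5) (nat_lit 60) (nat_lit 5) (nat_lit 55) (nat_lit 5) (nat_lit 256) (nat_lit 244) (nat_lit 220))) (XT.nd (nat_lit 78) (nat_lit 304) (nat_lit 0) (XT.lf (nat_lit 0) (nat_lit 565120137) (nat_lit 304) (nat_lit 4007145123) (nat_lit 380) (nat_lit 5825625303) (nat_lit 50) (nat_lit 5) (nat_lit 54) (nat_lit 5) (nat_lit 55) (nat_lit 5) (nat_lit 257) (nat_lit 244) (nat_lit 219)) (XT.nd (nat_lit 78) (nat_lit 304) (nat_lit 0) (XT.lf (nat_lit 0) (nat_lit 7730370451) (nat_lit 380) (nat_lit 1811915204) (nat_lit 76) (nat_lit 1314676501) (nat_lit 50) (nat_lit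 5) (nat_lit 55) (nat_lit 5) (nat_lit 51) (nat_lit 5) (nat_lit 258) (nat_lit 244) (nat_lit 218)) (XT.lf (nat_lit 0) (nat_lit 6865476305) (nat_lit 304) (nat_lit 4331204966) (nat_lit 380) (nat_lit 153695796) (nat_lit 46) (nat_lit 5) (nat_lit 50) (nat_lit 5) (nat_lit 51) (nat_lit 5) (nat_lit 259) (nat_lit 244) (nat_lit 217))))) (XT.nd (nat_lit 156) (nat_lit 532) (nat_lit 0) (XT.nd (nat_lit 78) (nat_lit 228) (nat_lit 0) (XT.lf (nat_lit 0) (nat_lit 2967326544) (nat_lit 304) (nat_lit 7527859127) (nat_lit 76) (nat_lit 1385634837) (nat_lit 42) (nat_lit 5) (nat_lit 46) (nat_lit 5) (nat_lit 43) (nat_lit 5) (nat_lit 260) (nat_lit 244) (nat_lit 216)) (XT.lf (nat_lit 0) (nat_lit 1442495936) (nat_lit 228) (nat_lit 4956694374) (nat_lit 304) (nat_lit 6051378807) (nat_lit 39) (nat_lit 5) (nat_lit 42) (nat_lit 5) (nat_lit 43) (nat_lit 5) (nat_lit 261) (nat_lit 244) (nat_lit 215))) (XT.nd (nat_lit 78) (nat_lit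 532) (nat_lit 0) (XT.lf (nat_lit 0) (nat_lit 10152002704) (nat_lit 304) (nat_lit 1812317378) (nat_lit 76) (nat_lit 1099556529) (nat_lit 39) (nat_lit 5) (nat_lit 43) (nat_lit 5) (nat_lit 40) (nat_lit 5) (nat_lit 262) (nat_lit 244) (nat_lit 214)) (XT.nd (nat_lit 78) (nat_lit 228) (nat_lit 0) (XT.lf (nat_lit 0) (nat_lit 581019572) (nat_lit 304) (nat_lit 5557183719) (nat_lit 76) (nat_lit 7582057672) (nat_lit 35) (nat_lit 5) (nat_lit 39) (nat_lit 5) (nat_lit 36) (nat_lit 5) (nat_lit 263) (nat_lit 244) (nat_lit 213)) (XT.lf (nat_lit 0) (nat_lit 4268419487) (nat_lit 304) (nat_lit 9883300988) (nat_lit 76) (nat_lit 274438278) (nat_lit 32) (nat_lit 5) (nat_lit 36) (nat_lit 5) (nat_lit 33) (nat_lit 5) (nat_lit 264) (nat_lit 244) (nat_lit 212))))))) (XT.nd (nat_lit 780) (nat_lit 684) (nat_lit 0) (XT.nd (nat_lit 390) (nat_lit 532) (nat_lit 0) (XT.nd (nat_lit 156) (nat_lit 456) (nat_lit 0) (XT.nd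 (nat_lit 78) (nat_lit 0) (nat_lit 0) (XT.lf (nat_lit 0) (nat_lit 247634274) (nat_lit 152) (nat_lit 8121658563) (nat_lit 228) (nat_lit 6813537493) (nat_lit 30) (nat_lit 5) (nat_lit 32) (nat_lit 5) (nat_lit 33) (nat_lit 5) (nat_lit 265) (nat_lit 244) (nat_lit 211)) (XT.lf (nat_lit 0) (nat_lit 11426363515) (nat_lit 152) (nat_lit 1461417501) (nat_lit 228) (nat_lit 3107986658) (nat_lit 30) (nat_lit 5) (nat_lit 32) (nat_lit 5) (nat_lit 33) (nat_lit 5) (nat_lit 266) (nat_lit 244) (nat_lit 210))) (XT.nd (nat_lit 78) (nat_lit 152) (nat_lit 0) (XT.lf (nat_lit 0) (nat_lit 983263216) (nat_lit 304) (nat_lit 10245950844) (nat_lit 76) (nat_lit 5638119165) (nat_lit 26) (nat_lit 5) (nat_lit 30) (nat_lit 5) (nat_lit 27) (nat_lit 5) (nat_lit 267) (nat_lit 244) (nat_lit 209)) (XT.nd (nat_lit 78) (nat_lit 0) (nat_lit 0) (XT.lf (nat_lit 0) (nat_lit 908266929) (nat_lit 152) (nat_lit 4431544802) (nat_lit 228)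 (nat_lit 12464091278) (nat_lit 24) (nat_lit 5) (nat_lit 26) (nat_lit 5) (nat_lit 27) (nat_lit 5) (nat_lit 268) (nat_lit 244) (nat_lit 208)) (XT.lf (nat_lit 0) (nat_lit 10200792424) (nat_lit 228) (nat_lit 5640987951) (nat_lit 76) (nat_lit 2965980817) (nat_lit 24) (nat_lit 5) (nat_lit 27) (nat_lit 5) (nat_lit 25) (nat_lit 5) (nat_lit 269) (nat_lit 244) (nat_lit 207))))) (XT.nd (nat_lit 156) (nat_lit 304) (nat_lit 0) (XT.nd (nat_lit 78) (nat_lit 76) (nat_lit 0) (XT.lf (nat_lit 0) (nat_lit 6550007534) (nat_lit 152) (nat_lit 9011958145) (nat_lit 228) (nat_lit 4324543154) (nat_lit 22) (nat_lit 5) (nat_lit 24) (nat_lit 5) (nat_lit 25) (nat_lit 5) (nat_lit 270) (nat_lit 244) (nat_lit 206)) (XT.lf (nat_lit 0) (nat_lit 327293500) (nat_lit 228) (nat_lit 1232093382) (nat_lit 76) (nat_lit 19490242330) (nat_lit 21) (nat_lit 5) (nat_lit 24) (nat_lit 5) (nat_lit 22) (nat_lit 5) (nat_lit 271) (nat_lit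 244) (nat_lit 205))) (XT.nd (nat_lit 78) (nat_lit 152) (nat_lit 0) (XT.lf (nat_lit 0) (nat_lit 5436525007) (nat_lit 228) (nat_lit 10336726035) (nat_lit 76) (nat_lit 6517285157) (nat_lit 19) (nat_lit 5) (nat_lit 22) (nat_lit 5) (nat_lit 20) (nat_lit 5) (nat_lit 272) (nat_lit 244) (nat_lit 204)) (XT.nd (nat_lit 78) (nat_lit 0) (nat_lit 0) (XT.lf (nat_lit 0) (nat_lit 2576537415) (nat_lit 152) (nat_lit 8410095066) (nat_lit 228) (nat_lit 12642587156) (nat_lit 17) (nat_lit 5) (nat_lit 19) (nat_lit 5) (nat_lit 20) (nat_lit 5) (nat_lit 273) (nat_lit 244) (nat_lit 203)) (XT.lf (nat_lit 0) (nat_lit 16807594215) (nat_lit 152) (nat_lit 299860942) (nat_lit 228) (nat_lit 7961309824) (nat_lit 17) (nat_lit 5) (nat_lit 19) (nat_lit 5) (nat_lit 20) (nat_lit 5) (nat_lit 274) (nat_lit 244) (nat_lit 202)))))) (XT.nd (nat_lit 390) (nat_lit 304) (nat_lit 0) (XT.nd (nat_lit 156) (nat_lit 228) (nat_lit 0) (XT.nd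 (nat_lit 78) (nat_lit 76) (nat_lit 0) (XT.lf (nat_lit 0) (nat_lit 5517944427) (nat_lit 76) (nat_lit 18368372358) (nat_lit 152) (nat_lit 2728833474) (nat_lit 16) (nat_lit 5) (nat_lit 17) (nat_lit 5) (nat_lit 18) (nat_lit 4) (nat_lit 275) (nat_lit 244) (nat_lit 201)) (XT.lf (nat_lit 0) (nat_lit 2931814006) (nat_lit 152) (nat_lit 7715142645) (nat_lit 76) (nat_lit 17630937082) (nat_lit 15) (nat_lit 5) (nat_lit 17) (nat_lit 5) (nat_lit 16) (nat_lit 5) (nat_lit 276) (nat_lit 244) (nat_lit 200))) (XT.nd (nat_lit 78) (nat_lit 76) (nat_lit 0) (XT.lf (nat_lit 0) (nat_lit 6837687459) (nat_lit 152) (nat_lit 2175409427) (nat_lit 228) (nat_lit 21055231158) (nat_lit 13) (nat_lit 5) (nat_lit 15) (nat_lit 5) (nat_lit 16) (nat_lit 5) (nat_lit 277) (nat_lit 244) (nat_lit 199)) (XT.nd (nat_lit 78) (nat_lit 76) (nat_lit 0) (XT.lf (nat_lit 0) (nat_lit 15783514823) (nat_lit 228) (nat_lit 9347360597) (nat_lit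 76) (nat_lit 6861061854) (nat_lit 13) (nat_lit 5) (nat_lit 16) (nat_lit 5) (nat_lit 14) (nat_lit 4) (nat_lit 278) (nat_lit 244) (nat_lit 198)) (XT.lf (nat_lit 0) (nat_lit 5727237713) (nat_lit 76) (nat_lit 17454756731) (nat_lit 152) (nat_lit 10883185862) (nat_lit 12) (nat_lit 5) (nat_lit 13) (nat_lit 5) (nat_lit 14) (nat_lit 4) (nat_lit 279) (nat_lit 244) (nat_lit 197))))) (XT.nd (nat_lit 156) (nat_lit 76) (nat_lit 0) (XT.nd (nat_lit 78) (nat_lit 228) (nat_lit 0) (XT.lf (nat_lit 0) (nat_lit 22278492025) (nat_lit 76) (nat_lit 9018967445) (nat_lit 152) (nat_lit 5000629512) (nat_lit 12) (nat_lit 5) (nat_lit 13) (nat_lit 5) (nat_lit 14) (nat_lit 4) (nat_lit 280) (nat_lit 244) (nat_lit 196)) (XT.lf (nat_lit 0) (nat_lit 1297442922) (nat_lit 228) (nat_lit 37302546132) (nat_lit 76) (nat_lit 109229687) (nat_lit 9) (nat_lit 5) (nat_lit 12) (nat_lit 5) (nat_lit 10) (nat_lit 4) (nat_lit 281) (nat_lit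 244) (nat_lit 195))) (XT.nd (nat_lit 78) (nat_lit 76) (nat_lit 0) (XT.lf (nat_lit 0) (nat_lit 8292625422) (nat_lit 228) (nat_lit 23032192233) (nat_lit 76) (nat_lit 9965949507) (nat_lit 9) (nat_lit 5) (nat_lit 12) (nat_lit 5) (nat_lit 10) (nat_lit 4) (nat_lit 282) (nat_lit 244) (nat_lit 194)) (XT.nd (nat_lit 78) (nat_lit 76) (nat_lit 0) (XT.lf (nat_lit 0) (nat_lit 15815781481) (nat_lit 228) (nat_lit 7674324375) (nat_lit 76) (nat_lit 20590362190) (nat_lit 9) (nat_lit 5) (nat_lit 12) (nat_lit 5) (nat_lit 10) (nat_lit 4) (nat_lit 283) (nat_lit 244) (nat_lit 193)) (XT.lf (nat_lit 0) (nat_lit 9155086985) (nat_lit 76) (nat_lit 14899342342) (nat_lit 152) (nat_lit 23033276797) (nat_lit 8) (nat_lit 5) (nat_lit 9) (nat_lit 5) (nat_lit 10) (nat_lit 4) (nat_lit 284) (nat_lit 244) (nat_lit 192))))))))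
noncomputable def xc58 : XT := (XT.nd (nat_lit 1482) (nat_lit 76) (nat_lit 0) (XT.nd (nat_lit 702) (nat_lit 228) (nat_lit 0) (XT.nd (nat_lit 312) (nat_lit 76) (nat_lit 0) (XT.nd (nat_lit 156) (nat_lit 152) (nat_lit 0) (XT.nd (nat_lit 78) (nat_lit 0) (nat_lit 0) (XT.lf (nat_lit 0) (nat_lit 27556970561) (nat_lit 76) (nat_lit 5501004830) (nat_lit 152) (nat_lit 17272297435) (nat_lit 8) (nat_lit 5) (nat_lit 9) (nat_lit 5) (nat_lit 10) (nat_lit 4) (nat_lit 285) (nat_lit 244) (nat_lit 191)) (XT.lf (nat_lit 0) (nat_lit 42828291741) (nat_lit 152) (nat_lit 6519242750) (nat_lit 0) (nat_lit 4482422986) (nat_lit 8) (nat_lit 5) (nat_lit 10) (nat_lit 4) (nat_lit 8) (nat_lit 4) (nat_lit 286) (nat_lit 244) (nat_lit 190))) (XT.nd (nat_lit 78) (nat_lit 76) (nat_lit 0) (XT.lf (nat_lit 0) (nat_lit 11260747224) (nat_lit 76) (nat_lit 42363887914) (nat_lit 76) (nat_lit 3972795879) (nat_lit 7) (nat_lit 4) (nat_lit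 8) (nat_lit 5) (nat_lit 8) (nat_lit 4) (nat_lit 287) (nat_lit 244) (nat_lit 189)) (XT.lf (nat_lit 0) (nat_lit 3594582638) (nat_lit 152) (nat_lit 31064071035) (nat_lit 76) (nat_lit 27000253778) (nat_lit 6) (nat_lit 5) (nat_lit 8) (nat_lit 5) (nat_lit 7) (nat_lit 4) (nat_lit 288) (nat_lit 244) (nat_lit 188)))) (XT.nd (nat_lit 156) (nat_lit 0) (nat_lit 0) (XT.nd (nat_lit 78) (nat_lit 76) (nat_lit 0) (XT.lf (nat_lit 0) (nat_lit 11608346374) (nat_lit 152) (nat_lit 14674627048) (nat_lit 76) (nat_lit 39760090998) (nat_lit 6) (nat_lit 5) (nat_lit 8) (nat_lit 5) (nat_lit 7) (nat_lit 4) (nat_lit 289) (nat_lit 244) (nat_lit 187)) (XT.lf (nat_lit 0) (nat_lit 3089686538) (nat_lit 76) (nat_lit 17201690707) (nat_lit 152) (nat_lit 50485194262) (nat_lit 5) (nat_lit 5) (nat_lit 6) (nat_lit 5) (nat_lit 7) (nat_lit 4) (nat_lit 290) (nat_lit 244) (nat_lit 186))) (XT.nd (nat_lit 78) (nat_lit 0) (nat_lit 0)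 (XT.lf (nat_lit 0) (nat_lit 22765524900) (nat_lit 76) (nat_lit 7140037137) (nat_lit 152) (nat_lit 45971395496) (nat_lit 5) (nat_lit 5) (nat_lit 6) (nat_lit 5) (nat_lit 7) (nat_lit 4) (nat_lit 291) (nat_lit 244) (nat_lit 185)) (XT.nd (nat_lit 78) (nat_lit 0) (nat_lit 0) (XT.lf (nat_lit 0) (nat_lit 40329157903) (nat_lit 152) (nat_lit 37459976972) (nat_lit 0) (nat_lit 3594247921) (nat_lit 5) (nat_lit 5) (nat_lit 7) (nat_lit 4) (nat_lit 5) (nat_lit 4) (nat_lit 292) (nat_lit 244) (nat_lit 184)) (XT.lf (nat_lit 0) (nat_lit 51690456269) (nat_lit 152) (nat_lit 20706290586) (nat_lit 0) (nat_lit 14928405013) (nat_lit 5) (nat_lit 5) (nat_lit 7) (nat_lit 4) (nat_lit 5) (nat_lit 4) (nat_lit 293) (nat_lit 244) (nat_lit 183)))))) (XT.nd (nat_lit 390) (nat_lit 152) (nat_lit 0) (XT.nd (nat_lit 156) (nat_lit 0) (nat_lit 0) (XT.nd (nat_lit 78) (nat_lit 76) (nat_lit 0) (XT.lf (nat_lit 0) (nat_lit 63945307357)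 (nat_lit 152) (nat_lit 2639616382) (nat_lit 0) (nat_lit 27158125291) (nat_lit 5) (nat_lit 5) (nat_lit 7) (nat_lit 4) (nat_lit 5) (nat_lit 4) (nat_lit 294) (nat_lit 244) (nat_lit 182)) (XT.lf (nat_lit 0) (nat_lit 17404148868) (nat_lit 76) (nat_lit 60033911179) (nat_lit 76) (nat_lit 23223459845) (nat_lit 4) (nat_lit 4) (nat_lit 5) (nat_lit 5) (nat_lit 5) (nat_lit 4) (nat_lit 295) (nat_lit 244) (nat_lit 181))) (XT.nd (nat_lit 78) (nat_lit 0) (nat_lit 0) (XT.lf (nat_lit 0) (nat_lit 39121489670) (nat_lit 76) (nat_lit 52921184958) (nat_lit 76) (nat_lit 16089188005) (nat_lit 4) (nat_lit 4) (nat_lit 5) (nat_lit 5) (nat_lit 5) (nat_lit 4) (nat_lit 296) (nat_lit 244) (nat_lit 180)) (XT.nd (nat_lit 78) (nat_lit 0) (nat_lit 0) (XT.lf (nat_lit 0) (nat_lit 62553823738) (nat_lit 76) (nat_lit 45249298769) (nat_lit 76) (nat_lit 8397352170) (nat_lit 4) (nat_lit 4) (nat_lit 5) (nat_lit 5) (nat_lit 5) (nat_lit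 4) (nat_lit 297) (nat_lit 244) (nat_lit 179)) (XT.lf (nat_lit 0) (nat_lit 87840009348) (nat_lit 76) (nat_lit 36972789583) (nat_lit 76) (nat_lit 102371089) (nat_lit 4) (nat_lit 4) (nat_lit 5) (nat_lit 5) (nat_lit 5) (nat_lit 4) (nat_lit 298) (nat_lit 244) (nat_lit 178))))) (XT.nd (nat_lit 156) (nat_lit 76) (nat_lit 0) (XT.nd (nat_lit 78) (nat_lit 0) (nat_lit 0) (XT.lf (nat_lit 0) (nat_lit 8561818301) (nat_lit 152) (nat_lit 19335794581) (nat_lit 76) (nat_lit 106423073726) (nat_lit 3) (nat_lit 5) (nat_lit 5) (nat_lit 5) (nat_lit 4) (nat_lit 4) (nat_lit 299) (nat_lit 244) (nat_lit 177)) (XT.lf (nat_lit 0) (nat_lit 17905478100) (nat_lit 152) (nat_lit 197128668) (nat_lit 76) (nat_lit 126376469163) (nat_lit 3) (nat_lit 5) (nat_lit 5) (nat_lit 5) (nat_lit 4) (nat_lit 4) (nat_lit 300) (nat_lit 244) (nat_lit 176))) (XT.nd (nat_lit 78) (nat_lit 0) (nat_lit 0) (XT.lf (nat_lit 0) (nat_lit 21132212456)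 (nat_lit 76) (nat_lit 7184975258) (nat_lit 152) (nat_lit 127116931394) (nat_lit 2) (nat_lit 5) (nat_lit 3) (nat_lit 5) (nat_lit 4) (nat_lit 4) (nat_lit 301) (nat_lit 244) (nat_lit 175)) (XT.nd (nat_lit 78) (nat_lit 0) (nat_lit 0) (XT.lf (nat_lit 0) (nat_lit 39628194586) (nat_lit 152) (nat_lit 123178820471) (nat_lit 0) (nat_lit 4455242440) (nat_lit 2) (nat_lit 5) (nat_lit 4) (nat_lit 4) (nat_lit 2) (nat_lit 4) (nat_lit 302) (nat_lit 244) (nat_lit 174)) (XT.lf (nat_lit 0) (nat_lit 51956860416) (nat_lit 152) (nat_lit 111302221416) (nat_lit 0) (nat_lit 16771935259) (nat_lit 2) (nat_lit 5) (nat_lit 4) (nat_lit 4) (nat_lit 2) (nat_lit 4) (nat_lit 303) (nat_lit 244) (nat_lit 173))))))) (XT.nd (nat_lit 780) (nat_lit 0) (nat_lit 0) (XT.nd (nat_lit 390) (nat_lit 76) (nat_lit 0) (XT.nd (nat_lit 156) (nat_lit 0) (nat_lit 0) (XT.nd (nat_lit 78) (nat_lit 0) (nat_lit 0) (XT.lf (nat_lit 0) (nat_lit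 65264066366) (nat_lit 152) (nat_lit 98489552043) (nat_lit 0) (nat_lit 30068055088) (nat_lit 2) (nat_lit 5) (nat_lit 4) (nat_lit 4) (nat_lit 2) (nat_lit 4) (nat_lit 304) (nat_lit 244) (nat_lit 172)) (XT.lf (nat_lit 0) (nat_lit 79628669953) (nat_lit 152) (nat_lit 84664885420) (nat_lit 0) (nat_lit 44422393748) (nat_lit 2) (nat_lit 5) (nat_lit 4) (nat_lit 4) (nat_lit 2) (nat_lit 4) (nat_lit 305) (nat_lit 244) (nat_lit 171))) (XT.nd (nat_lit 78) (nat_lit 0) (nat_lit 0) (XT.lf (nat_lit 0) (nat_lit 95135794752) (nat_lit 152) (nat_lit 69746297599) (nat_lit 0) (nat_lit 59920013985) (nat_lit 2) (nat_lit 5) (nat_lit 4) (nat_lit 4) (nat_lit 2) (nat_lit 4) (nat_lit 306) (nat_lit 244) (nat_lit 170)) (XT.nd (nat_lit 78) (nat_lit 0) (nat_lit 0) (XT.lf (nat_lit 0) (nat_lit 111877334838) (nat_lit 152) (nat_lit 53645382132) (nat_lit 0) (nat_lit 76652753551) (nat_lit 2) (nat_lit 5) (nat_lit 4) (nat_lit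 4) (nat_lit 2) (nat_lit 4) (nat_lit 307) (nat_lit 244) (nat_lit 169)) (XT.lf (nat_lit 0) (nat_lit 129952499337) (nat_lit 152) (nat_lit 36266726188) (nat_lit 0) (nat_lit 94719769419) (nat_lit 2) (nat_lit 5) (nat_lit 4) (nat_lit 4) (nat_lit 2) (nat_lit 4) (nat_lit 308) (nat_lit 244) (nat_lit 168))))) (XT.nd (nat_lit 156) (nat_lit 0) (nat_lit 0) (XT.nd (nat_lit 78) (nat_lit 76) (nat_lit 0) (XT.lf (nat_lit 0) (nat_lit 149468400334) (nat_lit 152) (nat_lit 17507345139) (nat_lit 0) (nat_lit 114228125388) (nat_lit 2) (nat_lit 5) (nat_lit 4) (nat_lit 4) (nat_lit 2) (nat_lit 4) (nat_lit 309) (nat_lit 244) (nat_lit 167)) (XT.lf (nat_lit 0) (nat_lit 2834654361) (nat_lit 76) (nat_lit 167750290150) (nat_lit 76) (nat_lit 132503029068) (nat_lit 1) (nat_lit 4) (nat_lit 2) (nat_lit 5) (nat_lit 2) (nat_lit 4) (nat_lit 310) (nat_lit 244) (nat_lit 166))) (XT.nd (nat_lit 78) (nat_lit 0) (nat_lit 0) (XT.lf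 (nat_lit 0) (nat_lit 25420721779) (nat_lit 76) (nat_lit 168270400916) (nat_lit 76) (nat_lit 133016671188) (nat_lit 1) (nat_lit 4) (nat_lit 2) (nat_lit 5) (nat_lit 2) (nat_lit 4) (nat_lit 311) (nat_lit 244) (nat_lit 165)) (XT.nd (nat_lit 78) (nat_lit 0) (nat_lit 0) (XT.lf (nat_lit 0) (nat_lit 49805828584) (nat_lit 76) (nat_lit 168835655269) (nat_lit 76) (nat_lit 133575936055) (nat_lit 1) (nat_lit 4) (nat_lit 2) (nat_lit 5) (nat_lit 2) (nat_lit 4) (nat_lit 312) (nat_lit 244) (nat_lit 164)) (XT.lf (nat_lit 0) (nat_lit 76134479110) (nat_lit 76) (nat_lit 169449402864) (nat_lit 76) (nat_lit 134184137830) (nat_lit 1) (nat_lit 4) (nat_lit 2) (nat_lit 5) (nat_lit 2) (nat_lit 4) (nat_lit 313) (nat_lit 244) (nat_lit 163)))))) (XT.nd (nat_lit 390) (nat_lit 0) (nat_lit 0) (XT.nd (nat_lit 156) (nat_lit 0) (nat_lit 0) (XT.nd (nat_lit 78) (nat_lit 0) (nat_lit 0) (XT.lf (nat_lit 0) (nat_lit 104562694991)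 (nat_lit 76) (nat_lit 170115280725) (nat_lit 76) (nat_lit 134844880671) (nat_lit 1) (nat_lit 4) (nat_lit 2) (nat_lit 5) (nat_lit 2) (nat_lit 4) (nat_lit 314) (nat_lit 244) (nat_lit 162)) (XT.lf (nat_lit 0) (nat_lit 135258939729) (nat_lit 76) (nat_lit 170837234794) (nat_lit 76) (nat_lit 135562080093) (nat_lit 1) (nat_lit 4) (nat_lit 2) (nat_lit 5) (nat_lit 2) (nat_lit 4) (nat_lit 315) (nat_lit 244) (nat_lit 161))) (XT.nd (nat_lit 78) (nat_lit 0) (nat_lit 0) (XT.lf (nat_lit 0) (nat_lit 168405116995) (nat_lit 76) (nat_lit 171619543318) (nat_lit 76) (nat_lit 136339986166) (nat_lit 1) (nat_lit 4) (nat_lit 2) (nat_lit 5) (nat_lit 2) (nat_lit 4) (nat_lit 316) (nat_lit 244) (nat_lit 160)) (XT.nd (nat_lit 78) (nat_lit 0) (nat_lit 0) (XT.lf (nat_lit 0) (nat_lit 204197648581) (nat_lit 76) (nat_lit 172466842199) (nat_lit 76) (nat_lit 137183208703) (nat_lit 1) (nat_lit 4) (nat_lit 2) (nat_lit 5)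 (nat_lit 2) (nat_lit 4) (nat_lit 317) (nat_lit 244) (nat_lit 159)) (XT.lf (nat_lit 0) (nat_lit 242848638379) (nat_lit 76) (nat_lit 173384152467) (nat_lit 76) (nat_lit 138096744578) (nat_lit 1) (nat_lit 4) (nat_lit 2) (nat_lit 5) (nat_lit 2) (nat_lit 4) (nat_lit 318) (nat_lit 244) (nat_lit 158))))) (XT.nd (nat_lit 156) (nat_lit 0) (nat_lit 0) (XT.nd (nat_lit 78) (nat_lit 0) (nat_lit 0) (XT.lf (nat_lit 0) (nat_lit 284587129290) (nat_lit 76) (nat_lit 174376910035) (nat_lit 76) (nat_lit 139086007339) (nat_lit 1) (nat_lit 4) (nat_lit 2) (nat_lit 5) (nat_lit 2) (nat_lit 4) (nat_lit 319) (nat_lit 244) (nat_lit 157)) (XT.lf (nat_lit 0) (nat_lit 329660460519) (nat_lit 76) (nat_lit 175450997911) (nat_lit 76) (nat_lit 140156859282) (nat_lit 1) (nat_lit 4) (nat_lit 2) (nat_lit 5) (nat_lit 2) (nat_lit 4) (nat_lit 320) (nat_lit 244) (nat_lit 156))) (XT.nd (nat_lit 78) (nat_lit 0) (nat_lit 0) (XT.lf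 (nat_lit 0) (nat_lit 378335733290) (nat_lit 76) (nat_lit 176612781060) (nat_lit 76) (nat_lit 141315646196) (nat_lit 1) (nat_lit 4) (nat_lit 2) (nat_lit 5) (nat_lit 2) (nat_lit 4) (nat_lit 321) (nat_lit 244) (nat_lit 155)) (XT.nd (nat_lit 78) (nat_lit 0) (nat_lit 0) (XT.lf (nat_lit 0) (nat_lit 430901393662) (nat_lit 76) (nat_lit 177869144123) (nat_lit 76) (nat_lit 142569234969) (nat_lit 1) (nat_lit 4) (nat_lit 2) (nat_lit 5) (nat_lit 2) (nat_lit 4) (nat_lit 322) (nat_lit 244) (nat_lit 154)) (XT.lf (nat_lit 0) (nat_lit 487668941846) (nat_lit 76) (nat_lit 179227532215) (nat_lit 76) (nat_lit 143925054272) (nat_lit 1) (nat_lit 4) (nat_lit 2) (nat_lit 5) (nat_lit 2) (nat_lit 4) (nat_lit 323) (nat_lit 244) (nat_lit 153))))))))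
noncomputable def xc59 : XT := (XT.nd (nat_lit 32682) (nat_lit 0) (nat_lit 836) (XT.nd (nat_lit 31902) (nat_lit 0) (nat_lit 3116) (XT.nd (nat_lit 31512) (nat_lit 0) (nat_lit 6536) (XT.nd (nat_lit 31356) (nat_lit 0) (nat_lit 6992) (XT.nd (nat_lit 78) (nat_lit 0) (nat_lit 0) (XT.lf (nat_lit 0) (nat_lit 548974778127) (nat_lit 76) (nat_lit 180695995042) (nat_lit 76) (nat_lit 145391138592) (nat_lit 1) (nat_lit 4) (nat_lit 2) (nat_lit 5) (nat_lit 2) (nat_lit 4) (nat_lit 324) (nat_lit 244) (nat_lit 152)) (XT.lf (nat_lit 0) (nat_lit 615182196349) (nat_lit 76) (nat_lit 182283234607) (nat_lit 76) (nat_lit 146976175835) (nat_lit 1) (nat_lit 4) (nat_lit 2) (nat_lit 5) (nat_lit 2) (nat_lit 4) (nat_lit 325) (nat_lit 244) (nat_lit 151))) (XT.nd (nat_lit 78) (nat_lit 0) (nat_lit 0) (XT.lf (nat_lit 0) (nat_lit 247331267) (nat_lit 532) (nat_lit 1673592311) (nat_lit 532) (nat_lit 1673592311) (nat_lit 93)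 (nat_lit 3) (nat_lit 100) (nat_lit 3) (nat_lit 100) (nat_lit 5) (nat_lit 245) (nat_lit 245) (nat_lit 230)) (XT.lf (nat_lit 76) (nat_lit 1661784272) (nat_lit 0) (nat_lit 1215868357) (nat_lit 532) (nat_lit 4470111479) (nat_lit 94) (nat_lit 5) (nat_lit 93) (nat_lit 3) (nat_lit 100) (nat_lit 5) (nat_lit 246) (nat_lit 245) (nat_lit 229)))) (XT.nd (nat_lit 156) (nat_lit 0) (nat_lit 76) (XT.nd (nat_lit 78) (nat_lit 532) (nat_lit 0) (XT.lf (nat_lit 0) (nat_lit 5301705518) (nat_lit 456) (nat_lit 493461260) (nat_lit 532) (nat_lit 1732574456) (nat_lit 94) (nat_lit 5) (nat_lit 100) (nat_lit 5) (nat_lit 101) (nat_lit 5) (nat_lit 247) (nat_lit 245) (nat_lit 228)) (XT.lf (nat_lit 0) (nat_lit 72132646) (nat_lit 532) (nat_lit 2603453975) (nat_lit 608) (nat_lit 5053272448) (nat_lit 87) (nat_lit 5) (nat_lit 94) (nat_lit 5) (nat_lit 95) (nat_lit 5) (nat_lit 248) (nat_lit 245) (nat_lit 227))) (XT.nd (nat_lit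 78) (nat_lit 0) (nat_lit 0) (XT.lf (nat_lit 0) (nat_lit 2342507819) (nat_lit 532) (nat_lit 4769028806) (nat_lit 608) (nat_lit 840259482) (nat_lit 88) (nat_lit 5) (nat_lit 95) (nat_lit 5) (nat_lit 96) (nat_lit 5) (nat_lit 249) (nat_lit 245) (nat_lit 226)) (XT.nd (nat_lit 78) (nat_lit 0) (nat_lit 76) (XT.lf (nat_lit 76) (nat_lit 1187572149) (nat_lit 0) (nat_lit 3524151580) (nat_lit 608) (nat_lit 3485790824) (nat_lit 89) (nat_lit 5) (nat_lit 88) (nat_lit 5) (nat_lit 96) (nat_lit 5) (nat_lit 250) (nat_lit 245) (nat_lit 225)) (XT.lf (nat_lit 0) (nat_lit 7180762693) (nat_lit 532) (nat_lit 818154454) (nat_lit 76) (nat_lit 469206242) (nat_lit 89) (nat_lit 5) (nat_lit 96) (nat_lit 5) (nat_lit 90) (nat_lit 5) (nat_lit 251) (nat_lit 245) (nat_lit 224)))))) (XT.nd (nat_lit 390) (nat_lit 1292) (nat_lit 0) (XT.nd (nat_lit 156) (nat_lit 1064) (nat_lit 0) (XT.nd (nat_lit 78) (nat_lit 608) (nat_lit 0)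 (XT.lf (nat_lit 0) (nat_lit 1035903038) (nat_lit 608) (nat_lit 2914253730) (nat_lit 76) (nat_lit 4810847151) (nat_lit 81) (nat_lit 5) (nat_lit 89) (nat_lit 5) (nat_lit 82) (nat_lit 5) (nat_lit 252) (nat_lit 245) (nat_lit 223)) (XT.lf (nat_lit 0) (nat_lit 3426446411) (nat_lit 684) (nat_lit 5120065993) (nat_lit 76) (nat_lit 534031305) (nat_lit 73) (nat_lit 5) (nat_lit 82) (nat_lit 5) (nat_lit 74) (nat_lit 5) (nat_lit 253) (nat_lit 245) (nat_lit 222))) (XT.nd (nat_lit 78) (nat_lit 380) (nat_lit 0) (XT.lf (nat_lit 0) (nat_lit 1924665458) (nat_lit 684) (nat_lit 4082812173) (nat_lit 760) (nat_lit 3418771740) (nat_lit 64) (nat_lit 5) (nat_lit 73) (nat_lit 5) (nat_lit 74) (nat_lit 5) (nat_lit 254) (nat_lit 245) (nat_lit 221)) (XT.nd (nat_lit 78) (nat_lit 380) (nat_lit 0) (XT.lf (nat_lit 0) (nat_lit 8757327113) (nat_lit 760) (nat_lit 229755935) (nat_lit 76) (nat_lit 814934714) (nat_lit 64) (nat_lit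 5) (nat_lit 74) (nat_lit 5) (nat_lit 65) (nat_lit 5) (nat_lit 255) (nat_lit 245) (nat_lit 220)) (XT.lf (nat_lit 0) (nat_lit 1530357783) (nat_lit 380) (nat_lit 2556739076) (nat_lit 76) (nat_lit 6117042557) (nat_lit 59) (nat_lit 5) (nat_lit 64) (nat_lit 5) (nat_lit 60) (nat_lit 5) (nat_lit 256) (nat_lit 245) (nat_lit 219))))) (XT.nd (nat_lit 156) (nat_lit 608) (nat_lit 0) (XT.nd (nat_lit 78) (nat_lit 304) (nat_lit 0) (XT.lf (nat_lit 0) (nat_lit 4262492636) (nat_lit 456) (nat_lit 5101524151) (nat_lit 76) (nat_lit 1274600627) (nat_lit 54) (nat_lit 5) (nat_lit 60) (nat_lit 5) (nat_lit 55) (nat_lit 5) (nat_lit 257) (nat_lit 245) (nat_lit 218)) (XT.lf (nat_lit 0) (nat_lit 3168936977) (nat_lit 304) (nat_lit 4090957190) (nat_lit 380) (nat_lit 3846020144) (nat_lit 50) (nat_lit 5) (nat_lit 54) (nat_lit 5) (nat_lit 55) (nat_lit 5) (nat_lit 258) (nat_lit 245) (nat_lit 217))) (XT.nd (nat_lit 78) (nat_lit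 304) (nat_lit 0) (XT.lf (nat_lit 0) (nat_lit 540733089) (nat_lit 304) (nat_lit 9969790992) (nat_lit 380) (nat_lit 1099765224) (nat_lit 46) (nat_lit 5) (nat_lit 50) (nat_lit 5) (nat_lit 51) (nat_lit 5) (nat_lit 259) (nat_lit 245) (nat_lit 216)) (XT.nd (nat_lit 78) (nat_lit 228) (nat_lit 0) (XT.lf (nat_lit 0) (nat_lit 1909836938) (nat_lit 380) (nat_lit 2393837052) (nat_lit 76) (nat_lit 7845037548) (nat_lit 45) (nat_lit 5) (nat_lit 50) (nat_lit 5) (nat_lit 46) (nat_lit 5) (nat_lit 260) (nat_lit 245) (nat_lit 215)) (XT.lf (nat_lit 0) (nat_lit 5164450464) (nat_lit 304) (nat_lit 5691706860) (nat_lit 76) (nat_lit 1871309071) (nat_lit 42) (nat_lit 5) (nat_lit 46) (nat_lit 5) (nat_lit 43) (nat_lit 5) (nat_lit 261) (nat_lit 245) (nat_lit 214))))))) (XT.nd (nat_lit 780) (nat_lit 760) (nat_lit 0) (XT.nd (nat_lit 390) (nat_lit 608) (nat_lit 0) (XT.nd (nat_lit 156) (nat_lit 456) (nat_lit 0) (XT.nd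 (nat_lit 78) (nat_lit 228) (nat_lit 0) (XT.lf (nat_lit 0) (nat_lit 3890307542) (nat_lit 228) (nat_lit 4871805514) (nat_lit 304) (nat_lit 4586551415) (nat_lit 39) (nat_lit 5) (nat_lit 42) (nat_lit 5) (nat_lit 43) (nat_lit 5) (nat_lit 262) (nat_lit 245) (nat_lit 213)) (XT.lf (nat_lit 0) (nat_lit 295531761) (nat_lit 228) (nat_lit 12394082187) (nat_lit 304) (nat_lit 1328099501) (nat_lit 36) (nat_lit 5) (nat_lit 39) (nat_lit 5) (nat_lit 40) (nat_lit 5) (nat_lit 263) (nat_lit 245) (nat_lit 212))) (XT.nd (nat_lit 78) (nat_lit 380) (nat_lit 0) (XT.lf (nat_lit 0) (nat_lit 2285524033) (nat_lit 304) (nat_lit 3796645572) (nat_lit 76) (nat_lit 8648401266) (nat_lit 35) (nat_lit 5) (nat_lit 39) (nat_lit 5) (nat_lit 36) (nat_lit 5) (nat_lit 264) (nat_lit 245) (nat_lit 211)) (XT.nd (nat_lit 78) (nat_lit 152) (nat_lit 0) (XT.lf (nat_lit 0) (nat_lit 6186479984) (nat_lit 304) (nat_lit 8490642422) (nat_lit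 76) (nat_lit 820216530) (nat_lit 32) (nat_lit 5) (nat_lit 36) (nat_lit 5) (nat_lit 33) (nat_lit 5) (nat_lit 265) (nat_lit 245) (nat_lit 210)) (XT.lf (nat_lit 0) (nat_lit 2355883120) (nat_lit 152) (nat_lit 8175362236) (nat_lit 228) (nat_lit 5787810232) (nat_lit 30) (nat_lit 5) (nat_lit 32) (nat_lit 5) (nat_lit 33) (nat_lit 5) (nat_lit 266) (nat_lit 245) (nat_lit 209))))) (XT.nd (nat_lit 156) (nat_lit 304) (nat_lit 0) (XT.nd (nat_lit 78) (nat_lit 304) (nat_lit 0) (XT.lf (nat_lit 0) (nat_lit 14274211581) (nat_lit 152) (nat_lit 1026452187) (nat_lit 228) (nat_lit 1902171646) (nat_lit 30) (nat_lit 5) (nat_lit 32) (nat_lit 5) (nat_lit 33) (nat_lit 5) (nat_lit 267) (nat_lit 245) (nat_lit 208)) (XT.lf (nat_lit 0) (nat_lit 2403970021) (nat_lit 304) (nat_lit 9107267846) (nat_lit 76) (nat_lit 6635292726) (nat_lit 26) (nat_lit 5) (nat_lit 30) (nat_lit 5) (nat_lit 27) (nat_lit 5) (nat_lit 268) (nat_lit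 245) (nat_lit 207))) (XT.nd (nat_lit 78) (nat_lit 152) (nat_lit 0) (XT.lf (nat_lit 0) (nat_lit 2854179450) (nat_lit 152) (nat_lit 4184698872) (nat_lit 228) (nat_lit 12122884511) (nat_lit 24) (nat_lit 5) (nat_lit 26) (nat_lit 5) (nat_lit 27) (nat_lit 5) (nat_lit 269) (nat_lit 245) (nat_lit 206)) (XT.nd (nat_lit 78) (nat_lit 152) (nat_lit 0) (XT.lf (nat_lit 0) (nat_lit 12203217592) (nat_lit 228) (nat_lit 4304938727) (nat_lit 76) (nat_lit 3742261074) (nat_lit 24) (nat_lit 5) (nat_lit 27) (nat_lit 5) (nat_lit 25) (nat_lit 5) (nat_lit 270) (nat_lit 245) (nat_lit 205)) (XT.lf (nat_lit 0) (nat_lit 8783661289) (nat_lit 152) (nat_lit 9148437245) (nat_lit 228) (nat_lit 3486621664) (nat_lit 22) (nat_lit 5) (nat_lit 24) (nat_lit 5) (nat_lit 25) (nat_lit 5) (nat_lit 271) (nat_lit 245) (nat_lit 204)))))) (XT.nd (nat_lit 390) (nat_lit 304) (nat_lit 0) (XT.nd (nat_lit 156) (nat_lit 228) (nat_lit 0)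 (XT.nd (nat_lit 78) (nat_lit 0) (nat_lit 0) (XT.lf (nat_lit 0) (nat_lit 299172623) (nat_lit 152) (nat_lit 1120080122) (nat_lit 228) (nat_lit 21258897027) (nat_lit 19) (nat_lit 5) (nat_lit 21) (nat_lit 5) (nat_lit 22) (nat_lit 5) (nat_lit 272) (nat_lit 245) (nat_lit 203)) (XT.lf (nat_lit 0) (nat_lit 6886628860) (nat_lit 228) (nat_lit 9569964429) (nat_lit 76) (nat_lit 7564425798) (nat_lit 19) (nat_lit 5) (nat_lit 22) (nat_lit 5) (nat_lit 20) (nat_lit 5) (nat_lit 273) (nat_lit 245) (nat_lit 202))) (XT.nd (nat_lit 78) (nat_lit 76) (nat_lit 0) (XT.lf (nat_lit 0) (nat_lit 4307099851) (nat_lit 152) (nat_lit 8522247197) (nat_lit 228) (nat_lit 12640168262) (nat_lit 17) (nat_lit 5) (nat_lit 19) (nat_lit 5) (nat_lit 20) (nat_lit 5) (nat_lit 274) (nat_lit 245) (nat_lit 201)) (XT.nd (nat_lit 78) (nat_lit 76) (nat_lit 0) (XT.lf (nat_lit 0) (nat_lit 19371492933) (nat_lit 228) (nat_lit 7467260134) (nat_lit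 76) (nat_lit 189025581) (nat_lit 17) (nat_lit 5) (nat_lit 20) (nat_lit 5) (nat_lit 18) (nat_lit 4) (nat_lit 275) (nat_lit 245) (nat_lit 200)) (XT.lf (nat_lit 0) (nat_lit 7346123786) (nat_lit 76) (nat_lit 19306543341) (nat_lit 152) (nat_lit 2047334511) (nat_lit 16) (nat_lit 5) (nat_lit 17) (nat_lit 5) (nat_lit 18) (nat_lit 4) (nat_lit 276) (nat_lit 245) (nat_lit 199))))) (XT.nd (nat_lit 156) (nat_lit 76) (nat_lit 0) (XT.nd (nat_lit 78) (nat_lit 152) (nat_lit 0) (XT.lf (nat_lit 0) (nat_lit 3972846387) (nat_lit 152) (nat_lit 7020265206) (nat_lit 76) (nat_lit 19505288578) (nat_lit 15) (nat_lit 5) (nat_lit 17) (nat_lit 5) (nat_lit 16) (nat_lit 5) (nat_lit 277) (nat_lit 245) (nat_lit 198)) (XT.lf (nat_lit 0) (nat_lit 8639769524) (nat_lit 152) (nat_lit 1860717691) (nat_lit 228) (nat_lit 21933693001) (nat_lit 13) (nat_lit 5) (nat_lit 15) (nat_lit 5) (nat_lit 16) (nat_lit 5) (nat_lit 278) (nat_lit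 245) (nat_lit 197))) (XT.nd (nat_lit 78) (nat_lit 76) (nat_lit 0) (XT.lf (nat_lit 0) (nat_lit 17762837617) (nat_lit 228) (nat_lit 8903435759) (nat_lit 76) (nat_lit 7847985926) (nat_lit 13) (nat_lit 5) (nat_lit 16) (nat_lit 5) (nat_lit 14) (nat_lit 4) (nat_lit 279) (nat_lit 245) (nat_lit 196)) (XT.nd (nat_lit 78) (nat_lit 0) (nat_lit 0) (XT.lf (nat_lit 0) (nat_lit 7325339991) (nat_lit 76) (nat_lit 18392568449) (nat_lit 152) (nat_lit 11037306649) (nat_lit 12) (nat_lit 5) (nat_lit 13) (nat_lit 5) (nat_lit 14) (nat_lit 4) (nat_lit 280) (nat_lit 245) (nat_lit 195)) (XT.lf (nat_lit 0) (nat_lit 25116255888) (nat_lit 76) (nat_lit 9315884082) (nat_lit 152) (nat_lit 4737222389) (nat_lit 12) (nat_lit 5) (nat_lit 13) (nat_lit 5) (nat_lit 14) (nat_lit 4) (nat_lit 281) (nat_lit 245) (nat_lit 194))))))))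
noncomputable def xc60 : XT := (XT.nd (nat_lit 1482) (nat_lit 152) (nat_lit 0) (XT.nd (nat_lit 702) (nat_lit 228) (nat_lit 0) (XT.nd (nat_lit 312) (nat_lit 152) (nat_lit 0) (XT.nd (nat_lit 156) (nat_lit 76) (nat_lit 0) (XT.nd (nat_lit 78) (nat_lit 0) (nat_lit 0) (XT.lf (nat_lit 0) (nat_lit 2018542920) (nat_lit 228) (nat_lit 39230999601) (nat_lit 76) (nat_lit 524640593) (nat_lit 9) (nat_lit 5) (nat_lit 12) (nat_lit 5) (nat_lit 10) (nat_lit 4) (nat_lit 282) (nat_lit 245) (nat_lit 193)) (XT.lf (nat_lit 0) (nat_lit 9527613756) (nat_lit 228) (nat_lit 23897221111) (nat_lit 76) (nat_lit 11139774108) (nat_lit 9) (nat_lit 5) (nat_lit 12) (nat_lit 5) (nat_lit 10) (nat_lit 4) (nat_lit 283) (nat_lit 245) (nat_lit 192))) (XT.nd (nat_lit 78) (nat_lit 76) (nat_lit 0) (XT.lf (nat_lit 0) (nat_lit 17610283166) (nat_lit 228) (nat_lit 7383134676) (nat_lit 76) (nat_lit 22586247314) (nat_lit 9) (nat_lit 5)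 (nat_lit 12) (nat_lit 5) (nat_lit 10) (nat_lit 4) (nat_lit 284) (nat_lit 245) (nat_lit 191)) (XT.lf (nat_lit 0) (nat_lit 10753293501) (nat_lit 76) (nat_lit 15729043996) (nat_lit 152) (nat_lit 24346486709) (nat_lit 8) (nat_lit 5) (nat_lit 9) (nat_lit 5) (nat_lit 10) (nat_lit 4) (nat_lit 285) (nat_lit 245) (nat_lit 190)))) (XT.nd (nat_lit 156) (nat_lit 152) (nat_lit 0) (XT.nd (nat_lit 78) (nat_lit 0) (nat_lit 0) (XT.lf (nat_lit 0) (nat_lit 30563194462) (nat_lit 76) (nat_lit 5605672500) (nat_lit 152) (nat_lit 18163847681) (nat_lit 8) (nat_lit 5) (nat_lit 9) (nat_lit 5) (nat_lit 10) (nat_lit 4) (nat_lit 286) (nat_lit 245) (nat_lit 189)) (XT.lf (nat_lit 0) (nat_lit 46691120147) (nat_lit 152) (nat_lit 6281143715) (nat_lit 0) (nat_lit 5141644060) (nat_lit 8) (nat_lit 5) (nat_lit 10) (nat_lit 4) (nat_lit 8) (nat_lit 4) (nat_lit 287) (nat_lit 245) (nat_lit 188))) (XT.nd (nat_lit 78) (nat_lit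 76) (nat_lit 0) (XT.lf (nat_lit 0) (nat_lit 12888232495) (nat_lit 76) (nat_lit 45441945028) (nat_lit 76) (nat_lit 3853697267) (nat_lit 7) (nat_lit 4) (nat_lit 8) (nat_lit 5) (nat_lit 8) (nat_lit 4) (nat_lit 288) (nat_lit 245) (nat_lit 187)) (XT.nd (nat_lit 78) (nat_lit 0) (nat_lit 0) (XT.lf (nat_lit 0) (nat_lit 4273758545) (nat_lit 152) (nat_lit 32862942440) (nat_lit 76) (nat_lit 29434834074) (nat_lit 6) (nat_lit 5) (nat_lit 8) (nat_lit 5) (nat_lit 7) (nat_lit 4) (nat_lit 289) (nat_lit 245) (nat_lit 186)) (XT.lf (nat_lit 0) (nat_lit 12899615285) (nat_lit 152) (nat_lit 15213176585) (nat_lit 76) (nat_lit 43195120494) (nat_lit 6) (nat_lit 5) (nat_lit 8) (nat_lit 5) (nat_lit 7) (nat_lit 4) (nat_lit 290) (nat_lit 245) (nat_lit 185)))))) (XT.nd (nat_lit 390) (nat_lit 152) (nat_lit 0) (XT.nd (nat_lit 156) (nat_lit 0) (nat_lit 0) (XT.nd (nat_lit 78) (nat_lit 0) (nat_lit 0) (XT.lf (nat_lit 0)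 (nat_lit 3944667483) (nat_lit 76) (nat_lit 18315251349) (nat_lit 152) (nat_lit 54161084278) (nat_lit 5) (nat_lit 5) (nat_lit 6) (nat_lit 5) (nat_lit 7) (nat_lit 4) (nat_lit 291) (nat_lit 245) (nat_lit 184)) (XT.lf (nat_lit 0) (nat_lit 25149550245) (nat_lit 76) (nat_lit 7468115465) (nat_lit 152) (nat_lit 49313064983) (nat_lit 5) (nat_lit 5) (nat_lit 6) (nat_lit 5) (nat_lit 7) (nat_lit 4) (nat_lit 292) (nat_lit 245) (nat_lit 183))) (XT.nd (nat_lit 78) (nat_lit 0) (nat_lit 0) (XT.lf (nat_lit 0) (nat_lit 43854985506) (nat_lit 152) (nat_lit 39924024261) (nat_lit 0) (nat_lit 4099698065) (nat_lit 5) (nat_lit 5) (nat_lit 7) (nat_lit 4) (nat_lit 5) (nat_lit 4) (nat_lit 293) (nat_lit 245) (nat_lit 182)) (XT.nd (nat_lit 78) (nat_lit 0) (nat_lit 0) (XT.lf (nat_lit 0) (nat_lit 56103002928) (nat_lit 152) (nat_lit 21869505992) (nat_lit 0) (nat_lit 16324446220) (nat_lit 5) (nat_lit 5) (nat_lit 7) (nat_lit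 4) (nat_lit 5) (nat_lit 4) (nat_lit 294) (nat_lit 245) (nat_lit 181)) (XT.lf (nat_lit 0) (nat_lit 69317700610) (nat_lit 152) (nat_lit 2394037691) (nat_lit 0) (nat_lit 29517598284) (nat_lit 5) (nat_lit 5) (nat_lit 7) (nat_lit 4) (nat_lit 5) (nat_lit 4) (nat_lit 295) (nat_lit 245) (nat_lit 180))))) (XT.nd (nat_lit 156) (nat_lit 76) (nat_lit 0) (XT.nd (nat_lit 78) (nat_lit 0) (nat_lit 0) (XT.lf (nat_lit 0) (nat_lit 19233379067) (nat_lit 76) (nat_lit 64644295753) (nat_lit 76) (nat_lit 24824243780) (nat_lit 4) (nat_lit 4) (nat_lit 5) (nat_lit 5) (nat_lit 5) (nat_lit 4) (nat_lit 296) (nat_lit 245) (nat_lit 179)) (XT.lf (nat_lit 0) (nat_lit 42655744297) (nat_lit 76) (nat_lit 56976797977) (nat_lit 76) (nat_lit 17138274108) (nat_lit 4) (nat_lit 4) (nat_lit 5) (nat_lit 5) (nat_lit 5) (nat_lit 4) (nat_lit 297) (nat_lit 245) (nat_lit 178))) (XT.nd (nat_lit 78) (nat_lit 76) (nat_lit 0) (XT.lf (nat_lit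 0) (nat_lit 67932699501) (nat_lit 76) (nat_lit 48704352136) (nat_lit 76) (nat_lit 8848724660) (nat_lit 4) (nat_lit 4) (nat_lit 5) (nat_lit 5) (nat_lit 5) (nat_lit 4) (nat_lit 298) (nat_lit 245) (nat_lit 177)) (XT.nd (nat_lit 78) (nat_lit 0) (nat_lit 0) (XT.lf (nat_lit 0) (nat_lit 90534344) (nat_lit 152) (nat_lit 39685868740) (nat_lit 76) (nat_lit 95121966457) (nat_lit 3) (nat_lit 5) (nat_lit 5) (nat_lit 5) (nat_lit 4) (nat_lit 4) (nat_lit 299) (nat_lit 245) (nat_lit 176)) (XT.lf (nat_lit 0) (nat_lit 9429686438) (nat_lit 152) (nat_lit 20555270535) (nat_lit 76) (nat_lit 115072032354) (nat_lit 3) (nat_lit 5) (nat_lit 5) (nat_lit 5) (nat_lit 4) (nat_lit 4) (nat_lit 300) (nat_lit 245) (nat_lit 175))))))) (XT.nd (nat_lit 702) (nat_lit 76) (nat_lit 0) (XT.nd (nat_lit 312) (nat_lit 0) (nat_lit 0) (XT.nd (nat_lit 156) (nat_lit 0) (nat_lit 0) (XT.nd (nat_lit 78) (nat_lit 0) (nat_lit 0) (XT.lf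 (nat_lit 0) (nat_lit 93221383) (nat_lit 76) (nat_lit 19415523256) (nat_lit 152) (nat_lit 136519925139) (nat_lit 2) (nat_lit 5) (nat_lit 3) (nat_lit 5) (nat_lit 4) (nat_lit 4) (nat_lit 301) (nat_lit 245) (nat_lit 174)) (XT.lf (nat_lit 0) (nat_lit 23112752180) (nat_lit 76) (nat_lit 7631164390) (nat_lit 152) (nat_lit 137116687697) (nat_lit 2) (nat_lit 5) (nat_lit 3) (nat_lit 5) (nat_lit 4) (nat_lit 4) (nat_lit 302) (nat_lit 245) (nat_lit 173))) (XT.nd (nat_lit 78) (nat_lit 0) (nat_lit 0) (XT.lf (nat_lit 0) (nat_lit 42949711064) (nat_lit 152) (nat_lit 132758867634) (nat_lit 0) (nat_lit 4926932762) (nat_lit 2) (nat_lit 5) (nat_lit 4) (nat_lit 4) (nat_lit 2) (nat_lit 4) (nat_lit 303) (nat_lit 245) (nat_lit 172)) (XT.lf (nat_lit 0) (nat_lit 56253465649) (nat_lit 152) (nat_lit 119952456098) (nat_lit 0) (nat_lit 18220422420) (nat_lit 2) (nat_lit 5) (nat_lit 4) (nat_lit 4) (nat_lit 2) (nat_lit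 4) (nat_lit 304) (nat_lit 245) (nat_lit 171)))) (XT.nd (nat_lit 156) (nat_lit 0) (nat_lit 0) (XT.nd (nat_lit 78) (nat_lit 0) (nat_lit 0) (XT.lf (nat_lit 0) (nat_lit 70614873527) (nat_lit 152) (nat_lit 106133583769) (nat_lit 0) (nat_lit 32572325736) (nat_lit 2) (nat_lit 5) (nat_lit 4) (nat_lit 4) (nat_lit 2) (nat_lit 4) (nat_lit 305) (nat_lit 245) (nat_lit 170)) (XT.lf (nat_lit 0) (nat_lit 86119039337) (nat_lit 152) (nat_lit 91220361034) (nat_lit 0) (nat_lit 48067691026) (nat_lit 2) (nat_lit 5) (nat_lit 4) (nat_lit 4) (nat_lit 2) (nat_lit 4) (nat_lit 306) (nat_lit 245) (nat_lit 169))) (XT.nd (nat_lit 78) (nat_lit 0) (nat_lit 0) (XT.lf (nat_lit 0) (nat_lit 102857839618) (nat_lit 152) (nat_lit 75124413241) (nat_lit 0) (nat_lit 64798342677) (nat_lit 2) (nat_lit 5) (nat_lit 4) (nat_lit 4) (nat_lit 2) (nat_lit 4) (nat_lit 307) (nat_lit 245) (nat_lit 168)) (XT.nd (nat_lit 78) (nat_lit 0) (nat_lit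 0) (XT.lf (nat_lit 0) (nat_lit 120930467260) (nat_lit 152) (nat_lit 57750356994) (nat_lit 0) (nat_lit 82863425291) (nat_lit 2) (nat_lit 5) (nat_lit 4) (nat_lit 4) (nat_lit 2) (nat_lit 4) (nat_lit 308) (nat_lit 245) (nat_lit 167)) (XT.lf (nat_lit 0) (nat_lit 140444019315) (nat_lit 152) (nat_lit 38995234923) (nat_lit 0) (nat_lit 102369991210) (nat_lit 2) (nat_lit 5) (nat_lit 4) (nat_lit 4) (nat_lit 2) (nat_lit 4) (nat_lit 309) (nat_lit 245) (nat_lit 166)))))) (XT.nd (nat_lit 390) (nat_lit 0) (nat_lit 0) (XT.nd (nat_lit 156) (nat_lit 0) (nat_lit 0) (XT.nd (nat_lit 78) (nat_lit 76) (nat_lit 0) (XT.lf (nat_lit 0) (nat_lit 161514131649) (nat_lit 152) (nat_lit 18747905564) (nat_lit 0) (nat_lit 123433634898) (nat_lit 2) (nat_lit 5) (nat_lit 4) (nat_lit 4) (nat_lit 2) (nat_lit 4) (nat_lit 310) (nat_lit 245) (nat_lit 165)) (XT.lf (nat_lit 0) (nat_lit 3214499309) (nat_lit 76) (nat_lit 181101352219)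 (nat_lit 76) (nat_lit 143014865981) (nat_lit 1) (nat_lit 4) (nat_lit 2) (nat_lit 5) (nat_lit 2) (nat_lit 4) (nat_lit 311) (nat_lit 245) (nat_lit 164))) (XT.nd (nat_lit 78) (nat_lit 0) (nat_lit 0) (XT.lf (nat_lit 0) (nat_lit 27596113410) (nat_lit 76) (nat_lit 181668180079) (nat_lit 76) (nat_lit 143576148021) (nat_lit 1) (nat_lit 4) (nat_lit 2) (nat_lit 5) (nat_lit 2) (nat_lit 4) (nat_lit 312) (nat_lit 245) (nat_lit 163)) (XT.nd (nat_lit 78) (nat_lit 0) (nat_lit 0) (XT.lf (nat_lit 0) (nat_lit 53921529952) (nat_lit 76) (nat_lit 182283384625) (nat_lit 76) (nat_lit 144186217548) (nat_lit 1) (nat_lit 4) (nat_lit 2) (nat_lit 5) (nat_lit 2) (nat_lit 4) (nat_lit 313) (nat_lit 245) (nat_lit 162)) (XT.lf (nat_lit 0) (nat_lit 82346751403) (nat_lit 76) (nat_lit 182950611514) (nat_lit 76) (nat_lit 144848689790) (nat_lit 1) (nat_lit 4) (nat_lit 2) (nat_lit 5) (nat_lit 2) (nat_lit 4) (nat_lit 314) (nat_lit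 245) (nat_lit 161))))) (XT.nd (nat_lit 156) (nat_lit 0) (nat_lit 0) (XT.nd (nat_lit 78) (nat_lit 0) (nat_lit 0) (XT.lf (nat_lit 0) (nat_lit 113040223521) (nat_lit 76) (nat_lit 183673814684) (nat_lit 76) (nat_lit 145567490508) (nat_lit 1) (nat_lit 4) (nat_lit 2) (nat_lit 5) (nat_lit 2) (nat_lit 4) (nat_lit 315) (nat_lit 245) (nat_lit 160)) (XT.lf (nat_lit 0) (nat_lit 146183833546) (nat_lit 76) (nat_lit 184457279782) (nat_lit 76) (nat_lit 146346879263) (nat_lit 1) (nat_lit 4) (nat_lit 2) (nat_lit 5) (nat_lit 2) (nat_lit 4) (nat_lit 316) (nat_lit 245) (nat_lit 159))) (XT.nd (nat_lit 78) (nat_lit 0) (nat_lit 0) (XT.lf (nat_lit 0) (nat_lit 181973988057) (nat_lit 76) (nat_lit 185305649565) (nat_lit 76) (nat_lit 147191474653) (nat_lit 1) (nat_lit 4) (nat_lit 2) (nat_lit 5) (nat_lit 2) (nat_lit 4) (nat_lit 317) (nat_lit 245) (nat_lit 158)) (XT.nd (nat_lit 78) (nat_lit 0) (nat_lit 0) (XT.lf (nat_lit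 0) (nat_lit 220622776859) (nat_lit 76) (nat_lit 186223951410) (nat_lit 76) (nat_lit 148106281690) (nat_lit 1) (nat_lit 4) (nat_lit 2) (nat_lit 5) (nat_lit 2) (nat_lit 4) (nat_lit 318) (nat_lit 245) (nat_lit 157)) (XT.lf (nat_lit 0) (nat_lit 262359229812) (nat_lit 76) (nat_lit 187217627104) (nat_lit 76) (nat_lit 149096721451) (nat_lit 1) (nat_lit 4) (nat_lit 2) (nat_lit 5) (nat_lit 2) (nat_lit 4) (nat_lit 319) (nat_lit 245) (nat_lit 156))))))))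
noncomputable def xc61 : XT := (XT.nd (nat_lit 32838) (nat_lit 0) (nat_lit 912) (XT.nd (nat_lit 32058) (nat_lit 0) (nat_lit 3724) (XT.nd (nat_lit 312) (nat_lit 0) (nat_lit 0) (XT.nd (nat_lit 156) (nat_lit 0) (nat_lit 0) (XT.nd (nat_lit 78) (nat_lit 0) (nat_lit 0) (XT.lf (nat_lit 0) (nat_lit 307430674042) (nat_lit 76) (nat_lit 188292565097) (nat_lit 76) (nat_lit 150168663210) (nat_lit 1) (nat_lit 4) (nat_lit 2) (nat_lit 5) (nat_lit 2) (nat_lit 4) (nat_lit 320) (nat_lit 245) (nat_lit 155)) (XT.lf (nat_lit 0) (nat_lit 356104199592) (nat_lit 76) (nat_lit 189455135391) (nat_lit 76) (nat_lit 151328459213) (nat_lit 1) (nat_lit 4) (nat_lit 2) (nat_lit 5) (nat_lit 2) (nat_lit 4) (nat_lit 321) (nat_lit 245) (nat_lit 154))) (XT.nd (nat_lit 78) (nat_lit 0) (nat_lit 0) (XT.lf (nat_lit 0) (nat_lit 408668242167) (nat_lit 76) (nat_lit 190712227293) (nat_lit 76) (nat_lit 152582982326) (nat_lit 1) (nat_lit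 4) (nat_lit 2) (nat_lit 5) (nat_lit 2) (nat_lit 4) (nat_lit 322) (nat_lit 245) (nat_lit 153)) (XT.lf (nat_lit 0) (nat_lit 465434292391) (nat_lit 76) (nat_lit 192071290234) (nat_lit 76) (nat_lit 153939666761) (nat_lit 1) (nat_lit 4) (nat_lit 2) (nat_lit 5) (nat_lit 2) (nat_lit 4) (nat_lit 323) (nat_lit 245) (nat_lit 152)))) (XT.nd (nat_lit 31512) (nat_lit 0) (nat_lit 6536) (XT.nd (nat_lit 31434) (nat_lit 0) (nat_lit 6992) (XT.lf (nat_lit 0) (nat_lit 526738741671) (nat_lit 76) (nat_lit 193540377923) (nat_lit 76) (nat_lit 155406552127) (nat_lit 1) (nat_lit 4) (nat_lit 2) (nat_lit 5) (nat_lit 2) (nat_lit 4) (nat_lit 324) (nat_lit 245) (nat_lit 151)) (XT.lf (nat_lit 0) (nat_lit 2548165130) (nat_lit 532) (nat_lit 604723742) (nat_lit 532) (nat_lit 604723742) (nat_lit 93) (nat_lit 3) (nat_lit 100) (nat_lit 3) (nat_lit 100) (nat_lit 5) (nat_lit 246) (nat_lit 246) (nat_lit 228))) (XT.nd (nat_lit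 78) (nat_lit 456) (nat_lit 0) (XT.lf (nat_lit 76) (nat_lit 4095698306) (nat_lit 0) (nat_lit 3272252926) (nat_lit 532) (nat_lit 335347875) (nat_lit 94) (nat_lit 5) (nat_lit 93) (nat_lit 3) (nat_lit 100) (nat_lit 5) (nat_lit 247) (nat_lit 246) (nat_lit 227)) (XT.nd (nat_lit 78) (nat_lit 0) (nat_lit 0) (XT.lf (nat_lit 0) (nat_lit 1700693468) (nat_lit 532) (nat_lit 6040379101) (nat_lit 608) (nat_lit 172368094) (nat_lit 87) (nat_lit 5) (nat_lit 94) (nat_lit 5) (nat_lit 95) (nat_lit 5) (nat_lit 248) (nat_lit 246) (nat_lit 226)) (XT.lf (nat_lit 0) (nat_lit 3815497633) (nat_lit 532) (nat_lit 401642532) (nat_lit 608) (nat_lit 3927404059) (nat_lit 87) (nat_lit 5) (nat_lit 94) (nat_lit 5) (nat_lit 95) (nat_lit 5) (nat_lit 249) (nat_lit 246) (nat_lit 225)))))) (XT.nd (nat_lit 390) (nat_lit 1748) (nat_lit 0) (XT.nd (nat_lit 156) (nat_lit 1064) (nat_lit 0) (XT.nd (nat_lit 78) (nat_lit 0) (nat_lit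 76) (XT.lf (nat_lit 76) (nat_lit 5758105588) (nat_lit 0) (nat_lit 253894559) (nat_lit 608) (nat_lit 2387257424) (nat_lit 88) (nat_lit 5) (nat_lit 87) (nat_lit 5) (nat_lit 95) (nat_lit 5) (nat_lit 250) (nat_lit 246) (nat_lit 224)) (XT.lf (nat_lit 76) (nat_lit 3686713355) (nat_lit 0) (nat_lit 4659972172) (nat_lit 608) (nat_lit 330231180) (nat_lit 89) (nat_lit 5) (nat_lit 88) (nat_lit 5) (nat_lit 96) (nat_lit 5) (nat_lit 251) (nat_lit 246) (nat_lit 223))) (XT.nd (nat_lit 78) (nat_lit 532) (nat_lit 0) (XT.lf (nat_lit 76) (nat_lit 1535280981) (nat_lit 0) (nat_lit 212772789) (nat_lit 684) (nat_lit 7232006845) (nat_lit 81) (nat_lit 5) (nat_lit 80) (nat_lit 5) (nat_lit 89) (nat_lit 5) (nat_lit 252) (nat_lit 246) (nat_lit 222)) (XT.nd (nat_lit 78) (nat_lit 608) (nat_lit 0) (XT.lf (nat_lit 0) (nat_lit 3993837163) (nat_lit 608) (nat_lit 743958706) (nat_lit 76) (nat_lit 4569314125) (nat_lit 81)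 (nat_lit 5) (nat_lit 89) (nat_lit 5) (nat_lit 82) (nat_lit 5) (nat_lit 253) (nat_lit 246) (nat_lit 221)) (XT.lf (nat_lit 0) (nat_lit 6392320503) (nat_lit 684) (nat_lit 3079352606) (nat_lit 76) (nat_lit 190521415) (nat_lit 73) (nat_lit 5) (nat_lit 82) (nat_lit 5) (nat_lit 74) (nat_lit 5) (nat_lit 254) (nat_lit 246) (nat_lit 220))))) (XT.nd (nat_lit 156) (nat_lit 684) (nat_lit 0) (XT.nd (nat_lit 78) (nat_lit 380) (nat_lit 0) (XT.lf (nat_lit 0) (nat_lit 4422469498) (nat_lit 684) (nat_lit 4594568981) (nat_lit 760) (nat_lit 1027413856) (nat_lit 64) (nat_lit 5) (nat_lit 73) (nat_lit 5) (nat_lit 74) (nat_lit 5) (nat_lit 255) (nat_lit 246) (nat_lit 219)) (XT.lf (nat_lit 0) (nat_lit 1327229992) (nat_lit 380) (nat_lit 8361849962) (nat_lit 76) (nat_lit 768678459) (nat_lit 59) (nat_lit 5) (nat_lit 64) (nat_lit 5) (nat_lit 60) (nat_lit 5) (nat_lit 256) (nat_lit 246) (nat_lit 218))) (XT.nd (nat_lit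 78) (nat_lit 684) (nat_lit 0) (XT.lf (nat_lit 0) (nat_lit 3896723581) (nat_lit 380) (nat_lit 480547414) (nat_lit 76) (nat_lit 6523287600) (nat_lit 59) (nat_lit 5) (nat_lit 64) (nat_lit 5) (nat_lit 60) (nat_lit 5) (nat_lit 257) (nat_lit 246) (nat_lit 217)) (XT.nd (nat_lit 78) (nat_lit 304) (nat_lit 0) (XT.lf (nat_lit 0) (nat_lit 6716363025) (nat_lit 456) (nat_lit 3216390695) (nat_lit 76) (nat_lit 1444165914) (nat_lit 54) (nat_lit 5) (nat_lit 60) (nat_lit 5) (nat_lit 55) (nat_lit 5) (nat_lit 258) (nat_lit 246) (nat_lit 216)) (XT.lf (nat_lit 0) (nat_lit 5616045239) (nat_lit 304) (nat_lit 4215250617) (nat_lit 380) (nat_lit 2056946625) (nat_lit 50) (nat_lit 5) (nat_lit 54) (nat_lit 5) (nat_lit 55) (nat_lit 5) (nat_lit 259) (nat_lit 246) (nat_lit 215))))))) (XT.nd (nat_lit 780) (nat_lit 988) (nat_lit 0) (XT.nd (nat_lit 390) (nat_lit 684) (nat_lit 0) (XT.nd (nat_lit 156) (nat_lit 760) (nat_lit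 0) (XT.nd (nat_lit 78) (nat_lit 0) (nat_lit 0) (XT.lf (nat_lit 0) (nat_lit 767412968) (nat_lit 380) (nat_lit 9670591311) (nat_lit 76) (nat_lit 2000345304) (nat_lit 45) (nat_lit 5) (nat_lit 50) (nat_lit 5) (nat_lit 46) (nat_lit 5) (nat_lit 260) (nat_lit 246) (nat_lit 214)) (XT.lf (nat_lit 0) (nat_lit 3837757325) (nat_lit 380) (nat_lit 487209431) (nat_lit 76) (nat_lit 8701484234) (nat_lit 45) (nat_lit 5) (nat_lit 50) (nat_lit 5) (nat_lit 46) (nat_lit 5) (nat_lit 261) (nat_lit 246) (nat_lit 213))) (XT.nd (nat_lit 78) (nat_lit 532) (nat_lit 0) (XT.lf (nat_lit 0) (nat_lit 7257765792) (nat_lit 304) (nat_lit 4056524721) (nat_lit 76) (nat_lit 2342364489) (nat_lit 42) (nat_lit 5) (nat_lit 46) (nat_lit 5) (nat_lit 43) (nat_lit 5) (nat_lit 262) (nat_lit 246) (nat_lit 212)) (XT.nd (nat_lit 78) (nat_lit 304) (nat_lit 0) (XT.lf (nat_lit 0) (nat_lit 6201199438) (nat_lit 228) (nat_lit 4848806120) (nat_lit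 304) (nat_lit 3282575583) (nat_lit 39) (nat_lit 5) (nat_lit 42) (nat_lit 5) (nat_lit 43) (nat_lit 5) (nat_lit 263) (nat_lit 246) (nat_lit 211)) (XT.lf (nat_lit 0) (nat_lit 146766998) (nat_lit 304) (nat_lit 12755790888) (nat_lit 76) (nat_lit 2156848858) (nat_lit 35) (nat_lit 5) (nat_lit 39) (nat_lit 5) (nat_lit 36) (nat_lit 5) (nat_lit 264) (nat_lit 246) (nat_lit 210))))) (XT.nd (nat_lit 156) (nat_lit 456) (nat_lit 0) (XT.nd (nat_lit 78) (nat_lit 228) (nat_lit 0) (XT.lf (nat_lit 0) (nat_lit 3889853348) (nat_lit 304) (nat_lit 2209848373) (nat_lit 76) (nat_lit 9734459737) (nat_lit 35) (nat_lit 5) (nat_lit 39) (nat_lit 5) (nat_lit 36) (nat_lit 5) (nat_lit 265) (nat_lit 246) (nat_lit 209)) (XT.lf (nat_lit 0) (nat_lit 8033067569) (nat_lit 304) (nat_lit 7298046555) (nat_lit 76) (nat_lit 1334927808) (nat_lit 32) (nat_lit 5) (nat_lit 36) (nat_lit 5) (nat_lit 33) (nat_lit 5) (nat_lit 266) (nat_lit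 246) (nat_lit 208))) (XT.nd (nat_lit 78) (nat_lit 304) (nat_lit 0) (XT.lf (nat_lit 0) (nat_lit 4334852829) (nat_lit 152) (nat_lit 8318392406) (nat_lit 228) (nat_lit 4904118436) (nat_lit 30) (nat_lit 5) (nat_lit 32) (nat_lit 5) (nat_lit 33) (nat_lit 5) (nat_lit 267) (nat_lit 246) (nat_lit 207)) (XT.nd (nat_lit 78) (nat_lit 304) (nat_lit 0) (XT.lf (nat_lit 0) (nat_lit 17074018007) (nat_lit 152) (nat_lit 635421316) (nat_lit 228) (nat_lit 807385549) (nat_lit 30) (nat_lit 5) (nat_lit 32) (nat_lit 5) (nat_lit 33) (nat_lit 5) (nat_lit 268) (nat_lit 246) (nat_lit 206)) (XT.lf (nat_lit 0) (nat_lit 3746875541) (nat_lit 304) (nat_lit 8156872023) (nat_lit 76) (nat_lit 7634329474) (nat_lit 26) (nat_lit 5) (nat_lit 30) (nat_lit 5) (nat_lit 27) (nat_lit 5) (nat_lit 269) (nat_lit 246) (nat_lit 205)))))) (XT.nd (nat_lit 390) (nat_lit 456) (nat_lit 0) (XT.nd (nat_lit 156) (nat_lit 380) (nat_lit 0) (XT.nd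 (nat_lit 78) (nat_lit 0) (nat_lit 0) (XT.lf (nat_lit 0) (nat_lit 4688524752) (nat_lit 152) (nat_lit 4003897351) (nat_lit 228) (nat_lit 11945309519) (nat_lit 24) (nat_lit 5) (nat_lit 26) (nat_lit 5) (nat_lit 27) (nat_lit 5) (nat_lit 270) (nat_lit 246) (nat_lit 204)) (XT.lf (nat_lit 0) (nat_lit 14196589003) (nat_lit 228) (nat_lit 3116987923) (nat_lit 76) (nat_lit 4503749120) (nat_lit 24) (nat_lit 5) (nat_lit 27) (nat_lit 5) (nat_lit 25) (nat_lit 5) (nat_lit 271) (nat_lit 246) (nat_lit 203))) (XT.nd (nat_lit 78) (nat_lit 228) (nat_lit 0) (XT.lf (nat_lit 0) (nat_lit 10952106209) (nat_lit 152) (nat_lit 9379216931) (nat_lit 228) (nat_lit 2750560877) (nat_lit 22) (nat_lit 5) (nat_lit 24) (nat_lit 5) (nat_lit 25) (nat_lit 5) (nat_lit 272) (nat_lit 246) (nat_lit 202)) (XT.nd (nat_lit 78) (nat_lit 0) (nat_lit 0) (XT.lf (nat_lit 0) (nat_lit 1758146844) (nat_lit 152) (nat_lit 706777499) (nat_lit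 228) (nat_lit 21979018143) (nat_lit 19) (nat_lit 5) (nat_lit 21) (nat_lit 5) (nat_lit 22) (nat_lit 5) (nat_lit 273) (nat_lit 246) (nat_lit 201)) (XT.lf (nat_lit 0) (nat_lit 8307913980) (nat_lit 228) (nat_lit 8969220973) (nat_lit 76) (nat_lit 8620332458) (nat_lit 19) (nat_lit 5) (nat_lit 22) (nat_lit 5) (nat_lit 20) (nat_lit 5) (nat_lit 274) (nat_lit 246) (nat_lit 200))))) (XT.nd (nat_lit 156) (nat_lit 304) (nat_lit 0) (XT.nd (nat_lit 78) (nat_lit 0) (nat_lit 0) (XT.lf (nat_lit 0) (nat_lit 5958628952) (nat_lit 152) (nat_lit 8723355271) (nat_lit 228) (nat_lit 12782189450) (nat_lit 17) (nat_lit 5) (nat_lit 19) (nat_lit 5) (nat_lit 20) (nat_lit 5) (nat_lit 275) (nat_lit 246) (nat_lit 199)) (XT.lf (nat_lit 0) (nat_lit 21693243889) (nat_lit 228) (nat_lit 6821715628) (nat_lit 76) (nat_lit 634969115) (nat_lit 17) (nat_lit 5) (nat_lit 20) (nat_lit 5) (nat_lit 18) (nat_lit 4) (nat_lit 276) (nat_lit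 246) (nat_lit 198))) (XT.nd (nat_lit 78) (nat_lit 228) (nat_lit 0) (XT.lf (nat_lit 0) (nat_lit 9122722987) (nat_lit 76) (nat_lit 20395563718) (nat_lit 152) (nat_lit 1439682964) (nat_lit 16) (nat_lit 5) (nat_lit 17) (nat_lit 5) (nat_lit 18) (nat_lit 4) (nat_lit 277) (nat_lit 246) (nat_lit 197)) (XT.nd (nat_lit 78) (nat_lit 152) (nat_lit 0) (XT.lf (nat_lit 0) (nat_lit 4982106935) (nat_lit 152) (nat_lit 6456981716) (nat_lit 76) (nat_lit 21463411020) (nat_lit 15) (nat_lit 5) (nat_lit 17) (nat_lit 5) (nat_lit 16) (nat_lit 5) (nat_lit 278) (nat_lit 246) (nat_lit 196)) (XT.lf (nat_lit 0) (nat_lit 10406968805) (nat_lit 152) (nat_lit 1590572629) (nat_lit 228) (nat_lit 22997410518) (nat_lit 13) (nat_lit 5) (nat_lit 15) (nat_lit 5) (nat_lit 16) (nat_lit 5) (nat_lit 279) (nat_lit 246) (nat_lit 195))))))))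
noncomputable def xc62 : XT := (XT.nd (nat_lit 1482) (nat_lit 228) (nat_lit 0) (XT.nd (nat_lit 702) (nat_lit 304) (nat_lit 0) (XT.nd (nat_lit 312) (nat_lit 76) (nat_lit 0) (XT.nd (nat_lit 156) (nat_lit 228) (nat_lit 0) (XT.nd (nat_lit 78) (nat_lit 76) (nat_lit 0) (XT.lf (nat_lit 0) (nat_lit 19798269297) (nat_lit 228) (nat_lit 8594008214) (nat_lit 76) (nat_lit 8851372747) (nat_lit 13) (nat_lit 5) (nat_lit 16) (nat_lit 5) (nat_lit 14) (nat_lit 4) (nat_lit 280) (nat_lit 246) (nat_lit 194)) (XT.lf (nat_lit 0) (nat_lit 8888667655) (nat_lit 76) (nat_lit 19470825074) (nat_lit 152) (nat_lit 11305978696) (nat_lit 12) (nat_lit 5) (nat_lit 13) (nat_lit 5) (nat_lit 14) (nat_lit 4) (nat_lit 281) (nat_lit 246) (nat_lit 193))) (XT.nd (nat_lit 78) (nat_lit 228) (nat_lit 0) (XT.lf (nat_lit 0) (nat_lit 28030464196) (nat_lit 76) (nat_lit 9697128095) (nat_lit 152) (nat_lit 4547392323) (nat_lit 12) (nat_lit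 5) (nat_lit 13) (nat_lit 5) (nat_lit 14) (nat_lit 4) (nat_lit 282) (nat_lit 246) (nat_lit 192)) (XT.lf (nat_lit 0) (nat_lit 2709265520) (nat_lit 228) (nat_lit 41464343921) (nat_lit 76) (nat_lit 915267989) (nat_lit 9) (nat_lit 5) (nat_lit 12) (nat_lit 5) (nat_lit 10) (nat_lit 4) (nat_lit 283) (nat_lit 246) (nat_lit 191)))) (XT.nd (nat_lit 156) (nat_lit 76) (nat_lit 0) (XT.nd (nat_lit 78) (nat_lit 0) (nat_lit 0) (XT.lf (nat_lit 0) (nat_lit 10779859122) (nat_lit 228) (nat_lit 24970910236) (nat_lit 76) (nat_lit 12353785804) (nat_lit 9) (nat_lit 5) (nat_lit 12) (nat_lit 5) (nat_lit 10) (nat_lit 4) (nat_lit 284) (nat_lit 246) (nat_lit 190)) (XT.lf (nat_lit 0) (nat_lit 19472843102) (nat_lit 228) (nat_lit 7197777521) (nat_lit 76) (nat_lit 24692063550) (nat_lit 9) (nat_lit 5) (nat_lit 12) (nat_lit 5) (nat_lit 10) (nat_lit 4) (nat_lit 285) (nat_lit 246) (nat_lit 189))) (XT.nd (nat_lit 78) (nat_lit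 0) (nat_lit 0) (XT.lf (nat_lit 0) (nat_lit 12355840551) (nat_lit 76) (nat_lit 16676800186) (nat_lit 152) (nat_lit 25840285694) (nat_lit 8) (nat_lit 5) (nat_lit 9) (nat_lit 5) (nat_lit 10) (nat_lit 4) (nat_lit 286) (nat_lit 246) (nat_lit 188)) (XT.nd (nat_lit 78) (nat_lit 0) (nat_lit 0) (XT.lf (nat_lit 0) (nat_lit 33695549622) (nat_lit 76) (nat_lit 5766563958) (nat_lit 152) (nat_lit 19196659244) (nat_lit 8) (nat_lit 5) (nat_lit 9) (nat_lit 5) (nat_lit 10) (nat_lit 4) (nat_lit 287) (nat_lit 246) (nat_lit 187)) (XT.lf (nat_lit 0) (nat_lit 50800693939) (nat_lit 152) (nat_lit 6132367675) (nat_lit 0) (nat_lit 5810714985) (nat_lit 8) (nat_lit 5) (nat_lit 10) (nat_lit 4) (nat_lit 8) (nat_lit 4) (nat_lit 288) (nat_lit 246) (nat_lit 186)))))) (XT.nd (nat_lit 390) (nat_lit 76) (nat_lit 0) (XT.nd (nat_lit 156) (nat_lit 76) (nat_lit 0) (XT.nd (nat_lit 78) (nat_lit 76) (nat_lit 0) (XT.lf (nat_lit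 0) (nat_lit 14542255339) (nat_lit 76) (nat_lit 48810622030) (nat_lit 76) (nat_lit 3787402615) (nat_lit 7) (nat_lit 4) (nat_lit 8) (nat_lit 5) (nat_lit 8) (nat_lit 4) (nat_lit 289) (nat_lit 246) (nat_lit 185)) (XT.lf (nat_lit 0) (nat_lit 4951401081) (nat_lit 152) (nat_lit 34903625402) (nat_lit 76) (nat_lit 32025011741) (nat_lit 6) (nat_lit 5) (nat_lit 8) (nat_lit 5) (nat_lit 7) (nat_lit 4) (nat_lit 290) (nat_lit 246) (nat_lit 184))) (XT.nd (nat_lit 78) (nat_lit 76) (nat_lit 0) (XT.lf (nat_lit 0) (nat_lit 14242456593) (nat_lit 152) (nat_lit 15885459940) (nat_lit 76) (nat_lit 46868684709) (nat_lit 6) (nat_lit 5) (nat_lit 8) (nat_lit 5) (nat_lit 7) (nat_lit 4) (nat_lit 291) (nat_lit 246) (nat_lit 183)) (XT.nd (nat_lit 78) (nat_lit 0) (nat_lit 0) (XT.lf (nat_lit 0) (nat_lit 4781336579) (nat_lit 76) (nat_lit 19555356048) (nat_lit 152) (nat_lit 58182820879) (nat_lit 5) (nat_lit 5) (nat_lit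 6) (nat_lit 5) (nat_lit 7) (nat_lit 4) (nat_lit 292) (nat_lit 246) (nat_lit 182)) (XT.lf (nat_lit 0) (nat_lit 27644010281) (nat_lit 76) (nat_lit 7857124508) (nat_lit 152) (nat_lit 52970008198) (nat_lit 5) (nat_lit 5) (nat_lit 6) (nat_lit 5) (nat_lit 7) (nat_lit 4) (nat_lit 293) (nat_lit 246) (nat_lit 181))))) (XT.nd (nat_lit 156) (nat_lit 76) (nat_lit 0) (XT.nd (nat_lit 78) (nat_lit 0) (nat_lit 0) (XT.lf (nat_lit 0) (nat_lit 47620153011) (nat_lit 152) (nat_lit 42661198200) (nat_lit 0) (nat_lit 4614496879) (nat_lit 5) (nat_lit 5) (nat_lit 7) (nat_lit 4) (nat_lit 5) (nat_lit 4) (nat_lit 294) (nat_lit 246) (nat_lit 180)) (XT.lf (nat_lit 0) (nat_lit 60828991926) (nat_lit 152) (nat_lit 23196151655) (nat_lit 0) (nat_lit 17803386148) (nat_lit 5) (nat_lit 5) (nat_lit 7) (nat_lit 4) (nat_lit 5) (nat_lit 4) (nat_lit 295) (nat_lit 246) (nat_lit 179))) (XT.nd (nat_lit 78) (nat_lit 76) (nat_lit 0)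 (XT.lf (nat_lit 0) (nat_lit 75083254403) (nat_lit 152) (nat_lit 2193972914) (nat_lit 0) (nat_lit 32039176730) (nat_lit 5) (nat_lit 5) (nat_lit 7) (nat_lit 4) (nat_lit 5) (nat_lit 4) (nat_lit 296) (nat_lit 246) (nat_lit 178)) (XT.nd (nat_lit 78) (nat_lit 0) (nat_lit 0) (XT.lf (nat_lit 0) (nat_lit 21146619257) (nat_lit 76) (nat_lit 69650948879) (nat_lit 76) (nat_lit 26589767599) (nat_lit 4) (nat_lit 4) (nat_lit 5) (nat_lit 5) (nat_lit 5) (nat_lit 4) (nat_lit 297) (nat_lit 246) (nat_lit 177)) (XT.lf (nat_lit 0) (nat_lit 46415027789) (nat_lit 76) (nat_lit 61382265394) (nat_lit 76) (nat_lit 18305247441) (nat_lit 4) (nat_lit 4) (nat_lit 5) (nat_lit 5) (nat_lit 5) (nat_lit 4) (nat_lit 298) (nat_lit 246) (nat_lit 176))))))) (XT.nd (nat_lit 780) (nat_lit 76) (nat_lit 0) (XT.nd (nat_lit 390) (nat_lit 0) (nat_lit 0) (XT.nd (nat_lit 156) (nat_lit 76) (nat_lit 0) (XT.nd (nat_lit 78) (nat_lit 76)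 (nat_lit 0) (XT.lf (nat_lit 0) (nat_lit 73688448747) (nat_lit 76) (nat_lit 52459333250) (nat_lit 76) (nat_lit 9367651711) (nat_lit 4) (nat_lit 4) (nat_lit 5) (nat_lit 5) (nat_lit 5) (nat_lit 4) (nat_lit 299) (nat_lit 246) (nat_lit 175)) (XT.lf (nat_lit 0) (nat_lit 267149937) (nat_lit 152) (nat_lit 42557601561) (nat_lit 76) (nat_lit 102856828153) (nat_lit 3) (nat_lit 5) (nat_lit 5) (nat_lit 5) (nat_lit 4) (nat_lit 4) (nat_lit 300) (nat_lit 246) (nat_lit 174))) (XT.nd (nat_lit 78) (nat_lit 76) (nat_lit 0) (XT.lf (nat_lit 0) (nat_lit 10340888061) (nat_lit 152) (nat_lit 21919010069) (nat_lit 76) (nat_lit 124393632330) (nat_lit 3) (nat_lit 5) (nat_lit 5) (nat_lit 5) (nat_lit 4) (nat_lit 4) (nat_lit 301) (nat_lit 246) (nat_lit 173)) (XT.nd (nat_lit 78) (nat_lit 0) (nat_lit 0) (XT.lf (nat_lit 0) (nat_lit 369163100) (nat_lit 76) (nat_lit 20849682812) (nat_lit 152) (nat_lit 147284483772) (nat_lit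 2) (nat_lit 5) (nat_lit 3) (nat_lit 5) (nat_lit 4) (nat_lit 4) (nat_lit 302) (nat_lit 246) (nat_lit 172)) (XT.lf (nat_lit 0) (nat_lit 25210368658) (nat_lit 76) (nat_lit 8131396148) (nat_lit 152) (nat_lit 147940619585) (nat_lit 2) (nat_lit 5) (nat_lit 3) (nat_lit 5) (nat_lit 4) (nat_lit 4) (nat_lit 303) (nat_lit 246) (nat_lit 171))))) (XT.nd (nat_lit 156) (nat_lit 0) (nat_lit 0) (XT.nd (nat_lit 78) (nat_lit 0) (nat_lit 0) (XT.lf (nat_lit 0) (nat_lit 46515369800) (nat_lit 152) (nat_lit 143144444608) (nat_lit 0) (nat_lit 5419913624) (nat_lit 2) (nat_lit 5) (nat_lit 4) (nat_lit 4) (nat_lit 2) (nat_lit 4) (nat_lit 304) (nat_lit 246) (nat_lit 170)) (XT.lf (nat_lit 0) (nat_lit 60873818689) (nat_lit 152) (nat_lit 129330937366) (nat_lit 0) (nat_lit 19769561992) (nat_lit 2) (nat_lit 5) (nat_lit 4) (nat_lit 4) (nat_lit 2) (nat_lit 4) (nat_lit 305) (nat_lit 246) (nat_lit 169))) (XT.nd (nat_lit 78)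 (nat_lit 0) (nat_lit 0) (XT.lf (nat_lit 0) (nat_lit 76375244694) (nat_lit 152) (nat_lit 114422682304) (nat_lit 0) (nat_lit 35262839367) (nat_lit 2) (nat_lit 5) (nat_lit 4) (nat_lit 4) (nat_lit 2) (nat_lit 4) (nat_lit 306) (nat_lit 246) (nat_lit 168)) (XT.nd (nat_lit 78) (nat_lit 0) (nat_lit 0) (XT.lf (nat_lit 0) (nat_lit 93111508118) (nat_lit 152) (nat_lit 98331334208) (nat_lit 0) (nat_lit 51991557764) (nat_lit 2) (nat_lit 5) (nat_lit 4) (nat_lit 4) (nat_lit 2) (nat_lit 4) (nat_lit 307) (nat_lit 246) (nat_lit 167)) (XT.lf (nat_lit 0) (nat_lit 111181786819) (nat_lit 152) (nat_lit 80961536939) (nat_lit 0) (nat_lit 70054850328) (nat_lit 2) (nat_lit 5) (nat_lit 4) (nat_lit 4) (nat_lit 2) (nat_lit 4) (nat_lit 308) (nat_lit 246) (nat_lit 166)))))) (XT.nd (nat_lit 390) (nat_lit 0) (nat_lit 0) (XT.nd (nat_lit 156) (nat_lit 76) (nat_lit 0) (XT.nd (nat_lit 78) (nat_lit 0) (nat_lit 0) (XT.lf (nat_lit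 0) (nat_lit 130693163929) (nat_lit 152) (nat_lit 62210358367) (nat_lit 0) (nat_lit 89559758793) (nat_lit 2) (nat_lit 5) (nat_lit 4) (nat_lit 4) (nat_lit 2) (nat_lit 4) (nat_lit 309) (nat_lit 246) (nat_lit 165)) (XT.lf (nat_lit 0) (nat_lit 151761262424) (nat_lit 152) (nat_lit 41966680396) (nat_lit 0) (nat_lit 110621867802) (nat_lit 2) (nat_lit 5) (nat_lit 4) (nat_lit 4) (nat_lit 2) (nat_lit 4) (nat_lit 310) (nat_lit 246) (nat_lit 164))) (XT.nd (nat_lit 78) (nat_lit 76) (nat_lit 0) (XT.lf (nat_lit 0) (nat_lit 174510930295) (nat_lit 152) (nat_lit 20110540490) (nat_lit 0) (nat_lit 133365989852) (nat_lit 2) (nat_lit 5) (nat_lit 4) (nat_lit 4) (nat_lit 2) (nat_lit 4) (nat_lit 311) (nat_lit 246) (nat_lit 163)) (XT.nd (nat_lit 78) (nat_lit 0) (nat_lit 0) (XT.lf (nat_lit 0) (nat_lit 3602894335) (nat_lit 76) (nat_lit 195530337331) (nat_lit 76) (nat_lit 154380261869) (nat_lit 1) (nat_lit 4) (nat_lit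 2) (nat_lit 5) (nat_lit 2) (nat_lit 4) (nat_lit 312) (nat_lit 246) (nat_lit 162)) (XT.lf (nat_lit 0) (nat_lit 29925316447) (nat_lit 76) (nat_lit 196146890906) (nat_lit 76) (nat_lit 154992060796) (nat_lit 1) (nat_lit 4) (nat_lit 2) (nat_lit 5) (nat_lit 2) (nat_lit 4) (nat_lit 313) (nat_lit 246) (nat_lit 161))))) (XT.nd (nat_lit 156) (nat_lit 0) (nat_lit 0) (XT.nd (nat_lit 78) (nat_lit 0) (nat_lit 0) (XT.lf (nat_lit 0) (nat_lit 58347765278) (nat_lit 76) (nat_lit 196815366896) (nat_lit 76) (nat_lit 155656134335) (nat_lit 1) (nat_lit 4) (nat_lit 2) (nat_lit 5) (nat_lit 2) (nat_lit 4) (nat_lit 314) (nat_lit 246) (nat_lit 160)) (XT.lf (nat_lit 0) (nat_lit 89038670155) (nat_lit 76) (nat_lit 197539726640) (nat_lit 76) (nat_lit 156376417735) (nat_lit 1) (nat_lit 4) (nat_lit 2) (nat_lit 5) (nat_lit 2) (nat_lit 4) (nat_lit 315) (nat_lit 246) (nat_lit 159))) (XT.nd (nat_lit 78) (nat_lit 0) (nat_lit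 0) (XT.lf (nat_lit 0) (nat_lit 122179903105) (nat_lit 76) (nat_lit 198324262641) (nat_lit 76) (nat_lit 157157179344) (nat_lit 1) (nat_lit 4) (nat_lit 2) (nat_lit 5) (nat_lit 2) (nat_lit 4) (nat_lit 316) (nat_lit 246) (nat_lit 158)) (XT.nd (nat_lit 78) (nat_lit 0) (nat_lit 0) (XT.lf (nat_lit 0) (nat_lit 157967856621) (nat_lit 76) (nat_lit 199173624000) (nat_lit 76) (nat_lit 158003045895) (nat_lit 1) (nat_lit 4) (nat_lit 2) (nat_lit 5) (nat_lit 2) (nat_lit 4) (nat_lit 317) (nat_lit 246) (nat_lit 157)) (XT.lf (nat_lit 0) (nat_lit 196614607464) (nat_lit 76) (nat_lit 200092843971) (nat_lit 76) (nat_lit 158919029933) (nat_lit 1) (nat_lit 4) (nat_lit 2) (nat_lit 5) (nat_lit 2) (nat_lit 4) (nat_lit 318) (nat_lit 246) (nat_lit 156))))))))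
noncomputable def xc63 : XT := (XT.nd (nat_lit 32916) (nat_lit 0) (nat_lit 1064) (XT.nd (nat_lit 32136) (nat_lit 0) (nat_lit 4028) (XT.nd (nat_lit 312) (nat_lit 0) (nat_lit 0) (XT.nd (nat_lit 156) (nat_lit 0) (nat_lit 0) (XT.nd (nat_lit 78) (nat_lit 0) (nat_lit 0) (XT.lf (nat_lit 0) (nat_lit 238349173418) (nat_lit 76) (nat_lit 201087369782) (nat_lit 76) (nat_lit 159910559509) (nat_lit 1) (nat_lit 4) (nat_lit 2) (nat_lit 5) (nat_lit 2) (nat_lit 4) (nat_lit 319) (nat_lit 246) (nat_lit 155)) (XT.lf (nat_lit 0) (nat_lit 283418870428) (nat_lit 76) (nat_lit 202163094920) (nat_lit 76) (nat_lit 160983510356) (nat_lit 1) (nat_lit 4) (nat_lit 2) (nat_lit 5) (nat_lit 2) (nat_lit 4) (nat_lit 320) (nat_lit 246) (nat_lit 154))) (XT.nd (nat_lit 78) (nat_lit 0) (nat_lit 0) (XT.lf (nat_lit 0) (nat_lit 332090778180) (nat_lit 76) (nat_lit 203326394052) (nat_lit 76) (nat_lit 162144240701) (nat_lit 1) (nat_lit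 4) (nat_lit 2) (nat_lit 5) (nat_lit 2) (nat_lit 4) (nat_lit 321) (nat_lit 246) (nat_lit 153)) (XT.lf (nat_lit 0) (nat_lit 384653322795) (nat_lit 76) (nat_lit 204584160804) (nat_lit 76) (nat_lit 163399628945) (nat_lit 1) (nat_lit 4) (nat_lit 2) (nat_lit 5) (nat_lit 2) (nat_lit 4) (nat_lit 322) (nat_lit 246) (nat_lit 152)))) (XT.nd (nat_lit 31590) (nat_lit 0) (nat_lit 6460) (XT.nd (nat_lit 78) (nat_lit 0) (nat_lit 0) (XT.lf (nat_lit 0) (nat_lit 441417986018) (nat_lit 76) (nat_lit 205943848607) (nat_lit 76) (nat_lit 164757114426) (nat_lit 1) (nat_lit 4) (nat_lit 2) (nat_lit 5) (nat_lit 2) (nat_lit 4) (nat_lit 323) (nat_lit 246) (nat_lit 151)) (XT.lf (nat_lit 0) (nat_lit 502721151038) (nat_lit 76) (nat_lit 207413514870) (nat_lit 76) (nat_lit 166224741503) (nat_lit 1) (nat_lit 4) (nat_lit 2) (nat_lit 5) (nat_lit 2) (nat_lit 4) (nat_lit 324) (nat_lit 246) (nat_lit 150))) (XT.nd (nat_lit 78)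 (nat_lit 0) (nat_lit 0) (XT.lf (nat_lit 0) (nat_lit 371969862) (nat_lit 0) (nat_lit 371969862) (nat_lit 532) (nat_lit 3206383076) (nat_lit 86) (nat_lit 5) (nat_lit 86) (nat_lit 3) (nat_lit 93) (nat_lit 3) (nat_lit 247) (nat_lit 247) (nat_lit 226)) (XT.nd (nat_lit 78) (nat_lit 0) (nat_lit 0) (XT.lf (nat_lit 0) (nat_lit 3377629953) (nat_lit 532) (nat_lit 1778826837) (nat_lit 608) (nat_lit 2961234433) (nat_lit 86) (nat_lit 5) (nat_lit 93) (nat_lit 3) (nat_lit 94) (nat_lit 5) (nat_lit 248) (nat_lit 247) (nat_lit 225)) (XT.lf (nat_lit 76) (nat_lit 4046013503) (nat_lit 0) (nat_lit 1271319840) (nat_lit 608) (nat_lit 3040575711) (nat_lit 87) (nat_lit 5) (nat_lit 86) (nat_lit 5) (nat_lit 94) (nat_lit 5) (nat_lit 249) (nat_lit 247) (nat_lit 224)))))) (XT.nd (nat_lit 390) (nat_lit 1444) (nat_lit 0) (XT.nd (nat_lit 156) (nat_lit 456) (nat_lit 0) (XT.nd (nat_lit 78) (nat_lit 608) (nat_lit 0) (XT.lf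 (nat_lit 76) (nat_lit 1686465285) (nat_lit 0) (nat_lit 5664987360) (nat_lit 608) (nat_lit 1269621541) (nat_lit 88) (nat_lit 5) (nat_lit 87) (nat_lit 5) (nat_lit 95) (nat_lit 5) (nat_lit 250) (nat_lit 247) (nat_lit 223)) (XT.lf (nat_lit 0) (nat_lit 563406324) (nat_lit 608) (nat_lit 722674731) (nat_lit 684) (nat_lit 7622270730) (nat_lit 79) (nat_lit 5) (nat_lit 87) (nat_lit 5) (nat_lit 88) (nat_lit 5) (nat_lit 251) (nat_lit 247) (nat_lit 222))) (XT.nd (nat_lit 78) (nat_lit 532) (nat_lit 0) (XT.lf (nat_lit 0) (nat_lit 2504988188) (nat_lit 608) (nat_lit 3217430300) (nat_lit 684) (nat_lit 3495397685) (nat_lit 80) (nat_lit 5) (nat_lit 88) (nat_lit 5) (nat_lit 89) (nat_lit 5) (nat_lit 252) (nat_lit 247) (nat_lit 221)) (XT.nd (nat_lit 78) (nat_lit 532) (nat_lit 0) (XT.lf (nat_lit 76) (nat_lit 3730374463) (nat_lit 0) (nat_lit 828972795) (nat_lit 684) (nat_lit 4995340983) (nat_lit 81) (nat_lit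 5) (nat_lit 80) (nat_lit 5) (nat_lit 89) (nat_lit 5) (nat_lit 253) (nat_lit 247) (nat_lit 220)) (XT.lf (nat_lit 0) (nat_lit 1298647841) (nat_lit 608) (nat_lit 5499873990) (nat_lit 684) (nat_lit 3119449223) (nat_lit 73) (nat_lit 5) (nat_lit 81) (nat_lit 5) (nat_lit 82) (nat_lit 5) (nat_lit 254) (nat_lit 247) (nat_lit 219))))) (XT.nd (nat_lit 156) (nat_lit 684) (nat_lit 0) (XT.nd (nat_lit 78) (nat_lit 760) (nat_lit 0) (XT.lf (nat_lit 0) (nat_lit 9083963017) (nat_lit 608) (nat_lit 129514158) (nat_lit 684) (nat_lit 1097455419) (nat_lit 73) (nat_lit 5) (nat_lit 81) (nat_lit 5) (nat_lit 82) (nat_lit 5) (nat_lit 255) (nat_lit 247) (nat_lit 218)) (XT.lf (nat_lit 0) (nat_lit 1137470721) (nat_lit 760) (nat_lit 3964120868) (nat_lit 76) (nat_lit 5628989855) (nat_lit 63) (nat_lit 5) (nat_lit 73) (nat_lit 5) (nat_lit 64) (nat_lit 5) (nat_lit 256) (nat_lit 247) (nat_lit 217))) (XT.nd (nat_lit 78) (nat_lit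 380) (nat_lit 0) (XT.lf (nat_lit 0) (nat_lit 3511127999) (nat_lit 380) (nat_lit 6919010193) (nat_lit 76) (nat_lit 753211290) (nat_lit 59) (nat_lit 5) (nat_lit 64) (nat_lit 5) (nat_lit 60) (nat_lit 5) (nat_lit 257) (nat_lit 247) (nat_lit 216)) (XT.nd (nat_lit 78) (nat_lit 0) (nat_lit 0) (XT.lf (nat_lit 0) (nat_lit 1483860641) (nat_lit 380) (nat_lit 4671582500) (nat_lit 456) (nat_lit 5513196591) (nat_lit 54) (nat_lit 5) (nat_lit 59) (nat_lit 5) (nat_lit 60) (nat_lit 5) (nat_lit 258) (nat_lit 247) (nat_lit 215)) (XT.lf (nat_lit 0) (nat_lit 9065118379) (nat_lit 456) (nat_lit 1507605081) (nat_lit 76) (nat_lit 1617652923) (nat_lit 54) (nat_lit 5) (nat_lit 60) (nat_lit 5) (nat_lit 55) (nat_lit 5) (nat_lit 259) (nat_lit 247) (nat_lit 214))))))) (XT.nd (nat_lit 780) (nat_lit 1064) (nat_lit 0) (XT.nd (nat_lit 390) (nat_lit 760) (nat_lit 0) (XT.nd (nat_lit 156) (nat_lit 456) (nat_lit 0) (XT.nd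 (nat_lit 78) (nat_lit 380) (nat_lit 0) (XT.lf (nat_lit 0) (nat_lit 7945981553) (nat_lit 304) (nat_lit 4378445334) (nat_lit 380) (nat_lit 423872785) (nat_lit 50) (nat_lit 5) (nat_lit 54) (nat_lit 5) (nat_lit 55) (nat_lit 5) (nat_lit 260) (nat_lit 247) (nat_lit 213)) (XT.lf (nat_lit 0) (nat_lit 2472448072) (nat_lit 380) (nat_lit 8501521408) (nat_lit 76) (nat_lit 2372265226) (nat_lit 45) (nat_lit 5) (nat_lit 50) (nat_lit 5) (nat_lit 46) (nat_lit 5) (nat_lit 261) (nat_lit 247) (nat_lit 212))) (XT.nd (nat_lit 78) (nat_lit 228) (nat_lit 0) (XT.lf (nat_lit 0) (nat_lit 1314704808) (nat_lit 228) (nat_lit 4372490132) (nat_lit 304) (nat_lit 8299620963) (nat_lit 42) (nat_lit 5) (nat_lit 45) (nat_lit 5) (nat_lit 46) (nat_lit 5) (nat_lit 262) (nat_lit 247) (nat_lit 211)) (XT.nd (nat_lit 78) (nat_lit 228) (nat_lit 0) (XT.lf (nat_lit 0) (nat_lit 9278852840) (nat_lit 304) (nat_lit 2588763874) (nat_lit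 76) (nat_lit 2805260072) (nat_lit 42) (nat_lit 5) (nat_lit 46) (nat_lit 5) (nat_lit 43) (nat_lit 5) (nat_lit 263) (nat_lit 247) (nat_lit 210)) (XT.lf (nat_lit 0) (nat_lit 8411687791) (nat_lit 228) (nat_lit 4882849296) (nat_lit 304) (nat_lit 2112654242) (nat_lit 39) (nat_lit 5) (nat_lit 42) (nat_lit 5) (nat_lit 43) (nat_lit 5) (nat_lit 264) (nat_lit 247) (nat_lit 209))))) (XT.nd (nat_lit 156) (nat_lit 456) (nat_lit 0) (XT.nd (nat_lit 78) (nat_lit 0) (nat_lit 0) (XT.lf (nat_lit 0) (nat_lit 1474700388) (nat_lit 304) (nat_lit 12025764489) (nat_lit 76) (nat_lit 2694384146) (nat_lit 35) (nat_lit 5) (nat_lit 39) (nat_lit 5) (nat_lit 36) (nat_lit 5) (nat_lit 265) (nat_lit 247) (nat_lit 208)) (XT.lf (nat_lit 0) (nat_lit 5419737940) (nat_lit 304) (nat_lit 765812474) (nat_lit 76) (nat_lit 10851167792) (nat_lit 35) (nat_lit 5) (nat_lit 39) (nat_lit 5) (nat_lit 36) (nat_lit 5) (nat_lit 266) (nat_lit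 247) (nat_lit 207))) (XT.nd (nat_lit 78) (nat_lit 228) (nat_lit 0) (XT.lf (nat_lit 0) (nat_lit 9834551439) (nat_lit 304) (nat_lit 6277082957) (nat_lit 76) (nat_lit 1826747715) (nat_lit 32) (nat_lit 5) (nat_lit 36) (nat_lit 5) (nat_lit 33) (nat_lit 5) (nat_lit 267) (nat_lit 247) (nat_lit 206)) (XT.nd (nat_lit 78) (nat_lit 76) (nat_lit 0) (XT.lf (nat_lit 0) (nat_lit 6216705408) (nat_lit 152) (nat_lit 8545764682) (nat_lit 228) (nat_lit 4141855477) (nat_lit 30) (nat_lit 5) (nat_lit 32) (nat_lit 5) (nat_lit 33) (nat_lit 5) (nat_lit 268) (nat_lit 247) (nat_lit 205)) (XT.lf (nat_lit 0) (nat_lit 190782542) (nat_lit 228) (nat_lit 86594154) (nat_lit 76) (nat_lit 19667281792) (nat_lit 29) (nat_lit 5) (nat_lit 32) (nat_lit 5) (nat_lit 30) (nat_lit 5) (nat_lit 269) (nat_lit 247) (nat_lit 204)))))) (XT.nd (nat_lit 390) (nat_lit 304) (nat_lit 0) (XT.nd (nat_lit 156) (nat_lit 380) (nat_lit 0) (XT.nd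 (nat_lit 78) (nat_lit 152) (nat_lit 0) (XT.lf (nat_lit 0) (nat_lit 5033069272) (nat_lit 304) (nat_lit 7369969410) (nat_lit 76) (nat_lit 8646493296) (nat_lit 26) (nat_lit 5) (nat_lit 30) (nat_lit 5) (nat_lit 27) (nat_lit 5) (nat_lit 270) (nat_lit 247) (nat_lit 203)) (XT.lf (nat_lit 0) (nat_lit 6440502261) (nat_lit 152) (nat_lit 3882184593) (nat_lit 228) (nat_lit 11917218786) (nat_lit 24) (nat_lit 5) (nat_lit 26) (nat_lit 5) (nat_lit 27) (nat_lit 5) (nat_lit 271) (nat_lit 247) (nat_lit 202))) (XT.nd (nat_lit 78) (nat_lit 380) (nat_lit 0) (XT.lf (nat_lit 0) (nat_lit 16204327443) (nat_lit 228) (nat_lit 2052607329) (nat_lit 76) (nat_lit 5260231457) (nat_lit 24) (nat_lit 5) (nat_lit 27) (nat_lit 5) (nat_lit 25) (nat_lit 5) (nat_lit 272) (nat_lit 247) (nat_lit 201)) (XT.nd (nat_lit 78) (nat_lit 228) (nat_lit 0) (XT.lf (nat_lit 0) (nat_lit 13084920810) (nat_lit 152) (nat_lit 9699945836) (nat_lit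 228) (nat_lit 2100414973) (nat_lit 22) (nat_lit 5) (nat_lit 24) (nat_lit 5) (nat_lit 25) (nat_lit 5) (nat_lit 273) (nat_lit 247) (nat_lit 200)) (XT.lf (nat_lit 0) (nat_lit 3129114444) (nat_lit 152) (nat_lit 332156261) (nat_lit 228) (nat_lit 22896641167) (nat_lit 19) (nat_lit 5) (nat_lit 21) (nat_lit 5) (nat_lit 22) (nat_lit 5) (nat_lit 274) (nat_lit 247) (nat_lit 199))))) (XT.nd (nat_lit 156) (nat_lit 152) (nat_lit 0) (XT.nd (nat_lit 78) (nat_lit 152) (nat_lit 0) (XT.lf (nat_lit 0) (nat_lit 9718736066) (nat_lit 228) (nat_lit 8515341803) (nat_lit 76) (nat_lit 9696406753) (nat_lit 19) (nat_lit 5) (nat_lit 22) (nat_lit 5) (nat_lit 20) (nat_lit 5) (nat_lit 275) (nat_lit 247) (nat_lit 198)) (XT.lf (nat_lit 0) (nat_lit 7555827767) (nat_lit 152) (nat_lit 9009125182) (nat_lit 228) (nat_lit 13059572329) (nat_lit 17) (nat_lit 5) (nat_lit 19) (nat_lit 5) (nat_lit 20) (nat_lit 5) (nat_lit 276) (nat_lit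 247) (nat_lit 197))) (XT.nd (nat_lit 78) (nat_lit 152) (nat_lit 0) (XT.lf (nat_lit 0) (nat_lit 24090595994) (nat_lit 228) (nat_lit 6301844753) (nat_lit 76) (nat_lit 1055126630) (nat_lit 17) (nat_lit 5) (nat_lit 20) (nat_lit 5) (nat_lit 18) (nat_lit 4) (nat_lit 277) (nat_lit 247) (nat_lit 196)) (XT.nd (nat_lit 78) (nat_lit 76) (nat_lit 0) (XT.lf (nat_lit 0) (nat_lit 10871838921) (nat_lit 76) (nat_lit 21636688333) (nat_lit 152) (nat_lit 893473593) (nat_lit 16) (nat_lit 5) (nat_lit 17) (nat_lit 5) (nat_lit 18) (nat_lit 4) (nat_lit 278) (nat_lit 247) (nat_lit 195)) (XT.lf (nat_lit 0) (nat_lit 5973467702) (nat_lit 152) (nat_lit 6009115778) (nat_lit 76) (nat_lit 23521446998) (nat_lit 15) (nat_lit 5) (nat_lit 17) (nat_lit 5) (nat_lit 16) (nat_lit 5) (nat_lit 279) (nat_lit 247) (nat_lit 194))))))))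
noncomputable def xc64 : XT := (XT.nd (nat_lit 1482) (nat_lit 228) (nat_lit 0) (XT.nd (nat_lit 702) (nat_lit 304) (nat_lit 0) (XT.nd (nat_lit 312) (nat_lit 304) (nat_lit 0) (XT.nd (nat_lit 156) (nat_lit 76) (nat_lit 0) (XT.nd (nat_lit 78) (nat_lit 0) (nat_lit 0) (XT.lf (nat_lit 0) (nat_lit 12162038072) (nat_lit 152) (nat_lit 1358591349) (nat_lit 228) (nat_lit 24244801162) (nat_lit 13) (nat_lit 5) (nat_lit 15) (nat_lit 5) (nat_lit 16) (nat_lit 5) (nat_lit 280) (nat_lit 247) (nat_lit 193)) (XT.lf (nat_lit 0) (nat_lit 21908883817) (nat_lit 228) (nat_lit 8405583736) (nat_lit 76) (nat_lit 9881454400) (nat_lit 13) (nat_lit 5) (nat_lit 16) (nat_lit 5) (nat_lit 14) (nat_lit 4) (nat_lit 281) (nat_lit 247) (nat_lit 192))) (XT.nd (nat_lit 78) (nat_lit 0) (nat_lit 0) (XT.lf (nat_lit 0) (nat_lit 10437638694) (nat_lit 76) (nat_lit 20691429308) (nat_lit 152) (nat_lit 11683783050) (nat_lit 12) (nat_lit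 5) (nat_lit 13) (nat_lit 5) (nat_lit 14) (nat_lit 4) (nat_lit 282) (nat_lit 247) (nat_lit 191)) (XT.lf (nat_lit 0) (nat_lit 31048713949) (nat_lit 76) (nat_lit 10160804109) (nat_lit 152) (nat_lit 4423522652) (nat_lit 12) (nat_lit 5) (nat_lit 13) (nat_lit 5) (nat_lit 14) (nat_lit 4) (nat_lit 283) (nat_lit 247) (nat_lit 190)))) (XT.nd (nat_lit 156) (nat_lit 76) (nat_lit 0) (XT.nd (nat_lit 78) (nat_lit 0) (nat_lit 0) (XT.lf (nat_lit 0) (nat_lit 3379744045) (nat_lit 228) (nat_lit 44005483505) (nat_lit 76) (nat_lit 1287405880) (nat_lit 9) (nat_lit 5) (nat_lit 12) (nat_lit 5) (nat_lit 10) (nat_lit 4) (nat_lit 284) (nat_lit 247) (nat_lit 189)) (XT.lf (nat_lit 0) (nat_lit 12062374966) (nat_lit 228) (nat_lit 26250057194) (nat_lit 76) (nat_lit 13618863160) (nat_lit 9) (nat_lit 5) (nat_lit 12) (nat_lit 5) (nat_lit 10) (nat_lit 4) (nat_lit 285) (nat_lit 247) (nat_lit 188))) (XT.nd (nat_lit 78) (nat_lit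 76) (nat_lit 0) (XT.lf (nat_lit 0) (nat_lit 21419677138) (nat_lit 228) (nat_lit 7108298000) (nat_lit 76) (nat_lit 26923701312) (nat_lit 9) (nat_lit 5) (nat_lit 12) (nat_lit 5) (nat_lit 10) (nat_lit 4) (nat_lit 286) (nat_lit 247) (nat_lit 187)) (XT.nd (nat_lit 78) (nat_lit 0) (nat_lit 0) (XT.lf (nat_lit 0) (nat_lit 13980696316) (nat_lit 76) (nat_lit 17744682772) (nat_lit 152) (nat_lit 27518345354) (nat_lit 8) (nat_lit 5) (nat_lit 9) (nat_lit 5) (nat_lit 10) (nat_lit 4) (nat_lit 287) (nat_lit 247) (nat_lit 186)) (XT.lf (nat_lit 0) (nat_lit 36980442222) (nat_lit 76) (nat_lit 5981350715) (nat_lit 152) (nat_lit 20372055691) (nat_lit 8) (nat_lit 5) (nat_lit 9) (nat_lit 5) (nat_lit 10) (nat_lit 4) (nat_lit 288) (nat_lit 247) (nat_lit 185)))))) (XT.nd (nat_lit 390) (nat_lit 76) (nat_lit 0) (XT.nd (nat_lit 156) (nat_lit 152) (nat_lit 0) (XT.nd (nat_lit 78) (nat_lit 76) (nat_lit 0) (XT.lf (nat_lit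 0) (nat_lit 55185637811) (nat_lit 152) (nat_lit 6064600147) (nat_lit 0) (nat_lit 6496542176) (nat_lit 8) (nat_lit 5) (nat_lit 10) (nat_lit 4) (nat_lit 8) (nat_lit 4) (nat_lit 289) (nat_lit 247) (nat_lit 184)) (XT.lf (nat_lit 0) (nat_lit 16239727195) (nat_lit 76) (nat_lit 52486837875) (nat_lit 76) (nat_lit 3769243903) (nat_lit 7) (nat_lit 4) (nat_lit 8) (nat_lit 5) (nat_lit 8) (nat_lit 4) (nat_lit 290) (nat_lit 247) (nat_lit 183))) (XT.nd (nat_lit 78) (nat_lit 76) (nat_lit 0) (XT.lf (nat_lit 0) (nat_lit 5635357691) (nat_lit 152) (nat_lit 37191498054) (nat_lit 76) (nat_lit 34788822472) (nat_lit 6) (nat_lit 5) (nat_lit 8) (nat_lit 5) (nat_lit 7) (nat_lit 4) (nat_lit 291) (nat_lit 247) (nat_lit 182)) (XT.nd (nat_lit 78) (nat_lit 76) (nat_lit 0) (XT.lf (nat_lit 0) (nat_lit 15648375828) (nat_lit 152) (nat_lit 16689243605) (nat_lit 76) (nat_lit 50805040404) (nat_lit 6) (nat_lit 5) (nat_lit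 8) (nat_lit 5) (nat_lit 7) (nat_lit 4) (nat_lit 292) (nat_lit 247) (nat_lit 181)) (XT.lf (nat_lit 0) (nat_lit 5610599076) (nat_lit 76) (nat_lit 20926784352) (nat_lit 152) (nat_lit 62570685454) (nat_lit 5) (nat_lit 5) (nat_lit 6) (nat_lit 5) (nat_lit 7) (nat_lit 4) (nat_lit 293) (nat_lit 247) (nat_lit 180))))) (XT.nd (nat_lit 156) (nat_lit 76) (nat_lit 0) (XT.nd (nat_lit 78) (nat_lit 0) (nat_lit 0) (XT.lf (nat_lit 0) (nat_lit 30269193669) (nat_lit 76) (nat_lit 8306990599) (nat_lit 152) (nat_lit 56960607840) (nat_lit 5) (nat_lit 5) (nat_lit 6) (nat_lit 5) (nat_lit 7) (nat_lit 4) (nat_lit 294) (nat_lit 247) (nat_lit 179)) (XT.lf (nat_lit 0) (nat_lit 51649902995) (nat_lit 152) (nat_lit 45682506264) (nat_lit 0) (nat_lit 5143827213) (nat_lit 5) (nat_lit 5) (nat_lit 7) (nat_lit 4) (nat_lit 5) (nat_lit 4) (nat_lit 295) (nat_lit 247) (nat_lit 178))) (XT.nd (nat_lit 78) (nat_lit 76) (nat_lit 0)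 (XT.lf (nat_lit 0) (nat_lit 65899142524) (nat_lit 152) (nat_lit 24689262498) (nat_lit 0) (nat_lit 19375963136) (nat_lit 5) (nat_lit 5) (nat_lit 7) (nat_lit 4) (nat_lit 5) (nat_lit 4) (nat_lit 296) (nat_lit 247) (nat_lit 177)) (XT.nd (nat_lit 78) (nat_lit 76) (nat_lit 0) (XT.lf (nat_lit 0) (nat_lit 81278647389) (nat_lit 152) (nat_lit 2033767331) (nat_lit 0) (nat_lit 34739631328) (nat_lit 5) (nat_lit 5) (nat_lit 7) (nat_lit 4) (nat_lit 5) (nat_lit 4) (nat_lit 297) (nat_lit 247) (nat_lit 176)) (XT.lf (nat_lit 0) (nat_lit 23159482083) (nat_lit 76) (nat_lit 75081657733) (nat_lit 76) (nat_lit 28527978085) (nat_lit 4) (nat_lit 4) (nat_lit 5) (nat_lit 5) (nat_lit 5) (nat_lit 4) (nat_lit 298) (nat_lit 247) (nat_lit 175))))))) (XT.nd (nat_lit 702) (nat_lit 76) (nat_lit 0) (XT.nd (nat_lit 312) (nat_lit 76) (nat_lit 0) (XT.nd (nat_lit 156) (nat_lit 76) (nat_lit 0) (XT.nd (nat_lit 78) (nat_lit 0)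 (nat_lit 0) (XT.lf (nat_lit 0) (nat_lit 50425575647) (nat_lit 76) (nat_lit 66161951203) (nat_lit 76) (nat_lit 19594694161) (nat_lit 4) (nat_lit 4) (nat_lit 5) (nat_lit 5) (nat_lit 5) (nat_lit 4) (nat_lit 299) (nat_lit 247) (nat_lit 174)) (XT.lf (nat_lit 0) (nat_lit 79858844679) (nat_lit 76) (nat_lit 56534880444) (nat_lit 76) (nat_lit 9955051741) (nat_lit 4) (nat_lit 4) (nat_lit 5) (nat_lit 5) (nat_lit 5) (nat_lit 4) (nat_lit 300) (nat_lit 247) (nat_lit 173))) (XT.nd (nat_lit 78) (nat_lit 0) (nat_lit 0) (XT.lf (nat_lit 0) (nat_lit 433731846) (nat_lit 152) (nat_lit 45702318844) (nat_lit 76) (nat_lit 111192631246) (nat_lit 3) (nat_lit 5) (nat_lit 5) (nat_lit 5) (nat_lit 4) (nat_lit 4) (nat_lit 301) (nat_lit 247) (nat_lit 172)) (XT.lf (nat_lit 0) (nat_lit 11302612730) (nat_lit 152) (nat_lit 23431891205) (nat_lit 76) (nat_lit 134444434806) (nat_lit 3) (nat_lit 5) (nat_lit 5) (nat_lit 5) (nat_lit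 4) (nat_lit 4) (nat_lit 302) (nat_lit 247) (nat_lit 171)))) (XT.nd (nat_lit 156) (nat_lit 0) (nat_lit 0) (XT.nd (nat_lit 78) (nat_lit 0) (nat_lit 0) (XT.lf (nat_lit 0) (nat_lit 628877910) (nat_lit 76) (nat_lit 22415563554) (nat_lit 152) (nat_lit 158932609947) (nat_lit 2) (nat_lit 5) (nat_lit 3) (nat_lit 5) (nat_lit 4) (nat_lit 4) (nat_lit 303) (nat_lit 247) (nat_lit 170)) (XT.lf (nat_lit 0) (nat_lit 27440329411) (nat_lit 76) (nat_lit 8687376467) (nat_lit 152) (nat_lit 159651209405) (nat_lit 2) (nat_lit 5) (nat_lit 3) (nat_lit 5) (nat_lit 4) (nat_lit 4) (nat_lit 304) (nat_lit 247) (nat_lit 169))) (XT.nd (nat_lit 78) (nat_lit 0) (nat_lit 0) (XT.lf (nat_lit 0) (nat_lit 50347780669) (nat_lit 152) (nat_lit 154394412010) (nat_lit 0) (nat_lit 5938234287) (nat_lit 2) (nat_lit 5) (nat_lit 4) (nat_lit 4) (nat_lit 2) (nat_lit 4) (nat_lit 305) (nat_lit 247) (nat_lit 168)) (XT.nd (nat_lit 78) (nat_lit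 0) (nat_lit 0) (XT.lf (nat_lit 0) (nat_lit 65846669818) (nat_lit 152) (nat_lit 139490756646) (nat_lit 0) (nat_lit 21429578408) (nat_lit 2) (nat_lit 5) (nat_lit 4) (nat_lit 4) (nat_lit 2) (nat_lit 4) (nat_lit 306) (nat_lit 247) (nat_lit 167)) (XT.lf (nat_lit 0) (nat_lit 82580584301) (nat_lit 152) (nat_lit 123403667528) (nat_lit 0) (nat_lit 38156506754) (nat_lit 2) (nat_lit 5) (nat_lit 4) (nat_lit 4) (nat_lit 2) (nat_lit 4) (nat_lit 307) (nat_lit 247) (nat_lit 166)))))) (XT.nd (nat_lit 390) (nat_lit 76) (nat_lit 0) (XT.nd (nat_lit 156) (nat_lit 0) (nat_lit 0) (XT.nd (nat_lit 78) (nat_lit 0) (nat_lit 0) (XT.lf (nat_lit 0) (nat_lit 100648688057) (nat_lit 152) (nat_lit 106037813759) (nat_lit 0) (nat_lit 56218141864) (nat_lit 2) (nat_lit 5) (nat_lit 4) (nat_lit 4) (nat_lit 2) (nat_lit 4) (nat_lit 308) (nat_lit 247) (nat_lit 165)) (XT.lf (nat_lit 0) (nat_lit 120158051328) (nat_lit 152) (nat_lit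 87290286574) (nat_lit 0) (nat_lit 75721515650) (nat_lit 2) (nat_lit 5) (nat_lit 4) (nat_lit 4) (nat_lit 2) (nat_lit 4) (nat_lit 309) (nat_lit 247) (nat_lit 164))) (XT.nd (nat_lit 78) (nat_lit 0) (nat_lit 0) (XT.lf (nat_lit 0) (nat_lit 141224285158) (nat_lit 152) (nat_lit 67049989518) (nat_lit 0) (nat_lit 96782203659) (nat_lit 2) (nat_lit 5) (nat_lit 4) (nat_lit 4) (nat_lit 2) (nat_lit 4) (nat_lit 310) (nat_lit 247) (nat_lit 163)) (XT.nd (nat_lit 78) (nat_lit 0) (nat_lit 0) (XT.lf (nat_lit 0) (nat_lit 163972226487) (nat_lit 152) (nat_lit 45196980089) (nat_lit 0) (nat_lit 119525009969) (nat_lit 2) (nat_lit 5) (nat_lit 4) (nat_lit 4) (nat_lit 2) (nat_lit 4) (nat_lit 311) (nat_lit 247) (nat_lit 162)) (XT.lf (nat_lit 0) (nat_lit 188536677931) (nat_lit 152) (nat_lit 21601758971) (nat_lit 0) (nat_lit 144084706765) (nat_lit 2) (nat_lit 5) (nat_lit 4) (nat_lit 4) (nat_lit 2) (nat_lit 4) (nat_lit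 312) (nat_lit 247) (nat_lit 161))))) (XT.nd (nat_lit 156) (nat_lit 0) (nat_lit 0) (XT.nd (nat_lit 78) (nat_lit 0) (nat_lit 0) (XT.lf (nat_lit 0) (nat_lit 4003638812) (nat_lit 76) (nat_lit 211122075818) (nat_lit 76) (nat_lit 166665702201) (nat_lit 1) (nat_lit 4) (nat_lit 2) (nat_lit 5) (nat_lit 2) (nat_lit 4) (nat_lit 313) (nat_lit 247) (nat_lit 160)) (XT.lf (nat_lit 0) (nat_lit 32423520402) (nat_lit 76) (nat_lit 211791708383) (nat_lit 76) (nat_lit 167331258422) (nat_lit 1) (nat_lit 4) (nat_lit 2) (nat_lit 5) (nat_lit 2) (nat_lit 4) (nat_lit 314) (nat_lit 247) (nat_lit 159))) (XT.nd (nat_lit 78) (nat_lit 0) (nat_lit 0) (XT.lf (nat_lit 0) (nat_lit 63112048203) (nat_lit 76) (nat_lit 212517139030) (nat_lit 76) (nat_lit 168052914676) (nat_lit 1) (nat_lit 4) (nat_lit 2) (nat_lit 5) (nat_lit 2) (nat_lit 4) (nat_lit 315) (nat_lit 247) (nat_lit 158)) (XT.nd (nat_lit 78) (nat_lit 0) (nat_lit 0)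 (XT.lf (nat_lit 0) (nat_lit 96251080159) (nat_lit 76) (nat_lit 213302666607) (nat_lit 76) (nat_lit 168834947445) (nat_lit 1) (nat_lit 4) (nat_lit 2) (nat_lit 5) (nat_lit 2) (nat_lit 4) (nat_lit 316) (nat_lit 247) (nat_lit 157)) (XT.lf (nat_lit 0) (nat_lit 132036995716) (nat_lit 76) (nat_lit 214152946092) (nat_lit 76) (nat_lit 169681990998) (nat_lit 1) (nat_lit 4) (nat_lit 2) (nat_lit 5) (nat_lit 2) (nat_lit 4) (nat_lit 317) (nat_lit 247) (nat_lit 156))))))))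
noncomputable def xc65 : XT := (XT.nd (nat_lit 32994) (nat_lit 0) (nat_lit 1140) (XT.nd (nat_lit 32214) (nat_lit 0) (nat_lit 4028) (XT.nd (nat_lit 312) (nat_lit 0) (nat_lit 0) (XT.nd (nat_lit 156) (nat_lit 0) (nat_lit 0) (XT.nd (nat_lit 78) (nat_lit 0) (nat_lit 0) (XT.lf (nat_lit 0) (nat_lit 170681859561) (nat_lit 76) (nat_lit 215073016179) (nat_lit 76) (nat_lit 170599064851) (nat_lit 1) (nat_lit 4) (nat_lit 2) (nat_lit 5) (nat_lit 2) (nat_lit 4) (nat_lit 318) (nat_lit 247) (nat_lit 155)) (XT.lf (nat_lit 0) (nat_lit 212414678293) (nat_lit 76) (nat_lit 216068329136) (nat_lit 76) (nat_lit 171591603516) (nat_lit 1) (nat_lit 4) (nat_lit 2) (nat_lit 5) (nat_lit 2) (nat_lit 4) (nat_lit 319) (nat_lit 247) (nat_lit 154))) (XT.nd (nat_lit 78) (nat_lit 0) (nat_lit 0) (XT.lf (nat_lit 0) (nat_lit 257482757505) (nat_lit 76) (nat_lit 217144783112) (nat_lit 76) (nat_lit 172665488704) (nat_lit 1) (nat_lit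 4) (nat_lit 2) (nat_lit 5) (nat_lit 2) (nat_lit 4) (nat_lit 320) (nat_lit 247) (nat_lit 153)) (XT.lf (nat_lit 0) (nat_lit 306153167297) (nat_lit 76) (nat_lit 218308757095) (nat_lit 76) (nat_lit 173827084180) (nat_lit 1) (nat_lit 4) (nat_lit 2) (nat_lit 5) (nat_lit 2) (nat_lit 4) (nat_lit 321) (nat_lit 247) (nat_lit 152)))) (XT.nd (nat_lit 156) (nat_lit 0) (nat_lit 0) (XT.nd (nat_lit 78) (nat_lit 0) (nat_lit 0) (XT.lf (nat_lit 0) (nat_lit 358714324911) (nat_lit 76) (nat_lit 219567148707) (nat_lit 76) (nat_lit 175083273471) (nat_lit 1) (nat_lit 4) (nat_lit 2) (nat_lit 5) (nat_lit 2) (nat_lit 4) (nat_lit 322) (nat_lit 247) (nat_lit 151)) (XT.lf (nat_lit 0) (nat_lit 415477703875) (nat_lit 76) (nat_lit 220927415086) (nat_lit 76) (nat_lit 176441500662) (nat_lit 1) (nat_lit 4) (nat_lit 2) (nat_lit 5) (nat_lit 2) (nat_lit 4) (nat_lit 323) (nat_lit 247) (nat_lit 150))) (XT.nd (nat_lit 31590)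 (nat_lit 0) (nat_lit 6460) (XT.lf (nat_lit 0) (nat_lit 476779679766) (nat_lit 76) (nat_lit 222397617067) (nat_lit 76) (nat_lit 177909814508) (nat_lit 1) (nat_lit 4) (nat_lit 2) (nat_lit 5) (nat_lit 2) (nat_lit 4) (nat_lit 324) (nat_lit 247) (nat_lit 149)) (XT.nd (nat_lit 78) (nat_lit 0) (nat_lit 0) (XT.lf (nat_lit 0) (nat_lit 1271529926) (nat_lit 0) (nat_lit 1271529926) (nat_lit 532) (nat_lit 1629019705) (nat_lit 86) (nat_lit 5) (nat_lit 86) (nat_lit 3) (nat_lit 93) (nat_lit 3) (nat_lit 248) (nat_lit 248) (nat_lit 224)) (XT.lf (nat_lit 0) (nat_lit 6844182748) (nat_lit 532) (nat_lit 110667064) (nat_lit 608) (nat_lit 1638941773) (nat_lit 86) (nat_lit 5) (nat_lit 93) (nat_lit 3) (nat_lit 94) (nat_lit 5) (nat_lit 249) (nat_lit 248) (nat_lit 223)))))) (XT.nd (nat_lit 390) (nat_lit 1900) (nat_lit 0) (XT.nd (nat_lit 156) (nat_lit 0) (nat_lit 0) (XT.nd (nat_lit 78) (nat_lit 532) (nat_lit 0)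 (XT.lf (nat_lit 76) (nat_lit 6101479861) (nat_lit 0) (nat_lit 2627854466) (nat_lit 608) (nat_lit 135378758) (nat_lit 87) (nat_lit 5) (nat_lit 86) (nat_lit 5) (nat_lit 94) (nat_lit 5) (nat_lit 250) (nat_lit 248) (nat_lit 222)) (XT.lf (nat_lit 0) (nat_lit 1505218220) (nat_lit 608) (nat_lit 5533232540) (nat_lit 684) (nat_lit 2120732483) (nat_lit 79) (nat_lit 5) (nat_lit 87) (nat_lit 5) (nat_lit 88) (nat_lit 5) (nat_lit 251) (nat_lit 248) (nat_lit 221))) (XT.nd (nat_lit 78) (nat_lit 0) (nat_lit 76) (XT.lf (nat_lit 76) (nat_lit 1044360434) (nat_lit 0) (nat_lit 2203130087) (nat_lit 684) (nat_lit 6231374061) (nat_lit 80) (nat_lit 5) (nat_lit 79) (nat_lit 5) (nat_lit 88) (nat_lit 5) (nat_lit 252) (nat_lit 248) (nat_lit 220)) (XT.nd (nat_lit 78) (nat_lit 0) (nat_lit 0) (XT.lf (nat_lit 0) (nat_lit 5148993936) (nat_lit 608) (nat_lit 1617467882) (nat_lit 684) (nat_lit 3057150460) (nat_lit 80) (nat_lit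 5) (nat_lit 88) (nat_lit 5) (nat_lit 89) (nat_lit 5) (nat_lit 253) (nat_lit 248) (nat_lit 219)) (XT.lf (nat_lit 76) (nat_lit 5805442797) (nat_lit 0) (nat_lit 1408989336) (nat_lit 684) (nat_lit 2981365374) (nat_lit 81) (nat_lit 5) (nat_lit 80) (nat_lit 5) (nat_lit 89) (nat_lit 5) (nat_lit 254) (nat_lit 248) (nat_lit 218))))) (XT.nd (nat_lit 156) (nat_lit 684) (nat_lit 0) (XT.nd (nat_lit 78) (nat_lit 760) (nat_lit 0) (XT.lf (nat_lit 0) (nat_lit 3227548045) (nat_lit 608) (nat_lit 6256605340) (nat_lit 684) (nat_lit 1112066993) (nat_lit 73) (nat_lit 5) (nat_lit 81) (nat_lit 5) (nat_lit 82) (nat_lit 5) (nat_lit 255) (nat_lit 248) (nat_lit 217)) (XT.lf (nat_lit 0) (nat_lit 472347516) (nat_lit 684) (nat_lit 410583030) (nat_lit 760) (nat_lit 10145145940) (nat_lit 63) (nat_lit 5) (nat_lit 72) (nat_lit 5) (nat_lit 73) (nat_lit 5) (nat_lit 256) (nat_lit 248) (nat_lit 216))) (XT.nd (nat_lit 78) (nat_lit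 684) (nat_lit 0) (XT.lf (nat_lit 0) (nat_lit 3124527479) (nat_lit 760) (nat_lit 2489158184) (nat_lit 76) (nat_lit 5873924876) (nat_lit 63) (nat_lit 5) (nat_lit 73) (nat_lit 5) (nat_lit 64) (nat_lit 5) (nat_lit 257) (nat_lit 248) (nat_lit 215)) (XT.nd (nat_lit 78) (nat_lit 380) (nat_lit 0) (XT.lf (nat_lit 0) (nat_lit 5573327916) (nat_lit 380) (nat_lit 5662013376) (nat_lit 76) (nat_lit 747486158) (nat_lit 59) (nat_lit 5) (nat_lit 64) (nat_lit 5) (nat_lit 60) (nat_lit 5) (nat_lit 258) (nat_lit 248) (nat_lit 214)) (XT.lf (nat_lit 0) (nat_lit 3334404235) (nat_lit 380) (nat_lit 4989873964) (nat_lit 456) (nat_lit 4188361894) (nat_lit 54) (nat_lit 5) (nat_lit 59) (nat_lit 5) (nat_lit 60) (nat_lit 5) (nat_lit 259) (nat_lit 248) (nat_lit 213))))))) (XT.nd (nat_lit 780) (nat_lit 1064) (nat_lit 0) (XT.nd (nat_lit 390) (nat_lit 912) (nat_lit 0) (XT.nd (nat_lit 156) (nat_lit 532) (nat_lit 0) (XT.nd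 (nat_lit 78) (nat_lit 76) (nat_lit 0) (XT.lf (nat_lit 0) (nat_lit 59295508) (nat_lit 304) (nat_lit 11284981354) (nat_lit 380) (nat_lit 1738381404) (nat_lit 50) (nat_lit 5) (nat_lit 54) (nat_lit 5) (nat_lit 55) (nat_lit 5) (nat_lit 260) (nat_lit 248) (nat_lit 212)) (XT.lf (nat_lit 0) (nat_lit 1048719600) (nat_lit 380) (nat_lit 3513042113) (nat_lit 76) (nat_lit 9127536466) (nat_lit 49) (nat_lit 5) (nat_lit 54) (nat_lit 5) (nat_lit 50) (nat_lit 5) (nat_lit 261) (nat_lit 248) (nat_lit 211))) (XT.nd (nat_lit 78) (nat_lit 228) (nat_lit 0) (XT.lf (nat_lit 0) (nat_lit 4079402068) (nat_lit 380) (nat_lit 7516076241) (nat_lit 76) (nat_lit 2743709937) (nat_lit 45) (nat_lit 5) (nat_lit 50) (nat_lit 5) (nat_lit 46) (nat_lit 5) (nat_lit 262) (nat_lit 248) (nat_lit 210)) (XT.nd (nat_lit 78) (nat_lit 0) (nat_lit 0) (XT.lf (nat_lit 0) (nat_lit 3013064565) (nat_lit 228) (nat_lit 4458756092) (nat_lit 304)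 (nat_lit 7563488263) (nat_lit 42) (nat_lit 5) (nat_lit 45) (nat_lit 5) (nat_lit 46) (nat_lit 5) (nat_lit 263) (nat_lit 248) (nat_lit 209)) (XT.lf (nat_lit 0) (nat_lit 11256128303) (nat_lit 304) (nat_lit 1259271340) (nat_lit 76) (nat_lit 3265883230) (nat_lit 42) (nat_lit 5) (nat_lit 46) (nat_lit 5) (nat_lit 43) (nat_lit 5) (nat_lit 264) (nat_lit 248) (nat_lit 208))))) (XT.nd (nat_lit 156) (nat_lit 380) (nat_lit 0) (XT.nd (nat_lit 78) (nat_lit 304) (nat_lit 0) (XT.lf (nat_lit 0) (nat_lit 10554437971) (nat_lit 228) (nat_lit 4970098199) (nat_lit 304) (nat_lit 1053505240) (nat_lit 39) (nat_lit 5) (nat_lit 42) (nat_lit 5) (nat_lit 43) (nat_lit 5) (nat_lit 265) (nat_lit 248) (nat_lit 207)) (XT.lf (nat_lit 0) (nat_lit 2721098942) (nat_lit 304) (nat_lit 11487062898) (nat_lit 76) (nat_lit 3222852726) (nat_lit 35) (nat_lit 5) (nat_lit 39) (nat_lit 5) (nat_lit 36) (nat_lit 5) (nat_lit 266) (nat_lit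 248) (nat_lit 206))) (XT.nd (nat_lit 78) (nat_lit 152) (nat_lit 0) (XT.lf (nat_lit 0) (nat_lit 581117040) (nat_lit 228) (nat_lit 6326108470) (nat_lit 304) (nat_lit 11436955790) (nat_lit 32) (nat_lit 5) (nat_lit 35) (nat_lit 5) (nat_lit 36) (nat_lit 5) (nat_lit 267) (nat_lit 248) (nat_lit 205)) (XT.nd (nat_lit 78) (nat_lit 152) (nat_lit 0) (XT.lf (nat_lit 0) (nat_lit 11614832757) (nat_lit 304) (nat_lit 5403385977) (nat_lit 76) (nat_lit 2302984997) (nat_lit 32) (nat_lit 5) (nat_lit 36) (nat_lit 5) (nat_lit 33) (nat_lit 5) (nat_lit 268) (nat_lit 248) (nat_lit 204)) (XT.lf (nat_lit 0) (nat_lit 8030112101) (nat_lit 152) (nat_lit 8853826476) (nat_lit 228) (nat_lit 3483327000) (nat_lit 30) (nat_lit 5) (nat_lit 32) (nat_lit 5) (nat_lit 33) (nat_lit 5) (nat_lit 269) (nat_lit 248) (nat_lit 203)))))) (XT.nd (nat_lit 390) (nat_lit 456) (nat_lit 0) (XT.nd (nat_lit 156) (nat_lit 304) (nat_lit 0) (XT.nd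 (nat_lit 78) (nat_lit 0) (nat_lit 0) (XT.lf (nat_lit 0) (nat_lit 1113208711) (nat_lit 304) (nat_lit 20299392446) (nat_lit 76) (nat_lit 80170871) (nat_lit 26) (nat_lit 5) (nat_lit 30) (nat_lit 5) (nat_lit 27) (nat_lit 5) (nat_lit 270) (nat_lit 248) (nat_lit 202)) (XT.lf (nat_lit 0) (nat_lit 6281431282) (nat_lit 304) (nat_lit 6725468561) (nat_lit 76) (nat_lit 9682363535) (nat_lit 26) (nat_lit 5) (nat_lit 30) (nat_lit 5) (nat_lit 27) (nat_lit 5) (nat_lit 271) (nat_lit 248) (nat_lit 201))) (XT.nd (nat_lit 78) (nat_lit 152) (nat_lit 0) (XT.lf (nat_lit 0) (nat_lit 8136208431) (nat_lit 152) (nat_lit 3813794558) (nat_lit 228) (nat_lit 12027218808) (nat_lit 24) (nat_lit 5) (nat_lit 26) (nat_lit 5) (nat_lit 27) (nat_lit 5) (nat_lit 272) (nat_lit 248) (nat_lit 200)) (XT.nd (nat_lit 78) (nat_lit 152) (nat_lit 0) (XT.lf (nat_lit 0) (nat_lit 18248282795) (nat_lit 228) (nat_lit 1090495932) (nat_lit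 76) (nat_lit 6020712531) (nat_lit 24) (nat_lit 5) (nat_lit 27) (nat_lit 5) (nat_lit 25) (nat_lit 5) (nat_lit 273) (nat_lit 248) (nat_lit 199)) (XT.lf (nat_lit 0) (nat_lit 15209085964) (nat_lit 152) (nat_lit 10107621503) (nat_lit 228) (nat_lit 1522399838) (nat_lit 22) (nat_lit 5) (nat_lit 24) (nat_lit 5) (nat_lit 25) (nat_lit 5) (nat_lit 274) (nat_lit 248) (nat_lit 198))))) (XT.nd (nat_lit 156) (nat_lit 228) (nat_lit 0) (XT.nd (nat_lit 78) (nat_lit 0) (nat_lit 0) (XT.lf (nat_lit 0) (nat_lit 4423487312) (nat_lit 228) (nat_lit 23996855233) (nat_lit 76) (nat_lit 10574741) (nat_lit 19) (nat_lit 5) (nat_lit 22) (nat_lit 5) (nat_lit 20) (nat_lit 5) (nat_lit 275) (nat_lit 248) (nat_lit 197)) (XT.lf (nat_lit 0) (nat_lit 11135971720) (nat_lit 228) (nat_lit 8192268009) (nat_lit 76) (nat_lit 10803435908) (nat_lit 19) (nat_lit 5) (nat_lit 22) (nat_lit 5) (nat_lit 20) (nat_lit 5) (nat_lit 276) (nat_lit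 248) (nat_lit 196))) (XT.nd (nat_lit 78) (nat_lit 76) (nat_lit 0) (XT.lf (nat_lit 0) (nat_lit 9120949423) (nat_lit 152) (nat_lit 9376547146) (nat_lit 228) (nat_lit 13465455847) (nat_lit 17) (nat_lit 5) (nat_lit 19) (nat_lit 5) (nat_lit 20) (nat_lit 5) (nat_lit 277) (nat_lit 248) (nat_lit 195)) (XT.nd (nat_lit 78) (nat_lit 76) (nat_lit 0) (XT.lf (nat_lit 0) (nat_lit 26585309889) (nat_lit 228) (nat_lit 5892405120) (nat_lit 76) (nat_lit 1456203415) (nat_lit 17) (nat_lit 5) (nat_lit 20) (nat_lit 5) (nat_lit 18) (nat_lit 4) (nat_lit 278) (nat_lit 248) (nat_lit 194)) (XT.lf (nat_lit 0) (nat_lit 12615469861) (nat_lit 76) (nat_lit 23032815030) (nat_lit 152) (nat_lit 397921296) (nat_lit 16) (nat_lit 5) (nat_lit 17) (nat_lit 5) (nat_lit 18) (nat_lit 4) (nat_lit 279) (nat_lit 248) (nat_lit 193))))))))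
noncomputable def xc66 : XT := (XT.nd (nat_lit 1482) (nat_lit 304) (nat_lit 0) (XT.nd (nat_lit 702) (nat_lit 228) (nat_lit 0) (XT.nd (nat_lit 312) (nat_lit 304) (nat_lit 0) (XT.nd (nat_lit 156) (nat_lit 76) (nat_lit 0) (XT.nd (nat_lit 78) (nat_lit 152) (nat_lit 0) (XT.lf (nat_lit 0) (nat_lit 6959568895) (nat_lit 152) (nat_lit 5663006499) (nat_lit 76) (nat_lit 25695483657) (nat_lit 15) (nat_lit 5) (nat_lit 17) (nat_lit 5) (nat_lit 16) (nat_lit 5) (nat_lit 280) (nat_lit 248) (nat_lit 192)) (XT.lf (nat_lit 0) (nat_lit 13925906264) (nat_lit 152) (nat_lit 1159299327) (nat_lit 228) (nat_lit 25676495854) (nat_lit 13) (nat_lit 5) (nat_lit 15) (nat_lit 5) (nat_lit 16) (nat_lit 5) (nat_lit 281) (nat_lit 248) (nat_lit 191))) (XT.nd (nat_lit 78) (nat_lit 76) (nat_lit 0) (XT.lf (nat_lit 0) (nat_lit 24113200297) (nat_lit 228) (nat_lit 8327048666) (nat_lit 76) (nat_lit 10948009703) (nat_lit 13) (nat_lit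 5) (nat_lit 16) (nat_lit 5) (nat_lit 14) (nat_lit 4) (nat_lit 282) (nat_lit 248) (nat_lit 190)) (XT.lf (nat_lit 0) (nat_lit 11990994806) (nat_lit 76) (nat_lit 22057767510) (nat_lit 152) (nat_lit 12166947678) (nat_lit 12) (nat_lit 5) (nat_lit 13) (nat_lit 5) (nat_lit 14) (nat_lit 4) (nat_lit 283) (nat_lit 248) (nat_lit 189)))) (XT.nd (nat_lit 156) (nat_lit 76) (nat_lit 0) (XT.nd (nat_lit 78) (nat_lit 228) (nat_lit 0) (XT.lf (nat_lit 0) (nat_lit 34197745340) (nat_lit 76) (nat_lit 10706097935) (nat_lit 152) (nat_lit 4359313709) (nat_lit 12) (nat_lit 5) (nat_lit 13) (nat_lit 5) (nat_lit 14) (nat_lit 4) (nat_lit 284) (nat_lit 248) (nat_lit 188)) (XT.lf (nat_lit 0) (nat_lit 4039130155) (nat_lit 228) (nat_lit 46860620463) (nat_lit 76) (nat_lit 1646671028) (nat_lit 9) (nat_lit 5) (nat_lit 12) (nat_lit 5) (nat_lit 10) (nat_lit 4) (nat_lit 285) (nat_lit 248) (nat_lit 187))) (XT.nd (nat_lit 78)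 (nat_lit 76) (nat_lit 0) (XT.lf (nat_lit 0) (nat_lit 13387556248) (nat_lit 228) (nat_lit 27734041656) (nat_lit 76) (nat_lit 14945661729) (nat_lit 9) (nat_lit 5) (nat_lit 12) (nat_lit 5) (nat_lit 10) (nat_lit 4) (nat_lit 286) (nat_lit 248) (nat_lit 186)) (XT.nd (nat_lit 78) (nat_lit 76) (nat_lit 0) (XT.lf (nat_lit 0) (nat_lit 23466761757) (nat_lit 228) (nat_lit 7106572846) (nat_lit 76) (nat_lit 29297309932) (nat_lit 9) (nat_lit 5) (nat_lit 12) (nat_lit 5) (nat_lit 10) (nat_lit 4) (nat_lit 287) (nat_lit 248) (nat_lit 185)) (XT.lf (nat_lit 0) (nat_lit 15644752605) (nat_lit 76) (nat_lit 18935981135) (nat_lit 152) (nat_lit 29386168266) (nat_lit 8) (nat_lit 5) (nat_lit 9) (nat_lit 5) (nat_lit 10) (nat_lit 4) (nat_lit 288) (nat_lit 248) (nat_lit 184)))))) (XT.nd (nat_lit 390) (nat_lit 76) (nat_lit 0) (XT.nd (nat_lit 156) (nat_lit 152) (nat_lit 0) (XT.nd (nat_lit 78) (nat_lit 0) (nat_lit 0)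 (XT.lf (nat_lit 0) (nat_lit 40444063325) (nat_lit 76) (nat_lit 6248491866) (nat_lit 152) (nat_lit 21692889855) (nat_lit 8) (nat_lit 5) (nat_lit 9) (nat_lit 5) (nat_lit 10) (nat_lit 4) (nat_lit 289) (nat_lit 248) (nat_lit 183)) (XT.lf (nat_lit 0) (nat_lit 59875598881) (nat_lit 152) (nat_lit 6071067076) (nat_lit 0) (nat_lit 7205711703) (nat_lit 8) (nat_lit 5) (nat_lit 10) (nat_lit 4) (nat_lit 8) (nat_lit 4) (nat_lit 290) (nat_lit 248) (nat_lit 182))) (XT.nd (nat_lit 78) (nat_lit 76) (nat_lit 0) (XT.lf (nat_lit 0) (nat_lit 17996802687) (nat_lit 76) (nat_lit 56489768173) (nat_lit 76) (nat_lit 3795448264) (nat_lit 7) (nat_lit 4) (nat_lit 8) (nat_lit 5) (nat_lit 8) (nat_lit 4) (nat_lit 291) (nat_lit 248) (nat_lit 181)) (XT.nd (nat_lit 78) (nat_lit 0) (nat_lit 0) (XT.lf (nat_lit 0) (nat_lit 6332966591) (nat_lit 152) (nat_lit 39734361296) (nat_lit 76) (nat_lit 37744947639) (nat_lit 6) (nat_lit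 5) (nat_lit 8) (nat_lit 5) (nat_lit 7) (nat_lit 4) (nat_lit 292) (nat_lit 248) (nat_lit 180)) (XT.lf (nat_lit 0) (nat_lit 17128746157) (nat_lit 152) (nat_lit 17623960314) (nat_lit 76) (nat_lit 55029646756) (nat_lit 6) (nat_lit 5) (nat_lit 8) (nat_lit 5) (nat_lit 7) (nat_lit 4) (nat_lit 293) (nat_lit 248) (nat_lit 179))))) (XT.nd (nat_lit 156) (nat_lit 0) (nat_lit 0) (XT.nd (nat_lit 78) (nat_lit 0) (nat_lit 0) (XT.lf (nat_lit 0) (nat_lit 6442467896) (nat_lit 76) (nat_lit 22435460553) (nat_lit 152) (nat_lit 67347635647) (nat_lit 5) (nat_lit 5) (nat_lit 6) (nat_lit 5) (nat_lit 7) (nat_lit 4) (nat_lit 294) (nat_lit 248) (nat_lit 178)) (XT.lf (nat_lit 0) (nat_lit 33045378138) (nat_lit 76) (nat_lit 8818340082) (nat_lit 152) (nat_lit 61305692909) (nat_lit 5) (nat_lit 5) (nat_lit 6) (nat_lit 5) (nat_lit 7) (nat_lit 4) (nat_lit 295) (nat_lit 248) (nat_lit 177))) (XT.nd (nat_lit 78) (nat_lit 0)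 (nat_lit 0) (XT.lf (nat_lit 0) (nat_lit 55970627869) (nat_lit 152) (nat_lit 49001383349) (nat_lit 0) (nat_lit 5692653850) (nat_lit 5) (nat_lit 5) (nat_lit 7) (nat_lit 4) (nat_lit 5) (nat_lit 4) (nat_lit 296) (nat_lit 248) (nat_lit 176)) (XT.nd (nat_lit 78) (nat_lit 0) (nat_lit 0) (XT.lf (nat_lit 0) (nat_lit 71345826365) (nat_lit 152) (nat_lit 26353548483) (nat_lit 0) (nat_lit 21053188760) (nat_lit 5) (nat_lit 5) (nat_lit 7) (nat_lit 4) (nat_lit 5) (nat_lit 4) (nat_lit 297) (nat_lit 248) (nat_lit 175)) (XT.lf (nat_lit 0) (nat_lit 87942746994) (nat_lit 152) (nat_lit 1908640000) (nat_lit 0) (nat_lit 37636531994) (nat_lit 5) (nat_lit 5) (nat_lit 7) (nat_lit 4) (nat_lit 5) (nat_lit 4) (nat_lit 298) (nat_lit 248) (nat_lit 174))))))) (XT.nd (nat_lit 780) (nat_lit 76) (nat_lit 0) (XT.nd (nat_lit 390) (nat_lit 76) (nat_lit 0) (XT.nd (nat_lit 156) (nat_lit 76) (nat_lit 0) (XT.nd (nat_lit 78) (nat_lit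 0) (nat_lit 0) (XT.lf (nat_lit 0) (nat_lit 25287560682) (nat_lit 76) (nat_lit 80966990886) (nat_lit 76) (nat_lit 30648204225) (nat_lit 4) (nat_lit 4) (nat_lit 5) (nat_lit 5) (nat_lit 5) (nat_lit 4) (nat_lit 299) (nat_lit 248) (nat_lit 173)) (XT.lf (nat_lit 0) (nat_lit 54714547655) (nat_lit 76) (nat_lit 71342685572) (nat_lit 76) (nat_lit 21012258484) (nat_lit 4) (nat_lit 4) (nat_lit 5) (nat_lit 5) (nat_lit 5) (nat_lit 4) (nat_lit 300) (nat_lit 248) (nat_lit 172))) (XT.nd (nat_lit 78) (nat_lit 76) (nat_lit 0) (XT.lf (nat_lit 0) (nat_lit 86483594806) (nat_lit 76) (nat_lit 60953761873) (nat_lit 76) (nat_lit 10612556612) (nat_lit 4) (nat_lit 4) (nat_lit 5) (nat_lit 5) (nat_lit 5) (nat_lit 4) (nat_lit 301) (nat_lit 248) (nat_lit 171)) (XT.nd (nat_lit 78) (nat_lit 0) (nat_lit 0) (XT.lf (nat_lit 0) (nat_lit 592924491) (nat_lit 152) (nat_lit 49135689843) (nat_lit 76) (nat_lit 120179997199) (nat_lit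 3) (nat_lit 5) (nat_lit 5) (nat_lit 5) (nat_lit 4) (nat_lit 4) (nat_lit 302) (nat_lit 248) (nat_lit 170)) (XT.lf (nat_lit 0) (nat_lit 12322094061) (nat_lit 152) (nat_lit 25100132772) (nat_lit 76) (nat_lit 145285133529) (nat_lit 3) (nat_lit 5) (nat_lit 5) (nat_lit 5) (nat_lit 4) (nat_lit 4) (nat_lit 303) (nat_lit 248) (nat_lit 169))))) (XT.nd (nat_lit 156) (nat_lit 0) (nat_lit 0) (XT.nd (nat_lit 78) (nat_lit 0) (nat_lit 0) (XT.lf (nat_lit 0) (nat_lit 876531904) (nat_lit 76) (nat_lit 24121279590) (nat_lit 152) (nat_lit 171531793052) (nat_lit 2) (nat_lit 5) (nat_lit 3) (nat_lit 5) (nat_lit 4) (nat_lit 4) (nat_lit 304) (nat_lit 248) (nat_lit 168)) (XT.lf (nat_lit 0) (nat_lit 29818281468) (nat_lit 76) (nat_lit 9301321168) (nat_lit 152) (nat_lit 172316430517) (nat_lit 2) (nat_lit 5) (nat_lit 3) (nat_lit 5) (nat_lit 4) (nat_lit 4) (nat_lit 305) (nat_lit 248) (nat_lit 167))) (XT.nd (nat_lit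 78) (nat_lit 0) (nat_lit 0) (XT.lf (nat_lit 0) (nat_lit 54470923155) (nat_lit 152) (nat_lit 166573135610) (nat_lit 0) (nat_lit 6485933267) (nat_lit 2) (nat_lit 5) (nat_lit 4) (nat_lit 4) (nat_lit 2) (nat_lit 4) (nat_lit 306) (nat_lit 248) (nat_lit 166)) (XT.nd (nat_lit 78) (nat_lit 0) (nat_lit 0) (XT.lf (nat_lit 0) (nat_lit 71202662692) (nat_lit 152) (nat_lit 150489989992) (nat_lit 0) (nat_lit 23211204159) (nat_lit 2) (nat_lit 5) (nat_lit 4) (nat_lit 4) (nat_lit 2) (nat_lit 4) (nat_lit 307) (nat_lit 248) (nat_lit 165)) (XT.lf (nat_lit 0) (nat_lit 89268752609) (nat_lit 152) (nat_lit 133127787610) (nat_lit 0) (nat_lit 41271304590) (nat_lit 2) (nat_lit 5) (nat_lit 4) (nat_lit 4) (nat_lit 2) (nat_lit 4) (nat_lit 308) (nat_lit 248) (nat_lit 164)))))) (XT.nd (nat_lit 390) (nat_lit 76) (nat_lit 0) (XT.nd (nat_lit 156) (nat_lit 0) (nat_lit 0) (XT.nd (nat_lit 78) (nat_lit 0) (nat_lit 0) (XT.lf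 (nat_lit 0) (nat_lit 108776251216) (nat_lit 152) (nat_lit 114383641341) (nat_lit 0) (nat_lit 60773257376) (nat_lit 2) (nat_lit 5) (nat_lit 4) (nat_lit 4) (nat_lit 2) (nat_lit 4) (nat_lit 309) (nat_lit 248) (nat_lit 163)) (XT.lf (nat_lit 0) (nat_lit 129840758504) (nat_lit 152) (nat_lit 94146474761) (nat_lit 0) (nat_lit 81832629644) (nat_lit 2) (nat_lit 5) (nat_lit 4) (nat_lit 4) (nat_lit 2) (nat_lit 4) (nat_lit 310) (nat_lit 248) (nat_lit 162))) (XT.nd (nat_lit 78) (nat_lit 0) (nat_lit 0) (XT.lf (nat_lit 0) (nat_lit 152587101183) (nat_lit 152) (nat_lit 72296363921) (nat_lit 0) (nat_lit 104574217676) (nat_lit 2) (nat_lit 5) (nat_lit 4) (nat_lit 4) (nat_lit 2) (nat_lit 4) (nat_lit 311) (nat_lit 248) (nat_lit 161)) (XT.nd (nat_lit 78) (nat_lit 0) (nat_lit 0) (XT.lf (nat_lit 0) (nat_lit 177150072395) (nat_lit 152) (nat_lit 48703826682) (nat_lit 0) (nat_lit 129132786437) (nat_lit 2) (nat_lit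 5) (nat_lit 4) (nat_lit 4) (nat_lit 2) (nat_lit 4) (nat_lit 312) (nat_lit 248) (nat_lit 160)) (XT.lf (nat_lit 0) (nat_lit 203675230489) (nat_lit 152) (nat_lit 23229055417) (nat_lit 0) (nat_lit 155653868187) (nat_lit 2) (nat_lit 5) (nat_lit 4) (nat_lit 4) (nat_lit 2) (nat_lit 4) (nat_lit 313) (nat_lit 248) (nat_lit 159))))) (XT.nd (nat_lit 156) (nat_lit 0) (nat_lit 0) (XT.nd (nat_lit 78) (nat_lit 0) (nat_lit 0) (XT.lf (nat_lit 0) (nat_lit 4420391620) (nat_lit 76) (nat_lit 227968384666) (nat_lit 76) (nat_lit 179943247972) (nat_lit 1) (nat_lit 4) (nat_lit 2) (nat_lit 5) (nat_lit 2) (nat_lit 4) (nat_lit 314) (nat_lit 248) (nat_lit 158)) (XT.lf (nat_lit 0) (nat_lit 35106718426) (nat_lit 76) (nat_lit 228694806889) (nat_lit 76) (nat_lit 180666175387) (nat_lit 1) (nat_lit 4) (nat_lit 2) (nat_lit 5) (nat_lit 2) (nat_lit 4) (nat_lit 315) (nat_lit 248) (nat_lit 157))) (XT.nd (nat_lit 78) (nat_lit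 0) (nat_lit 0) (XT.lf (nat_lit 0) (nat_lit 68243712422) (nat_lit 76) (nat_lit 229481252592) (nat_lit 76) (nat_lit 181449385157) (nat_lit 1) (nat_lit 4) (nat_lit 2) (nat_lit 5) (nat_lit 2) (nat_lit 4) (nat_lit 316) (nat_lit 248) (nat_lit 156)) (XT.nd (nat_lit 78) (nat_lit 0) (nat_lit 0) (XT.lf (nat_lit 0) (nat_lit 104027740981) (nat_lit 76) (nat_lit 230332382194) (nat_lit 76) (nat_lit 182297518525) (nat_lit 1) (nat_lit 4) (nat_lit 2) (nat_lit 5) (nat_lit 2) (nat_lit 4) (nat_lit 317) (nat_lit 248) (nat_lit 155)) (XT.lf (nat_lit 0) (nat_lit 142670857604) (nat_lit 76) (nat_lit 231253239427) (nat_lit 76) (nat_lit 183215601467) (nat_lit 1) (nat_lit 4) (nat_lit 2) (nat_lit 5) (nat_lit 2) (nat_lit 4) (nat_lit 318) (nat_lit 248) (nat_lit 154))))))))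
noncomputable def xc67 : XT := (XT.nd (nat_lit 33072) (nat_lit 0) (nat_lit 1064) (XT.nd (nat_lit 32292) (nat_lit 0) (nat_lit 3724) (XT.nd (nat_lit 312) (nat_lit 0) (nat_lit 0) (XT.nd (nat_lit 156) (nat_lit 0) (nat_lit 0) (XT.nd (nat_lit 78) (nat_lit 0) (nat_lit 0) (XT.lf (nat_lit 0) (nat_lit 184402058539) (nat_lit 76) (nat_lit 232249281221) (nat_lit 76) (nat_lit 184209074473) (nat_lit 1) (nat_lit 4) (nat_lit 2) (nat_lit 5) (nat_lit 2) (nat_lit 4) (nat_lit 319) (nat_lit 248) (nat_lit 153)) (XT.lf (nat_lit 0) (nat_lit 229468639792) (nat_lit 76) (nat_lit 233326410048) (nat_lit 76) (nat_lit 185283824792) (nat_lit 1) (nat_lit 4) (nat_lit 2) (nat_lit 5) (nat_lit 2) (nat_lit 4) (nat_lit 320) (nat_lit 248) (nat_lit 152))) (XT.nd (nat_lit 78) (nat_lit 0) (nat_lit 0) (XT.lf (nat_lit 0) (nat_lit 278137662583) (nat_lit 76) (nat_lit 234491008892) (nat_lit 76) (nat_lit 186446221314) (nat_lit 1) (nat_lit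 4) (nat_lit 2) (nat_lit 5) (nat_lit 2) (nat_lit 4) (nat_lit 321) (nat_lit 248) (nat_lit 151)) (XT.lf (nat_lit 0) (nat_lit 330697535938) (nat_lit 76) (nat_lit 235749979080) (nat_lit 76) (nat_lit 187703152316) (nat_lit 1) (nat_lit 4) (nat_lit 2) (nat_lit 5) (nat_lit 2) (nat_lit 4) (nat_lit 322) (nat_lit 248) (nat_lit 150)))) (XT.nd (nat_lit 31746) (nat_lit 0) (nat_lit 5852) (XT.nd (nat_lit 78) (nat_lit 0) (nat_lit 0) (XT.lf (nat_lit 0) (nat_lit 387459725772) (nat_lit 76) (nat_lit 237110781176) (nat_lit 76) (nat_lit 189062066276) (nat_lit 1) (nat_lit 4) (nat_lit 2) (nat_lit 5) (nat_lit 2) (nat_lit 4) (nat_lit 323) (nat_lit 248) (nat_lit 149)) (XT.lf (nat_lit 0) (nat_lit 448760600617) (nat_lit 76) (nat_lit 238581479192) (nat_lit 76) (nat_lit 190531016018) (nat_lit 1) (nat_lit 4) (nat_lit 2) (nat_lit 5) (nat_lit 2) (nat_lit 4) (nat_lit 324) (nat_lit 248) (nat_lit 148))) (XT.nd (nat_lit 78)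 (nat_lit 608) (nat_lit 0) (XT.lf (nat_lit 0) (nat_lit 2118967748) (nat_lit 0) (nat_lit 2118967748) (nat_lit 532) (nat_lit 187089894) (nat_lit 86) (nat_lit 5) (nat_lit 86) (nat_lit 3) (nat_lit 93) (nat_lit 3) (nat_lit 249) (nat_lit 249) (nat_lit 222)) (XT.nd (nat_lit 78) (nat_lit 0) (nat_lit 0) (XT.lf (nat_lit 0) (nat_lit 990860988) (nat_lit 608) (nat_lit 7667498975) (nat_lit 684) (nat_lit 472390873) (nat_lit 78) (nat_lit 5) (nat_lit 86) (nat_lit 5) (nat_lit 87) (nat_lit 5) (nat_lit 250) (nat_lit 249) (nat_lit 221)) (XT.lf (nat_lit 0) (nat_lit 2471359064) (nat_lit 608) (nat_lit 1400683745) (nat_lit 684) (nat_lit 5561112271) (nat_lit 78) (nat_lit 5) (nat_lit 86) (nat_lit 5) (nat_lit 87) (nat_lit 5) (nat_lit 251) (nat_lit 249) (nat_lit 220)))))) (XT.nd (nat_lit 390) (nat_lit 1672) (nat_lit 0) (XT.nd (nat_lit 156) (nat_lit 532) (nat_lit 0) (XT.nd (nat_lit 78) (nat_lit 0) (nat_lit 0) (XT.lf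 (nat_lit 0) (nat_lit 4054067435) (nat_lit 608) (nat_lit 4317166061) (nat_lit 684) (nat_lit 1389813964) (nat_lit 79) (nat_lit 5) (nat_lit 87) (nat_lit 5) (nat_lit 88) (nat_lit 5) (nat_lit 252) (nat_lit 249) (nat_lit 219)) (XT.lf (nat_lit 76) (nat_lit 2714548179) (nat_lit 0) (nat_lit 3066061386) (nat_lit 684) (nat_lit 4334149253) (nat_lit 80) (nat_lit 5) (nat_lit 79) (nat_lit 5) (nat_lit 88) (nat_lit 5) (nat_lit 253) (nat_lit 249) (nat_lit 218))) (XT.nd (nat_lit 78) (nat_lit 608) (nat_lit 0) (XT.lf (nat_lit 0) (nat_lit 7655912331) (nat_lit 608) (nat_lit 154481188) (nat_lit 684) (nat_lit 2686256927) (nat_lit 80) (nat_lit 5) (nat_lit 88) (nat_lit 5) (nat_lit 89) (nat_lit 5) (nat_lit 254) (nat_lit 249) (nat_lit 217)) (XT.nd (nat_lit 78) (nat_lit 608) (nat_lit 0) (XT.lf (nat_lit 76) (nat_lit 7793059271) (nat_lit 0) (nat_lit 1962122335) (nat_lit 684) (nat_lit 1150599151) (nat_lit 81) (nat_lit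 5) (nat_lit 80) (nat_lit 5) (nat_lit 89) (nat_lit 5) (nat_lit 255) (nat_lit 249) (nat_lit 216)) (XT.lf (nat_lit 0) (nat_lit 710438062) (nat_lit 684) (nat_lit 6306218817) (nat_lit 76) (nat_lit 4327932742) (nat_lit 72) (nat_lit 5) (nat_lit 81) (nat_lit 5) (nat_lit 73) (nat_lit 5) (nat_lit 256) (nat_lit 249) (nat_lit 215))))) (XT.nd (nat_lit 156) (nat_lit 988) (nat_lit 0) (XT.nd (nat_lit 78) (nat_lit 0) (nat_lit 0) (XT.lf (nat_lit 0) (nat_lit 2072354439) (nat_lit 684) (nat_lit 639888095) (nat_lit 760) (nat_lit 9104021688) (nat_lit 63) (nat_lit 5) (nat_lit 72) (nat_lit 5) (nat_lit 73) (nat_lit 5) (nat_lit 257) (nat_lit 249) (nat_lit 214)) (XT.lf (nat_lit 0) (nat_lit 5000054749) (nat_lit 760) (nat_lit 1151860494) (nat_lit 76) (nat_lit 6167755045) (nat_lit 63) (nat_lit 5) (nat_lit 73) (nat_lit 5) (nat_lit 64) (nat_lit 5) (nat_lit 258) (nat_lit 249) (nat_lit 213))) (XT.nd (nat_lit 78) (nat_lit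 684) (nat_lit 0) (XT.lf (nat_lit 0) (nat_lit 7546380086) (nat_lit 380) (nat_lit 4562747395) (nat_lit 76) (nat_lit 750716091) (nat_lit 59) (nat_lit 5) (nat_lit 64) (nat_lit 5) (nat_lit 60) (nat_lit 5) (nat_lit 259) (nat_lit 249) (nat_lit 212)) (XT.nd (nat_lit 78) (nat_lit 304) (nat_lit 0) (XT.lf (nat_lit 0) (nat_lit 5085925729) (nat_lit 380) (nat_lit 5341537186) (nat_lit 456) (nat_lit 3009464431) (nat_lit 54) (nat_lit 5) (nat_lit 59) (nat_lit 5) (nat_lit 60) (nat_lit 5) (nat_lit 260) (nat_lit 249) (nat_lit 211)) (XT.lf (nat_lit 0) (nat_lit 1556961892) (nat_lit 304) (nat_lit 12049632943) (nat_lit 380) (nat_lit 450435606) (nat_lit 50) (nat_lit 5) (nat_lit 54) (nat_lit 5) (nat_lit 55) (nat_lit 5) (nat_lit 261) (nat_lit 249) (nat_lit 210))))))) (XT.nd (nat_lit 780) (nat_lit 836) (nat_lit 0) (XT.nd (nat_lit 390) (nat_lit 988) (nat_lit 0) (XT.nd (nat_lit 156) (nat_lit 456) (nat_lit 0) (XT.nd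 (nat_lit 78) (nat_lit 304) (nat_lit 0) (XT.lf (nat_lit 0) (nat_lit 2411638350) (nat_lit 380) (nat_lit 2365489644) (nat_lit 76) (nat_lit 9939393232) (nat_lit 49) (nat_lit 5) (nat_lit 54) (nat_lit 5) (nat_lit 50) (nat_lit 5) (nat_lit 262) (nat_lit 249) (nat_lit 209)) (XT.lf (nat_lit 0) (nat_lit 5613880220) (nat_lit 380) (nat_lit 6689407197) (nat_lit 76) (nat_lit 3118953897) (nat_lit 45) (nat_lit 5) (nat_lit 50) (nat_lit 5) (nat_lit 46) (nat_lit 5) (nat_lit 263) (nat_lit 249) (nat_lit 208))) (XT.nd (nat_lit 78) (nat_lit 228) (nat_lit 0) (XT.lf (nat_lit 0) (nat_lit 4620007683) (nat_lit 228) (nat_lit 4589519294) (nat_lit 304) (nat_lit 6968205203) (nat_lit 42) (nat_lit 5) (nat_lit 45) (nat_lit 5) (nat_lit 46) (nat_lit 5) (nat_lit 264) (nat_lit 249) (nat_lit 207)) (XT.nd (nat_lit 78) (nat_lit 228) (nat_lit 0) (XT.lf (nat_lit 0) (nat_lit 13215403921) (nat_lit 304) (nat_lit 42631666) (nat_lit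 76) (nat_lit 3729659334) (nat_lit 42) (nat_lit 5) (nat_lit 46) (nat_lit 5) (nat_lit 43) (nat_lit 5) (nat_lit 265) (nat_lit 249) (nat_lit 206)) (XT.lf (nat_lit 0) (nat_lit 12658922601) (nat_lit 228) (nat_lit 5107607426) (nat_lit 304) (nat_lit 84835264) (nat_lit 39) (nat_lit 5) (nat_lit 42) (nat_lit 5) (nat_lit 43) (nat_lit 5) (nat_lit 266) (nat_lit 249) (nat_lit 205))))) (XT.nd (nat_lit 156) (nat_lit 456) (nat_lit 0) (XT.nd (nat_lit 78) (nat_lit 228) (nat_lit 0) (XT.lf (nat_lit 0) (nat_lit 3906227292) (nat_lit 304) (nat_lit 11119365765) (nat_lit 76) (nat_lit 3748957564) (nat_lit 35) (nat_lit 5) (nat_lit 39) (nat_lit 5) (nat_lit 36) (nat_lit 5) (nat_lit 267) (nat_lit 249) (nat_lit 204)) (XT.lf (nat_lit 0) (nat_lit 1858351798) (nat_lit 228) (nat_lit 6516445317) (nat_lit 304) (nat_lit 11388786520) (nat_lit 32) (nat_lit 5) (nat_lit 35) (nat_lit 5) (nat_lit 36) (nat_lit 5) (nat_lit 268) (nat_lit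 249) (nat_lit 203))) (XT.nd (nat_lit 78) (nat_lit 456) (nat_lit 0) (XT.lf (nat_lit 0) (nat_lit 13395800244) (nat_lit 304) (nat_lit 4656075566) (nat_lit 76) (nat_lit 2770229167) (nat_lit 32) (nat_lit 5) (nat_lit 36) (nat_lit 5) (nat_lit 33) (nat_lit 5) (nat_lit 269) (nat_lit 249) (nat_lit 202)) (XT.nd (nat_lit 78) (nat_lit 304) (nat_lit 0) (XT.lf (nat_lit 0) (nat_lit 9800839193) (nat_lit 152) (nat_lit 9240116665) (nat_lit 228) (nat_lit 2913333253) (nat_lit 30) (nat_lit 5) (nat_lit 32) (nat_lit 5) (nat_lit 33) (nat_lit 5) (nat_lit 270) (nat_lit 249) (nat_lit 201)) (XT.lf (nat_lit 0) (nat_lit 1985336211) (nat_lit 304) (nat_lit 20780660136) (nat_lit 76) (nat_lit 405242666) (nat_lit 26) (nat_lit 5) (nat_lit 30) (nat_lit 5) (nat_lit 27) (nat_lit 5) (nat_lit 271) (nat_lit 249) (nat_lit 200)))))) (XT.nd (nat_lit 390) (nat_lit 304) (nat_lit 0) (XT.nd (nat_lit 156) (nat_lit 380) (nat_lit 0) (XT.nd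 (nat_lit 78) (nat_lit 152) (nat_lit 0) (XT.lf (nat_lit 0) (nat_lit 7509011344) (nat_lit 304) (nat_lit 6205465578) (nat_lit 76) (nat_lit 10752006437) (nat_lit 26) (nat_lit 5) (nat_lit 30) (nat_lit 5) (nat_lit 27) (nat_lit 5) (nat_lit 272) (nat_lit 249) (nat_lit 199)) (XT.lf (nat_lit 0) (nat_lit 9799164424) (nat_lit 152) (nat_lit 3793996886) (nat_lit 228) (nat_lit 12266336058) (nat_lit 24) (nat_lit 5) (nat_lit 26) (nat_lit 5) (nat_lit 27) (nat_lit 5) (nat_lit 273) (nat_lit 249) (nat_lit 198))) (XT.nd (nat_lit 78) (nat_lit 380) (nat_lit 0) (XT.lf (nat_lit 0) (nat_lit 20349099770) (nat_lit 228) (nat_lit 212097762) (nat_lit 76) (nat_lit 6793575430) (nat_lit 24) (nat_lit 5) (nat_lit 27) (nat_lit 5) (nat_lit 25) (nat_lit 5) (nat_lit 274) (nat_lit 249) (nat_lit 197)) (XT.nd (nat_lit 78) (nat_lit 228) (nat_lit 0) (XT.lf (nat_lit 0) (nat_lit 17349485243) (nat_lit 152) (nat_lit 10600456188) (nat_lit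 228) (nat_lit 1004575628) (nat_lit 22) (nat_lit 5) (nat_lit 24) (nat_lit 5) (nat_lit 25) (nat_lit 5) (nat_lit 275) (nat_lit 249) (nat_lit 196)) (XT.lf (nat_lit 0) (nat_lit 5369715157) (nat_lit 228) (nat_lit 24986695190) (nat_lit 76) (nat_lit 318195363) (nat_lit 19) (nat_lit 5) (nat_lit 22) (nat_lit 5) (nat_lit 20) (nat_lit 5) (nat_lit 276) (nat_lit 249) (nat_lit 195))))) (XT.nd (nat_lit 156) (nat_lit 152) (nat_lit 0) (XT.nd (nat_lit 78) (nat_lit 152) (nat_lit 0) (XT.lf (nat_lit 0) (nat_lit 12575320625) (nat_lit 228) (nat_lit 7986623097) (nat_lit 76) (nat_lit 11951761376) (nat_lit 19) (nat_lit 5) (nat_lit 22) (nat_lit 5) (nat_lit 20) (nat_lit 5) (nat_lit 277) (nat_lit 249) (nat_lit 194)) (XT.lf (nat_lit 0) (nat_lit 10674232574) (nat_lit 152) (nat_lit 9823766210) (nat_lit 228) (nat_lit 13994953745) (nat_lit 17) (nat_lit 5) (nat_lit 19) (nat_lit 5) (nat_lit 20) (nat_lit 5) (nat_lit 278)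 (nat_lit 249) (nat_lit 193))) (XT.nd (nat_lit 78) (nat_lit 152) (nat_lit 0) (XT.lf (nat_lit 0) (nat_lit 29198645496) (nat_lit 228) (nat_lit 5580543746) (nat_lit 76) (nat_lit 1844190304) (nat_lit 17) (nat_lit 5) (nat_lit 20) (nat_lit 5) (nat_lit 18) (nat_lit 4) (nat_lit 279) (nat_lit 249) (nat_lit 192)) (XT.nd (nat_lit 78) (nat_lit 0) (nat_lit 0) (XT.lf (nat_lit 0) (nat_lit 54577414) (nat_lit 152) (nat_lit 24532894310) (nat_lit 76) (nat_lit 14318420268) (nat_lit 15) (nat_lit 5) (nat_lit 17) (nat_lit 5) (nat_lit 16) (nat_lit 5) (nat_lit 280) (nat_lit 249) (nat_lit 191)) (XT.lf (nat_lit 0) (nat_lit 7952054379) (nat_lit 152) (nat_lit 5407166239) (nat_lit 76) (nat_lit 28001740405) (nat_lit 15) (nat_lit 5) (nat_lit 17) (nat_lit 5) (nat_lit 16) (nat_lit 5) (nat_lit 281) (nat_lit 249) (nat_lit 190))))))))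
noncomputable def xc68 : XT := (XT.nd (nat_lit 1482) (nat_lit 228) (nat_lit 0) (XT.nd (nat_lit 702) (nat_lit 304) (nat_lit 0) (XT.nd (nat_lit 312) (nat_lit 304) (nat_lit 0) (XT.nd (nat_lit 156) (nat_lit 76) (nat_lit 0) (XT.nd (nat_lit 78) (nat_lit 0) (nat_lit 0) (XT.lf (nat_lit 0) (nat_lit 15718052450) (nat_lit 152) (nat_lit 988000638) (nat_lit 228) (nat_lit 27295182223) (nat_lit 13) (nat_lit 5) (nat_lit 15) (nat_lit 5) (nat_lit 16) (nat_lit 5) (nat_lit 282) (nat_lit 249) (nat_lit 189)) (XT.lf (nat_lit 0) (nat_lit 26429435483) (nat_lit 228) (nat_lit 8349366736) (nat_lit 76) (nat_lit 12060509389) (nat_lit 13) (nat_lit 5) (nat_lit 16) (nat_lit 5) (nat_lit 14) (nat_lit 4) (nat_lit 283) (nat_lit 249) (nat_lit 188))) (XT.nd (nat_lit 78) (nat_lit 0) (nat_lit 0) (XT.lf (nat_lit 0) (nat_lit 13566139459) (nat_lit 76) (nat_lit 23574638446) (nat_lit 152) (nat_lit 12753182423) (nat_lit 12) (nat_lit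 5) (nat_lit 13) (nat_lit 5) (nat_lit 14) (nat_lit 4) (nat_lit 284) (nat_lit 249) (nat_lit 187)) (XT.lf (nat_lit 0) (nat_lit 37503810401) (nat_lit 76) (nat_lit 11333187192) (nat_lit 152) (nat_lit 4349613371) (nat_lit 12) (nat_lit 5) (nat_lit 13) (nat_lit 5) (nat_lit 14) (nat_lit 4) (nat_lit 285) (nat_lit 249) (nat_lit 186)))) (XT.nd (nat_lit 156) (nat_lit 76) (nat_lit 0) (XT.nd (nat_lit 78) (nat_lit 0) (nat_lit 0) (XT.lf (nat_lit 0) (nat_lit 4695771016) (nat_lit 228) (nat_lit 50039081106) (nat_lit 76) (nat_lit 1998117225) (nat_lit 9) (nat_lit 5) (nat_lit 12) (nat_lit 5) (nat_lit 10) (nat_lit 4) (nat_lit 286) (nat_lit 249) (nat_lit 185)) (XT.lf (nat_lit 0) (nat_lit 14767366718) (nat_lit 228) (nat_lit 29424627031) (nat_lit 76) (nat_lit 16344752182) (nat_lit 9) (nat_lit 5) (nat_lit 12) (nat_lit 5) (nat_lit 10) (nat_lit 4) (nat_lit 287) (nat_lit 249) (nat_lit 184))) (XT.nd (nat_lit 78) (nat_lit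 76) (nat_lit 0) (XT.lf (nat_lit 0) (nat_lit 25630034152) (nat_lit 228) (nat_lit 7186082047) (nat_lit 76) (nat_lit 31829462795) (nat_lit 9) (nat_lit 5) (nat_lit 12) (nat_lit 5) (nat_lit 10) (nat_lit 4) (nat_lit 288) (nat_lit 249) (nat_lit 183)) (XT.nd (nat_lit 78) (nat_lit 0) (nat_lit 0) (XT.lf (nat_lit 0) (nat_lit 17364097374) (nat_lit 76) (nat_lit 20255149528) (nat_lit 152) (nat_lit 31451015161) (nat_lit 8) (nat_lit 5) (nat_lit 9) (nat_lit 5) (nat_lit 10) (nat_lit 4) (nat_lit 289) (nat_lit 249) (nat_lit 182)) (XT.lf (nat_lit 0) (nat_lit 44112703725) (nat_lit 76) (nat_lit 6567158162) (nat_lit 152) (nat_lit 23163463111) (nat_lit 8) (nat_lit 5) (nat_lit 9) (nat_lit 5) (nat_lit 10) (nat_lit 4) (nat_lit 290) (nat_lit 249) (nat_lit 181)))))) (XT.nd (nat_lit 390) (nat_lit 76) (nat_lit 0) (XT.nd (nat_lit 156) (nat_lit 152) (nat_lit 0) (XT.nd (nat_lit 78) (nat_lit 76) (nat_lit 0) (XT.lf (nat_lit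 0) (nat_lit 64901509313) (nat_lit 152) (nat_lit 6146343422) (nat_lit 0) (nat_lit 7944588181) (nat_lit 8) (nat_lit 5) (nat_lit 10) (nat_lit 4) (nat_lit 8) (nat_lit 4) (nat_lit 291) (nat_lit 249) (nat_lit 180)) (XT.lf (nat_lit 0) (nat_lit 19829120047) (nat_lit 76) (nat_lit 60840896873) (nat_lit 76) (nat_lit 3863028612) (nat_lit 7) (nat_lit 4) (nat_lit 8) (nat_lit 5) (nat_lit 8) (nat_lit 4) (nat_lit 292) (nat_lit 249) (nat_lit 179))) (XT.nd (nat_lit 78) (nat_lit 76) (nat_lit 0) (XT.lf (nat_lit 0) (nat_lit 7051178236) (nat_lit 152) (nat_lit 42542348366) (nat_lit 76) (nat_lit 40912879671) (nat_lit 6) (nat_lit 5) (nat_lit 8) (nat_lit 5) (nat_lit 7) (nat_lit 4) (nat_lit 293) (nat_lit 249) (nat_lit 178)) (XT.nd (nat_lit 78) (nat_lit 76) (nat_lit 0) (XT.lf (nat_lit 0) (nat_lit 18694947996) (nat_lit 152) (nat_lit 18690579145) (nat_lit 76) (nat_lit 59569366849) (nat_lit 6) (nat_lit 5) (nat_lit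 8) (nat_lit 5) (nat_lit 7) (nat_lit 4) (nat_lit 294) (nat_lit 249) (nat_lit 177)) (XT.lf (nat_lit 0) (nat_lit 7286244009) (nat_lit 76) (nat_lit 24088436504) (nat_lit 152) (nat_lit 72539369131) (nat_lit 5) (nat_lit 5) (nat_lit 6) (nat_lit 5) (nat_lit 7) (nat_lit 4) (nat_lit 295) (nat_lit 249) (nat_lit 176))))) (XT.nd (nat_lit 156) (nat_lit 76) (nat_lit 0) (XT.nd (nat_lit 78) (nat_lit 0) (nat_lit 0) (XT.lf (nat_lit 0) (nat_lit 35993062723) (nat_lit 76) (nat_lit 9392454609) (nat_lit 152) (nat_lit 66028595223) (nat_lit 5) (nat_lit 5) (nat_lit 6) (nat_lit 5) (nat_lit 7) (nat_lit 4) (nat_lit 296) (nat_lit 249) (nat_lit 175)) (XT.lf (nat_lit 0) (nat_lit 60610085912) (nat_lit 152) (nat_lit 52633665299) (nat_lit 0) (nat_lit 6265796318) (nat_lit 5) (nat_lit 5) (nat_lit 7) (nat_lit 4) (nat_lit 5) (nat_lit 4) (nat_lit 297) (nat_lit 249) (nat_lit 174))) (XT.nd (nat_lit 78) (nat_lit 76) (nat_lit 0)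 (XT.lf (nat_lit 0) (nat_lit 77203314524) (nat_lit 152) (nat_lit 28195324289) (nat_lit 0) (nat_lit 22846453269) (nat_lit 5) (nat_lit 5) (nat_lit 7) (nat_lit 4) (nat_lit 5) (nat_lit 4) (nat_lit 298) (nat_lit 249) (nat_lit 173)) (XT.nd (nat_lit 78) (nat_lit 76) (nat_lit 0) (XT.lf (nat_lit 0) (nat_lit 95116890873) (nat_lit 152) (nat_lit 1814564466) (nat_lit 0) (nat_lit 40748389191) (nat_lit 5) (nat_lit 5) (nat_lit 7) (nat_lit 4) (nat_lit 5) (nat_lit 4) (nat_lit 299) (nat_lit 249) (nat_lit 172)) (XT.lf (nat_lit 0) (nat_lit 27546608088) (nat_lit 76) (nat_lit 87340441150) (nat_lit 76) (nat_lit 32961161294) (nat_lit 4) (nat_lit 4) (nat_lit 5) (nat_lit 5) (nat_lit 5) (nat_lit 4) (nat_lit 300) (nat_lit 249) (nat_lit 171))))))) (XT.nd (nat_lit 702) (nat_lit 76) (nat_lit 0) (XT.nd (nat_lit 312) (nat_lit 76) (nat_lit 0) (XT.nd (nat_lit 156) (nat_lit 76) (nat_lit 0) (XT.nd (nat_lit 78) (nat_lit 0)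 (nat_lit 0) (XT.lf (nat_lit 0) (nat_lit 59310269386) (nat_lit 76) (nat_lit 76953888374) (nat_lit 76) (nat_lit 22564628728) (nat_lit 4) (nat_lit 4) (nat_lit 5) (nat_lit 5) (nat_lit 5) (nat_lit 4) (nat_lit 301) (nat_lit 249) (nat_lit 170)) (XT.lf (nat_lit 0) (nat_lit 93604650833) (nat_lit 76) (nat_lit 65740977598) (nat_lit 76) (nat_lit 11342477406) (nat_lit 4) (nat_lit 4) (nat_lit 5) (nat_lit 5) (nat_lit 5) (nat_lit 4) (nat_lit 302) (nat_lit 249) (nat_lit 169))) (XT.nd (nat_lit 78) (nat_lit 0) (nat_lit 0) (XT.lf (nat_lit 0) (nat_lit 747092073) (nat_lit 152) (nat_lit 52875517503) (nat_lit 76) (nat_lit 129873233955) (nat_lit 3) (nat_lit 5) (nat_lit 5) (nat_lit 5) (nat_lit 4) (nat_lit 4) (nat_lit 303) (nat_lit 249) (nat_lit 168)) (XT.lf (nat_lit 0) (nat_lit 13406689014) (nat_lit 152) (nat_lit 26931266054) (nat_lit 76) (nat_lit 156980941415) (nat_lit 3) (nat_lit 5) (nat_lit 5) (nat_lit 5)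 (nat_lit 4) (nat_lit 4) (nat_lit 304) (nat_lit 249) (nat_lit 167)))) (XT.nd (nat_lit 156) (nat_lit 0) (nat_lit 0) (XT.nd (nat_lit 78) (nat_lit 0) (nat_lit 0) (XT.lf (nat_lit 0) (nat_lit 1115844923) (nat_lit 76) (nat_lit 25975939906) (nat_lit 152) (nat_lit 185155377570) (nat_lit 2) (nat_lit 5) (nat_lit 3) (nat_lit 5) (nat_lit 4) (nat_lit 4) (nat_lit 305) (nat_lit 249) (nat_lit 166)) (XT.lf (nat_lit 0) (nat_lit 32360401825) (nat_lit 76) (nat_lit 9975943481) (nat_lit 152) (nat_lit 186010116324) (nat_lit 2) (nat_lit 5) (nat_lit 3) (nat_lit 5) (nat_lit 4) (nat_lit 4) (nat_lit 306) (nat_lit 249) (nat_lit 165))) (XT.nd (nat_lit 78) (nat_lit 0) (nat_lit 0) (XT.lf (nat_lit 0) (nat_lit 58910318571) (nat_lit 152) (nat_lit 179750813139) (nat_lit 0) (nat_lit 7067085223) (nat_lit 2) (nat_lit 5) (nat_lit 4) (nat_lit 4) (nat_lit 2) (nat_lit 4) (nat_lit 307) (nat_lit 249) (nat_lit 164)) (XT.nd (nat_lit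 78) (nat_lit 0) (nat_lit 0) (XT.lf (nat_lit 0) (nat_lit 76974543822) (nat_lit 152) (nat_lit 162391991672) (nat_lit 0) (nat_lit 25125764654) (nat_lit 2) (nat_lit 5) (nat_lit 4) (nat_lit 4) (nat_lit 2) (nat_lit 4) (nat_lit 308) (nat_lit 249) (nat_lit 163)) (XT.lf (nat_lit 0) (nat_lit 96480315887) (nat_lit 152) (nat_lit 143650975879) (nat_lit 0) (nat_lit 44626401700) (nat_lit 2) (nat_lit 5) (nat_lit 4) (nat_lit 4) (nat_lit 2) (nat_lit 4) (nat_lit 309) (nat_lit 249) (nat_lit 162)))))) (XT.nd (nat_lit 390) (nat_lit 76) (nat_lit 0) (XT.nd (nat_lit 156) (nat_lit 0) (nat_lit 0) (XT.nd (nat_lit 78) (nat_lit 0) (nat_lit 0) (XT.lf (nat_lit 0) (nat_lit 117543224525) (nat_lit 152) (nat_lit 123416707889) (nat_lit 0) (nat_lit 65684555691) (nat_lit 2) (nat_lit 5) (nat_lit 4) (nat_lit 4) (nat_lit 2) (nat_lit 4) (nat_lit 310) (nat_lit 249) (nat_lit 161)) (XT.lf (nat_lit 0) (nat_lit 140288086973) (nat_lit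 152) (nat_lit 101569280928) (nat_lit 0) (nat_lit 88425015687) (nat_lit 2) (nat_lit 5) (nat_lit 4) (nat_lit 4) (nat_lit 2) (nat_lit 4) (nat_lit 311) (nat_lit 249) (nat_lit 160))) (XT.nd (nat_lit 78) (nat_lit 0) (nat_lit 0) (XT.lf (nat_lit 0) (nat_lit 164849687601) (nat_lit 152) (nat_lit 77979228763) (nat_lit 0) (nat_lit 112982539971) (nat_lit 2) (nat_lit 5) (nat_lit 4) (nat_lit 4) (nat_lit 2) (nat_lit 4) (nat_lit 312) (nat_lit 249) (nat_lit 159)) (XT.nd (nat_lit 78) (nat_lit 0) (nat_lit 0) (XT.lf (nat_lit 0) (nat_lit 191373576634) (nat_lit 152) (nat_lit 52506758491) (nat_lit 0) (nat_lit 139502654612) (nat_lit 2) (nat_lit 5) (nat_lit 4) (nat_lit 4) (nat_lit 2) (nat_lit 4) (nat_lit 313) (nat_lit 249) (nat_lit 158)) (XT.lf (nat_lit 0) (nat_lit 220016932675) (nat_lit 152) (nat_lit 25000922141) (nat_lit 0) (nat_lit 168142515846) (nat_lit 2) (nat_lit 5) (nat_lit 4) (nat_lit 4) (nat_lit 2) (nat_lit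 4) (nat_lit 314) (nat_lit 249) (nat_lit 157))))) (XT.nd (nat_lit 156) (nat_lit 0) (nat_lit 0) (XT.nd (nat_lit 78) (nat_lit 0) (nat_lit 0) (XT.lf (nat_lit 0) (nat_lit 4856723312) (nat_lit 76) (nat_lit 246168597879) (nat_lit 76) (nat_lit 194290945117) (nat_lit 1) (nat_lit 4) (nat_lit 2) (nat_lit 5) (nat_lit 2) (nat_lit 4) (nat_lit 315) (nat_lit 249) (nat_lit 156)) (XT.lf (nat_lit 0) (nat_lit 37991830310) (nat_lit 76) (nat_lit 246955893699) (nat_lit 76) (nat_lit 195075244702) (nat_lit 1) (nat_lit 4) (nat_lit 2) (nat_lit 5) (nat_lit 2) (nat_lit 4) (nat_lit 316) (nat_lit 249) (nat_lit 155))) (XT.nd (nat_lit 78) (nat_lit 0) (nat_lit 0) (XT.lf (nat_lit 0) (nat_lit 73774111647) (nat_lit 76) (nat_lit 247807810447) (nat_lit 76) (nat_lit 195924387159) (nat_lit 1) (nat_lit 4) (nat_lit 2) (nat_lit 5) (nat_lit 2) (nat_lit 4) (nat_lit 317) (nat_lit 249) (nat_lit 154)) (XT.nd (nat_lit 78) (nat_lit 0)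 (nat_lit 0) (XT.lf (nat_lit 0) (nat_lit 112415610474) (nat_lit 76) (nat_lit 248729396518) (nat_lit 76) (nat_lit 196843404441) (nat_lit 1) (nat_lit 4) (nat_lit 2) (nat_lit 5) (nat_lit 2) (nat_lit 4) (nat_lit 318) (nat_lit 249) (nat_lit 153)) (XT.lf (nat_lit 0) (nat_lit 154145313448) (nat_lit 76) (nat_lit 249726113162) (nat_lit 76) (nat_lit 197837742579) (nat_lit 1) (nat_lit 4) (nat_lit 2) (nat_lit 5) (nat_lit 2) (nat_lit 4) (nat_lit 319) (nat_lit 249) (nat_lit 152))))))))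
noncomputable def xc69 : XT := (XT.nd (nat_lit 33150) (nat_lit 0) (nat_lit 912) (XT.nd (nat_lit 32370) (nat_lit 0) (nat_lit 3648) (XT.nd (nat_lit 312) (nat_lit 0) (nat_lit 0) (XT.nd (nat_lit 156) (nat_lit 0) (nat_lit 0) (XT.nd (nat_lit 78) (nat_lit 0) (nat_lit 0) (XT.lf (nat_lit 0) (nat_lit 199210507700) (nat_lit 76) (nat_lit 250803866850) (nat_lit 76) (nat_lit 198913293945) (nat_lit 1) (nat_lit 4) (nat_lit 2) (nat_lit 5) (nat_lit 2) (nat_lit 4) (nat_lit 320) (nat_lit 249) (nat_lit 151)) (XT.lf (nat_lit 0) (nat_lit 247878246231) (nat_lit 76) (nat_lit 251969044269) (nat_lit 76) (nat_lit 200076432177) (nat_lit 1) (nat_lit 4) (nat_lit 2) (nat_lit 5) (nat_lit 2) (nat_lit 4) (nat_lit 321) (nat_lit 249) (nat_lit 150))) (XT.nd (nat_lit 78) (nat_lit 0) (nat_lit 0) (XT.lf (nat_lit 0) (nat_lit 300436930457) (nat_lit 76) (nat_lit 253228550175) (nat_lit 76) (nat_lit 201334049947) (nat_lit 1) (nat_lit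 4) (nat_lit 2) (nat_lit 5) (nat_lit 2) (nat_lit 4) (nat_lit 322) (nat_lit 249) (nat_lit 149)) (XT.lf (nat_lit 0) (nat_lit 357198019245) (nat_lit 76) (nat_lit 254589848306) (nat_lit 76) (nat_lit 202693599804) (nat_lit 1) (nat_lit 4) (nat_lit 2) (nat_lit 5) (nat_lit 2) (nat_lit 4) (nat_lit 323) (nat_lit 249) (nat_lit 148)))) (XT.nd (nat_lit 31824) (nat_lit 0) (nat_lit 5776) (XT.nd (nat_lit 31746) (nat_lit 0) (nat_lit 5776) (XT.lf (nat_lit 0) (nat_lit 418497874604) (nat_lit 76) (nat_lit 256061005614) (nat_lit 76) (nat_lit 204163138340) (nat_lit 1) (nat_lit 4) (nat_lit 2) (nat_lit 5) (nat_lit 2) (nat_lit 4) (nat_lit 324) (nat_lit 249) (nat_lit 147)) (XT.lf (nat_lit 0) (nat_lit 1109219264) (nat_lit 684) (nat_lit 1799811523) (nat_lit 684) (nat_lit 1799811523) (nat_lit 77) (nat_lit 3) (nat_lit 86) (nat_lit 3) (nat_lit 86) (nat_lit 5) (nat_lit 250) (nat_lit 250) (nat_lit 220))) (XT.nd (nat_lit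 78) (nat_lit 0) (nat_lit 76) (XT.lf (nat_lit 76) (nat_lit 2904341864) (nat_lit 0) (nat_lit 594409627) (nat_lit 684) (nat_lit 6231579477) (nat_lit 78) (nat_lit 5) (nat_lit 77) (nat_lit 3) (nat_lit 86) (nat_lit 5) (nat_lit 251) (nat_lit 250) (nat_lit 219)) (XT.nd (nat_lit 78) (nat_lit 0) (nat_lit 76) (XT.lf (nat_lit 0) (nat_lit 4909198552) (nat_lit 608) (nat_lit 157006788) (nat_lit 684) (nat_lit 5000846669) (nat_lit 78) (nat_lit 5) (nat_lit 86) (nat_lit 5) (nat_lit 87) (nat_lit 5) (nat_lit 252) (nat_lit 250) (nat_lit 218)) (XT.lf (nat_lit 0) (nat_lit 6460381647) (nat_lit 608) (nat_lit 3240449942) (nat_lit 684) (nat_lit 728899357) (nat_lit 79) (nat_lit 5) (nat_lit 87) (nat_lit 5) (nat_lit 88) (nat_lit 5) (nat_lit 253) (nat_lit 250) (nat_lit 217)))))) (XT.nd (nat_lit 390) (nat_lit 1064) (nat_lit 0) (XT.nd (nat_lit 156) (nat_lit 1216) (nat_lit 0) (XT.nd (nat_lit 78) (nat_lit 0) (nat_lit 76)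 (XT.lf (nat_lit 76) (nat_lit 4291999166) (nat_lit 0) (nat_lit 3900064483) (nat_lit 684) (nat_lit 2626924804) (nat_lit 80) (nat_lit 5) (nat_lit 79) (nat_lit 5) (nat_lit 88) (nat_lit 5) (nat_lit 254) (nat_lit 250) (nat_lit 216)) (XT.lf (nat_lit 76) (nat_lit 1237996667) (nat_lit 0) (nat_lit 8845841116) (nat_lit 684) (nat_lit 1154826886) (nat_lit 81) (nat_lit 5) (nat_lit 80) (nat_lit 5) (nat_lit 89) (nat_lit 5) (nat_lit 255) (nat_lit 250) (nat_lit 215))) (XT.nd (nat_lit 78) (nat_lit 608) (nat_lit 0) (XT.lf (nat_lit 0) (nat_lit 514414234) (nat_lit 684) (nat_lit 1973549925) (nat_lit 760) (nat_lit 9199260169) (nat_lit 71) (nat_lit 5) (nat_lit 80) (nat_lit 5) (nat_lit 81) (nat_lit 5) (nat_lit 256) (nat_lit 250) (nat_lit 214)) (XT.nd (nat_lit 78) (nat_lit 684) (nat_lit 0) (XT.lf (nat_lit 0) (nat_lit 2373094335) (nat_lit 684) (nat_lit 5410514143) (nat_lit 76) (nat_lit 4382586413) (nat_lit 72)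 (nat_lit 5) (nat_lit 81) (nat_lit 5) (nat_lit 73) (nat_lit 5) (nat_lit 257) (nat_lit 250) (nat_lit 213)) (XT.lf (nat_lit 0) (nat_lit 3577493894) (nat_lit 684) (nat_lit 859510574) (nat_lit 760) (nat_lit 8243920988) (nat_lit 63) (nat_lit 5) (nat_lit 72) (nat_lit 5) (nat_lit 73) (nat_lit 5) (nat_lit 258) (nat_lit 250) (nat_lit 212))))) (XT.nd (nat_lit 156) (nat_lit 760) (nat_lit 0) (XT.nd (nat_lit 78) (nat_lit 0) (nat_lit 0) (XT.lf (nat_lit 0) (nat_lit 75653427) (nat_lit 304) (nat_lit 6719246905) (nat_lit 380) (nat_lit 6435739689) (nat_lit 59) (nat_lit 5) (nat_lit 63) (nat_lit 5) (nat_lit 64) (nat_lit 5) (nat_lit 259) (nat_lit 250) (nat_lit 211)) (XT.lf (nat_lit 0) (nat_lit 9459406282) (nat_lit 380) (nat_lit 3596982679) (nat_lit 76) (nat_lit 762274612) (nat_lit 59) (nat_lit 5) (nat_lit 64) (nat_lit 5) (nat_lit 60) (nat_lit 5) (nat_lit 260) (nat_lit 250) (nat_lit 210))) (XT.nd (nat_lit 78)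 (nat_lit 380) (nat_lit 0) (XT.lf (nat_lit 0) (nat_lit 6765750022) (nat_lit 380) (nat_lit 5728113681) (nat_lit 456) (nat_lit 1952239406) (nat_lit 54) (nat_lit 5) (nat_lit 59) (nat_lit 5) (nat_lit 60) (nat_lit 5) (nat_lit 261) (nat_lit 250) (nat_lit 209)) (XT.nd (nat_lit 78) (nat_lit 0) (nat_lit 0) (XT.lf (nat_lit 0) (nat_lit 713378509) (nat_lit 380) (nat_lit 12169704942) (nat_lit 76) (nat_lit 2235999548) (nat_lit 49) (nat_lit 5) (nat_lit 54) (nat_lit 5) (nat_lit 50) (nat_lit 5) (nat_lit 262) (nat_lit 250) (nat_lit 208)) (XT.lf (nat_lit 0) (nat_lit 3701123929) (nat_lit 380) (nat_lit 1329938144) (nat_lit 76) (nat_lit 10804549706) (nat_lit 49) (nat_lit 5) (nat_lit 54) (nat_lit 5) (nat_lit 50) (nat_lit 5) (nat_lit 263) (nat_lit 250) (nat_lit 207))))))) (XT.nd (nat_lit 780) (nat_lit 988) (nat_lit 0) (XT.nd (nat_lit 390) (nat_lit 684) (nat_lit 0) (XT.nd (nat_lit 156) (nat_lit 532) (nat_lit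 0) (XT.nd (nat_lit 78) (nat_lit 228) (nat_lit 0) (XT.lf (nat_lit 0) (nat_lit 7098763945) (nat_lit 380) (nat_lit 6000318395) (nat_lit 76) (nat_lit 3501998299) (nat_lit 45) (nat_lit 5) (nat_lit 50) (nat_lit 5) (nat_lit 46) (nat_lit 5) (nat_lit 264) (nat_lit 250) (nat_lit 206)) (XT.lf (nat_lit 0) (nat_lit 6160645638) (nat_lit 228) (nat_lit 4762976032) (nat_lit 304) (nat_lit 6496544575) (nat_lit 42) (nat_lit 5) (nat_lit 45) (nat_lit 5) (nat_lit 46) (nat_lit 5) (nat_lit 265) (nat_lit 250) (nat_lit 205))) (XT.nd (nat_lit 78) (nat_lit 304) (nat_lit 0) (XT.lf (nat_lit 0) (nat_lit 1119222096) (nat_lit 228) (nat_lit 14078626118) (nat_lit 304) (nat_lit 3099899958) (nat_lit 39) (nat_lit 5) (nat_lit 42) (nat_lit 5) (nat_lit 43) (nat_lit 5) (nat_lit 266) (nat_lit 250) (nat_lit 204)) (XT.nd (nat_lit 78) (nat_lit 228) (nat_lit 0) (XT.lf (nat_lit 0) (nat_lit 785152476) (nat_lit 304) (nat_lit 4494773955)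 (nat_lit 76) (nat_lit 13953545013) (nat_lit 38) (nat_lit 5) (nat_lit 42) (nat_lit 5) (nat_lit 39) (nat_lit 5) (nat_lit 267) (nat_lit 250) (nat_lit 203)) (XT.lf (nat_lit 0) (nat_lit 5048149716) (nat_lit 304) (nat_lit 10905809604) (nat_lit 76) (nat_lit 4278878129) (nat_lit 35) (nat_lit 5) (nat_lit 39) (nat_lit 5) (nat_lit 36) (nat_lit 5) (nat_lit 268) (nat_lit 250) (nat_lit 202))))) (XT.nd (nat_lit 156) (nat_lit 456) (nat_lit 0) (XT.nd (nat_lit 78) (nat_lit 0) (nat_lit 0) (XT.lf (nat_lit 0) (nat_lit 3062185748) (nat_lit 228) (nat_lit 6767054640) (nat_lit 304) (nat_lit 11474164361) (nat_lit 32) (nat_lit 5) (nat_lit 35) (nat_lit 5) (nat_lit 36) (nat_lit 5) (nat_lit 269) (nat_lit 250) (nat_lit 201)) (XT.lf (nat_lit 0) (nat_lit 15197729067) (nat_lit 304) (nat_lit 4017260779) (nat_lit 76) (nat_lit 3234478991) (nat_lit 32) (nat_lit 5) (nat_lit 36) (nat_lit 5) (nat_lit 33) (nat_lit 5) (nat_lit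 270) (nat_lit 250) (nat_lit 200))) (XT.nd (nat_lit 78) (nat_lit 304) (nat_lit 0) (XT.lf (nat_lit 0) (nat_lit 11552257259) (nat_lit 152) (nat_lit 9703249242) (nat_lit 228) (nat_lit 2418810830) (nat_lit 30) (nat_lit 5) (nat_lit 32) (nat_lit 5) (nat_lit 33) (nat_lit 5) (nat_lit 271) (nat_lit 250) (nat_lit 199)) (XT.nd (nat_lit 78) (nat_lit 0) (nat_lit 0) (XT.lf (nat_lit 0) (nat_lit 2815520107) (nat_lit 304) (nat_lit 21463445848) (nat_lit 76) (nat_lit 710860060) (nat_lit 26) (nat_lit 5) (nat_lit 30) (nat_lit 5) (nat_lit 27) (nat_lit 5) (nat_lit 272) (nat_lit 250) (nat_lit 198)) (XT.lf (nat_lit 0) (nat_lit 8731359103) (nat_lit 304) (nat_lit 5794803658) (nat_lit 76) (nat_lit 11865128046) (nat_lit 26) (nat_lit 5) (nat_lit 30) (nat_lit 5) (nat_lit 27) (nat_lit 5) (nat_lit 273) (nat_lit 250) (nat_lit 197)))))) (XT.nd (nat_lit 390) (nat_lit 456) (nat_lit 0) (XT.nd (nat_lit 156) (nat_lit 228) (nat_lit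 0) (XT.nd (nat_lit 78) (nat_lit 152) (nat_lit 0) (XT.lf (nat_lit 0) (nat_lit 11450775320) (nat_lit 152) (nat_lit 3818966194) (nat_lit 228) (nat_lit 12627735316) (nat_lit 24) (nat_lit 5) (nat_lit 26) (nat_lit 5) (nat_lit 27) (nat_lit 5) (nat_lit 274) (nat_lit 250) (nat_lit 196)) (XT.lf (nat_lit 0) (nat_lit 618612697) (nat_lit 152) (nat_lit 21917588380) (nat_lit 228) (nat_lit 6977769164) (nat_lit 22) (nat_lit 5) (nat_lit 24) (nat_lit 5) (nat_lit 25) (nat_lit 5) (nat_lit 275) (nat_lit 250) (nat_lit 195))) (XT.nd (nat_lit 78) (nat_lit 228) (nat_lit 0) (XT.lf (nat_lit 0) (nat_lit 19529344269) (nat_lit 152) (nat_lit 11177766488) (nat_lit 228) (nat_lit 536573882) (nat_lit 22) (nat_lit 5) (nat_lit 24) (nat_lit 5) (nat_lit 25) (nat_lit 5) (nat_lit 276) (nat_lit 250) (nat_lit 194)) (XT.nd (nat_lit 78) (nat_lit 0) (nat_lit 0) (XT.lf (nat_lit 0) (nat_lit 6307136043) (nat_lit 228) (nat_lit 26188384182)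 (nat_lit 76) (nat_lit 606660802) (nat_lit 19) (nat_lit 5) (nat_lit 22) (nat_lit 5) (nat_lit 20) (nat_lit 5) (nat_lit 277) (nat_lit 250) (nat_lit 193)) (XT.lf (nat_lit 0) (nat_lit 14051571898) (nat_lit 228) (nat_lit 7887361627) (nat_lit 76) (nat_lit 13151429888) (nat_lit 19) (nat_lit 5) (nat_lit 22) (nat_lit 5) (nat_lit 20) (nat_lit 5) (nat_lit 278) (nat_lit 250) (nat_lit 192))))) (XT.nd (nat_lit 156) (nat_lit 304) (nat_lit 0) (XT.nd (nat_lit 78) (nat_lit 0) (nat_lit 0) (XT.lf (nat_lit 0) (nat_lit 12234281603) (nat_lit 152) (nat_lit 10349975542) (nat_lit 228) (nat_lit 14644952505) (nat_lit 17) (nat_lit 5) (nat_lit 19) (nat_lit 5) (nat_lit 20) (nat_lit 5) (nat_lit 279) (nat_lit 250) (nat_lit 191)) (XT.lf (nat_lit 0) (nat_lit 31951641744) (nat_lit 228) (nat_lit 5355473371) (nat_lit 76) (nat_lit 2224484973) (nat_lit 17) (nat_lit 5) (nat_lit 20) (nat_lit 5) (nat_lit 18) (nat_lit 4) (nat_lit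 280) (nat_lit 250) (nat_lit 190))) (XT.nd (nat_lit 78) (nat_lit 152) (nat_lit 0) (XT.lf (nat_lit 0) (nat_lit 462388027) (nat_lit 152) (nat_lit 25839154763) (nat_lit 76) (nat_lit 15695947644) (nat_lit 15) (nat_lit 5) (nat_lit 17) (nat_lit 5) (nat_lit 16) (nat_lit 5) (nat_lit 281) (nat_lit 250) (nat_lit 189)) (XT.nd (nat_lit 78) (nat_lit 152) (nat_lit 0) (XT.lf (nat_lit 0) (nat_lit 8961778377) (nat_lit 152) (nat_lit 5231988527) (nat_lit 76) (nat_lit 30456744225) (nat_lit 15) (nat_lit 5) (nat_lit 17) (nat_lit 5) (nat_lit 16) (nat_lit 5) (nat_lit 282) (nat_lit 250) (nat_lit 188)) (XT.lf (nat_lit 0) (nat_lit 17556835539) (nat_lit 152) (nat_lit 840666688) (nat_lit 228) (nat_lit 29105482929) (nat_lit 13) (nat_lit 5) (nat_lit 15) (nat_lit 5) (nat_lit 16) (nat_lit 5) (nat_lit 283) (nat_lit 250) (nat_lit 187))))))))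
noncomputable def xc70 : XT := (XT.nd (nat_lit 1482) (nat_lit 228) (nat_lit 0) (XT.nd (nat_lit 702) (nat_lit 304) (nat_lit 0) (XT.nd (nat_lit 312) (nat_lit 76) (nat_lit 0) (XT.nd (nat_lit 156) (nat_lit 228) (nat_lit 0) (XT.nd (nat_lit 78) (nat_lit 76) (nat_lit 0) (XT.lf (nat_lit 0) (nat_lit 28875734048) (nat_lit 228) (nat_lit 8465322056) (nat_lit 76) (nat_lit 13228247010) (nat_lit 13) (nat_lit 5) (nat_lit 16) (nat_lit 5) (nat_lit 14) (nat_lit 4) (nat_lit 284) (nat_lit 250) (nat_lit 186)) (XT.lf (nat_lit 0) (nat_lit 15179435648) (nat_lit 76) (nat_lit 25248203431) (nat_lit 152) (nat_lit 13441543096) (nat_lit 12) (nat_lit 5) (nat_lit 13) (nat_lit 5) (nat_lit 14) (nat_lit 4) (nat_lit 285) (nat_lit 250) (nat_lit 185))) (XT.nd (nat_lit 78) (nat_lit 228) (nat_lit 0) (XT.lf (nat_lit 0) (nat_lit 40993008781) (nat_lit 76) (nat_lit 12043169860) (nat_lit 152) (nat_lit 4390273255) (nat_lit 12) (nat_lit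 5) (nat_lit 13) (nat_lit 5) (nat_lit 14) (nat_lit 4) (nat_lit 286) (nat_lit 250) (nat_lit 184)) (XT.lf (nat_lit 0) (nat_lit 5357364151) (nat_lit 228) (nat_lit 53553190967) (nat_lit 76) (nat_lit 2346334672) (nat_lit 9) (nat_lit 5) (nat_lit 12) (nat_lit 5) (nat_lit 10) (nat_lit 4) (nat_lit 287) (nat_lit 250) (nat_lit 183)))) (XT.nd (nat_lit 156) (nat_lit 76) (nat_lit 0) (XT.nd (nat_lit 78) (nat_lit 0) (nat_lit 0) (XT.lf (nat_lit 0) (nat_lit 16213507402) (nat_lit 228) (nat_lit 31325804020) (nat_lit 76) (nat_lit 17826747235) (nat_lit 9) (nat_lit 5) (nat_lit 12) (nat_lit 5) (nat_lit 10) (nat_lit 4) (nat_lit 288) (nat_lit 250) (nat_lit 182)) (XT.lf (nat_lit 0) (nat_lit 27925577020) (nat_lit 228) (nat_lit 7341715672) (nat_lit 76) (nat_lit 34537315076) (nat_lit 9) (nat_lit 5) (nat_lit 12) (nat_lit 5) (nat_lit 10) (nat_lit 4) (nat_lit 289) (nat_lit 250) (nat_lit 181))) (XT.nd (nat_lit 78) (nat_lit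 0) (nat_lit 0) (XT.lf (nat_lit 0) (nat_lit 19154257880) (nat_lit 76) (nat_lit 21707771625) (nat_lit 152) (nat_lit 33721857548) (nat_lit 8) (nat_lit 5) (nat_lit 9) (nat_lit 5) (nat_lit 10) (nat_lit 4) (nat_lit 290) (nat_lit 250) (nat_lit 180)) (XT.nd (nat_lit 78) (nat_lit 0) (nat_lit 0) (XT.lf (nat_lit 0) (nat_lit 48013046612) (nat_lit 76) (nat_lit 6937169829) (nat_lit 152) (nat_lit 24789467173) (nat_lit 8) (nat_lit 5) (nat_lit 9) (nat_lit 5) (nat_lit 10) (nat_lit 4) (nat_lit 291) (nat_lit 250) (nat_lit 179)) (XT.lf (nat_lit 0) (nat_lit 70295844154) (nat_lit 152) (nat_lit 6286191310) (nat_lit 0) (nat_lit 8719403814) (nat_lit 8) (nat_lit 5) (nat_lit 10) (nat_lit 4) (nat_lit 8) (nat_lit 4) (nat_lit 292) (nat_lit 250) (nat_lit 178)))))) (XT.nd (nat_lit 390) (nat_lit 76) (nat_lit 0) (XT.nd (nat_lit 156) (nat_lit 76) (nat_lit 0) (XT.nd (nat_lit 78) (nat_lit 76) (nat_lit 0) (XT.lf (nat_lit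 0) (nat_lit 21752017848) (nat_lit 76) (nat_lit 65564090473) (nat_lit 76) (nat_lit 3969691345) (nat_lit 7) (nat_lit 4) (nat_lit 8) (nat_lit 5) (nat_lit 8) (nat_lit 4) (nat_lit 293) (nat_lit 250) (nat_lit 177)) (XT.lf (nat_lit 0) (nat_lit 7796663371) (nat_lit 152) (nat_lit 45627867723) (nat_lit 76) (nat_lit 44313084446) (nat_lit 6) (nat_lit 5) (nat_lit 8) (nat_lit 5) (nat_lit 7) (nat_lit 4) (nat_lit 294) (nat_lit 250) (nat_lit 176))) (XT.nd (nat_lit 78) (nat_lit 76) (nat_lit 0) (XT.lf (nat_lit 0) (nat_lit 20358498350) (nat_lit 152) (nat_lit 19891502780) (nat_lit 76) (nat_lit 64452670272) (nat_lit 6) (nat_lit 5) (nat_lit 8) (nat_lit 5) (nat_lit 7) (nat_lit 4) (nat_lit 295) (nat_lit 250) (nat_lit 175)) (XT.nd (nat_lit 78) (nat_lit 0) (nat_lit 0) (XT.lf (nat_lit 0) (nat_lit 8150675321) (nat_lit 76) (nat_lit 25893888573) (nat_lit 152) (nat_lit 78174413921) (nat_lit 5) (nat_lit 5) (nat_lit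 6) (nat_lit 5) (nat_lit 7) (nat_lit 4) (nat_lit 296) (nat_lit 250) (nat_lit 174)) (XT.lf (nat_lit 0) (nat_lit 39133185326) (nat_lit 76) (nat_lit 10031237226) (nat_lit 152) (nat_lit 71155230304) (nat_lit 5) (nat_lit 5) (nat_lit 6) (nat_lit 5) (nat_lit 7) (nat_lit 4) (nat_lit 297) (nat_lit 250) (nat_lit 173))))) (XT.nd (nat_lit 156) (nat_lit 76) (nat_lit 0) (XT.nd (nat_lit 78) (nat_lit 0) (nat_lit 0) (XT.lf (nat_lit 0) (nat_lit 65597616905) (nat_lit 152) (nat_lit 56597591790) (nat_lit 0) (nat_lit 6867994661) (nat_lit 5) (nat_lit 5) (nat_lit 7) (nat_lit 4) (nat_lit 5) (nat_lit 4) (nat_lit 298) (nat_lit 250) (nat_lit 172)) (XT.lf (nat_lit 0) (nat_lit 83508027945) (nat_lit 152) (nat_lit 30222462517) (nat_lit 0) (nat_lit 24767627527) (nat_lit 5) (nat_lit 5) (nat_lit 7) (nat_lit 4) (nat_lit 5) (nat_lit 4) (nat_lit 299) (nat_lit 250) (nat_lit 171))) (XT.nd (nat_lit 78) (nat_lit 76) (nat_lit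 0) (XT.lf (nat_lit 0) (nat_lit 102845175716) (nat_lit 152) (nat_lit 1748166924) (nat_lit 0) (nat_lit 44094795509) (nat_lit 5) (nat_lit 5) (nat_lit 7) (nat_lit 4) (nat_lit 5) (nat_lit 4) (nat_lit 300) (nat_lit 250) (nat_lit 170)) (XT.nd (nat_lit 78) (nat_lit 0) (nat_lit 0) (XT.lf (nat_lit 0) (nat_lit 29952705178) (nat_lit 76) (nat_lit 94238591217) (nat_lit 76) (nat_lit 35478970463) (nat_lit 4) (nat_lit 4) (nat_lit 5) (nat_lit 5) (nat_lit 5) (nat_lit 4) (nat_lit 301) (nat_lit 250) (nat_lit 169)) (XT.lf (nat_lit 0) (nat_lit 64242469124) (nat_lit 76) (nat_lit 83027713124) (nat_lit 76) (nat_lit 24259536309) (nat_lit 4) (nat_lit 4) (nat_lit 5) (nat_lit 5) (nat_lit 5) (nat_lit 4) (nat_lit 302) (nat_lit 250) (nat_lit 168))))))) (XT.nd (nat_lit 780) (nat_lit 76) (nat_lit 0) (XT.nd (nat_lit 390) (nat_lit 0) (nat_lit 0) (XT.nd (nat_lit 156) (nat_lit 76) (nat_lit 0) (XT.nd (nat_lit 78) (nat_lit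 76) (nat_lit 0) (XT.lf (nat_lit 0) (nat_lit 101266521221) (nat_lit 76) (nat_lit 70923879584) (nat_lit 76) (nat_lit 12147780489) (nat_lit 4) (nat_lit 4) (nat_lit 5) (nat_lit 5) (nat_lit 5) (nat_lit 4) (nat_lit 303) (nat_lit 250) (nat_lit 167)) (XT.lf (nat_lit 0) (nat_lit 898366316) (nat_lit 152) (nat_lit 56941783589) (nat_lit 76) (nat_lit 140330682675) (nat_lit 3) (nat_lit 5) (nat_lit 5) (nat_lit 5) (nat_lit 4) (nat_lit 4) (nat_lit 304) (nat_lit 250) (nat_lit 166))) (XT.nd (nat_lit 78) (nat_lit 76) (nat_lit 0) (XT.lf (nat_lit 0) (nat_lit 14563952725) (nat_lit 152) (nat_lit 28934123528) (nat_lit 76) (nat_lit 169602000065) (nat_lit 3) (nat_lit 5) (nat_lit 5) (nat_lit 5) (nat_lit 4) (nat_lit 4) (nat_lit 305) (nat_lit 250) (nat_lit 165)) (XT.nd (nat_lit 78) (nat_lit 0) (nat_lit 0) (XT.lf (nat_lit 0) (nat_lit 1350166071) (nat_lit 76) (nat_lit 27989678634) (nat_lit 152) (nat_lit 199882966447)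 (nat_lit 2) (nat_lit 5) (nat_lit 3) (nat_lit 5) (nat_lit 4) (nat_lit 4) (nat_lit 306) (nat_lit 250) (nat_lit 164)) (XT.lf (nat_lit 0) (nat_lit 35083542819) (nat_lit 76) (nat_lit 10714448160) (nat_lit 152) (nat_lit 200812368844) (nat_lit 2) (nat_lit 5) (nat_lit 3) (nat_lit 5) (nat_lit 4) (nat_lit 4) (nat_lit 307) (nat_lit 250) (nat_lit 163))))) (XT.nd (nat_lit 156) (nat_lit 0) (nat_lit 0) (XT.nd (nat_lit 78) (nat_lit 0) (nat_lit 0) (XT.lf (nat_lit 0) (nat_lit 63693207125) (nat_lit 152) (nat_lit 194003843451) (nat_lit 0) (nat_lit 7685844784) (nat_lit 2) (nat_lit 5) (nat_lit 4) (nat_lit 4) (nat_lit 2) (nat_lit 4) (nat_lit 308) (nat_lit 250) (nat_lit 162)) (XT.lf (nat_lit 0) (nat_lit 83197380540) (nat_lit 152) (nat_lit 175265726247) (nat_lit 0) (nat_lit 27185263552) (nat_lit 2) (nat_lit 5) (nat_lit 4) (nat_lit 4) (nat_lit 2) (nat_lit 4) (nat_lit 309) (nat_lit 250) (nat_lit 161))) (XT.nd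 (nat_lit 78) (nat_lit 0) (nat_lit 0) (XT.lf (nat_lit 0) (nat_lit 104258808947) (nat_lit 152) (nat_lit 155034142136) (nat_lit 0) (nat_lit 48242289507) (nat_lit 2) (nat_lit 5) (nat_lit 4) (nat_lit 4) (nat_lit 2) (nat_lit 4) (nat_lit 310) (nat_lit 250) (nat_lit 160)) (XT.nd (nat_lit 78) (nat_lit 0) (nat_lit 0) (XT.lf (nat_lit 0) (nat_lit 127002300810) (nat_lit 152) (nat_lit 133189200248) (nat_lit 0) (nat_lit 70981705027) (nat_lit 2) (nat_lit 5) (nat_lit 4) (nat_lit 4) (nat_lit 2) (nat_lit 4) (nat_lit 311) (nat_lit 250) (nat_lit 159)) (XT.lf (nat_lit 0) (nat_lit 151562632378) (nat_lit 152) (nat_lit 109601449077) (nat_lit 0) (nat_lit 95538262202) (nat_lit 2) (nat_lit 5) (nat_lit 4) (nat_lit 4) (nat_lit 2) (nat_lit 4) (nat_lit 312) (nat_lit 250) (nat_lit 158)))))) (XT.nd (nat_lit 390) (nat_lit 0) (nat_lit 0) (XT.nd (nat_lit 156) (nat_lit 76) (nat_lit 0) (XT.nd (nat_lit 78) (nat_lit 0) (nat_lit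 0) (XT.lf (nat_lit 0) (nat_lit 178085346356) (nat_lit 152) (nat_lit 84131109355) (nat_lit 0) (nat_lit 122057481373) (nat_lit 2) (nat_lit 5) (nat_lit 4) (nat_lit 4) (nat_lit 2) (nat_lit 4) (nat_lit 313) (nat_lit 250) (nat_lit 157)) (XT.lf (nat_lit 0) (nat_lit 206727614383) (nat_lit 152) (nat_lit 56627245736) (nat_lit 0) (nat_lit 150696513466) (nat_lit 2) (nat_lit 5) (nat_lit 4) (nat_lit 4) (nat_lit 2) (nat_lit 4) (nat_lit 314) (nat_lit 250) (nat_lit 156))) (XT.nd (nat_lit 78) (nat_lit 76) (nat_lit 0) (XT.lf (nat_lit 0) (nat_lit 237659168417) (nat_lit 152) (nat_lit 26926872362) (nat_lit 0) (nat_lit 181625071266) (nat_lit 2) (nat_lit 5) (nat_lit 4) (nat_lit 4) (nat_lit 2) (nat_lit 4) (nat_lit 315) (nat_lit 250) (nat_lit 155)) (XT.nd (nat_lit 78) (nat_lit 0) (nat_lit 0) (XT.lf (nat_lit 0) (nat_lit 5316163408) (nat_lit 76) (nat_lit 265830143357) (nat_lit 76) (nat_lit 209793271915) (nat_lit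 1) (nat_lit 4) (nat_lit 2) (nat_lit 5) (nat_lit 2) (nat_lit 4) (nat_lit 316) (nat_lit 250) (nat_lit 154)) (XT.lf (nat_lit 0) (nat_lit 41096826949) (nat_lit 76) (nat_lit 266682788943) (nat_lit 76) (nat_lit 210643348713) (nat_lit 1) (nat_lit 4) (nat_lit 2) (nat_lit 5) (nat_lit 2) (nat_lit 4) (nat_lit 317) (nat_lit 250) (nat_lit 153))))) (XT.nd (nat_lit 156) (nat_lit 0) (nat_lit 0) (XT.nd (nat_lit 78) (nat_lit 0) (nat_lit 0) (XT.lf (nat_lit 0) (nat_lit 79736827814) (nat_lit 76) (nat_lit 267605049864) (nat_lit 76) (nat_lit 211563231126) (nat_lit 1) (nat_lit 4) (nat_lit 2) (nat_lit 5) (nat_lit 2) (nat_lit 4) (nat_lit 318) (nat_lit 250) (nat_lit 152)) (XT.lf (nat_lit 0) (nat_lit 121465143789) (nat_lit 76) (nat_lit 268602391370) (nat_lit 76) (nat_lit 212558370310) (nat_lit 1) (nat_lit 4) (nat_lit 2) (nat_lit 5) (nat_lit 2) (nat_lit 4) (nat_lit 319) (nat_lit 250) (nat_lit 151))) (XT.nd (nat_lit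 78) (nat_lit 0) (nat_lit 0) (XT.lf (nat_lit 0) (nat_lit 166529053781) (nat_lit 76) (nat_lit 269680723633) (nat_lit 76) (nat_lit 213634663387) (nat_lit 1) (nat_lit 4) (nat_lit 2) (nat_lit 5) (nat_lit 2) (nat_lit 4) (nat_lit 320) (nat_lit 250) (nat_lit 150)) (XT.nd (nat_lit 78) (nat_lit 0) (nat_lit 0) (XT.lf (nat_lit 0) (nat_lit 215195603183) (nat_lit 76) (nat_lit 270846436770) (nat_lit 76) (nat_lit 214798488388) (nat_lit 1) (nat_lit 4) (nat_lit 2) (nat_lit 5) (nat_lit 2) (nat_lit 4) (nat_lit 321) (nat_lit 250) (nat_lit 149)) (XT.lf (nat_lit 0) (nat_lit 267753186363) (nat_lit 76) (nat_lit 272106438710) (nat_lit 76) (nat_lit 216056742054) (nat_lit 1) (nat_lit 4) (nat_lit 2) (nat_lit 5) (nat_lit 2) (nat_lit 4) (nat_lit 322) (nat_lit 250) (nat_lit 148))))))))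
noncomputable def xc71 : XT := (XT.nd (nat_lit 33228) (nat_lit 0) (nat_lit 836) (XT.nd (nat_lit 32448) (nat_lit 0) (nat_lit 2888) (XT.nd (nat_lit 32058) (nat_lit 0) (nat_lit 5320) (XT.nd (nat_lit 31902) (nat_lit 0) (nat_lit 5776) (XT.nd (nat_lit 78) (nat_lit 0) (nat_lit 0) (XT.lf (nat_lit 0) (nat_lit 324513255664) (nat_lit 76) (nat_lit 273468196133) (nat_lit 76) (nat_lit 217416880705) (nat_lit 1) (nat_lit 4) (nat_lit 2) (nat_lit 5) (nat_lit 2) (nat_lit 4) (nat_lit 323) (nat_lit 250) (nat_lit 147)) (XT.lf (nat_lit 0) (nat_lit 385812167054) (nat_lit 76) (nat_lit 274939778711) (nat_lit 76) (nat_lit 218886964420) (nat_lit 1) (nat_lit 4) (nat_lit 2) (nat_lit 5) (nat_lit 2) (nat_lit 4) (nat_lit 324) (nat_lit 250) (nat_lit 146))) (XT.nd (nat_lit 78) (nat_lit 0) (nat_lit 0) (XT.lf (nat_lit 0) (nat_lit 2316620439) (nat_lit 684) (nat_lit 1354310802) (nat_lit 684) (nat_lit 1354310802) (nat_lit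 77) (nat_lit 3) (nat_lit 86) (nat_lit 3) (nat_lit 86) (nat_lit 5) (nat_lit 251) (nat_lit 251) (nat_lit 218)) (XT.lf (nat_lit 76) (nat_lit 4264423843) (nat_lit 0) (nat_lit 1603434187) (nat_lit 684) (nat_lit 4528338224) (nat_lit 78) (nat_lit 5) (nat_lit 77) (nat_lit 3) (nat_lit 86) (nat_lit 5) (nat_lit 252) (nat_lit 251) (nat_lit 217)))) (XT.nd (nat_lit 156) (nat_lit 532) (nat_lit 0) (XT.nd (nat_lit 78) (nat_lit 0) (nat_lit 76) (XT.lf (nat_lit 76) (nat_lit 1025578980) (nat_lit 0) (nat_lit 6212918684) (nat_lit 684) (nat_lit 3529589540) (nat_lit 79) (nat_lit 5) (nat_lit 78) (nat_lit 5) (nat_lit 87) (nat_lit 5) (nat_lit 253) (nat_lit 251) (nat_lit 216)) (XT.lf (nat_lit 0) (nat_lit 8762182016) (nat_lit 608) (nat_lit 2280473485) (nat_lit 684) (nat_lit 125260240) (nat_lit 79) (nat_lit 5) (nat_lit 87) (nat_lit 5) (nat_lit 88) (nat_lit 5) (nat_lit 254) (nat_lit 251) (nat_lit 215))) (XT.nd (nat_lit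 78) (nat_lit 608) (nat_lit 0) (XT.lf (nat_lit 76) (nat_lit 5801586064) (nat_lit 0) (nat_lit 4716800597) (nat_lit 684) (nat_lit 1076142240) (nat_lit 80) (nat_lit 5) (nat_lit 79) (nat_lit 5) (nat_lit 88) (nat_lit 5) (nat_lit 255) (nat_lit 251) (nat_lit 214)) (XT.nd (nat_lit 78) (nat_lit 0) (nat_lit 0) (XT.lf (nat_lit 0) (nat_lit 382787837) (nat_lit 684) (nat_lit 9513852585) (nat_lit 760) (nat_lit 2156916091) (nat_lit 71) (nat_lit 5) (nat_lit 80) (nat_lit 5) (nat_lit 81) (nat_lit 5) (nat_lit 256) (nat_lit 251) (nat_lit 213)) (XT.lf (nat_lit 0) (nat_lit 2027865770) (nat_lit 684) (nat_lit 957918765) (nat_lit 760) (nat_lit 9557552043) (nat_lit 71) (nat_lit 5) (nat_lit 80) (nat_lit 5) (nat_lit 81) (nat_lit 5) (nat_lit 257) (nat_lit 251) (nat_lit 212)))))) (XT.nd (nat_lit 390) (nat_lit 1140) (nat_lit 0) (XT.nd (nat_lit 156) (nat_lit 684) (nat_lit 0) (XT.nd (nat_lit 78) (nat_lit 684) (nat_lit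 0) (XT.lf (nat_lit 0) (nat_lit 3939674758) (nat_lit 684) (nat_lit 4642907590) (nat_lit 76) (nat_lit 4483209660) (nat_lit 72) (nat_lit 5) (nat_lit 81) (nat_lit 5) (nat_lit 73) (nat_lit 5) (nat_lit 258) (nat_lit 251) (nat_lit 211)) (XT.lf (nat_lit 0) (nat_lit 5011971096) (nat_lit 684) (nat_lit 1072674226) (nat_lit 760) (nat_lit 7541618450) (nat_lit 63) (nat_lit 5) (nat_lit 72) (nat_lit 5) (nat_lit 73) (nat_lit 5) (nat_lit 259) (nat_lit 251) (nat_lit 210))) (XT.nd (nat_lit 78) (nat_lit 380) (nat_lit 0) (XT.lf (nat_lit 0) (nat_lit 1248368362) (nat_lit 304) (nat_lit 7303177726) (nat_lit 380) (nat_lit 5672724212) (nat_lit 59) (nat_lit 5) (nat_lit 63) (nat_lit 5) (nat_lit 64) (nat_lit 5) (nat_lit 260) (nat_lit 251) (nat_lit 209)) (XT.nd (nat_lit 78) (nat_lit 380) (nat_lit 0) (XT.lf (nat_lit 0) (nat_lit 11338686039) (nat_lit 380) (nat_lit 2743808072) (nat_lit 76) (nat_lit 781676707) (nat_lit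 59) (nat_lit 5) (nat_lit 64) (nat_lit 5) (nat_lit 60) (nat_lit 5) (nat_lit 261) (nat_lit 251) (nat_lit 208)) (XT.lf (nat_lit 0) (nat_lit 8398359678) (nat_lit 380) (nat_lit 6151429236) (nat_lit 456) (nat_lit 995608049) (nat_lit 54) (nat_lit 5) (nat_lit 59) (nat_lit 5) (nat_lit 60) (nat_lit 5) (nat_lit 262) (nat_lit 251) (nat_lit 207))))) (XT.nd (nat_lit 156) (nat_lit 760) (nat_lit 0) (XT.nd (nat_lit 78) (nat_lit 0) (nat_lit 0) (XT.lf (nat_lit 0) (nat_lit 1785777040) (nat_lit 380) (nat_lit 12009215901) (nat_lit 76) (nat_lit 2479698970) (nat_lit 49) (nat_lit 5) (nat_lit 54) (nat_lit 5) (nat_lit 50) (nat_lit 5) (nat_lit 263) (nat_lit 251) (nat_lit 206)) (XT.lf (nat_lit 0) (nat_lit 4937332594) (nat_lit 380) (nat_lit 386272606) (nat_lit 76) (nat_lit 11728931699) (nat_lit 49) (nat_lit 5) (nat_lit 54) (nat_lit 5) (nat_lit 50) (nat_lit 5) (nat_lit 264) (nat_lit 251) (nat_lit 205))) (XT.nd (nat_lit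 78) (nat_lit 456) (nat_lit 0) (XT.lf (nat_lit 0) (nat_lit 8554673727) (nat_lit 380) (nat_lit 5430754208) (nat_lit 76) (nat_lit 3896636979) (nat_lit 45) (nat_lit 5) (nat_lit 50) (nat_lit 5) (nat_lit 46) (nat_lit 5) (nat_lit 265) (nat_lit 251) (nat_lit 204)) (XT.nd (nat_lit 78) (nat_lit 228) (nat_lit 0) (XT.lf (nat_lit 0) (nat_lit 7657473060) (nat_lit 228) (nat_lit 4977943464) (nat_lit 304) (nat_lit 6133966149) (nat_lit 42) (nat_lit 5) (nat_lit 45) (nat_lit 5) (nat_lit 46) (nat_lit 5) (nat_lit 266) (nat_lit 251) (nat_lit 203)) (XT.lf (nat_lit 0) (nat_lit 2209091362) (nat_lit 228) (nat_lit 14998441530) (nat_lit 304) (nat_lit 2512025982) (nat_lit 39) (nat_lit 5) (nat_lit 42) (nat_lit 5) (nat_lit 43) (nat_lit 5) (nat_lit 267) (nat_lit 251) (nat_lit 202))))))) (XT.nd (nat_lit 780) (nat_lit 760) (nat_lit 0) (XT.nd (nat_lit 390) (nat_lit 608) (nat_lit 0) (XT.nd (nat_lit 156) (nat_lit 380) (nat_lit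 0) (XT.nd (nat_lit 78) (nat_lit 228) (nat_lit 0) (XT.lf (nat_lit 0) (nat_lit 1597143416) (nat_lit 304) (nat_lit 3901309168) (nat_lit 76) (nat_lit 15234195036) (nat_lit 38) (nat_lit 5) (nat_lit 42) (nat_lit 5) (nat_lit 39) (nat_lit 5) (nat_lit 268) (nat_lit 251) (nat_lit 201)) (XT.lf (nat_lit 0) (nat_lit 6163099293) (nat_lit 304) (nat_lit 10832539270) (nat_lit 76) (nat_lit 4818379703) (nat_lit 35) (nat_lit 5) (nat_lit 39) (nat_lit 5) (nat_lit 36) (nat_lit 5) (nat_lit 269) (nat_lit 251) (nat_lit 200))) (XT.nd (nat_lit 78) (nat_lit 152) (nat_lit 0) (XT.lf (nat_lit 0) (nat_lit 4211795214) (nat_lit 228) (nat_lit 7076331990) (nat_lit 304) (nat_lit 11684171344) (nat_lit 32) (nat_lit 5) (nat_lit 35) (nat_lit 5) (nat_lit 36) (nat_lit 5) (nat_lit 270) (nat_lit 251) (nat_lit 199)) (XT.nd (nat_lit 78) (nat_lit 152) (nat_lit 0) (XT.lf (nat_lit 0) (nat_lit 17039631757) (nat_lit 304) (nat_lit 3471614180)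 (nat_lit 76) (nat_lit 3701254706) (nat_lit 32) (nat_lit 5) (nat_lit 36) (nat_lit 5) (nat_lit 33) (nat_lit 5) (nat_lit 271) (nat_lit 251) (nat_lit 198)) (XT.lf (nat_lit 0) (nat_lit 13305785344) (nat_lit 152) (nat_lit 10242817860) (nat_lit 228) (nat_lit 1988525330) (nat_lit 30) (nat_lit 5) (nat_lit 32) (nat_lit 5) (nat_lit 33) (nat_lit 5) (nat_lit 272) (nat_lit 251) (nat_lit 197))))) (XT.nd (nat_lit 156) (nat_lit 304) (nat_lit 0) (XT.nd (nat_lit 78) (nat_lit 0) (nat_lit 0) (XT.lf (nat_lit 0) (nat_lit 3616342134) (nat_lit 304) (nat_lit 22340614880) (nat_lit 76) (nat_lit 1001952100) (nat_lit 26) (nat_lit 5) (nat_lit 30) (nat_lit 5) (nat_lit 27) (nat_lit 5) (nat_lit 273) (nat_lit 251) (nat_lit 196)) (XT.lf (nat_lit 0) (nat_lit 9962812662) (nat_lit 304) (nat_lit 5480696622) (nat_lit 76) (nat_lit 13031211655) (nat_lit 26) (nat_lit 5) (nat_lit 30) (nat_lit 5) (nat_lit 27) (nat_lit 5) (nat_lit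 274) (nat_lit 251) (nat_lit 195))) (XT.nd (nat_lit 78) (nat_lit 152) (nat_lit 0) (XT.lf (nat_lit 0) (nat_lit 13110731157) (nat_lit 152) (nat_lit 3885671381) (nat_lit 228) (nat_lit 13106483269) (nat_lit 24) (nat_lit 5) (nat_lit 26) (nat_lit 5) (nat_lit 27) (nat_lit 5) (nat_lit 275) (nat_lit 251) (nat_lit 194)) (XT.nd (nat_lit 78) (nat_lit 0) (nat_lit 0) (XT.lf (nat_lit 0) (nat_lit 1401342646) (nat_lit 152) (nat_lit 23420323047) (nat_lit 228) (nat_lit 7028242738) (nat_lit 22) (nat_lit 5) (nat_lit 24) (nat_lit 5) (nat_lit 25) (nat_lit 5) (nat_lit 276) (nat_lit 251) (nat_lit 193)) (XT.lf (nat_lit 0) (nat_lit 21770618600) (nat_lit 152) (nat_lit 11839883730) (nat_lit 228) (nat_lit 109362794) (nat_lit 22) (nat_lit 5) (nat_lit 24) (nat_lit 5) (nat_lit 25) (nat_lit 5) (nat_lit 277) (nat_lit 251) (nat_lit 192)))))) (XT.nd (nat_lit 390) (nat_lit 228) (nat_lit 0) (XT.nd (nat_lit 156) (nat_lit 304)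 (nat_lit 0) (XT.nd (nat_lit 78) (nat_lit 0) (nat_lit 0) (XT.lf (nat_lit 0) (nat_lit 7247101022) (nat_lit 228) (nat_lit 27599944437) (nat_lit 76) (nat_lit 880682187) (nat_lit 19) (nat_lit 5) (nat_lit 22) (nat_lit 5) (nat_lit 20) (nat_lit 5) (nat_lit 278) (nat_lit 251) (nat_lit 191)) (XT.lf (nat_lit 0) (nat_lit 15578840331) (nat_lit 228) (nat_lit 7885470484) (nat_lit 76) (nat_lit 14412329946) (nat_lit 19) (nat_lit 5) (nat_lit 22) (nat_lit 5) (nat_lit 20) (nat_lit 5) (nat_lit 279) (nat_lit 251) (nat_lit 190))) (XT.nd (nat_lit 78) (nat_lit 152) (nat_lit 0) (XT.lf (nat_lit 0) (nat_lit 13818400008) (nat_lit 152) (nat_lit 10955329583) (nat_lit 228) (nat_lit 15413944505) (nat_lit 17) (nat_lit 5) (nat_lit 19) (nat_lit 5) (nat_lit 20) (nat_lit 5) (nat_lit 280) (nat_lit 251) (nat_lit 189)) (XT.nd (nat_lit 78) (nat_lit 152) (nat_lit 0) (XT.lf (nat_lit 0) (nat_lit 34865373057) (nat_lit 228) (nat_lit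 5208196328) (nat_lit 76) (nat_lit 2601997478) (nat_lit 17) (nat_lit 5) (nat_lit 20) (nat_lit 5) (nat_lit 18) (nat_lit 4) (nat_lit 281) (nat_lit 251) (nat_lit 188)) (XT.lf (nat_lit 0) (nat_lit 845267631) (nat_lit 152) (nat_lit 27343554726) (nat_lit 76) (nat_lit 17150572148) (nat_lit 15) (nat_lit 5) (nat_lit 17) (nat_lit 5) (nat_lit 16) (nat_lit 5) (nat_lit 282) (nat_lit 251) (nat_lit 187))))) (XT.nd (nat_lit 156) (nat_lit 76) (nat_lit 0) (XT.nd (nat_lit 78) (nat_lit 152) (nat_lit 0) (XT.lf (nat_lit 0) (nat_lit 9998987834) (nat_lit 152) (nat_lit 5129499074) (nat_lit 76) (nat_lit 33077495514) (nat_lit 15) (nat_lit 5) (nat_lit 17) (nat_lit 5) (nat_lit 16) (nat_lit 5) (nat_lit 283) (nat_lit 251) (nat_lit 186)) (XT.lf (nat_lit 0) (nat_lit 19459786783) (nat_lit 152) (nat_lit 713840804) (nat_lit 228) (nat_lit 31113865089) (nat_lit 13) (nat_lit 5) (nat_lit 15) (nat_lit 5) (nat_lit 16) (nat_lit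 5) (nat_lit 284) (nat_lit 251) (nat_lit 185))) (XT.nd (nat_lit 78) (nat_lit 76) (nat_lit 0) (XT.lf (nat_lit 0) (nat_lit 31470381014) (nat_lit 228) (nat_lit 8669301919) (nat_lit 76) (nat_lit 14460458134) (nat_lit 13) (nat_lit 5) (nat_lit 16) (nat_lit 5) (nat_lit 14) (nat_lit 4) (nat_lit 285) (nat_lit 251) (nat_lit 184)) (XT.nd (nat_lit 78) (nat_lit 0) (nat_lit 0) (XT.lf (nat_lit 0) (nat_lit 16846469710) (nat_lit 76) (nat_lit 27085955717) (nat_lit 152) (nat_lit 14232321001) (nat_lit 12) (nat_lit 5) (nat_lit 13) (nat_lit 5) (nat_lit 14) (nat_lit 4) (nat_lit 286) (nat_lit 251) (nat_lit 183)) (XT.lf (nat_lit 0) (nat_lit 44691596901) (nat_lit 76) (nat_lit 12838008646) (nat_lit 152) (nat_lit 4478027020) (nat_lit 12) (nat_lit 5) (nat_lit 13) (nat_lit 5) (nat_lit 14) (nat_lit 4) (nat_lit 287) (nat_lit 251) (nat_lit 182))))))))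
noncomputable def xc72 : XT := (XT.nd (nat_lit 1482) (nat_lit 152) (nat_lit 0) (XT.nd (nat_lit 702) (nat_lit 228) (nat_lit 0) (XT.nd (nat_lit 312) (nat_lit 152) (nat_lit 0) (XT.nd (nat_lit 156) (nat_lit 76) (nat_lit 0) (XT.nd (nat_lit 78) (nat_lit 0) (nat_lit 0) (XT.lf (nat_lit 0) (nat_lit 6031093419) (nat_lit 228) (nat_lit 57418193306) (nat_lit 76) (nat_lit 2695536703) (nat_lit 9) (nat_lit 5) (nat_lit 12) (nat_lit 5) (nat_lit 10) (nat_lit 4) (nat_lit 288) (nat_lit 251) (nat_lit 181)) (XT.lf (nat_lit 0) (nat_lit 17737569601) (nat_lit 228) (nat_lit 33443671177) (nat_lit 76) (nat_lit 19402419659) (nat_lit 9) (nat_lit 5) (nat_lit 12) (nat_lit 5) (nat_lit 10) (nat_lit 4) (nat_lit 289) (nat_lit 251) (nat_lit 180))) (XT.nd (nat_lit 78) (nat_lit 76) (nat_lit 0) (XT.lf (nat_lit 0) (nat_lit 30369791336) (nat_lit 228) (nat_lit 7569611106) (nat_lit 76) (nat_lit 37438756436) (nat_lit 9) (nat_lit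 5) (nat_lit 12) (nat_lit 5) (nat_lit 10) (nat_lit 4) (nat_lit 290) (nat_lit 251) (nat_lit 179)) (XT.lf (nat_lit 0) (nat_lit 21030419427) (nat_lit 76) (nat_lit 23300540591) (nat_lit 152) (nat_lit 36209353386) (nat_lit 8) (nat_lit 5) (nat_lit 9) (nat_lit 5) (nat_lit 10) (nat_lit 4) (nat_lit 291) (nat_lit 251) (nat_lit 178)))) (XT.nd (nat_lit 156) (nat_lit 152) (nat_lit 0) (XT.nd (nat_lit 78) (nat_lit 0) (nat_lit 0) (XT.lf (nat_lit 0) (nat_lit 52172443042) (nat_lit 76) (nat_lit 7358946411) (nat_lit 152) (nat_lit 26577946060) (nat_lit 8) (nat_lit 5) (nat_lit 9) (nat_lit 5) (nat_lit 10) (nat_lit 4) (nat_lit 292) (nat_lit 251) (nat_lit 177)) (XT.lf (nat_lit 0) (nat_lit 76092877681) (nat_lit 152) (nat_lit 6487423732) (nat_lit 0) (nat_lit 9536339330) (nat_lit 8) (nat_lit 5) (nat_lit 10) (nat_lit 4) (nat_lit 8) (nat_lit 4) (nat_lit 293) (nat_lit 251) (nat_lit 176))) (XT.nd (nat_lit 78) (nat_lit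 76) (nat_lit 0) (XT.lf (nat_lit 0) (nat_lit 23780732257) (nat_lit 76) (nat_lit 70685693919) (nat_lit 76) (nat_lit 4113758803) (nat_lit 7) (nat_lit 4) (nat_lit 8) (nat_lit 5) (nat_lit 8) (nat_lit 4) (nat_lit 294) (nat_lit 251) (nat_lit 175)) (XT.nd (nat_lit 78) (nat_lit 0) (nat_lit 0) (XT.lf (nat_lit 0) (nat_lit 8575909880) (nat_lit 152) (nat_lit 49005576125) (nat_lit 76) (nat_lit 47967162753) (nat_lit 6) (nat_lit 5) (nat_lit 8) (nat_lit 5) (nat_lit 7) (nat_lit 4) (nat_lit 295) (nat_lit 251) (nat_lit 174)) (XT.lf (nat_lit 0) (nat_lit 22131172144) (nat_lit 152) (nat_lit 21230488728) (nat_lit 76) (nat_lit 69709839034) (nat_lit 6) (nat_lit 5) (nat_lit 8) (nat_lit 5) (nat_lit 7) (nat_lit 4) (nat_lit 296) (nat_lit 251) (nat_lit 173)))))) (XT.nd (nat_lit 390) (nat_lit 152) (nat_lit 0) (XT.nd (nat_lit 156) (nat_lit 0) (nat_lit 0) (XT.nd (nat_lit 78) (nat_lit 0) (nat_lit 0) (XT.lf (nat_lit 0)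 (nat_lit 9044097480) (nat_lit 76) (nat_lit 27861127667) (nat_lit 152) (nat_lit 84284244316) (nat_lit 5) (nat_lit 5) (nat_lit 6) (nat_lit 5) (nat_lit 7) (nat_lit 4) (nat_lit 297) (nat_lit 251) (nat_lit 172)) (XT.lf (nat_lit 0) (nat_lit 42487329165) (nat_lit 76) (nat_lit 10737188064) (nat_lit 152) (nat_lit 76714201766) (nat_lit 5) (nat_lit 5) (nat_lit 6) (nat_lit 5) (nat_lit 7) (nat_lit 4) (nat_lit 298) (nat_lit 251) (nat_lit 171))) (XT.nd (nat_lit 78) (nat_lit 0) (nat_lit 0) (XT.lf (nat_lit 0) (nat_lit 70964359830) (nat_lit 152) (nat_lit 60913836433) (nat_lit 0) (nat_lit 7503969416) (nat_lit 5) (nat_lit 5) (nat_lit 7) (nat_lit 4) (nat_lit 5) (nat_lit 4) (nat_lit 299) (nat_lit 251) (nat_lit 170)) (XT.nd (nat_lit 78) (nat_lit 0) (nat_lit 0) (XT.lf (nat_lit 0) (nat_lit 90298793859) (nat_lit 152) (nat_lit 32444368129) (nat_lit 0) (nat_lit 26829162898) (nat_lit 5) (nat_lit 5) (nat_lit 7) (nat_lit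 4) (nat_lit 5) (nat_lit 4) (nat_lit 300) (nat_lit 251) (nat_lit 169)) (XT.lf (nat_lit 0) (nat_lit 111174756143) (nat_lit 152) (nat_lit 1706639362) (nat_lit 0) (nat_lit 47696569121) (nat_lit 5) (nat_lit 5) (nat_lit 7) (nat_lit 4) (nat_lit 5) (nat_lit 4) (nat_lit 301) (nat_lit 251) (nat_lit 168))))) (XT.nd (nat_lit 156) (nat_lit 76) (nat_lit 0) (XT.nd (nat_lit 78) (nat_lit 0) (nat_lit 0) (XT.lf (nat_lit 0) (nat_lit 32522419914) (nat_lit 76) (nat_lit 101701302292) (nat_lit 76) (nat_lit 38215192990) (nat_lit 4) (nat_lit 4) (nat_lit 5) (nat_lit 5) (nat_lit 5) (nat_lit 4) (nat_lit 302) (nat_lit 251) (nat_lit 167)) (XT.lf (nat_lit 0) (nat_lit 69542513249) (nat_lit 76) (nat_lit 89599211450) (nat_lit 76) (nat_lit 26105766705) (nat_lit 4) (nat_lit 4) (nat_lit 5) (nat_lit 5) (nat_lit 5) (nat_lit 4) (nat_lit 303) (nat_lit 251) (nat_lit 166))) (XT.nd (nat_lit 78) (nat_lit 76) (nat_lit 0) (XT.lf (nat_lit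 0) (nat_lit 109516589766) (nat_lit 76) (nat_lit 76532309650) (nat_lit 76) (nat_lit 13032072828) (nat_lit 4) (nat_lit 4) (nat_lit 5) (nat_lit 5) (nat_lit 5) (nat_lit 4) (nat_lit 304) (nat_lit 251) (nat_lit 165)) (XT.nd (nat_lit 78) (nat_lit 0) (nat_lit 0) (XT.lf (nat_lit 0) (nat_lit 1048688020) (nat_lit 152) (nat_lit 61356715340) (nat_lit 76) (nat_lit 151615084823) (nat_lit 3) (nat_lit 5) (nat_lit 5) (nat_lit 5) (nat_lit 4) (nat_lit 4) (nat_lit 305) (nat_lit 251) (nat_lit 164)) (XT.lf (nat_lit 0) (nat_lit 15801710053) (nat_lit 152) (nat_lit 31118843285) (nat_lit 76) (nat_lit 183223815194) (nat_lit 3) (nat_lit 5) (nat_lit 5) (nat_lit 5) (nat_lit 4) (nat_lit 4) (nat_lit 306) (nat_lit 251) (nat_lit 163))))))) (XT.nd (nat_lit 702) (nat_lit 76) (nat_lit 0) (XT.nd (nat_lit 312) (nat_lit 0) (nat_lit 0) (XT.nd (nat_lit 156) (nat_lit 0) (nat_lit 0) (XT.nd (nat_lit 78) (nat_lit 0) (nat_lit 0) (XT.lf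 (nat_lit 0) (nat_lit 1582539401) (nat_lit 76) (nat_lit 30173694777) (nat_lit 152) (nat_lit 215800865998) (nat_lit 2) (nat_lit 5) (nat_lit 3) (nat_lit 5) (nat_lit 4) (nat_lit 4) (nat_lit 307) (nat_lit 251) (nat_lit 162)) (XT.lf (nat_lit 0) (nat_lit 38005374433) (nat_lit 76) (nat_lit 11520531653) (nat_lit 152) (nat_lit 216810008569) (nat_lit 2) (nat_lit 5) (nat_lit 3) (nat_lit 5) (nat_lit 4) (nat_lit 4) (nat_lit 308) (nat_lit 251) (nat_lit 161))) (XT.nd (nat_lit 78) (nat_lit 0) (nat_lit 0) (XT.lf (nat_lit 0) (nat_lit 68848731484) (nat_lit 152) (nat_lit 209415239113) (nat_lit 0) (nat_lit 8346488038) (nat_lit 2) (nat_lit 5) (nat_lit 4) (nat_lit 4) (nat_lit 2) (nat_lit 4) (nat_lit 309) (nat_lit 251) (nat_lit 160)) (XT.lf (nat_lit 0) (nat_lit 89908789307) (nat_lit 152) (nat_lit 189186140075) (nat_lit 0) (nat_lit 29402469516) (nat_lit 2) (nat_lit 5) (nat_lit 4) (nat_lit 4) (nat_lit 2) (nat_lit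 4) (nat_lit 310) (nat_lit 251) (nat_lit 159)))) (XT.nd (nat_lit 156) (nat_lit 0) (nat_lit 0) (XT.nd (nat_lit 78) (nat_lit 0) (nat_lit 0) (XT.lf (nat_lit 0) (nat_lit 112651012110) (nat_lit 152) (nat_lit 167343499181) (nat_lit 0) (nat_lit 52140917928) (nat_lit 2) (nat_lit 5) (nat_lit 4) (nat_lit 4) (nat_lit 2) (nat_lit 4) (nat_lit 311) (nat_lit 251) (nat_lit 158)) (XT.lf (nat_lit 0) (nat_lit 137210168623) (nat_lit 152) (nat_lit 143757878559) (nat_lit 0) (nat_lit 76696579632) (nat_lit 2) (nat_lit 5) (nat_lit 4) (nat_lit 4) (nat_lit 2) (nat_lit 4) (nat_lit 312) (nat_lit 251) (nat_lit 157))) (XT.nd (nat_lit 78) (nat_lit 0) (nat_lit 0) (XT.lf (nat_lit 0) (nat_lit 163731794586) (nat_lit 152) (nat_lit 118289511568) (nat_lit 0) (nat_lit 103214969663) (nat_lit 2) (nat_lit 5) (nat_lit 4) (nat_lit 4) (nat_lit 2) (nat_lit 4) (nat_lit 313) (nat_lit 251) (nat_lit 156)) (XT.nd (nat_lit 78) (nat_lit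 0) (nat_lit 0) (XT.lf (nat_lit 0) (nat_lit 192373055193) (nat_lit 152) (nat_lit 90787474553) (nat_lit 0) (nat_lit 131853234035) (nat_lit 2) (nat_lit 5) (nat_lit 4) (nat_lit 4) (nat_lit 2) (nat_lit 4) (nat_lit 314) (nat_lit 251) (nat_lit 155)) (XT.lf (nat_lit 0) (nat_lit 223303676430) (nat_lit 152) (nat_lit 61088792478) (nat_lit 0) (nat_lit 162781080981) (nat_lit 2) (nat_lit 5) (nat_lit 4) (nat_lit 4) (nat_lit 2) (nat_lit 4) (nat_lit 315) (nat_lit 251) (nat_lit 154)))))) (XT.nd (nat_lit 390) (nat_lit 0) (nat_lit 0) (XT.nd (nat_lit 156) (nat_lit 0) (nat_lit 0) (XT.nd (nat_lit 78) (nat_lit 76) (nat_lit 0) (XT.lf (nat_lit 0) (nat_lit 256706950869) (nat_lit 152) (nat_lit 29017473153) (nat_lit 0) (nat_lit 196181786632) (nat_lit 2) (nat_lit 5) (nat_lit 4) (nat_lit 4) (nat_lit 2) (nat_lit 4) (nat_lit 316) (nat_lit 251) (nat_lit 153)) (XT.lf (nat_lit 0) (nat_lit 5802243716) (nat_lit 76) (nat_lit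 287069169407) (nat_lit 76) (nat_lit 226541626663) (nat_lit 1) (nat_lit 4) (nat_lit 2) (nat_lit 5) (nat_lit 2) (nat_lit 4) (nat_lit 317) (nat_lit 251) (nat_lit 152))) (XT.nd (nat_lit 78) (nat_lit 0) (nat_lit 0) (XT.lf (nat_lit 0) (nat_lit 44440857582) (nat_lit 76) (nat_lit 287992055189) (nat_lit 76) (nat_lit 227462310123) (nat_lit 1) (nat_lit 4) (nat_lit 2) (nat_lit 5) (nat_lit 2) (nat_lit 4) (nat_lit 318) (nat_lit 251) (nat_lit 151)) (XT.nd (nat_lit 78) (nat_lit 0) (nat_lit 0) (XT.lf (nat_lit 0) (nat_lit 86167889296) (nat_lit 76) (nat_lit 288989975270) (nat_lit 76) (nat_lit 228458191018) (nat_lit 1) (nat_lit 4) (nat_lit 2) (nat_lit 5) (nat_lit 2) (nat_lit 4) (nat_lit 319) (nat_lit 251) (nat_lit 150)) (XT.lf (nat_lit 0) (nat_lit 131230610159) (nat_lit 76) (nat_lit 290068843251) (nat_lit 76) (nat_lit 229535170863) (nat_lit 1) (nat_lit 4) (nat_lit 2) (nat_lit 5) (nat_lit 2) (nat_lit 4)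 (nat_lit 320) (nat_lit 251) (nat_lit 149))))) (XT.nd (nat_lit 156) (nat_lit 0) (nat_lit 0) (XT.nd (nat_lit 78) (nat_lit 0) (nat_lit 0) (XT.lf (nat_lit 0) (nat_lit 179896058516) (nat_lit 76) (nat_lit 291235052423) (nat_lit 76) (nat_lit 230699631761) (nat_lit 1) (nat_lit 4) (nat_lit 2) (nat_lit 5) (nat_lit 2) (nat_lit 4) (nat_lit 321) (nat_lit 251) (nat_lit 148)) (XT.lf (nat_lit 0) (nat_lit 232452622209) (nat_lit 76) (nat_lit 292495513655) (nat_lit 76) (nat_lit 231958474221) (nat_lit 1) (nat_lit 4) (nat_lit 2) (nat_lit 5) (nat_lit 2) (nat_lit 4) (nat_lit 322) (nat_lit 251) (nat_lit 147))) (XT.nd (nat_lit 78) (nat_lit 0) (nat_lit 0) (XT.lf (nat_lit 0) (nat_lit 289211747541) (nat_lit 76) (nat_lit 293857696348) (nat_lit 76) (nat_lit 233319158050) (nat_lit 1) (nat_lit 4) (nat_lit 2) (nat_lit 5) (nat_lit 2) (nat_lit 4) (nat_lit 323) (nat_lit 251) (nat_lit 146)) (XT.nd (nat_lit 31902) (nat_lit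 0) (nat_lit 5776) (XT.lf (nat_lit 0) (nat_lit 350509784885) (nat_lit 76) (nat_lit 295329672695) (nat_lit 76) (nat_lit 234789746561) (nat_lit 1) (nat_lit 4) (nat_lit 2) (nat_lit 5) (nat_lit 2) (nat_lit 4) (nat_lit 324) (nat_lit 251) (nat_lit 145)) (XT.lf (nat_lit 0) (nat_lit 3461023834) (nat_lit 684) (nat_lit 957266741) (nat_lit 684) (nat_lit 957266741) (nat_lit 77) (nat_lit 3) (nat_lit 86) (nat_lit 3) (nat_lit 86) (nat_lit 5) (nat_lit 252) (nat_lit 252) (nat_lit 216))))))))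
noncomputable def xc73 : XT := (XT.nd (nat_lit 1482) (nat_lit 1748) (nat_lit 0) (XT.nd (nat_lit 702) (nat_lit 2052) (nat_lit 0) (XT.nd (nat_lit 312) (nat_lit 836) (nat_lit 0) (XT.nd (nat_lit 156) (nat_lit 532) (nat_lit 0) (XT.nd (nat_lit 78) (nat_lit 0) (nat_lit 76) (XT.lf (nat_lit 76) (nat_lit 5572428427) (nat_lit 0) (nat_lit 2556016012) (nat_lit 684) (nat_lit 3002944436) (nat_lit 78) (nat_lit 5) (nat_lit 77) (nat_lit 3) (nat_lit 86) (nat_lit 5) (nat_lit 253) (nat_lit 252) (nat_lit 215)) (XT.lf (nat_lit 76) (nat_lit 2137077436) (nat_lit 0) (nat_lit 7343135658) (nat_lit 684) (nat_lit 2059758573) (nat_lit 79) (nat_lit 5) (nat_lit 78) (nat_lit 5) (nat_lit 87) (nat_lit 5) (nat_lit 254) (nat_lit 252) (nat_lit 214))) (XT.nd (nat_lit 78) (nat_lit 608) (nat_lit 0) (XT.lf (nat_lit 76) (nat_lit 10553925111) (nat_lit 0) (nat_lit 446526937) (nat_lit 684) (nat_lit 978077797) (nat_lit 79) (nat_lit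 5) (nat_lit 78) (nat_lit 5) (nat_lit 87) (nat_lit 5) (nat_lit 255) (nat_lit 252) (nat_lit 213)) (XT.lf (nat_lit 0) (nat_lit 336363932) (nat_lit 684) (nat_lit 5184809668) (nat_lit 760) (nat_lit 6923504181) (nat_lit 70) (nat_lit 5) (nat_lit 79) (nat_lit 5) (nat_lit 80) (nat_lit 5) (nat_lit 256) (nat_lit 252) (nat_lit 212)))) (XT.nd (nat_lit 156) (nat_lit 912) (nat_lit 0) (XT.nd (nat_lit 78) (nat_lit 0) (nat_lit 0) (XT.lf (nat_lit 0) (nat_lit 1776650121) (nat_lit 684) (nat_lit 9188372686) (nat_lit 760) (nat_lit 1979794434) (nat_lit 71) (nat_lit 5) (nat_lit 80) (nat_lit 5) (nat_lit 81) (nat_lit 5) (nat_lit 257) (nat_lit 252) (nat_lit 211)) (XT.lf (nat_lit 0) (nat_lit 3452353603) (nat_lit 684) (nat_lit 28452168) (nat_lit 760) (nat_lit 9998383110) (nat_lit 71) (nat_lit 5) (nat_lit 80) (nat_lit 5) (nat_lit 81) (nat_lit 5) (nat_lit 258) (nat_lit 252) (nat_lit 210))) (XT.nd (nat_lit 78) (nat_lit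 988) (nat_lit 0) (XT.lf (nat_lit 0) (nat_lit 5435175280) (nat_lit 684) (nat_lit 3985149796) (nat_lit 76) (nat_lit 4627545731) (nat_lit 72) (nat_lit 5) (nat_lit 81) (nat_lit 5) (nat_lit 73) (nat_lit 5) (nat_lit 259) (nat_lit 252) (nat_lit 209)) (XT.nd (nat_lit 78) (nat_lit 304) (nat_lit 0) (XT.lf (nat_lit 0) (nat_lit 6397391825) (nat_lit 684) (nat_lit 1282290294) (nat_lit 760) (nat_lit 6977410018) (nat_lit 63) (nat_lit 5) (nat_lit 72) (nat_lit 5) (nat_lit 73) (nat_lit 5) (nat_lit 260) (nat_lit 252) (nat_lit 208)) (XT.lf (nat_lit 0) (nat_lit 2348463021) (nat_lit 304) (nat_lit 7927204808) (nat_lit 380) (nat_lit 5030970602) (nat_lit 59) (nat_lit 5) (nat_lit 63) (nat_lit 5) (nat_lit 64) (nat_lit 5) (nat_lit 261) (nat_lit 252) (nat_lit 207)))))) (XT.nd (nat_lit 390) (nat_lit 988) (nat_lit 0) (XT.nd (nat_lit 156) (nat_lit 684) (nat_lit 0) (XT.nd (nat_lit 78) (nat_lit 380) (nat_lit 0) (XT.lf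 (nat_lit 0) (nat_lit 13208167114) (nat_lit 380) (nat_lit 1985146377) (nat_lit 76) (nat_lit 808562803) (nat_lit 59) (nat_lit 5) (nat_lit 64) (nat_lit 5) (nat_lit 60) (nat_lit 5) (nat_lit 262) (nat_lit 252) (nat_lit 206)) (XT.lf (nat_lit 0) (nat_lit 10005884876) (nat_lit 380) (nat_lit 6613593696) (nat_lit 456) (nat_lit 121201042) (nat_lit 54) (nat_lit 5) (nat_lit 59) (nat_lit 5) (nat_lit 60) (nat_lit 5) (nat_lit 263) (nat_lit 252) (nat_lit 205))) (XT.nd (nat_lit 78) (nat_lit 304) (nat_lit 0) (XT.lf (nat_lit 0) (nat_lit 2799119529) (nat_lit 380) (nat_lit 11997674850) (nat_lit 76) (nat_lit 2733647125) (nat_lit 49) (nat_lit 5) (nat_lit 54) (nat_lit 5) (nat_lit 50) (nat_lit 5) (nat_lit 264) (nat_lit 252) (nat_lit 204)) (XT.nd (nat_lit 78) (nat_lit 0) (nat_lit 0) (XT.lf (nat_lit 0) (nat_lit 499056206) (nat_lit 304) (nat_lit 5647054962) (nat_lit 380) (nat_lit 12227437470) (nat_lit 45) (nat_lit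 5) (nat_lit 49) (nat_lit 5) (nat_lit 50) (nat_lit 5) (nat_lit 265) (nat_lit 252) (nat_lit 203)) (XT.lf (nat_lit 0) (nat_lit 10000371927) (nat_lit 380) (nat_lit 4965360584) (nat_lit 76) (nat_lit 4306515070) (nat_lit 45) (nat_lit 5) (nat_lit 50) (nat_lit 5) (nat_lit 46) (nat_lit 5) (nat_lit 266) (nat_lit 252) (nat_lit 202))))) (XT.nd (nat_lit 156) (nat_lit 532) (nat_lit 0) (XT.nd (nat_lit 78) (nat_lit 228) (nat_lit 0) (XT.lf (nat_lit 0) (nat_lit 9130818309) (nat_lit 228) (nat_lit 5233800127) (nat_lit 304) (nat_lit 5868251691) (nat_lit 42) (nat_lit 5) (nat_lit 45) (nat_lit 5) (nat_lit 46) (nat_lit 5) (nat_lit 267) (nat_lit 252) (nat_lit 201)) (XT.lf (nat_lit 0) (nat_lit 3243441697) (nat_lit 228) (nat_lit 16021298096) (nat_lit 304) (nat_lit 1996367715) (nat_lit 39) (nat_lit 5) (nat_lit 42) (nat_lit 5) (nat_lit 43) (nat_lit 5) (nat_lit 268) (nat_lit 252) (nat_lit 200))) (XT.nd (nat_lit 78)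 (nat_lit 456) (nat_lit 0) (XT.lf (nat_lit 0) (nat_lit 2367214908) (nat_lit 304) (nat_lit 3396329966) (nat_lit 76) (nat_lit 16593848354) (nat_lit 38) (nat_lit 5) (nat_lit 42) (nat_lit 5) (nat_lit 39) (nat_lit 5) (nat_lit 269) (nat_lit 252) (nat_lit 199)) (XT.nd (nat_lit 78) (nat_lit 228) (nat_lit 0) (XT.lf (nat_lit 0) (nat_lit 7265798814) (nat_lit 304) (nat_lit 10888326995) (nat_lit 76) (nat_lit 5372909857) (nat_lit 35) (nat_lit 5) (nat_lit 39) (nat_lit 5) (nat_lit 36) (nat_lit 5) (nat_lit 270) (nat_lit 252) (nat_lit 198)) (XT.lf (nat_lit 0) (nat_lit 5324317198) (nat_lit 228) (nat_lit 7443461336) (nat_lit 304) (nat_lit 12011972467) (nat_lit 32) (nat_lit 5) (nat_lit 35) (nat_lit 5) (nat_lit 36) (nat_lit 5) (nat_lit 271) (nat_lit 252) (nat_lit 197))))))) (XT.nd (nat_lit 780) (nat_lit 608) (nat_lit 0) (XT.nd (nat_lit 390) (nat_lit 532) (nat_lit 0) (XT.nd (nat_lit 156) (nat_lit 456) (nat_lit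 0) (XT.nd (nat_lit 78) (nat_lit 152) (nat_lit 0) (XT.lf (nat_lit 0) (nat_lit 18939568728) (nat_lit 304) (nat_lit 3006007013) (nat_lit 76) (nat_lit 4175696471) (nat_lit 32) (nat_lit 5) (nat_lit 36) (nat_lit 5) (nat_lit 33) (nat_lit 5) (nat_lit 272) (nat_lit 252) (nat_lit 196)) (XT.lf (nat_lit 0) (nat_lit 15081279984) (nat_lit 152) (nat_lit 10859318631) (nat_lit 228) (nat_lit 1612807660) (nat_lit 30) (nat_lit 5) (nat_lit 32) (nat_lit 5) (nat_lit 33) (nat_lit 5) (nat_lit 273) (nat_lit 252) (nat_lit 195))) (XT.nd (nat_lit 78) (nat_lit 152) (nat_lit 0) (XT.lf (nat_lit 0) (nat_lit 4399116941) (nat_lit 304) (nat_lit 23407779506) (nat_lit 76) (nat_lit 1282916939) (nat_lit 26) (nat_lit 5) (nat_lit 30) (nat_lit 5) (nat_lit 27) (nat_lit 5) (nat_lit 274) (nat_lit 252) (nat_lit 194)) (XT.nd (nat_lit 78) (nat_lit 152) (nat_lit 0) (XT.lf (nat_lit 0) (nat_lit 11216751968) (nat_lit 304) (nat_lit 5252407385)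 (nat_lit 76) (nat_lit 14259642543) (nat_lit 26) (nat_lit 5) (nat_lit 30) (nat_lit 5) (nat_lit 27) (nat_lit 5) (nat_lit 275) (nat_lit 252) (nat_lit 193)) (XT.lf (nat_lit 0) (nat_lit 14797358693) (nat_lit 152) (nat_lit 3991782200) (nat_lit 228) (nat_lit 13699351319) (nat_lit 24) (nat_lit 5) (nat_lit 26) (nat_lit 5) (nat_lit 27) (nat_lit 5) (nat_lit 276) (nat_lit 252) (nat_lit 192))))) (XT.nd (nat_lit 156) (nat_lit 304) (nat_lit 0) (XT.nd (nat_lit 78) (nat_lit 76) (nat_lit 0) (XT.lf (nat_lit 0) (nat_lit 2142085973) (nat_lit 152) (nat_lit 25079037708) (nat_lit 228) (nat_lit 7155190121) (nat_lit 22) (nat_lit 5) (nat_lit 24) (nat_lit 5) (nat_lit 25) (nat_lit 5) (nat_lit 277) (nat_lit 252) (nat_lit 191)) (XT.lf (nat_lit 0) (nat_lit 275834546) (nat_lit 228) (nat_lit 12307576654) (nat_lit 76) (nat_lit 23813832442) (nat_lit 21) (nat_lit 5) (nat_lit 24) (nat_lit 5) (nat_lit 22) (nat_lit 5) (nat_lit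 278) (nat_lit 252) (nat_lit 190))) (XT.nd (nat_lit 78) (nat_lit 152) (nat_lit 0) (XT.lf (nat_lit 0) (nat_lit 8200149364) (nat_lit 228) (nat_lit 29221939924) (nat_lit 76) (nat_lit 1144456824) (nat_lit 19) (nat_lit 5) (nat_lit 22) (nat_lit 5) (nat_lit 20) (nat_lit 5) (nat_lit 279) (nat_lit 252) (nat_lit 189)) (XT.nd (nat_lit 78) (nat_lit 152) (nat_lit 0) (XT.lf (nat_lit 0) (nat_lit 17170777428) (nat_lit 228) (nat_lit 7973715467) (nat_lit 76) (nat_lit 15744316400) (nat_lit 19) (nat_lit 5) (nat_lit 22) (nat_lit 5) (nat_lit 20) (nat_lit 5) (nat_lit 280) (nat_lit 252) (nat_lit 188)) (XT.lf (nat_lit 0) (nat_lit 15442884249) (nat_lit 152) (nat_lit 11640874603) (nat_lit 228) (nat_lit 16301891855) (nat_lit 17) (nat_lit 5) (nat_lit 19) (nat_lit 5) (nat_lit 20) (nat_lit 5) (nat_lit 281) (nat_lit 252) (nat_lit 187)))))) (XT.nd (nat_lit 390) (nat_lit 304) (nat_lit 0) (XT.nd (nat_lit 156) (nat_lit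 152) (nat_lit 0) (XT.nd (nat_lit 78) (nat_lit 152) (nat_lit 0) (XT.lf (nat_lit 0) (nat_lit 37961187241) (nat_lit 228) (nat_lit 5131269289) (nat_lit 76) (nat_lit 2981242416) (nat_lit 17) (nat_lit 5) (nat_lit 20) (nat_lit 5) (nat_lit 18) (nat_lit 4) (nat_lit 282) (nat_lit 252) (nat_lit 186)) (XT.lf (nat_lit 0) (nat_lit 1209432734) (nat_lit 152) (nat_lit 29048586757) (nat_lit 76) (nat_lit 18693184357) (nat_lit 15) (nat_lit 5) (nat_lit 17) (nat_lit 5) (nat_lit 16) (nat_lit 5) (nat_lit 283) (nat_lit 252) (nat_lit 185))) (XT.nd (nat_lit 78) (nat_lit 152) (nat_lit 0) (XT.lf (nat_lit 0) (nat_lit 11073484354) (nat_lit 152) (nat_lit 5093143864) (nat_lit 76) (nat_lit 35881627042) (nat_lit 15) (nat_lit 5) (nat_lit 17) (nat_lit 5) (nat_lit 16) (nat_lit 5) (nat_lit 284) (nat_lit 252) (nat_lit 184)) (XT.nd (nat_lit 78) (nat_lit 0) (nat_lit 0) (XT.lf (nat_lit 0) (nat_lit 21443871166) (nat_lit 152) (nat_lit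 604556420) (nat_lit 228) (nat_lit 33328577456) (nat_lit 13) (nat_lit 5) (nat_lit 15) (nat_lit 5) (nat_lit 16) (nat_lit 5) (nat_lit 285) (nat_lit 252) (nat_lit 183)) (XT.lf (nat_lit 0) (nat_lit 34232000044) (nat_lit 228) (nat_lit 8957113991) (nat_lit 76) (nat_lit 15766430041) (nat_lit 13) (nat_lit 5) (nat_lit 16) (nat_lit 5) (nat_lit 14) (nat_lit 4) (nat_lit 286) (nat_lit 252) (nat_lit 182))))) (XT.nd (nat_lit 156) (nat_lit 228) (nat_lit 0) (XT.nd (nat_lit 78) (nat_lit 0) (nat_lit 0) (XT.lf (nat_lit 0) (nat_lit 18582286748) (nat_lit 76) (nat_lit 29096707357) (nat_lit 152) (nat_lit 15126954741) (nat_lit 12) (nat_lit 5) (nat_lit 13) (nat_lit 5) (nat_lit 14) (nat_lit 4) (nat_lit 287) (nat_lit 252) (nat_lit 181)) (XT.lf (nat_lit 0) (nat_lit 48626276005) (nat_lit 76) (nat_lit 13720489321) (nat_lit 152) (nat_lit 4610387756) (nat_lit 12) (nat_lit 5) (nat_lit 13) (nat_lit 5) (nat_lit 14) (nat_lit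 4) (nat_lit 288) (nat_lit 252) (nat_lit 180))) (XT.nd (nat_lit 78) (nat_lit 0) (nat_lit 0) (XT.lf (nat_lit 0) (nat_lit 6723749047) (nat_lit 228) (nat_lit 61652206951) (nat_lit 76) (nat_lit 3049635793) (nat_lit 9) (nat_lit 5) (nat_lit 12) (nat_lit 5) (nat_lit 10) (nat_lit 4) (nat_lit 289) (nat_lit 252) (nat_lit 179)) (XT.nd (nat_lit 78) (nat_lit 0) (nat_lit 0) (XT.lf (nat_lit 0) (nat_lit 19351175313) (nat_lit 228) (nat_lit 35786348371) (nat_lit 76) (nat_lit 21082813374) (nat_lit 9) (nat_lit 5) (nat_lit 12) (nat_lit 5) (nat_lit 10) (nat_lit 4) (nat_lit 290) (nat_lit 252) (nat_lit 178)) (XT.lf (nat_lit 0) (nat_lit 32979559961) (nat_lit 228) (nat_lit 7867016569) (nat_lit 76) (nat_lit 40552560786) (nat_lit 9) (nat_lit 5) (nat_lit 12) (nat_lit 5) (nat_lit 10) (nat_lit 4) (nat_lit 291) (nat_lit 252) (nat_lit 177))))))))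
noncomputable def xc74 : XT := (XT.nd (nat_lit 1482) (nat_lit 76) (nat_lit 0) (XT.nd (nat_lit 702) (nat_lit 228) (nat_lit 0) (XT.nd (nat_lit 312) (nat_lit 152) (nat_lit 0) (XT.nd (nat_lit 156) (nat_lit 76) (nat_lit 0) (XT.nd (nat_lit 78) (nat_lit 0) (nat_lit 0) (XT.lf (nat_lit 0) (nat_lit 23007624000) (nat_lit 76) (nat_lit 25041253278) (nat_lit 152) (nat_lit 38925843799) (nat_lit 8) (nat_lit 5) (nat_lit 9) (nat_lit 5) (nat_lit 10) (nat_lit 4) (nat_lit 292) (nat_lit 252) (nat_lit 176)) (XT.lf (nat_lit 0) (nat_lit 56619174613) (nat_lit 76) (nat_lit 7833467161) (nat_lit 152) (nat_lit 28537276320) (nat_lit 8) (nat_lit 5) (nat_lit 9) (nat_lit 5) (nat_lit 10) (nat_lit 4) (nat_lit 293) (nat_lit 252) (nat_lit 175))) (XT.nd (nat_lit 78) (nat_lit 76) (nat_lit 0) (XT.lf (nat_lit 0) (nat_lit 82328941293) (nat_lit 152) (nat_lit 6747790331) (nat_lit 0) (nat_lit 10401598338) (nat_lit 8) (nat_lit 5)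 (nat_lit 10) (nat_lit 4) (nat_lit 8) (nat_lit 4) (nat_lit 294) (nat_lit 252) (nat_lit 174)) (XT.lf (nat_lit 0) (nat_lit 25930578510) (nat_lit 76) (nat_lit 76234647692) (nat_lit 76) (nat_lit 4294104492) (nat_lit 7) (nat_lit 4) (nat_lit 8) (nat_lit 5) (nat_lit 8) (nat_lit 4) (nat_lit 295) (nat_lit 252) (nat_lit 173)))) (XT.nd (nat_lit 156) (nat_lit 76) (nat_lit 0) (XT.nd (nat_lit 78) (nat_lit 0) (nat_lit 0) (XT.lf (nat_lit 0) (nat_lit 9395310379) (nat_lit 152) (nat_lit 52692379369) (nat_lit 76) (nat_lit 51898012755) (nat_lit 6) (nat_lit 5) (nat_lit 8) (nat_lit 5) (nat_lit 7) (nat_lit 4) (nat_lit 296) (nat_lit 252) (nat_lit 172)) (XT.lf (nat_lit 0) (nat_lit 24025117498) (nat_lit 152) (nat_lit 22712591858) (nat_lit 76) (nat_lit 75373178918) (nat_lit 6) (nat_lit 5) (nat_lit 8) (nat_lit 5) (nat_lit 7) (nat_lit 4) (nat_lit 297) (nat_lit 252) (nat_lit 171))) (XT.nd (nat_lit 78) (nat_lit 0) (nat_lit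 0) (XT.lf (nat_lit 0) (nat_lit 9974559550) (nat_lit 76) (nat_lit 30000621454) (nat_lit 152) (nat_lit 90903421859) (nat_lit 5) (nat_lit 5) (nat_lit 6) (nat_lit 5) (nat_lit 7) (nat_lit 4) (nat_lit 298) (nat_lit 252) (nat_lit 170)) (XT.nd (nat_lit 78) (nat_lit 0) (nat_lit 0) (XT.lf (nat_lit 0) (nat_lit 46077921304) (nat_lit 76) (nat_lit 11513388640) (nat_lit 152) (nat_lit 82736928646) (nat_lit 5) (nat_lit 5) (nat_lit 6) (nat_lit 5) (nat_lit 7) (nat_lit 4) (nat_lit 299) (nat_lit 252) (nat_lit 169)) (XT.lf (nat_lit 0) (nat_lit 76743474986) (nat_lit 152) (nat_lit 65605562432) (nat_lit 0) (nat_lit 8178476941) (nat_lit 5) (nat_lit 5) (nat_lit 7) (nat_lit 4) (nat_lit 5) (nat_lit 4) (nat_lit 300) (nat_lit 252) (nat_lit 168)))))) (XT.nd (nat_lit 390) (nat_lit 152) (nat_lit 0) (XT.nd (nat_lit 156) (nat_lit 76) (nat_lit 0) (XT.nd (nat_lit 78) (nat_lit 0) (nat_lit 0) (XT.lf (nat_lit 0) (nat_lit 97617110673)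 (nat_lit 152) (nat_lit 34871972287) (nat_lit 0) (nat_lit 29044190348) (nat_lit 5) (nat_lit 5) (nat_lit 7) (nat_lit 4) (nat_lit 5) (nat_lit 4) (nat_lit 301) (nat_lit 252) (nat_lit 167)) (XT.lf (nat_lit 0) (nat_lit 120156156361) (nat_lit 152) (nat_lit 1687665611) (nat_lit 0) (nat_lit 51575900593) (nat_lit 5) (nat_lit 5) (nat_lit 7) (nat_lit 4) (nat_lit 5) (nat_lit 4) (nat_lit 302) (nat_lit 252) (nat_lit 166))) (XT.nd (nat_lit 78) (nat_lit 0) (nat_lit 0) (XT.lf (nat_lit 0) (nat_lit 35272960354) (nat_lit 76) (nat_lit 109771926175) (nat_lit 76) (nat_lit 41184878329) (nat_lit 4) (nat_lit 4) (nat_lit 5) (nat_lit 5) (nat_lit 5) (nat_lit 4) (nat_lit 303) (nat_lit 252) (nat_lit 165)) (XT.nd (nat_lit 78) (nat_lit 0) (nat_lit 0) (XT.lf (nat_lit 0) (nat_lit 75243642870) (nat_lit 76) (nat_lit 96706518459) (nat_lit 76) (nat_lit 28113181652) (nat_lit 4) (nat_lit 4) (nat_lit 5) (nat_lit 5) (nat_lit 5)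 (nat_lit 4) (nat_lit 304) (nat_lit 252) (nat_lit 164)) (XT.lf (nat_lit 0) (nat_lit 118405443393) (nat_lit 76) (nat_lit 82598755619) (nat_lit 76) (nat_lit 13999595701) (nat_lit 4) (nat_lit 4) (nat_lit 5) (nat_lit 5) (nat_lit 5) (nat_lit 4) (nat_lit 305) (nat_lit 252) (nat_lit 163))))) (XT.nd (nat_lit 156) (nat_lit 76) (nat_lit 0) (XT.nd (nat_lit 78) (nat_lit 0) (nat_lit 0) (XT.lf (nat_lit 0) (nat_lit 1199843349) (nat_lit 152) (nat_lit 66144872822) (nat_lit 76) (nat_lit 163793972279) (nat_lit 3) (nat_lit 5) (nat_lit 5) (nat_lit 5) (nat_lit 4) (nat_lit 4) (nat_lit 306) (nat_lit 252) (nat_lit 162)) (XT.lf (nat_lit 0) (nat_lit 17128124901) (nat_lit 152) (nat_lit 33496888020) (nat_lit 76) (nat_lit 197927721030) (nat_lit 3) (nat_lit 5) (nat_lit 5) (nat_lit 5) (nat_lit 4) (nat_lit 4) (nat_lit 307) (nat_lit 252) (nat_lit 161))) (XT.nd (nat_lit 78) (nat_lit 0) (nat_lit 0) (XT.lf (nat_lit 0) (nat_lit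 1815761246) (nat_lit 76) (nat_lit 32540301137) (nat_lit 152) (nat_lit 233002574369) (nat_lit 2) (nat_lit 5) (nat_lit 3) (nat_lit 5) (nat_lit 4) (nat_lit 4) (nat_lit 308) (nat_lit 252) (nat_lit 160)) (XT.nd (nat_lit 78) (nat_lit 0) (nat_lit 0) (XT.lf (nat_lit 0) (nat_lit 41144525400) (nat_lit 76) (nat_lit 12398387869) (nat_lit 152) (nat_lit 234097067672) (nat_lit 2) (nat_lit 5) (nat_lit 3) (nat_lit 5) (nat_lit 4) (nat_lit 4) (nat_lit 309) (nat_lit 252) (nat_lit 159)) (XT.lf (nat_lit 0) (nat_lit 74408128450) (nat_lit 152) (nat_lit 226075083916) (nat_lit 0) (nat_lit 9053452341) (nat_lit 2) (nat_lit 5) (nat_lit 4) (nat_lit 4) (nat_lit 2) (nat_lit 4) (nat_lit 310) (nat_lit 252) (nat_lit 158))))))) (XT.nd (nat_lit 780) (nat_lit 0) (nat_lit 0) (XT.nd (nat_lit 390) (nat_lit 76) (nat_lit 0) (XT.nd (nat_lit 156) (nat_lit 0) (nat_lit 0) (XT.nd (nat_lit 78) (nat_lit 0) (nat_lit 0) (XT.lf (nat_lit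 0) (nat_lit 97149176199) (nat_lit 152) (nat_lit 204234573572) (nat_lit 0) (nat_lit 31791005281) (nat_lit 2) (nat_lit 5) (nat_lit 4) (nat_lit 4) (nat_lit 2) (nat_lit 4) (nat_lit 311) (nat_lit 252) (nat_lit 157)) (XT.lf (nat_lit 0) (nat_lit 121707244697) (nat_lit 152) (nat_lit 180650925681) (nat_lit 0) (nat_lit 56345837847) (nat_lit 2) (nat_lit 5) (nat_lit 4) (nat_lit 4) (nat_lit 2) (nat_lit 4) (nat_lit 312) (nat_lit 252) (nat_lit 156))) (XT.nd (nat_lit 78) (nat_lit 0) (nat_lit 0) (XT.lf (nat_lit 0) (nat_lit 148227863240) (nat_lit 152) (nat_lit 155184385294) (nat_lit 0) (nat_lit 82863460156) (nat_lit 2) (nat_lit 5) (nat_lit 4) (nat_lit 4) (nat_lit 2) (nat_lit 4) (nat_lit 313) (nat_lit 252) (nat_lit 155)) (XT.nd (nat_lit 78) (nat_lit 0) (nat_lit 0) (XT.lf (nat_lit 0) (nat_lit 176868191050) (nat_lit 152) (nat_lit 127684039577) (nat_lit 0) (nat_lit 111501013674) (nat_lit 2) (nat_lit 5) (nat_lit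 4) (nat_lit 4) (nat_lit 2) (nat_lit 4) (nat_lit 314) (nat_lit 252) (nat_lit 154)) (XT.lf (nat_lit 0) (nat_lit 207797948586) (nat_lit 152) (nat_lit 97986923520) (nat_lit 0) (nat_lit 142428202422) (nat_lit 2) (nat_lit 5) (nat_lit 4) (nat_lit 4) (nat_lit 2) (nat_lit 4) (nat_lit 315) (nat_lit 252) (nat_lit 153))))) (XT.nd (nat_lit 156) (nat_lit 76) (nat_lit 0) (XT.nd (nat_lit 78) (nat_lit 0) (nat_lit 0) (XT.lf (nat_lit 0) (nat_lit 241200423302) (nat_lit 152) (nat_lit 65917054212) (nat_lit 0) (nat_lit 175828298631) (nat_lit 2) (nat_lit 5) (nat_lit 4) (nat_lit 4) (nat_lit 2) (nat_lit 4) (nat_lit 316) (nat_lit 252) (nat_lit 152)) (XT.lf (nat_lit 0) (nat_lit 277273555787) (nat_lit 152) (nat_lit 31284387983) (nat_lit 0) (nat_lit 211899228795) (nat_lit 2) (nat_lit 5) (nat_lit 4) (nat_lit 4) (nat_lit 2) (nat_lit 4) (nat_lit 317) (nat_lit 252) (nat_lit 151))) (XT.nd (nat_lit 78) (nat_lit 0) (nat_lit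 0) (XT.lf (nat_lit 0) (nat_lit 6318538470) (nat_lit 76) (nat_lit 310011224377) (nat_lit 76) (nat_lit 244634858197) (nat_lit 1) (nat_lit 4) (nat_lit 2) (nat_lit 5) (nat_lit 2) (nat_lit 4) (nat_lit 318) (nat_lit 252) (nat_lit 150)) (XT.nd (nat_lit 78) (nat_lit 0) (nat_lit 0) (XT.lf (nat_lit 0) (nat_lit 48044381055) (nat_lit 76) (nat_lit 311009680176) (nat_lit 76) (nat_lit 245631425861) (nat_lit 1) (nat_lit 4) (nat_lit 2) (nat_lit 5) (nat_lit 2) (nat_lit 4) (nat_lit 319) (nat_lit 252) (nat_lit 149)) (XT.lf (nat_lit 0) (nat_lit 93106000872) (nat_lit 76) (nat_lit 312089044192) (nat_lit 76) (nat_lit 246709041602) (nat_lit 1) (nat_lit 4) (nat_lit 2) (nat_lit 5) (nat_lit 2) (nat_lit 4) (nat_lit 320) (nat_lit 252) (nat_lit 148)))))) (XT.nd (nat_lit 32292) (nat_lit 0) (nat_lit 5168) (XT.nd (nat_lit 156) (nat_lit 0) (nat_lit 0) (XT.nd (nat_lit 78) (nat_lit 0) (nat_lit 0) (XT.lf (nat_lit 0) (nat_lit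 141770429742) (nat_lit 76) (nat_lit 313255712655) (nat_lit 76) (nat_lit 247874091294) (nat_lit 1) (nat_lit 4) (nat_lit 2) (nat_lit 5) (nat_lit 2) (nat_lit 4) (nat_lit 321) (nat_lit 252) (nat_lit 147)) (XT.lf (nat_lit 0) (nat_lit 194326049466) (nat_lit 76) (nat_lit 314516599158) (nat_lit 76) (nat_lit 249133478933) (nat_lit 1) (nat_lit 4) (nat_lit 2) (nat_lit 5) (nat_lit 2) (nat_lit 4) (nat_lit 322) (nat_lit 252) (nat_lit 146))) (XT.nd (nat_lit 78) (nat_lit 0) (nat_lit 0) (XT.lf (nat_lit 0) (nat_lit 251084300753) (nat_lit 76) (nat_lit 315879175619) (nat_lit 76) (nat_lit 250494667558) (nat_lit 1) (nat_lit 4) (nat_lit 2) (nat_lit 5) (nat_lit 2) (nat_lit 4) (nat_lit 323) (nat_lit 252) (nat_lit 145)) (XT.nd (nat_lit 31980) (nat_lit 0) (nat_lit 5776) (XT.lf (nat_lit 0) (nat_lit 312381528796) (nat_lit 76) (nat_lit 317351516566) (nat_lit 76) (nat_lit 251965723472) (nat_lit 1) (nat_lit 4) (nat_lit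 2) (nat_lit 5) (nat_lit 2) (nat_lit 4) (nat_lit 324) (nat_lit 252) (nat_lit 144)) (XT.lf (nat_lit 0) (nat_lit 4560156907) (nat_lit 684) (nat_lit 600558535) (nat_lit 684) (nat_lit 600558535) (nat_lit 77) (nat_lit 3) (nat_lit 86) (nat_lit 3) (nat_lit 86) (nat_lit 5) (nat_lit 253) (nat_lit 253) (nat_lit 214))))) (XT.nd (nat_lit 156) (nat_lit 608) (nat_lit 0) (XT.nd (nat_lit 78) (nat_lit 0) (nat_lit 76) (XT.lf (nat_lit 76) (nat_lit 6847141320) (nat_lit 0) (nat_lit 3467207761) (nat_lit 684) (nat_lit 1624815069) (nat_lit 78) (nat_lit 5) (nat_lit 77) (nat_lit 3) (nat_lit 86) (nat_lit 5) (nat_lit 254) (nat_lit 253) (nat_lit 213)) (XT.lf (nat_lit 76) (nat_lit 3190632912) (nat_lit 0) (nat_lit 8473439288) (nat_lit 684) (nat_lit 722311781) (nat_lit 79) (nat_lit 5) (nat_lit 78) (nat_lit 5) (nat_lit 87) (nat_lit 5) (nat_lit 255) (nat_lit 253) (nat_lit 212))) (XT.nd (nat_lit 78) (nat_lit 0) (nat_lit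 76) (XT.lf (nat_lit 0) (nat_lit 323917182) (nat_lit 684) (nat_lit 655487676) (nat_lit 760) (nat_lit 11886048540) (nat_lit 69) (nat_lit 5) (nat_lit 78) (nat_lit 5) (nat_lit 79) (nat_lit 5) (nat_lit 256) (nat_lit 253) (nat_lit 211)) (XT.nd (nat_lit 78) (nat_lit 0) (nat_lit 76) (XT.lf (nat_lit 0) (nat_lit 1616186985) (nat_lit 684) (nat_lit 4696454119) (nat_lit 760) (nat_lit 7060463508) (nat_lit 70) (nat_lit 5) (nat_lit 79) (nat_lit 5) (nat_lit 80) (nat_lit 5) (nat_lit 257) (nat_lit 253) (nat_lit 210)) (XT.lf (nat_lit 0) (nat_lit 3087540067) (nat_lit 684) (nat_lit 8991868336) (nat_lit 760) (nat_lit 1838388085) (nat_lit 71) (nat_lit 5) (nat_lit 80) (nat_lit 5) (nat_lit 81) (nat_lit 5) (nat_lit 258) (nat_lit 253) (nat_lit 209))))))))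
noncomputable def xc75 : XT := (XT.nd (nat_lit 1482) (nat_lit 1368) (nat_lit 0) (XT.nd (nat_lit 702) (nat_lit 1596) (nat_lit 0) (XT.nd (nat_lit 312) (nat_lit 1064) (nat_lit 0) (XT.nd (nat_lit 156) (nat_lit 912) (nat_lit 0) (XT.nd (nat_lit 78) (nat_lit 0) (nat_lit 76) (XT.lf (nat_lit 76) (nat_lit 859344727) (nat_lit 0) (nat_lit 3964797218) (nat_lit 760) (nat_lit 9674742566) (nat_lit 72) (nat_lit 5) (nat_lit 71) (nat_lit 5) (nat_lit 81) (nat_lit 5) (nat_lit 259) (nat_lit 253) (nat_lit 208)) (XT.lf (nat_lit 0) (nat_lit 6881929066) (nat_lit 684) (nat_lit 3421596894) (nat_lit 76) (nat_lit 4814003931) (nat_lit 72) (nat_lit 5) (nat_lit 81) (nat_lit 5) (nat_lit 73) (nat_lit 5) (nat_lit 260) (nat_lit 253) (nat_lit 207))) (XT.nd (nat_lit 78) (nat_lit 304) (nat_lit 0) (XT.lf (nat_lit 0) (nat_lit 7753201554) (nat_lit 684) (nat_lit 1491013891) (nat_lit 760) (nat_lit 6534627246) (nat_lit 63) (nat_lit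 5) (nat_lit 72) (nat_lit 5) (nat_lit 73) (nat_lit 5) (nat_lit 261) (nat_lit 253) (nat_lit 206)) (XT.lf (nat_lit 0) (nat_lit 3393871947) (nat_lit 304) (nat_lit 8595480013) (nat_lit 380) (nat_lit 4494172233) (nat_lit 59) (nat_lit 5) (nat_lit 63) (nat_lit 5) (nat_lit 64) (nat_lit 5) (nat_lit 262) (nat_lit 253) (nat_lit 205)))) (XT.nd (nat_lit 156) (nat_lit 608) (nat_lit 0) (XT.nd (nat_lit 78) (nat_lit 456) (nat_lit 0) (XT.lf (nat_lit 0) (nat_lit 15089911526) (nat_lit 380) (nat_lit 1305338109) (nat_lit 76) (nat_lit 842685379) (nat_lit 59) (nat_lit 5) (nat_lit 64) (nat_lit 5) (nat_lit 60) (nat_lit 5) (nat_lit 263) (nat_lit 253) (nat_lit 204)) (XT.lf (nat_lit 0) (nat_lit 665061870) (nat_lit 456) (nat_lit 6440678982) (nat_lit 76) (nat_lit 10932205226) (nat_lit 53) (nat_lit 5) (nat_lit 59) (nat_lit 5) (nat_lit 54) (nat_lit 5) (nat_lit 264) (nat_lit 253) (nat_lit 203))) (XT.nd (nat_lit 78) (nat_lit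 304) (nat_lit 0) (XT.lf (nat_lit 0) (nat_lit 3769345666) (nat_lit 380) (nat_lit 12123916888) (nat_lit 76) (nat_lit 2999983132) (nat_lit 49) (nat_lit 5) (nat_lit 54) (nat_lit 5) (nat_lit 50) (nat_lit 5) (nat_lit 265) (nat_lit 253) (nat_lit 202)) (XT.nd (nat_lit 78) (nat_lit 0) (nat_lit 0) (XT.lf (nat_lit 0) (nat_lit 1336326632) (nat_lit 304) (nat_lit 6004937582) (nat_lit 380) (nat_lit 12464850377) (nat_lit 45) (nat_lit 5) (nat_lit 49) (nat_lit 5) (nat_lit 50) (nat_lit 5) (nat_lit 266) (nat_lit 253) (nat_lit 201)) (XT.lf (nat_lit 0) (nat_lit 11453114560) (nat_lit 380) (nat_lit 4591109699) (nat_lit 76) (nat_lit 4735181622) (nat_lit 45) (nat_lit 5) (nat_lit 50) (nat_lit 5) (nat_lit 46) (nat_lit 5) (nat_lit 267) (nat_lit 253) (nat_lit 200)))))) (XT.nd (nat_lit 390) (nat_lit 608) (nat_lit 0) (XT.nd (nat_lit 156) (nat_lit 532) (nat_lit 0) (XT.nd (nat_lit 78) (nat_lit 228) (nat_lit 0) (XT.lf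 (nat_lit 0) (nat_lit 10599235937) (nat_lit 228) (nat_lit 5530437251) (nat_lit 304) (nat_lit 5689193523) (nat_lit 42) (nat_lit 5) (nat_lit 45) (nat_lit 5) (nat_lit 46) (nat_lit 5) (nat_lit 268) (nat_lit 253) (nat_lit 199)) (XT.lf (nat_lit 0) (nat_lit 4238190547) (nat_lit 228) (nat_lit 17151236892) (nat_lit 304) (nat_lit 1541690690) (nat_lit 39) (nat_lit 5) (nat_lit 42) (nat_lit 5) (nat_lit 43) (nat_lit 5) (nat_lit 269) (nat_lit 253) (nat_lit 198))) (XT.nd (nat_lit 78) (nat_lit 456) (nat_lit 0) (XT.lf (nat_lit 0) (nat_lit 3107260840) (nat_lit 304) (nat_lit 2967518586) (nat_lit 76) (nat_lit 18042170450) (nat_lit 38) (nat_lit 5) (nat_lit 42) (nat_lit 5) (nat_lit 39) (nat_lit 5) (nat_lit 270) (nat_lit 253) (nat_lit 197)) (XT.nd (nat_lit 78) (nat_lit 228) (nat_lit 0) (XT.lf (nat_lit 0) (nat_lit 8369740684) (nat_lit 304) (nat_lit 11064249622) (nat_lit 76) (nat_lit 5947684155) (nat_lit 35) (nat_lit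 5) (nat_lit 39) (nat_lit 5) (nat_lit 36) (nat_lit 5) (nat_lit 271) (nat_lit 253) (nat_lit 196)) (XT.lf (nat_lit 0) (nat_lit 6415196016) (nat_lit 228) (nat_lit 7868347353) (nat_lit 304) (nat_lit 12452583399) (nat_lit 32) (nat_lit 5) (nat_lit 35) (nat_lit 5) (nat_lit 36) (nat_lit 5) (nat_lit 272) (nat_lit 253) (nat_lit 195))))) (XT.nd (nat_lit 156) (nat_lit 456) (nat_lit 0) (XT.nd (nat_lit 78) (nat_lit 152) (nat_lit 0) (XT.lf (nat_lit 0) (nat_lit 20914924925) (nat_lit 304) (nat_lit 2609196506) (nat_lit 76) (nat_lit 4662651185) (nat_lit 32) (nat_lit 5) (nat_lit 36) (nat_lit 5) (nat_lit 33) (nat_lit 5) (nat_lit 273) (nat_lit 253) (nat_lit 194)) (XT.lf (nat_lit 0) (nat_lit 16897377557) (nat_lit 152) (nat_lit 11554088935) (nat_lit 228) (nat_lit 1283327731) (nat_lit 30) (nat_lit 5) (nat_lit 32) (nat_lit 5) (nat_lit 33) (nat_lit 5) (nat_lit 274) (nat_lit 253) (nat_lit 193))) (XT.nd (nat_lit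 78) (nat_lit 152) (nat_lit 0) (XT.lf (nat_lit 0) (nat_lit 5174115085) (nat_lit 304) (nat_lit 24663045416) (nat_lit 76) (nat_lit 1557711364) (nat_lit 26) (nat_lit 5) (nat_lit 30) (nat_lit 5) (nat_lit 27) (nat_lit 5) (nat_lit 275) (nat_lit 253) (nat_lit 192)) (XT.nd (nat_lit 78) (nat_lit 152) (nat_lit 0) (XT.lf (nat_lit 0) (nat_lit 12505822486) (nat_lit 304) (nat_lit 5100973633) (nat_lit 76) (nat_lit 15559822344) (nat_lit 26) (nat_lit 5) (nat_lit 30) (nat_lit 5) (nat_lit 27) (nat_lit 5) (nat_lit 276) (nat_lit 253) (nat_lit 191)) (XT.lf (nat_lit 0) (nat_lit 16527931547) (nat_lit 152) (nat_lit 4135590748) (nat_lit 228) (nat_lit 14404652468) (nat_lit 24) (nat_lit 5) (nat_lit 26) (nat_lit 5) (nat_lit 27) (nat_lit 5) (nat_lit 277) (nat_lit 253) (nat_lit 190))))))) (XT.nd (nat_lit 780) (nat_lit 532) (nat_lit 0) (XT.nd (nat_lit 390) (nat_lit 304) (nat_lit 0) (XT.nd (nat_lit 156) (nat_lit 304)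 (nat_lit 0) (XT.nd (nat_lit 78) (nat_lit 76) (nat_lit 0) (XT.lf (nat_lit 0) (nat_lit 2852406826) (nat_lit 152) (nat_lit 26901109025) (nat_lit 228) (nat_lit 7354395423) (nat_lit 22) (nat_lit 5) (nat_lit 24) (nat_lit 5) (nat_lit 25) (nat_lit 5) (nat_lit 278) (nat_lit 253) (nat_lit 189)) (XT.lf (nat_lit 0) (nat_lit 632405810) (nat_lit 228) (nat_lit 12781409865) (nat_lit 76) (nat_lit 25877801000) (nat_lit 21) (nat_lit 5) (nat_lit 24) (nat_lit 5) (nat_lit 22) (nat_lit 5) (nat_lit 279) (nat_lit 253) (nat_lit 188))) (XT.nd (nat_lit 78) (nat_lit 152) (nat_lit 0) (XT.lf (nat_lit 0) (nat_lit 9176188971) (nat_lit 228) (nat_lit 31057294511) (nat_lit 76) (nat_lit 1401754165) (nat_lit 19) (nat_lit 5) (nat_lit 22) (nat_lit 5) (nat_lit 20) (nat_lit 5) (nat_lit 280) (nat_lit 253) (nat_lit 187)) (XT.nd (nat_lit 78) (nat_lit 152) (nat_lit 0) (XT.lf (nat_lit 0) (nat_lit 18840761527) (nat_lit 228) (nat_lit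 8146426957) (nat_lit 76) (nat_lit 17157325410) (nat_lit 19) (nat_lit 5) (nat_lit 22) (nat_lit 5) (nat_lit 20) (nat_lit 5) (nat_lit 281) (nat_lit 253) (nat_lit 186)) (XT.lf (nat_lit 0) (nat_lit 17123284330) (nat_lit 152) (nat_lit 12408494583) (nat_lit 228) (nat_lit 17310117097) (nat_lit 17) (nat_lit 5) (nat_lit 19) (nat_lit 5) (nat_lit 20) (nat_lit 5) (nat_lit 282) (nat_lit 253) (nat_lit 185))))) (XT.nd (nat_lit 156) (nat_lit 152) (nat_lit 0) (XT.nd (nat_lit 78) (nat_lit 152) (nat_lit 0) (XT.lf (nat_lit 0) (nat_lit 41260928875) (nat_lit 228) (nat_lit 5118603185) (nat_lit 76) (nat_lit 3366419742) (nat_lit 17) (nat_lit 5) (nat_lit 20) (nat_lit 5) (nat_lit 18) (nat_lit 4) (nat_lit 283) (nat_lit 253) (nat_lit 184)) (XT.lf (nat_lit 0) (nat_lit 1560425772) (nat_lit 152) (nat_lit 30958848571) (nat_lit 76) (nat_lit 20334872333) (nat_lit 15) (nat_lit 5) (nat_lit 17) (nat_lit 5) (nat_lit 16) (nat_lit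 5) (nat_lit 284) (nat_lit 253) (nat_lit 183))) (XT.nd (nat_lit 78) (nat_lit 152) (nat_lit 0) (XT.lf (nat_lit 0) (nat_lit 12194769046) (nat_lit 152) (nat_lit 5117609145) (nat_lit 76) (nat_lit 38887558342) (nat_lit 15) (nat_lit 5) (nat_lit 17) (nat_lit 5) (nat_lit 16) (nat_lit 5) (nat_lit 285) (nat_lit 253) (nat_lit 182)) (XT.nd (nat_lit 78) (nat_lit 0) (nat_lit 0) (XT.lf (nat_lit 0) (nat_lit 23525722973) (nat_lit 152) (nat_lit 510266913) (nat_lit 228) (nat_lit 35759612589) (nat_lit 13) (nat_lit 5) (nat_lit 15) (nat_lit 5) (nat_lit 16) (nat_lit 5) (nat_lit 286) (nat_lit 253) (nat_lit 181)) (XT.lf (nat_lit 0) (nat_lit 37179740902) (nat_lit 228) (nat_lit 9325833245) (nat_lit 76) (nat_lit 17155603889) (nat_lit 13) (nat_lit 5) (nat_lit 16) (nat_lit 5) (nat_lit 14) (nat_lit 4) (nat_lit 287) (nat_lit 253) (nat_lit 180)))))) (XT.nd (nat_lit 390) (nat_lit 228) (nat_lit 0) (XT.nd (nat_lit 156)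 (nat_lit 228) (nat_lit 0) (XT.nd (nat_lit 78) (nat_lit 0) (nat_lit 0) (XT.lf (nat_lit 0) (nat_lit 20401602421) (nat_lit 76) (nat_lit 31290592078) (nat_lit 152) (nat_lit 16127961652) (nat_lit 12) (nat_lit 5) (nat_lit 13) (nat_lit 5) (nat_lit 14) (nat_lit 4) (nat_lit 288) (nat_lit 253) (nat_lit 179)) (XT.lf (nat_lit 0) (nat_lit 52824463950) (nat_lit 76) (nat_lit 14694191552) (nat_lit 152) (nat_lit 4785561861) (nat_lit 12) (nat_lit 5) (nat_lit 13) (nat_lit 5) (nat_lit 14) (nat_lit 4) (nat_lit 289) (nat_lit 253) (nat_lit 178))) (XT.nd (nat_lit 78) (nat_lit 0) (nat_lit 0) (XT.lf (nat_lit 0) (nat_lit 7441834289) (nat_lit 228) (nat_lit 66276220081) (nat_lit 76) (nat_lit 3412310492) (nat_lit 9) (nat_lit 5) (nat_lit 12) (nat_lit 5) (nat_lit 10) (nat_lit 4) (nat_lit 290) (nat_lit 253) (nat_lit 177)) (XT.nd (nat_lit 78) (nat_lit 0) (nat_lit 0) (XT.lf (nat_lit 0) (nat_lit 21066107595) (nat_lit 228)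 (nat_lit 38363919736) (nat_lit 76) (nat_lit 22879349403) (nat_lit 9) (nat_lit 5) (nat_lit 12) (nat_lit 5) (nat_lit 10) (nat_lit 4) (nat_lit 291) (nat_lit 253) (nat_lit 176)) (XT.lf (nat_lit 0) (nat_lit 35772404625) (nat_lit 228) (nat_lit 8232177427) (nat_lit 76) (nat_lit 43898535055) (nat_lit 9) (nat_lit 5) (nat_lit 12) (nat_lit 5) (nat_lit 10) (nat_lit 4) (nat_lit 292) (nat_lit 253) (nat_lit 175))))) (XT.nd (nat_lit 156) (nat_lit 152) (nat_lit 0) (XT.nd (nat_lit 78) (nat_lit 0) (nat_lit 0) (XT.lf (nat_lit 0) (nat_lit 25100952557) (nat_lit 76) (nat_lit 26938817464) (nat_lit 152) (nat_lit 41885369243) (nat_lit 8) (nat_lit 5) (nat_lit 9) (nat_lit 5) (nat_lit 10) (nat_lit 4) (nat_lit 293) (nat_lit 253) (nat_lit 174)) (XT.lf (nat_lit 0) (nat_lit 61382707321) (nat_lit 76) (nat_lit 8362240759) (nat_lit 152) (nat_lit 30677163926) (nat_lit 8) (nat_lit 5) (nat_lit 9) (nat_lit 5) (nat_lit 10)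 (nat_lit 4) (nat_lit 294) (nat_lit 253) (nat_lit 173))) (XT.nd (nat_lit 78) (nat_lit 152) (nat_lit 0) (XT.lf (nat_lit 0) (nat_lit 89042685778) (nat_lit 152) (nat_lit 7065882334) (nat_lit 0) (nat_lit 11321476430) (nat_lit 8) (nat_lit 5) (nat_lit 10) (nat_lit 4) (nat_lit 8) (nat_lit 4) (nat_lit 295) (nat_lit 253) (nat_lit 172)) (XT.nd (nat_lit 78) (nat_lit 76) (nat_lit 0) (XT.lf (nat_lit 0) (nat_lit 28217119846) (nat_lit 76) (nat_lit 82242625833) (nat_lit 76) (nat_lit 4510099403) (nat_lit 7) (nat_lit 4) (nat_lit 8) (nat_lit 5) (nat_lit 8) (nat_lit 4) (nat_lit 296) (nat_lit 253) (nat_lit 171)) (XT.lf (nat_lit 0) (nat_lit 10261242230) (nat_lit 152) (nat_lit 56707458636) (nat_lit 76) (nat_lit 56129995220) (nat_lit 6) (nat_lit 5) (nat_lit 8) (nat_lit 5) (nat_lit 7) (nat_lit 4) (nat_lit 297) (nat_lit 253) (nat_lit 170))))))))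
noncomputable def xc76 : XT := (XT.nd (nat_lit 1482) (nat_lit 76) (nat_lit 0) (XT.nd (nat_lit 702) (nat_lit 152) (nat_lit 0) (XT.nd (nat_lit 312) (nat_lit 76) (nat_lit 0) (XT.nd (nat_lit 156) (nat_lit 0) (nat_lit 0) (XT.nd (nat_lit 78) (nat_lit 76) (nat_lit 0) (XT.lf (nat_lit 0) (nat_lit 26052966731) (nat_lit 152) (nat_lit 24344125983) (nat_lit 76) (nat_lit 81477238273) (nat_lit 6) (nat_lit 5) (nat_lit 8) (nat_lit 5) (nat_lit 7) (nat_lit 4) (nat_lit 298) (nat_lit 253) (nat_lit 169)) (XT.lf (nat_lit 0) (nat_lit 10949937098) (nat_lit 76) (nat_lit 32324028143) (nat_lit 152) (nat_lit 98069761106) (nat_lit 5) (nat_lit 5) (nat_lit 6) (nat_lit 5) (nat_lit 7) (nat_lit 4) (nat_lit 299) (nat_lit 253) (nat_lit 168))) (XT.nd (nat_lit 78) (nat_lit 0) (nat_lit 0) (XT.lf (nat_lit 0) (nat_lit 49928426105) (nat_lit 76) (nat_lit 12363493966) (nat_lit 152) (nat_lit 89257795437) (nat_lit 5) (nat_lit 5)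 (nat_lit 6) (nat_lit 5) (nat_lit 7) (nat_lit 4) (nat_lit 300) (nat_lit 253) (nat_lit 167)) (XT.lf (nat_lit 0) (nat_lit 82970372712) (nat_lit 152) (nat_lit 70698502527) (nat_lit 0) (nat_lit 8896361038) (nat_lit 5) (nat_lit 5) (nat_lit 7) (nat_lit 4) (nat_lit 5) (nat_lit 4) (nat_lit 301) (nat_lit 253) (nat_lit 166)))) (XT.nd (nat_lit 156) (nat_lit 76) (nat_lit 0) (XT.nd (nat_lit 78) (nat_lit 0) (nat_lit 0) (XT.lf (nat_lit 0) (nat_lit 105507423719) (nat_lit 152) (nat_lit 37517744052) (nat_lit 0) (nat_lit 31426619967) (nat_lit 5) (nat_lit 5) (nat_lit 7) (nat_lit 4) (nat_lit 5) (nat_lit 4) (nat_lit 302) (nat_lit 253) (nat_lit 165)) (XT.lf (nat_lit 0) (nat_lit 129843597196) (nat_lit 152) (nat_lit 1689358472) (nat_lit 0) (nat_lit 55756504484) (nat_lit 5) (nat_lit 5) (nat_lit 7) (nat_lit 4) (nat_lit 5) (nat_lit 4) (nat_lit 303) (nat_lit 253) (nat_lit 164))) (XT.nd (nat_lit 78) (nat_lit 0) (nat_lit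 0) (XT.lf (nat_lit 0) (nat_lit 38222323629) (nat_lit 76) (nat_lit 118497541466) (nat_lit 76) (nat_lit 44404625643) (nat_lit 4) (nat_lit 4) (nat_lit 5) (nat_lit 5) (nat_lit 5) (nat_lit 4) (nat_lit 304) (nat_lit 253) (nat_lit 163)) (XT.nd (nat_lit 78) (nat_lit 0) (nat_lit 0) (XT.lf (nat_lit 0) (nat_lit 81381214343) (nat_lit 76) (nat_lit 104391059562) (nat_lit 76) (nat_lit 30292751969) (nat_lit 4) (nat_lit 4) (nat_lit 5) (nat_lit 5) (nat_lit 5) (nat_lit 4) (nat_lit 305) (nat_lit 253) (nat_lit 162)) (XT.lf (nat_lit 0) (nat_lit 127987212238) (nat_lit 76) (nat_lit 89158526094) (nat_lit 76) (nat_lit 15055226120) (nat_lit 4) (nat_lit 4) (nat_lit 5) (nat_lit 5) (nat_lit 5) (nat_lit 4) (nat_lit 306) (nat_lit 253) (nat_lit 161)))))) (XT.nd (nat_lit 390) (nat_lit 0) (nat_lit 0) (XT.nd (nat_lit 156) (nat_lit 76) (nat_lit 0) (XT.nd (nat_lit 78) (nat_lit 0) (nat_lit 0) (XT.lf (nat_lit 0) (nat_lit 1353495672)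 (nat_lit 152) (nat_lit 71333256418) (nat_lit 76) (nat_lit 176940083228) (nat_lit 3) (nat_lit 5) (nat_lit 5) (nat_lit 5) (nat_lit 4) (nat_lit 4) (nat_lit 307) (nat_lit 253) (nat_lit 160)) (XT.lf (nat_lit 0) (nat_lit 18551768277) (nat_lit 152) (nat_lit 36081077738) (nat_lit 76) (nat_lit 213801376831) (nat_lit 3) (nat_lit 5) (nat_lit 5) (nat_lit 5) (nat_lit 4) (nat_lit 4) (nat_lit 308) (nat_lit 253) (nat_lit 159))) (XT.nd (nat_lit 78) (nat_lit 0) (nat_lit 0) (XT.lf (nat_lit 0) (nat_lit 2052430491) (nat_lit 76) (nat_lit 35102982343) (nat_lit 152) (nat_lit 251589315890) (nat_lit 2) (nat_lit 5) (nat_lit 3) (nat_lit 5) (nat_lit 4) (nat_lit 4) (nat_lit 309) (nat_lit 253) (nat_lit 158)) (XT.nd (nat_lit 78) (nat_lit 0) (nat_lit 0) (XT.lf (nat_lit 0) (nat_lit 44520724788) (nat_lit 76) (nat_lit 13352719190) (nat_lit 152) (nat_lit 252775328986) (nat_lit 2) (nat_lit 5) (nat_lit 3) (nat_lit 5) (nat_lit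 4) (nat_lit 4) (nat_lit 310) (nat_lit 253) (nat_lit 157)) (XT.lf (nat_lit 0) (nat_lit 80404930345) (nat_lit 152) (nat_lit 244081037195) (nat_lit 0) (nat_lit 9811375013) (nat_lit 2) (nat_lit 5) (nat_lit 4) (nat_lit 4) (nat_lit 2) (nat_lit 4) (nat_lit 311) (nat_lit 253) (nat_lit 156))))) (XT.nd (nat_lit 156) (nat_lit 0) (nat_lit 0) (XT.nd (nat_lit 78) (nat_lit 0) (nat_lit 0) (XT.lf (nat_lit 0) (nat_lit 104961991422) (nat_lit 152) (nat_lit 220499215908) (nat_lit 0) (nat_lit 34365439857) (nat_lit 2) (nat_lit 5) (nat_lit 4) (nat_lit 4) (nat_lit 2) (nat_lit 4) (nat_lit 312) (nat_lit 253) (nat_lit 155)) (XT.lf (nat_lit 0) (nat_lit 131481677169) (nat_lit 152) (nat_lit 195034366819) (nat_lit 0) (nat_lit 60882351312) (nat_lit 2) (nat_lit 5) (nat_lit 4) (nat_lit 4) (nat_lit 2) (nat_lit 4) (nat_lit 313) (nat_lit 253) (nat_lit 154))) (XT.nd (nat_lit 78) (nat_lit 0) (nat_lit 0) (XT.lf (nat_lit 0)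 (nat_lit 160121141277) (nat_lit 152) (nat_lit 167535587120) (nat_lit 0) (nat_lit 89519246633) (nat_lit 2) (nat_lit 5) (nat_lit 4) (nat_lit 4) (nat_lit 2) (nat_lit 4) (nat_lit 314) (nat_lit 253) (nat_lit 153)) (XT.nd (nat_lit 78) (nat_lit 0) (nat_lit 0) (XT.lf (nat_lit 0) (nat_lit 191050099091) (nat_lit 152) (nat_lit 137839921079) (nat_lit 0) (nat_lit 120445825939) (nat_lit 2) (nat_lit 5) (nat_lit 4) (nat_lit 4) (nat_lit 2) (nat_lit 4) (nat_lit 315) (nat_lit 253) (nat_lit 152)) (XT.lf (nat_lit 0) (nat_lit 224451833322) (nat_lit 152) (nat_lit 105771394379) (nat_lit 0) (nat_lit 153845357849) (nat_lit 2) (nat_lit 5) (nat_lit 4) (nat_lit 4) (nat_lit 2) (nat_lit 4) (nat_lit 316) (nat_lit 253) (nat_lit 151))))))) (XT.nd (nat_lit 32760) (nat_lit 0) (nat_lit 3952) (XT.nd (nat_lit 312) (nat_lit 0) (nat_lit 0) (XT.nd (nat_lit 156) (nat_lit 76) (nat_lit 0) (XT.nd (nat_lit 78) (nat_lit 0) (nat_lit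 0) (XT.lf (nat_lit 0) (nat_lit 260524280175) (nat_lit 152) (nat_lit 71139971306) (nat_lit 0) (nat_lit 189915765514) (nat_lit 2) (nat_lit 5) (nat_lit 4) (nat_lit 4) (nat_lit 2) (nat_lit 4) (nat_lit 317) (nat_lit 253) (nat_lit 150)) (XT.lf (nat_lit 0) (nat_lit 299481202296) (nat_lit 152) (nat_lit 33740428612) (nat_lit 0) (nat_lit 228870799499) (nat_lit 2) (nat_lit 5) (nat_lit 4) (nat_lit 4) (nat_lit 2) (nat_lit 4) (nat_lit 318) (nat_lit 253) (nat_lit 149))) (XT.nd (nat_lit 78) (nat_lit 0) (nat_lit 0) (XT.lf (nat_lit 0) (nat_lit 6868701980) (nat_lit 76) (nat_lit 334791993227) (nat_lit 76) (nat_lit 264179842156) (nat_lit 1) (nat_lit 4) (nat_lit 2) (nat_lit 5) (nat_lit 2) (nat_lit 4) (nat_lit 319) (nat_lit 253) (nat_lit 148)) (XT.lf (nat_lit 0) (nat_lit 51929302311) (nat_lit 76) (nat_lit 335871816534) (nat_lit 76) (nat_lit 265258046691) (nat_lit 1) (nat_lit 4) (nat_lit 2) (nat_lit 5) (nat_lit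 2) (nat_lit 4) (nat_lit 320) (nat_lit 253) (nat_lit 147)))) (XT.nd (nat_lit 156) (nat_lit 0) (nat_lit 0) (XT.nd (nat_lit 78) (nat_lit 0) (nat_lit 0) (XT.lf (nat_lit 0) (nat_lit 100592787212) (nat_lit 76) (nat_lit 337038910268) (nat_lit 76) (nat_lit 266423641562) (nat_lit 1) (nat_lit 4) (nat_lit 2) (nat_lit 5) (nat_lit 2) (nat_lit 4) (nat_lit 321) (nat_lit 253) (nat_lit 146)) (XT.lf (nat_lit 0) (nat_lit 153147532890) (nat_lit 76) (nat_lit 338300190539) (nat_lit 76) (nat_lit 267683533997) (nat_lit 1) (nat_lit 4) (nat_lit 2) (nat_lit 5) (nat_lit 2) (nat_lit 4) (nat_lit 322) (nat_lit 253) (nat_lit 145))) (XT.nd (nat_lit 32136) (nat_lit 0) (nat_lit 5776) (XT.lf (nat_lit 0) (nat_lit 209904974875) (nat_lit 76) (nat_lit 339663131600) (nat_lit 76) (nat_lit 269045190025) (nat_lit 1) (nat_lit 4) (nat_lit 2) (nat_lit 5) (nat_lit 2) (nat_lit 4) (nat_lit 323) (nat_lit 253) (nat_lit 144)) (XT.nd (nat_lit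 78) (nat_lit 0) (nat_lit 0) (XT.lf (nat_lit 0) (nat_lit 5629917304) (nat_lit 684) (nat_lit 277127271) (nat_lit 684) (nat_lit 277127271) (nat_lit 77) (nat_lit 3) (nat_lit 86) (nat_lit 3) (nat_lit 86) (nat_lit 5) (nat_lit 254) (nat_lit 254) (nat_lit 212)) (XT.lf (nat_lit 76) (nat_lit 8105576737) (nat_lit 0) (nat_lit 4350474701) (nat_lit 684) (nat_lit 367313201) (nat_lit 78) (nat_lit 5) (nat_lit 77) (nat_lit 3) (nat_lit 86) (nat_lit 5) (nat_lit 255) (nat_lit 254) (nat_lit 211)))))) (XT.nd (nat_lit 390) (nat_lit 1216) (nat_lit 0) (XT.nd (nat_lit 156) (nat_lit 0) (nat_lit 76) (XT.nd (nat_lit 78) (nat_lit 0) (nat_lit 0) (XT.lf (nat_lit 0) (nat_lit 491567759) (nat_lit 684) (nat_lit 9116830494) (nat_lit 760) (nat_lit 3702668902) (nat_lit 69) (nat_lit 5) (nat_lit 78) (nat_lit 5) (nat_lit 79) (nat_lit 5) (nat_lit 256) (nat_lit 254) (nat_lit 210)) (XT.lf (nat_lit 76) (nat_lit 36195844) (nat_lit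 0) (nat_lit 1468548457) (nat_lit 760) (nat_lit 12328031446) (nat_lit 70) (nat_lit 5) (nat_lit 69) (nat_lit 5) (nat_lit 79) (nat_lit 5) (nat_lit 257) (nat_lit 254) (nat_lit 209))) (XT.nd (nat_lit 78) (nat_lit 0) (nat_lit 76) (XT.lf (nat_lit 0) (nat_lit 2819653702) (nat_lit 684) (nat_lit 4297873190) (nat_lit 760) (nat_lit 7267858024) (nat_lit 70) (nat_lit 5) (nat_lit 79) (nat_lit 5) (nat_lit 80) (nat_lit 5) (nat_lit 258) (nat_lit 254) (nat_lit 208)) (XT.nd (nat_lit 78) (nat_lit 0) (nat_lit 0) (XT.lf (nat_lit 0) (nat_lit 4336564823) (nat_lit 684) (nat_lit 8912543107) (nat_lit 760) (nat_lit 1728437609) (nat_lit 71) (nat_lit 5) (nat_lit 80) (nat_lit 5) (nat_lit 81) (nat_lit 5) (nat_lit 259) (nat_lit 254) (nat_lit 207)) (XT.lf (nat_lit 76) (nat_lit 1692057571) (nat_lit 0) (nat_lit 4457741099) (nat_lit 760) (nat_lit 9458701452) (nat_lit 72) (nat_lit 5) (nat_lit 71) (nat_lit 5) (nat_lit 81)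 (nat_lit 5) (nat_lit 260) (nat_lit 254) (nat_lit 206))))) (XT.nd (nat_lit 156) (nat_lit 760) (nat_lit 0) (XT.nd (nat_lit 78) (nat_lit 684) (nat_lit 0) (XT.lf (nat_lit 0) (nat_lit 8300058634) (nat_lit 684) (nat_lit 2938838976) (nat_lit 76) (nat_lit 5041592132) (nat_lit 72) (nat_lit 5) (nat_lit 81) (nat_lit 5) (nat_lit 73) (nat_lit 5) (nat_lit 261) (nat_lit 254) (nat_lit 205)) (XT.lf (nat_lit 0) (nat_lit 9097067402) (nat_lit 684) (nat_lit 1701293264) (nat_lit 760) (nat_lit 6199222209) (nat_lit 63) (nat_lit 5) (nat_lit 72) (nat_lit 5) (nat_lit 73) (nat_lit 5) (nat_lit 262) (nat_lit 254) (nat_lit 204))) (XT.nd (nat_lit 78) (nat_lit 456) (nat_lit 0) (XT.lf (nat_lit 0) (nat_lit 4400577076) (nat_lit 304) (nat_lit 9312352656) (nat_lit 380) (nat_lit 4048428219) (nat_lit 59) (nat_lit 5) (nat_lit 63) (nat_lit 5) (nat_lit 64) (nat_lit 5) (nat_lit 263) (nat_lit 254) (nat_lit 203)) (XT.nd (nat_lit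 78) (nat_lit 456) (nat_lit 0) (XT.lf (nat_lit 0) (nat_lit 17004487029) (nat_lit 380) (nat_lit 690783696) (nat_lit 76) (nat_lit 883897835) (nat_lit 59) (nat_lit 5) (nat_lit 64) (nat_lit 5) (nat_lit 60) (nat_lit 5) (nat_lit 264) (nat_lit 254) (nat_lit 202)) (XT.lf (nat_lit 0) (nat_lit 1397081524) (nat_lit 456) (nat_lit 6243608486) (nat_lit 76) (nat_lit 11804206288) (nat_lit 53) (nat_lit 5) (nat_lit 59) (nat_lit 5) (nat_lit 54) (nat_lit 5) (nat_lit 265) (nat_lit 254) (nat_lit 201))))))))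
noncomputable def xc77 : XT := (XT.nd (nat_lit 1482) (nat_lit 912) (nat_lit 0) (XT.nd (nat_lit 702) (nat_lit 1140) (nat_lit 0) (XT.nd (nat_lit 312) (nat_lit 760) (nat_lit 0) (XT.nd (nat_lit 156) (nat_lit 228) (nat_lit 0) (XT.nd (nat_lit 78) (nat_lit 304) (nat_lit 0) (XT.lf (nat_lit 0) (nat_lit 4710722344) (nat_lit 380) (nat_lit 12379176646) (nat_lit 76) (nat_lit 3280829036) (nat_lit 49) (nat_lit 5) (nat_lit 54) (nat_lit 5) (nat_lit 50) (nat_lit 5) (nat_lit 266) (nat_lit 254) (nat_lit 200)) (XT.lf (nat_lit 0) (nat_lit 2126828381) (nat_lit 304) (nat_lit 6404844095) (nat_lit 380) (nat_lit 12826937163) (nat_lit 45) (nat_lit 5) (nat_lit 49) (nat_lit 5) (nat_lit 50) (nat_lit 5) (nat_lit 267) (nat_lit 254) (nat_lit 199))) (XT.nd (nat_lit 78) (nat_lit 228) (nat_lit 0) (XT.lf (nat_lit 0) (nat_lit 12928959814) (nat_lit 380) (nat_lit 4296978951) (nat_lit 76) (nat_lit 5186137225) (nat_lit 45) (nat_lit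 5) (nat_lit 50) (nat_lit 5) (nat_lit 46) (nat_lit 5) (nat_lit 268) (nat_lit 254) (nat_lit 198)) (XT.lf (nat_lit 0) (nat_lit 12079849849) (nat_lit 228) (nat_lit 5868219552) (nat_lit 304) (nat_lit 5588329087) (nat_lit 42) (nat_lit 5) (nat_lit 45) (nat_lit 5) (nat_lit 46) (nat_lit 5) (nat_lit 269) (nat_lit 254) (nat_lit 197)))) (XT.nd (nat_lit 156) (nat_lit 456) (nat_lit 0) (XT.nd (nat_lit 78) (nat_lit 76) (nat_lit 0) (XT.lf (nat_lit 0) (nat_lit 5207624317) (nat_lit 228) (nat_lit 18393221773) (nat_lit 304) (nat_lit 1138288597) (nat_lit 39) (nat_lit 5) (nat_lit 42) (nat_lit 5) (nat_lit 43) (nat_lit 5) (nat_lit 270) (nat_lit 254) (nat_lit 196)) (XT.lf (nat_lit 0) (nat_lit 3827951395) (nat_lit 304) (nat_lit 2604338987) (nat_lit 76) (nat_lit 19589122813) (nat_lit 38) (nat_lit 5) (nat_lit 42) (nat_lit 5) (nat_lit 39) (nat_lit 5) (nat_lit 271) (nat_lit 254) (nat_lit 195))) (XT.nd (nat_lit 78)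 (nat_lit 228) (nat_lit 0) (XT.lf (nat_lit 0) (nat_lit 9487432048) (nat_lit 304) (nat_lit 11353416056) (nat_lit 76) (nat_lit 6547762871) (nat_lit 35) (nat_lit 5) (nat_lit 39) (nat_lit 5) (nat_lit 36) (nat_lit 5) (nat_lit 272) (nat_lit 254) (nat_lit 194)) (XT.nd (nat_lit 78) (nat_lit 0) (nat_lit 0) (XT.lf (nat_lit 0) (nat_lit 7498484950) (nat_lit 228) (nat_lit 8351560950) (nat_lit 304) (nat_lit 13002676503) (nat_lit 32) (nat_lit 5) (nat_lit 35) (nat_lit 5) (nat_lit 36) (nat_lit 5) (nat_lit 273) (nat_lit 254) (nat_lit 193)) (XT.lf (nat_lit 0) (nat_lit 22982658269) (nat_lit 304) (nat_lit 2271557855) (nat_lit 76) (nat_lit 5166749525) (nat_lit 32) (nat_lit 5) (nat_lit 36) (nat_lit 5) (nat_lit 33) (nat_lit 5) (nat_lit 274) (nat_lit 254) (nat_lit 192)))))) (XT.nd (nat_lit 390) (nat_lit 380) (nat_lit 0) (XT.nd (nat_lit 156) (nat_lit 304) (nat_lit 0) (XT.nd (nat_lit 78) (nat_lit 304) (nat_lit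 0) (XT.lf (nat_lit 0) (nat_lit 18771797369) (nat_lit 152) (nat_lit 12329260368) (nat_lit 228) (nat_lit 992900207) (nat_lit 30) (nat_lit 5) (nat_lit 32) (nat_lit 5) (nat_lit 33) (nat_lit 5) (nat_lit 275) (nat_lit 254) (nat_lit 191)) (XT.lf (nat_lit 0) (nat_lit 5950757589) (nat_lit 304) (nat_lit 26106805399) (nat_lit 76) (nat_lit 1829928642) (nat_lit 26) (nat_lit 5) (nat_lit 30) (nat_lit 5) (nat_lit 27) (nat_lit 5) (nat_lit 276) (nat_lit 254) (nat_lit 190))) (XT.nd (nat_lit 78) (nat_lit 304) (nat_lit 0) (XT.lf (nat_lit 0) (nat_lit 13842133930) (nat_lit 304) (nat_lit 5018974069) (nat_lit 76) (nat_lit 16941275140) (nat_lit 26) (nat_lit 5) (nat_lit 30) (nat_lit 5) (nat_lit 27) (nat_lit 5) (nat_lit 277) (nat_lit 254) (nat_lit 189)) (XT.nd (nat_lit 78) (nat_lit 152) (nat_lit 0) (XT.lf (nat_lit 0) (nat_lit 18318945356) (nat_lit 152) (nat_lit 4315945870) (nat_lit 228) (nat_lit 15222107863) (nat_lit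 24) (nat_lit 5) (nat_lit 26) (nat_lit 5) (nat_lit 27) (nat_lit 5) (nat_lit 278) (nat_lit 254) (nat_lit 188)) (XT.lf (nat_lit 0) (nat_lit 3542665537) (nat_lit 152) (nat_lit 28895231612) (nat_lit 228) (nat_lit 7622779715) (nat_lit 22) (nat_lit 5) (nat_lit 24) (nat_lit 5) (nat_lit 25) (nat_lit 5) (nat_lit 279) (nat_lit 254) (nat_lit 187))))) (XT.nd (nat_lit 156) (nat_lit 152) (nat_lit 0) (XT.nd (nat_lit 78) (nat_lit 152) (nat_lit 0) (XT.lf (nat_lit 0) (nat_lit 969781968) (nat_lit 228) (nat_lit 13366017200) (nat_lit 76) (nat_lit 28084223608) (nat_lit 21) (nat_lit 5) (nat_lit 24) (nat_lit 5) (nat_lit 22) (nat_lit 5) (nat_lit 280) (nat_lit 254) (nat_lit 186)) (XT.lf (nat_lit 0) (nat_lit 10184656223) (nat_lit 228) (nat_lit 33111150528) (nat_lit 76) (nat_lit 1655990515) (nat_lit 19) (nat_lit 5) (nat_lit 22) (nat_lit 5) (nat_lit 20) (nat_lit 5) (nat_lit 281) (nat_lit 254) (nat_lit 185))) (XT.nd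 (nat_lit 78) (nat_lit 152) (nat_lit 0) (XT.lf (nat_lit 0) (nat_lit 20602070723) (nat_lit 228) (nat_lit 8399319314) (nat_lit 76) (nat_lit 18661481829) (nat_lit 19) (nat_lit 5) (nat_lit 22) (nat_lit 5) (nat_lit 20) (nat_lit 5) (nat_lit 282) (nat_lit 254) (nat_lit 184)) (XT.nd (nat_lit 78) (nat_lit 0) (nat_lit 0) (XT.lf (nat_lit 0) (nat_lit 18874636567) (nat_lit 152) (nat_lit 13260870662) (nat_lit 228) (nat_lit 18441217526) (nat_lit 17) (nat_lit 5) (nat_lit 19) (nat_lit 5) (nat_lit 20) (nat_lit 5) (nat_lit 283) (nat_lit 254) (nat_lit 183)) (XT.lf (nat_lit 0) (nat_lit 44787151827) (nat_lit 228) (nat_lit 5165293387) (nat_lit 76) (nat_lit 3761486007) (nat_lit 17) (nat_lit 5) (nat_lit 20) (nat_lit 5) (nat_lit 18) (nat_lit 4) (nat_lit 284) (nat_lit 254) (nat_lit 182))))))) (XT.nd (nat_lit 780) (nat_lit 228) (nat_lit 0) (XT.nd (nat_lit 390) (nat_lit 304) (nat_lit 0) (XT.nd (nat_lit 156) (nat_lit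 228) (nat_lit 0) (XT.nd (nat_lit 78) (nat_lit 0) (nat_lit 0) (XT.lf (nat_lit 0) (nat_lit 1903228300) (nat_lit 152) (nat_lit 33080939579) (nat_lit 76) (nat_lit 22087033543) (nat_lit 15) (nat_lit 5) (nat_lit 17) (nat_lit 5) (nat_lit 16) (nat_lit 5) (nat_lit 285) (nat_lit 254) (nat_lit 181)) (XT.lf (nat_lit 0) (nat_lit 13372173223) (nat_lit 152) (nat_lit 5198668915) (nat_lit 76) (nat_lit 42114647660) (nat_lit 15) (nat_lit 5) (nat_lit 17) (nat_lit 5) (nat_lit 16) (nat_lit 5) (nat_lit 286) (nat_lit 254) (nat_lit 180))) (XT.nd (nat_lit 78) (nat_lit 76) (nat_lit 0) (XT.lf (nat_lit 0) (nat_lit 25721860126) (nat_lit 152) (nat_lit 428785437) (nat_lit 228) (nat_lit 38418691727) (nat_lit 13) (nat_lit 5) (nat_lit 15) (nat_lit 5) (nat_lit 16) (nat_lit 5) (nat_lit 287) (nat_lit 254) (nat_lit 179)) (XT.nd (nat_lit 78) (nat_lit 76) (nat_lit 0) (XT.lf (nat_lit 0) (nat_lit 40333459040) (nat_lit 228) (nat_lit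 9773674712) (nat_lit 76) (nat_lit 18637671066) (nat_lit 13) (nat_lit 5) (nat_lit 16) (nat_lit 5) (nat_lit 14) (nat_lit 4) (nat_lit 288) (nat_lit 254) (nat_lit 178)) (XT.lf (nat_lit 0) (nat_lit 22318995305) (nat_lit 76) (nat_lit 33679083042) (nat_lit 152) (nat_lit 17238886626) (nat_lit 12) (nat_lit 5) (nat_lit 13) (nat_lit 5) (nat_lit 14) (nat_lit 4) (nat_lit 289) (nat_lit 254) (nat_lit 177))))) (XT.nd (nat_lit 156) (nat_lit 76) (nat_lit 0) (XT.nd (nat_lit 78) (nat_lit 228) (nat_lit 0) (XT.lf (nat_lit 0) (nat_lit 57314555038) (nat_lit 76) (nat_lit 15763470949) (nat_lit 152) (nat_lit 5002377219) (nat_lit 12) (nat_lit 5) (nat_lit 13) (nat_lit 5) (nat_lit 14) (nat_lit 4) (nat_lit 290) (nat_lit 254) (nat_lit 176)) (XT.lf (nat_lit 0) (nat_lit 8191660900) (nat_lit 228) (nat_lit 71314117220) (nat_lit 76) (nat_lit 3787064738) (nat_lit 9) (nat_lit 5) (nat_lit 12) (nat_lit 5) (nat_lit 10) (nat_lit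 4) (nat_lit 291) (nat_lit 254) (nat_lit 175))) (XT.nd (nat_lit 78) (nat_lit 76) (nat_lit 0) (XT.lf (nat_lit 0) (nat_lit 22894433117) (nat_lit 228) (nat_lit 41188403252) (nat_lit 76) (nat_lit 24803928287) (nat_lit 9) (nat_lit 5) (nat_lit 12) (nat_lit 5) (nat_lit 10) (nat_lit 4) (nat_lit 292) (nat_lit 254) (nat_lit 174)) (XT.nd (nat_lit 78) (nat_lit 76) (nat_lit 0) (XT.lf (nat_lit 0) (nat_lit 38766638583) (nat_lit 228) (nat_lit 8664242304) (nat_lit 76) (nat_lit 47497668723) (nat_lit 9) (nat_lit 5) (nat_lit 12) (nat_lit 5) (nat_lit 10) (nat_lit 4) (nat_lit 293) (nat_lit 254) (nat_lit 173)) (XT.lf (nat_lit 0) (nat_lit 27325694260) (nat_lit 76) (nat_lit 29003271218) (nat_lit 152) (nat_lit 45103703876) (nat_lit 8) (nat_lit 5) (nat_lit 9) (nat_lit 5) (nat_lit 10) (nat_lit 4) (nat_lit 294) (nat_lit 254) (nat_lit 172)))))) (XT.nd (nat_lit 390) (nat_lit 76) (nat_lit 0) (XT.nd (nat_lit 156) (nat_lit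 152) (nat_lit 0) (XT.nd (nat_lit 78) (nat_lit 0) (nat_lit 0) (XT.lf (nat_lit 0) (nat_lit 66493940109) (nat_lit 76) (nat_lit 8947283313) (nat_lit 152) (nat_lit 33008656571) (nat_lit 8) (nat_lit 5) (nat_lit 9) (nat_lit 5) (nat_lit 10) (nat_lit 4) (nat_lit 295) (nat_lit 254) (nat_lit 171)) (XT.lf (nat_lit 0) (nat_lit 96275350625) (nat_lit 152) (nat_lit 7441054135) (nat_lit 0) (nat_lit 12302426218) (nat_lit 8) (nat_lit 5) (nat_lit 10) (nat_lit 4) (nat_lit 8) (nat_lit 4) (nat_lit 296) (nat_lit 254) (nat_lit 170))) (XT.nd (nat_lit 78) (nat_lit 76) (nat_lit 0) (XT.lf (nat_lit 0) (nat_lit 30656326758) (nat_lit 76) (nat_lit 88744194958) (nat_lit 76) (nat_lit 4761567978) (nat_lit 7) (nat_lit 4) (nat_lit 8) (nat_lit 5) (nat_lit 8) (nat_lit 4) (nat_lit 297) (nat_lit 254) (nat_lit 169)) (XT.nd (nat_lit 78) (nat_lit 0) (nat_lit 0) (XT.lf (nat_lit 0) (nat_lit 11180141455) (nat_lit 152) (nat_lit 61072320861)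 (nat_lit 76) (nat_lit 60689103210) (nat_lit 6) (nat_lit 5) (nat_lit 8) (nat_lit 5) (nat_lit 7) (nat_lit 4) (nat_lit 298) (nat_lit 254) (nat_lit 168)) (XT.lf (nat_lit 0) (nat_lit 28227944668) (nat_lit 152) (nat_lit 26132642666) (nat_lit 76) (nat_lit 88059036197) (nat_lit 6) (nat_lit 5) (nat_lit 8) (nat_lit 5) (nat_lit 7) (nat_lit 4) (nat_lit 299) (nat_lit 254) (nat_lit 167))))) (XT.nd (nat_lit 156) (nat_lit 0) (nat_lit 0) (XT.nd (nat_lit 78) (nat_lit 0) (nat_lit 0) (XT.lf (nat_lit 0) (nat_lit 11978034932) (nat_lit 76) (nat_lit 34844241353) (nat_lit 152) (nat_lit 105824520235) (nat_lit 5) (nat_lit 5) (nat_lit 6) (nat_lit 5) (nat_lit 7) (nat_lit 4) (nat_lit 300) (nat_lit 254) (nat_lit 166)) (XT.lf (nat_lit 0) (nat_lit 54063536181) (nat_lit 76) (nat_lit 13291731777) (nat_lit 152) (nat_lit 96314324849) (nat_lit 5) (nat_lit 5) (nat_lit 6) (nat_lit 5) (nat_lit 7) (nat_lit 4) (nat_lit 301) (nat_lit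 254) (nat_lit 165))) (XT.nd (nat_lit 78) (nat_lit 0) (nat_lit 0) (XT.lf (nat_lit 0) (nat_lit 89682950855) (nat_lit 152) (nat_lit 76221062341) (nat_lit 0) (nat_lit 9662601765) (nat_lit 5) (nat_lit 5) (nat_lit 7) (nat_lit 4) (nat_lit 5) (nat_lit 4) (nat_lit 302) (nat_lit 254) (nat_lit 164)) (XT.nd (nat_lit 78) (nat_lit 0) (nat_lit 0) (XT.lf (nat_lit 0) (nat_lit 114017414214) (nat_lit 152) (nat_lit 40395718773) (nat_lit 0) (nat_lit 33991242013) (nat_lit 5) (nat_lit 5) (nat_lit 7) (nat_lit 4) (nat_lit 5) (nat_lit 4) (nat_lit 303) (nat_lit 254) (nat_lit 163)) (XT.lf (nat_lit 0) (nat_lit 140295341081) (nat_lit 152) (nat_lit 1710206406) (nat_lit 0) (nat_lit 60263777110) (nat_lit 5) (nat_lit 5) (nat_lit 7) (nat_lit 4) (nat_lit 5) (nat_lit 4) (nat_lit 304) (nat_lit 254) (nat_lit 162))))))))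
noncomputable def xc78 : XT := (XT.nd (nat_lit 33618) (nat_lit 0) (nat_lit 2356) (XT.nd (nat_lit 702) (nat_lit 76) (nat_lit 0) (XT.nd (nat_lit 312) (nat_lit 76) (nat_lit 0) (XT.nd (nat_lit 156) (nat_lit 76) (nat_lit 0) (XT.nd (nat_lit 78) (nat_lit 0) (nat_lit 0) (XT.lf (nat_lit 0) (nat_lit 41389442892) (nat_lit 76) (nat_lit 127929214808) (nat_lit 76) (nat_lit 47892658457) (nat_lit 4) (nat_lit 4) (nat_lit 5) (nat_lit 5) (nat_lit 5) (nat_lit 4) (nat_lit 305) (nat_lit 254) (nat_lit 161)) (XT.lf (nat_lit 0) (nat_lit 87992946095) (nat_lit 76) (nat_lit 112697779535) (nat_lit 76) (nat_lit 32656600611) (nat_lit 4) (nat_lit 4) (nat_lit 5) (nat_lit 5) (nat_lit 5) (nat_lit 4) (nat_lit 306) (nat_lit 254) (nat_lit 160))) (XT.nd (nat_lit 78) (nat_lit 76) (nat_lit 0) (XT.lf (nat_lit 0) (nat_lit 138319924962) (nat_lit 76) (nat_lit 96249944485) (nat_lit 76) (nat_lit 16204485399) (nat_lit 4) (nat_lit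 4) (nat_lit 5) (nat_lit 5) (nat_lit 5) (nat_lit 4) (nat_lit 307) (nat_lit 254) (nat_lit 159)) (XT.lf (nat_lit 0) (nat_lit 1511213644) (nat_lit 152) (nat_lit 76951434225) (nat_lit 76) (nat_lit 191131806662) (nat_lit 3) (nat_lit 5) (nat_lit 5) (nat_lit 5) (nat_lit 4) (nat_lit 4) (nat_lit 308) (nat_lit 254) (nat_lit 158)))) (XT.nd (nat_lit 156) (nat_lit 0) (nat_lit 0) (XT.nd (nat_lit 78) (nat_lit 76) (nat_lit 0) (XT.lf (nat_lit 0) (nat_lit 20081685961) (nat_lit 152) (nat_lit 38885635525) (nat_lit 76) (nat_lit 230939298807) (nat_lit 3) (nat_lit 5) (nat_lit 5) (nat_lit 5) (nat_lit 4) (nat_lit 4) (nat_lit 309) (nat_lit 254) (nat_lit 157)) (XT.lf (nat_lit 0) (nat_lit 2294992852) (nat_lit 76) (nat_lit 37876461941) (nat_lit 152) (nat_lit 271670624031) (nat_lit 2) (nat_lit 5) (nat_lit 3) (nat_lit 5) (nat_lit 4) (nat_lit 4) (nat_lit 310) (nat_lit 254) (nat_lit 156))) (XT.nd (nat_lit 78) (nat_lit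 0) (nat_lit 0) (XT.lf (nat_lit 0) (nat_lit 48154945662) (nat_lit 76) (nat_lit 14388752476) (nat_lit 152) (nat_lit 272954913517) (nat_lit 2) (nat_lit 5) (nat_lit 3) (nat_lit 5) (nat_lit 4) (nat_lit 4) (nat_lit 311) (nat_lit 254) (nat_lit 155)) (XT.nd (nat_lit 78) (nat_lit 0) (nat_lit 0) (XT.lf (nat_lit 0) (nat_lit 86875177668) (nat_lit 152) (nat_lit 263538887254) (nat_lit 0) (nat_lit 10625131452) (nat_lit 2) (nat_lit 5) (nat_lit 4) (nat_lit 4) (nat_lit 2) (nat_lit 4) (nat_lit 312) (nat_lit 254) (nat_lit 154)) (XT.lf (nat_lit 0) (nat_lit 113393999714) (nat_lit 152) (nat_lit 238075604183) (nat_lit 0) (nat_lit 37141384710) (nat_lit 2) (nat_lit 5) (nat_lit 4) (nat_lit 4) (nat_lit 2) (nat_lit 4) (nat_lit 313) (nat_lit 254) (nat_lit 153)))))) (XT.nd (nat_lit 390) (nat_lit 76) (nat_lit 0) (XT.nd (nat_lit 156) (nat_lit 0) (nat_lit 0) (XT.nd (nat_lit 78) (nat_lit 0) (nat_lit 0) (XT.lf (nat_lit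 0) (nat_lit 142032664100) (nat_lit 152) (nat_lit 210578274500) (nat_lit 0) (nat_lit 65777670588) (nat_lit 2) (nat_lit 5) (nat_lit 4) (nat_lit 4) (nat_lit 2) (nat_lit 4) (nat_lit 314) (nat_lit 254) (nat_lit 152)) (XT.lf (nat_lit 0) (nat_lit 172960881429) (nat_lit 152) (nat_lit 180883951067) (nat_lit 0) (nat_lit 96703685596) (nat_lit 2) (nat_lit 5) (nat_lit 4) (nat_lit 4) (nat_lit 2) (nat_lit 4) (nat_lit 315) (nat_lit 254) (nat_lit 151))) (XT.nd (nat_lit 78) (nat_lit 0) (nat_lit 0) (XT.lf (nat_lit 0) (nat_lit 206361930027) (nat_lit 152) (nat_lit 148816667522) (nat_lit 0) (nat_lit 130102695007) (nat_lit 2) (nat_lit 5) (nat_lit 4) (nat_lit 4) (nat_lit 2) (nat_lit 4) (nat_lit 316) (nat_lit 254) (nat_lit 150)) (XT.nd (nat_lit 78) (nat_lit 0) (nat_lit 0) (XT.lf (nat_lit 0) (nat_lit 242433742033) (nat_lit 152) (nat_lit 114186395519) (nat_lit 0) (nat_lit 166172618877) (nat_lit 2) (nat_lit 5)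 (nat_lit 4) (nat_lit 4) (nat_lit 2) (nat_lit 4) (nat_lit 317) (nat_lit 254) (nat_lit 149)) (XT.lf (nat_lit 0) (nat_lit 281390076334) (nat_lit 152) (nat_lit 76787918631) (nat_lit 0) (nat_lit 205127204904) (nat_lit 2) (nat_lit 5) (nat_lit 4) (nat_lit 4) (nat_lit 2) (nat_lit 4) (nat_lit 318) (nat_lit 254) (nat_lit 148))))) (XT.nd (nat_lit 156) (nat_lit 0) (nat_lit 0) (XT.nd (nat_lit 78) (nat_lit 76) (nat_lit 0) (XT.lf (nat_lit 0) (nat_lit 323461785281) (nat_lit 152) (nat_lit 36399616253) (nat_lit 0) (nat_lit 247197295078) (nat_lit 2) (nat_lit 5) (nat_lit 4) (nat_lit 4) (nat_lit 2) (nat_lit 4) (nat_lit 319) (nat_lit 254) (nat_lit 147)) (XT.lf (nat_lit 0) (nat_lit 7456504408) (nat_lit 76) (nat_lit 361558095226) (nat_lit 76) (nat_lit 285292106160) (nat_lit 1) (nat_lit 4) (nat_lit 2) (nat_lit 5) (nat_lit 2) (nat_lit 4) (nat_lit 320) (nat_lit 254) (nat_lit 146))) (XT.nd (nat_lit 78) (nat_lit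 0) (nat_lit 0) (XT.lf (nat_lit 0) (nat_lit 56119115264) (nat_lit 76) (nat_lit 362725582728) (nat_lit 76) (nat_lit 286458205826) (nat_lit 1) (nat_lit 4) (nat_lit 2) (nat_lit 5) (nat_lit 2) (nat_lit 4) (nat_lit 321) (nat_lit 254) (nat_lit 145)) (XT.nd (nat_lit 78) (nat_lit 0) (nat_lit 0) (XT.lf (nat_lit 0) (nat_lit 108673051640) (nat_lit 76) (nat_lit 363987227599) (nat_lit 76) (nat_lit 287718565664) (nat_lit 1) (nat_lit 4) (nat_lit 2) (nat_lit 5) (nat_lit 2) (nat_lit 4) (nat_lit 322) (nat_lit 254) (nat_lit 144)) (XT.lf (nat_lit 0) (nat_lit 165429744273) (nat_lit 76) (nat_lit 365350506254) (nat_lit 76) (nat_lit 289080654473) (nat_lit 1) (nat_lit 4) (nat_lit 2) (nat_lit 5) (nat_lit 2) (nat_lit 4) (nat_lit 323) (nat_lit 254) (nat_lit 143))))))) (XT.nd (nat_lit 780) (nat_lit 2052) (nat_lit 0) (XT.nd (nat_lit 390) (nat_lit 684) (nat_lit 0) (XT.nd (nat_lit 156) (nat_lit 0) (nat_lit 76) (XT.nd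 (nat_lit 78) (nat_lit 0) (nat_lit 0) (XT.lf (nat_lit 0) (nat_lit 18873889) (nat_lit 0) (nat_lit 18873889) (nat_lit 684) (nat_lit 6608515060) (nat_lit 68) (nat_lit 5) (nat_lit 68) (nat_lit 3) (nat_lit 77) (nat_lit 3) (nat_lit 255) (nat_lit 255) (nat_lit 210)) (XT.lf (nat_lit 0) (nat_lit 767472177) (nat_lit 684) (nat_lit 4437496278) (nat_lit 760) (nat_lit 8582833116) (nat_lit 68) (nat_lit 5) (nat_lit 77) (nat_lit 3) (nat_lit 78) (nat_lit 5) (nat_lit 256) (nat_lit 255) (nat_lit 209))) (XT.nd (nat_lit 78) (nat_lit 0) (nat_lit 0) (XT.lf (nat_lit 0) (nat_lit 1599734500) (nat_lit 684) (nat_lit 9158247265) (nat_lit 760) (nat_lit 3560669217) (nat_lit 69) (nat_lit 5) (nat_lit 78) (nat_lit 5) (nat_lit 79) (nat_lit 5) (nat_lit 257) (nat_lit 255) (nat_lit 208)) (XT.nd (nat_lit 78) (nat_lit 0) (nat_lit 76) (XT.lf (nat_lit 76) (nat_lit 697124595) (nat_lit 0) (nat_lit 1927940881) (nat_lit 760) (nat_lit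 12260761660) (nat_lit 70) (nat_lit 5) (nat_lit 69) (nat_lit 5) (nat_lit 79) (nat_lit 5) (nat_lit 258) (nat_lit 255) (nat_lit 207)) (XT.lf (nat_lit 0) (nat_lit 3966155146) (nat_lit 684) (nat_lit 3977867946) (nat_lit 760) (nat_lit 7542837279) (nat_lit 70) (nat_lit 5) (nat_lit 79) (nat_lit 5) (nat_lit 80) (nat_lit 5) (nat_lit 259) (nat_lit 255) (nat_lit 206))))) (XT.nd (nat_lit 156) (nat_lit 912) (nat_lit 0) (XT.nd (nat_lit 78) (nat_lit 0) (nat_lit 0) (XT.lf (nat_lit 0) (nat_lit 5542561983) (nat_lit 684) (nat_lit 8940811734) (nat_lit 760) (nat_lit 1646358088) (nat_lit 71) (nat_lit 5) (nat_lit 80) (nat_lit 5) (nat_lit 81) (nat_lit 5) (nat_lit 260) (nat_lit 255) (nat_lit 205)) (XT.lf (nat_lit 76) (nat_lit 2482399258) (nat_lit 0) (nat_lit 4965046348) (nat_lit 760) (nat_lit 9366614544) (nat_lit 72) (nat_lit 5) (nat_lit 71) (nat_lit 5) (nat_lit 81) (nat_lit 5) (nat_lit 261) (nat_lit 255) (nat_lit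 204))) (XT.nd (nat_lit 78) (nat_lit 988) (nat_lit 0) (XT.lf (nat_lit 0) (nat_lit 9707869261) (nat_lit 684) (nat_lit 2525381563) (nat_lit 76) (nat_lit 5309861106) (nat_lit 72) (nat_lit 5) (nat_lit 81) (nat_lit 5) (nat_lit 73) (nat_lit 5) (nat_lit 262) (nat_lit 255) (nat_lit 203)) (XT.nd (nat_lit 78) (nat_lit 304) (nat_lit 0) (XT.lf (nat_lit 0) (nat_lit 10445211502) (nat_lit 684) (nat_lit 1915413068) (nat_lit 760) (nat_lit 5959413058) (nat_lit 63) (nat_lit 5) (nat_lit 72) (nat_lit 5) (nat_lit 73) (nat_lit 5) (nat_lit 263) (nat_lit 255) (nat_lit 202)) (XT.lf (nat_lit 0) (nat_lit 5382934777) (nat_lit 304) (nat_lit 10082404519) (nat_lit 380) (nat_lit 3681906564) (nat_lit 59) (nat_lit 5) (nat_lit 63) (nat_lit 5) (nat_lit 64) (nat_lit 5) (nat_lit 264) (nat_lit 255) (nat_lit 201)))))) (XT.nd (nat_lit 390) (nat_lit 988) (nat_lit 0) (XT.nd (nat_lit 156) (nat_lit 608) (nat_lit 0) (XT.nd (nat_lit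 78) (nat_lit 456) (nat_lit 0) (XT.lf (nat_lit 0) (nat_lit 18971312539) (nat_lit 380) (nat_lit 129635674) (nat_lit 76) (nat_lit 932145350) (nat_lit 59) (nat_lit 5) (nat_lit 64) (nat_lit 5) (nat_lit 60) (nat_lit 5) (nat_lit 265) (nat_lit 255) (nat_lit 200)) (XT.lf (nat_lit 0) (nat_lit 2090822244) (nat_lit 456) (nat_lit 6132393448) (nat_lit 76) (nat_lit 12746334839) (nat_lit 53) (nat_lit 5) (nat_lit 59) (nat_lit 5) (nat_lit 54) (nat_lit 5) (nat_lit 266) (nat_lit 255) (nat_lit 199))) (XT.nd (nat_lit 78) (nat_lit 304) (nat_lit 0) (XT.lf (nat_lit 0) (nat_lit 5636130393) (nat_lit 380) (nat_lit 12756810510) (nat_lit 76) (nat_lit 3578315296) (nat_lit 49) (nat_lit 5) (nat_lit 54) (nat_lit 5) (nat_lit 50) (nat_lit 5) (nat_lit 267) (nat_lit 255) (nat_lit 198)) (XT.nd (nat_lit 78) (nat_lit 0) (nat_lit 0) (XT.lf (nat_lit 0) (nat_lit 2883047713) (nat_lit 304) (nat_lit 6848225714) (nat_lit 380) (nat_lit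 13308595185) (nat_lit 45) (nat_lit 5) (nat_lit 49) (nat_lit 5) (nat_lit 50) (nat_lit 5) (nat_lit 268) (nat_lit 255) (nat_lit 197)) (XT.lf (nat_lit 0) (nat_lit 14443040051) (nat_lit 380) (nat_lit 4073676633) (nat_lit 76) (nat_lit 5662877544) (nat_lit 45) (nat_lit 5) (nat_lit 50) (nat_lit 5) (nat_lit 46) (nat_lit 5) (nat_lit 269) (nat_lit 255) (nat_lit 196))))) (XT.nd (nat_lit 156) (nat_lit 532) (nat_lit 0) (XT.nd (nat_lit 78) (nat_lit 228) (nat_lit 0) (XT.lf (nat_lit 0) (nat_lit 13588654707) (nat_lit 228) (nat_lit 6247954312) (nat_lit 304) (nat_lit 5558715100) (nat_lit 42) (nat_lit 5) (nat_lit 45) (nat_lit 5) (nat_lit 46) (nat_lit 5) (nat_lit 270) (nat_lit 255) (nat_lit 195)) (XT.lf (nat_lit 0) (nat_lit 6164682245) (nat_lit 228) (nat_lit 19753127671) (nat_lit 304) (nat_lit 777759309) (nat_lit 39) (nat_lit 5) (nat_lit 42) (nat_lit 5) (nat_lit 43) (nat_lit 5) (nat_lit 271) (nat_lit 255)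 (nat_lit 194))) (XT.nd (nat_lit 78) (nat_lit 456) (nat_lit 0) (XT.lf (nat_lit 0) (nat_lit 4538945470) (nat_lit 304) (nat_lit 2297784628) (nat_lit 76) (nat_lit 21245054702) (nat_lit 38) (nat_lit 5) (nat_lit 42) (nat_lit 5) (nat_lit 39) (nat_lit 5) (nat_lit 272) (nat_lit 255) (nat_lit 193)) (XT.nd (nat_lit 78) (nat_lit 228) (nat_lit 0) (XT.lf (nat_lit 0) (nat_lit 10630610519) (nat_lit 304) (nat_lit 11750738092) (nat_lit 76) (nat_lit 7178120237) (nat_lit 35) (nat_lit 5) (nat_lit 39) (nat_lit 5) (nat_lit 36) (nat_lit 5) (nat_lit 273) (nat_lit 255) (nat_lit 192)) (XT.lf (nat_lit 0) (nat_lit 8587109676) (nat_lit 228) (nat_lit 8894296429) (nat_lit 304) (nat_lit 13660420143) (nat_lit 32) (nat_lit 5) (nat_lit 35) (nat_lit 5) (nat_lit 36) (nat_lit 5) (nat_lit 274) (nat_lit 255) (nat_lit 191))))))))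
noncomputable def xc79 : XT := (XT.nd (nat_lit 1482) (nat_lit 532) (nat_lit 0) (XT.nd (nat_lit 702) (nat_lit 760) (nat_lit 0) (XT.nd (nat_lit 312) (nat_lit 532) (nat_lit 0) (XT.nd (nat_lit 156) (nat_lit 304) (nat_lit 0) (XT.nd (nat_lit 78) (nat_lit 152) (nat_lit 0) (XT.lf (nat_lit 0) (nat_lit 25159524832) (nat_lit 304) (nat_lit 1984854524) (nat_lit 76) (nat_lit 5692474813) (nat_lit 32) (nat_lit 5) (nat_lit 36) (nat_lit 5) (nat_lit 33) (nat_lit 5) (nat_lit 275) (nat_lit 255) (nat_lit 190)) (XT.lf (nat_lit 0) (nat_lit 20721611810) (nat_lit 152) (nat_lit 13187724242) (nat_lit 228) (nat_lit 735317699) (nat_lit 30) (nat_lit 5) (nat_lit 32) (nat_lit 5) (nat_lit 33) (nat_lit 5) (nat_lit 276) (nat_lit 255) (nat_lit 189))) (XT.nd (nat_lit 78) (nat_lit 0) (nat_lit 0) (XT.lf (nat_lit 0) (nat_lit 6737786387) (nat_lit 304) (nat_lit 27741574409) (nat_lit 76) (nat_lit 2102866459) (nat_lit 26) (nat_lit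 5) (nat_lit 30) (nat_lit 5) (nat_lit 27) (nat_lit 5) (nat_lit 277) (nat_lit 255) (nat_lit 188)) (XT.lf (nat_lit 0) (nat_lit 15237438154) (nat_lit 304) (nat_lit 5000329567) (nat_lit 76) (nat_lit 18413747082) (nat_lit 26) (nat_lit 5) (nat_lit 30) (nat_lit 5) (nat_lit 27) (nat_lit 5) (nat_lit 278) (nat_lit 255) (nat_lit 187)))) (XT.nd (nat_lit 156) (nat_lit 228) (nat_lit 0) (XT.nd (nat_lit 78) (nat_lit 152) (nat_lit 0) (XT.lf (nat_lit 0) (nat_lit 20186363665) (nat_lit 152) (nat_lit 4532198789) (nat_lit 228) (nat_lit 16152739317) (nat_lit 24) (nat_lit 5) (nat_lit 26) (nat_lit 5) (nat_lit 27) (nat_lit 5) (nat_lit 279) (nat_lit 255) (nat_lit 186)) (XT.lf (nat_lit 0) (nat_lit 4222226040) (nat_lit 152) (nat_lit 31071419641) (nat_lit 228) (nat_lit 7958281668) (nat_lit 22) (nat_lit 5) (nat_lit 24) (nat_lit 5) (nat_lit 25) (nat_lit 5) (nat_lit 280) (nat_lit 255) (nat_lit 185))) (XT.nd (nat_lit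 78) (nat_lit 152) (nat_lit 0) (XT.lf (nat_lit 0) (nat_lit 1293235319) (nat_lit 228) (nat_lit 14059865231) (nat_lit 76) (nat_lit 30447729781) (nat_lit 21) (nat_lit 5) (nat_lit 24) (nat_lit 5) (nat_lit 22) (nat_lit 5) (nat_lit 281) (nat_lit 255) (nat_lit 184)) (XT.nd (nat_lit 78) (nat_lit 0) (nat_lit 0) (XT.lf (nat_lit 0) (nat_lit 11234658603) (nat_lit 228) (nat_lit 35390763126) (nat_lit 76) (nat_lit 1910294187) (nat_lit 19) (nat_lit 5) (nat_lit 22) (nat_lit 5) (nat_lit 20) (nat_lit 5) (nat_lit 282) (nat_lit 255) (nat_lit 183)) (XT.lf (nat_lit 0) (nat_lit 22468041827) (nat_lit 228) (nat_lit 8729339448) (nat_lit 76) (nat_lit 20267200775) (nat_lit 19) (nat_lit 5) (nat_lit 22) (nat_lit 5) (nat_lit 20) (nat_lit 5) (nat_lit 283) (nat_lit 255) (nat_lit 182)))))) (XT.nd (nat_lit 390) (nat_lit 304) (nat_lit 0) (XT.nd (nat_lit 156) (nat_lit 304) (nat_lit 0) (XT.nd (nat_lit 78) (nat_lit 0) (nat_lit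 0) (XT.lf (nat_lit 0) (nat_lit 20711673242) (nat_lit 152) (nat_lit 14201452688) (nat_lit 228) (nat_lit 19699000406) (nat_lit 17) (nat_lit 5) (nat_lit 19) (nat_lit 5) (nat_lit 20) (nat_lit 5) (nat_lit 284) (nat_lit 255) (nat_lit 181)) (XT.lf (nat_lit 0) (nat_lit 48563324112) (nat_lit 228) (nat_lit 5267476004) (nat_lit 76) (nat_lit 4170217546) (nat_lit 17) (nat_lit 5) (nat_lit 20) (nat_lit 5) (nat_lit 18) (nat_lit 4) (nat_lit 285) (nat_lit 255) (nat_lit 180))) (XT.nd (nat_lit 78) (nat_lit 152) (nat_lit 0) (XT.lf (nat_lit 0) (nat_lit 2242359392) (nat_lit 152) (nat_lit 35423387930) (nat_lit 76) (nat_lit 23961482014) (nat_lit 15) (nat_lit 5) (nat_lit 17) (nat_lit 5) (nat_lit 16) (nat_lit 5) (nat_lit 286) (nat_lit 255) (nat_lit 179)) (XT.nd (nat_lit 78) (nat_lit 152) (nat_lit 0) (XT.lf (nat_lit 0) (nat_lit 14614977477) (nat_lit 152) (nat_lit 5333056118) (nat_lit 76) (nat_lit 45583343351) (nat_lit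 15) (nat_lit 5) (nat_lit 17) (nat_lit 5) (nat_lit 16) (nat_lit 5) (nat_lit 287) (nat_lit 255) (nat_lit 178)) (XT.lf (nat_lit 0) (nat_lit 28048881326) (nat_lit 152) (nat_lit 358233309) (nat_lit 228) (nat_lit 41319270511) (nat_lit 13) (nat_lit 5) (nat_lit 15) (nat_lit 5) (nat_lit 16) (nat_lit 5) (nat_lit 288) (nat_lit 255) (nat_lit 177))))) (XT.nd (nat_lit 156) (nat_lit 228) (nat_lit 0) (XT.nd (nat_lit 78) (nat_lit 76) (nat_lit 0) (XT.lf (nat_lit 0) (nat_lit 43713889936) (nat_lit 228) (nat_lit 10299888654) (nat_lit 76) (nat_lit 20222665260) (nat_lit 13) (nat_lit 5) (nat_lit 16) (nat_lit 5) (nat_lit 14) (nat_lit 4) (nat_lit 289) (nat_lit 255) (nat_lit 176)) (XT.lf (nat_lit 0) (nat_lit 24349083421) (nat_lit 76) (nat_lit 36275024568) (nat_lit 152) (nat_lit 18464266453) (nat_lit 12) (nat_lit 5) (nat_lit 13) (nat_lit 5) (nat_lit 14) (nat_lit 4) (nat_lit 290) (nat_lit 255) (nat_lit 175))) (XT.nd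 (nat_lit 78) (nat_lit 228) (nat_lit 0) (XT.lf (nat_lit 0) (nat_lit 62126171749) (nat_lit 76) (nat_lit 16933451293) (nat_lit 152) (nat_lit 5260223783) (nat_lit 12) (nat_lit 5) (nat_lit 13) (nat_lit 5) (nat_lit 14) (nat_lit 4) (nat_lit 291) (nat_lit 255) (nat_lit 174)) (XT.nd (nat_lit 78) (nat_lit 0) (nat_lit 0) (XT.lf (nat_lit 0) (nat_lit 8979435360) (nat_lit 228) (nat_lit 76792737280) (nat_lit 76) (nat_lit 4177280779) (nat_lit 9) (nat_lit 5) (nat_lit 12) (nat_lit 5) (nat_lit 10) (nat_lit 4) (nat_lit 292) (nat_lit 255) (nat_lit 173)) (XT.lf (nat_lit 0) (nat_lit 24848618867) (nat_lit 228) (nat_lit 44273744663) (nat_lit 76) (nat_lit 26869030386) (nat_lit 9) (nat_lit 5) (nat_lit 12) (nat_lit 5) (nat_lit 10) (nat_lit 4) (nat_lit 293) (nat_lit 255) (nat_lit 172))))))) (XT.nd (nat_lit 780) (nat_lit 228) (nat_lit 0) (XT.nd (nat_lit 390) (nat_lit 152) (nat_lit 0) (XT.nd (nat_lit 156) (nat_lit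 76) (nat_lit 0) (XT.nd (nat_lit 78) (nat_lit 76) (nat_lit 0) (XT.lf (nat_lit 0) (nat_lit 41981516984) (nat_lit 228) (nat_lit 9163186457) (nat_lit 76) (nat_lit 51372285772) (nat_lit 9) (nat_lit 5) (nat_lit 12) (nat_lit 5) (nat_lit 10) (nat_lit 4) (nat_lit 294) (nat_lit 255) (nat_lit 171)) (XT.lf (nat_lit 0) (nat_lit 29697505544) (nat_lit 76) (nat_lit 31245813743) (nat_lit 152) (nat_lit 48598407159) (nat_lit 8) (nat_lit 5) (nat_lit 9) (nat_lit 5) (nat_lit 10) (nat_lit 4) (nat_lit 295) (nat_lit 255) (nat_lit 170))) (XT.nd (nat_lit 78) (nat_lit 76) (nat_lit 0) (XT.lf (nat_lit 0) (nat_lit 71985451376) (nat_lit 76) (nat_lit 9591103781) (nat_lit 152) (nat_lit 35544170368) (nat_lit 8) (nat_lit 5) (nat_lit 9) (nat_lit 5) (nat_lit 10) (nat_lit 4) (nat_lit 296) (nat_lit 255) (nat_lit 169)) (XT.nd (nat_lit 78) (nat_lit 76) (nat_lit 0) (XT.lf (nat_lit 0) (nat_lit 104071042927) (nat_lit 152) (nat_lit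 7873359397) (nat_lit 0) (nat_lit 13351119350) (nat_lit 8) (nat_lit 5) (nat_lit 10) (nat_lit 4) (nat_lit 8) (nat_lit 4) (nat_lit 297) (nat_lit 255) (nat_lit 168)) (XT.lf (nat_lit 0) (nat_lit 33264729096) (nat_lit 76) (nat_lit 95776994494) (nat_lit 76) (nat_lit 5048752524) (nat_lit 7) (nat_lit 4) (nat_lit 8) (nat_lit 5) (nat_lit 8) (nat_lit 4) (nat_lit 298) (nat_lit 255) (nat_lit 167))))) (XT.nd (nat_lit 156) (nat_lit 76) (nat_lit 0) (XT.nd (nat_lit 78) (nat_lit 0) (nat_lit 0) (XT.lf (nat_lit 0) (nat_lit 12158571844) (nat_lit 152) (nat_lit 65810871904) (nat_lit 76) (nat_lit 65603137821) (nat_lit 6) (nat_lit 5) (nat_lit 8) (nat_lit 5) (nat_lit 7) (nat_lit 4) (nat_lit 299) (nat_lit 255) (nat_lit 166)) (XT.lf (nat_lit 0) (nat_lit 30563975679) (nat_lit 152) (nat_lit 28086925723) (nat_lit 76) (nat_lit 95158302014) (nat_lit 6) (nat_lit 5) (nat_lit 8) (nat_lit 5) (nat_lit 7) (nat_lit 4) (nat_lit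 300) (nat_lit 255) (nat_lit 165))) (XT.nd (nat_lit 78) (nat_lit 0) (nat_lit 0) (XT.lf (nat_lit 0) (nat_lit 13066681419) (nat_lit 76) (nat_lit 37575445748) (nat_lit 152) (nat_lit 114212616833) (nat_lit 5) (nat_lit 5) (nat_lit 6) (nat_lit 5) (nat_lit 7) (nat_lit 4) (nat_lit 301) (nat_lit 255) (nat_lit 164)) (XT.nd (nat_lit 78) (nat_lit 0) (nat_lit 0) (XT.lf (nat_lit 0) (nat_lit 58509363235) (nat_lit 76) (nat_lit 14302908363) (nat_lit 152) (nat_lit 103947373596) (nat_lit 5) (nat_lit 5) (nat_lit 6) (nat_lit 5) (nat_lit 7) (nat_lit 4) (nat_lit 302) (nat_lit 255) (nat_lit 163)) (XT.lf (nat_lit 0) (nat_lit 96921843032) (nat_lit 152) (nat_lit 82204446584) (nat_lit 0) (nat_lit 10482362173) (nat_lit 5) (nat_lit 5) (nat_lit 7) (nat_lit 4) (nat_lit 5) (nat_lit 4) (nat_lit 303) (nat_lit 255) (nat_lit 162)))))) (XT.nd (nat_lit 390) (nat_lit 152) (nat_lit 0) (XT.nd (nat_lit 156) (nat_lit 76) (nat_lit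 0) (XT.nd (nat_lit 78) (nat_lit 0) (nat_lit 0) (XT.lf (nat_lit 0) (nat_lit 123198303748) (nat_lit 152) (nat_lit 43521542252) (nat_lit 0) (nat_lit 36753830509) (nat_lit 5) (nat_lit 5) (nat_lit 7) (nat_lit 4) (nat_lit 5) (nat_lit 4) (nat_lit 304) (nat_lit 255) (nat_lit 161)) (XT.lf (nat_lit 0) (nat_lit 151574057624) (nat_lit 152) (nat_lit 1749028454) (nat_lit 0) (nat_lit 65124961811) (nat_lit 5) (nat_lit 5) (nat_lit 7) (nat_lit 4) (nat_lit 5) (nat_lit 4) (nat_lit 305) (nat_lit 255) (nat_lit 160))) (XT.nd (nat_lit 78) (nat_lit 0) (nat_lit 0) (XT.lf (nat_lit 0) (nat_lit 44794334068) (nat_lit 76) (nat_lit 138122288297) (nat_lit 76) (nat_lit 51668912323) (nat_lit 4) (nat_lit 4) (nat_lit 5) (nat_lit 5) (nat_lit 5) (nat_lit 4) (nat_lit 306) (nat_lit 255) (nat_lit 159)) (XT.nd (nat_lit 78) (nat_lit 0) (nat_lit 0) (XT.lf (nat_lit 0) (nat_lit 95119174139) (nat_lit 76) (nat_lit 121675394772) (nat_lit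 76) (nat_lit 35218055687) (nat_lit 4) (nat_lit 4) (nat_lit 5) (nat_lit 5) (nat_lit 5) (nat_lit 4) (nat_lit 307) (nat_lit 255) (nat_lit 158)) (XT.lf (nat_lit 0) (nat_lit 149465882252) (nat_lit 76) (nat_lit 103914563075) (nat_lit 76) (nat_lit 17453554442) (nat_lit 4) (nat_lit 4) (nat_lit 5) (nat_lit 5) (nat_lit 5) (nat_lit 4) (nat_lit 308) (nat_lit 255) (nat_lit 157))))) (XT.nd (nat_lit 156) (nat_lit 76) (nat_lit 0) (XT.nd (nat_lit 78) (nat_lit 0) (nat_lit 0) (XT.lf (nat_lit 0) (nat_lit 1674496126) (nat_lit 152) (nat_lit 83031689304) (nat_lit 76) (nat_lit 206453658445) (nat_lit 3) (nat_lit 5) (nat_lit 5) (nat_lit 5) (nat_lit 4) (nat_lit 4) (nat_lit 309) (nat_lit 255) (nat_lit 156)) (XT.lf (nat_lit 0) (nat_lit 21727466569) (nat_lit 152) (nat_lit 41926245942) (nat_lit 76) (nat_lit 249443430905) (nat_lit 3) (nat_lit 5) (nat_lit 5) (nat_lit 5) (nat_lit 4) (nat_lit 4) (nat_lit 310) (nat_lit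 255) (nat_lit 155))) (XT.nd (nat_lit 78) (nat_lit 0) (nat_lit 0) (XT.lf (nat_lit 0) (nat_lit 2545780143) (nat_lit 76) (nat_lit 40876778665) (nat_lit 152) (nat_lit 293364976002) (nat_lit 2) (nat_lit 5) (nat_lit 3) (nat_lit 5) (nat_lit 4) (nat_lit 4) (nat_lit 311) (nat_lit 255) (nat_lit 154)) (XT.nd (nat_lit 78) (nat_lit 0) (nat_lit 0) (XT.lf (nat_lit 0) (nat_lit 52069552299) (nat_lit 76) (nat_lit 15512259867) (nat_lit 152) (nat_lit 294754919607) (nat_lit 2) (nat_lit 5) (nat_lit 3) (nat_lit 5) (nat_lit 4) (nat_lit 4) (nat_lit 312) (nat_lit 255) (nat_lit 153)) (XT.lf (nat_lit 0) (nat_lit 93857644639) (nat_lit 152) (nat_lit 284563156570) (nat_lit 0) (nat_lit 11499873139) (nat_lit 2) (nat_lit 5) (nat_lit 4) (nat_lit 4) (nat_lit 2) (nat_lit 4) (nat_lit 313) (nat_lit 255) (nat_lit 152))))))))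
noncomputable def xc80 : XT := (XT.nd (nat_lit 33696) (nat_lit 0) (nat_lit 1368) (XT.nd (nat_lit 702) (nat_lit 0) (nat_lit 0) (XT.nd (nat_lit 312) (nat_lit 76) (nat_lit 0) (XT.nd (nat_lit 156) (nat_lit 0) (nat_lit 0) (XT.nd (nat_lit 78) (nat_lit 0) (nat_lit 0) (XT.lf (nat_lit 0) (nat_lit 122495568541) (nat_lit 152) (nat_lit 257067169495) (nat_lit 0) (nat_lit 40135594719) (nat_lit 2) (nat_lit 5) (nat_lit 4) (nat_lit 4) (nat_lit 2) (nat_lit 4) (nat_lit 314) (nat_lit 255) (nat_lit 151)) (XT.lf (nat_lit 0) (nat_lit 153423100236) (nat_lit 152) (nat_lit 227374089218) (nat_lit 0) (nat_lit 71061087228) (nat_lit 2) (nat_lit 5) (nat_lit 4) (nat_lit 4) (nat_lit 2) (nat_lit 4) (nat_lit 315) (nat_lit 255) (nat_lit 150))) (XT.nd (nat_lit 78) (nat_lit 0) (nat_lit 0) (XT.lf (nat_lit 0) (nat_lit 186823513988) (nat_lit 152) (nat_lit 195307956743) (nat_lit 0) (nat_lit 104459612844) (nat_lit 2) (nat_lit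 5) (nat_lit 4) (nat_lit 4) (nat_lit 2) (nat_lit 4) (nat_lit 316) (nat_lit 255) (nat_lit 149)) (XT.lf (nat_lit 0) (nat_lit 222894738174) (nat_lit 152) (nat_lit 160678750545) (nat_lit 0) (nat_lit 140529088756) (nat_lit 2) (nat_lit 5) (nat_lit 4) (nat_lit 4) (nat_lit 2) (nat_lit 4) (nat_lit 317) (nat_lit 255) (nat_lit 148)))) (XT.nd (nat_lit 156) (nat_lit 76) (nat_lit 0) (XT.nd (nat_lit 78) (nat_lit 0) (nat_lit 0) (XT.lf (nat_lit 0) (nat_lit 261850528197) (nat_lit 152) (nat_lit 123281260513) (nat_lit 0) (nat_lit 179483260007) (nat_lit 2) (nat_lit 5) (nat_lit 4) (nat_lit 4) (nat_lit 2) (nat_lit 4) (nat_lit 318) (nat_lit 255) (nat_lit 147)) (XT.lf (nat_lit 0) (nat_lit 303921733183) (nat_lit 152) (nat_lit 82893871892) (nat_lit 0) (nat_lit 221552966129) (nat_lit 2) (nat_lit 5) (nat_lit 4) (nat_lit 4) (nat_lit 2) (nat_lit 4) (nat_lit 319) (nat_lit 255) (nat_lit 146))) (XT.nd (nat_lit 78) (nat_lit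 76) (nat_lit 0) (XT.lf (nat_lit 0) (nat_lit 349357663975) (nat_lit 152) (nat_lit 39277252008) (nat_lit 0) (nat_lit 266987509085) (nat_lit 2) (nat_lit 5) (nat_lit 4) (nat_lit 4) (nat_lit 2) (nat_lit 4) (nat_lit 320) (nat_lit 255) (nat_lit 145)) (XT.nd (nat_lit 78) (nat_lit 0) (nat_lit 0) (XT.lf (nat_lit 0) (nat_lit 8085866213) (nat_lit 76) (nat_lit 390467947354) (nat_lit 76) (nat_lit 308096507431) (nat_lit 1) (nat_lit 4) (nat_lit 2) (nat_lit 5) (nat_lit 2) (nat_lit 4) (nat_lit 321) (nat_lit 255) (nat_lit 144)) (XT.lf (nat_lit 0) (nat_lit 60639053236) (nat_lit 76) (nat_lit 391729929819) (nat_lit 76) (nat_lit 309357300049) (nat_lit 1) (nat_lit 4) (nat_lit 2) (nat_lit 5) (nat_lit 2) (nat_lit 4) (nat_lit 322) (nat_lit 255) (nat_lit 143)))))) (XT.nd (nat_lit 32604) (nat_lit 0) (nat_lit 4712) (XT.nd (nat_lit 32370) (nat_lit 0) (nat_lit 5092) (XT.nd (nat_lit 32292) (nat_lit 0) (nat_lit 5092)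 (XT.lf (nat_lit 0) (nat_lit 117395052023) (nat_lit 76) (nat_lit 393093521060) (nat_lit 76) (nat_lit 310719789581) (nat_lit 1) (nat_lit 4) (nat_lit 2) (nat_lit 5) (nat_lit 2) (nat_lit 4) (nat_lit 323) (nat_lit 255) (nat_lit 142)) (XT.lf (nat_lit 0) (nat_lit 289025745) (nat_lit 0) (nat_lit 289025745) (nat_lit 684) (nat_lit 6571118442) (nat_lit 68) (nat_lit 5) (nat_lit 68) (nat_lit 3) (nat_lit 77) (nat_lit 3) (nat_lit 256) (nat_lit 256) (nat_lit 208))) (XT.nd (nat_lit 78) (nat_lit 0) (nat_lit 76) (XT.lf (nat_lit 0) (nat_lit 1816072980) (nat_lit 684) (nat_lit 4233921662) (nat_lit 760) (nat_lit 8787897312) (nat_lit 68) (nat_lit 5) (nat_lit 77) (nat_lit 3) (nat_lit 78) (nat_lit 5) (nat_lit 257) (nat_lit 256) (nat_lit 207)) (XT.nd (nat_lit 78) (nat_lit 0) (nat_lit 0) (XT.lf (nat_lit 0) (nat_lit 2644072417) (nat_lit 684) (nat_lit 9301118236) (nat_lit 760) (nat_lit 3469825570) (nat_lit 69) (nat_lit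 5) (nat_lit 78) (nat_lit 5) (nat_lit 79) (nat_lit 5) (nat_lit 258) (nat_lit 256) (nat_lit 206)) (XT.lf (nat_lit 76) (nat_lit 1317051870) (nat_lit 0) (nat_lit 2375307621) (nat_lit 760) (nat_lit 12338405598) (nat_lit 70) (nat_lit 5) (nat_lit 69) (nat_lit 5) (nat_lit 79) (nat_lit 5) (nat_lit 259) (nat_lit 256) (nat_lit 205))))) (XT.nd (nat_lit 156) (nat_lit 532) (nat_lit 0) (XT.nd (nat_lit 78) (nat_lit 0) (nat_lit 76) (XT.lf (nat_lit 0) (nat_lit 5072995867) (nat_lit 684) (nat_lit 3726965782) (nat_lit 760) (nat_lit 7883533305) (nat_lit 70) (nat_lit 5) (nat_lit 79) (nat_lit 5) (nat_lit 80) (nat_lit 5) (nat_lit 260) (nat_lit 256) (nat_lit 204)) (XT.lf (nat_lit 0) (nat_lit 6722482694) (nat_lit 684) (nat_lit 9069026929) (nat_lit 760) (nat_lit 1589148243) (nat_lit 71) (nat_lit 5) (nat_lit 80) (nat_lit 5) (nat_lit 81) (nat_lit 5) (nat_lit 261) (nat_lit 256) (nat_lit 203))) (XT.nd (nat_lit 78)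 (nat_lit 608) (nat_lit 0) (XT.lf (nat_lit 76) (nat_lit 3242528476) (nat_lit 0) (nat_lit 5491438979) (nat_lit 760) (nat_lit 9388249071) (nat_lit 72) (nat_lit 5) (nat_lit 71) (nat_lit 5) (nat_lit 81) (nat_lit 5) (nat_lit 262) (nat_lit 256) (nat_lit 202)) (XT.nd (nat_lit 78) (nat_lit 684) (nat_lit 0) (XT.lf (nat_lit 0) (nat_lit 11122192505) (nat_lit 684) (nat_lit 2171372538) (nat_lit 76) (nat_lit 5618859188) (nat_lit 72) (nat_lit 5) (nat_lit 81) (nat_lit 5) (nat_lit 73) (nat_lit 5) (nat_lit 263) (nat_lit 256) (nat_lit 201)) (XT.lf (nat_lit 0) (nat_lit 11812703171) (nat_lit 684) (nat_lit 2135532552) (nat_lit 760) (nat_lit 5805381699) (nat_lit 63) (nat_lit 5) (nat_lit 72) (nat_lit 5) (nat_lit 73) (nat_lit 5) (nat_lit 264) (nat_lit 256) (nat_lit 200))))))) (XT.nd (nat_lit 702) (nat_lit 1444) (nat_lit 0) (XT.nd (nat_lit 312) (nat_lit 836) (nat_lit 0) (XT.nd (nat_lit 156) (nat_lit 380) (nat_lit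 0) (XT.nd (nat_lit 78) (nat_lit 380) (nat_lit 0) (XT.lf (nat_lit 0) (nat_lit 6353960106) (nat_lit 304) (nat_lit 10910484921) (nat_lit 380) (nat_lit 3384555872) (nat_lit 59) (nat_lit 5) (nat_lit 63) (nat_lit 5) (nat_lit 64) (nat_lit 5) (nat_lit 265) (nat_lit 256) (nat_lit 199)) (XT.lf (nat_lit 0) (nat_lit 401310760) (nat_lit 380) (nat_lit 20613919682) (nat_lit 456) (nat_lit 592412276) (nat_lit 54) (nat_lit 5) (nat_lit 59) (nat_lit 5) (nat_lit 60) (nat_lit 5) (nat_lit 266) (nat_lit 256) (nat_lit 198))) (XT.nd (nat_lit 78) (nat_lit 304) (nat_lit 0) (XT.lf (nat_lit 0) (nat_lit 2757037095) (nat_lit 456) (nat_lit 6099404920) (nat_lit 76) (nat_lit 13764148662) (nat_lit 53) (nat_lit 5) (nat_lit 59) (nat_lit 5) (nat_lit 54) (nat_lit 5) (nat_lit 267) (nat_lit 256) (nat_lit 197)) (XT.lf (nat_lit 0) (nat_lit 6557314259) (nat_lit 380) (nat_lit 13252063625) (nat_lit 76) (nat_lit 3894604470) (nat_lit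 49) (nat_lit 5) (nat_lit 54) (nat_lit 5) (nat_lit 50) (nat_lit 5) (nat_lit 268) (nat_lit 256) (nat_lit 196)))) (XT.nd (nat_lit 156) (nat_lit 532) (nat_lit 0) (XT.nd (nat_lit 78) (nat_lit 0) (nat_lit 0) (XT.lf (nat_lit 0) (nat_lit 3616154717) (nat_lit 304) (nat_lit 7336922326) (nat_lit 380) (nat_lit 13906464426) (nat_lit 45) (nat_lit 5) (nat_lit 49) (nat_lit 5) (nat_lit 50) (nat_lit 5) (nat_lit 269) (nat_lit 256) (nat_lit 195)) (XT.lf (nat_lit 0) (nat_lit 16009803087) (nat_lit 380) (nat_lit 3913407668) (nat_lit 76) (nat_lit 6168933590) (nat_lit 45) (nat_lit 5) (nat_lit 50) (nat_lit 5) (nat_lit 46) (nat_lit 5) (nat_lit 270) (nat_lit 256) (nat_lit 194))) (XT.nd (nat_lit 78) (nat_lit 304) (nat_lit 0) (XT.lf (nat_lit 0) (nat_lit 15140782123) (nat_lit 228) (nat_lit 6670867813) (nat_lit 304) (nat_lit 5594735771) (nat_lit 42) (nat_lit 5) (nat_lit 45) (nat_lit 5) (nat_lit 46) (nat_lit 5) (nat_lit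 271) (nat_lit 256) (nat_lit 193)) (XT.nd (nat_lit 78) (nat_lit 76) (nat_lit 0) (XT.lf (nat_lit 0) (nat_lit 7121203861) (nat_lit 228) (nat_lit 21237740158) (nat_lit 304) (nat_lit 452812379) (nat_lit 39) (nat_lit 5) (nat_lit 42) (nat_lit 5) (nat_lit 43) (nat_lit 5) (nat_lit 272) (nat_lit 256) (nat_lit 192)) (XT.lf (nat_lit 0) (nat_lit 5249075822) (nat_lit 304) (nat_lit 2040162371) (nat_lit 76) (nat_lit 23020792535) (nat_lit 38) (nat_lit 5) (nat_lit 42) (nat_lit 5) (nat_lit 39) (nat_lit 5) (nat_lit 273) (nat_lit 256) (nat_lit 191)))))) (XT.nd (nat_lit 390) (nat_lit 532) (nat_lit 0) (XT.nd (nat_lit 156) (nat_lit 456) (nat_lit 0) (XT.nd (nat_lit 78) (nat_lit 228) (nat_lit 0) (XT.lf (nat_lit 0) (nat_lit 11810435138) (nat_lit 304) (nat_lit 12252738799) (nat_lit 76) (nat_lit 7843707593) (nat_lit 35) (nat_lit 5) (nat_lit 39) (nat_lit 5) (nat_lit 36) (nat_lit 5) (nat_lit 274) (nat_lit 256) (nat_lit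 190)) (XT.lf (nat_lit 0) (nat_lit 9693099309) (nat_lit 228) (nat_lit 9498338947) (nat_lit 304) (nat_lit 14425346965) (nat_lit 32) (nat_lit 5) (nat_lit 35) (nat_lit 5) (nat_lit 36) (nat_lit 5) (nat_lit 275) (nat_lit 256) (nat_lit 189))) (XT.nd (nat_lit 78) (nat_lit 456) (nat_lit 0) (XT.lf (nat_lit 0) (nat_lit 27462285020) (nat_lit 304) (nat_lit 1742041411) (nat_lit 76) (nat_lit 6244225101) (nat_lit 32) (nat_lit 5) (nat_lit 36) (nat_lit 5) (nat_lit 33) (nat_lit 5) (nat_lit 276) (nat_lit 256) (nat_lit 188)) (XT.nd (nat_lit 78) (nat_lit 304) (nat_lit 0) (XT.lf (nat_lit 0) (nat_lit 22763489119) (nat_lit 152) (nat_lit 14133108302) (nat_lit 228) (nat_lit 505207479) (nat_lit 30) (nat_lit 5) (nat_lit 32) (nat_lit 5) (nat_lit 33) (nat_lit 5) (nat_lit 277) (nat_lit 256) (nat_lit 187)) (XT.lf (nat_lit 0) (nat_lit 7543414399) (nat_lit 304) (nat_lit 29571861078) (nat_lit 76) (nat_lit 2379586453) (nat_lit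 26) (nat_lit 5) (nat_lit 30) (nat_lit 5) (nat_lit 27) (nat_lit 5) (nat_lit 278) (nat_lit 256) (nat_lit 186))))) (XT.nd (nat_lit 156) (nat_lit 380) (nat_lit 0) (XT.nd (nat_lit 78) (nat_lit 152) (nat_lit 0) (XT.lf (nat_lit 0) (nat_lit 16703289782) (nat_lit 304) (nat_lit 5040134373) (nat_lit 76) (nat_lit 19987301180) (nat_lit 26) (nat_lit 5) (nat_lit 30) (nat_lit 5) (nat_lit 27) (nat_lit 5) (nat_lit 279) (nat_lit 256) (nat_lit 185)) (XT.lf (nat_lit 0) (nat_lit 22145839527) (nat_lit 152) (nat_lit 4784158478) (nat_lit 228) (nat_lit 17198784615) (nat_lit 24) (nat_lit 5) (nat_lit 26) (nat_lit 5) (nat_lit 27) (nat_lit 5) (nat_lit 280) (nat_lit 256) (nat_lit 184))) (XT.nd (nat_lit 78) (nat_lit 228) (nat_lit 0) (XT.lf (nat_lit 0) (nat_lit 4899636548) (nat_lit 152) (nat_lit 33441023388) (nat_lit 228) (nat_lit 8359758653) (nat_lit 22) (nat_lit 5) (nat_lit 24) (nat_lit 5) (nat_lit 25) (nat_lit 5)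 (nat_lit 281) (nat_lit 256) (nat_lit 183)) (XT.nd (nat_lit 78) (nat_lit 152) (nat_lit 0) (XT.lf (nat_lit 0) (nat_lit 1607488721) (nat_lit 228) (nat_lit 14862780869) (nat_lit 76) (nat_lit 32983658147) (nat_lit 21) (nat_lit 5) (nat_lit 24) (nat_lit 5) (nat_lit 22) (nat_lit 5) (nat_lit 282) (nat_lit 256) (nat_lit 182)) (XT.lf (nat_lit 0) (nat_lit 12335103001) (nat_lit 228) (nat_lit 37905426574) (nat_lit 76) (nat_lit 2167562537) (nat_lit 19) (nat_lit 5) (nat_lit 22) (nat_lit 5) (nat_lit 20) (nat_lit 5) (nat_lit 283) (nat_lit 256) (nat_lit 181))))))))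
noncomputable def xc81 : XT := (XT.nd (nat_lit 1482) (nat_lit 304) (nat_lit 0) (XT.nd (nat_lit 702) (nat_lit 532) (nat_lit 0) (XT.nd (nat_lit 312) (nat_lit 228) (nat_lit 0) (XT.nd (nat_lit 156) (nat_lit 152) (nat_lit 0) (XT.nd (nat_lit 78) (nat_lit 152) (nat_lit 0) (XT.lf (nat_lit 0) (nat_lit 24452218238) (nat_lit 228) (nat_lit 9134540675) (nat_lit 76) (nat_lit 21985284998) (nat_lit 19) (nat_lit 5) (nat_lit 22) (nat_lit 5) (nat_lit 20) (nat_lit 5) (nat_lit 284) (nat_lit 256) (nat_lit 180)) (XT.lf (nat_lit 0) (nat_lit 22649013265) (nat_lit 152) (nat_lit 15234441651) (nat_lit 228) (nat_lit 21088436794) (nat_lit 17) (nat_lit 5) (nat_lit 19) (nat_lit 5) (nat_lit 20) (nat_lit 5) (nat_lit 285) (nat_lit 256) (nat_lit 179))) (XT.nd (nat_lit 78) (nat_lit 152) (nat_lit 0) (XT.lf (nat_lit 0) (nat_lit 52614028020) (nat_lit 228) (nat_lit 5422206686) (nat_lit 76) (nat_lit 4596266928) (nat_lit 17)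 (nat_lit 5) (nat_lit 20) (nat_lit 5) (nat_lit 18) (nat_lit 4) (nat_lit 286) (nat_lit 256) (nat_lit 178)) (XT.lf (nat_lit 0) (nat_lit 2581961473) (nat_lit 152) (nat_lit 37996604972) (nat_lit 76) (nat_lit 25970552314) (nat_lit 15) (nat_lit 5) (nat_lit 17) (nat_lit 5) (nat_lit 16) (nat_lit 5) (nat_lit 287) (nat_lit 256) (nat_lit 177)))) (XT.nd (nat_lit 156) (nat_lit 76) (nat_lit 0) (XT.nd (nat_lit 78) (nat_lit 152) (nat_lit 0) (XT.lf (nat_lit 0) (nat_lit 15932521351) (nat_lit 152) (nat_lit 5518354319) (nat_lit 76) (nat_lit 49315336503) (nat_lit 15) (nat_lit 5) (nat_lit 17) (nat_lit 5) (nat_lit 16) (nat_lit 5) (nat_lit 288) (nat_lit 256) (nat_lit 176)) (XT.lf (nat_lit 0) (nat_lit 30523649505) (nat_lit 152) (nat_lit 296995743) (nat_lit 228) (nat_lit 44476564077) (nat_lit 13) (nat_lit 5) (nat_lit 15) (nat_lit 5) (nat_lit 16) (nat_lit 5) (nat_lit 289) (nat_lit 256) (nat_lit 175))) (XT.nd (nat_lit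 78) (nat_lit 76) (nat_lit 0) (XT.lf (nat_lit 0) (nat_lit 47342820552) (nat_lit 228) (nat_lit 10904675326) (nat_lit 76) (nat_lit 21921051620) (nat_lit 13) (nat_lit 5) (nat_lit 16) (nat_lit 5) (nat_lit 14) (nat_lit 4) (nat_lit 290) (nat_lit 256) (nat_lit 174)) (XT.nd (nat_lit 78) (nat_lit 0) (nat_lit 0) (XT.lf (nat_lit 0) (nat_lit 26506688158) (nat_lit 76) (nat_lit 39092677152) (nat_lit 152) (nat_lit 19809608126) (nat_lit 12) (nat_lit 5) (nat_lit 13) (nat_lit 5) (nat_lit 14) (nat_lit 4) (nat_lit 291) (nat_lit 256) (nat_lit 173)) (XT.lf (nat_lit 0) (nat_lit 67290411843) (nat_lit 76) (nat_lit 18210026118) (nat_lit 152) (nat_lit 5559004979) (nat_lit 12) (nat_lit 5) (nat_lit 13) (nat_lit 5) (nat_lit 14) (nat_lit 4) (nat_lit 292) (nat_lit 256) (nat_lit 172)))))) (XT.nd (nat_lit 390) (nat_lit 228) (nat_lit 0) (XT.nd (nat_lit 156) (nat_lit 76) (nat_lit 0) (XT.nd (nat_lit 78) (nat_lit 0) (nat_lit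 0) (XT.lf (nat_lit 0) (nat_lit 9811337503) (nat_lit 228) (nat_lit 82741961032) (nat_lit 76) (nat_lit 4586266793) (nat_lit 9) (nat_lit 5) (nat_lit 12) (nat_lit 5) (nat_lit 10) (nat_lit 4) (nat_lit 293) (nat_lit 256) (nat_lit 171)) (XT.lf (nat_lit 0) (nat_lit 26941644778) (nat_lit 228) (nat_lit 47635833837) (nat_lit 76) (nat_lit 29087815365) (nat_lit 9) (nat_lit 5) (nat_lit 12) (nat_lit 5) (nat_lit 10) (nat_lit 4) (nat_lit 294) (nat_lit 256) (nat_lit 170))) (XT.nd (nat_lit 78) (nat_lit 76) (nat_lit 0) (XT.lf (nat_lit 0) (nat_lit 45437386864) (nat_lit 228) (nat_lit 9729750264) (nat_lit 76) (nat_lit 55546200623) (nat_lit 9) (nat_lit 5) (nat_lit 12) (nat_lit 5) (nat_lit 10) (nat_lit 4) (nat_lit 295) (nat_lit 256) (nat_lit 169)) (XT.nd (nat_lit 78) (nat_lit 0) (nat_lit 0) (XT.lf (nat_lit 0) (nat_lit 32232561597) (nat_lit 76) (nat_lit 33678847178) (nat_lit 152) (nat_lit 52388892019) (nat_lit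 8) (nat_lit 5) (nat_lit 9) (nat_lit 5) (nat_lit 10) (nat_lit 4) (nat_lit 296) (nat_lit 256) (nat_lit 168)) (XT.lf (nat_lit 0) (nat_lit 77891746383) (nat_lit 76) (nat_lit 10296696099) (nat_lit 152) (nat_lit 38297530190) (nat_lit 8) (nat_lit 5) (nat_lit 9) (nat_lit 5) (nat_lit 10) (nat_lit 4) (nat_lit 297) (nat_lit 256) (nat_lit 167))))) (XT.nd (nat_lit 156) (nat_lit 152) (nat_lit 0) (XT.nd (nat_lit 78) (nat_lit 76) (nat_lit 0) (XT.lf (nat_lit 0) (nat_lit 112477028361) (nat_lit 152) (nat_lit 8363499866) (nat_lit 0) (nat_lit 14474506425) (nat_lit 8) (nat_lit 5) (nat_lit 10) (nat_lit 4) (nat_lit 8) (nat_lit 4) (nat_lit 298) (nat_lit 256) (nat_lit 166)) (XT.lf (nat_lit 0) (nat_lit 36059563285) (nat_lit 76) (nat_lit 103381938638) (nat_lit 76) (nat_lit 5372285020) (nat_lit 7) (nat_lit 4) (nat_lit 8) (nat_lit 5) (nat_lit 8) (nat_lit 4) (nat_lit 299) (nat_lit 256) (nat_lit 165))) (XT.nd (nat_lit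 78) (nat_lit 76) (nat_lit 0) (XT.lf (nat_lit 0) (nat_lit 13203290404) (nat_lit 152) (nat_lit 70949511697) (nat_lit 76) (nat_lit 70901891551) (nat_lit 6) (nat_lit 5) (nat_lit 8) (nat_lit 5) (nat_lit 7) (nat_lit 4) (nat_lit 300) (nat_lit 256) (nat_lit 164)) (XT.nd (nat_lit 78) (nat_lit 76) (nat_lit 0) (XT.lf (nat_lit 0) (nat_lit 33075790782) (nat_lit 152) (nat_lit 30217000188) (nat_lit 76) (nat_lit 102817727938) (nat_lit 6) (nat_lit 5) (nat_lit 8) (nat_lit 5) (nat_lit 7) (nat_lit 4) (nat_lit 301) (nat_lit 256) (nat_lit 163)) (XT.lf (nat_lit 0) (nat_lit 14223816081) (nat_lit 76) (nat_lit 40533183301) (nat_lit 152) (nat_lit 123282869474) (nat_lit 5) (nat_lit 5) (nat_lit 6) (nat_lit 5) (nat_lit 7) (nat_lit 4) (nat_lit 302) (nat_lit 256) (nat_lit 162))))))) (XT.nd (nat_lit 780) (nat_lit 76) (nat_lit 0) (XT.nd (nat_lit 390) (nat_lit 152) (nat_lit 0) (XT.nd (nat_lit 156) (nat_lit 76) (nat_lit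 0) (XT.nd (nat_lit 78) (nat_lit 0) (nat_lit 0) (XT.lf (nat_lit 0) (nat_lit 63293630949) (nat_lit 76) (nat_lit 15402420562) (nat_lit 152) (nat_lit 112201351719) (nat_lit 5) (nat_lit 5) (nat_lit 6) (nat_lit 5) (nat_lit 7) (nat_lit 4) (nat_lit 303) (nat_lit 256) (nat_lit 161)) (XT.lf (nat_lit 0) (nat_lit 104730679731) (nat_lit 152) (nat_lit 88682807846) (nat_lit 0) (nat_lit 11361033680) (nat_lit 5) (nat_lit 5) (nat_lit 7) (nat_lit 4) (nat_lit 5) (nat_lit 4) (nat_lit 304) (nat_lit 256) (nat_lit 160))) (XT.nd (nat_lit 78) (nat_lit 76) (nat_lit 0) (XT.lf (nat_lit 0) (nat_lit 133105176619) (nat_lit 152) (nat_lit 46912530017) (nat_lit 0) (nat_lit 39731250407) (nat_lit 5) (nat_lit 5) (nat_lit 7) (nat_lit 4) (nat_lit 5) (nat_lit 4) (nat_lit 305) (nat_lit 256) (nat_lit 159)) (XT.nd (nat_lit 78) (nat_lit 76) (nat_lit 0) (XT.lf (nat_lit 0) (nat_lit 163747212392) (nat_lit 152) (nat_lit 1804936271)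 (nat_lit 0) (nat_lit 70369323068) (nat_lit 5) (nat_lit 5) (nat_lit 7) (nat_lit 4) (nat_lit 5) (nat_lit 4) (nat_lit 306) (nat_lit 256) (nat_lit 158)) (XT.lf (nat_lit 0) (nat_lit 48458244087) (nat_lit 76) (nat_lit 149136694392) (nat_lit 76) (nat_lit 55755135520) (nat_lit 4) (nat_lit 4) (nat_lit 5) (nat_lit 5) (nat_lit 5) (nat_lit 4) (nat_lit 307) (nat_lit 256) (nat_lit 157))))) (XT.nd (nat_lit 156) (nat_lit 152) (nat_lit 0) (XT.nd (nat_lit 78) (nat_lit 0) (nat_lit 0) (XT.lf (nat_lit 0) (nat_lit 102803118526) (nat_lit 76) (nat_lit 131376669901) (nat_lit 76) (nat_lit 37991713299) (nat_lit 4) (nat_lit 4) (nat_lit 5) (nat_lit 5) (nat_lit 5) (nat_lit 4) (nat_lit 308) (nat_lit 256) (nat_lit 156)) (XT.lf (nat_lit 0) (nat_lit 161492051403) (nat_lit 76) (nat_lit 112197398072) (nat_lit 76) (nat_lit 18809295424) (nat_lit 4) (nat_lit 4) (nat_lit 5) (nat_lit 5) (nat_lit 5) (nat_lit 4) (nat_lit 309)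 (nat_lit 256) (nat_lit 155))) (XT.nd (nat_lit 78) (nat_lit 76) (nat_lit 0) (XT.lf (nat_lit 0) (nat_lit 1844794456) (nat_lit 152) (nat_lit 89609187017) (nat_lit 76) (nat_lit 222996792041) (nat_lit 3) (nat_lit 5) (nat_lit 5) (nat_lit 5) (nat_lit 4) (nat_lit 4) (nat_lit 310) (nat_lit 256) (nat_lit 154)) (XT.nd (nat_lit 78) (nat_lit 76) (nat_lit 0) (XT.lf (nat_lit 0) (nat_lit 23499310783) (nat_lit 152) (nat_lit 45220125773) (nat_lit 76) (nat_lit 269423758082) (nat_lit 3) (nat_lit 5) (nat_lit 5) (nat_lit 5) (nat_lit 4) (nat_lit 4) (nat_lit 311) (nat_lit 256) (nat_lit 153)) (XT.lf (nat_lit 0) (nat_lit 2807045317) (nat_lit 76) (nat_lit 44121372063) (nat_lit 152) (nat_lit 316800482424) (nat_lit 2) (nat_lit 5) (nat_lit 3) (nat_lit 5) (nat_lit 4) (nat_lit 4) (nat_lit 312) (nat_lit 256) (nat_lit 152)))))) (XT.nd (nat_lit 390) (nat_lit 76) (nat_lit 0) (XT.nd (nat_lit 156) (nat_lit 0) (nat_lit 0)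 (XT.nd (nat_lit 78) (nat_lit 0) (nat_lit 0) (XT.lf (nat_lit 0) (nat_lit 56288452374) (nat_lit 76) (nat_lit 16729584272) (nat_lit 152) (nat_lit 318304117195) (nat_lit 2) (nat_lit 5) (nat_lit 3) (nat_lit 5) (nat_lit 4) (nat_lit 4) (nat_lit 313) (nat_lit 256) (nat_lit 151)) (XT.lf (nat_lit 0) (nat_lit 101394079219) (nat_lit 152) (nat_lit 307277761853) (nat_lit 0) (nat_lit 12441065983) (nat_lit 2) (nat_lit 5) (nat_lit 4) (nat_lit 4) (nat_lit 2) (nat_lit 4) (nat_lit 314) (nat_lit 256) (nat_lit 150))) (XT.nd (nat_lit 78) (nat_lit 0) (nat_lit 0) (XT.lf (nat_lit 0) (nat_lit 132320976069) (nat_lit 152) (nat_lit 277585832645) (nat_lit 0) (nat_lit 43366074697) (nat_lit 2) (nat_lit 5) (nat_lit 4) (nat_lit 4) (nat_lit 2) (nat_lit 4) (nat_lit 315) (nat_lit 256) (nat_lit 149)) (XT.nd (nat_lit 78) (nat_lit 0) (nat_lit 0) (XT.lf (nat_lit 0) (nat_lit 165720802001) (nat_lit 152) (nat_lit 245520765975)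 (nat_lit 0) (nat_lit 76764152355) (nat_lit 2) (nat_lit 5) (nat_lit 4) (nat_lit 4) (nat_lit 2) (nat_lit 4) (nat_lit 316) (nat_lit 256) (nat_lit 148)) (XT.lf (nat_lit 0) (nat_lit 201791481909) (nat_lit 152) (nat_lit 210892546634) (nat_lit 0) (nat_lit 112833213491) (nat_lit 2) (nat_lit 5) (nat_lit 4) (nat_lit 4) (nat_lit 2) (nat_lit 4) (nat_lit 317) (nat_lit 256) (nat_lit 147))))) (XT.nd (nat_lit 156) (nat_lit 76) (nat_lit 0) (XT.nd (nat_lit 78) (nat_lit 0) (nat_lit 0) (XT.lf (nat_lit 0) (nat_lit 240746767970) (nat_lit 152) (nat_lit 173495970359) (nat_lit 0) (nat_lit 151787000689) (nat_lit 2) (nat_lit 5) (nat_lit 4) (nat_lit 4) (nat_lit 2) (nat_lit 4) (nat_lit 318) (nat_lit 256) (nat_lit 146)) (XT.lf (nat_lit 0) (nat_lit 282817506325) (nat_lit 152) (nat_lit 133109427808) (nat_lit 0) (nat_lit 193856351208) (nat_lit 2) (nat_lit 5) (nat_lit 4) (nat_lit 4) (nat_lit 2) (nat_lit 4) (nat_lit 319)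 (nat_lit 256) (nat_lit 145))) (XT.nd (nat_lit 78) (nat_lit 76) (nat_lit 0) (XT.lf (nat_lit 0) (nat_lit 328253005052) (nat_lit 152) (nat_lit 89493591323) (nat_lit 0) (nat_lit 239290564901) (nat_lit 2) (nat_lit 5) (nat_lit 4) (nat_lit 4) (nat_lit 2) (nat_lit 4) (nat_lit 320) (nat_lit 256) (nat_lit 144)) (XT.nd (nat_lit 78) (nat_lit 76) (nat_lit 0) (XT.lf (nat_lit 0) (nat_lit 377322511552) (nat_lit 152) (nat_lit 42389996687) (nat_lit 0) (nat_lit 288358881555) (nat_lit 2) (nat_lit 5) (nat_lit 4) (nat_lit 4) (nat_lit 2) (nat_lit 4) (nat_lit 321) (nat_lit 256) (nat_lit 143)) (XT.lf (nat_lit 0) (nat_lit 8760891761) (nat_lit 76) (nat_lit 421692698395) (nat_lit 76) (nat_lit 332727966689) (nat_lit 1) (nat_lit 4) (nat_lit 2) (nat_lit 5) (nat_lit 2) (nat_lit 4) (nat_lit 322) (nat_lit 256) (nat_lit 142))))))))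
noncomputable def xc82 : XT := (XT.nd (nat_lit 33774) (nat_lit 0) (nat_lit 608) (XT.nd (nat_lit 32994) (nat_lit 0) (nat_lit 2812) (XT.nd (nat_lit 32604) (nat_lit 0) (nat_lit 5168) (XT.nd (nat_lit 32448) (nat_lit 0) (nat_lit 5092) (XT.nd (nat_lit 32370) (nat_lit 0) (nat_lit 5092) (XT.lf (nat_lit 0) (nat_lit 65516248098) (nat_lit 76) (nat_lit 423056579068) (nat_lit 76) (nat_lit 334090827261) (nat_lit 1) (nat_lit 4) (nat_lit 2) (nat_lit 5) (nat_lit 2) (nat_lit 4) (nat_lit 323) (nat_lit 256) (nat_lit 141)) (XT.lf (nat_lit 0) (nat_lit 542464972) (nat_lit 0) (nat_lit 542464972) (nat_lit 684) (nat_lit 6611487424) (nat_lit 68) (nat_lit 5) (nat_lit 68) (nat_lit 3) (nat_lit 77) (nat_lit 3) (nat_lit 257) (nat_lit 257) (nat_lit 206))) (XT.nd (nat_lit 78) (nat_lit 0) (nat_lit 76) (XT.lf (nat_lit 0) (nat_lit 2807726299) (nat_lit 684) (nat_lit 4093747949) (nat_lit 760) (nat_lit 9078066912) (nat_lit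 68) (nat_lit 5) (nat_lit 77) (nat_lit 3) (nat_lit 78) (nat_lit 5) (nat_lit 258) (nat_lit 257) (nat_lit 205)) (XT.lf (nat_lit 0) (nat_lit 3641228489) (nat_lit 684) (nat_lit 9539558852) (nat_lit 760) (nat_lit 3425311835) (nat_lit 69) (nat_lit 5) (nat_lit 78) (nat_lit 5) (nat_lit 79) (nat_lit 5) (nat_lit 259) (nat_lit 257) (nat_lit 204)))) (XT.nd (nat_lit 156) (nat_lit 0) (nat_lit 152) (XT.nd (nat_lit 78) (nat_lit 0) (nat_lit 76) (XT.lf (nat_lit 76) (nat_lit 1906089980) (nat_lit 0) (nat_lit 2816645220) (nat_lit 760) (nat_lit 12551115053) (nat_lit 70) (nat_lit 5) (nat_lit 69) (nat_lit 5) (nat_lit 79) (nat_lit 5) (nat_lit 260) (nat_lit 257) (nat_lit 203)) (XT.lf (nat_lit 0) (nat_lit 6155745952) (nat_lit 684) (nat_lit 3537184430) (nat_lit 760) (nat_lit 8288966522) (nat_lit 70) (nat_lit 5) (nat_lit 79) (nat_lit 5) (nat_lit 80) (nat_lit 5) (nat_lit 261) (nat_lit 257) (nat_lit 202))) (XT.nd (nat_lit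 78) (nat_lit 0) (nat_lit 0) (XT.lf (nat_lit 0) (nat_lit 7891724856) (nat_lit 684) (nat_lit 9291248549) (nat_lit 760) (nat_lit 1554312945) (nat_lit 71) (nat_lit 5) (nat_lit 80) (nat_lit 5) (nat_lit 81) (nat_lit 5) (nat_lit 262) (nat_lit 257) (nat_lit 201)) (XT.nd (nat_lit 78) (nat_lit 0) (nat_lit 76) (XT.lf (nat_lit 76) (nat_lit 3983358461) (nat_lit 0) (nat_lit 6041512776) (nat_lit 760) (nat_lit 9515428136) (nat_lit 72) (nat_lit 5) (nat_lit 71) (nat_lit 5) (nat_lit 81) (nat_lit 5) (nat_lit 263) (nat_lit 257) (nat_lit 200)) (XT.lf (nat_lit 0) (nat_lit 12558687473) (nat_lit 684) (nat_lit 1868368048) (nat_lit 76) (nat_lit 5969095970) (nat_lit 72) (nat_lit 5) (nat_lit 81) (nat_lit 5) (nat_lit 73) (nat_lit 5) (nat_lit 264) (nat_lit 257) (nat_lit 199)))))) (XT.nd (nat_lit 390) (nat_lit 836) (nat_lit 0) (XT.nd (nat_lit 156) (nat_lit 760) (nat_lit 0) (XT.nd (nat_lit 78) (nat_lit 304) (nat_lit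 0) (XT.lf (nat_lit 0) (nat_lit 13213716295) (nat_lit 684) (nat_lit 2363719497) (nat_lit 760) (nat_lit 5729016279) (nat_lit 63) (nat_lit 5) (nat_lit 72) (nat_lit 5) (nat_lit 73) (nat_lit 5) (nat_lit 265) (nat_lit 257) (nat_lit 198)) (XT.lf (nat_lit 0) (nat_lit 7325574709) (nat_lit 304) (nat_lit 11801746246) (nat_lit 380) (nat_lit 3147858736) (nat_lit 59) (nat_lit 5) (nat_lit 63) (nat_lit 5) (nat_lit 64) (nat_lit 5) (nat_lit 266) (nat_lit 257) (nat_lit 197))) (XT.nd (nat_lit 78) (nat_lit 380) (nat_lit 0) (XT.lf (nat_lit 0) (nat_lit 901476781) (nat_lit 380) (nat_lit 22248050860) (nat_lit 456) (nat_lit 162539904) (nat_lit 54) (nat_lit 5) (nat_lit 59) (nat_lit 5) (nat_lit 60) (nat_lit 5) (nat_lit 267) (nat_lit 257) (nat_lit 196)) (XT.nd (nat_lit 78) (nat_lit 304) (nat_lit 0) (XT.lf (nat_lit 0) (nat_lit 3405368472) (nat_lit 456) (nat_lit 6138471850) (nat_lit 76) (nat_lit 14863657644) (nat_lit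 53) (nat_lit 5) (nat_lit 59) (nat_lit 5) (nat_lit 54) (nat_lit 5) (nat_lit 268) (nat_lit 257) (nat_lit 195)) (XT.lf (nat_lit 0) (nat_lit 7485100218) (nat_lit 380) (nat_lit 13861875727) (nat_lit 76) (nat_lit 4231913527) (nat_lit 49) (nat_lit 5) (nat_lit 54) (nat_lit 5) (nat_lit 50) (nat_lit 5) (nat_lit 269) (nat_lit 257) (nat_lit 194))))) (XT.nd (nat_lit 156) (nat_lit 532) (nat_lit 0) (XT.nd (nat_lit 78) (nat_lit 0) (nat_lit 0) (XT.lf (nat_lit 0) (nat_lit 4336228290) (nat_lit 304) (nat_lit 7873154709) (nat_lit 380) (nat_lit 14618760066) (nat_lit 45) (nat_lit 5) (nat_lit 49) (nat_lit 5) (nat_lit 50) (nat_lit 5) (nat_lit 270) (nat_lit 257) (nat_lit 193)) (XT.lf (nat_lit 0) (nat_lit 17643227793) (nat_lit 380) (nat_lit 3809673787) (nat_lit 76) (nat_lit 6707909390) (nat_lit 45) (nat_lit 5) (nat_lit 50) (nat_lit 5) (nat_lit 46) (nat_lit 5) (nat_lit 271) (nat_lit 257) (nat_lit 192))) (XT.nd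 (nat_lit 78) (nat_lit 304) (nat_lit 0) (XT.lf (nat_lit 0) (nat_lit 16750737285) (nat_lit 228) (nat_lit 7138588298) (nat_lit 304) (nat_lit 5691940372) (nat_lit 42) (nat_lit 5) (nat_lit 45) (nat_lit 5) (nat_lit 46) (nat_lit 5) (nat_lit 272) (nat_lit 257) (nat_lit 191)) (XT.nd (nat_lit 78) (nat_lit 76) (nat_lit 0) (XT.lf (nat_lit 0) (nat_lit 8088145571) (nat_lit 228) (nat_lit 22854765436) (nat_lit 304) (nat_lit 157103491) (nat_lit 39) (nat_lit 5) (nat_lit 42) (nat_lit 5) (nat_lit 43) (nat_lit 5) (nat_lit 273) (nat_lit 257) (nat_lit 190)) (XT.lf (nat_lit 0) (nat_lit 5966511074) (nat_lit 304) (nat_lit 1824907403) (nat_lit 76) (nat_lit 24927728106) (nat_lit 38) (nat_lit 5) (nat_lit 42) (nat_lit 5) (nat_lit 39) (nat_lit 5) (nat_lit 274) (nat_lit 257) (nat_lit 189))))))) (XT.nd (nat_lit 780) (nat_lit 760) (nat_lit 0) (XT.nd (nat_lit 390) (nat_lit 532) (nat_lit 0) (XT.nd (nat_lit 156) (nat_lit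 456) (nat_lit 0) (XT.nd (nat_lit 78) (nat_lit 228) (nat_lit 0) (XT.lf (nat_lit 0) (nat_lit 13037656590) (nat_lit 304) (nat_lit 12857393482) (nat_lit 76) (nat_lit 8549511589) (nat_lit 35) (nat_lit 5) (nat_lit 39) (nat_lit 5) (nat_lit 36) (nat_lit 5) (nat_lit 275) (nat_lit 257) (nat_lit 188)) (XT.lf (nat_lit 0) (nat_lit 10827790102) (nat_lit 228) (nat_lit 10166041113) (nat_lit 304) (nat_lit 15298247501) (nat_lit 32) (nat_lit 5) (nat_lit 35) (nat_lit 5) (nat_lit 36) (nat_lit 5) (nat_lit 276) (nat_lit 257) (nat_lit 187))) (XT.nd (nat_lit 78) (nat_lit 456) (nat_lit 0) (XT.lf (nat_lit 0) (nat_lit 29907894537) (nat_lit 304) (nat_lit 1537096190) (nat_lit 76) (nat_lit 6826369679) (nat_lit 32) (nat_lit 5) (nat_lit 36) (nat_lit 5) (nat_lit 33) (nat_lit 5) (nat_lit 277) (nat_lit 257) (nat_lit 186)) (XT.nd (nat_lit 78) (nat_lit 304) (nat_lit 0) (XT.lf (nat_lit 0) (nat_lit 24913913553) (nat_lit 152)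 (nat_lit 15169763586) (nat_lit 228) (nat_lit 297908340) (nat_lit 30) (nat_lit 5) (nat_lit 32) (nat_lit 5) (nat_lit 33) (nat_lit 5) (nat_lit 278) (nat_lit 257) (nat_lit 185)) (XT.lf (nat_lit 0) (nat_lit 8375458454) (nat_lit 304) (nat_lit 31604071484) (nat_lit 76) (nat_lit 2662966638) (nat_lit 26) (nat_lit 5) (nat_lit 30) (nat_lit 5) (nat_lit 27) (nat_lit 5) (nat_lit 279) (nat_lit 257) (nat_lit 184))))) (XT.nd (nat_lit 156) (nat_lit 380) (nat_lit 0) (XT.nd (nat_lit 78) (nat_lit 152) (nat_lit 0) (XT.lf (nat_lit 0) (nat_lit 18251192689) (nat_lit 304) (nat_lit 5134513197) (nat_lit 76) (nat_lit 21672408671) (nat_lit 26) (nat_lit 5) (nat_lit 30) (nat_lit 5) (nat_lit 27) (nat_lit 5) (nat_lit 280) (nat_lit 257) (nat_lit 183)) (XT.lf (nat_lit 0) (nat_lit 24212917157) (nat_lit 152) (nat_lit 5072055583) (nat_lit 228) (nat_lit 18363632988) (nat_lit 24) (nat_lit 5) (nat_lit 26) (nat_lit 5) (nat_lit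 27) (nat_lit 5) (nat_lit 281) (nat_lit 257) (nat_lit 182))) (XT.nd (nat_lit 78) (nat_lit 228) (nat_lit 0) (XT.lf (nat_lit 0) (nat_lit 5582787535) (nat_lit 152) (nat_lit 36016759798) (nat_lit 228) (nat_lit 8826905645) (nat_lit 22) (nat_lit 5) (nat_lit 24) (nat_lit 5) (nat_lit 25) (nat_lit 5) (nat_lit 282) (nat_lit 257) (nat_lit 181)) (XT.nd (nat_lit 78) (nat_lit 152) (nat_lit 0) (XT.lf (nat_lit 0) (nat_lit 1916810191) (nat_lit 228) (nat_lit 15775848622) (nat_lit 76) (nat_lit 35708178974) (nat_lit 21) (nat_lit 5) (nat_lit 24) (nat_lit 5) (nat_lit 22) (nat_lit 5) (nat_lit 283) (nat_lit 257) (nat_lit 180)) (XT.lf (nat_lit 0) (nat_lit 13494812227) (nat_lit 228) (nat_lit 40666429284) (nat_lit 76) (nat_lit 2430512134) (nat_lit 19) (nat_lit 5) (nat_lit 22) (nat_lit 5) (nat_lit 20) (nat_lit 5) (nat_lit 284) (nat_lit 257) (nat_lit 179)))))) (XT.nd (nat_lit 390) (nat_lit 456) (nat_lit 0) (XT.nd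 (nat_lit 156) (nat_lit 152) (nat_lit 0) (XT.nd (nat_lit 78) (nat_lit 152) (nat_lit 0) (XT.lf (nat_lit 0) (nat_lit 26568489202) (nat_lit 228) (nat_lit 9613978544) (nat_lit 76) (nat_lit 23827019459) (nat_lit 19) (nat_lit 5) (nat_lit 22) (nat_lit 5) (nat_lit 20) (nat_lit 5) (nat_lit 285) (nat_lit 257) (nat_lit 178)) (XT.lf (nat_lit 0) (nat_lit 24701337417) (nat_lit 152) (nat_lit 16364781986) (nat_lit 228) (nat_lit 22615632070) (nat_lit 17) (nat_lit 5) (nat_lit 19) (nat_lit 5) (nat_lit 20) (nat_lit 5) (nat_lit 286) (nat_lit 257) (nat_lit 177))) (XT.nd (nat_lit 78) (nat_lit 152) (nat_lit 0) (XT.lf (nat_lit 0) (nat_lit 56965158131) (nat_lit 228) (nat_lit 5627358908) (nat_lit 76) (nat_lit 5043213805) (nat_lit 17) (nat_lit 5) (nat_lit 20) (nat_lit 5) (nat_lit 18) (nat_lit 4) (nat_lit 287) (nat_lit 257) (nat_lit 176)) (XT.nd (nat_lit 78) (nat_lit 0) (nat_lit 0) (XT.lf (nat_lit 0) (nat_lit 2925875498)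 (nat_lit 152) (nat_lit 40812864585) (nat_lit 76) (nat_lit 28127201762) (nat_lit 15) (nat_lit 5) (nat_lit 17) (nat_lit 5) (nat_lit 16) (nat_lit 5) (nat_lit 288) (nat_lit 257) (nat_lit 175)) (XT.lf (nat_lit 0) (nat_lit 17334305566) (nat_lit 152) (nat_lit 5752907122) (nat_lit 76) (nat_lit 53333716444) (nat_lit 15) (nat_lit 5) (nat_lit 17) (nat_lit 5) (nat_lit 16) (nat_lit 5) (nat_lit 289) (nat_lit 257) (nat_lit 174))))) (XT.nd (nat_lit 156) (nat_lit 304) (nat_lit 0) (XT.nd (nat_lit 78) (nat_lit 0) (nat_lit 0) (XT.lf (nat_lit 0) (nat_lit 33163464711) (nat_lit 152) (nat_lit 243683874) (nat_lit 228) (nat_lit 47907590374) (nat_lit 13) (nat_lit 5) (nat_lit 15) (nat_lit 5) (nat_lit 16) (nat_lit 5) (nat_lit 290) (nat_lit 257) (nat_lit 173)) (XT.lf (nat_lit 0) (nat_lit 51243260103) (nat_lit 228) (nat_lit 11589116894) (nat_lit 76) (nat_lit 23743814229) (nat_lit 13) (nat_lit 5) (nat_lit 16) (nat_lit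 5) (nat_lit 14) (nat_lit 4) (nat_lit 291) (nat_lit 257) (nat_lit 172))) (XT.nd (nat_lit 78) (nat_lit 228) (nat_lit 0) (XT.lf (nat_lit 0) (nat_lit 28806988353) (nat_lit 76) (nat_lit 42147775325) (nat_lit 152) (nat_lit 21281379827) (nat_lit 12) (nat_lit 5) (nat_lit 13) (nat_lit 5) (nat_lit 14) (nat_lit 4) (nat_lit 292) (nat_lit 257) (nat_lit 171)) (XT.nd (nat_lit 78) (nat_lit 228) (nat_lit 0) (XT.lf (nat_lit 0) (nat_lit 72840093997) (nat_lit 76) (nat_lit 19599868949) (nat_lit 152) (nat_lit 5899098572) (nat_lit 12) (nat_lit 5) (nat_lit 13) (nat_lit 5) (nat_lit 14) (nat_lit 4) (nat_lit 293) (nat_lit 257) (nat_lit 170)) (XT.lf (nat_lit 0) (nat_lit 10693593024) (nat_lit 228) (nat_lit 89194826804) (nat_lit 76) (nat_lit 5017300126) (nat_lit 9) (nat_lit 5) (nat_lit 12) (nat_lit 5) (nat_lit 10) (nat_lit 4) (nat_lit 294) (nat_lit 257) (nat_lit 169))))))))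
noncomputable def xc83 : XT := (XT.nd (nat_lit 1482) (nat_lit 76) (nat_lit 0) (XT.nd (nat_lit 702) (nat_lit 228) (nat_lit 0) (XT.nd (nat_lit 312) (nat_lit 228) (nat_lit 0) (XT.nd (nat_lit 156) (nat_lit 76) (nat_lit 0) (XT.nd (nat_lit 78) (nat_lit 0) (nat_lit 0) (XT.lf (nat_lit 0) (nat_lit 29187113880) (nat_lit 228) (nat_lit 51292542108) (nat_lit 76) (nat_lit 31474222065) (nat_lit 9) (nat_lit 5) (nat_lit 12) (nat_lit 5) (nat_lit 10) (nat_lit 4) (nat_lit 295) (nat_lit 257) (nat_lit 168)) (XT.lf (nat_lit 0) (nat_lit 49155838479) (nat_lit 228) (nat_lit 10365390993) (nat_lit 76) (nat_lit 60044879516) (nat_lit 9) (nat_lit 5) (nat_lit 12) (nat_lit 5) (nat_lit 10) (nat_lit 4) (nat_lit 296) (nat_lit 257) (nat_lit 167))) (XT.nd (nat_lit 78) (nat_lit 0) (nat_lit 0) (XT.lf (nat_lit 0) (nat_lit 34947702541) (nat_lit 76) (nat_lit 36316029040) (nat_lit 152) (nat_lit 56496509115) (nat_lit 8) (nat_lit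 5) (nat_lit 9) (nat_lit 5) (nat_lit 10) (nat_lit 4) (nat_lit 297) (nat_lit 257) (nat_lit 166)) (XT.lf (nat_lit 0) (nat_lit 84249508331) (nat_lit 76) (nat_lit 11067537424) (nat_lit 152) (nat_lit 41284023100) (nat_lit 8) (nat_lit 5) (nat_lit 9) (nat_lit 5) (nat_lit 10) (nat_lit 4) (nat_lit 298) (nat_lit 257) (nat_lit 165)))) (XT.nd (nat_lit 156) (nat_lit 152) (nat_lit 0) (XT.nd (nat_lit 78) (nat_lit 76) (nat_lit 0) (XT.lf (nat_lit 0) (nat_lit 121544036652) (nat_lit 152) (nat_lit 8912785374) (nat_lit 0) (nat_lit 15679875654) (nat_lit 8) (nat_lit 5) (nat_lit 10) (nat_lit 4) (nat_lit 8) (nat_lit 4) (nat_lit 299) (nat_lit 257) (nat_lit 164)) (XT.lf (nat_lit 0) (nat_lit 39058916707) (nat_lit 76) (nat_lit 111603440732) (nat_lit 76) (nat_lit 5733165467) (nat_lit 7) (nat_lit 4) (nat_lit 8) (nat_lit 5) (nat_lit 8) (nat_lit 4) (nat_lit 300) (nat_lit 257) (nat_lit 163))) (XT.nd (nat_lit 78) (nat_lit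 76) (nat_lit 0) (XT.lf (nat_lit 0) (nat_lit 14321310163) (nat_lit 152) (nat_lit 76517250788) (nat_lit 76) (nat_lit 76617340805) (nat_lit 6) (nat_lit 5) (nat_lit 8) (nat_lit 5) (nat_lit 7) (nat_lit 4) (nat_lit 301) (nat_lit 257) (nat_lit 162)) (XT.nd (nat_lit 78) (nat_lit 76) (nat_lit 0) (XT.lf (nat_lit 0) (nat_lit 35779036014) (nat_lit 152) (nat_lit 32534154792) (nat_lit 76) (nat_lit 111083236849) (nat_lit 6) (nat_lit 5) (nat_lit 8) (nat_lit 5) (nat_lit 7) (nat_lit 4) (nat_lit 302) (nat_lit 257) (nat_lit 161)) (XT.lf (nat_lit 0) (nat_lit 15457571974) (nat_lit 76) (nat_lit 43734430122) (nat_lit 152) (nat_lit 133088265917) (nat_lit 5) (nat_lit 5) (nat_lit 6) (nat_lit 5) (nat_lit 7) (nat_lit 4) (nat_lit 303) (nat_lit 257) (nat_lit 160)))))) (XT.nd (nat_lit 390) (nat_lit 152) (nat_lit 0) (XT.nd (nat_lit 156) (nat_lit 76) (nat_lit 0) (XT.nd (nat_lit 78) (nat_lit 0) (nat_lit 0) (XT.lf (nat_lit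 0) (nat_lit 68445871987) (nat_lit 76) (nat_lit 16596273612) (nat_lit 152) (nat_lit 121124466232) (nat_lit 5) (nat_lit 5) (nat_lit 6) (nat_lit 5) (nat_lit 7) (nat_lit 4) (nat_lit 304) (nat_lit 257) (nat_lit 159)) (XT.lf (nat_lit 0) (nat_lit 113156364268) (nat_lit 152) (nat_lit 95693418015) (nat_lit 0) (nat_lit 12304280686) (nat_lit 5) (nat_lit 5) (nat_lit 7) (nat_lit 4) (nat_lit 5) (nat_lit 4) (nat_lit 305) (nat_lit 257) (nat_lit 158))) (XT.nd (nat_lit 78) (nat_lit 76) (nat_lit 0) (XT.lf (nat_lit 0) (nat_lit 143797322377) (nat_lit 152) (nat_lit 50587741252) (nat_lit 0) (nat_lit 42941569246) (nat_lit 5) (nat_lit 5) (nat_lit 7) (nat_lit 4) (nat_lit 5) (nat_lit 4) (nat_lit 306) (nat_lit 257) (nat_lit 157)) (XT.nd (nat_lit 78) (nat_lit 76) (nat_lit 0) (XT.lf (nat_lit 0) (nat_lit 176887481632) (nat_lit 152) (nat_lit 1877302316) (nat_lit 0) (nat_lit 76028330772) (nat_lit 5) (nat_lit 5) (nat_lit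 7) (nat_lit 4) (nat_lit 5) (nat_lit 4) (nat_lit 307) (nat_lit 257) (nat_lit 156)) (XT.lf (nat_lit 0) (nat_lit 52403802184) (nat_lit 76) (nat_lit 161037299895) (nat_lit 76) (nat_lit 60175002989) (nat_lit 4) (nat_lit 4) (nat_lit 5) (nat_lit 5) (nat_lit 5) (nat_lit 4) (nat_lit 308) (nat_lit 257) (nat_lit 155))))) (XT.nd (nat_lit 156) (nat_lit 152) (nat_lit 0) (XT.nd (nat_lit 78) (nat_lit 0) (nat_lit 0) (XT.lf (nat_lit 0) (nat_lit 111091162982) (nat_lit 76) (nat_lit 141858720115) (nat_lit 76) (nat_lit 40993510204) (nat_lit 4) (nat_lit 4) (nat_lit 5) (nat_lit 5) (nat_lit 5) (nat_lit 4) (nat_lit 309) (nat_lit 257) (nat_lit 154)) (XT.lf (nat_lit 0) (nat_lit 174470484934) (nat_lit 76) (nat_lit 121147186790) (nat_lit 76) (nat_lit 20279279651) (nat_lit 4) (nat_lit 4) (nat_lit 5) (nat_lit 5) (nat_lit 5) (nat_lit 4) (nat_lit 310) (nat_lit 257) (nat_lit 153))) (XT.nd (nat_lit 78) (nat_lit 76) (nat_lit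 0) (XT.lf (nat_lit 0) (nat_lit 2023532540) (nat_lit 152) (nat_lit 96722162864) (nat_lit 76) (nat_lit 240859547167) (nat_lit 3) (nat_lit 5) (nat_lit 5) (nat_lit 5) (nat_lit 4) (nat_lit 4) (nat_lit 311) (nat_lit 257) (nat_lit 152)) (XT.nd (nat_lit 78) (nat_lit 76) (nat_lit 0) (XT.lf (nat_lit 0) (nat_lit 25408102430) (nat_lit 152) (nat_lit 48786107026) (nat_lit 76) (nat_lit 290998965916) (nat_lit 3) (nat_lit 5) (nat_lit 5) (nat_lit 5) (nat_lit 4) (nat_lit 4) (nat_lit 312) (nat_lit 257) (nat_lit 151)) (XT.lf (nat_lit 0) (nat_lit 3080994026) (nat_lit 76) (nat_lit 47629177769) (nat_lit 152) (nat_lit 342115635851) (nat_lit 2) (nat_lit 5) (nat_lit 3) (nat_lit 5) (nat_lit 4) (nat_lit 4) (nat_lit 313) (nat_lit 257) (nat_lit 150))))))) (XT.nd (nat_lit 33150) (nat_lit 0) (nat_lit 4408) (XT.nd (nat_lit 390) (nat_lit 76) (nat_lit 0) (XT.nd (nat_lit 156) (nat_lit 0) (nat_lit 0) (XT.nd (nat_lit 78)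 (nat_lit 0) (nat_lit 0) (XT.lf (nat_lit 0) (nat_lit 60837255494) (nat_lit 76) (nat_lit 18047669477) (nat_lit 152) (nat_lit 343741701046) (nat_lit 2) (nat_lit 5) (nat_lit 3) (nat_lit 5) (nat_lit 4) (nat_lit 4) (nat_lit 314) (nat_lit 257) (nat_lit 149)) (XT.lf (nat_lit 0) (nat_lit 109529459302) (nat_lit 152) (nat_lit 331816732422) (nat_lit 0) (nat_lit 13454529411) (nat_lit 2) (nat_lit 5) (nat_lit 4) (nat_lit 4) (nat_lit 2) (nat_lit 4) (nat_lit 315) (nat_lit 257) (nat_lit 148))) (XT.nd (nat_lit 78) (nat_lit 0) (nat_lit 0) (XT.lf (nat_lit 0) (nat_lit 142928740956) (nat_lit 152) (nat_lit 299752652609) (nat_lit 0) (nat_lit 46852192292) (nat_lit 2) (nat_lit 5) (nat_lit 4) (nat_lit 4) (nat_lit 2) (nat_lit 4) (nat_lit 316) (nat_lit 257) (nat_lit 147)) (XT.nd (nat_lit 78) (nat_lit 0) (nat_lit 0) (XT.lf (nat_lit 0) (nat_lit 178998916903) (nat_lit 152) (nat_lit 265125347024) (nat_lit 0) (nat_lit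 82920869376) (nat_lit 2) (nat_lit 5) (nat_lit 4) (nat_lit 4) (nat_lit 2) (nat_lit 4) (nat_lit 317) (nat_lit 257) (nat_lit 146)) (XT.lf (nat_lit 0) (nat_lit 217953736334) (nat_lit 152) (nat_lit 227729616819) (nat_lit 0) (nat_lit 121874300971) (nat_lit 2) (nat_lit 5) (nat_lit 4) (nat_lit 4) (nat_lit 2) (nat_lit 4) (nat_lit 318) (nat_lit 257) (nat_lit 145))))) (XT.nd (nat_lit 156) (nat_lit 76) (nat_lit 0) (XT.nd (nat_lit 78) (nat_lit 0) (nat_lit 0) (XT.lf (nat_lit 0) (nat_lit 260024042623) (nat_lit 152) (nat_lit 187343857667) (nat_lit 0) (nat_lit 163943322227) (nat_lit 2) (nat_lit 5) (nat_lit 4) (nat_lit 4) (nat_lit 2) (nat_lit 4) (nat_lit 319) (nat_lit 257) (nat_lit 144)) (XT.lf (nat_lit 0) (nat_lit 305459141290) (nat_lit 152) (nat_lit 143728746551) (nat_lit 0) (nat_lit 209377231047) (nat_lit 2) (nat_lit 5) (nat_lit 4) (nat_lit 4) (nat_lit 2) (nat_lit 4) (nat_lit 320) (nat_lit 257) (nat_lit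 143))) (XT.nd (nat_lit 78) (nat_lit 76) (nat_lit 0) (XT.lf (nat_lit 0) (nat_lit 354528277362) (nat_lit 152) (nat_lit 96625823553) (nat_lit 0) (nat_lit 258445265411) (nat_lit 2) (nat_lit 5) (nat_lit 4) (nat_lit 4) (nat_lit 2) (nat_lit 4) (nat_lit 321) (nat_lit 257) (nat_lit 142)) (XT.nd (nat_lit 78) (nat_lit 76) (nat_lit 0) (XT.lf (nat_lit 0) (nat_lit 407522230907) (nat_lit 152) (nat_lit 45755960241) (nat_lit 0) (nat_lit 311438198854) (nat_lit 2) (nat_lit 5) (nat_lit 4) (nat_lit 4) (nat_lit 2) (nat_lit 4) (nat_lit 322) (nat_lit 257) (nat_lit 141)) (XT.lf (nat_lit 0) (nat_lit 9485902550) (nat_lit 76) (nat_lit 455417239140) (nat_lit 76) (nat_lit 359332262549) (nat_lit 1) (nat_lit 4) (nat_lit 2) (nat_lit 5) (nat_lit 2) (nat_lit 4) (nat_lit 323) (nat_lit 257) (nat_lit 140)))))) (XT.nd (nat_lit 390) (nat_lit 684) (nat_lit 0) (XT.nd (nat_lit 156) (nat_lit 0) (nat_lit 76) (XT.nd (nat_lit 78)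 (nat_lit 0) (nat_lit 0) (XT.lf (nat_lit 0) (nat_lit 783322019) (nat_lit 0) (nat_lit 783322019) (nat_lit 684) (nat_lit 6724322320) (nat_lit 68) (nat_lit 5) (nat_lit 68) (nat_lit 3) (nat_lit 77) (nat_lit 3) (nat_lit 258) (nat_lit 258) (nat_lit 204)) (XT.lf (nat_lit 0) (nat_lit 3757968100) (nat_lit 684) (nat_lit 4010678986) (nat_lit 760) (nat_lit 9450349486) (nat_lit 68) (nat_lit 5) (nat_lit 77) (nat_lit 3) (nat_lit 78) (nat_lit 5) (nat_lit 259) (nat_lit 258) (nat_lit 203))) (XT.nd (nat_lit 78) (nat_lit 0) (nat_lit 0) (XT.lf (nat_lit 0) (nat_lit 4606078105) (nat_lit 684) (nat_lit 9869211178) (nat_lit 760) (nat_lit 3423188135) (nat_lit 69) (nat_lit 5) (nat_lit 78) (nat_lit 5) (nat_lit 79) (nat_lit 5) (nat_lit 260) (nat_lit 258) (nat_lit 202)) (XT.nd (nat_lit 78) (nat_lit 0) (nat_lit 76) (XT.lf (nat_lit 76) (nat_lit 2473249641) (nat_lit 0) (nat_lit 3257437219) (nat_lit 760) (nat_lit 12891312803)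 (nat_lit 70) (nat_lit 5) (nat_lit 69) (nat_lit 5) (nat_lit 79) (nat_lit 5) (nat_lit 261) (nat_lit 258) (nat_lit 201)) (XT.lf (nat_lit 0) (nat_lit 7228547205) (nat_lit 684) (nat_lit 3401830468) (nat_lit 760) (nat_lit 8758968748) (nat_lit 70) (nat_lit 5) (nat_lit 79) (nat_lit 5) (nat_lit 80) (nat_lit 5) (nat_lit 262) (nat_lit 258) (nat_lit 200))))) (XT.nd (nat_lit 156) (nat_lit 912) (nat_lit 0) (XT.nd (nat_lit 78) (nat_lit 0) (nat_lit 0) (XT.lf (nat_lit 0) (nat_lit 9064423910) (nat_lit 684) (nat_lit 9603049346) (nat_lit 760) (nat_lit 1539797249) (nat_lit 71) (nat_lit 5) (nat_lit 80) (nat_lit 5) (nat_lit 81) (nat_lit 5) (nat_lit 263) (nat_lit 258) (nat_lit 199)) (XT.lf (nat_lit 76) (nat_lit 4714773800) (nat_lit 0) (nat_lit 6619791514) (nat_lit 760) (nat_lit 9741785105) (nat_lit 72) (nat_lit 5) (nat_lit 71) (nat_lit 5) (nat_lit 81) (nat_lit 5) (nat_lit 264) (nat_lit 258) (nat_lit 198)))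 (XT.nd (nat_lit 78) (nat_lit 988) (nat_lit 0) (XT.lf (nat_lit 0) (nat_lit 14032106380) (nat_lit 684) (nat_lit 1609131823) (nat_lit 76) (nat_lit 6361513948) (nat_lit 72) (nat_lit 5) (nat_lit 81) (nat_lit 5) (nat_lit 73) (nat_lit 5) (nat_lit 265) (nat_lit 258) (nat_lit 197)) (XT.nd (nat_lit 78) (nat_lit 304) (nat_lit 0) (XT.lf (nat_lit 0) (nat_lit 14661757417) (nat_lit 684) (nat_lit 2601980587) (nat_lit 760) (nat_lit 5723692214) (nat_lit 63) (nat_lit 5) (nat_lit 72) (nat_lit 5) (nat_lit 73) (nat_lit 5) (nat_lit 266) (nat_lit 258) (nat_lit 196)) (XT.lf (nat_lit 0) (nat_lit 8308823871) (nat_lit 304) (nat_lit 12761680298) (nat_lit 380) (nat_lit 2964620900) (nat_lit 59) (nat_lit 5) (nat_lit 63) (nat_lit 5) (nat_lit 64) (nat_lit 5) (nat_lit 267) (nat_lit 258) (nat_lit 195))))))))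
noncomputable def xc84 : XT := (XT.nd (nat_lit 1482) (nat_lit 1064) (nat_lit 0) (XT.nd (nat_lit 702) (nat_lit 1216) (nat_lit 0) (XT.nd (nat_lit 312) (nat_lit 760) (nat_lit 0) (XT.nd (nat_lit 156) (nat_lit 608) (nat_lit 0) (XT.nd (nat_lit 78) (nat_lit 0) (nat_lit 0) (XT.lf (nat_lit 0) (nat_lit 226157238) (nat_lit 456) (nat_lit 23785062618) (nat_lit 76) (nat_lit 1144894605) (nat_lit 53) (nat_lit 5) (nat_lit 59) (nat_lit 5) (nat_lit 54) (nat_lit 5) (nat_lit 268) (nat_lit 258) (nat_lit 194)) (XT.lf (nat_lit 0) (nat_lit 4044540413) (nat_lit 456) (nat_lit 6244702665) (nat_lit 76) (nat_lit 16051358871) (nat_lit 53) (nat_lit 5) (nat_lit 59) (nat_lit 5) (nat_lit 54) (nat_lit 5) (nat_lit 269) (nat_lit 258) (nat_lit 193))) (XT.nd (nat_lit 78) (nat_lit 304) (nat_lit 0) (XT.lf (nat_lit 0) (nat_lit 8429587949) (nat_lit 380) (nat_lit 14584720686) (nat_lit 76) (nat_lit 4592535109) (nat_lit 49) (nat_lit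 5) (nat_lit 54) (nat_lit 5) (nat_lit 50) (nat_lit 5) (nat_lit 270) (nat_lit 258) (nat_lit 192)) (XT.lf (nat_lit 0) (nat_lit 5052451996) (nat_lit 304) (nat_lit 8459521657) (nat_lit 380) (nat_lit 15445135431) (nat_lit 45) (nat_lit 5) (nat_lit 49) (nat_lit 5) (nat_lit 50) (nat_lit 5) (nat_lit 271) (nat_lit 258) (nat_lit 191)))) (XT.nd (nat_lit 156) (nat_lit 532) (nat_lit 0) (XT.nd (nat_lit 78) (nat_lit 228) (nat_lit 0) (XT.lf (nat_lit 0) (nat_lit 19357018371) (nat_lit 380) (nat_lit 3757103302) (nat_lit 76) (nat_lit 7283517718) (nat_lit 45) (nat_lit 5) (nat_lit 50) (nat_lit 5) (nat_lit 46) (nat_lit 5) (nat_lit 272) (nat_lit 258) (nat_lit 190)) (XT.lf (nat_lit 0) (nat_lit 18432610905) (nat_lit 228) (nat_lit 7653134776) (nat_lit 304) (nat_lit 5846906147) (nat_lit 42) (nat_lit 5) (nat_lit 45) (nat_lit 5) (nat_lit 46) (nat_lit 5) (nat_lit 273) (nat_lit 258) (nat_lit 189))) (XT.nd (nat_lit 78)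 (nat_lit 228) (nat_lit 0) (XT.lf (nat_lit 0) (nat_lit 111230253) (nat_lit 304) (nat_lit 24499736095) (nat_lit 76) (nat_lit 8962657128) (nat_lit 38) (nat_lit 5) (nat_lit 42) (nat_lit 5) (nat_lit 39) (nat_lit 5) (nat_lit 274) (nat_lit 258) (nat_lit 188)) (XT.nd (nat_lit 78) (nat_lit 228) (nat_lit 0) (XT.lf (nat_lit 0) (nat_lit 6698898134) (nat_lit 304) (nat_lit 1646424722) (nat_lit 76) (nat_lit 26977906718) (nat_lit 38) (nat_lit 5) (nat_lit 42) (nat_lit 5) (nat_lit 39) (nat_lit 5) (nat_lit 275) (nat_lit 258) (nat_lit 187)) (XT.lf (nat_lit 0) (nat_lit 14322770146) (nat_lit 304) (nat_lit 13563999003) (nat_lit 76) (nat_lit 9300608479) (nat_lit 35) (nat_lit 5) (nat_lit 39) (nat_lit 5) (nat_lit 36) (nat_lit 5) (nat_lit 276) (nat_lit 258) (nat_lit 186)))))) (XT.nd (nat_lit 390) (nat_lit 532) (nat_lit 0) (XT.nd (nat_lit 156) (nat_lit 456) (nat_lit 0) (XT.nd (nat_lit 78) (nat_lit 0) (nat_lit 0)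 (XT.lf (nat_lit 0) (nat_lit 12002006151) (nat_lit 228) (nat_lit 10900307813) (nat_lit 304) (nat_lit 16281086022) (nat_lit 32) (nat_lit 5) (nat_lit 35) (nat_lit 5) (nat_lit 36) (nat_lit 5) (nat_lit 277) (nat_lit 258) (nat_lit 185)) (XT.lf (nat_lit 0) (nat_lit 32513683435) (nat_lit 304) (nat_lit 1364874812) (nat_lit 76) (nat_lit 7443301073) (nat_lit 32) (nat_lit 5) (nat_lit 36) (nat_lit 5) (nat_lit 33) (nat_lit 5) (nat_lit 278) (nat_lit 258) (nat_lit 184))) (XT.nd (nat_lit 78) (nat_lit 304) (nat_lit 0) (XT.lf (nat_lit 0) (nat_lit 27189387153) (nat_lit 152) (nat_lit 16302760500) (nat_lit 228) (nat_lit 109364690) (nat_lit 30) (nat_lit 5) (nat_lit 32) (nat_lit 5) (nat_lit 33) (nat_lit 5) (nat_lit 279) (nat_lit 258) (nat_lit 183)) (XT.nd (nat_lit 78) (nat_lit 0) (nat_lit 0) (XT.lf (nat_lit 0) (nat_lit 9241457839) (nat_lit 304) (nat_lit 33846441714) (nat_lit 76) (nat_lit 2955747856) (nat_lit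 26) (nat_lit 5) (nat_lit 30) (nat_lit 5) (nat_lit 27) (nat_lit 5) (nat_lit 280) (nat_lit 258) (nat_lit 182)) (XT.lf (nat_lit 0) (nat_lit 19892735057) (nat_lit 304) (nat_lit 5280500653) (nat_lit 76) (nat_lit 23480038297) (nat_lit 26) (nat_lit 5) (nat_lit 30) (nat_lit 5) (nat_lit 27) (nat_lit 5) (nat_lit 281) (nat_lit 258) (nat_lit 181))))) (XT.nd (nat_lit 156) (nat_lit 228) (nat_lit 0) (XT.nd (nat_lit 78) (nat_lit 152) (nat_lit 0) (XT.lf (nat_lit 0) (nat_lit 26403217392) (nat_lit 152) (nat_lit 5396513810) (nat_lit 228) (nat_lit 19651778501) (nat_lit 24) (nat_lit 5) (nat_lit 26) (nat_lit 5) (nat_lit 27) (nat_lit 5) (nat_lit 282) (nat_lit 258) (nat_lit 180)) (XT.lf (nat_lit 0) (nat_lit 6279050509) (nat_lit 152) (nat_lit 38812756395) (nat_lit 228) (nat_lit 9360189698) (nat_lit 22) (nat_lit 5) (nat_lit 24) (nat_lit 5) (nat_lit 25) (nat_lit 5) (nat_lit 283) (nat_lit 258) (nat_lit 179))) (XT.nd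 (nat_lit 78) (nat_lit 152) (nat_lit 0) (XT.lf (nat_lit 0) (nat_lit 2225095313) (nat_lit 228) (nat_lit 16801329820) (nat_lit 76) (nat_lit 38638417119) (nat_lit 21) (nat_lit 5) (nat_lit 24) (nat_lit 5) (nat_lit 22) (nat_lit 5) (nat_lit 284) (nat_lit 258) (nat_lit 178)) (XT.nd (nat_lit 78) (nat_lit 0) (nat_lit 0) (XT.lf (nat_lit 0) (nat_lit 14722631933) (nat_lit 228) (nat_lit 43687034937) (nat_lit 76) (nat_lit 2701723161) (nat_lit 19) (nat_lit 5) (nat_lit 22) (nat_lit 5) (nat_lit 20) (nat_lit 5) (nat_lit 285) (nat_lit 258) (nat_lit 177)) (XT.lf (nat_lit 0) (nat_lit 28831222715) (nat_lit 228) (nat_lit 10167625819) (nat_lit 76) (nat_lit 25804264402) (nat_lit 19) (nat_lit 5) (nat_lit 22) (nat_lit 5) (nat_lit 20) (nat_lit 5) (nat_lit 286) (nat_lit 258) (nat_lit 176))))))) (XT.nd (nat_lit 702) (nat_lit 304) (nat_lit 0) (XT.nd (nat_lit 312) (nat_lit 456) (nat_lit 0) (XT.nd (nat_lit 156) (nat_lit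 152) (nat_lit 0) (XT.nd (nat_lit 78) (nat_lit 0) (nat_lit 0) (XT.lf (nat_lit 0) (nat_lit 26883551311) (nat_lit 152) (nat_lit 17598162936) (nat_lit 228) (nat_lit 24287811591) (nat_lit 17) (nat_lit 5) (nat_lit 19) (nat_lit 5) (nat_lit 20) (nat_lit 5) (nat_lit 287) (nat_lit 258) (nat_lit 175)) (XT.lf (nat_lit 0) (nat_lit 61644119641) (nat_lit 228) (nat_lit 5881539122) (nat_lit 76) (nat_lit 5514611172) (nat_lit 17) (nat_lit 5) (nat_lit 20) (nat_lit 5) (nat_lit 18) (nat_lit 4) (nat_lit 288) (nat_lit 258) (nat_lit 174))) (XT.nd (nat_lit 78) (nat_lit 0) (nat_lit 0) (XT.lf (nat_lit 0) (nat_lit 3277707118) (nat_lit 152) (nat_lit 43886305286) (nat_lit 76) (nat_lit 30445112182) (nat_lit 15) (nat_lit 5) (nat_lit 17) (nat_lit 5) (nat_lit 16) (nat_lit 5) (nat_lit 289) (nat_lit 258) (nat_lit 173)) (XT.lf (nat_lit 0) (nat_lit 18830088511) (nat_lit 152) (nat_lit 6035742965) (nat_lit 76) (nat_lit 57663130685)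 (nat_lit 15) (nat_lit 5) (nat_lit 17) (nat_lit 5) (nat_lit 16) (nat_lit 5) (nat_lit 290) (nat_lit 258) (nat_lit 172)))) (XT.nd (nat_lit 156) (nat_lit 304) (nat_lit 0) (XT.nd (nat_lit 78) (nat_lit 0) (nat_lit 0) (XT.lf (nat_lit 0) (nat_lit 35986229169) (nat_lit 152) (nat_lit 197102171) (nat_lit 228) (nat_lit 51631230843) (nat_lit 13) (nat_lit 5) (nat_lit 15) (nat_lit 5) (nat_lit 16) (nat_lit 5) (nat_lit 291) (nat_lit 258) (nat_lit 171)) (XT.lf (nat_lit 0) (nat_lit 55439612120) (nat_lit 228) (nat_lit 12355124453) (nat_lit 76) (nat_lit 25702543030) (nat_lit 13) (nat_lit 5) (nat_lit 16) (nat_lit 5) (nat_lit 14) (nat_lit 4) (nat_lit 292) (nat_lit 258) (nat_lit 170))) (XT.nd (nat_lit 78) (nat_lit 228) (nat_lit 0) (XT.lf (nat_lit 0) (nat_lit 31265667057) (nat_lit 76) (nat_lit 45457598038) (nat_lit 152) (nat_lit 22887013541) (nat_lit 12) (nat_lit 5) (nat_lit 13) (nat_lit 5) (nat_lit 14) (nat_lit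 4) (nat_lit 293) (nat_lit 258) (nat_lit 169)) (XT.nd (nat_lit 78) (nat_lit 228) (nat_lit 0) (XT.lf (nat_lit 0) (nat_lit 78810004883) (nat_lit 76) (nat_lit 21110451693) (nat_lit 152) (nat_lit 6281325836) (nat_lit 12) (nat_lit 5) (nat_lit 13) (nat_lit 5) (nat_lit 14) (nat_lit 4) (nat_lit 294) (nat_lit 258) (nat_lit 168)) (XT.lf (nat_lit 0) (nat_lit 11632541132) (nat_lit 228) (nat_lit 96187673657) (nat_lit 76) (nat_lit 5473666979) (nat_lit 9) (nat_lit 5) (nat_lit 12) (nat_lit 5) (nat_lit 10) (nat_lit 4) (nat_lit 295) (nat_lit 258) (nat_lit 167)))))) (XT.nd (nat_lit 390) (nat_lit 228) (nat_lit 0) (XT.nd (nat_lit 156) (nat_lit 76) (nat_lit 0) (XT.nd (nat_lit 78) (nat_lit 0) (nat_lit 0) (XT.lf (nat_lit 0) (nat_lit 31599361384) (nat_lit 228) (nat_lit 55263779466) (nat_lit 76) (nat_lit 34043069871) (nat_lit 9) (nat_lit 5) (nat_lit 12) (nat_lit 5) (nat_lit 10) (nat_lit 4) (nat_lit 296) (nat_lit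 258) (nat_lit 166)) (XT.lf (nat_lit 0) (nat_lit 53159859626) (nat_lit 228) (nat_lit 11072246336) (nat_lit 76) (nat_lit 64895608804) (nat_lit 9) (nat_lit 5) (nat_lit 12) (nat_lit 5) (nat_lit 10) (nat_lit 4) (nat_lit 297) (nat_lit 258) (nat_lit 165))) (XT.nd (nat_lit 78) (nat_lit 0) (nat_lit 0) (XT.lf (nat_lit 0) (nat_lit 37860576372) (nat_lit 76) (nat_lit 39172335102) (nat_lit 152) (nat_lit 60944646968) (nat_lit 8) (nat_lit 5) (nat_lit 9) (nat_lit 5) (nat_lit 10) (nat_lit 4) (nat_lit 298) (nat_lit 258) (nat_lit 164)) (XT.nd (nat_lit 78) (nat_lit 0) (nat_lit 0) (XT.lf (nat_lit 0) (nat_lit 91097855690) (nat_lit 76) (nat_lit 11907592027) (nat_lit 152) (nat_lit 44520464507) (nat_lit 8) (nat_lit 5) (nat_lit 9) (nat_lit 5) (nat_lit 10) (nat_lit 4) (nat_lit 299) (nat_lit 258) (nat_lit 163)) (XT.lf (nat_lit 0) (nat_lit 131326583951) (nat_lit 152) (nat_lit 9523103745) (nat_lit 0) (nat_lit 16974911039)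 (nat_lit 8) (nat_lit 5) (nat_lit 10) (nat_lit 4) (nat_lit 8) (nat_lit 4) (nat_lit 300) (nat_lit 258) (nat_lit 162))))) (XT.nd (nat_lit 156) (nat_lit 76) (nat_lit 0) (XT.nd (nat_lit 78) (nat_lit 76) (nat_lit 0) (XT.lf (nat_lit 0) (nat_lit 42281871092) (nat_lit 76) (nat_lit 120489660952) (nat_lit 76) (nat_lit 6132746042) (nat_lit 7) (nat_lit 4) (nat_lit 8) (nat_lit 5) (nat_lit 8) (nat_lit 4) (nat_lit 301) (nat_lit 258) (nat_lit 161)) (XT.lf (nat_lit 0) (nat_lit 15519961244) (nat_lit 152) (nat_lit 82545848062) (nat_lit 76) (nat_lit 82783849064) (nat_lit 6) (nat_lit 5) (nat_lit 8) (nat_lit 5) (nat_lit 7) (nat_lit 4) (nat_lit 302) (nat_lit 258) (nat_lit 160))) (XT.nd (nat_lit 78) (nat_lit 76) (nat_lit 0) (XT.lf (nat_lit 0) (nat_lit 38690383217) (nat_lit 152) (nat_lit 35050977185) (nat_lit 76) (nat_lit 120004267089) (nat_lit 6) (nat_lit 5) (nat_lit 8) (nat_lit 5) (nat_lit 7) (nat_lit 4) (nat_lit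 303) (nat_lit 258) (nat_lit 159)) (XT.nd (nat_lit 78) (nat_lit 0) (nat_lit 0) (XT.lf (nat_lit 0) (nat_lit 16776354178) (nat_lit 76) (nat_lit 47197683981) (nat_lit 152) (nat_lit 143686259020) (nat_lit 5) (nat_lit 5) (nat_lit 6) (nat_lit 5) (nat_lit 7) (nat_lit 4) (nat_lit 304) (nat_lit 258) (nat_lit 158)) (XT.lf (nat_lit 0) (nat_lit 73997631048) (nat_lit 76) (nat_lit 17891104621) (nat_lit 152) (nat_lit 130768990039) (nat_lit 5) (nat_lit 5) (nat_lit 6) (nat_lit 5) (nat_lit 7) (nat_lit 4) (nat_lit 305) (nat_lit 258) (nat_lit 157))))))))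
noncomputable def xc85 : XT := (XT.nd (nat_lit 33930) (nat_lit 0) (nat_lit 2280) (XT.nd (nat_lit 702) (nat_lit 0) (nat_lit 0) (XT.nd (nat_lit 312) (nat_lit 152) (nat_lit 0) (XT.nd (nat_lit 156) (nat_lit 76) (nat_lit 0) (XT.nd (nat_lit 78) (nat_lit 0) (nat_lit 0) (XT.lf (nat_lit 0) (nat_lit 122249365658) (nat_lit 152) (nat_lit 103276862599) (nat_lit 0) (nat_lit 13318084999) (nat_lit 5) (nat_lit 5) (nat_lit 7) (nat_lit 4) (nat_lit 5) (nat_lit 4) (nat_lit 306) (nat_lit 258) (nat_lit 156)) (XT.lf (nat_lit 0) (nat_lit 155338600989) (nat_lit 152) (nat_lit 54568067166) (nat_lit 0) (nat_lit 46404174285) (nat_lit 5) (nat_lit 5) (nat_lit 7) (nat_lit 4) (nat_lit 5) (nat_lit 4) (nat_lit 307) (nat_lit 258) (nat_lit 155))) (XT.nd (nat_lit 78) (nat_lit 76) (nat_lit 0) (XT.lf (nat_lit 0) (nat_lit 191073195739) (nat_lit 152) (nat_lit 1965733366) (nat_lit 0) (nat_lit 82135856028) (nat_lit 5) (nat_lit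 5) (nat_lit 7) (nat_lit 4) (nat_lit 5) (nat_lit 4) (nat_lit 308) (nat_lit 258) (nat_lit 154)) (XT.lf (nat_lit 0) (nat_lit 56655175779) (nat_lit 76) (nat_lit 173894280758) (nat_lit 76) (nat_lit 64954243821) (nat_lit 4) (nat_lit 4) (nat_lit 5) (nat_lit 5) (nat_lit 5) (nat_lit 4) (nat_lit 309) (nat_lit 258) (nat_lit 153)))) (XT.nd (nat_lit 156) (nat_lit 152) (nat_lit 0) (XT.nd (nat_lit 78) (nat_lit 0) (nat_lit 0) (XT.lf (nat_lit 0) (nat_lit 120033149927) (nat_lit 76) (nat_lit 153183340754) (nat_lit 76) (nat_lit 44240806384) (nat_lit 4) (nat_lit 4) (nat_lit 5) (nat_lit 5) (nat_lit 5) (nat_lit 4) (nat_lit 310) (nat_lit 258) (nat_lit 152)) (XT.lf (nat_lit 0) (nat_lit 188478766235) (nat_lit 76) (nat_lit 130816668242) (nat_lit 76) (nat_lit 21871821434) (nat_lit 4) (nat_lit 4) (nat_lit 5) (nat_lit 5) (nat_lit 5) (nat_lit 4) (nat_lit 311) (nat_lit 258) (nat_lit 151))) (XT.nd (nat_lit 78) (nat_lit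 76) (nat_lit 0) (XT.lf (nat_lit 0) (nat_lit 2212125128) (nat_lit 152) (nat_lit 104412131440) (nat_lit 76) (nat_lit 260148039818) (nat_lit 3) (nat_lit 5) (nat_lit 5) (nat_lit 5) (nat_lit 4) (nat_lit 4) (nat_lit 312) (nat_lit 258) (nat_lit 150)) (XT.nd (nat_lit 78) (nat_lit 76) (nat_lit 0) (XT.lf (nat_lit 0) (nat_lit 27465482093) (nat_lit 152) (nat_lit 52644732205) (nat_lit 76) (nat_lit 314297150669) (nat_lit 3) (nat_lit 5) (nat_lit 5) (nat_lit 5) (nat_lit 4) (nat_lit 4) (nat_lit 313) (nat_lit 258) (nat_lit 149)) (XT.lf (nat_lit 0) (nat_lit 3369813299) (nat_lit 76) (nat_lit 51420732790) (nat_lit 152) (nat_lit 369460122343) (nat_lit 2) (nat_lit 5) (nat_lit 3) (nat_lit 5) (nat_lit 4) (nat_lit 4) (nat_lit 314) (nat_lit 258) (nat_lit 148)))))) (XT.nd (nat_lit 390) (nat_lit 0) (nat_lit 0) (XT.nd (nat_lit 156) (nat_lit 0) (nat_lit 0) (XT.nd (nat_lit 78) (nat_lit 0) (nat_lit 0) (XT.lf (nat_lit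 0) (nat_lit 65743439405) (nat_lit 76) (nat_lit 19474094887) (nat_lit 152) (nat_lit 371218107152) (nat_lit 2) (nat_lit 5) (nat_lit 3) (nat_lit 5) (nat_lit 4) (nat_lit 4) (nat_lit 315) (nat_lit 258) (nat_lit 147)) (XT.lf (nat_lit 0) (nat_lit 118312266788) (nat_lit 152) (nat_lit 358324990786) (nat_lit 0) (nat_lit 14546476596) (nat_lit 2) (nat_lit 5) (nat_lit 4) (nat_lit 4) (nat_lit 2) (nat_lit 4) (nat_lit 316) (nat_lit 258) (nat_lit 146))) (XT.nd (nat_lit 78) (nat_lit 0) (nat_lit 0) (XT.lf (nat_lit 0) (nat_lit 154381976104) (nat_lit 152) (nat_lit 323698531272) (nat_lit 0) (nat_lit 50614798076) (nat_lit 2) (nat_lit 5) (nat_lit 4) (nat_lit 4) (nat_lit 2) (nat_lit 4) (nat_lit 317) (nat_lit 258) (nat_lit 145)) (XT.nd (nat_lit 78) (nat_lit 0) (nat_lit 0) (XT.lf (nat_lit 0) (nat_lit 193336363470) (nat_lit 152) (nat_lit 286303584466) (nat_lit 0) (nat_lit 89567900408) (nat_lit 2) (nat_lit 5) (nat_lit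 4) (nat_lit 4) (nat_lit 2) (nat_lit 4) (nat_lit 318) (nat_lit 258) (nat_lit 144)) (XT.lf (nat_lit 0) (nat_lit 235406269699) (nat_lit 152) (nat_lit 245918550683) (nat_lit 0) (nat_lit 131636616791) (nat_lit 2) (nat_lit 5) (nat_lit 4) (nat_lit 4) (nat_lit 2) (nat_lit 4) (nat_lit 319) (nat_lit 258) (nat_lit 143))))) (XT.nd (nat_lit 156) (nat_lit 0) (nat_lit 0) (XT.nd (nat_lit 78) (nat_lit 0) (nat_lit 0) (XT.lf (nat_lit 0) (nat_lit 280840997939) (nat_lit 152) (nat_lit 202304111205) (nat_lit 0) (nat_lit 177070243322) (nat_lit 2) (nat_lit 5) (nat_lit 4) (nat_lit 4) (nat_lit 2) (nat_lit 4) (nat_lit 320) (nat_lit 258) (nat_lit 142)) (XT.lf (nat_lit 0) (nat_lit 329909791024) (nat_lit 152) (nat_lit 155201810094) (nat_lit 0) (nat_lit 226138016306) (nat_lit 2) (nat_lit 5) (nat_lit 4) (nat_lit 4) (nat_lit 2) (nat_lit 4) (nat_lit 321) (nat_lit 258) (nat_lit 141))) (XT.nd (nat_lit 78) (nat_lit 0) (nat_lit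 0) (XT.lf (nat_lit 0) (nat_lit 382903426988) (nat_lit 152) (nat_lit 104332522603) (nat_lit 0) (nat_lit 279130707732) (nat_lit 2) (nat_lit 5) (nat_lit 4) (nat_lit 4) (nat_lit 2) (nat_lit 4) (nat_lit 322) (nat_lit 258) (nat_lit 140)) (XT.nd (nat_lit 32526) (nat_lit 0) (nat_lit 5016) (XT.lf (nat_lit 0) (nat_lit 440135942191) (nat_lit 152) (nat_lit 49394801102) (nat_lit 0) (nat_lit 336362348363) (nat_lit 2) (nat_lit 5) (nat_lit 4) (nat_lit 4) (nat_lit 2) (nat_lit 4) (nat_lit 323) (nat_lit 258) (nat_lit 139)) (XT.lf (nat_lit 0) (nat_lit 1015277775) (nat_lit 0) (nat_lit 1015277775) (nat_lit 684) (nat_lit 6905543055) (nat_lit 68) (nat_lit 5) (nat_lit 68) (nat_lit 3) (nat_lit 77) (nat_lit 3) (nat_lit 259) (nat_lit 259) (nat_lit 202))))))) (XT.nd (nat_lit 780) (nat_lit 1596) (nat_lit 0) (XT.nd (nat_lit 390) (nat_lit 1140) (nat_lit 0) (XT.nd (nat_lit 156) (nat_lit 0) (nat_lit 76) (XT.nd (nat_lit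 78) (nat_lit 0) (nat_lit 76) (XT.lf (nat_lit 0) (nat_lit 4680710913) (nat_lit 684) (nat_lit 3979536735) (nat_lit 760) (nat_lit 9902911413) (nat_lit 68) (nat_lit 5) (nat_lit 77) (nat_lit 3) (nat_lit 78) (nat_lit 5) (nat_lit 260) (nat_lit 259) (nat_lit 201)) (XT.lf (nat_lit 0) (nat_lit 5552026062) (nat_lit 684) (nat_lit 10287081077) (nat_lit 760) (nat_lit 3460290231) (nat_lit 69) (nat_lit 5) (nat_lit 78) (nat_lit 5) (nat_lit 79) (nat_lit 5) (nat_lit 261) (nat_lit 259) (nat_lit 200))) (XT.nd (nat_lit 78) (nat_lit 0) (nat_lit 76) (XT.lf (nat_lit 76) (nat_lit 3026624412) (nat_lit 0) (nat_lit 3702754745) (nat_lit 760) (nat_lit 13353437911) (nat_lit 70) (nat_lit 5) (nat_lit 69) (nat_lit 5) (nat_lit 79) (nat_lit 5) (nat_lit 262) (nat_lit 259) (nat_lit 199)) (XT.nd (nat_lit 78) (nat_lit 0) (nat_lit 76) (XT.lf (nat_lit 0) (nat_lit 8304380345) (nat_lit 684) (nat_lit 3315327457) (nat_lit 760) (nat_lit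 9294121179) (nat_lit 70) (nat_lit 5) (nat_lit 79) (nat_lit 5) (nat_lit 80) (nat_lit 5) (nat_lit 263) (nat_lit 259) (nat_lit 198)) (XT.lf (nat_lit 0) (nat_lit 10253707680) (nat_lit 684) (nat_lit 10001352375) (nat_lit 760) (nat_lit 1543930334) (nat_lit 71) (nat_lit 5) (nat_lit 80) (nat_lit 5) (nat_lit 81) (nat_lit 5) (nat_lit 264) (nat_lit 259) (nat_lit 197))))) (XT.nd (nat_lit 156) (nat_lit 1368) (nat_lit 0) (XT.nd (nat_lit 78) (nat_lit 0) (nat_lit 76) (XT.lf (nat_lit 76) (nat_lit 5445819441) (nat_lit 0) (nat_lit 7230785771) (nat_lit 760) (nat_lit 10062556856) (nat_lit 72) (nat_lit 5) (nat_lit 71) (nat_lit 5) (nat_lit 81) (nat_lit 5) (nat_lit 265) (nat_lit 259) (nat_lit 196)) (XT.lf (nat_lit 0) (nat_lit 15556530093) (nat_lit 684) (nat_lit 1387463133) (nat_lit 76) (nat_lit 6797467214) (nat_lit 72) (nat_lit 5) (nat_lit 81) (nat_lit 5) (nat_lit 73) (nat_lit 5) (nat_lit 266) (nat_lit 259)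 (nat_lit 195))) (XT.nd (nat_lit 78) (nat_lit 760) (nat_lit 0) (XT.lf (nat_lit 0) (nat_lit 16169869323) (nat_lit 684) (nat_lit 2852288836) (nat_lit 760) (nat_lit 5784086419) (nat_lit 63) (nat_lit 5) (nat_lit 72) (nat_lit 5) (nat_lit 73) (nat_lit 5) (nat_lit 267) (nat_lit 259) (nat_lit 194)) (XT.nd (nat_lit 78) (nat_lit 456) (nat_lit 0) (XT.lf (nat_lit 0) (nat_lit 9314067490) (nat_lit 304) (nat_lit 13796155832) (nat_lit 380) (nat_lit 2828791142) (nat_lit 59) (nat_lit 5) (nat_lit 63) (nat_lit 5) (nat_lit 64) (nat_lit 5) (nat_lit 268) (nat_lit 259) (nat_lit 193)) (XT.lf (nat_lit 0) (nat_lit 583826172) (nat_lit 456) (nat_lit 25331527875) (nat_lit 76) (nat_lit 1235197854) (nat_lit 53) (nat_lit 5) (nat_lit 59) (nat_lit 5) (nat_lit 54) (nat_lit 5) (nat_lit 269) (nat_lit 259) (nat_lit 192)))))) (XT.nd (nat_lit 390) (nat_lit 760) (nat_lit 0) (XT.nd (nat_lit 156) (nat_lit 532) (nat_lit 0) (XT.nd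 (nat_lit 78) (nat_lit 304) (nat_lit 0) (XT.lf (nat_lit 0) (nat_lit 4682526197) (nat_lit 456) (nat_lit 6414334662) (nat_lit 76) (nat_lit 17334274693) (nat_lit 53) (nat_lit 5) (nat_lit 59) (nat_lit 5) (nat_lit 54) (nat_lit 5) (nat_lit 270) (nat_lit 259) (nat_lit 191)) (XT.lf (nat_lit 0) (nat_lit 9400319623) (nat_lit 380) (nat_lit 15420475451) (nat_lit 76) (nat_lit 4978858100) (nat_lit 49) (nat_lit 5) (nat_lit 54) (nat_lit 5) (nat_lit 50) (nat_lit 5) (nat_lit 271) (nat_lit 259) (nat_lit 190))) (XT.nd (nat_lit 78) (nat_lit 228) (nat_lit 0) (XT.lf (nat_lit 0) (nat_lit 5773285194) (nat_lit 304) (nat_lit 9099001644) (nat_lit 380) (nat_lit 16386571505) (nat_lit 45) (nat_lit 5) (nat_lit 49) (nat_lit 5) (nat_lit 50) (nat_lit 5) (nat_lit 272) (nat_lit 259) (nat_lit 189)) (XT.nd (nat_lit 78) (nat_lit 228) (nat_lit 0) (XT.lf (nat_lit 0) (nat_lit 21164781105) (nat_lit 380) (nat_lit 3751306350) (nat_lit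 76) (nat_lit 7899614410) (nat_lit 45) (nat_lit 5) (nat_lit 50) (nat_lit 5) (nat_lit 46) (nat_lit 5) (nat_lit 273) (nat_lit 259) (nat_lit 188)) (XT.lf (nat_lit 0) (nat_lit 20200270735) (nat_lit 228) (nat_lit 8216911118) (nat_lit 304) (nat_lit 6057123097) (nat_lit 42) (nat_lit 5) (nat_lit 45) (nat_lit 5) (nat_lit 46) (nat_lit 5) (nat_lit 274) (nat_lit 259) (nat_lit 187))))) (XT.nd (nat_lit 156) (nat_lit 456) (nat_lit 0) (XT.nd (nat_lit 78) (nat_lit 0) (nat_lit 0) (XT.lf (nat_lit 0) (nat_lit 356301057) (nat_lit 304) (nat_lit 26159274916) (nat_lit 76) (nat_lit 9731484850) (nat_lit 38) (nat_lit 5) (nat_lit 42) (nat_lit 5) (nat_lit 39) (nat_lit 5) (nat_lit 275) (nat_lit 259) (nat_lit 186)) (XT.lf (nat_lit 0) (nat_lit 7453488118) (nat_lit 304) (nat_lit 1499953452) (nat_lit 76) (nat_lit 29184116247) (nat_lit 38) (nat_lit 5) (nat_lit 42) (nat_lit 5) (nat_lit 39) (nat_lit 5) (nat_lit 276) (nat_lit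 259) (nat_lit 185))) (XT.nd (nat_lit 78) (nat_lit 228) (nat_lit 0) (XT.lf (nat_lit 0) (nat_lit 15676154369) (nat_lit 304) (nat_lit 14373067862) (nat_lit 76) (nat_lit 10102215425) (nat_lit 35) (nat_lit 5) (nat_lit 39) (nat_lit 5) (nat_lit 36) (nat_lit 5) (nat_lit 277) (nat_lit 259) (nat_lit 184)) (XT.nd (nat_lit 78) (nat_lit 0) (nat_lit 0) (XT.lf (nat_lit 0) (nat_lit 13226220861) (nat_lit 228) (nat_lit 11704588449) (nat_lit 304) (nat_lit 17376936004) (nat_lit 32) (nat_lit 5) (nat_lit 35) (nat_lit 5) (nat_lit 36) (nat_lit 5) (nat_lit 278) (nat_lit 259) (nat_lit 183)) (XT.lf (nat_lit 0) (nat_lit 35297526167) (nat_lit 304) (nat_lit 1220987746) (nat_lit 76) (nat_lit 8099483454) (nat_lit 32) (nat_lit 5) (nat_lit 36) (nat_lit 5) (nat_lit 33) (nat_lit 5) (nat_lit 279) (nat_lit 259) (nat_lit 182))))))))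
noncomputable def xc86 : XT := (XT.nd (nat_lit 1482) (nat_lit 532) (nat_lit 0) (XT.nd (nat_lit 702) (nat_lit 608) (nat_lit 0) (XT.nd (nat_lit 312) (nat_lit 532) (nat_lit 0) (XT.nd (nat_lit 156) (nat_lit 152) (nat_lit 0) (XT.nd (nat_lit 78) (nat_lit 228) (nat_lit 0) (XT.lf (nat_lit 0) (nat_lit 61917329) (nat_lit 228) (nat_lit 17474927470) (nat_lit 76) (nat_lit 29543650826) (nat_lit 29) (nat_lit 5) (nat_lit 32) (nat_lit 5) (nat_lit 30) (nat_lit 5) (nat_lit 280) (nat_lit 259) (nat_lit 181)) (XT.lf (nat_lit 0) (nat_lit 10148780903) (nat_lit 304) (nat_lit 36308996311) (nat_lit 76) (nat_lit 3260575214) (nat_lit 26) (nat_lit 5) (nat_lit 30) (nat_lit 5) (nat_lit 27) (nat_lit 5) (nat_lit 281) (nat_lit 259) (nat_lit 180))) (XT.nd (nat_lit 78) (nat_lit 152) (nat_lit 0) (XT.lf (nat_lit 0) (nat_lit 21639715377) (nat_lit 304) (nat_lit 5475940019) (nat_lit 76) (nat_lit 25421744629) (nat_lit 26) (nat_lit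 5) (nat_lit 30) (nat_lit 5) (nat_lit 27) (nat_lit 5) (nat_lit 282) (nat_lit 259) (nat_lit 179)) (XT.lf (nat_lit 0) (nat_lit 28732610296) (nat_lit 152) (nat_lit 5758527937) (nat_lit 228) (nat_lit 21068789499) (nat_lit 24) (nat_lit 5) (nat_lit 26) (nat_lit 5) (nat_lit 27) (nat_lit 5) (nat_lit 283) (nat_lit 259) (nat_lit 178)))) (XT.nd (nat_lit 156) (nat_lit 304) (nat_lit 0) (XT.nd (nat_lit 78) (nat_lit 76) (nat_lit 0) (XT.lf (nat_lit 0) (nat_lit 6995400589) (nat_lit 152) (nat_lit 41844608021) (nat_lit 228) (nat_lit 9960798085) (nat_lit 22) (nat_lit 5) (nat_lit 24) (nat_lit 5) (nat_lit 25) (nat_lit 5) (nat_lit 284) (nat_lit 259) (nat_lit 177)) (XT.lf (nat_lit 0) (nat_lit 2535939277) (nat_lit 228) (nat_lit 17942601252) (nat_lit 76) (nat_lit 41792576759) (nat_lit 21) (nat_lit 5) (nat_lit 24) (nat_lit 5) (nat_lit 22) (nat_lit 5) (nat_lit 285) (nat_lit 259) (nat_lit 176))) (XT.nd (nat_lit 78)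 (nat_lit 152) (nat_lit 0) (XT.lf (nat_lit 0) (nat_lit 16027529873) (nat_lit 228) (nat_lit 46982487539) (nat_lit 76) (nat_lit 2983678963) (nat_lit 19) (nat_lit 5) (nat_lit 22) (nat_lit 5) (nat_lit 20) (nat_lit 5) (nat_lit 286) (nat_lit 259) (nat_lit 175)) (XT.nd (nat_lit 78) (nat_lit 152) (nat_lit 0) (XT.lf (nat_lit 0) (nat_lit 31255394038) (nat_lit 228) (nat_lit 10796304224) (nat_lit 76) (nat_lit 27929548100) (nat_lit 19) (nat_lit 5) (nat_lit 22) (nat_lit 5) (nat_lit 20) (nat_lit 5) (nat_lit 287) (nat_lit 259) (nat_lit 174)) (XT.lf (nat_lit 0) (nat_lit 29210938864) (nat_lit 152) (nat_lit 18941028309) (nat_lit 228) (nat_lit 26113320190) (nat_lit 17) (nat_lit 5) (nat_lit 19) (nat_lit 5) (nat_lit 20) (nat_lit 5) (nat_lit 288) (nat_lit 259) (nat_lit 173)))))) (XT.nd (nat_lit 390) (nat_lit 304) (nat_lit 0) (XT.nd (nat_lit 156) (nat_lit 152) (nat_lit 0) (XT.nd (nat_lit 78) (nat_lit 152) (nat_lit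 0) (XT.lf (nat_lit 0) (nat_lit 66680029236) (nat_lit 228) (nat_lit 6184016556) (nat_lit 76) (nat_lit 6014027891) (nat_lit 17) (nat_lit 5) (nat_lit 20) (nat_lit 5) (nat_lit 18) (nat_lit 4) (nat_lit 289) (nat_lit 259) (nat_lit 172)) (XT.lf (nat_lit 0) (nat_lit 3640885261) (nat_lit 152) (nat_lit 47232953481) (nat_lit 76) (nat_lit 32938792384) (nat_lit 15) (nat_lit 5) (nat_lit 17) (nat_lit 5) (nat_lit 16) (nat_lit 5) (nat_lit 290) (nat_lit 259) (nat_lit 171))) (XT.nd (nat_lit 78) (nat_lit 152) (nat_lit 0) (XT.lf (nat_lit 0) (nat_lit 20429978531) (nat_lit 152) (nat_lit 6366513301) (nat_lit 76) (nat_lit 62329950794) (nat_lit 15) (nat_lit 5) (nat_lit 17) (nat_lit 5) (nat_lit 16) (nat_lit 5) (nat_lit 291) (nat_lit 259) (nat_lit 170)) (XT.nd (nat_lit 78) (nat_lit 0) (nat_lit 0) (XT.lf (nat_lit 0) (nat_lit 39010606996) (nat_lit 152) (nat_lit 156220471) (nat_lit 228) (nat_lit 55668307877) (nat_lit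 13) (nat_lit 5) (nat_lit 15) (nat_lit 5) (nat_lit 16) (nat_lit 5) (nat_lit 292) (nat_lit 259) (nat_lit 169)) (XT.lf (nat_lit 0) (nat_lit 59957849685) (nat_lit 228) (nat_lit 13205398442) (nat_lit 76) (nat_lit 27809521217) (nat_lit 13) (nat_lit 5) (nat_lit 16) (nat_lit 5) (nat_lit 14) (nat_lit 4) (nat_lit 293) (nat_lit 259) (nat_lit 168))))) (XT.nd (nat_lit 156) (nat_lit 228) (nat_lit 0) (XT.nd (nat_lit 78) (nat_lit 0) (nat_lit 0) (XT.lf (nat_lit 0) (nat_lit 33899053168) (nat_lit 76) (nat_lit 49041051463) (nat_lit 152) (nat_lit 24634918493) (nat_lit 12) (nat_lit 5) (nat_lit 13) (nat_lit 5) (nat_lit 14) (nat_lit 4) (nat_lit 294) (nat_lit 259) (nat_lit 167)) (XT.lf (nat_lit 0) (nat_lit 85237150410) (nat_lit 76) (nat_lit 22750070775) (nat_lit 152) (nat_lit 6706928077) (nat_lit 12) (nat_lit 5) (nat_lit 13) (nat_lit 5) (nat_lit 14) (nat_lit 4) (nat_lit 295) (nat_lit 259) (nat_lit 166))) (XT.nd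 (nat_lit 78) (nat_lit 0) (nat_lit 0) (XT.lf (nat_lit 0) (nat_lit 12634698492) (nat_lit 228) (nat_lit 103760311613) (nat_lit 76) (nat_lit 5958699264) (nat_lit 9) (nat_lit 5) (nat_lit 12) (nat_lit 5) (nat_lit 10) (nat_lit 4) (nat_lit 296) (nat_lit 259) (nat_lit 165)) (XT.nd (nat_lit 78) (nat_lit 0) (nat_lit 0) (XT.lf (nat_lit 0) (nat_lit 34193564063) (nat_lit 228) (nat_lit 59571570771) (nat_lit 76) (nat_lit 36810162614) (nat_lit 9) (nat_lit 5) (nat_lit 12) (nat_lit 5) (nat_lit 10) (nat_lit 4) (nat_lit 297) (nat_lit 259) (nat_lit 164)) (XT.lf (nat_lit 0) (nat_lit 57473994477) (nat_lit 228) (nat_lit 11853108402) (nat_lit 76) (nat_lit 70127671540) (nat_lit 9) (nat_lit 5) (nat_lit 12) (nat_lit 5) (nat_lit 10) (nat_lit 4) (nat_lit 298) (nat_lit 259) (nat_lit 163))))))) (XT.nd (nat_lit 780) (nat_lit 228) (nat_lit 0) (XT.nd (nat_lit 390) (nat_lit 76) (nat_lit 0) (XT.nd (nat_lit 156) (nat_lit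 152) (nat_lit 0) (XT.nd (nat_lit 78) (nat_lit 0) (nat_lit 0) (XT.lf (nat_lit 0) (nat_lit 40989780529) (nat_lit 76) (nat_lit 42264132659) (nat_lit 152) (nat_lit 65758847948) (nat_lit 8) (nat_lit 5) (nat_lit 9) (nat_lit 5) (nat_lit 10) (nat_lit 4) (nat_lit 299) (nat_lit 259) (nat_lit 162)) (XT.lf (nat_lit 0) (nat_lit 98478608264) (nat_lit 76) (nat_lit 12821320453) (nat_lit 152) (nat_lit 48025276873) (nat_lit 8) (nat_lit 5) (nat_lit 9) (nat_lit 5) (nat_lit 10) (nat_lit 4) (nat_lit 300) (nat_lit 259) (nat_lit 161))) (XT.nd (nat_lit 78) (nat_lit 152) (nat_lit 0) (XT.lf (nat_lit 0) (nat_lit 141883314549) (nat_lit 152) (nat_lit 10196899525) (nat_lit 0) (nat_lit 18367750744) (nat_lit 8) (nat_lit 5) (nat_lit 10) (nat_lit 4) (nat_lit 8) (nat_lit 4) (nat_lit 301) (nat_lit 259) (nat_lit 160)) (XT.nd (nat_lit 78) (nat_lit 76) (nat_lit 0) (XT.lf (nat_lit 0) (nat_lit 45748646644) (nat_lit 76) (nat_lit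 130092778411) (nat_lit 76) (nat_lit 6572720438) (nat_lit 7) (nat_lit 4) (nat_lit 8) (nat_lit 5) (nat_lit 8) (nat_lit 4) (nat_lit 302) (nat_lit 259) (nat_lit 159)) (XT.lf (nat_lit 0) (nat_lit 16806951034) (nat_lit 152) (nat_lit 89069969620) (nat_lit 76) (nat_lit 89438382260) (nat_lit 6) (nat_lit 5) (nat_lit 8) (nat_lit 5) (nat_lit 7) (nat_lit 4) (nat_lit 303) (nat_lit 259) (nat_lit 158))))) (XT.nd (nat_lit 156) (nat_lit 0) (nat_lit 0) (XT.nd (nat_lit 78) (nat_lit 76) (nat_lit 0) (XT.lf (nat_lit 0) (nat_lit 41827644329) (nat_lit 152) (nat_lit 37781401391) (nat_lit 76) (nat_lit 129634076299) (nat_lit 6) (nat_lit 5) (nat_lit 8) (nat_lit 5) (nat_lit 7) (nat_lit 4) (nat_lit 304) (nat_lit 259) (nat_lit 157)) (XT.lf (nat_lit 0) (nat_lit 18188915570) (nat_lit 76) (nat_lit 50943062699) (nat_lit 152) (nat_lit 155139091693) (nat_lit 5) (nat_lit 5) (nat_lit 6) (nat_lit 5) (nat_lit 7) (nat_lit 4)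 (nat_lit 305) (nat_lit 259) (nat_lit 156))) (XT.nd (nat_lit 78) (nat_lit 0) (nat_lit 0) (XT.lf (nat_lit 0) (nat_lit 79982675845) (nat_lit 76) (nat_lit 19294211509) (nat_lit 152) (nat_lit 141191557346) (nat_lit 5) (nat_lit 5) (nat_lit 6) (nat_lit 5) (nat_lit 7) (nat_lit 4) (nat_lit 306) (nat_lit 259) (nat_lit 155)) (XT.nd (nat_lit 78) (nat_lit 0) (nat_lit 0) (XT.lf (nat_lit 0) (nat_lit 132064030487) (nat_lit 152) (nat_lit 111477258472) (nat_lit 0) (nat_lit 14408790594) (nat_lit 5) (nat_lit 5) (nat_lit 7) (nat_lit 4) (nat_lit 5) (nat_lit 4) (nat_lit 307) (nat_lit 259) (nat_lit 154)) (XT.lf (nat_lit 0) (nat_lit 167797833120) (nat_lit 152) (nat_lit 58876333711) (nat_lit 0) (nat_lit 50139896001) (nat_lit 5) (nat_lit 5) (nat_lit 7) (nat_lit 4) (nat_lit 5) (nat_lit 4) (nat_lit 308) (nat_lit 259) (nat_lit 153)))))) (XT.nd (nat_lit 390) (nat_lit 76) (nat_lit 0) (XT.nd (nat_lit 156) (nat_lit 76)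 (nat_lit 0) (XT.nd (nat_lit 78) (nat_lit 76) (nat_lit 0) (XT.lf (nat_lit 0) (nat_lit 206388814409) (nat_lit 152) (nat_lit 2070048675) (nat_lit 0) (nat_lit 88728379856) (nat_lit 5) (nat_lit 5) (nat_lit 7) (nat_lit 4) (nat_lit 5) (nat_lit 4) (nat_lit 309) (nat_lit 259) (nat_lit 152)) (XT.lf (nat_lit 0) (nat_lit 61238232347) (nat_lit 76) (nat_lit 187783529728) (nat_lit 76) (nat_lit 70120782737) (nat_lit 4) (nat_lit 4) (nat_lit 5) (nat_lit 5) (nat_lit 5) (nat_lit 4) (nat_lit 310) (nat_lit 259) (nat_lit 151))) (XT.nd (nat_lit 78) (nat_lit 76) (nat_lit 0) (XT.lf (nat_lit 0) (nat_lit 129682693131) (nat_lit 76) (nat_lit 165417365893) (nat_lit 76) (nat_lit 47752477756) (nat_lit 4) (nat_lit 4) (nat_lit 5) (nat_lit 5) (nat_lit 5) (nat_lit 4) (nat_lit 311) (nat_lit 259) (nat_lit 150)) (XT.nd (nat_lit 78) (nat_lit 76) (nat_lit 0) (XT.lf (nat_lit 0) (nat_lit 203600485321) (nat_lit 76) (nat_lit 141262888626)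 (nat_lit 76) (nat_lit 23596017947) (nat_lit 4) (nat_lit 4) (nat_lit 5) (nat_lit 5) (nat_lit 5) (nat_lit 4) (nat_lit 312) (nat_lit 259) (nat_lit 149)) (XT.lf (nat_lit 0) (nat_lit 2411994646) (nat_lit 152) (nat_lit 112724117342) (nat_lit 76) (nat_lit 280976797336) (nat_lit 3) (nat_lit 5) (nat_lit 5) (nat_lit 5) (nat_lit 4) (nat_lit 4) (nat_lit 313) (nat_lit 259) (nat_lit 148))))) (XT.nd (nat_lit 156) (nat_lit 0) (nat_lit 0) (XT.nd (nat_lit 78) (nat_lit 76) (nat_lit 0) (XT.lf (nat_lit 0) (nat_lit 29683923908) (nat_lit 152) (nat_lit 56818362065) (nat_lit 76) (nat_lit 339456584141) (nat_lit 3) (nat_lit 5) (nat_lit 5) (nat_lit 5) (nat_lit 4) (nat_lit 4) (nat_lit 314) (nat_lit 259) (nat_lit 147)) (XT.lf (nat_lit 0) (nat_lit 3675697874) (nat_lit 76) (nat_lit 55518291276) (nat_lit 152) (nat_lit 398995700671) (nat_lit 2) (nat_lit 5) (nat_lit 3) (nat_lit 5) (nat_lit 4) (nat_lit 4) (nat_lit 315)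 (nat_lit 259) (nat_lit 146))) (XT.nd (nat_lit 78) (nat_lit 0) (nat_lit 0) (XT.lf (nat_lit 0) (nat_lit 71036525216) (nat_lit 76) (nat_lit 21017114943) (nat_lit 152) (nat_lit 400895896965) (nat_lit 2) (nat_lit 5) (nat_lit 3) (nat_lit 5) (nat_lit 4) (nat_lit 4) (nat_lit 316) (nat_lit 259) (nat_lit 145)) (XT.nd (nat_lit 78) (nat_lit 0) (nat_lit 0) (XT.lf (nat_lit 0) (nat_lit 127794781346) (nat_lit 152) (nat_lit 386959199729) (nat_lit 0) (nat_lit 15723556206) (nat_lit 2) (nat_lit 5) (nat_lit 4) (nat_lit 4) (nat_lit 2) (nat_lit 4) (nat_lit 317) (nat_lit 259) (nat_lit 144)) (XT.lf (nat_lit 0) (nat_lit 166748768651) (nat_lit 152) (nat_lit 349564978292) (nat_lit 0) (nat_lit 54676353665) (nat_lit 2) (nat_lit 5) (nat_lit 4) (nat_lit 4) (nat_lit 2) (nat_lit 4) (nat_lit 318) (nat_lit 259) (nat_lit 143))))))))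
noncomputable def xc87 : XT := (XT.nd (nat_lit 34008) (nat_lit 0) (nat_lit 836) (XT.nd (nat_lit 33228) (nat_lit 0) (nat_lit 3268) (XT.nd (nat_lit 312) (nat_lit 0) (nat_lit 0) (XT.nd (nat_lit 156) (nat_lit 0) (nat_lit 0) (XT.nd (nat_lit 78) (nat_lit 0) (nat_lit 0) (XT.lf (nat_lit 0) (nat_lit 208818304453) (nat_lit 152) (nat_lit 309180616147) (nat_lit 0) (nat_lit 96744787758) (nat_lit 2) (nat_lit 5) (nat_lit 4) (nat_lit 4) (nat_lit 2) (nat_lit 4) (nat_lit 319) (nat_lit 259) (nat_lit 142)) (XT.lf (nat_lit 0) (nat_lit 254252689706) (nat_lit 152) (nat_lit 265566798556) (nat_lit 0) (nat_lit 142178152910) (nat_lit 2) (nat_lit 5) (nat_lit 4) (nat_lit 4) (nat_lit 2) (nat_lit 4) (nat_lit 320) (nat_lit 259) (nat_lit 141))) (XT.nd (nat_lit 78) (nat_lit 0) (nat_lit 0) (XT.lf (nat_lit 0) (nat_lit 303321165210) (nat_lit 152) (nat_lit 218465073267) (nat_lit 0) (nat_lit 191245683876) (nat_lit 2) (nat_lit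 5) (nat_lit 4) (nat_lit 4) (nat_lit 2) (nat_lit 4) (nat_lit 321) (nat_lit 259) (nat_lit 140)) (XT.lf (nat_lit 0) (nat_lit 356314507118) (nat_lit 152) (nat_lit 167596318944) (nat_lit 0) (nat_lit 244238151211) (nat_lit 2) (nat_lit 5) (nat_lit 4) (nat_lit 4) (nat_lit 2) (nat_lit 4) (nat_lit 322) (nat_lit 259) (nat_lit 139)))) (XT.nd (nat_lit 32682) (nat_lit 0) (nat_lit 5016) (XT.nd (nat_lit 32604) (nat_lit 0) (nat_lit 5016) (XT.lf (nat_lit 0) (nat_lit 413546750046) (nat_lit 152) (nat_lit 112659091117) (nat_lit 0) (nat_lit 301469584351) (nat_lit 2) (nat_lit 5) (nat_lit 4) (nat_lit 4) (nat_lit 2) (nat_lit 4) (nat_lit 323) (nat_lit 259) (nat_lit 138)) (XT.lf (nat_lit 0) (nat_lit 1241638881) (nat_lit 0) (nat_lit 1241638881) (nat_lit 684) (nat_lit 7152152266) (nat_lit 68) (nat_lit 5) (nat_lit 68) (nat_lit 3) (nat_lit 77) (nat_lit 3) (nat_lit 260) (nat_lit 260) (nat_lit 200))) (XT.nd (nat_lit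 78) (nat_lit 0) (nat_lit 76) (XT.lf (nat_lit 0) (nat_lit 5588522865) (nat_lit 684) (nat_lit 3996119350) (nat_lit 760) (nat_lit 10434971117) (nat_lit 68) (nat_lit 5) (nat_lit 77) (nat_lit 3) (nat_lit 78) (nat_lit 5) (nat_lit 261) (nat_lit 260) (nat_lit 199)) (XT.nd (nat_lit 78) (nat_lit 0) (nat_lit 0) (XT.lf (nat_lit 0) (nat_lit 6491268486) (nat_lit 684) (nat_lit 10791403021) (nat_lit 760) (nat_lit 3534135951) (nat_lit 69) (nat_lit 5) (nat_lit 78) (nat_lit 5) (nat_lit 79) (nat_lit 5) (nat_lit 262) (nat_lit 260) (nat_lit 198)) (XT.lf (nat_lit 76) (nat_lit 3573551005) (nat_lit 0) (nat_lit 4157344937) (nat_lit 760) (nat_lit 13933732906) (nat_lit 70) (nat_lit 5) (nat_lit 69) (nat_lit 5) (nat_lit 79) (nat_lit 5) (nat_lit 263) (nat_lit 260) (nat_lit 197)))))) (XT.nd (nat_lit 390) (nat_lit 1368) (nat_lit 0) (XT.nd (nat_lit 156) (nat_lit 532) (nat_lit 0) (XT.nd (nat_lit 78) (nat_lit 0) (nat_lit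 76) (XT.lf (nat_lit 0) (nat_lit 9395299157) (nat_lit 684) (nat_lit 3273069559) (nat_lit 760) (nat_lit 9895705513) (nat_lit 70) (nat_lit 5) (nat_lit 79) (nat_lit 5) (nat_lit 80) (nat_lit 5) (nat_lit 264) (nat_lit 260) (nat_lit 196)) (XT.lf (nat_lit 0) (nat_lit 11471920838) (nat_lit 684) (nat_lit 10484295855) (nat_lit 760) (nat_lit 1565377977) (nat_lit 71) (nat_lit 5) (nat_lit 80) (nat_lit 5) (nat_lit 81) (nat_lit 5) (nat_lit 265) (nat_lit 260) (nat_lit 195))) (XT.nd (nat_lit 78) (nat_lit 608) (nat_lit 0) (XT.lf (nat_lit 76) (nat_lit 6184866114) (nat_lit 0) (nat_lit 7879045388) (nat_lit 760) (nat_lit 10474410634) (nat_lit 72) (nat_lit 5) (nat_lit 71) (nat_lit 5) (nat_lit 81) (nat_lit 5) (nat_lit 266) (nat_lit 260) (nat_lit 194)) (XT.nd (nat_lit 78) (nat_lit 684) (nat_lit 0) (XT.lf (nat_lit 0) (nat_lit 17145578567) (nat_lit 684) (nat_lit 1198049317) (nat_lit 76) (nat_lit 7278706422) (nat_lit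 72) (nat_lit 5) (nat_lit 81) (nat_lit 5) (nat_lit 73) (nat_lit 5) (nat_lit 267) (nat_lit 260) (nat_lit 193)) (XT.lf (nat_lit 0) (nat_lit 17750814246) (nat_lit 684) (nat_lit 3116608605) (nat_lit 760) (nat_lit 5906020146) (nat_lit 63) (nat_lit 5) (nat_lit 72) (nat_lit 5) (nat_lit 73) (nat_lit 5) (nat_lit 268) (nat_lit 260) (nat_lit 192))))) (XT.nd (nat_lit 156) (nat_lit 608) (nat_lit 0) (XT.nd (nat_lit 78) (nat_lit 456) (nat_lit 0) (XT.lf (nat_lit 0) (nat_lit 10351149088) (nat_lit 304) (nat_lit 14911457618) (nat_lit 380) (nat_lit 2735307543) (nat_lit 59) (nat_lit 5) (nat_lit 63) (nat_lit 5) (nat_lit 64) (nat_lit 5) (nat_lit 269) (nat_lit 260) (nat_lit 191)) (XT.lf (nat_lit 0) (nat_lit 921664257) (nat_lit 456) (nat_lit 27052546201) (nat_lit 76) (nat_lit 1332909157) (nat_lit 53) (nat_lit 5) (nat_lit 59) (nat_lit 5) (nat_lit 54) (nat_lit 5) (nat_lit 270) (nat_lit 260) (nat_lit 190))) (XT.nd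 (nat_lit 78) (nat_lit 608) (nat_lit 0) (XT.lf (nat_lit 0) (nat_lit 5326694951) (nat_lit 456) (nat_lit 6644607451) (nat_lit 76) (nat_lit 18719993959) (nat_lit 53) (nat_lit 5) (nat_lit 59) (nat_lit 5) (nat_lit 54) (nat_lit 5) (nat_lit 271) (nat_lit 260) (nat_lit 189)) (XT.nd (nat_lit 78) (nat_lit 304) (nat_lit 0) (XT.lf (nat_lit 0) (nat_lit 10406430102) (nat_lit 380) (nat_lit 16370314712) (nat_lit 76) (nat_lit 5393387754) (nat_lit 49) (nat_lit 5) (nat_lit 54) (nat_lit 5) (nat_lit 50) (nat_lit 5) (nat_lit 272) (nat_lit 260) (nat_lit 188)) (XT.lf (nat_lit 0) (nat_lit 6506613235) (nat_lit 304) (nat_lit 9794958688) (nat_lit 380) (nat_lit 17445289783) (nat_lit 45) (nat_lit 5) (nat_lit 49) (nat_lit 5) (nat_lit 50) (nat_lit 5) (nat_lit 273) (nat_lit 260) (nat_lit 187))))))) (XT.nd (nat_lit 780) (nat_lit 988) (nat_lit 0) (XT.nd (nat_lit 390) (nat_lit 684) (nat_lit 0) (XT.nd (nat_lit 156) (nat_lit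 532) (nat_lit 0) (XT.nd (nat_lit 78) (nat_lit 228) (nat_lit 0) (XT.lf (nat_lit 0) (nat_lit 23080186900) (nat_lit 380) (nat_lit 3788752065) (nat_lit 76) (nat_lit 8560231776) (nat_lit 45) (nat_lit 5) (nat_lit 50) (nat_lit 5) (nat_lit 46) (nat_lit 5) (nat_lit 274) (nat_lit 260) (nat_lit 186)) (XT.lf (nat_lit 0) (nat_lit 22067536355) (nat_lit 228) (nat_lit 8832704989) (nat_lit 304) (nat_lit 6320897728) (nat_lit 42) (nat_lit 5) (nat_lit 45) (nat_lit 5) (nat_lit 46) (nat_lit 5) (nat_lit 275) (nat_lit 260) (nat_lit 185))) (XT.nd (nat_lit 78) (nat_lit 228) (nat_lit 0) (XT.lf (nat_lit 0) (nat_lit 587284895) (nat_lit 304) (nat_lit 27994437976) (nat_lit 76) (nat_lit 10554426779) (nat_lit 38) (nat_lit 5) (nat_lit 42) (nat_lit 5) (nat_lit 39) (nat_lit 5) (nat_lit 276) (nat_lit 260) (nat_lit 184)) (XT.nd (nat_lit 78) (nat_lit 228) (nat_lit 0) (XT.lf (nat_lit 0) (nat_lit 8237248420) (nat_lit 304) (nat_lit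 1381450716) (nat_lit 76) (nat_lit 31559978085) (nat_lit 38) (nat_lit 5) (nat_lit 42) (nat_lit 5) (nat_lit 39) (nat_lit 5) (nat_lit 277) (nat_lit 260) (nat_lit 183)) (XT.lf (nat_lit 0) (nat_lit 17108198203) (nat_lit 304) (nat_lit 15286244000) (nat_lit 76) (nat_lit 10959739597) (nat_lit 35) (nat_lit 5) (nat_lit 39) (nat_lit 5) (nat_lit 36) (nat_lit 5) (nat_lit 278) (nat_lit 260) (nat_lit 182))))) (XT.nd (nat_lit 156) (nat_lit 456) (nat_lit 0) (XT.nd (nat_lit 78) (nat_lit 0) (nat_lit 0) (XT.lf (nat_lit 0) (nat_lit 14510702462) (nat_lit 228) (nat_lit 12582875973) (nat_lit 304) (nat_lit 18589933048) (nat_lit 32) (nat_lit 5) (nat_lit 35) (nat_lit 5) (nat_lit 36) (nat_lit 5) (nat_lit 279) (nat_lit 260) (nat_lit 181)) (XT.lf (nat_lit 0) (nat_lit 38278005265) (nat_lit 304) (nat_lit 1101693985) (nat_lit 76) (nat_lit 8799498281) (nat_lit 32) (nat_lit 5) (nat_lit 36) (nat_lit 5) (nat_lit 33) (nat_lit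 5) (nat_lit 280) (nat_lit 260) (nat_lit 180))) (XT.nd (nat_lit 78) (nat_lit 228) (nat_lit 0) (XT.lf (nat_lit 0) (nat_lit 217977380) (nat_lit 228) (nat_lit 18660024165) (nat_lit 76) (nat_lit 31961020571) (nat_lit 29) (nat_lit 5) (nat_lit 32) (nat_lit 5) (nat_lit 30) (nat_lit 5) (nat_lit 281) (nat_lit 260) (nat_lit 179)) (XT.nd (nat_lit 78) (nat_lit 0) (nat_lit 0) (XT.lf (nat_lit 0) (nat_lit 11104721816) (nat_lit 304) (nat_lit 39003530196) (nat_lit 76) (nat_lit 3580035368) (nat_lit 26) (nat_lit 5) (nat_lit 30) (nat_lit 5) (nat_lit 27) (nat_lit 5) (nat_lit 282) (nat_lit 260) (nat_lit 178)) (XT.lf (nat_lit 0) (nat_lit 23504261534) (nat_lit 304) (nat_lit 5719398721) (nat_lit 76) (nat_lit 27509756548) (nat_lit 26) (nat_lit 5) (nat_lit 30) (nat_lit 5) (nat_lit 27) (nat_lit 5) (nat_lit 283) (nat_lit 260) (nat_lit 177)))))) (XT.nd (nat_lit 390) (nat_lit 456) (nat_lit 0) (XT.nd (nat_lit 156) (nat_lit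 228) (nat_lit 0) (XT.nd (nat_lit 78) (nat_lit 152) (nat_lit 0) (XT.lf (nat_lit 0) (nat_lit 31217377823) (nat_lit 152) (nat_lit 6159447674) (nat_lit 228) (nat_lit 22621292589) (nat_lit 24) (nat_lit 5) (nat_lit 26) (nat_lit 5) (nat_lit 27) (nat_lit 5) (nat_lit 284) (nat_lit 260) (nat_lit 176)) (XT.lf (nat_lit 0) (nat_lit 7738525467) (nat_lit 152) (nat_lit 45129446137) (nat_lit 228) (nat_lit 10630598498) (nat_lit 22) (nat_lit 5) (nat_lit 24) (nat_lit 5) (nat_lit 25) (nat_lit 5) (nat_lit 285) (nat_lit 260) (nat_lit 175))) (XT.nd (nat_lit 78) (nat_lit 152) (nat_lit 0) (XT.lf (nat_lit 0) (nat_lit 2852700170) (nat_lit 228) (nat_lit 19204111071) (nat_lit 76) (nat_lit 45190069209) (nat_lit 21) (nat_lit 5) (nat_lit 24) (nat_lit 5) (nat_lit 22) (nat_lit 5) (nat_lit 286) (nat_lit 260) (nat_lit 174)) (XT.nd (nat_lit 78) (nat_lit 0) (nat_lit 0) (XT.lf (nat_lit 0) (nat_lit 17418689213) (nat_lit 228)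 (nat_lit 50570038708) (nat_lit 76) (nat_lit 3278801564) (nat_lit 19) (nat_lit 5) (nat_lit 22) (nat_lit 5) (nat_lit 20) (nat_lit 5) (nat_lit 287) (nat_lit 260) (nat_lit 173)) (XT.lf (nat_lit 0) (nat_lit 33856711626) (nat_lit 228) (nat_lit 11501630938) (nat_lit 76) (nat_lit 30216160358) (nat_lit 19) (nat_lit 5) (nat_lit 22) (nat_lit 5) (nat_lit 20) (nat_lit 5) (nat_lit 288) (nat_lit 260) (nat_lit 172))))) (XT.nd (nat_lit 156) (nat_lit 304) (nat_lit 0) (XT.nd (nat_lit 78) (nat_lit 0) (nat_lit 0) (XT.lf (nat_lit 0) (nat_lit 31699308699) (nat_lit 152) (nat_lit 20400594129) (nat_lit 228) (nat_lit 28101634495) (nat_lit 17) (nat_lit 5) (nat_lit 19) (nat_lit 5) (nat_lit 20) (nat_lit 5) (nat_lit 289) (nat_lit 260) (nat_lit 171)) (XT.lf (nat_lit 0) (nat_lit 72103920621) (nat_lit 228) (nat_lit 6534665783) (nat_lit 76) (nat_lit 6545088244) (nat_lit 17) (nat_lit 5) (nat_lit 20) (nat_lit 5) (nat_lit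 18) (nat_lit 4) (nat_lit 290) (nat_lit 260) (nat_lit 170))) (XT.nd (nat_lit 78) (nat_lit 152) (nat_lit 0) (XT.lf (nat_lit 0) (nat_lit 4018714359) (nat_lit 152) (nat_lit 50870766518) (nat_lit 76) (nat_lit 35623682491) (nat_lit 15) (nat_lit 5) (nat_lit 17) (nat_lit 5) (nat_lit 16) (nat_lit 5) (nat_lit 291) (nat_lit 260) (nat_lit 169)) (XT.nd (nat_lit 78) (nat_lit 152) (nat_lit 0) (XT.lf (nat_lit 0) (nat_lit 22144523367) (nat_lit 152) (nat_lit 6745442475) (nat_lit 76) (nat_lit 67362445670) (nat_lit 15) (nat_lit 5) (nat_lit 17) (nat_lit 5) (nat_lit 16) (nat_lit 5) (nat_lit 292) (nat_lit 260) (nat_lit 168)) (XT.lf (nat_lit 0) (nat_lit 42256180773) (nat_lit 152) (nat_lit 120149972) (nat_lit 228) (nat_lit 60041678685) (nat_lit 13) (nat_lit 5) (nat_lit 15) (nat_lit 5) (nat_lit 16) (nat_lit 5) (nat_lit 293) (nat_lit 260) (nat_lit 167))))))))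
noncomputable def xc88 : XT := (XT.nd (nat_lit 1482) (nat_lit 152) (nat_lit 0) (XT.nd (nat_lit 702) (nat_lit 304) (nat_lit 0) (XT.nd (nat_lit 312) (nat_lit 76) (nat_lit 0) (XT.nd (nat_lit 156) (nat_lit 228) (nat_lit 0) (XT.nd (nat_lit 78) (nat_lit 76) (nat_lit 0) (XT.lf (nat_lit 0) (nat_lit 64825695591) (nat_lit 228) (nat_lit 14143400990) (nat_lit 76) (nat_lit 30077814074) (nat_lit 13) (nat_lit 5) (nat_lit 16) (nat_lit 5) (nat_lit 14) (nat_lit 4) (nat_lit 294) (nat_lit 260) (nat_lit 166)) (XT.lf (nat_lit 0) (nat_lit 36724259955) (nat_lit 76) (nat_lit 52918764234) (nat_lit 152) (nat_lit 26534504726) (nat_lit 12) (nat_lit 5) (nat_lit 13) (nat_lit 5) (nat_lit 14) (nat_lit 4) (nat_lit 295) (nat_lit 260) (nat_lit 165))) (XT.nd (nat_lit 78) (nat_lit 228) (nat_lit 0) (XT.lf (nat_lit 0) (nat_lit 92161013677) (nat_lit 76) (nat_lit 24527880746) (nat_lit 152) (nat_lit 7177549689) (nat_lit 12) (nat_lit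 5) (nat_lit 13) (nat_lit 5) (nat_lit 14) (nat_lit 4) (nat_lit 296) (nat_lit 260) (nat_lit 164)) (XT.lf (nat_lit 0) (nat_lit 13706820452) (nat_lit 228) (nat_lit 111956218901) (nat_lit 76) (nat_lit 6475809236) (nat_lit 9) (nat_lit 5) (nat_lit 12) (nat_lit 5) (nat_lit 10) (nat_lit 4) (nat_lit 297) (nat_lit 260) (nat_lit 163)))) (XT.nd (nat_lit 156) (nat_lit 76) (nat_lit 0) (XT.nd (nat_lit 78) (nat_lit 0) (nat_lit 0) (XT.lf (nat_lit 0) (nat_lit 36985851115) (nat_lit 228) (nat_lit 64240150469) (nat_lit 76) (nat_lit 39792396023) (nat_lit 9) (nat_lit 5) (nat_lit 12) (nat_lit 5) (nat_lit 10) (nat_lit 4) (nat_lit 298) (nat_lit 260) (nat_lit 162)) (XT.lf (nat_lit 0) (nat_lit 62124508412) (nat_lit 228) (nat_lit 12711407108) (nat_lit 76) (nat_lit 75772533781) (nat_lit 9) (nat_lit 5) (nat_lit 12) (nat_lit 5) (nat_lit 10) (nat_lit 4) (nat_lit 299) (nat_lit 260) (nat_lit 161))) (XT.nd (nat_lit 78)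 (nat_lit 0) (nat_lit 0) (XT.lf (nat_lit 0) (nat_lit 44355003822) (nat_lit 76) (nat_lit 45609264257) (nat_lit 152) (nat_lit 70966940233) (nat_lit 8) (nat_lit 5) (nat_lit 9) (nat_lit 5) (nat_lit 10) (nat_lit 4) (nat_lit 300) (nat_lit 260) (nat_lit 160)) (XT.nd (nat_lit 78) (nat_lit 0) (nat_lit 0) (XT.lf (nat_lit 0) (nat_lit 106436564379) (nat_lit 76) (nat_lit 13813693668) (nat_lit 152) (nat_lit 51818580921) (nat_lit 8) (nat_lit 5) (nat_lit 9) (nat_lit 5) (nat_lit 10) (nat_lit 4) (nat_lit 301) (nat_lit 260) (nat_lit 159)) (XT.lf (nat_lit 0) (nat_lit 153277364384) (nat_lit 152) (nat_lit 10937160644) (nat_lit 0) (nat_lit 19867046336) (nat_lit 8) (nat_lit 5) (nat_lit 10) (nat_lit 4) (nat_lit 8) (nat_lit 4) (nat_lit 302) (nat_lit 260) (nat_lit 158)))))) (XT.nd (nat_lit 390) (nat_lit 76) (nat_lit 0) (XT.nd (nat_lit 156) (nat_lit 76) (nat_lit 0) (XT.nd (nat_lit 78) (nat_lit 76) (nat_lit 0) (XT.lf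 (nat_lit 0) (nat_lit 49480748479) (nat_lit 76) (nat_lit 140469288975) (nat_lit 76) (nat_lit 7055117902) (nat_lit 7) (nat_lit 4) (nat_lit 8) (nat_lit 5) (nat_lit 8) (nat_lit 4) (nat_lit 303) (nat_lit 260) (nat_lit 157)) (XT.lf (nat_lit 0) (nat_lit 18190424204) (nat_lit 152) (nat_lit 96127369071) (nat_lit 76) (nat_lit 96620737881) (nat_lit 6) (nat_lit 5) (nat_lit 8) (nat_lit 5) (nat_lit 7) (nat_lit 4) (nat_lit 304) (nat_lit 260) (nat_lit 156))) (XT.nd (nat_lit 78) (nat_lit 76) (nat_lit 0) (XT.lf (nat_lit 0) (nat_lit 45209890215) (nat_lit 152) (nat_lit 40740767095) (nat_lit 76) (nat_lit 140030066328) (nat_lit 6) (nat_lit 5) (nat_lit 8) (nat_lit 5) (nat_lit 7) (nat_lit 4) (nat_lit 305) (nat_lit 260) (nat_lit 155)) (XT.nd (nat_lit 78) (nat_lit 0) (nat_lit 0) (XT.lf (nat_lit 0) (nat_lit 19704430957) (nat_lit 76) (nat_lit 54992413750) (nat_lit 152) (nat_lit 167514152458) (nat_lit 5) (nat_lit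 5) (nat_lit 6) (nat_lit 5) (nat_lit 7) (nat_lit 4) (nat_lit 306) (nat_lit 260) (nat_lit 154)) (XT.lf (nat_lit 0) (nat_lit 86437217821) (nat_lit 76) (nat_lit 20813587351) (nat_lit 152) (nat_lit 152453486961) (nat_lit 5) (nat_lit 5) (nat_lit 6) (nat_lit 5) (nat_lit 7) (nat_lit 4) (nat_lit 307) (nat_lit 260) (nat_lit 153))))) (XT.nd (nat_lit 156) (nat_lit 76) (nat_lit 0) (XT.nd (nat_lit 78) (nat_lit 0) (nat_lit 0) (XT.lf (nat_lit 0) (nat_lit 142658915937) (nat_lit 152) (nat_lit 120342495789) (nat_lit 0) (nat_lit 15583149187) (nat_lit 5) (nat_lit 5) (nat_lit 7) (nat_lit 4) (nat_lit 5) (nat_lit 4) (nat_lit 308) (nat_lit 260) (nat_lit 152)) (XT.lf (nat_lit 0) (nat_lit 181249218114) (nat_lit 152) (nat_lit 63537418778) (nat_lit 0) (nat_lit 54171138926) (nat_lit 5) (nat_lit 5) (nat_lit 7) (nat_lit 4) (nat_lit 5) (nat_lit 4) (nat_lit 309) (nat_lit 260) (nat_lit 151))) (XT.nd (nat_lit 78) (nat_lit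 76) (nat_lit 0) (XT.lf (nat_lit 0) (nat_lit 222925436547) (nat_lit 152) (nat_lit 2190262171) (nat_lit 0) (nat_lit 95845216213) (nat_lit 5) (nat_lit 5) (nat_lit 7) (nat_lit 4) (nat_lit 5) (nat_lit 4) (nat_lit 310) (nat_lit 260) (nat_lit 150)) (XT.nd (nat_lit 78) (nat_lit 0) (nat_lit 0) (XT.lf (nat_lit 0) (nat_lit 66180708722) (nat_lit 76) (nat_lit 202787099031) (nat_lit 76) (nat_lit 75704896154) (nat_lit 4) (nat_lit 4) (nat_lit 5) (nat_lit 5) (nat_lit 5) (nat_lit 4) (nat_lit 311) (nat_lit 260) (nat_lit 149)) (XT.lf (nat_lit 0) (nat_lit 140097510235) (nat_lit 76) (nat_lit 178633057873) (nat_lit 76) (nat_lit 51549019309) (nat_lit 4) (nat_lit 4) (nat_lit 5) (nat_lit 5) (nat_lit 5) (nat_lit 4) (nat_lit 312) (nat_lit 260) (nat_lit 148))))))) (XT.nd (nat_lit 702) (nat_lit 0) (nat_lit 0) (XT.nd (nat_lit 312) (nat_lit 0) (nat_lit 0) (XT.nd (nat_lit 156) (nat_lit 76) (nat_lit 0) (XT.nd (nat_lit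 78) (nat_lit 76) (nat_lit 0) (XT.lf (nat_lit 0) (nat_lit 219925747901) (nat_lit 76) (nat_lit 152547533335) (nat_lit 76) (nat_lit 25461795060) (nat_lit 4) (nat_lit 4) (nat_lit 5) (nat_lit 5) (nat_lit 5) (nat_lit 4) (nat_lit 313) (nat_lit 260) (nat_lit 147)) (XT.lf (nat_lit 0) (nat_lit 2624586854) (nat_lit 152) (nat_lit 121706909029) (nat_lit 76) (nat_lit 303469442438) (nat_lit 3) (nat_lit 5) (nat_lit 5) (nat_lit 5) (nat_lit 4) (nat_lit 4) (nat_lit 314) (nat_lit 260) (nat_lit 146))) (XT.nd (nat_lit 78) (nat_lit 76) (nat_lit 0) (XT.lf (nat_lit 0) (nat_lit 32076816188) (nat_lit 152) (nat_lit 61331296123) (nat_lit 76) (nat_lit 366626538016) (nat_lit 3) (nat_lit 5) (nat_lit 5) (nat_lit 5) (nat_lit 4) (nat_lit 4) (nat_lit 315) (nat_lit 260) (nat_lit 145)) (XT.lf (nat_lit 0) (nat_lit 4000874684) (nat_lit 76) (nat_lit 59945951305) (nat_lit 152) (nat_lit 430897154170) (nat_lit 2) (nat_lit 5) (nat_lit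 3) (nat_lit 5) (nat_lit 4) (nat_lit 4) (nat_lit 316) (nat_lit 260) (nat_lit 144)))) (XT.nd (nat_lit 156) (nat_lit 0) (nat_lit 0) (XT.nd (nat_lit 78) (nat_lit 0) (nat_lit 0) (XT.lf (nat_lit 0) (nat_lit 76748262956) (nat_lit 76) (nat_lit 22685703330) (nat_lit 152) (nat_lit 432950714505) (nat_lit 2) (nat_lit 5) (nat_lit 3) (nat_lit 5) (nat_lit 4) (nat_lit 4) (nat_lit 317) (nat_lit 260) (nat_lit 143)) (XT.lf (nat_lit 0) (nat_lit 138033395760) (nat_lit 152) (nat_lit 417888680631) (nat_lit 0) (nat_lit 16992896020) (nat_lit 2) (nat_lit 5) (nat_lit 4) (nat_lit 4) (nat_lit 2) (nat_lit 4) (nat_lit 318) (nat_lit 260) (nat_lit 142))) (XT.nd (nat_lit 78) (nat_lit 0) (nat_lit 0) (XT.lf (nat_lit 0) (nat_lit 180102588575) (nat_lit 152) (nat_lit 377504940374) (nat_lit 0) (nat_lit 59061068733) (nat_lit 2) (nat_lit 5) (nat_lit 4) (nat_lit 4) (nat_lit 2) (nat_lit 4) (nat_lit 319) (nat_lit 260) (nat_lit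 141)) (XT.nd (nat_lit 78) (nat_lit 0) (nat_lit 0) (XT.lf (nat_lit 0) (nat_lit 225536656246) (nat_lit 152) (nat_lit 333891698605) (nat_lit 0) (nat_lit 104494191867) (nat_lit 2) (nat_lit 5) (nat_lit 4) (nat_lit 4) (nat_lit 2) (nat_lit 4) (nat_lit 320) (nat_lit 260) (nat_lit 140)) (XT.lf (nat_lit 0) (nat_lit 274604837694) (nat_lit 152) (nat_lit 286790506483) (nat_lit 0) (nat_lit 153561498743) (nat_lit 2) (nat_lit 5) (nat_lit 4) (nat_lit 4) (nat_lit 2) (nat_lit 4) (nat_lit 321) (nat_lit 260) (nat_lit 139)))))) (XT.nd (nat_lit 33072) (nat_lit 0) (nat_lit 4636) (XT.nd (nat_lit 32838) (nat_lit 0) (nat_lit 5016) (XT.nd (nat_lit 32760) (nat_lit 0) (nat_lit 5016) (XT.lf (nat_lit 0) (nat_lit 327597907327) (nat_lit 152) (nat_lit 235922245834) (nat_lit 0) (nat_lit 206553758586) (nat_lit 2) (nat_lit 5) (nat_lit 4) (nat_lit 4) (nat_lit 2) (nat_lit 4) (nat_lit 322) (nat_lit 260) (nat_lit 138)) (XT.lf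 (nat_lit 0) (nat_lit 1465403191) (nat_lit 0) (nat_lit 1465403191) (nat_lit 684) (nat_lit 7462120886) (nat_lit 68) (nat_lit 5) (nat_lit 68) (nat_lit 3) (nat_lit 77) (nat_lit 3) (nat_lit 261) (nat_lit 261) (nat_lit 198))) (XT.nd (nat_lit 78) (nat_lit 0) (nat_lit 76) (XT.lf (nat_lit 0) (nat_lit 6492870709) (nat_lit 684) (nat_lit 4057080912) (nat_lit 760) (nat_lit 11046712214) (nat_lit 68) (nat_lit 5) (nat_lit 77) (nat_lit 3) (nat_lit 78) (nat_lit 5) (nat_lit 262) (nat_lit 261) (nat_lit 197)) (XT.nd (nat_lit 78) (nat_lit 0) (nat_lit 0) (XT.lf (nat_lit 0) (nat_lit 7435021559) (nat_lit 684) (nat_lit 11381528926) (nat_lit 760) (nat_lit 3642846338) (nat_lit 69) (nat_lit 5) (nat_lit 78) (nat_lit 5) (nat_lit 79) (nat_lit 5) (nat_lit 263) (nat_lit 261) (nat_lit 196)) (XT.lf (nat_lit 76) (nat_lit 4120749076) (nat_lit 0) (nat_lit 4625709120) (nat_lit 760) (nat_lit 14630067308) (nat_lit 70) (nat_lit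 5) (nat_lit 69) (nat_lit 5) (nat_lit 79) (nat_lit 5) (nat_lit 264) (nat_lit 261) (nat_lit 195))))) (XT.nd (nat_lit 156) (nat_lit 532) (nat_lit 0) (XT.nd (nat_lit 78) (nat_lit 0) (nat_lit 76) (XT.lf (nat_lit 0) (nat_lit 10512636725) (nat_lit 684) (nat_lit 3271297073) (nat_lit 760) (nat_lit 10565666686) (nat_lit 70) (nat_lit 5) (nat_lit 79) (nat_lit 5) (nat_lit 80) (nat_lit 5) (nat_lit 265) (nat_lit 261) (nat_lit 194)) (XT.lf (nat_lit 0) (nat_lit 12730823806) (nat_lit 684) (nat_lit 11051121905) (nat_lit 760) (nat_lit 1603102400) (nat_lit 71) (nat_lit 5) (nat_lit 80) (nat_lit 5) (nat_lit 81) (nat_lit 5) (nat_lit 266) (nat_lit 261) (nat_lit 193))) (XT.nd (nat_lit 78) (nat_lit 608) (nat_lit 0) (XT.lf (nat_lit 76) (nat_lit 6939755814) (nat_lit 0) (nat_lit 8569208487) (nat_lit 760) (nat_lit 10975300068) (nat_lit 72) (nat_lit 5) (nat_lit 71) (nat_lit 5) (nat_lit 81) (nat_lit 5) (nat_lit 267)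 (nat_lit 261) (nat_lit 192)) (XT.nd (nat_lit 78) (nat_lit 684) (nat_lit 0) (XT.lf (nat_lit 0) (nat_lit 18812600423) (nat_lit 684) (nat_lit 1036339363) (nat_lit 76) (nat_lit 7807369388) (nat_lit 72) (nat_lit 5) (nat_lit 81) (nat_lit 5) (nat_lit 73) (nat_lit 5) (nat_lit 268) (nat_lit 261) (nat_lit 191)) (XT.lf (nat_lit 0) (nat_lit 19417240306) (nat_lit 684) (nat_lit 3396918656) (nat_lit 760) (nat_lit 6086326530) (nat_lit 63) (nat_lit 5) (nat_lit 72) (nat_lit 5) (nat_lit 73) (nat_lit 5) (nat_lit 269) (nat_lit 261) (nat_lit 190))))))))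
noncomputable def xc89 : XT := (XT.nd (nat_lit 1482) (nat_lit 1064) (nat_lit 0) (XT.nd (nat_lit 702) (nat_lit 1444) (nat_lit 0) (XT.nd (nat_lit 312) (nat_lit 836) (nat_lit 0) (XT.nd (nat_lit 156) (nat_lit 304) (nat_lit 0) (XT.nd (nat_lit 78) (nat_lit 456) (nat_lit 0) (XT.lf (nat_lit 0) (nat_lit 11429546397) (nat_lit 304) (nat_lit 16114327348) (nat_lit 380) (nat_lit 2679966430) (nat_lit 59) (nat_lit 5) (nat_lit 63) (nat_lit 5) (nat_lit 64) (nat_lit 5) (nat_lit 270) (nat_lit 261) (nat_lit 189)) (XT.lf (nat_lit 0) (nat_lit 1244996156) (nat_lit 456) (nat_lit 28954829541) (nat_lit 76) (nat_lit 1438594936) (nat_lit 53) (nat_lit 5) (nat_lit 59) (nat_lit 5) (nat_lit 54) (nat_lit 5) (nat_lit 271) (nat_lit 261) (nat_lit 188))) (XT.nd (nat_lit 78) (nat_lit 304) (nat_lit 0) (XT.lf (nat_lit 0) (nat_lit 5983940509) (nat_lit 456) (nat_lit 6933657198) (nat_lit 76) (nat_lit 20216716667) (nat_lit 53)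 (nat_lit 5) (nat_lit 59) (nat_lit 5) (nat_lit 54) (nat_lit 5) (nat_lit 272) (nat_lit 261) (nat_lit 187)) (XT.lf (nat_lit 0) (nat_lit 11456781366) (nat_lit 380) (nat_lit 17436628183) (nat_lit 76) (nat_lit 5838765673) (nat_lit 49) (nat_lit 5) (nat_lit 54) (nat_lit 5) (nat_lit 50) (nat_lit 5) (nat_lit 273) (nat_lit 261) (nat_lit 186)))) (XT.nd (nat_lit 156) (nat_lit 532) (nat_lit 0) (XT.nd (nat_lit 78) (nat_lit 0) (nat_lit 0) (XT.lf (nat_lit 0) (nat_lit 7259879970) (nat_lit 304) (nat_lit 10551152187) (nat_lit 380) (nat_lit 18624685735) (nat_lit 45) (nat_lit 5) (nat_lit 49) (nat_lit 5) (nat_lit 50) (nat_lit 5) (nat_lit 274) (nat_lit 261) (nat_lit 185)) (XT.lf (nat_lit 0) (nat_lit 25117122520) (nat_lit 380) (nat_lit 3866664650) (nat_lit 76) (nat_lit 9269611542) (nat_lit 45) (nat_lit 5) (nat_lit 50) (nat_lit 5) (nat_lit 46) (nat_lit 5) (nat_lit 275) (nat_lit 261) (nat_lit 184))) (XT.nd (nat_lit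 78) (nat_lit 304) (nat_lit 0) (XT.lf (nat_lit 0) (nat_lit 24048340466) (nat_lit 228) (nat_lit 9503691228) (nat_lit 304) (nat_lit 6637273235) (nat_lit 42) (nat_lit 5) (nat_lit 45) (nat_lit 5) (nat_lit 46) (nat_lit 5) (nat_lit 276) (nat_lit 261) (nat_lit 183)) (XT.nd (nat_lit 78) (nat_lit 0) (nat_lit 0) (XT.lf (nat_lit 0) (nat_lit 807861439) (nat_lit 304) (nat_lit 30013160595) (nat_lit 76) (nat_lit 11436866604) (nat_lit 38) (nat_lit 5) (nat_lit 42) (nat_lit 5) (nat_lit 39) (nat_lit 5) (nat_lit 277) (nat_lit 261) (nat_lit 182)) (XT.lf (nat_lit 0) (nat_lit 9056963250) (nat_lit 304) (nat_lit 1287492312) (nat_lit 76) (nat_lit 34120040853) (nat_lit 38) (nat_lit 5) (nat_lit 42) (nat_lit 5) (nat_lit 39) (nat_lit 5) (nat_lit 278) (nat_lit 261) (nat_lit 181)))))) (XT.nd (nat_lit 390) (nat_lit 532) (nat_lit 0) (XT.nd (nat_lit 156) (nat_lit 456) (nat_lit 0) (XT.nd (nat_lit 78) (nat_lit 228) (nat_lit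 0) (XT.lf (nat_lit 0) (nat_lit 18629418774) (nat_lit 304) (nat_lit 16306237749) (nat_lit 76) (nat_lit 11878825810) (nat_lit 35) (nat_lit 5) (nat_lit 39) (nat_lit 5) (nat_lit 36) (nat_lit 5) (nat_lit 279) (nat_lit 261) (nat_lit 180)) (XT.lf (nat_lit 0) (nat_lit 15865646393) (nat_lit 228) (nat_lit 13539712196) (nat_lit 304) (nat_lit 19925243402) (nat_lit 32) (nat_lit 5) (nat_lit 35) (nat_lit 5) (nat_lit 36) (nat_lit 5) (nat_lit 280) (nat_lit 261) (nat_lit 179))) (XT.nd (nat_lit 78) (nat_lit 456) (nat_lit 0) (XT.lf (nat_lit 0) (nat_lit 41474570965) (nat_lit 304) (nat_lit 1003810317) (nat_lit 76) (nat_lit 9548087903) (nat_lit 32) (nat_lit 5) (nat_lit 36) (nat_lit 5) (nat_lit 33) (nat_lit 5) (nat_lit 281) (nat_lit 261) (nat_lit 178)) (XT.nd (nat_lit 78) (nat_lit 228) (nat_lit 0) (XT.lf (nat_lit 0) (nat_lit 364965181) (nat_lit 228) (nat_lit 19970300804) (nat_lit 76) (nat_lit 34564093642) (nat_lit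 29) (nat_lit 5) (nat_lit 32) (nat_lit 5) (nat_lit 30) (nat_lit 5) (nat_lit 282) (nat_lit 261) (nat_lit 177)) (XT.lf (nat_lit 0) (nat_lit 12116589308) (nat_lit 304) (nat_lit 41943612149) (nat_lit 76) (nat_lit 3916690373) (nat_lit 26) (nat_lit 5) (nat_lit 30) (nat_lit 5) (nat_lit 27) (nat_lit 5) (nat_lit 283) (nat_lit 261) (nat_lit 176))))) (XT.nd (nat_lit 156) (nat_lit 380) (nat_lit 0) (XT.nd (nat_lit 78) (nat_lit 152) (nat_lit 0) (XT.lf (nat_lit 0) (nat_lit 25498944815) (nat_lit 304) (nat_lit 6010098338) (nat_lit 76) (nat_lit 29757066864) (nat_lit 26) (nat_lit 5) (nat_lit 30) (nat_lit 5) (nat_lit 27) (nat_lit 5) (nat_lit 284) (nat_lit 261) (nat_lit 175)) (XT.lf (nat_lit 0) (nat_lit 33874369133) (nat_lit 152) (nat_lit 6600966778) (nat_lit 228) (nat_lit 24316969873) (nat_lit 24) (nat_lit 5) (nat_lit 26) (nat_lit 5) (nat_lit 27) (nat_lit 5) (nat_lit 285) (nat_lit 261) (nat_lit 174))) (XT.nd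 (nat_lit 78) (nat_lit 228) (nat_lit 0) (XT.lf (nat_lit 0) (nat_lit 8514923032) (nat_lit 152) (nat_lit 48686020514) (nat_lit 228) (nat_lit 11372109963) (nat_lit 22) (nat_lit 5) (nat_lit 24) (nat_lit 5) (nat_lit 25) (nat_lit 5) (nat_lit 286) (nat_lit 261) (nat_lit 173)) (XT.nd (nat_lit 78) (nat_lit 152) (nat_lit 0) (XT.lf (nat_lit 0) (nat_lit 3178554858) (nat_lit 228) (nat_lit 20591350210) (nat_lit 76) (nat_lit 48851645039) (nat_lit 21) (nat_lit 5) (nat_lit 24) (nat_lit 5) (nat_lit 22) (nat_lit 5) (nat_lit 287) (nat_lit 261) (nat_lit 172)) (XT.lf (nat_lit 0) (nat_lit 18905597373) (nat_lit 228) (nat_lit 54468995857) (nat_lit 76) (nat_lit 3589483847) (nat_lit 19) (nat_lit 5) (nat_lit 22) (nat_lit 5) (nat_lit 20) (nat_lit 5) (nat_lit 288) (nat_lit 261) (nat_lit 171))))))) (XT.nd (nat_lit 780) (nat_lit 304) (nat_lit 0) (XT.nd (nat_lit 390) (nat_lit 456) (nat_lit 0) (XT.nd (nat_lit 156) (nat_lit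 152) (nat_lit 0) (XT.nd (nat_lit 78) (nat_lit 152) (nat_lit 0) (XT.lf (nat_lit 0) (nat_lit 36651742096) (nat_lit 228) (nat_lit 12285978128) (nat_lit 76) (nat_lit 32678247778) (nat_lit 19) (nat_lit 5) (nat_lit 22) (nat_lit 5) (nat_lit 20) (nat_lit 5) (nat_lit 289) (nat_lit 261) (nat_lit 170)) (XT.lf (nat_lit 0) (nat_lit 34365135704) (nat_lit 152) (nat_lit 21984873787) (nat_lit 228) (nat_lit 30263387245) (nat_lit 17) (nat_lit 5) (nat_lit 19) (nat_lit 5) (nat_lit 20) (nat_lit 5) (nat_lit 290) (nat_lit 261) (nat_lit 169))) (XT.nd (nat_lit 78) (nat_lit 152) (nat_lit 0) (XT.lf (nat_lit 0) (nat_lit 77948956703) (nat_lit 228) (nat_lit 6933920443) (nat_lit 76) (nat_lit 7111509194) (nat_lit 17) (nat_lit 5) (nat_lit 20) (nat_lit 5) (nat_lit 18) (nat_lit 4) (nat_lit 291) (nat_lit 261) (nat_lit 168)) (XT.nd (nat_lit 78) (nat_lit 0) (nat_lit 0) (XT.lf (nat_lit 0) (nat_lit 4414421279) (nat_lit 152)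 (nat_lit 54819694608) (nat_lit 76) (nat_lit 38516261176) (nat_lit 15) (nat_lit 5) (nat_lit 17) (nat_lit 5) (nat_lit 16) (nat_lit 5) (nat_lit 292) (nat_lit 261) (nat_lit 167)) (XT.lf (nat_lit 0) (nat_lit 23984797987) (nat_lit 152) (nat_lit 7173287844) (nat_lit 76) (nat_lit 72790963625) (nat_lit 15) (nat_lit 5) (nat_lit 17) (nat_lit 5) (nat_lit 16) (nat_lit 5) (nat_lit 293) (nat_lit 261) (nat_lit 166))))) (XT.nd (nat_lit 156) (nat_lit 304) (nat_lit 0) (XT.nd (nat_lit 78) (nat_lit 0) (nat_lit 0) (XT.lf (nat_lit 0) (nat_lit 45743607006) (nat_lit 152) (nat_lit 88122622) (nat_lit 228) (nat_lit 64776345437) (nat_lit 13) (nat_lit 5) (nat_lit 15) (nat_lit 5) (nat_lit 16) (nat_lit 5) (nat_lit 294) (nat_lit 261) (nat_lit 165)) (XT.lf (nat_lit 0) (nat_lit 70072809136) (nat_lit 228) (nat_lit 15173339010) (nat_lit 76) (nat_lit 32521360153) (nat_lit 13) (nat_lit 5) (nat_lit 16) (nat_lit 5) (nat_lit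 14) (nat_lit 4) (nat_lit 295) (nat_lit 261) (nat_lit 164))) (XT.nd (nat_lit 78) (nat_lit 228) (nat_lit 0) (XT.lf (nat_lit 0) (nat_lit 39759322264) (nat_lit 76) (nat_lit 57113195288) (nat_lit 152) (nat_lit 28596216368) (nat_lit 12) (nat_lit 5) (nat_lit 13) (nat_lit 5) (nat_lit 14) (nat_lit 4) (nat_lit 296) (nat_lit 261) (nat_lit 163)) (XT.nd (nat_lit 78) (nat_lit 228) (nat_lit 0) (XT.lf (nat_lit 0) (nat_lit 99623822098) (nat_lit 76) (nat_lit 26453935202) (nat_lit 152) (nat_lit 7695227056) (nat_lit 12) (nat_lit 5) (nat_lit 13) (nat_lit 5) (nat_lit 14) (nat_lit 4) (nat_lit 297) (nat_lit 261) (nat_lit 162)) (XT.lf (nat_lit 0) (nat_lit 14855960465) (nat_lit 228) (nat_lit 120822766447) (nat_lit 76) (nat_lit 7028522493) (nat_lit 9) (nat_lit 5) (nat_lit 12) (nat_lit 5) (nat_lit 10) (nat_lit 4) (nat_lit 298) (nat_lit 261) (nat_lit 161)))))) (XT.nd (nat_lit 390) (nat_lit 228) (nat_lit 0) (XT.nd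 (nat_lit 156) (nat_lit 76) (nat_lit 0) (XT.nd (nat_lit 78) (nat_lit 0) (nat_lit 0) (XT.lf (nat_lit 0) (nat_lit 39993417701) (nat_lit 228) (nat_lit 69296075501) (nat_lit 76) (nat_lit 43007869666) (nat_lit 9) (nat_lit 5) (nat_lit 12) (nat_lit 5) (nat_lit 10) (nat_lit 4) (nat_lit 299) (nat_lit 261) (nat_lit 160)) (XT.lf (nat_lit 0) (nat_lit 67139560286) (nat_lit 228) (nat_lit 13651202079) (nat_lit 76) (nat_lit 81864042003) (nat_lit 9) (nat_lit 5) (nat_lit 12) (nat_lit 5) (nat_lit 10) (nat_lit 4) (nat_lit 300) (nat_lit 261) (nat_lit 159))) (XT.nd (nat_lit 78) (nat_lit 0) (nat_lit 0) (XT.lf (nat_lit 0) (nat_lit 47977170289) (nat_lit 76) (nat_lit 49227142045) (nat_lit 152) (nat_lit 76599186098) (nat_lit 8) (nat_lit 5) (nat_lit 9) (nat_lit 5) (nat_lit 10) (nat_lit 4) (nat_lit 301) (nat_lit 261) (nat_lit 158)) (XT.nd (nat_lit 78) (nat_lit 0) (nat_lit 0) (XT.lf (nat_lit 0) (nat_lit 115019791530)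 (nat_lit 76) (nat_lit 14890211983) (nat_lit 152) (nat_lit 55922299474) (nat_lit 8) (nat_lit 5) (nat_lit 9) (nat_lit 5) (nat_lit 10) (nat_lit 4) (nat_lit 302) (nat_lit 261) (nat_lit 157)) (XT.lf (nat_lit 0) (nat_lit 165576748899) (nat_lit 152) (nat_lit 11747412265) (nat_lit 0) (nat_lit 21482023497) (nat_lit 8) (nat_lit 5) (nat_lit 10) (nat_lit 4) (nat_lit 8) (nat_lit 4) (nat_lit 303) (nat_lit 261) (nat_lit 156))))) (XT.nd (nat_lit 156) (nat_lit 76) (nat_lit 0) (XT.nd (nat_lit 78) (nat_lit 76) (nat_lit 0) (XT.lf (nat_lit 0) (nat_lit 53501116882) (nat_lit 76) (nat_lit 151680330286) (nat_lit 76) (nat_lit 7582301536) (nat_lit 7) (nat_lit 4) (nat_lit 8) (nat_lit 5) (nat_lit 8) (nat_lit 4) (nat_lit 304) (nat_lit 261) (nat_lit 155)) (XT.lf (nat_lit 0) (nat_lit 19679023270) (nat_lit 152) (nat_lit 103759089701) (nat_lit 76) (nat_lit 104373789435) (nat_lit 6) (nat_lit 5) (nat_lit 8) (nat_lit 5)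 (nat_lit 7) (nat_lit 4) (nat_lit 305) (nat_lit 261) (nat_lit 154))) (XT.nd (nat_lit 78) (nat_lit 76) (nat_lit 0) (XT.lf (nat_lit 0) (nat_lit 48857575071) (nat_lit 152) (nat_lit 43945890597) (nat_lit 76) (nat_lit 151254131379) (nat_lit 6) (nat_lit 5) (nat_lit 8) (nat_lit 5) (nat_lit 7) (nat_lit 4) (nat_lit 306) (nat_lit 261) (nat_lit 153)) (XT.nd (nat_lit 78) (nat_lit 0) (nat_lit 0) (XT.lf (nat_lit 0) (nat_lit 21332570534) (nat_lit 76) (nat_lit 59369435481) (nat_lit 152) (nat_lit 180884363384) (nat_lit 5) (nat_lit 5) (nat_lit 6) (nat_lit 5) (nat_lit 7) (nat_lit 4) (nat_lit 307) (nat_lit 261) (nat_lit 152)) (XT.lf (nat_lit 0) (nat_lit 93400144413) (nat_lit 76) (nat_lit 22457960109) (nat_lit 152) (nat_lit 164621135111) (nat_lit 5) (nat_lit 5) (nat_lit 6) (nat_lit 5) (nat_lit 7) (nat_lit 4) (nat_lit 308) (nat_lit 261) (nat_lit 151))))))))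
noncomputable def xc90 : XT := (XT.nd (nat_lit 34242) (nat_lit 0) (nat_lit 1672) (XT.nd (nat_lit 702) (nat_lit 0) (nat_lit 0) (XT.nd (nat_lit 312) (nat_lit 152) (nat_lit 0) (XT.nd (nat_lit 156) (nat_lit 76) (nat_lit 0) (XT.nd (nat_lit 78) (nat_lit 0) (nat_lit 0) (XT.lf (nat_lit 0) (nat_lit 154097146197) (nat_lit 152) (nat_lit 129924505054) (nat_lit 0) (nat_lit 16848367090) (nat_lit 5) (nat_lit 5) (nat_lit 7) (nat_lit 4) (nat_lit 5) (nat_lit 4) (nat_lit 309) (nat_lit 261) (nat_lit 150)) (XT.lf (nat_lit 0) (nat_lit 195772782401) (nat_lit 152) (nat_lit 68578384134) (nat_lit 0) (nat_lit 58522020752) (nat_lit 5) (nat_lit 5) (nat_lit 7) (nat_lit 4) (nat_lit 5) (nat_lit 4) (nat_lit 310) (nat_lit 261) (nat_lit 149))) (XT.nd (nat_lit 78) (nat_lit 76) (nat_lit 0) (XT.lf (nat_lit 0) (nat_lit 240781348172) (nat_lit 152) (nat_lit 2326568194) (nat_lit 0) (nat_lit 103528750835) (nat_lit 5) (nat_lit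 5) (nat_lit 7) (nat_lit 4) (nat_lit 5) (nat_lit 4) (nat_lit 311) (nat_lit 261) (nat_lit 148)) (XT.lf (nat_lit 0) (nat_lit 71512389174) (nat_lit 76) (nat_lit 218993680572) (nat_lit 76) (nat_lit 81739383524) (nat_lit 4) (nat_lit 4) (nat_lit 5) (nat_lit 5) (nat_lit 5) (nat_lit 4) (nat_lit 312) (nat_lit 261) (nat_lit 147)))) (XT.nd (nat_lit 156) (nat_lit 152) (nat_lit 0) (XT.nd (nat_lit 78) (nat_lit 0) (nat_lit 0) (XT.lf (nat_lit 0) (nat_lit 151339777493) (nat_lit 76) (nat_lit 192908529927) (nat_lit 76) (nat_lit 55652659073) (nat_lit 4) (nat_lit 4) (nat_lit 5) (nat_lit 5) (nat_lit 5) (nat_lit 4) (nat_lit 313) (nat_lit 261) (nat_lit 146)) (XT.lf (nat_lit 0) (nat_lit 237551721102) (nat_lit 76) (nat_lit 164737287321) (nat_lit 76) (nat_lit 27479959239) (nat_lit 4) (nat_lit 4) (nat_lit 5) (nat_lit 5) (nat_lit 5) (nat_lit 4) (nat_lit 314) (nat_lit 261) (nat_lit 145))) (XT.nd (nat_lit 78) (nat_lit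 76) (nat_lit 0) (XT.lf (nat_lit 0) (nat_lit 2851385624) (nat_lit 152) (nat_lit 131413336837) (nat_lit 76) (nat_lit 327759430372) (nat_lit 3) (nat_lit 5) (nat_lit 5) (nat_lit 5) (nat_lit 4) (nat_lit 4) (nat_lit 315) (nat_lit 261) (nat_lit 144)) (XT.nd (nat_lit 78) (nat_lit 76) (nat_lit 0) (XT.lf (nat_lit 0) (nat_lit 34658546503) (nat_lit 152) (nat_lit 66209906374) (nat_lit 76) (nat_lit 395968172667) (nat_lit 3) (nat_lit 5) (nat_lit 5) (nat_lit 5) (nat_lit 4) (nat_lit 4) (nat_lit 316) (nat_lit 261) (nat_lit 143)) (XT.lf (nat_lit 0) (nat_lit 4347625883) (nat_lit 76) (nat_lit 64729793327) (nat_lit 152) (nat_lit 465353320746) (nat_lit 2) (nat_lit 5) (nat_lit 3) (nat_lit 5) (nat_lit 4) (nat_lit 4) (nat_lit 317) (nat_lit 261) (nat_lit 142)))))) (XT.nd (nat_lit 33150) (nat_lit 0) (nat_lit 5016) (XT.nd (nat_lit 156) (nat_lit 0) (nat_lit 0) (XT.nd (nat_lit 78) (nat_lit 0) (nat_lit 0) (XT.lf (nat_lit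 0) (nat_lit 82912828830) (nat_lit 76) (nat_lit 24489602114) (nat_lit 152) (nat_lit 467572321890) (nat_lit 2) (nat_lit 5) (nat_lit 3) (nat_lit 5) (nat_lit 4) (nat_lit 4) (nat_lit 318) (nat_lit 261) (nat_lit 141)) (XT.lf (nat_lit 0) (nat_lit 149088954857) (nat_lit 152) (nat_lit 451296408247) (nat_lit 0) (nat_lit 18362148789) (nat_lit 2) (nat_lit 5) (nat_lit 4) (nat_lit 4) (nat_lit 2) (nat_lit 4) (nat_lit 319) (nat_lit 261) (nat_lit 140))) (XT.nd (nat_lit 78) (nat_lit 0) (nat_lit 0) (XT.lf (nat_lit 0) (nat_lit 194522728472) (nat_lit 152) (nat_lit 407683699646) (nat_lit 0) (nat_lit 63795047832) (nat_lit 2) (nat_lit 5) (nat_lit 4) (nat_lit 4) (nat_lit 2) (nat_lit 4) (nat_lit 320) (nat_lit 261) (nat_lit 139)) (XT.nd (nat_lit 78) (nat_lit 0) (nat_lit 0) (XT.lf (nat_lit 0) (nat_lit 243590637646) (nat_lit 152) (nat_lit 360583001199) (nat_lit 0) (nat_lit 112862147217) (nat_lit 2) (nat_lit 5) (nat_lit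 4) (nat_lit 4) (nat_lit 2) (nat_lit 4) (nat_lit 321) (nat_lit 261) (nat_lit 138)) (XT.lf (nat_lit 0) (nat_lit 296583455172) (nat_lit 152) (nat_lit 309715197655) (nat_lit 0) (nat_lit 165854214939) (nat_lit 2) (nat_lit 5) (nat_lit 4) (nat_lit 4) (nat_lit 2) (nat_lit 4) (nat_lit 322) (nat_lit 261) (nat_lit 137))))) (XT.nd (nat_lit 156) (nat_lit 0) (nat_lit 76) (XT.nd (nat_lit 78) (nat_lit 0) (nat_lit 0) (XT.lf (nat_lit 0) (nat_lit 1689316858) (nat_lit 0) (nat_lit 1689316858) (nat_lit 684) (nat_lit 7834293265) (nat_lit 68) (nat_lit 5) (nat_lit 68) (nat_lit 3) (nat_lit 77) (nat_lit 3) (nat_lit 262) (nat_lit 262) (nat_lit 196)) (XT.lf (nat_lit 0) (nat_lit 7404332271) (nat_lit 684) (nat_lit 4159829838) (nat_lit 760) (nat_lit 11739214115) (nat_lit 68) (nat_lit 5) (nat_lit 77) (nat_lit 3) (nat_lit 78) (nat_lit 5) (nat_lit 263) (nat_lit 262) (nat_lit 195))) (XT.nd (nat_lit 78) (nat_lit 0) (nat_lit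 0) (XT.lf (nat_lit 0) (nat_lit 8393722113) (nat_lit 684) (nat_lit 12057837989) (nat_lit 760) (nat_lit 3785079524) (nat_lit 69) (nat_lit 5) (nat_lit 78) (nat_lit 5) (nat_lit 79) (nat_lit 5) (nat_lit 264) (nat_lit 262) (nat_lit 194)) (XT.nd (nat_lit 78) (nat_lit 0) (nat_lit 76) (XT.lf (nat_lit 76) (nat_lit 4674443631) (nat_lit 0) (nat_lit 5112172390) (nat_lit 760) (nat_lit 15441792797) (nat_lit 70) (nat_lit 5) (nat_lit 69) (nat_lit 5) (nat_lit 79) (nat_lit 5) (nat_lit 265) (nat_lit 262) (nat_lit 193)) (XT.lf (nat_lit 0) (nat_lit 11667188160) (nat_lit 684) (nat_lit 3306990850) (nat_lit 760) (nat_lit 11306585944) (nat_lit 70) (nat_lit 5) (nat_lit 79) (nat_lit 5) (nat_lit 80) (nat_lit 5) (nat_lit 266) (nat_lit 262) (nat_lit 192))))))) (XT.nd (nat_lit 780) (nat_lit 1596) (nat_lit 0) (XT.nd (nat_lit 390) (nat_lit 1064) (nat_lit 0) (XT.nd (nat_lit 156) (nat_lit 912) (nat_lit 0) (XT.nd (nat_lit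 78) (nat_lit 0) (nat_lit 0) (XT.lf (nat_lit 0) (nat_lit 14041770249) (nat_lit 684) (nat_lit 11702086127) (nat_lit 760) (nat_lit 1656328460) (nat_lit 71) (nat_lit 5) (nat_lit 80) (nat_lit 5) (nat_lit 81) (nat_lit 5) (nat_lit 267) (nat_lit 262) (nat_lit 191)) (XT.lf (nat_lit 76) (nat_lit 7717930458) (nat_lit 0) (nat_lit 9306047865) (nat_lit 760) (nat_lit 11564346521) (nat_lit 72) (nat_lit 5) (nat_lit 71) (nat_lit 5) (nat_lit 81) (nat_lit 5) (nat_lit 268) (nat_lit 262) (nat_lit 190))) (XT.nd (nat_lit 78) (nat_lit 988) (nat_lit 0) (XT.lf (nat_lit 0) (nat_lit 20570845400) (nat_lit 684) (nat_lit 898435556) (nat_lit 76) (nat_lit 8385976817) (nat_lit 72) (nat_lit 5) (nat_lit 81) (nat_lit 5) (nat_lit 73) (nat_lit 5) (nat_lit 269) (nat_lit 262) (nat_lit 189)) (XT.nd (nat_lit 78) (nat_lit 304) (nat_lit 0) (XT.lf (nat_lit 0) (nat_lit 21181834311) (nat_lit 684) (nat_lit 3695233674) (nat_lit 760)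 (nat_lit 6322739487) (nat_lit 63) (nat_lit 5) (nat_lit 72) (nat_lit 5) (nat_lit 73) (nat_lit 5) (nat_lit 270) (nat_lit 262) (nat_lit 188)) (XT.lf (nat_lit 0) (nat_lit 12558506630) (nat_lit 304) (nat_lit 17412006733) (nat_lit 380) (nat_lit 2659310833) (nat_lit 59) (nat_lit 5) (nat_lit 63) (nat_lit 5) (nat_lit 64) (nat_lit 5) (nat_lit 271) (nat_lit 262) (nat_lit 187))))) (XT.nd (nat_lit 156) (nat_lit 608) (nat_lit 0) (XT.nd (nat_lit 78) (nat_lit 0) (nat_lit 0) (XT.lf (nat_lit 0) (nat_lit 1558586553) (nat_lit 456) (nat_lit 31046661415) (nat_lit 76) (nat_lit 1552870671) (nat_lit 53) (nat_lit 5) (nat_lit 59) (nat_lit 5) (nat_lit 54) (nat_lit 5) (nat_lit 272) (nat_lit 262) (nat_lit 186)) (XT.lf (nat_lit 0) (nat_lit 6660795291) (nat_lit 456) (nat_lit 7280428951) (nat_lit 76) (nat_lit 21833302279) (nat_lit 53) (nat_lit 5) (nat_lit 59) (nat_lit 5) (nat_lit 54) (nat_lit 5) (nat_lit 273) (nat_lit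 262) (nat_lit 185))) (XT.nd (nat_lit 78) (nat_lit 304) (nat_lit 0) (XT.lf (nat_lit 0) (nat_lit 12560083868) (nat_lit 380) (nat_lit 18622957866) (nat_lit 76) (nat_lit 6317789851) (nat_lit 49) (nat_lit 5) (nat_lit 54) (nat_lit 5) (nat_lit 50) (nat_lit 5) (nat_lit 274) (nat_lit 262) (nat_lit 184)) (XT.nd (nat_lit 78) (nat_lit 0) (nat_lit 0) (XT.lf (nat_lit 0) (nat_lit 8040205413) (nat_lit 304) (nat_lit 11371750538) (nat_lit 380) (nat_lit 19929280595) (nat_lit 45) (nat_lit 5) (nat_lit 49) (nat_lit 5) (nat_lit 50) (nat_lit 5) (nat_lit 275) (nat_lit 262) (nat_lit 183)) (XT.lf (nat_lit 0) (nat_lit 27289833086) (nat_lit 380) (nat_lit 3982935768) (nat_lit 76) (nat_lit 10032237757) (nat_lit 45) (nat_lit 5) (nat_lit 50) (nat_lit 5) (nat_lit 46) (nat_lit 5) (nat_lit 276) (nat_lit 262) (nat_lit 182)))))) (XT.nd (nat_lit 390) (nat_lit 608) (nat_lit 0) (XT.nd (nat_lit 156) (nat_lit 456) (nat_lit 0)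 (XT.nd (nat_lit 78) (nat_lit 304) (nat_lit 0) (XT.lf (nat_lit 0) (nat_lit 26156879516) (nat_lit 228) (nat_lit 10233439406) (nat_lit 304) (nat_lit 7005964018) (nat_lit 42) (nat_lit 5) (nat_lit 45) (nat_lit 5) (nat_lit 46) (nat_lit 5) (nat_lit 277) (nat_lit 262) (nat_lit 181)) (XT.lf (nat_lit 0) (nat_lit 1021319017) (nat_lit 304) (nat_lit 32224885238) (nat_lit 76) (nat_lit 12384468267) (nat_lit 38) (nat_lit 5) (nat_lit 42) (nat_lit 5) (nat_lit 39) (nat_lit 5) (nat_lit 278) (nat_lit 262) (nat_lit 180))) (XT.nd (nat_lit 78) (nat_lit 456) (nat_lit 0) (XT.lf (nat_lit 0) (nat_lit 9919324627) (nat_lit 304) (nat_lit 1215187803) (nat_lit 76) (nat_lit 36879877764) (nat_lit 38) (nat_lit 5) (nat_lit 42) (nat_lit 5) (nat_lit 39) (nat_lit 5) (nat_lit 279) (nat_lit 262) (nat_lit 179)) (XT.nd (nat_lit 78) (nat_lit 228) (nat_lit 0) (XT.lf (nat_lit 0) (nat_lit 20250571929) (nat_lit 304) (nat_lit 17436777775)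 (nat_lit 76) (nat_lit 12865403347) (nat_lit 35) (nat_lit 5) (nat_lit 39) (nat_lit 5) (nat_lit 36) (nat_lit 5) (nat_lit 280) (nat_lit 262) (nat_lit 178)) (XT.lf (nat_lit 0) (nat_lit 17301297052) (nat_lit 228) (nat_lit 14580198968) (nat_lit 304) (nat_lit 21389046577) (nat_lit 32) (nat_lit 5) (nat_lit 35) (nat_lit 5) (nat_lit 36) (nat_lit 5) (nat_lit 281) (nat_lit 262) (nat_lit 177))))) (XT.nd (nat_lit 156) (nat_lit 380) (nat_lit 0) (XT.nd (nat_lit 78) (nat_lit 228) (nat_lit 0) (XT.lf (nat_lit 0) (nat_lit 44907698917) (nat_lit 304) (nat_lit 924633671) (nat_lit 76) (nat_lit 10350197761) (nat_lit 32) (nat_lit 5) (nat_lit 36) (nat_lit 5) (nat_lit 33) (nat_lit 5) (nat_lit 282) (nat_lit 262) (nat_lit 176)) (XT.lf (nat_lit 0) (nat_lit 505230305) (nat_lit 228) (nat_lit 21411438849) (nat_lit 76) (nat_lit 37368822836) (nat_lit 29) (nat_lit 5) (nat_lit 32) (nat_lit 5) (nat_lit 30) (nat_lit 5) (nat_lit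 283) (nat_lit 262) (nat_lit 175))) (XT.nd (nat_lit 78) (nat_lit 152) (nat_lit 0) (XT.lf (nat_lit 0) (nat_lit 13191789007) (nat_lit 304) (nat_lit 45144608268) (nat_lit 76) (nat_lit 4273108743) (nat_lit 26) (nat_lit 5) (nat_lit 30) (nat_lit 5) (nat_lit 27) (nat_lit 5) (nat_lit 284) (nat_lit 262) (nat_lit 174)) (XT.nd (nat_lit 78) (nat_lit 152) (nat_lit 0) (XT.lf (nat_lit 0) (nat_lit 27636890543) (nat_lit 304) (nat_lit 6347857267) (nat_lit 76) (nat_lit 32177524010) (nat_lit 26) (nat_lit 5) (nat_lit 30) (nat_lit 5) (nat_lit 27) (nat_lit 5) (nat_lit 285) (nat_lit 262) (nat_lit 173)) (XT.lf (nat_lit 0) (nat_lit 36721150869) (nat_lit 152) (nat_lit 7085116900) (nat_lit 228) (nat_lit 26164568441) (nat_lit 24) (nat_lit 5) (nat_lit 26) (nat_lit 5) (nat_lit 27) (nat_lit 5) (nat_lit 286) (nat_lit 262) (nat_lit 172))))))))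
noncomputable def xc91 : XT := (XT.nd (nat_lit 1482) (nat_lit 380) (nat_lit 0) (XT.nd (nat_lit 702) (nat_lit 456) (nat_lit 0) (XT.nd (nat_lit 312) (nat_lit 456) (nat_lit 0) (XT.nd (nat_lit 156) (nat_lit 152) (nat_lit 0) (XT.nd (nat_lit 78) (nat_lit 76) (nat_lit 0) (XT.lf (nat_lit 0) (nat_lit 9330989584) (nat_lit 152) (nat_lit 52534793346) (nat_lit 228) (nat_lit 12188483343) (nat_lit 22) (nat_lit 5) (nat_lit 24) (nat_lit 5) (nat_lit 25) (nat_lit 5) (nat_lit 287) (nat_lit 262) (nat_lit 171)) (XT.lf (nat_lit 0) (nat_lit 3516548673) (nat_lit 228) (nat_lit 22110837799) (nat_lit 76) (nat_lit 52799531694) (nat_lit 21) (nat_lit 5) (nat_lit 24) (nat_lit 5) (nat_lit 22) (nat_lit 5) (nat_lit 288) (nat_lit 262) (nat_lit 170))) (XT.nd (nat_lit 78) (nat_lit 0) (nat_lit 0) (XT.lf (nat_lit 0) (nat_lit 20498131773) (nat_lit 228) (nat_lit 58700790261) (nat_lit 76) (nat_lit 3918119028) (nat_lit 19) (nat_lit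 5) (nat_lit 22) (nat_lit 5) (nat_lit 20) (nat_lit 5) (nat_lit 289) (nat_lit 262) (nat_lit 169)) (XT.lf (nat_lit 0) (nat_lit 39658035733) (nat_lit 228) (nat_lit 13152444096) (nat_lit 76) (nat_lit 35330911741) (nat_lit 19) (nat_lit 5) (nat_lit 22) (nat_lit 5) (nat_lit 20) (nat_lit 5) (nat_lit 290) (nat_lit 262) (nat_lit 168)))) (XT.nd (nat_lit 156) (nat_lit 304) (nat_lit 0) (XT.nd (nat_lit 78) (nat_lit 0) (nat_lit 0) (XT.lf (nat_lit 0) (nat_lit 37225699706) (nat_lit 152) (nat_lit 23702710440) (nat_lit 228) (nat_lit 32610403004) (nat_lit 17) (nat_lit 5) (nat_lit 19) (nat_lit 5) (nat_lit 20) (nat_lit 5) (nat_lit 291) (nat_lit 262) (nat_lit 167)) (XT.lf (nat_lit 0) (nat_lit 84250650360) (nat_lit 228) (nat_lit 7382736785) (nat_lit 76) (nat_lit 7717135939) (nat_lit 17) (nat_lit 5) (nat_lit 20) (nat_lit 5) (nat_lit 18) (nat_lit 4) (nat_lit 292) (nat_lit 262) (nat_lit 166))) (XT.nd (nat_lit 78)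 (nat_lit 152) (nat_lit 0) (XT.lf (nat_lit 0) (nat_lit 4831197899) (nat_lit 152) (nat_lit 59101760890) (nat_lit 76) (nat_lit 41634156793) (nat_lit 15) (nat_lit 5) (nat_lit 17) (nat_lit 5) (nat_lit 16) (nat_lit 5) (nat_lit 293) (nat_lit 262) (nat_lit 165)) (XT.nd (nat_lit 78) (nat_lit 152) (nat_lit 0) (XT.lf (nat_lit 0) (nat_lit 25962491935) (nat_lit 152) (nat_lit 7651308940) (nat_lit 76) (nat_lit 78648124718) (nat_lit 15) (nat_lit 5) (nat_lit 17) (nat_lit 5) (nat_lit 16) (nat_lit 5) (nat_lit 294) (nat_lit 262) (nat_lit 164)) (XT.lf (nat_lit 0) (nat_lit 49494772324) (nat_lit 152) (nat_lit 59473401) (nat_lit 228) (nat_lit 69899581722) (nat_lit 13) (nat_lit 5) (nat_lit 15) (nat_lit 5) (nat_lit 16) (nat_lit 5) (nat_lit 295) (nat_lit 262) (nat_lit 163)))))) (XT.nd (nat_lit 390) (nat_lit 152) (nat_lit 0) (XT.nd (nat_lit 156) (nat_lit 228) (nat_lit 0) (XT.nd (nat_lit 78) (nat_lit 76) (nat_lit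 0) (XT.lf (nat_lit 0) (nat_lit 75730981173) (nat_lit 228) (nat_lit 16300157040) (nat_lit 76) (nat_lit 35155065667) (nat_lit 13) (nat_lit 5) (nat_lit 16) (nat_lit 5) (nat_lit 14) (nat_lit 4) (nat_lit 296) (nat_lit 262) (nat_lit 162)) (XT.lf (nat_lit 0) (nat_lit 43023334089) (nat_lit 76) (nat_lit 61648754612) (nat_lit 152) (nat_lit 30831574226) (nat_lit 12) (nat_lit 5) (nat_lit 13) (nat_lit 5) (nat_lit 14) (nat_lit 4) (nat_lit 297) (nat_lit 262) (nat_lit 161))) (XT.nd (nat_lit 78) (nat_lit 228) (nat_lit 0) (XT.lf (nat_lit 0) (nat_lit 107670826054) (nat_lit 76) (nat_lit 28539234925) (nat_lit 152) (nat_lit 8262382766) (nat_lit 12) (nat_lit 5) (nat_lit 13) (nat_lit 5) (nat_lit 14) (nat_lit 4) (nat_lit 298) (nat_lit 262) (nat_lit 160)) (XT.nd (nat_lit 78) (nat_lit 0) (nat_lit 0) (XT.lf (nat_lit 0) (nat_lit 16089528503) (nat_lit 228) (nat_lit 130411470165) (nat_lit 76) (nat_lit 7620509813)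 (nat_lit 9) (nat_lit 5) (nat_lit 12) (nat_lit 5) (nat_lit 10) (nat_lit 4) (nat_lit 299) (nat_lit 262) (nat_lit 159)) (XT.lf (nat_lit 0) (nat_lit 43234642229) (nat_lit 228) (nat_lit 74768356358) (nat_lit 76) (nat_lit 46476004350) (nat_lit 9) (nat_lit 5) (nat_lit 12) (nat_lit 5) (nat_lit 10) (nat_lit 4) (nat_lit 300) (nat_lit 262) (nat_lit 158))))) (XT.nd (nat_lit 156) (nat_lit 76) (nat_lit 0) (XT.nd (nat_lit 78) (nat_lit 76) (nat_lit 0) (XT.lf (nat_lit 0) (nat_lit 72549383546) (nat_lit 228) (nat_lit 14677182335) (nat_lit 76) (nat_lit 88438633058) (nat_lit 9) (nat_lit 5) (nat_lit 12) (nat_lit 5) (nat_lit 10) (nat_lit 4) (nat_lit 301) (nat_lit 262) (nat_lit 157)) (XT.lf (nat_lit 0) (nat_lit 51878586506) (nat_lit 76) (nat_lit 53138853058) (nat_lit 152) (nat_lit 82688446985) (nat_lit 8) (nat_lit 5) (nat_lit 9) (nat_lit 5) (nat_lit 10) (nat_lit 4) (nat_lit 302) (nat_lit 262) (nat_lit 156)))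 (XT.nd (nat_lit 78) (nat_lit 76) (nat_lit 0) (XT.lf (nat_lit 0) (nat_lit 124279932810) (nat_lit 76) (nat_lit 16056928618) (nat_lit 152) (nat_lit 60360274173) (nat_lit 8) (nat_lit 5) (nat_lit 9) (nat_lit 5) (nat_lit 10) (nat_lit 4) (nat_lit 303) (nat_lit 262) (nat_lit 155)) (XT.nd (nat_lit 78) (nat_lit 76) (nat_lit 0) (XT.lf (nat_lit 0) (nat_lit 178854777839) (nat_lit 152) (nat_lit 12631717223) (nat_lit 0) (nat_lit 23222544786) (nat_lit 8) (nat_lit 5) (nat_lit 10) (nat_lit 4) (nat_lit 8) (nat_lit 4) (nat_lit 304) (nat_lit 262) (nat_lit 154)) (XT.lf (nat_lit 0) (nat_lit 57834282814) (nat_lit 76) (nat_lit 163792035680) (nat_lit 76) (nat_lit 8156970537) (nat_lit 7) (nat_lit 4) (nat_lit 8) (nat_lit 5) (nat_lit 8) (nat_lit 4) (nat_lit 305) (nat_lit 262) (nat_lit 153))))))) (XT.nd (nat_lit 780) (nat_lit 152) (nat_lit 0) (XT.nd (nat_lit 390) (nat_lit 76) (nat_lit 0) (XT.nd (nat_lit 156) (nat_lit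 76) (nat_lit 0) (XT.nd (nat_lit 78) (nat_lit 0) (nat_lit 0) (XT.lf (nat_lit 0) (nat_lit 21281950352) (nat_lit 152) (nat_lit 112009689223) (nat_lit 76) (nat_lit 112743747909) (nat_lit 6) (nat_lit 5) (nat_lit 8) (nat_lit 5) (nat_lit 7) (nat_lit 4) (nat_lit 306) (nat_lit 262) (nat_lit 152)) (XT.lf (nat_lit 0) (nat_lit 52792667392) (nat_lit 152) (nat_lit 47415147351) (nat_lit 76) (nat_lit 163373031629) (nat_lit 6) (nat_lit 5) (nat_lit 8) (nat_lit 5) (nat_lit 7) (nat_lit 4) (nat_lit 307) (nat_lit 262) (nat_lit 151))) (XT.nd (nat_lit 78) (nat_lit 0) (nat_lit 0) (XT.lf (nat_lit 0) (nat_lit 23083573553) (nat_lit 76) (nat_lit 64099810477) (nat_lit 152) (nat_lit 195328602448) (nat_lit 5) (nat_lit 5) (nat_lit 6) (nat_lit 5) (nat_lit 7) (nat_lit 4) (nat_lit 308) (nat_lit 262) (nat_lit 150)) (XT.nd (nat_lit 78) (nat_lit 0) (nat_lit 0) (XT.lf (nat_lit 0) (nat_lit 100913264649) (nat_lit 76) (nat_lit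 24236837803) (nat_lit 152) (nat_lit 177766279618) (nat_lit 5) (nat_lit 5) (nat_lit 6) (nat_lit 5) (nat_lit 7) (nat_lit 4) (nat_lit 309) (nat_lit 262) (nat_lit 149)) (XT.lf (nat_lit 0) (nat_lit 166446794594) (nat_lit 152) (nat_lit 140279550509) (nat_lit 0) (nat_lit 18212153783) (nat_lit 5) (nat_lit 5) (nat_lit 7) (nat_lit 4) (nat_lit 5) (nat_lit 4) (nat_lit 310) (nat_lit 262) (nat_lit 148))))) (XT.nd (nat_lit 156) (nat_lit 76) (nat_lit 0) (XT.nd (nat_lit 78) (nat_lit 0) (nat_lit 0) (XT.lf (nat_lit 0) (nat_lit 211454861198) (nat_lit 152) (nat_lit 74028622503) (nat_lit 0) (nat_lit 63218520676) (nat_lit 5) (nat_lit 5) (nat_lit 7) (nat_lit 4) (nat_lit 5) (nat_lit 4) (nat_lit 311) (nat_lit 262) (nat_lit 147)) (XT.lf (nat_lit 0) (nat_lit 260062611772) (nat_lit 152) (nat_lit 2479330352) (nat_lit 0) (nat_lit 111824697443) (nat_lit 5) (nat_lit 5) (nat_lit 7) (nat_lit 4) (nat_lit 5) (nat_lit 4)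 (nat_lit 312) (nat_lit 262) (nat_lit 146))) (XT.nd (nat_lit 78) (nat_lit 0) (nat_lit 0) (XT.lf (nat_lit 0) (nat_lit 77265293677) (nat_lit 76) (nat_lit 236499126336) (nat_lit 76) (nat_lit 88259754780) (nat_lit 4) (nat_lit 4) (nat_lit 5) (nat_lit 5) (nat_lit 5) (nat_lit 4) (nat_lit 313) (nat_lit 262) (nat_lit 145)) (XT.nd (nat_lit 78) (nat_lit 0) (nat_lit 0) (XT.lf (nat_lit 0) (nat_lit 163476509109) (nat_lit 76) (nat_lit 208328204283) (nat_lit 76) (nat_lit 60087483441) (nat_lit 4) (nat_lit 4) (nat_lit 5) (nat_lit 5) (nat_lit 5) (nat_lit 4) (nat_lit 314) (nat_lit 262) (nat_lit 144)) (XT.lf (nat_lit 0) (nat_lit 256583219361) (nat_lit 76) (nat_lit 177904225827) (nat_lit 76) (nat_lit 29662255647) (nat_lit 4) (nat_lit 4) (nat_lit 5) (nat_lit 5) (nat_lit 5) (nat_lit 4) (nat_lit 315) (nat_lit 262) (nat_lit 143)))))) (XT.nd (nat_lit 390) (nat_lit 0) (nat_lit 0) (XT.nd (nat_lit 156) (nat_lit 76)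 (nat_lit 0) (XT.nd (nat_lit 78) (nat_lit 0) (nat_lit 0) (XT.lf (nat_lit 0) (nat_lit 3093927048) (nat_lit 152) (nat_lit 141900576525) (nat_lit 76) (nat_lit 353990843701) (nat_lit 3) (nat_lit 5) (nat_lit 5) (nat_lit 5) (nat_lit 4) (nat_lit 4) (nat_lit 316) (nat_lit 262) (nat_lit 142)) (XT.lf (nat_lit 0) (nat_lit 37444591865) (nat_lit 152) (nat_lit 71482784755) (nat_lit 76) (nat_lit 427655495832) (nat_lit 3) (nat_lit 5) (nat_lit 5) (nat_lit 5) (nat_lit 4) (nat_lit 4) (nat_lit 317) (nat_lit 262) (nat_lit 141))) (XT.nd (nat_lit 78) (nat_lit 0) (nat_lit 0) (XT.lf (nat_lit 0) (nat_lit 4718310804) (nat_lit 76) (nat_lit 69898030976) (nat_lit 152) (nat_lit 502568206985) (nat_lit 2) (nat_lit 5) (nat_lit 3) (nat_lit 5) (nat_lit 4) (nat_lit 4) (nat_lit 318) (nat_lit 262) (nat_lit 140)) (XT.nd (nat_lit 78) (nat_lit 0) (nat_lit 0) (XT.lf (nat_lit 0) (nat_lit 89567035553) (nat_lit 76) (nat_lit 26439376007)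 (nat_lit 152) (nat_lit 504965719289) (nat_lit 2) (nat_lit 5) (nat_lit 3) (nat_lit 5) (nat_lit 4) (nat_lit 4) (nat_lit 319) (nat_lit 262) (nat_lit 139)) (XT.lf (nat_lit 0) (nat_lit 161027120145) (nat_lit 152) (nat_lit 487380087613) (nat_lit 0) (nat_lit 19839540693) (nat_lit 2) (nat_lit 5) (nat_lit 4) (nat_lit 4) (nat_lit 2) (nat_lit 4) (nat_lit 320) (nat_lit 262) (nat_lit 138))))) (XT.nd (nat_lit 32994) (nat_lit 0) (nat_lit 5016) (XT.nd (nat_lit 78) (nat_lit 0) (nat_lit 0) (XT.lf (nat_lit 0) (nat_lit 210094777213) (nat_lit 152) (nat_lit 440279846271) (nat_lit 0) (nat_lit 68906447955) (nat_lit 2) (nat_lit 5) (nat_lit 4) (nat_lit 4) (nat_lit 2) (nat_lit 4) (nat_lit 321) (nat_lit 262) (nat_lit 137)) (XT.lf (nat_lit 0) (nat_lit 263087361308) (nat_lit 152) (nat_lit 389412465974) (nat_lit 0) (nat_lit 121898337787) (nat_lit 2) (nat_lit 5) (nat_lit 4) (nat_lit 4) (nat_lit 2) (nat_lit 4) (nat_lit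 322) (nat_lit 262) (nat_lit 136))) (XT.nd (nat_lit 78) (nat_lit 0) (nat_lit 0) (XT.lf (nat_lit 0) (nat_lit 1915924323) (nat_lit 0) (nat_lit 1915924323) (nat_lit 684) (nat_lit 8268309281) (nat_lit 68) (nat_lit 5) (nat_lit 68) (nat_lit 3) (nat_lit 77) (nat_lit 3) (nat_lit 263) (nat_lit 263) (nat_lit 194)) (XT.nd (nat_lit 78) (nat_lit 0) (nat_lit 76) (XT.lf (nat_lit 0) (nat_lit 8332783024) (nat_lit 684) (nat_lit 4302443431) (nat_lit 760) (nat_lit 12514397990) (nat_lit 68) (nat_lit 5) (nat_lit 77) (nat_lit 3) (nat_lit 78) (nat_lit 5) (nat_lit 264) (nat_lit 263) (nat_lit 193)) (XT.lf (nat_lit 0) (nat_lit 9377204475) (nat_lit 684) (nat_lit 12821664915) (nat_lit 760) (nat_lit 3959975631) (nat_lit 69) (nat_lit 5) (nat_lit 78) (nat_lit 5) (nat_lit 79) (nat_lit 5) (nat_lit 265) (nat_lit 263) (nat_lit 192))))))))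
noncomputable def xc92 : XT := (XT.nd (nat_lit 1482) (nat_lit 1596) (nat_lit 0) (XT.nd (nat_lit 702) (nat_lit 1824) (nat_lit 0) (XT.nd (nat_lit 312) (nat_lit 1216) (nat_lit 0) (XT.nd (nat_lit 156) (nat_lit 0) (nat_lit 152) (XT.nd (nat_lit 78) (nat_lit 0) (nat_lit 76) (XT.lf (nat_lit 76) (nat_lit 5240472706) (nat_lit 0) (nat_lit 5620946027) (nat_lit 760) (nat_lit 16369626023) (nat_lit 70) (nat_lit 5) (nat_lit 69) (nat_lit 5) (nat_lit 79) (nat_lit 5) (nat_lit 266) (nat_lit 263) (nat_lit 191)) (XT.lf (nat_lit 0) (nat_lit 12869373652) (nat_lit 684) (nat_lit 3377782981) (nat_lit 760) (nat_lit 12121663164) (nat_lit 70) (nat_lit 5) (nat_lit 79) (nat_lit 5) (nat_lit 80) (nat_lit 5) (nat_lit 267) (nat_lit 263) (nat_lit 190))) (XT.nd (nat_lit 78) (nat_lit 0) (nat_lit 0) (XT.lf (nat_lit 0) (nat_lit 15415866789) (nat_lit 684) (nat_lit 12438385450) (nat_lit 760) (nat_lit 1724515350) (nat_lit 71)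 (nat_lit 5) (nat_lit 80) (nat_lit 5) (nat_lit 81) (nat_lit 5) (nat_lit 268) (nat_lit 263) (nat_lit 189)) (XT.lf (nat_lit 76) (nat_lit 8526546461) (nat_lit 0) (nat_lit 10094515489) (nat_lit 760) (nat_lit 12241742569) (nat_lit 72) (nat_lit 5) (nat_lit 71) (nat_lit 5) (nat_lit 81) (nat_lit 5) (nat_lit 269) (nat_lit 263) (nat_lit 188)))) (XT.nd (nat_lit 156) (nat_lit 760) (nat_lit 0) (XT.nd (nat_lit 78) (nat_lit 684) (nat_lit 0) (XT.lf (nat_lit 0) (nat_lit 22433622895) (nat_lit 684) (nat_lit 781000597) (nat_lit 76) (nat_lit 9017432703) (nat_lit 72) (nat_lit 5) (nat_lit 81) (nat_lit 5) (nat_lit 73) (nat_lit 5) (nat_lit 270) (nat_lit 263) (nat_lit 187)) (XT.lf (nat_lit 0) (nat_lit 23057463687) (nat_lit 684) (nat_lit 4013624594) (nat_lit 760) (nat_lit 6613801131) (nat_lit 63) (nat_lit 5) (nat_lit 72) (nat_lit 5) (nat_lit 73) (nat_lit 5) (nat_lit 271) (nat_lit 263) (nat_lit 186))) (XT.nd (nat_lit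 78) (nat_lit 456) (nat_lit 0) (XT.lf (nat_lit 0) (nat_lit 13747169089) (nat_lit 304) (nat_lit 18812283112) (nat_lit 380) (nat_lit 2670535714) (nat_lit 59) (nat_lit 5) (nat_lit 63) (nat_lit 5) (nat_lit 64) (nat_lit 5) (nat_lit 272) (nat_lit 263) (nat_lit 185)) (XT.nd (nat_lit 78) (nat_lit 0) (nat_lit 0) (XT.lf (nat_lit 0) (nat_lit 1866736016) (nat_lit 456) (nat_lit 33337875048) (nat_lit 76) (nat_lit 1676404286) (nat_lit 53) (nat_lit 5) (nat_lit 59) (nat_lit 5) (nat_lit 54) (nat_lit 5) (nat_lit 273) (nat_lit 263) (nat_lit 184)) (XT.lf (nat_lit 0) (nat_lit 7363531635) (nat_lit 456) (nat_lit 7684604674) (nat_lit 76) (nat_lit 23579321981) (nat_lit 53) (nat_lit 5) (nat_lit 59) (nat_lit 5) (nat_lit 54) (nat_lit 5) (nat_lit 274) (nat_lit 263) (nat_lit 183)))))) (XT.nd (nat_lit 390) (nat_lit 684) (nat_lit 0) (XT.nd (nat_lit 156) (nat_lit 532) (nat_lit 0) (XT.nd (nat_lit 78) (nat_lit 304) (nat_lit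 0) (XT.lf (nat_lit 0) (nat_lit 13725007170) (nat_lit 380) (nat_lit 19933953128) (nat_lit 76) (nat_lit 6833435025) (nat_lit 49) (nat_lit 5) (nat_lit 54) (nat_lit 5) (nat_lit 50) (nat_lit 5) (nat_lit 275) (nat_lit 263) (nat_lit 182)) (XT.lf (nat_lit 0) (nat_lit 8854490986) (nat_lit 304) (nat_lit 12261348414) (nat_lit 380) (nat_lit 21364689573) (nat_lit 45) (nat_lit 5) (nat_lit 49) (nat_lit 5) (nat_lit 50) (nat_lit 5) (nat_lit 276) (nat_lit 263) (nat_lit 181))) (XT.nd (nat_lit 78) (nat_lit 532) (nat_lit 0) (XT.lf (nat_lit 0) (nat_lit 29613058111) (nat_lit 380) (nat_lit 4136051036) (nat_lit 76) (nat_lit 10852870011) (nat_lit 45) (nat_lit 5) (nat_lit 50) (nat_lit 5) (nat_lit 46) (nat_lit 5) (nat_lit 277) (nat_lit 263) (nat_lit 180)) (XT.nd (nat_lit 78) (nat_lit 304) (nat_lit 0) (XT.lf (nat_lit 0) (nat_lit 28407756191) (nat_lit 228) (nat_lit 11025925328) (nat_lit 304) (nat_lit 7427302700)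 (nat_lit 42) (nat_lit 5) (nat_lit 45) (nat_lit 5) (nat_lit 46) (nat_lit 5) (nat_lit 278) (nat_lit 263) (nat_lit 179)) (XT.lf (nat_lit 0) (nat_lit 1230621128) (nat_lit 304) (nat_lit 34640557637) (nat_lit 76) (nat_lit 13403219842) (nat_lit 38) (nat_lit 5) (nat_lit 42) (nat_lit 5) (nat_lit 39) (nat_lit 5) (nat_lit 279) (nat_lit 263) (nat_lit 178))))) (XT.nd (nat_lit 156) (nat_lit 456) (nat_lit 0) (XT.nd (nat_lit 78) (nat_lit 228) (nat_lit 0) (XT.lf (nat_lit 0) (nat_lit 10831015588) (nat_lit 304) (nat_lit 1162107994) (nat_lit 76) (nat_lit 39856188462) (nat_lit 38) (nat_lit 5) (nat_lit 42) (nat_lit 5) (nat_lit 39) (nat_lit 5) (nat_lit 280) (nat_lit 263) (nat_lit 177)) (XT.lf (nat_lit 0) (nat_lit 21982757304) (nat_lit 304) (nat_lit 18682578199) (nat_lit 76) (nat_lit 13925732555) (nat_lit 35) (nat_lit 5) (nat_lit 39) (nat_lit 5) (nat_lit 36) (nat_lit 5) (nat_lit 281) (nat_lit 263) (nat_lit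 176))) (XT.nd (nat_lit 78) (nat_lit 228) (nat_lit 0) (XT.lf (nat_lit 0) (nat_lit 18828061094) (nat_lit 228) (nat_lit 15710014916) (nat_lit 304) (nat_lit 22988530816) (nat_lit 32) (nat_lit 5) (nat_lit 35) (nat_lit 5) (nat_lit 36) (nat_lit 5) (nat_lit 282) (nat_lit 263) (nat_lit 175)) (XT.nd (nat_lit 78) (nat_lit 228) (nat_lit 0) (XT.lf (nat_lit 0) (nat_lit 48599047920) (nat_lit 304) (nat_lit 861874709) (nat_lit 76) (nat_lit 11211017787) (nat_lit 32) (nat_lit 5) (nat_lit 36) (nat_lit 5) (nat_lit 33) (nat_lit 5) (nat_lit 283) (nat_lit 263) (nat_lit 174)) (XT.lf (nat_lit 0) (nat_lit 640871560) (nat_lit 228) (nat_lit 22990192417) (nat_lit 76) (nat_lit 40392280739) (nat_lit 29) (nat_lit 5) (nat_lit 32) (nat_lit 5) (nat_lit 30) (nat_lit 5) (nat_lit 284) (nat_lit 263) (nat_lit 173))))))) (XT.nd (nat_lit 702) (nat_lit 684) (nat_lit 0) (XT.nd (nat_lit 312) (nat_lit 380) (nat_lit 0) (XT.nd (nat_lit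 156) (nat_lit 304) (nat_lit 0) (XT.nd (nat_lit 78) (nat_lit 0) (nat_lit 0) (XT.lf (nat_lit 0) (nat_lit 14337900778) (nat_lit 304) (nat_lit 48623724210) (nat_lit 76) (nat_lit 4651894292) (nat_lit 26) (nat_lit 5) (nat_lit 30) (nat_lit 5) (nat_lit 27) (nat_lit 5) (nat_lit 285) (nat_lit 263) (nat_lit 172)) (XT.lf (nat_lit 0) (nat_lit 29931886833) (nat_lit 304) (nat_lit 6733044442) (nat_lit 76) (nat_lit 34785926717) (nat_lit 26) (nat_lit 5) (nat_lit 30) (nat_lit 5) (nat_lit 27) (nat_lit 5) (nat_lit 286) (nat_lit 263) (nat_lit 171))) (XT.nd (nat_lit 78) (nat_lit 152) (nat_lit 0) (XT.lf (nat_lit 0) (nat_lit 39776154499) (nat_lit 152) (nat_lit 7614265741) (nat_lit 228) (nat_lit 28173921312) (nat_lit 24) (nat_lit 5) (nat_lit 26) (nat_lit 5) (nat_lit 27) (nat_lit 5) (nat_lit 287) (nat_lit 263) (nat_lit 170)) (XT.lf (nat_lit 0) (nat_lit 10193100359) (nat_lit 152) (nat_lit 56698045942) (nat_lit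 228) (nat_lit 13083490494) (nat_lit 22) (nat_lit 5) (nat_lit 24) (nat_lit 5) (nat_lit 25) (nat_lit 5) (nat_lit 288) (nat_lit 263) (nat_lit 169)))) (XT.nd (nat_lit 156) (nat_lit 152) (nat_lit 0) (XT.nd (nat_lit 78) (nat_lit 152) (nat_lit 0) (XT.lf (nat_lit 0) (nat_lit 3869639908) (nat_lit 228) (nat_lit 23770119408) (nat_lit 76) (nat_lit 57057577778) (nat_lit 21) (nat_lit 5) (nat_lit 24) (nat_lit 5) (nat_lit 22) (nat_lit 5) (nat_lit 289) (nat_lit 263) (nat_lit 168)) (XT.lf (nat_lit 0) (nat_lit 22206643675) (nat_lit 228) (nat_lit 63289064332) (nat_lit 76) (nat_lit 4267127940) (nat_lit 19) (nat_lit 5) (nat_lit 22) (nat_lit 5) (nat_lit 20) (nat_lit 5) (nat_lit 290) (nat_lit 263) (nat_lit 167))) (XT.nd (nat_lit 78) (nat_lit 152) (nat_lit 0) (XT.lf (nat_lit 0) (nat_lit 42894253925) (nat_lit 228) (nat_lit 14104834856) (nat_lit 76) (nat_lit 38190310042) (nat_lit 19) (nat_lit 5) (nat_lit 22) (nat_lit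 5) (nat_lit 20) (nat_lit 5) (nat_lit 291) (nat_lit 263) (nat_lit 166)) (XT.nd (nat_lit 78) (nat_lit 0) (nat_lit 0) (XT.lf (nat_lit 0) (nat_lit 40299223057) (nat_lit 152) (nat_lit 25563816463) (nat_lit 228) (nat_lit 35155744828) (nat_lit 17) (nat_lit 5) (nat_lit 19) (nat_lit 5) (nat_lit 20) (nat_lit 5) (nat_lit 292) (nat_lit 263) (nat_lit 165)) (XT.lf (nat_lit 0) (nat_lit 91047095668) (nat_lit 228) (nat_lit 7882565868) (nat_lit 76) (nat_lit 8365976302) (nat_lit 17) (nat_lit 5) (nat_lit 20) (nat_lit 5) (nat_lit 18) (nat_lit 4) (nat_lit 293) (nat_lit 263) (nat_lit 164)))))) (XT.nd (nat_lit 390) (nat_lit 304) (nat_lit 0) (XT.nd (nat_lit 156) (nat_lit 228) (nat_lit 0) (XT.nd (nat_lit 78) (nat_lit 0) (nat_lit 0) (XT.lf (nat_lit 0) (nat_lit 5272240128) (nat_lit 152) (nat_lit 63741159232) (nat_lit 76) (nat_lit 44996263414) (nat_lit 15) (nat_lit 5) (nat_lit 17) (nat_lit 5) (nat_lit 16) (nat_lit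 5) (nat_lit 294) (nat_lit 263) (nat_lit 163)) (XT.lf (nat_lit 0) (nat_lit 28089997213) (nat_lit 152) (nat_lit 8181244647) (nat_lit 76) (nat_lit 84969024766) (nat_lit 15) (nat_lit 5) (nat_lit 17) (nat_lit 5) (nat_lit 16) (nat_lit 5) (nat_lit 295) (nat_lit 263) (nat_lit 162))) (XT.nd (nat_lit 78) (nat_lit 76) (nat_lit 0) (XT.lf (nat_lit 0) (nat_lit 53532952154) (nat_lit 152) (nat_lit 33625109) (nat_lit 228) (nat_lit 75441075566) (nat_lit 13) (nat_lit 5) (nat_lit 15) (nat_lit 5) (nat_lit 16) (nat_lit 5) (nat_lit 296) (nat_lit 263) (nat_lit 161)) (XT.nd (nat_lit 78) (nat_lit 76) (nat_lit 0) (XT.lf (nat_lit 0) (nat_lit 81834339044) (nat_lit 228) (nat_lit 17529539038) (nat_lit 76) (nat_lit 37994902936) (nat_lit 13) (nat_lit 5) (nat_lit 16) (nat_lit 5) (nat_lit 14) (nat_lit 4) (nat_lit 297) (nat_lit 263) (nat_lit 160)) (XT.lf (nat_lit 0) (nat_lit 46536588028) (nat_lit 76) (nat_lit 66551937302)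 (nat_lit 152) (nat_lit 33253227521) (nat_lit 12) (nat_lit 5) (nat_lit 13) (nat_lit 5) (nat_lit 14) (nat_lit 4) (nat_lit 298) (nat_lit 263) (nat_lit 159))))) (XT.nd (nat_lit 156) (nat_lit 76) (nat_lit 0) (XT.nd (nat_lit 78) (nat_lit 228) (nat_lit 0) (XT.lf (nat_lit 0) (nat_lit 116350591409) (nat_lit 76) (nat_lit 30795783277) (nat_lit 152) (nat_lit 8881824643) (nat_lit 12) (nat_lit 5) (nat_lit 13) (nat_lit 5) (nat_lit 14) (nat_lit 4) (nat_lit 299) (nat_lit 263) (nat_lit 158)) (XT.lf (nat_lit 0) (nat_lit 17415349220) (nat_lit 228) (nat_lit 140778271868) (nat_lit 76) (nat_lit 8255618293) (nat_lit 9) (nat_lit 5) (nat_lit 12) (nat_lit 5) (nat_lit 10) (nat_lit 4) (nat_lit 300) (nat_lit 263) (nat_lit 157))) (XT.nd (nat_lit 78) (nat_lit 76) (nat_lit 0) (XT.lf (nat_lit 0) (nat_lit 46729208456) (nat_lit 228) (nat_lit 80688606431) (nat_lit 76) (nat_lit 50217665897) (nat_lit 9) (nat_lit 5) (nat_lit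 12) (nat_lit 5) (nat_lit 10) (nat_lit 4) (nat_lit 301) (nat_lit 263) (nat_lit 156)) (XT.nd (nat_lit 78) (nat_lit 76) (nat_lit 0) (XT.lf (nat_lit 0) (nat_lit 78386477608) (nat_lit 228) (nat_lit 15794673185) (nat_lit 76) (nat_lit 95535558147) (nat_lit 9) (nat_lit 5) (nat_lit 12) (nat_lit 5) (nat_lit 10) (nat_lit 4) (nat_lit 302) (nat_lit 263) (nat_lit 155)) (XT.lf (nat_lit 0) (nat_lit 56083093757) (nat_lit 76) (nat_lit 57367275817) (nat_lit 152) (nat_lit 89270366022) (nat_lit 8) (nat_lit 5) (nat_lit 9) (nat_lit 5) (nat_lit 10) (nat_lit 4) (nat_lit 303) (nat_lit 263) (nat_lit 154))))))))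
noncomputable def xc93 : XT := (XT.nd (nat_lit 34398) (nat_lit 0) (nat_lit 2280) (XT.nd (nat_lit 702) (nat_lit 228) (nat_lit 0) (XT.nd (nat_lit 312) (nat_lit 76) (nat_lit 0) (XT.nd (nat_lit 156) (nat_lit 152) (nat_lit 0) (XT.nd (nat_lit 78) (nat_lit 0) (nat_lit 0) (XT.lf (nat_lit 0) (nat_lit 134272531444) (nat_lit 76) (nat_lit 17320477828) (nat_lit 152) (nat_lit 65158395438) (nat_lit 8) (nat_lit 5) (nat_lit 9) (nat_lit 5) (nat_lit 10) (nat_lit 4) (nat_lit 304) (nat_lit 263) (nat_lit 153)) (XT.lf (nat_lit 0) (nat_lit 193190499769) (nat_lit 152) (nat_lit 13594682564) (nat_lit 0) (nat_lit 25099175022) (nat_lit 8) (nat_lit 5) (nat_lit 10) (nat_lit 4) (nat_lit 8) (nat_lit 4) (nat_lit 305) (nat_lit 263) (nat_lit 152))) (XT.nd (nat_lit 78) (nat_lit 76) (nat_lit 0) (XT.lf (nat_lit 0) (nat_lit 62506530053) (nat_lit 76) (nat_lit 176875918914) (nat_lit 76) (nat_lit 8782166107) (nat_lit 7) (nat_lit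 4) (nat_lit 8) (nat_lit 5) (nat_lit 8) (nat_lit 4) (nat_lit 306) (nat_lit 263) (nat_lit 151)) (XT.lf (nat_lit 0) (nat_lit 23009030747) (nat_lit 152) (nat_lit 120927487977) (nat_lit 76) (nat_lit 121780441945) (nat_lit 6) (nat_lit 5) (nat_lit 8) (nat_lit 5) (nat_lit 7) (nat_lit 4) (nat_lit 307) (nat_lit 263) (nat_lit 150)))) (XT.nd (nat_lit 156) (nat_lit 0) (nat_lit 0) (XT.nd (nat_lit 78) (nat_lit 76) (nat_lit 0) (XT.lf (nat_lit 0) (nat_lit 57038788531) (nat_lit 152) (nat_lit 51168566191) (nat_lit 76) (nat_lit 176458794718) (nat_lit 6) (nat_lit 5) (nat_lit 8) (nat_lit 5) (nat_lit 7) (nat_lit 4) (nat_lit 308) (nat_lit 263) (nat_lit 149)) (XT.lf (nat_lit 0) (nat_lit 24968323032) (nat_lit 76) (nat_lit 69211351691) (nat_lit 152) (nat_lit 210932162587) (nat_lit 5) (nat_lit 5) (nat_lit 6) (nat_lit 5) (nat_lit 7) (nat_lit 4) (nat_lit 309) (nat_lit 263) (nat_lit 148))) (XT.nd (nat_lit 78) (nat_lit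 0) (nat_lit 0) (XT.lf (nat_lit 0) (nat_lit 109021569890) (nat_lit 76) (nat_lit 26160559250) (nat_lit 152) (nat_lit 191966537490) (nat_lit 5) (nat_lit 5) (nat_lit 6) (nat_lit 5) (nat_lit 7) (nat_lit 4) (nat_lit 310) (nat_lit 263) (nat_lit 147)) (XT.nd (nat_lit 78) (nat_lit 0) (nat_lit 0) (XT.lf (nat_lit 0) (nat_lit 179781293908) (nat_lit 152) (nat_lit 151468551252) (nat_lit 0) (nat_lit 19682772627) (nat_lit 5) (nat_lit 5) (nat_lit 7) (nat_lit 4) (nat_lit 5) (nat_lit 4) (nat_lit 311) (nat_lit 263) (nat_lit 146)) (XT.lf (nat_lit 0) (nat_lit 228388616526) (nat_lit 152) (nat_lit 79920020361) (nat_lit 0) (nat_lit 68288638016) (nat_lit 5) (nat_lit 5) (nat_lit 7) (nat_lit 4) (nat_lit 5) (nat_lit 4) (nat_lit 312) (nat_lit 263) (nat_lit 145)))))) (XT.nd (nat_lit 390) (nat_lit 76) (nat_lit 0) (XT.nd (nat_lit 156) (nat_lit 76) (nat_lit 0) (XT.nd (nat_lit 78) (nat_lit 76) (nat_lit 0) (XT.lf (nat_lit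 0) (nat_lit 280883700742) (nat_lit 152) (nat_lit 2649073130) (nat_lit 0) (nat_lit 120782372948) (nat_lit 5) (nat_lit 5) (nat_lit 7) (nat_lit 4) (nat_lit 5) (nat_lit 4) (nat_lit 313) (nat_lit 263) (nat_lit 144)) (XT.lf (nat_lit 0) (nat_lit 83473877741) (nat_lit 76) (nat_lit 255407011964) (nat_lit 76) (nat_lit 95304434831) (nat_lit 4) (nat_lit 4) (nat_lit 5) (nat_lit 5) (nat_lit 5) (nat_lit 4) (nat_lit 314) (nat_lit 263) (nat_lit 143))) (XT.nd (nat_lit 78) (nat_lit 76) (nat_lit 0) (XT.lf (nat_lit 0) (nat_lit 176579963699) (nat_lit 76) (nat_lit 224983308330) (nat_lit 76) (nat_lit 64879574403) (nat_lit 4) (nat_lit 4) (nat_lit 5) (nat_lit 5) (nat_lit 5) (nat_lit 4) (nat_lit 315) (nat_lit 263) (nat_lit 142)) (XT.nd (nat_lit 78) (nat_lit 76) (nat_lit 0) (XT.lf (nat_lit 0) (nat_lit 277133334189) (nat_lit 76) (nat_lit 192126237693) (nat_lit 76) (nat_lit 32021432660) (nat_lit 4) (nat_lit 4) (nat_lit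 5) (nat_lit 5) (nat_lit 5) (nat_lit 4) (nat_lit 316) (nat_lit 263) (nat_lit 141)) (XT.lf (nat_lit 0) (nat_lit 3353813103) (nat_lit 152) (nat_lit 153230479936) (nat_lit 76) (nat_lit 382319249484) (nat_lit 3) (nat_lit 5) (nat_lit 5) (nat_lit 5) (nat_lit 4) (nat_lit 4) (nat_lit 317) (nat_lit 263) (nat_lit 140))))) (XT.nd (nat_lit 156) (nat_lit 0) (nat_lit 0) (XT.nd (nat_lit 78) (nat_lit 76) (nat_lit 0) (XT.lf (nat_lit 0) (nat_lit 40451614669) (nat_lit 152) (nat_lit 77180905025) (nat_lit 76) (nat_lit 461876396876) (nat_lit 3) (nat_lit 5) (nat_lit 5) (nat_lit 5) (nat_lit 4) (nat_lit 4) (nat_lit 318) (nat_lit 263) (nat_lit 139)) (XT.lf (nat_lit 0) (nat_lit 5115387164) (nat_lit 76) (nat_lit 75481175050) (nat_lit 152) (nat_lit 542762192846) (nat_lit 2) (nat_lit 5) (nat_lit 3) (nat_lit 5) (nat_lit 4) (nat_lit 4) (nat_lit 319) (nat_lit 263) (nat_lit 138))) (XT.nd (nat_lit 78) (nat_lit 0) (nat_lit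 0) (XT.lf (nat_lit 0) (nat_lit 96750557190) (nat_lit 76) (nat_lit 28546472010) (nat_lit 152) (nat_lit 545352355816) (nat_lit 2) (nat_lit 5) (nat_lit 3) (nat_lit 5) (nat_lit 4) (nat_lit 4) (nat_lit 320) (nat_lit 263) (nat_lit 137)) (XT.nd (nat_lit 78) (nat_lit 0) (nat_lit 0) (XT.lf (nat_lit 0) (nat_lit 173918762407) (nat_lit 152) (nat_lit 526353319301) (nat_lit 0) (nat_lit 21433922741) (nat_lit 2) (nat_lit 5) (nat_lit 4) (nat_lit 4) (nat_lit 2) (nat_lit 4) (nat_lit 321) (nat_lit 263) (nat_lit 136)) (XT.lf (nat_lit 0) (nat_lit 226911130362) (nat_lit 152) (nat_lit 475486330898) (nat_lit 0) (nat_lit 74425647860) (nat_lit 2) (nat_lit 5) (nat_lit 4) (nat_lit 4) (nat_lit 2) (nat_lit 4) (nat_lit 322) (nat_lit 263) (nat_lit 135))))))) (XT.nd (nat_lit 780) (nat_lit 2052) (nat_lit 0) (XT.nd (nat_lit 390) (nat_lit 684) (nat_lit 0) (XT.nd (nat_lit 156) (nat_lit 0) (nat_lit 76) (XT.nd (nat_lit 78)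 (nat_lit 0) (nat_lit 0) (XT.lf (nat_lit 0) (nat_lit 2147612292) (nat_lit 0) (nat_lit 2147612292) (nat_lit 684) (nat_lit 8764541303) (nat_lit 68) (nat_lit 5) (nat_lit 68) (nat_lit 3) (nat_lit 77) (nat_lit 3) (nat_lit 264) (nat_lit 264) (nat_lit 192)) (XT.lf (nat_lit 0) (nat_lit 9287560819) (nat_lit 684) (nat_lit 4483596387) (nat_lit 760) (nat_lit 13374986340) (nat_lit 68) (nat_lit 5) (nat_lit 77) (nat_lit 3) (nat_lit 78) (nat_lit 5) (nat_lit 265) (nat_lit 264) (nat_lit 191))) (XT.nd (nat_lit 78) (nat_lit 0) (nat_lit 0) (XT.lf (nat_lit 0) (nat_lit 10394857336) (nat_lit 684) (nat_lit 13675244377) (nat_lit 760) (nat_lit 4167111255) (nat_lit 69) (nat_lit 5) (nat_lit 78) (nat_lit 5) (nat_lit 79) (nat_lit 5) (nat_lit 266) (nat_lit 264) (nat_lit 190)) (XT.nd (nat_lit 78) (nat_lit 0) (nat_lit 76) (XT.lf (nat_lit 76) (nat_lit 5824382663) (nat_lit 0) (nat_lit 6156183991) (nat_lit 760) (nat_lit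 17415555674) (nat_lit 70) (nat_lit 5) (nat_lit 69) (nat_lit 5) (nat_lit 79) (nat_lit 5) (nat_lit 267) (nat_lit 264) (nat_lit 189)) (XT.lf (nat_lit 0) (nat_lit 14129385170) (nat_lit 684) (nat_lit 3481881530) (nat_lit 760) (nat_lit 13014707556) (nat_lit 70) (nat_lit 5) (nat_lit 79) (nat_lit 5) (nat_lit 80) (nat_lit 5) (nat_lit 268) (nat_lit 264) (nat_lit 188))))) (XT.nd (nat_lit 156) (nat_lit 912) (nat_lit 0) (XT.nd (nat_lit 78) (nat_lit 0) (nat_lit 0) (XT.lf (nat_lit 0) (nat_lit 16864118060) (nat_lit 684) (nat_lit 13262102062) (nat_lit 760) (nat_lit 1807333071) (nat_lit 71) (nat_lit 5) (nat_lit 80) (nat_lit 5) (nat_lit 81) (nat_lit 5) (nat_lit 269) (nat_lit 264) (nat_lit 187)) (XT.lf (nat_lit 76) (nat_lit 9372577556) (nat_lit 0) (nat_lit 10939785744) (nat_lit 760) (nat_lit 13008674847) (nat_lit 72) (nat_lit 5) (nat_lit 71) (nat_lit 5) (nat_lit 81) (nat_lit 5) (nat_lit 270) (nat_lit 264)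 (nat_lit 186))) (XT.nd (nat_lit 78) (nat_lit 988) (nat_lit 0) (XT.lf (nat_lit 0) (nat_lit 24414449439) (nat_lit 684) (nat_lit 681178000) (nat_lit 76) (nat_lit 9705029087) (nat_lit 72) (nat_lit 5) (nat_lit 81) (nat_lit 5) (nat_lit 73) (nat_lit 5) (nat_lit 271) (nat_lit 264) (nat_lit 185)) (XT.nd (nat_lit 78) (nat_lit 304) (nat_lit 0) (XT.lf (nat_lit 0) (nat_lit 25057309951) (nat_lit 684) (nat_lit 4354238076) (nat_lit 760) (nat_lit 6958785267) (nat_lit 63) (nat_lit 5) (nat_lit 72) (nat_lit 5) (nat_lit 73) (nat_lit 5) (nat_lit 272) (nat_lit 264) (nat_lit 184)) (XT.lf (nat_lit 0) (nat_lit 15004677466) (nat_lit 304) (nat_lit 20323537916) (nat_lit 380) (nat_lit 2711407665) (nat_lit 59) (nat_lit 5) (nat_lit 63) (nat_lit 5) (nat_lit 64) (nat_lit 5) (nat_lit 273) (nat_lit 264) (nat_lit 183)))))) (XT.nd (nat_lit 390) (nat_lit 988) (nat_lit 0) (XT.nd (nat_lit 156) (nat_lit 608) (nat_lit 0) (XT.nd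 (nat_lit 78) (nat_lit 0) (nat_lit 0) (XT.lf (nat_lit 0) (nat_lit 2173364453) (nat_lit 456) (nat_lit 35839850798) (nat_lit 76) (nat_lit 1809919888) (nat_lit 53) (nat_lit 5) (nat_lit 59) (nat_lit 5) (nat_lit 54) (nat_lit 5) (nat_lit 274) (nat_lit 264) (nat_lit 182)) (XT.lf (nat_lit 0) (nat_lit 8098252644) (nat_lit 456) (nat_lit 8146545035) (nat_lit 76) (nat_lit 25465115201) (nat_lit 53) (nat_lit 5) (nat_lit 59) (nat_lit 5) (nat_lit 54) (nat_lit 5) (nat_lit 275) (nat_lit 264) (nat_lit 181))) (XT.nd (nat_lit 78) (nat_lit 304) (nat_lit 0) (XT.lf (nat_lit 0) (nat_lit 14960281914) (nat_lit 380) (nat_lit 21375341731) (nat_lit 76) (nat_lit 7388873532) (nat_lit 49) (nat_lit 5) (nat_lit 54) (nat_lit 5) (nat_lit 50) (nat_lit 5) (nat_lit 276) (nat_lit 264) (nat_lit 180)) (XT.nd (nat_lit 78) (nat_lit 0) (nat_lit 0) (XT.lf (nat_lit 0) (nat_lit 9709514479) (nat_lit 304) (nat_lit 13224987625) (nat_lit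 380) (nat_lit 22937604905) (nat_lit 45) (nat_lit 5) (nat_lit 49) (nat_lit 5) (nat_lit 50) (nat_lit 5) (nat_lit 277) (nat_lit 264) (nat_lit 179)) (XT.lf (nat_lit 0) (nat_lit 32102163098) (nat_lit 380) (nat_lit 4325028745) (nat_lit 76) (nat_lit 11736577350) (nat_lit 45) (nat_lit 5) (nat_lit 50) (nat_lit 5) (nat_lit 46) (nat_lit 5) (nat_lit 278) (nat_lit 264) (nat_lit 178))))) (XT.nd (nat_lit 156) (nat_lit 456) (nat_lit 0) (XT.nd (nat_lit 78) (nat_lit 304) (nat_lit 0) (XT.lf (nat_lit 0) (nat_lit 30816115981) (nat_lit 228) (nat_lit 11885546309) (nat_lit 304) (nat_lit 7902198131) (nat_lit 42) (nat_lit 5) (nat_lit 45) (nat_lit 5) (nat_lit 46) (nat_lit 5) (nat_lit 279) (nat_lit 264) (nat_lit 177)) (XT.lf (nat_lit 0) (nat_lit 1438464329) (nat_lit 304) (nat_lit 37272640365) (nat_lit 76) (nat_lit 14499477871) (nat_lit 38) (nat_lit 5) (nat_lit 42) (nat_lit 5) (nat_lit 39) (nat_lit 5) (nat_lit 280)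 (nat_lit 264) (nat_lit 176))) (XT.nd (nat_lit 78) (nat_lit 456) (nat_lit 0) (XT.lf (nat_lit 0) (nat_lit 11798787123) (nat_lit 304) (nat_lit 1126223039) (nat_lit 76) (nat_lit 43066906169) (nat_lit 38) (nat_lit 5) (nat_lit 42) (nat_lit 5) (nat_lit 39) (nat_lit 5) (nat_lit 281) (nat_lit 264) (nat_lit 175)) (XT.nd (nat_lit 78) (nat_lit 228) (nat_lit 0) (XT.lf (nat_lit 0) (nat_lit 23837519538) (nat_lit 304) (nat_lit 20049319401) (nat_lit 76) (nat_lit 15066451775) (nat_lit 35) (nat_lit 5) (nat_lit 39) (nat_lit 5) (nat_lit 36) (nat_lit 5) (nat_lit 282) (nat_lit 264) (nat_lit 174)) (XT.lf (nat_lit 0) (nat_lit 20456614176) (nat_lit 228) (nat_lit 16935437534) (nat_lit 304) (nat_lit 24731900415) (nat_lit 32) (nat_lit 5) (nat_lit 35) (nat_lit 5) (nat_lit 36) (nat_lit 5) (nat_lit 283) (nat_lit 264) (nat_lit 173))))))))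
noncomputable def xc94 : XT := (XT.nd (nat_lit 1482) (nat_lit 532) (nat_lit 0) (XT.nd (nat_lit 702) (nat_lit 760) (nat_lit 0) (XT.nd (nat_lit 312) (nat_lit 532) (nat_lit 0) (XT.nd (nat_lit 156) (nat_lit 228) (nat_lit 0) (XT.nd (nat_lit 78) (nat_lit 228) (nat_lit 0) (XT.lf (nat_lit 0) (nat_lit 52571619464) (nat_lit 304) (nat_lit 813601043) (nat_lit 76) (nat_lit 12136023529) (nat_lit 32) (nat_lit 5) (nat_lit 36) (nat_lit 5) (nat_lit 33) (nat_lit 5) (nat_lit 284) (nat_lit 264) (nat_lit 172)) (XT.lf (nat_lit 0) (nat_lit 773779514) (nat_lit 228) (nat_lit 24714385914) (nat_lit 76) (nat_lit 43652771632) (nat_lit 29) (nat_lit 5) (nat_lit 32) (nat_lit 5) (nat_lit 30) (nat_lit 5) (nat_lit 285) (nat_lit 264) (nat_lit 171))) (XT.nd (nat_lit 78) (nat_lit 0) (nat_lit 0) (XT.lf (nat_lit 0) (nat_lit 15562752328) (nat_lit 304) (nat_lit 52400065288) (nat_lit 76) (nat_lit 5055713229) (nat_lit 26) (nat_lit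 5) (nat_lit 30) (nat_lit 5) (nat_lit 27) (nat_lit 5) (nat_lit 286) (nat_lit 264) (nat_lit 170)) (XT.lf (nat_lit 0) (nat_lit 32398492861) (nat_lit 304) (nat_lit 7166542758) (nat_lit 76) (nat_lit 37598122516) (nat_lit 26) (nat_lit 5) (nat_lit 30) (nat_lit 5) (nat_lit 27) (nat_lit 5) (nat_lit 287) (nat_lit 264) (nat_lit 169)))) (XT.nd (nat_lit 156) (nat_lit 228) (nat_lit 0) (XT.nd (nat_lit 78) (nat_lit 152) (nat_lit 0) (XT.lf (nat_lit 0) (nat_lit 43058822615) (nat_lit 152) (nat_lit 8191119182) (nat_lit 228) (nat_lit 30355979218) (nat_lit 24) (nat_lit 5) (nat_lit 26) (nat_lit 5) (nat_lit 27) (nat_lit 5) (nat_lit 288) (nat_lit 264) (nat_lit 168)) (XT.lf (nat_lit 0) (nat_lit 11107683856) (nat_lit 152) (nat_lit 61199998266) (nat_lit 228) (nat_lit 14061521314) (nat_lit 22) (nat_lit 5) (nat_lit 24) (nat_lit 5) (nat_lit 25) (nat_lit 5) (nat_lit 289) (nat_lit 264) (nat_lit 167))) (XT.nd (nat_lit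 78) (nat_lit 152) (nat_lit 0) (XT.lf (nat_lit 0) (nat_lit 4240740028) (nat_lit 228) (nat_lit 25577777131) (nat_lit 76) (nat_lit 61651405151) (nat_lit 21) (nat_lit 5) (nat_lit 24) (nat_lit 5) (nat_lit 22) (nat_lit 5) (nat_lit 290) (nat_lit 264) (nat_lit 166)) (XT.nd (nat_lit 78) (nat_lit 0) (nat_lit 0) (XT.lf (nat_lit 0) (nat_lit 24042041219) (nat_lit 228) (nat_lit 68259777656) (nat_lit 76) (nat_lit 4638984621) (nat_lit 19) (nat_lit 5) (nat_lit 22) (nat_lit 5) (nat_lit 20) (nat_lit 5) (nat_lit 291) (nat_lit 264) (nat_lit 165)) (XT.lf (nat_lit 0) (nat_lit 46380299840) (nat_lit 228) (nat_lit 15147655142) (nat_lit 76) (nat_lit 41273763036) (nat_lit 19) (nat_lit 5) (nat_lit 22) (nat_lit 5) (nat_lit 20) (nat_lit 5) (nat_lit 292) (nat_lit 264) (nat_lit 164)))))) (XT.nd (nat_lit 390) (nat_lit 304) (nat_lit 0) (XT.nd (nat_lit 156) (nat_lit 304) (nat_lit 0) (XT.nd (nat_lit 78) (nat_lit 0) (nat_lit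 0) (XT.lf (nat_lit 0) (nat_lit 43605008788) (nat_lit 152) (nat_lit 27578819918) (nat_lit 228) (nat_lit 37913771616) (nat_lit 17) (nat_lit 5) (nat_lit 19) (nat_lit 5) (nat_lit 20) (nat_lit 5) (nat_lit 293) (nat_lit 264) (nat_lit 163)) (XT.lf (nat_lit 0) (nat_lit 98379211468) (nat_lit 228) (nat_lit 8435333465) (nat_lit 76) (nat_lit 9062234419) (nat_lit 17) (nat_lit 5) (nat_lit 20) (nat_lit 5) (nat_lit 18) (nat_lit 4) (nat_lit 294) (nat_lit 264) (nat_lit 162))) (XT.nd (nat_lit 78) (nat_lit 152) (nat_lit 0) (XT.lf (nat_lit 0) (nat_lit 5740784082) (nat_lit 152) (nat_lit 68764369556) (nat_lit 76) (nat_lit 48622862701) (nat_lit 15) (nat_lit 5) (nat_lit 17) (nat_lit 5) (nat_lit 16) (nat_lit 5) (nat_lit 295) (nat_lit 264) (nat_lit 161)) (XT.nd (nat_lit 78) (nat_lit 152) (nat_lit 0) (XT.lf (nat_lit 0) (nat_lit 30380497679) (nat_lit 152) (nat_lit 8765297538) (nat_lit 76) (nat_lit 91791452501) (nat_lit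 15) (nat_lit 5) (nat_lit 17) (nat_lit 5) (nat_lit 16) (nat_lit 5) (nat_lit 296) (nat_lit 264) (nat_lit 160)) (XT.lf (nat_lit 0) (nat_lit 57882973481) (nat_lit 152) (nat_lit 10075265) (nat_lit 228) (nat_lit 81433089411) (nat_lit 13) (nat_lit 5) (nat_lit 15) (nat_lit 5) (nat_lit 16) (nat_lit 5) (nat_lit 297) (nat_lit 264) (nat_lit 159))))) (XT.nd (nat_lit 156) (nat_lit 228) (nat_lit 0) (XT.nd (nat_lit 78) (nat_lit 76) (nat_lit 0) (XT.lf (nat_lit 0) (nat_lit 88419563000) (nat_lit 228) (nat_lit 18867918480) (nat_lit 76) (nat_lit 41058013702) (nat_lit 13) (nat_lit 5) (nat_lit 16) (nat_lit 5) (nat_lit 14) (nat_lit 4) (nat_lit 298) (nat_lit 264) (nat_lit 158)) (XT.lf (nat_lit 0) (nat_lit 50320718098) (nat_lit 76) (nat_lit 71851471506) (nat_lit 152) (nat_lit 35875014664) (nat_lit 12) (nat_lit 5) (nat_lit 13) (nat_lit 5) (nat_lit 14) (nat_lit 4) (nat_lit 299) (nat_lit 264) (nat_lit 157))) (XT.nd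 (nat_lit 78) (nat_lit 228) (nat_lit 0) (XT.lf (nat_lit 0) (nat_lit 125715308191) (nat_lit 76) (nat_lit 33236648920) (nat_lit 152) (nat_lit 9556749263) (nat_lit 12) (nat_lit 5) (nat_lit 13) (nat_lit 5) (nat_lit 14) (nat_lit 4) (nat_lit 300) (nat_lit 264) (nat_lit 156)) (XT.nd (nat_lit 78) (nat_lit 0) (nat_lit 0) (XT.lf (nat_lit 0) (nat_lit 18841720536) (nat_lit 228) (nat_lit 151983849880) (nat_lit 76) (nat_lit 8937902200) (nat_lit 9) (nat_lit 5) (nat_lit 12) (nat_lit 5) (nat_lit 10) (nat_lit 4) (nat_lit 301) (nat_lit 264) (nat_lit 155)) (XT.lf (nat_lit 0) (nat_lit 50498233446) (nat_lit 228) (nat_lit 87091210004) (nat_lit 76) (nat_lit 54255296246) (nat_lit 9) (nat_lit 5) (nat_lit 12) (nat_lit 5) (nat_lit 10) (nat_lit 4) (nat_lit 302) (nat_lit 264) (nat_lit 154))))))) (XT.nd (nat_lit 780) (nat_lit 228) (nat_lit 0) (XT.nd (nat_lit 390) (nat_lit 152) (nat_lit 0) (XT.nd (nat_lit 156) (nat_lit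 76) (nat_lit 0) (XT.nd (nat_lit 78) (nat_lit 76) (nat_lit 0) (XT.lf (nat_lit 0) (nat_lit 84685810922) (nat_lit 228) (nat_lit 17009649871) (nat_lit 76) (nat_lit 103197122315) (nat_lit 9) (nat_lit 5) (nat_lit 12) (nat_lit 5) (nat_lit 10) (nat_lit 4) (nat_lit 303) (nat_lit 264) (nat_lit 153)) (XT.lf (nat_lit 0) (nat_lit 60616226452) (nat_lit 76) (nat_lit 61937208735) (nat_lit 152) (nat_lit 96383568759) (nat_lit 8) (nat_lit 5) (nat_lit 9) (nat_lit 5) (nat_lit 10) (nat_lit 4) (nat_lit 304) (nat_lit 264) (nat_lit 152))) (XT.nd (nat_lit 78) (nat_lit 76) (nat_lit 0) (XT.lf (nat_lit 0) (nat_lit 145057375807) (nat_lit 76) (nat_lit 18688107584) (nat_lit 152) (nat_lit 70344746198) (nat_lit 8) (nat_lit 5) (nat_lit 9) (nat_lit 5) (nat_lit 10) (nat_lit 4) (nat_lit 305) (nat_lit 264) (nat_lit 151)) (XT.nd (nat_lit 78) (nat_lit 76) (nat_lit 0) (XT.lf (nat_lit 0) (nat_lit 208669179139) (nat_lit 152) (nat_lit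 14641471815) (nat_lit 0) (nat_lit 27123249844) (nat_lit 8) (nat_lit 5) (nat_lit 10) (nat_lit 4) (nat_lit 8) (nat_lit 4) (nat_lit 306) (nat_lit 264) (nat_lit 150)) (XT.lf (nat_lit 0) (nat_lit 67546065329) (nat_lit 76) (nat_lit 191009291793) (nat_lit 76) (nat_lit 9461280828) (nat_lit 7) (nat_lit 4) (nat_lit 8) (nat_lit 5) (nat_lit 8) (nat_lit 4) (nat_lit 307) (nat_lit 264) (nat_lit 149))))) (XT.nd (nat_lit 156) (nat_lit 76) (nat_lit 0) (XT.nd (nat_lit 78) (nat_lit 0) (nat_lit 0) (XT.lf (nat_lit 0) (nat_lit 24870778898) (nat_lit 152) (nat_lit 130564841694) (nat_lit 76) (nat_lit 131537618558) (nat_lit 6) (nat_lit 5) (nat_lit 8) (nat_lit 5) (nat_lit 7) (nat_lit 4) (nat_lit 308) (nat_lit 264) (nat_lit 148)) (XT.lf (nat_lit 0) (nat_lit 61621359846) (nat_lit 152) (nat_lit 55227935447) (nat_lit 76) (nat_lit 190589147608) (nat_lit 6) (nat_lit 5) (nat_lit 8) (nat_lit 5) (nat_lit 7) (nat_lit 4)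 (nat_lit 309) (nat_lit 264) (nat_lit 147))) (XT.nd (nat_lit 78) (nat_lit 0) (nat_lit 0) (XT.lf (nat_lit 0) (nat_lit 26998422272) (nat_lit 76) (nat_lit 74734162069) (nat_lit 152) (nat_lit 227787249948) (nat_lit 5) (nat_lit 5) (nat_lit 6) (nat_lit 5) (nat_lit 7) (nat_lit 4) (nat_lit 310) (nat_lit 264) (nat_lit 146)) (XT.nd (nat_lit 78) (nat_lit 0) (nat_lit 0) (XT.lf (nat_lit 0) (nat_lit 117773511590) (nat_lit 76) (nat_lit 28240350511) (nat_lit 152) (nat_lit 207305818225) (nat_lit 5) (nat_lit 5) (nat_lit 6) (nat_lit 5) (nat_lit 7) (nat_lit 4) (nat_lit 311) (nat_lit 264) (nat_lit 145)) (XT.lf (nat_lit 0) (nat_lit 194179877449) (nat_lit 152) (nat_lit 163557431702) (nat_lit 0) (nat_lit 21269094146) (nat_lit 5) (nat_lit 5) (nat_lit 7) (nat_lit 4) (nat_lit 5) (nat_lit 4) (nat_lit 312) (nat_lit 264) (nat_lit 144)))))) (XT.nd (nat_lit 390) (nat_lit 152) (nat_lit 0) (XT.nd (nat_lit 156) (nat_lit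 76) (nat_lit 0) (XT.nd (nat_lit 78) (nat_lit 0) (nat_lit 0) (XT.lf (nat_lit 0) (nat_lit 246674594763) (nat_lit 152) (nat_lit 86287137129) (nat_lit 0) (nat_lit 73762562122) (nat_lit 5) (nat_lit 5) (nat_lit 7) (nat_lit 4) (nat_lit 5) (nat_lit 4) (nat_lit 313) (nat_lit 264) (nat_lit 143)) (XT.lf (nat_lit 0) (nat_lit 303368182835) (nat_lit 152) (nat_lit 2836475961) (nat_lit 0) (nat_lit 130454993399) (nat_lit 5) (nat_lit 5) (nat_lit 7) (nat_lit 4) (nat_lit 5) (nat_lit 4) (nat_lit 314) (nat_lit 264) (nat_lit 142))) (XT.nd (nat_lit 78) (nat_lit 0) (nat_lit 0) (XT.lf (nat_lit 0) (nat_lit 90175245240) (nat_lit 76) (nat_lit 275829246721) (nat_lit 76) (nat_lit 102914986179) (nat_lit 4) (nat_lit 4) (nat_lit 5) (nat_lit 5) (nat_lit 5) (nat_lit 4) (nat_lit 315) (nat_lit 264) (nat_lit 141)) (XT.nd (nat_lit 78) (nat_lit 0) (nat_lit 0) (XT.lf (nat_lit 0) (nat_lit 190728080498) (nat_lit 76) (nat_lit 242972411700)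 (nat_lit 76) (nat_lit 70057159393) (nat_lit 4) (nat_lit 4) (nat_lit 5) (nat_lit 5) (nat_lit 5) (nat_lit 4) (nat_lit 316) (nat_lit 264) (nat_lit 140)) (XT.lf (nat_lit 0) (nat_lit 299324111760) (nat_lit 76) (nat_lit 207487483657) (nat_lit 76) (nat_lit 34571313049) (nat_lit 4) (nat_lit 4) (nat_lit 5) (nat_lit 5) (nat_lit 5) (nat_lit 4) (nat_lit 317) (nat_lit 264) (nat_lit 139))))) (XT.nd (nat_lit 156) (nat_lit 76) (nat_lit 0) (XT.nd (nat_lit 78) (nat_lit 0) (nat_lit 0) (XT.lf (nat_lit 0) (nat_lit 3632725054) (nat_lit 152) (nat_lit 165469934524) (nat_lit 76) (nat_lit 412912624052) (nat_lit 3) (nat_lit 5) (nat_lit 5) (nat_lit 5) (nat_lit 4) (nat_lit 4) (nat_lit 318) (nat_lit 264) (nat_lit 138)) (XT.lf (nat_lit 0) (nat_lit 43697565049) (nat_lit 152) (nat_lit 83337799829) (nat_lit 76) (nat_lit 498833762893) (nat_lit 3) (nat_lit 5) (nat_lit 5) (nat_lit 5) (nat_lit 4) (nat_lit 4) (nat_lit 319)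 (nat_lit 264) (nat_lit 137))) (XT.nd (nat_lit 78) (nat_lit 0) (nat_lit 0) (XT.lf (nat_lit 0) (nat_lit 5541431835) (nat_lit 76) (nat_lit 81512211576) (nat_lit 152) (nat_lit 586173334000) (nat_lit 2) (nat_lit 5) (nat_lit 3) (nat_lit 5) (nat_lit 4) (nat_lit 4) (nat_lit 320) (nat_lit 264) (nat_lit 136)) (XT.nd (nat_lit 78) (nat_lit 0) (nat_lit 0) (XT.lf (nat_lit 0) (nat_lit 104506170004) (nat_lit 76) (nat_lit 30823284698) (nat_lit 152) (nat_lit 588971438472) (nat_lit 2) (nat_lit 5) (nat_lit 3) (nat_lit 5) (nat_lit 4) (nat_lit 4) (nat_lit 321) (nat_lit 264) (nat_lit 135)) (XT.lf (nat_lit 0) (nat_lit 187840384671) (nat_lit 152) (nat_lit 568446859776) (nat_lit 0) (nat_lit 23154825512) (nat_lit 2) (nat_lit 5) (nat_lit 4) (nat_lit 4) (nat_lit 2) (nat_lit 4) (nat_lit 322) (nat_lit 264) (nat_lit 134))))))))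
noncomputable def xc95 : XT := (XT.nd (nat_lit 1482) (nat_lit 1976) (nat_lit 0) (XT.nd (nat_lit 702) (nat_lit 2128) (nat_lit 0) (XT.nd (nat_lit 312) (nat_lit 380) (nat_lit 0) (XT.nd (nat_lit 156) (nat_lit 0) (nat_lit 76) (XT.nd (nat_lit 78) (nat_lit 0) (nat_lit 0) (XT.lf (nat_lit 0) (nat_lit 2386648661) (nat_lit 0) (nat_lit 2386648661) (nat_lit 684) (nat_lit 9324044182) (nat_lit 68) (nat_lit 5) (nat_lit 68) (nat_lit 3) (nat_lit 77) (nat_lit 3) (nat_lit 265) (nat_lit 265) (nat_lit 190)) (XT.lf (nat_lit 0) (nat_lit 10277612285) (nat_lit 684) (nat_lit 4702501417) (nat_lit 760) (nat_lit 14324474711) (nat_lit 68) (nat_lit 5) (nat_lit 77) (nat_lit 3) (nat_lit 78) (nat_lit 5) (nat_lit 266) (nat_lit 265) (nat_lit 189))) (XT.nd (nat_lit 78) (nat_lit 0) (nat_lit 0) (XT.lf (nat_lit 0) (nat_lit 11455763912) (nat_lit 684) (nat_lit 14621669850) (nat_lit 760) (nat_lit 4406462299) (nat_lit 69) (nat_lit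 5) (nat_lit 78) (nat_lit 5) (nat_lit 79) (nat_lit 5) (nat_lit 267) (nat_lit 265) (nat_lit 188)) (XT.lf (nat_lit 76) (nat_lit 6431513095) (nat_lit 0) (nat_lit 6722034576) (nat_lit 760) (nat_lit 18582770952) (nat_lit 70) (nat_lit 5) (nat_lit 69) (nat_lit 5) (nat_lit 79) (nat_lit 5) (nat_lit 268) (nat_lit 265) (nat_lit 187)))) (XT.nd (nat_lit 156) (nat_lit 532) (nat_lit 0) (XT.nd (nat_lit 78) (nat_lit 0) (nat_lit 76) (XT.lf (nat_lit 0) (nat_lit 15457319681) (nat_lit 684) (nat_lit 3618007422) (nat_lit 760) (nat_lit 13990135994) (nat_lit 70) (nat_lit 5) (nat_lit 79) (nat_lit 5) (nat_lit 80) (nat_lit 5) (nat_lit 269) (nat_lit 265) (nat_lit 186)) (XT.lf (nat_lit 0) (nat_lit 18397559857) (nat_lit 684) (nat_lit 14176161599) (nat_lit 760) (nat_lit 1904643048) (nat_lit 71) (nat_lit 5) (nat_lit 80) (nat_lit 5) (nat_lit 81) (nat_lit 5) (nat_lit 270) (nat_lit 265) (nat_lit 185))) (XT.nd (nat_lit 78)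 (nat_lit 608) (nat_lit 0) (XT.lf (nat_lit 76) (nat_lit 10262907919) (nat_lit 0) (nat_lit 11847298006) (nat_lit 760) (nat_lit 13867263959) (nat_lit 72) (nat_lit 5) (nat_lit 71) (nat_lit 5) (nat_lit 81) (nat_lit 5) (nat_lit 271) (nat_lit 265) (nat_lit 184)) (XT.nd (nat_lit 78) (nat_lit 684) (nat_lit 0) (XT.lf (nat_lit 0) (nat_lit 26527187625) (nat_lit 684) (nat_lit 596523882) (nat_lit 76) (nat_lit 10452454877) (nat_lit 72) (nat_lit 5) (nat_lit 81) (nat_lit 5) (nat_lit 73) (nat_lit 5) (nat_lit 272) (nat_lit 265) (nat_lit 183)) (XT.lf (nat_lit 0) (nat_lit 27194995887) (nat_lit 684) (nat_lit 4719315389) (nat_lit 760) (nat_lit 7357634904) (nat_lit 63) (nat_lit 5) (nat_lit 72) (nat_lit 5) (nat_lit 73) (nat_lit 5) (nat_lit 273) (nat_lit 265) (nat_lit 182)))))) (XT.nd (nat_lit 390) (nat_lit 760) (nat_lit 0) (XT.nd (nat_lit 156) (nat_lit 608) (nat_lit 0) (XT.nd (nat_lit 78) (nat_lit 456) (nat_lit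 0) (XT.lf (nat_lit 0) (nat_lit 16340283873) (nat_lit 304) (nat_lit 21954798310) (nat_lit 380) (nat_lit 2780197072) (nat_lit 59) (nat_lit 5) (nat_lit 63) (nat_lit 5) (nat_lit 64) (nat_lit 5) (nat_lit 274) (nat_lit 265) (nat_lit 181)) (XT.lf (nat_lit 0) (nat_lit 2482084052) (nat_lit 456) (nat_lit 38565531443) (nat_lit 76) (nat_lit 1954201870) (nat_lit 53) (nat_lit 5) (nat_lit 59) (nat_lit 5) (nat_lit 54) (nat_lit 5) (nat_lit 275) (nat_lit 265) (nat_lit 180))) (XT.nd (nat_lit 78) (nat_lit 608) (nat_lit 0) (XT.lf (nat_lit 0) (nat_lit 8870974376) (nat_lit 456) (nat_lit 8667243251) (nat_lit 76) (nat_lit 27501850705) (nat_lit 53) (nat_lit 5) (nat_lit 59) (nat_lit 5) (nat_lit 54) (nat_lit 5) (nat_lit 276) (nat_lit 265) (nat_lit 179)) (XT.nd (nat_lit 78) (nat_lit 304) (nat_lit 0) (XT.lf (nat_lit 0) (nat_lit 16274794943) (nat_lit 380) (nat_lit 22953915325) (nat_lit 76) (nat_lit 7987496879) (nat_lit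 49) (nat_lit 5) (nat_lit 54) (nat_lit 5) (nat_lit 50) (nat_lit 5) (nat_lit 277) (nat_lit 265) (nat_lit 178)) (XT.lf (nat_lit 0) (nat_lit 10612016562) (nat_lit 304) (nat_lit 14268181541) (nat_lit 380) (nat_lit 24655792453) (nat_lit 45) (nat_lit 5) (nat_lit 49) (nat_lit 5) (nat_lit 50) (nat_lit 5) (nat_lit 278) (nat_lit 265) (nat_lit 177))))) (XT.nd (nat_lit 156) (nat_lit 532) (nat_lit 0) (XT.nd (nat_lit 78) (nat_lit 228) (nat_lit 0) (XT.lf (nat_lit 0) (nat_lit 34773268534) (nat_lit 380) (nat_lit 4549369203) (nat_lit 76) (nat_lit 12688773203) (nat_lit 45) (nat_lit 5) (nat_lit 50) (nat_lit 5) (nat_lit 46) (nat_lit 5) (nat_lit 279) (nat_lit 265) (nat_lit 176)) (XT.lf (nat_lit 0) (nat_lit 33397779827) (nat_lit 228) (nat_lit 12817140147) (nat_lit 304) (nat_lit 8432103074) (nat_lit 42) (nat_lit 5) (nat_lit 45) (nat_lit 5) (nat_lit 46) (nat_lit 5) (nat_lit 280) (nat_lit 265) (nat_lit 175)))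 (XT.nd (nat_lit 78) (nat_lit 228) (nat_lit 0) (XT.lf (nat_lit 0) (nat_lit 1647328778) (nat_lit 304) (nat_lit 40135142710) (nat_lit 76) (nat_lit 15680012610) (nat_lit 38) (nat_lit 5) (nat_lit 42) (nat_lit 5) (nat_lit 39) (nat_lit 5) (nat_lit 281) (nat_lit 265) (nat_lit 174)) (XT.nd (nat_lit 78) (nat_lit 228) (nat_lit 0) (XT.lf (nat_lit 0) (nat_lit 12829530188) (nat_lit 304) (nat_lit 1105849692) (nat_lit 76) (nat_lit 46531310986) (nat_lit 38) (nat_lit 5) (nat_lit 42) (nat_lit 5) (nat_lit 39) (nat_lit 5) (nat_lit 282) (nat_lit 265) (nat_lit 173)) (XT.lf (nat_lit 0) (nat_lit 25826947070) (nat_lit 304) (nat_lit 21543641278) (nat_lit 76) (nat_lit 16294625097) (nat_lit 35) (nat_lit 5) (nat_lit 39) (nat_lit 5) (nat_lit 36) (nat_lit 5) (nat_lit 283) (nat_lit 265) (nat_lit 172))))))) (XT.nd (nat_lit 780) (nat_lit 760) (nat_lit 0) (XT.nd (nat_lit 390) (nat_lit 532) (nat_lit 0) (XT.nd (nat_lit 156)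 (nat_lit 456) (nat_lit 0) (XT.nd (nat_lit 78) (nat_lit 0) (nat_lit 0) (XT.lf (nat_lit 0) (nat_lit 22198002874) (nat_lit 228) (nat_lit 18263370467) (nat_lit 304) (nat_lit 26628394092) (nat_lit 32) (nat_lit 5) (nat_lit 35) (nat_lit 5) (nat_lit 36) (nat_lit 5) (nat_lit 284) (nat_lit 265) (nat_lit 171)) (XT.lf (nat_lit 0) (nat_lit 56849920790) (nat_lit 304) (nat_lit 778188748) (nat_lit 76) (nat_lit 13131017482) (nat_lit 32) (nat_lit 5) (nat_lit 36) (nat_lit 5) (nat_lit 33) (nat_lit 5) (nat_lit 285) (nat_lit 265) (nat_lit 170))) (XT.nd (nat_lit 78) (nat_lit 228) (nat_lit 0) (XT.lf (nat_lit 0) (nat_lit 905673498) (nat_lit 228) (nat_lit 26592924051) (nat_lit 76) (nat_lit 47169949152) (nat_lit 29) (nat_lit 5) (nat_lit 32) (nat_lit 5) (nat_lit 30) (nat_lit 5) (nat_lit 286) (nat_lit 265) (nat_lit 169)) (XT.nd (nat_lit 78) (nat_lit 0) (nat_lit 0) (XT.lf (nat_lit 0) (nat_lit 16874490182) (nat_lit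 304) (nat_lit 56494713808) (nat_lit 76) (nat_lit 5487319974) (nat_lit 26) (nat_lit 5) (nat_lit 30) (nat_lit 5) (nat_lit 27) (nat_lit 5) (nat_lit 287) (nat_lit 265) (nat_lit 168)) (XT.lf (nat_lit 0) (nat_lit 35052147908) (nat_lit 304) (nat_lit 7649721083) (nat_lit 76) (nat_lit 40631110916) (nat_lit 26) (nat_lit 5) (nat_lit 30) (nat_lit 5) (nat_lit 27) (nat_lit 5) (nat_lit 288) (nat_lit 265) (nat_lit 167))))) (XT.nd (nat_lit 156) (nat_lit 228) (nat_lit 0) (XT.nd (nat_lit 78) (nat_lit 152) (nat_lit 0) (XT.lf (nat_lit 0) (nat_lit 46589755924) (nat_lit 152) (nat_lit 8818727116) (nat_lit 228) (nat_lit 32722852789) (nat_lit 24) (nat_lit 5) (nat_lit 26) (nat_lit 5) (nat_lit 27) (nat_lit 5) (nat_lit 289) (nat_lit 265) (nat_lit 166)) (XT.lf (nat_lit 0) (nat_lit 12081291249) (nat_lit 152) (nat_lit 66066941756) (nat_lit 228) (nat_lit 15127588064) (nat_lit 22) (nat_lit 5) (nat_lit 24) (nat_lit 5)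 (nat_lit 25) (nat_lit 5) (nat_lit 290) (nat_lit 265) (nat_lit 165))) (XT.nd (nat_lit 78) (nat_lit 152) (nat_lit 0) (XT.lf (nat_lit 0) (nat_lit 4632750368) (nat_lit 228) (nat_lit 27543450750) (nat_lit 76) (nat_lit 66608569989) (nat_lit 21) (nat_lit 5) (nat_lit 24) (nat_lit 5) (nat_lit 22) (nat_lit 5) (nat_lit 291) (nat_lit 265) (nat_lit 164)) (XT.nd (nat_lit 78) (nat_lit 0) (nat_lit 0) (XT.lf (nat_lit 0) (nat_lit 26015872666) (nat_lit 228) (nat_lit 73641331626) (nat_lit 76) (nat_lit 5036240604) (nat_lit 19) (nat_lit 5) (nat_lit 22) (nat_lit 5) (nat_lit 20) (nat_lit 5) (nat_lit 292) (nat_lit 265) (nat_lit 163)) (XT.lf (nat_lit 0) (nat_lit 50137453596) (nat_lit 228) (nat_lit 16286108069) (nat_lit 76) (nat_lit 44599865202) (nat_lit 19) (nat_lit 5) (nat_lit 22) (nat_lit 5) (nat_lit 20) (nat_lit 5) (nat_lit 293) (nat_lit 265) (nat_lit 162)))))) (XT.nd (nat_lit 390) (nat_lit 304) (nat_lit 0)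 (XT.nd (nat_lit 156) (nat_lit 304) (nat_lit 0) (XT.nd (nat_lit 78) (nat_lit 0) (nat_lit 0) (XT.lf (nat_lit 0) (nat_lit 47163580861) (nat_lit 152) (nat_lit 29759318017) (nat_lit 228) (nat_lit 40900205995) (nat_lit 17) (nat_lit 5) (nat_lit 19) (nat_lit 5) (nat_lit 20) (nat_lit 5) (nat_lit 294) (nat_lit 265) (nat_lit 161)) (XT.lf (nat_lit 0) (nat_lit 106290999129) (nat_lit 228) (nat_lit 9043426885) (nat_lit 76) (nat_lit 9810344186) (nat_lit 17) (nat_lit 5) (nat_lit 20) (nat_lit 5) (nat_lit 18) (nat_lit 4) (nat_lit 295) (nat_lit 265) (nat_lit 160))) (XT.nd (nat_lit 78) (nat_lit 152) (nat_lit 0) (XT.lf (nat_lit 0) (nat_lit 6240140039) (nat_lit 152) (nat_lit 74200290712) (nat_lit 76) (nat_lit 52535752600) (nat_lit 15) (nat_lit 5) (nat_lit 17) (nat_lit 5) (nat_lit 16) (nat_lit 5) (nat_lit 296) (nat_lit 265) (nat_lit 159)) (XT.nd (nat_lit 78) (nat_lit 152) (nat_lit 0) (XT.lf (nat_lit 0) (nat_lit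 32848060854) (nat_lit 152) (nat_lit 9406124666) (nat_lit 76) (nat_lit 99156121371) (nat_lit 15) (nat_lit 5) (nat_lit 17) (nat_lit 5) (nat_lit 16) (nat_lit 5) (nat_lit 297) (nat_lit 265) (nat_lit 158)) (XT.lf (nat_lit 0) (nat_lit 62559949455) (nat_lit 228) (nat_lit 87899203815) (nat_lit 76) (nat_lit 11243399) (nat_lit 13) (nat_lit 5) (nat_lit 16) (nat_lit 5) (nat_lit 14) (nat_lit 4) (nat_lit 298) (nat_lit 265) (nat_lit 157))))) (XT.nd (nat_lit 156) (nat_lit 228) (nat_lit 0) (XT.nd (nat_lit 78) (nat_lit 76) (nat_lit 0) (XT.lf (nat_lit 0) (nat_lit 95526115722) (nat_lit 228) (nat_lit 20322496266) (nat_lit 76) (nat_lit 44362818147) (nat_lit 13) (nat_lit 5) (nat_lit 16) (nat_lit 5) (nat_lit 14) (nat_lit 4) (nat_lit 299) (nat_lit 265) (nat_lit 156)) (XT.lf (nat_lit 0) (nat_lit 54398847277) (nat_lit 76) (nat_lit 77578480876) (nat_lit 152) (nat_lit 38712033104) (nat_lit 12) (nat_lit 5) (nat_lit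 13) (nat_lit 5) (nat_lit 14) (nat_lit 4) (nat_lit 300) (nat_lit 265) (nat_lit 155))) (XT.nd (nat_lit 78) (nat_lit 228) (nat_lit 0) (XT.lf (nat_lit 0) (nat_lit 135821117784) (nat_lit 76) (nat_lit 35876036065) (nat_lit 152) (nat_lit 10290749637) (nat_lit 12) (nat_lit 5) (nat_lit 13) (nat_lit 5) (nat_lit 14) (nat_lit 4) (nat_lit 301) (nat_lit 265) (nat_lit 154)) (XT.nd (nat_lit 78) (nat_lit 0) (nat_lit 0) (XT.lf (nat_lit 0) (nat_lit 20377473284) (nat_lit 228) (nat_lit 164093960703) (nat_lit 76) (nat_lit 9671653892) (nat_lit 9) (nat_lit 5) (nat_lit 12) (nat_lit 5) (nat_lit 10) (nat_lit 4) (nat_lit 302) (nat_lit 265) (nat_lit 153)) (XT.lf (nat_lit 0) (nat_lit 54564402405) (nat_lit 228) (nat_lit 94013509426) (nat_lit 76) (nat_lit 58613052831) (nat_lit 9) (nat_lit 5) (nat_lit 12) (nat_lit 5) (nat_lit 10) (nat_lit 4) (nat_lit 303) (nat_lit 265) (nat_lit 152))))))))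
noncomputable def xc96 : XT := (XT.nd (nat_lit 34554) (nat_lit 0) (nat_lit 2508) (XT.nd (nat_lit 702) (nat_lit 228) (nat_lit 0) (XT.nd (nat_lit 312) (nat_lit 228) (nat_lit 0) (XT.nd (nat_lit 156) (nat_lit 0) (nat_lit 0) (XT.nd (nat_lit 78) (nat_lit 76) (nat_lit 0) (XT.lf (nat_lit 0) (nat_lit 91485037169) (nat_lit 228) (nat_lit 18328757622) (nat_lit 76) (nat_lit 111468941068) (nat_lit 9) (nat_lit 5) (nat_lit 12) (nat_lit 5) (nat_lit 10) (nat_lit 4) (nat_lit 304) (nat_lit 265) (nat_lit 151)) (XT.lf (nat_lit 0) (nat_lit 65505378130) (nat_lit 76) (nat_lit 66875510925) (nat_lit 152) (nat_lit 104069883080) (nat_lit 8) (nat_lit 5) (nat_lit 9) (nat_lit 5) (nat_lit 10) (nat_lit 4) (nat_lit 305) (nat_lit 265) (nat_lit 150))) (XT.nd (nat_lit 78) (nat_lit 0) (nat_lit 0) (XT.lf (nat_lit 0) (nat_lit 156698867317) (nat_lit 76) (nat_lit 20167716830) (nat_lit 152) (nat_lit 75949759986) (nat_lit 8) (nat_lit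 5) (nat_lit 9) (nat_lit 5) (nat_lit 10) (nat_lit 4) (nat_lit 306) (nat_lit 265) (nat_lit 149)) (XT.lf (nat_lit 0) (nat_lit 225382808968) (nat_lit 152) (nat_lit 15777822693) (nat_lit 0) (nat_lit 29306947984) (nat_lit 8) (nat_lit 5) (nat_lit 10) (nat_lit 4) (nat_lit 8) (nat_lit 4) (nat_lit 307) (nat_lit 265) (nat_lit 148)))) (XT.nd (nat_lit 156) (nat_lit 76) (nat_lit 0) (XT.nd (nat_lit 78) (nat_lit 76) (nat_lit 0) (XT.lf (nat_lit 0) (nat_lit 72983197805) (nat_lit 76) (nat_lit 206275717034) (nat_lit 76) (nat_lit 10198071354) (nat_lit 7) (nat_lit 4) (nat_lit 8) (nat_lit 5) (nat_lit 8) (nat_lit 4) (nat_lit 308) (nat_lit 265) (nat_lit 147)) (XT.lf (nat_lit 0) (nat_lit 26878467351) (nat_lit 152) (nat_lit 140978440104) (nat_lit 76) (nat_lit 142073266296) (nat_lit 6) (nat_lit 5) (nat_lit 8) (nat_lit 5) (nat_lit 7) (nat_lit 4) (nat_lit 309) (nat_lit 265) (nat_lit 146))) (XT.nd (nat_lit 78) (nat_lit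 76) (nat_lit 0) (XT.lf (nat_lit 0) (nat_lit 66567759505) (nat_lit 152) (nat_lit 59616921279) (nat_lit 76) (nat_lit 205847981503) (nat_lit 6) (nat_lit 5) (nat_lit 8) (nat_lit 5) (nat_lit 7) (nat_lit 4) (nat_lit 310) (nat_lit 265) (nat_lit 145)) (XT.nd (nat_lit 78) (nat_lit 0) (nat_lit 0) (XT.lf (nat_lit 0) (nat_lit 29186273933) (nat_lit 76) (nat_lit 80700808480) (nat_lit 152) (nat_lit 245993524143) (nat_lit 5) (nat_lit 5) (nat_lit 6) (nat_lit 5) (nat_lit 7) (nat_lit 4) (nat_lit 311) (nat_lit 265) (nat_lit 144)) (XT.lf (nat_lit 0) (nat_lit 127221297960) (nat_lit 76) (nat_lit 30488387298) (nat_lit 152) (nat_lit 223874815349) (nat_lit 5) (nat_lit 5) (nat_lit 6) (nat_lit 5) (nat_lit 7) (nat_lit 4) (nat_lit 312) (nat_lit 265) (nat_lit 143)))))) (XT.nd (nat_lit 390) (nat_lit 152) (nat_lit 0) (XT.nd (nat_lit 156) (nat_lit 76) (nat_lit 0) (XT.nd (nat_lit 78) (nat_lit 0) (nat_lit 0) (XT.lf (nat_lit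 0) (nat_lit 209728053678) (nat_lit 152) (nat_lit 176617503218) (nat_lit 0) (nat_lit 22980652293) (nat_lit 5) (nat_lit 5) (nat_lit 7) (nat_lit 4) (nat_lit 5) (nat_lit 4) (nat_lit 313) (nat_lit 265) (nat_lit 142)) (XT.lf (nat_lit 0) (nat_lit 266421327190) (nat_lit 152) (nat_lit 93167401599) (nat_lit 0) (nat_lit 79672854698) (nat_lit 5) (nat_lit 5) (nat_lit 7) (nat_lit 4) (nat_lit 5) (nat_lit 4) (nat_lit 314) (nat_lit 265) (nat_lit 141))) (XT.nd (nat_lit 78) (nat_lit 76) (nat_lit 0) (XT.lf (nat_lit 0) (nat_lit 327649456763) (nat_lit 152) (nat_lit 3042369501) (nat_lit 0) (nat_lit 140899992506) (nat_lit 5) (nat_lit 5) (nat_lit 7) (nat_lit 4) (nat_lit 5) (nat_lit 4) (nat_lit 315) (nat_lit 265) (nat_lit 140)) (XT.nd (nat_lit 78) (nat_lit 0) (nat_lit 0) (XT.lf (nat_lit 0) (nat_lit 97409375695) (nat_lit 76) (nat_lit 297886733407) (nat_lit 76) (nat_lit 111136350849) (nat_lit 4) (nat_lit 4) (nat_lit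 5) (nat_lit 5) (nat_lit 5) (nat_lit 4) (nat_lit 316) (nat_lit 265) (nat_lit 139)) (XT.lf (nat_lit 0) (nat_lit 206004948082) (nat_lit 76) (nat_lit 262402007366) (nat_lit 76) (nat_lit 75650774530) (nat_lit 4) (nat_lit 4) (nat_lit 5) (nat_lit 5) (nat_lit 5) (nat_lit 4) (nat_lit 317) (nat_lit 265) (nat_lit 138))))) (XT.nd (nat_lit 156) (nat_lit 76) (nat_lit 0) (XT.nd (nat_lit 78) (nat_lit 76) (nat_lit 0) (XT.lf (nat_lit 0) (nat_lit 323287282501) (nat_lit 76) (nat_lit 224078892284) (nat_lit 76) (nat_lit 37326872153) (nat_lit 4) (nat_lit 4) (nat_lit 5) (nat_lit 5) (nat_lit 5) (nat_lit 4) (nat_lit 318) (nat_lit 265) (nat_lit 137)) (XT.lf (nat_lit 0) (nat_lit 3932436768) (nat_lit 152) (nat_lit 178691253733) (nat_lit 76) (nat_lit 445952350890) (nat_lit 3) (nat_lit 5) (nat_lit 5) (nat_lit 5) (nat_lit 4) (nat_lit 4) (nat_lit 319) (nat_lit 265) (nat_lit 136))) (XT.nd (nat_lit 78) (nat_lit 76) (nat_lit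 0) (XT.lf (nat_lit 0) (nat_lit 47201790355) (nat_lit 152) (nat_lit 89989753858) (nat_lit 76) (nat_lit 538746683290) (nat_lit 3) (nat_lit 5) (nat_lit 5) (nat_lit 5) (nat_lit 4) (nat_lit 4) (nat_lit 320) (nat_lit 265) (nat_lit 135)) (XT.nd (nat_lit 78) (nat_lit 0) (nat_lit 0) (XT.lf (nat_lit 0) (nat_lit 5999161417) (nat_lit 76) (nat_lit 88026794916) (nat_lit 152) (nat_lit 633058769415) (nat_lit 2) (nat_lit 5) (nat_lit 3) (nat_lit 5) (nat_lit 4) (nat_lit 4) (nat_lit 321) (nat_lit 265) (nat_lit 134)) (XT.lf (nat_lit 0) (nat_lit 112880010859) (nat_lit 76) (nat_lit 33283227487) (nat_lit 152) (nat_lit 636081346786) (nat_lit 2) (nat_lit 5) (nat_lit 3) (nat_lit 5) (nat_lit 4) (nat_lit 4) (nat_lit 322) (nat_lit 265) (nat_lit 133))))))) (XT.nd (nat_lit 702) (nat_lit 2128) (nat_lit 0) (XT.nd (nat_lit 312) (nat_lit 380) (nat_lit 0) (XT.nd (nat_lit 156) (nat_lit 0) (nat_lit 76) (XT.nd (nat_lit 78)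 (nat_lit 0) (nat_lit 0) (XT.lf (nat_lit 0) (nat_lit 2635217202) (nat_lit 0) (nat_lit 2635217202) (nat_lit 684) (nat_lit 9948516734) (nat_lit 68) (nat_lit 5) (nat_lit 68) (nat_lit 3) (nat_lit 77) (nat_lit 3) (nat_lit 266) (nat_lit 266) (nat_lit 188)) (XT.lf (nat_lit 0) (nat_lit 11311623908) (nat_lit 684) (nat_lit 4958860412) (nat_lit 760) (nat_lit 15367114327) (nat_lit 68) (nat_lit 5) (nat_lit 77) (nat_lit 3) (nat_lit 78) (nat_lit 5) (nat_lit 267) (nat_lit 266) (nat_lit 187))) (XT.nd (nat_lit 78) (nat_lit 0) (nat_lit 0) (XT.lf (nat_lit 0) (nat_lit 12568828240) (nat_lit 684) (nat_lit 15664865306) (nat_lit 760) (nat_lit 4678374126) (nat_lit 69) (nat_lit 5) (nat_lit 78) (nat_lit 5) (nat_lit 79) (nat_lit 5) (nat_lit 268) (nat_lit 266) (nat_lit 186)) (XT.lf (nat_lit 76) (nat_lit 7067073081) (nat_lit 0) (nat_lit 7322688173) (nat_lit 760) (nat_lit 19875609041) (nat_lit 70) (nat_lit 5) (nat_lit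 69) (nat_lit 5) (nat_lit 79) (nat_lit 5) (nat_lit 269) (nat_lit 266) (nat_lit 185)))) (XT.nd (nat_lit 156) (nat_lit 532) (nat_lit 0) (XT.nd (nat_lit 78) (nat_lit 0) (nat_lit 76) (XT.lf (nat_lit 0) (nat_lit 16863301430) (nat_lit 684) (nat_lit 3785341852) (nat_lit 760) (nat_lit 15052978418) (nat_lit 70) (nat_lit 5) (nat_lit 79) (nat_lit 5) (nat_lit 80) (nat_lit 5) (nat_lit 270) (nat_lit 266) (nat_lit 184)) (XT.lf (nat_lit 0) (nat_lit 20027382780) (nat_lit 684) (nat_lit 15184304056) (nat_lit 760) (nat_lit 2016482368) (nat_lit 71) (nat_lit 5) (nat_lit 80) (nat_lit 5) (nat_lit 81) (nat_lit 5) (nat_lit 271) (nat_lit 266) (nat_lit 183))) (XT.nd (nat_lit 78) (nat_lit 608) (nat_lit 0) (XT.lf (nat_lit 76) (nat_lit 11204417369) (nat_lit 0) (nat_lit 12822799099) (nat_lit 760) (nat_lit 14820519496) (nat_lit 72) (nat_lit 5) (nat_lit 71) (nat_lit 5) (nat_lit 81) (nat_lit 5) (nat_lit 272) (nat_lit 266)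 (nat_lit 182)) (XT.nd (nat_lit 78) (nat_lit 684) (nat_lit 0) (XT.lf (nat_lit 0) (nat_lit 28786178676) (nat_lit 684) (nat_lit 524948504) (nat_lit 76) (nat_lit 11263808557) (nat_lit 72) (nat_lit 5) (nat_lit 81) (nat_lit 5) (nat_lit 73) (nat_lit 5) (nat_lit 273) (nat_lit 266) (nat_lit 181)) (XT.lf (nat_lit 0) (nat_lit 29484708332) (nat_lit 684) (nat_lit 5111210985) (nat_lit 760) (nat_lit 7810912034) (nat_lit 63) (nat_lit 5) (nat_lit 72) (nat_lit 5) (nat_lit 73) (nat_lit 5) (nat_lit 274) (nat_lit 266) (nat_lit 180)))))) (XT.nd (nat_lit 390) (nat_lit 760) (nat_lit 0) (XT.nd (nat_lit 156) (nat_lit 608) (nat_lit 0) (XT.nd (nat_lit 78) (nat_lit 456) (nat_lit 0) (XT.lf (nat_lit 0) (nat_lit 17763446407) (nat_lit 304) (nat_lit 23715792396) (nat_lit 380) (nat_lit 2875621064) (nat_lit 59) (nat_lit 5) (nat_lit 63) (nat_lit 5) (nat_lit 64) (nat_lit 5) (nat_lit 275) (nat_lit 266) (nat_lit 179)) (XT.lf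 (nat_lit 0) (nat_lit 2796263296) (nat_lit 456) (nat_lit 41529454156) (nat_lit 76) (nat_lit 2110099397) (nat_lit 53) (nat_lit 5) (nat_lit 59) (nat_lit 5) (nat_lit 54) (nat_lit 5) (nat_lit 276) (nat_lit 266) (nat_lit 178))) (XT.nd (nat_lit 78) (nat_lit 608) (nat_lit 0) (XT.lf (nat_lit 0) (nat_lit 9687700955) (nat_lit 456) (nat_lit 9248289559) (nat_lit 76) (nat_lit 29701592629) (nat_lit 53) (nat_lit 5) (nat_lit 59) (nat_lit 5) (nat_lit 54) (nat_lit 5) (nat_lit 277) (nat_lit 266) (nat_lit 177)) (XT.nd (nat_lit 78) (nat_lit 304) (nat_lit 0) (XT.lf (nat_lit 0) (nat_lit 17677679152) (nat_lit 380) (nat_lit 24677528153) (nat_lit 76) (nat_lit 8632938214) (nat_lit 49) (nat_lit 5) (nat_lit 54) (nat_lit 5) (nat_lit 50) (nat_lit 5) (nat_lit 278) (nat_lit 266) (nat_lit 176)) (XT.lf (nat_lit 0) (nat_lit 11568780463) (nat_lit 304) (nat_lit 15396943083) (nat_lit 380) (nat_lit 26528100804) (nat_lit 45)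 (nat_lit 5) (nat_lit 49) (nat_lit 5) (nat_lit 50) (nat_lit 5) (nat_lit 279) (nat_lit 266) (nat_lit 175))))) (XT.nd (nat_lit 156) (nat_lit 532) (nat_lit 0) (XT.nd (nat_lit 78) (nat_lit 228) (nat_lit 0) (XT.lf (nat_lit 0) (nat_lit 37643377949) (nat_lit 380) (nat_lit 4809013318) (nat_lit 76) (nat_lit 13715251659) (nat_lit 45) (nat_lit 5) (nat_lit 50) (nat_lit 5) (nat_lit 46) (nat_lit 5) (nat_lit 280) (nat_lit 266) (nat_lit 174)) (XT.lf (nat_lit 0) (nat_lit 36169374647) (nat_lit 228) (nat_lit 13826007700) (nat_lit 304) (nat_lit 9018990502) (nat_lit 42) (nat_lit 5) (nat_lit 45) (nat_lit 5) (nat_lit 46) (nat_lit 5) (nat_lit 281) (nat_lit 266) (nat_lit 173))) (XT.nd (nat_lit 78) (nat_lit 228) (nat_lit 0) (XT.lf (nat_lit 0) (nat_lit 1859522576) (nat_lit 304) (nat_lit 43243665988) (nat_lit 76) (nat_lit 16952054659) (nat_lit 38) (nat_lit 5) (nat_lit 42) (nat_lit 5) (nat_lit 39) (nat_lit 5) (nat_lit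 282) (nat_lit 266) (nat_lit 172)) (XT.nd (nat_lit 78) (nat_lit 228) (nat_lit 0) (XT.lf (nat_lit 0) (nat_lit 13930343988) (nat_lit 304) (nat_lit 1099606429) (nat_lit 76) (nat_lit 50270150161) (nat_lit 38) (nat_lit 5) (nat_lit 42) (nat_lit 5) (nat_lit 39) (nat_lit 5) (nat_lit 283) (nat_lit 266) (nat_lit 171)) (XT.lf (nat_lit 0) (nat_lit 27963769818) (nat_lit 304) (nat_lit 23173147949) (nat_lit 76) (nat_lit 17617791452) (nat_lit 35) (nat_lit 5) (nat_lit 39) (nat_lit 5) (nat_lit 36) (nat_lit 5) (nat_lit 284) (nat_lit 266) (nat_lit 170))))))))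
noncomputable def xc97 : XT := (XT.nd (nat_lit 1482) (nat_lit 456) (nat_lit 0) (XT.nd (nat_lit 702) (nat_lit 760) (nat_lit 0) (XT.nd (nat_lit 312) (nat_lit 532) (nat_lit 0) (XT.nd (nat_lit 156) (nat_lit 456) (nat_lit 0) (XT.nd (nat_lit 78) (nat_lit 0) (nat_lit 0) (XT.lf (nat_lit 0) (nat_lit 24063743278) (nat_lit 228) (nat_lit 19701375915) (nat_lit 304) (nat_lit 28688313805) (nat_lit 32) (nat_lit 5) (nat_lit 35) (nat_lit 5) (nat_lit 36) (nat_lit 5) (nat_lit 285) (nat_lit 266) (nat_lit 169)) (XT.lf (nat_lit 0) (nat_lit 61460133047) (nat_lit 304) (nat_lit 754280971) (nat_lit 76) (nat_lit 14202171094) (nat_lit 32) (nat_lit 5) (nat_lit 36) (nat_lit 5) (nat_lit 33) (nat_lit 5) (nat_lit 286) (nat_lit 266) (nat_lit 168))) (XT.nd (nat_lit 78) (nat_lit 228) (nat_lit 0) (XT.lf (nat_lit 0) (nat_lit 1038133913) (nat_lit 228) (nat_lit 28635813447) (nat_lit 76) (nat_lit 50964940652) (nat_lit 29) (nat_lit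 5) (nat_lit 32) (nat_lit 5) (nat_lit 30) (nat_lit 5) (nat_lit 287) (nat_lit 266) (nat_lit 167)) (XT.lf (nat_lit 0) (nat_lit 18281649043) (nat_lit 304) (nat_lit 60930823232) (nat_lit 76) (nat_lit 5949582053) (nat_lit 26) (nat_lit 5) (nat_lit 30) (nat_lit 5) (nat_lit 27) (nat_lit 5) (nat_lit 288) (nat_lit 266) (nat_lit 166)))) (XT.nd (nat_lit 156) (nat_lit 380) (nat_lit 0) (XT.nd (nat_lit 78) (nat_lit 152) (nat_lit 0) (XT.lf (nat_lit 0) (nat_lit 37909282376) (nat_lit 304) (nat_lit 8184413880) (nat_lit 76) (nat_lit 43903152086) (nat_lit 26) (nat_lit 5) (nat_lit 30) (nat_lit 5) (nat_lit 27) (nat_lit 5) (nat_lit 289) (nat_lit 266) (nat_lit 165)) (XT.lf (nat_lit 0) (nat_lit 50390862580) (nat_lit 152) (nat_lit 9500492775) (nat_lit 228) (nat_lit 35287864855) (nat_lit 24) (nat_lit 5) (nat_lit 26) (nat_lit 5) (nat_lit 27) (nat_lit 5) (nat_lit 290) (nat_lit 266) (nat_lit 164))) (XT.nd (nat_lit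 78) (nat_lit 228) (nat_lit 0) (XT.lf (nat_lit 0) (nat_lit 13120662077) (nat_lit 152) (nat_lit 71327385942) (nat_lit 228) (nat_lit 16287336471) (nat_lit 22) (nat_lit 5) (nat_lit 24) (nat_lit 5) (nat_lit 25) (nat_lit 5) (nat_lit 291) (nat_lit 266) (nat_lit 163)) (XT.nd (nat_lit 78) (nat_lit 152) (nat_lit 0) (XT.lf (nat_lit 0) (nat_lit 5048595996) (nat_lit 228) (nat_lit 29677869411) (nat_lit 76) (nat_lit 71958734006) (nat_lit 21) (nat_lit 5) (nat_lit 24) (nat_lit 5) (nat_lit 22) (nat_lit 5) (nat_lit 292) (nat_lit 266) (nat_lit 162)) (XT.lf (nat_lit 0) (nat_lit 28140410784) (nat_lit 228) (nat_lit 79464712708) (nat_lit 76) (nat_lit 5461548300) (nat_lit 19) (nat_lit 5) (nat_lit 22) (nat_lit 5) (nat_lit 20) (nat_lit 5) (nat_lit 293) (nat_lit 266) (nat_lit 161)))))) (XT.nd (nat_lit 390) (nat_lit 456) (nat_lit 0) (XT.nd (nat_lit 156) (nat_lit 152) (nat_lit 0) (XT.nd (nat_lit 78) (nat_lit 152)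 (nat_lit 0) (XT.lf (nat_lit 0) (nat_lit 54188513128) (nat_lit 228) (nat_lit 17526102782) (nat_lit 76) (nat_lit 48188602981) (nat_lit 19) (nat_lit 5) (nat_lit 22) (nat_lit 5) (nat_lit 20) (nat_lit 5) (nat_lit 294) (nat_lit 266) (nat_lit 160)) (XT.lf (nat_lit 0) (nat_lit 50996827970) (nat_lit 152) (nat_lit 32117937692) (nat_lit 228) (nat_lit 44132212743) (nat_lit 17) (nat_lit 5) (nat_lit 19) (nat_lit 5) (nat_lit 20) (nat_lit 5) (nat_lit 295) (nat_lit 266) (nat_lit 159))) (XT.nd (nat_lit 78) (nat_lit 152) (nat_lit 0) (XT.lf (nat_lit 0) (nat_lit 114829816391) (nat_lit 228) (nat_lit 9709688023) (nat_lit 76) (nat_lit 10615002836) (nat_lit 17) (nat_lit 5) (nat_lit 20) (nat_lit 5) (nat_lit 18) (nat_lit 4) (nat_lit 296) (nat_lit 266) (nat_lit 158)) (XT.nd (nat_lit 78) (nat_lit 0) (nat_lit 0) (XT.lf (nat_lit 0) (nat_lit 6773724724) (nat_lit 152) (nat_lit 80080391122) (nat_lit 76) (nat_lit 56758383799)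 (nat_lit 15) (nat_lit 5) (nat_lit 17) (nat_lit 5) (nat_lit 16) (nat_lit 5) (nat_lit 297) (nat_lit 266) (nat_lit 157)) (XT.lf (nat_lit 0) (nat_lit 35507733021) (nat_lit 152) (nat_lit 10106834226) (nat_lit 76) (nat_lit 107106917553) (nat_lit 15) (nat_lit 5) (nat_lit 17) (nat_lit 5) (nat_lit 16) (nat_lit 5) (nat_lit 298) (nat_lit 266) (nat_lit 156))))) (XT.nd (nat_lit 156) (nat_lit 304) (nat_lit 0) (XT.nd (nat_lit 78) (nat_lit 0) (nat_lit 0) (XT.lf (nat_lit 0) (nat_lit 67595289562) (nat_lit 228) (nat_lit 94880347812) (nat_lit 76) (nat_lit 30812640) (nat_lit 13) (nat_lit 5) (nat_lit 16) (nat_lit 5) (nat_lit 14) (nat_lit 4) (nat_lit 299) (nat_lit 266) (nat_lit 155)) (XT.lf (nat_lit 0) (nat_lit 103196486600) (nat_lit 228) (nat_lit 21901266052) (nat_lit 76) (nat_lit 47929130422) (nat_lit 13) (nat_lit 5) (nat_lit 16) (nat_lit 5) (nat_lit 14) (nat_lit 4) (nat_lit 300) (nat_lit 266) (nat_lit 154)))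 (XT.nd (nat_lit 78) (nat_lit 228) (nat_lit 0) (XT.lf (nat_lit 0) (nat_lit 58795741112) (nat_lit 76) (nat_lit 83766662338) (nat_lit 152) (nat_lit 41780718375) (nat_lit 12) (nat_lit 5) (nat_lit 13) (nat_lit 5) (nat_lit 14) (nat_lit 4) (nat_lit 301) (nat_lit 266) (nat_lit 153)) (XT.nd (nat_lit 78) (nat_lit 228) (nat_lit 0) (XT.lf (nat_lit 0) (nat_lit 146728460959) (nat_lit 76) (nat_lit 38729362460) (nat_lit 152) (nat_lit 11087826852) (nat_lit 12) (nat_lit 5) (nat_lit 13) (nat_lit 5) (nat_lit 14) (nat_lit 4) (nat_lit 302) (nat_lit 266) (nat_lit 152)) (XT.lf (nat_lit 0) (nat_lit 22032032520) (nat_lit 228) (nat_lit 177179813320) (nat_lit 76) (nat_lit 10461435171) (nat_lit 9) (nat_lit 5) (nat_lit 12) (nat_lit 5) (nat_lit 10) (nat_lit 4) (nat_lit 303) (nat_lit 266) (nat_lit 151))))))) (XT.nd (nat_lit 780) (nat_lit 152) (nat_lit 0) (XT.nd (nat_lit 390) (nat_lit 228) (nat_lit 0) (XT.nd (nat_lit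 156) (nat_lit 76) (nat_lit 0) (XT.nd (nat_lit 78) (nat_lit 0) (nat_lit 0) (XT.lf (nat_lit 0) (nat_lit 58952111424) (nat_lit 228) (nat_lit 101496012182) (nat_lit 76) (nat_lit 63316957214) (nat_lit 9) (nat_lit 5) (nat_lit 12) (nat_lit 5) (nat_lit 10) (nat_lit 4) (nat_lit 304) (nat_lit 266) (nat_lit 150)) (XT.lf (nat_lit 0) (nat_lit 98824726093) (nat_lit 228) (nat_lit 19759337863) (nat_lit 76) (nat_lit 120400215756) (nat_lit 9) (nat_lit 5) (nat_lit 12) (nat_lit 5) (nat_lit 10) (nat_lit 4) (nat_lit 305) (nat_lit 266) (nat_lit 149))) (XT.nd (nat_lit 78) (nat_lit 0) (nat_lit 0) (XT.lf (nat_lit 0) (nat_lit 70779976386) (nat_lit 76) (nat_lit 72211256094) (nat_lit 152) (nat_lit 112374579367) (nat_lit 8) (nat_lit 5) (nat_lit 9) (nat_lit 5) (nat_lit 10) (nat_lit 4) (nat_lit 306) (nat_lit 266) (nat_lit 148)) (XT.nd (nat_lit 78) (nat_lit 0) (nat_lit 0) (XT.lf (nat_lit 0) (nat_lit 169266413745) (nat_lit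 76) (nat_lit 21767897414) (nat_lit 152) (nat_lit 82006394157) (nat_lit 8) (nat_lit 5) (nat_lit 9) (nat_lit 5) (nat_lit 10) (nat_lit 4) (nat_lit 307) (nat_lit 266) (nat_lit 147)) (XT.lf (nat_lit 0) (nat_lit 243430662335) (nat_lit 152) (nat_lit 17010070056) (nat_lit 0) (nat_lit 31663367808) (nat_lit 8) (nat_lit 5) (nat_lit 10) (nat_lit 4) (nat_lit 8) (nat_lit 4) (nat_lit 308) (nat_lit 266) (nat_lit 146))))) (XT.nd (nat_lit 156) (nat_lit 76) (nat_lit 0) (XT.nd (nat_lit 78) (nat_lit 76) (nat_lit 0) (XT.lf (nat_lit 0) (nat_lit 78850529255) (nat_lit 76) (nat_lit 222765498932) (nat_lit 76) (nat_lit 10996674316) (nat_lit 7) (nat_lit 4) (nat_lit 8) (nat_lit 5) (nat_lit 8) (nat_lit 4) (nat_lit 309) (nat_lit 266) (nat_lit 145)) (XT.lf (nat_lit 0) (nat_lit 29044199250) (nat_lit 152) (nat_lit 152229632901) (nat_lit 76) (nat_lit 153449962864) (nat_lit 6) (nat_lit 5) (nat_lit 8) (nat_lit 5) (nat_lit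 7) (nat_lit 4) (nat_lit 310) (nat_lit 266) (nat_lit 144))) (XT.nd (nat_lit 78) (nat_lit 76) (nat_lit 0) (XT.lf (nat_lit 0) (nat_lit 71907489998) (nat_lit 152) (nat_lit 64361198674) (nat_lit 76) (nat_lit 222325852676) (nat_lit 6) (nat_lit 5) (nat_lit 8) (nat_lit 5) (nat_lit 7) (nat_lit 4) (nat_lit 311) (nat_lit 266) (nat_lit 143)) (XT.nd (nat_lit 78) (nat_lit 0) (nat_lit 0) (XT.lf (nat_lit 0) (nat_lit 31545162369) (nat_lit 76) (nat_lit 87146510886) (nat_lit 152) (nat_lit 265658683544) (nat_lit 5) (nat_lit 5) (nat_lit 6) (nat_lit 5) (nat_lit 7) (nat_lit 4) (nat_lit 312) (nat_lit 266) (nat_lit 142)) (XT.lf (nat_lit 0) (nat_lit 137421211539) (nat_lit 76) (nat_lit 32917863585) (nat_lit 152) (nat_lit 241771538974) (nat_lit 5) (nat_lit 5) (nat_lit 6) (nat_lit 5) (nat_lit 7) (nat_lit 4) (nat_lit 313) (nat_lit 266) (nat_lit 141)))))) (XT.nd (nat_lit 390) (nat_lit 76) (nat_lit 0) (XT.nd (nat_lit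 156) (nat_lit 76) (nat_lit 0) (XT.nd (nat_lit 78) (nat_lit 0) (nat_lit 0) (XT.lf (nat_lit 0) (nat_lit 226518117274) (nat_lit 152) (nat_lit 190725878939) (nat_lit 0) (nat_lit 24827704112) (nat_lit 5) (nat_lit 5) (nat_lit 7) (nat_lit 4) (nat_lit 5) (nat_lit 4) (nat_lit 314) (nat_lit 266) (nat_lit 140)) (XT.lf (nat_lit 0) (nat_lit 287745977162) (nat_lit 152) (nat_lit 100601326564) (nat_lit 0) (nat_lit 86054645700) (nat_lit 5) (nat_lit 5) (nat_lit 7) (nat_lit 4) (nat_lit 5) (nat_lit 4) (nat_lit 315) (nat_lit 266) (nat_lit 139))) (XT.nd (nat_lit 78) (nat_lit 76) (nat_lit 0) (XT.lf (nat_lit 0) (nat_lit 353871546450) (nat_lit 152) (nat_lit 3267733910) (nat_lit 0) (nat_lit 152179364708) (nat_lit 5) (nat_lit 5) (nat_lit 7) (nat_lit 4) (nat_lit 5) (nat_lit 4) (nat_lit 316) (nat_lit 266) (nat_lit 138)) (XT.nd (nat_lit 78) (nat_lit 0) (nat_lit 0) (XT.lf (nat_lit 0) (nat_lit 105219367551) (nat_lit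 76) (nat_lit 321710082014) (nat_lit 76) (nat_lit 120017112978) (nat_lit 4) (nat_lit 4) (nat_lit 5) (nat_lit 5) (nat_lit 5) (nat_lit 4) (nat_lit 317) (nat_lit 266) (nat_lit 137)) (XT.lf (nat_lit 0) (nat_lit 222501308559) (nat_lit 76) (nat_lit 283387140117) (nat_lit 76) (nat_lit 81693442104) (nat_lit 4) (nat_lit 4) (nat_lit 5) (nat_lit 5) (nat_lit 5) (nat_lit 4) (nat_lit 318) (nat_lit 266) (nat_lit 136))))) (XT.nd (nat_lit 156) (nat_lit 0) (nat_lit 0) (XT.nd (nat_lit 78) (nat_lit 76) (nat_lit 0) (XT.lf (nat_lit 0) (nat_lit 349165047166) (nat_lit 76) (nat_lit 241998696409) (nat_lit 76) (nat_lit 40304323418) (nat_lit 4) (nat_lit 4) (nat_lit 5) (nat_lit 5) (nat_lit 5) (nat_lit 4) (nat_lit 319) (nat_lit 266) (nat_lit 135)) (XT.lf (nat_lit 0) (nat_lit 4254828099) (nat_lit 152) (nat_lit 192972600367) (nat_lit 76) (nat_lit 481634297633) (nat_lit 3) (nat_lit 5) (nat_lit 5) (nat_lit 5) (nat_lit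 4) (nat_lit 4) (nat_lit 320) (nat_lit 266) (nat_lit 134))) (XT.nd (nat_lit 33306) (nat_lit 0) (nat_lit 4940) (XT.lf (nat_lit 0) (nat_lit 50985152463) (nat_lit 152) (nat_lit 97176014107) (nat_lit 76) (nat_lit 581851750056) (nat_lit 3) (nat_lit 5) (nat_lit 5) (nat_lit 5) (nat_lit 4) (nat_lit 4) (nat_lit 321) (nat_lit 266) (nat_lit 133)) (XT.nd (nat_lit 78) (nat_lit 0) (nat_lit 0) (XT.lf (nat_lit 0) (nat_lit 2895448713) (nat_lit 0) (nat_lit 2895448713) (nat_lit 684) (nat_lit 10640273431) (nat_lit 68) (nat_lit 5) (nat_lit 68) (nat_lit 3) (nat_lit 77) (nat_lit 3) (nat_lit 267) (nat_lit 267) (nat_lit 186)) (XT.lf (nat_lit 0) (nat_lit 12398140446) (nat_lit 684) (nat_lit 5252824801) (nat_lit 760) (nat_lit 16507904631) (nat_lit 68) (nat_lit 5) (nat_lit 77) (nat_lit 3) (nat_lit 78) (nat_lit 5) (nat_lit 268) (nat_lit 267) (nat_lit 185))))))))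
noncomputable def xc98 : XT := (XT.nd (nat_lit 1482) (nat_lit 1824) (nat_lit 0) (XT.nd (nat_lit 702) (nat_lit 1596) (nat_lit 0) (XT.nd (nat_lit 312) (nat_lit 1216) (nat_lit 0) (XT.nd (nat_lit 156) (nat_lit 0) (nat_lit 76) (XT.nd (nat_lit 78) (nat_lit 0) (nat_lit 0) (XT.lf (nat_lit 0) (nat_lit 13742890067) (nat_lit 684) (nat_lit 16809568477) (nat_lit 760) (nat_lit 4983538125) (nat_lit 69) (nat_lit 5) (nat_lit 78) (nat_lit 5) (nat_lit 79) (nat_lit 5) (nat_lit 269) (nat_lit 267) (nat_lit 184)) (XT.lf (nat_lit 76) (nat_lit 7736210309) (nat_lit 0) (nat_lit 7962421978) (nat_lit 760) (nat_lit 21299519572) (nat_lit 70) (nat_lit 5) (nat_lit 69) (nat_lit 5) (nat_lit 79) (nat_lit 5) (nat_lit 270) (nat_lit 267) (nat_lit 183))) (XT.nd (nat_lit 78) (nat_lit 0) (nat_lit 76) (XT.lf (nat_lit 0) (nat_lit 18357595461) (nat_lit 684) (nat_lit 3983482845) (nat_lit 760) (nat_lit 16208889826) (nat_lit 70) (nat_lit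 5) (nat_lit 79) (nat_lit 5) (nat_lit 80) (nat_lit 5) (nat_lit 271) (nat_lit 267) (nat_lit 182)) (XT.lf (nat_lit 0) (nat_lit 21765048483) (nat_lit 684) (nat_lit 16291066153) (nat_lit 760) (nat_lit 2143051194) (nat_lit 71) (nat_lit 5) (nat_lit 80) (nat_lit 5) (nat_lit 81) (nat_lit 5) (nat_lit 272) (nat_lit 267) (nat_lit 181)))) (XT.nd (nat_lit 156) (nat_lit 1368) (nat_lit 0) (XT.nd (nat_lit 78) (nat_lit 0) (nat_lit 76) (XT.lf (nat_lit 76) (nat_lit 12204060210) (nat_lit 0) (nat_lit 13872386103) (nat_lit 760) (nat_lit 15872308535) (nat_lit 72) (nat_lit 5) (nat_lit 71) (nat_lit 5) (nat_lit 81) (nat_lit 5) (nat_lit 273) (nat_lit 267) (nat_lit 180)) (XT.lf (nat_lit 0) (nat_lit 31206370673) (nat_lit 684) (nat_lit 464666188) (nat_lit 76) (nat_lit 12143614622) (nat_lit 72) (nat_lit 5) (nat_lit 81) (nat_lit 5) (nat_lit 73) (nat_lit 5) (nat_lit 274) (nat_lit 267) (nat_lit 179))) (XT.nd (nat_lit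 78) (nat_lit 760) (nat_lit 0) (XT.lf (nat_lit 0) (nat_lit 31941318310) (nat_lit 684) (nat_lit 5532410990) (nat_lit 760) (nat_lit 8319758193) (nat_lit 63) (nat_lit 5) (nat_lit 72) (nat_lit 5) (nat_lit 73) (nat_lit 5) (nat_lit 275) (nat_lit 267) (nat_lit 178)) (XT.nd (nat_lit 78) (nat_lit 456) (nat_lit 0) (XT.lf (nat_lit 0) (nat_lit 19283921830) (nat_lit 304) (nat_lit 25617008308) (nat_lit 380) (nat_lit 2996795771) (nat_lit 59) (nat_lit 5) (nat_lit 63) (nat_lit 5) (nat_lit 64) (nat_lit 5) (nat_lit 276) (nat_lit 267) (nat_lit 177)) (XT.lf (nat_lit 0) (nat_lit 3119083460) (nat_lit 456) (nat_lit 44747798311) (nat_lit 76) (nat_lit 2278531301) (nat_lit 53) (nat_lit 5) (nat_lit 59) (nat_lit 5) (nat_lit 54) (nat_lit 5) (nat_lit 277) (nat_lit 267) (nat_lit 176)))))) (XT.nd (nat_lit 390) (nat_lit 760) (nat_lit 0) (XT.nd (nat_lit 156) (nat_lit 532) (nat_lit 0) (XT.nd (nat_lit 78) (nat_lit 304) (nat_lit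 0) (XT.lf (nat_lit 0) (nat_lit 10554493977) (nat_lit 456) (nat_lit 9891845153) (nat_lit 76) (nat_lit 32077371847) (nat_lit 53) (nat_lit 5) (nat_lit 59) (nat_lit 5) (nat_lit 54) (nat_lit 5) (nat_lit 278) (nat_lit 267) (nat_lit 175)) (XT.lf (nat_lit 0) (nat_lit 19178399496) (nat_lit 380) (nat_lit 26555107979) (nat_lit 76) (nat_lit 9329095892) (nat_lit 49) (nat_lit 5) (nat_lit 54) (nat_lit 5) (nat_lit 50) (nat_lit 5) (nat_lit 279) (nat_lit 267) (nat_lit 174))) (XT.nd (nat_lit 78) (nat_lit 228) (nat_lit 0) (XT.lf (nat_lit 0) (nat_lit 12586706234) (nat_lit 304) (nat_lit 16617816343) (nat_lit 380) (nat_lit 28564482060) (nat_lit 45) (nat_lit 5) (nat_lit 49) (nat_lit 5) (nat_lit 50) (nat_lit 5) (nat_lit 280) (nat_lit 267) (nat_lit 173)) (XT.nd (nat_lit 78) (nat_lit 228) (nat_lit 0) (XT.lf (nat_lit 0) (nat_lit 40730506564) (nat_lit 380) (nat_lit 5104309297) (nat_lit 76) (nat_lit 14822225392)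 (nat_lit 45) (nat_lit 5) (nat_lit 50) (nat_lit 5) (nat_lit 46) (nat_lit 5) (nat_lit 281) (nat_lit 267) (nat_lit 172)) (XT.lf (nat_lit 0) (nat_lit 39148463400) (nat_lit 228) (nat_lit 14917939090) (nat_lit 304) (nat_lit 9665337572) (nat_lit 42) (nat_lit 5) (nat_lit 45) (nat_lit 5) (nat_lit 46) (nat_lit 5) (nat_lit 282) (nat_lit 267) (nat_lit 171))))) (XT.nd (nat_lit 156) (nat_lit 456) (nat_lit 0) (XT.nd (nat_lit 78) (nat_lit 0) (nat_lit 0) (XT.lf (nat_lit 0) (nat_lit 2077220850) (nat_lit 304) (nat_lit 46615463676) (nat_lit 76) (nat_lit 18323343380) (nat_lit 38) (nat_lit 5) (nat_lit 42) (nat_lit 5) (nat_lit 39) (nat_lit 5) (nat_lit 283) (nat_lit 267) (nat_lit 170)) (XT.lf (nat_lit 0) (nat_lit 15108601570) (nat_lit 304) (nat_lit 1106375321) (nat_lit 76) (nat_lit 54305766201) (nat_lit 38) (nat_lit 5) (nat_lit 42) (nat_lit 5) (nat_lit 39) (nat_lit 5) (nat_lit 284) (nat_lit 267) (nat_lit 169)))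 (XT.nd (nat_lit 78) (nat_lit 228) (nat_lit 0) (XT.lf (nat_lit 0) (nat_lit 30261456951) (nat_lit 304) (nat_lit 24946423112) (nat_lit 76) (nat_lit 19044015478) (nat_lit 35) (nat_lit 5) (nat_lit 39) (nat_lit 5) (nat_lit 36) (nat_lit 5) (nat_lit 285) (nat_lit 267) (nat_lit 168)) (XT.nd (nat_lit 78) (nat_lit 0) (nat_lit 0) (XT.lf (nat_lit 0) (nat_lit 26065917649) (nat_lit 228) (nat_lit 21257712164) (nat_lit 304) (nat_lit 30923063568) (nat_lit 32) (nat_lit 5) (nat_lit 35) (nat_lit 5) (nat_lit 36) (nat_lit 5) (nat_lit 286) (nat_lit 267) (nat_lit 167)) (XT.lf (nat_lit 0) (nat_lit 66430286107) (nat_lit 304) (nat_lit 740752670) (nat_lit 76) (nat_lit 15356067873) (nat_lit 32) (nat_lit 5) (nat_lit 36) (nat_lit 5) (nat_lit 33) (nat_lit 5) (nat_lit 287) (nat_lit 267) (nat_lit 166))))))) (XT.nd (nat_lit 780) (nat_lit 684) (nat_lit 0) (XT.nd (nat_lit 390) (nat_lit 380) (nat_lit 0) (XT.nd (nat_lit 156)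 (nat_lit 304) (nat_lit 0) (XT.nd (nat_lit 78) (nat_lit 228) (nat_lit 0) (XT.lf (nat_lit 0) (nat_lit 1172630559) (nat_lit 228) (nat_lit 30854195218) (nat_lit 76) (nat_lit 55060479155) (nat_lit 29) (nat_lit 5) (nat_lit 32) (nat_lit 5) (nat_lit 30) (nat_lit 5) (nat_lit 288) (nat_lit 267) (nat_lit 165)) (XT.lf (nat_lit 0) (nat_lit 19793220444) (nat_lit 304) (nat_lit 65733729007) (nat_lit 76) (nat_lit 6445504447) (nat_lit 26) (nat_lit 5) (nat_lit 30) (nat_lit 5) (nat_lit 27) (nat_lit 5) (nat_lit 289) (nat_lit 267) (nat_lit 164))) (XT.nd (nat_lit 78) (nat_lit 304) (nat_lit 0) (XT.lf (nat_lit 0) (nat_lit 40987431890) (nat_lit 304) (nat_lit 8772907654) (nat_lit 76) (nat_lit 47433881873) (nat_lit 26) (nat_lit 5) (nat_lit 30) (nat_lit 5) (nat_lit 27) (nat_lit 5) (nat_lit 290) (nat_lit 267) (nat_lit 163)) (XT.nd (nat_lit 78) (nat_lit 152) (nat_lit 0) (XT.lf (nat_lit 0) (nat_lit 54485511373) (nat_lit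 152) (nat_lit 10240185395) (nat_lit 228) (nat_lit 38065612701) (nat_lit 24) (nat_lit 5) (nat_lit 26) (nat_lit 5) (nat_lit 27) (nat_lit 5) (nat_lit 291) (nat_lit 267) (nat_lit 162)) (XT.lf (nat_lit 0) (nat_lit 14232787203) (nat_lit 152) (nat_lit 77012219517) (nat_lit 228) (nat_lit 17547063240) (nat_lit 22) (nat_lit 5) (nat_lit 24) (nat_lit 5) (nat_lit 25) (nat_lit 5) (nat_lit 292) (nat_lit 267) (nat_lit 161))))) (XT.nd (nat_lit 156) (nat_lit 152) (nat_lit 0) (XT.nd (nat_lit 78) (nat_lit 152) (nat_lit 0) (XT.lf (nat_lit 0) (nat_lit 5491257337) (nat_lit 228) (nat_lit 31992893374) (nat_lit 76) (nat_lit 77733847007) (nat_lit 21) (nat_lit 5) (nat_lit 24) (nat_lit 5) (nat_lit 22) (nat_lit 5) (nat_lit 293) (nat_lit 267) (nat_lit 160)) (XT.lf (nat_lit 0) (nat_lit 30428739243) (nat_lit 228) (nat_lit 85763654601) (nat_lit 76) (nat_lit 5917683796) (nat_lit 19) (nat_lit 5) (nat_lit 22) (nat_lit 5)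 (nat_lit 20) (nat_lit 5) (nat_lit 294) (nat_lit 267) (nat_lit 159))) (XT.nd (nat_lit 78) (nat_lit 152) (nat_lit 0) (XT.lf (nat_lit 0) (nat_lit 58557941953) (nat_lit 228) (nat_lit 18874269593) (nat_lit 76) (nat_lit 52061479768) (nat_lit 19) (nat_lit 5) (nat_lit 22) (nat_lit 5) (nat_lit 20) (nat_lit 5) (nat_lit 295) (nat_lit 267) (nat_lit 158)) (XT.nd (nat_lit 78) (nat_lit 0) (nat_lit 0) (XT.lf (nat_lit 0) (nat_lit 55128152259) (nat_lit 152) (nat_lit 34668403428) (nat_lit 228) (nat_lit 47628487867) (nat_lit 17) (nat_lit 5) (nat_lit 19) (nat_lit 5) (nat_lit 20) (nat_lit 5) (nat_lit 296) (nat_lit 267) (nat_lit 157)) (XT.lf (nat_lit 0) (nat_lit 124046669236) (nat_lit 228) (nat_lit 10437412129) (nat_lit 76) (nat_lit 11481205047) (nat_lit 17) (nat_lit 5) (nat_lit 20) (nat_lit 5) (nat_lit 18) (nat_lit 4) (nat_lit 297) (nat_lit 267) (nat_lit 156)))))) (XT.nd (nat_lit 390) (nat_lit 304) (nat_lit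 0) (XT.nd (nat_lit 156) (nat_lit 228) (nat_lit 0) (XT.nd (nat_lit 78) (nat_lit 0) (nat_lit 0) (XT.lf (nat_lit 0) (nat_lit 7345092423) (nat_lit 152) (nat_lit 86438877584) (nat_lit 76) (nat_lit 61316004940) (nat_lit 15) (nat_lit 5) (nat_lit 17) (nat_lit 5) (nat_lit 16) (nat_lit 5) (nat_lit 298) (nat_lit 267) (nat_lit 155)) (XT.lf (nat_lit 0) (nat_lit 38375638442) (nat_lit 152) (nat_lit 10870987605) (nat_lit 76) (nat_lit 115691165807) (nat_lit 15) (nat_lit 5) (nat_lit 17) (nat_lit 5) (nat_lit 16) (nat_lit 5) (nat_lit 299) (nat_lit 267) (nat_lit 154))) (XT.nd (nat_lit 78) (nat_lit 76) (nat_lit 0) (XT.lf (nat_lit 0) (nat_lit 73029099412) (nat_lit 228) (nat_lit 102427229419) (nat_lit 76) (nat_lit 49283968) (nat_lit 13) (nat_lit 5) (nat_lit 16) (nat_lit 5) (nat_lit 14) (nat_lit 4) (nat_lit 300) (nat_lit 267) (nat_lit 153)) (XT.nd (nat_lit 78) (nat_lit 76) (nat_lit 0) (XT.lf (nat_lit 0) (nat_lit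 111476452459) (nat_lit 228) (nat_lit 23613046764) (nat_lit 76) (nat_lit 51778281520) (nat_lit 13) (nat_lit 5) (nat_lit 16) (nat_lit 5) (nat_lit 14) (nat_lit 4) (nat_lit 301) (nat_lit 267) (nat_lit 152)) (XT.lf (nat_lit 0) (nat_lit 63537968690) (nat_lit 76) (nat_lit 90452480057) (nat_lit 152) (nat_lit 45098932553) (nat_lit 12) (nat_lit 5) (nat_lit 13) (nat_lit 5) (nat_lit 14) (nat_lit 4) (nat_lit 302) (nat_lit 267) (nat_lit 151))))) (XT.nd (nat_lit 156) (nat_lit 76) (nat_lit 0) (XT.nd (nat_lit 78) (nat_lit 228) (nat_lit 0) (XT.lf (nat_lit 0) (nat_lit 158502449214) (nat_lit 76) (nat_lit 41813345468) (nat_lit 152) (nat_lit 11952405507) (nat_lit 12) (nat_lit 5) (nat_lit 13) (nat_lit 5) (nat_lit 14) (nat_lit 4) (nat_lit 303) (nat_lit 267) (nat_lit 150)) (XT.lf (nat_lit 0) (nat_lit 23815481072) (nat_lit 228) (nat_lit 191318478017) (nat_lit 76) (nat_lit 11312109388) (nat_lit 9) (nat_lit 5)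 (nat_lit 12) (nat_lit 5) (nat_lit 10) (nat_lit 4) (nat_lit 304) (nat_lit 267) (nat_lit 149))) (XT.nd (nat_lit 78) (nat_lit 76) (nat_lit 0) (XT.lf (nat_lit 0) (nat_lit 63687619181) (nat_lit 228) (nat_lit 109582618740) (nat_lit 76) (nat_lit 68395053979) (nat_lit 9) (nat_lit 5) (nat_lit 12) (nat_lit 5) (nat_lit 10) (nat_lit 4) (nat_lit 305) (nat_lit 267) (nat_lit 148)) (XT.nd (nat_lit 78) (nat_lit 76) (nat_lit 0) (XT.lf (nat_lit 0) (nat_lit 106748610517) (nat_lit 228) (nat_lit 21309460433) (nat_lit 76) (nat_lit 130044029487) (nat_lit 9) (nat_lit 5) (nat_lit 12) (nat_lit 5) (nat_lit 10) (nat_lit 4) (nat_lit 306) (nat_lit 267) (nat_lit 147)) (XT.lf (nat_lit 0) (nat_lit 76471668055) (nat_lit 76) (nat_lit 77975900320) (nat_lit 152) (nat_lit 121346632172) (nat_lit 8) (nat_lit 5) (nat_lit 9) (nat_lit 5) (nat_lit 10) (nat_lit 4) (nat_lit 307) (nat_lit 267) (nat_lit 146))))))))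
noncomputable def xc99 : XT := (XT.nd (nat_lit 34788) (nat_lit 0) (nat_lit 1596) (XT.nd (nat_lit 702) (nat_lit 152) (nat_lit 0) (XT.nd (nat_lit 312) (nat_lit 76) (nat_lit 0) (XT.nd (nat_lit 156) (nat_lit 152) (nat_lit 0) (XT.nd (nat_lit 78) (nat_lit 0) (nat_lit 0) (XT.lf (nat_lit 0) (nat_lit 182834850509) (nat_lit 76) (nat_lit 23497980816) (nat_lit 152) (nat_lit 88550319073) (nat_lit 8) (nat_lit 5) (nat_lit 9) (nat_lit 5) (nat_lit 10) (nat_lit 4) (nat_lit 308) (nat_lit 267) (nat_lit 145)) (XT.lf (nat_lit 0) (nat_lit 262919886112) (nat_lit 152) (nat_lit 18345173970) (nat_lit 0) (nat_lit 34206608688) (nat_lit 8) (nat_lit 5) (nat_lit 10) (nat_lit 4) (nat_lit 8) (nat_lit 4) (nat_lit 309) (nat_lit 267) (nat_lit 144))) (XT.nd (nat_lit 78) (nat_lit 76) (nat_lit 0) (XT.lf (nat_lit 0) (nat_lit 85183156323) (nat_lit 76) (nat_lit 240576214614) (nat_lit 76) (nat_lit 11861625384) (nat_lit 7) (nat_lit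 4) (nat_lit 8) (nat_lit 5) (nat_lit 8) (nat_lit 4) (nat_lit 310) (nat_lit 267) (nat_lit 143)) (XT.lf (nat_lit 0) (nat_lit 31380984942) (nat_lit 152) (nat_lit 164384784730) (nat_lit 76) (nat_lit 165735249387) (nat_lit 6) (nat_lit 5) (nat_lit 8) (nat_lit 5) (nat_lit 7) (nat_lit 4) (nat_lit 311) (nat_lit 267) (nat_lit 142)))) (XT.nd (nat_lit 156) (nat_lit 0) (nat_lit 0) (XT.nd (nat_lit 78) (nat_lit 76) (nat_lit 0) (XT.lf (nat_lit 0) (nat_lit 77672357487) (nat_lit 152) (nat_lit 69488595676) (nat_lit 76) (nat_lit 240120522272) (nat_lit 6) (nat_lit 5) (nat_lit 8) (nat_lit 5) (nat_lit 7) (nat_lit 4) (nat_lit 312) (nat_lit 267) (nat_lit 141)) (XT.lf (nat_lit 0) (nat_lit 34089339934) (nat_lit 76) (nat_lit 94109347779) (nat_lit 152) (nat_lit 286899098965) (nat_lit 5) (nat_lit 5) (nat_lit 6) (nat_lit 5) (nat_lit 7) (nat_lit 4) (nat_lit 313) (nat_lit 267) (nat_lit 140))) (XT.nd (nat_lit 78) (nat_lit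 0) (nat_lit 0) (XT.lf (nat_lit 0) (nat_lit 148433949736) (nat_lit 76) (nat_lit 35543066766) (nat_lit 152) (nat_lit 261101892405) (nat_lit 5) (nat_lit 5) (nat_lit 6) (nat_lit 5) (nat_lit 7) (nat_lit 4) (nat_lit 314) (nat_lit 267) (nat_lit 139)) (XT.nd (nat_lit 78) (nat_lit 0) (nat_lit 0) (XT.lf (nat_lit 0) (nat_lit 244649699802) (nat_lit 152) (nat_lit 205965924102) (nat_lit 0) (nat_lit 26821293242) (nat_lit 5) (nat_lit 5) (nat_lit 7) (nat_lit 4) (nat_lit 5) (nat_lit 4) (nat_lit 315) (nat_lit 267) (nat_lit 138)) (XT.lf (nat_lit 0) (nat_lit 310775037878) (nat_lit 152) (nat_lit 108632742734) (nat_lit 0) (nat_lit 92945844024) (nat_lit 5) (nat_lit 5) (nat_lit 7) (nat_lit 4) (nat_lit 5) (nat_lit 4) (nat_lit 316) (nat_lit 267) (nat_lit 137)))))) (XT.nd (nat_lit 33696) (nat_lit 0) (nat_lit 4940) (XT.nd (nat_lit 156) (nat_lit 76) (nat_lit 0) (XT.nd (nat_lit 78) (nat_lit 76) (nat_lit 0) (XT.lf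 (nat_lit 0) (nat_lit 382189957705) (nat_lit 152) (nat_lit 3513698961) (nat_lit 0) (nat_lit 164360034874) (nat_lit 5) (nat_lit 5) (nat_lit 7) (nat_lit 4) (nat_lit 5) (nat_lit 4) (nat_lit 317) (nat_lit 267) (nat_lit 136)) (XT.lf (nat_lit 0) (nat_lit 113651699020) (nat_lit 76) (nat_lit 347440381317) (nat_lit 76) (nat_lit 129609783508) (nat_lit 4) (nat_lit 4) (nat_lit 5) (nat_lit 5) (nat_lit 5) (nat_lit 4) (nat_lit 318) (nat_lit 267) (nat_lit 135))) (XT.nd (nat_lit 78) (nat_lit 76) (nat_lit 0) (XT.lf (nat_lit 0) (nat_lit 240315100341) (nat_lit 76) (nat_lit 306052086088) (nat_lit 76) (nat_lit 88220863298) (nat_lit 4) (nat_lit 4) (nat_lit 5) (nat_lit 5) (nat_lit 5) (nat_lit 4) (nat_lit 319) (nat_lit 267) (nat_lit 134)) (XT.nd (nat_lit 78) (nat_lit 76) (nat_lit 0) (XT.lf (nat_lit 0) (nat_lit 377110924177) (nat_lit 76) (nat_lit 261353013197) (nat_lit 76) (nat_lit 43521211723) (nat_lit 4) (nat_lit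 4) (nat_lit 5) (nat_lit 5) (nat_lit 5) (nat_lit 4) (nat_lit 320) (nat_lit 267) (nat_lit 133)) (XT.lf (nat_lit 0) (nat_lit 4601898495) (nat_lit 152) (nat_lit 208398445378) (nat_lit 76) (nat_lit 520169978576) (nat_lit 3) (nat_lit 5) (nat_lit 5) (nat_lit 5) (nat_lit 4) (nat_lit 4) (nat_lit 321) (nat_lit 267) (nat_lit 132))))) (XT.nd (nat_lit 156) (nat_lit 0) (nat_lit 76) (XT.nd (nat_lit 78) (nat_lit 0) (nat_lit 0) (XT.lf (nat_lit 0) (nat_lit 3169449267) (nat_lit 0) (nat_lit 3169449267) (nat_lit 684) (nat_lit 11402225208) (nat_lit 68) (nat_lit 5) (nat_lit 68) (nat_lit 3) (nat_lit 77) (nat_lit 3) (nat_lit 268) (nat_lit 268) (nat_lit 184)) (XT.lf (nat_lit 0) (nat_lit 13545672945) (nat_lit 684) (nat_lit 5584963986) (nat_lit 760) (nat_lit 17752594922) (nat_lit 68) (nat_lit 5) (nat_lit 77) (nat_lit 3) (nat_lit 78) (nat_lit 5) (nat_lit 269) (nat_lit 268) (nat_lit 183))) (XT.nd (nat_lit 78) (nat_lit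 0) (nat_lit 0) (XT.lf (nat_lit 0) (nat_lit 14986830504) (nat_lit 684) (nat_lit 18061324651) (nat_lit 760) (nat_lit 5322973978) (nat_lit 69) (nat_lit 5) (nat_lit 78) (nat_lit 5) (nat_lit 79) (nat_lit 5) (nat_lit 270) (nat_lit 268) (nat_lit 182)) (XT.nd (nat_lit 78) (nat_lit 0) (nat_lit 76) (XT.lf (nat_lit 76) (nat_lit 8444074367) (nat_lit 0) (nat_lit 8645642375) (nat_lit 760) (nat_lit 22861044416) (nat_lit 70) (nat_lit 5) (nat_lit 69) (nat_lit 5) (nat_lit 79) (nat_lit 5) (nat_lit 271) (nat_lit 268) (nat_lit 181)) (XT.lf (nat_lit 0) (nat_lit 19950714343) (nat_lit 684) (nat_lit 4212409796) (nat_lit 760) (nat_lit 17464168515) (nat_lit 70) (nat_lit 5) (nat_lit 79) (nat_lit 5) (nat_lit 80) (nat_lit 5) (nat_lit 272) (nat_lit 268) (nat_lit 180))))))) (XT.nd (nat_lit 780) (nat_lit 1596) (nat_lit 0) (XT.nd (nat_lit 390) (nat_lit 1064) (nat_lit 0) (XT.nd (nat_lit 156) (nat_lit 912) (nat_lit 0)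 (XT.nd (nat_lit 78) (nat_lit 0) (nat_lit 0) (XT.lf (nat_lit 0) (nat_lit 23622400408) (nat_lit 684) (nat_lit 17501774090) (nat_lit 760) (nat_lit 2284702968) (nat_lit 71) (nat_lit 5) (nat_lit 80) (nat_lit 5) (nat_lit 81) (nat_lit 5) (nat_lit 273) (nat_lit 268) (nat_lit 179)) (XT.lf (nat_lit 76) (nat_lit 13268939083) (nat_lit 0) (nat_lit 15002549998) (nat_lit 760) (nat_lit 17027336256) (nat_lit 72) (nat_lit 5) (nat_lit 71) (nat_lit 5) (nat_lit 81) (nat_lit 5) (nat_lit 274) (nat_lit 268) (nat_lit 178))) (XT.nd (nat_lit 78) (nat_lit 988) (nat_lit 0) (XT.lf (nat_lit 0) (nat_lit 33803444201) (nat_lit 684) (nat_lit 414152414) (nat_lit 76) (nat_lit 13096843659) (nat_lit 72) (nat_lit 5) (nat_lit 81) (nat_lit 5) (nat_lit 73) (nat_lit 5) (nat_lit 275) (nat_lit 268) (nat_lit 177)) (XT.nd (nat_lit 78) (nat_lit 304) (nat_lit 0) (XT.lf (nat_lit 0) (nat_lit 34580500070) (nat_lit 684) (nat_lit 5985551816)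 (nat_lit 760) (nat_lit 8885864567) (nat_lit 63) (nat_lit 5) (nat_lit 72) (nat_lit 5) (nat_lit 73) (nat_lit 5) (nat_lit 276) (nat_lit 268) (nat_lit 176)) (XT.lf (nat_lit 0) (nat_lit 20911854808) (nat_lit 304) (nat_lit 27669757623) (nat_lit 380) (nat_lit 3143196688) (nat_lit 59) (nat_lit 5) (nat_lit 63) (nat_lit 5) (nat_lit 64) (nat_lit 5) (nat_lit 277) (nat_lit 268) (nat_lit 175))))) (XT.nd (nat_lit 156) (nat_lit 608) (nat_lit 0) (XT.nd (nat_lit 78) (nat_lit 0) (nat_lit 0) (XT.lf (nat_lit 0) (nat_lit 3453588790) (nat_lit 456) (nat_lit 48238448499) (nat_lit 76) (nat_lit 2460491404) (nat_lit 53) (nat_lit 5) (nat_lit 59) (nat_lit 5) (nat_lit 54) (nat_lit 5) (nat_lit 278) (nat_lit 268) (nat_lit 174)) (XT.lf (nat_lit 0) (nat_lit 11477537433) (nat_lit 456) (nat_lit 10600624545) (nat_lit 76) (nat_lit 34643263076) (nat_lit 53) (nat_lit 5) (nat_lit 59) (nat_lit 5) (nat_lit 54) (nat_lit 5) (nat_lit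 279) (nat_lit 268) (nat_lit 173))) (XT.nd (nat_lit 78) (nat_lit 304) (nat_lit 0) (XT.lf (nat_lit 0) (nat_lit 20786836419) (nat_lit 380) (nat_lit 28596678461) (nat_lit 76) (nat_lit 10080158320) (nat_lit 49) (nat_lit 5) (nat_lit 54) (nat_lit 5) (nat_lit 50) (nat_lit 5) (nat_lit 280) (nat_lit 268) (nat_lit 172)) (XT.nd (nat_lit 78) (nat_lit 0) (nat_lit 0) (XT.lf (nat_lit 0) (nat_lit 13672880844) (nat_lit 304) (nat_lit 17937911930) (nat_lit 380) (nat_lit 30776023677) (nat_lit 45) (nat_lit 5) (nat_lit 49) (nat_lit 5) (nat_lit 50) (nat_lit 5) (nat_lit 281) (nat_lit 268) (nat_lit 171)) (XT.lf (nat_lit 0) (nat_lit 44053811954) (nat_lit 380) (nat_lit 5435986443) (nat_lit 76) (nat_lit 16016365563) (nat_lit 45) (nat_lit 5) (nat_lit 50) (nat_lit 5) (nat_lit 46) (nat_lit 5) (nat_lit 282) (nat_lit 268) (nat_lit 170)))))) (XT.nd (nat_lit 390) (nat_lit 608) (nat_lit 0) (XT.nd (nat_lit 156) (nat_lit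 456) (nat_lit 0) (XT.nd (nat_lit 78) (nat_lit 304) (nat_lit 0) (XT.lf (nat_lit 0) (nat_lit 42353676190) (nat_lit 228) (nat_lit 16099243535) (nat_lit 304) (nat_lit 10374116559) (nat_lit 42) (nat_lit 5) (nat_lit 45) (nat_lit 5) (nat_lit 46) (nat_lit 5) (nat_lit 283) (nat_lit 268) (nat_lit 169)) (XT.lf (nat_lit 0) (nat_lit 2302500428) (nat_lit 304) (nat_lit 50269515934) (nat_lit 76) (nat_lit 19802177542) (nat_lit 38) (nat_lit 5) (nat_lit 42) (nat_lit 5) (nat_lit 39) (nat_lit 5) (nat_lit 284) (nat_lit 268) (nat_lit 168))) (XT.nd (nat_lit 78) (nat_lit 456) (nat_lit 0) (XT.lf (nat_lit 0) (nat_lit 16372013686) (nat_lit 304) (nat_lit 1125269759) (nat_lit 76) (nat_lit 58662233693) (nat_lit 38) (nat_lit 5) (nat_lit 42) (nat_lit 5) (nat_lit 39) (nat_lit 5) (nat_lit 285) (nat_lit 268) (nat_lit 167)) (XT.nd (nat_lit 78) (nat_lit 228) (nat_lit 0) (XT.lf (nat_lit 0) (nat_lit 32734315849) (nat_lit 304)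 (nat_lit 26873055450) (nat_lit 76) (nat_lit 20581940617) (nat_lit 35) (nat_lit 5) (nat_lit 39) (nat_lit 5) (nat_lit 36) (nat_lit 5) (nat_lit 286) (nat_lit 268) (nat_lit 166)) (XT.lf (nat_lit 0) (nat_lit 28217270373) (nat_lit 228) (nat_lit 22941376269) (nat_lit 304) (nat_lit 33345197970) (nat_lit 32) (nat_lit 5) (nat_lit 35) (nat_lit 5) (nat_lit 36) (nat_lit 5) (nat_lit 287) (nat_lit 268) (nat_lit 165))))) (XT.nd (nat_lit 156) (nat_lit 380) (nat_lit 0) (XT.nd (nat_lit 78) (nat_lit 228) (nat_lit 0) (XT.lf (nat_lit 0) (nat_lit 71790441520) (nat_lit 304) (nat_lit 736680597) (nat_lit 76) (nat_lit 16599747998) (nat_lit 32) (nat_lit 5) (nat_lit 36) (nat_lit 5) (nat_lit 33) (nat_lit 5) (nat_lit 288) (nat_lit 268) (nat_lit 164)) (XT.lf (nat_lit 0) (nat_lit 1310547599) (nat_lit 228) (nat_lit 33260388084) (nat_lit 76) (nat_lit 59481043868) (nat_lit 29) (nat_lit 5) (nat_lit 32) (nat_lit 5) (nat_lit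 30) (nat_lit 5) (nat_lit 289) (nat_lit 268) (nat_lit 163))) (XT.nd (nat_lit 78) (nat_lit 152) (nat_lit 0) (XT.lf (nat_lit 0) (nat_lit 21418721527) (nat_lit 304) (nat_lit 70931076091) (nat_lit 76) (nat_lit 6978253711) (nat_lit 26) (nat_lit 5) (nat_lit 30) (nat_lit 5) (nat_lit 27) (nat_lit 5) (nat_lit 290) (nat_lit 268) (nat_lit 162)) (XT.nd (nat_lit 78) (nat_lit 152) (nat_lit 0) (XT.lf (nat_lit 0) (nat_lit 44305355560) (nat_lit 304) (nat_lit 9417933565) (nat_lit 76) (nat_lit 51244434005) (nat_lit 26) (nat_lit 5) (nat_lit 30) (nat_lit 5) (nat_lit 27) (nat_lit 5) (nat_lit 291) (nat_lit 268) (nat_lit 161)) (XT.lf (nat_lit 0) (nat_lit 58898690234) (nat_lit 152) (nat_lit 11041956123) (nat_lit 228) (nat_lit 41072040264) (nat_lit 24) (nat_lit 5) (nat_lit 26) (nat_lit 5) (nat_lit 27) (nat_lit 5) (nat_lit 292) (nat_lit 268) (nat_lit 160))))))))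
noncomputable def xc100 : XT := (XT.nd (nat_lit 1482) (nat_lit 228) (nat_lit 0) (XT.nd (nat_lit 702) (nat_lit 456) (nat_lit 0) (XT.nd (nat_lit 312) (nat_lit 456) (nat_lit 0) (XT.nd (nat_lit 156) (nat_lit 152) (nat_lit 0) (XT.nd (nat_lit 78) (nat_lit 76) (nat_lit 0) (XT.lf (nat_lit 0) (nat_lit 15424969988) (nat_lit 152) (nat_lit 83154886636) (nat_lit 228) (nat_lit 18913739694) (nat_lit 22) (nat_lit 5) (nat_lit 24) (nat_lit 5) (nat_lit 25) (nat_lit 5) (nat_lit 293) (nat_lit 268) (nat_lit 159)) (XT.lf (nat_lit 0) (nat_lit 5963800089) (nat_lit 228) (nat_lit 34501565593) (nat_lit 76) (nat_lit 83968342046) (nat_lit 21) (nat_lit 5) (nat_lit 24) (nat_lit 5) (nat_lit 22) (nat_lit 5) (nat_lit 294) (nat_lit 268) (nat_lit 158))) (XT.nd (nat_lit 78) (nat_lit 0) (nat_lit 0) (XT.lf (nat_lit 0) (nat_lit 32894841877) (nat_lit 228) (nat_lit 92574819737) (nat_lit 76) (nat_lit 6407569378) (nat_lit 19) (nat_lit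 5) (nat_lit 22) (nat_lit 5) (nat_lit 20) (nat_lit 5) (nat_lit 295) (nat_lit 268) (nat_lit 157)) (XT.lf (nat_lit 0) (nat_lit 63272024989) (nat_lit 228) (nat_lit 20337982242) (nat_lit 76) (nat_lit 56241648962) (nat_lit 19) (nat_lit 5) (nat_lit 22) (nat_lit 5) (nat_lit 20) (nat_lit 5) (nat_lit 296) (nat_lit 268) (nat_lit 156)))) (XT.nd (nat_lit 156) (nat_lit 304) (nat_lit 0) (XT.nd (nat_lit 78) (nat_lit 0) (nat_lit 0) (XT.lf (nat_lit 0) (nat_lit 59582624307) (nat_lit 152) (nat_lit 37425612603) (nat_lit 228) (nat_lit 51409358549) (nat_lit 17) (nat_lit 5) (nat_lit 19) (nat_lit 5) (nat_lit 20) (nat_lit 5) (nat_lit 297) (nat_lit 268) (nat_lit 155)) (XT.lf (nat_lit 0) (nat_lit 133996523775) (nat_lit 228) (nat_lit 11230351827) (nat_lit 76) (nat_lit 12414277913) (nat_lit 17) (nat_lit 5) (nat_lit 20) (nat_lit 5) (nat_lit 18) (nat_lit 4) (nat_lit 298) (nat_lit 268) (nat_lit 154))) (XT.nd (nat_lit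 78) (nat_lit 152) (nat_lit 0) (XT.lf (nat_lit 0) (nat_lit 7957965353) (nat_lit 152) (nat_lit 93312882830) (nat_lit 76) (nat_lit 66235817603) (nat_lit 15) (nat_lit 5) (nat_lit 17) (nat_lit 5) (nat_lit 16) (nat_lit 5) (nat_lit 299) (nat_lit 268) (nat_lit 153)) (XT.nd (nat_lit 78) (nat_lit 152) (nat_lit 0) (XT.lf (nat_lit 0) (nat_lit 41469083532) (nat_lit 152) (nat_lit 11702606464) (nat_lit 76) (nat_lit 124959914876) (nat_lit 15) (nat_lit 5) (nat_lit 17) (nat_lit 5) (nat_lit 16) (nat_lit 5) (nat_lit 300) (nat_lit 268) (nat_lit 152)) (XT.lf (nat_lit 0) (nat_lit 78893878227) (nat_lit 228) (nat_lit 110584073910) (nat_lit 76) (nat_lit 66949522) (nat_lit 13) (nat_lit 5) (nat_lit 16) (nat_lit 5) (nat_lit 14) (nat_lit 4) (nat_lit 301) (nat_lit 268) (nat_lit 151)))))) (XT.nd (nat_lit 390) (nat_lit 152) (nat_lit 0) (XT.nd (nat_lit 156) (nat_lit 228) (nat_lit 0) (XT.nd (nat_lit 78) (nat_lit 76) (nat_lit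 0) (XT.lf (nat_lit 0) (nat_lit 120415356491) (nat_lit 228) (nat_lit 25467522113) (nat_lit 76) (nat_lit 55933250372) (nat_lit 13) (nat_lit 5) (nat_lit 16) (nat_lit 5) (nat_lit 14) (nat_lit 4) (nat_lit 302) (nat_lit 268) (nat_lit 150)) (XT.lf (nat_lit 0) (nat_lit 68654072277) (nat_lit 76) (nat_lit 97675376620) (nat_lit 152) (nat_lit 48686062440) (nat_lit 12) (nat_lit 5) (nat_lit 13) (nat_lit 5) (nat_lit 14) (nat_lit 4) (nat_lit 303) (nat_lit 268) (nat_lit 149))) (XT.nd (nat_lit 78) (nat_lit 228) (nat_lit 0) (XT.lf (nat_lit 0) (nat_lit 171213261903) (nat_lit 76) (nat_lit 45146096586) (nat_lit 152) (nat_lit 12889352839) (nat_lit 12) (nat_lit 5) (nat_lit 13) (nat_lit 5) (nat_lit 14) (nat_lit 4) (nat_lit 304) (nat_lit 268) (nat_lit 148)) (XT.nd (nat_lit 78) (nat_lit 0) (nat_lit 0) (XT.lf (nat_lit 0) (nat_lit 25738625894) (nat_lit 228) (nat_lit 206593331799) (nat_lit 76) (nat_lit 12228874610)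 (nat_lit 9) (nat_lit 5) (nat_lit 12) (nat_lit 5) (nat_lit 10) (nat_lit 4) (nat_lit 305) (nat_lit 268) (nat_lit 147)) (XT.lf (nat_lit 0) (nat_lit 68799208656) (nat_lit 228) (nat_lit 118320872259) (nat_lit 76) (nat_lit 73877580955) (nat_lit 9) (nat_lit 5) (nat_lit 12) (nat_lit 5) (nat_lit 10) (nat_lit 4) (nat_lit 306) (nat_lit 268) (nat_lit 146))))) (XT.nd (nat_lit 156) (nat_lit 76) (nat_lit 0) (XT.nd (nat_lit 78) (nat_lit 76) (nat_lit 0) (XT.lf (nat_lit 0) (nat_lit 115303851155) (nat_lit 228) (nat_lit 22987961730) (nat_lit 76) (nat_lit 140457665419) (nat_lit 9) (nat_lit 5) (nat_lit 12) (nat_lit 5) (nat_lit 10) (nat_lit 4) (nat_lit 307) (nat_lit 268) (nat_lit 145)) (XT.lf (nat_lit 0) (nat_lit 82614516003) (nat_lit 76) (nat_lit 84203464576) (nat_lit 152) (nat_lit 131039004768) (nat_lit 8) (nat_lit 5) (nat_lit 9) (nat_lit 5) (nat_lit 10) (nat_lit 4) (nat_lit 308) (nat_lit 268) (nat_lit 144)))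 (XT.nd (nat_lit 78) (nat_lit 76) (nat_lit 0) (XT.lf (nat_lit 0) (nat_lit 197484892720) (nat_lit 76) (nat_lit 25368089866) (nat_lit 152) (nat_lit 95620124250) (nat_lit 8) (nat_lit 5) (nat_lit 9) (nat_lit 5) (nat_lit 10) (nat_lit 4) (nat_lit 309) (nat_lit 268) (nat_lit 143)) (XT.nd (nat_lit 78) (nat_lit 76) (nat_lit 0) (XT.lf (nat_lit 0) (nat_lit 283966140574) (nat_lit 152) (nat_lit 19790752830) (nat_lit 0) (nat_lit 36951857766) (nat_lit 8) (nat_lit 5) (nat_lit 10) (nat_lit 4) (nat_lit 8) (nat_lit 4) (nat_lit 310) (nat_lit 268) (nat_lit 142)) (XT.lf (nat_lit 0) (nat_lit 92018886270) (nat_lit 76) (nat_lit 259813288950) (nat_lit 76) (nat_lit 12797881481) (nat_lit 7) (nat_lit 4) (nat_lit 8) (nat_lit 5) (nat_lit 8) (nat_lit 4) (nat_lit 311) (nat_lit 268) (nat_lit 141))))))) (XT.nd (nat_lit 702) (nat_lit 0) (nat_lit 0) (XT.nd (nat_lit 312) (nat_lit 76) (nat_lit 0) (XT.nd (nat_lit 156) (nat_lit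 76) (nat_lit 0) (XT.nd (nat_lit 78) (nat_lit 0) (nat_lit 0) (XT.lf (nat_lit 0) (nat_lit 33902823265) (nat_lit 152) (nat_lit 177515661128) (nat_lit 76) (nat_lit 179002033581) (nat_lit 6) (nat_lit 5) (nat_lit 8) (nat_lit 5) (nat_lit 7) (nat_lit 4) (nat_lit 312) (nat_lit 268) (nat_lit 140)) (XT.lf (nat_lit 0) (nat_lit 83896664166) (nat_lit 152) (nat_lit 75029251496) (nat_lit 76) (nat_lit 259337538353) (nat_lit 6) (nat_lit 5) (nat_lit 8) (nat_lit 5) (nat_lit 7) (nat_lit 4) (nat_lit 313) (nat_lit 268) (nat_lit 139))) (XT.nd (nat_lit 78) (nat_lit 0) (nat_lit 0) (XT.lf (nat_lit 0) (nat_lit 36834117938) (nat_lit 76) (nat_lit 101630479021) (nat_lit 152) (nat_lit 309840499394) (nat_lit 5) (nat_lit 5) (nat_lit 6) (nat_lit 5) (nat_lit 7) (nat_lit 4) (nat_lit 314) (nat_lit 268) (nat_lit 138)) (XT.lf (nat_lit 0) (nat_lit 160324990538) (nat_lit 76) (nat_lit 38379459719) (nat_lit 152) (nat_lit 281980296123)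 (nat_lit 5) (nat_lit 5) (nat_lit 6) (nat_lit 5) (nat_lit 7) (nat_lit 4) (nat_lit 315) (nat_lit 268) (nat_lit 137)))) (XT.nd (nat_lit 156) (nat_lit 76) (nat_lit 0) (XT.nd (nat_lit 78) (nat_lit 0) (nat_lit 0) (XT.lf (nat_lit 0) (nat_lit 264230363325) (nat_lit 152) (nat_lit 222427744368) (nat_lit 0) (nat_lit 28973317691) (nat_lit 5) (nat_lit 5) (nat_lit 7) (nat_lit 4) (nat_lit 5) (nat_lit 4) (nat_lit 316) (nat_lit 268) (nat_lit 136)) (XT.lf (nat_lit 0) (nat_lit 335645084926) (nat_lit 152) (nat_lit 117309053206) (nat_lit 0) (nat_lit 100387364313) (nat_lit 5) (nat_lit 5) (nat_lit 7) (nat_lit 4) (nat_lit 5) (nat_lit 4) (nat_lit 317) (nat_lit 268) (nat_lit 135))) (XT.nd (nat_lit 78) (nat_lit 76) (nat_lit 0) (XT.lf (nat_lit 0) (nat_lit 412772602486) (nat_lit 152) (nat_lit 3781545853) (nat_lit 0) (nat_lit 177514256893) (nat_lit 5) (nat_lit 5) (nat_lit 7) (nat_lit 4) (nat_lit 5) (nat_lit 4) (nat_lit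 318) (nat_lit 268) (nat_lit 134)) (XT.nd (nat_lit 78) (nat_lit 0) (nat_lit 0) (XT.lf (nat_lit 0) (nat_lit 122756508180) (nat_lit 76) (nat_lit 375230032898) (nat_lit 76) (nat_lit 139971108620) (nat_lit 4) (nat_lit 4) (nat_lit 5) (nat_lit 5) (nat_lit 5) (nat_lit 4) (nat_lit 319) (nat_lit 268) (nat_lit 133)) (XT.lf (nat_lit 0) (nat_lit 259552042848) (nat_lit 76) (nat_lit 330531087304) (nat_lit 76) (nat_lit 95271627206) (nat_lit 4) (nat_lit 4) (nat_lit 5) (nat_lit 5) (nat_lit 5) (nat_lit 4) (nat_lit 320) (nat_lit 268) (nat_lit 132)))))) (XT.nd (nat_lit 33774) (nat_lit 0) (nat_lit 4484) (XT.nd (nat_lit 33540) (nat_lit 0) (nat_lit 4864) (XT.nd (nat_lit 33462) (nat_lit 0) (nat_lit 4864) (XT.lf (nat_lit 0) (nat_lit 407290663371) (nat_lit 76) (nat_lit 282256471225) (nat_lit 76) (nat_lit 46996514997) (nat_lit 4) (nat_lit 4) (nat_lit 5) (nat_lit 5) (nat_lit 5) (nat_lit 4) (nat_lit 321) (nat_lit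 268) (nat_lit 131)) (XT.lf (nat_lit 0) (nat_lit 3459326073) (nat_lit 0) (nat_lit 3459326073) (nat_lit 684) (nat_lit 12237868505) (nat_lit 68) (nat_lit 5) (nat_lit 68) (nat_lit 3) (nat_lit 77) (nat_lit 3) (nat_lit 269) (nat_lit 269) (nat_lit 182))) (XT.nd (nat_lit 78) (nat_lit 0) (nat_lit 76) (XT.lf (nat_lit 0) (nat_lit 14762798372) (nat_lit 684) (nat_lit 5956240872) (nat_lit 760) (nat_lit 19107694423) (nat_lit 68) (nat_lit 5) (nat_lit 77) (nat_lit 3) (nat_lit 78) (nat_lit 5) (nat_lit 270) (nat_lit 269) (nat_lit 181)) (XT.nd (nat_lit 78) (nat_lit 0) (nat_lit 0) (XT.lf (nat_lit 0) (nat_lit 16309670319) (nat_lit 684) (nat_lit 19426490136) (nat_lit 760) (nat_lit 5698016975) (nat_lit 69) (nat_lit 5) (nat_lit 78) (nat_lit 5) (nat_lit 79) (nat_lit 5) (nat_lit 271) (nat_lit 269) (nat_lit 180)) (XT.lf (nat_lit 76) (nat_lit 9195875380) (nat_lit 0) (nat_lit 9376925657) (nat_lit 760) (nat_lit 24567811439)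 (nat_lit 70) (nat_lit 5) (nat_lit 69) (nat_lit 5) (nat_lit 79) (nat_lit 5) (nat_lit 272) (nat_lit 269) (nat_lit 179))))) (XT.nd (nat_lit 156) (nat_lit 532) (nat_lit 0) (XT.nd (nat_lit 78) (nat_lit 0) (nat_lit 76) (XT.lf (nat_lit 0) (nat_lit 21653519814) (nat_lit 684) (nat_lit 4472454984) (nat_lit 760) (nat_lit 18825780307) (nat_lit 70) (nat_lit 5) (nat_lit 79) (nat_lit 5) (nat_lit 80) (nat_lit 5) (nat_lit 273) (nat_lit 269) (nat_lit 178)) (XT.lf (nat_lit 0) (nat_lit 25611770670) (nat_lit 684) (nat_lit 18822545856) (nat_lit 760) (nat_lit 2441937092) (nat_lit 71) (nat_lit 5) (nat_lit 80) (nat_lit 5) (nat_lit 81) (nat_lit 5) (nat_lit 274) (nat_lit 269) (nat_lit 177))) (XT.nd (nat_lit 78) (nat_lit 608) (nat_lit 0) (XT.lf (nat_lit 76) (nat_lit 14406375040) (nat_lit 0) (nat_lit 16220220569) (nat_lit 760) (nat_lit 18291137558) (nat_lit 72) (nat_lit 5) (nat_lit 71) (nat_lit 5) (nat_lit 81) (nat_lit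 5) (nat_lit 275) (nat_lit 269) (nat_lit 176)) (XT.nd (nat_lit 78) (nat_lit 684) (nat_lit 0) (XT.lf (nat_lit 0) (nat_lit 36593937051) (nat_lit 684) (nat_lit 372107079) (nat_lit 76) (nat_lit 14128936030) (nat_lit 72) (nat_lit 5) (nat_lit 81) (nat_lit 5) (nat_lit 73) (nat_lit 5) (nat_lit 276) (nat_lit 269) (nat_lit 175)) (XT.lf (nat_lit 0) (nat_lit 37418850480) (nat_lit 684) (nat_lit 6473439126) (nat_lit 760) (nat_lit 9511450568) (nat_lit 63) (nat_lit 5) (nat_lit 72) (nat_lit 5) (nat_lit 73) (nat_lit 5) (nat_lit 277) (nat_lit 269) (nat_lit 174))))))))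
noncomputable def xc101 : XT := (XT.nd (nat_lit 1482) (nat_lit 1064) (nat_lit 0) (XT.nd (nat_lit 702) (nat_lit 1444) (nat_lit 0) (XT.nd (nat_lit 312) (nat_lit 836) (nat_lit 0) (XT.nd (nat_lit 156) (nat_lit 304) (nat_lit 0) (XT.nd (nat_lit 78) (nat_lit 456) (nat_lit 0) (XT.lf (nat_lit 0) (nat_lit 22657864948) (nat_lit 304) (nat_lit 29886243454) (nat_lit 380) (nat_lit 3314626064) (nat_lit 59) (nat_lit 5) (nat_lit 63) (nat_lit 5) (nat_lit 64) (nat_lit 5) (nat_lit 278) (nat_lit 269) (nat_lit 173)) (XT.lf (nat_lit 0) (nat_lit 3802731392) (nat_lit 456) (nat_lit 52021072323) (nat_lit 76) (nat_lit 2657054310) (nat_lit 53) (nat_lit 5) (nat_lit 59) (nat_lit 5) (nat_lit 54) (nat_lit 5) (nat_lit 279) (nat_lit 269) (nat_lit 172))) (XT.nd (nat_lit 78) (nat_lit 304) (nat_lit 0) (XT.lf (nat_lit 0) (nat_lit 12463199222) (nat_lit 456) (nat_lit 11377885569) (nat_lit 76) (nat_lit 37414468190) (nat_lit 53)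 (nat_lit 5) (nat_lit 59) (nat_lit 5) (nat_lit 54) (nat_lit 5) (nat_lit 280) (nat_lit 269) (nat_lit 171)) (XT.lf (nat_lit 0) (nat_lit 22513367834) (nat_lit 380) (nat_lit 30813392370) (nat_lit 76) (nat_lit 10890630277) (nat_lit 49) (nat_lit 5) (nat_lit 54) (nat_lit 5) (nat_lit 50) (nat_lit 5) (nat_lit 281) (nat_lit 269) (nat_lit 170)))) (XT.nd (nat_lit 156) (nat_lit 532) (nat_lit 0) (XT.nd (nat_lit 78) (nat_lit 0) (nat_lit 0) (XT.lf (nat_lit 0) (nat_lit 14834645221) (nat_lit 304) (nat_lit 19364946153) (nat_lit 380) (nat_lit 33174990903) (nat_lit 45) (nat_lit 5) (nat_lit 49) (nat_lit 5) (nat_lit 50) (nat_lit 5) (nat_lit 282) (nat_lit 269) (nat_lit 169)) (XT.lf (nat_lit 0) (nat_lit 47633728077) (nat_lit 380) (nat_lit 5805135251) (nat_lit 76) (nat_lit 17304843996) (nat_lit 45) (nat_lit 5) (nat_lit 50) (nat_lit 5) (nat_lit 46) (nat_lit 5) (nat_lit 283) (nat_lit 269) (nat_lit 168))) (XT.nd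 (nat_lit 78) (nat_lit 304) (nat_lit 0) (XT.lf (nat_lit 0) (nat_lit 45804843842) (nat_lit 228) (nat_lit 17376782914) (nat_lit 304) (nat_lit 11148792095) (nat_lit 42) (nat_lit 5) (nat_lit 45) (nat_lit 5) (nat_lit 46) (nat_lit 5) (nat_lit 284) (nat_lit 269) (nat_lit 167)) (XT.nd (nat_lit 78) (nat_lit 0) (nat_lit 0) (XT.lf (nat_lit 0) (nat_lit 2537370824) (nat_lit 304) (nat_lit 54226618331) (nat_lit 76) (nat_lit 21397468593) (nat_lit 38) (nat_lit 5) (nat_lit 42) (nat_lit 5) (nat_lit 39) (nat_lit 5) (nat_lit 285) (nat_lit 269) (nat_lit 166)) (XT.lf (nat_lit 0) (nat_lit 17728691782) (nat_lit 304) (nat_lit 1155607193) (nat_lit 76) (nat_lit 63365505766) (nat_lit 38) (nat_lit 5) (nat_lit 42) (nat_lit 5) (nat_lit 39) (nat_lit 5) (nat_lit 286) (nat_lit 269) (nat_lit 165)))))) (XT.nd (nat_lit 390) (nat_lit 532) (nat_lit 0) (XT.nd (nat_lit 156) (nat_lit 456) (nat_lit 0) (XT.nd (nat_lit 78) (nat_lit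 228) (nat_lit 0) (XT.lf (nat_lit 0) (nat_lit 35397593303) (nat_lit 304) (nat_lit 28963673626) (nat_lit 76) (nat_lit 22240844890) (nat_lit 35) (nat_lit 5) (nat_lit 39) (nat_lit 5) (nat_lit 36) (nat_lit 5) (nat_lit 287) (nat_lit 269) (nat_lit 164)) (XT.lf (nat_lit 0) (nat_lit 30531304362) (nat_lit 228) (nat_lit 24762152020) (nat_lit 304) (nat_lit 35968480232) (nat_lit 32) (nat_lit 5) (nat_lit 35) (nat_lit 5) (nat_lit 36) (nat_lit 5) (nat_lit 288) (nat_lit 269) (nat_lit 163))) (XT.nd (nat_lit 78) (nat_lit 456) (nat_lit 0) (XT.lf (nat_lit 0) (nat_lit 77572885110) (nat_lit 304) (nat_lit 741317817) (nat_lit 76) (nat_lit 17940754839) (nat_lit 32) (nat_lit 5) (nat_lit 36) (nat_lit 5) (nat_lit 33) (nat_lit 5) (nat_lit 289) (nat_lit 269) (nat_lit 162)) (XT.nd (nat_lit 78) (nat_lit 228) (nat_lit 0) (XT.lf (nat_lit 0) (nat_lit 1453205703) (nat_lit 228) (nat_lit 35867941737) (nat_lit 76) (nat_lit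 64253010214) (nat_lit 29) (nat_lit 5) (nat_lit 32) (nat_lit 5) (nat_lit 30) (nat_lit 5) (nat_lit 290) (nat_lit 269) (nat_lit 161)) (XT.lf (nat_lit 0) (nat_lit 23168264729) (nat_lit 304) (nat_lit 76552963380) (nat_lit 76) (nat_lit 7551182139) (nat_lit 26) (nat_lit 5) (nat_lit 30) (nat_lit 5) (nat_lit 27) (nat_lit 5) (nat_lit 291) (nat_lit 269) (nat_lit 160))))) (XT.nd (nat_lit 156) (nat_lit 380) (nat_lit 0) (XT.nd (nat_lit 78) (nat_lit 152) (nat_lit 0) (XT.lf (nat_lit 0) (nat_lit 47883159449) (nat_lit 304) (nat_lit 10122665660) (nat_lit 76) (nat_lit 55357570328) (nat_lit 26) (nat_lit 5) (nat_lit 30) (nat_lit 5) (nat_lit 27) (nat_lit 5) (nat_lit 292) (nat_lit 269) (nat_lit 159)) (XT.lf (nat_lit 0) (nat_lit 63657171488) (nat_lit 152) (nat_lit 11910357106) (nat_lit 228) (nat_lit 44324520347) (nat_lit 24) (nat_lit 5) (nat_lit 26) (nat_lit 5) (nat_lit 27) (nat_lit 5) (nat_lit 293) (nat_lit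 269) (nat_lit 158))) (XT.nd (nat_lit 78) (nat_lit 228) (nat_lit 0) (XT.lf (nat_lit 0) (nat_lit 16704886490) (nat_lit 152) (nat_lit 89791579314) (nat_lit 228) (nat_lit 20395041368) (nat_lit 22) (nat_lit 5) (nat_lit 24) (nat_lit 5) (nat_lit 25) (nat_lit 5) (nat_lit 294) (nat_lit 269) (nat_lit 157)) (XT.nd (nat_lit 78) (nat_lit 152) (nat_lit 0) (XT.lf (nat_lit 0) (nat_lit 6469403895) (nat_lit 228) (nat_lit 37218172965) (nat_lit 76) (nat_lit 90699344456) (nat_lit 21) (nat_lit 5) (nat_lit 24) (nat_lit 5) (nat_lit 22) (nat_lit 5) (nat_lit 295) (nat_lit 269) (nat_lit 156)) (XT.lf (nat_lit 0) (nat_lit 35553695598) (nat_lit 228) (nat_lit 99938000762) (nat_lit 76) (nat_lit 6934296052) (nat_lit 19) (nat_lit 5) (nat_lit 22) (nat_lit 5) (nat_lit 20) (nat_lit 5) (nat_lit 296) (nat_lit 269) (nat_lit 155))))))) (XT.nd (nat_lit 780) (nat_lit 304) (nat_lit 0) (XT.nd (nat_lit 390) (nat_lit 456) (nat_lit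 0) (XT.nd (nat_lit 156) (nat_lit 152) (nat_lit 0) (XT.nd (nat_lit 78) (nat_lit 152) (nat_lit 0) (XT.lf (nat_lit 0) (nat_lit 68359033628) (nat_lit 228) (nat_lit 21925386975) (nat_lit 76) (nat_lit 60754055994) (nat_lit 19) (nat_lit 5) (nat_lit 22) (nat_lit 5) (nat_lit 20) (nat_lit 5) (nat_lit 297) (nat_lit 269) (nat_lit 154)) (XT.lf (nat_lit 0) (nat_lit 64387145659) (nat_lit 152) (nat_lit 40405718625) (nat_lit 228) (nat_lit 55496894315) (nat_lit 17) (nat_lit 5) (nat_lit 19) (nat_lit 5) (nat_lit 20) (nat_lit 5) (nat_lit 298) (nat_lit 269) (nat_lit 153))) (XT.nd (nat_lit 78) (nat_lit 152) (nat_lit 0) (XT.lf (nat_lit 0) (nat_lit 144738640224) (nat_lit 228) (nat_lit 12092726071) (nat_lit 76) (nat_lit 13419917112) (nat_lit 17) (nat_lit 5) (nat_lit 20) (nat_lit 5) (nat_lit 18) (nat_lit 4) (nat_lit 299) (nat_lit 269) (nat_lit 152)) (XT.nd (nat_lit 78) (nat_lit 0) (nat_lit 0) (XT.lf (nat_lit 0)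 (nat_lit 8616263706) (nat_lit 152) (nat_lit 100742672577) (nat_lit 76) (nat_lit 71547142089) (nat_lit 15) (nat_lit 5) (nat_lit 17) (nat_lit 5) (nat_lit 16) (nat_lit 5) (nat_lit 300) (nat_lit 269) (nat_lit 151)) (XT.lf (nat_lit 0) (nat_lit 44806666812) (nat_lit 152) (nat_lit 12606184537) (nat_lit 76) (nat_lit 134968244249) (nat_lit 15) (nat_lit 5) (nat_lit 17) (nat_lit 5) (nat_lit 16) (nat_lit 5) (nat_lit 301) (nat_lit 269) (nat_lit 150))))) (XT.nd (nat_lit 156) (nat_lit 304) (nat_lit 0) (XT.nd (nat_lit 78) (nat_lit 0) (nat_lit 0) (XT.lf (nat_lit 0) (nat_lit 85224636481) (nat_lit 228) (nat_lit 119398792052) (nat_lit 76) (nat_lit 84070605) (nat_lit 13) (nat_lit 5) (nat_lit 16) (nat_lit 5) (nat_lit 14) (nat_lit 4) (nat_lit 302) (nat_lit 269) (nat_lit 149)) (XT.lf (nat_lit 0) (nat_lit 130066407229) (nat_lit 228) (nat_lit 27475287058) (nat_lit 76) (nat_lit 60418804032) (nat_lit 13) (nat_lit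 5) (nat_lit 16) (nat_lit 5) (nat_lit 14) (nat_lit 4) (nat_lit 303) (nat_lit 269) (nat_lit 148))) (XT.nd (nat_lit 78) (nat_lit 228) (nat_lit 0) (XT.lf (nat_lit 0) (nat_lit 74174746903) (nat_lit 76) (nat_lit 105478002564) (nat_lit 152) (nat_lit 52563127892) (nat_lit 12) (nat_lit 5) (nat_lit 13) (nat_lit 5) (nat_lit 14) (nat_lit 4) (nat_lit 304) (nat_lit 269) (nat_lit 147)) (XT.nd (nat_lit 78) (nat_lit 228) (nat_lit 0) (XT.lf (nat_lit 0) (nat_lit 184936571785) (nat_lit 76) (nat_lit 48747224882) (nat_lit 152) (nat_lit 13904001489) (nat_lit 12) (nat_lit 5) (nat_lit 13) (nat_lit 5) (nat_lit 14) (nat_lit 4) (nat_lit 305) (nat_lit 269) (nat_lit 146)) (XT.lf (nat_lit 0) (nat_lit 27813067763) (nat_lit 228) (nat_lit 223094542805) (nat_lit 76) (nat_lit 13217298151) (nat_lit 9) (nat_lit 5) (nat_lit 12) (nat_lit 5) (nat_lit 10) (nat_lit 4) (nat_lit 306) (nat_lit 269) (nat_lit 145)))))) (XT.nd (nat_lit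 390) (nat_lit 228) (nat_lit 0) (XT.nd (nat_lit 156) (nat_lit 76) (nat_lit 0) (XT.nd (nat_lit 78) (nat_lit 0) (nat_lit 0) (XT.lf (nat_lit 0) (nat_lit 74317359976) (nat_lit 228) (nat_lit 127762231357) (nat_lit 76) (nat_lit 79797151850) (nat_lit 9) (nat_lit 5) (nat_lit 12) (nat_lit 5) (nat_lit 10) (nat_lit 4) (nat_lit 307) (nat_lit 269) (nat_lit 144)) (XT.lf (nat_lit 0) (nat_lit 124541320939) (nat_lit 228) (nat_lit 24804488777) (nat_lit 76) (nat_lit 151702949410) (nat_lit 9) (nat_lit 5) (nat_lit 12) (nat_lit 5) (nat_lit 10) (nat_lit 4) (nat_lit 308) (nat_lit 269) (nat_lit 143))) (XT.nd (nat_lit 78) (nat_lit 0) (nat_lit 0) (XT.lf (nat_lit 0) (nat_lit 89245208923) (nat_lit 76) (nat_lit 90930733024) (nat_lit 152) (nat_lit 141508958159) (nat_lit 8) (nat_lit 5) (nat_lit 9) (nat_lit 5) (nat_lit 10) (nat_lit 4) (nat_lit 309) (nat_lit 269) (nat_lit 142)) (XT.nd (nat_lit 78) (nat_lit 0) (nat_lit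 0) (XT.lf (nat_lit 0) (nat_lit 213303620841) (nat_lit 76) (nat_lit 27389195649) (nat_lit 152) (nat_lit 103257542532) (nat_lit 8) (nat_lit 5) (nat_lit 9) (nat_lit 5) (nat_lit 10) (nat_lit 4) (nat_lit 310) (nat_lit 269) (nat_lit 141)) (XT.lf (nat_lit 0) (nat_lit 306694288792) (nat_lit 152) (nat_lit 21355121546) (nat_lit 0) (nat_lit 39915482711) (nat_lit 8) (nat_lit 5) (nat_lit 10) (nat_lit 4) (nat_lit 8) (nat_lit 4) (nat_lit 311) (nat_lit 269) (nat_lit 140))))) (XT.nd (nat_lit 156) (nat_lit 76) (nat_lit 0) (XT.nd (nat_lit 78) (nat_lit 76) (nat_lit 0) (XT.lf (nat_lit 0) (nat_lit 99398467679) (nat_lit 76) (nat_lit 280590616441) (nat_lit 76) (nat_lit 13810846144) (nat_lit 7) (nat_lit 4) (nat_lit 8) (nat_lit 5) (nat_lit 8) (nat_lit 4) (nat_lit 312) (nat_lit 269) (nat_lit 139)) (XT.lf (nat_lit 0) (nat_lit 36624788089) (nat_lit 152) (nat_lit 191699847505) (nat_lit 76) (nat_lit 193329024322)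 (nat_lit 6) (nat_lit 5) (nat_lit 8) (nat_lit 5) (nat_lit 7) (nat_lit 4) (nat_lit 313) (nat_lit 269) (nat_lit 138))) (XT.nd (nat_lit 78) (nat_lit 76) (nat_lit 0) (XT.lf (nat_lit 0) (nat_lit 90617414858) (nat_lit 152) (nat_lit 81015789289) (nat_lit 76) (nat_lit 280090863695) (nat_lit 6) (nat_lit 5) (nat_lit 8) (nat_lit 5) (nat_lit 7) (nat_lit 4) (nat_lit 314) (nat_lit 269) (nat_lit 137)) (XT.nd (nat_lit 78) (nat_lit 0) (nat_lit 0) (XT.lf (nat_lit 0) (nat_lit 39795962950) (nat_lit 76) (nat_lit 109754387354) (nat_lit 152) (nat_lit 334618713721) (nat_lit 5) (nat_lit 5) (nat_lit 6) (nat_lit 5) (nat_lit 7) (nat_lit 4) (nat_lit 315) (nat_lit 269) (nat_lit 136)) (XT.lf (nat_lit 0) (nat_lit 173164985686) (nat_lit 76) (nat_lit 41443770210) (nat_lit 152) (nat_lit 304530362753) (nat_lit 5) (nat_lit 5) (nat_lit 6) (nat_lit 5) (nat_lit 7) (nat_lit 4) (nat_lit 316) (nat_lit 269) (nat_lit 135))))))))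
noncomputable def xc102 : XT := (XT.nd (nat_lit 34944) (nat_lit 0) (nat_lit 684) (XT.nd (nat_lit 34164) (nat_lit 0) (nat_lit 3116) (XT.nd (nat_lit 312) (nat_lit 0) (nat_lit 0) (XT.nd (nat_lit 156) (nat_lit 76) (nat_lit 0) (XT.nd (nat_lit 78) (nat_lit 0) (nat_lit 0) (XT.lf (nat_lit 0) (nat_lit 285376240556) (nat_lit 152) (nat_lit 240208714893) (nat_lit 0) (nat_lit 31296602335) (nat_lit 5) (nat_lit 5) (nat_lit 7) (nat_lit 4) (nat_lit 5) (nat_lit 4) (nat_lit 317) (nat_lit 269) (nat_lit 134)) (XT.lf (nat_lit 0) (nat_lit 362503588169) (nat_lit 152) (nat_lit 126681509847) (nat_lit 0) (nat_lit 108423371263) (nat_lit 5) (nat_lit 5) (nat_lit 7) (nat_lit 4) (nat_lit 5) (nat_lit 4) (nat_lit 318) (nat_lit 269) (nat_lit 133))) (XT.nd (nat_lit 78) (nat_lit 76) (nat_lit 0) (XT.lf (nat_lit 0) (nat_lit 445800796286) (nat_lit 152) (nat_lit 4072710618) (nat_lit 0) (nat_lit 191720043560) (nat_lit 5) (nat_lit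 5) (nat_lit 7) (nat_lit 4) (nat_lit 5) (nat_lit 4) (nat_lit 319) (nat_lit 269) (nat_lit 132)) (XT.lf (nat_lit 0) (nat_lit 132587894093) (nat_lit 76) (nat_lit 405243652502) (nat_lit 76) (nat_lit 151162403647) (nat_lit 4) (nat_lit 4) (nat_lit 5) (nat_lit 5) (nat_lit 5) (nat_lit 4) (nat_lit 320) (nat_lit 269) (nat_lit 131)))) (XT.nd (nat_lit 33618) (nat_lit 0) (nat_lit 4864) (XT.nd (nat_lit 33540) (nat_lit 0) (nat_lit 4864) (XT.lf (nat_lit 0) (nat_lit 280326266700) (nat_lit 76) (nat_lit 356969145558) (nat_lit 76) (nat_lit 102887437324) (nat_lit 4) (nat_lit 4) (nat_lit 5) (nat_lit 5) (nat_lit 5) (nat_lit 4) (nat_lit 321) (nat_lit 269) (nat_lit 130)) (XT.lf (nat_lit 0) (nat_lit 3767211446) (nat_lit 0) (nat_lit 3767211446) (nat_lit 684) (nat_lit 13151281799) (nat_lit 68) (nat_lit 5) (nat_lit 68) (nat_lit 3) (nat_lit 77) (nat_lit 3) (nat_lit 270) (nat_lit 270) (nat_lit 180))) (XT.nd (nat_lit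 78) (nat_lit 0) (nat_lit 76) (XT.lf (nat_lit 0) (nat_lit 16058252617) (nat_lit 684) (nat_lit 6367993714) (nat_lit 760) (nat_lit 20580490281) (nat_lit 68) (nat_lit 5) (nat_lit 77) (nat_lit 3) (nat_lit 78) (nat_lit 5) (nat_lit 271) (nat_lit 270) (nat_lit 179)) (XT.nd (nat_lit 78) (nat_lit 0) (nat_lit 0) (XT.lf (nat_lit 0) (nat_lit 17720662544) (nat_lit 684) (nat_lit 20912244731) (nat_lit 760) (nat_lit 6110309874) (nat_lit 69) (nat_lit 5) (nat_lit 78) (nat_lit 5) (nat_lit 79) (nat_lit 5) (nat_lit 272) (nat_lit 270) (nat_lit 178)) (XT.lf (nat_lit 76) (nat_lit 9996938983) (nat_lit 0) (nat_lit 10161057669) (nat_lit 760) (nat_lit 26428541112) (nat_lit 70) (nat_lit 5) (nat_lit 69) (nat_lit 5) (nat_lit 79) (nat_lit 5) (nat_lit 273) (nat_lit 270) (nat_lit 177)))))) (XT.nd (nat_lit 390) (nat_lit 1368) (nat_lit 0) (XT.nd (nat_lit 156) (nat_lit 532) (nat_lit 0) (XT.nd (nat_lit 78) (nat_lit 0) (nat_lit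 76) (XT.lf (nat_lit 0) (nat_lit 23477320881) (nat_lit 684) (nat_lit 4764281221) (nat_lit 760) (nat_lit 20301388609) (nat_lit 70) (nat_lit 5) (nat_lit 79) (nat_lit 5) (nat_lit 80) (nat_lit 5) (nat_lit 274) (nat_lit 270) (nat_lit 176)) (XT.lf (nat_lit 0) (nat_lit 27746084605) (nat_lit 684) (nat_lit 20260302405) (nat_lit 760) (nat_lit 2615393815) (nat_lit 71) (nat_lit 5) (nat_lit 80) (nat_lit 5) (nat_lit 81) (nat_lit 5) (nat_lit 275) (nat_lit 270) (nat_lit 175))) (XT.nd (nat_lit 78) (nat_lit 608) (nat_lit 0) (XT.lf (nat_lit 76) (nat_lit 15623974919) (nat_lit 0) (nat_lit 17532812983) (nat_lit 760) (nat_lit 19670078770) (nat_lit 72) (nat_lit 5) (nat_lit 71) (nat_lit 5) (nat_lit 81) (nat_lit 5) (nat_lit 276) (nat_lit 270) (nat_lit 174)) (XT.nd (nat_lit 78) (nat_lit 684) (nat_lit 0) (XT.lf (nat_lit 0) (nat_lit 39595369465) (nat_lit 684) (nat_lit 337423033) (nat_lit 76) (nat_lit 15245829169)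 (nat_lit 72) (nat_lit 5) (nat_lit 81) (nat_lit 5) (nat_lit 73) (nat_lit 5) (nat_lit 277) (nat_lit 270) (nat_lit 173)) (XT.lf (nat_lit 0) (nat_lit 40474010099) (nat_lit 684) (nat_lit 6999067312) (nat_lit 760) (nat_lit 10199250046) (nat_lit 63) (nat_lit 5) (nat_lit 72) (nat_lit 5) (nat_lit 73) (nat_lit 5) (nat_lit 278) (nat_lit 270) (nat_lit 172))))) (XT.nd (nat_lit 156) (nat_lit 608) (nat_lit 0) (XT.nd (nat_lit 78) (nat_lit 456) (nat_lit 0) (XT.lf (nat_lit 0) (nat_lit 24533132823) (nat_lit 304) (nat_lit 32279633689) (nat_lit 380) (nat_lit 3511186445) (nat_lit 59) (nat_lit 5) (nat_lit 63) (nat_lit 5) (nat_lit 64) (nat_lit 5) (nat_lit 279) (nat_lit 270) (nat_lit 171)) (XT.lf (nat_lit 0) (nat_lit 4169411750) (nat_lit 456) (nat_lit 56117212794) (nat_lit 76) (nat_lit 2869381681) (nat_lit 53) (nat_lit 5) (nat_lit 59) (nat_lit 5) (nat_lit 54) (nat_lit 5) (nat_lit 280) (nat_lit 270) (nat_lit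 170))) (XT.nd (nat_lit 78) (nat_lit 608) (nat_lit 0) (XT.lf (nat_lit 0) (nat_lit 13518090204) (nat_lit 456) (nat_lit 12227426308) (nat_lit 76) (nat_lit 40407406225) (nat_lit 53) (nat_lit 5) (nat_lit 59) (nat_lit 5) (nat_lit 54) (nat_lit 5) (nat_lit 281) (nat_lit 270) (nat_lit 169)) (XT.nd (nat_lit 78) (nat_lit 304) (nat_lit 0) (XT.lf (nat_lit 0) (nat_lit 24368950723) (nat_lit 380) (nat_lit 33217575241) (nat_lit 76) (nat_lit 11765360887) (nat_lit 49) (nat_lit 5) (nat_lit 54) (nat_lit 5) (nat_lit 50) (nat_lit 5) (nat_lit 282) (nat_lit 270) (nat_lit 168)) (XT.lf (nat_lit 0) (nat_lit 16079659216) (nat_lit 304) (nat_lit 20907284222) (nat_lit 380) (nat_lit 35774879521) (nat_lit 45) (nat_lit 5) (nat_lit 49) (nat_lit 5) (nat_lit 50) (nat_lit 5) (nat_lit 283) (nat_lit 270) (nat_lit 167))))))) (XT.nd (nat_lit 780) (nat_lit 988) (nat_lit 0) (XT.nd (nat_lit 390) (nat_lit 684) (nat_lit 0) (XT.nd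 (nat_lit 156) (nat_lit 532) (nat_lit 0) (XT.nd (nat_lit 78) (nat_lit 228) (nat_lit 0) (XT.lf (nat_lit 0) (nat_lit 51492103935) (nat_lit 380) (nat_lit 6213193098) (nat_lit 76) (nat_lit 18695377938) (nat_lit 45) (nat_lit 5) (nat_lit 50) (nat_lit 5) (nat_lit 46) (nat_lit 5) (nat_lit 284) (nat_lit 270) (nat_lit 166)) (XT.lf (nat_lit 0) (nat_lit 49523135292) (nat_lit 228) (nat_lit 18758009134) (nat_lit 304) (nat_lit 11993324245) (nat_lit 42) (nat_lit 5) (nat_lit 45) (nat_lit 5) (nat_lit 46) (nat_lit 5) (nat_lit 285) (nat_lit 270) (nat_lit 165))) (XT.nd (nat_lit 78) (nat_lit 228) (nat_lit 0) (XT.lf (nat_lit 0) (nat_lit 2783802158) (nat_lit 304) (nat_lit 58509484700) (nat_lit 76) (nat_lit 23118796986) (nat_lit 38) (nat_lit 5) (nat_lit 42) (nat_lit 5) (nat_lit 39) (nat_lit 5) (nat_lit 286) (nat_lit 270) (nat_lit 164)) (XT.nd (nat_lit 78) (nat_lit 228) (nat_lit 0) (XT.lf (nat_lit 0) (nat_lit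 19187210891) (nat_lit 304) (nat_lit 1196886233) (nat_lit 76) (nat_lit 68443571139) (nat_lit 38) (nat_lit 5) (nat_lit 42) (nat_lit 5) (nat_lit 39) (nat_lit 5) (nat_lit 287) (nat_lit 270) (nat_lit 163)) (XT.lf (nat_lit 0) (nat_lit 38267579940) (nat_lit 304) (nat_lit 31229990544) (nat_lit 76) (nat_lit 24030699778) (nat_lit 35) (nat_lit 5) (nat_lit 39) (nat_lit 5) (nat_lit 36) (nat_lit 5) (nat_lit 288) (nat_lit 270) (nat_lit 162))))) (XT.nd (nat_lit 156) (nat_lit 456) (nat_lit 0) (XT.nd (nat_lit 78) (nat_lit 0) (nat_lit 0) (XT.lf (nat_lit 0) (nat_lit 33022378978) (nat_lit 228) (nat_lit 26730663317) (nat_lit 304) (nat_lit 38807949754) (nat_lit 32) (nat_lit 5) (nat_lit 35) (nat_lit 5) (nat_lit 36) (nat_lit 5) (nat_lit 289) (nat_lit 270) (nat_lit 161)) (XT.lf (nat_lit 0) (nat_lit 83812330689) (nat_lit 304) (nat_lit 754072122) (nat_lit 76) (nat_lit 19387183780) (nat_lit 32) (nat_lit 5) (nat_lit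 36) (nat_lit 5) (nat_lit 33) (nat_lit 5) (nat_lit 290) (nat_lit 270) (nat_lit 160))) (XT.nd (nat_lit 78) (nat_lit 228) (nat_lit 0) (XT.lf (nat_lit 0) (nat_lit 1601881823) (nat_lit 228) (nat_lit 38691700298) (nat_lit 76) (nat_lit 69404810391) (nat_lit 29) (nat_lit 5) (nat_lit 32) (nat_lit 5) (nat_lit 30) (nat_lit 5) (nat_lit 291) (nat_lit 270) (nat_lit 159)) (XT.nd (nat_lit 78) (nat_lit 0) (nat_lit 0) (XT.lf (nat_lit 0) (nat_lit 25052629097) (nat_lit 304) (nat_lit 82632105460) (nat_lit 76) (nat_lit 8167852268) (nat_lit 26) (nat_lit 5) (nat_lit 30) (nat_lit 5) (nat_lit 27) (nat_lit 5) (nat_lit 292) (nat_lit 270) (nat_lit 158)) (XT.lf (nat_lit 0) (nat_lit 51742426269) (nat_lit 304) (nat_lit 10890724291) (nat_lit 76) (nat_lit 59797819989) (nat_lit 26) (nat_lit 5) (nat_lit 30) (nat_lit 5) (nat_lit 27) (nat_lit 5) (nat_lit 293) (nat_lit 270) (nat_lit 157)))))) (XT.nd (nat_lit 390) (nat_lit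 456) (nat_lit 0) (XT.nd (nat_lit 156) (nat_lit 228) (nat_lit 0) (XT.nd (nat_lit 78) (nat_lit 152) (nat_lit 0) (XT.lf (nat_lit 0) (nat_lit 68789685223) (nat_lit 152) (nat_lit 12850363738) (nat_lit 228) (nat_lit 47841947048) (nat_lit 24) (nat_lit 5) (nat_lit 26) (nat_lit 5) (nat_lit 27) (nat_lit 5) (nat_lit 294) (nat_lit 270) (nat_lit 156)) (XT.lf (nat_lit 0) (nat_lit 18080645467) (nat_lit 152) (nat_lit 96961446937) (nat_lit 228) (nat_lit 21999383446) (nat_lit 22) (nat_lit 5) (nat_lit 24) (nat_lit 5) (nat_lit 25) (nat_lit 5) (nat_lit 295) (nat_lit 270) (nat_lit 155))) (XT.nd (nat_lit 78) (nat_lit 152) (nat_lit 0) (XT.lf (nat_lit 0) (nat_lit 7011390190) (nat_lit 228) (nat_lit 40158317238) (nat_lit 76) (nat_lit 97966896133) (nat_lit 21) (nat_lit 5) (nat_lit 24) (nat_lit 5) (nat_lit 22) (nat_lit 5) (nat_lit 296) (nat_lit 270) (nat_lit 154)) (XT.nd (nat_lit 78) (nat_lit 0) (nat_lit 0) (XT.lf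 (nat_lit 0) (nat_lit 38421367765) (nat_lit 228) (nat_lit 107896342817) (nat_lit 76) (nat_lit 7501146323) (nat_lit 19) (nat_lit 5) (nat_lit 22) (nat_lit 5) (nat_lit 20) (nat_lit 5) (nat_lit 297) (nat_lit 270) (nat_lit 153)) (XT.lf (nat_lit 0) (nat_lit 73849401243) (nat_lit 228) (nat_lit 23645438298) (nat_lit 76) (nat_lit 65625590276) (nat_lit 19) (nat_lit 5) (nat_lit 22) (nat_lit 5) (nat_lit 20) (nat_lit 5) (nat_lit 298) (nat_lit 270) (nat_lit 152))))) (XT.nd (nat_lit 156) (nat_lit 304) (nat_lit 0) (XT.nd (nat_lit 78) (nat_lit 0) (nat_lit 0) (XT.lf (nat_lit 0) (nat_lit 69570620234) (nat_lit 152) (nat_lit 43626222251) (nat_lit 228) (nat_lit 59915029847) (nat_lit 17) (nat_lit 5) (nat_lit 19) (nat_lit 5) (nat_lit 20) (nat_lit 5) (nat_lit 299) (nat_lit 270) (nat_lit 151)) (XT.lf (nat_lit 0) (nat_lit 156336931156) (nat_lit 228) (nat_lit 13029233746) (nat_lit 76) (nat_lit 14504224616) (nat_lit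 17) (nat_lit 5) (nat_lit 20) (nat_lit 5) (nat_lit 18) (nat_lit 4) (nat_lit 300) (nat_lit 270) (nat_lit 150))) (XT.nd (nat_lit 78) (nat_lit 152) (nat_lit 0) (XT.lf (nat_lit 0) (nat_lit 9324135726) (nat_lit 152) (nat_lit 108771873009) (nat_lit 76) (nat_lit 77281595107) (nat_lit 15) (nat_lit 5) (nat_lit 17) (nat_lit 5) (nat_lit 16) (nat_lit 5) (nat_lit 301) (nat_lit 270) (nat_lit 149)) (XT.nd (nat_lit 78) (nat_lit 152) (nat_lit 0) (XT.lf (nat_lit 0) (nat_lit 48408395456) (nat_lit 152) (nat_lit 13586703954) (nat_lit 76) (nat_lit 145775594206) (nat_lit 15) (nat_lit 5) (nat_lit 17) (nat_lit 5) (nat_lit 16) (nat_lit 5) (nat_lit 302) (nat_lit 270) (nat_lit 148)) (XT.lf (nat_lit 0) (nat_lit 92059109454) (nat_lit 228) (nat_lit 128923253913) (nat_lit 76) (nat_lit 100882948) (nat_lit 13) (nat_lit 5) (nat_lit 16) (nat_lit 5) (nat_lit 14) (nat_lit 4) (nat_lit 303) (nat_lit 270) (nat_lit 147))))))))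
noncomputable def xc103 : XT := (XT.nd (nat_lit 35022) (nat_lit 0) (nat_lit 2128) (XT.nd (nat_lit 702) (nat_lit 304) (nat_lit 0) (XT.nd (nat_lit 312) (nat_lit 76) (nat_lit 0) (XT.nd (nat_lit 156) (nat_lit 228) (nat_lit 0) (XT.nd (nat_lit 78) (nat_lit 76) (nat_lit 0) (XT.lf (nat_lit 0) (nat_lit 140486999487) (nat_lit 228) (nat_lit 29647901223) (nat_lit 76) (nat_lit 65261647887) (nat_lit 13) (nat_lit 5) (nat_lit 16) (nat_lit 5) (nat_lit 14) (nat_lit 4) (nat_lit 304) (nat_lit 270) (nat_lit 146)) (XT.lf (nat_lit 0) (nat_lit 80133031220) (nat_lit 76) (nat_lit 113906465519) (nat_lit 152) (nat_lit 56752900736) (nat_lit 12) (nat_lit 5) (nat_lit 13) (nat_lit 5) (nat_lit 14) (nat_lit 4) (nat_lit 305) (nat_lit 270) (nat_lit 145))) (XT.nd (nat_lit 78) (nat_lit 228) (nat_lit 0) (XT.lf (nat_lit 0) (nat_lit 199754001754) (nat_lit 76) (nat_lit 52637949863) (nat_lit 152) (nat_lit 15002175879) (nat_lit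 12) (nat_lit 5) (nat_lit 13) (nat_lit 5) (nat_lit 14) (nat_lit 4) (nat_lit 306) (nat_lit 270) (nat_lit 144)) (XT.lf (nat_lit 0) (nat_lit 30051274876) (nat_lit 228) (nat_lit 240919596338) (nat_lit 76) (nat_lit 14283352761) (nat_lit 9) (nat_lit 5) (nat_lit 12) (nat_lit 5) (nat_lit 10) (nat_lit 4) (nat_lit 307) (nat_lit 270) (nat_lit 143)))) (XT.nd (nat_lit 156) (nat_lit 76) (nat_lit 0) (XT.nd (nat_lit 78) (nat_lit 0) (nat_lit 0) (XT.lf (nat_lit 0) (nat_lit 80274935525) (nat_lit 228) (nat_lit 137962367373) (nat_lit 76) (nat_lit 86188952478) (nat_lit 9) (nat_lit 5) (nat_lit 12) (nat_lit 5) (nat_lit 10) (nat_lit 4) (nat_lit 308) (nat_lit 270) (nat_lit 142)) (XT.lf (nat_lit 0) (nat_lit 134515910644) (nat_lit 228) (nat_lit 26769549275) (nat_lit 76) (nat_lit 163846619140) (nat_lit 9) (nat_lit 5) (nat_lit 12) (nat_lit 5) (nat_lit 10) (nat_lit 4) (nat_lit 309) (nat_lit 270) (nat_lit 141))) (XT.nd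 (nat_lit 78) (nat_lit 0) (nat_lit 0) (XT.lf (nat_lit 0) (nat_lit 96403285547) (nat_lit 76) (nat_lit 98197468142) (nat_lit 152) (nat_lit 152818386239) (nat_lit 8) (nat_lit 5) (nat_lit 9) (nat_lit 5) (nat_lit 10) (nat_lit 4) (nat_lit 310) (nat_lit 270) (nat_lit 140)) (XT.nd (nat_lit 78) (nat_lit 0) (nat_lit 0) (XT.lf (nat_lit 0) (nat_lit 230385003017) (nat_lit 76) (nat_lit 29573179890) (nat_lit 152) (nat_lit 111507693553) (nat_lit 8) (nat_lit 5) (nat_lit 9) (nat_lit 5) (nat_lit 10) (nat_lit 4) (nat_lit 311) (nat_lit 270) (nat_lit 139)) (XT.lf (nat_lit 0) (nat_lit 331239139999) (nat_lit 152) (nat_lit 23047334844) (nat_lit 0) (nat_lit 43115131069) (nat_lit 8) (nat_lit 5) (nat_lit 10) (nat_lit 4) (nat_lit 8) (nat_lit 4) (nat_lit 312) (nat_lit 270) (nat_lit 138)))))) (XT.nd (nat_lit 390) (nat_lit 76) (nat_lit 0) (XT.nd (nat_lit 156) (nat_lit 76) (nat_lit 0) (XT.nd (nat_lit 78) (nat_lit 76)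 (nat_lit 0) (XT.lf (nat_lit 0) (nat_lit 107365837642) (nat_lit 76) (nat_lit 303031233704) (nat_lit 76) (nat_lit 14906398116) (nat_lit 7) (nat_lit 4) (nat_lit 8) (nat_lit 5) (nat_lit 8) (nat_lit 4) (nat_lit 313) (nat_lit 270) (nat_lit 137)) (XT.lf (nat_lit 0) (nat_lit 39563120728) (nat_lit 152) (nat_lit 207021203521) (nat_lit 76) (nat_lit 208801200224) (nat_lit 6) (nat_lit 5) (nat_lit 8) (nat_lit 5) (nat_lit 7) (nat_lit 4) (nat_lit 314) (nat_lit 270) (nat_lit 136))) (XT.nd (nat_lit 78) (nat_lit 76) (nat_lit 0) (XT.lf (nat_lit 0) (nat_lit 97874539150) (nat_lit 152) (nat_lit 87483504484) (nat_lit 76) (nat_lit 302503553120) (nat_lit 6) (nat_lit 5) (nat_lit 8) (nat_lit 5) (nat_lit 7) (nat_lit 4) (nat_lit 315) (nat_lit 270) (nat_lit 135)) (XT.nd (nat_lit 78) (nat_lit 0) (nat_lit 0) (XT.lf (nat_lit 0) (nat_lit 42992599157) (nat_lit 76) (nat_lit 118529139929) (nat_lit 152) (nat_lit 361380472801)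 (nat_lit 5) (nat_lit 5) (nat_lit 6) (nat_lit 5) (nat_lit 7) (nat_lit 4) (nat_lit 316) (nat_lit 270) (nat_lit 134)) (XT.lf (nat_lit 0) (nat_lit 187030183774) (nat_lit 76) (nat_lit 44754088111) (nat_lit 152) (nat_lit 328885626942) (nat_lit 5) (nat_lit 5) (nat_lit 6) (nat_lit 5) (nat_lit 7) (nat_lit 4) (nat_lit 317) (nat_lit 270) (nat_lit 133))))) (XT.nd (nat_lit 156) (nat_lit 76) (nat_lit 0) (XT.nd (nat_lit 78) (nat_lit 0) (nat_lit 0) (XT.lf (nat_lit 0) (nat_lit 308212725401) (nat_lit 152) (nat_lit 259414053182) (nat_lit 0) (nat_lit 33804976638) (nat_lit 5) (nat_lit 5) (nat_lit 7) (nat_lit 4) (nat_lit 5) (nat_lit 4) (nat_lit 318) (nat_lit 270) (nat_lit 132)) (XT.lf (nat_lit 0) (nat_lit 391509787816) (nat_lit 152) (nat_lit 136805513132) (nat_lit 0) (nat_lit 117101542923) (nat_lit 5) (nat_lit 5) (nat_lit 7) (nat_lit 4) (nat_lit 5) (nat_lit 4) (nat_lit 319) (nat_lit 270) (nat_lit 131))) (XT.nd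 (nat_lit 78) (nat_lit 76) (nat_lit 0) (XT.lf (nat_lit 0) (nat_lit 481470334612) (nat_lit 152) (nat_lit 4388789039) (nat_lit 0) (nat_lit 207061630340) (nat_lit 5) (nat_lit 5) (nat_lit 7) (nat_lit 4) (nat_lit 5) (nat_lit 4) (nat_lit 320) (nat_lit 270) (nat_lit 130)) (XT.nd (nat_lit 33618) (nat_lit 0) (nat_lit 4864) (XT.lf (nat_lit 0) (nat_lit 143204240829) (nat_lit 76) (nat_lit 437659044026) (nat_lit 76) (nat_lit 163249914403) (nat_lit 4) (nat_lit 4) (nat_lit 5) (nat_lit 5) (nat_lit 5) (nat_lit 4) (nat_lit 321) (nat_lit 270) (nat_lit 129)) (XT.lf (nat_lit 0) (nat_lit 4095285282) (nat_lit 0) (nat_lit 4095285282) (nat_lit 684) (nat_lit 14147129039) (nat_lit 68) (nat_lit 5) (nat_lit 68) (nat_lit 3) (nat_lit 77) (nat_lit 3) (nat_lit 271) (nat_lit 271) (nat_lit 178))))))) (XT.nd (nat_lit 780) (nat_lit 1596) (nat_lit 0) (XT.nd (nat_lit 390) (nat_lit 1140) (nat_lit 0) (XT.nd (nat_lit 156) (nat_lit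 0) (nat_lit 76) (XT.nd (nat_lit 78) (nat_lit 0) (nat_lit 76) (XT.lf (nat_lit 0) (nat_lit 17441018431) (nat_lit 684) (nat_lit 6821923585) (nat_lit 760) (nat_lit 22179073111) (nat_lit 68) (nat_lit 5) (nat_lit 77) (nat_lit 3) (nat_lit 78) (nat_lit 5) (nat_lit 272) (nat_lit 271) (nat_lit 177)) (XT.lf (nat_lit 0) (nat_lit 19229380876) (nat_lit 684) (nat_lit 22526612671) (nat_lit 760) (nat_lit 6561798880) (nat_lit 69) (nat_lit 5) (nat_lit 78) (nat_lit 5) (nat_lit 79) (nat_lit 5) (nat_lit 273) (nat_lit 271) (nat_lit 176))) (XT.nd (nat_lit 78) (nat_lit 0) (nat_lit 76) (XT.lf (nat_lit 76) (nat_lit 10852758550) (nat_lit 0) (nat_lit 11003072906) (nat_lit 760) (nat_lit 28453065105) (nat_lit 70) (nat_lit 5) (nat_lit 69) (nat_lit 5) (nat_lit 79) (nat_lit 5) (nat_lit 274) (nat_lit 271) (nat_lit 175)) (XT.nd (nat_lit 78) (nat_lit 0) (nat_lit 76) (XT.lf (nat_lit 0) (nat_lit 25433969757) (nat_lit 684)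 (nat_lit 5088864938) (nat_lit 760) (nat_lit 21899390196) (nat_lit 70) (nat_lit 5) (nat_lit 79) (nat_lit 5) (nat_lit 80) (nat_lit 5) (nat_lit 275) (nat_lit 271) (nat_lit 174)) (XT.lf (nat_lit 0) (nat_lit 30038964344) (nat_lit 684) (nat_lit 21822787160) (nat_lit 760) (nat_lit 2805851104) (nat_lit 71) (nat_lit 5) (nat_lit 80) (nat_lit 5) (nat_lit 81) (nat_lit 5) (nat_lit 276) (nat_lit 271) (nat_lit 173))))) (XT.nd (nat_lit 156) (nat_lit 1368) (nat_lit 0) (XT.nd (nat_lit 78) (nat_lit 0) (nat_lit 76) (XT.lf (nat_lit 76) (nat_lit 16929696989) (nat_lit 0) (nat_lit 18948276472) (nat_lit 760) (nat_lit 21171368720) (nat_lit 72) (nat_lit 5) (nat_lit 71) (nat_lit 5) (nat_lit 81) (nat_lit 5) (nat_lit 277) (nat_lit 271) (nat_lit 172)) (XT.lf (nat_lit 0) (nat_lit 42826371321) (nat_lit 684) (nat_lit 309159148) (nat_lit 76) (nat_lit 16453988522) (nat_lit 72) (nat_lit 5) (nat_lit 81) (nat_lit 5) (nat_lit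 73) (nat_lit 5) (nat_lit 278) (nat_lit 271) (nat_lit 171))) (XT.nd (nat_lit 78) (nat_lit 760) (nat_lit 0) (XT.lf (nat_lit 0) (nat_lit 43764787201) (nat_lit 684) (nat_lit 7565639693) (nat_lit 760) (nat_lit 10952504379) (nat_lit 63) (nat_lit 5) (nat_lit 72) (nat_lit 5) (nat_lit 73) (nat_lit 5) (nat_lit 279) (nat_lit 271) (nat_lit 170)) (XT.nd (nat_lit 78) (nat_lit 456) (nat_lit 0) (XT.lf (nat_lit 0) (nat_lit 26549486020) (nat_lit 304) (nat_lit 34864139808) (nat_lit 380) (nat_lit 3733259597) (nat_lit 59) (nat_lit 5) (nat_lit 63) (nat_lit 5) (nat_lit 64) (nat_lit 5) (nat_lit 280) (nat_lit 271) (nat_lit 169)) (XT.lf (nat_lit 0) (nat_lit 4556515656) (nat_lit 456) (nat_lit 60550395275) (nat_lit 76) (nat_lit 3098729048) (nat_lit 53) (nat_lit 5) (nat_lit 59) (nat_lit 5) (nat_lit 54) (nat_lit 5) (nat_lit 281) (nat_lit 271) (nat_lit 168)))))) (XT.nd (nat_lit 390) (nat_lit 760) (nat_lit 0) (XT.nd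 (nat_lit 156) (nat_lit 532) (nat_lit 0) (XT.nd (nat_lit 78) (nat_lit 304) (nat_lit 0) (XT.lf (nat_lit 0) (nat_lit 14649121648) (nat_lit 456) (nat_lit 13153588429) (nat_lit 76) (nat_lit 43639810605) (nat_lit 53) (nat_lit 5) (nat_lit 59) (nat_lit 5) (nat_lit 54) (nat_lit 5) (nat_lit 282) (nat_lit 271) (nat_lit 167)) (XT.lf (nat_lit 0) (nat_lit 26365203288) (nat_lit 380) (nat_lit 35822779170) (nat_lit 76) (nat_lit 12709573458) (nat_lit 49) (nat_lit 5) (nat_lit 54) (nat_lit 5) (nat_lit 50) (nat_lit 5) (nat_lit 283) (nat_lit 271) (nat_lit 166))) (XT.nd (nat_lit 78) (nat_lit 228) (nat_lit 0) (XT.lf (nat_lit 0) (nat_lit 17415965404) (nat_lit 304) (nat_lit 22573987653) (nat_lit 380) (nat_lit 38590478718) (nat_lit 45) (nat_lit 5) (nat_lit 49) (nat_lit 5) (nat_lit 50) (nat_lit 5) (nat_lit 284) (nat_lit 271) (nat_lit 165)) (XT.nd (nat_lit 78) (nat_lit 228) (nat_lit 0) (XT.lf (nat_lit 0) (nat_lit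 55652348117) (nat_lit 380) (nat_lit 6661934954) (nat_lit 76) (nat_lit 20196277740) (nat_lit 45) (nat_lit 5) (nat_lit 50) (nat_lit 5) (nat_lit 46) (nat_lit 5) (nat_lit 285) (nat_lit 271) (nat_lit 164)) (XT.lf (nat_lit 0) (nat_lit 53531200057) (nat_lit 228) (nat_lit 20251005478) (nat_lit 304) (nat_lit 12912177000) (nat_lit 42) (nat_lit 5) (nat_lit 45) (nat_lit 5) (nat_lit 46) (nat_lit 5) (nat_lit 286) (nat_lit 271) (nat_lit 163))))) (XT.nd (nat_lit 156) (nat_lit 456) (nat_lit 0) (XT.nd (nat_lit 78) (nat_lit 0) (nat_lit 0) (XT.lf (nat_lit 0) (nat_lit 3043750559) (nat_lit 304) (nat_lit 63142864276) (nat_lit 76) (nat_lit 24976471960) (nat_lit 38) (nat_lit 5) (nat_lit 42) (nat_lit 5) (nat_lit 39) (nat_lit 5) (nat_lit 287) (nat_lit 271) (nat_lit 162)) (XT.lf (nat_lit 0) (nat_lit 20756673159) (nat_lit 304) (nat_lit 1248767503) (nat_lit 76) (nat_lit 73926622770) (nat_lit 38) (nat_lit 5) (nat_lit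 42) (nat_lit 5) (nat_lit 39) (nat_lit 5) (nat_lit 288) (nat_lit 271) (nat_lit 161))) (XT.nd (nat_lit 78) (nat_lit 228) (nat_lit 0) (XT.lf (nat_lit 0) (nat_lit 41361718821) (nat_lit 304) (nat_lit 33684856718) (nat_lit 76) (nat_lit 25962232661) (nat_lit 35) (nat_lit 5) (nat_lit 39) (nat_lit 5) (nat_lit 36) (nat_lit 5) (nat_lit 289) (nat_lit 271) (nat_lit 160)) (XT.nd (nat_lit 78) (nat_lit 0) (nat_lit 0) (XT.lf (nat_lit 0) (nat_lit 35705810472) (nat_lit 228) (nat_lit 28858433201) (nat_lit 304) (nat_lit 41879999232) (nat_lit 32) (nat_lit 5) (nat_lit 35) (nat_lit 5) (nat_lit 36) (nat_lit 5) (nat_lit 290) (nat_lit 271) (nat_lit 159)) (XT.lf (nat_lit 0) (nat_lit 90546136392) (nat_lit 304) (nat_lit 774487808) (nat_lit 76) (nat_lit 20947733717) (nat_lit 32) (nat_lit 5) (nat_lit 36) (nat_lit 5) (nat_lit 33) (nat_lit 5) (nat_lit 291) (nat_lit 271) (nat_lit 158))))))))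
noncomputable def xc104 : XT := (XT.nd (nat_lit 1482) (nat_lit 304) (nat_lit 0) (XT.nd (nat_lit 702) (nat_lit 608) (nat_lit 0) (XT.nd (nat_lit 312) (nat_lit 532) (nat_lit 0) (XT.nd (nat_lit 156) (nat_lit 152) (nat_lit 0) (XT.nd (nat_lit 78) (nat_lit 228) (nat_lit 0) (XT.lf (nat_lit 0) (nat_lit 1757827006) (nat_lit 228) (nat_lit 41747875848) (nat_lit 76) (nat_lit 74967105510) (nat_lit 29) (nat_lit 5) (nat_lit 32) (nat_lit 5) (nat_lit 30) (nat_lit 5) (nat_lit 292) (nat_lit 271) (nat_lit 157)) (XT.lf (nat_lit 0) (nat_lit 27083333929) (nat_lit 304) (nat_lit 89204012210) (nat_lit 76) (nat_lit 8832061963) (nat_lit 26) (nat_lit 5) (nat_lit 30) (nat_lit 5) (nat_lit 27) (nat_lit 5) (nat_lit 293) (nat_lit 271) (nat_lit 156))) (XT.nd (nat_lit 78) (nat_lit 152) (nat_lit 0) (XT.lf (nat_lit 0) (nat_lit 55906352319) (nat_lit 304) (nat_lit 11726184377) (nat_lit 76) (nat_lit 64591628472) (nat_lit 26)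 (nat_lit 5) (nat_lit 30) (nat_lit 5) (nat_lit 27) (nat_lit 5) (nat_lit 294) (nat_lit 271) (nat_lit 155)) (XT.lf (nat_lit 0) (nat_lit 74327102167) (nat_lit 152) (nat_lit 13867400092) (nat_lit 228) (nat_lit 51644838712) (nat_lit 24) (nat_lit 5) (nat_lit 26) (nat_lit 5) (nat_lit 27) (nat_lit 5) (nat_lit 295) (nat_lit 271) (nat_lit 154)))) (XT.nd (nat_lit 156) (nat_lit 304) (nat_lit 0) (XT.nd (nat_lit 78) (nat_lit 76) (nat_lit 0) (XT.lf (nat_lit 0) (nat_lit 19560848869) (nat_lit 152) (nat_lit 104706824008) (nat_lit 228) (nat_lit 23735962009) (nat_lit 22) (nat_lit 5) (nat_lit 24) (nat_lit 5) (nat_lit 25) (nat_lit 5) (nat_lit 296) (nat_lit 271) (nat_lit 153)) (XT.lf (nat_lit 0) (nat_lit 7593249608) (nat_lit 228) (nat_lit 43338995679) (nat_lit 76) (nat_lit 105814196487) (nat_lit 21) (nat_lit 5) (nat_lit 24) (nat_lit 5) (nat_lit 22) (nat_lit 5) (nat_lit 297) (nat_lit 271) (nat_lit 152))) (XT.nd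 (nat_lit 78) (nat_lit 152) (nat_lit 0) (XT.lf (nat_lit 0) (nat_lit 41515118782) (nat_lit 228) (nat_lit 116496587617) (nat_lit 76) (nat_lit 8111617476) (nat_lit 19) (nat_lit 5) (nat_lit 22) (nat_lit 5) (nat_lit 20) (nat_lit 5) (nat_lit 298) (nat_lit 271) (nat_lit 151)) (XT.nd (nat_lit 78) (nat_lit 152) (nat_lit 0) (XT.lf (nat_lit 0) (nat_lit 79775910376) (nat_lit 228) (nat_lit 25507941301) (nat_lit 76) (nat_lit 70885248097) (nat_lit 19) (nat_lit 5) (nat_lit 22) (nat_lit 5) (nat_lit 20) (nat_lit 5) (nat_lit 299) (nat_lit 271) (nat_lit 150)) (XT.lf (nat_lit 0) (nat_lit 75164135869) (nat_lit 152) (nat_lit 47106071520) (nat_lit 228) (nat_lit 64689699988) (nat_lit 17) (nat_lit 5) (nat_lit 19) (nat_lit 5) (nat_lit 20) (nat_lit 5) (nat_lit 300) (nat_lit 271) (nat_lit 149)))))) (XT.nd (nat_lit 390) (nat_lit 304) (nat_lit 0) (XT.nd (nat_lit 156) (nat_lit 152) (nat_lit 0) (XT.nd (nat_lit 78) (nat_lit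 152) (nat_lit 0) (XT.lf (nat_lit 0) (nat_lit 168860346309) (nat_lit 228) (nat_lit 14045071751) (nat_lit 76) (nat_lit 15673748229) (nat_lit 17) (nat_lit 5) (nat_lit 20) (nat_lit 5) (nat_lit 18) (nat_lit 4) (nat_lit 301) (nat_lit 271) (nat_lit 148)) (XT.lf (nat_lit 0) (nat_lit 10085988158) (nat_lit 152) (nat_lit 117447719751) (nat_lit 76) (nat_lit 83473280510) (nat_lit 15) (nat_lit 5) (nat_lit 17) (nat_lit 5) (nat_lit 16) (nat_lit 5) (nat_lit 302) (nat_lit 271) (nat_lit 147))) (XT.nd (nat_lit 78) (nat_lit 152) (nat_lit 0) (XT.lf (nat_lit 0) (nat_lit 52295809290) (nat_lit 152) (nat_lit 14649655920) (nat_lit 76) (nat_lit 157446121182) (nat_lit 15) (nat_lit 5) (nat_lit 17) (nat_lit 5) (nat_lit 16) (nat_lit 5) (nat_lit 303) (nat_lit 271) (nat_lit 146)) (XT.nd (nat_lit 78) (nat_lit 0) (nat_lit 0) (XT.lf (nat_lit 0) (nat_lit 99437986062) (nat_lit 228) (nat_lit 139213587559) (nat_lit 76) (nat_lit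 117601299) (nat_lit 13) (nat_lit 5) (nat_lit 16) (nat_lit 5) (nat_lit 14) (nat_lit 4) (nat_lit 304) (nat_lit 271) (nat_lit 145)) (XT.lf (nat_lit 0) (nat_lit 151739059308) (nat_lit 228) (nat_lit 31997949370) (nat_lit 76) (nat_lit 70490586861) (nat_lit 13) (nat_lit 5) (nat_lit 16) (nat_lit 5) (nat_lit 14) (nat_lit 4) (nat_lit 305) (nat_lit 271) (nat_lit 144))))) (XT.nd (nat_lit 156) (nat_lit 228) (nat_lit 0) (XT.nd (nat_lit 78) (nat_lit 0) (nat_lit 0) (XT.lf (nat_lit 0) (nat_lit 86564510964) (nat_lit 76) (nat_lit 123010600344) (nat_lit 152) (nat_lit 61280034898) (nat_lit 12) (nat_lit 5) (nat_lit 13) (nat_lit 5) (nat_lit 14) (nat_lit 4) (nat_lit 306) (nat_lit 271) (nat_lit 143)) (XT.lf (nat_lit 0) (nat_lit 215753615641) (nat_lit 76) (nat_lit 56841224355) (nat_lit 152) (nat_lit 16190222267) (nat_lit 12) (nat_lit 5) (nat_lit 13) (nat_lit 5) (nat_lit 14) (nat_lit 4) (nat_lit 307) (nat_lit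 271) (nat_lit 142))) (XT.nd (nat_lit 78) (nat_lit 0) (nat_lit 0) (XT.lf (nat_lit 0) (nat_lit 32466660895) (nat_lit 228) (nat_lit 260173865441) (nat_lit 76) (nat_lit 15433454759) (nat_lit 9) (nat_lit 5) (nat_lit 12) (nat_lit 5) (nat_lit 10) (nat_lit 4) (nat_lit 308) (nat_lit 271) (nat_lit 141)) (XT.nd (nat_lit 78) (nat_lit 0) (nat_lit 0) (XT.lf (nat_lit 0) (nat_lit 86707378543) (nat_lit 228) (nat_lit 148981487685) (nat_lit 76) (nat_lit 93090951803) (nat_lit 9) (nat_lit 5) (nat_lit 12) (nat_lit 5) (nat_lit 10) (nat_lit 4) (nat_lit 309) (nat_lit 271) (nat_lit 140)) (XT.lf (nat_lit 0) (nat_lit 145286857732) (nat_lit 228) (nat_lit 28894567774) (nat_lit 76) (nat_lit 176960721938) (nat_lit 9) (nat_lit 5) (nat_lit 12) (nat_lit 5) (nat_lit 10) (nat_lit 4) (nat_lit 310) (nat_lit 271) (nat_lit 139))))))) (XT.nd (nat_lit 702) (nat_lit 0) (nat_lit 0) (XT.nd (nat_lit 312) (nat_lit 152) (nat_lit 0)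 (XT.nd (nat_lit 156) (nat_lit 76) (nat_lit 0) (XT.nd (nat_lit 78) (nat_lit 0) (nat_lit 0) (XT.lf (nat_lit 0) (nat_lit 104131374788) (nat_lit 76) (nat_lit 106046643916) (nat_lit 152) (nat_lit 165034179008) (nat_lit 8) (nat_lit 5) (nat_lit 9) (nat_lit 5) (nat_lit 10) (nat_lit 4) (nat_lit 311) (nat_lit 271) (nat_lit 138)) (XT.lf (nat_lit 0) (nat_lit 248830457331) (nat_lit 76) (nat_lit 31932903098) (nat_lit 152) (nat_lit 120419347805) (nat_lit 8) (nat_lit 5) (nat_lit 9) (nat_lit 5) (nat_lit 10) (nat_lit 4) (nat_lit 312) (nat_lit 271) (nat_lit 137))) (XT.nd (nat_lit 78) (nat_lit 76) (nat_lit 0) (XT.lf (nat_lit 0) (nat_lit 357746251397) (nat_lit 152) (nat_lit 24877235808) (nat_lit 0) (nat_lit 46569836876) (nat_lit 8) (nat_lit 5) (nat_lit 10) (nat_lit 4) (nat_lit 8) (nat_lit 4) (nat_lit 313) (nat_lit 271) (nat_lit 136)) (XT.lf (nat_lit 0) (nat_lit 115968387016) (nat_lit 76) (nat_lit 327268046485)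 (nat_lit 76) (nat_lit 16090923237) (nat_lit 7) (nat_lit 4) (nat_lit 8) (nat_lit 5) (nat_lit 8) (nat_lit 4) (nat_lit 314) (nat_lit 271) (nat_lit 135)))) (XT.nd (nat_lit 156) (nat_lit 76) (nat_lit 0) (XT.nd (nat_lit 78) (nat_lit 0) (nat_lit 0) (XT.lf (nat_lit 0) (nat_lit 42735328815) (nat_lit 152) (nat_lit 223570355406) (nat_lit 76) (nat_lit 225510315066) (nat_lit 6) (nat_lit 5) (nat_lit 8) (nat_lit 5) (nat_lit 7) (nat_lit 4) (nat_lit 315) (nat_lit 271) (nat_lit 134)) (XT.lf (nat_lit 0) (nat_lit 105711130456) (nat_lit 152) (nat_lit 94470569660) (nat_lit 76) (nat_lit 326708484429) (nat_lit 6) (nat_lit 5) (nat_lit 8) (nat_lit 5) (nat_lit 7) (nat_lit 4) (nat_lit 316) (nat_lit 271) (nat_lit 133))) (XT.nd (nat_lit 78) (nat_lit 0) (nat_lit 0) (XT.lf (nat_lit 0) (nat_lit 46443117491) (nat_lit 76) (nat_lit 128006671386) (nat_lit 152) (nat_lit 390284276522) (nat_lit 5) (nat_lit 5) (nat_lit 6) (nat_lit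 5) (nat_lit 7) (nat_lit 4) (nat_lit 317) (nat_lit 271) (nat_lit 132)) (XT.nd (nat_lit 78) (nat_lit 0) (nat_lit 0) (XT.lf (nat_lit 0) (nat_lit 202002885883) (nat_lit 76) (nat_lit 48329970959) (nat_lit 152) (nat_lit 355190334409) (nat_lit 5) (nat_lit 5) (nat_lit 6) (nat_lit 5) (nat_lit 7) (nat_lit 4) (nat_lit 318) (nat_lit 271) (nat_lit 131)) (XT.lf (nat_lit 0) (nat_lit 332875218056) (nat_lit 152) (nat_lit 280157439008) (nat_lit 0) (nat_lit 36513358064) (nat_lit 5) (nat_lit 5) (nat_lit 7) (nat_lit 4) (nat_lit 5) (nat_lit 4) (nat_lit 319) (nat_lit 271) (nat_lit 130)))))) (XT.nd (nat_lit 34086) (nat_lit 0) (nat_lit 4408) (XT.nd (nat_lit 33852) (nat_lit 0) (nat_lit 4788) (XT.nd (nat_lit 33774) (nat_lit 0) (nat_lit 4788) (XT.lf (nat_lit 0) (nat_lit 422835639937) (nat_lit 152) (nat_lit 147740937120) (nat_lit 0) (nat_lit 126473354593) (nat_lit 5) (nat_lit 5) (nat_lit 7) (nat_lit 4) (nat_lit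 5) (nat_lit 4) (nat_lit 320) (nat_lit 271) (nat_lit 129)) (XT.lf (nat_lit 0) (nat_lit 4445796410) (nat_lit 0) (nat_lit 4445796410) (nat_lit 684) (nat_lit 15230669506) (nat_lit 68) (nat_lit 5) (nat_lit 68) (nat_lit 3) (nat_lit 77) (nat_lit 3) (nat_lit 272) (nat_lit 272) (nat_lit 176))) (XT.nd (nat_lit 78) (nat_lit 0) (nat_lit 76) (XT.lf (nat_lit 0) (nat_lit 18920409648) (nat_lit 684) (nat_lit 7320086915) (nat_lit 760) (nat_lit 23912369817) (nat_lit 68) (nat_lit 5) (nat_lit 77) (nat_lit 3) (nat_lit 78) (nat_lit 5) (nat_lit 273) (nat_lit 272) (nat_lit 175)) (XT.nd (nat_lit 78) (nat_lit 0) (nat_lit 0) (XT.lf (nat_lit 0) (nat_lit 20845805188) (nat_lit 684) (nat_lit 24278491652) (nat_lit 760) (nat_lit 7054733373) (nat_lit 69) (nat_lit 5) (nat_lit 78) (nat_lit 5) (nat_lit 79) (nat_lit 5) (nat_lit 274) (nat_lit 272) (nat_lit 174)) (XT.lf (nat_lit 76) (nat_lit 11769045462) (nat_lit 0) (nat_lit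 11908293553) (nat_lit 760) (nat_lit 30652356185) (nat_lit 70) (nat_lit 5) (nat_lit 69) (nat_lit 5) (nat_lit 79) (nat_lit 5) (nat_lit 275) (nat_lit 272) (nat_lit 173))))) (XT.nd (nat_lit 156) (nat_lit 532) (nat_lit 0) (XT.nd (nat_lit 78) (nat_lit 0) (nat_lit 76) (XT.lf (nat_lit 0) (nat_lit 27535956889) (nat_lit 684) (nat_lit 5447484095) (nat_lit 760) (nat_lit 23628956723) (nat_lit 70) (nat_lit 5) (nat_lit 79) (nat_lit 5) (nat_lit 80) (nat_lit 5) (nat_lit 276) (nat_lit 272) (nat_lit 172)) (XT.lf (nat_lit 0) (nat_lit 32504832667) (nat_lit 684) (nat_lit 23518593468) (nat_lit 760) (nat_lit 3014223328) (nat_lit 71) (nat_lit 5) (nat_lit 80) (nat_lit 5) (nat_lit 81) (nat_lit 5) (nat_lit 277) (nat_lit 272) (nat_lit 171))) (XT.nd (nat_lit 78) (nat_lit 608) (nat_lit 0) (XT.lf (nat_lit 76) (nat_lit 18331915750) (nat_lit 0) (nat_lit 20475145492) (nat_lit 760) (nat_lit 22803078602) (nat_lit 72) (nat_lit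 5) (nat_lit 71) (nat_lit 5) (nat_lit 81) (nat_lit 5) (nat_lit 278) (nat_lit 272) (nat_lit 170)) (XT.nd (nat_lit 78) (nat_lit 684) (nat_lit 0) (XT.lf (nat_lit 0) (nat_lit 46306812559) (nat_lit 684) (nat_lit 286517285) (nat_lit 76) (nat_lit 17760442221) (nat_lit 72) (nat_lit 5) (nat_lit 81) (nat_lit 5) (nat_lit 73) (nat_lit 5) (nat_lit 279) (nat_lit 272) (nat_lit 169)) (XT.lf (nat_lit 0) (nat_lit 47311285930) (nat_lit 684) (nat_lit 8176589596) (nat_lit 760) (nat_lit 11774961869) (nat_lit 63) (nat_lit 5) (nat_lit 72) (nat_lit 5) (nat_lit 73) (nat_lit 5) (nat_lit 280) (nat_lit 272) (nat_lit 168))))))))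
noncomputable def xc105 : XT := (XT.nd (nat_lit 1482) (nat_lit 1064) (nat_lit 0) (XT.nd (nat_lit 702) (nat_lit 1444) (nat_lit 0) (XT.nd (nat_lit 312) (nat_lit 836) (nat_lit 0) (XT.nd (nat_lit 156) (nat_lit 304) (nat_lit 0) (XT.nd (nat_lit 78) (nat_lit 456) (nat_lit 0) (XT.lf (nat_lit 0) (nat_lit 28719486200) (nat_lit 304) (nat_lit 37655101775) (nat_lit 380) (nat_lit 3981490184) (nat_lit 59) (nat_lit 5) (nat_lit 63) (nat_lit 5) (nat_lit 64) (nat_lit 5) (nat_lit 281) (nat_lit 272) (nat_lit 167)) (XT.lf (nat_lit 0) (nat_lit 4966948231) (nat_lit 456) (nat_lit 65346249134) (nat_lit 76) (nat_lit 3346453189) (nat_lit 53) (nat_lit 5) (nat_lit 59) (nat_lit 5) (nat_lit 54) (nat_lit 5) (nat_lit 282) (nat_lit 272) (nat_lit 166))) (XT.nd (nat_lit 78) (nat_lit 304) (nat_lit 0) (XT.lf (nat_lit 0) (nat_lit 15863561863) (nat_lit 456) (nat_lit 14161266463) (nat_lit 76) (nat_lit 47130834173) (nat_lit 53)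 (nat_lit 5) (nat_lit 59) (nat_lit 5) (nat_lit 54) (nat_lit 5) (nat_lit 283) (nat_lit 272) (nat_lit 165)) (XT.lf (nat_lit 0) (nat_lit 28514488573) (nat_lit 380) (nat_lit 38643846625) (nat_lit 76) (nat_lit 13728897377) (nat_lit 49) (nat_lit 5) (nat_lit 54) (nat_lit 5) (nat_lit 50) (nat_lit 5) (nat_lit 284) (nat_lit 272) (nat_lit 164)))) (XT.nd (nat_lit 156) (nat_lit 532) (nat_lit 0) (XT.nd (nat_lit 78) (nat_lit 0) (nat_lit 0) (XT.lf (nat_lit 0) (nat_lit 18852052523) (nat_lit 304) (nat_lit 24374866108) (nat_lit 380) (nat_lit 41637944069) (nat_lit 45) (nat_lit 5) (nat_lit 49) (nat_lit 5) (nat_lit 50) (nat_lit 5) (nat_lit 285) (nat_lit 272) (nat_lit 163)) (XT.lf (nat_lit 0) (nat_lit 60139580435) (nat_lit 380) (nat_lit 7153468633) (nat_lit 76) (nat_lit 21816497763) (nat_lit 45) (nat_lit 5) (nat_lit 50) (nat_lit 5) (nat_lit 46) (nat_lit 5) (nat_lit 286) (nat_lit 272) (nat_lit 162))) (XT.nd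 (nat_lit 78) (nat_lit 304) (nat_lit 0) (XT.lf (nat_lit 0) (nat_lit 57853317068) (nat_lit 228) (nat_lit 21864532087) (nat_lit 304) (nat_lit 13910331901) (nat_lit 42) (nat_lit 5) (nat_lit 45) (nat_lit 5) (nat_lit 46) (nat_lit 5) (nat_lit 287) (nat_lit 272) (nat_lit 161)) (XT.nd (nat_lit 78) (nat_lit 0) (nat_lit 0) (XT.lf (nat_lit 0) (nat_lit 3319181526) (nat_lit 304) (nat_lit 68153673391) (nat_lit 76) (nat_lit 26981595217) (nat_lit 38) (nat_lit 5) (nat_lit 42) (nat_lit 5) (nat_lit 39) (nat_lit 5) (nat_lit 288) (nat_lit 272) (nat_lit 160)) (XT.lf (nat_lit 0) (nat_lit 22446772681) (nat_lit 304) (nat_lit 1311057767) (nat_lit 76) (nat_lit 79847239166) (nat_lit 38) (nat_lit 5) (nat_lit 42) (nat_lit 5) (nat_lit 39) (nat_lit 5) (nat_lit 289) (nat_lit 272) (nat_lit 159)))))) (XT.nd (nat_lit 390) (nat_lit 532) (nat_lit 0) (XT.nd (nat_lit 156) (nat_lit 456) (nat_lit 0) (XT.nd (nat_lit 78) (nat_lit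 228) (nat_lit 0) (XT.lf (nat_lit 0) (nat_lit 44698719158) (nat_lit 304) (nat_lit 36342322666) (nat_lit 76) (nat_lit 28046993253) (nat_lit 35) (nat_lit 5) (nat_lit 39) (nat_lit 5) (nat_lit 36) (nat_lit 5) (nat_lit 290) (nat_lit 272) (nat_lit 158)) (XT.lf (nat_lit 0) (nat_lit 38597975905) (nat_lit 228) (nat_lit 31157948750) (nat_lit 304) (nat_lit 45202461498) (nat_lit 32) (nat_lit 5) (nat_lit 35) (nat_lit 5) (nat_lit 36) (nat_lit 5) (nat_lit 291) (nat_lit 272) (nat_lit 157))) (XT.nd (nat_lit 78) (nat_lit 456) (nat_lit 0) (XT.lf (nat_lit 0) (nat_lit 97814535163) (nat_lit 304) (nat_lit 802230369) (nat_lit 76) (nat_lit 22631761635) (nat_lit 32) (nat_lit 5) (nat_lit 36) (nat_lit 5) (nat_lit 33) (nat_lit 5) (nat_lit 292) (nat_lit 272) (nat_lit 156)) (XT.nd (nat_lit 78) (nat_lit 228) (nat_lit 0) (XT.lf (nat_lit 0) (nat_lit 1922282587) (nat_lit 228) (nat_lit 45054132121) (nat_lit 76) (nat_lit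 80972970425) (nat_lit 29) (nat_lit 5) (nat_lit 32) (nat_lit 5) (nat_lit 30) (nat_lit 5) (nat_lit 293) (nat_lit 272) (nat_lit 155)) (XT.lf (nat_lit 0) (nat_lit 29272715410) (nat_lit 304) (nat_lit 96307187023) (nat_lit 76) (nat_lit 9547870331) (nat_lit 26) (nat_lit 5) (nat_lit 30) (nat_lit 5) (nat_lit 27) (nat_lit 5) (nat_lit 294) (nat_lit 272) (nat_lit 154))))) (XT.nd (nat_lit 156) (nat_lit 380) (nat_lit 0) (XT.nd (nat_lit 78) (nat_lit 152) (nat_lit 0) (XT.lf (nat_lit 0) (nat_lit 60399892695) (nat_lit 304) (nat_lit 12633588234) (nat_lit 76) (nat_lit 69767517463) (nat_lit 26) (nat_lit 5) (nat_lit 30) (nat_lit 5) (nat_lit 27) (nat_lit 5) (nat_lit 295) (nat_lit 272) (nat_lit 153)) (XT.lf (nat_lit 0) (nat_lit 80302627445) (nat_lit 152) (nat_lit 14967367594) (nat_lit 228) (nat_lit 55755451786) (nat_lit 24) (nat_lit 5) (nat_lit 26) (nat_lit 5) (nat_lit 27) (nat_lit 5) (nat_lit 296) (nat_lit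 272) (nat_lit 152))) (XT.nd (nat_lit 78) (nat_lit 228) (nat_lit 0) (XT.lf (nat_lit 0) (nat_lit 21154653477) (nat_lit 152) (nat_lit 113073477366) (nat_lit 228) (nat_lit 25614801151) (nat_lit 22) (nat_lit 5) (nat_lit 24) (nat_lit 5) (nat_lit 25) (nat_lit 5) (nat_lit 297) (nat_lit 272) (nat_lit 151)) (XT.nd (nat_lit 78) (nat_lit 152) (nat_lit 0) (XT.lf (nat_lit 0) (nat_lit 8218669284) (nat_lit 228) (nat_lit 46778691689) (nat_lit 76) (nat_lit 114287861581) (nat_lit 21) (nat_lit 5) (nat_lit 24) (nat_lit 5) (nat_lit 22) (nat_lit 5) (nat_lit 298) (nat_lit 272) (nat_lit 150)) (XT.lf (nat_lit 0) (nat_lit 44853510724) (nat_lit 228) (nat_lit 125789340496) (nat_lit 76) (nat_lit 8769445577) (nat_lit 19) (nat_lit 5) (nat_lit 22) (nat_lit 5) (nat_lit 20) (nat_lit 5) (nat_lit 299) (nat_lit 272) (nat_lit 149))))))) (XT.nd (nat_lit 780) (nat_lit 304) (nat_lit 0) (XT.nd (nat_lit 390) (nat_lit 456) (nat_lit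 0) (XT.nd (nat_lit 156) (nat_lit 152) (nat_lit 0) (XT.nd (nat_lit 78) (nat_lit 152) (nat_lit 0) (XT.lf (nat_lit 0) (nat_lit 86173892872) (nat_lit 228) (nat_lit 27523600559) (nat_lit 76) (nat_lit 76564307485) (nat_lit 19) (nat_lit 5) (nat_lit 22) (nat_lit 5) (nat_lit 20) (nat_lit 5) (nat_lit 300) (nat_lit 272) (nat_lit 148)) (XT.lf (nat_lit 0) (nat_lit 81201157356) (nat_lit 152) (nat_lit 50865770795) (nat_lit 228) (nat_lit 69848987572) (nat_lit 17) (nat_lit 5) (nat_lit 19) (nat_lit 5) (nat_lit 20) (nat_lit 5) (nat_lit 301) (nat_lit 272) (nat_lit 147))) (XT.nd (nat_lit 78) (nat_lit 152) (nat_lit 0) (XT.lf (nat_lit 0) (nat_lit 182383286377) (nat_lit 228) (nat_lit 15145957417) (nat_lit 76) (nat_lit 16935523296) (nat_lit 17) (nat_lit 5) (nat_lit 20) (nat_lit 5) (nat_lit 18) (nat_lit 4) (nat_lit 302) (nat_lit 272) (nat_lit 146)) (XT.nd (nat_lit 78) (nat_lit 0) (nat_lit 0) (XT.lf (nat_lit 0)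 (nat_lit 10906517393) (nat_lit 152) (nat_lit 126821329599) (nat_lit 76) (nat_lit 90158994283) (nat_lit 15) (nat_lit 5) (nat_lit 17) (nat_lit 5) (nat_lit 16) (nat_lit 5) (nat_lit 303) (nat_lit 272) (nat_lit 145)) (XT.lf (nat_lit 0) (nat_lit 56492113091) (nat_lit 152) (nat_lit 15801065679) (nat_lit 76) (nat_lit 170049080628) (nat_lit 15) (nat_lit 5) (nat_lit 17) (nat_lit 5) (nat_lit 16) (nat_lit 5) (nat_lit 304) (nat_lit 272) (nat_lit 144))))) (XT.nd (nat_lit 156) (nat_lit 304) (nat_lit 0) (XT.nd (nat_lit 78) (nat_lit 0) (nat_lit 0) (XT.lf (nat_lit 0) (nat_lit 107405154449) (nat_lit 228) (nat_lit 150330504240) (nat_lit 76) (nat_lit 134423425) (nat_lit 13) (nat_lit 5) (nat_lit 16) (nat_lit 5) (nat_lit 14) (nat_lit 4) (nat_lit 305) (nat_lit 272) (nat_lit 143)) (XT.lf (nat_lit 0) (nat_lit 163889415073) (nat_lit 228) (nat_lit 34539109093) (nat_lit 76) (nat_lit 76136698645) (nat_lit 13) (nat_lit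 5) (nat_lit 16) (nat_lit 5) (nat_lit 14) (nat_lit 4) (nat_lit 306) (nat_lit 272) (nat_lit 142))) (XT.nd (nat_lit 78) (nat_lit 228) (nat_lit 0) (XT.lf (nat_lit 0) (nat_lit 93507536421) (nat_lit 76) (nat_lit 132844261800) (nat_lit 152) (nat_lit 66171208354) (nat_lit 12) (nat_lit 5) (nat_lit 13) (nat_lit 5) (nat_lit 14) (nat_lit 4) (nat_lit 307) (nat_lit 272) (nat_lit 141)) (XT.nd (nat_lit 78) (nat_lit 228) (nat_lit 0) (XT.lf (nat_lit 0) (nat_lit 233030446170) (nat_lit 76) (nat_lit 61381868071) (nat_lit 152) (nat_lit 17475042516) (nat_lit 12) (nat_lit 5) (nat_lit 13) (nat_lit 5) (nat_lit 14) (nat_lit 4) (nat_lit 308) (nat_lit 272) (nat_lit 140)) (XT.lf (nat_lit 0) (nat_lit 35073668003) (nat_lit 228) (nat_lit 280971229234) (nat_lit 76) (nat_lit 16674504406) (nat_lit 9) (nat_lit 5) (nat_lit 12) (nat_lit 5) (nat_lit 10) (nat_lit 4) (nat_lit 309) (nat_lit 272) (nat_lit 139)))))) (XT.nd (nat_lit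 390) (nat_lit 228) (nat_lit 0) (XT.nd (nat_lit 156) (nat_lit 76) (nat_lit 0) (XT.nd (nat_lit 78) (nat_lit 0) (nat_lit 0) (XT.lf (nat_lit 0) (nat_lit 93652926452) (nat_lit 228) (nat_lit 160884686846) (nat_lit 76) (nat_lit 100544129120) (nat_lit 9) (nat_lit 5) (nat_lit 12) (nat_lit 5) (nat_lit 10) (nat_lit 4) (nat_lit 310) (nat_lit 272) (nat_lit 138)) (XT.lf (nat_lit 0) (nat_lit 156918100449) (nat_lit 228) (nat_lit 31191948146) (nat_lit 76) (nat_lit 191123043741) (nat_lit 9) (nat_lit 5) (nat_lit 12) (nat_lit 5) (nat_lit 10) (nat_lit 4) (nat_lit 311) (nat_lit 272) (nat_lit 137))) (XT.nd (nat_lit 78) (nat_lit 0) (nat_lit 0) (XT.lf (nat_lit 0) (nat_lit 112475453356) (nat_lit 76) (nat_lit 114524698409) (nat_lit 152) (nat_lit 178228615891) (nat_lit 8) (nat_lit 5) (nat_lit 9) (nat_lit 5) (nat_lit 10) (nat_lit 4) (nat_lit 312) (nat_lit 272) (nat_lit 136)) (XT.nd (nat_lit 78) (nat_lit 0) (nat_lit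 0) (XT.lf (nat_lit 0) (nat_lit 268749457422) (nat_lit 76) (nat_lit 34482278846) (nat_lit 152) (nat_lit 130045212817) (nat_lit 8) (nat_lit 5) (nat_lit 9) (nat_lit 5) (nat_lit 10) (nat_lit 4) (nat_lit 313) (nat_lit 272) (nat_lit 135)) (XT.lf (nat_lit 0) (nat_lit 386372793243) (nat_lit 152) (nat_lit 26855509817) (nat_lit 0) (nat_lit 50300135178) (nat_lit 8) (nat_lit 5) (nat_lit 10) (nat_lit 4) (nat_lit 8) (nat_lit 4) (nat_lit 314) (nat_lit 272) (nat_lit 134))))) (XT.nd (nat_lit 156) (nat_lit 76) (nat_lit 0) (XT.nd (nat_lit 78) (nat_lit 76) (nat_lit 0) (XT.lf (nat_lit 0) (nat_lit 125257245463) (nat_lit 76) (nat_lit 353444615448) (nat_lit 76) (nat_lit 17371349763) (nat_lit 7) (nat_lit 4) (nat_lit 8) (nat_lit 5) (nat_lit 8) (nat_lit 4) (nat_lit 315) (nat_lit 272) (nat_lit 133)) (XT.lf (nat_lit 0) (nat_lit 46160292319) (nat_lit 152) (nat_lit 241445229040) (nat_lit 76) (nat_lit 243555443104)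 (nat_lit 6) (nat_lit 5) (nat_lit 8) (nat_lit 5) (nat_lit 7) (nat_lit 4) (nat_lit 316) (nat_lit 272) (nat_lit 132))) (XT.nd (nat_lit 78) (nat_lit 76) (nat_lit 0) (XT.lf (nat_lit 0) (nat_lit 114173703485) (nat_lit 152) (nat_lit 102018257087) (nat_lit 76) (nat_lit 352849147288) (nat_lit 6) (nat_lit 5) (nat_lit 8) (nat_lit 5) (nat_lit 7) (nat_lit 4) (nat_lit 317) (nat_lit 272) (nat_lit 131)) (XT.nd (nat_lit 78) (nat_lit 0) (nat_lit 0) (XT.lf (nat_lit 0) (nat_lit 50168092267) (nat_lit 76) (nat_lit 138243090096) (nat_lit 152) (nat_lit 421501330969) (nat_lit 5) (nat_lit 5) (nat_lit 6) (nat_lit 5) (nat_lit 7) (nat_lit 4) (nat_lit 318) (nat_lit 272) (nat_lit 130)) (XT.lf (nat_lit 0) (nat_lit 218171936548) (nat_lit 76) (nat_lit 52192558449) (nat_lit 152) (nat_lit 383600294797) (nat_lit 5) (nat_lit 5) (nat_lit 6) (nat_lit 5) (nat_lit 7) (nat_lit 4) (nat_lit 319) (nat_lit 272) (nat_lit 129))))))))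
noncomputable def xc106 : XT := (XT.nd (nat_lit 35256) (nat_lit 0) (nat_lit 304) (XT.nd (nat_lit 34476) (nat_lit 0) (nat_lit 2508) (XT.nd (nat_lit 34086) (nat_lit 0) (nat_lit 4864) (XT.nd (nat_lit 33930) (nat_lit 0) (nat_lit 4788) (XT.nd (nat_lit 33852) (nat_lit 0) (nat_lit 4788) (XT.lf (nat_lit 0) (nat_lit 359509929108) (nat_lit 152) (nat_lit 302561684996) (nat_lit 0) (nat_lit 39437841743) (nat_lit 5) (nat_lit 5) (nat_lit 7) (nat_lit 4) (nat_lit 5) (nat_lit 4) (nat_lit 320) (nat_lit 272) (nat_lit 128)) (XT.lf (nat_lit 0) (nat_lit 4821083156) (nat_lit 0) (nat_lit 4821083156) (nat_lit 684) (nat_lit 16407773738) (nat_lit 68) (nat_lit 5) (nat_lit 68) (nat_lit 3) (nat_lit 77) (nat_lit 3) (nat_lit 273) (nat_lit 273) (nat_lit 174))) (XT.nd (nat_lit 78) (nat_lit 0) (nat_lit 76) (XT.lf (nat_lit 0) (nat_lit 20506152967) (nat_lit 684) (nat_lit 7864892636) (nat_lit 760) (nat_lit 25790183526) (nat_lit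 68) (nat_lit 5) (nat_lit 77) (nat_lit 3) (nat_lit 78) (nat_lit 5) (nat_lit 274) (nat_lit 273) (nat_lit 173)) (XT.lf (nat_lit 0) (nat_lit 22580405338) (nat_lit 684) (nat_lit 26177689680) (nat_lit 760) (nat_lit 7591669127) (nat_lit 69) (nat_lit 5) (nat_lit 78) (nat_lit 5) (nat_lit 79) (nat_lit 5) (nat_lit 275) (nat_lit 273) (nat_lit 172)))) (XT.nd (nat_lit 156) (nat_lit 0) (nat_lit 152) (XT.nd (nat_lit 78) (nat_lit 0) (nat_lit 76) (XT.lf (nat_lit 76) (nat_lit 12751778142) (nat_lit 0) (nat_lit 12882368916) (nat_lit 760) (nat_lit 33038568918) (nat_lit 70) (nat_lit 5) (nat_lit 69) (nat_lit 5) (nat_lit 79) (nat_lit 5) (nat_lit 276) (nat_lit 273) (nat_lit 171)) (XT.lf (nat_lit 0) (nat_lit 29796506238) (nat_lit 684) (nat_lit 5841710431) (nat_lit 760) (nat_lit 25500081998) (nat_lit 70) (nat_lit 5) (nat_lit 79) (nat_lit 5) (nat_lit 80) (nat_lit 5) (nat_lit 277) (nat_lit 273) (nat_lit 170))) (XT.nd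 (nat_lit 78) (nat_lit 0) (nat_lit 0) (XT.lf (nat_lit 0) (nat_lit 35159018299) (nat_lit 684) (nat_lit 25357199717) (nat_lit 760) (nat_lit 3241561585) (nat_lit 71) (nat_lit 5) (nat_lit 80) (nat_lit 5) (nat_lit 81) (nat_lit 5) (nat_lit 278) (nat_lit 273) (nat_lit 169)) (XT.nd (nat_lit 78) (nat_lit 0) (nat_lit 76) (XT.lf (nat_lit 76) (nat_lit 19839486672) (nat_lit 0) (nat_lit 22122593776) (nat_lit 760) (nat_lit 24574170212) (nat_lit 72) (nat_lit 5) (nat_lit 71) (nat_lit 5) (nat_lit 81) (nat_lit 5) (nat_lit 279) (nat_lit 273) (nat_lit 168)) (XT.lf (nat_lit 0) (nat_lit 50057938096) (nat_lit 684) (nat_lit 268822589) (nat_lit 76) (nat_lit 19172819624) (nat_lit 72) (nat_lit 5) (nat_lit 81) (nat_lit 5) (nat_lit 73) (nat_lit 5) (nat_lit 280) (nat_lit 273) (nat_lit 167)))))) (XT.nd (nat_lit 390) (nat_lit 836) (nat_lit 0) (XT.nd (nat_lit 156) (nat_lit 760) (nat_lit 0) (XT.nd (nat_lit 78) (nat_lit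 304) (nat_lit 0) (XT.lf (nat_lit 0) (nat_lit 51135039758) (nat_lit 684) (nat_lit 8835602504) (nat_lit 760) (nat_lit 12670882979) (nat_lit 63) (nat_lit 5) (nat_lit 72) (nat_lit 5) (nat_lit 73) (nat_lit 5) (nat_lit 281) (nat_lit 273) (nat_lit 166)) (XT.lf (nat_lit 0) (nat_lit 31056518089) (nat_lit 304) (nat_lit 40669079518) (nat_lit 380) (nat_lit 4256773647) (nat_lit 59) (nat_lit 5) (nat_lit 63) (nat_lit 5) (nat_lit 64) (nat_lit 5) (nat_lit 282) (nat_lit 273) (nat_lit 165))) (XT.nd (nat_lit 78) (nat_lit 304) (nat_lit 0) (XT.lf (nat_lit 0) (nat_lit 5403665648) (nat_lit 456) (nat_lit 70532644398) (nat_lit 76) (nat_lit 3614020111) (nat_lit 53) (nat_lit 5) (nat_lit 59) (nat_lit 5) (nat_lit 54) (nat_lit 5) (nat_lit 283) (nat_lit 273) (nat_lit 164)) (XT.nd (nat_lit 78) (nat_lit 304) (nat_lit 0) (XT.lf (nat_lit 0) (nat_lit 17169092700) (nat_lit 456) (nat_lit 15255922718) (nat_lit 76) (nat_lit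 50901162635) (nat_lit 53) (nat_lit 5) (nat_lit 59) (nat_lit 5) (nat_lit 54) (nat_lit 5) (nat_lit 284) (nat_lit 273) (nat_lit 163)) (XT.lf (nat_lit 0) (nat_lit 30830000386) (nat_lit 380) (nat_lit 41696984261) (nat_lit 76) (nat_lit 14829402276) (nat_lit 49) (nat_lit 5) (nat_lit 54) (nat_lit 5) (nat_lit 50) (nat_lit 5) (nat_lit 285) (nat_lit 273) (nat_lit 162))))) (XT.nd (nat_lit 156) (nat_lit 532) (nat_lit 0) (XT.nd (nat_lit 78) (nat_lit 0) (nat_lit 0) (XT.lf (nat_lit 0) (nat_lit 20396919302) (nat_lit 304) (nat_lit 26320533930) (nat_lit 380) (nat_lit 44934880703) (nat_lit 45) (nat_lit 5) (nat_lit 49) (nat_lit 5) (nat_lit 50) (nat_lit 5) (nat_lit 286) (nat_lit 273) (nat_lit 161)) (XT.lf (nat_lit 0) (nat_lit 64980791853) (nat_lit 380) (nat_lit 7690234191) (nat_lit 76) (nat_lit 23565690873) (nat_lit 45) (nat_lit 5) (nat_lit 50) (nat_lit 5) (nat_lit 46) (nat_lit 5) (nat_lit 287) (nat_lit 273)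 (nat_lit 160))) (XT.nd (nat_lit 78) (nat_lit 304) (nat_lit 0) (XT.lf (nat_lit 0) (nat_lit 62515551060) (nat_lit 228) (nat_lit 23608075801) (nat_lit 304) (nat_lit 14993306550) (nat_lit 42) (nat_lit 5) (nat_lit 45) (nat_lit 5) (nat_lit 46) (nat_lit 5) (nat_lit 288) (nat_lit 273) (nat_lit 159)) (XT.nd (nat_lit 78) (nat_lit 0) (nat_lit 0) (XT.lf (nat_lit 0) (nat_lit 3612091668) (nat_lit 304) (nat_lit 73571142136) (nat_lit 76) (nat_lit 29146128921) (nat_lit 38) (nat_lit 5) (nat_lit 42) (nat_lit 5) (nat_lit 39) (nat_lit 5) (nat_lit 289) (nat_lit 273) (nat_lit 158)) (XT.lf (nat_lit 0) (nat_lit 24267862292) (nat_lit 304) (nat_lit 1383696901) (nat_lit 76) (nat_lit 86240579491) (nat_lit 38) (nat_lit 5) (nat_lit 42) (nat_lit 5) (nat_lit 39) (nat_lit 5) (nat_lit 290) (nat_lit 273) (nat_lit 157))))))) (XT.nd (nat_lit 780) (nat_lit 760) (nat_lit 0) (XT.nd (nat_lit 390) (nat_lit 532) (nat_lit 0) (XT.nd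 (nat_lit 156) (nat_lit 456) (nat_lit 0) (XT.nd (nat_lit 78) (nat_lit 228) (nat_lit 0) (XT.lf (nat_lit 0) (nat_lit 48298676045) (nat_lit 304) (nat_lit 39217710373) (nat_lit 76) (nat_lit 30297424506) (nat_lit 35) (nat_lit 5) (nat_lit 39) (nat_lit 5) (nat_lit 36) (nat_lit 5) (nat_lit 291) (nat_lit 273) (nat_lit 156)) (XT.lf (nat_lit 0) (nat_lit 41716421485) (nat_lit 228) (nat_lit 33642732192) (nat_lit 304) (nat_lit 48794706366) (nat_lit 32) (nat_lit 5) (nat_lit 35) (nat_lit 5) (nat_lit 36) (nat_lit 5) (nat_lit 292) (nat_lit 273) (nat_lit 155))) (XT.nd (nat_lit 78) (nat_lit 456) (nat_lit 0) (XT.lf (nat_lit 0) (nat_lit 105660880983) (nat_lit 304) (nat_lit 837073696) (nat_lit 76) (nat_lit 24449340650) (nat_lit 32) (nat_lit 5) (nat_lit 36) (nat_lit 5) (nat_lit 33) (nat_lit 5) (nat_lit 293) (nat_lit 273) (nat_lit 154)) (XT.nd (nat_lit 78) (nat_lit 228) (nat_lit 0) (XT.lf (nat_lit 0) (nat_lit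 2096495082) (nat_lit 228) (nat_lit 48629678572) (nat_lit 76) (nat_lit 87458092416) (nat_lit 29) (nat_lit 5) (nat_lit 32) (nat_lit 5) (nat_lit 30) (nat_lit 5) (nat_lit 294) (nat_lit 273) (nat_lit 153)) (XT.lf (nat_lit 0) (nat_lit 31634006894) (nat_lit 304) (nat_lit 103983344491) (nat_lit 76) (nat_lit 10319624692) (nat_lit 26) (nat_lit 5) (nat_lit 30) (nat_lit 5) (nat_lit 27) (nat_lit 5) (nat_lit 295) (nat_lit 273) (nat_lit 152))))) (XT.nd (nat_lit 156) (nat_lit 380) (nat_lit 0) (XT.nd (nat_lit 78) (nat_lit 152) (nat_lit 0) (XT.lf (nat_lit 0) (nat_lit 65249915825) (nat_lit 304) (nat_lit 13617962799) (nat_lit 76) (nat_lit 75356256577) (nat_lit 26) (nat_lit 5) (nat_lit 30) (nat_lit 5) (nat_lit 27) (nat_lit 5) (nat_lit 296) (nat_lit 273) (nat_lit 151)) (XT.lf (nat_lit 0) (nat_lit 86752006626) (nat_lit 152) (nat_lit 16156677006) (nat_lit 228) (nat_lit 60197906085) (nat_lit 24) (nat_lit 5)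 (nat_lit 26) (nat_lit 5) (nat_lit 27) (nat_lit 5) (nat_lit 297) (nat_lit 273) (nat_lit 150))) (XT.nd (nat_lit 78) (nat_lit 228) (nat_lit 0) (XT.lf (nat_lit 0) (nat_lit 22871834309) (nat_lit 152) (nat_lit 122110874278) (nat_lit 228) (nat_lit 27646806042) (nat_lit 22) (nat_lit 5) (nat_lit 24) (nat_lit 5) (nat_lit 25) (nat_lit 5) (nat_lit 298) (nat_lit 273) (nat_lit 149)) (XT.nd (nat_lit 78) (nat_lit 152) (nat_lit 0) (XT.lf (nat_lit 0) (nat_lit 8891560381) (nat_lit 228) (nat_lit 50497475670) (nat_lit 76) (nat_lit 123438203072) (nat_lit 21) (nat_lit 5) (nat_lit 24) (nat_lit 5) (nat_lit 22) (nat_lit 5) (nat_lit 299) (nat_lit 273) (nat_lit 148)) (XT.lf (nat_lit 0) (nat_lit 48456522753) (nat_lit 228) (nat_lit 135829361767) (nat_lit 76) (nat_lit 9478630426) (nat_lit 19) (nat_lit 5) (nat_lit 22) (nat_lit 5) (nat_lit 20) (nat_lit 5) (nat_lit 300) (nat_lit 273) (nat_lit 147)))))) (XT.nd (nat_lit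 390) (nat_lit 456) (nat_lit 0) (XT.nd (nat_lit 156) (nat_lit 152) (nat_lit 0) (XT.nd (nat_lit 78) (nat_lit 152) (nat_lit 0) (XT.lf (nat_lit 0) (nat_lit 93081444276) (nat_lit 228) (nat_lit 29704075669) (nat_lit 76) (nat_lit 82696516161) (nat_lit 19) (nat_lit 5) (nat_lit 22) (nat_lit 5) (nat_lit 20) (nat_lit 5) (nat_lit 301) (nat_lit 273) (nat_lit 146)) (XT.lf (nat_lit 0) (nat_lit 87717732299) (nat_lit 152) (nat_lit 54927499497) (nat_lit 228) (nat_lit 75423284823) (nat_lit 17) (nat_lit 5) (nat_lit 19) (nat_lit 5) (nat_lit 20) (nat_lit 5) (nat_lit 302) (nat_lit 273) (nat_lit 145))) (XT.nd (nat_lit 78) (nat_lit 152) (nat_lit 0) (XT.lf (nat_lit 0) (nat_lit 196986048364) (nat_lit 228) (nat_lit 16338155208) (nat_lit 76) (nat_lit 18297116881) (nat_lit 17) (nat_lit 5) (nat_lit 20) (nat_lit 5) (nat_lit 18) (nat_lit 4) (nat_lit 303) (nat_lit 273) (nat_lit 144)) (XT.nd (nat_lit 78) (nat_lit 0) (nat_lit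 0) (XT.lf (nat_lit 0) (nat_lit 11790741616) (nat_lit 152) (nat_lit 136947996417) (nat_lit 76) (nat_lit 97378445078) (nat_lit 15) (nat_lit 5) (nat_lit 17) (nat_lit 5) (nat_lit 16) (nat_lit 5) (nat_lit 304) (nat_lit 273) (nat_lit 143)) (XT.lf (nat_lit 0) (nat_lit 61022318094) (nat_lit 152) (nat_lit 17047521720) (nat_lit 76) (nat_lit 183659239719) (nat_lit 15) (nat_lit 5) (nat_lit 17) (nat_lit 5) (nat_lit 16) (nat_lit 5) (nat_lit 305) (nat_lit 273) (nat_lit 142))))) (XT.nd (nat_lit 156) (nat_lit 304) (nat_lit 0) (XT.nd (nat_lit 78) (nat_lit 0) (nat_lit 0) (XT.lf (nat_lit 0) (nat_lit 116007965898) (nat_lit 228) (nat_lit 162339651777) (nat_lit 76) (nat_lit 151533628) (nat_lit 13) (nat_lit 5) (nat_lit 16) (nat_lit 5) (nat_lit 14) (nat_lit 4) (nat_lit 306) (nat_lit 273) (nat_lit 141)) (XT.lf (nat_lit 0) (nat_lit 177010197069) (nat_lit 228) (nat_lit 37286225967) (nat_lit 76) (nat_lit 82233520027)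 (nat_lit 13) (nat_lit 5) (nat_lit 16) (nat_lit 5) (nat_lit 14) (nat_lit 4) (nat_lit 307) (nat_lit 273) (nat_lit 140))) (XT.nd (nat_lit 78) (nat_lit 228) (nat_lit 0) (XT.lf (nat_lit 0) (nat_lit 101003455333) (nat_lit 76) (nat_lit 143465641418) (nat_lit 152) (nat_lit 71455277678) (nat_lit 12) (nat_lit 5) (nat_lit 13) (nat_lit 5) (nat_lit 14) (nat_lit 4) (nat_lit 308) (nat_lit 273) (nat_lit 139)) (XT.nd (nat_lit 78) (nat_lit 228) (nat_lit 0) (XT.lf (nat_lit 0) (nat_lit 251687063344) (nat_lit 76) (nat_lit 66286712585) (nat_lit 152) (nat_lit 18864131709) (nat_lit 12) (nat_lit 5) (nat_lit 13) (nat_lit 5) (nat_lit 14) (nat_lit 4) (nat_lit 309) (nat_lit 273) (nat_lit 138)) (XT.lf (nat_lit 0) (nat_lit 37887855542) (nat_lit 228) (nat_lit 303434742523) (nat_lit 76) (nat_lit 18013928807) (nat_lit 9) (nat_lit 5) (nat_lit 12) (nat_lit 5) (nat_lit 10) (nat_lit 4) (nat_lit 310) (nat_lit 273) (nat_lit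 137))))))))
noncomputable def xc107 : XT := (XT.nd (nat_lit 35334) (nat_lit 0) (nat_lit 1064) (XT.nd (nat_lit 702) (nat_lit 0) (nat_lit 0) (XT.nd (nat_lit 312) (nat_lit 228) (nat_lit 0) (XT.nd (nat_lit 156) (nat_lit 76) (nat_lit 0) (XT.nd (nat_lit 78) (nat_lit 0) (nat_lit 0) (XT.lf (nat_lit 0) (nat_lit 101152840289) (nat_lit 228) (nat_lit 173742327488) (nat_lit 76) (nat_lit 108592718753) (nat_lit 9) (nat_lit 5) (nat_lit 12) (nat_lit 5) (nat_lit 10) (nat_lit 4) (nat_lit 311) (nat_lit 273) (nat_lit 136)) (XT.lf (nat_lit 0) (nat_lit 169478659337) (nat_lit 228) (nat_lit 33675142604) (nat_lit 76) (nat_lit 206417571781) (nat_lit 9) (nat_lit 5) (nat_lit 12) (nat_lit 5) (nat_lit 10) (nat_lit 4) (nat_lit 312) (nat_lit 273) (nat_lit 135))) (XT.nd (nat_lit 78) (nat_lit 0) (nat_lit 0) (XT.lf (nat_lit 0) (nat_lit 121485122500) (nat_lit 76) (nat_lit 123681807151) (nat_lit 152) (nat_lit 192479791447)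 (nat_lit 8) (nat_lit 5) (nat_lit 9) (nat_lit 5) (nat_lit 10) (nat_lit 4) (nat_lit 313) (nat_lit 273) (nat_lit 134)) (XT.lf (nat_lit 0) (nat_lit 290260185196) (nat_lit 76) (nat_lit 37236354551) (nat_lit 152) (nat_lit 140442243069) (nat_lit 8) (nat_lit 5) (nat_lit 9) (nat_lit 5) (nat_lit 10) (nat_lit 4) (nat_lit 314) (nat_lit 273) (nat_lit 133)))) (XT.nd (nat_lit 156) (nat_lit 152) (nat_lit 0) (XT.nd (nat_lit 78) (nat_lit 76) (nat_lit 0) (XT.lf (nat_lit 0) (nat_lit 417288482386) (nat_lit 152) (nat_lit 28993744107) (nat_lit 0) (nat_lit 54328185216) (nat_lit 8) (nat_lit 5) (nat_lit 10) (nat_lit 4) (nat_lit 8) (nat_lit 4) (nat_lit 315) (nat_lit 273) (nat_lit 132)) (XT.lf (nat_lit 0) (nat_lit 135287588034) (nat_lit 76) (nat_lit 381716005367) (nat_lit 76) (nat_lit 18755187261) (nat_lit 7) (nat_lit 4) (nat_lit 8) (nat_lit 5) (nat_lit 8) (nat_lit 4) (nat_lit 316) (nat_lit 273) (nat_lit 131)))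 (XT.nd (nat_lit 78) (nat_lit 76) (nat_lit 0) (XT.lf (nat_lit 0) (nat_lit 49858377363) (nat_lit 152) (nat_lit 260751626858) (nat_lit 76) (nat_lit 263043567538) (nat_lit 6) (nat_lit 5) (nat_lit 8) (nat_lit 5) (nat_lit 7) (nat_lit 4) (nat_lit 317) (nat_lit 273) (nat_lit 130)) (XT.nd (nat_lit 78) (nat_lit 76) (nat_lit 0) (XT.lf (nat_lit 0) (nat_lit 123312471670) (nat_lit 152) (nat_lit 110171180148) (nat_lit 76) (nat_lit 381080494798) (nat_lit 6) (nat_lit 5) (nat_lit 8) (nat_lit 5) (nat_lit 7) (nat_lit 4) (nat_lit 318) (nat_lit 273) (nat_lit 129)) (XT.lf (nat_lit 0) (nat_lit 54189706125) (nat_lit 76) (nat_lit 149299009354) (nat_lit 152) (nat_lit 455216561183) (nat_lit 5) (nat_lit 5) (nat_lit 6) (nat_lit 5) (nat_lit 7) (nat_lit 4) (nat_lit 319) (nat_lit 273) (nat_lit 128)))))) (XT.nd (nat_lit 34242) (nat_lit 0) (nat_lit 4408) (XT.nd (nat_lit 34008) (nat_lit 0) (nat_lit 4788) (XT.nd (nat_lit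 33930) (nat_lit 0) (nat_lit 4788) (XT.lf (nat_lit 0) (nat_lit 235633253024) (nat_lit 76) (nat_lit 56364696505) (nat_lit 152) (nat_lit 414283803321) (nat_lit 5) (nat_lit 5) (nat_lit 6) (nat_lit 5) (nat_lit 7) (nat_lit 4) (nat_lit 320) (nat_lit 273) (nat_lit 127)) (XT.lf (nat_lit 0) (nat_lit 5223593397) (nat_lit 0) (nat_lit 5223593397) (nat_lit 684) (nat_lit 17684945254) (nat_lit 68) (nat_lit 5) (nat_lit 68) (nat_lit 3) (nat_lit 77) (nat_lit 3) (nat_lit 274) (nat_lit 274) (nat_lit 172))) (XT.nd (nat_lit 78) (nat_lit 0) (nat_lit 76) (XT.lf (nat_lit 0) (nat_lit 22208468376) (nat_lit 684) (nat_lit 8459103567) (nat_lit 760) (nat_lit 27823240564) (nat_lit 68) (nat_lit 5) (nat_lit 77) (nat_lit 3) (nat_lit 78) (nat_lit 5) (nat_lit 275) (nat_lit 274) (nat_lit 171)) (XT.nd (nat_lit 78) (nat_lit 0) (nat_lit 0) (XT.lf (nat_lit 0) (nat_lit 24444224369) (nat_lit 684) (nat_lit 28234969579) (nat_lit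 760) (nat_lit 8175474781) (nat_lit 69) (nat_lit 5) (nat_lit 78) (nat_lit 5) (nat_lit 79) (nat_lit 5) (nat_lit 276) (nat_lit 274) (nat_lit 170)) (XT.lf (nat_lit 76) (nat_lit 13807250506) (nat_lit 0) (nat_lit 13931315663) (nat_lit 760) (nat_lit 35625090849) (nat_lit 70) (nat_lit 5) (nat_lit 69) (nat_lit 5) (nat_lit 79) (nat_lit 5) (nat_lit 277) (nat_lit 274) (nat_lit 169))))) (XT.nd (nat_lit 156) (nat_lit 532) (nat_lit 0) (XT.nd (nat_lit 78) (nat_lit 0) (nat_lit 76) (XT.lf (nat_lit 0) (nat_lit 32229671866) (nat_lit 684) (nat_lit 6273405640) (nat_lit 760) (nat_lit 27523635143) (nat_lit 70) (nat_lit 5) (nat_lit 79) (nat_lit 5) (nat_lit 80) (nat_lit 5) (nat_lit 278) (nat_lit 274) (nat_lit 168)) (XT.lf (nat_lit 0) (nat_lit 38017863750) (nat_lit 684) (nat_lit 27349011953) (nat_lit 760) (nat_lit 3489055572) (nat_lit 71) (nat_lit 5) (nat_lit 80) (nat_lit 5) (nat_lit 81) (nat_lit 5) (nat_lit 279)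 (nat_lit 274) (nat_lit 167))) (XT.nd (nat_lit 78) (nat_lit 608) (nat_lit 0) (XT.lf (nat_lit 76) (nat_lit 21461811640) (nat_lit 0) (nat_lit 23900491680) (nat_lit 760) (nat_lit 26494532261) (nat_lit 72) (nat_lit 5) (nat_lit 71) (nat_lit 5) (nat_lit 81) (nat_lit 5) (nat_lit 280) (nat_lit 274) (nat_lit 166)) (XT.nd (nat_lit 78) (nat_lit 684) (nat_lit 0) (XT.lf (nat_lit 0) (nat_lit 54102508442) (nat_lit 684) (nat_lit 255506655) (nat_lit 76) (nat_lit 20699393844) (nat_lit 72) (nat_lit 5) (nat_lit 81) (nat_lit 5) (nat_lit 73) (nat_lit 5) (nat_lit 281) (nat_lit 274) (nat_lit 165)) (XT.lf (nat_lit 0) (nat_lit 55259151370) (nat_lit 684) (nat_lit 9546639439) (nat_lit 760) (nat_lit 13645051011) (nat_lit 63) (nat_lit 5) (nat_lit 72) (nat_lit 5) (nat_lit 73) (nat_lit 5) (nat_lit 282) (nat_lit 274) (nat_lit 164))))))) (XT.nd (nat_lit 780) (nat_lit 1216) (nat_lit 0) (XT.nd (nat_lit 390) (nat_lit 760)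 (nat_lit 0) (XT.nd (nat_lit 156) (nat_lit 608) (nat_lit 0) (XT.nd (nat_lit 78) (nat_lit 456) (nat_lit 0) (XT.lf (nat_lit 0) (nat_lit 33574881266) (nat_lit 304) (nat_lit 43923951558) (nat_lit 380) (nat_lit 4560247851) (nat_lit 59) (nat_lit 5) (nat_lit 63) (nat_lit 5) (nat_lit 64) (nat_lit 5) (nat_lit 283) (nat_lit 274) (nat_lit 163)) (XT.lf (nat_lit 0) (nat_lit 5869705092) (nat_lit 456) (nat_lit 76139843856) (nat_lit 76) (nat_lit 3903013690) (nat_lit 53) (nat_lit 5) (nat_lit 59) (nat_lit 5) (nat_lit 54) (nat_lit 5) (nat_lit 284) (nat_lit 274) (nat_lit 162))) (XT.nd (nat_lit 78) (nat_lit 608) (nat_lit 0) (XT.lf (nat_lit 0) (nat_lit 18573866590) (nat_lit 456) (nat_lit 16443607560) (nat_lit 76) (nat_lit 54973137100) (nat_lit 53) (nat_lit 5) (nat_lit 59) (nat_lit 5) (nat_lit 54) (nat_lit 5) (nat_lit 285) (nat_lit 274) (nat_lit 161)) (XT.nd (nat_lit 78) (nat_lit 304) (nat_lit 0) (XT.lf (nat_lit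 0) (nat_lit 33325852345) (nat_lit 380) (nat_lit 44999846830) (nat_lit 76) (nat_lit 16017634695) (nat_lit 49) (nat_lit 5) (nat_lit 54) (nat_lit 5) (nat_lit 50) (nat_lit 5) (nat_lit 286) (nat_lit 274) (nat_lit 160)) (XT.lf (nat_lit 0) (nat_lit 22060139390) (nat_lit 304) (nat_lit 28422471684) (nat_lit 380) (nat_lit 48500436857) (nat_lit 45) (nat_lit 5) (nat_lit 49) (nat_lit 5) (nat_lit 50) (nat_lit 5) (nat_lit 287) (nat_lit 274) (nat_lit 159))))) (XT.nd (nat_lit 156) (nat_lit 532) (nat_lit 0) (XT.nd (nat_lit 78) (nat_lit 228) (nat_lit 0) (XT.lf (nat_lit 0) (nat_lit 70205013931) (nat_lit 380) (nat_lit 8275007169) (nat_lit 76) (nat_lit 25454266864) (nat_lit 45) (nat_lit 5) (nat_lit 50) (nat_lit 5) (nat_lit 46) (nat_lit 5) (nat_lit 288) (nat_lit 274) (nat_lit 158)) (XT.lf (nat_lit 0) (nat_lit 67545917767) (nat_lit 228) (nat_lit 25491904605) (nat_lit 304) (nat_lit 16167177879) (nat_lit 42)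 (nat_lit 5) (nat_lit 45) (nat_lit 5) (nat_lit 46) (nat_lit 5) (nat_lit 289) (nat_lit 274) (nat_lit 157))) (XT.nd (nat_lit 78) (nat_lit 228) (nat_lit 0) (XT.lf (nat_lit 0) (nat_lit 3924529183) (nat_lit 304) (nat_lit 79426976575) (nat_lit 76) (nat_lit 31482968487) (nat_lit 38) (nat_lit 5) (nat_lit 42) (nat_lit 5) (nat_lit 39) (nat_lit 5) (nat_lit 290) (nat_lit 274) (nat_lit 156)) (XT.nd (nat_lit 78) (nat_lit 228) (nat_lit 0) (XT.lf (nat_lit 0) (nat_lit 26231022925) (nat_lit 304) (nat_lit 1466747345) (nat_lit 76) (nat_lit 93144593676) (nat_lit 38) (nat_lit 5) (nat_lit 42) (nat_lit 5) (nat_lit 39) (nat_lit 5) (nat_lit 291) (nat_lit 274) (nat_lit 155)) (XT.lf (nat_lit 0) (nat_lit 52183197147) (nat_lit 304) (nat_lit 42327693985) (nat_lit 76) (nat_lit 32726938454) (nat_lit 35) (nat_lit 5) (nat_lit 39) (nat_lit 5) (nat_lit 36) (nat_lit 5) (nat_lit 292) (nat_lit 274) (nat_lit 154)))))) (XT.nd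 (nat_lit 390) (nat_lit 532) (nat_lit 0) (XT.nd (nat_lit 156) (nat_lit 456) (nat_lit 0) (XT.nd (nat_lit 78) (nat_lit 0) (nat_lit 0) (XT.lf (nat_lit 0) (nat_lit 45079976207) (nat_lit 228) (nat_lit 36327418550) (nat_lit 304) (nat_lit 52677747851) (nat_lit 32) (nat_lit 5) (nat_lit 35) (nat_lit 5) (nat_lit 36) (nat_lit 5) (nat_lit 293) (nat_lit 274) (nat_lit 153)) (XT.lf (nat_lit 0) (nat_lit 114131912476) (nat_lit 304) (nat_lit 878889470) (nat_lit 76) (nat_lit 26411321924) (nat_lit 32) (nat_lit 5) (nat_lit 36) (nat_lit 5) (nat_lit 33) (nat_lit 5) (nat_lit 294) (nat_lit 274) (nat_lit 152))) (XT.nd (nat_lit 78) (nat_lit 228) (nat_lit 0) (XT.lf (nat_lit 0) (nat_lit 2281730024) (nat_lit 228) (nat_lit 52495375117) (nat_lit 76) (nat_lit 94460984972) (nat_lit 29) (nat_lit 5) (nat_lit 32) (nat_lit 5) (nat_lit 30) (nat_lit 5) (nat_lit 295) (nat_lit 274) (nat_lit 151)) (XT.nd (nat_lit 78) (nat_lit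 0) (nat_lit 0) (XT.lf (nat_lit 0) (nat_lit 34181423477) (nat_lit 304) (nat_lit 112277648630) (nat_lit 76) (nat_lit 11151988850) (nat_lit 26) (nat_lit 5) (nat_lit 30) (nat_lit 5) (nat_lit 27) (nat_lit 5) (nat_lit 296) (nat_lit 274) (nat_lit 150)) (XT.lf (nat_lit 0) (nat_lit 70485368380) (nat_lit 304) (nat_lit 14684841100) (nat_lit 76) (nat_lit 81391048014) (nat_lit 26) (nat_lit 5) (nat_lit 30) (nat_lit 5) (nat_lit 27) (nat_lit 5) (nat_lit 297) (nat_lit 274) (nat_lit 149))))) (XT.nd (nat_lit 156) (nat_lit 228) (nat_lit 0) (XT.nd (nat_lit 78) (nat_lit 152) (nat_lit 0) (XT.lf (nat_lit 0) (nat_lit 93713745504) (nat_lit 152) (nat_lit 17442283873) (nat_lit 228) (nat_lit 64998322039) (nat_lit 24) (nat_lit 5) (nat_lit 26) (nat_lit 5) (nat_lit 27) (nat_lit 5) (nat_lit 298) (nat_lit 274) (nat_lit 148)) (XT.lf (nat_lit 0) (nat_lit 24722850391) (nat_lit 152) (nat_lit 131872472891) (nat_lit 228) (nat_lit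 29843822130) (nat_lit 22) (nat_lit 5) (nat_lit 24) (nat_lit 5) (nat_lit 25) (nat_lit 5) (nat_lit 299) (nat_lit 274) (nat_lit 147))) (XT.nd (nat_lit 78) (nat_lit 152) (nat_lit 0) (XT.lf (nat_lit 0) (nat_lit 9616086133) (nat_lit 228) (nat_lit 54517116527) (nat_lit 76) (nat_lit 133319528663) (nat_lit 21) (nat_lit 5) (nat_lit 24) (nat_lit 5) (nat_lit 22) (nat_lit 5) (nat_lit 300) (nat_lit 274) (nat_lit 146)) (XT.nd (nat_lit 78) (nat_lit 0) (nat_lit 0) (XT.lf (nat_lit 0) (nat_lit 52345674179) (nat_lit 228) (nat_lit 146675883917) (nat_lit 76) (nat_lit 10243461673) (nat_lit 19) (nat_lit 5) (nat_lit 22) (nat_lit 5) (nat_lit 20) (nat_lit 5) (nat_lit 301) (nat_lit 274) (nat_lit 145)) (XT.lf (nat_lit 0) (nat_lit 100539653897) (nat_lit 228) (nat_lit 32062043583) (nat_lit 76) (nat_lit 89318293761) (nat_lit 19) (nat_lit 5) (nat_lit 22) (nat_lit 5) (nat_lit 20) (nat_lit 5) (nat_lit 302) (nat_lit 274)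 (nat_lit 144))))))))
noncomputable def xc108 : XT := (XT.nd (nat_lit 35412) (nat_lit 0) (nat_lit 2052) (XT.nd (nat_lit 702) (nat_lit 304) (nat_lit 0) (XT.nd (nat_lit 312) (nat_lit 456) (nat_lit 0) (XT.nd (nat_lit 156) (nat_lit 152) (nat_lit 0) (XT.nd (nat_lit 78) (nat_lit 0) (nat_lit 0) (XT.lf (nat_lit 0) (nat_lit 94752711200) (nat_lit 152) (nat_lit 59315241157) (nat_lit 228) (nat_lit 81445469150) (nat_lit 17) (nat_lit 5) (nat_lit 19) (nat_lit 5) (nat_lit 20) (nat_lit 5) (nat_lit 303) (nat_lit 274) (nat_lit 143)) (XT.lf (nat_lit 0) (nat_lit 212755305242) (nat_lit 228) (nat_lit 17628507692) (nat_lit 76) (nat_lit 19766674745) (nat_lit 17) (nat_lit 5) (nat_lit 20) (nat_lit 5) (nat_lit 18) (nat_lit 4) (nat_lit 304) (nat_lit 274) (nat_lit 142))) (XT.nd (nat_lit 78) (nat_lit 0) (nat_lit 0) (XT.lf (nat_lit 0) (nat_lit 12744034238) (nat_lit 152) (nat_lit 147887512784) (nat_lit 76) (nat_lit 105174491648)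 (nat_lit 15) (nat_lit 5) (nat_lit 17) (nat_lit 5) (nat_lit 16) (nat_lit 5) (nat_lit 305) (nat_lit 274) (nat_lit 141)) (XT.lf (nat_lit 0) (nat_lit 65913393627) (nat_lit 152) (nat_lit 18396209249) (nat_lit 76) (nat_lit 198357322382) (nat_lit 15) (nat_lit 5) (nat_lit 17) (nat_lit 5) (nat_lit 16) (nat_lit 5) (nat_lit 306) (nat_lit 274) (nat_lit 140)))) (XT.nd (nat_lit 156) (nat_lit 304) (nat_lit 0) (XT.nd (nat_lit 78) (nat_lit 0) (nat_lit 0) (XT.lf (nat_lit 0) (nat_lit 125297518716) (nat_lit 228) (nat_lit 175311998128) (nat_lit 76) (nat_lit 169105846) (nat_lit 13) (nat_lit 5) (nat_lit 16) (nat_lit 5) (nat_lit 14) (nat_lit 4) (nat_lit 307) (nat_lit 274) (nat_lit 139)) (XT.lf (nat_lit 0) (nat_lit 191179267970) (nat_lit 228) (nat_lit 40255396460) (nat_lit 76) (nat_lit 88817247488) (nat_lit 13) (nat_lit 5) (nat_lit 16) (nat_lit 5) (nat_lit 14) (nat_lit 4) (nat_lit 308) (nat_lit 274) (nat_lit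 138))) (XT.nd (nat_lit 78) (nat_lit 228) (nat_lit 0) (XT.lf (nat_lit 0) (nat_lit 109096862760) (nat_lit 76) (nat_lit 154937610387) (nat_lit 152) (nat_lit 77163445995) (nat_lit 12) (nat_lit 5) (nat_lit 13) (nat_lit 5) (nat_lit 14) (nat_lit 4) (nat_lit 309) (nat_lit 274) (nat_lit 137)) (XT.nd (nat_lit 78) (nat_lit 228) (nat_lit 0) (XT.lf (nat_lit 0) (nat_lit 271834186744) (nat_lit 76) (nat_lit 71584758533) (nat_lit 152) (nat_lit 20365619748) (nat_lit 12) (nat_lit 5) (nat_lit 13) (nat_lit 5) (nat_lit 14) (nat_lit 4) (nat_lit 310) (nat_lit 274) (nat_lit 136)) (XT.lf (nat_lit 0) (nat_lit 40925994838) (nat_lit 228) (nat_lit 327697360530) (nat_lit 76) (nat_lit 19459727652) (nat_lit 9) (nat_lit 5) (nat_lit 12) (nat_lit 5) (nat_lit 10) (nat_lit 4) (nat_lit 311) (nat_lit 274) (nat_lit 135)))))) (XT.nd (nat_lit 390) (nat_lit 228) (nat_lit 0) (XT.nd (nat_lit 156) (nat_lit 76) (nat_lit 0) (XT.nd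 (nat_lit 78) (nat_lit 0) (nat_lit 0) (XT.lf (nat_lit 0) (nat_lit 109251651635) (nat_lit 228) (nat_lit 187630453137) (nat_lit 76) (nat_lit 117284473792) (nat_lit 9) (nat_lit 5) (nat_lit 12) (nat_lit 5) (nat_lit 10) (nat_lit 4) (nat_lit 312) (nat_lit 274) (nat_lit 134)) (XT.lf (nat_lit 0) (nat_lit 183043048494) (nat_lit 228) (nat_lit 36358727577) (nat_lit 76) (nat_lit 222934993762) (nat_lit 9) (nat_lit 5) (nat_lit 12) (nat_lit 5) (nat_lit 10) (nat_lit 4) (nat_lit 313) (nat_lit 274) (nat_lit 133))) (XT.nd (nat_lit 78) (nat_lit 0) (nat_lit 0) (XT.lf (nat_lit 0) (nat_lit 131213905615) (nat_lit 76) (nat_lit 133572178944) (nat_lit 152) (nat_lit 207872075898) (nat_lit 8) (nat_lit 5) (nat_lit 9) (nat_lit 5) (nat_lit 10) (nat_lit 4) (nat_lit 314) (nat_lit 274) (nat_lit 132)) (XT.nd (nat_lit 78) (nat_lit 0) (nat_lit 0) (XT.lf (nat_lit 0) (nat_lit 313490234563) (nat_lit 76) (nat_lit 40211399230)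 (nat_lit 152) (nat_lit 151671975418) (nat_lit 8) (nat_lit 5) (nat_lit 9) (nat_lit 5) (nat_lit 10) (nat_lit 4) (nat_lit 315) (nat_lit 274) (nat_lit 131)) (XT.lf (nat_lit 0) (nat_lit 450676589856) (nat_lit 152) (nat_lit 31304493211) (nat_lit 0) (nat_lit 58677903018) (nat_lit 8) (nat_lit 5) (nat_lit 10) (nat_lit 4) (nat_lit 8) (nat_lit 4) (nat_lit 316) (nat_lit 274) (nat_lit 130))))) (XT.nd (nat_lit 156) (nat_lit 76) (nat_lit 0) (XT.nd (nat_lit 78) (nat_lit 76) (nat_lit 0) (XT.lf (nat_lit 0) (nat_lit 146118965218) (nat_lit 76) (nat_lit 412249702705) (nat_lit 76) (nat_lit 20250569248) (nat_lit 7) (nat_lit 4) (nat_lit 8) (nat_lit 5) (nat_lit 8) (nat_lit 4) (nat_lit 317) (nat_lit 274) (nat_lit 129)) (XT.lf (nat_lit 0) (nat_lit 53851558577) (nat_lit 152) (nat_lit 281603851909) (nat_lit 76) (nat_lit 284090215651) (nat_lit 6) (nat_lit 5) (nat_lit 8) (nat_lit 5) (nat_lit 7) (nat_lit 4) (nat_lit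 318) (nat_lit 274) (nat_lit 128))) (XT.nd (nat_lit 78) (nat_lit 76) (nat_lit 0) (XT.lf (nat_lit 0) (nat_lit 133181646278) (nat_lit 152) (nat_lit 118977555025) (nat_lit 76) (nat_lit 411569862818) (nat_lit 6) (nat_lit 5) (nat_lit 8) (nat_lit 5) (nat_lit 7) (nat_lit 4) (nat_lit 319) (nat_lit 274) (nat_lit 127)) (XT.nd (nat_lit 34008) (nat_lit 0) (nat_lit 4788) (XT.lf (nat_lit 0) (nat_lit 58531884052) (nat_lit 76) (nat_lit 161239905454) (nat_lit 152) (nat_lit 491629705467) (nat_lit 5) (nat_lit 5) (nat_lit 6) (nat_lit 5) (nat_lit 7) (nat_lit 4) (nat_lit 320) (nat_lit 274) (nat_lit 126)) (XT.lf (nat_lit 0) (nat_lit 5655904384) (nat_lit 0) (nat_lit 5655904384) (nat_lit 684) (nat_lit 19069347884) (nat_lit 68) (nat_lit 5) (nat_lit 68) (nat_lit 3) (nat_lit 77) (nat_lit 3) (nat_lit 275) (nat_lit 275) (nat_lit 170))))))) (XT.nd (nat_lit 702) (nat_lit 2052) (nat_lit 0) (XT.nd (nat_lit 312) (nat_lit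 684) (nat_lit 0) (XT.nd (nat_lit 156) (nat_lit 0) (nat_lit 76) (XT.nd (nat_lit 78) (nat_lit 0) (nat_lit 76) (XT.lf (nat_lit 0) (nat_lit 24038149251) (nat_lit 684) (nat_lit 9105841729) (nat_lit 760) (nat_lit 30023244489) (nat_lit 68) (nat_lit 5) (nat_lit 77) (nat_lit 3) (nat_lit 78) (nat_lit 5) (nat_lit 276) (nat_lit 275) (nat_lit 169)) (XT.lf (nat_lit 0) (nat_lit 26448962083) (nat_lit 684) (nat_lit 30462101101) (nat_lit 760) (nat_lit 8809341401) (nat_lit 69) (nat_lit 5) (nat_lit 78) (nat_lit 5) (nat_lit 79) (nat_lit 5) (nat_lit 277) (nat_lit 275) (nat_lit 168))) (XT.nd (nat_lit 78) (nat_lit 0) (nat_lit 76) (XT.lf (nat_lit 76) (nat_lit 14942120423) (nat_lit 0) (nat_lit 15061559286) (nat_lit 760) (nat_lit 38426603963) (nat_lit 70) (nat_lit 5) (nat_lit 69) (nat_lit 5) (nat_lit 79) (nat_lit 5) (nat_lit 278) (nat_lit 275) (nat_lit 167)) (XT.lf (nat_lit 0) (nat_lit 34850436843) (nat_lit 684)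 (nat_lit 6744721142) (nat_lit 760) (nat_lit 29711419803) (nat_lit 70) (nat_lit 5) (nat_lit 79) (nat_lit 5) (nat_lit 80) (nat_lit 5) (nat_lit 279) (nat_lit 275) (nat_lit 166)))) (XT.nd (nat_lit 156) (nat_lit 912) (nat_lit 0) (XT.nd (nat_lit 78) (nat_lit 0) (nat_lit 0) (XT.lf (nat_lit 0) (nat_lit 41098836734) (nat_lit 684) (nat_lit 29505413926) (nat_lit 760) (nat_lit 3758036893) (nat_lit 71) (nat_lit 5) (nat_lit 80) (nat_lit 5) (nat_lit 81) (nat_lit 5) (nat_lit 280) (nat_lit 275) (nat_lit 165)) (XT.lf (nat_lit 76) (nat_lit 23208905777) (nat_lit 0) (nat_lit 25819467230) (nat_lit 760) (nat_lit 28575024567) (nat_lit 72) (nat_lit 5) (nat_lit 71) (nat_lit 5) (nat_lit 81) (nat_lit 5) (nat_lit 281) (nat_lit 275) (nat_lit 164))) (XT.nd (nat_lit 78) (nat_lit 988) (nat_lit 0) (XT.lf (nat_lit 0) (nat_lit 58464947198) (nat_lit 684) (nat_lit 246093156) (nat_lit 76) (nat_lit 22349128488) (nat_lit 72)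 (nat_lit 5) (nat_lit 81) (nat_lit 5) (nat_lit 73) (nat_lit 5) (nat_lit 282) (nat_lit 275) (nat_lit 163)) (XT.nd (nat_lit 78) (nat_lit 304) (nat_lit 0) (XT.lf (nat_lit 0) (nat_lit 59708440090) (nat_lit 684) (nat_lit 10313961760) (nat_lit 760) (nat_lit 14702787974) (nat_lit 63) (nat_lit 5) (nat_lit 72) (nat_lit 5) (nat_lit 73) (nat_lit 5) (nat_lit 283) (nat_lit 275) (nat_lit 162)) (XT.lf (nat_lit 0) (nat_lit 36289885595) (nat_lit 304) (nat_lit 47439021386) (nat_lit 380) (nat_lit 4893288111) (nat_lit 59) (nat_lit 5) (nat_lit 63) (nat_lit 5) (nat_lit 64) (nat_lit 5) (nat_lit 284) (nat_lit 275) (nat_lit 161)))))) (XT.nd (nat_lit 390) (nat_lit 988) (nat_lit 0) (XT.nd (nat_lit 156) (nat_lit 608) (nat_lit 0) (XT.nd (nat_lit 78) (nat_lit 0) (nat_lit 0) (XT.lf (nat_lit 0) (nat_lit 6368213420) (nat_lit 456) (nat_lit 82200671201) (nat_lit 76) (nat_lit 4215145020) (nat_lit 53) (nat_lit 5) (nat_lit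 59) (nat_lit 5) (nat_lit 54) (nat_lit 5) (nat_lit 285) (nat_lit 275) (nat_lit 160)) (XT.lf (nat_lit 0) (nat_lit 20086564733) (nat_lit 456) (nat_lit 17730984903) (nat_lit 76) (nat_lit 59370886433) (nat_lit 53) (nat_lit 5) (nat_lit 59) (nat_lit 5) (nat_lit 54) (nat_lit 5) (nat_lit 286) (nat_lit 275) (nat_lit 159))) (XT.nd (nat_lit 78) (nat_lit 304) (nat_lit 0) (XT.lf (nat_lit 0) (nat_lit 36017170813) (nat_lit 380) (nat_lit 48571631411) (nat_lit 76) (nat_lit 17300657471) (nat_lit 49) (nat_lit 5) (nat_lit 54) (nat_lit 5) (nat_lit 50) (nat_lit 5) (nat_lit 287) (nat_lit 275) (nat_lit 158)) (XT.nd (nat_lit 78) (nat_lit 0) (nat_lit 0) (XT.lf (nat_lit 0) (nat_lit 23851928032) (nat_lit 304) (nat_lit 30693093013) (nat_lit 380) (nat_lit 52355408103) (nat_lit 45) (nat_lit 5) (nat_lit 49) (nat_lit 5) (nat_lit 50) (nat_lit 5) (nat_lit 288) (nat_lit 275) (nat_lit 157)) (XT.lf (nat_lit 0) (nat_lit 75843499005)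 (nat_lit 380) (nat_lit 8910905412) (nat_lit 76) (nat_lit 27493455196) (nat_lit 45) (nat_lit 5) (nat_lit 50) (nat_lit 5) (nat_lit 46) (nat_lit 5) (nat_lit 289) (nat_lit 275) (nat_lit 156))))) (XT.nd (nat_lit 156) (nat_lit 456) (nat_lit 0) (XT.nd (nat_lit 78) (nat_lit 304) (nat_lit 0) (XT.lf (nat_lit 0) (nat_lit 72974559143) (nat_lit 228) (nat_lit 27527126949) (nat_lit 304) (nat_lit 17438610070) (nat_lit 42) (nat_lit 5) (nat_lit 45) (nat_lit 5) (nat_lit 46) (nat_lit 5) (nat_lit 290) (nat_lit 275) (nat_lit 155)) (XT.lf (nat_lit 0) (nat_lit 4258613416) (nat_lit 304) (nat_lit 85755537194) (nat_lit 76) (nat_lit 34006020619) (nat_lit 38) (nat_lit 5) (nat_lit 42) (nat_lit 5) (nat_lit 39) (nat_lit 5) (nat_lit 291) (nat_lit 275) (nat_lit 154))) (XT.nd (nat_lit 78) (nat_lit 456) (nat_lit 0) (XT.lf (nat_lit 0) (nat_lit 28348136146) (nat_lit 304) (nat_lit 1560385737) (nat_lit 76) (nat_lit 100600248812)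 (nat_lit 38) (nat_lit 5) (nat_lit 42) (nat_lit 5) (nat_lit 39) (nat_lit 5) (nat_lit 292) (nat_lit 275) (nat_lit 153)) (XT.nd (nat_lit 78) (nat_lit 228) (nat_lit 0) (XT.lf (nat_lit 0) (nat_lit 56375537263) (nat_lit 304) (nat_lit 45690389941) (nat_lit 76) (nat_lit 35349997497) (nat_lit 35) (nat_lit 5) (nat_lit 39) (nat_lit 5) (nat_lit 36) (nat_lit 5) (nat_lit 293) (nat_lit 275) (nat_lit 152)) (XT.lf (nat_lit 0) (nat_lit 48708871735) (nat_lit 228) (nat_lit 39227840244) (nat_lit 304) (nat_lit 56874362206) (nat_lit 32) (nat_lit 5) (nat_lit 35) (nat_lit 5) (nat_lit 36) (nat_lit 5) (nat_lit 294) (nat_lit 275) (nat_lit 151))))))))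
noncomputable def xc109 : XT := (XT.nd (nat_lit 1482) (nat_lit 228) (nat_lit 0) (XT.nd (nat_lit 702) (nat_lit 760) (nat_lit 0) (XT.nd (nat_lit 312) (nat_lit 532) (nat_lit 0) (XT.nd (nat_lit 156) (nat_lit 228) (nat_lit 0) (XT.nd (nat_lit 78) (nat_lit 228) (nat_lit 0) (XT.lf (nat_lit 0) (nat_lit 123278035617) (nat_lit 304) (nat_lit 927638451) (nat_lit 76) (nat_lit 28529400879) (nat_lit 32) (nat_lit 5) (nat_lit 36) (nat_lit 5) (nat_lit 33) (nat_lit 5) (nat_lit 295) (nat_lit 275) (nat_lit 150)) (XT.lf (nat_lit 0) (nat_lit 2479285003) (nat_lit 228) (nat_lit 56673847940) (nat_lit 76) (nat_lit 102023217989) (nat_lit 29) (nat_lit 5) (nat_lit 32) (nat_lit 5) (nat_lit 30) (nat_lit 5) (nat_lit 296) (nat_lit 275) (nat_lit 149))) (XT.nd (nat_lit 78) (nat_lit 0) (nat_lit 0) (XT.lf (nat_lit 0) (nat_lit 36930251511) (nat_lit 304) (nat_lit 121238972814) (nat_lit 76) (nat_lit 12049972875) (nat_lit 26)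 (nat_lit 5) (nat_lit 30) (nat_lit 5) (nat_lit 27) (nat_lit 5) (nat_lit 297) (nat_lit 275) (nat_lit 148)) (XT.lf (nat_lit 0) (nat_lit 76137451698) (nat_lit 304) (nat_lit 15840287920) (nat_lit 76) (nat_lit 87907725296) (nat_lit 26) (nat_lit 5) (nat_lit 30) (nat_lit 5) (nat_lit 27) (nat_lit 5) (nat_lit 298) (nat_lit 275) (nat_lit 147)))) (XT.nd (nat_lit 156) (nat_lit 228) (nat_lit 0) (XT.nd (nat_lit 78) (nat_lit 152) (nat_lit 0) (XT.lf (nat_lit 0) (nat_lit 101229345100) (nat_lit 152) (nat_lit 18831727545) (nat_lit 228) (nat_lit 70184970610) (nat_lit 24) (nat_lit 5) (nat_lit 26) (nat_lit 5) (nat_lit 27) (nat_lit 5) (nat_lit 299) (nat_lit 275) (nat_lit 146)) (XT.lf (nat_lit 0) (nat_lit 26718913450) (nat_lit 152) (nat_lit 142416036730) (nat_lit 228) (nat_lit 32218700676) (nat_lit 22) (nat_lit 5) (nat_lit 24) (nat_lit 5) (nat_lit 25) (nat_lit 5) (nat_lit 300) (nat_lit 275) (nat_lit 145))) (XT.nd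 (nat_lit 78) (nat_lit 152) (nat_lit 0) (XT.lf (nat_lit 0) (nat_lit 10396690686) (nat_lit 228) (nat_lit 58861204302) (nat_lit 76) (nat_lit 143990465909) (nat_lit 21) (nat_lit 5) (nat_lit 24) (nat_lit 5) (nat_lit 22) (nat_lit 5) (nat_lit 301) (nat_lit 275) (nat_lit 144)) (XT.nd (nat_lit 78) (nat_lit 0) (nat_lit 0) (XT.lf (nat_lit 0) (nat_lit 56544155965) (nat_lit 228) (nat_lit 158392956353) (nat_lit 76) (nat_lit 11068546299) (nat_lit 19) (nat_lit 5) (nat_lit 22) (nat_lit 5) (nat_lit 20) (nat_lit 5) (nat_lit 302) (nat_lit 275) (nat_lit 143)) (XT.lf (nat_lit 0) (nat_lit 108592851997) (nat_lit 228) (nat_lit 34611267924) (nat_lit 76) (nat_lit 96468949570) (nat_lit 19) (nat_lit 5) (nat_lit 22) (nat_lit 5) (nat_lit 20) (nat_lit 5) (nat_lit 303) (nat_lit 275) (nat_lit 142)))))) (XT.nd (nat_lit 390) (nat_lit 304) (nat_lit 0) (XT.nd (nat_lit 156) (nat_lit 304) (nat_lit 0) (XT.nd (nat_lit 78) (nat_lit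 0) (nat_lit 0) (XT.lf (nat_lit 0) (nat_lit 102347983238) (nat_lit 152) (nat_lit 64054923497) (nat_lit 228) (nat_lit 87951094286) (nat_lit 17) (nat_lit 5) (nat_lit 19) (nat_lit 5) (nat_lit 20) (nat_lit 5) (nat_lit 304) (nat_lit 275) (nat_lit 141)) (XT.lf (nat_lit 0) (nat_lit 229784622844) (nat_lit 228) (nat_lit 19024470807) (nat_lit 76) (nat_lit 21352971442) (nat_lit 17) (nat_lit 5) (nat_lit 20) (nat_lit 5) (nat_lit 18) (nat_lit 4) (nat_lit 305) (nat_lit 275) (nat_lit 140))) (XT.nd (nat_lit 78) (nat_lit 152) (nat_lit 0) (XT.lf (nat_lit 0) (nat_lit 13772158907) (nat_lit 152) (nat_lit 159704519169) (nat_lit 76) (nat_lit 113593398651) (nat_lit 15) (nat_lit 5) (nat_lit 17) (nat_lit 5) (nat_lit 16) (nat_lit 5) (nat_lit 306) (nat_lit 275) (nat_lit 139)) (XT.nd (nat_lit 78) (nat_lit 152) (nat_lit 0) (XT.lf (nat_lit 0) (nat_lit 71194429867) (nat_lit 152) (nat_lit 19854947990) (nat_lit 76) (nat_lit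 214230489349) (nat_lit 15) (nat_lit 5) (nat_lit 17) (nat_lit 5) (nat_lit 16) (nat_lit 5) (nat_lit 307) (nat_lit 275) (nat_lit 138)) (XT.lf (nat_lit 0) (nat_lit 135328963857) (nat_lit 228) (nat_lit 189324247252) (nat_lit 76) (nat_lit 187306405) (nat_lit 13) (nat_lit 5) (nat_lit 16) (nat_lit 5) (nat_lit 14) (nat_lit 4) (nat_lit 308) (nat_lit 275) (nat_lit 137))))) (XT.nd (nat_lit 156) (nat_lit 228) (nat_lit 0) (XT.nd (nat_lit 78) (nat_lit 76) (nat_lit 0) (XT.lf (nat_lit 0) (nat_lit 206480686856) (nat_lit 228) (nat_lit 43464058987) (nat_lit 76) (nat_lit 95926953297) (nat_lit 13) (nat_lit 5) (nat_lit 16) (nat_lit 5) (nat_lit 14) (nat_lit 4) (nat_lit 309) (nat_lit 275) (nat_lit 136)) (XT.lf (nat_lit 0) (nat_lit 117835869497) (nat_lit 76) (nat_lit 167328090459) (nat_lit 152) (nat_lit 83329445289) (nat_lit 12) (nat_lit 5) (nat_lit 13) (nat_lit 5) (nat_lit 14) (nat_lit 4) (nat_lit 310) (nat_lit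 275) (nat_lit 135))) (XT.nd (nat_lit 78) (nat_lit 228) (nat_lit 0) (XT.lf (nat_lit 0) (nat_lit 293591345495) (nat_lit 76) (nat_lit 77307345920) (nat_lit 152) (nat_lit 21988317119) (nat_lit 12) (nat_lit 5) (nat_lit 13) (nat_lit 5) (nat_lit 14) (nat_lit 4) (nat_lit 311) (nat_lit 275) (nat_lit 134)) (XT.nd (nat_lit 78) (nat_lit 0) (nat_lit 0) (XT.lf (nat_lit 0) (nat_lit 44206170835) (nat_lit 228) (nat_lit 353902722938) (nat_lit 76) (nat_lit 21020522103) (nat_lit 9) (nat_lit 5) (nat_lit 12) (nat_lit 5) (nat_lit 10) (nat_lit 4) (nat_lit 312) (nat_lit 275) (nat_lit 133)) (XT.lf (nat_lit 0) (nat_lit 117997428590) (nat_lit 228) (nat_lit 202631235281) (nat_lit 76) (nat_lit 126670950434) (nat_lit 9) (nat_lit 5) (nat_lit 12) (nat_lit 5) (nat_lit 10) (nat_lit 4) (nat_lit 313) (nat_lit 275) (nat_lit 132))))))) (XT.nd (nat_lit 34866) (nat_lit 0) (nat_lit 2964) (XT.nd (nat_lit 390) (nat_lit 76) (nat_lit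 0) (XT.nd (nat_lit 156) (nat_lit 76) (nat_lit 0) (XT.nd (nat_lit 78) (nat_lit 76) (nat_lit 0) (XT.lf (nat_lit 0) (nat_lit 197691719062) (nat_lit 228) (nat_lit 39258486795) (nat_lit 76) (nat_lit 240773236541) (nat_lit 9) (nat_lit 5) (nat_lit 12) (nat_lit 5) (nat_lit 10) (nat_lit 4) (nat_lit 314) (nat_lit 275) (nat_lit 131)) (XT.lf (nat_lit 0) (nat_lit 141719568574) (nat_lit 76) (nat_lit 144254375773) (nat_lit 152) (nat_lit 224496613177) (nat_lit 8) (nat_lit 5) (nat_lit 9) (nat_lit 5) (nat_lit 10) (nat_lit 4) (nat_lit 315) (nat_lit 275) (nat_lit 130))) (XT.nd (nat_lit 78) (nat_lit 76) (nat_lit 0) (XT.lf (nat_lit 0) (nat_lit 338577370467) (nat_lit 76) (nat_lit 43424998682) (nat_lit 152) (nat_lit 163800891976) (nat_lit 8) (nat_lit 5) (nat_lit 9) (nat_lit 5) (nat_lit 10) (nat_lit 4) (nat_lit 316) (nat_lit 275) (nat_lit 129)) (XT.nd (nat_lit 78) (nat_lit 76) (nat_lit 0) (XT.lf (nat_lit 0)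 (nat_lit 486735028498) (nat_lit 152) (nat_lit 33801350589) (nat_lit 0) (nat_lit 63375104210) (nat_lit 8) (nat_lit 5) (nat_lit 10) (nat_lit 4) (nat_lit 8) (nat_lit 4) (nat_lit 317) (nat_lit 275) (nat_lit 128)) (XT.lf (nat_lit 0) (nat_lit 157815658483) (nat_lit 76) (nat_lit 445226606998) (nat_lit 76) (nat_lit 21866299807) (nat_lit 7) (nat_lit 4) (nat_lit 8) (nat_lit 5) (nat_lit 8) (nat_lit 4) (nat_lit 318) (nat_lit 275) (nat_lit 127))))) (XT.nd (nat_lit 34242) (nat_lit 0) (nat_lit 4712) (XT.nd (nat_lit 34164) (nat_lit 0) (nat_lit 4712) (XT.lf (nat_lit 0) (nat_lit 58163550739) (nat_lit 152) (nat_lit 304125382714) (nat_lit 76) (nat_lit 306820144418) (nat_lit 6) (nat_lit 5) (nat_lit 8) (nat_lit 5) (nat_lit 7) (nat_lit 4) (nat_lit 319) (nat_lit 275) (nat_lit 126)) (XT.lf (nat_lit 0) (nat_lit 6120742574) (nat_lit 0) (nat_lit 6120742574) (nat_lit 684) (nat_lit 20568838624) (nat_lit 68) (nat_lit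 5) (nat_lit 68) (nat_lit 3) (nat_lit 77) (nat_lit 3) (nat_lit 276) (nat_lit 276) (nat_lit 168))) (XT.nd (nat_lit 78) (nat_lit 0) (nat_lit 76) (XT.lf (nat_lit 0) (nat_lit 26006643068) (nat_lit 684) (nat_lit 9808597370) (nat_lit 760) (nat_lit 32402937279) (nat_lit 68) (nat_lit 5) (nat_lit 77) (nat_lit 3) (nat_lit 78) (nat_lit 5) (nat_lit 277) (nat_lit 276) (nat_lit 167)) (XT.nd (nat_lit 78) (nat_lit 0) (nat_lit 0) (XT.lf (nat_lit 0) (nat_lit 28607059917) (nat_lit 684) (nat_lit 32871920660) (nat_lit 760) (nat_lit 9496795021) (nat_lit 69) (nat_lit 5) (nat_lit 78) (nat_lit 5) (nat_lit 79) (nat_lit 5) (nat_lit 278) (nat_lit 276) (nat_lit 166)) (XT.lf (nat_lit 76) (nat_lit 16163458744) (nat_lit 0) (nat_lit 16279977144) (nat_lit 760) (nat_lit 41459156359) (nat_lit 70) (nat_lit 5) (nat_lit 69) (nat_lit 5) (nat_lit 79) (nat_lit 5) (nat_lit 279) (nat_lit 276) (nat_lit 165)))))) (XT.nd (nat_lit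 390) (nat_lit 1368) (nat_lit 0) (XT.nd (nat_lit 156) (nat_lit 532) (nat_lit 0) (XT.nd (nat_lit 78) (nat_lit 0) (nat_lit 76) (XT.lf (nat_lit 0) (nat_lit 37674815436) (nat_lit 684) (nat_lit 7258101175) (nat_lit 760) (nat_lit 32076239636) (nat_lit 70) (nat_lit 5) (nat_lit 79) (nat_lit 5) (nat_lit 80) (nat_lit 5) (nat_lit 280) (nat_lit 276) (nat_lit 164)) (XT.lf (nat_lit 0) (nat_lit 44420646181) (nat_lit 684) (nat_lit 31838824593) (nat_lit 760) (nat_lit 4049983750) (nat_lit 71) (nat_lit 5) (nat_lit 80) (nat_lit 5) (nat_lit 81) (nat_lit 5) (nat_lit 281) (nat_lit 276) (nat_lit 163))) (XT.nd (nat_lit 78) (nat_lit 608) (nat_lit 0) (XT.lf (nat_lit 76) (nat_lit 25091466325) (nat_lit 0) (nat_lit 27890971295) (nat_lit 760) (nat_lit 30827530069) (nat_lit 72) (nat_lit 5) (nat_lit 71) (nat_lit 5) (nat_lit 81) (nat_lit 5) (nat_lit 282) (nat_lit 276) (nat_lit 162)) (XT.nd (nat_lit 78) (nat_lit 684) (nat_lit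 0) (XT.lf (nat_lit 0) (nat_lit 63171496611) (nat_lit 684) (nat_lit 240185590) (nat_lit 76) (nat_lit 24131728808) (nat_lit 72) (nat_lit 5) (nat_lit 81) (nat_lit 5) (nat_lit 73) (nat_lit 5) (nat_lit 283) (nat_lit 276) (nat_lit 161)) (XT.lf (nat_lit 0) (nat_lit 64509597988) (nat_lit 684) (nat_lit 11142157546) (nat_lit 760) (nat_lit 15849975418) (nat_lit 63) (nat_lit 5) (nat_lit 72) (nat_lit 5) (nat_lit 73) (nat_lit 5) (nat_lit 284) (nat_lit 276) (nat_lit 160))))) (XT.nd (nat_lit 156) (nat_lit 608) (nat_lit 0) (XT.nd (nat_lit 78) (nat_lit 456) (nat_lit 0) (XT.lf (nat_lit 0) (nat_lit 39217951124) (nat_lit 304) (nat_lit 51235132212) (nat_lit 380) (nat_lit 5257505302) (nat_lit 59) (nat_lit 5) (nat_lit 63) (nat_lit 5) (nat_lit 64) (nat_lit 5) (nat_lit 285) (nat_lit 276) (nat_lit 159)) (XT.lf (nat_lit 0) (nat_lit 6902474953) (nat_lit 456) (nat_lit 88750695951) (nat_lit 76) (nat_lit 4552262516)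 (nat_lit 53) (nat_lit 5) (nat_lit 59) (nat_lit 5) (nat_lit 54) (nat_lit 5) (nat_lit 286) (nat_lit 276) (nat_lit 158))) (XT.nd (nat_lit 78) (nat_lit 608) (nat_lit 0) (XT.lf (nat_lit 0) (nat_lit 21716457003) (nat_lit 456) (nat_lit 19125362819) (nat_lit 76) (nat_lit 64120470213) (nat_lit 53) (nat_lit 5) (nat_lit 59) (nat_lit 5) (nat_lit 54) (nat_lit 5) (nat_lit 287) (nat_lit 276) (nat_lit 157)) (XT.nd (nat_lit 78) (nat_lit 304) (nat_lit 0) (XT.lf (nat_lit 0) (nat_lit 38920192523) (nat_lit 380) (nat_lit 52433182255) (nat_lit 76) (nat_lit 18686092100) (nat_lit 49) (nat_lit 5) (nat_lit 54) (nat_lit 5) (nat_lit 50) (nat_lit 5) (nat_lit 288) (nat_lit 276) (nat_lit 156)) (XT.lf (nat_lit 0) (nat_lit 25783211124) (nat_lit 304) (nat_lit 33145817197) (nat_lit 380) (nat_lit 56522352665) (nat_lit 45) (nat_lit 5) (nat_lit 49) (nat_lit 5) (nat_lit 50) (nat_lit 5) (nat_lit 289) (nat_lit 276) (nat_lit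 155))))))))
noncomputable def xc110 : XT := (XT.nd (nat_lit 1482) (nat_lit 608) (nat_lit 0) (XT.nd (nat_lit 702) (nat_lit 836) (nat_lit 0) (XT.nd (nat_lit 312) (nat_lit 912) (nat_lit 0) (XT.nd (nat_lit 156) (nat_lit 304) (nat_lit 0) (XT.nd (nat_lit 78) (nat_lit 228) (nat_lit 0) (XT.lf (nat_lit 0) (nat_lit 81929912361) (nat_lit 380) (nat_lit 9601399304) (nat_lit 76) (nat_lit 29695372441) (nat_lit 45) (nat_lit 5) (nat_lit 50) (nat_lit 5) (nat_lit 46) (nat_lit 5) (nat_lit 290) (nat_lit 276) (nat_lit 154)) (XT.lf (nat_lit 0) (nat_lit 78833929872) (nat_lit 228) (nat_lit 29725756274) (nat_lit 304) (nat_lit 18814887113) (nat_lit 42) (nat_lit 5) (nat_lit 45) (nat_lit 5) (nat_lit 46) (nat_lit 5) (nat_lit 291) (nat_lit 276) (nat_lit 153))) (XT.nd (nat_lit 78) (nat_lit 0) (nat_lit 0) (XT.lf (nat_lit 0) (nat_lit 4616553773) (nat_lit 304) (nat_lit 92594034432) (nat_lit 76) (nat_lit 36730287122) (nat_lit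 38) (nat_lit 5) (nat_lit 42) (nat_lit 5) (nat_lit 39) (nat_lit 5) (nat_lit 292) (nat_lit 276) (nat_lit 152)) (XT.lf (nat_lit 0) (nat_lit 30631960449) (nat_lit 304) (nat_lit 1664896470) (nat_lit 76) (nat_lit 108651773211) (nat_lit 38) (nat_lit 5) (nat_lit 42) (nat_lit 5) (nat_lit 39) (nat_lit 5) (nat_lit 293) (nat_lit 276) (nat_lit 151)))) (XT.nd (nat_lit 156) (nat_lit 456) (nat_lit 0) (XT.nd (nat_lit 78) (nat_lit 228) (nat_lit 0) (XT.lf (nat_lit 0) (nat_lit 60900741718) (nat_lit 304) (nat_lit 49325456902) (nat_lit 76) (nat_lit 38182201658) (nat_lit 35) (nat_lit 5) (nat_lit 39) (nat_lit 5) (nat_lit 36) (nat_lit 5) (nat_lit 294) (nat_lit 276) (nat_lit 150)) (XT.lf (nat_lit 0) (nat_lit 52624869396) (nat_lit 228) (nat_lit 42361119083) (nat_lit 304) (nat_lit 61409217327) (nat_lit 32) (nat_lit 5) (nat_lit 35) (nat_lit 5) (nat_lit 36) (nat_lit 5) (nat_lit 295) (nat_lit 276) (nat_lit 149)))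 (XT.nd (nat_lit 78) (nat_lit 456) (nat_lit 0) (XT.lf (nat_lit 0) (nat_lit 133153627355) (nat_lit 304) (nat_lit 983363436) (nat_lit 76) (nat_lit 30816188136) (nat_lit 32) (nat_lit 5) (nat_lit 36) (nat_lit 5) (nat_lit 33) (nat_lit 5) (nat_lit 296) (nat_lit 276) (nat_lit 148)) (XT.nd (nat_lit 78) (nat_lit 228) (nat_lit 0) (XT.lf (nat_lit 0) (nat_lit 2690502098) (nat_lit 228) (nat_lit 61189616898) (nat_lit 76) (nat_lit 110189665809) (nat_lit 29) (nat_lit 5) (nat_lit 32) (nat_lit 5) (nat_lit 30) (nat_lit 5) (nat_lit 297) (nat_lit 276) (nat_lit 147)) (XT.lf (nat_lit 0) (nat_lit 39896943713) (nat_lit 304) (nat_lit 130920182798) (nat_lit 76) (nat_lit 13018964632) (nat_lit 26) (nat_lit 5) (nat_lit 30) (nat_lit 5) (nat_lit 27) (nat_lit 5) (nat_lit 298) (nat_lit 276) (nat_lit 146)))))) (XT.nd (nat_lit 390) (nat_lit 304) (nat_lit 0) (XT.nd (nat_lit 156) (nat_lit 380) (nat_lit 0) (XT.nd (nat_lit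 78) (nat_lit 152) (nat_lit 0) (XT.lf (nat_lit 0) (nat_lit 82239810873) (nat_lit 304) (nat_lit 17090929619) (nat_lit 76) (nat_lit 94944967326) (nat_lit 26) (nat_lit 5) (nat_lit 30) (nat_lit 5) (nat_lit 27) (nat_lit 5) (nat_lit 299) (nat_lit 276) (nat_lit 145)) (XT.lf (nat_lit 0) (nat_lit 109343553438) (nat_lit 152) (nat_lit 20333173981) (nat_lit 228) (nat_lit 75788436646) (nat_lit 24) (nat_lit 5) (nat_lit 26) (nat_lit 5) (nat_lit 27) (nat_lit 5) (nat_lit 300) (nat_lit 276) (nat_lit 144))) (XT.nd (nat_lit 78) (nat_lit 228) (nat_lit 0) (XT.lf (nat_lit 0) (nat_lit 28872060124) (nat_lit 152) (nat_lit 153803975025) (nat_lit 228) (nat_lit 34785370920) (nat_lit 22) (nat_lit 5) (nat_lit 24) (nat_lit 5) (nat_lit 25) (nat_lit 5) (nat_lit 301) (nat_lit 276) (nat_lit 143)) (XT.nd (nat_lit 78) (nat_lit 152) (nat_lit 0) (XT.lf (nat_lit 0) (nat_lit 11238129011) (nat_lit 228) (nat_lit 63555284505) (nat_lit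 76) (nat_lit 155514311338) (nat_lit 21) (nat_lit 5) (nat_lit 24) (nat_lit 5) (nat_lit 22) (nat_lit 5) (nat_lit 302) (nat_lit 276) (nat_lit 142)) (XT.lf (nat_lit 0) (nat_lit 61076971579) (nat_lit 228) (nat_lit 171049819579) (nat_lit 76) (nat_lit 11958837695) (nat_lit 19) (nat_lit 5) (nat_lit 22) (nat_lit 5) (nat_lit 20) (nat_lit 5) (nat_lit 303) (nat_lit 276) (nat_lit 141))))) (XT.nd (nat_lit 156) (nat_lit 152) (nat_lit 0) (XT.nd (nat_lit 78) (nat_lit 152) (nat_lit 0) (XT.lf (nat_lit 0) (nat_lit 117288875654) (nat_lit 228) (nat_lit 37366675578) (nat_lit 76) (nat_lit 104190917102) (nat_lit 19) (nat_lit 5) (nat_lit 22) (nat_lit 5) (nat_lit 20) (nat_lit 5) (nat_lit 304) (nat_lit 276) (nat_lit 140)) (XT.lf (nat_lit 0) (nat_lit 110548729254) (nat_lit 152) (nat_lit 69174570334) (nat_lit 228) (nat_lit 94978597812) (nat_lit 17) (nat_lit 5) (nat_lit 19) (nat_lit 5) (nat_lit 20) (nat_lit 5) (nat_lit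 305) (nat_lit 276) (nat_lit 139))) (XT.nd (nat_lit 78) (nat_lit 152) (nat_lit 0) (XT.lf (nat_lit 0) (nat_lit 248175017142) (nat_lit 228) (nat_lit 20534153522) (nat_lit 76) (nat_lit 23065463888) (nat_lit 17) (nat_lit 5) (nat_lit 20) (nat_lit 5) (nat_lit 18) (nat_lit 4) (nat_lit 306) (nat_lit 276) (nat_lit 138)) (XT.nd (nat_lit 78) (nat_lit 0) (nat_lit 0) (XT.lf (nat_lit 0) (nat_lit 14881306389) (nat_lit 152) (nat_lit 172468882556) (nat_lit 76) (nat_lit 122685112373) (nat_lit 15) (nat_lit 5) (nat_lit 17) (nat_lit 5) (nat_lit 16) (nat_lit 5) (nat_lit 307) (nat_lit 276) (nat_lit 137)) (XT.lf (nat_lit 0) (nat_lit 76896812747) (nat_lit 152) (nat_lit 21432234435) (nat_lit 76) (nat_lit 231372856118) (nat_lit 15) (nat_lit 5) (nat_lit 17) (nat_lit 5) (nat_lit 16) (nat_lit 5) (nat_lit 308) (nat_lit 276) (nat_lit 136))))))) (XT.nd (nat_lit 780) (nat_lit 76) (nat_lit 0) (XT.nd (nat_lit 390) (nat_lit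 76) (nat_lit 0) (XT.nd (nat_lit 156) (nat_lit 304) (nat_lit 0) (XT.nd (nat_lit 78) (nat_lit 0) (nat_lit 0) (XT.lf (nat_lit 0) (nat_lit 146161834158) (nat_lit 228) (nat_lit 204459289634) (nat_lit 76) (nat_lit 206296483) (nat_lit 13) (nat_lit 5) (nat_lit 16) (nat_lit 5) (nat_lit 14) (nat_lit 4) (nat_lit 309) (nat_lit 276) (nat_lit 135)) (XT.lf (nat_lit 0) (nat_lit 223005209575) (nat_lit 228) (nat_lit 46931093522) (nat_lit 76) (nat_lit 103604818418) (nat_lit 13) (nat_lit 5) (nat_lit 16) (nat_lit 5) (nat_lit 14) (nat_lit 4) (nat_lit 310) (nat_lit 276) (nat_lit 134))) (XT.nd (nat_lit 78) (nat_lit 228) (nat_lit 0) (XT.lf (nat_lit 0) (nat_lit 127272390734) (nat_lit 76) (nat_lit 180710455015) (nat_lit 152) (nat_lit 89989734051) (nat_lit 12) (nat_lit 5) (nat_lit 13) (nat_lit 5) (nat_lit 14) (nat_lit 4) (nat_lit 311) (nat_lit 276) (nat_lit 133)) (XT.nd (nat_lit 78) (nat_lit 228) (nat_lit 0) (XT.lf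 (nat_lit 0) (nat_lit 317087589873) (nat_lit 76) (nat_lit 83488338519) (nat_lit 152) (nat_lit 23741765025) (nat_lit 12) (nat_lit 5) (nat_lit 13) (nat_lit 5) (nat_lit 14) (nat_lit 4) (nat_lit 312) (nat_lit 276) (nat_lit 132)) (XT.lf (nat_lit 0) (nat_lit 47747891191) (nat_lit 228) (nat_lit 382206001785) (nat_lit 76) (nat_lit 22705607149) (nat_lit 9) (nat_lit 5) (nat_lit 12) (nat_lit 5) (nat_lit 10) (nat_lit 4) (nat_lit 313) (nat_lit 276) (nat_lit 131))))) (XT.nd (nat_lit 156) (nat_lit 76) (nat_lit 0) (XT.nd (nat_lit 78) (nat_lit 0) (nat_lit 0) (XT.lf (nat_lit 0) (nat_lit 127442062404) (nat_lit 228) (nat_lit 218833457263) (nat_lit 76) (nat_lit 136807814689) (nat_lit 9) (nat_lit 5) (nat_lit 12) (nat_lit 5) (nat_lit 10) (nat_lit 4) (nat_lit 314) (nat_lit 276) (nat_lit 130)) (XT.lf (nat_lit 0) (nat_lit 213511537631) (nat_lit 228) (nat_lit 42391501998) (nat_lit 76) (nat_lit 260038047519) (nat_lit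 9) (nat_lit 5) (nat_lit 12) (nat_lit 5) (nat_lit 10) (nat_lit 4) (nat_lit 315) (nat_lit 276) (nat_lit 129))) (XT.nd (nat_lit 78) (nat_lit 0) (nat_lit 0) (XT.lf (nat_lit 0) (nat_lit 153064464745) (nat_lit 76) (nat_lit 155791658718) (nat_lit 152) (nat_lit 242451859384) (nat_lit 8) (nat_lit 5) (nat_lit 9) (nat_lit 5) (nat_lit 10) (nat_lit 4) (nat_lit 316) (nat_lit 276) (nat_lit 128)) (XT.nd (nat_lit 78) (nat_lit 0) (nat_lit 0) (XT.lf (nat_lit 0) (nat_lit 365670347775) (nat_lit 76) (nat_lit 46896158653) (nat_lit 152) (nat_lit 176900812550) (nat_lit 8) (nat_lit 5) (nat_lit 9) (nat_lit 5) (nat_lit 10) (nat_lit 4) (nat_lit 317) (nat_lit 276) (nat_lit 127)) (XT.lf (nat_lit 0) (nat_lit 525677527153) (nat_lit 152) (nat_lit 36499026813) (nat_lit 0) (nat_lit 68447657944) (nat_lit 8) (nat_lit 5) (nat_lit 10) (nat_lit 4) (nat_lit 8) (nat_lit 4) (nat_lit 318) (nat_lit 276) (nat_lit 126)))))) (XT.nd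 (nat_lit 34554) (nat_lit 0) (nat_lit 4256) (XT.nd (nat_lit 34320) (nat_lit 0) (nat_lit 4636) (XT.nd (nat_lit 34242) (nat_lit 0) (nat_lit 4636) (XT.lf (nat_lit 0) (nat_lit 170447063466) (nat_lit 76) (nat_lit 480842101879) (nat_lit 76) (nat_lit 23611904391) (nat_lit 7) (nat_lit 4) (nat_lit 8) (nat_lit 5) (nat_lit 8) (nat_lit 4) (nat_lit 319) (nat_lit 276) (nat_lit 125)) (XT.lf (nat_lit 0) (nat_lit 6621003694) (nat_lit 0) (nat_lit 6621003694) (nat_lit 684) (nat_lit 22192005958) (nat_lit 68) (nat_lit 5) (nat_lit 68) (nat_lit 3) (nat_lit 77) (nat_lit 3) (nat_lit 277) (nat_lit 277) (nat_lit 166))) (XT.nd (nat_lit 78) (nat_lit 0) (nat_lit 76) (XT.lf (nat_lit 0) (nat_lit 28126133599) (nat_lit 684) (nat_lit 10571241523) (nat_lit 760) (nat_lit 34976167830) (nat_lit 68) (nat_lit 5) (nat_lit 77) (nat_lit 3) (nat_lit 78) (nat_lit 5) (nat_lit 278) (nat_lit 277) (nat_lit 165)) (XT.nd (nat_lit 78) (nat_lit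 0) (nat_lit 0) (XT.lf (nat_lit 0) (nat_lit 30931788005) (nat_lit 684) (nat_lit 35478398824) (nat_lit 760) (nat_lit 10241712069) (nat_lit 69) (nat_lit 5) (nat_lit 78) (nat_lit 5) (nat_lit 79) (nat_lit 5) (nat_lit 279) (nat_lit 277) (nat_lit 164)) (XT.lf (nat_lit 76) (nat_lit 17478799408) (nat_lit 0) (nat_lit 17593943487) (nat_lit 760) (nat_lit 44740244216) (nat_lit 70) (nat_lit 5) (nat_lit 69) (nat_lit 5) (nat_lit 79) (nat_lit 5) (nat_lit 280) (nat_lit 277) (nat_lit 163))))) (XT.nd (nat_lit 156) (nat_lit 532) (nat_lit 0) (XT.nd (nat_lit 78) (nat_lit 0) (nat_lit 76) (XT.lf (nat_lit 0) (nat_lit 40719959489) (nat_lit 684) (nat_lit 7816288999) (nat_lit 760) (nat_lit 34631970365) (nat_lit 70) (nat_lit 5) (nat_lit 79) (nat_lit 5) (nat_lit 80) (nat_lit 5) (nat_lit 281) (nat_lit 277) (nat_lit 162)) (XT.lf (nat_lit 0) (nat_lit 48003363811) (nat_lit 684) (nat_lit 34362763167) (nat_lit 760) (nat_lit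 4366526950) (nat_lit 71) (nat_lit 5) (nat_lit 80) (nat_lit 5) (nat_lit 81) (nat_lit 5) (nat_lit 282) (nat_lit 277) (nat_lit 161))) (XT.nd (nat_lit 78) (nat_lit 608) (nat_lit 0) (XT.lf (nat_lit 76) (nat_lit 27120944197) (nat_lit 0) (nat_lit 30127347324) (nat_lit 760) (nat_lit 33265014656) (nat_lit 72) (nat_lit 5) (nat_lit 71) (nat_lit 5) (nat_lit 81) (nat_lit 5) (nat_lit 283) (nat_lit 277) (nat_lit 160)) (XT.nd (nat_lit 78) (nat_lit 684) (nat_lit 0) (XT.lf (nat_lit 0) (nat_lit 68250382351) (nat_lit 684) (nat_lit 237456833) (nat_lit 76) (nat_lit 26057697532) (nat_lit 72) (nat_lit 5) (nat_lit 81) (nat_lit 5) (nat_lit 73) (nat_lit 5) (nat_lit 284) (nat_lit 277) (nat_lit 159)) (XT.lf (nat_lit 0) (nat_lit 69691355789) (nat_lit 684) (nat_lit 12036169763) (nat_lit 760) (nat_lit 17093080109) (nat_lit 63) (nat_lit 5) (nat_lit 72) (nat_lit 5) (nat_lit 73) (nat_lit 5) (nat_lit 285) (nat_lit 277)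 (nat_lit 158))))))))
noncomputable def xc111 : XT := (XT.nd (nat_lit 1482) (nat_lit 836) (nat_lit 0) (XT.nd (nat_lit 702) (nat_lit 1444) (nat_lit 0) (XT.nd (nat_lit 312) (nat_lit 836) (nat_lit 0) (XT.nd (nat_lit 156) (nat_lit 304) (nat_lit 0) (XT.nd (nat_lit 78) (nat_lit 456) (nat_lit 0) (XT.lf (nat_lit 0) (nat_lit 42376713244) (nat_lit 304) (nat_lit 55334790795) (nat_lit 380) (nat_lit 5654746795) (nat_lit 59) (nat_lit 5) (nat_lit 63) (nat_lit 5) (nat_lit 64) (nat_lit 5) (nat_lit 286) (nat_lit 277) (nat_lit 157)) (XT.lf (nat_lit 0) (nat_lit 7475938774) (nat_lit 456) (nat_lit 95828436001) (nat_lit 76) (nat_lit 4916362837) (nat_lit 53) (nat_lit 5) (nat_lit 59) (nat_lit 5) (nat_lit 54) (nat_lit 5) (nat_lit 287) (nat_lit 277) (nat_lit 156))) (XT.nd (nat_lit 78) (nat_lit 304) (nat_lit 0) (XT.lf (nat_lit 0) (nat_lit 23473464143) (nat_lit 456) (nat_lit 20634729227) (nat_lit 76) (nat_lit 69250033126)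 (nat_lit 53) (nat_lit 5) (nat_lit 59) (nat_lit 5) (nat_lit 54) (nat_lit 5) (nat_lit 288) (nat_lit 277) (nat_lit 155)) (XT.lf (nat_lit 0) (nat_lit 42052367635) (nat_lit 380) (nat_lit 56607106667) (nat_lit 76) (nat_lit 20182164336) (nat_lit 49) (nat_lit 5) (nat_lit 54) (nat_lit 5) (nat_lit 50) (nat_lit 5) (nat_lit 289) (nat_lit 277) (nat_lit 154)))) (XT.nd (nat_lit 156) (nat_lit 532) (nat_lit 0) (XT.nd (nat_lit 78) (nat_lit 0) (nat_lit 0) (XT.lf (nat_lit 0) (nat_lit 27865697274) (nat_lit 304) (nat_lit 35795147820) (nat_lit 380) (nat_lit 61025718309) (nat_lit 45) (nat_lit 5) (nat_lit 49) (nat_lit 5) (nat_lit 50) (nat_lit 5) (nat_lit 290) (nat_lit 277) (nat_lit 153)) (XT.lf (nat_lit 0) (nat_lit 88500537720) (nat_lit 380) (nat_lit 10350325256) (nat_lit 76) (nat_lit 32073094854) (nat_lit 45) (nat_lit 5) (nat_lit 50) (nat_lit 5) (nat_lit 46) (nat_lit 5) (nat_lit 291) (nat_lit 277) (nat_lit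 152))) (XT.nd (nat_lit 78) (nat_lit 304) (nat_lit 0) (XT.lf (nat_lit 0) (nat_lit 85158996453) (nat_lit 228) (nat_lit 32100781085) (nat_lit 304) (nat_lit 20303950028) (nat_lit 42) (nat_lit 5) (nat_lit 45) (nat_lit 5) (nat_lit 46) (nat_lit 5) (nat_lit 292) (nat_lit 277) (nat_lit 151)) (XT.nd (nat_lit 78) (nat_lit 0) (nat_lit 0) (XT.lf (nat_lit 0) (nat_lit 5000668270) (nat_lit 304) (nat_lit 99982742255) (nat_lit 76) (nat_lit 39671954994) (nat_lit 38) (nat_lit 5) (nat_lit 42) (nat_lit 5) (nat_lit 39) (nat_lit 5) (nat_lit 293) (nat_lit 277) (nat_lit 150)) (XT.lf (nat_lit 0) (nat_lit 33096211910) (nat_lit 304) (nat_lit 1780666954) (nat_lit 76) (nat_lit 117346919607) (nat_lit 38) (nat_lit 5) (nat_lit 42) (nat_lit 5) (nat_lit 39) (nat_lit 5) (nat_lit 294) (nat_lit 277) (nat_lit 149)))))) (XT.nd (nat_lit 390) (nat_lit 532) (nat_lit 0) (XT.nd (nat_lit 156) (nat_lit 456) (nat_lit 0) (XT.nd (nat_lit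 78) (nat_lit 228) (nat_lit 0) (XT.lf (nat_lit 0) (nat_lit 65785799577) (nat_lit 304) (nat_lit 53254205874) (nat_lit 76) (nat_lit 41240382353) (nat_lit 35) (nat_lit 5) (nat_lit 39) (nat_lit 5) (nat_lit 36) (nat_lit 5) (nat_lit 295) (nat_lit 277) (nat_lit 148)) (XT.lf (nat_lit 0) (nat_lit 56851395231) (nat_lit 228) (nat_lit 45745766171) (nat_lit 304) (nat_lit 66309014165) (nat_lit 32) (nat_lit 5) (nat_lit 35) (nat_lit 5) (nat_lit 36) (nat_lit 5) (nat_lit 296) (nat_lit 277) (nat_lit 147))) (XT.nd (nat_lit 78) (nat_lit 456) (nat_lit 0) (XT.lf (nat_lit 0) (nat_lit 143817362063) (nat_lit 304) (nat_lit 1046183668) (nat_lit 76) (nat_lit 33285285645) (nat_lit 32) (nat_lit 5) (nat_lit 36) (nat_lit 5) (nat_lit 33) (nat_lit 5) (nat_lit 297) (nat_lit 277) (nat_lit 146)) (XT.nd (nat_lit 78) (nat_lit 228) (nat_lit 0) (XT.lf (nat_lit 0) (nat_lit 2916779899) (nat_lit 228) (nat_lit 66069235087) (nat_lit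 76) (nat_lit 119008774586) (nat_lit 29) (nat_lit 5) (nat_lit 32) (nat_lit 5) (nat_lit 30) (nat_lit 5) (nat_lit 298) (nat_lit 277) (nat_lit 145)) (XT.lf (nat_lit 0) (nat_lit 43099220543) (nat_lit 304) (nat_lit 141378444334) (nat_lit 76) (nat_lit 14064763291) (nat_lit 26) (nat_lit 5) (nat_lit 30) (nat_lit 5) (nat_lit 27) (nat_lit 5) (nat_lit 299) (nat_lit 277) (nat_lit 144))))) (XT.nd (nat_lit 156) (nat_lit 380) (nat_lit 0) (XT.nd (nat_lit 78) (nat_lit 152) (nat_lit 0) (XT.lf (nat_lit 0) (nat_lit 88828737717) (nat_lit 304) (nat_lit 18443988166) (nat_lit 76) (nat_lit 102544529053) (nat_lit 26) (nat_lit 5) (nat_lit 30) (nat_lit 5) (nat_lit 27) (nat_lit 5) (nat_lit 300) (nat_lit 277) (nat_lit 143)) (XT.lf (nat_lit 0) (nat_lit 118104635733) (nat_lit 152) (nat_lit 21955462530) (nat_lit 228) (nat_lit 81841796547) (nat_lit 24) (nat_lit 5) (nat_lit 26) (nat_lit 5) (nat_lit 27) (nat_lit 5) (nat_lit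 301) (nat_lit 277) (nat_lit 142))) (XT.nd (nat_lit 78) (nat_lit 228) (nat_lit 0) (XT.lf (nat_lit 0) (nat_lit 31195228224) (nat_lit 152) (nat_lit 166103710857) (nat_lit 228) (nat_lit 37558919206) (nat_lit 22) (nat_lit 5) (nat_lit 24) (nat_lit 5) (nat_lit 25) (nat_lit 5) (nat_lit 302) (nat_lit 277) (nat_lit 141)) (XT.nd (nat_lit 78) (nat_lit 152) (nat_lit 0) (XT.lf (nat_lit 0) (nat_lit 12145498152) (nat_lit 228) (nat_lit 68627004812) (nat_lit 76) (nat_lit 167959406996) (nat_lit 21) (nat_lit 5) (nat_lit 24) (nat_lit 5) (nat_lit 22) (nat_lit 5) (nat_lit 303) (nat_lit 277) (nat_lit 140)) (XT.lf (nat_lit 0) (nat_lit 65971088099) (nat_lit 228) (nat_lit 184721310904) (nat_lit 76) (nat_lit 12919666532) (nat_lit 19) (nat_lit 5) (nat_lit 22) (nat_lit 5) (nat_lit 20) (nat_lit 5) (nat_lit 304) (nat_lit 277) (nat_lit 139))))))) (XT.nd (nat_lit 780) (nat_lit 76) (nat_lit 0) (XT.nd (nat_lit 390) (nat_lit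 456) (nat_lit 0) (XT.nd (nat_lit 156) (nat_lit 152) (nat_lit 0) (XT.nd (nat_lit 78) (nat_lit 152) (nat_lit 0) (XT.lf (nat_lit 0) (nat_lit 126679354959) (nat_lit 228) (nat_lit 40344440882) (nat_lit 76) (nat_lit 112530006972) (nat_lit 19) (nat_lit 5) (nat_lit 22) (nat_lit 5) (nat_lit 20) (nat_lit 5) (nat_lit 305) (nat_lit 277) (nat_lit 138)) (XT.lf (nat_lit 0) (nat_lit 119403693573) (nat_lit 152) (nat_lit 74704466136) (nat_lit 228) (nat_lit 102569526227) (nat_lit 17) (nat_lit 5) (nat_lit 19) (nat_lit 5) (nat_lit 20) (nat_lit 5) (nat_lit 306) (nat_lit 277) (nat_lit 137))) (XT.nd (nat_lit 78) (nat_lit 152) (nat_lit 0) (XT.lf (nat_lit 0) (nat_lit 268035555268) (nat_lit 228) (nat_lit 22166362013) (nat_lit 76) (nat_lit 24914348744) (nat_lit 17) (nat_lit 5) (nat_lit 20) (nat_lit 5) (nat_lit 18) (nat_lit 4) (nat_lit 307) (nat_lit 277) (nat_lit 136)) (XT.nd (nat_lit 78) (nat_lit 0) (nat_lit 0)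 (XT.lf (nat_lit 0) (nat_lit 16078133576) (nat_lit 152) (nat_lit 186256106684) (nat_lit 76) (nat_lit 132503558049) (nat_lit 15) (nat_lit 5) (nat_lit 17) (nat_lit 5) (nat_lit 16) (nat_lit 5) (nat_lit 308) (nat_lit 277) (nat_lit 135)) (XT.lf (nat_lit 0) (nat_lit 83054412096) (nat_lit 152) (nat_lit 23137288674) (nat_lit 76) (nat_lit 249886051910) (nat_lit 15) (nat_lit 5) (nat_lit 17) (nat_lit 5) (nat_lit 16) (nat_lit 5) (nat_lit 309) (nat_lit 277) (nat_lit 134))))) (XT.nd (nat_lit 156) (nat_lit 304) (nat_lit 0) (XT.nd (nat_lit 78) (nat_lit 0) (nat_lit 0) (XT.lf (nat_lit 0) (nat_lit 157860399197) (nat_lit 228) (nat_lit 220806690042) (nat_lit 76) (nat_lit 226234328) (nat_lit 13) (nat_lit 5) (nat_lit 16) (nat_lit 5) (nat_lit 14) (nat_lit 4) (nat_lit 310) (nat_lit 277) (nat_lit 133)) (XT.lf (nat_lit 0) (nat_lit 240850828477) (nat_lit 228) (nat_lit 50676930297) (nat_lit 76) (nat_lit 111896383638)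 (nat_lit 13) (nat_lit 5) (nat_lit 16) (nat_lit 5) (nat_lit 14) (nat_lit 4) (nat_lit 311) (nat_lit 277) (nat_lit 132))) (XT.nd (nat_lit 78) (nat_lit 228) (nat_lit 0) (XT.lf (nat_lit 0) (nat_lit 137462456750) (nat_lit 76) (nat_lit 195163962644) (nat_lit 152) (nat_lit 97183711420) (nat_lit 12) (nat_lit 5) (nat_lit 13) (nat_lit 5) (nat_lit 14) (nat_lit 4) (nat_lit 312) (nat_lit 277) (nat_lit 131)) (XT.nd (nat_lit 78) (nat_lit 228) (nat_lit 0) (XT.lf (nat_lit 0) (nat_lit 342462258875) (nat_lit 76) (nat_lit 90164323403) (nat_lit 152) (nat_lit 25636290157) (nat_lit 12) (nat_lit 5) (nat_lit 13) (nat_lit 5) (nat_lit 14) (nat_lit 4) (nat_lit 313) (nat_lit 277) (nat_lit 130)) (XT.lf (nat_lit 0) (nat_lit 51572203529) (nat_lit 228) (nat_lit 412774818187) (nat_lit 76) (nat_lit 24525007776) (nat_lit 9) (nat_lit 5) (nat_lit 12) (nat_lit 5) (nat_lit 10) (nat_lit 4) (nat_lit 314) (nat_lit 277) (nat_lit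 129)))))) (XT.nd (nat_lit 34632) (nat_lit 0) (nat_lit 4560) (XT.nd (nat_lit 156) (nat_lit 76) (nat_lit 0) (XT.nd (nat_lit 78) (nat_lit 0) (nat_lit 0) (XT.lf (nat_lit 0) (nat_lit 137641576510) (nat_lit 228) (nat_lit 236333037787) (nat_lit 76) (nat_lit 147755173249) (nat_lit 9) (nat_lit 5) (nat_lit 12) (nat_lit 5) (nat_lit 10) (nat_lit 4) (nat_lit 315) (nat_lit 277) (nat_lit 128)) (XT.lf (nat_lit 0) (nat_lit 230596302413) (nat_lit 228) (nat_lit 45776251735) (nat_lit 76) (nat_lit 280843622232) (nat_lit 9) (nat_lit 5) (nat_lit 12) (nat_lit 5) (nat_lit 10) (nat_lit 4) (nat_lit 316) (nat_lit 277) (nat_lit 127))) (XT.nd (nat_lit 78) (nat_lit 0) (nat_lit 0) (XT.lf (nat_lit 0) (nat_lit 165315906804) (nat_lit 76) (nat_lit 168252361856) (nat_lit 152) (nat_lit 261844164816) (nat_lit 8) (nat_lit 5) (nat_lit 9) (nat_lit 5) (nat_lit 10) (nat_lit 4) (nat_lit 317) (nat_lit 277) (nat_lit 126)) (XT.nd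 (nat_lit 78) (nat_lit 0) (nat_lit 0) (XT.lf (nat_lit 0) (nat_lit 394929794930) (nat_lit 76) (nat_lit 50645416568) (nat_lit 152) (nat_lit 191049318925) (nat_lit 8) (nat_lit 5) (nat_lit 9) (nat_lit 5) (nat_lit 10) (nat_lit 4) (nat_lit 318) (nat_lit 277) (nat_lit 125)) (XT.lf (nat_lit 0) (nat_lit 567734898372) (nat_lit 152) (nat_lit 39413434706) (nat_lit 0) (nat_lit 73925652847) (nat_lit 8) (nat_lit 5) (nat_lit 10) (nat_lit 4) (nat_lit 8) (nat_lit 4) (nat_lit 319) (nat_lit 277) (nat_lit 124))))) (XT.nd (nat_lit 156) (nat_lit 0) (nat_lit 76) (XT.nd (nat_lit 78) (nat_lit 0) (nat_lit 0) (XT.lf (nat_lit 0) (nat_lit 7159773251) (nat_lit 0) (nat_lit 7159773251) (nat_lit 684) (nat_lit 23948213696) (nat_lit 68) (nat_lit 5) (nat_lit 68) (nat_lit 3) (nat_lit 77) (nat_lit 3) (nat_lit 278) (nat_lit 278) (nat_lit 164)) (XT.lf (nat_lit 0) (nat_lit 30409625423) (nat_lit 684) (nat_lit 11398041980) (nat_lit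 760) (nat_lit 37757968019) (nat_lit 68) (nat_lit 5) (nat_lit 77) (nat_lit 3) (nat_lit 78) (nat_lit 5) (nat_lit 279) (nat_lit 278) (nat_lit 163))) (XT.nd (nat_lit 78) (nat_lit 0) (nat_lit 0) (XT.lf (nat_lit 0) (nat_lit 33437335242) (nat_lit 684) (nat_lit 38296715751) (nat_lit 760) (nat_lit 11048337654) (nat_lit 69) (nat_lit 5) (nat_lit 78) (nat_lit 5) (nat_lit 79) (nat_lit 5) (nat_lit 280) (nat_lit 278) (nat_lit 162)) (XT.nd (nat_lit 78) (nat_lit 0) (nat_lit 76) (XT.lf (nat_lit 76) (nat_lit 18896191121) (nat_lit 0) (nat_lit 19011376808) (nat_lit 760) (nat_lit 48288904210) (nat_lit 70) (nat_lit 5) (nat_lit 69) (nat_lit 5) (nat_lit 79) (nat_lit 5) (nat_lit 281) (nat_lit 278) (nat_lit 161)) (XT.lf (nat_lit 0) (nat_lit 44004269913) (nat_lit 684) (nat_lit 8422336058) (nat_lit 760) (nat_lit 37393638726) (nat_lit 70) (nat_lit 5) (nat_lit 79) (nat_lit 5) (nat_lit 80) (nat_lit 5) (nat_lit 282)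 (nat_lit 278) (nat_lit 160))))))))
noncomputable def xc112 : XT := (XT.nd (nat_lit 1482) (nat_lit 1368) (nat_lit 0) (XT.nd (nat_lit 702) (nat_lit 1444) (nat_lit 0) (XT.nd (nat_lit 312) (nat_lit 1368) (nat_lit 0) (XT.nd (nat_lit 156) (nat_lit 608) (nat_lit 0) (XT.nd (nat_lit 78) (nat_lit 0) (nat_lit 0) (XT.lf (nat_lit 0) (nat_lit 51868552271) (nat_lit 684) (nat_lit 37091921915) (nat_lit 760) (nat_lit 4709457217) (nat_lit 71) (nat_lit 5) (nat_lit 80) (nat_lit 5) (nat_lit 81) (nat_lit 5) (nat_lit 283) (nat_lit 278) (nat_lit 159)) (XT.lf (nat_lit 76) (nat_lit 29309618847) (nat_lit 0) (nat_lit 32541906102) (nat_lit 760) (nat_lit 35901594928) (nat_lit 72) (nat_lit 5) (nat_lit 71) (nat_lit 5) (nat_lit 81) (nat_lit 5) (nat_lit 284) (nat_lit 278) (nat_lit 158))) (XT.nd (nat_lit 78) (nat_lit 684) (nat_lit 0) (XT.lf (nat_lit 0) (nat_lit 73731988738) (nat_lit 684) (nat_lit 237640276) (nat_lit 76)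 (nat_lit 28138395655) (nat_lit 72) (nat_lit 5) (nat_lit 81) (nat_lit 5) (nat_lit 73) (nat_lit 5) (nat_lit 285) (nat_lit 278) (nat_lit 157)) (XT.lf (nat_lit 0) (nat_lit 75284659761) (nat_lit 684) (nat_lit 13001326387) (nat_lit 760) (nat_lit 18439184488) (nat_lit 63) (nat_lit 5) (nat_lit 72) (nat_lit 5) (nat_lit 73) (nat_lit 5) (nat_lit 286) (nat_lit 278) (nat_lit 156)))) (XT.nd (nat_lit 156) (nat_lit 608) (nat_lit 0) (XT.nd (nat_lit 78) (nat_lit 456) (nat_lit 0) (XT.lf (nat_lit 0) (nat_lit 45785133937) (nat_lit 304) (nat_lit 59762301088) (nat_lit 380) (nat_lit 6087100020) (nat_lit 59) (nat_lit 5) (nat_lit 63) (nat_lit 5) (nat_lit 64) (nat_lit 5) (nat_lit 287) (nat_lit 278) (nat_lit 155)) (XT.lf (nat_lit 0) (nat_lit 8092245894) (nat_lit 456) (nat_lit 103475578828) (nat_lit 76) (nat_lit 5309602694) (nat_lit 53) (nat_lit 5) (nat_lit 59) (nat_lit 5) (nat_lit 54) (nat_lit 5) (nat_lit 288)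 (nat_lit 278) (nat_lit 154))) (XT.nd (nat_lit 78) (nat_lit 608) (nat_lit 0) (XT.lf (nat_lit 0) (nat_lit 25368222772) (nat_lit 456) (nat_lit 22267792702) (nat_lit 76) (nat_lit 74789971730) (nat_lit 53) (nat_lit 5) (nat_lit 59) (nat_lit 5) (nat_lit 54) (nat_lit 5) (nat_lit 289) (nat_lit 278) (nat_lit 153)) (XT.nd (nat_lit 78) (nat_lit 304) (nat_lit 0) (XT.lf (nat_lit 0) (nat_lit 45432469006) (nat_lit 380) (nat_lit 61117902423) (nat_lit 76) (nat_lit 21797753317) (nat_lit 49) (nat_lit 5) (nat_lit 54) (nat_lit 5) (nat_lit 50) (nat_lit 5) (nat_lit 290) (nat_lit 278) (nat_lit 152)) (XT.lf (nat_lit 0) (nat_lit 30111953451) (nat_lit 304) (nat_lit 38656757970) (nat_lit 380) (nat_lit 65891981389) (nat_lit 45) (nat_lit 5) (nat_lit 49) (nat_lit 5) (nat_lit 50) (nat_lit 5) (nat_lit 291) (nat_lit 278) (nat_lit 151)))))) (XT.nd (nat_lit 390) (nat_lit 684) (nat_lit 0) (XT.nd (nat_lit 156) (nat_lit 532)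 (nat_lit 0) (XT.nd (nat_lit 78) (nat_lit 228) (nat_lit 0) (XT.lf (nat_lit 0) (nat_lit 95594497378) (nat_lit 380) (nat_lit 11161902381) (nat_lit 76) (nat_lit 34640736524) (nat_lit 45) (nat_lit 5) (nat_lit 50) (nat_lit 5) (nat_lit 46) (nat_lit 5) (nat_lit 292) (nat_lit 278) (nat_lit 150)) (XT.lf (nat_lit 0) (nat_lit 91987450217) (nat_lit 228) (nat_lit 34666240956) (nat_lit 304) (nat_lit 21914438823) (nat_lit 42) (nat_lit 5) (nat_lit 45) (nat_lit 5) (nat_lit 46) (nat_lit 5) (nat_lit 293) (nat_lit 278) (nat_lit 149))) (XT.nd (nat_lit 78) (nat_lit 228) (nat_lit 0) (XT.lf (nat_lit 0) (nat_lit 5413401941) (nat_lit 304) (nat_lit 107965230864) (nat_lit 76) (nat_lit 42848493373) (nat_lit 38) (nat_lit 5) (nat_lit 42) (nat_lit 5) (nat_lit 39) (nat_lit 5) (nat_lit 294) (nat_lit 278) (nat_lit 148)) (XT.nd (nat_lit 78) (nat_lit 228) (nat_lit 0) (XT.lf (nat_lit 0) (nat_lit 35755649797) (nat_lit 304)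 (nat_lit 1908184411) (nat_lit 76) (nat_lit 126737249083) (nat_lit 38) (nat_lit 5) (nat_lit 42) (nat_lit 5) (nat_lit 39) (nat_lit 5) (nat_lit 295) (nat_lit 278) (nat_lit 147)) (XT.lf (nat_lit 0) (nat_lit 71059807679) (nat_lit 304) (nat_lit 57499721029) (nat_lit 76) (nat_lit 44542703273) (nat_lit 35) (nat_lit 5) (nat_lit 39) (nat_lit 5) (nat_lit 36) (nat_lit 5) (nat_lit 296) (nat_lit 278) (nat_lit 146))))) (XT.nd (nat_lit 156) (nat_lit 456) (nat_lit 0) (XT.nd (nat_lit 78) (nat_lit 0) (nat_lit 0) (XT.lf (nat_lit 0) (nat_lit 61413684047) (nat_lit 228) (nat_lit 49401790257) (nat_lit 304) (nat_lit 71602640864) (nat_lit 32) (nat_lit 5) (nat_lit 35) (nat_lit 5) (nat_lit 36) (nat_lit 5) (nat_lit 297) (nat_lit 278) (nat_lit 145)) (XT.lf (nat_lit 0) (nat_lit 155332562859) (nat_lit 304) (nat_lit 1116290533) (nat_lit 76) (nat_lit 35951368491) (nat_lit 32) (nat_lit 5) (nat_lit 36) (nat_lit 5) (nat_lit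 33) (nat_lit 5) (nat_lit 298) (nat_lit 278) (nat_lit 144))) (XT.nd (nat_lit 78) (nat_lit 228) (nat_lit 0) (XT.lf (nat_lit 0) (nat_lit 3159585282) (nat_lit 228) (nat_lit 71341441278) (nat_lit 76) (nat_lit 128532850619) (nat_lit 29) (nat_lit 5) (nat_lit 32) (nat_lit 5) (nat_lit 30) (nat_lit 5) (nat_lit 299) (nat_lit 278) (nat_lit 143)) (XT.nd (nat_lit 78) (nat_lit 0) (nat_lit 0) (XT.lf (nat_lit 0) (nat_lit 46556178532) (nat_lit 304) (nat_lit 152675557083) (nat_lit 76) (nat_lit 15193615039) (nat_lit 26) (nat_lit 5) (nat_lit 30) (nat_lit 5) (nat_lit 27) (nat_lit 5) (nat_lit 300) (nat_lit 278) (nat_lit 142)) (XT.lf (nat_lit 0) (nat_lit 95943388907) (nat_lit 304) (nat_lit 19907319444) (nat_lit 76) (nat_lit 110751490160) (nat_lit 26) (nat_lit 5) (nat_lit 30) (nat_lit 5) (nat_lit 27) (nat_lit 5) (nat_lit 301) (nat_lit 278) (nat_lit 141))))))) (XT.nd (nat_lit 702) (nat_lit 532) (nat_lit 0) (XT.nd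 (nat_lit 312) (nat_lit 304) (nat_lit 0) (XT.nd (nat_lit 156) (nat_lit 228) (nat_lit 0) (XT.nd (nat_lit 78) (nat_lit 152) (nat_lit 0) (XT.lf (nat_lit 0) (nat_lit 127564664701) (nat_lit 152) (nat_lit 23708156931) (nat_lit 228) (nat_lit 88380811198) (nat_lit 24) (nat_lit 5) (nat_lit 26) (nat_lit 5) (nat_lit 27) (nat_lit 5) (nat_lit 302) (nat_lit 278) (nat_lit 140)) (XT.lf (nat_lit 0) (nat_lit 33702337643) (nat_lit 152) (nat_lit 179388079253) (nat_lit 228) (nat_lit 40555675449) (nat_lit 22) (nat_lit 5) (nat_lit 24) (nat_lit 5) (nat_lit 25) (nat_lit 5) (nat_lit 303) (nat_lit 278) (nat_lit 139))) (XT.nd (nat_lit 78) (nat_lit 152) (nat_lit 0) (XT.lf (nat_lit 0) (nat_lit 13124270051) (nat_lit 228) (nat_lit 74106274891) (nat_lit 76) (nat_lit 181399546688) (nat_lit 21) (nat_lit 5) (nat_lit 24) (nat_lit 5) (nat_lit 22) (nat_lit 5) (nat_lit 304) (nat_lit 278) (nat_lit 138)) (XT.lf (nat_lit 0) (nat_lit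 71255598530) (nat_lit 228) (nat_lit 199488303978) (nat_lit 76) (nat_lit 13956773652) (nat_lit 19) (nat_lit 5) (nat_lit 22) (nat_lit 5) (nat_lit 20) (nat_lit 5) (nat_lit 305) (nat_lit 278) (nat_lit 137)))) (XT.nd (nat_lit 156) (nat_lit 152) (nat_lit 0) (XT.nd (nat_lit 78) (nat_lit 152) (nat_lit 0) (XT.lf (nat_lit 0) (nat_lit 136820021303) (nat_lit 228) (nat_lit 43562077821) (nat_lit 76) (nat_lit 121535679564) (nat_lit 19) (nat_lit 5) (nat_lit 22) (nat_lit 5) (nat_lit 20) (nat_lit 5) (nat_lit 306) (nat_lit 278) (nat_lit 136)) (XT.lf (nat_lit 0) (nat_lit 128965476352) (nat_lit 152) (nat_lit 80677334208) (nat_lit 228) (nat_lit 110768778817) (nat_lit 17) (nat_lit 5) (nat_lit 19) (nat_lit 5) (nat_lit 20) (nat_lit 5) (nat_lit 307) (nat_lit 278) (nat_lit 135))) (XT.nd (nat_lit 78) (nat_lit 152) (nat_lit 0) (XT.lf (nat_lit 0) (nat_lit 289484003903) (nat_lit 228) (nat_lit 23930648520) (nat_lit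 76) (nat_lit 26910623998) (nat_lit 17) (nat_lit 5) (nat_lit 20) (nat_lit 5) (nat_lit 18) (nat_lit 4) (nat_lit 308) (nat_lit 278) (nat_lit 134)) (XT.nd (nat_lit 78) (nat_lit 0) (nat_lit 0) (XT.lf (nat_lit 0) (nat_lit 17369804938) (nat_lit 152) (nat_lit 201147776223) (nat_lit 76) (nat_lit 143106960565) (nat_lit 15) (nat_lit 5) (nat_lit 17) (nat_lit 5) (nat_lit 16) (nat_lit 5) (nat_lit 309) (nat_lit 278) (nat_lit 133)) (XT.lf (nat_lit 0) (nat_lit 89703784208) (nat_lit 152) (nat_lit 24980106031) (nat_lit 76) (nat_lit 269879822981) (nat_lit 15) (nat_lit 5) (nat_lit 17) (nat_lit 5) (nat_lit 16) (nat_lit 5) (nat_lit 310) (nat_lit 278) (nat_lit 132)))))) (XT.nd (nat_lit 390) (nat_lit 76) (nat_lit 0) (XT.nd (nat_lit 156) (nat_lit 304) (nat_lit 0) (XT.nd (nat_lit 78) (nat_lit 0) (nat_lit 0) (XT.lf (nat_lit 0) (nat_lit 170494047926) (nat_lit 228) (nat_lit 238463215332) (nat_lit 76) (nat_lit 247277284)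 (nat_lit 13) (nat_lit 5) (nat_lit 16) (nat_lit 5) (nat_lit 14) (nat_lit 4) (nat_lit 311) (nat_lit 278) (nat_lit 131)) (XT.lf (nat_lit 0) (nat_lit 260123354748) (nat_lit 228) (nat_lit 54723668134) (nat_lit 76) (nat_lit 120850820450) (nat_lit 13) (nat_lit 5) (nat_lit 16) (nat_lit 5) (nat_lit 14) (nat_lit 4) (nat_lit 312) (nat_lit 278) (nat_lit 130))) (XT.nd (nat_lit 78) (nat_lit 228) (nat_lit 0) (XT.lf (nat_lit 0) (nat_lit 148466547560) (nat_lit 76) (nat_lit 210774225769) (nat_lit 152) (nat_lit 104953949010) (nat_lit 12) (nat_lit 5) (nat_lit 13) (nat_lit 5) (nat_lit 14) (nat_lit 4) (nat_lit 313) (nat_lit 278) (nat_lit 129)) (XT.nd (nat_lit 78) (nat_lit 228) (nat_lit 0) (XT.lf (nat_lit 0) (nat_lit 369865808354) (nat_lit 76) (nat_lit 97374826788) (nat_lit 152) (nat_lit 27683064367) (nat_lit 12) (nat_lit 5) (nat_lit 13) (nat_lit 5) (nat_lit 14) (nat_lit 4) (nat_lit 314) (nat_lit 278) (nat_lit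 128)) (XT.lf (nat_lit 0) (nat_lit 55701821584) (nat_lit 228) (nat_lit 445790233219) (nat_lit 76) (nat_lit 26489539310) (nat_lit 9) (nat_lit 5) (nat_lit 12) (nat_lit 5) (nat_lit 10) (nat_lit 4) (nat_lit 315) (nat_lit 278) (nat_lit 127))))) (XT.nd (nat_lit 156) (nat_lit 76) (nat_lit 0) (XT.nd (nat_lit 78) (nat_lit 0) (nat_lit 0) (XT.lf (nat_lit 0) (nat_lit 148656459828) (nat_lit 228) (nat_lit 255233597085) (nat_lit 76) (nat_lit 159577930545) (nat_lit 9) (nat_lit 5) (nat_lit 12) (nat_lit 5) (nat_lit 10) (nat_lit 4) (nat_lit 316) (nat_lit 278) (nat_lit 126)) (XT.lf (nat_lit 0) (nat_lit 249047300307) (nat_lit 228) (nat_lit 49432718795) (nat_lit 76) (nat_lit 303313281860) (nat_lit 9) (nat_lit 5) (nat_lit 12) (nat_lit 5) (nat_lit 10) (nat_lit 4) (nat_lit 317) (nat_lit 278) (nat_lit 125))) (XT.nd (nat_lit 78) (nat_lit 0) (nat_lit 0) (XT.lf (nat_lit 0) (nat_lit 178546567621) (nat_lit 76) (nat_lit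 181710296381) (nat_lit 152) (nat_lit 282788402975) (nat_lit 8) (nat_lit 5) (nat_lit 9) (nat_lit 5) (nat_lit 10) (nat_lit 4) (nat_lit 318) (nat_lit 278) (nat_lit 124)) (XT.nd (nat_lit 34398) (nat_lit 0) (nat_lit 4560) (XT.lf (nat_lit 0) (nat_lit 426529167666) (nat_lit 76) (nat_lit 54694962465) (nat_lit 152) (nat_lit 206330213489) (nat_lit 8) (nat_lit 5) (nat_lit 9) (nat_lit 5) (nat_lit 10) (nat_lit 4) (nat_lit 319) (nat_lit 278) (nat_lit 123)) (XT.lf (nat_lit 0) (nat_lit 7740347688) (nat_lit 0) (nat_lit 7740347688) (nat_lit 684) (nat_lit 25847650404) (nat_lit 68) (nat_lit 5) (nat_lit 68) (nat_lit 3) (nat_lit 77) (nat_lit 3) (nat_lit 279) (nat_lit 279) (nat_lit 162))))))))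
noncomputable def xc113 : XT := (XT.nd (nat_lit 1482) (nat_lit 1748) (nat_lit 0) (XT.nd (nat_lit 702) (nat_lit 2052) (nat_lit 0) (XT.nd (nat_lit 312) (nat_lit 684) (nat_lit 0) (XT.nd (nat_lit 156) (nat_lit 0) (nat_lit 76) (XT.nd (nat_lit 78) (nat_lit 0) (nat_lit 76) (XT.lf (nat_lit 0) (nat_lit 32871031547) (nat_lit 684) (nat_lit 12293682608) (nat_lit 760) (nat_lit 40764636636) (nat_lit 68) (nat_lit 5) (nat_lit 77) (nat_lit 3) (nat_lit 78) (nat_lit 5) (nat_lit 280) (nat_lit 279) (nat_lit 161)) (XT.lf (nat_lit 0) (nat_lit 36138903163) (nat_lit 684) (nat_lit 41343344832) (nat_lit 760) (nat_lit 11921306707) (nat_lit 69) (nat_lit 5) (nat_lit 78) (nat_lit 5) (nat_lit 79) (nat_lit 5) (nat_lit 281) (nat_lit 279) (nat_lit 160))) (XT.nd (nat_lit 78) (nat_lit 0) (nat_lit 76) (XT.lf (nat_lit 76) (nat_lit 20424251089) (nat_lit 0) (nat_lit 20540789904) (nat_lit 760) (nat_lit 52125816664) (nat_lit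 70) (nat_lit 5) (nat_lit 69) (nat_lit 5) (nat_lit 79) (nat_lit 5) (nat_lit 282) (nat_lit 279) (nat_lit 159)) (XT.lf (nat_lit 0) (nat_lit 47547514168) (nat_lit 684) (nat_lit 9079613974) (nat_lit 760) (nat_lit 40377508709) (nat_lit 70) (nat_lit 5) (nat_lit 79) (nat_lit 5) (nat_lit 80) (nat_lit 5) (nat_lit 283) (nat_lit 279) (nat_lit 158)))) (XT.nd (nat_lit 156) (nat_lit 912) (nat_lit 0) (XT.nd (nat_lit 78) (nat_lit 0) (nat_lit 0) (XT.lf (nat_lit 0) (nat_lit 56039400783) (nat_lit 684) (nat_lit 40042246942) (nat_lit 760) (nat_lit 5080733780) (nat_lit 71) (nat_lit 5) (nat_lit 80) (nat_lit 5) (nat_lit 81) (nat_lit 5) (nat_lit 284) (nat_lit 279) (nat_lit 157)) (XT.lf (nat_lit 76) (nat_lit 31670677033) (nat_lit 0) (nat_lit 35149006011) (nat_lit 760) (nat_lit 38752614069) (nat_lit 72) (nat_lit 5) (nat_lit 71) (nat_lit 5) (nat_lit 81) (nat_lit 5) (nat_lit 285) (nat_lit 279) (nat_lit 156))) (XT.nd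 (nat_lit 78) (nat_lit 988) (nat_lit 0) (XT.lf (nat_lit 0) (nat_lit 79649045608) (nat_lit 684) (nat_lit 240522294) (nat_lit 76) (nat_lit 30386108530) (nat_lit 72) (nat_lit 5) (nat_lit 81) (nat_lit 5) (nat_lit 73) (nat_lit 5) (nat_lit 286) (nat_lit 279) (nat_lit 155)) (XT.nd (nat_lit 78) (nat_lit 304) (nat_lit 0) (XT.lf (nat_lit 0) (nat_lit 81322860790) (nat_lit 684) (nat_lit 14043372693) (nat_lit 760) (nat_lit 19896021897) (nat_lit 63) (nat_lit 5) (nat_lit 72) (nat_lit 5) (nat_lit 73) (nat_lit 5) (nat_lit 287) (nat_lit 279) (nat_lit 154)) (XT.lf (nat_lit 0) (nat_lit 49463619920) (nat_lit 304) (nat_lit 64543908485) (nat_lit 380) (nat_lit 6556898510) (nat_lit 59) (nat_lit 5) (nat_lit 63) (nat_lit 5) (nat_lit 64) (nat_lit 5) (nat_lit 288) (nat_lit 279) (nat_lit 153)))))) (XT.nd (nat_lit 390) (nat_lit 988) (nat_lit 0) (XT.nd (nat_lit 156) (nat_lit 608) (nat_lit 0) (XT.nd (nat_lit 78) (nat_lit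 0) (nat_lit 0) (XT.lf (nat_lit 0) (nat_lit 8755256582) (nat_lit 456) (nat_lit 111737222483) (nat_lit 76) (nat_lit 5734311606) (nat_lit 53) (nat_lit 5) (nat_lit 59) (nat_lit 5) (nat_lit 54) (nat_lit 5) (nat_lit 289) (nat_lit 279) (nat_lit 152)) (XT.lf (nat_lit 0) (nat_lit 27412153757) (nat_lit 456) (nat_lit 24034028478) (nat_lit 76) (nat_lit 80773114558) (nat_lit 53) (nat_lit 5) (nat_lit 59) (nat_lit 5) (nat_lit 54) (nat_lit 5) (nat_lit 290) (nat_lit 279) (nat_lit 151))) (XT.nd (nat_lit 78) (nat_lit 304) (nat_lit 0) (XT.lf (nat_lit 0) (nat_lit 49080708467) (nat_lit 380) (nat_lit 65992097324) (nat_lit 76) (nat_lit 23542444496) (nat_lit 49) (nat_lit 5) (nat_lit 54) (nat_lit 5) (nat_lit 50) (nat_lit 5) (nat_lit 291) (nat_lit 279) (nat_lit 150)) (XT.nd (nat_lit 78) (nat_lit 0) (nat_lit 0) (XT.lf (nat_lit 0) (nat_lit 32535484825) (nat_lit 304) (nat_lit 41747582494) (nat_lit 380) (nat_lit 71149798762)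 (nat_lit 45) (nat_lit 5) (nat_lit 49) (nat_lit 5) (nat_lit 50) (nat_lit 5) (nat_lit 292) (nat_lit 279) (nat_lit 149)) (XT.lf (nat_lit 0) (nat_lit 103253988444) (nat_lit 380) (nat_lit 12040752295) (nat_lit 76) (nat_lit 37413533583) (nat_lit 45) (nat_lit 5) (nat_lit 50) (nat_lit 5) (nat_lit 46) (nat_lit 5) (nat_lit 293) (nat_lit 279) (nat_lit 148))))) (XT.nd (nat_lit 156) (nat_lit 456) (nat_lit 0) (XT.nd (nat_lit 78) (nat_lit 304) (nat_lit 0) (XT.lf (nat_lit 0) (nat_lit 99359935643) (nat_lit 228) (nat_lit 37437308909) (nat_lit 304) (nat_lit 23655739328) (nat_lit 42) (nat_lit 5) (nat_lit 45) (nat_lit 5) (nat_lit 46) (nat_lit 5) (nat_lit 294) (nat_lit 279) (nat_lit 147)) (XT.lf (nat_lit 0) (nat_lit 5857345331) (nat_lit 304) (nat_lit 116588619796) (nat_lit 76) (nat_lit 46278757943) (nat_lit 38) (nat_lit 5) (nat_lit 42) (nat_lit 5) (nat_lit 39) (nat_lit 5) (nat_lit 295) (nat_lit 279) (nat_lit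 146))) (XT.nd (nat_lit 78) (nat_lit 456) (nat_lit 0) (XT.lf (nat_lit 0) (nat_lit 38626167739) (nat_lit 304) (nat_lit 2048034037) (nat_lit 76) (nat_lit 136878437435) (nat_lit 38) (nat_lit 5) (nat_lit 42) (nat_lit 5) (nat_lit 39) (nat_lit 5) (nat_lit 296) (nat_lit 279) (nat_lit 145)) (XT.nd (nat_lit 78) (nat_lit 228) (nat_lit 0) (XT.lf (nat_lit 0) (nat_lit 76754146594) (nat_lit 304) (nat_lit 62086991824) (nat_lit 76) (nat_lit 48108768995) (nat_lit 35) (nat_lit 5) (nat_lit 39) (nat_lit 5) (nat_lit 36) (nat_lit 5) (nat_lit 297) (nat_lit 279) (nat_lit 144)) (XT.lf (nat_lit 0) (nat_lit 66338933433) (nat_lit 228) (nat_lit 53350815159) (nat_lit 304) (nat_lit 77321340444) (nat_lit 32) (nat_lit 5) (nat_lit 35) (nat_lit 5) (nat_lit 36) (nat_lit 5) (nat_lit 298) (nat_lit 279) (nat_lit 143))))))) (XT.nd (nat_lit 780) (nat_lit 608) (nat_lit 0) (XT.nd (nat_lit 390) (nat_lit 532) (nat_lit 0) (XT.nd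 (nat_lit 156) (nat_lit 380) (nat_lit 0) (XT.nd (nat_lit 78) (nat_lit 228) (nat_lit 0) (XT.lf (nat_lit 0) (nat_lit 167767579951) (nat_lit 304) (nat_lit 1193944403) (nat_lit 76) (nat_lit 38830272890) (nat_lit 32) (nat_lit 5) (nat_lit 36) (nat_lit 5) (nat_lit 33) (nat_lit 5) (nat_lit 299) (nat_lit 279) (nat_lit 142)) (XT.lf (nat_lit 0) (nat_lit 3420465094) (nat_lit 228) (nat_lit 77037326011) (nat_lit 76) (nat_lit 138818371387) (nat_lit 29) (nat_lit 5) (nat_lit 32) (nat_lit 5) (nat_lit 30) (nat_lit 5) (nat_lit 300) (nat_lit 279) (nat_lit 141))) (XT.nd (nat_lit 78) (nat_lit 152) (nat_lit 0) (XT.lf (nat_lit 0) (nat_lit 50288406308) (nat_lit 304) (nat_lit 164878316672) (nat_lit 76) (nat_lit 16412251264) (nat_lit 26) (nat_lit 5) (nat_lit 30) (nat_lit 5) (nat_lit 27) (nat_lit 5) (nat_lit 301) (nat_lit 279) (nat_lit 140)) (XT.nd (nat_lit 78) (nat_lit 152) (nat_lit 0) (XT.lf (nat_lit 0) (nat_lit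 103626020661) (nat_lit 304) (nat_lit 21489455946) (nat_lit 76) (nat_lit 119614523281) (nat_lit 26) (nat_lit 5) (nat_lit 30) (nat_lit 5) (nat_lit 27) (nat_lit 5) (nat_lit 302) (nat_lit 279) (nat_lit 139)) (XT.lf (nat_lit 0) (nat_lit 137779832828) (nat_lit 152) (nat_lit 25601600808) (nat_lit 228) (nat_lit 95444135256) (nat_lit 24) (nat_lit 5) (nat_lit 26) (nat_lit 5) (nat_lit 27) (nat_lit 5) (nat_lit 303) (nat_lit 279) (nat_lit 138))))) (XT.nd (nat_lit 156) (nat_lit 304) (nat_lit 0) (XT.nd (nat_lit 78) (nat_lit 76) (nat_lit 0) (XT.lf (nat_lit 0) (nat_lit 36408376472) (nat_lit 152) (nat_lit 193735757561) (nat_lit 228) (nat_lit 43793307388) (nat_lit 22) (nat_lit 5) (nat_lit 24) (nat_lit 5) (nat_lit 25) (nat_lit 5) (nat_lit 304) (nat_lit 279) (nat_lit 137)) (XT.lf (nat_lit 0) (nat_lit 14180326236) (nat_lit 228) (nat_lit 80025440200) (nat_lit 76) (nat_lit 195914414343) (nat_lit 21) (nat_lit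 5) (nat_lit 24) (nat_lit 5) (nat_lit 22) (nat_lit 5) (nat_lit 305) (nat_lit 279) (nat_lit 136))) (XT.nd (nat_lit 78) (nat_lit 152) (nat_lit 0) (XT.lf (nat_lit 0) (nat_lit 76961896363) (nat_lit 228) (nat_lit 215438184656) (nat_lit 76) (nat_lit 15076345206) (nat_lit 19) (nat_lit 5) (nat_lit 22) (nat_lit 5) (nat_lit 20) (nat_lit 5) (nat_lit 306) (nat_lit 279) (nat_lit 135)) (XT.nd (nat_lit 78) (nat_lit 152) (nat_lit 0) (XT.lf (nat_lit 0) (nat_lit 147771039629) (nat_lit 228) (nat_lit 47038540676) (nat_lit 76) (nat_lit 131261339172) (nat_lit 19) (nat_lit 5) (nat_lit 22) (nat_lit 5) (nat_lit 20) (nat_lit 5) (nat_lit 307) (nat_lit 279) (nat_lit 134)) (XT.lf (nat_lit 0) (nat_lit 139290848285) (nat_lit 152) (nat_lit 87128529502) (nat_lit 228) (nat_lit 119624871736) (nat_lit 17) (nat_lit 5) (nat_lit 19) (nat_lit 5) (nat_lit 20) (nat_lit 5) (nat_lit 308) (nat_lit 279) (nat_lit 133)))))) (XT.nd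 (nat_lit 390) (nat_lit 304) (nat_lit 0) (XT.nd (nat_lit 156) (nat_lit 152) (nat_lit 0) (XT.nd (nat_lit 78) (nat_lit 152) (nat_lit 0) (XT.lf (nat_lit 0) (nat_lit 312647528926) (nat_lit 228) (nat_lit 25837365102) (nat_lit 76) (nat_lit 29066155119) (nat_lit 17) (nat_lit 5) (nat_lit 20) (nat_lit 5) (nat_lit 18) (nat_lit 4) (nat_lit 309) (nat_lit 279) (nat_lit 132)) (XT.lf (nat_lit 0) (nat_lit 18764036688) (nat_lit 152) (nat_lit 217232037453) (nat_lit 76) (nat_lit 154558190483) (nat_lit 15) (nat_lit 5) (nat_lit 17) (nat_lit 5) (nat_lit 16) (nat_lit 5) (nat_lit 310) (nat_lit 279) (nat_lit 131))) (XT.nd (nat_lit 78) (nat_lit 152) (nat_lit 0) (XT.lf (nat_lit 0) (nat_lit 96884390051) (nat_lit 152) (nat_lit 26971513710) (nat_lit 76) (nat_lit 291472683887) (nat_lit 15) (nat_lit 5) (nat_lit 17) (nat_lit 5) (nat_lit 16) (nat_lit 5) (nat_lit 311) (nat_lit 279) (nat_lit 130)) (XT.nd (nat_lit 78) (nat_lit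 0) (nat_lit 0) (XT.lf (nat_lit 0) (nat_lit 184137701383) (nat_lit 228) (nat_lit 257533405349) (nat_lit 76) (nat_lit 269583653) (nat_lit 13) (nat_lit 5) (nat_lit 16) (nat_lit 5) (nat_lit 14) (nat_lit 4) (nat_lit 312) (nat_lit 279) (nat_lit 129)) (XT.lf (nat_lit 0) (nat_lit 280937046853) (nat_lit 228) (nat_lit 59095203058) (nat_lit 76) (nat_lit 130521223294) (nat_lit 13) (nat_lit 5) (nat_lit 16) (nat_lit 5) (nat_lit 14) (nat_lit 4) (nat_lit 313) (nat_lit 279) (nat_lit 128))))) (XT.nd (nat_lit 156) (nat_lit 228) (nat_lit 0) (XT.nd (nat_lit 78) (nat_lit 0) (nat_lit 0) (XT.lf (nat_lit 0) (nat_lit 160349953559) (nat_lit 76) (nat_lit 227633717083) (nat_lit 152) (nat_lit 113346441780) (nat_lit 12) (nat_lit 5) (nat_lit 13) (nat_lit 5) (nat_lit 14) (nat_lit 4) (nat_lit 314) (nat_lit 279) (nat_lit 127)) (XT.lf (nat_lit 0) (nat_lit 399460704683) (nat_lit 76) (nat_lit 105162547425) (nat_lit 152)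 (nat_lit 29894169561) (nat_lit 12) (nat_lit 5) (nat_lit 13) (nat_lit 5) (nat_lit 14) (nat_lit 4) (nat_lit 315) (nat_lit 279) (nat_lit 126))) (XT.nd (nat_lit 78) (nat_lit 0) (nat_lit 0) (XT.lf (nat_lit 0) (nat_lit 60161261011) (nat_lit 228) (nat_lit 481447818798) (nat_lit 76) (nat_lit 28610872303) (nat_lit 9) (nat_lit 5) (nat_lit 12) (nat_lit 5) (nat_lit 10) (nat_lit 4) (nat_lit 316) (nat_lit 279) (nat_lit 125)) (XT.nd (nat_lit 78) (nat_lit 0) (nat_lit 0) (XT.lf (nat_lit 0) (nat_lit 160552026337) (nat_lit 228) (nat_lit 275647069039) (nat_lit 76) (nat_lit 172346174108) (nat_lit 9) (nat_lit 5) (nat_lit 12) (nat_lit 5) (nat_lit 10) (nat_lit 4) (nat_lit 317) (nat_lit 279) (nat_lit 124)) (XT.lf (nat_lit 0) (nat_lit 268973908149) (nat_lit 228) (nat_lit 53382506842) (nat_lit 76) (nat_lit 327580204704) (nat_lit 9) (nat_lit 5) (nat_lit 12) (nat_lit 5) (nat_lit 10) (nat_lit 4) (nat_lit 318) (nat_lit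 279) (nat_lit 123))))))))
noncomputable def xc114 : XT := (XT.nd (nat_lit 35880) (nat_lit 0) (nat_lit 76) (XT.nd (nat_lit 35100) (nat_lit 0) (nat_lit 2280) (XT.nd (nat_lit 34710) (nat_lit 0) (nat_lit 4636) (XT.nd (nat_lit 34554) (nat_lit 0) (nat_lit 4560) (XT.nd (nat_lit 34476) (nat_lit 0) (nat_lit 4560) (XT.lf (nat_lit 0) (nat_lit 192834912605) (nat_lit 76) (nat_lit 196245187288) (nat_lit 152) (nat_lit 305408650258) (nat_lit 8) (nat_lit 5) (nat_lit 9) (nat_lit 5) (nat_lit 10) (nat_lit 4) (nat_lit 319) (nat_lit 279) (nat_lit 122)) (XT.lf (nat_lit 0) (nat_lit 8366256381) (nat_lit 0) (nat_lit 8366256381) (nat_lit 684) (nat_lit 27901384602) (nat_lit 68) (nat_lit 5) (nat_lit 68) (nat_lit 3) (nat_lit 77) (nat_lit 3) (nat_lit 280) (nat_lit 280) (nat_lit 160))) (XT.nd (nat_lit 78) (nat_lit 0) (nat_lit 76) (XT.lf (nat_lit 0) (nat_lit 35525264903) (nat_lit 684) (nat_lit 13263285987) (nat_lit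 760) (nat_lit 44013831551) (nat_lit 68) (nat_lit 5) (nat_lit 77) (nat_lit 3) (nat_lit 78) (nat_lit 5) (nat_lit 281) (nat_lit 280) (nat_lit 159)) (XT.lf (nat_lit 0) (nat_lit 39052804426) (nat_lit 684) (nat_lit 44636144913) (nat_lit 760) (nat_lit 12865668000) (nat_lit 69) (nat_lit 5) (nat_lit 78) (nat_lit 5) (nat_lit 79) (nat_lit 5) (nat_lit 282) (nat_lit 280) (nat_lit 158)))) (XT.nd (nat_lit 156) (nat_lit 0) (nat_lit 152) (XT.nd (nat_lit 78) (nat_lit 0) (nat_lit 76) (XT.lf (nat_lit 76) (nat_lit 22072221250) (nat_lit 0) (nat_lit 22191343007) (nat_lit 760) (nat_lit 56273419821) (nat_lit 70) (nat_lit 5) (nat_lit 69) (nat_lit 5) (nat_lit 79) (nat_lit 5) (nat_lit 283) (nat_lit 280) (nat_lit 157)) (XT.lf (nat_lit 0) (nat_lit 51370950642) (nat_lit 684) (nat_lit 9791829312) (nat_lit 760) (nat_lit 43601175528) (nat_lit 70) (nat_lit 5) (nat_lit 79) (nat_lit 5) (nat_lit 80) (nat_lit 5) (nat_lit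 284) (nat_lit 280) (nat_lit 156))) (XT.nd (nat_lit 78) (nat_lit 0) (nat_lit 0) (XT.lf (nat_lit 0) (nat_lit 60540869316) (nat_lit 684) (nat_lit 43231027310) (nat_lit 760) (nat_lit 5482494253) (nat_lit 71) (nat_lit 5) (nat_lit 80) (nat_lit 5) (nat_lit 81) (nat_lit 5) (nat_lit 285) (nat_lit 280) (nat_lit 155)) (XT.nd (nat_lit 78) (nat_lit 0) (nat_lit 76) (XT.lf (nat_lit 76) (nat_lit 34218296112) (nat_lit 0) (nat_lit 37964139302) (nat_lit 760) (nat_lit 41834726097) (nat_lit 72) (nat_lit 5) (nat_lit 71) (nat_lit 5) (nat_lit 81) (nat_lit 5) (nat_lit 286) (nat_lit 280) (nat_lit 154)) (XT.lf (nat_lit 0) (nat_lit 86036828113) (nat_lit 684) (nat_lit 245935885) (nat_lit 76) (nat_lit 32814117601) (nat_lit 72) (nat_lit 5) (nat_lit 81) (nat_lit 5) (nat_lit 73) (nat_lit 5) (nat_lit 287) (nat_lit 280) (nat_lit 153)))))) (XT.nd (nat_lit 390) (nat_lit 836) (nat_lit 0) (XT.nd (nat_lit 156) (nat_lit 760)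 (nat_lit 0) (XT.nd (nat_lit 78) (nat_lit 304) (nat_lit 0) (XT.lf (nat_lit 0) (nat_lit 87841916890) (nat_lit 684) (nat_lit 15168505913) (nat_lit 760) (nat_lit 21472016621) (nat_lit 63) (nat_lit 5) (nat_lit 72) (nat_lit 5) (nat_lit 73) (nat_lit 5) (nat_lit 288) (nat_lit 280) (nat_lit 152)) (XT.lf (nat_lit 0) (nat_lit 53434148530) (nat_lit 304) (nat_lit 69707955551) (nat_lit 380) (nat_lit 7066730302) (nat_lit 59) (nat_lit 5) (nat_lit 63) (nat_lit 5) (nat_lit 64) (nat_lit 5) (nat_lit 289) (nat_lit 280) (nat_lit 151))) (XT.nd (nat_lit 78) (nat_lit 304) (nat_lit 0) (XT.lf (nat_lit 0) (nat_lit 9469078186) (nat_lit 456) (nat_lit 120662137652) (nat_lit 76) (nat_lit 6193005693) (nat_lit 53) (nat_lit 5) (nat_lit 59) (nat_lit 5) (nat_lit 54) (nat_lit 5) (nat_lit 290) (nat_lit 280) (nat_lit 150)) (XT.nd (nat_lit 78) (nat_lit 304) (nat_lit 0) (XT.lf (nat_lit 0) (nat_lit 29617534463) (nat_lit 456)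 (nat_lit 25943729803) (nat_lit 76) (nat_lit 87234916647) (nat_lit 53) (nat_lit 5) (nat_lit 59) (nat_lit 5) (nat_lit 54) (nat_lit 5) (nat_lit 291) (nat_lit 280) (nat_lit 149)) (XT.lf (nat_lit 0) (nat_lit 53018860910) (nat_lit 380) (nat_lit 71258401588) (nat_lit 76) (nat_lit 25426586723) (nat_lit 49) (nat_lit 5) (nat_lit 54) (nat_lit 5) (nat_lit 50) (nat_lit 5) (nat_lit 292) (nat_lit 280) (nat_lit 148))))) (XT.nd (nat_lit 156) (nat_lit 532) (nat_lit 0) (XT.nd (nat_lit 78) (nat_lit 0) (nat_lit 0) (XT.lf (nat_lit 0) (nat_lit 35150819409) (nat_lit 304) (nat_lit 45085917803) (nat_lit 380) (nat_lit 76830173319) (nat_lit 45) (nat_lit 5) (nat_lit 49) (nat_lit 5) (nat_lit 50) (nat_lit 5) (nat_lit 293) (nat_lit 280) (nat_lit 147)) (XT.lf (nat_lit 0) (nat_lit 111524536666) (nat_lit 380) (nat_lit 12991922049) (nat_lit 76) (nat_lit 40407934973) (nat_lit 45) (nat_lit 5) (nat_lit 50) (nat_lit 5) (nat_lit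 46) (nat_lit 5) (nat_lit 294) (nat_lit 280) (nat_lit 146))) (XT.nd (nat_lit 78) (nat_lit 304) (nat_lit 0) (XT.lf (nat_lit 0) (nat_lit 107320295489) (nat_lit 228) (nat_lit 40430380621) (nat_lit 304) (nat_lit 25538035064) (nat_lit 42) (nat_lit 5) (nat_lit 45) (nat_lit 5) (nat_lit 46) (nat_lit 5) (nat_lit 295) (nat_lit 280) (nat_lit 145)) (XT.nd (nat_lit 78) (nat_lit 0) (nat_lit 0) (XT.lf (nat_lit 0) (nat_lit 6335253290) (nat_lit 304) (nat_lit 125903852781) (nat_lit 76) (nat_lit 49983103417) (nat_lit 38) (nat_lit 5) (nat_lit 42) (nat_lit 5) (nat_lit 39) (nat_lit 5) (nat_lit 296) (nat_lit 280) (nat_lit 144)) (XT.lf (nat_lit 0) (nat_lit 41724891095) (nat_lit 304) (nat_lit 2200898428) (nat_lit 76) (nat_lit 147830605799) (nat_lit 38) (nat_lit 5) (nat_lit 42) (nat_lit 5) (nat_lit 39) (nat_lit 5) (nat_lit 297) (nat_lit 280) (nat_lit 143))))))) (XT.nd (nat_lit 780) (nat_lit 760) (nat_lit 0) (XT.nd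 (nat_lit 390) (nat_lit 532) (nat_lit 0) (XT.nd (nat_lit 156) (nat_lit 456) (nat_lit 0) (XT.nd (nat_lit 78) (nat_lit 228) (nat_lit 0) (XT.lf (nat_lit 0) (nat_lit 82902669595) (nat_lit 304) (nat_lit 67043057061) (nat_lit 76) (nat_lit 51959742001) (nat_lit 35) (nat_lit 5) (nat_lit 39) (nat_lit 5) (nat_lit 36) (nat_lit 5) (nat_lit 298) (nat_lit 280) (nat_lit 142)) (XT.lf (nat_lit 0) (nat_lit 71656468771) (nat_lit 228) (nat_lit 57616206915) (nat_lit 304) (nat_lit 83498892939) (nat_lit 32) (nat_lit 5) (nat_lit 35) (nat_lit 5) (nat_lit 36) (nat_lit 5) (nat_lit 299) (nat_lit 280) (nat_lit 141))) (XT.nd (nat_lit 78) (nat_lit 456) (nat_lit 0) (XT.lf (nat_lit 0) (nat_lit 181196198336) (nat_lit 304) (nat_lit 1279472496) (nat_lit 76) (nat_lit 41939090914) (nat_lit 32) (nat_lit 5) (nat_lit 36) (nat_lit 5) (nat_lit 33) (nat_lit 5) (nat_lit 300) (nat_lit 280) (nat_lit 140)) (XT.nd (nat_lit 78) (nat_lit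 228) (nat_lit 0) (XT.lf (nat_lit 0) (nat_lit 3701057882) (nat_lit 228) (nat_lit 83190512221) (nat_lit 76) (nat_lit 149926321138) (nat_lit 29) (nat_lit 5) (nat_lit 32) (nat_lit 5) (nat_lit 30) (nat_lit 5) (nat_lit 301) (nat_lit 280) (nat_lit 139)) (XT.lf (nat_lit 0) (nat_lit 54318109037) (nat_lit 304) (nat_lit 178058906957) (nat_lit 76) (nat_lit 17727929428) (nat_lit 26) (nat_lit 5) (nat_lit 30) (nat_lit 5) (nat_lit 27) (nat_lit 5) (nat_lit 302) (nat_lit 280) (nat_lit 138))))) (XT.nd (nat_lit 156) (nat_lit 380) (nat_lit 0) (XT.nd (nat_lit 78) (nat_lit 152) (nat_lit 0) (XT.lf (nat_lit 0) (nat_lit 111922241410) (nat_lit 304) (nat_lit 23199654043) (nat_lit 76) (nat_lit 129186183351) (nat_lit 26) (nat_lit 5) (nat_lit 30) (nat_lit 5) (nat_lit 27) (nat_lit 5) (nat_lit 303) (nat_lit 280) (nat_lit 137)) (XT.lf (nat_lit 0) (nat_lit 148810788513) (nat_lit 152) (nat_lit 27646977949) (nat_lit 228)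 (nat_lit 103073543960) (nat_lit 24) (nat_lit 5) (nat_lit 26) (nat_lit 5) (nat_lit 27) (nat_lit 5) (nat_lit 304) (nat_lit 280) (nat_lit 136))) (XT.nd (nat_lit 78) (nat_lit 228) (nat_lit 0) (XT.lf (nat_lit 0) (nat_lit 39329492936) (nat_lit 152) (nat_lit 209231730621) (nat_lit 228) (nat_lit 47290923130) (nat_lit 22) (nat_lit 5) (nat_lit 24) (nat_lit 5) (nat_lit 25) (nat_lit 5) (nat_lit 305) (nat_lit 280) (nat_lit 135)) (XT.nd (nat_lit 78) (nat_lit 152) (nat_lit 0) (XT.lf (nat_lit 0) (nat_lit 15319994602) (nat_lit 228) (nat_lit 86419470716) (nat_lit 76) (nat_lit 211590057134) (nat_lit 21) (nat_lit 5) (nat_lit 24) (nat_lit 5) (nat_lit 22) (nat_lit 5) (nat_lit 306) (nat_lit 280) (nat_lit 134)) (XT.lf (nat_lit 0) (nat_lit 83123863462) (nat_lit 228) (nat_lit 232665365937) (nat_lit 76) (nat_lit 16285050269) (nat_lit 19) (nat_lit 5) (nat_lit 22) (nat_lit 5) (nat_lit 20) (nat_lit 5) (nat_lit 307)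 (nat_lit 280) (nat_lit 133)))))) (XT.nd (nat_lit 390) (nat_lit 456) (nat_lit 0) (XT.nd (nat_lit 156) (nat_lit 152) (nat_lit 0) (XT.nd (nat_lit 78) (nat_lit 152) (nat_lit 0) (XT.lf (nat_lit 0) (nat_lit 159597366679) (nat_lit 228) (nat_lit 50794333660) (nat_lit 76) (nat_lit 141764651348) (nat_lit 19) (nat_lit 5) (nat_lit 22) (nat_lit 5) (nat_lit 20) (nat_lit 5) (nat_lit 308) (nat_lit 280) (nat_lit 132)) (XT.lf (nat_lit 0) (nat_lit 150441089592) (nat_lit 152) (nat_lit 94096247182) (nat_lit 228) (nat_lit 129190223798) (nat_lit 17) (nat_lit 5) (nat_lit 19) (nat_lit 5) (nat_lit 20) (nat_lit 5) (nat_lit 309) (nat_lit 280) (nat_lit 131))) (XT.nd (nat_lit 78) (nat_lit 152) (nat_lit 0) (XT.lf (nat_lit 0) (nat_lit 337663450504) (nat_lit 228) (nat_lit 27897722537) (nat_lit 76) (nat_lit 31393746227) (nat_lit 17) (nat_lit 5) (nat_lit 20) (nat_lit 5) (nat_lit 18) (nat_lit 4) (nat_lit 310) (nat_lit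 280) (nat_lit 130)) (XT.nd (nat_lit 78) (nat_lit 0) (nat_lit 0) (XT.lf (nat_lit 0) (nat_lit 20269143982) (nat_lit 152) (nat_lit 234604118224) (nat_lit 76) (nat_lit 166925137451) (nat_lit 15) (nat_lit 5) (nat_lit 17) (nat_lit 5) (nat_lit 16) (nat_lit 5) (nat_lit 311) (nat_lit 280) (nat_lit 129)) (XT.lf (nat_lit 0) (nat_lit 104638830476) (nat_lit 152) (nat_lit 29123232747) (nat_lit 76) (nat_lit 314792620569) (nat_lit 15) (nat_lit 5) (nat_lit 17) (nat_lit 5) (nat_lit 16) (nat_lit 5) (nat_lit 312) (nat_lit 280) (nat_lit 128))))) (XT.nd (nat_lit 156) (nat_lit 304) (nat_lit 0) (XT.nd (nat_lit 78) (nat_lit 0) (nat_lit 0) (XT.lf (nat_lit 0) (nat_lit 198872257979) (nat_lit 228) (nat_lit 278130190251) (nat_lit 76) (nat_lit 293314427) (nat_lit 13) (nat_lit 5) (nat_lit 16) (nat_lit 5) (nat_lit 14) (nat_lit 4) (nat_lit 313) (nat_lit 280) (nat_lit 127)) (XT.lf (nat_lit 0) (nat_lit 303415288829) (nat_lit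 228) (nat_lit 63817367890) (nat_lit 76) (nat_lit 140964924938) (nat_lit 13) (nat_lit 5) (nat_lit 16) (nat_lit 5) (nat_lit 14) (nat_lit 4) (nat_lit 314) (nat_lit 280) (nat_lit 126))) (XT.nd (nat_lit 78) (nat_lit 228) (nat_lit 0) (XT.lf (nat_lit 0) (nat_lit 173183164344) (nat_lit 76) (nat_lit 245842316758) (nat_lit 152) (nat_lit 122410879386) (nat_lit 12) (nat_lit 5) (nat_lit 13) (nat_lit 5) (nat_lit 14) (nat_lit 4) (nat_lit 315) (nat_lit 280) (nat_lit 125)) (XT.nd (nat_lit 78) (nat_lit 228) (nat_lit 0) (XT.lf (nat_lit 0) (nat_lit 431422389299) (nat_lit 76) (nat_lit 113573608911) (nat_lit 152) (nat_lit 32282668185) (nat_lit 12) (nat_lit 5) (nat_lit 13) (nat_lit 5) (nat_lit 14) (nat_lit 4) (nat_lit 316) (nat_lit 280) (nat_lit 124)) (XT.lf (nat_lit 0) (nat_lit 64976985709) (nat_lit 228) (nat_lit 519958814845) (nat_lit 76) (nat_lit 30901602383) (nat_lit 9) (nat_lit 5) (nat_lit 12) (nat_lit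 5) (nat_lit 10) (nat_lit 4) (nat_lit 317) (nat_lit 280) (nat_lit 123))))))))
noncomputable def xc115 : XT := (XT.nd (nat_lit 36036) (nat_lit 0) (nat_lit 0) (XT.nd (nat_lit 35256) (nat_lit 0) (nat_lit 2204) (XT.nd (nat_lit 34866) (nat_lit 0) (nat_lit 4560) (XT.nd (nat_lit 34710) (nat_lit 0) (nat_lit 4484) (XT.nd (nat_lit 34632) (nat_lit 0) (nat_lit 4484) (XT.lf (nat_lit 0) (nat_lit 173398803090) (nat_lit 228) (nat_lit 297694362843) (nat_lit 76) (nat_lit 186135590533) (nat_lit 9) (nat_lit 5) (nat_lit 12) (nat_lit 5) (nat_lit 10) (nat_lit 4) (nat_lit 318) (nat_lit 280) (nat_lit 122)) (XT.lf (nat_lit 0) (nat_lit 9041284668) (nat_lit 0) (nat_lit 9041284668) (nat_lit 684) (nat_lit 30121425895) (nat_lit 68) (nat_lit 5) (nat_lit 68) (nat_lit 3) (nat_lit 77) (nat_lit 3) (nat_lit 281) (nat_lit 281) (nat_lit 158))) (XT.nd (nat_lit 78) (nat_lit 0) (nat_lit 76) (XT.lf (nat_lit 0) (nat_lit 38388334477)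 (nat_lit 684) (nat_lit 14312439375) (nat_lit 760) (nat_lit 47524670572) (nat_lit 68) (nat_lit 5) (nat_lit 77) (nat_lit 3) (nat_lit 78) (nat_lit 5) (nat_lit 282) (nat_lit 281) (nat_lit 157)) (XT.lf (nat_lit 0) (nat_lit 42196566683) (nat_lit 684) (nat_lit 48194461484) (nat_lit 760) (nat_lit 13886911115) (nat_lit 69) (nat_lit 5) (nat_lit 78) (nat_lit 5) (nat_lit 79) (nat_lit 5) (nat_lit 283) (nat_lit 281) (nat_lit 156)))) (XT.nd (nat_lit 156) (nat_lit 0) (nat_lit 152) (XT.nd (nat_lit 78) (nat_lit 0) (nat_lit 76) (XT.lf (nat_lit 76) (nat_lit 23850027477) (nat_lit 0) (nat_lit 23972900370) (nat_lit 760) (nat_lit 60756035711) (nat_lit 70) (nat_lit 5) (nat_lit 69) (nat_lit 5) (nat_lit 79) (nat_lit 5) (nat_lit 284) (nat_lit 281) (nat_lit 155)) (XT.lf (nat_lit 0) (nat_lit 55497460833) (nat_lit 684) (nat_lit 10563041072) (nat_lit 760) (nat_lit 47083667824) (nat_lit 70) (nat_lit 5) (nat_lit 79)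 (nat_lit 5) (nat_lit 80) (nat_lit 5) (nat_lit 285) (nat_lit 281) (nat_lit 154))) (XT.nd (nat_lit 78) (nat_lit 0) (nat_lit 0) (XT.lf (nat_lit 0) (nat_lit 65399842282) (nat_lit 684) (nat_lit 46676992873) (nat_lit 760) (nat_lit 5917065819) (nat_lit 71) (nat_lit 5) (nat_lit 80) (nat_lit 5) (nat_lit 81) (nat_lit 5) (nat_lit 286) (nat_lit 281) (nat_lit 153)) (XT.nd (nat_lit 78) (nat_lit 0) (nat_lit 76) (XT.lf (nat_lit 76) (nat_lit 36967732465) (nat_lit 0) (nat_lit 41004024913) (nat_lit 760) (nat_lit 45165988842) (nat_lit 72) (nat_lit 5) (nat_lit 71) (nat_lit 5) (nat_lit 81) (nat_lit 5) (nat_lit 287) (nat_lit 281) (nat_lit 152)) (XT.lf (nat_lit 0) (nat_lit 92933370775) (nat_lit 684) (nat_lit 253755310) (nat_lit 76) (nat_lit 35436778207) (nat_lit 72) (nat_lit 5) (nat_lit 81) (nat_lit 5) (nat_lit 73) (nat_lit 5) (nat_lit 288) (nat_lit 281) (nat_lit 151)))))) (XT.nd (nat_lit 390) (nat_lit 836)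 (nat_lit 0) (XT.nd (nat_lit 156) (nat_lit 760) (nat_lit 0) (XT.nd (nat_lit 78) (nat_lit 304) (nat_lit 0) (XT.lf (nat_lit 0) (nat_lit 94880610464) (nat_lit 684) (nat_lit 16383412487) (nat_lit 760) (nat_lit 23176328852) (nat_lit 63) (nat_lit 5) (nat_lit 72) (nat_lit 5) (nat_lit 73) (nat_lit 5) (nat_lit 289) (nat_lit 281) (nat_lit 150)) (XT.lf (nat_lit 0) (nat_lit 57720402203) (nat_lit 304) (nat_lit 75285050147) (nat_lit 380) (nat_lit 7619448622) (nat_lit 59) (nat_lit 5) (nat_lit 63) (nat_lit 5) (nat_lit 64) (nat_lit 5) (nat_lit 290) (nat_lit 281) (nat_lit 149))) (XT.nd (nat_lit 78) (nat_lit 304) (nat_lit 0) (XT.lf (nat_lit 0) (nat_lit 10238093705) (nat_lit 456) (nat_lit 130303052226) (nat_lit 76) (nat_lit 6688402559) (nat_lit 53) (nat_lit 5) (nat_lit 59) (nat_lit 5) (nat_lit 54) (nat_lit 5) (nat_lit 291) (nat_lit 281) (nat_lit 148)) (XT.nd (nat_lit 78) (nat_lit 304) (nat_lit 0) (XT.lf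 (nat_lit 0) (nat_lit 31997575427) (nat_lit 456) (nat_lit 28008064818) (nat_lit 76) (nat_lit 94213669618) (nat_lit 53) (nat_lit 5) (nat_lit 59) (nat_lit 5) (nat_lit 54) (nat_lit 5) (nat_lit 292) (nat_lit 281) (nat_lit 147)) (XT.lf (nat_lit 0) (nat_lit 57270397017) (nat_lit 380) (nat_lit 76947873850) (nat_lit 76) (nat_lit 27461353809) (nat_lit 49) (nat_lit 5) (nat_lit 54) (nat_lit 5) (nat_lit 50) (nat_lit 5) (nat_lit 293) (nat_lit 281) (nat_lit 146))))) (XT.nd (nat_lit 156) (nat_lit 532) (nat_lit 0) (XT.nd (nat_lit 78) (nat_lit 0) (nat_lit 0) (XT.lf (nat_lit 0) (nat_lit 37973598094) (nat_lit 304) (nat_lit 48691529833) (nat_lit 380) (nat_lit 82966634043) (nat_lit 45) (nat_lit 5) (nat_lit 49) (nat_lit 5) (nat_lit 50) (nat_lit 5) (nat_lit 294) (nat_lit 281) (nat_lit 145)) (XT.lf (nat_lit 0) (nat_lit 120455269443) (nat_lit 380) (nat_lit 14020910219) (nat_lit 76) (nat_lit 43641700347) (nat_lit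 45) (nat_lit 5) (nat_lit 50) (nat_lit 5) (nat_lit 46) (nat_lit 5) (nat_lit 295) (nat_lit 281) (nat_lit 144))) (XT.nd (nat_lit 78) (nat_lit 304) (nat_lit 0) (XT.lf (nat_lit 0) (nat_lit 115915834246) (nat_lit 228) (nat_lit 43663170981) (nat_lit 304) (nat_lit 27572364383) (nat_lit 42) (nat_lit 5) (nat_lit 45) (nat_lit 5) (nat_lit 46) (nat_lit 5) (nat_lit 296) (nat_lit 281) (nat_lit 143)) (XT.nd (nat_lit 78) (nat_lit 0) (nat_lit 0) (XT.lf (nat_lit 0) (nat_lit 6850064236) (nat_lit 304) (nat_lit 135965995882) (nat_lit 76) (nat_lit 53983504810) (nat_lit 38) (nat_lit 5) (nat_lit 42) (nat_lit 5) (nat_lit 39) (nat_lit 5) (nat_lit 297) (nat_lit 281) (nat_lit 142)) (XT.lf (nat_lit 0) (nat_lit 45070281163) (nat_lit 304) (nat_lit 2367558152) (nat_lit 76) (nat_lit 159658677522) (nat_lit 38) (nat_lit 5) (nat_lit 42) (nat_lit 5) (nat_lit 39) (nat_lit 5) (nat_lit 298) (nat_lit 281) (nat_lit 141)))))))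 (XT.nd (nat_lit 780) (nat_lit 760) (nat_lit 0) (XT.nd (nat_lit 390) (nat_lit 532) (nat_lit 0) (XT.nd (nat_lit 156) (nat_lit 456) (nat_lit 0) (XT.nd (nat_lit 78) (nat_lit 228) (nat_lit 0) (XT.lf (nat_lit 0) (nat_lit 89541905858) (nat_lit 304) (nat_lit 72397161684) (nat_lit 76) (nat_lit 56118468793) (nat_lit 35) (nat_lit 5) (nat_lit 39) (nat_lit 5) (nat_lit 36) (nat_lit 5) (nat_lit 299) (nat_lit 281) (nat_lit 140)) (XT.lf (nat_lit 0) (nat_lit 77397920313) (nat_lit 228) (nat_lit 62223211411) (nat_lit 304) (nat_lit 90171812998) (nat_lit 32) (nat_lit 5) (nat_lit 35) (nat_lit 5) (nat_lit 36) (nat_lit 5) (nat_lit 300) (nat_lit 281) (nat_lit 139))) (XT.nd (nat_lit 78) (nat_lit 456) (nat_lit 0) (XT.lf (nat_lit 0) (nat_lit 195698077321) (nat_lit 304) (nat_lit 1373267659) (nat_lit 76) (nat_lit 45296272537) (nat_lit 32) (nat_lit 5) (nat_lit 36) (nat_lit 5) (nat_lit 33) (nat_lit 5) (nat_lit 301)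 (nat_lit 281) (nat_lit 138)) (XT.nd (nat_lit 78) (nat_lit 228) (nat_lit 0) (XT.lf (nat_lit 0) (nat_lit 4003105802) (nat_lit 228) (nat_lit 89837351389) (nat_lit 76) (nat_lit 161922553064) (nat_lit 29) (nat_lit 5) (nat_lit 32) (nat_lit 5) (nat_lit 30) (nat_lit 5) (nat_lit 302) (nat_lit 281) (nat_lit 137)) (XT.lf (nat_lit 0) (nat_lit 58669242108) (nat_lit 304) (nat_lit 192295324718) (nat_lit 76) (nat_lit 19148476937) (nat_lit 26) (nat_lit 5) (nat_lit 30) (nat_lit 5) (nat_lit 27) (nat_lit 5) (nat_lit 303) (nat_lit 281) (nat_lit 136))))) (XT.nd (nat_lit 156) (nat_lit 380) (nat_lit 0) (XT.nd (nat_lit 78) (nat_lit 152) (nat_lit 0) (XT.lf (nat_lit 0) (nat_lit 120881284008) (nat_lit 304) (nat_lit 25047946000) (nat_lit 76) (nat_lit 139523219829) (nat_lit 26) (nat_lit 5) (nat_lit 30) (nat_lit 5) (nat_lit 27) (nat_lit 5) (nat_lit 304) (nat_lit 281) (nat_lit 135)) (XT.lf (nat_lit 0) (nat_lit 160722998181)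 (nat_lit 152) (nat_lit 29856377712) (nat_lit 228) (nat_lit 111314178747) (nat_lit 24) (nat_lit 5) (nat_lit 26) (nat_lit 5) (nat_lit 27) (nat_lit 5) (nat_lit 305) (nat_lit 281) (nat_lit 134))) (XT.nd (nat_lit 78) (nat_lit 228) (nat_lit 0) (XT.lf (nat_lit 0) (nat_lit 42483093752) (nat_lit 152) (nat_lit 225967793467) (nat_lit 228) (nat_lit 51069182536) (nat_lit 22) (nat_lit 5) (nat_lit 24) (nat_lit 5) (nat_lit 25) (nat_lit 5) (nat_lit 306) (nat_lit 281) (nat_lit 133)) (XT.nd (nat_lit 78) (nat_lit 152) (nat_lit 0) (XT.lf (nat_lit 0) (nat_lit 16550088570) (nat_lit 228) (nat_lit 93326165633) (nat_lit 76) (nat_lit 228519396172) (nat_lit 21) (nat_lit 5) (nat_lit 24) (nat_lit 5) (nat_lit 22) (nat_lit 5) (nat_lit 307) (nat_lit 281) (nat_lit 132)) (XT.lf (nat_lit 0) (nat_lit 89778072428) (nat_lit 228) (nat_lit 251271844962) (nat_lit 76) (nat_lit 17590081182) (nat_lit 19) (nat_lit 5) (nat_lit 22)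 (nat_lit 5) (nat_lit 20) (nat_lit 5) (nat_lit 308) (nat_lit 281) (nat_lit 131)))))) (XT.nd (nat_lit 390) (nat_lit 456) (nat_lit 0) (XT.nd (nat_lit 156) (nat_lit 152) (nat_lit 0) (XT.nd (nat_lit 78) (nat_lit 152) (nat_lit 0) (XT.lf (nat_lit 0) (nat_lit 172369137392) (nat_lit 228) (nat_lit 54851630121) (nat_lit 76) (nat_lit 153107885393) (nat_lit 19) (nat_lit 5) (nat_lit 22) (nat_lit 5) (nat_lit 20) (nat_lit 5) (nat_lit 309) (nat_lit 281) (nat_lit 130)) (XT.lf (nat_lit 0) (nat_lit 162482355363) (nat_lit 152) (nat_lit 101621748157) (nat_lit 228) (nat_lit 139521465642) (nat_lit 17) (nat_lit 5) (nat_lit 19) (nat_lit 5) (nat_lit 20) (nat_lit 5) (nat_lit 310) (nat_lit 281) (nat_lit 129))) (XT.nd (nat_lit 78) (nat_lit 152) (nat_lit 0) (XT.lf (nat_lit 0) (nat_lit 364680058149) (nat_lit 228) (nat_lit 30123854663) (nat_lit 76) (nat_lit 33907216689) (nat_lit 17) (nat_lit 5) (nat_lit 20) (nat_lit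 5) (nat_lit 18) (nat_lit 4) (nat_lit 311) (nat_lit 281) (nat_lit 128)) (XT.nd (nat_lit 78) (nat_lit 0) (nat_lit 0) (XT.lf (nat_lit 0) (nat_lit 21894091445) (nat_lit 152) (nat_lit 253366890219) (nat_lit 76) (nat_lit 180281113235) (nat_lit 15) (nat_lit 5) (nat_lit 17) (nat_lit 5) (nat_lit 16) (nat_lit 5) (nat_lit 312) (nat_lit 281) (nat_lit 127)) (XT.lf (nat_lit 0) (nat_lit 113013099826) (nat_lit 152) (nat_lit 31447945567) (nat_lit 76) (nat_lit 339977849463) (nat_lit 15) (nat_lit 5) (nat_lit 17) (nat_lit 5) (nat_lit 16) (nat_lit 5) (nat_lit 313) (nat_lit 281) (nat_lit 126))))) (XT.nd (nat_lit 156) (nat_lit 304) (nat_lit 0) (XT.nd (nat_lit 78) (nat_lit 0) (nat_lit 0) (XT.lf (nat_lit 0) (nat_lit 214785074014) (nat_lit 228) (nat_lit 300375557867) (nat_lit 76) (nat_lit 318634933) (nat_lit 13) (nat_lit 5) (nat_lit 16) (nat_lit 5) (nat_lit 14) (nat_lit 4) (nat_lit 314) (nat_lit 281) (nat_lit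 125)) (XT.lf (nat_lit 0) (nat_lit 327691322487) (nat_lit 228) (nat_lit 68918083614) (nat_lit 76) (nat_lit 152243836851) (nat_lit 13) (nat_lit 5) (nat_lit 16) (nat_lit 5) (nat_lit 14) (nat_lit 4) (nat_lit 315) (nat_lit 281) (nat_lit 124))) (XT.nd (nat_lit 78) (nat_lit 228) (nat_lit 0) (XT.lf (nat_lit 0) (nat_lit 187042288086) (nat_lit 76) (nat_lit 265507903666) (nat_lit 152) (nat_lit 132200939607) (nat_lit 12) (nat_lit 5) (nat_lit 13) (nat_lit 5) (nat_lit 14) (nat_lit 4) (nat_lit 316) (nat_lit 281) (nat_lit 123)) (XT.nd (nat_lit 78) (nat_lit 228) (nat_lit 0) (XT.lf (nat_lit 0) (nat_lit 465940319882) (nat_lit 76) (nat_lit 122657832409) (nat_lit 152) (nat_lit 34862679668) (nat_lit 12) (nat_lit 5) (nat_lit 13) (nat_lit 5) (nat_lit 14) (nat_lit 4) (nat_lit 317) (nat_lit 281) (nat_lit 122)) (XT.lf (nat_lit 0) (nat_lit 70177565534) (nat_lit 228) (nat_lit 561551379551) (nat_lit 76) (nat_lit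 33375325478) (nat_lit 9) (nat_lit 5) (nat_lit 12) (nat_lit 5) (nat_lit 10) (nat_lit 4) (nat_lit 318) (nat_lit 281) (nat_lit 121))))))))
noncomputable def xc116 : XT := (XT.nd (nat_lit 1482) (nat_lit 1748) (nat_lit 0) (XT.nd (nat_lit 702) (nat_lit 2128) (nat_lit 0) (XT.nd (nat_lit 312) (nat_lit 380) (nat_lit 0) (XT.nd (nat_lit 156) (nat_lit 0) (nat_lit 76) (XT.nd (nat_lit 78) (nat_lit 0) (nat_lit 0) (XT.lf (nat_lit 0) (nat_lit 9769498086) (nat_lit 0) (nat_lit 9769498086) (nat_lit 684) (nat_lit 32520792338) (nat_lit 68) (nat_lit 5) (nat_lit 68) (nat_lit 3) (nat_lit 77) (nat_lit 3) (nat_lit 282) (nat_lit 282) (nat_lit 156)) (XT.lf (nat_lit 0) (nat_lit 41477446829) (nat_lit 684) (nat_lit 15447224057) (nat_lit 760) (nat_lit 51317841489) (nat_lit 68) (nat_lit 5) (nat_lit 77) (nat_lit 3) (nat_lit 78) (nat_lit 5) (nat_lit 283) (nat_lit 282) (nat_lit 155))) (XT.nd (nat_lit 78) (nat_lit 0) (nat_lit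 0) (XT.lf (nat_lit 0) (nat_lit 45589042620) (nat_lit 684) (nat_lit 52039237349) (nat_lit 760) (nat_lit 14990996441) (nat_lit 69) (nat_lit 5) (nat_lit 78) (nat_lit 5) (nat_lit 79) (nat_lit 5) (nat_lit 284) (nat_lit 282) (nat_lit 154)) (XT.lf (nat_lit 76) (nat_lit 25768342198) (nat_lit 0) (nat_lit 25896090702) (nat_lit 760) (nat_lit 65600008197) (nat_lit 70) (nat_lit 5) (nat_lit 69) (nat_lit 5) (nat_lit 79) (nat_lit 5) (nat_lit 285) (nat_lit 282) (nat_lit 153)))) (XT.nd (nat_lit 156) (nat_lit 532) (nat_lit 0) (XT.nd (nat_lit 78) (nat_lit 0) (nat_lit 76) (XT.lf (nat_lit 0) (nat_lit 59951690262) (nat_lit 684) (nat_lit 11397680907) (nat_lit 760) (nat_lit 50845558655) (nat_lit 70) (nat_lit 5) (nat_lit 79) (nat_lit 5) (nat_lit 80) (nat_lit 5) (nat_lit 286) (nat_lit 282) (nat_lit 152)) (XT.lf (nat_lit 0) (nat_lit 70645292817) (nat_lit 684) (nat_lit 50400421317) (nat_lit 760) (nat_lit 6386977746)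 (nat_lit 71) (nat_lit 5) (nat_lit 80) (nat_lit 5) (nat_lit 81) (nat_lit 5) (nat_lit 287) (nat_lit 282) (nat_lit 151))) (XT.nd (nat_lit 78) (nat_lit 608) (nat_lit 0) (XT.lf (nat_lit 76) (nat_lit 39935415693) (nat_lit 0) (nat_lit 44286708417) (nat_lit 760) (nat_lit 48765966043) (nat_lit 72) (nat_lit 5) (nat_lit 71) (nat_lit 5) (nat_lit 81) (nat_lit 5) (nat_lit 288) (nat_lit 282) (nat_lit 150)) (XT.nd (nat_lit 78) (nat_lit 684) (nat_lit 0) (XT.lf (nat_lit 0) (nat_lit 100379697170) (nat_lit 684) (nat_lit 263891600) (nat_lit 76) (nat_lit 38269603864) (nat_lit 72) (nat_lit 5) (nat_lit 81) (nat_lit 5) (nat_lit 73) (nat_lit 5) (nat_lit 289) (nat_lit 282) (nat_lit 149)) (XT.lf (nat_lit 0) (nat_lit 102480781715) (nat_lit 684) (nat_lit 17695308137) (nat_lit 760) (nat_lit 25018904726) (nat_lit 63) (nat_lit 5) (nat_lit 72) (nat_lit 5) (nat_lit 73) (nat_lit 5) (nat_lit 290) (nat_lit 282) (nat_lit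 148)))))) (XT.nd (nat_lit 390) (nat_lit 760) (nat_lit 0) (XT.nd (nat_lit 156) (nat_lit 608) (nat_lit 0) (XT.nd (nat_lit 78) (nat_lit 456) (nat_lit 0) (XT.lf (nat_lit 0) (nat_lit 62347912458) (nat_lit 304) (nat_lit 81308246950) (nat_lit 380) (nat_lit 8218184807) (nat_lit 59) (nat_lit 5) (nat_lit 63) (nat_lit 5) (nat_lit 64) (nat_lit 5) (nat_lit 291) (nat_lit 282) (nat_lit 147)) (XT.lf (nat_lit 0) (nat_lit 11066991393) (nat_lit 456) (nat_lit 140716959951) (nat_lit 76) (nat_lit 7223437393) (nat_lit 53) (nat_lit 5) (nat_lit 59) (nat_lit 5) (nat_lit 54) (nat_lit 5) (nat_lit 292) (nat_lit 282) (nat_lit 146))) (XT.nd (nat_lit 78) (nat_lit 608) (nat_lit 0) (XT.lf (nat_lit 0) (nat_lit 34566502009) (nat_lit 456) (nat_lit 30239139214) (nat_lit 76) (nat_lit 101750728585) (nat_lit 53) (nat_lit 5) (nat_lit 59) (nat_lit 5) (nat_lit 54) (nat_lit 5) (nat_lit 293) (nat_lit 282) (nat_lit 145)) (XT.nd (nat_lit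 78) (nat_lit 304) (nat_lit 0) (XT.lf (nat_lit 0) (nat_lit 61860625515) (nat_lit 380) (nat_lit 83094101679) (nat_lit 76) (nat_lit 29658810937) (nat_lit 49) (nat_lit 5) (nat_lit 54) (nat_lit 5) (nat_lit 50) (nat_lit 5) (nat_lit 294) (nat_lit 282) (nat_lit 144)) (XT.lf (nat_lit 0) (nat_lit 41020670726) (nat_lit 304) (nat_lit 52585770777) (nat_lit 380) (nat_lit 89595431552) (nat_lit 45) (nat_lit 5) (nat_lit 49) (nat_lit 5) (nat_lit 50) (nat_lit 5) (nat_lit 295) (nat_lit 282) (nat_lit 143))))) (XT.nd (nat_lit 156) (nat_lit 532) (nat_lit 0) (XT.nd (nat_lit 78) (nat_lit 228) (nat_lit 0) (XT.lf (nat_lit 0) (nat_lit 130099209727) (nat_lit 380) (nat_lit 15133696210) (nat_lit 76) (nat_lit 47134005662) (nat_lit 45) (nat_lit 5) (nat_lit 50) (nat_lit 5) (nat_lit 46) (nat_lit 5) (nat_lit 296) (nat_lit 282) (nat_lit 142)) (XT.lf (nat_lit 0) (nat_lit 125197601602) (nat_lit 228) (nat_lit 47154818547)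 (nat_lit 304) (nat_lit 29770683124) (nat_lit 42) (nat_lit 5) (nat_lit 45) (nat_lit 5) (nat_lit 46) (nat_lit 5) (nat_lit 297) (nat_lit 282) (nat_lit 141))) (XT.nd (nat_lit 78) (nat_lit 228) (nat_lit 0) (XT.lf (nat_lit 0) (nat_lit 7404920097) (nat_lit 304) (nat_lit 146834560598) (nat_lit 76) (nat_lit 58303688212) (nat_lit 38) (nat_lit 5) (nat_lit 42) (nat_lit 5) (nat_lit 39) (nat_lit 5) (nat_lit 298) (nat_lit 282) (nat_lit 140)) (XT.nd (nat_lit 78) (nat_lit 228) (nat_lit 0) (XT.lf (nat_lit 0) (nat_lit 48682246918) (nat_lit 304) (nat_lit 2548893402) (nat_lit 76) (nat_lit 172432763407) (nat_lit 38) (nat_lit 5) (nat_lit 42) (nat_lit 5) (nat_lit 39) (nat_lit 5) (nat_lit 299) (nat_lit 282) (nat_lit 139)) (XT.lf (nat_lit 0) (nat_lit 96711279157) (nat_lit 304) (nat_lit 78180927124) (nat_lit 76) (nat_lit 60609615907) (nat_lit 35) (nat_lit 5) (nat_lit 39) (nat_lit 5) (nat_lit 36) (nat_lit 5) (nat_lit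 300) (nat_lit 282) (nat_lit 138))))))) (XT.nd (nat_lit 702) (nat_lit 532) (nat_lit 0) (XT.nd (nat_lit 312) (nat_lit 532) (nat_lit 0) (XT.nd (nat_lit 156) (nat_lit 456) (nat_lit 0) (XT.nd (nat_lit 78) (nat_lit 0) (nat_lit 0) (XT.lf (nat_lit 0) (nat_lit 83597413437) (nat_lit 228) (nat_lit 67199103254) (nat_lit 304) (nat_lit 97379564060) (nat_lit 32) (nat_lit 5) (nat_lit 35) (nat_lit 5) (nat_lit 36) (nat_lit 5) (nat_lit 301) (nat_lit 282) (nat_lit 137)) (XT.lf (nat_lit 0) (nat_lit 211359224534) (nat_lit 304) (nat_lit 1475787990) (nat_lit 76) (nat_lit 48921735613) (nat_lit 32) (nat_lit 5) (nat_lit 36) (nat_lit 5) (nat_lit 33) (nat_lit 5) (nat_lit 302) (nat_lit 282) (nat_lit 136))) (XT.nd (nat_lit 78) (nat_lit 228) (nat_lit 0) (XT.lf (nat_lit 0) (nat_lit 4328466826) (nat_lit 228) (nat_lit 97017136303) (nat_lit 76) (nat_lit 174878180212) (nat_lit 29) (nat_lit 5) (nat_lit 32) (nat_lit 5) (nat_lit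 30) (nat_lit 5) (nat_lit 303) (nat_lit 282) (nat_lit 135)) (XT.lf (nat_lit 0) (nat_lit 63367654889) (nat_lit 304) (nat_lit 207671839245) (nat_lit 76) (nat_lit 20682338249) (nat_lit 26) (nat_lit 5) (nat_lit 30) (nat_lit 5) (nat_lit 27) (nat_lit 5) (nat_lit 304) (nat_lit 282) (nat_lit 134)))) (XT.nd (nat_lit 156) (nat_lit 380) (nat_lit 0) (XT.nd (nat_lit 78) (nat_lit 152) (nat_lit 0) (XT.lf (nat_lit 0) (nat_lit 130556299148) (nat_lit 304) (nat_lit 27045197004) (nat_lit 76) (nat_lit 150686913672) (nat_lit 26) (nat_lit 5) (nat_lit 30) (nat_lit 5) (nat_lit 27) (nat_lit 5) (nat_lit 305) (nat_lit 282) (nat_lit 133)) (XT.lf (nat_lit 0) (nat_lit 173587136549) (nat_lit 152) (nat_lit 32242865918) (nat_lit 228) (nat_lit 120214813108) (nat_lit 24) (nat_lit 5) (nat_lit 26) (nat_lit 5) (nat_lit 27) (nat_lit 5) (nat_lit 306) (nat_lit 282) (nat_lit 132))) (XT.nd (nat_lit 78) (nat_lit 228) (nat_lit 0)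 (XT.lf (nat_lit 0) (nat_lit 45887949569) (nat_lit 152) (nat_lit 244043094513) (nat_lit 228) (nat_lit 55150418061) (nat_lit 22) (nat_lit 5) (nat_lit 24) (nat_lit 5) (nat_lit 25) (nat_lit 5) (nat_lit 307) (nat_lit 282) (nat_lit 131)) (XT.nd (nat_lit 78) (nat_lit 152) (nat_lit 0) (XT.lf (nat_lit 0) (nat_lit 17877948878) (nat_lit 228) (nat_lit 100786375190) (nat_lit 76) (nat_lit 246802777828) (nat_lit 21) (nat_lit 5) (nat_lit 24) (nat_lit 5) (nat_lit 22) (nat_lit 5) (nat_lit 308) (nat_lit 282) (nat_lit 130)) (XT.lf (nat_lit 0) (nat_lit 96964004684) (nat_lit 228) (nat_lit 271367805308) (nat_lit 76) (nat_lit 18999196877) (nat_lit 19) (nat_lit 5) (nat_lit 22) (nat_lit 5) (nat_lit 20) (nat_lit 5) (nat_lit 309) (nat_lit 282) (nat_lit 129)))))) (XT.nd (nat_lit 390) (nat_lit 228) (nat_lit 0) (XT.nd (nat_lit 156) (nat_lit 152) (nat_lit 0) (XT.nd (nat_lit 78) (nat_lit 152) (nat_lit 0) (XT.lf (nat_lit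 0) (nat_lit 186162081773) (nat_lit 228) (nat_lit 59234401965) (nat_lit 76) (nat_lit 165358284003) (nat_lit 19) (nat_lit 5) (nat_lit 22) (nat_lit 5) (nat_lit 20) (nat_lit 5) (nat_lit 310) (nat_lit 282) (nat_lit 128)) (XT.lf (nat_lit 0) (nat_lit 175486069481) (nat_lit 152) (nat_lit 109749602893) (nat_lit 228) (nat_lit 150679774062) (nat_lit 17) (nat_lit 5) (nat_lit 19) (nat_lit 5) (nat_lit 20) (nat_lit 5) (nat_lit 311) (nat_lit 282) (nat_lit 127))) (XT.nd (nat_lit 78) (nat_lit 152) (nat_lit 0) (XT.lf (nat_lit 0) (nat_lit 393857490584) (nat_lit 228) (nat_lit 32528888485) (nat_lit 76) (nat_lit 36621483636) (nat_lit 17) (nat_lit 5) (nat_lit 20) (nat_lit 5) (nat_lit 18) (nat_lit 4) (nat_lit 312) (nat_lit 282) (nat_lit 126)) (XT.nd (nat_lit 78) (nat_lit 0) (nat_lit 0) (XT.lf (nat_lit 0) (nat_lit 23648547383) (nat_lit 152) (nat_lit 273631476807) (nat_lit 76) (nat_lit 194705286784) (nat_lit 15)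 (nat_lit 5) (nat_lit 17) (nat_lit 5) (nat_lit 16) (nat_lit 5) (nat_lit 313) (nat_lit 282) (nat_lit 125)) (XT.lf (nat_lit 0) (nat_lit 122056859500) (nat_lit 152) (nat_lit 33959369519) (nat_lit 76) (nat_lit 367177637133) (nat_lit 15) (nat_lit 5) (nat_lit 17) (nat_lit 5) (nat_lit 16) (nat_lit 5) (nat_lit 314) (nat_lit 282) (nat_lit 124))))) (XT.nd (nat_lit 156) (nat_lit 76) (nat_lit 0) (XT.nd (nat_lit 78) (nat_lit 0) (nat_lit 0) (XT.lf (nat_lit 0) (nat_lit 231970482298) (nat_lit 228) (nat_lit 324401274990) (nat_lit 76) (nat_lit 345716393) (nat_lit 13) (nat_lit 5) (nat_lit 16) (nat_lit 5) (nat_lit 14) (nat_lit 4) (nat_lit 315) (nat_lit 282) (nat_lit 123)) (XT.lf (nat_lit 0) (nat_lit 353909037882) (nat_lit 228) (nat_lit 74427523352) (nat_lit 76) (nat_lit 164424816638) (nat_lit 13) (nat_lit 5) (nat_lit 16) (nat_lit 5) (nat_lit 14) (nat_lit 4) (nat_lit 316) (nat_lit 282) (nat_lit 122))) (XT.nd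 (nat_lit 78) (nat_lit 0) (nat_lit 0) (XT.lf (nat_lit 0) (nat_lit 202009503946) (nat_lit 76) (nat_lit 286746994094) (nat_lit 152) (nat_lit 142774605542) (nat_lit 12) (nat_lit 5) (nat_lit 13) (nat_lit 5) (nat_lit 14) (nat_lit 4) (nat_lit 317) (nat_lit 282) (nat_lit 121)) (XT.nd (nat_lit 34788) (nat_lit 0) (nat_lit 4256) (XT.lf (nat_lit 0) (nat_lit 503219094374) (nat_lit 76) (nat_lit 132469031348) (nat_lit 152) (nat_lit 37649463269) (nat_lit 12) (nat_lit 5) (nat_lit 13) (nat_lit 5) (nat_lit 14) (nat_lit 4) (nat_lit 318) (nat_lit 282) (nat_lit 120)) (XT.lf (nat_lit 0) (nat_lit 10555268020) (nat_lit 0) (nat_lit 10555268020) (nat_lit 684) (nat_lit 35113584301) (nat_lit 68) (nat_lit 5) (nat_lit 68) (nat_lit 3) (nat_lit 77) (nat_lit 3) (nat_lit 283) (nat_lit 283) (nat_lit 154))))))))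
noncomputable def xc117 : XT := (XT.nd (nat_lit 1482) (nat_lit 1444) (nat_lit 0) (XT.nd (nat_lit 702) (nat_lit 2052) (nat_lit 0) (XT.nd (nat_lit 312) (nat_lit 684) (nat_lit 0) (XT.nd (nat_lit 156) (nat_lit 0) (nat_lit 76) (XT.nd (nat_lit 78) (nat_lit 0) (nat_lit 76) (XT.lf (nat_lit 0) (nat_lit 44811113764) (nat_lit 684) (nat_lit 16674248150) (nat_lit 760) (nat_lit 55415721887) (nat_lit 68) (nat_lit 5) (nat_lit 77) (nat_lit 3) (nat_lit 78) (nat_lit 5) (nat_lit 284) (nat_lit 283) (nat_lit 153)) (XT.lf (nat_lit 0) (nat_lit 49250526972) (nat_lit 684) (nat_lit 56193133320) (nat_lit 760) (nat_lit 16184388328) (nat_lit 69) (nat_lit 5) (nat_lit 78) (nat_lit 5) (nat_lit 79) (nat_lit 5) (nat_lit 285) (nat_lit 283) (nat_lit 152))) (XT.nd (nat_lit 78) (nat_lit 0) (nat_lit 76) (XT.lf (nat_lit 76) (nat_lit 27838650900) (nat_lit 0) (nat_lit 27972371838) (nat_lit 760) (nat_lit 70833853872) (nat_lit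 70) (nat_lit 5) (nat_lit 69) (nat_lit 5) (nat_lit 79) (nat_lit 5) (nat_lit 286) (nat_lit 283) (nat_lit 151)) (XT.lf (nat_lit 0) (nat_lit 64760199078) (nat_lit 684) (nat_lit 12300576098) (nat_lit 760) (nat_lit 54909085896) (nat_lit 70) (nat_lit 5) (nat_lit 79) (nat_lit 5) (nat_lit 80) (nat_lit 5) (nat_lit 287) (nat_lit 283) (nat_lit 150)))) (XT.nd (nat_lit 156) (nat_lit 912) (nat_lit 0) (XT.nd (nat_lit 78) (nat_lit 0) (nat_lit 0) (XT.lf (nat_lit 0) (nat_lit 76308458725) (nat_lit 684) (nat_lit 54423254932) (nat_lit 760) (nat_lit 6894975285) (nat_lit 71) (nat_lit 5) (nat_lit 80) (nat_lit 5) (nat_lit 81) (nat_lit 5) (nat_lit 288) (nat_lit 283) (nat_lit 149)) (XT.lf (nat_lit 76) (nat_lit 43139049214) (nat_lit 0) (nat_lit 47831669706) (nat_lit 760) (nat_lit 52655839085) (nat_lit 72) (nat_lit 5) (nat_lit 71) (nat_lit 5) (nat_lit 81) (nat_lit 5) (nat_lit 289) (nat_lit 283) (nat_lit 148))) (XT.nd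 (nat_lit 78) (nat_lit 988) (nat_lit 0) (XT.lf (nat_lit 0) (nat_lit 108420066713) (nat_lit 684) (nat_lit 276288822) (nat_lit 76) (nat_lit 41329357529) (nat_lit 72) (nat_lit 5) (nat_lit 81) (nat_lit 5) (nat_lit 73) (nat_lit 5) (nat_lit 290) (nat_lit 283) (nat_lit 147)) (XT.nd (nat_lit 78) (nat_lit 304) (nat_lit 0) (XT.lf (nat_lit 0) (nat_lit 110687579654) (nat_lit 684) (nat_lit 19111981015) (nat_lit 760) (nat_lit 27010531615) (nat_lit 63) (nat_lit 5) (nat_lit 72) (nat_lit 5) (nat_lit 73) (nat_lit 5) (nat_lit 291) (nat_lit 283) (nat_lit 146)) (XT.lf (nat_lit 0) (nat_lit 67344214314) (nat_lit 304) (nat_lit 87813243461) (nat_lit 380) (nat_lit 8866363439) (nat_lit 59) (nat_lit 5) (nat_lit 63) (nat_lit 5) (nat_lit 64) (nat_lit 5) (nat_lit 292) (nat_lit 283) (nat_lit 145)))))) (XT.nd (nat_lit 390) (nat_lit 988) (nat_lit 0) (XT.nd (nat_lit 156) (nat_lit 608) (nat_lit 0) (XT.nd (nat_lit 78) (nat_lit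 0) (nat_lit 0) (XT.lf (nat_lit 0) (nat_lit 11960795657) (nat_lit 456) (nat_lit 151965454905) (nat_lit 76) (nat_lit 7801280345) (nat_lit 53) (nat_lit 5) (nat_lit 59) (nat_lit 5) (nat_lit 54) (nat_lit 5) (nat_lit 293) (nat_lit 283) (nat_lit 144)) (XT.lf (nat_lit 0) (nat_lit 37339641570) (nat_lit 456) (nat_lit 32650064942) (nat_lit 76) (nat_lit 109890757206) (nat_lit 53) (nat_lit 5) (nat_lit 59) (nat_lit 5) (nat_lit 54) (nat_lit 5) (nat_lit 294) (nat_lit 283) (nat_lit 143))) (XT.nd (nat_lit 78) (nat_lit 304) (nat_lit 0) (XT.lf (nat_lit 0) (nat_lit 66816845873) (nat_lit 380) (nat_lit 89733397578) (nat_lit 76) (nat_lit 32031986339) (nat_lit 49) (nat_lit 5) (nat_lit 54) (nat_lit 5) (nat_lit 50) (nat_lit 5) (nat_lit 295) (nat_lit 283) (nat_lit 142)) (XT.nd (nat_lit 78) (nat_lit 0) (nat_lit 0) (XT.lf (nat_lit 0) (nat_lit 44310198857) (nat_lit 304) (nat_lit 56791705276) (nat_lit 380) (nat_lit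 96755750220) (nat_lit 45) (nat_lit 5) (nat_lit 49) (nat_lit 5) (nat_lit 50) (nat_lit 5) (nat_lit 296) (nat_lit 283) (nat_lit 141)) (XT.lf (nat_lit 0) (nat_lit 140513592602) (nat_lit 380) (nat_lit 16336772885) (nat_lit 76) (nat_lit 50905557122) (nat_lit 45) (nat_lit 5) (nat_lit 50) (nat_lit 5) (nat_lit 46) (nat_lit 5) (nat_lit 297) (nat_lit 283) (nat_lit 140))))) (XT.nd (nat_lit 156) (nat_lit 456) (nat_lit 0) (XT.nd (nat_lit 78) (nat_lit 304) (nat_lit 0) (XT.lf (nat_lit 0) (nat_lit 135220697638) (nat_lit 228) (nat_lit 50925998516) (nat_lit 304) (nat_lit 32145933102) (nat_lit 42) (nat_lit 5) (nat_lit 45) (nat_lit 5) (nat_lit 46) (nat_lit 5) (nat_lit 298) (nat_lit 283) (nat_lit 139)) (XT.lf (nat_lit 0) (nat_lit 8003187095) (nat_lit 304) (nat_lit 158573853778) (nat_lit 76) (nat_lit 62969271865) (nat_lit 38) (nat_lit 5) (nat_lit 42) (nat_lit 5) (nat_lit 39) (nat_lit 5) (nat_lit 299) (nat_lit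 283) (nat_lit 138))) (XT.nd (nat_lit 78) (nat_lit 456) (nat_lit 0) (XT.lf (nat_lit 0) (nat_lit 52582264995) (nat_lit 304) (nat_lit 2745886663) (nat_lit 76) (nat_lit 186228577623) (nat_lit 38) (nat_lit 5) (nat_lit 42) (nat_lit 5) (nat_lit 39) (nat_lit 5) (nat_lit 300) (nat_lit 283) (nat_lit 137)) (XT.nd (nat_lit 78) (nat_lit 228) (nat_lit 0) (XT.lf (nat_lit 0) (nat_lit 104453343381) (nat_lit 304) (nat_lit 84428536158) (nat_lit 76) (nat_lit 65459816600) (nat_lit 35) (nat_lit 5) (nat_lit 39) (nat_lit 5) (nat_lit 36) (nat_lit 5) (nat_lit 301) (nat_lit 283) (nat_lit 136)) (XT.lf (nat_lit 0) (nat_lit 90291773297) (nat_lit 228) (nat_lit 72573346784) (nat_lit 304) (nat_lit 105164790315) (nat_lit 32) (nat_lit 5) (nat_lit 35) (nat_lit 5) (nat_lit 36) (nat_lit 5) (nat_lit 302) (nat_lit 283) (nat_lit 135))))))) (XT.nd (nat_lit 780) (nat_lit 304) (nat_lit 0) (XT.nd (nat_lit 390) (nat_lit 532) (nat_lit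 0) (XT.nd (nat_lit 156) (nat_lit 380) (nat_lit 0) (XT.nd (nat_lit 78) (nat_lit 228) (nat_lit 0) (XT.lf (nat_lit 0) (nat_lit 228272507273) (nat_lit 304) (nat_lit 1587557236) (nat_lit 76) (nat_lit 52836984471) (nat_lit 32) (nat_lit 5) (nat_lit 36) (nat_lit 5) (nat_lit 33) (nat_lit 5) (nat_lit 303) (nat_lit 283) (nat_lit 134)) (XT.lf (nat_lit 0) (nat_lit 4679127367) (nat_lit 228) (nat_lit 104772331627) (nat_lit 76) (nat_lit 188869997475) (nat_lit 29) (nat_lit 5) (nat_lit 32) (nat_lit 5) (nat_lit 30) (nat_lit 5) (nat_lit 304) (nat_lit 283) (nat_lit 133))) (XT.nd (nat_lit 78) (nat_lit 152) (nat_lit 0) (XT.lf (nat_lit 0) (nat_lit 68441245446) (nat_lit 304) (nat_lit 224279489462) (nat_lit 76) (nat_lit 22338625547) (nat_lit 26) (nat_lit 5) (nat_lit 30) (nat_lit 5) (nat_lit 27) (nat_lit 5) (nat_lit 305) (nat_lit 283) (nat_lit 132)) (XT.nd (nat_lit 78) (nat_lit 152) (nat_lit 0) (XT.lf (nat_lit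 0) (nat_lit 141004671752) (nat_lit 304) (nat_lit 29203167466) (nat_lit 76) (nat_lit 162743441059) (nat_lit 26) (nat_lit 5) (nat_lit 30) (nat_lit 5) (nat_lit 27) (nat_lit 5) (nat_lit 306) (nat_lit 283) (nat_lit 131)) (XT.lf (nat_lit 0) (nat_lit 187479507434) (nat_lit 152) (nat_lit 34820561643) (nat_lit 228) (nat_lit 129828140185) (nat_lit 24) (nat_lit 5) (nat_lit 26) (nat_lit 5) (nat_lit 27) (nat_lit 5) (nat_lit 307) (nat_lit 283) (nat_lit 130))))) (XT.nd (nat_lit 156) (nat_lit 304) (nat_lit 0) (XT.nd (nat_lit 78) (nat_lit 76) (nat_lit 0) (XT.lf (nat_lit 0) (nat_lit 49564308165) (nat_lit 152) (nat_lit 263564722431) (nat_lit 228) (nat_lit 59558765739) (nat_lit 22) (nat_lit 5) (nat_lit 24) (nat_lit 5) (nat_lit 25) (nat_lit 5) (nat_lit 308) (nat_lit 283) (nat_lit 129)) (XT.lf (nat_lit 0) (nat_lit 19311488306) (nat_lit 228) (nat_lit 108844240887) (nat_lit 76) (nat_lit 266548568952) (nat_lit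 21) (nat_lit 5) (nat_lit 24) (nat_lit 5) (nat_lit 22) (nat_lit 5) (nat_lit 309) (nat_lit 283) (nat_lit 128))) (XT.nd (nat_lit 78) (nat_lit 152) (nat_lit 0) (XT.lf (nat_lit 0) (nat_lit 104724285605) (nat_lit 228) (nat_lit 293072268097) (nat_lit 76) (nat_lit 20520769460) (nat_lit 19) (nat_lit 5) (nat_lit 22) (nat_lit 5) (nat_lit 20) (nat_lit 5) (nat_lit 310) (nat_lit 283) (nat_lit 127)) (XT.nd (nat_lit 78) (nat_lit 152) (nat_lit 0) (XT.lf (nat_lit 0) (nat_lit 201057974747) (nat_lit 228) (nat_lit 63968560016) (nat_lit 76) (nat_lit 178588462309) (nat_lit 19) (nat_lit 5) (nat_lit 22) (nat_lit 5) (nat_lit 20) (nat_lit 5) (nat_lit 311) (nat_lit 283) (nat_lit 126)) (XT.lf (nat_lit 0) (nat_lit 189529349492) (nat_lit 152) (nat_lit 118527954941) (nat_lit 228) (nat_lit 162731233464) (nat_lit 17) (nat_lit 5) (nat_lit 19) (nat_lit 5) (nat_lit 20) (nat_lit 5) (nat_lit 312) (nat_lit 283) (nat_lit 125))))))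 (XT.nd (nat_lit 35256) (nat_lit 0) (nat_lit 4180) (XT.nd (nat_lit 156) (nat_lit 152) (nat_lit 0) (XT.nd (nat_lit 78) (nat_lit 152) (nat_lit 0) (XT.lf (nat_lit 0) (nat_lit 425368685666) (nat_lit 228) (nat_lit 35127020422) (nat_lit 76) (nat_lit 39552650897) (nat_lit 17) (nat_lit 5) (nat_lit 20) (nat_lit 5) (nat_lit 18) (nat_lit 4) (nat_lit 313) (nat_lit 283) (nat_lit 124)) (XT.lf (nat_lit 0) (nat_lit 25542941995) (nat_lit 152) (nat_lit 295517910050) (nat_lit 76) (nat_lit 210283153904) (nat_lit 15) (nat_lit 5) (nat_lit 17) (nat_lit 5) (nat_lit 16) (nat_lit 5) (nat_lit 314) (nat_lit 283) (nat_lit 123))) (XT.nd (nat_lit 78) (nat_lit 152) (nat_lit 0) (XT.lf (nat_lit 0) (nat_lit 131823733094) (nat_lit 152) (nat_lit 36672336764) (nat_lit 76) (nat_lit 396553185305) (nat_lit 15) (nat_lit 5) (nat_lit 17) (nat_lit 5) (nat_lit 16) (nat_lit 5) (nat_lit 315) (nat_lit 283) (nat_lit 122)) (XT.nd (nat_lit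 78) (nat_lit 0) (nat_lit 0) (XT.lf (nat_lit 0) (nat_lit 250530351989) (nat_lit 228) (nat_lit 350349666849) (nat_lit 76) (nat_lit 374737443) (nat_lit 13) (nat_lit 5) (nat_lit 16) (nat_lit 5) (nat_lit 14) (nat_lit 4) (nat_lit 316) (nat_lit 283) (nat_lit 121)) (XT.lf (nat_lit 0) (nat_lit 382223826752) (nat_lit 228) (nat_lit 80378289905) (nat_lit 76) (nat_lit 177580064690) (nat_lit 13) (nat_lit 5) (nat_lit 16) (nat_lit 5) (nat_lit 14) (nat_lit 4) (nat_lit 317) (nat_lit 283) (nat_lit 120))))) (XT.nd (nat_lit 156) (nat_lit 0) (nat_lit 76) (XT.nd (nat_lit 78) (nat_lit 0) (nat_lit 0) (XT.lf (nat_lit 0) (nat_lit 11403298932) (nat_lit 0) (nat_lit 11403298932) (nat_lit 684) (nat_lit 37915065228) (nat_lit 68) (nat_lit 5) (nat_lit 68) (nat_lit 3) (nat_lit 77) (nat_lit 3) (nat_lit 284) (nat_lit 284) (nat_lit 152)) (XT.lf (nat_lit 0) (nat_lit 48409266916) (nat_lit 684) (nat_lit 18000683003) (nat_lit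 760) (nat_lit 59842509369) (nat_lit 68) (nat_lit 5) (nat_lit 77) (nat_lit 3) (nat_lit 78) (nat_lit 5) (nat_lit 285) (nat_lit 284) (nat_lit 151))) (XT.nd (nat_lit 78) (nat_lit 0) (nat_lit 0) (XT.lf (nat_lit 0) (nat_lit 53202881323) (nat_lit 684) (nat_lit 60680659589) (nat_lit 760) (nat_lit 17474091530) (nat_lit 69) (nat_lit 5) (nat_lit 78) (nat_lit 5) (nat_lit 79) (nat_lit 5) (nat_lit 286) (nat_lit 284) (nat_lit 150)) (XT.nd (nat_lit 78) (nat_lit 0) (nat_lit 76) (XT.lf (nat_lit 76) (nat_lit 30073322984) (nat_lit 0) (nat_lit 30214100097) (nat_lit 760) (nat_lit 76488426566) (nat_lit 70) (nat_lit 5) (nat_lit 69) (nat_lit 5) (nat_lit 79) (nat_lit 5) (nat_lit 287) (nat_lit 284) (nat_lit 149)) (XT.lf (nat_lit 0) (nat_lit 69951623368) (nat_lit 684) (nat_lit 13276975339) (nat_lit 760) (nat_lit 59298282717) (nat_lit 70) (nat_lit 5) (nat_lit 79) (nat_lit 5) (nat_lit 80) (nat_lit 5) (nat_lit 288)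 (nat_lit 284) (nat_lit 148))))))))
noncomputable def xc118 : XT := (XT.nd (nat_lit 1482) (nat_lit 988) (nat_lit 0) (XT.nd (nat_lit 702) (nat_lit 1444) (nat_lit 0) (XT.nd (nat_lit 312) (nat_lit 1368) (nat_lit 0) (XT.nd (nat_lit 156) (nat_lit 608) (nat_lit 0) (XT.nd (nat_lit 78) (nat_lit 0) (nat_lit 0) (XT.lf (nat_lit 0) (nat_lit 82423031242) (nat_lit 684) (nat_lit 58769227732) (nat_lit 760) (nat_lit 7444035000) (nat_lit 71) (nat_lit 5) (nat_lit 80) (nat_lit 5) (nat_lit 81) (nat_lit 5) (nat_lit 289) (nat_lit 284) (nat_lit 147)) (XT.lf (nat_lit 76) (nat_lit 46597717961) (nat_lit 0) (nat_lit 51659939063) (nat_lit 760) (nat_lit 56858528914) (nat_lit 72) (nat_lit 5) (nat_lit 71) (nat_lit 5) (nat_lit 81) (nat_lit 5) (nat_lit 290) (nat_lit 284) (nat_lit 146))) (XT.nd (nat_lit 78) (nat_lit 684) (nat_lit 0) (XT.lf (nat_lit 0) (nat_lit 117102240097) (nat_lit 684) (nat_lit 290920985) (nat_lit 76)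 (nat_lit 44634150367) (nat_lit 72) (nat_lit 5) (nat_lit 81) (nat_lit 5) (nat_lit 73) (nat_lit 5) (nat_lit 291) (nat_lit 284) (nat_lit 145)) (XT.lf (nat_lit 0) (nat_lit 119549732291) (nat_lit 684) (nat_lit 20641838182) (nat_lit 760) (nat_lit 29162898931) (nat_lit 63) (nat_lit 5) (nat_lit 72) (nat_lit 5) (nat_lit 73) (nat_lit 5) (nat_lit 292) (nat_lit 284) (nat_lit 144)))) (XT.nd (nat_lit 156) (nat_lit 608) (nat_lit 0) (XT.nd (nat_lit 78) (nat_lit 456) (nat_lit 0) (XT.lf (nat_lit 0) (nat_lit 72739012142) (nat_lit 304) (nat_lit 94838591651) (nat_lit 380) (nat_lit 9567719708) (nat_lit 59) (nat_lit 5) (nat_lit 63) (nat_lit 5) (nat_lit 64) (nat_lit 5) (nat_lit 293) (nat_lit 284) (nat_lit 143)) (XT.lf (nat_lit 0) (nat_lit 12924899494) (nat_lit 456) (nat_lit 164115093697) (nat_lit 76) (nat_lit 8425355304) (nat_lit 53) (nat_lit 5) (nat_lit 59) (nat_lit 5) (nat_lit 54) (nat_lit 5) (nat_lit 294)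 (nat_lit 284) (nat_lit 142))) (XT.nd (nat_lit 78) (nat_lit 608) (nat_lit 0) (XT.lf (nat_lit 0) (nat_lit 40333516771) (nat_lit 456) (nat_lit 35255035321) (nat_lit 76) (nat_lit 118681992349) (nat_lit 53) (nat_lit 5) (nat_lit 59) (nat_lit 5) (nat_lit 54) (nat_lit 5) (nat_lit 295) (nat_lit 284) (nat_lit 141)) (XT.nd (nat_lit 78) (nat_lit 304) (nat_lit 0) (XT.lf (nat_lit 0) (nat_lit 72168512401) (nat_lit 380) (nat_lit 96905011570) (nat_lit 76) (nat_lit 34594948648) (nat_lit 49) (nat_lit 5) (nat_lit 54) (nat_lit 5) (nat_lit 50) (nat_lit 5) (nat_lit 296) (nat_lit 284) (nat_lit 140)) (XT.lf (nat_lit 0) (nat_lit 47861765856) (nat_lit 304) (nat_lit 61334246806) (nat_lit 380) (nat_lit 104489938071) (nat_lit 45) (nat_lit 5) (nat_lit 49) (nat_lit 5) (nat_lit 50) (nat_lit 5) (nat_lit 297) (nat_lit 284) (nat_lit 139)))))) (XT.nd (nat_lit 390) (nat_lit 684) (nat_lit 0) (XT.nd (nat_lit 156) (nat_lit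 532) (nat_lit 0) (XT.nd (nat_lit 78) (nat_lit 228) (nat_lit 0) (XT.lf (nat_lit 0) (nat_lit 151760206500) (nat_lit 380) (nat_lit 17637182633) (nat_lit 76) (nat_lit 54978714146) (nat_lit 45) (nat_lit 5) (nat_lit 50) (nat_lit 5) (nat_lit 46) (nat_lit 5) (nat_lit 298) (nat_lit 284) (nat_lit 138)) (XT.lf (nat_lit 0) (nat_lit 146044601655) (nat_lit 228) (nat_lit 54999044863) (nat_lit 304) (nat_lit 34712116776) (nat_lit 42) (nat_lit 5) (nat_lit 45) (nat_lit 5) (nat_lit 46) (nat_lit 5) (nat_lit 299) (nat_lit 284) (nat_lit 137))) (XT.nd (nat_lit 78) (nat_lit 228) (nat_lit 0) (XT.lf (nat_lit 0) (nat_lit 8648477548) (nat_lit 304) (nat_lit 171253356329) (nat_lit 76) (nat_lit 68007918377) (nat_lit 38) (nat_lit 5) (nat_lit 42) (nat_lit 5) (nat_lit 39) (nat_lit 5) (nat_lit 300) (nat_lit 284) (nat_lit 136)) (XT.nd (nat_lit 78) (nat_lit 228) (nat_lit 0) (XT.lf (nat_lit 0) (nat_lit 56793508681) (nat_lit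 304) (nat_lit 2959626345) (nat_lit 76) (nat_lit 201127886761) (nat_lit 38) (nat_lit 5) (nat_lit 42) (nat_lit 5) (nat_lit 39) (nat_lit 5) (nat_lit 301) (nat_lit 284) (nat_lit 135)) (XT.lf (nat_lit 0) (nat_lit 112814036342) (nat_lit 304) (nat_lit 91176933303) (nat_lit 76) (nat_lit 70697829141) (nat_lit 35) (nat_lit 5) (nat_lit 39) (nat_lit 5) (nat_lit 36) (nat_lit 5) (nat_lit 302) (nat_lit 284) (nat_lit 134))))) (XT.nd (nat_lit 156) (nat_lit 456) (nat_lit 0) (XT.nd (nat_lit 78) (nat_lit 0) (nat_lit 0) (XT.lf (nat_lit 0) (nat_lit 97520745122) (nat_lit 228) (nat_lit 78377770141) (nat_lit 304) (nat_lit 113573567788) (nat_lit 32) (nat_lit 5) (nat_lit 35) (nat_lit 5) (nat_lit 36) (nat_lit 5) (nat_lit 303) (nat_lit 284) (nat_lit 133)) (XT.lf (nat_lit 0) (nat_lit 246538204268) (nat_lit 304) (nat_lit 1709165901) (nat_lit 76) (nat_lit 57065237817) (nat_lit 32) (nat_lit 5) (nat_lit 36) (nat_lit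 5) (nat_lit 33) (nat_lit 5) (nat_lit 304) (nat_lit 284) (nat_lit 132))) (XT.nd (nat_lit 78) (nat_lit 228) (nat_lit 0) (XT.lf (nat_lit 0) (nat_lit 5057215441) (nat_lit 228) (nat_lit 113148823591) (nat_lit 76) (nat_lit 203980937161) (nat_lit 29) (nat_lit 5) (nat_lit 32) (nat_lit 5) (nat_lit 30) (nat_lit 5) (nat_lit 305) (nat_lit 284) (nat_lit 131)) (XT.nd (nat_lit 78) (nat_lit 0) (nat_lit 0) (XT.lf (nat_lit 0) (nat_lit 73920127185) (nat_lit 304) (nat_lit 242216621491) (nat_lit 76) (nat_lit 24127173270) (nat_lit 26) (nat_lit 5) (nat_lit 30) (nat_lit 5) (nat_lit 27) (nat_lit 5) (nat_lit 306) (nat_lit 284) (nat_lit 130)) (XT.lf (nat_lit 0) (nat_lit 152288362255) (nat_lit 304) (nat_lit 31534580929) (nat_lit 76) (nat_lit 175764266048) (nat_lit 26) (nat_lit 5) (nat_lit 30) (nat_lit 5) (nat_lit 27) (nat_lit 5) (nat_lit 307) (nat_lit 284) (nat_lit 129))))))) (XT.nd (nat_lit 35802) (nat_lit 0)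 (nat_lit 3040) (XT.nd (nat_lit 390) (nat_lit 456) (nat_lit 0) (XT.nd (nat_lit 156) (nat_lit 228) (nat_lit 0) (XT.nd (nat_lit 78) (nat_lit 152) (nat_lit 0) (XT.lf (nat_lit 0) (nat_lit 202482497625) (nat_lit 152) (nat_lit 37604720336) (nat_lit 228) (nat_lit 140211083810) (nat_lit 24) (nat_lit 5) (nat_lit 26) (nat_lit 5) (nat_lit 27) (nat_lit 5) (nat_lit 308) (nat_lit 284) (nat_lit 128)) (XT.lf (nat_lit 0) (nat_lit 53534016117) (nat_lit 152) (nat_lit 284648340175) (nat_lit 228) (nat_lit 64320307047) (nat_lit 22) (nat_lit 5) (nat_lit 24) (nat_lit 5) (nat_lit 25) (nat_lit 5) (nat_lit 309) (nat_lit 284) (nat_lit 127))) (XT.nd (nat_lit 78) (nat_lit 152) (nat_lit 0) (XT.lf (nat_lit 0) (nat_lit 20859239605) (nat_lit 228) (nat_lit 117547455467) (nat_lit 76) (nat_lit 287873799545) (nat_lit 21) (nat_lit 5) (nat_lit 24) (nat_lit 5) (nat_lit 22) (nat_lit 5) (nat_lit 310) (nat_lit 284) (nat_lit 126))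 (XT.nd (nat_lit 78) (nat_lit 0) (nat_lit 0) (XT.lf (nat_lit 0) (nat_lit 113104938112) (nat_lit 228) (nat_lit 316513795742) (nat_lit 76) (nat_lit 22163834336) (nat_lit 19) (nat_lit 5) (nat_lit 22) (nat_lit 5) (nat_lit 20) (nat_lit 5) (nat_lit 311) (nat_lit 284) (nat_lit 125)) (XT.lf (nat_lit 0) (nat_lit 217145121670) (nat_lit 228) (nat_lit 69082106111) (nat_lit 76) (nat_lit 192876838663) (nat_lit 19) (nat_lit 5) (nat_lit 22) (nat_lit 5) (nat_lit 20) (nat_lit 5) (nat_lit 312) (nat_lit 284) (nat_lit 124))))) (XT.nd (nat_lit 156) (nat_lit 304) (nat_lit 0) (XT.nd (nat_lit 78) (nat_lit 0) (nat_lit 0) (XT.lf (nat_lit 0) (nat_lit 204695464986) (nat_lit 152) (nat_lit 128008805719) (nat_lit 228) (nat_lit 175747226549) (nat_lit 17) (nat_lit 5) (nat_lit 19) (nat_lit 5) (nat_lit 20) (nat_lit 5) (nat_lit 313) (nat_lit 284) (nat_lit 123)) (XT.lf (nat_lit 0) (nat_lit 459400406029) (nat_lit 228) (nat_lit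 37933599115) (nat_lit 76) (nat_lit 42718104884) (nat_lit 17) (nat_lit 5) (nat_lit 20) (nat_lit 5) (nat_lit 18) (nat_lit 4) (nat_lit 314) (nat_lit 284) (nat_lit 122))) (XT.nd (nat_lit 156) (nat_lit 152) (nat_lit 0) (XT.lf (nat_lit 0) (nat_lit 27588529980) (nat_lit 152) (nat_lit 319155840710) (nat_lit 76) (nat_lit 227107044367) (nat_lit 15) (nat_lit 5) (nat_lit 17) (nat_lit 5) (nat_lit 16) (nat_lit 5) (nat_lit 315) (nat_lit 284) (nat_lit 121)) (XT.nd (nat_lit 35022) (nat_lit 0) (nat_lit 4180) (XT.lf (nat_lit 0) (nat_lit 270574692962) (nat_lit 228) (nat_lit 378374459350) (nat_lit 76) (nat_lit 405885625) (nat_lit 13) (nat_lit 5) (nat_lit 16) (nat_lit 5) (nat_lit 14) (nat_lit 4) (nat_lit 317) (nat_lit 284) (nat_lit 119)) (XT.lf (nat_lit 0) (nat_lit 12318657386) (nat_lit 0) (nat_lit 12318657386) (nat_lit 684) (nat_lit 40941749685) (nat_lit 68) (nat_lit 5) (nat_lit 68) (nat_lit 3) (nat_lit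 77) (nat_lit 3) (nat_lit 285) (nat_lit 285) (nat_lit 150)))))) (XT.nd (nat_lit 390) (nat_lit 1140) (nat_lit 0) (XT.nd (nat_lit 156) (nat_lit 0) (nat_lit 76) (XT.nd (nat_lit 78) (nat_lit 0) (nat_lit 76) (XT.lf (nat_lit 0) (nat_lit 52293380055) (nat_lit 684) (nat_lit 19434303316) (nat_lit 760) (nat_lit 64624362906) (nat_lit 68) (nat_lit 5) (nat_lit 77) (nat_lit 3) (nat_lit 78) (nat_lit 5) (nat_lit 286) (nat_lit 285) (nat_lit 149)) (XT.lf (nat_lit 0) (nat_lit 57469667550) (nat_lit 684) (nat_lit 65528318463) (nat_lit 760) (nat_lit 18867691123) (nat_lit 69) (nat_lit 5) (nat_lit 78) (nat_lit 5) (nat_lit 79) (nat_lit 5) (nat_lit 287) (nat_lit 285) (nat_lit 148))) (XT.nd (nat_lit 78) (nat_lit 0) (nat_lit 76) (XT.lf (nat_lit 76) (nat_lit 32485687462) (nat_lit 0) (nat_lit 32634604743) (nat_lit 760) (nat_lit 82597096358) (nat_lit 70) (nat_lit 5) (nat_lit 69) (nat_lit 5) (nat_lit 79) (nat_lit 5)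 (nat_lit 288) (nat_lit 285) (nat_lit 147)) (XT.nd (nat_lit 78) (nat_lit 0) (nat_lit 76) (XT.lf (nat_lit 0) (nat_lit 75556848200) (nat_lit 684) (nat_lit 14332577427) (nat_lit 760) (nat_lit 64039118885) (nat_lit 70) (nat_lit 5) (nat_lit 79) (nat_lit 5) (nat_lit 80) (nat_lit 5) (nat_lit 289) (nat_lit 285) (nat_lit 146)) (XT.lf (nat_lit 0) (nat_lit 89025357811) (nat_lit 684) (nat_lit 63464003609) (nat_lit 760) (nat_lit 8037381611) (nat_lit 71) (nat_lit 5) (nat_lit 80) (nat_lit 5) (nat_lit 81) (nat_lit 5) (nat_lit 290) (nat_lit 285) (nat_lit 145))))) (XT.nd (nat_lit 156) (nat_lit 1368) (nat_lit 0) (XT.nd (nat_lit 78) (nat_lit 0) (nat_lit 76) (XT.lf (nat_lit 76) (nat_lit 50332003856) (nat_lit 0) (nat_lit 55794222341) (nat_lit 760) (nat_lit 61398828769) (nat_lit 72) (nat_lit 5) (nat_lit 71) (nat_lit 5) (nat_lit 81) (nat_lit 5) (nat_lit 291) (nat_lit 285) (nat_lit 144)) (XT.lf (nat_lit 0) (nat_lit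 126477765023) (nat_lit 684) (nat_lit 307789535) (nat_lit 76) (nat_lit 48203548580) (nat_lit 72) (nat_lit 5) (nat_lit 81) (nat_lit 5) (nat_lit 73) (nat_lit 5) (nat_lit 292) (nat_lit 285) (nat_lit 143))) (XT.nd (nat_lit 78) (nat_lit 760) (nat_lit 0) (XT.lf (nat_lit 0) (nat_lit 129119837644) (nat_lit 684) (nat_lit 22293955715) (nat_lit 760) (nat_lit 31488664716) (nat_lit 63) (nat_lit 5) (nat_lit 72) (nat_lit 5) (nat_lit 73) (nat_lit 5) (nat_lit 293) (nat_lit 285) (nat_lit 142)) (XT.nd (nat_lit 78) (nat_lit 456) (nat_lit 0) (XT.lf (nat_lit 0) (nat_lit 78564357978) (nat_lit 304) (nat_lit 102425926508) (nat_lit 380) (nat_lit 10326319035) (nat_lit 59) (nat_lit 5) (nat_lit 63) (nat_lit 5) (nat_lit 64) (nat_lit 5) (nat_lit 294) (nat_lit 285) (nat_lit 141)) (XT.lf (nat_lit 0) (nat_lit 13965098745) (nat_lit 456) (nat_lit 177237787474) (nat_lit 76) (nat_lit 9099360179) (nat_lit 53) (nat_lit 5) (nat_lit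 59) (nat_lit 5) (nat_lit 54) (nat_lit 5) (nat_lit 295) (nat_lit 285) (nat_lit 140))))))))
noncomputable def xc119 : XT := (XT.nd (nat_lit 1482) (nat_lit 152) (nat_lit 0) (XT.nd (nat_lit 702) (nat_lit 1140) (nat_lit 0) (XT.nd (nat_lit 312) (nat_lit 988) (nat_lit 0) (XT.nd (nat_lit 156) (nat_lit 304) (nat_lit 0) (XT.nd (nat_lit 78) (nat_lit 304) (nat_lit 0) (XT.lf (nat_lit 0) (nat_lit 43565945605) (nat_lit 456) (nat_lit 38069406926) (nat_lit 76) (nat_lit 128176529931) (nat_lit 53) (nat_lit 5) (nat_lit 59) (nat_lit 5) (nat_lit 54) (nat_lit 5) (nat_lit 296) (nat_lit 285) (nat_lit 139)) (XT.lf (nat_lit 0) (nat_lit 77947410795) (nat_lit 380) (nat_lit 104651361557) (nat_lit 76) (nat_lit 37362890392) (nat_lit 49) (nat_lit 5) (nat_lit 54) (nat_lit 5) (nat_lit 50) (nat_lit 5) (nat_lit 297) (nat_lit 285) (nat_lit 138))) (XT.nd (nat_lit 78) (nat_lit 0) (nat_lit 0) (XT.lf (nat_lit 0) (nat_lit 51696495097)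 (nat_lit 304) (nat_lit 66240305058) (nat_lit 380) (nat_lit 112843755744) (nat_lit 45) (nat_lit 5) (nat_lit 49) (nat_lit 5) (nat_lit 50) (nat_lit 5) (nat_lit 298) (nat_lit 285) (nat_lit 137)) (XT.lf (nat_lit 0) (nat_lit 163905761094) (nat_lit 380) (nat_lit 19042557036) (nat_lit 76) (nat_lit 59377622093) (nat_lit 45) (nat_lit 5) (nat_lit 50) (nat_lit 5) (nat_lit 46) (nat_lit 5) (nat_lit 299) (nat_lit 285) (nat_lit 136)))) (XT.nd (nat_lit 156) (nat_lit 456) (nat_lit 0) (XT.nd (nat_lit 78) (nat_lit 304) (nat_lit 0) (XT.lf (nat_lit 0) (nat_lit 157733526618) (nat_lit 228) (nat_lit 59398082363) (nat_lit 304) (nat_lit 37484378493) (nat_lit 42) (nat_lit 5) (nat_lit 45) (nat_lit 5) (nat_lit 46) (nat_lit 5) (nat_lit 300) (nat_lit 285) (nat_lit 135)) (XT.lf (nat_lit 0) (nat_lit 9344672869) (nat_lit 304) (nat_lit 184948132936) (nat_lit 76) (nat_lit 73449499003) (nat_lit 38) (nat_lit 5) (nat_lit 42)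 (nat_lit 5) (nat_lit 39) (nat_lit 5) (nat_lit 301) (nat_lit 285) (nat_lit 134))) (XT.nd (nat_lit 78) (nat_lit 456) (nat_lit 0) (XT.lf (nat_lit 0) (nat_lit 61340986707) (nat_lit 304) (nat_lit 3191311360) (nat_lit 76) (nat_lit 217218994699) (nat_lit 38) (nat_lit 5) (nat_lit 42) (nat_lit 5) (nat_lit 39) (nat_lit 5) (nat_lit 302) (nat_lit 285) (nat_lit 133)) (XT.nd (nat_lit 78) (nat_lit 228) (nat_lit 0) (XT.lf (nat_lit 0) (nat_lit 121842953393) (nat_lit 304) (nat_lit 98466041887) (nat_lit 76) (nat_lit 76354707610) (nat_lit 35) (nat_lit 5) (nat_lit 39) (nat_lit 5) (nat_lit 36) (nat_lit 5) (nat_lit 303) (nat_lit 285) (nat_lit 132)) (XT.lf (nat_lit 0) (nat_lit 105327231515) (nat_lit 228) (nat_lit 84646753425) (nat_lit 304) (nat_lit 122655675988) (nat_lit 32) (nat_lit 5) (nat_lit 35) (nat_lit 5) (nat_lit 36) (nat_lit 5) (nat_lit 304) (nat_lit 285) (nat_lit 131)))))) (XT.nd (nat_lit 390) (nat_lit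 532) (nat_lit 0) (XT.nd (nat_lit 156) (nat_lit 380) (nat_lit 0) (XT.nd (nat_lit 78) (nat_lit 228) (nat_lit 0) (XT.lf (nat_lit 0) (nat_lit 266264601155) (nat_lit 304) (nat_lit 1841273047) (nat_lit 76) (nat_lit 61631566743) (nat_lit 32) (nat_lit 5) (nat_lit 36) (nat_lit 5) (nat_lit 33) (nat_lit 5) (nat_lit 305) (nat_lit 285) (nat_lit 130)) (XT.lf (nat_lit 0) (nat_lit 5465014456) (nat_lit 228) (nat_lit 122196190242) (nat_lit 76) (nat_lit 220300560872) (nat_lit 29) (nat_lit 5) (nat_lit 32) (nat_lit 5) (nat_lit 30) (nat_lit 5) (nat_lit 306) (nat_lit 285) (nat_lit 129))) (XT.nd (nat_lit 78) (nat_lit 152) (nat_lit 0) (XT.lf (nat_lit 0) (nat_lit 79836808437) (nat_lit 304) (nat_lit 261589469790) (nat_lit 76) (nat_lit 26058596857) (nat_lit 26) (nat_lit 5) (nat_lit 30) (nat_lit 5) (nat_lit 27) (nat_lit 5) (nat_lit 307) (nat_lit 285) (nat_lit 128)) (XT.nd (nat_lit 78) (nat_lit 152) (nat_lit 0) (XT.lf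 (nat_lit 0) (nat_lit 164474274824) (nat_lit 304) (nat_lit 34053197941) (nat_lit 76) (nat_lit 189826564485) (nat_lit 26) (nat_lit 5) (nat_lit 30) (nat_lit 5) (nat_lit 27) (nat_lit 5) (nat_lit 308) (nat_lit 285) (nat_lit 127)) (XT.lf (nat_lit 0) (nat_lit 218685066567) (nat_lit 152) (nat_lit 40611823753) (nat_lit 228) (nat_lit 151425134790) (nat_lit 24) (nat_lit 5) (nat_lit 26) (nat_lit 5) (nat_lit 27) (nat_lit 5) (nat_lit 309) (nat_lit 285) (nat_lit 126))))) (XT.nd (nat_lit 156) (nat_lit 304) (nat_lit 0) (XT.nd (nat_lit 78) (nat_lit 76) (nat_lit 0) (XT.lf (nat_lit 0) (nat_lit 57820649699) (nat_lit 152) (nat_lit 307418869897) (nat_lit 228) (nat_lit 69463222463) (nat_lit 22) (nat_lit 5) (nat_lit 24) (nat_lit 5) (nat_lit 25) (nat_lit 5) (nat_lit 310) (nat_lit 285) (nat_lit 125)) (XT.lf (nat_lit 0) (nat_lit 22530406957) (nat_lit 228) (nat_lit 126947544180) (nat_lit 76) (nat_lit 310904856696)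 (nat_lit 21) (nat_lit 5) (nat_lit 24) (nat_lit 5) (nat_lit 22) (nat_lit 5) (nat_lit 311) (nat_lit 285) (nat_lit 124))) (XT.nd (nat_lit 78) (nat_lit 152) (nat_lit 0) (XT.lf (nat_lit 0) (nat_lit 122155656257) (nat_lit 228) (nat_lit 341831252452) (nat_lit 76) (nat_lit 23938144203) (nat_lit 19) (nat_lit 5) (nat_lit 22) (nat_lit 5) (nat_lit 20) (nat_lit 5) (nat_lit 312) (nat_lit 285) (nat_lit 123)) (XT.nd (nat_lit 78) (nat_lit 152) (nat_lit 0) (XT.lf (nat_lit 0) (nat_lit 234518882419) (nat_lit 228) (nat_lit 74605297795) (nat_lit 76) (nat_lit 208308099757) (nat_lit 19) (nat_lit 5) (nat_lit 22) (nat_lit 5) (nat_lit 20) (nat_lit 5) (nat_lit 313) (nat_lit 285) (nat_lit 122)) (XT.lf (nat_lit 0) (nat_lit 221074332239) (nat_lit 152) (nat_lit 138248322234) (nat_lit 228) (nat_lit 189804856531) (nat_lit 17) (nat_lit 5) (nat_lit 19) (nat_lit 5) (nat_lit 20) (nat_lit 5) (nat_lit 314) (nat_lit 285) (nat_lit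 121))))))) (XT.nd (nat_lit 35880) (nat_lit 0) (nat_lit 1748) (XT.nd (nat_lit 35490) (nat_lit 0) (nat_lit 4104) (XT.nd (nat_lit 35256) (nat_lit 0) (nat_lit 4028) (XT.nd (nat_lit 156) (nat_lit 152) (nat_lit 0) (XT.lf (nat_lit 0) (nat_lit 496154346528) (nat_lit 228) (nat_lit 40965215250) (nat_lit 76) (nat_lit 46136618016) (nat_lit 17) (nat_lit 5) (nat_lit 20) (nat_lit 5) (nat_lit 18) (nat_lit 4) (nat_lit 315) (nat_lit 285) (nat_lit 120)) (XT.lf (nat_lit 0) (nat_lit 153763063729) (nat_lit 152) (nat_lit 42768331342) (nat_lit 76) (nat_lit 462541856373) (nat_lit 15) (nat_lit 5) (nat_lit 17) (nat_lit 5) (nat_lit 16) (nat_lit 5) (nat_lit 317) (nat_lit 285) (nat_lit 118))) (XT.nd (nat_lit 78) (nat_lit 0) (nat_lit 0) (XT.lf (nat_lit 0) (nat_lit 13306803045) (nat_lit 0) (nat_lit 13306803045) (nat_lit 684) (nat_lit 44211499158) (nat_lit 68) (nat_lit 5) (nat_lit 68) (nat_lit 3) (nat_lit 77) (nat_lit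 3) (nat_lit 286) (nat_lit 286) (nat_lit 148)) (XT.nd (nat_lit 78) (nat_lit 0) (nat_lit 76) (XT.lf (nat_lit 0) (nat_lit 56486599933) (nat_lit 684) (nat_lit 20983531183) (nat_lit 760) (nat_lit 69789556098) (nat_lit 68) (nat_lit 5) (nat_lit 77) (nat_lit 3) (nat_lit 78) (nat_lit 5) (nat_lit 287) (nat_lit 286) (nat_lit 147)) (XT.lf (nat_lit 0) (nat_lit 62076290783) (nat_lit 684) (nat_lit 70764759271) (nat_lit 760) (nat_lit 20373396082) (nat_lit 69) (nat_lit 5) (nat_lit 78) (nat_lit 5) (nat_lit 79) (nat_lit 5) (nat_lit 288) (nat_lit 286) (nat_lit 146))))) (XT.nd (nat_lit 156) (nat_lit 0) (nat_lit 152) (XT.nd (nat_lit 78) (nat_lit 0) (nat_lit 76) (XT.lf (nat_lit 76) (nat_lit 35090113994) (nat_lit 0) (nat_lit 35248268047) (nat_lit 760) (nat_lit 89195944027) (nat_lit 70) (nat_lit 5) (nat_lit 69) (nat_lit 5) (nat_lit 79) (nat_lit 5) (nat_lit 289) (nat_lit 286) (nat_lit 145)) (XT.lf (nat_lit 0)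 (nat_lit 81609193520) (nat_lit 684) (nat_lit 15473562961) (nat_lit 760) (nat_lit 69159653704) (nat_lit 70) (nat_lit 5) (nat_lit 79) (nat_lit 5) (nat_lit 80) (nat_lit 5) (nat_lit 290) (nat_lit 286) (nat_lit 144))) (XT.nd (nat_lit 78) (nat_lit 0) (nat_lit 0) (XT.lf (nat_lit 0) (nat_lit 96154660158) (nat_lit 684) (nat_lit 68535326280) (nat_lit 760) (nat_lit 8678506409) (nat_lit 71) (nat_lit 5) (nat_lit 80) (nat_lit 5) (nat_lit 81) (nat_lit 5) (nat_lit 291) (nat_lit 286) (nat_lit 143)) (XT.nd (nat_lit 78) (nat_lit 0) (nat_lit 76) (XT.lf (nat_lit 76) (nat_lit 54364109825) (nat_lit 0) (nat_lit 60259035979) (nat_lit 760) (nat_lit 66303548465) (nat_lit 72) (nat_lit 5) (nat_lit 71) (nat_lit 5) (nat_lit 81) (nat_lit 5) (nat_lit 292) (nat_lit 286) (nat_lit 142)) (XT.lf (nat_lit 0) (nat_lit 136602283995) (nat_lit 684) (nat_lit 326921333) (nat_lit 76) (nat_lit 52058688933) (nat_lit 72) (nat_lit 5)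 (nat_lit 81) (nat_lit 5) (nat_lit 73) (nat_lit 5) (nat_lit 293) (nat_lit 286) (nat_lit 141)))))) (XT.nd (nat_lit 390) (nat_lit 836) (nat_lit 0) (XT.nd (nat_lit 156) (nat_lit 760) (nat_lit 0) (XT.nd (nat_lit 78) (nat_lit 304) (nat_lit 0) (XT.lf (nat_lit 0) (nat_lit 139454677373) (nat_lit 684) (nat_lit 24078132733) (nat_lit 760) (nat_lit 34001528359) (nat_lit 63) (nat_lit 5) (nat_lit 72) (nat_lit 5) (nat_lit 73) (nat_lit 5) (nat_lit 294) (nat_lit 286) (nat_lit 140)) (XT.lf (nat_lit 0) (nat_lit 84854843435) (nat_lit 304) (nat_lit 110620212841) (nat_lit 380) (nat_lit 11146579008) (nat_lit 59) (nat_lit 5) (nat_lit 63) (nat_lit 5) (nat_lit 64) (nat_lit 5) (nat_lit 295) (nat_lit 286) (nat_lit 139))) (XT.nd (nat_lit 78) (nat_lit 304) (nat_lit 0) (XT.lf (nat_lit 0) (nat_lit 15087628397) (nat_lit 456) (nat_lit 191411226008) (nat_lit 76) (nat_lit 9827288803) (nat_lit 53) (nat_lit 5) (nat_lit 59)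 (nat_lit 5) (nat_lit 54) (nat_lit 5) (nat_lit 296) (nat_lit 286) (nat_lit 138)) (XT.nd (nat_lit 78) (nat_lit 304) (nat_lit 0) (XT.lf (nat_lit 0) (nat_lit 47056148802) (nat_lit 456) (nat_lit 41109788680) (nat_lit 76) (nat_lit 138430633631) (nat_lit 53) (nat_lit 5) (nat_lit 59) (nat_lit 5) (nat_lit 54) (nat_lit 5) (nat_lit 297) (nat_lit 286) (nat_lit 137)) (XT.lf (nat_lit 0) (nat_lit 84187848208) (nat_lit 380) (nat_lit 113018282777) (nat_lit 76) (nat_lit 40352218135) (nat_lit 49) (nat_lit 5) (nat_lit 54) (nat_lit 5) (nat_lit 50) (nat_lit 5) (nat_lit 298) (nat_lit 286) (nat_lit 136))))) (XT.nd (nat_lit 156) (nat_lit 532) (nat_lit 0) (XT.nd (nat_lit 78) (nat_lit 0) (nat_lit 0) (XT.lf (nat_lit 0) (nat_lit 55837176957) (nat_lit 304) (nat_lit 71538945193) (nat_lit 380) (nat_lit 121866645973) (nat_lit 45) (nat_lit 5) (nat_lit 49) (nat_lit 5) (nat_lit 50) (nat_lit 5) (nat_lit 299) (nat_lit 286)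 (nat_lit 135)) (XT.lf (nat_lit 0) (nat_lit 177022284116) (nat_lit 380) (nat_lit 20561160323) (nat_lit 76) (nat_lit 64128355536) (nat_lit 45) (nat_lit 5) (nat_lit 50) (nat_lit 5) (nat_lit 46) (nat_lit 5) (nat_lit 300) (nat_lit 286) (nat_lit 134))) (XT.nd (nat_lit 78) (nat_lit 304) (nat_lit 0) (XT.lf (nat_lit 0) (nat_lit 170356801365) (nat_lit 228) (nat_lit 64149169273) (nat_lit 304) (nat_lit 40479092743) (nat_lit 42) (nat_lit 5) (nat_lit 45) (nat_lit 5) (nat_lit 46) (nat_lit 5) (nat_lit 301) (nat_lit 286) (nat_lit 133)) (XT.nd (nat_lit 78) (nat_lit 0) (nat_lit 0) (XT.lf (nat_lit 0) (nat_lit 10095947930) (nat_lit 304) (nat_lit 199739275152) (nat_lit 76) (nat_lit 79326270957) (nat_lit 38) (nat_lit 5) (nat_lit 42) (nat_lit 5) (nat_lit 39) (nat_lit 5) (nat_lit 302) (nat_lit 286) (nat_lit 132)) (XT.lf (nat_lit 0) (nat_lit 66251692710) (nat_lit 304) (nat_lit 3442256622) (nat_lit 76) (nat_lit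 234597266157) (nat_lit 38) (nat_lit 5) (nat_lit 42) (nat_lit 5) (nat_lit 39) (nat_lit 5) (nat_lit 303) (nat_lit 286) (nat_lit 131))))))))
noncomputable def xc120 : XT := (XT.nd (nat_lit 36582) (nat_lit 0) (nat_lit 836) (XT.nd (nat_lit 702) (nat_lit 456) (nat_lit 0) (XT.nd (nat_lit 312) (nat_lit 608) (nat_lit 0) (XT.nd (nat_lit 156) (nat_lit 228) (nat_lit 0) (XT.nd (nat_lit 78) (nat_lit 228) (nat_lit 0) (XT.lf (nat_lit 0) (nat_lit 131593642532) (nat_lit 304) (nat_lit 106338999038) (nat_lit 76) (nat_lit 82463986257) (nat_lit 35) (nat_lit 5) (nat_lit 39) (nat_lit 5) (nat_lit 36) (nat_lit 5) (nat_lit 304) (nat_lit 286) (nat_lit 130)) (XT.lf (nat_lit 0) (nat_lit 113757548225) (nat_lit 228) (nat_lit 91417432033) (nat_lit 304) (nat_lit 132464891708) (nat_lit 32) (nat_lit 5) (nat_lit 35) (nat_lit 5) (nat_lit 36) (nat_lit 5) (nat_lit 305) (nat_lit 286) (nat_lit 129))) (XT.nd (nat_lit 78) (nat_lit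 228) (nat_lit 0) (XT.lf (nat_lit 0) (nat_lit 287568633228) (nat_lit 304) (nat_lit 1984608733) (nat_lit 76) (nat_lit 66563043644) (nat_lit 32) (nat_lit 5) (nat_lit 36) (nat_lit 5) (nat_lit 33) (nat_lit 5) (nat_lit 306) (nat_lit 286) (nat_lit 128)) (XT.lf (nat_lit 0) (nat_lit 5904977769) (nat_lit 228) (nat_lit 131967993798) (nat_lit 76) (nat_lit 237925590600) (nat_lit 29) (nat_lit 5) (nat_lit 32) (nat_lit 5) (nat_lit 30) (nat_lit 5) (nat_lit 307) (nat_lit 286) (nat_lit 127)))) (XT.nd (nat_lit 156) (nat_lit 380) (nat_lit 0) (XT.nd (nat_lit 78) (nat_lit 0) (nat_lit 0) (XT.lf (nat_lit 0) (nat_lit 86226386065) (nat_lit 304) (nat_lit 282512785278) (nat_lit 76) (nat_lit 28144356044) (nat_lit 26) (nat_lit 5) (nat_lit 30) (nat_lit 5) (nat_lit 27) (nat_lit 5) (nat_lit 308) (nat_lit 286) (nat_lit 126)) (XT.lf (nat_lit 0) (nat_lit 177634654730) (nat_lit 304) (nat_lit 36773896281) (nat_lit 76) (nat_lit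 205013681716) (nat_lit 26) (nat_lit 5) (nat_lit 30) (nat_lit 5) (nat_lit 27) (nat_lit 5) (nat_lit 309) (nat_lit 286) (nat_lit 125))) (XT.nd (nat_lit 78) (nat_lit 228) (nat_lit 0) (XT.lf (nat_lit 0) (nat_lit 236183274783) (nat_lit 152) (nat_lit 43859677224) (nat_lit 228) (nat_lit 163536714396) (nat_lit 24) (nat_lit 5) (nat_lit 26) (nat_lit 5) (nat_lit 27) (nat_lit 5) (nat_lit 310) (nat_lit 286) (nat_lit 124)) (XT.nd (nat_lit 78) (nat_lit 76) (nat_lit 0) (XT.lf (nat_lit 0) (nat_lit 62449655835) (nat_lit 152) (nat_lit 332011232805) (nat_lit 228) (nat_lit 75017957601) (nat_lit 22) (nat_lit 5) (nat_lit 24) (nat_lit 5) (nat_lit 25) (nat_lit 5) (nat_lit 311) (nat_lit 286) (nat_lit 123)) (XT.lf (nat_lit 0) (nat_lit 24334921290) (nat_lit 228) (nat_lit 137100168938) (nat_lit 76) (nat_lit 335778233903) (nat_lit 21) (nat_lit 5) (nat_lit 24) (nat_lit 5) (nat_lit 22) (nat_lit 5) (nat_lit 312) (nat_lit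 286) (nat_lit 122)))))) (XT.nd (nat_lit 35490) (nat_lit 0) (nat_lit 4028) (XT.nd (nat_lit 156) (nat_lit 304) (nat_lit 0) (XT.nd (nat_lit 78) (nat_lit 0) (nat_lit 0) (XT.lf (nat_lit 0) (nat_lit 131930100438) (nat_lit 228) (nat_lit 369174625976) (nat_lit 76) (nat_lit 25854227221) (nat_lit 19) (nat_lit 5) (nat_lit 22) (nat_lit 5) (nat_lit 20) (nat_lit 5) (nat_lit 313) (nat_lit 286) (nat_lit 121)) (XT.lf (nat_lit 0) (nat_lit 253282237161) (nat_lit 228) (nat_lit 80570826552) (nat_lit 76) (nat_lit 224973702813) (nat_lit 19) (nat_lit 5) (nat_lit 22) (nat_lit 5) (nat_lit 20) (nat_lit 5) (nat_lit 314) (nat_lit 286) (nat_lit 120))) (XT.nd (nat_lit 78) (nat_lit 152) (nat_lit 0) (XT.lf (nat_lit 0) (nat_lit 238763048068) (nat_lit 152) (nat_lit 149307169543) (nat_lit 228) (nat_lit 204987403369) (nat_lit 17) (nat_lit 5) (nat_lit 19) (nat_lit 5) (nat_lit 20) (nat_lit 5) (nat_lit 315) (nat_lit 286) (nat_lit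 119)) (XT.nd (nat_lit 78) (nat_lit 152) (nat_lit 0) (XT.lf (nat_lit 0) (nat_lit 535848330067) (nat_lit 228) (nat_lit 44239798902) (nat_lit 76) (nat_lit 49828460303) (nat_lit 17) (nat_lit 5) (nat_lit 20) (nat_lit 5) (nat_lit 18) (nat_lit 4) (nat_lit 316) (nat_lit 286) (nat_lit 118)) (XT.lf (nat_lit 0) (nat_lit 32182836783) (nat_lit 152) (nat_lit 372257555697) (nat_lit 76) (nat_lit 264899713062) (nat_lit 15) (nat_lit 5) (nat_lit 17) (nat_lit 5) (nat_lit 16) (nat_lit 5) (nat_lit 317) (nat_lit 286) (nat_lit 117))))) (XT.nd (nat_lit 156) (nat_lit 0) (nat_lit 76) (XT.nd (nat_lit 78) (nat_lit 0) (nat_lit 0) (XT.lf (nat_lit 0) (nat_lit 14373621868) (nat_lit 0) (nat_lit 14373621868) (nat_lit 684) (nat_lit 47743626136) (nat_lit 68) (nat_lit 5) (nat_lit 68) (nat_lit 3) (nat_lit 77) (nat_lit 3) (nat_lit 287) (nat_lit 287) (nat_lit 146)) (XT.lf (nat_lit 0) (nat_lit 61013886529) (nat_lit 684) (nat_lit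 22657484255) (nat_lit 760) (nat_lit 75368643220) (nat_lit 68) (nat_lit 5) (nat_lit 77) (nat_lit 3) (nat_lit 78) (nat_lit 5) (nat_lit 288) (nat_lit 287) (nat_lit 145))) (XT.nd (nat_lit 78) (nat_lit 0) (nat_lit 0) (XT.lf (nat_lit 0) (nat_lit 67050152816) (nat_lit 684) (nat_lit 76420946299) (nat_lit 760) (nat_lit 22000086758) (nat_lit 69) (nat_lit 5) (nat_lit 78) (nat_lit 5) (nat_lit 79) (nat_lit 5) (nat_lit 289) (nat_lit 287) (nat_lit 144)) (XT.nd (nat_lit 78) (nat_lit 0) (nat_lit 76) (XT.lf (nat_lit 76) (nat_lit 37902099807) (nat_lit 0) (nat_lit 38070611421) (nat_lit 760) (nat_lit 96323972053) (nat_lit 70) (nat_lit 5) (nat_lit 69) (nat_lit 5) (nat_lit 79) (nat_lit 5) (nat_lit 290) (nat_lit 287) (nat_lit 143)) (XT.lf (nat_lit 0) (nat_lit 88144614070) (nat_lit 684) (nat_lit 16706629187) (nat_lit 760) (nat_lit 74690201469) (nat_lit 70) (nat_lit 5) (nat_lit 79) (nat_lit 5) (nat_lit 80) (nat_lit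 5) (nat_lit 291) (nat_lit 287) (nat_lit 142))))))) (XT.nd (nat_lit 702) (nat_lit 1444) (nat_lit 0) (XT.nd (nat_lit 312) (nat_lit 1368) (nat_lit 0) (XT.nd (nat_lit 156) (nat_lit 608) (nat_lit 0) (XT.nd (nat_lit 78) (nat_lit 0) (nat_lit 0) (XT.lf (nat_lit 0) (nat_lit 103853269015) (nat_lit 684) (nat_lit 74013181860) (nat_lit 760) (nat_lit 9371187357) (nat_lit 71) (nat_lit 5) (nat_lit 80) (nat_lit 5) (nat_lit 81) (nat_lit 5) (nat_lit 292) (nat_lit 287) (nat_lit 141)) (XT.lf (nat_lit 76) (nat_lit 58717993121) (nat_lit 0) (nat_lit 65080852694) (nat_lit 760) (nat_lit 71601670986) (nat_lit 72) (nat_lit 5) (nat_lit 71) (nat_lit 5) (nat_lit 81) (nat_lit 5) (nat_lit 293) (nat_lit 287) (nat_lit 140))) (XT.nd (nat_lit 78) (nat_lit 684) (nat_lit 0) (XT.lf (nat_lit 0) (nat_lit 147535866038) (nat_lit 684) (nat_lit 348367078) (nat_lit 76) (nat_lit 56222403653) (nat_lit 72) (nat_lit 5) (nat_lit 81) (nat_lit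 5) (nat_lit 73) (nat_lit 5) (nat_lit 294) (nat_lit 287) (nat_lit 139)) (XT.lf (nat_lit 0) (nat_lit 150615554922) (nat_lit 684) (nat_lit 26004949676) (nat_lit 760) (nat_lit 36716309806) (nat_lit 63) (nat_lit 5) (nat_lit 72) (nat_lit 5) (nat_lit 73) (nat_lit 5) (nat_lit 295) (nat_lit 287) (nat_lit 138)))) (XT.nd (nat_lit 156) (nat_lit 608) (nat_lit 0) (XT.nd (nat_lit 78) (nat_lit 456) (nat_lit 0) (XT.lf (nat_lit 0) (nat_lit 91647806371) (nat_lit 304) (nat_lit 119470011807) (nat_lit 380) (nat_lit 12033293712) (nat_lit 59) (nat_lit 5) (nat_lit 63) (nat_lit 5) (nat_lit 64) (nat_lit 5) (nat_lit 296) (nat_lit 287) (nat_lit 137)) (XT.lf (nat_lit 0) (nat_lit 16299201214) (nat_lit 456) (nat_lit 206719336311) (nat_lit 76) (nat_lit 10613454598) (nat_lit 53) (nat_lit 5) (nat_lit 59) (nat_lit 5) (nat_lit 54) (nat_lit 5) (nat_lit 297) (nat_lit 287) (nat_lit 136))) (XT.nd (nat_lit 78) (nat_lit 608)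 (nat_lit 0) (XT.lf (nat_lit 0) (nat_lit 50824865284) (nat_lit 456) (nat_lit 44394138648) (nat_lit 76) (nat_lit 149505068294) (nat_lit 53) (nat_lit 5) (nat_lit 59) (nat_lit 5) (nat_lit 54) (nat_lit 5) (nat_lit 298) (nat_lit 287) (nat_lit 135)) (XT.nd (nat_lit 78) (nat_lit 304) (nat_lit 0) (XT.lf (nat_lit 0) (nat_lit 90926858018) (nat_lit 380) (nat_lit 122055297778) (nat_lit 76) (nat_lit 43580649798) (nat_lit 49) (nat_lit 5) (nat_lit 54) (nat_lit 5) (nat_lit 50) (nat_lit 5) (nat_lit 299) (nat_lit 287) (nat_lit 134)) (XT.lf (nat_lit 0) (nat_lit 60308405446) (nat_lit 304) (nat_lit 77261559891) (nat_lit 380) (nat_lit 131612025122) (nat_lit 45) (nat_lit 5) (nat_lit 49) (nat_lit 5) (nat_lit 50) (nat_lit 5) (nat_lit 300) (nat_lit 287) (nat_lit 133)))))) (XT.nd (nat_lit 390) (nat_lit 684) (nat_lit 0) (XT.nd (nat_lit 156) (nat_lit 532) (nat_lit 0) (XT.nd (nat_lit 78) (nat_lit 228) (nat_lit 0)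 (XT.lf (nat_lit 0) (nat_lit 191187549471) (nat_lit 380) (nat_lit 22201936829) (nat_lit 76) (nat_lit 69259072947) (nat_lit 45) (nat_lit 5) (nat_lit 50) (nat_lit 5) (nat_lit 46) (nat_lit 5) (nat_lit 301) (nat_lit 287) (nat_lit 132)) (XT.lf (nat_lit 0) (nat_lit 183989282905) (nat_lit 228) (nat_lit 69280451513) (nat_lit 304) (nat_lit 43713959917) (nat_lit 42) (nat_lit 5) (nat_lit 45) (nat_lit 5) (nat_lit 46) (nat_lit 5) (nat_lit 302) (nat_lit 287) (nat_lit 131))) (XT.nd (nat_lit 78) (nat_lit 228) (nat_lit 0) (XT.lf (nat_lit 0) (nat_lit 10906796975) (nat_lit 304) (nat_lit 215714380454) (nat_lit 76) (nat_lit 85673068821) (nat_lit 38) (nat_lit 5) (nat_lit 42) (nat_lit 5) (nat_lit 39) (nat_lit 5) (nat_lit 303) (nat_lit 287) (nat_lit 130)) (XT.nd (nat_lit 78) (nat_lit 228) (nat_lit 0) (XT.lf (nat_lit 0) (nat_lit 71554766284) (nat_lit 304) (nat_lit 3713899458) (nat_lit 76) (nat_lit 253365692068)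 (nat_lit 38) (nat_lit 5) (nat_lit 42) (nat_lit 5) (nat_lit 39) (nat_lit 5) (nat_lit 304) (nat_lit 287) (nat_lit 129)) (XT.lf (nat_lit 0) (nat_lit 142123922744) (nat_lit 304) (nat_lit 114842409941) (nat_lit 76) (nat_lit 89061878510) (nat_lit 35) (nat_lit 5) (nat_lit 39) (nat_lit 5) (nat_lit 36) (nat_lit 5) (nat_lit 305) (nat_lit 287) (nat_lit 128))))) (XT.nd (nat_lit 156) (nat_lit 456) (nat_lit 0) (XT.nd (nat_lit 78) (nat_lit 0) (nat_lit 0) (XT.lf (nat_lit 0) (nat_lit 122861699913) (nat_lit 228) (nat_lit 98729916388) (nat_lit 304) (nat_lit 143059306673) (nat_lit 32) (nat_lit 5) (nat_lit 35) (nat_lit 5) (nat_lit 36) (nat_lit 5) (nat_lit 306) (nat_lit 287) (nat_lit 127)) (XT.lf (nat_lit 0) (nat_lit 310576579287) (nat_lit 304) (nat_lit 2139977091) (nat_lit 76) (nat_lit 71888902946) (nat_lit 32) (nat_lit 5) (nat_lit 36) (nat_lit 5) (nat_lit 33) (nat_lit 5) (nat_lit 307) (nat_lit 287) (nat_lit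 126))) (XT.nd (nat_lit 78) (nat_lit 228) (nat_lit 0) (XT.lf (nat_lit 0) (nat_lit 6379744095) (nat_lit 228) (nat_lit 142522096828) (nat_lit 76) (nat_lit 256960482205) (nat_lit 29) (nat_lit 5) (nat_lit 32) (nat_lit 5) (nat_lit 30) (nat_lit 5) (nat_lit 308) (nat_lit 287) (nat_lit 125)) (XT.nd (nat_lit 78) (nat_lit 0) (nat_lit 0) (XT.lf (nat_lit 0) (nat_lit 93126754283) (nat_lit 304) (nat_lit 305110514123) (nat_lit 76) (nat_lit 30396823113) (nat_lit 26) (nat_lit 5) (nat_lit 30) (nat_lit 5) (nat_lit 27) (nat_lit 5) (nat_lit 309) (nat_lit 287) (nat_lit 124)) (XT.lf (nat_lit 0) (nat_lit 191847517232) (nat_lit 304) (nat_lit 39712758004) (nat_lit 76) (nat_lit 221415626795) (nat_lit 26) (nat_lit 5) (nat_lit 30) (nat_lit 5) (nat_lit 27) (nat_lit 5) (nat_lit 310) (nat_lit 287) (nat_lit 123))))))))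
noncomputable def xc121 : XT := (XT.nd (nat_lit 36816) (nat_lit 0) (nat_lit 152) (XT.nd (nat_lit 36036) (nat_lit 0) (nat_lit 2128) (XT.nd (nat_lit 390) (nat_lit 152) (nat_lit 0) (XT.nd (nat_lit 156) (nat_lit 228) (nat_lit 0) (XT.nd (nat_lit 78) (nat_lit 152) (nat_lit 0) (XT.lf (nat_lit 0) (nat_lit 255080854197) (nat_lit 152) (nat_lit 47367514819) (nat_lit 228) (nat_lit 176617567205) (nat_lit 24) (nat_lit 5) (nat_lit 26) (nat_lit 5) (nat_lit 27) (nat_lit 5) (nat_lit 311) (nat_lit 287) (nat_lit 122)) (XT.lf (nat_lit 0) (nat_lit 67448503954) (nat_lit 152) (nat_lit 358571148333) (nat_lit 228) (nat_lit 81017402905) (nat_lit 22) (nat_lit 5) (nat_lit 24) (nat_lit 5) (nat_lit 25) (nat_lit 5) (nat_lit 312) (nat_lit 287) (nat_lit 121))) (XT.nd (nat_lit 78) (nat_lit 152) (nat_lit 0) (XT.lf (nat_lit 0) (nat_lit 26283499781) (nat_lit 228) (nat_lit 148065457164) (nat_lit 76) (nat_lit 362641340242)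 (nat_lit 21) (nat_lit 5) (nat_lit 24) (nat_lit 5) (nat_lit 22) (nat_lit 5) (nat_lit 313) (nat_lit 287) (nat_lit 120)) (XT.lf (nat_lit 0) (nat_lit 142486216019) (nat_lit 228) (nat_lit 398705915437) (nat_lit 76) (nat_lit 27923449728) (nat_lit 19) (nat_lit 5) (nat_lit 22) (nat_lit 5) (nat_lit 20) (nat_lit 5) (nat_lit 314) (nat_lit 287) (nat_lit 119)))) (XT.nd (nat_lit 35412) (nat_lit 0) (nat_lit 3876) (XT.nd (nat_lit 35334) (nat_lit 0) (nat_lit 3876) (XT.lf (nat_lit 0) (nat_lit 257866466099) (nat_lit 152) (nat_lit 161250869933) (nat_lit 228) (nat_lit 221384816690) (nat_lit 17) (nat_lit 5) (nat_lit 19) (nat_lit 5) (nat_lit 20) (nat_lit 5) (nat_lit 316) (nat_lit 287) (nat_lit 117)) (XT.lf (nat_lit 0) (nat_lit 15525461702) (nat_lit 0) (nat_lit 15525461702) (nat_lit 684) (nat_lit 51559007041) (nat_lit 68) (nat_lit 5) (nat_lit 68) (nat_lit 3) (nat_lit 77) (nat_lit 3) (nat_lit 288) (nat_lit 288)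 (nat_lit 144))) (XT.nd (nat_lit 78) (nat_lit 0) (nat_lit 76) (XT.lf (nat_lit 0) (nat_lit 65902163605) (nat_lit 684) (nat_lit 24466028277) (nat_lit 760) (nat_lit 81394638992) (nat_lit 68) (nat_lit 5) (nat_lit 77) (nat_lit 3) (nat_lit 78) (nat_lit 5) (nat_lit 289) (nat_lit 288) (nat_lit 143)) (XT.nd (nat_lit 78) (nat_lit 0) (nat_lit 0) (XT.lf (nat_lit 0) (nat_lit 72420816936) (nat_lit 684) (nat_lit 82530340698) (nat_lit 760) (nat_lit 23757366495) (nat_lit 69) (nat_lit 5) (nat_lit 78) (nat_lit 5) (nat_lit 79) (nat_lit 5) (nat_lit 290) (nat_lit 288) (nat_lit 142)) (XT.lf (nat_lit 76) (nat_lit 40938363037) (nat_lit 0) (nat_lit 41118388190) (nat_lit 760) (nat_lit 104023333323) (nat_lit 70) (nat_lit 5) (nat_lit 69) (nat_lit 5) (nat_lit 79) (nat_lit 5) (nat_lit 291) (nat_lit 288) (nat_lit 141)))))) (XT.nd (nat_lit 390) (nat_lit 1368) (nat_lit 0) (XT.nd (nat_lit 156) (nat_lit 532) (nat_lit 0)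 (XT.nd (nat_lit 78) (nat_lit 0) (nat_lit 76) (XT.lf (nat_lit 0) (nat_lit 95201914564) (nat_lit 684) (nat_lit 18039028168) (nat_lit 760) (nat_lit 80663510410) (nat_lit 70) (nat_lit 5) (nat_lit 79) (nat_lit 5) (nat_lit 80) (nat_lit 5) (nat_lit 292) (nat_lit 288) (nat_lit 140)) (XT.lf (nat_lit 0) (nat_lit 112166876939) (nat_lit 684) (nat_lit 79929974987) (nat_lit 760) (nat_lit 10119510978) (nat_lit 71) (nat_lit 5) (nat_lit 80) (nat_lit 5) (nat_lit 81) (nat_lit 5) (nat_lit 293) (nat_lit 288) (nat_lit 139))) (XT.nd (nat_lit 78) (nat_lit 608) (nat_lit 0) (XT.lf (nat_lit 76) (nat_lit 63419508796) (nat_lit 0) (nat_lit 70288258698) (nat_lit 760) (nat_lit 77324522295) (nat_lit 72) (nat_lit 5) (nat_lit 71) (nat_lit 5) (nat_lit 81) (nat_lit 5) (nat_lit 294) (nat_lit 288) (nat_lit 138)) (XT.nd (nat_lit 78) (nat_lit 684) (nat_lit 0) (XT.lf (nat_lit 0) (nat_lit 159343364370) (nat_lit 684) (nat_lit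 372200127) (nat_lit 76) (nat_lit 60719355414) (nat_lit 72) (nat_lit 5) (nat_lit 81) (nat_lit 5) (nat_lit 73) (nat_lit 5) (nat_lit 295) (nat_lit 288) (nat_lit 137)) (XT.lf (nat_lit 0) (nat_lit 162668660220) (nat_lit 684) (nat_lit 28085831182) (nat_lit 760) (nat_lit 39649035696) (nat_lit 63) (nat_lit 5) (nat_lit 72) (nat_lit 5) (nat_lit 73) (nat_lit 5) (nat_lit 296) (nat_lit 288) (nat_lit 136))))) (XT.nd (nat_lit 156) (nat_lit 608) (nat_lit 0) (XT.nd (nat_lit 78) (nat_lit 456) (nat_lit 0) (XT.lf (nat_lit 0) (nat_lit 98983553601) (nat_lit 304) (nat_lit 129027768734) (nat_lit 380) (nat_lit 12991660555) (nat_lit 59) (nat_lit 5) (nat_lit 63) (nat_lit 5) (nat_lit 64) (nat_lit 5) (nat_lit 297) (nat_lit 288) (nat_lit 135)) (XT.lf (nat_lit 0) (nat_lit 17607048958) (nat_lit 456) (nat_lit 223252778468) (nat_lit 76) (nat_lit 11462516125) (nat_lit 53) (nat_lit 5) (nat_lit 59) (nat_lit 5) (nat_lit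 54) (nat_lit 5) (nat_lit 298) (nat_lit 288) (nat_lit 134))) (XT.nd (nat_lit 78) (nat_lit 608) (nat_lit 0) (XT.lf (nat_lit 0) (nat_lit 54894476402) (nat_lit 456) (nat_lit 47941869047) (nat_lit 76) (nat_lit 161465460016) (nat_lit 53) (nat_lit 5) (nat_lit 59) (nat_lit 5) (nat_lit 54) (nat_lit 5) (nat_lit 299) (nat_lit 288) (nat_lit 133)) (XT.nd (nat_lit 78) (nat_lit 304) (nat_lit 0) (XT.lf (nat_lit 0) (nat_lit 98204420541) (nat_lit 380) (nat_lit 131815908483) (nat_lit 76) (nat_lit 47067319727) (nat_lit 49) (nat_lit 5) (nat_lit 54) (nat_lit 5) (nat_lit 50) (nat_lit 5) (nat_lit 300) (nat_lit 288) (nat_lit 132)) (XT.lf (nat_lit 0) (nat_lit 65136725286) (nat_lit 304) (nat_lit 83442055227) (nat_lit 380) (nat_lit 142137598475) (nat_lit 45) (nat_lit 5) (nat_lit 49) (nat_lit 5) (nat_lit 50) (nat_lit 5) (nat_lit 301) (nat_lit 288) (nat_lit 131))))))) (XT.nd (nat_lit 780) (nat_lit 532) (nat_lit 0)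 (XT.nd (nat_lit 390) (nat_lit 684) (nat_lit 0) (XT.nd (nat_lit 156) (nat_lit 532) (nat_lit 0) (XT.nd (nat_lit 78) (nat_lit 228) (nat_lit 0) (XT.lf (nat_lit 0) (nat_lit 206485539219) (nat_lit 380) (nat_lit 23974562694) (nat_lit 76) (nat_lit 74800183699) (nat_lit 45) (nat_lit 5) (nat_lit 50) (nat_lit 5) (nat_lit 46) (nat_lit 5) (nat_lit 302) (nat_lit 288) (nat_lit 130)) (XT.lf (nat_lit 0) (nat_lit 198711801249) (nat_lit 228) (nat_lit 74822329248) (nat_lit 304) (nat_lit 47208110108) (nat_lit 42) (nat_lit 5) (nat_lit 45) (nat_lit 5) (nat_lit 46) (nat_lit 5) (nat_lit 303) (nat_lit 288) (nat_lit 129))) (XT.nd (nat_lit 78) (nat_lit 228) (nat_lit 0) (XT.lf (nat_lit 0) (nat_lit 11782061249) (nat_lit 304) (nat_lit 232968070062) (nat_lit 76) (nat_lit 92527511196) (nat_lit 38) (nat_lit 5) (nat_lit 42) (nat_lit 5) (nat_lit 39) (nat_lit 5) (nat_lit 304) (nat_lit 288) (nat_lit 128)) (XT.nd (nat_lit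 78) (nat_lit 228) (nat_lit 0) (XT.lf (nat_lit 0) (nat_lit 77281666583) (nat_lit 304) (nat_lit 4007806944) (nat_lit 76) (nat_lit 273635500090) (nat_lit 38) (nat_lit 5) (nat_lit 42) (nat_lit 5) (nat_lit 39) (nat_lit 5) (nat_lit 305) (nat_lit 288) (nat_lit 127)) (XT.lf (nat_lit 0) (nat_lit 153496227518) (nat_lit 304) (nat_lit 124026622850) (nat_lit 76) (nat_lit 96187491816) (nat_lit 35) (nat_lit 5) (nat_lit 39) (nat_lit 5) (nat_lit 36) (nat_lit 5) (nat_lit 306) (nat_lit 288) (nat_lit 126))))) (XT.nd (nat_lit 156) (nat_lit 456) (nat_lit 0) (XT.nd (nat_lit 78) (nat_lit 0) (nat_lit 0) (XT.lf (nat_lit 0) (nat_lit 132693677599) (nat_lit 228) (nat_lit 106627529343) (nat_lit 304) (nat_lit 154501670916) (nat_lit 32) (nat_lit 5) (nat_lit 35) (nat_lit 5) (nat_lit 36) (nat_lit 5) (nat_lit 307) (nat_lit 288) (nat_lit 125)) (XT.lf (nat_lit 0) (nat_lit 335424810741) (nat_lit 304) (nat_lit 2308260014)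 (nat_lit 76) (nat_lit 77640714608) (nat_lit 32) (nat_lit 5) (nat_lit 36) (nat_lit 5) (nat_lit 33) (nat_lit 5) (nat_lit 308) (nat_lit 288) (nat_lit 124))) (XT.nd (nat_lit 78) (nat_lit 228) (nat_lit 0) (XT.lf (nat_lit 0) (nat_lit 6892153890) (nat_lit 228) (nat_lit 153921004086) (nat_lit 76) (nat_lit 277518044682) (nat_lit 29) (nat_lit 5) (nat_lit 32) (nat_lit 5) (nat_lit 30) (nat_lit 5) (nat_lit 309) (nat_lit 288) (nat_lit 123)) (XT.nd (nat_lit 78) (nat_lit 0) (nat_lit 0) (XT.lf (nat_lit 0) (nat_lit 100578829925) (nat_lit 304) (nat_lit 329516531199) (nat_lit 76) (nat_lit 32829356501) (nat_lit 26) (nat_lit 5) (nat_lit 30) (nat_lit 5) (nat_lit 27) (nat_lit 5) (nat_lit 310) (nat_lit 288) (nat_lit 122)) (XT.lf (nat_lit 0) (nat_lit 207197110554) (nat_lit 304) (nat_lit 42887163779) (nat_lit 76) (nat_lit 239129606142) (nat_lit 26) (nat_lit 5) (nat_lit 30) (nat_lit 5) (nat_lit 27) (nat_lit 5)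 (nat_lit 311) (nat_lit 288) (nat_lit 121)))))) (XT.nd (nat_lit 35802) (nat_lit 0) (nat_lit 3724) (XT.nd (nat_lit 156) (nat_lit 228) (nat_lit 0) (XT.nd (nat_lit 78) (nat_lit 152) (nat_lit 0) (XT.lf (nat_lit 0) (nat_lit 275489823759) (nat_lit 152) (nat_lit 51156113036) (nat_lit 228) (nat_lit 190745185594) (nat_lit 24) (nat_lit 5) (nat_lit 26) (nat_lit 5) (nat_lit 27) (nat_lit 5) (nat_lit 312) (nat_lit 288) (nat_lit 120)) (XT.lf (nat_lit 0) (nat_lit 72846849678) (nat_lit 152) (nat_lit 387255997353) (nat_lit 228) (nat_lit 87497087914) (nat_lit 22) (nat_lit 5) (nat_lit 24) (nat_lit 5) (nat_lit 25) (nat_lit 5) (nat_lit 313) (nat_lit 288) (nat_lit 119))) (XT.nd (nat_lit 156) (nat_lit 152) (nat_lit 0) (XT.lf (nat_lit 0) (nat_lit 28387709932) (nat_lit 228) (nat_lit 159908357242) (nat_lit 76) (nat_lit 391653374164) (nat_lit 21) (nat_lit 5) (nat_lit 24) (nat_lit 5) (nat_lit 22) (nat_lit 5) (nat_lit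 314) (nat_lit 288) (nat_lit 118)) (XT.nd (nat_lit 35412) (nat_lit 0) (nat_lit 3724) (XT.lf (nat_lit 0) (nat_lit 295431464474) (nat_lit 228) (nat_lit 93973003513) (nat_lit 76) (nat_lit 262410913300) (nat_lit 19) (nat_lit 5) (nat_lit 22) (nat_lit 5) (nat_lit 20) (nat_lit 5) (nat_lit 316) (nat_lit 288) (nat_lit 116)) (XT.lf (nat_lit 0) (nat_lit 16769170521) (nat_lit 0) (nat_lit 16769170521) (nat_lit 684) (nat_lit 55680204640) (nat_lit 68) (nat_lit 5) (nat_lit 68) (nat_lit 3) (nat_lit 77) (nat_lit 3) (nat_lit 289) (nat_lit 289) (nat_lit 142))))) (XT.nd (nat_lit 156) (nat_lit 0) (nat_lit 76) (XT.nd (nat_lit 78) (nat_lit 0) (nat_lit 76) (XT.lf (nat_lit 0) (nat_lit 71180480516) (nat_lit 684) (nat_lit 26419834273) (nat_lit 760) (nat_lit 87903213126) (nat_lit 68) (nat_lit 5) (nat_lit 77) (nat_lit 3) (nat_lit 78) (nat_lit 5) (nat_lit 290) (nat_lit 289) (nat_lit 141)) (XT.lf (nat_lit 0) (nat_lit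 78220185219) (nat_lit 684) (nat_lit 89129097425) (nat_lit 760) (nat_lit 25655617677) (nat_lit 69) (nat_lit 5) (nat_lit 78) (nat_lit 5) (nat_lit 79) (nat_lit 5) (nat_lit 291) (nat_lit 289) (nat_lit 140))) (XT.nd (nat_lit 78) (nat_lit 0) (nat_lit 76) (XT.lf (nat_lit 76) (nat_lit 44216943092) (nat_lit 0) (nat_lit 44409683538) (nat_lit 760) (nat_lit 112339578850) (nat_lit 70) (nat_lit 5) (nat_lit 69) (nat_lit 5) (nat_lit 79) (nat_lit 5) (nat_lit 292) (nat_lit 289) (nat_lit 139)) (XT.nd (nat_lit 78) (nat_lit 0) (nat_lit 76) (XT.lf (nat_lit 0) (nat_lit 102822981455) (nat_lit 684) (nat_lit 19478608452) (nat_lit 760) (nat_lit 87114956147) (nat_lit 70) (nat_lit 5) (nat_lit 79) (nat_lit 5) (nat_lit 80) (nat_lit 5) (nat_lit 293) (nat_lit 289) (nat_lit 138)) (XT.lf (nat_lit 0) (nat_lit 121144810773) (nat_lit 684) (nat_lit 86320719503) (nat_lit 760) (nat_lit 10927896129) (nat_lit 71) (nat_lit 5)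 (nat_lit 80) (nat_lit 5) (nat_lit 81) (nat_lit 5) (nat_lit 294) (nat_lit 289) (nat_lit 137))))))))
noncomputable def xc122 : XT := (XT.nd (nat_lit 1482) (nat_lit 380) (nat_lit 0) (XT.nd (nat_lit 702) (nat_lit 1596) (nat_lit 0) (XT.nd (nat_lit 312) (nat_lit 1064) (nat_lit 0) (XT.nd (nat_lit 156) (nat_lit 912) (nat_lit 0) (XT.nd (nat_lit 78) (nat_lit 0) (nat_lit 76) (XT.lf (nat_lit 76) (nat_lit 68496564207) (nat_lit 0) (nat_lit 75912123397) (nat_lit 760) (nat_lit 83505955297) (nat_lit 72) (nat_lit 5) (nat_lit 71) (nat_lit 5) (nat_lit 81) (nat_lit 5) (nat_lit 295) (nat_lit 289) (nat_lit 136)) (XT.lf (nat_lit 0) (nat_lit 172094802183) (nat_lit 684) (nat_lit 398515645) (nat_lit 76) (nat_lit 65576183227) (nat_lit 72) (nat_lit 5) (nat_lit 81) (nat_lit 5) (nat_lit 73) (nat_lit 5) (nat_lit 296) (nat_lit 289) (nat_lit 135))) (XT.nd (nat_lit 78) (nat_lit 304) (nat_lit 0) (XT.lf (nat_lit 0) (nat_lit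 175685463140) (nat_lit 684) (nat_lit 30333113941) (nat_lit 760) (nat_lit 42817032888) (nat_lit 63) (nat_lit 5) (nat_lit 72) (nat_lit 5) (nat_lit 73) (nat_lit 5) (nat_lit 297) (nat_lit 289) (nat_lit 134)) (XT.lf (nat_lit 0) (nat_lit 106905600990) (nat_lit 304) (nat_lit 139350123963) (nat_lit 380) (nat_lit 14027309711) (nat_lit 59) (nat_lit 5) (nat_lit 63) (nat_lit 5) (nat_lit 64) (nat_lit 5) (nat_lit 298) (nat_lit 289) (nat_lit 133)))) (XT.nd (nat_lit 156) (nat_lit 608) (nat_lit 0) (XT.nd (nat_lit 78) (nat_lit 0) (nat_lit 0) (XT.lf (nat_lit 0) (nat_lit 19018966481) (nat_lit 456) (nat_lit 241109481586) (nat_lit 76) (nat_lit 12379504692) (nat_lit 53) (nat_lit 5) (nat_lit 59) (nat_lit 5) (nat_lit 54) (nat_lit 5) (nat_lit 299) (nat_lit 289) (nat_lit 132)) (XT.lf (nat_lit 0) (nat_lit 59289139705) (nat_lit 456) (nat_lit 51773960090) (nat_lit 76) (nat_lit 174382685037) (nat_lit 53) (nat_lit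 5) (nat_lit 59) (nat_lit 5) (nat_lit 54) (nat_lit 5) (nat_lit 300) (nat_lit 289) (nat_lit 131))) (XT.nd (nat_lit 78) (nat_lit 304) (nat_lit 0) (XT.lf (nat_lit 0) (nat_lit 106063701039) (nat_lit 380) (nat_lit 142357912028) (nat_lit 76) (nat_lit 50832892158) (nat_lit 49) (nat_lit 5) (nat_lit 54) (nat_lit 5) (nat_lit 50) (nat_lit 5) (nat_lit 301) (nat_lit 289) (nat_lit 130)) (XT.nd (nat_lit 78) (nat_lit 0) (nat_lit 0) (XT.lf (nat_lit 0) (nat_lit 70350790371) (nat_lit 304) (nat_lit 90117051456) (nat_lit 380) (nat_lit 153505701126) (nat_lit 45) (nat_lit 5) (nat_lit 49) (nat_lit 5) (nat_lit 50) (nat_lit 5) (nat_lit 302) (nat_lit 289) (nat_lit 129)) (XT.lf (nat_lit 0) (nat_lit 223006942190) (nat_lit 380) (nat_lit 25889502091) (nat_lit 76) (nat_lit 80784528400) (nat_lit 45) (nat_lit 5) (nat_lit 50) (nat_lit 5) (nat_lit 46) (nat_lit 5) (nat_lit 303) (nat_lit 289) (nat_lit 128)))))) (XT.nd (nat_lit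 390) (nat_lit 608) (nat_lit 0) (XT.nd (nat_lit 156) (nat_lit 456) (nat_lit 0) (XT.nd (nat_lit 78) (nat_lit 304) (nat_lit 0) (XT.lf (nat_lit 0) (nat_lit 214611639477) (nat_lit 228) (nat_lit 80807636861) (nat_lit 304) (nat_lit 50982215533) (nat_lit 42) (nat_lit 5) (nat_lit 45) (nat_lit 5) (nat_lit 46) (nat_lit 5) (nat_lit 304) (nat_lit 289) (nat_lit 127)) (XT.lf (nat_lit 0) (nat_lit 12726958553) (nat_lit 304) (nat_lit 251602548565) (nat_lit 76) (nat_lit 99930223810) (nat_lit 38) (nat_lit 5) (nat_lit 42) (nat_lit 5) (nat_lit 39) (nat_lit 5) (nat_lit 305) (nat_lit 289) (nat_lit 126))) (XT.nd (nat_lit 78) (nat_lit 456) (nat_lit 0) (XT.lf (nat_lit 0) (nat_lit 83466359543) (nat_lit 304) (nat_lit 4325684183) (nat_lit 76) (nat_lit 295526813911) (nat_lit 38) (nat_lit 5) (nat_lit 42) (nat_lit 5) (nat_lit 39) (nat_lit 5) (nat_lit 306) (nat_lit 289) (nat_lit 125)) (XT.nd (nat_lit 78) (nat_lit 228)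 (nat_lit 0) (XT.lf (nat_lit 0) (nat_lit 165777975577) (nat_lit 304) (nat_lit 133946026438) (nat_lit 76) (nat_lit 103883059598) (nat_lit 35) (nat_lit 5) (nat_lit 39) (nat_lit 5) (nat_lit 36) (nat_lit 5) (nat_lit 307) (nat_lit 289) (nat_lit 124)) (XT.lf (nat_lit 0) (nat_lit 143311779567) (nat_lit 228) (nat_lit 115157062661) (nat_lit 304) (nat_lit 166859763873) (nat_lit 32) (nat_lit 5) (nat_lit 35) (nat_lit 5) (nat_lit 36) (nat_lit 5) (nat_lit 308) (nat_lit 289) (nat_lit 123))))) (XT.nd (nat_lit 156) (nat_lit 380) (nat_lit 0) (XT.nd (nat_lit 78) (nat_lit 228) (nat_lit 0) (XT.lf (nat_lit 0) (nat_lit 362260600393) (nat_lit 304) (nat_lit 2490421463) (nat_lit 76) (nat_lit 83852571422) (nat_lit 32) (nat_lit 5) (nat_lit 36) (nat_lit 5) (nat_lit 33) (nat_lit 5) (nat_lit 309) (nat_lit 289) (nat_lit 122)) (XT.lf (nat_lit 0) (nat_lit 7445266829) (nat_lit 228) (nat_lit 166232232004) (nat_lit 76) (nat_lit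 299720108884) (nat_lit 29) (nat_lit 5) (nat_lit 32) (nat_lit 5) (nat_lit 30) (nat_lit 5) (nat_lit 310) (nat_lit 289) (nat_lit 121))) (XT.nd (nat_lit 78) (nat_lit 152) (nat_lit 0) (XT.lf (nat_lit 0) (nat_lit 108626795526) (nat_lit 304) (nat_lit 355875432523) (nat_lit 76) (nat_lit 35456380209) (nat_lit 26) (nat_lit 5) (nat_lit 30) (nat_lit 5) (nat_lit 27) (nat_lit 5) (nat_lit 311) (nat_lit 289) (nat_lit 120)) (XT.nd (nat_lit 78) (nat_lit 152) (nat_lit 0) (XT.lf (nat_lit 0) (nat_lit 223774415701) (nat_lit 304) (nat_lit 46315895056) (nat_lit 76) (nat_lit 258260599807) (nat_lit 26) (nat_lit 5) (nat_lit 30) (nat_lit 5) (nat_lit 27) (nat_lit 5) (nat_lit 312) (nat_lit 289) (nat_lit 119)) (XT.lf (nat_lit 0) (nat_lit 297531154059) (nat_lit 152) (nat_lit 55247913663) (nat_lit 228) (nat_lit 206003268388) (nat_lit 24) (nat_lit 5) (nat_lit 26) (nat_lit 5) (nat_lit 27) (nat_lit 5) (nat_lit 313) (nat_lit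 289) (nat_lit 118))))))) (XT.nd (nat_lit 36270) (nat_lit 0) (nat_lit 1444) (XT.nd (nat_lit 35880) (nat_lit 0) (nat_lit 3800) (XT.nd (nat_lit 35646) (nat_lit 0) (nat_lit 3724) (XT.nd (nat_lit 156) (nat_lit 228) (nat_lit 0) (XT.lf (nat_lit 0) (nat_lit 78676711342) (nat_lit 152) (nat_lit 418235754536) (nat_lit 228) (nat_lit 94495391278) (nat_lit 22) (nat_lit 5) (nat_lit 24) (nat_lit 5) (nat_lit 25) (nat_lit 5) (nat_lit 314) (nat_lit 289) (nat_lit 117)) (XT.lf (nat_lit 0) (nat_lit 166198758521) (nat_lit 228) (nat_lit 465046127380) (nat_lit 76) (nat_lit 32571380595) (nat_lit 19) (nat_lit 5) (nat_lit 22) (nat_lit 5) (nat_lit 20) (nat_lit 5) (nat_lit 316) (nat_lit 289) (nat_lit 115))) (XT.nd (nat_lit 78) (nat_lit 0) (nat_lit 0) (XT.lf (nat_lit 0) (nat_lit 18112137534) (nat_lit 0) (nat_lit 18112137534) (nat_lit 684) (nat_lit 60131600637) (nat_lit 68) (nat_lit 5) (nat_lit 68) (nat_lit 3) (nat_lit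 77) (nat_lit 3) (nat_lit 290) (nat_lit 290) (nat_lit 140)) (XT.nd (nat_lit 78) (nat_lit 0) (nat_lit 76) (XT.lf (nat_lit 0) (nat_lit 76880186294) (nat_lit 684) (nat_lit 28530440676) (nat_lit 760) (nat_lit 94932900743) (nat_lit 68) (nat_lit 5) (nat_lit 77) (nat_lit 3) (nat_lit 78) (nat_lit 5) (nat_lit 291) (nat_lit 290) (nat_lit 139)) (XT.lf (nat_lit 0) (nat_lit 84482689378) (nat_lit 684) (nat_lit 96256278332) (nat_lit 760) (nat_lit 27706062515) (nat_lit 69) (nat_lit 5) (nat_lit 78) (nat_lit 5) (nat_lit 79) (nat_lit 5) (nat_lit 292) (nat_lit 290) (nat_lit 138))))) (XT.nd (nat_lit 156) (nat_lit 0) (nat_lit 152) (XT.nd (nat_lit 78) (nat_lit 0) (nat_lit 76) (XT.lf (nat_lit 76) (nat_lit 47757308667) (nat_lit 0) (nat_lit 47964022258) (nat_lit 760) (nat_lit 121321925939) (nat_lit 70) (nat_lit 5) (nat_lit 69) (nat_lit 5) (nat_lit 79) (nat_lit 5) (nat_lit 293) (nat_lit 290) (nat_lit 137)) (XT.lf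 (nat_lit 0) (nat_lit 111053032698) (nat_lit 684) (nat_lit 21033860460) (nat_lit 760) (nat_lit 94082750807) (nat_lit 70) (nat_lit 5) (nat_lit 79) (nat_lit 5) (nat_lit 80) (nat_lit 5) (nat_lit 294) (nat_lit 290) (nat_lit 136))) (XT.nd (nat_lit 78) (nat_lit 0) (nat_lit 0) (XT.lf (nat_lit 0) (nat_lit 130840325401) (nat_lit 684) (nat_lit 93223244791) (nat_lit 760) (nat_lit 11801119822) (nat_lit 71) (nat_lit 5) (nat_lit 80) (nat_lit 5) (nat_lit 81) (nat_lit 5) (nat_lit 295) (nat_lit 290) (nat_lit 135)) (XT.nd (nat_lit 78) (nat_lit 0) (nat_lit 76) (XT.lf (nat_lit 76) (nat_lit 73979285491) (nat_lit 0) (nat_lit 81985782571) (nat_lit 760) (nat_lit 90182549021) (nat_lit 72) (nat_lit 5) (nat_lit 71) (nat_lit 5) (nat_lit 81) (nat_lit 5) (nat_lit 296) (nat_lit 290) (nat_lit 134)) (XT.lf (nat_lit 0) (nat_lit 185865788847) (nat_lit 684) (nat_lit 427430083) (nat_lit 76) (nat_lit 70821660070) (nat_lit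 72) (nat_lit 5) (nat_lit 81) (nat_lit 5) (nat_lit 73) (nat_lit 5) (nat_lit 297) (nat_lit 290) (nat_lit 133)))))) (XT.nd (nat_lit 390) (nat_lit 836) (nat_lit 0) (XT.nd (nat_lit 156) (nat_lit 760) (nat_lit 0) (XT.nd (nat_lit 78) (nat_lit 304) (nat_lit 0) (XT.lf (nat_lit 0) (nat_lit 189743138071) (nat_lit 684) (nat_lit 32760119937) (nat_lit 760) (nat_lit 46239029896) (nat_lit 63) (nat_lit 5) (nat_lit 72) (nat_lit 5) (nat_lit 73) (nat_lit 5) (nat_lit 298) (nat_lit 290) (nat_lit 132)) (XT.lf (nat_lit 0) (nat_lit 115460932386) (nat_lit 304) (nat_lit 150498248532) (nat_lit 380) (nat_lit 15146336320) (nat_lit 59) (nat_lit 5) (nat_lit 63) (nat_lit 5) (nat_lit 64) (nat_lit 5) (nat_lit 299) (nat_lit 290) (nat_lit 131))) (XT.nd (nat_lit 78) (nat_lit 304) (nat_lit 0) (XT.lf (nat_lit 0) (nat_lit 20543358977) (nat_lit 456) (nat_lit 260395223001) (nat_lit 76) (nat_lit 13369854159) (nat_lit 53) (nat_lit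 5) (nat_lit 59) (nat_lit 5) (nat_lit 54) (nat_lit 5) (nat_lit 300) (nat_lit 290) (nat_lit 130)) (XT.nd (nat_lit 78) (nat_lit 304) (nat_lit 0) (XT.lf (nat_lit 0) (nat_lit 64034933083) (nat_lit 456) (nat_lit 55913083275) (nat_lit 76) (nat_lit 188333289740) (nat_lit 53) (nat_lit 5) (nat_lit 59) (nat_lit 5) (nat_lit 54) (nat_lit 5) (nat_lit 301) (nat_lit 290) (nat_lit 129)) (XT.lf (nat_lit 0) (nat_lit 114551306427) (nat_lit 380) (nat_lit 153743742235) (nat_lit 76) (nat_lit 54899683727) (nat_lit 49) (nat_lit 5) (nat_lit 54) (nat_lit 5) (nat_lit 50) (nat_lit 5) (nat_lit 302) (nat_lit 290) (nat_lit 128))))) (XT.nd (nat_lit 156) (nat_lit 532) (nat_lit 0) (XT.nd (nat_lit 78) (nat_lit 0) (nat_lit 0) (XT.lf (nat_lit 0) (nat_lit 75981534551) (nat_lit 304) (nat_lit 97326099910) (nat_lit 380) (nat_lit 165783666452) (nat_lit 45) (nat_lit 5) (nat_lit 49) (nat_lit 5) (nat_lit 50) (nat_lit 5) (nat_lit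 303) (nat_lit 290) (nat_lit 127)) (XT.lf (nat_lit 0) (nat_lit 240849692211) (nat_lit 380) (nat_lit 27958068279) (nat_lit 76) (nat_lit 87247573597) (nat_lit 45) (nat_lit 5) (nat_lit 50) (nat_lit 5) (nat_lit 46) (nat_lit 5) (nat_lit 304) (nat_lit 290) (nat_lit 126))) (XT.nd (nat_lit 78) (nat_lit 304) (nat_lit 0) (XT.lf (nat_lit 0) (nat_lit 231783051884) (nat_lit 228) (nat_lit 87271837379) (nat_lit 304) (nat_lit 55058612234) (nat_lit 42) (nat_lit 5) (nat_lit 45) (nat_lit 5) (nat_lit 46) (nat_lit 5) (nat_lit 305) (nat_lit 290) (nat_lit 125)) (XT.nd (nat_lit 78) (nat_lit 0) (nat_lit 0) (XT.lf (nat_lit 0) (nat_lit 13747114897) (nat_lit 304) (nat_lit 271728208638) (nat_lit 76) (nat_lit 107925080431) (nat_lit 38) (nat_lit 5) (nat_lit 42) (nat_lit 5) (nat_lit 39) (nat_lit 5) (nat_lit 306) (nat_lit 290) (nat_lit 124)) (XT.lf (nat_lit 0) (nat_lit 90145519844) (nat_lit 304) (nat_lit 4669383536)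 (nat_lit 76) (nat_lit 319169365243) (nat_lit 38) (nat_lit 5) (nat_lit 42) (nat_lit 5) (nat_lit 39) (nat_lit 5) (nat_lit 307) (nat_lit 290) (nat_lit 123))))))))
noncomputable def xc123 : XT := (XT.nd (nat_lit 37206) (nat_lit 0) (nat_lit 0) (XT.nd (nat_lit 36426) (nat_lit 0) (nat_lit 1748) (XT.nd (nat_lit 312) (nat_lit 228) (nat_lit 0) (XT.nd (nat_lit 156) (nat_lit 228) (nat_lit 0) (XT.nd (nat_lit 78) (nat_lit 228) (nat_lit 0) (XT.lf (nat_lit 0) (nat_lit 179041971047) (nat_lit 304) (nat_lit 144659371242) (nat_lit 76) (nat_lit 112194191709) (nat_lit 35) (nat_lit 5) (nat_lit 39) (nat_lit 5) (nat_lit 36) (nat_lit 5) (nat_lit 308) (nat_lit 290) (nat_lit 122)) (XT.lf (nat_lit 0) (nat_lit 154778957668) (nat_lit 228) (nat_lit 124369054089) (nat_lit 304) (nat_lit 180206795398) (nat_lit 32) (nat_lit 5) (nat_lit 35) (nat_lit 5) (nat_lit 36) (nat_lit 5) (nat_lit 309) (nat_lit 290) (nat_lit 121)))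 (XT.nd (nat_lit 78) (nat_lit 228) (nat_lit 0) (XT.lf (nat_lit 0) (nat_lit 391242995744) (nat_lit 304) (nat_lit 2687512389) (nat_lit 76) (nat_lit 90561291235) (nat_lit 32) (nat_lit 5) (nat_lit 36) (nat_lit 5) (nat_lit 33) (nat_lit 5) (nat_lit 310) (nat_lit 290) (nat_lit 120)) (XT.lf (nat_lit 0) (nat_lit 8042380483) (nat_lit 228) (nat_lit 179528708020) (nat_lit 76) (nat_lit 323698249683) (nat_lit 29) (nat_lit 5) (nat_lit 32) (nat_lit 5) (nat_lit 30) (nat_lit 5) (nat_lit 311) (nat_lit 290) (nat_lit 119)))) (XT.nd (nat_lit 35880) (nat_lit 0) (nat_lit 3192) (XT.nd (nat_lit 78) (nat_lit 0) (nat_lit 0) (XT.lf (nat_lit 0) (nat_lit 117318361670) (nat_lit 304) (nat_lit 384343391360) (nat_lit 76) (nat_lit 38293469491) (nat_lit 26) (nat_lit 5) (nat_lit 30) (nat_lit 5) (nat_lit 27) (nat_lit 5) (nat_lit 312) (nat_lit 290) (nat_lit 118)) (XT.lf (nat_lit 0) (nat_lit 241677686089) (nat_lit 304) (nat_lit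 50019244656) (nat_lit 76) (nat_lit 278921983777) (nat_lit 26) (nat_lit 5) (nat_lit 30) (nat_lit 5) (nat_lit 27) (nat_lit 5) (nat_lit 313) (nat_lit 290) (nat_lit 117))) (XT.nd (nat_lit 78) (nat_lit 0) (nat_lit 0) (XT.lf (nat_lit 0) (nat_lit 19562337420) (nat_lit 0) (nat_lit 19562337420) (nat_lit 684) (nat_lit 64939539204) (nat_lit 68) (nat_lit 5) (nat_lit 68) (nat_lit 3) (nat_lit 77) (nat_lit 3) (nat_lit 291) (nat_lit 291) (nat_lit 138)) (XT.nd (nat_lit 78) (nat_lit 0) (nat_lit 76) (XT.lf (nat_lit 0) (nat_lit 83035117090) (nat_lit 684) (nat_lit 30810320770) (nat_lit 760) (nat_lit 102525329928) (nat_lit 68) (nat_lit 5) (nat_lit 77) (nat_lit 3) (nat_lit 78) (nat_lit 5) (nat_lit 292) (nat_lit 291) (nat_lit 137)) (XT.lf (nat_lit 0) (nat_lit 91245496350) (nat_lit 684) (nat_lit 103954082650) (nat_lit 760) (nat_lit 29920828916) (nat_lit 69) (nat_lit 5) (nat_lit 78) (nat_lit 5) (nat_lit 79) (nat_lit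 5) (nat_lit 293) (nat_lit 291) (nat_lit 136)))))) (XT.nd (nat_lit 390) (nat_lit 1520) (nat_lit 0) (XT.nd (nat_lit 156) (nat_lit 0) (nat_lit 152) (XT.nd (nat_lit 78) (nat_lit 0) (nat_lit 76) (XT.lf (nat_lit 76) (nat_lit 51580474059) (nat_lit 0) (nat_lit 51802484949) (nat_lit 760) (nat_lit 131023548310) (nat_lit 70) (nat_lit 5) (nat_lit 69) (nat_lit 5) (nat_lit 79) (nat_lit 5) (nat_lit 294) (nat_lit 291) (nat_lit 135)) (XT.lf (nat_lit 0) (nat_lit 119940887049) (nat_lit 684) (nat_lit 22713965844) (nat_lit 760) (nat_lit 101608169027) (nat_lit 70) (nat_lit 5) (nat_lit 79) (nat_lit 5) (nat_lit 80) (nat_lit 5) (nat_lit 295) (nat_lit 291) (nat_lit 134))) (XT.nd (nat_lit 78) (nat_lit 0) (nat_lit 0) (XT.lf (nat_lit 0) (nat_lit 141310920573) (nat_lit 684) (nat_lit 100678418955) (nat_lit 760) (nat_lit 12744345213) (nat_lit 71) (nat_lit 5) (nat_lit 80) (nat_lit 5) (nat_lit 81) (nat_lit 5) (nat_lit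 296) (nat_lit 291) (nat_lit 133)) (XT.nd (nat_lit 78) (nat_lit 0) (nat_lit 76) (XT.lf (nat_lit 76) (nat_lit 79900197044) (nat_lit 0) (nat_lit 88545236143) (nat_lit 760) (nat_lit 97393824154) (nat_lit 72) (nat_lit 5) (nat_lit 71) (nat_lit 5) (nat_lit 81) (nat_lit 5) (nat_lit 297) (nat_lit 291) (nat_lit 132)) (XT.lf (nat_lit 0) (nat_lit 200737969041) (nat_lit 684) (nat_lit 459080925) (nat_lit 76) (nat_lit 76486863198) (nat_lit 72) (nat_lit 5) (nat_lit 81) (nat_lit 5) (nat_lit 73) (nat_lit 5) (nat_lit 298) (nat_lit 291) (nat_lit 131))))) (XT.nd (nat_lit 156) (nat_lit 760) (nat_lit 0) (XT.nd (nat_lit 78) (nat_lit 304) (nat_lit 0) (XT.lf (nat_lit 0) (nat_lit 204925022142) (nat_lit 684) (nat_lit 35381235500) (nat_lit 760) (nat_lit 49935266807) (nat_lit 63) (nat_lit 5) (nat_lit 72) (nat_lit 5) (nat_lit 73) (nat_lit 5) (nat_lit 299) (nat_lit 291) (nat_lit 130)) (XT.lf (nat_lit 0) (nat_lit 124700278957)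 (nat_lit 304) (nat_lit 162538206710) (nat_lit 380) (nat_lit 16355335605) (nat_lit 59) (nat_lit 5) (nat_lit 63) (nat_lit 5) (nat_lit 64) (nat_lit 5) (nat_lit 300) (nat_lit 291) (nat_lit 129))) (XT.nd (nat_lit 78) (nat_lit 304) (nat_lit 0) (XT.lf (nat_lit 0) (nat_lit 22189292696) (nat_lit 456) (nat_lit 281224254154) (nat_lit 76) (nat_lit 14439433140) (nat_lit 53) (nat_lit 5) (nat_lit 59) (nat_lit 5) (nat_lit 54) (nat_lit 5) (nat_lit 301) (nat_lit 291) (nat_lit 128)) (XT.nd (nat_lit 78) (nat_lit 304) (nat_lit 0) (XT.lf (nat_lit 0) (nat_lit 69160010138) (nat_lit 456) (nat_lit 60383734856) (nat_lit 76) (nat_lit 203399944260) (nat_lit 53) (nat_lit 5) (nat_lit 59) (nat_lit 5) (nat_lit 54) (nat_lit 5) (nat_lit 302) (nat_lit 291) (nat_lit 127)) (XT.lf (nat_lit 0) (nat_lit 123717562267) (nat_lit 380) (nat_lit 166040838703) (nat_lit 76) (nat_lit 59291795768) (nat_lit 49) (nat_lit 5) (nat_lit 54)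 (nat_lit 5) (nat_lit 50) (nat_lit 5) (nat_lit 303) (nat_lit 291) (nat_lit 126))))))) (XT.nd (nat_lit 36582) (nat_lit 0) (nat_lit 2508) (XT.nd (nat_lit 390) (nat_lit 912) (nat_lit 0) (XT.nd (nat_lit 156) (nat_lit 532) (nat_lit 0) (XT.nd (nat_lit 78) (nat_lit 0) (nat_lit 0) (XT.lf (nat_lit 0) (nat_lit 82062355799) (nat_lit 304) (nat_lit 105111917272) (nat_lit 380) (nat_lit 179044224339) (nat_lit 45) (nat_lit 5) (nat_lit 49) (nat_lit 5) (nat_lit 50) (nat_lit 5) (nat_lit 304) (nat_lit 291) (nat_lit 125)) (XT.lf (nat_lit 0) (nat_lit 260119549142) (nat_lit 380) (nat_lit 30192489821) (nat_lit 76) (nat_lit 94227622048) (nat_lit 45) (nat_lit 5) (nat_lit 50) (nat_lit 5) (nat_lit 46) (nat_lit 5) (nat_lit 305) (nat_lit 291) (nat_lit 124))) (XT.nd (nat_lit 78) (nat_lit 304) (nat_lit 0) (XT.lf (nat_lit 0) (nat_lit 250327823306) (nat_lit 228) (nat_lit 94253232491) (nat_lit 304) (nat_lit 59461431750)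 (nat_lit 42) (nat_lit 5) (nat_lit 45) (nat_lit 5) (nat_lit 46) (nat_lit 5) (nat_lit 306) (nat_lit 291) (nat_lit 123)) (XT.nd (nat_lit 78) (nat_lit 0) (nat_lit 0) (XT.lf (nat_lit 0) (nat_lit 14848598476) (nat_lit 304) (nat_lit 293464284421) (nat_lit 76) (nat_lit 116559462995) (nat_lit 38) (nat_lit 5) (nat_lit 42) (nat_lit 5) (nat_lit 39) (nat_lit 5) (nat_lit 307) (nat_lit 291) (nat_lit 122)) (XT.lf (nat_lit 0) (nat_lit 97358748827) (nat_lit 304) (nat_lit 5040914859) (nat_lit 76) (nat_lit 344703262730) (nat_lit 38) (nat_lit 5) (nat_lit 42) (nat_lit 5) (nat_lit 39) (nat_lit 5) (nat_lit 308) (nat_lit 291) (nat_lit 121))))) (XT.nd (nat_lit 156) (nat_lit 456) (nat_lit 0) (XT.nd (nat_lit 78) (nat_lit 228) (nat_lit 0) (XT.lf (nat_lit 0) (nat_lit 193366835437) (nat_lit 304) (nat_lit 156230117074) (nat_lit 76) (nat_lit 121170144864) (nat_lit 35) (nat_lit 5) (nat_lit 39) (nat_lit 5) (nat_lit 36)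 (nat_lit 5) (nat_lit 309) (nat_lit 291) (nat_lit 120)) (XT.lf (nat_lit 0) (nat_lit 167163191063) (nat_lit 228) (nat_lit 134318086659) (nat_lit 304) (nat_lit 194621839043) (nat_lit 32) (nat_lit 5) (nat_lit 35) (nat_lit 5) (nat_lit 36) (nat_lit 5) (nat_lit 310) (nat_lit 291) (nat_lit 119))) (XT.nd (nat_lit 78) (nat_lit 456) (nat_lit 0) (XT.lf (nat_lit 0) (nat_lit 422543761981) (nat_lit 304) (nat_lit 2900676281) (nat_lit 76) (nat_lit 97806635290) (nat_lit 32) (nat_lit 5) (nat_lit 36) (nat_lit 5) (nat_lit 33) (nat_lit 5) (nat_lit 311) (nat_lit 291) (nat_lit 118)) (XT.nd (nat_lit 78) (nat_lit 228) (nat_lit 0) (XT.lf (nat_lit 0) (nat_lit 8687050335) (nat_lit 228) (nat_lit 193889202068) (nat_lit 76) (nat_lit 349594565837) (nat_lit 29) (nat_lit 5) (nat_lit 32) (nat_lit 5) (nat_lit 30) (nat_lit 5) (nat_lit 312) (nat_lit 291) (nat_lit 117)) (XT.lf (nat_lit 0) (nat_lit 126705050171) (nat_lit 304)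 (nat_lit 415089083035) (nat_lit 76) (nat_lit 41357443333) (nat_lit 26) (nat_lit 5) (nat_lit 30) (nat_lit 5) (nat_lit 27) (nat_lit 5) (nat_lit 313) (nat_lit 291) (nat_lit 116)))))) (XT.nd (nat_lit 390) (nat_lit 684) (nat_lit 0) (XT.nd (nat_lit 156) (nat_lit 0) (nat_lit 76) (XT.nd (nat_lit 78) (nat_lit 0) (nat_lit 0) (XT.lf (nat_lit 0) (nat_lit 21128377984) (nat_lit 0) (nat_lit 21128377984) (nat_lit 684) (nat_lit 70132482275) (nat_lit 68) (nat_lit 5) (nat_lit 68) (nat_lit 3) (nat_lit 77) (nat_lit 3) (nat_lit 292) (nat_lit 292) (nat_lit 136)) (XT.lf (nat_lit 0) (nat_lit 89681798107) (nat_lit 684) (nat_lit 33272955794) (nat_lit 760) (nat_lit 110725467713) (nat_lit 68) (nat_lit 5) (nat_lit 77) (nat_lit 3) (nat_lit 78) (nat_lit 5) (nat_lit 293) (nat_lit 292) (nat_lit 135))) (XT.nd (nat_lit 78) (nat_lit 0) (nat_lit 0) (XT.lf (nat_lit 0) (nat_lit 98548729870) (nat_lit 684) (nat_lit 112268096206)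 (nat_lit 760) (nat_lit 32313021806) (nat_lit 69) (nat_lit 5) (nat_lit 78) (nat_lit 5) (nat_lit 79) (nat_lit 5) (nat_lit 294) (nat_lit 292) (nat_lit 134)) (XT.nd (nat_lit 78) (nat_lit 0) (nat_lit 76) (XT.lf (nat_lit 76) (nat_lit 55709124517) (nat_lit 0) (nat_lit 55947833359) (nat_lit 760) (nat_lit 141501889904) (nat_lit 70) (nat_lit 5) (nat_lit 69) (nat_lit 5) (nat_lit 79) (nat_lit 5) (nat_lit 295) (nat_lit 292) (nat_lit 133)) (XT.lf (nat_lit 0) (nat_lit 129539254493) (nat_lit 684) (nat_lit 24528851070) (nat_lit 760) (nat_lit 109735792161) (nat_lit 70) (nat_lit 5) (nat_lit 79) (nat_lit 5) (nat_lit 80) (nat_lit 5) (nat_lit 296) (nat_lit 292) (nat_lit 132))))) (XT.nd (nat_lit 156) (nat_lit 912) (nat_lit 0) (XT.nd (nat_lit 78) (nat_lit 0) (nat_lit 0) (XT.lf (nat_lit 0) (nat_lit 152618682715) (nat_lit 684) (nat_lit 108730390158) (nat_lit 760) (nat_lit 13763151923) (nat_lit 71) (nat_lit 5)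 (nat_lit 80) (nat_lit 5) (nat_lit 81) (nat_lit 5) (nat_lit 297) (nat_lit 292) (nat_lit 131)) (XT.lf (nat_lit 76) (nat_lit 86294415066) (nat_lit 0) (nat_lit 95629361692) (nat_lit 760) (nat_lit 105182476186) (nat_lit 72) (nat_lit 5) (nat_lit 71) (nat_lit 5) (nat_lit 81) (nat_lit 5) (nat_lit 298) (nat_lit 292) (nat_lit 130))) (XT.nd (nat_lit 78) (nat_lit 988) (nat_lit 0) (XT.lf (nat_lit 0) (nat_lit 216799507495) (nat_lit 684) (nat_lit 493626702) (nat_lit 76) (nat_lit 82605358142) (nat_lit 72) (nat_lit 5) (nat_lit 81) (nat_lit 5) (nat_lit 73) (nat_lit 5) (nat_lit 299) (nat_lit 292) (nat_lit 129)) (XT.nd (nat_lit 78) (nat_lit 304) (nat_lit 0) (XT.lf (nat_lit 0) (nat_lit 221321109839) (nat_lit 684) (nat_lit 38211996657) (nat_lit 760) (nat_lit 53927614318) (nat_lit 63) (nat_lit 5) (nat_lit 72) (nat_lit 5) (nat_lit 73) (nat_lit 5) (nat_lit 300) (nat_lit 292) (nat_lit 128)) (XT.lf (nat_lit 0)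 (nat_lit 134678420597) (nat_lit 304) (nat_lit 175541347519) (nat_lit 380) (nat_lit 17661441105) (nat_lit 59) (nat_lit 5) (nat_lit 63) (nat_lit 5) (nat_lit 64) (nat_lit 5) (nat_lit 301) (nat_lit 292) (nat_lit 127))))))))
noncomputable def xc124 : XT := (XT.nd (nat_lit 37362) (nat_lit 0) (nat_lit 228) (XT.nd (nat_lit 702) (nat_lit 456) (nat_lit 0) (XT.nd (nat_lit 312) (nat_lit 760) (nat_lit 0) (XT.nd (nat_lit 156) (nat_lit 608) (nat_lit 0) (XT.nd (nat_lit 78) (nat_lit 0) (nat_lit 0) (XT.lf (nat_lit 0) (nat_lit 23966549452) (nat_lit 456) (nat_lit 303719976819) (nat_lit 76) (nat_lit 15594579773) (nat_lit 53) (nat_lit 5) (nat_lit 59) (nat_lit 5) (nat_lit 54) (nat_lit 5) (nat_lit 302) (nat_lit 292) (nat_lit 126)) (XT.lf (nat_lit 0) (nat_lit 74694767746) (nat_lit 456) (nat_lit 65212380249) (nat_lit 76) (nat_lit 219671932377) (nat_lit 53) (nat_lit 5) (nat_lit 59) (nat_lit 5) (nat_lit 54) (nat_lit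 5) (nat_lit 303) (nat_lit 292) (nat_lit 125))) (XT.nd (nat_lit 78) (nat_lit 304) (nat_lit 0) (XT.lf (nat_lit 0) (nat_lit 133616811663) (nat_lit 380) (nat_lit 179322045690) (nat_lit 76) (nat_lit 64035257178) (nat_lit 49) (nat_lit 5) (nat_lit 54) (nat_lit 5) (nat_lit 50) (nat_lit 5) (nat_lit 304) (nat_lit 292) (nat_lit 124)) (XT.lf (nat_lit 0) (nat_lit 88629314842) (nat_lit 304) (nat_lit 113520638633) (nat_lit 380) (nat_lit 193365931501) (nat_lit 45) (nat_lit 5) (nat_lit 49) (nat_lit 5) (nat_lit 50) (nat_lit 5) (nat_lit 305) (nat_lit 292) (nat_lit 123)))) (XT.nd (nat_lit 156) (nat_lit 532) (nat_lit 0) (XT.nd (nat_lit 78) (nat_lit 228) (nat_lit 0) (XT.lf (nat_lit 0) (nat_lit 280930726203) (nat_lit 380) (nat_lit 32605982354) (nat_lit 76) (nat_lit 101766039771) (nat_lit 45) (nat_lit 5) (nat_lit 50) (nat_lit 5) (nat_lit 46) (nat_lit 5) (nat_lit 306) (nat_lit 292) (nat_lit 122)) (XT.lf (nat_lit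 0) (nat_lit 270355872962) (nat_lit 228) (nat_lit 101793189412) (nat_lit 304) (nat_lit 64216743527) (nat_lit 42) (nat_lit 5) (nat_lit 45) (nat_lit 5) (nat_lit 46) (nat_lit 5) (nat_lit 307) (nat_lit 292) (nat_lit 121))) (XT.nd (nat_lit 78) (nat_lit 228) (nat_lit 0) (XT.lf (nat_lit 0) (nat_lit 16037956164) (nat_lit 304) (nat_lit 316939557397) (nat_lit 76) (nat_lit 125884542504) (nat_lit 38) (nat_lit 5) (nat_lit 42) (nat_lit 5) (nat_lit 39) (nat_lit 5) (nat_lit 308) (nat_lit 292) (nat_lit 120)) (XT.nd (nat_lit 78) (nat_lit 228) (nat_lit 0) (XT.lf (nat_lit 0) (nat_lit 105148809668) (nat_lit 304) (nat_lit 5442456772) (nat_lit 76) (nat_lit 372279822331) (nat_lit 38) (nat_lit 5) (nat_lit 42) (nat_lit 5) (nat_lit 39) (nat_lit 5) (nat_lit 309) (nat_lit 292) (nat_lit 119)) (XT.lf (nat_lit 0) (nat_lit 208837474030) (nat_lit 304) (nat_lit 168726808446) (nat_lit 76) (nat_lit 130864114665) (nat_lit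 35) (nat_lit 5) (nat_lit 39) (nat_lit 5) (nat_lit 36) (nat_lit 5) (nat_lit 310) (nat_lit 292) (nat_lit 118)))))) (XT.nd (nat_lit 36270) (nat_lit 0) (nat_lit 3040) (XT.nd (nat_lit 156) (nat_lit 228) (nat_lit 0) (XT.nd (nat_lit 78) (nat_lit 0) (nat_lit 0) (XT.lf (nat_lit 0) (nat_lit 180537889680) (nat_lit 228) (nat_lit 145063111989) (nat_lit 304) (nat_lit 210190300169) (nat_lit 32) (nat_lit 5) (nat_lit 35) (nat_lit 5) (nat_lit 36) (nat_lit 5) (nat_lit 311) (nat_lit 292) (nat_lit 117)) (XT.lf (nat_lit 0) (nat_lit 456348400265) (nat_lit 304) (nat_lit 3131155368) (nat_lit 76) (nat_lit 105631543992) (nat_lit 32) (nat_lit 5) (nat_lit 36) (nat_lit 5) (nat_lit 33) (nat_lit 5) (nat_lit 312) (nat_lit 292) (nat_lit 116))) (XT.nd (nat_lit 35958) (nat_lit 0) (nat_lit 2964) (XT.lf (nat_lit 0) (nat_lit 9383111252) (nat_lit 228) (nat_lit 209398792801) (nat_lit 76) (nat_lit 377562522205) (nat_lit 29)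 (nat_lit 5) (nat_lit 32) (nat_lit 5) (nat_lit 30) (nat_lit 5) (nat_lit 313) (nat_lit 292) (nat_lit 115)) (XT.nd (nat_lit 78) (nat_lit 0) (nat_lit 0) (XT.lf (nat_lit 0) (nat_lit 22819551490) (nat_lit 0) (nat_lit 22819551490) (nat_lit 684) (nat_lit 75741177508) (nat_lit 68) (nat_lit 5) (nat_lit 68) (nat_lit 3) (nat_lit 77) (nat_lit 3) (nat_lit 293) (nat_lit 293) (nat_lit 134)) (XT.lf (nat_lit 0) (nat_lit 96859661272) (nat_lit 684) (nat_lit 35932914139) (nat_lit 760) (nat_lit 119581885951) (nat_lit 68) (nat_lit 5) (nat_lit 77) (nat_lit 3) (nat_lit 78) (nat_lit 5) (nat_lit 294) (nat_lit 293) (nat_lit 133))))) (XT.nd (nat_lit 156) (nat_lit 0) (nat_lit 76) (XT.nd (nat_lit 78) (nat_lit 0) (nat_lit 0) (XT.lf (nat_lit 0) (nat_lit 106435709374) (nat_lit 684) (nat_lit 121247560830) (nat_lit 760) (nat_lit 34896800327) (nat_lit 69) (nat_lit 5) (nat_lit 78) (nat_lit 5) (nat_lit 79) (nat_lit 5) (nat_lit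 295) (nat_lit 293) (nat_lit 132)) (XT.lf (nat_lit 76) (nat_lit 60167751369) (nat_lit 0) (nat_lit 60424645636) (nat_lit 760) (nat_lit 152819004171) (nat_lit 70) (nat_lit 5) (nat_lit 69) (nat_lit 5) (nat_lit 79) (nat_lit 5) (nat_lit 296) (nat_lit 293) (nat_lit 131))) (XT.nd (nat_lit 78) (nat_lit 0) (nat_lit 76) (XT.lf (nat_lit 0) (nat_lit 139905049585) (nat_lit 684) (nat_lit 26489245539) (nat_lit 760) (nat_lit 118513772142) (nat_lit 70) (nat_lit 5) (nat_lit 79) (nat_lit 5) (nat_lit 80) (nat_lit 5) (nat_lit 297) (nat_lit 293) (nat_lit 130)) (XT.nd (nat_lit 78) (nat_lit 0) (nat_lit 0) (XT.lf (nat_lit 0) (nat_lit 164830653751) (nat_lit 684) (nat_lit 117426847508) (nat_lit 760) (nat_lit 14863568868) (nat_lit 71) (nat_lit 5) (nat_lit 80) (nat_lit 5) (nat_lit 81) (nat_lit 5) (nat_lit 298) (nat_lit 293) (nat_lit 129)) (XT.lf (nat_lit 76) (nat_lit 93199856352) (nat_lit 0) (nat_lit 103280145005)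 (nat_lit 760) (nat_lit 113594627522) (nat_lit 72) (nat_lit 5) (nat_lit 71) (nat_lit 5) (nat_lit 81) (nat_lit 5) (nat_lit 299) (nat_lit 293) (nat_lit 128))))))) (XT.nd (nat_lit 702) (nat_lit 760) (nat_lit 0) (XT.nd (nat_lit 312) (nat_lit 836) (nat_lit 0) (XT.nd (nat_lit 156) (nat_lit 760) (nat_lit 0) (XT.nd (nat_lit 78) (nat_lit 684) (nat_lit 0) (XT.lf (nat_lit 0) (nat_lit 234145612240) (nat_lit 684) (nat_lit 531247243) (nat_lit 76) (nat_lit 89213397465) (nat_lit 72) (nat_lit 5) (nat_lit 81) (nat_lit 5) (nat_lit 73) (nat_lit 5) (nat_lit 300) (nat_lit 293) (nat_lit 127)) (XT.lf (nat_lit 0) (nat_lit 239028586972) (nat_lit 684) (nat_lit 41269181285) (nat_lit 760) (nat_lit 58239702550) (nat_lit 63) (nat_lit 5) (nat_lit 72) (nat_lit 5) (nat_lit 73) (nat_lit 5) (nat_lit 301) (nat_lit 293) (nat_lit 126))) (XT.nd (nat_lit 78) (nat_lit 456) (nat_lit 0) (XT.lf (nat_lit 0) (nat_lit 145454511224)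 (nat_lit 304) (nat_lit 189584727571) (nat_lit 380) (nat_lit 19072366211) (nat_lit 59) (nat_lit 5) (nat_lit 63) (nat_lit 5) (nat_lit 64) (nat_lit 5) (nat_lit 302) (nat_lit 293) (nat_lit 125)) (XT.lf (nat_lit 0) (nat_lit 25885685258) (nat_lit 456) (nat_lit 328015673672) (nat_lit 76) (nat_lit 16842139281) (nat_lit 53) (nat_lit 5) (nat_lit 59) (nat_lit 5) (nat_lit 54) (nat_lit 5) (nat_lit 303) (nat_lit 293) (nat_lit 124)))) (XT.nd (nat_lit 156) (nat_lit 532) (nat_lit 0) (XT.nd (nat_lit 78) (nat_lit 304) (nat_lit 0) (XT.lf (nat_lit 0) (nat_lit 80672026804) (nat_lit 456) (nat_lit 70427610213) (nat_lit 76) (nat_lit 237245680602) (nat_lit 53) (nat_lit 5) (nat_lit 59) (nat_lit 5) (nat_lit 54) (nat_lit 5) (nat_lit 304) (nat_lit 293) (nat_lit 123)) (XT.lf (nat_lit 0) (nat_lit 144307737884) (nat_lit 380) (nat_lit 193666043134) (nat_lit 76) (nat_lit 69158178703) (nat_lit 49) (nat_lit 5) (nat_lit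 54) (nat_lit 5) (nat_lit 50) (nat_lit 5) (nat_lit 305) (nat_lit 293) (nat_lit 122))) (XT.nd (nat_lit 78) (nat_lit 228) (nat_lit 0) (XT.lf (nat_lit 0) (nat_lit 95721349483) (nat_lit 304) (nat_lit 122602090802) (nat_lit 380) (nat_lit 208833636417) (nat_lit 45) (nat_lit 5) (nat_lit 49) (nat_lit 5) (nat_lit 50) (nat_lit 5) (nat_lit 306) (nat_lit 293) (nat_lit 121)) (XT.nd (nat_lit 78) (nat_lit 228) (nat_lit 0) (XT.lf (nat_lit 0) (nat_lit 303406567298) (nat_lit 380) (nat_lit 35212826295) (nat_lit 76) (nat_lit 109907501244) (nat_lit 45) (nat_lit 5) (nat_lit 50) (nat_lit 5) (nat_lit 46) (nat_lit 5) (nat_lit 307) (nat_lit 293) (nat_lit 120)) (XT.lf (nat_lit 0) (nat_lit 291985906406) (nat_lit 228) (nat_lit 109936385923) (nat_lit 304) (nat_lit 69352708899) (nat_lit 42) (nat_lit 5) (nat_lit 45) (nat_lit 5) (nat_lit 46) (nat_lit 5) (nat_lit 308) (nat_lit 293) (nat_lit 119)))))) (XT.nd (nat_lit 36426)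 (nat_lit 0) (nat_lit 2736) (XT.nd (nat_lit 156) (nat_lit 456) (nat_lit 0) (XT.nd (nat_lit 78) (nat_lit 0) (nat_lit 0) (XT.lf (nat_lit 0) (nat_lit 17322252783) (nat_lit 304) (nat_lit 342293118955) (nat_lit 76) (nat_lit 135955582370) (nat_lit 38) (nat_lit 5) (nat_lit 42) (nat_lit 5) (nat_lit 39) (nat_lit 5) (nat_lit 309) (nat_lit 293) (nat_lit 118)) (XT.lf (nat_lit 0) (nat_lit 113561881224) (nat_lit 304) (nat_lit 5876369024) (nat_lit 76) (nat_lit 402062464105) (nat_lit 38) (nat_lit 5) (nat_lit 42) (nat_lit 5) (nat_lit 39) (nat_lit 5) (nat_lit 310) (nat_lit 293) (nat_lit 117))) (XT.nd (nat_lit 78) (nat_lit 228) (nat_lit 0) (XT.lf (nat_lit 0) (nat_lit 225545579428) (nat_lit 304) (nat_lit 182223480219) (nat_lit 76) (nat_lit 141333550948) (nat_lit 35) (nat_lit 5) (nat_lit 39) (nat_lit 5) (nat_lit 36) (nat_lit 5) (nat_lit 311) (nat_lit 293) (nat_lit 116)) (XT.nd (nat_lit 36114) (nat_lit 0)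 (nat_lit 2736) (XT.lf (nat_lit 0) (nat_lit 194982329747) (nat_lit 228) (nat_lit 156667799493) (nat_lit 304) (nat_lit 227004421648) (nat_lit 32) (nat_lit 5) (nat_lit 35) (nat_lit 5) (nat_lit 36) (nat_lit 5) (nat_lit 312) (nat_lit 293) (nat_lit 115)) (XT.lf (nat_lit 0) (nat_lit 24645890014) (nat_lit 0) (nat_lit 24645890014) (nat_lit 684) (nat_lit 81798839895) (nat_lit 68) (nat_lit 5) (nat_lit 68) (nat_lit 3) (nat_lit 77) (nat_lit 3) (nat_lit 294) (nat_lit 294) (nat_lit 132))))) (XT.nd (nat_lit 156) (nat_lit 0) (nat_lit 76) (XT.nd (nat_lit 78) (nat_lit 0) (nat_lit 76) (XT.lf (nat_lit 0) (nat_lit 104611279952) (nat_lit 684) (nat_lit 38805937086) (nat_lit 760) (nat_lit 129147048643) (nat_lit 68) (nat_lit 5) (nat_lit 77) (nat_lit 3) (nat_lit 78) (nat_lit 5) (nat_lit 295) (nat_lit 294) (nat_lit 131)) (XT.lf (nat_lit 0) (nat_lit 114953207683) (nat_lit 684) (nat_lit 130945665531) (nat_lit 760)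 (nat_lit 37687461343) (nat_lit 69) (nat_lit 5) (nat_lit 78) (nat_lit 5) (nat_lit 79) (nat_lit 5) (nat_lit 296) (nat_lit 294) (nat_lit 130))) (XT.nd (nat_lit 78) (nat_lit 0) (nat_lit 76) (XT.lf (nat_lit 76) (nat_lit 64982797757) (nat_lit 0) (nat_lit 65259462288) (nat_lit 760) (nat_lit 165041920830) (nat_lit 70) (nat_lit 5) (nat_lit 69) (nat_lit 5) (nat_lit 79) (nat_lit 5) (nat_lit 297) (nat_lit 294) (nat_lit 129)) (XT.nd (nat_lit 78) (nat_lit 0) (nat_lit 76) (XT.lf (nat_lit 0) (nat_lit 151099729557) (nat_lit 684) (nat_lit 28606744565) (nat_lit 760) (nat_lit 127994116547) (nat_lit 70) (nat_lit 5) (nat_lit 79) (nat_lit 5) (nat_lit 80) (nat_lit 5) (nat_lit 298) (nat_lit 294) (nat_lit 128)) (XT.lf (nat_lit 0) (nat_lit 178019229181) (nat_lit 684) (nat_lit 126819303039) (nat_lit 760) (nat_lit 16052109788) (nat_lit 71) (nat_lit 5) (nat_lit 80) (nat_lit 5) (nat_lit 81) (nat_lit 5) (nat_lit 299)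 (nat_lit 294) (nat_lit 127))))))))
noncomputable def xc125 : XT := (XT.nd (nat_lit 37596) (nat_lit 0) (nat_lit 228) (XT.nd (nat_lit 702) (nat_lit 760) (nat_lit 0) (XT.nd (nat_lit 312) (nat_lit 1064) (nat_lit 0) (XT.nd (nat_lit 156) (nat_lit 912) (nat_lit 0) (XT.nd (nat_lit 78) (nat_lit 0) (nat_lit 76) (XT.lf (nat_lit 76) (nat_lit 100657463586) (nat_lit 0) (nat_lit 111542929014) (nat_lit 760) (nat_lit 122680100022) (nat_lit 72) (nat_lit 5) (nat_lit 71) (nat_lit 5) (nat_lit 81) (nat_lit 5) (nat_lit 300) (nat_lit 294) (nat_lit 126)) (XT.lf (nat_lit 0) (nat_lit 252879099478) (nat_lit 684) (nat_lit 572144145) (nat_lit 76) (nat_lit 96350135475) (nat_lit 72) (nat_lit 5) (nat_lit 81) (nat_lit 5) (nat_lit 73) (nat_lit 5) (nat_lit 301) (nat_lit 294) (nat_lit 125))) (XT.nd (nat_lit 78) (nat_lit 304) (nat_lit 0) (XT.lf (nat_lit 0) (nat_lit 258152407148) (nat_lit 684) (nat_lit 44570908600) (nat_lit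 760) (nat_lit 62897060412) (nat_lit 63) (nat_lit 5) (nat_lit 72) (nat_lit 5) (nat_lit 73) (nat_lit 5) (nat_lit 302) (nat_lit 294) (nat_lit 124)) (XT.lf (nat_lit 0) (nat_lit 157092429888) (nat_lit 304) (nat_lit 204751567720) (nat_lit 380) (nat_lit 20596449248) (nat_lit 59) (nat_lit 5) (nat_lit 63) (nat_lit 5) (nat_lit 64) (nat_lit 5) (nat_lit 303) (nat_lit 294) (nat_lit 123)))) (XT.nd (nat_lit 156) (nat_lit 608) (nat_lit 0) (XT.nd (nat_lit 78) (nat_lit 0) (nat_lit 0) (XT.lf (nat_lit 0) (nat_lit 27958093447) (nat_lit 456) (nat_lit 354255297514) (nat_lit 76) (nat_lit 18189504530) (nat_lit 53) (nat_lit 5) (nat_lit 59) (nat_lit 5) (nat_lit 54) (nat_lit 5) (nat_lit 304) (nat_lit 294) (nat_lit 122)) (XT.lf (nat_lit 0) (nat_lit 87127227253) (nat_lit 456) (nat_lit 76060309723) (nat_lit 76) (nat_lit 256225329594) (nat_lit 53) (nat_lit 5) (nat_lit 59) (nat_lit 5) (nat_lit 54) (nat_lit 5) (nat_lit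 305) (nat_lit 294) (nat_lit 121))) (XT.nd (nat_lit 78) (nat_lit 304) (nat_lit 0) (XT.lf (nat_lit 0) (nat_lit 155853712614) (nat_lit 380) (nat_lit 209157812344) (nat_lit 76) (nat_lit 74690919549) (nat_lit 49) (nat_lit 5) (nat_lit 54) (nat_lit 5) (nat_lit 50) (nat_lit 5) (nat_lit 306) (nat_lit 294) (nat_lit 120)) (XT.nd (nat_lit 78) (nat_lit 0) (nat_lit 0) (XT.lf (nat_lit 0) (nat_lit 103380505876) (nat_lit 304) (nat_lit 132410087524) (nat_lit 380) (nat_lit 225538981648) (nat_lit 45) (nat_lit 5) (nat_lit 49) (nat_lit 5) (nat_lit 50) (nat_lit 5) (nat_lit 307) (nat_lit 294) (nat_lit 119)) (XT.lf (nat_lit 0) (nat_lit 327680278380) (nat_lit 380) (nat_lit 38028450952) (nat_lit 76) (nat_lit 118700254199) (nat_lit 45) (nat_lit 5) (nat_lit 50) (nat_lit 5) (nat_lit 46) (nat_lit 5) (nat_lit 308) (nat_lit 294) (nat_lit 118)))))) (XT.nd (nat_lit 36504) (nat_lit 0) (nat_lit 2508) (XT.nd (nat_lit 156)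 (nat_lit 228) (nat_lit 0) (XT.nd (nat_lit 78) (nat_lit 304) (nat_lit 0) (XT.lf (nat_lit 0) (nat_lit 315346119461) (nat_lit 228) (nat_lit 118731075054) (nat_lit 304) (nat_lit 74899747532) (nat_lit 42) (nat_lit 5) (nat_lit 45) (nat_lit 5) (nat_lit 46) (nat_lit 5) (nat_lit 309) (nat_lit 294) (nat_lit 117)) (XT.lf (nat_lit 0) (nat_lit 18709113360) (nat_lit 304) (nat_lit 369675194129) (nat_lit 76) (nat_lit 146832265985) (nat_lit 38) (nat_lit 5) (nat_lit 42) (nat_lit 5) (nat_lit 39) (nat_lit 5) (nat_lit 310) (nat_lit 294) (nat_lit 116))) (XT.nd (nat_lit 78) (nat_lit 228) (nat_lit 0) (XT.lf (nat_lit 0) (nat_lit 122647832051) (nat_lit 304) (nat_lit 6345206006) (nat_lit 76) (nat_lit 434227680701) (nat_lit 38) (nat_lit 5) (nat_lit 42) (nat_lit 5) (nat_lit 39) (nat_lit 5) (nat_lit 311) (nat_lit 294) (nat_lit 115)) (XT.nd (nat_lit 36192) (nat_lit 0) (nat_lit 2508) (XT.lf (nat_lit 0) (nat_lit 243590175263)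 (nat_lit 304) (nat_lit 196800095860) (nat_lit 76) (nat_lit 152640498320) (nat_lit 35) (nat_lit 5) (nat_lit 39) (nat_lit 5) (nat_lit 36) (nat_lit 5) (nat_lit 312) (nat_lit 294) (nat_lit 114)) (XT.lf (nat_lit 0) (nat_lit 26618225143) (nat_lit 0) (nat_lit 26618225143) (nat_lit 684) (nat_lit 88341348069) (nat_lit 68) (nat_lit 5) (nat_lit 68) (nat_lit 3) (nat_lit 77) (nat_lit 3) (nat_lit 295) (nat_lit 295) (nat_lit 130))))) (XT.nd (nat_lit 156) (nat_lit 0) (nat_lit 76) (XT.nd (nat_lit 78) (nat_lit 0) (nat_lit 76) (XT.lf (nat_lit 0) (nat_lit 112982622144) (nat_lit 684) (nat_lit 41909031580) (nat_lit 760) (nat_lit 139477622390) (nat_lit 68) (nat_lit 5) (nat_lit 77) (nat_lit 3) (nat_lit 78) (nat_lit 5) (nat_lit 296) (nat_lit 295) (nat_lit 129)) (XT.lf (nat_lit 0) (nat_lit 124151729008) (nat_lit 684) (nat_lit 141419861156) (nat_lit 760) (nat_lit 40701529744) (nat_lit 69) (nat_lit 5) (nat_lit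 78) (nat_lit 5) (nat_lit 79) (nat_lit 5) (nat_lit 297) (nat_lit 295) (nat_lit 128))) (XT.nd (nat_lit 78) (nat_lit 0) (nat_lit 76) (XT.lf (nat_lit 76) (nat_lit 70182815849) (nat_lit 0) (nat_lit 70480943723) (nat_lit 760) (nat_lit 178243042265) (nat_lit 70) (nat_lit 5) (nat_lit 69) (nat_lit 5) (nat_lit 79) (nat_lit 5) (nat_lit 298) (nat_lit 295) (nat_lit 127)) (XT.nd (nat_lit 78) (nat_lit 0) (nat_lit 76) (XT.lf (nat_lit 0) (nat_lit 163189659230) (nat_lit 684) (nat_lit 30893877565) (nat_lit 760) (nat_lit 138232996552) (nat_lit 70) (nat_lit 5) (nat_lit 79) (nat_lit 5) (nat_lit 80) (nat_lit 5) (nat_lit 299) (nat_lit 295) (nat_lit 126)) (XT.lf (nat_lit 0) (nat_lit 192262587758) (nat_lit 684) (nat_lit 136963396434) (nat_lit 760) (nat_lit 17335811674) (nat_lit 71) (nat_lit 5) (nat_lit 80) (nat_lit 5) (nat_lit 81) (nat_lit 5) (nat_lit 300) (nat_lit 295) (nat_lit 125))))))) (XT.nd (nat_lit 780)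 (nat_lit 304) (nat_lit 0) (XT.nd (nat_lit 390) (nat_lit 836) (nat_lit 0) (XT.nd (nat_lit 156) (nat_lit 1368) (nat_lit 0) (XT.nd (nat_lit 78) (nat_lit 0) (nat_lit 76) (XT.lf (nat_lit 76) (nat_lit 108711448469) (nat_lit 0) (nat_lit 120466682616) (nat_lit 760) (nat_lit 132492709582) (nat_lit 72) (nat_lit 5) (nat_lit 71) (nat_lit 5) (nat_lit 81) (nat_lit 5) (nat_lit 301) (nat_lit 295) (nat_lit 124)) (XT.lf (nat_lit 0) (nat_lit 273111003448) (nat_lit 684) (nat_lit 616541468) (nat_lit 76) (nat_lit 104057860145) (nat_lit 72) (nat_lit 5) (nat_lit 81) (nat_lit 5) (nat_lit 73) (nat_lit 5) (nat_lit 302) (nat_lit 295) (nat_lit 123))) (XT.nd (nat_lit 78) (nat_lit 760) (nat_lit 0) (XT.lf (nat_lit 0) (nat_lit 278805914207) (nat_lit 684) (nat_lit 48136746592) (nat_lit 760) (nat_lit 67927266310) (nat_lit 63) (nat_lit 5) (nat_lit 72) (nat_lit 5) (nat_lit 73) (nat_lit 5) (nat_lit 303) (nat_lit 295) (nat_lit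 122)) (XT.nd (nat_lit 78) (nat_lit 456) (nat_lit 0) (XT.lf (nat_lit 0) (nat_lit 169661159813) (nat_lit 304) (nat_lit 221131746243) (nat_lit 380) (nat_lit 22242702344) (nat_lit 59) (nat_lit 5) (nat_lit 63) (nat_lit 5) (nat_lit 64) (nat_lit 5) (nat_lit 304) (nat_lit 295) (nat_lit 121)) (XT.lf (nat_lit 0) (nat_lit 30196072686) (nat_lit 456) (nat_lit 382594323809) (nat_lit 76) (nat_lit 19644659840) (nat_lit 53) (nat_lit 5) (nat_lit 59) (nat_lit 5) (nat_lit 54) (nat_lit 5) (nat_lit 305) (nat_lit 295) (nat_lit 120))))) (XT.nd (nat_lit 156) (nat_lit 532) (nat_lit 0) (XT.nd (nat_lit 78) (nat_lit 304) (nat_lit 0) (XT.lf (nat_lit 0) (nat_lit 94098638547) (nat_lit 456) (nat_lit 82143840513) (nat_lit 76) (nat_lit 276723351283) (nat_lit 53) (nat_lit 5) (nat_lit 59) (nat_lit 5) (nat_lit 54) (nat_lit 5) (nat_lit 306) (nat_lit 295) (nat_lit 119)) (XT.lf (nat_lit 0) (nat_lit 168323171917) (nat_lit 380)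 (nat_lit 225889139113) (nat_lit 76) (nat_lit 80666267314) (nat_lit 49) (nat_lit 5) (nat_lit 54) (nat_lit 5) (nat_lit 50) (nat_lit 5) (nat_lit 307) (nat_lit 295) (nat_lit 118))) (XT.nd (nat_lit 78) (nat_lit 228) (nat_lit 0) (XT.lf (nat_lit 0) (nat_lit 111652188145) (nat_lit 304) (nat_lit 143002748313) (nat_lit 380) (nat_lit 243580946475) (nat_lit 45) (nat_lit 5) (nat_lit 49) (nat_lit 5) (nat_lit 50) (nat_lit 5) (nat_lit 308) (nat_lit 295) (nat_lit 117)) (XT.nd (nat_lit 78) (nat_lit 228) (nat_lit 0) (XT.lf (nat_lit 0) (nat_lit 353895717196) (nat_lit 380) (nat_lit 41069525514) (nat_lit 76) (nat_lit 128196405584) (nat_lit 45) (nat_lit 5) (nat_lit 50) (nat_lit 5) (nat_lit 46) (nat_lit 5) (nat_lit 309) (nat_lit 295) (nat_lit 116)) (XT.lf (nat_lit 0) (nat_lit 340574958316) (nat_lit 228) (nat_lit 128229370950) (nat_lit 304) (nat_lit 80890717322) (nat_lit 42) (nat_lit 5) (nat_lit 45) (nat_lit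 5) (nat_lit 46) (nat_lit 5) (nat_lit 310) (nat_lit 295) (nat_lit 115)))))) (XT.nd (nat_lit 36660) (nat_lit 0) (nat_lit 1900) (XT.nd (nat_lit 36426) (nat_lit 0) (nat_lit 2280) (XT.nd (nat_lit 36348) (nat_lit 0) (nat_lit 2280) (XT.lf (nat_lit 0) (nat_lit 20206768658) (nat_lit 304) (nat_lit 399248031383) (nat_lit 76) (nat_lit 158579050474) (nat_lit 38) (nat_lit 5) (nat_lit 42) (nat_lit 5) (nat_lit 39) (nat_lit 5) (nat_lit 311) (nat_lit 295) (nat_lit 114)) (XT.lf (nat_lit 0) (nat_lit 28748252366) (nat_lit 0) (nat_lit 28748252366) (nat_lit 684) (nat_lit 95407456482) (nat_lit 68) (nat_lit 5) (nat_lit 68) (nat_lit 3) (nat_lit 77) (nat_lit 3) (nat_lit 296) (nat_lit 296) (nat_lit 128))) (XT.nd (nat_lit 78) (nat_lit 0) (nat_lit 76) (XT.lf (nat_lit 0) (nat_lit 122023323648) (nat_lit 684) (nat_lit 45260570573) (nat_lit 760) (nat_lit 150634811824) (nat_lit 68) (nat_lit 5) (nat_lit 77) (nat_lit 3)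 (nat_lit 78) (nat_lit 5) (nat_lit 297) (nat_lit 296) (nat_lit 127)) (XT.nd (nat_lit 78) (nat_lit 0) (nat_lit 0) (XT.lf (nat_lit 0) (nat_lit 134085808954) (nat_lit 684) (nat_lit 152732200376) (nat_lit 760) (nat_lit 43956856079) (nat_lit 69) (nat_lit 5) (nat_lit 78) (nat_lit 5) (nat_lit 79) (nat_lit 5) (nat_lit 298) (nat_lit 296) (nat_lit 126)) (XT.lf (nat_lit 76) (nat_lit 75798636480) (nat_lit 0) (nat_lit 76120040321) (nat_lit 760) (nat_lit 192500571868) (nat_lit 70) (nat_lit 5) (nat_lit 69) (nat_lit 5) (nat_lit 79) (nat_lit 5) (nat_lit 299) (nat_lit 296) (nat_lit 125))))) (XT.nd (nat_lit 156) (nat_lit 532) (nat_lit 0) (XT.nd (nat_lit 78) (nat_lit 0) (nat_lit 76) (XT.lf (nat_lit 0) (nat_lit 176246504900) (nat_lit 684) (nat_lit 33364181868) (nat_lit 760) (nat_lit 149291079589) (nat_lit 70) (nat_lit 5) (nat_lit 79) (nat_lit 5) (nat_lit 80) (nat_lit 5) (nat_lit 300) (nat_lit 296) (nat_lit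 124)) (XT.lf (nat_lit 0) (nat_lit 207645155342) (nat_lit 684) (nat_lit 147919224280) (nat_lit 760) (nat_lit 18722276318) (nat_lit 71) (nat_lit 5) (nat_lit 80) (nat_lit 5) (nat_lit 81) (nat_lit 5) (nat_lit 301) (nat_lit 296) (nat_lit 123))) (XT.nd (nat_lit 78) (nat_lit 608) (nat_lit 0) (XT.lf (nat_lit 76) (nat_lit 117409554158) (nat_lit 0) (nat_lit 130104290957) (nat_lit 760) (nat_lit 143090584475) (nat_lit 72) (nat_lit 5) (nat_lit 71) (nat_lit 5) (nat_lit 81) (nat_lit 5) (nat_lit 302) (nat_lit 296) (nat_lit 122)) (XT.nd (nat_lit 78) (nat_lit 684) (nat_lit 0) (XT.lf (nat_lit 0) (nat_lit 294961234899) (nat_lit 684) (nat_lit 664686622) (nat_lit 76) (nat_lit 112382243614) (nat_lit 72) (nat_lit 5) (nat_lit 81) (nat_lit 5) (nat_lit 73) (nat_lit 5) (nat_lit 303) (nat_lit 296) (nat_lit 121)) (XT.lf (nat_lit 0) (nat_lit 301111514305) (nat_lit 684) (nat_lit 51987828042) (nat_lit 760) (nat_lit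 73360111079) (nat_lit 63) (nat_lit 5) (nat_lit 72) (nat_lit 5) (nat_lit 73) (nat_lit 5) (nat_lit 304) (nat_lit 296) (nat_lit 120))))))))
noncomputable def xc126 : XT := (XT.nd (nat_lit 37830) (nat_lit 0) (nat_lit 228) (XT.nd (nat_lit 37050) (nat_lit 0) (nat_lit 836) (XT.nd (nat_lit 312) (nat_lit 532) (nat_lit 0) (XT.nd (nat_lit 156) (nat_lit 304) (nat_lit 0) (XT.nd (nat_lit 78) (nat_lit 456) (nat_lit 0) (XT.lf (nat_lit 0) (nat_lit 183235197603) (nat_lit 304) (nat_lit 238822331473) (nat_lit 380) (nat_lit 24020864380) (nat_lit 59) (nat_lit 5) (nat_lit 63) (nat_lit 5) (nat_lit 64) (nat_lit 5) (nat_lit 305) (nat_lit 296) (nat_lit 119)) (XT.lf (nat_lit 0) (nat_lit 32612900274) (nat_lit 456) (nat_lit 413200671577) (nat_lit 76) (nat_lit 21216228296) (nat_lit 53) (nat_lit 5) (nat_lit 59) (nat_lit 5) (nat_lit 54) (nat_lit 5) (nat_lit 306) (nat_lit 296) (nat_lit 118))) (XT.nd (nat_lit 78) (nat_lit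 304) (nat_lit 0) (XT.lf (nat_lit 0) (nat_lit 101627586828) (nat_lit 456) (nat_lit 88714238369) (nat_lit 76) (nat_lit 298861215375) (nat_lit 53) (nat_lit 5) (nat_lit 59) (nat_lit 5) (nat_lit 54) (nat_lit 5) (nat_lit 307) (nat_lit 296) (nat_lit 117)) (XT.lf (nat_lit 0) (nat_lit 181790022151) (nat_lit 380) (nat_lit 243959157229) (nat_lit 76) (nat_lit 87119632316) (nat_lit 49) (nat_lit 5) (nat_lit 54) (nat_lit 5) (nat_lit 50) (nat_lit 5) (nat_lit 308) (nat_lit 296) (nat_lit 116)))) (XT.nd (nat_lit 156) (nat_lit 228) (nat_lit 0) (XT.nd (nat_lit 78) (nat_lit 0) (nat_lit 0) (XT.lf (nat_lit 0) (nat_lit 120585427839) (nat_lit 304) (nat_lit 154442842824) (nat_lit 380) (nat_lit 263066433076) (nat_lit 45) (nat_lit 5) (nat_lit 49) (nat_lit 5) (nat_lit 50) (nat_lit 5) (nat_lit 309) (nat_lit 296) (nat_lit 115)) (XT.lf (nat_lit 0) (nat_lit 382208246095) (nat_lit 380) (nat_lit 44354057450) (nat_lit 76)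 (nat_lit 138452230385) (nat_lit 45) (nat_lit 5) (nat_lit 50) (nat_lit 5) (nat_lit 46) (nat_lit 5) (nat_lit 310) (nat_lit 296) (nat_lit 114))) (XT.nd (nat_lit 36426) (nat_lit 0) (nat_lit 1976) (XT.lf (nat_lit 0) (nat_lit 367821940319) (nat_lit 228) (nat_lit 138487557638) (nat_lit 304) (nat_lit 87361108785) (nat_lit 42) (nat_lit 5) (nat_lit 45) (nat_lit 5) (nat_lit 46) (nat_lit 5) (nat_lit 311) (nat_lit 296) (nat_lit 113)) (XT.nd (nat_lit 78) (nat_lit 0) (nat_lit 0) (XT.lf (nat_lit 0) (nat_lit 31048600562) (nat_lit 0) (nat_lit 31048600562) (nat_lit 684) (nat_lit 103039024681) (nat_lit 68) (nat_lit 5) (nat_lit 68) (nat_lit 3) (nat_lit 77) (nat_lit 3) (nat_lit 297) (nat_lit 297) (nat_lit 126)) (XT.lf (nat_lit 0) (nat_lit 131786982863) (nat_lit 684) (nat_lit 48880401529) (nat_lit 760) (nat_lit 162684721978) (nat_lit 68) (nat_lit 5) (nat_lit 77) (nat_lit 3) (nat_lit 78) (nat_lit 5) (nat_lit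 298) (nat_lit 297) (nat_lit 125)))))) (XT.nd (nat_lit 390) (nat_lit 1216) (nat_lit 0) (XT.nd (nat_lit 156) (nat_lit 0) (nat_lit 76) (XT.nd (nat_lit 78) (nat_lit 0) (nat_lit 0) (XT.lf (nat_lit 0) (nat_lit 144814338300) (nat_lit 684) (nat_lit 164949705014) (nat_lit 760) (nat_lit 47472722085) (nat_lit 69) (nat_lit 5) (nat_lit 78) (nat_lit 5) (nat_lit 79) (nat_lit 5) (nat_lit 299) (nat_lit 297) (nat_lit 124)) (XT.lf (nat_lit 76) (nat_lit 81863552229) (nat_lit 0) (nat_lit 82210176041) (nat_lit 760) (nat_lit 207898976861) (nat_lit 70) (nat_lit 5) (nat_lit 69) (nat_lit 5) (nat_lit 79) (nat_lit 5) (nat_lit 300) (nat_lit 297) (nat_lit 123))) (XT.nd (nat_lit 78) (nat_lit 0) (nat_lit 76) (XT.lf (nat_lit 0) (nat_lit 190347659561) (nat_lit 684) (nat_lit 36032282550) (nat_lit 760) (nat_lit 161233888687) (nat_lit 70) (nat_lit 5) (nat_lit 79) (nat_lit 5) (nat_lit 80) (nat_lit 5) (nat_lit 301) (nat_lit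 297) (nat_lit 122)) (XT.nd (nat_lit 78) (nat_lit 0) (nat_lit 0) (XT.lf (nat_lit 0) (nat_lit 224258105702) (nat_lit 684) (nat_lit 159751695806) (nat_lit 760) (nat_lit 20219715240) (nat_lit 71) (nat_lit 5) (nat_lit 80) (nat_lit 5) (nat_lit 81) (nat_lit 5) (nat_lit 302) (nat_lit 297) (nat_lit 121)) (XT.lf (nat_lit 76) (nat_lit 126803338562) (nat_lit 0) (nat_lit 140512868914) (nat_lit 760) (nat_lit 154536509325) (nat_lit 72) (nat_lit 5) (nat_lit 71) (nat_lit 5) (nat_lit 81) (nat_lit 5) (nat_lit 303) (nat_lit 297) (nat_lit 120))))) (XT.nd (nat_lit 156) (nat_lit 760) (nat_lit 0) (XT.nd (nat_lit 78) (nat_lit 684) (nat_lit 0) (XT.lf (nat_lit 0) (nat_lit 318559292106) (nat_lit 684) (nat_lit 716851468) (nat_lit 76) (nat_lit 121372612761) (nat_lit 72) (nat_lit 5) (nat_lit 81) (nat_lit 5) (nat_lit 73) (nat_lit 5) (nat_lit 304) (nat_lit 297) (nat_lit 119)) (XT.lf (nat_lit 0) (nat_lit 325201401637)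 (nat_lit 684) (nat_lit 56146975789) (nat_lit 760) (nat_lit 79227774102) (nat_lit 63) (nat_lit 5) (nat_lit 72) (nat_lit 5) (nat_lit 73) (nat_lit 5) (nat_lit 305) (nat_lit 297) (nat_lit 118))) (XT.nd (nat_lit 78) (nat_lit 456) (nat_lit 0) (XT.lf (nat_lit 0) (nat_lit 197894995068) (nat_lit 304) (nat_lit 257928157025) (nat_lit 380) (nat_lit 25941458297) (nat_lit 59) (nat_lit 5) (nat_lit 63) (nat_lit 5) (nat_lit 64) (nat_lit 5) (nat_lit 306) (nat_lit 297) (nat_lit 117)) (XT.nd (nat_lit 78) (nat_lit 0) (nat_lit 0) (XT.lf (nat_lit 0) (nat_lit 35222911182) (nat_lit 456) (nat_lit 446255698094) (nat_lit 76) (nat_lit 22913522846) (nat_lit 53) (nat_lit 5) (nat_lit 59) (nat_lit 5) (nat_lit 54) (nat_lit 5) (nat_lit 307) (nat_lit 297) (nat_lit 116)) (XT.lf (nat_lit 0) (nat_lit 109758700150) (nat_lit 456) (nat_lit 95810426319) (nat_lit 76) (nat_lit 322770109166) (nat_lit 53) (nat_lit 5) (nat_lit 59)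 (nat_lit 5) (nat_lit 54) (nat_lit 5) (nat_lit 308) (nat_lit 297) (nat_lit 115))))))) (XT.nd (nat_lit 37284) (nat_lit 0) (nat_lit 304) (XT.nd (nat_lit 36894) (nat_lit 0) (nat_lit 1824) (XT.nd (nat_lit 36660) (nat_lit 0) (nat_lit 1748) (XT.nd (nat_lit 78) (nat_lit 304) (nat_lit 0) (XT.lf (nat_lit 0) (nat_lit 196334078243) (nat_lit 380) (nat_lit 263474935579) (nat_lit 76) (nat_lit 94089257442) (nat_lit 49) (nat_lit 5) (nat_lit 54) (nat_lit 5) (nat_lit 50) (nat_lit 5) (nat_lit 309) (nat_lit 297) (nat_lit 114)) (XT.lf (nat_lit 0) (nat_lit 130233174826) (nat_lit 304) (nat_lit 166798162779) (nat_lit 380) (nat_lit 284110899714) (nat_lit 45) (nat_lit 5) (nat_lit 49) (nat_lit 5) (nat_lit 50) (nat_lit 5) (nat_lit 310) (nat_lit 297) (nat_lit 113))) (XT.nd (nat_lit 78) (nat_lit 0) (nat_lit 0) (XT.lf (nat_lit 0) (nat_lit 33532906994) (nat_lit 0) (nat_lit 33532906994) (nat_lit 684) (nat_lit 111281265037)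 (nat_lit 68) (nat_lit 5) (nat_lit 68) (nat_lit 3) (nat_lit 77) (nat_lit 3) (nat_lit 298) (nat_lit 298) (nat_lit 124)) (XT.nd (nat_lit 78) (nat_lit 0) (nat_lit 76) (XT.lf (nat_lit 0) (nat_lit 142331478977) (nat_lit 684) (nat_lit 52789963719) (nat_lit 760) (nat_lit 175698749744) (nat_lit 68) (nat_lit 5) (nat_lit 77) (nat_lit 3) (nat_lit 78) (nat_lit 5) (nat_lit 299) (nat_lit 298) (nat_lit 123)) (XT.lf (nat_lit 0) (nat_lit 156400912516) (nat_lit 684) (nat_lit 178144762869) (nat_lit 760) (nat_lit 51269954735) (nat_lit 69) (nat_lit 5) (nat_lit 78) (nat_lit 5) (nat_lit 79) (nat_lit 5) (nat_lit 300) (nat_lit 298) (nat_lit 122))))) (XT.nd (nat_lit 156) (nat_lit 0) (nat_lit 152) (XT.nd (nat_lit 78) (nat_lit 0) (nat_lit 76) (XT.lf (nat_lit 76) (nat_lit 88413515035) (nat_lit 0) (nat_lit 88787446652) (nat_lit 760) (nat_lit 224529488326) (nat_lit 70) (nat_lit 5) (nat_lit 69) (nat_lit 5) (nat_lit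 79) (nat_lit 5) (nat_lit 301) (nat_lit 298) (nat_lit 121)) (XT.lf (nat_lit 0) (nat_lit 205576701981) (nat_lit 684) (nat_lit 38913978780) (nat_lit 760) (nat_lit 174132190601) (nat_lit 70) (nat_lit 5) (nat_lit 79) (nat_lit 5) (nat_lit 80) (nat_lit 5) (nat_lit 302) (nat_lit 298) (nat_lit 120))) (XT.nd (nat_lit 78) (nat_lit 0) (nat_lit 0) (XT.lf (nat_lit 0) (nat_lit 242199901219) (nat_lit 684) (nat_lit 172530917190) (nat_lit 760) (nat_lit 21836998235) (nat_lit 71) (nat_lit 5) (nat_lit 80) (nat_lit 5) (nat_lit 81) (nat_lit 5) (nat_lit 303) (nat_lit 298) (nat_lit 119)) (XT.nd (nat_lit 78) (nat_lit 0) (nat_lit 76) (XT.lf (nat_lit 76) (nat_lit 136948480194) (nat_lit 0) (nat_lit 151754099628) (nat_lit 760) (nat_lit 166898296748) (nat_lit 72) (nat_lit 5) (nat_lit 71) (nat_lit 5) (nat_lit 81) (nat_lit 5) (nat_lit 304) (nat_lit 298) (nat_lit 118)) (XT.lf (nat_lit 0) (nat_lit 344045028628) (nat_lit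 684) (nat_lit 773333600) (nat_lit 76) (nat_lit 131082241448) (nat_lit 72) (nat_lit 5) (nat_lit 81) (nat_lit 5) (nat_lit 73) (nat_lit 5) (nat_lit 305) (nat_lit 298) (nat_lit 117)))))) (XT.nd (nat_lit 36972) (nat_lit 0) (nat_lit 1444) (XT.nd (nat_lit 156) (nat_lit 760) (nat_lit 0) (XT.nd (nat_lit 78) (nat_lit 304) (nat_lit 0) (XT.lf (nat_lit 0) (nat_lit 351218342118) (nat_lit 684) (nat_lit 60638838022) (nat_lit 760) (nat_lit 85565013636) (nat_lit 63) (nat_lit 5) (nat_lit 72) (nat_lit 5) (nat_lit 73) (nat_lit 5) (nat_lit 306) (nat_lit 298) (nat_lit 116)) (XT.lf (nat_lit 0) (nat_lit 213727436286) (nat_lit 304) (nat_lit 278562443053) (nat_lit 380) (nat_lit 28015853121) (nat_lit 59) (nat_lit 5) (nat_lit 63) (nat_lit 5) (nat_lit 64) (nat_lit 5) (nat_lit 307) (nat_lit 298) (nat_lit 115))) (XT.nd (nat_lit 78) (nat_lit 304) (nat_lit 0) (XT.lf (nat_lit 0) (nat_lit 38041583313) (nat_lit 456) (nat_lit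 481955273275) (nat_lit 76) (nat_lit 24746601489) (nat_lit 53) (nat_lit 5) (nat_lit 59) (nat_lit 5) (nat_lit 54) (nat_lit 5) (nat_lit 308) (nat_lit 298) (nat_lit 114)) (XT.nd (nat_lit 78) (nat_lit 304) (nat_lit 0) (XT.lf (nat_lit 0) (nat_lit 118540173233) (nat_lit 456) (nat_lit 103474444992) (nat_lit 76) (nat_lit 348591714951) (nat_lit 53) (nat_lit 5) (nat_lit 59) (nat_lit 5) (nat_lit 54) (nat_lit 5) (nat_lit 309) (nat_lit 298) (nat_lit 113)) (XT.lf (nat_lit 0) (nat_lit 212041536945) (nat_lit 380) (nat_lit 284552112328) (nat_lit 76) (nat_lit 101616444797) (nat_lit 49) (nat_lit 5) (nat_lit 54) (nat_lit 5) (nat_lit 50) (nat_lit 5) (nat_lit 310) (nat_lit 298) (nat_lit 112))))) (XT.nd (nat_lit 156) (nat_lit 0) (nat_lit 76) (XT.nd (nat_lit 78) (nat_lit 0) (nat_lit 0) (XT.lf (nat_lit 0) (nat_lit 36215898253) (nat_lit 0) (nat_lit 36215898253) (nat_lit 684) (nat_lit 120183010394) (nat_lit 68)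 (nat_lit 5) (nat_lit 68) (nat_lit 3) (nat_lit 77) (nat_lit 3) (nat_lit 299) (nat_lit 299) (nat_lit 122)) (XT.lf (nat_lit 0) (nat_lit 153719315441) (nat_lit 684) (nat_lit 57012414990) (nat_lit 760) (nat_lit 189754006725) (nat_lit 68) (nat_lit 5) (nat_lit 77) (nat_lit 3) (nat_lit 78) (nat_lit 5) (nat_lit 300) (nat_lit 299) (nat_lit 121))) (XT.nd (nat_lit 78) (nat_lit 0) (nat_lit 0) (XT.lf (nat_lit 0) (nat_lit 168914209071) (nat_lit 684) (nat_lit 192395556393) (nat_lit 760) (nat_lit 55371049471) (nat_lit 69) (nat_lit 5) (nat_lit 78) (nat_lit 5) (nat_lit 79) (nat_lit 5) (nat_lit 301) (nat_lit 299) (nat_lit 120)) (XT.nd (nat_lit 78) (nat_lit 0) (nat_lit 76) (XT.lf (nat_lit 76) (nat_lit 95487349519) (nat_lit 0) (nat_lit 95890833783) (nat_lit 760) (nat_lit 242490641387) (nat_lit 70) (nat_lit 5) (nat_lit 69) (nat_lit 5) (nat_lit 79) (nat_lit 5) (nat_lit 302) (nat_lit 299) (nat_lit 119)) (XT.lf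 (nat_lit 0) (nat_lit 222023892371) (nat_lit 684) (nat_lit 42026337159) (nat_lit 760) (nat_lit 188062415042) (nat_lit 70) (nat_lit 5) (nat_lit 79) (nat_lit 5) (nat_lit 80) (nat_lit 5) (nat_lit 303) (nat_lit 299) (nat_lit 118))))))))
noncomputable def xc127 : XT := (XT.nd (nat_lit 75036) (nat_lit 0) (nat_lit 1140) (XT.nd (nat_lit 37440) (nat_lit 0) (nat_lit 456) (XT.nd (nat_lit 312) (nat_lit 760) (nat_lit 0) (XT.nd (nat_lit 156) (nat_lit 608) (nat_lit 0) (XT.nd (nat_lit 78) (nat_lit 0) (nat_lit 0) (XT.lf (nat_lit 0) (nat_lit 261576876737) (nat_lit 684) (nat_lit 186332606717) (nat_lit 760) (nat_lit 23583705843) (nat_lit 71) (nat_lit 5) (nat_lit 80) (nat_lit 5) (nat_lit 81) (nat_lit 5) (nat_lit 304) (nat_lit 299) (nat_lit 117)) (XT.lf (nat_lit 76) (nat_lit 147905108393) (nat_lit 0) (nat_lit 163894600096) (nat_lit 760) (nat_lit 180249188846) (nat_lit 72) (nat_lit 5) (nat_lit 71) (nat_lit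 5) (nat_lit 81) (nat_lit 5) (nat_lit 305) (nat_lit 299) (nat_lit 116))) (XT.nd (nat_lit 78) (nat_lit 684) (nat_lit 0) (XT.lf (nat_lit 0) (nat_lit 371569482388) (nat_lit 684) (nat_lit 834457846) (nat_lit 76) (nat_lit 141568666156) (nat_lit 72) (nat_lit 5) (nat_lit 81) (nat_lit 5) (nat_lit 73) (nat_lit 5) (nat_lit 306) (nat_lit 299) (nat_lit 115)) (XT.lf (nat_lit 0) (nat_lit 379316519664) (nat_lit 684) (nat_lit 65490034373) (nat_lit 760) (nat_lit 92409372483) (nat_lit 63) (nat_lit 5) (nat_lit 72) (nat_lit 5) (nat_lit 73) (nat_lit 5) (nat_lit 307) (nat_lit 299) (nat_lit 114)))) (XT.nd (nat_lit 36894) (nat_lit 0) (nat_lit 1140) (XT.nd (nat_lit 78) (nat_lit 456) (nat_lit 0) (XT.lf (nat_lit 0) (nat_lit 230826352737) (nat_lit 304) (nat_lit 300847467189) (nat_lit 380) (nat_lit 30256331042) (nat_lit 59) (nat_lit 5) (nat_lit 63) (nat_lit 5) (nat_lit 64) (nat_lit 5) (nat_lit 308) (nat_lit 299)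 (nat_lit 113)) (XT.lf (nat_lit 0) (nat_lit 41085629488) (nat_lit 456) (nat_lit 520510940108) (nat_lit 76) (nat_lit 26726326879) (nat_lit 53) (nat_lit 5) (nat_lit 59) (nat_lit 5) (nat_lit 54) (nat_lit 5) (nat_lit 309) (nat_lit 299) (nat_lit 112))) (XT.nd (nat_lit 78) (nat_lit 0) (nat_lit 0) (XT.lf (nat_lit 0) (nat_lit 39113477641) (nat_lit 0) (nat_lit 39113477641) (nat_lit 684) (nat_lit 129797003210) (nat_lit 68) (nat_lit 5) (nat_lit 68) (nat_lit 3) (nat_lit 77) (nat_lit 3) (nat_lit 300) (nat_lit 300) (nat_lit 120)) (XT.nd (nat_lit 78) (nat_lit 0) (nat_lit 76) (XT.lf (nat_lit 0) (nat_lit 166017990774) (nat_lit 684) (nat_lit 61572768763) (nat_lit 760) (nat_lit 204933775996) (nat_lit 68) (nat_lit 5) (nat_lit 77) (nat_lit 3) (nat_lit 78) (nat_lit 5) (nat_lit 301) (nat_lit 300) (nat_lit 119)) (XT.lf (nat_lit 0) (nat_lit 182428394796) (nat_lit 684) (nat_lit 207786525745) (nat_lit 760) (nat_lit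 59800303350) (nat_lit 69) (nat_lit 5) (nat_lit 78) (nat_lit 5) (nat_lit 79) (nat_lit 5) (nat_lit 302) (nat_lit 300) (nat_lit 118)))))) (XT.nd (nat_lit 390) (nat_lit 760) (nat_lit 0) (XT.nd (nat_lit 156) (nat_lit 0) (nat_lit 152) (XT.nd (nat_lit 78) (nat_lit 0) (nat_lit 76) (XT.lf (nat_lit 76) (nat_lit 103126983298) (nat_lit 0) (nat_lit 103562436047) (nat_lit 760) (nat_lit 261888858743) (nat_lit 70) (nat_lit 5) (nat_lit 69) (nat_lit 5) (nat_lit 79) (nat_lit 5) (nat_lit 303) (nat_lit 300) (nat_lit 117)) (XT.lf (nat_lit 0) (nat_lit 239786707594) (nat_lit 684) (nat_lit 45387792620) (nat_lit 760) (nat_lit 203107107485) (nat_lit 70) (nat_lit 5) (nat_lit 79) (nat_lit 5) (nat_lit 80) (nat_lit 5) (nat_lit 304) (nat_lit 300) (nat_lit 116))) (XT.nd (nat_lit 78) (nat_lit 0) (nat_lit 0) (XT.lf (nat_lit 0) (nat_lit 282503870000) (nat_lit 684) (nat_lit 201238543231) (nat_lit 760) (nat_lit 25470186047)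 (nat_lit 71) (nat_lit 5) (nat_lit 80) (nat_lit 5) (nat_lit 81) (nat_lit 5) (nat_lit 305) (nat_lit 300) (nat_lit 115)) (XT.nd (nat_lit 78) (nat_lit 0) (nat_lit 76) (XT.lf (nat_lit 76) (nat_lit 159738159883) (nat_lit 0) (nat_lit 177006315992) (nat_lit 760) (nat_lit 194668290928) (nat_lit 72) (nat_lit 5) (nat_lit 71) (nat_lit 5) (nat_lit 81) (nat_lit 5) (nat_lit 306) (nat_lit 300) (nat_lit 114)) (XT.lf (nat_lit 0) (nat_lit 401295770977) (nat_lit 684) (nat_lit 900577949) (nat_lit 76) (nat_lit 152894026897) (nat_lit 72) (nat_lit 5) (nat_lit 81) (nat_lit 5) (nat_lit 73) (nat_lit 5) (nat_lit 307) (nat_lit 300) (nat_lit 113))))) (XT.nd (nat_lit 36972) (nat_lit 0) (nat_lit 684) (XT.nd (nat_lit 78) (nat_lit 304) (nat_lit 0) (XT.lf (nat_lit 0) (nat_lit 409662450100) (nat_lit 684) (nat_lit 70729313691) (nat_lit 760) (nat_lit 99801400193) (nat_lit 63) (nat_lit 5) (nat_lit 72) (nat_lit 5) (nat_lit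 73) (nat_lit 5) (nat_lit 308) (nat_lit 300) (nat_lit 112)) (XT.lf (nat_lit 0) (nat_lit 249293079566) (nat_lit 304) (nat_lit 324915289162) (nat_lit 380) (nat_lit 32676159946) (nat_lit 59) (nat_lit 5) (nat_lit 63) (nat_lit 5) (nat_lit 64) (nat_lit 5) (nat_lit 309) (nat_lit 300) (nat_lit 111))) (XT.nd (nat_lit 78) (nat_lit 0) (nat_lit 0) (XT.lf (nat_lit 0) (nat_lit 42242819507) (nat_lit 0) (nat_lit 42242819507) (nat_lit 684) (nat_lit 140180207898) (nat_lit 68) (nat_lit 5) (nat_lit 68) (nat_lit 3) (nat_lit 77) (nat_lit 3) (nat_lit 301) (nat_lit 301) (nat_lit 118)) (XT.nd (nat_lit 78) (nat_lit 0) (nat_lit 76) (XT.lf (nat_lit 0) (nat_lit 179300398913) (nat_lit 684) (nat_lit 66498042059) (nat_lit 760) (nat_lit 221328005453) (nat_lit 68) (nat_lit 5) (nat_lit 77) (nat_lit 3) (nat_lit 78) (nat_lit 5) (nat_lit 302) (nat_lit 301) (nat_lit 117)) (XT.lf (nat_lit 0) (nat_lit 197023565727) (nat_lit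 684) (nat_lit 224408868965) (nat_lit 760) (nat_lit 64583958896) (nat_lit 69) (nat_lit 5) (nat_lit 78) (nat_lit 5) (nat_lit 79) (nat_lit 5) (nat_lit 303) (nat_lit 301) (nat_lit 116))))))) (XT.nd (nat_lit 37752) (nat_lit 0) (nat_lit 0) (XT.nd (nat_lit 37362) (nat_lit 76) (nat_lit 0) (XT.nd (nat_lit 156) (nat_lit 0) (nat_lit 152) (XT.nd (nat_lit 78) (nat_lit 0) (nat_lit 76) (XT.lf (nat_lit 76) (nat_lit 111377695646) (nat_lit 0) (nat_lit 111847718620) (nat_lit 760) (nat_lit 282839080992) (nat_lit 70) (nat_lit 5) (nat_lit 69) (nat_lit 5) (nat_lit 79) (nat_lit 5) (nat_lit 304) (nat_lit 301) (nat_lit 115)) (XT.lf (nat_lit 0) (nat_lit 258970419092) (nat_lit 684) (nat_lit 49018257464) (nat_lit 760) (nat_lit 219355418230) (nat_lit 70) (nat_lit 5) (nat_lit 79) (nat_lit 5) (nat_lit 80) (nat_lit 5) (nat_lit 305) (nat_lit 301) (nat_lit 114))) (XT.nd (nat_lit 78) (nat_lit 0) (nat_lit 0) (XT.lf (nat_lit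 0) (nat_lit 305104902443) (nat_lit 684) (nat_lit 217337050538) (nat_lit 760) (nat_lit 27507615519) (nat_lit 71) (nat_lit 5) (nat_lit 80) (nat_lit 5) (nat_lit 81) (nat_lit 5) (nat_lit 306) (nat_lit 301) (nat_lit 113)) (XT.nd (nat_lit 78) (nat_lit 0) (nat_lit 76) (XT.lf (nat_lit 76) (nat_lit 172517763786) (nat_lit 0) (nat_lit 191166948062) (nat_lit 760) (nat_lit 210241040017) (nat_lit 72) (nat_lit 5) (nat_lit 71) (nat_lit 5) (nat_lit 81) (nat_lit 5) (nat_lit 307) (nat_lit 301) (nat_lit 112)) (XT.lf (nat_lit 0) (nat_lit 433400058511) (nat_lit 684) (nat_lit 972078468) (nat_lit 76) (nat_lit 165125435408) (nat_lit 72) (nat_lit 5) (nat_lit 81) (nat_lit 5) (nat_lit 73) (nat_lit 5) (nat_lit 308) (nat_lit 301) (nat_lit 111))))) (XT.nd (nat_lit 156) (nat_lit 0) (nat_lit 76) (XT.nd (nat_lit 78) (nat_lit 0) (nat_lit 0) (XT.lf (nat_lit 0) (nat_lit 45622471109) (nat_lit 0) (nat_lit 45622471109) (nat_lit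 684) (nat_lit 151394148219) (nat_lit 68) (nat_lit 5) (nat_lit 68) (nat_lit 3) (nat_lit 77) (nat_lit 3) (nat_lit 302) (nat_lit 302) (nat_lit 116)) (XT.lf (nat_lit 0) (nat_lit 193645261482) (nat_lit 684) (nat_lit 71817415427) (nat_lit 760) (nat_lit 239033840691) (nat_lit 68) (nat_lit 5) (nat_lit 77) (nat_lit 3) (nat_lit 78) (nat_lit 5) (nat_lit 303) (nat_lit 302) (nat_lit 115))) (XT.nd (nat_lit 78) (nat_lit 0) (nat_lit 0) (XT.lf (nat_lit 0) (nat_lit 212786222032) (nat_lit 684) (nat_lit 242361082220) (nat_lit 760) (nat_lit 69750359487) (nat_lit 69) (nat_lit 5) (nat_lit 78) (nat_lit 5) (nat_lit 79) (nat_lit 5) (nat_lit 304) (nat_lit 302) (nat_lit 114)) (XT.nd (nat_lit 78) (nat_lit 0) (nat_lit 76) (XT.lf (nat_lit 76) (nat_lit 120288385993) (nat_lit 0) (nat_lit 120795782757) (nat_lit 760) (nat_lit 305465447484) (nat_lit 70) (nat_lit 5) (nat_lit 69) (nat_lit 5) (nat_lit 79) (nat_lit 5) (nat_lit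 305) (nat_lit 302) (nat_lit 113)) (XT.lf (nat_lit 0) (nat_lit 279688716964) (nat_lit 684) (nat_lit 52939239180) (nat_lit 760) (nat_lit 236903630621) (nat_lit 70) (nat_lit 5) (nat_lit 79) (nat_lit 5) (nat_lit 80) (nat_lit 5) (nat_lit 306) (nat_lit 302) (nat_lit 112)))))) (XT.nd (nat_lit 37440) (nat_lit 0) (nat_lit 0) (XT.nd (nat_lit 37206) (nat_lit 228) (nat_lit 0) (XT.nd (nat_lit 78) (nat_lit 0) (nat_lit 0) (XT.lf (nat_lit 0) (nat_lit 329513914360) (nat_lit 684) (nat_lit 234723520624) (nat_lit 760) (nat_lit 29708065801) (nat_lit 71) (nat_lit 5) (nat_lit 80) (nat_lit 5) (nat_lit 81) (nat_lit 5) (nat_lit 307) (nat_lit 302) (nat_lit 111)) (XT.lf (nat_lit 76) (nat_lit 186319657380) (nat_lit 0) (nat_lit 206460412610) (nat_lit 760) (nat_lit 227059710919) (nat_lit 72) (nat_lit 5) (nat_lit 71) (nat_lit 5) (nat_lit 81) (nat_lit 5) (nat_lit 308) (nat_lit 302) (nat_lit 110))) (XT.nd (nat_lit 78)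 (nat_lit 0) (nat_lit 0) (XT.lf (nat_lit 0) (nat_lit 49272462592) (nat_lit 0) (nat_lit 49272462592) (nat_lit 684) (nat_lit 163505271716) (nat_lit 68) (nat_lit 5) (nat_lit 68) (nat_lit 3) (nat_lit 77) (nat_lit 3) (nat_lit 303) (nat_lit 303) (nat_lit 114)) (XT.nd (nat_lit 78) (nat_lit 0) (nat_lit 76) (XT.lf (nat_lit 0) (nat_lit 209137594554) (nat_lit 684) (nat_lit 77562405714) (nat_lit 760) (nat_lit 258156200555) (nat_lit 68) (nat_lit 5) (nat_lit 77) (nat_lit 3) (nat_lit 78) (nat_lit 5) (nat_lit 304) (nat_lit 303) (nat_lit 113)) (XT.lf (nat_lit 0) (nat_lit 229809780842) (nat_lit 684) (nat_lit 261749543333) (nat_lit 760) (nat_lit 75330117224) (nat_lit 69) (nat_lit 5) (nat_lit 78) (nat_lit 5) (nat_lit 79) (nat_lit 5) (nat_lit 305) (nat_lit 303) (nat_lit 112))))) (XT.nd (nat_lit 37362) (nat_lit 76) (nat_lit 0) (XT.nd (nat_lit 78) (nat_lit 0) (nat_lit 76) (XT.lf (nat_lit 76) (nat_lit 129911863847)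 (nat_lit 0) (nat_lit 130459656839) (nat_lit 760) (nat_lit 329902031716) (nat_lit 70) (nat_lit 5) (nat_lit 69) (nat_lit 5) (nat_lit 79) (nat_lit 5) (nat_lit 306) (nat_lit 303) (nat_lit 111)) (XT.lf (nat_lit 0) (nat_lit 302064383889) (nat_lit 684) (nat_lit 57173967752) (nat_lit 760) (nat_lit 255855731540) (nat_lit 70) (nat_lit 5) (nat_lit 79) (nat_lit 5) (nat_lit 80) (nat_lit 5) (nat_lit 307) (nat_lit 303) (nat_lit 110))) (XT.nd (nat_lit 78) (nat_lit 0) (nat_lit 0) (XT.lf (nat_lit 0) (nat_lit 53214425747) (nat_lit 0) (nat_lit 53214425747) (nat_lit 684) (nat_lit 176585343351) (nat_lit 68) (nat_lit 5) (nat_lit 68) (nat_lit 3) (nat_lit 77) (nat_lit 3) (nat_lit 304) (nat_lit 304) (nat_lit 112)) (XT.nd (nat_lit 78) (nat_lit 0) (nat_lit 76) (XT.lf (nat_lit 0) (nat_lit 225869212675) (nat_lit 684) (nat_lit 83767052709) (nat_lit 760) (nat_lit 278808398767) (nat_lit 68) (nat_lit 5) (nat_lit 77)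 (nat_lit 3) (nat_lit 78) (nat_lit 5) (nat_lit 305) (nat_lit 304) (nat_lit 111)) (XT.lf (nat_lit 0) (nat_lit 248195130051) (nat_lit 684) (nat_lit 282689142032) (nat_lit 760) (nat_lit 81356294244) (nat_lit 69) (nat_lit 5) (nat_lit 78) (nat_lit 5) (nat_lit 79) (nat_lit 5) (nat_lit 306) (nat_lit 304) (nat_lit 110))))))))

set_option maxRecDepth 10000000 in
noncomputable def Tp : PT := (PT.nd (nat_lit 4586400) (PT.nd (nat_lit 4361448) (PT.nd (nat_lit 4136730) pc0 pc1) (PT.nd (nat_lit 112866) pc2 pc3)) (PT.nd (nat_lit 149448) (PT.nd (nat_lit 75036) pc4 pc5) (PT.nd (nat_lit 74490) pc6 pc7)))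

set_option maxRecDepth 10000000 in
noncomputable def Tx : XT := (XT.nd (nat_lit 7416474) (nat_lit 0) (nat_lit 76) XT.nil (XT.nd (nat_lit 4012944) (nat_lit 0) (nat_lit 0) (XT.nd (nat_lit 1872312) (nat_lit 0) (nat_lit 0) (XT.nd (nat_lit 1274988) (nat_lit 0) (nat_lit 0) (XT.nd (nat_lit 898248) (nat_lit 0) (nat_lit 0) (XT.nd (nat_lit 635466) (nat_lit 0) (nat_lit 0) (XT.nd (nat_lit 412776) (nat_lit 0) (nat_lit 0) (XT.nd (nat_lit 299286) (nat_lit 0) (nat_lit 0) (XT.nd (nat_lit 187434) (nat_lit 0) (nat_lit 0) xc0 xc1) (XT.nd (nat_lit 74802) (nat_lit 0) (nat_lit 0) xc2 xc3)) (XT.nd (nat_lit 112008) (nat_lit 0) (nat_lit 0) (XT.nd (nat_lit 73788) (nat_lit 0) (nat_lit 0) xc4 xc5) (XT.nd (nat_lit 38064) (nat_lit 0) (nat_lit 0) xc6 xc7))) (XT.nd (nat_lit 149370) (nat_lit 0) (nat_lit 0) (XT.nd (nat_lit 74958) (nat_lit 0) (nat_lit 0) (XT.nd (nat_lit 37518) (nat_lit 0) (nat_lit 0) xc8 xc9) (XT.nd (nat_lit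 37284) (nat_lit 0) (nat_lit 0) xc10 xc11)) (XT.nd (nat_lit 39936) (nat_lit 0) (nat_lit 0) (XT.nd (nat_lit 2964) (nat_lit 0) (nat_lit 0) xc12 xc13) (XT.nd (nat_lit 36816) (nat_lit 0) (nat_lit 0) xc14 xc15)))) (XT.nd (nat_lit 223080) (nat_lit 0) (nat_lit 0) (XT.nd (nat_lit 112242) (nat_lit 0) (nat_lit 0) (XT.nd (nat_lit 39546) (nat_lit 0) (nat_lit 0) (XT.nd (nat_lit 36504) (nat_lit 0) (nat_lit 0) xc16 xc17) (XT.nd (nat_lit 36426) (nat_lit 0) (nat_lit 0) xc18 xc19)) (XT.nd (nat_lit 39078) (nat_lit 0) (nat_lit 0) (XT.nd (nat_lit 36036) (nat_lit 0) (nat_lit 0) xc20 xc21) (XT.nd (nat_lit 35958) (nat_lit 0) (nat_lit 0) xc22 xc23))) (XT.nd (nat_lit 77142) (nat_lit 0) (nat_lit 0) (XT.nd (nat_lit 38610) (nat_lit 0) (nat_lit 0) (XT.nd (nat_lit 2964) (nat_lit 0) (nat_lit 0) xc24 xc25) (XT.nd (nat_lit 3042) (nat_lit 0) (nat_lit 0) xc26 xc27)) (XT.nd (nat_lit 38298) (nat_lit 0) (nat_lit 0) (XT.nd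 (nat_lit 35256) (nat_lit 0) (nat_lit 0) xc28 xc29) (XT.nd (nat_lit 35178) (nat_lit 0) (nat_lit 0) xc30 xc31))))) (XT.nd (nat_lit 300144) (nat_lit 0) (nat_lit 0) (XT.nd (nat_lit 182598) (nat_lit 0) (nat_lit 0) (XT.nd (nat_lit 107562) (nat_lit 0) (nat_lit 0) (XT.nd (nat_lit 37986) (nat_lit 0) (nat_lit 0) (XT.nd (nat_lit 34944) (nat_lit 0) (nat_lit 0) xc32 xc33) (XT.nd (nat_lit 34866) (nat_lit 0) (nat_lit 0) xc34 xc35)) (XT.nd (nat_lit 37518) (nat_lit 0) (nat_lit 0) (XT.nd (nat_lit 2964) (nat_lit 76) (nat_lit 0) xc36 xc37) (XT.nd (nat_lit 3042) (nat_lit 76) (nat_lit 0) xc38 xc39))) (XT.nd (nat_lit 74490) (nat_lit 0) (nat_lit 0) (XT.nd (nat_lit 37284) (nat_lit 0) (nat_lit 0) (XT.nd (nat_lit 2964) (nat_lit 152) (nat_lit 0) xc40 xc41) (XT.nd (nat_lit 3042) (nat_lit 228) (nat_lit 0) xc42 xc43)) (XT.nd (nat_lit 6006) (nat_lit 0) (nat_lit 0) (XT.nd (nat_lit 2964) (nat_lit 380) (nat_lit 0) xc44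 xc45) (XT.nd (nat_lit 34008) (nat_lit 0) (nat_lit 0) xc46 xc47)))) (XT.nd (nat_lit 147888) (nat_lit 0) (nat_lit 0) (XT.nd (nat_lit 73788) (nat_lit 0) (nat_lit 0) (XT.nd (nat_lit 36816) (nat_lit 0) (nat_lit 0) (XT.nd (nat_lit 33774) (nat_lit 0) (nat_lit 0) xc48 xc49) (XT.nd (nat_lit 33930) (nat_lit 0) (nat_lit 76) xc50 xc51)) (XT.nd (nat_lit 36972) (nat_lit 0) (nat_lit 0) (XT.nd (nat_lit 33930) (nat_lit 0) (nat_lit 228) xc52 xc53) (XT.nd (nat_lit 34086) (nat_lit 0) (nat_lit 304) xc54 xc55))) (XT.nd (nat_lit 74412) (nat_lit 0) (nat_lit 0) (XT.nd (nat_lit 37128) (nat_lit 0) (nat_lit 0) (XT.nd (nat_lit 34086) (nat_lit 0) (nat_lit 532) xc56 xc57) (XT.nd (nat_lit 3042) (nat_lit 0) (nat_lit 0) xc58 xc59)) (XT.nd (nat_lit 37362) (nat_lit 0) (nat_lit 0) (XT.nd (nat_lit 2964) (nat_lit 0) (nat_lit 0) xc60 xc61) (XT.nd (nat_lit 3042) (nat_lit 0) (nat_lit 0) xc62 xc63)))))) (XT.nd (nat_lit 677196)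 (nat_lit 0) (nat_lit 76) (XT.nd (nat_lit 302796) (nat_lit 0) (nat_lit 0) (XT.nd (nat_lit 150696) (nat_lit 0) (nat_lit 0) (XT.nd (nat_lit 75192) (nat_lit 0) (nat_lit 0) (XT.nd (nat_lit 37518) (nat_lit 0) (nat_lit 0) (XT.nd (nat_lit 2964) (nat_lit 0) (nat_lit 0) xc64 xc65) (XT.nd (nat_lit 3042) (nat_lit 0) (nat_lit 0) xc66 xc67)) (XT.nd (nat_lit 37674) (nat_lit 0) (nat_lit 0) (XT.nd (nat_lit 2964) (nat_lit 0) (nat_lit 0) xc68 xc69) (XT.nd (nat_lit 3042) (nat_lit 0) (nat_lit 0) xc70 xc71))) (XT.nd (nat_lit 75816) (nat_lit 0) (nat_lit 0) (XT.nd (nat_lit 37830) (nat_lit 0) (nat_lit 0) (XT.nd (nat_lit 34788) (nat_lit 0) (nat_lit 608) xc72 xc73) (XT.nd (nat_lit 34944) (nat_lit 0) (nat_lit 380) xc74 xc75)) (XT.nd (nat_lit 38064) (nat_lit 0) (nat_lit 0) (XT.nd (nat_lit 35022) (nat_lit 0) (nat_lit 304) xc76 xc77) (XT.nd (nat_lit 35178) (nat_lit 0) (nat_lit 76) xc78 xc79)))) (XT.nd (nat_lit 186030)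 (nat_lit 0) (nat_lit 76) (XT.nd (nat_lit 108966) (nat_lit 0) (nat_lit 76) (XT.nd (nat_lit 38220) (nat_lit 0) (nat_lit 0) (XT.nd (nat_lit 35178) (nat_lit 0) (nat_lit 0) xc80 xc81) (XT.nd (nat_lit 35334) (nat_lit 0) (nat_lit 0) xc82 xc83)) (XT.nd (nat_lit 38454) (nat_lit 0) (nat_lit 0) (XT.nd (nat_lit 2964) (nat_lit 228) (nat_lit 0) xc84 xc85) (XT.nd (nat_lit 3042) (nat_lit 0) (nat_lit 0) xc86 xc87))) (XT.nd (nat_lit 110370) (nat_lit 0) (nat_lit 0) (XT.nd (nat_lit 38688) (nat_lit 0) (nat_lit 0) (XT.nd (nat_lit 35646) (nat_lit 0) (nat_lit 228) xc88 xc89) (XT.nd (nat_lit 35802) (nat_lit 0) (nat_lit 0) xc90 xc91)) (XT.nd (nat_lit 38922) (nat_lit 0) (nat_lit 0) (XT.nd (nat_lit 2964) (nat_lit 456) (nat_lit 0) xc92 xc93) (XT.nd (nat_lit 36036) (nat_lit 0) (nat_lit 532) xc94 xc95))))) (XT.nd (nat_lit 486096) (nat_lit 0) (nat_lit 456) (XT.nd (nat_lit 224172) (nat_lit 0) (nat_lit 228) (XT.nd (nat_lit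 111696) (nat_lit 0) (nat_lit 152) (XT.nd (nat_lit 72306) (nat_lit 0) (nat_lit 76) (XT.nd (nat_lit 36036) (nat_lit 0) (nat_lit 76) xc96 xc97) (XT.nd (nat_lit 3042) (nat_lit 380) (nat_lit 0) xc98 xc99)) (XT.nd (nat_lit 39390) (nat_lit 0) (nat_lit 0) (XT.nd (nat_lit 36348) (nat_lit 0) (nat_lit 76) xc100 xc101) (XT.nd (nat_lit 36504) (nat_lit 0) (nat_lit 0) xc102 xc103))) (XT.nd (nat_lit 113412) (nat_lit 0) (nat_lit 0) (XT.nd (nat_lit 39702) (nat_lit 0) (nat_lit 0) (XT.nd (nat_lit 36660) (nat_lit 0) (nat_lit 0) xc104 xc105) (XT.nd (nat_lit 36816) (nat_lit 0) (nat_lit 0) xc106 xc107)) (XT.nd (nat_lit 74022) (nat_lit 0) (nat_lit 152) (XT.nd (nat_lit 36894) (nat_lit 0) (nat_lit 76) xc108 xc109) (XT.nd (nat_lit 37206) (nat_lit 0) (nat_lit 76) xc110 xc111)))) (XT.nd (nat_lit 301782) (nat_lit 0) (nat_lit 532) (XT.nd (nat_lit 149994) (nat_lit 0) (nat_lit 304) (XT.nd (nat_lit 40326) (nat_lit 0)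 (nat_lit 0) (XT.nd (nat_lit 37284) (nat_lit 0) (nat_lit 76) xc112 xc113) (XT.nd (nat_lit 37440) (nat_lit 0) (nat_lit 76) xc114 xc115)) (XT.nd (nat_lit 75582) (nat_lit 0) (nat_lit 76) (XT.nd (nat_lit 37674) (nat_lit 0) (nat_lit 76) xc116 xc117) (XT.nd (nat_lit 38064) (nat_lit 0) (nat_lit 152) xc118 xc119))) (XT.nd (nat_lit 224952) (nat_lit 0) (nat_lit 1064) (XT.nd (nat_lit 111852) (nat_lit 0) (nat_lit 304) (XT.nd (nat_lit 38064) (nat_lit 0) (nat_lit 152) xc120 xc121) (XT.nd (nat_lit 38532) (nat_lit 0) (nat_lit 532) xc122 xc123)) (XT.nd (nat_lit 150306) (nat_lit 0) (nat_lit 988) (XT.nd (nat_lit 74880) (nat_lit 0) (nat_lit 456) xc124 xc125) (XT.nd (nat_lit 112476) (nat_lit 0) (nat_lit 836) xc126 xc127))))))) XT.nil))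

set_option maxRecDepth 10000000 in
noncomputable def Te : XT := XT.nil

set_option maxRecDepth 10000000 in
noncomputable def Tz : ZL := (ZL.cons (nat_lit 76) (nat_lit 3) (nat_lit 89415399159932635897) (ZL.cons (nat_lit 152) (nat_lit 6) (nat_lit 173001672969307358530) (ZL.cons (nat_lit 228) (nat_lit 6) (nat_lit 167687980965519299798) (ZL.cons (nat_lit 304) (nat_lit 3) (nat_lit 83607989671506167304) (ZL.cons (nat_lit 380) (nat_lit 6) (nat_lit 161949193601428196370) (ZL.cons (nat_lit 456) (nat_lit 6) (nat_lit 157170105162382593364) (ZL.cons (nat_lit 532) (nat_lit 3) (nat_lit 78366533311512146131) (ZL.cons (nat_lit 608) (nat_lit 6) (nat_lit 152008689648213342118) (ZL.cons (nat_lit 684) (nat_lit 6) (nat_lit 147748066368996466234) (ZL.cons (nat_lit 760) (nat_lit 3) (nat_lit 73671700527387908532) (ZL.cons (nat_lit 836) (nat_lit 6) (nat_lit 143925948647422749786) (ZL.cons (nat_lit 912) (nat_lit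 6) (nat_lit 143146593227442240276) (ZL.cons (nat_lit 988) (nat_lit 6) (nat_lit 139393396193902486856) (ZL.cons (nat_lit 1064) (nat_lit 3) (nat_lit 69509353044071313258) (ZL.cons (nat_lit 1140) (nat_lit 6) (nat_lit 136061568786550395298) (ZL.cons (nat_lit 1216) (nat_lit 6) (nat_lit 135339943397679553162) (ZL.cons (nat_lit 1292) (nat_lit 6) (nat_lit 132088505080850276076) (ZL.cons (nat_lit 1368) (nat_lit 3) (nat_lit 65870784898869647140) (ZL.cons (nat_lit 1444) (nat_lit 6) (nat_lit 129245123355036547696) (ZL.cons (nat_lit 1520) (nat_lit 6) (nat_lit 128576951698674656826) (ZL.cons (nat_lit 1596) (nat_lit 6) (nat_lit 126792948550752064442) (ZL.cons (nat_lit 1672) (nat_lit 6) (nat_lit 125827335808046739248) (ZL.cons (nat_lit 1748) (nat_lit 3) (nat_lit 62753049717397915087) (ZL.cons (nat_lit 1824) (nat_lit 6) (nat_lit 124717449261749214560) (ZL.cons (nat_lit 1900) (nat_lit 6) (nat_lit 123476428105762931658)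 (ZL.cons (nat_lit 1976) (nat_lit 6) (nat_lit 122857750646168588260) (ZL.cons (nat_lit 2052) (nat_lit 6) (nat_lit 121510297286920811494) (ZL.cons (nat_lit 2128) (nat_lit 6) (nat_lit 120616211414045510388) (ZL.cons (nat_lit 2204) (nat_lit 3) (nat_lit 60159385163851038032) (ZL.cons (nat_lit 2280) (nat_lit 6) (nat_lit 119917292205927240270) (ZL.cons (nat_lit 2356) (nat_lit 6) (nat_lit 118768198542976978320) (ZL.cons (nat_lit 2432) (nat_lit 6) (nat_lit 118195349043352586288) (ZL.cons (nat_lit 2508) (nat_lit 3) (nat_lit 58559904887605864442) (ZL.cons (nat_lit 2584) (nat_lit 6) (nat_lit 117293363792249457920) (ZL.cons (nat_lit 2660) (nat_lit 6) (nat_lit 117815054311611757506) (ZL.cons (nat_lit 2736) (nat_lit 6) (nat_lit 118687972832672626450) (ZL.cons (nat_lit 2812) (nat_lit 6) (nat_lit 117302760845578882240) (ZL.cons (nat_lit 2888) (nat_lit 6) (nat_lit 116474903555879529364) (ZL.cons (nat_lit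 2964) (nat_lit 3) (nat_lit 58099747571299285828) (ZL.cons (nat_lit 3040) (nat_lit 6) (nat_lit 115126097966333798438) (ZL.cons (nat_lit 3116) (nat_lit 6) (nat_lit 115487090321772274838) (ZL.cons (nat_lit 3192) (nat_lit 6) (nat_lit 116211214246607381574) (ZL.cons (nat_lit 3268) (nat_lit 6) (nat_lit 115147238632764546438) (ZL.cons (nat_lit 3344) (nat_lit 6) (nat_lit 114616822429408627886) (ZL.cons (nat_lit 3420) (nat_lit 3) (nat_lit 56726811265353388533) (ZL.cons (nat_lit 3496) (nat_lit 6) (nat_lit 113641060869107524430) (ZL.cons (nat_lit 3572) (nat_lit 6) (nat_lit 114204486630018807980) (ZL.cons (nat_lit 3648) (nat_lit 6) (nat_lit 113437952102519407168) (ZL.cons (nat_lit 3724) (nat_lit 3) (nat_lit 56591472156222223162) (ZL.cons (nat_lit 3800) (nat_lit 6) (nat_lit 112266026519823937382) (ZL.cons (nat_lit 3876) (nat_lit 6) (nat_lit 112655898263697491896) (ZL.cons (nat_lit 3952) (nat_lit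 6) (nat_lit 112164772149479048792) (ZL.cons (nat_lit 4028) (nat_lit 3) (nat_lit 55676919461111027703) (ZL.cons (nat_lit 4104) (nat_lit 6) (nat_lit 111556272327694862556) (ZL.cons (nat_lit 4180) (nat_lit 3) (nat_lit 55660077001775690148) (ZL.cons (nat_lit 4256) (nat_lit 6) (nat_lit 110899092520167941424) (ZL.cons (nat_lit 4332) (nat_lit 1) (nat_lit 18446744073709551617) ZL.nil)))))))))))))))))))))))))))))))))))))))))))))))))))))))))

noncomputable def vl : XL := ⟨(nat_lit 0), (nat_lit 76), (nat_lit 644284179), (nat_lit 152), (nat_lit 15525977), (nat_lit 152), (nat_lit 15525977), (nat_lit 1), (nat_lit 4), (nat_lit 2), (nat_lit 5), (nat_lit 2), (nat_lit 4), (nat_lit 0), (nat_lit 0), (nat_lit 0)⟩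

noncomputable def cp0 : Nat := (nat_lit 28734206207424336293692007883722177866527261663822000528305157016091421071322462950612596409112112973740826925079730622871630400843216749461459307214786010522928358262503831400741960177022574040502509209584665634934673642452061509376161542639535247908449025525523070900339662712952675058714762110922238261506279340442372752900378270469461580294378404740540266144968962266871515990433889581983835966480778509136220446959243164981961237674327505290378165120621736664751176581712659161176885689028172207106725705560965594305005358371726665112078413580822000857820876992687252126240264991562243577977898019742497299772465438494528559614982295033143308424172838027568461160953516241300419537635064217738017544422516798940485703955353906508755296321176406563857215899552825596851681030303741079313048283391690053018732634462555371951343090632792250695471450247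8977132501018663279790302323402387479062206958565383467413706940782292418449400555894755511297206464926370597780238060934193672690889509423084634746769367847532166673732831806063477661997856937236384426016048899121540898290060071599265810908489967795915845586239842027036943403560921119112556183313469936775481997942525310522620715850628590948303178575949005004711555501573404411954667783172168811153310000795590712346037313005273994444554406250413405783745092562976768)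

noncomputable def cp1 : Nat := (nat_lit 12277563657820086438622890769576744239071764461729425008970953703208160198893603137126179796644543707543022703287389411533021703855778870819636835721185539710706778071986516931026415336716425273440506455847143310251727018691365330893900241438594715300203484277085549321713970508602685614313619683917359378721264082211947434421941784802326978982239653323654790091881575777379810518917610618148116153601456567089851088303651283660146938369294290520090616651888786133601111065748679948171054394627537572048451954303058045579739736394048265549760110046605385948220181374455669192609825690234477660161430909745017411106082086448585874377784911592039735378205129868415657134277805480123937977304196564436994162454283346348987530195554124175888389080833846363443812246921467906650804383163403239079654390909323293012048412244443088509732624130218241554044941234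91587719613051933117863786593505733636419334127339066322389834953195085128109033867202436459422350395326420624539141679697618641880077606496986535152169999237493702744607084002434006331241086553255547401816889826332948406054918395968705017169049106690526194990330545946067977318991582806742649292786470843967287805372001921628745067017063073894437732194496505611711422126470162720871356469523615616599032215627539581299865042094358098760169964183755266085882699968626620428410020594919079871132944422507377954916245899894170124065010957704321185328165548544660246725842067757858741692499742420330936108338673291239206196358650619919193449175279195358088850389214238862670515926138540247739506520837909290693562581960736421590471574497226053974253669073595184233342245113711979294849739213871481610027060936924689035011660793630132676343835259604286130699253025093168796732563474868192439648068092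4338953658476313367422890326748727090213864355740603417254703788734385868191289346054779682667001592621613373603366064539032066850842468887550647410543177381475278973960589596711761875641272661045889843781139530942241270274920553353047435825647701236248886309203782907670446634729082055069731698408156343220210226781314280485767712560490002195090417482366583499082764374805912013354173874176217728048156592048220998718374911876455194895195188674214543531788857558349239008598610470056821215040863741507916536638189065913259329308043673584127442062036254999556567666578631422533126557905026879269571628774894988907016739969541737841413475237616709965666175654897481464205807490878870346764854253734285417095431790530926803003541854908574371616454491688998733028444578316858860008588164129020879156193381958395903002557939976107318471615099506475165395826659942417152098698240399734340036407115147038212519116011402568286024695589855346397158572032)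

noncomputable def rc0 : Nat := (nat_lit 12277563657820086438622890769576744239071764461729425008970953703208160198893603137126179796644543707543022703287389411533021703855778870819636835721185539710706778071986516931026415336716425273440506455847143310251727018691365330893900241438594715300203484277085549321713970508602685614313619683917359378721264082211947434421941784802326978982239653323654790091881575777379810518917610618148116153601456567089851088303651283660146938369294290520090616651888786133601111065748679948171054394627537572048451954303058045579739736394048265549760110046605385948220181374455669192609825690234477660161430909745017411106082086448585874377784911592039735378205129868415657134277805480123937977304196564436994162454283346348987530195554124175888389080833846363443812246921467906650804383163403239079654390909323293012048412244443088509732624130218241554044941234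91587719613051933117863786593505733636419334127339066322389834953195085128109033867202436459422350395326420624539141679697618641880077606496986535152169999237493702744607084002434006331241086553255547401816889826332948406054918395968705017169049106690526194990330545946067977318991582806742649292786470843967287805372001921628745067017063073894437732194496505611711422126470162720871356469523615616599032215627539581299865042094358098760169964183755266085882699968626620428410020594919079871132944422507377954916245899894170124065010957704321185328165548544660246725842067757858741692499742420330936108338673291239206196358650619919193449175279195358088850389214238862670515926138540247739506520837909290693562581960736421590471574497226053974253669073595184233342245113711979294849739213871481610027060936924689035011660793630132676343835259604286130699253025093168796732563474868192439648068092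4338953658476313367422890326748727090213864355740603417254703788734385868191289346054779682667001592621613373603366064539032066850842468887550647410543177381475278973960589596711761875641272661045889843781139530942241270274920553353047435825647701236248886309203782907670446634729082055069731698408156343220210226781314280485767712560490002195090417482366583499082764374805912013354173874176217728048156592048220998718374911876455194895195188674214543531788857558349239008598610470056821215040863741507916536638189065913259329308043673584127442062036254999556567666578631422533126557905026879269571628774894988907016739969541737841413475237616709965666175654897481464205807490878870346764854253734285417095431790530926803003541854908574371616454491688998733028444578316858860008588164129020879156193381958395903002557939976107318471615099506475165395826659942417152098698240399734340036407115147038212519116011402568286024695589855346397158572032)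

end Vale.Agent.Lib.P154.PChain.BT.S3
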