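import Vale.Agent.Lib.P154.PChain.BT.R3_0

set_option linter.all false

namespace Vale.Agent.Lib.P154.PChain.BT.S4

open Vale.Agent.Lib.P154.Chain

noncomputable def pc0 : PT := (PT.nd (nat_lit 3499704) (PT.nd (nat_lit 3387150) (PT.nd (nat_lit 3312192) (PT.nd (nat_lit 3274752) (PT.nd (nat_lit 3274674) (PT.nd (nat_lit 3237234) PT.nil (PT.lf (nat_lit 76) (nat_lit 3) (nat_lit 1) (nat_lit 1) (nat_lit 137) (nat_lit 86) (nat_lit 137))) (PT.lf (nat_lit 152) (nat_lit 6) (nat_lit 2) (nat_lit 3) (nat_lit 136) (nat_lit 87) (nat_lit 137))) (PT.nd (nat_lit 37362) (PT.lf (nat_lit 152) (nat_lit 6) (nat_lit 2) (nat_lit 1) (nat_lit 137) (nat_lit 87) (nat_lit 136)) (PT.lf (nat_lit 228) (nat_lit 6) (nat_lit 3) (nat_lit 3) (nat_lit 135) (nat_lit 88) (nat_lit 137)))) (PT.nd (nat_lit 37440) (PT.nd (nat_lit 78) (PT.lf (nat_lit 304) (nat_lit 3) (nat_lit 4) (nat_lit 1) (nat_lit 136) (nat_lit 88) (nat_lit 136))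 (PT.lf (nat_lit 228) (nat_lit 6) (nat_lit 3) (nat_lit 1) (nat_lit 137) (nat_lit 88) (nat_lit 135))) (PT.nd (nat_lit 78) (PT.lf (nat_lit 380) (nat_lit 6) (nat_lit 5) (nat_lit 3) (nat_lit 135) (nat_lit 89) (nat_lit 136)) (PT.nd (nat_lit 37362) (PT.lf (nat_lit 380) (nat_lit 6) (nat_lit 5) (nat_lit 1) (nat_lit 136) (nat_lit 89) (nat_lit 135)) (PT.lf (nat_lit 456) (nat_lit 6) (nat_lit 6) (nat_lit 3) (nat_lit 134) (nat_lit 90) (nat_lit 136)))))) (PT.nd (nat_lit 74958) (PT.nd (nat_lit 37440) (PT.nd (nat_lit 78) (PT.lf (nat_lit 532) (nat_lit 3) (nat_lit 7) (nat_lit 1) (nat_lit 135) (nat_lit 90) (nat_lit 135)) (PT.lf (nat_lit 456) (nat_lit 6) (nat_lit 6) (nat_lit 1) (nat_lit 136) (nat_lit 90) (nat_lit 134))) (PT.nd (nat_lit 78) (PT.lf (nat_lit 608) (nat_lit 6) (nat_lit 8) (nat_lit 3) (nat_lit 134) (nat_lit 91) (nat_lit 135)) (PT.nd (nat_lit 37362) (PT.lf (nat_lit 608) (nat_lit 6) (nat_lit 8)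 (nat_lit 1) (nat_lit 135) (nat_lit 91) (nat_lit 134)) (PT.lf (nat_lit 684) (nat_lit 6) (nat_lit 9) (nat_lit 3) (nat_lit 133) (nat_lit 92) (nat_lit 135))))) (PT.nd (nat_lit 37362) (PT.nd (nat_lit 78) (PT.lf (nat_lit 760) (nat_lit 3) (nat_lit 10) (nat_lit 1) (nat_lit 134) (nat_lit 92) (nat_lit 134)) (PT.lf (nat_lit 684) (nat_lit 6) (nat_lit 9) (nat_lit 1) (nat_lit 135) (nat_lit 92) (nat_lit 133))) (PT.nd (nat_lit 78) (PT.lf (nat_lit 836) (nat_lit 6) (nat_lit 11) (nat_lit 3) (nat_lit 132) (nat_lit 93) (nat_lit 135)) (PT.nd (nat_lit 78) (PT.lf (nat_lit 912) (nat_lit 6) (nat_lit 12) (nat_lit 3) (nat_lit 133) (nat_lit 93) (nat_lit 134)) (PT.lf (nat_lit 912) (nat_lit 6) (nat_lit 12) (nat_lit 1) (nat_lit 134) (nat_lit 93) (nat_lit 133))))))) (PT.nd (nat_lit 112398) (PT.nd (nat_lit 74802) (PT.nd (nat_lit 37362) (PT.nd (nat_lit 37284) (PT.lf (nat_lit 836) (nat_lit 6) (nat_lit 11) (nat_lit 1)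 (nat_lit 135) (nat_lit 93) (nat_lit 132)) (PT.lf (nat_lit 988) (nat_lit 6) (nat_lit 13) (nat_lit 3) (nat_lit 132) (nat_lit 94) (nat_lit 134))) (PT.nd (nat_lit 78) (PT.lf (nat_lit 1064) (nat_lit 3) (nat_lit 14) (nat_lit 1) (nat_lit 133) (nat_lit 94) (nat_lit 133)) (PT.nd (nat_lit 37284) (PT.lf (nat_lit 988) (nat_lit 6) (nat_lit 13) (nat_lit 1) (nat_lit 134) (nat_lit 94) (nat_lit 132)) (PT.lf (nat_lit 1140) (nat_lit 6) (nat_lit 15) (nat_lit 3) (nat_lit 131) (nat_lit 95) (nat_lit 134))))) (PT.nd (nat_lit 156) (PT.nd (nat_lit 78) (PT.lf (nat_lit 1216) (nat_lit 6) (nat_lit 16) (nat_lit 3) (nat_lit 132) (nat_lit 95) (nat_lit 133)) (PT.lf (nat_lit 1216) (nat_lit 6) (nat_lit 16) (nat_lit 1) (nat_lit 133) (nat_lit 95) (nat_lit 132))) (PT.nd (nat_lit 37284) (PT.lf (nat_lit 1140) (nat_lit 6) (nat_lit 15) (nat_lit 1) (nat_lit 134) (nat_lit 95) (nat_lit 131)) (PT.nd (nat_lit 78) (PT.lf (nat_lit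 1292) (nat_lit 6) (nat_lit 17) (nat_lit 3) (nat_lit 131) (nat_lit 96) (nat_lit 133)) (PT.lf (nat_lit 1368) (nat_lit 3) (nat_lit 18) (nat_lit 1) (nat_lit 132) (nat_lit 96) (nat_lit 132)))))) (PT.nd (nat_lit 74724) (PT.nd (nat_lit 37362) (PT.nd (nat_lit 37284) (PT.lf (nat_lit 1292) (nat_lit 6) (nat_lit 17) (nat_lit 1) (nat_lit 133) (nat_lit 96) (nat_lit 131)) (PT.lf (nat_lit 1444) (nat_lit 6) (nat_lit 19) (nat_lit 3) (nat_lit 130) (nat_lit 97) (nat_lit 133))) (PT.nd (nat_lit 78) (PT.lf (nat_lit 1520) (nat_lit 6) (nat_lit 20) (nat_lit 3) (nat_lit 131) (nat_lit 97) (nat_lit 132)) (PT.nd (nat_lit 78) (PT.lf (nat_lit 1520) (nat_lit 6) (nat_lit 20) (nat_lit 1) (nat_lit 132) (nat_lit 97) (nat_lit 131)) (PT.lf (nat_lit 1444) (nat_lit 6) (nat_lit 19) (nat_lit 1) (nat_lit 133) (nat_lit 97) (nat_lit 130))))) (PT.nd (nat_lit 156) (PT.nd (nat_lit 78) (PT.lf (nat_lit 1596) (nat_lit 6) (nat_lit 21)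 (nat_lit 3) (nat_lit 129) (nat_lit 98) (nat_lit 133)) (PT.lf (nat_lit 1672) (nat_lit 6) (nat_lit 22) (nat_lit 3) (nat_lit 130) (nat_lit 98) (nat_lit 132))) (PT.nd (nat_lit 78) (PT.lf (nat_lit 1748) (nat_lit 3) (nat_lit 23) (nat_lit 1) (nat_lit 131) (nat_lit 98) (nat_lit 131)) (PT.nd (nat_lit 78) (PT.lf (nat_lit 1672) (nat_lit 6) (nat_lit 22) (nat_lit 1) (nat_lit 132) (nat_lit 98) (nat_lit 130)) (PT.lf (nat_lit 1596) (nat_lit 6) (nat_lit 21) (nat_lit 1) (nat_lit 133) (nat_lit 98) (nat_lit 129))))))))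
noncomputable def pc1 : PT := (PT.nd (nat_lit 149838) (PT.nd (nat_lit 74958) (PT.nd (nat_lit 37518) (PT.nd (nat_lit 156) (PT.nd (nat_lit 78) (PT.lf (nat_lit 1824) (nat_lit 6) (nat_lit 24) (nat_lit 3) (nat_lit 129) (nat_lit 99) (nat_lit 132)) (PT.lf (nat_lit 1900) (nat_lit 6) (nat_lit 25) (nat_lit 3) (nat_lit 130) (nat_lit 99) (nat_lit 131))) (PT.nd (nat_lit 78) (PT.lf (nat_lit 1900) (nat_lit 6) (nat_lit 25) (nat_lit 1) (nat_lit 131) (nat_lit 99) (nat_lit 130)) (PT.nd (nat_lit 37206) (PT.lf (nat_lit 1824) (nat_lit 6) (nat_lit 24) (nat_lit 1) (nat_lit 132) (nat_lit 99) (nat_lit 129)) (PT.lf (nat_lit 1976) (nat_lit 6) (nat_lit 26) (nat_lit 3) (nat_lit 128) (nat_lit 100) (nat_lit 132))))) (PT.nd (nat_lit 156) (PT.nd (nat_lit 78) (PT.lf (nat_lit 2052) (nat_lit 6) (nat_lit 27) (nat_lit 3) (nat_lit 129) (nat_lit 100) (nat_lit 131)) (PT.lf (nat_lit 2128) (nat_lit 3) (nat_lit 28) (nat_lit 1)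 (nat_lit 130) (nat_lit 100) (nat_lit 130))) (PT.nd (nat_lit 78) (PT.lf (nat_lit 2052) (nat_lit 6) (nat_lit 27) (nat_lit 1) (nat_lit 131) (nat_lit 100) (nat_lit 129)) (PT.nd (nat_lit 37128) (PT.lf (nat_lit 1976) (nat_lit 6) (nat_lit 26) (nat_lit 1) (nat_lit 132) (nat_lit 100) (nat_lit 128)) (PT.lf (nat_lit 2204) (nat_lit 6) (nat_lit 29) (nat_lit 3) (nat_lit 127) (nat_lit 101) (nat_lit 132)))))) (PT.nd (nat_lit 37440) (PT.nd (nat_lit 156) (PT.nd (nat_lit 78) (PT.lf (nat_lit 2280) (nat_lit 6) (nat_lit 30) (nat_lit 3) (nat_lit 128) (nat_lit 101) (nat_lit 131)) (PT.lf (nat_lit 2356) (nat_lit 6) (nat_lit 31) (nat_lit 3) (nat_lit 129) (nat_lit 101) (nat_lit 130))) (PT.nd (nat_lit 78) (PT.lf (nat_lit 2356) (nat_lit 6) (nat_lit 31) (nat_lit 1) (nat_lit 130) (nat_lit 101) (nat_lit 129)) (PT.nd (nat_lit 78) (PT.lf (nat_lit 2280) (nat_lit 6) (nat_lit 30) (nat_lit 1) (nat_lit 131) (nat_lit 101)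 (nat_lit 128)) (PT.lf (nat_lit 2204) (nat_lit 6) (nat_lit 29) (nat_lit 1) (nat_lit 132) (nat_lit 101) (nat_lit 127))))) (PT.nd (nat_lit 156) (PT.nd (nat_lit 78) (PT.lf (nat_lit 2432) (nat_lit 6) (nat_lit 32) (nat_lit 3) (nat_lit 127) (nat_lit 102) (nat_lit 131)) (PT.lf (nat_lit 2508) (nat_lit 6) (nat_lit 33) (nat_lit 3) (nat_lit 128) (nat_lit 102) (nat_lit 130))) (PT.nd (nat_lit 78) (PT.lf (nat_lit 2584) (nat_lit 3) (nat_lit 34) (nat_lit 1) (nat_lit 129) (nat_lit 102) (nat_lit 129)) (PT.nd (nat_lit 78) (PT.lf (nat_lit 2508) (nat_lit 6) (nat_lit 33) (nat_lit 1) (nat_lit 130) (nat_lit 102) (nat_lit 128)) (PT.lf (nat_lit 2432) (nat_lit 6) (nat_lit 32) (nat_lit 1) (nat_lit 131) (nat_lit 102) (nat_lit 127))))))) (PT.nd (nat_lit 37752) (PT.nd (nat_lit 390) (PT.nd (nat_lit 156) (PT.nd (nat_lit 78) (PT.lf (nat_lit 2660) (nat_lit 6) (nat_lit 35) (nat_lit 3) (nat_lit 126) (nat_lit 103) (nat_lit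 131)) (PT.lf (nat_lit 2736) (nat_lit 6) (nat_lit 36) (nat_lit 3) (nat_lit 127) (nat_lit 103) (nat_lit 130))) (PT.nd (nat_lit 78) (PT.lf (nat_lit 2812) (nat_lit 6) (nat_lit 37) (nat_lit 3) (nat_lit 128) (nat_lit 103) (nat_lit 129)) (PT.nd (nat_lit 78) (PT.lf (nat_lit 2812) (nat_lit 6) (nat_lit 37) (nat_lit 1) (nat_lit 129) (nat_lit 103) (nat_lit 128)) (PT.lf (nat_lit 2736) (nat_lit 6) (nat_lit 36) (nat_lit 1) (nat_lit 130) (nat_lit 103) (nat_lit 127))))) (PT.nd (nat_lit 37128) (PT.nd (nat_lit 37050) (PT.lf (nat_lit 2660) (nat_lit 6) (nat_lit 35) (nat_lit 1) (nat_lit 131) (nat_lit 103) (nat_lit 126)) (PT.lf (nat_lit 2888) (nat_lit 6) (nat_lit 38) (nat_lit 3) (nat_lit 125) (nat_lit 104) (nat_lit 131))) (PT.nd (nat_lit 78) (PT.lf (nat_lit 2964) (nat_lit 6) (nat_lit 39) (nat_lit 3) (nat_lit 126) (nat_lit 104) (nat_lit 130)) (PT.nd (nat_lit 78) (PT.lf (nat_lit 3040) (nat_lit 6) (nat_lit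 40) (nat_lit 3) (nat_lit 127) (nat_lit 104) (nat_lit 129)) (PT.lf (nat_lit 3116) (nat_lit 3) (nat_lit 41) (nat_lit 1) (nat_lit 128) (nat_lit 104) (nat_lit 128)))))) (PT.nd (nat_lit 37362) (PT.nd (nat_lit 156) (PT.nd (nat_lit 78) (PT.lf (nat_lit 3040) (nat_lit 6) (nat_lit 40) (nat_lit 1) (nat_lit 129) (nat_lit 104) (nat_lit 127)) (PT.lf (nat_lit 2964) (nat_lit 6) (nat_lit 39) (nat_lit 1) (nat_lit 130) (nat_lit 104) (nat_lit 126))) (PT.nd (nat_lit 37050) (PT.lf (nat_lit 2888) (nat_lit 6) (nat_lit 38) (nat_lit 1) (nat_lit 131) (nat_lit 104) (nat_lit 125)) (PT.nd (nat_lit 78) (PT.lf (nat_lit 3192) (nat_lit 6) (nat_lit 42) (nat_lit 3) (nat_lit 125) (nat_lit 105) (nat_lit 130)) (PT.lf (nat_lit 3268) (nat_lit 6) (nat_lit 43) (nat_lit 3) (nat_lit 126) (nat_lit 105) (nat_lit 129))))) (PT.nd (nat_lit 156) (PT.nd (nat_lit 78) (PT.lf (nat_lit 3344) (nat_lit 6) (nat_lit 44) (nat_lit 3) (nat_lit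 127) (nat_lit 105) (nat_lit 128)) (PT.lf (nat_lit 3344) (nat_lit 6) (nat_lit 44) (nat_lit 1) (nat_lit 128) (nat_lit 105) (nat_lit 127))) (PT.nd (nat_lit 78) (PT.lf (nat_lit 3268) (nat_lit 6) (nat_lit 43) (nat_lit 1) (nat_lit 129) (nat_lit 105) (nat_lit 126)) (PT.nd (nat_lit 37050) (PT.lf (nat_lit 3192) (nat_lit 6) (nat_lit 42) (nat_lit 1) (nat_lit 130) (nat_lit 105) (nat_lit 125)) (PT.lf (nat_lit 3420) (nat_lit 6) (nat_lit 45) (nat_lit 3) (nat_lit 124) (nat_lit 106) (nat_lit 130))))))))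
noncomputable def pc2 : PT := (PT.nd (nat_lit 75192) (PT.nd (nat_lit 37596) (PT.nd (nat_lit 312) (PT.nd (nat_lit 156) (PT.nd (nat_lit 78) (PT.lf (nat_lit 3496) (nat_lit 6) (nat_lit 46) (nat_lit 3) (nat_lit 125) (nat_lit 106) (nat_lit 129)) (PT.lf (nat_lit 3572) (nat_lit 6) (nat_lit 47) (nat_lit 3) (nat_lit 126) (nat_lit 106) (nat_lit 128))) (PT.nd (nat_lit 78) (PT.lf (nat_lit 3648) (nat_lit 3) (nat_lit 48) (nat_lit 1) (nat_lit 127) (nat_lit 106) (nat_lit 127)) (PT.lf (nat_lit 3572) (nat_lit 6) (nat_lit 47) (nat_lit 1) (nat_lit 128) (nat_lit 106) (nat_lit 126)))) (PT.nd (nat_lit 37050) (PT.nd (nat_lit 78) (PT.lf (nat_lit 3496) (nat_lit 6) (nat_lit 46) (nat_lit 1) (nat_lit 129) (nat_lit 106) (nat_lit 125)) (PT.lf (nat_lit 3420) (nat_lit 6) (nat_lit 45) (nat_lit 1) (nat_lit 130) (nat_lit 106) (nat_lit 124))) (PT.nd (nat_lit 78) (PT.lf (nat_lit 3724) (nat_lit 6) (nat_lit 49) (nat_lit 3)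 (nat_lit 123) (nat_lit 107) (nat_lit 130)) (PT.nd (nat_lit 78) (PT.lf (nat_lit 3800) (nat_lit 6) (nat_lit 50) (nat_lit 3) (nat_lit 124) (nat_lit 107) (nat_lit 129)) (PT.lf (nat_lit 3876) (nat_lit 6) (nat_lit 51) (nat_lit 3) (nat_lit 125) (nat_lit 107) (nat_lit 128)))))) (PT.nd (nat_lit 37206) (PT.nd (nat_lit 156) (PT.nd (nat_lit 78) (PT.lf (nat_lit 3952) (nat_lit 6) (nat_lit 52) (nat_lit 3) (nat_lit 126) (nat_lit 107) (nat_lit 127)) (PT.lf (nat_lit 3952) (nat_lit 6) (nat_lit 52) (nat_lit 1) (nat_lit 127) (nat_lit 107) (nat_lit 126))) (PT.nd (nat_lit 78) (PT.lf (nat_lit 3876) (nat_lit 6) (nat_lit 51) (nat_lit 1) (nat_lit 128) (nat_lit 107) (nat_lit 125)) (PT.nd (nat_lit 78) (PT.lf (nat_lit 3800) (nat_lit 6) (nat_lit 50) (nat_lit 1) (nat_lit 129) (nat_lit 107) (nat_lit 124)) (PT.lf (nat_lit 3724) (nat_lit 6) (nat_lit 49) (nat_lit 1) (nat_lit 130) (nat_lit 107) (nat_lit 123))))) (PT.nd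 (nat_lit 156) (PT.nd (nat_lit 78) (PT.lf (nat_lit 4028) (nat_lit 6) (nat_lit 53) (nat_lit 3) (nat_lit 122) (nat_lit 108) (nat_lit 130)) (PT.lf (nat_lit 4104) (nat_lit 6) (nat_lit 54) (nat_lit 3) (nat_lit 123) (nat_lit 108) (nat_lit 129))) (PT.nd (nat_lit 78) (PT.lf (nat_lit 4180) (nat_lit 6) (nat_lit 55) (nat_lit 3) (nat_lit 124) (nat_lit 108) (nat_lit 128)) (PT.nd (nat_lit 78) (PT.lf (nat_lit 4256) (nat_lit 6) (nat_lit 56) (nat_lit 3) (nat_lit 125) (nat_lit 108) (nat_lit 127)) (PT.lf (nat_lit 4332) (nat_lit 3) (nat_lit 57) (nat_lit 1) (nat_lit 126) (nat_lit 108) (nat_lit 126))))))) (PT.nd (nat_lit 37518) (PT.nd (nat_lit 37128) (PT.nd (nat_lit 156) (PT.nd (nat_lit 78) (PT.lf (nat_lit 4256) (nat_lit 6) (nat_lit 56) (nat_lit 1) (nat_lit 127) (nat_lit 108) (nat_lit 125)) (PT.lf (nat_lit 4180) (nat_lit 6) (nat_lit 55) (nat_lit 1) (nat_lit 128) (nat_lit 108) (nat_lit 124))) (PT.nd (nat_lit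 78) (PT.lf (nat_lit 4104) (nat_lit 6) (nat_lit 54) (nat_lit 1) (nat_lit 129) (nat_lit 108) (nat_lit 123)) (PT.nd (nat_lit 36816) (PT.lf (nat_lit 4028) (nat_lit 6) (nat_lit 53) (nat_lit 1) (nat_lit 130) (nat_lit 108) (nat_lit 122)) (PT.lf (nat_lit 4408) (nat_lit 6) (nat_lit 58) (nat_lit 3) (nat_lit 121) (nat_lit 109) (nat_lit 130))))) (PT.nd (nat_lit 156) (PT.nd (nat_lit 78) (PT.lf (nat_lit 4484) (nat_lit 6) (nat_lit 59) (nat_lit 3) (nat_lit 122) (nat_lit 109) (nat_lit 129)) (PT.lf (nat_lit 4560) (nat_lit 6) (nat_lit 60) (nat_lit 3) (nat_lit 123) (nat_lit 109) (nat_lit 128))) (PT.nd (nat_lit 78) (PT.lf (nat_lit 4636) (nat_lit 6) (nat_lit 61) (nat_lit 3) (nat_lit 124) (nat_lit 109) (nat_lit 127)) (PT.nd (nat_lit 78) (PT.lf (nat_lit 4712) (nat_lit 6) (nat_lit 62) (nat_lit 3) (nat_lit 125) (nat_lit 109) (nat_lit 126)) (PT.lf (nat_lit 4712) (nat_lit 6) (nat_lit 62) (nat_lit 1) (nat_lit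 126) (nat_lit 109) (nat_lit 125)))))) (PT.nd (nat_lit 37128) (PT.nd (nat_lit 156) (PT.nd (nat_lit 78) (PT.lf (nat_lit 4636) (nat_lit 6) (nat_lit 61) (nat_lit 1) (nat_lit 127) (nat_lit 109) (nat_lit 124)) (PT.lf (nat_lit 4560) (nat_lit 6) (nat_lit 60) (nat_lit 1) (nat_lit 128) (nat_lit 109) (nat_lit 123))) (PT.nd (nat_lit 78) (PT.lf (nat_lit 4484) (nat_lit 6) (nat_lit 59) (nat_lit 1) (nat_lit 129) (nat_lit 109) (nat_lit 122)) (PT.nd (nat_lit 36816) (PT.lf (nat_lit 4408) (nat_lit 6) (nat_lit 58) (nat_lit 1) (nat_lit 130) (nat_lit 109) (nat_lit 121)) (PT.lf (nat_lit 4788) (nat_lit 6) (nat_lit 63) (nat_lit 3) (nat_lit 121) (nat_lit 110) (nat_lit 129))))) (PT.nd (nat_lit 156) (PT.nd (nat_lit 78) (PT.lf (nat_lit 4864) (nat_lit 6) (nat_lit 64) (nat_lit 3) (nat_lit 122) (nat_lit 110) (nat_lit 128)) (PT.lf (nat_lit 4940) (nat_lit 6) (nat_lit 65) (nat_lit 3) (nat_lit 123) (nat_lit 110) (nat_lit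 127))) (PT.nd (nat_lit 78) (PT.lf (nat_lit 5016) (nat_lit 6) (nat_lit 66) (nat_lit 3) (nat_lit 124) (nat_lit 110) (nat_lit 126)) (PT.nd (nat_lit 78) (PT.lf (nat_lit 5092) (nat_lit 3) (nat_lit 67) (nat_lit 1) (nat_lit 125) (nat_lit 110) (nat_lit 125)) (PT.lf (nat_lit 5016) (nat_lit 6) (nat_lit 66) (nat_lit 1) (nat_lit 126) (nat_lit 110) (nat_lit 124))))))))
noncomputable def pc3 : PT := (PT.nd (nat_lit 74958) (PT.nd (nat_lit 37518) (PT.nd (nat_lit 37128) (PT.nd (nat_lit 156) (PT.nd (nat_lit 78) (PT.lf (nat_lit 4940) (nat_lit 6) (nat_lit 65) (nat_lit 1) (nat_lit 127) (nat_lit 110) (nat_lit 123)) (PT.lf (nat_lit 4864) (nat_lit 6) (nat_lit 64) (nat_lit 1) (nat_lit 128) (nat_lit 110) (nat_lit 122))) (PT.nd (nat_lit 36816) (PT.lf (nat_lit 4788) (nat_lit 6) (nat_lit 63) (nat_lit 1) (nat_lit 129) (nat_lit 110) (nat_lit 121)) (PT.nd (nat_lit 78) (PT.lf (nat_lit 5472) (nat_lit 6) (nat_lit 72)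 (nat_lit 3) (nat_lit 120) (nat_lit 111) (nat_lit 129)) (PT.lf (nat_lit 5548) (nat_lit 6) (nat_lit 73) (nat_lit 3) (nat_lit 121) (nat_lit 111) (nat_lit 128))))) (PT.nd (nat_lit 156) (PT.nd (nat_lit 78) (PT.lf (nat_lit 5624) (nat_lit 6) (nat_lit 74) (nat_lit 3) (nat_lit 122) (nat_lit 111) (nat_lit 127)) (PT.lf (nat_lit 5700) (nat_lit 6) (nat_lit 75) (nat_lit 3) (nat_lit 123) (nat_lit 111) (nat_lit 126))) (PT.nd (nat_lit 78) (PT.lf (nat_lit 5776) (nat_lit 6) (nat_lit 76) (nat_lit 3) (nat_lit 124) (nat_lit 111) (nat_lit 125)) (PT.nd (nat_lit 78) (PT.lf (nat_lit 5776) (nat_lit 6) (nat_lit 76) (nat_lit 1) (nat_lit 125) (nat_lit 111) (nat_lit 124)) (PT.lf (nat_lit 5700) (nat_lit 6) (nat_lit 75) (nat_lit 1) (nat_lit 126) (nat_lit 111) (nat_lit 123)))))) (PT.nd (nat_lit 37050) (PT.nd (nat_lit 156) (PT.nd (nat_lit 78) (PT.lf (nat_lit 5624) (nat_lit 6) (nat_lit 74) (nat_lit 1) (nat_lit 127) (nat_lit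 111) (nat_lit 122)) (PT.lf (nat_lit 5548) (nat_lit 6) (nat_lit 73) (nat_lit 1) (nat_lit 128) (nat_lit 111) (nat_lit 121))) (PT.nd (nat_lit 36738) (PT.lf (nat_lit 5472) (nat_lit 6) (nat_lit 72) (nat_lit 1) (nat_lit 129) (nat_lit 111) (nat_lit 120)) (PT.nd (nat_lit 78) (PT.lf (nat_lit 5396) (nat_lit 6) (nat_lit 71) (nat_lit 3) (nat_lit 119) (nat_lit 112) (nat_lit 129)) (PT.lf (nat_lit 6156) (nat_lit 6) (nat_lit 81) (nat_lit 3) (nat_lit 120) (nat_lit 112) (nat_lit 128))))) (PT.nd (nat_lit 156) (PT.nd (nat_lit 78) (PT.lf (nat_lit 6232) (nat_lit 6) (nat_lit 82) (nat_lit 3) (nat_lit 121) (nat_lit 112) (nat_lit 127)) (PT.lf (nat_lit 6308) (nat_lit 6) (nat_lit 83) (nat_lit 3) (nat_lit 122) (nat_lit 112) (nat_lit 126))) (PT.nd (nat_lit 78) (PT.lf (nat_lit 6384) (nat_lit 6) (nat_lit 84) (nat_lit 3) (nat_lit 123) (nat_lit 112) (nat_lit 125)) (PT.nd (nat_lit 78) (PT.lf (nat_lit 6460) (nat_lit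 3) (nat_lit 85) (nat_lit 1) (nat_lit 124) (nat_lit 112) (nat_lit 124)) (PT.lf (nat_lit 6384) (nat_lit 6) (nat_lit 84) (nat_lit 1) (nat_lit 125) (nat_lit 112) (nat_lit 123))))))) (PT.nd (nat_lit 37362) (PT.nd (nat_lit 36972) (PT.nd (nat_lit 156) (PT.nd (nat_lit 78) (PT.lf (nat_lit 6308) (nat_lit 6) (nat_lit 83) (nat_lit 1) (nat_lit 126) (nat_lit 112) (nat_lit 122)) (PT.lf (nat_lit 6232) (nat_lit 6) (nat_lit 82) (nat_lit 1) (nat_lit 127) (nat_lit 112) (nat_lit 121))) (PT.nd (nat_lit 78) (PT.lf (nat_lit 6156) (nat_lit 6) (nat_lit 81) (nat_lit 1) (nat_lit 128) (nat_lit 112) (nat_lit 120)) (PT.nd (nat_lit 36660) (PT.lf (nat_lit 5396) (nat_lit 6) (nat_lit 71) (nat_lit 1) (nat_lit 129) (nat_lit 112) (nat_lit 119)) (PT.lf (nat_lit 5320) (nat_lit 6) (nat_lit 70) (nat_lit 3) (nat_lit 118) (nat_lit 113) (nat_lit 129))))) (PT.nd (nat_lit 156) (PT.nd (nat_lit 78) (PT.lf (nat_lit 6080) (nat_lit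 6) (nat_lit 80) (nat_lit 3) (nat_lit 119) (nat_lit 113) (nat_lit 128)) (PT.lf (nat_lit 6764) (nat_lit 6) (nat_lit 89) (nat_lit 3) (nat_lit 120) (nat_lit 113) (nat_lit 127))) (PT.nd (nat_lit 78) (PT.lf (nat_lit 6840) (nat_lit 6) (nat_lit 90) (nat_lit 3) (nat_lit 121) (nat_lit 113) (nat_lit 126)) (PT.nd (nat_lit 78) (PT.lf (nat_lit 6916) (nat_lit 6) (nat_lit 91) (nat_lit 3) (nat_lit 122) (nat_lit 113) (nat_lit 125)) (PT.lf (nat_lit 6992) (nat_lit 6) (nat_lit 92) (nat_lit 3) (nat_lit 123) (nat_lit 113) (nat_lit 124)))))) (PT.nd (nat_lit 390) (PT.nd (nat_lit 156) (PT.nd (nat_lit 78) (PT.lf (nat_lit 6992) (nat_lit 6) (nat_lit 92) (nat_lit 1) (nat_lit 124) (nat_lit 113) (nat_lit 123)) (PT.lf (nat_lit 6916) (nat_lit 6) (nat_lit 91) (nat_lit 1) (nat_lit 125) (nat_lit 113) (nat_lit 122))) (PT.nd (nat_lit 78) (PT.lf (nat_lit 6840) (nat_lit 6) (nat_lit 90) (nat_lit 1) (nat_lit 126) (nat_lit 113)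 (nat_lit 121)) (PT.nd (nat_lit 78) (PT.lf (nat_lit 6764) (nat_lit 6) (nat_lit 89) (nat_lit 1) (nat_lit 127) (nat_lit 113) (nat_lit 120)) (PT.lf (nat_lit 6080) (nat_lit 6) (nat_lit 80) (nat_lit 1) (nat_lit 128) (nat_lit 113) (nat_lit 119))))) (PT.nd (nat_lit 36660) (PT.nd (nat_lit 36582) (PT.lf (nat_lit 5320) (nat_lit 6) (nat_lit 70) (nat_lit 1) (nat_lit 129) (nat_lit 113) (nat_lit 118)) (PT.lf (nat_lit 5244) (nat_lit 6) (nat_lit 69) (nat_lit 3) (nat_lit 117) (nat_lit 114) (nat_lit 129))) (PT.nd (nat_lit 78) (PT.lf (nat_lit 6004) (nat_lit 6) (nat_lit 79) (nat_lit 3) (nat_lit 118) (nat_lit 114) (nat_lit 128)) (PT.nd (nat_lit 78) (PT.lf (nat_lit 6688) (nat_lit 6) (nat_lit 88) (nat_lit 3) (nat_lit 119) (nat_lit 114) (nat_lit 127)) (PT.lf (nat_lit 7296) (nat_lit 6) (nat_lit 96) (nat_lit 3) (nat_lit 120) (nat_lit 114) (nat_lit 126))))))))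
noncomputable def pc4 : PT := (PT.nd (nat_lit 37908) (PT.nd (nat_lit 37128) (PT.nd (nat_lit 312) (PT.nd (nat_lit 156) (PT.nd (nat_lit 78) (PT.lf (nat_lit 7372) (nat_lit 6) (nat_lit 97) (nat_lit 3) (nat_lit 121) (nat_lit 114) (nat_lit 125)) (PT.lf (nat_lit 7448) (nat_lit 6) (nat_lit 98) (nat_lit 3) (nat_lit 122) (nat_lit 114) (nat_lit 124))) (PT.nd (nat_lit 78) (PT.lf (nat_lit 7524) (nat_lit 3) (nat_lit 99) (nat_lit 1) (nat_lit 123) (nat_lit 114) (nat_lit 123)) (PT.lf (nat_lit 7448) (nat_lit 6) (nat_lit 98) (nat_lit 1) (nat_lit 124) (nat_lit 114) (nat_lit 122)))) (PT.nd (nat_lit 156) (PT.nd (nat_lit 78) (PT.lf (nat_lit 7372) (nat_lit 6) (nat_lit 97) (nat_lit 1) (nat_lit 125) (nat_lit 114) (nat_lit 121)) (PT.lf (nat_lit 7296) (nat_lit 6) (nat_lit 96) (nat_lit 1) (nat_lit 126) (nat_lit 114) (nat_lit 120))) (PT.nd (nat_lit 78) (PT.lf (nat_lit 6688) (nat_lit 6) (nat_lit 88) (nat_lit 1)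 (nat_lit 127) (nat_lit 114) (nat_lit 119)) (PT.nd (nat_lit 78) (PT.lf (nat_lit 6004) (nat_lit 6) (nat_lit 79) (nat_lit 1) (nat_lit 128) (nat_lit 114) (nat_lit 118)) (PT.lf (nat_lit 5244) (nat_lit 6) (nat_lit 69) (nat_lit 1) (nat_lit 129) (nat_lit 114) (nat_lit 117)))))) (PT.nd (nat_lit 390) (PT.nd (nat_lit 156) (PT.nd (nat_lit 78) (PT.lf (nat_lit 5168) (nat_lit 6) (nat_lit 68) (nat_lit 3) (nat_lit 116) (nat_lit 115) (nat_lit 129)) (PT.lf (nat_lit 5928) (nat_lit 6) (nat_lit 78) (nat_lit 3) (nat_lit 117) (nat_lit 115) (nat_lit 128))) (PT.nd (nat_lit 78) (PT.lf (nat_lit 6612) (nat_lit 6) (nat_lit 87) (nat_lit 3) (nat_lit 118) (nat_lit 115) (nat_lit 127)) (PT.nd (nat_lit 78) (PT.lf (nat_lit 7220) (nat_lit 6) (nat_lit 95) (nat_lit 3) (nat_lit 119) (nat_lit 115) (nat_lit 126)) (PT.lf (nat_lit 7752) (nat_lit 6) (nat_lit 102) (nat_lit 3) (nat_lit 120) (nat_lit 115) (nat_lit 125))))) (PT.nd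 (nat_lit 156) (PT.nd (nat_lit 78) (PT.lf (nat_lit 7828) (nat_lit 6) (nat_lit 103) (nat_lit 3) (nat_lit 121) (nat_lit 115) (nat_lit 124)) (PT.lf (nat_lit 7904) (nat_lit 6) (nat_lit 104) (nat_lit 3) (nat_lit 122) (nat_lit 115) (nat_lit 123))) (PT.nd (nat_lit 78) (PT.lf (nat_lit 7904) (nat_lit 6) (nat_lit 104) (nat_lit 1) (nat_lit 123) (nat_lit 115) (nat_lit 122)) (PT.nd (nat_lit 78) (PT.lf (nat_lit 7828) (nat_lit 6) (nat_lit 103) (nat_lit 1) (nat_lit 124) (nat_lit 115) (nat_lit 121)) (PT.lf (nat_lit 7752) (nat_lit 6) (nat_lit 102) (nat_lit 1) (nat_lit 125) (nat_lit 115) (nat_lit 120))))))) (PT.nd (nat_lit 37128) (PT.nd (nat_lit 36738) (PT.nd (nat_lit 156) (PT.nd (nat_lit 78) (PT.lf (nat_lit 7220) (nat_lit 6) (nat_lit 95) (nat_lit 1) (nat_lit 126) (nat_lit 115) (nat_lit 119)) (PT.lf (nat_lit 6612) (nat_lit 6) (nat_lit 87) (nat_lit 1) (nat_lit 127) (nat_lit 115) (nat_lit 118))) (PT.nd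 (nat_lit 78) (PT.lf (nat_lit 5928) (nat_lit 6) (nat_lit 78) (nat_lit 1) (nat_lit 128) (nat_lit 115) (nat_lit 117)) (PT.nd (nat_lit 36426) (PT.lf (nat_lit 5168) (nat_lit 6) (nat_lit 68) (nat_lit 1) (nat_lit 129) (nat_lit 115) (nat_lit 116)) (PT.lf (nat_lit 5168) (nat_lit 6) (nat_lit 68) (nat_lit 5) (nat_lit 115) (nat_lit 116) (nat_lit 129))))) (PT.nd (nat_lit 156) (PT.nd (nat_lit 78) (PT.lf (nat_lit 5852) (nat_lit 3) (nat_lit 77) (nat_lit 3) (nat_lit 116) (nat_lit 116) (nat_lit 128)) (PT.lf (nat_lit 6536) (nat_lit 6) (nat_lit 86) (nat_lit 3) (nat_lit 117) (nat_lit 116) (nat_lit 127))) (PT.nd (nat_lit 78) (PT.lf (nat_lit 7144) (nat_lit 6) (nat_lit 94) (nat_lit 3) (nat_lit 118) (nat_lit 116) (nat_lit 126)) (PT.nd (nat_lit 78) (PT.lf (nat_lit 7676) (nat_lit 6) (nat_lit 101) (nat_lit 3) (nat_lit 119) (nat_lit 116) (nat_lit 125)) (PT.lf (nat_lit 8132) (nat_lit 6) (nat_lit 107) (nat_lit 3)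 (nat_lit 120) (nat_lit 116) (nat_lit 124)))))) (PT.nd (nat_lit 390) (PT.nd (nat_lit 156) (PT.nd (nat_lit 78) (PT.lf (nat_lit 8208) (nat_lit 6) (nat_lit 108) (nat_lit 3) (nat_lit 121) (nat_lit 116) (nat_lit 123)) (PT.lf (nat_lit 8284) (nat_lit 3) (nat_lit 109) (nat_lit 1) (nat_lit 122) (nat_lit 116) (nat_lit 122))) (PT.nd (nat_lit 78) (PT.lf (nat_lit 8208) (nat_lit 6) (nat_lit 108) (nat_lit 1) (nat_lit 123) (nat_lit 116) (nat_lit 121)) (PT.nd (nat_lit 78) (PT.lf (nat_lit 8132) (nat_lit 6) (nat_lit 107) (nat_lit 1) (nat_lit 124) (nat_lit 116) (nat_lit 120)) (PT.lf (nat_lit 7676) (nat_lit 6) (nat_lit 101) (nat_lit 1) (nat_lit 125) (nat_lit 116) (nat_lit 119))))) (PT.nd (nat_lit 156) (PT.nd (nat_lit 78) (PT.lf (nat_lit 7144) (nat_lit 6) (nat_lit 94) (nat_lit 1) (nat_lit 126) (nat_lit 116) (nat_lit 118)) (PT.lf (nat_lit 6536) (nat_lit 6) (nat_lit 86) (nat_lit 1) (nat_lit 127) (nat_lit 116)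 (nat_lit 117))) (PT.nd (nat_lit 78) (PT.lf (nat_lit 5852) (nat_lit 3) (nat_lit 77) (nat_lit 0) (nat_lit 128) (nat_lit 116) (nat_lit 116)) (PT.nd (nat_lit 36348) (PT.lf (nat_lit 5168) (nat_lit 6) (nat_lit 68) (nat_lit 0) (nat_lit 129) (nat_lit 116) (nat_lit 115)) (PT.lf (nat_lit 5244) (nat_lit 6) (nat_lit 69) (nat_lit 5) (nat_lit 114) (nat_lit 117) (nat_lit 129))))))))
noncomputable def pc5 : PT := (PT.nd (nat_lit 37752) (PT.nd (nat_lit 780) (PT.nd (nat_lit 390) (PT.nd (nat_lit 156) (PT.nd (nat_lit 78) (PT.lf (nat_lit 5928) (nat_lit 6) (nat_lit 78) (nat_lit 5) (nat_lit 115) (nat_lit 117) (nat_lit 128)) (PT.lf (nat_lit 6536) (nat_lit 6) (nat_lit 86) (nat_lit 5) (nat_lit 116) (nat_lit 117) (nat_lit 127))) (PT.nd (nat_lit 78) (PT.lf (nat_lit 7068) (nat_lit 3) (nat_lit 93) (nat_lit 3) (nat_lit 117) (nat_lit 117) (nat_lit 126)) (PT.nd (nat_lit 78) (PT.lf (nat_lit 7600) (nat_lit 6) (nat_lit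 100) (nat_lit 3) (nat_lit 118) (nat_lit 117) (nat_lit 125)) (PT.lf (nat_lit 8056) (nat_lit 6) (nat_lit 106) (nat_lit 3) (nat_lit 119) (nat_lit 117) (nat_lit 124))))) (PT.nd (nat_lit 156) (PT.nd (nat_lit 78) (PT.lf (nat_lit 8436) (nat_lit 6) (nat_lit 111) (nat_lit 3) (nat_lit 120) (nat_lit 117) (nat_lit 123)) (PT.lf (nat_lit 8512) (nat_lit 6) (nat_lit 112) (nat_lit 3) (nat_lit 121) (nat_lit 117) (nat_lit 122))) (PT.nd (nat_lit 78) (PT.lf (nat_lit 8512) (nat_lit 6) (nat_lit 112) (nat_lit 1) (nat_lit 122) (nat_lit 117) (nat_lit 121)) (PT.nd (nat_lit 78) (PT.lf (nat_lit 8436) (nat_lit 6) (nat_lit 111) (nat_lit 1) (nat_lit 123) (nat_lit 117) (nat_lit 120)) (PT.lf (nat_lit 8056) (nat_lit 6) (nat_lit 106) (nat_lit 1) (nat_lit 124) (nat_lit 117) (nat_lit 119)))))) (PT.nd (nat_lit 36582) (PT.nd (nat_lit 156) (PT.nd (nat_lit 78) (PT.lf (nat_lit 7600) (nat_lit 6) (nat_lit 100) (nat_lit 1) (nat_lit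 125) (nat_lit 117) (nat_lit 118)) (PT.lf (nat_lit 7068) (nat_lit 3) (nat_lit 93) (nat_lit 0) (nat_lit 126) (nat_lit 117) (nat_lit 117))) (PT.nd (nat_lit 78) (PT.lf (nat_lit 6536) (nat_lit 6) (nat_lit 86) (nat_lit 0) (nat_lit 127) (nat_lit 117) (nat_lit 116)) (PT.nd (nat_lit 78) (PT.lf (nat_lit 5928) (nat_lit 6) (nat_lit 78) (nat_lit 0) (nat_lit 128) (nat_lit 117) (nat_lit 115)) (PT.lf (nat_lit 5244) (nat_lit 6) (nat_lit 69) (nat_lit 0) (nat_lit 129) (nat_lit 117) (nat_lit 114))))) (PT.nd (nat_lit 156) (PT.nd (nat_lit 78) (PT.lf (nat_lit 5320) (nat_lit 6) (nat_lit 70) (nat_lit 5) (nat_lit 113) (nat_lit 118) (nat_lit 129)) (PT.lf (nat_lit 6004) (nat_lit 6) (nat_lit 79) (nat_lit 5) (nat_lit 114) (nat_lit 118) (nat_lit 128))) (PT.nd (nat_lit 78) (PT.lf (nat_lit 6612) (nat_lit 6) (nat_lit 87) (nat_lit 5) (nat_lit 115) (nat_lit 118) (nat_lit 127)) (PT.nd (nat_lit 78) (PT.lf (nat_lit 7144)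 (nat_lit 6) (nat_lit 94) (nat_lit 5) (nat_lit 116) (nat_lit 118) (nat_lit 126)) (PT.lf (nat_lit 7600) (nat_lit 6) (nat_lit 100) (nat_lit 5) (nat_lit 117) (nat_lit 118) (nat_lit 125))))))) (PT.nd (nat_lit 780) (PT.nd (nat_lit 390) (PT.nd (nat_lit 156) (PT.nd (nat_lit 78) (PT.lf (nat_lit 7980) (nat_lit 3) (nat_lit 105) (nat_lit 3) (nat_lit 118) (nat_lit 118) (nat_lit 124)) (PT.lf (nat_lit 8360) (nat_lit 6) (nat_lit 110) (nat_lit 3) (nat_lit 119) (nat_lit 118) (nat_lit 123))) (PT.nd (nat_lit 78) (PT.lf (nat_lit 8664) (nat_lit 6) (nat_lit 114) (nat_lit 3) (nat_lit 120) (nat_lit 118) (nat_lit 122)) (PT.nd (nat_lit 78) (PT.lf (nat_lit 8740) (nat_lit 3) (nat_lit 115) (nat_lit 1) (nat_lit 121) (nat_lit 118) (nat_lit 121)) (PT.lf (nat_lit 8664) (nat_lit 6) (nat_lit 114) (nat_lit 1) (nat_lit 122) (nat_lit 118) (nat_lit 120))))) (PT.nd (nat_lit 156) (PT.nd (nat_lit 78) (PT.lf (nat_lit 8360) (nat_lit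 6) (nat_lit 110) (nat_lit 1) (nat_lit 123) (nat_lit 118) (nat_lit 119)) (PT.lf (nat_lit 7980) (nat_lit 3) (nat_lit 105) (nat_lit 0) (nat_lit 124) (nat_lit 118) (nat_lit 118))) (PT.nd (nat_lit 78) (PT.lf (nat_lit 7600) (nat_lit 6) (nat_lit 100) (nat_lit 0) (nat_lit 125) (nat_lit 118) (nat_lit 117)) (PT.nd (nat_lit 78) (PT.lf (nat_lit 7144) (nat_lit 6) (nat_lit 94) (nat_lit 0) (nat_lit 126) (nat_lit 118) (nat_lit 116)) (PT.lf (nat_lit 6612) (nat_lit 6) (nat_lit 87) (nat_lit 0) (nat_lit 127) (nat_lit 118) (nat_lit 115)))))) (PT.nd (nat_lit 36504) (PT.nd (nat_lit 36270) (PT.nd (nat_lit 78) (PT.lf (nat_lit 6004) (nat_lit 6) (nat_lit 79) (nat_lit 0) (nat_lit 128) (nat_lit 118) (nat_lit 114)) (PT.lf (nat_lit 5320) (nat_lit 6) (nat_lit 70) (nat_lit 0) (nat_lit 129) (nat_lit 118) (nat_lit 113))) (PT.nd (nat_lit 78) (PT.lf (nat_lit 5396) (nat_lit 6) (nat_lit 71) (nat_lit 5) (nat_lit 112) (nat_lit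 119) (nat_lit 129)) (PT.nd (nat_lit 78) (PT.lf (nat_lit 6080) (nat_lit 6) (nat_lit 80) (nat_lit 5) (nat_lit 113) (nat_lit 119) (nat_lit 128)) (PT.lf (nat_lit 6688) (nat_lit 6) (nat_lit 88) (nat_lit 5) (nat_lit 114) (nat_lit 119) (nat_lit 127))))) (PT.nd (nat_lit 156) (PT.nd (nat_lit 78) (PT.lf (nat_lit 7220) (nat_lit 6) (nat_lit 95) (nat_lit 5) (nat_lit 115) (nat_lit 119) (nat_lit 126)) (PT.lf (nat_lit 7676) (nat_lit 6) (nat_lit 101) (nat_lit 5) (nat_lit 116) (nat_lit 119) (nat_lit 125))) (PT.nd (nat_lit 78) (PT.lf (nat_lit 8056) (nat_lit 6) (nat_lit 106) (nat_lit 5) (nat_lit 117) (nat_lit 119) (nat_lit 124)) (PT.nd (nat_lit 78) (PT.lf (nat_lit 8360) (nat_lit 6) (nat_lit 110) (nat_lit 5) (nat_lit 118) (nat_lit 119) (nat_lit 123)) (PT.lf (nat_lit 8588) (nat_lit 3) (nat_lit 113) (nat_lit 3) (nat_lit 119) (nat_lit 119) (nat_lit 122))))))))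
noncomputable def pc6 : PT := (PT.nd (nat_lit 37596) (PT.nd (nat_lit 36816) (PT.nd (nat_lit 390) (PT.nd (nat_lit 156) (PT.nd (nat_lit 78) (PT.lf (nat_lit 8816) (nat_lit 6) (nat_lit 116) (nat_lit 3) (nat_lit 120) (nat_lit 119) (nat_lit 121)) (PT.lf (nat_lit 8816) (nat_lit 6) (nat_lit 116) (nat_lit 1) (nat_lit 121) (nat_lit 119) (nat_lit 120))) (PT.nd (nat_lit 78) (PT.lf (nat_lit 8588) (nat_lit 3) (nat_lit 113) (nat_lit 0) (nat_lit 122) (nat_lit 119) (nat_lit 119)) (PT.nd (nat_lit 78) (PT.lf (nat_lit 8360) (nat_lit 6) (nat_lit 110) (nat_lit 0) (nat_lit 123) (nat_lit 119) (nat_lit 118)) (PT.lf (nat_lit 8056) (nat_lit 6) (nat_lit 106) (nat_lit 0) (nat_lit 124) (nat_lit 119) (nat_lit 117))))) (PT.nd (nat_lit 156) (PT.nd (nat_lit 78) (PT.lf (nat_lit 7676) (nat_lit 6) (nat_lit 101) (nat_lit 0) (nat_lit 125) (nat_lit 119) (nat_lit 116)) (PT.lf (nat_lit 7220) (nat_lit 6) (nat_lit 95) (nat_lit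 0) (nat_lit 126) (nat_lit 119) (nat_lit 115))) (PT.nd (nat_lit 78) (PT.lf (nat_lit 6688) (nat_lit 6) (nat_lit 88) (nat_lit 0) (nat_lit 127) (nat_lit 119) (nat_lit 114)) (PT.nd (nat_lit 78) (PT.lf (nat_lit 6080) (nat_lit 6) (nat_lit 80) (nat_lit 0) (nat_lit 128) (nat_lit 119) (nat_lit 113)) (PT.lf (nat_lit 5396) (nat_lit 6) (nat_lit 71) (nat_lit 0) (nat_lit 129) (nat_lit 119) (nat_lit 112)))))) (PT.nd (nat_lit 390) (PT.nd (nat_lit 156) (PT.nd (nat_lit 78) (PT.lf (nat_lit 5472) (nat_lit 6) (nat_lit 72) (nat_lit 5) (nat_lit 111) (nat_lit 120) (nat_lit 129)) (PT.lf (nat_lit 6156) (nat_lit 6) (nat_lit 81) (nat_lit 5) (nat_lit 112) (nat_lit 120) (nat_lit 128))) (PT.nd (nat_lit 78) (PT.lf (nat_lit 6764) (nat_lit 6) (nat_lit 89) (nat_lit 5) (nat_lit 113) (nat_lit 120) (nat_lit 127)) (PT.nd (nat_lit 78) (PT.lf (nat_lit 7296) (nat_lit 6) (nat_lit 96) (nat_lit 5) (nat_lit 114) (nat_lit 120) (nat_lit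 126)) (PT.lf (nat_lit 7752) (nat_lit 6) (nat_lit 102) (nat_lit 5) (nat_lit 115) (nat_lit 120) (nat_lit 125))))) (PT.nd (nat_lit 156) (PT.nd (nat_lit 78) (PT.lf (nat_lit 8132) (nat_lit 6) (nat_lit 107) (nat_lit 5) (nat_lit 116) (nat_lit 120) (nat_lit 124)) (PT.lf (nat_lit 8436) (nat_lit 6) (nat_lit 111) (nat_lit 5) (nat_lit 117) (nat_lit 120) (nat_lit 123))) (PT.nd (nat_lit 78) (PT.lf (nat_lit 8664) (nat_lit 6) (nat_lit 114) (nat_lit 5) (nat_lit 118) (nat_lit 120) (nat_lit 122)) (PT.nd (nat_lit 78) (PT.lf (nat_lit 8816) (nat_lit 6) (nat_lit 116) (nat_lit 5) (nat_lit 119) (nat_lit 120) (nat_lit 121)) (PT.lf (nat_lit 8892) (nat_lit 1) (nat_lit 117) (nat_lit 0) (nat_lit 120) (nat_lit 120) (nat_lit 120))))))) (PT.nd (nat_lit 36660) (PT.nd (nat_lit 390) (PT.nd (nat_lit 156) (PT.nd (nat_lit 78) (PT.lf (nat_lit 8816) (nat_lit 6) (nat_lit 116) (nat_lit 0) (nat_lit 121) (nat_lit 120) (nat_lit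 119)) (PT.lf (nat_lit 8664) (nat_lit 6) (nat_lit 114) (nat_lit 0) (nat_lit 122) (nat_lit 120) (nat_lit 118))) (PT.nd (nat_lit 78) (PT.lf (nat_lit 8436) (nat_lit 6) (nat_lit 111) (nat_lit 0) (nat_lit 123) (nat_lit 120) (nat_lit 117)) (PT.nd (nat_lit 78) (PT.lf (nat_lit 8132) (nat_lit 6) (nat_lit 107) (nat_lit 0) (nat_lit 124) (nat_lit 120) (nat_lit 116)) (PT.lf (nat_lit 7752) (nat_lit 6) (nat_lit 102) (nat_lit 0) (nat_lit 125) (nat_lit 120) (nat_lit 115))))) (PT.nd (nat_lit 156) (PT.nd (nat_lit 78) (PT.lf (nat_lit 7296) (nat_lit 6) (nat_lit 96) (nat_lit 0) (nat_lit 126) (nat_lit 120) (nat_lit 114)) (PT.lf (nat_lit 6764) (nat_lit 6) (nat_lit 89) (nat_lit 0) (nat_lit 127) (nat_lit 120) (nat_lit 113))) (PT.nd (nat_lit 78) (PT.lf (nat_lit 6156) (nat_lit 6) (nat_lit 81) (nat_lit 0) (nat_lit 128) (nat_lit 120) (nat_lit 112)) (PT.nd (nat_lit 35958) (PT.lf (nat_lit 5472) (nat_lit 6) (nat_lit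 72) (nat_lit 0) (nat_lit 129) (nat_lit 120) (nat_lit 111)) (PT.lf (nat_lit 4408) (nat_lit 6) (nat_lit 58) (nat_lit 5) (nat_lit 109) (nat_lit 121) (nat_lit 130)))))) (PT.nd (nat_lit 390) (PT.nd (nat_lit 156) (PT.nd (nat_lit 78) (PT.lf (nat_lit 4788) (nat_lit 6) (nat_lit 63) (nat_lit 5) (nat_lit 110) (nat_lit 121) (nat_lit 129)) (PT.lf (nat_lit 5548) (nat_lit 6) (nat_lit 73) (nat_lit 5) (nat_lit 111) (nat_lit 121) (nat_lit 128))) (PT.nd (nat_lit 78) (PT.lf (nat_lit 6232) (nat_lit 6) (nat_lit 82) (nat_lit 5) (nat_lit 112) (nat_lit 121) (nat_lit 127)) (PT.nd (nat_lit 78) (PT.lf (nat_lit 6840) (nat_lit 6) (nat_lit 90) (nat_lit 5) (nat_lit 113) (nat_lit 121) (nat_lit 126)) (PT.lf (nat_lit 7372) (nat_lit 6) (nat_lit 97) (nat_lit 5) (nat_lit 114) (nat_lit 121) (nat_lit 125))))) (PT.nd (nat_lit 156) (PT.nd (nat_lit 78) (PT.lf (nat_lit 7828) (nat_lit 6) (nat_lit 103) (nat_lit 5) (nat_lit 115)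 (nat_lit 121) (nat_lit 124)) (PT.lf (nat_lit 8208) (nat_lit 6) (nat_lit 108) (nat_lit 5) (nat_lit 116) (nat_lit 121) (nat_lit 123))) (PT.nd (nat_lit 78) (PT.lf (nat_lit 8512) (nat_lit 6) (nat_lit 112) (nat_lit 5) (nat_lit 117) (nat_lit 121) (nat_lit 122)) (PT.nd (nat_lit 78) (PT.lf (nat_lit 8740) (nat_lit 3) (nat_lit 115) (nat_lit 4) (nat_lit 118) (nat_lit 121) (nat_lit 121)) (PT.lf (nat_lit 8816) (nat_lit 6) (nat_lit 116) (nat_lit 4) (nat_lit 119) (nat_lit 121) (nat_lit 120))))))))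
noncomputable def pc7 : PT := (PT.nd (nat_lit 37284) (PT.nd (nat_lit 780) (PT.nd (nat_lit 390) (PT.nd (nat_lit 156) (PT.nd (nat_lit 78) (PT.lf (nat_lit 8816) (nat_lit 6) (nat_lit 116) (nat_lit 2) (nat_lit 120) (nat_lit 121) (nat_lit 119)) (PT.lf (nat_lit 8740) (nat_lit 3) (nat_lit 115) (nat_lit 0) (nat_lit 121) (nat_lit 121) (nat_lit 118))) (PT.nd (nat_lit 78) (PT.lf (nat_lit 8512) (nat_lit 6) (nat_lit 112) (nat_lit 0) (nat_lit 122) (nat_lit 121) (nat_lit 117)) (PT.nd (nat_lit 78) (PT.lf (nat_lit 8208) (nat_lit 6) (nat_lit 108) (nat_lit 0) (nat_lit 123) (nat_lit 121) (nat_lit 116)) (PT.lf (nat_lit 7828) (nat_lit 6) (nat_lit 103) (nat_lit 0) (nat_lit 124) (nat_lit 121) (nat_lit 115))))) (PT.nd (nat_lit 156) (PT.nd (nat_lit 78) (PT.lf (nat_lit 7372) (nat_lit 6) (nat_lit 97) (nat_lit 0) (nat_lit 125) (nat_lit 121) (nat_lit 114)) (PT.lf (nat_lit 6840) (nat_lit 6) (nat_lit 90) (nat_lit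 0) (nat_lit 126) (nat_lit 121) (nat_lit 113))) (PT.nd (nat_lit 78) (PT.lf (nat_lit 6232) (nat_lit 6) (nat_lit 82) (nat_lit 0) (nat_lit 127) (nat_lit 121) (nat_lit 112)) (PT.nd (nat_lit 78) (PT.lf (nat_lit 5548) (nat_lit 6) (nat_lit 73) (nat_lit 0) (nat_lit 128) (nat_lit 121) (nat_lit 111)) (PT.lf (nat_lit 4788) (nat_lit 6) (nat_lit 63) (nat_lit 0) (nat_lit 129) (nat_lit 121) (nat_lit 110)))))) (PT.nd (nat_lit 36114) (PT.nd (nat_lit 35880) (PT.nd (nat_lit 35802) (PT.lf (nat_lit 4408) (nat_lit 6) (nat_lit 58) (nat_lit 0) (nat_lit 130) (nat_lit 121) (nat_lit 109)) (PT.lf (nat_lit 4028) (nat_lit 6) (nat_lit 53) (nat_lit 5) (nat_lit 108) (nat_lit 122) (nat_lit 130))) (PT.nd (nat_lit 78) (PT.lf (nat_lit 4484) (nat_lit 6) (nat_lit 59) (nat_lit 5) (nat_lit 109) (nat_lit 122) (nat_lit 129)) (PT.nd (nat_lit 78) (PT.lf (nat_lit 4864) (nat_lit 6) (nat_lit 64) (nat_lit 5) (nat_lit 110) (nat_lit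 122) (nat_lit 128)) (PT.lf (nat_lit 5624) (nat_lit 6) (nat_lit 74) (nat_lit 5) (nat_lit 111) (nat_lit 122) (nat_lit 127))))) (PT.nd (nat_lit 156) (PT.nd (nat_lit 78) (PT.lf (nat_lit 6308) (nat_lit 6) (nat_lit 83) (nat_lit 5) (nat_lit 112) (nat_lit 122) (nat_lit 126)) (PT.lf (nat_lit 6916) (nat_lit 6) (nat_lit 91) (nat_lit 5) (nat_lit 113) (nat_lit 122) (nat_lit 125))) (PT.nd (nat_lit 78) (PT.lf (nat_lit 7448) (nat_lit 6) (nat_lit 98) (nat_lit 5) (nat_lit 114) (nat_lit 122) (nat_lit 124)) (PT.nd (nat_lit 78) (PT.lf (nat_lit 7904) (nat_lit 6) (nat_lit 104) (nat_lit 5) (nat_lit 115) (nat_lit 122) (nat_lit 123)) (PT.lf (nat_lit 8284) (nat_lit 3) (nat_lit 109) (nat_lit 4) (nat_lit 116) (nat_lit 122) (nat_lit 122))))))) (PT.nd (nat_lit 780) (PT.nd (nat_lit 390) (PT.nd (nat_lit 156) (PT.nd (nat_lit 78) (PT.lf (nat_lit 8512) (nat_lit 6) (nat_lit 112) (nat_lit 4) (nat_lit 117) (nat_lit 122)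 (nat_lit 121)) (PT.lf (nat_lit 8664) (nat_lit 6) (nat_lit 114) (nat_lit 4) (nat_lit 118) (nat_lit 122) (nat_lit 120))) (PT.nd (nat_lit 78) (PT.lf (nat_lit 8588) (nat_lit 3) (nat_lit 113) (nat_lit 2) (nat_lit 119) (nat_lit 122) (nat_lit 119)) (PT.nd (nat_lit 78) (PT.lf (nat_lit 8664) (nat_lit 6) (nat_lit 114) (nat_lit 2) (nat_lit 120) (nat_lit 122) (nat_lit 118)) (PT.lf (nat_lit 8512) (nat_lit 6) (nat_lit 112) (nat_lit 2) (nat_lit 121) (nat_lit 122) (nat_lit 117))))) (PT.nd (nat_lit 156) (PT.nd (nat_lit 78) (PT.lf (nat_lit 8284) (nat_lit 3) (nat_lit 109) (nat_lit 0) (nat_lit 122) (nat_lit 122) (nat_lit 116)) (PT.lf (nat_lit 7904) (nat_lit 6) (nat_lit 104) (nat_lit 0) (nat_lit 123) (nat_lit 122) (nat_lit 115))) (PT.nd (nat_lit 78) (PT.lf (nat_lit 7448) (nat_lit 6) (nat_lit 98) (nat_lit 0) (nat_lit 124) (nat_lit 122) (nat_lit 114)) (PT.nd (nat_lit 78) (PT.lf (nat_lit 6916) (nat_lit 6)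 (nat_lit 91) (nat_lit 0) (nat_lit 125) (nat_lit 122) (nat_lit 113)) (PT.lf (nat_lit 6308) (nat_lit 6) (nat_lit 83) (nat_lit 0) (nat_lit 126) (nat_lit 122) (nat_lit 112)))))) (PT.nd (nat_lit 36036) (PT.nd (nat_lit 156) (PT.nd (nat_lit 78) (PT.lf (nat_lit 5624) (nat_lit 6) (nat_lit 74) (nat_lit 0) (nat_lit 127) (nat_lit 122) (nat_lit 111)) (PT.lf (nat_lit 4864) (nat_lit 6) (nat_lit 64) (nat_lit 0) (nat_lit 128) (nat_lit 122) (nat_lit 110))) (PT.nd (nat_lit 78) (PT.lf (nat_lit 4484) (nat_lit 6) (nat_lit 59) (nat_lit 0) (nat_lit 129) (nat_lit 122) (nat_lit 109)) (PT.nd (nat_lit 35724) (PT.lf (nat_lit 4028) (nat_lit 6) (nat_lit 53) (nat_lit 0) (nat_lit 130) (nat_lit 122) (nat_lit 108)) (PT.lf (nat_lit 3724) (nat_lit 6) (nat_lit 49) (nat_lit 5) (nat_lit 107) (nat_lit 123) (nat_lit 130))))) (PT.nd (nat_lit 156) (PT.nd (nat_lit 78) (PT.lf (nat_lit 4104) (nat_lit 6) (nat_lit 54) (nat_lit 5)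 (nat_lit 108) (nat_lit 123) (nat_lit 129)) (PT.lf (nat_lit 4560) (nat_lit 6) (nat_lit 60) (nat_lit 5) (nat_lit 109) (nat_lit 123) (nat_lit 128))) (PT.nd (nat_lit 78) (PT.lf (nat_lit 4940) (nat_lit 6) (nat_lit 65) (nat_lit 5) (nat_lit 110) (nat_lit 123) (nat_lit 127)) (PT.nd (nat_lit 78) (PT.lf (nat_lit 5700) (nat_lit 6) (nat_lit 75) (nat_lit 5) (nat_lit 111) (nat_lit 123) (nat_lit 126)) (PT.lf (nat_lit 6384) (nat_lit 6) (nat_lit 84) (nat_lit 5) (nat_lit 112) (nat_lit 123) (nat_lit 125))))))))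
noncomputable def pc8 : PT := (PT.nd (nat_lit 37050) (PT.nd (nat_lit 702) (PT.nd (nat_lit 312) (PT.nd (nat_lit 156) (PT.nd (nat_lit 78) (PT.lf (nat_lit 6992) (nat_lit 6) (nat_lit 92) (nat_lit 5) (nat_lit 113) (nat_lit 123) (nat_lit 124)) (PT.lf (nat_lit 7524) (nat_lit 3) (nat_lit 99) (nat_lit 4) (nat_lit 114) (nat_lit 123) (nat_lit 123))) (PT.nd (nat_lit 78) (PT.lf (nat_lit 7904) (nat_lit 6) (nat_lit 104) (nat_lit 4) (nat_lit 115) (nat_lit 123) (nat_lit 122)) (PT.lf (nat_lit 8208) (nat_lit 6) (nat_lit 108) (nat_lit 4) (nat_lit 116) (nat_lit 123) (nat_lit 121)))) (PT.nd (nat_lit 156) (PT.nd (nat_lit 78) (PT.lf (nat_lit 8436) (nat_lit 6) (nat_lit 111) (nat_lit 4) (nat_lit 117) (nat_lit 123) (nat_lit 120)) (PT.lf (nat_lit 8360) (nat_lit 6) (nat_lit 110) (nat_lit 4) (nat_lit 118) (nat_lit 123) (nat_lit 119))) (PT.nd (nat_lit 78) (PT.lf (nat_lit 8360) (nat_lit 6) (nat_lit 110) (nat_lit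 2) (nat_lit 119) (nat_lit 123) (nat_lit 118)) (PT.nd (nat_lit 78) (PT.lf (nat_lit 8436) (nat_lit 6) (nat_lit 111) (nat_lit 2) (nat_lit 120) (nat_lit 123) (nat_lit 117)) (PT.lf (nat_lit 8208) (nat_lit 6) (nat_lit 108) (nat_lit 2) (nat_lit 121) (nat_lit 123) (nat_lit 116)))))) (PT.nd (nat_lit 390) (PT.nd (nat_lit 156) (PT.nd (nat_lit 78) (PT.lf (nat_lit 7904) (nat_lit 6) (nat_lit 104) (nat_lit 2) (nat_lit 122) (nat_lit 123) (nat_lit 115)) (PT.lf (nat_lit 7524) (nat_lit 3) (nat_lit 99) (nat_lit 0) (nat_lit 123) (nat_lit 123) (nat_lit 114))) (PT.nd (nat_lit 78) (PT.lf (nat_lit 6992) (nat_lit 6) (nat_lit 92) (nat_lit 0) (nat_lit 124) (nat_lit 123) (nat_lit 113)) (PT.nd (nat_lit 78) (PT.lf (nat_lit 6384) (nat_lit 6) (nat_lit 84) (nat_lit 0) (nat_lit 125) (nat_lit 123) (nat_lit 112)) (PT.lf (nat_lit 5700) (nat_lit 6) (nat_lit 75) (nat_lit 0) (nat_lit 126) (nat_lit 123) (nat_lit 111))))) (PT.nd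 (nat_lit 156) (PT.nd (nat_lit 78) (PT.lf (nat_lit 4940) (nat_lit 6) (nat_lit 65) (nat_lit 0) (nat_lit 127) (nat_lit 123) (nat_lit 110)) (PT.lf (nat_lit 4560) (nat_lit 6) (nat_lit 60) (nat_lit 0) (nat_lit 128) (nat_lit 123) (nat_lit 109))) (PT.nd (nat_lit 78) (PT.lf (nat_lit 4104) (nat_lit 6) (nat_lit 54) (nat_lit 0) (nat_lit 129) (nat_lit 123) (nat_lit 108)) (PT.nd (nat_lit 35646) (PT.lf (nat_lit 3724) (nat_lit 6) (nat_lit 49) (nat_lit 0) (nat_lit 130) (nat_lit 123) (nat_lit 107)) (PT.lf (nat_lit 3420) (nat_lit 6) (nat_lit 45) (nat_lit 5) (nat_lit 106) (nat_lit 124) (nat_lit 130))))))) (PT.nd (nat_lit 780) (PT.nd (nat_lit 390) (PT.nd (nat_lit 156) (PT.nd (nat_lit 78) (PT.lf (nat_lit 3800) (nat_lit 6) (nat_lit 50) (nat_lit 5) (nat_lit 107) (nat_lit 124) (nat_lit 129)) (PT.lf (nat_lit 4180) (nat_lit 6) (nat_lit 55) (nat_lit 5) (nat_lit 108) (nat_lit 124) (nat_lit 128))) (PT.nd (nat_lit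 78) (PT.lf (nat_lit 4636) (nat_lit 6) (nat_lit 61) (nat_lit 5) (nat_lit 109) (nat_lit 124) (nat_lit 127)) (PT.nd (nat_lit 78) (PT.lf (nat_lit 5016) (nat_lit 6) (nat_lit 66) (nat_lit 5) (nat_lit 110) (nat_lit 124) (nat_lit 126)) (PT.lf (nat_lit 5776) (nat_lit 6) (nat_lit 76) (nat_lit 5) (nat_lit 111) (nat_lit 124) (nat_lit 125))))) (PT.nd (nat_lit 156) (PT.nd (nat_lit 78) (PT.lf (nat_lit 6460) (nat_lit 3) (nat_lit 85) (nat_lit 4) (nat_lit 112) (nat_lit 124) (nat_lit 124)) (PT.lf (nat_lit 6992) (nat_lit 6) (nat_lit 92) (nat_lit 4) (nat_lit 113) (nat_lit 124) (nat_lit 123))) (PT.nd (nat_lit 78) (PT.lf (nat_lit 7448) (nat_lit 6) (nat_lit 98) (nat_lit 4) (nat_lit 114) (nat_lit 124) (nat_lit 122)) (PT.nd (nat_lit 78) (PT.lf (nat_lit 7828) (nat_lit 6) (nat_lit 103) (nat_lit 4) (nat_lit 115) (nat_lit 124) (nat_lit 121)) (PT.lf (nat_lit 8132) (nat_lit 6) (nat_lit 107) (nat_lit 4) (nat_lit 116)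 (nat_lit 124) (nat_lit 120)))))) (PT.nd (nat_lit 390) (PT.nd (nat_lit 156) (PT.nd (nat_lit 78) (PT.lf (nat_lit 8056) (nat_lit 6) (nat_lit 106) (nat_lit 4) (nat_lit 117) (nat_lit 124) (nat_lit 119)) (PT.lf (nat_lit 7980) (nat_lit 3) (nat_lit 105) (nat_lit 2) (nat_lit 118) (nat_lit 124) (nat_lit 118))) (PT.nd (nat_lit 78) (PT.lf (nat_lit 8056) (nat_lit 6) (nat_lit 106) (nat_lit 2) (nat_lit 119) (nat_lit 124) (nat_lit 117)) (PT.nd (nat_lit 78) (PT.lf (nat_lit 8132) (nat_lit 6) (nat_lit 107) (nat_lit 2) (nat_lit 120) (nat_lit 124) (nat_lit 116)) (PT.lf (nat_lit 7828) (nat_lit 6) (nat_lit 103) (nat_lit 2) (nat_lit 121) (nat_lit 124) (nat_lit 115))))) (PT.nd (nat_lit 156) (PT.nd (nat_lit 78) (PT.lf (nat_lit 7448) (nat_lit 6) (nat_lit 98) (nat_lit 2) (nat_lit 122) (nat_lit 124) (nat_lit 114)) (PT.lf (nat_lit 6992) (nat_lit 6) (nat_lit 92) (nat_lit 2) (nat_lit 123) (nat_lit 124) (nat_lit 113)))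 (PT.nd (nat_lit 78) (PT.lf (nat_lit 6460) (nat_lit 3) (nat_lit 85) (nat_lit 0) (nat_lit 124) (nat_lit 124) (nat_lit 112)) (PT.nd (nat_lit 78) (PT.lf (nat_lit 5776) (nat_lit 6) (nat_lit 76) (nat_lit 0) (nat_lit 125) (nat_lit 124) (nat_lit 111)) (PT.lf (nat_lit 5016) (nat_lit 6) (nat_lit 66) (nat_lit 0) (nat_lit 126) (nat_lit 124) (nat_lit 110))))))))
noncomputable def pc9 : PT := (PT.nd (nat_lit 36972) (PT.nd (nat_lit 36192) (PT.nd (nat_lit 35802) (PT.nd (nat_lit 156) (PT.nd (nat_lit 78) (PT.lf (nat_lit 4636) (nat_lit 6) (nat_lit 61) (nat_lit 0) (nat_lit 127) (nat_lit 124) (nat_lit 109)) (PT.lf (nat_lit 4180) (nat_lit 6) (nat_lit 55) (nat_lit 0) (nat_lit 128) (nat_lit 124) (nat_lit 108))) (PT.nd (nat_lit 78) (PT.lf (nat_lit 3800) (nat_lit 6) (nat_lit 50) (nat_lit 0) (nat_lit 129) (nat_lit 124) (nat_lit 107)) (PT.nd (nat_lit 35490) (PT.lf (nat_lit 3420) (nat_lit 6) (nat_lit 45) (nat_lit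 0) (nat_lit 130) (nat_lit 124) (nat_lit 106)) (PT.lf (nat_lit 2888) (nat_lit 6) (nat_lit 38) (nat_lit 5) (nat_lit 104) (nat_lit 125) (nat_lit 131))))) (PT.nd (nat_lit 156) (PT.nd (nat_lit 78) (PT.lf (nat_lit 3192) (nat_lit 6) (nat_lit 42) (nat_lit 5) (nat_lit 105) (nat_lit 125) (nat_lit 130)) (PT.lf (nat_lit 3496) (nat_lit 6) (nat_lit 46) (nat_lit 5) (nat_lit 106) (nat_lit 125) (nat_lit 129))) (PT.nd (nat_lit 78) (PT.lf (nat_lit 3876) (nat_lit 6) (nat_lit 51) (nat_lit 5) (nat_lit 107) (nat_lit 125) (nat_lit 128)) (PT.nd (nat_lit 78) (PT.lf (nat_lit 4256) (nat_lit 6) (nat_lit 56) (nat_lit 5) (nat_lit 108) (nat_lit 125) (nat_lit 127)) (PT.lf (nat_lit 4712) (nat_lit 6) (nat_lit 62) (nat_lit 5) (nat_lit 109) (nat_lit 125) (nat_lit 126)))))) (PT.nd (nat_lit 390) (PT.nd (nat_lit 156) (PT.nd (nat_lit 78) (PT.lf (nat_lit 5092) (nat_lit 3) (nat_lit 67) (nat_lit 4) (nat_lit 110) (nat_lit 125)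 (nat_lit 125)) (PT.lf (nat_lit 5776) (nat_lit 6) (nat_lit 76) (nat_lit 4) (nat_lit 111) (nat_lit 125) (nat_lit 124))) (PT.nd (nat_lit 78) (PT.lf (nat_lit 6384) (nat_lit 6) (nat_lit 84) (nat_lit 4) (nat_lit 112) (nat_lit 125) (nat_lit 123)) (PT.nd (nat_lit 78) (PT.lf (nat_lit 6916) (nat_lit 6) (nat_lit 91) (nat_lit 4) (nat_lit 113) (nat_lit 125) (nat_lit 122)) (PT.lf (nat_lit 7372) (nat_lit 6) (nat_lit 97) (nat_lit 4) (nat_lit 114) (nat_lit 125) (nat_lit 121))))) (PT.nd (nat_lit 156) (PT.nd (nat_lit 78) (PT.lf (nat_lit 7752) (nat_lit 6) (nat_lit 102) (nat_lit 4) (nat_lit 115) (nat_lit 125) (nat_lit 120)) (PT.lf (nat_lit 7676) (nat_lit 6) (nat_lit 101) (nat_lit 4) (nat_lit 116) (nat_lit 125) (nat_lit 119))) (PT.nd (nat_lit 78) (PT.lf (nat_lit 7600) (nat_lit 6) (nat_lit 100) (nat_lit 4) (nat_lit 117) (nat_lit 125) (nat_lit 118)) (PT.nd (nat_lit 78) (PT.lf (nat_lit 7600) (nat_lit 6) (nat_lit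 100) (nat_lit 2) (nat_lit 118) (nat_lit 125) (nat_lit 117)) (PT.lf (nat_lit 7676) (nat_lit 6) (nat_lit 101) (nat_lit 2) (nat_lit 119) (nat_lit 125) (nat_lit 116))))))) (PT.nd (nat_lit 780) (PT.nd (nat_lit 390) (PT.nd (nat_lit 156) (PT.nd (nat_lit 78) (PT.lf (nat_lit 7752) (nat_lit 6) (nat_lit 102) (nat_lit 2) (nat_lit 120) (nat_lit 125) (nat_lit 115)) (PT.lf (nat_lit 7372) (nat_lit 6) (nat_lit 97) (nat_lit 2) (nat_lit 121) (nat_lit 125) (nat_lit 114))) (PT.nd (nat_lit 78) (PT.lf (nat_lit 6916) (nat_lit 6) (nat_lit 91) (nat_lit 2) (nat_lit 122) (nat_lit 125) (nat_lit 113)) (PT.nd (nat_lit 78) (PT.lf (nat_lit 6384) (nat_lit 6) (nat_lit 84) (nat_lit 2) (nat_lit 123) (nat_lit 125) (nat_lit 112)) (PT.lf (nat_lit 5776) (nat_lit 6) (nat_lit 76) (nat_lit 2) (nat_lit 124) (nat_lit 125) (nat_lit 111))))) (PT.nd (nat_lit 156) (PT.nd (nat_lit 78) (PT.lf (nat_lit 5092) (nat_lit 3) (nat_lit 67)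 (nat_lit 0) (nat_lit 125) (nat_lit 125) (nat_lit 110)) (PT.lf (nat_lit 4712) (nat_lit 6) (nat_lit 62) (nat_lit 0) (nat_lit 126) (nat_lit 125) (nat_lit 109))) (PT.nd (nat_lit 78) (PT.lf (nat_lit 4256) (nat_lit 6) (nat_lit 56) (nat_lit 0) (nat_lit 127) (nat_lit 125) (nat_lit 108)) (PT.nd (nat_lit 78) (PT.lf (nat_lit 3876) (nat_lit 6) (nat_lit 51) (nat_lit 0) (nat_lit 128) (nat_lit 125) (nat_lit 107)) (PT.lf (nat_lit 3496) (nat_lit 6) (nat_lit 46) (nat_lit 0) (nat_lit 129) (nat_lit 125) (nat_lit 106)))))) (PT.nd (nat_lit 35646) (PT.nd (nat_lit 35412) (PT.nd (nat_lit 78) (PT.lf (nat_lit 3192) (nat_lit 6) (nat_lit 42) (nat_lit 0) (nat_lit 130) (nat_lit 125) (nat_lit 105)) (PT.lf (nat_lit 2888) (nat_lit 6) (nat_lit 38) (nat_lit 0) (nat_lit 131) (nat_lit 125) (nat_lit 104))) (PT.nd (nat_lit 78) (PT.lf (nat_lit 2660) (nat_lit 6) (nat_lit 35) (nat_lit 5) (nat_lit 103) (nat_lit 126) (nat_lit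 131)) (PT.nd (nat_lit 78) (PT.lf (nat_lit 2964) (nat_lit 6) (nat_lit 39) (nat_lit 5) (nat_lit 104) (nat_lit 126) (nat_lit 130)) (PT.lf (nat_lit 3268) (nat_lit 6) (nat_lit 43) (nat_lit 5) (nat_lit 105) (nat_lit 126) (nat_lit 129))))) (PT.nd (nat_lit 156) (PT.nd (nat_lit 78) (PT.lf (nat_lit 3572) (nat_lit 6) (nat_lit 47) (nat_lit 5) (nat_lit 106) (nat_lit 126) (nat_lit 128)) (PT.lf (nat_lit 3952) (nat_lit 6) (nat_lit 52) (nat_lit 5) (nat_lit 107) (nat_lit 126) (nat_lit 127))) (PT.nd (nat_lit 78) (PT.lf (nat_lit 4332) (nat_lit 3) (nat_lit 57) (nat_lit 4) (nat_lit 108) (nat_lit 126) (nat_lit 126)) (PT.nd (nat_lit 78) (PT.lf (nat_lit 4712) (nat_lit 6) (nat_lit 62) (nat_lit 4) (nat_lit 109) (nat_lit 126) (nat_lit 125)) (PT.lf (nat_lit 5016) (nat_lit 6) (nat_lit 66) (nat_lit 4) (nat_lit 110) (nat_lit 126) (nat_lit 124))))))))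
noncomputable def pc10 : PT := (PT.nd (nat_lit 1482) (PT.nd (nat_lit 702) (PT.nd (nat_lit 312) (PT.nd (nat_lit 156) (PT.nd (nat_lit 78) (PT.lf (nat_lit 5700) (nat_lit 6) (nat_lit 75) (nat_lit 4) (nat_lit 111) (nat_lit 126) (nat_lit 123)) (PT.lf (nat_lit 6308) (nat_lit 6) (nat_lit 83) (nat_lit 4) (nat_lit 112) (nat_lit 126) (nat_lit 122))) (PT.nd (nat_lit 78) (PT.lf (nat_lit 6840) (nat_lit 6) (nat_lit 90) (nat_lit 4) (nat_lit 113) (nat_lit 126) (nat_lit 121)) (PT.lf (nat_lit 7296) (nat_lit 6) (nat_lit 96) (nat_lit 4) (nat_lit 114) (nat_lit 126) (nat_lit 120)))) (PT.nd (nat_lit 156) (PT.nd (nat_lit 78) (PT.lf (nat_lit 7220) (nat_lit 6) (nat_lit 95) (nat_lit 4) (nat_lit 115) (nat_lit 126) (nat_lit 119)) (PT.lf (nat_lit 7144) (nat_lit 6) (nat_lit 94) (nat_lit 4) (nat_lit 116) (nat_lit 126) (nat_lit 118))) (PT.nd (nat_lit 78) (PT.lf (nat_lit 7068) (nat_lit 3) (nat_lit 93) (nat_lit 2) (nat_lit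 117) (nat_lit 126) (nat_lit 117)) (PT.nd (nat_lit 78) (PT.lf (nat_lit 7144) (nat_lit 6) (nat_lit 94) (nat_lit 2) (nat_lit 118) (nat_lit 126) (nat_lit 116)) (PT.lf (nat_lit 7220) (nat_lit 6) (nat_lit 95) (nat_lit 2) (nat_lit 119) (nat_lit 126) (nat_lit 115)))))) (PT.nd (nat_lit 390) (PT.nd (nat_lit 156) (PT.nd (nat_lit 78) (PT.lf (nat_lit 7296) (nat_lit 6) (nat_lit 96) (nat_lit 2) (nat_lit 120) (nat_lit 126) (nat_lit 114)) (PT.lf (nat_lit 6840) (nat_lit 6) (nat_lit 90) (nat_lit 2) (nat_lit 121) (nat_lit 126) (nat_lit 113))) (PT.nd (nat_lit 78) (PT.lf (nat_lit 6308) (nat_lit 6) (nat_lit 83) (nat_lit 2) (nat_lit 122) (nat_lit 126) (nat_lit 112)) (PT.nd (nat_lit 78) (PT.lf (nat_lit 5700) (nat_lit 6) (nat_lit 75) (nat_lit 2) (nat_lit 123) (nat_lit 126) (nat_lit 111)) (PT.lf (nat_lit 5016) (nat_lit 6) (nat_lit 66) (nat_lit 2) (nat_lit 124) (nat_lit 126) (nat_lit 110))))) (PT.nd (nat_lit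 156) (PT.nd (nat_lit 78) (PT.lf (nat_lit 4712) (nat_lit 6) (nat_lit 62) (nat_lit 2) (nat_lit 125) (nat_lit 126) (nat_lit 109)) (PT.lf (nat_lit 4332) (nat_lit 3) (nat_lit 57) (nat_lit 0) (nat_lit 126) (nat_lit 126) (nat_lit 108))) (PT.nd (nat_lit 78) (PT.lf (nat_lit 3952) (nat_lit 6) (nat_lit 52) (nat_lit 0) (nat_lit 127) (nat_lit 126) (nat_lit 107)) (PT.nd (nat_lit 78) (PT.lf (nat_lit 3572) (nat_lit 6) (nat_lit 47) (nat_lit 0) (nat_lit 128) (nat_lit 126) (nat_lit 106)) (PT.lf (nat_lit 3268) (nat_lit 6) (nat_lit 43) (nat_lit 0) (nat_lit 129) (nat_lit 126) (nat_lit 105))))))) (PT.nd (nat_lit 35880) (PT.nd (nat_lit 35490) (PT.nd (nat_lit 35256) (PT.nd (nat_lit 78) (PT.lf (nat_lit 2964) (nat_lit 6) (nat_lit 39) (nat_lit 0) (nat_lit 130) (nat_lit 126) (nat_lit 104)) (PT.lf (nat_lit 2660) (nat_lit 6) (nat_lit 35) (nat_lit 0) (nat_lit 131) (nat_lit 126) (nat_lit 103))) (PT.nd (nat_lit 78)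 (PT.lf (nat_lit 2204) (nat_lit 6) (nat_lit 29) (nat_lit 5) (nat_lit 101) (nat_lit 127) (nat_lit 132)) (PT.nd (nat_lit 78) (PT.lf (nat_lit 2432) (nat_lit 6) (nat_lit 32) (nat_lit 5) (nat_lit 102) (nat_lit 127) (nat_lit 131)) (PT.lf (nat_lit 2736) (nat_lit 6) (nat_lit 36) (nat_lit 5) (nat_lit 103) (nat_lit 127) (nat_lit 130))))) (PT.nd (nat_lit 156) (PT.nd (nat_lit 78) (PT.lf (nat_lit 3040) (nat_lit 6) (nat_lit 40) (nat_lit 5) (nat_lit 104) (nat_lit 127) (nat_lit 129)) (PT.lf (nat_lit 3344) (nat_lit 6) (nat_lit 44) (nat_lit 5) (nat_lit 105) (nat_lit 127) (nat_lit 128))) (PT.nd (nat_lit 78) (PT.lf (nat_lit 3648) (nat_lit 3) (nat_lit 48) (nat_lit 4) (nat_lit 106) (nat_lit 127) (nat_lit 127)) (PT.nd (nat_lit 78) (PT.lf (nat_lit 3952) (nat_lit 6) (nat_lit 52) (nat_lit 4) (nat_lit 107) (nat_lit 127) (nat_lit 126)) (PT.lf (nat_lit 4256) (nat_lit 6) (nat_lit 56) (nat_lit 4) (nat_lit 108) (nat_lit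 127) (nat_lit 125)))))) (PT.nd (nat_lit 390) (PT.nd (nat_lit 156) (PT.nd (nat_lit 78) (PT.lf (nat_lit 4636) (nat_lit 6) (nat_lit 61) (nat_lit 4) (nat_lit 109) (nat_lit 127) (nat_lit 124)) (PT.lf (nat_lit 4940) (nat_lit 6) (nat_lit 65) (nat_lit 4) (nat_lit 110) (nat_lit 127) (nat_lit 123))) (PT.nd (nat_lit 78) (PT.lf (nat_lit 5624) (nat_lit 6) (nat_lit 74) (nat_lit 4) (nat_lit 111) (nat_lit 127) (nat_lit 122)) (PT.nd (nat_lit 78) (PT.lf (nat_lit 6232) (nat_lit 6) (nat_lit 82) (nat_lit 4) (nat_lit 112) (nat_lit 127) (nat_lit 121)) (PT.lf (nat_lit 6764) (nat_lit 6) (nat_lit 89) (nat_lit 4) (nat_lit 113) (nat_lit 127) (nat_lit 120))))) (PT.nd (nat_lit 156) (PT.nd (nat_lit 78) (PT.lf (nat_lit 6688) (nat_lit 6) (nat_lit 88) (nat_lit 4) (nat_lit 114) (nat_lit 127) (nat_lit 119)) (PT.lf (nat_lit 6612) (nat_lit 6) (nat_lit 87) (nat_lit 4) (nat_lit 115) (nat_lit 127) (nat_lit 118))) (PT.nd (nat_lit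 78) (PT.lf (nat_lit 6536) (nat_lit 6) (nat_lit 86) (nat_lit 4) (nat_lit 116) (nat_lit 127) (nat_lit 117)) (PT.nd (nat_lit 78) (PT.lf (nat_lit 6536) (nat_lit 6) (nat_lit 86) (nat_lit 2) (nat_lit 117) (nat_lit 127) (nat_lit 116)) (PT.lf (nat_lit 6612) (nat_lit 6) (nat_lit 87) (nat_lit 2) (nat_lit 118) (nat_lit 127) (nat_lit 115))))))))
noncomputable def pc11 : PT := (PT.nd (nat_lit 36504) (PT.nd (nat_lit 780) (PT.nd (nat_lit 390) (PT.nd (nat_lit 156) (PT.nd (nat_lit 78) (PT.lf (nat_lit 6688) (nat_lit 6) (nat_lit 88) (nat_lit 2) (nat_lit 119) (nat_lit 127) (nat_lit 114)) (PT.lf (nat_lit 6764) (nat_lit 6) (nat_lit 89) (nat_lit 2) (nat_lit 120) (nat_lit 127) (nat_lit 113))) (PT.nd (nat_lit 78) (PT.lf (nat_lit 6232) (nat_lit 6) (nat_lit 82) (nat_lit 2) (nat_lit 121) (nat_lit 127) (nat_lit 112)) (PT.nd (nat_lit 78) (PT.lf (nat_lit 5624) (nat_lit 6) (nat_lit 74) (nat_lit 2) (nat_lit 122) (nat_lit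 127) (nat_lit 111)) (PT.lf (nat_lit 4940) (nat_lit 6) (nat_lit 65) (nat_lit 2) (nat_lit 123) (nat_lit 127) (nat_lit 110))))) (PT.nd (nat_lit 156) (PT.nd (nat_lit 78) (PT.lf (nat_lit 4636) (nat_lit 6) (nat_lit 61) (nat_lit 2) (nat_lit 124) (nat_lit 127) (nat_lit 109)) (PT.lf (nat_lit 4256) (nat_lit 6) (nat_lit 56) (nat_lit 2) (nat_lit 125) (nat_lit 127) (nat_lit 108))) (PT.nd (nat_lit 78) (PT.lf (nat_lit 3952) (nat_lit 6) (nat_lit 52) (nat_lit 2) (nat_lit 126) (nat_lit 127) (nat_lit 107)) (PT.nd (nat_lit 78) (PT.lf (nat_lit 3648) (nat_lit 3) (nat_lit 48) (nat_lit 0) (nat_lit 127) (nat_lit 127) (nat_lit 106)) (PT.lf (nat_lit 3344) (nat_lit 6) (nat_lit 44) (nat_lit 0) (nat_lit 128) (nat_lit 127) (nat_lit 105)))))) (PT.nd (nat_lit 35334) (PT.nd (nat_lit 156) (PT.nd (nat_lit 78) (PT.lf (nat_lit 3040) (nat_lit 6) (nat_lit 40) (nat_lit 0) (nat_lit 129) (nat_lit 127) (nat_lit 104)) (PT.lf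 (nat_lit 2736) (nat_lit 6) (nat_lit 36) (nat_lit 0) (nat_lit 130) (nat_lit 127) (nat_lit 103))) (PT.nd (nat_lit 78) (PT.lf (nat_lit 2432) (nat_lit 6) (nat_lit 32) (nat_lit 0) (nat_lit 131) (nat_lit 127) (nat_lit 102)) (PT.nd (nat_lit 35022) (PT.lf (nat_lit 2204) (nat_lit 6) (nat_lit 29) (nat_lit 0) (nat_lit 132) (nat_lit 127) (nat_lit 101)) (PT.lf (nat_lit 1976) (nat_lit 6) (nat_lit 26) (nat_lit 5) (nat_lit 100) (nat_lit 128) (nat_lit 132))))) (PT.nd (nat_lit 156) (PT.nd (nat_lit 78) (PT.lf (nat_lit 2280) (nat_lit 6) (nat_lit 30) (nat_lit 5) (nat_lit 101) (nat_lit 128) (nat_lit 131)) (PT.lf (nat_lit 2508) (nat_lit 6) (nat_lit 33) (nat_lit 5) (nat_lit 102) (nat_lit 128) (nat_lit 130))) (PT.nd (nat_lit 78) (PT.lf (nat_lit 2812) (nat_lit 6) (nat_lit 37) (nat_lit 5) (nat_lit 103) (nat_lit 128) (nat_lit 129)) (PT.nd (nat_lit 78) (PT.lf (nat_lit 3116) (nat_lit 3) (nat_lit 41) (nat_lit 4)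 (nat_lit 104) (nat_lit 128) (nat_lit 128)) (PT.lf (nat_lit 3344) (nat_lit 6) (nat_lit 44) (nat_lit 4) (nat_lit 105) (nat_lit 128) (nat_lit 127))))))) (PT.nd (nat_lit 780) (PT.nd (nat_lit 390) (PT.nd (nat_lit 156) (PT.nd (nat_lit 78) (PT.lf (nat_lit 3572) (nat_lit 6) (nat_lit 47) (nat_lit 4) (nat_lit 106) (nat_lit 128) (nat_lit 126)) (PT.lf (nat_lit 3876) (nat_lit 6) (nat_lit 51) (nat_lit 4) (nat_lit 107) (nat_lit 128) (nat_lit 125))) (PT.nd (nat_lit 78) (PT.lf (nat_lit 4180) (nat_lit 6) (nat_lit 55) (nat_lit 4) (nat_lit 108) (nat_lit 128) (nat_lit 124)) (PT.nd (nat_lit 78) (PT.lf (nat_lit 4560) (nat_lit 6) (nat_lit 60) (nat_lit 4) (nat_lit 109) (nat_lit 128) (nat_lit 123)) (PT.lf (nat_lit 4864) (nat_lit 6) (nat_lit 64) (nat_lit 4) (nat_lit 110) (nat_lit 128) (nat_lit 122))))) (PT.nd (nat_lit 156) (PT.nd (nat_lit 78) (PT.lf (nat_lit 5548) (nat_lit 6) (nat_lit 73) (nat_lit 4) (nat_lit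 111) (nat_lit 128) (nat_lit 121)) (PT.lf (nat_lit 6156) (nat_lit 6) (nat_lit 81) (nat_lit 4) (nat_lit 112) (nat_lit 128) (nat_lit 120))) (PT.nd (nat_lit 78) (PT.lf (nat_lit 6080) (nat_lit 6) (nat_lit 80) (nat_lit 4) (nat_lit 113) (nat_lit 128) (nat_lit 119)) (PT.nd (nat_lit 78) (PT.lf (nat_lit 6004) (nat_lit 6) (nat_lit 79) (nat_lit 4) (nat_lit 114) (nat_lit 128) (nat_lit 118)) (PT.lf (nat_lit 5928) (nat_lit 6) (nat_lit 78) (nat_lit 4) (nat_lit 115) (nat_lit 128) (nat_lit 117)))))) (PT.nd (nat_lit 390) (PT.nd (nat_lit 156) (PT.nd (nat_lit 78) (PT.lf (nat_lit 5852) (nat_lit 3) (nat_lit 77) (nat_lit 2) (nat_lit 116) (nat_lit 128) (nat_lit 116)) (PT.lf (nat_lit 5928) (nat_lit 6) (nat_lit 78) (nat_lit 2) (nat_lit 117) (nat_lit 128) (nat_lit 115))) (PT.nd (nat_lit 78) (PT.lf (nat_lit 6004) (nat_lit 6) (nat_lit 79) (nat_lit 2) (nat_lit 118) (nat_lit 128) (nat_lit 114)) (PT.nd (nat_lit 78)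 (PT.lf (nat_lit 6080) (nat_lit 6) (nat_lit 80) (nat_lit 2) (nat_lit 119) (nat_lit 128) (nat_lit 113)) (PT.lf (nat_lit 6156) (nat_lit 6) (nat_lit 81) (nat_lit 2) (nat_lit 120) (nat_lit 128) (nat_lit 112))))) (PT.nd (nat_lit 156) (PT.nd (nat_lit 78) (PT.lf (nat_lit 5548) (nat_lit 6) (nat_lit 73) (nat_lit 2) (nat_lit 121) (nat_lit 128) (nat_lit 111)) (PT.lf (nat_lit 4864) (nat_lit 6) (nat_lit 64) (nat_lit 2) (nat_lit 122) (nat_lit 128) (nat_lit 110))) (PT.nd (nat_lit 78) (PT.lf (nat_lit 4560) (nat_lit 6) (nat_lit 60) (nat_lit 2) (nat_lit 123) (nat_lit 128) (nat_lit 109)) (PT.nd (nat_lit 78) (PT.lf (nat_lit 4180) (nat_lit 6) (nat_lit 55) (nat_lit 2) (nat_lit 124) (nat_lit 128) (nat_lit 108)) (PT.lf (nat_lit 3876) (nat_lit 6) (nat_lit 51) (nat_lit 2) (nat_lit 125) (nat_lit 128) (nat_lit 107))))))))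
noncomputable def pc12 : PT := (PT.nd (nat_lit 36270) (PT.nd (nat_lit 35490) (PT.nd (nat_lit 312) (PT.nd (nat_lit 156) (PT.nd (nat_lit 78) (PT.lf (nat_lit 3572) (nat_lit 6) (nat_lit 47) (nat_lit 2) (nat_lit 126) (nat_lit 128) (nat_lit 106)) (PT.lf (nat_lit 3344) (nat_lit 6) (nat_lit 44) (nat_lit 2) (nat_lit 127) (nat_lit 128) (nat_lit 105))) (PT.nd (nat_lit 78) (PT.lf (nat_lit 3116) (nat_lit 3) (nat_lit 41) (nat_lit 0) (nat_lit 128) (nat_lit 128) (nat_lit 104)) (PT.lf (nat_lit 2812) (nat_lit 6) (nat_lit 37) (nat_lit 0) (nat_lit 129) (nat_lit 128) (nat_lit 103)))) (PT.nd (nat_lit 156) (PT.nd (nat_lit 78) (PT.lf (nat_lit 2508) (nat_lit 6) (nat_lit 33) (nat_lit 0) (nat_lit 130) (nat_lit 128) (nat_lit 102)) (PT.lf (nat_lit 2280) (nat_lit 6) (nat_lit 30) (nat_lit 0) (nat_lit 131) (nat_lit 128) (nat_lit 101))) (PT.nd (nat_lit 34866) (PT.lf (nat_lit 1976) (nat_lit 6) (nat_lit 26) (nat_lit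 0) (nat_lit 132) (nat_lit 128) (nat_lit 100)) (PT.nd (nat_lit 78) (PT.lf (nat_lit 1596) (nat_lit 6) (nat_lit 21) (nat_lit 5) (nat_lit 98) (nat_lit 129) (nat_lit 133)) (PT.lf (nat_lit 1824) (nat_lit 6) (nat_lit 24) (nat_lit 5) (nat_lit 99) (nat_lit 129) (nat_lit 132)))))) (PT.nd (nat_lit 390) (PT.nd (nat_lit 156) (PT.nd (nat_lit 78) (PT.lf (nat_lit 2052) (nat_lit 6) (nat_lit 27) (nat_lit 5) (nat_lit 100) (nat_lit 129) (nat_lit 131)) (PT.lf (nat_lit 2356) (nat_lit 6) (nat_lit 31) (nat_lit 5) (nat_lit 101) (nat_lit 129) (nat_lit 130))) (PT.nd (nat_lit 78) (PT.lf (nat_lit 2584) (nat_lit 3) (nat_lit 34) (nat_lit 4) (nat_lit 102) (nat_lit 129) (nat_lit 129)) (PT.nd (nat_lit 78) (PT.lf (nat_lit 2812) (nat_lit 6) (nat_lit 37) (nat_lit 4) (nat_lit 103) (nat_lit 129) (nat_lit 128)) (PT.lf (nat_lit 3040) (nat_lit 6) (nat_lit 40) (nat_lit 4) (nat_lit 104) (nat_lit 129) (nat_lit 127))))) (PT.nd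 (nat_lit 156) (PT.nd (nat_lit 78) (PT.lf (nat_lit 3268) (nat_lit 6) (nat_lit 43) (nat_lit 4) (nat_lit 105) (nat_lit 129) (nat_lit 126)) (PT.lf (nat_lit 3496) (nat_lit 6) (nat_lit 46) (nat_lit 4) (nat_lit 106) (nat_lit 129) (nat_lit 125))) (PT.nd (nat_lit 78) (PT.lf (nat_lit 3800) (nat_lit 6) (nat_lit 50) (nat_lit 4) (nat_lit 107) (nat_lit 129) (nat_lit 124)) (PT.nd (nat_lit 78) (PT.lf (nat_lit 4104) (nat_lit 6) (nat_lit 54) (nat_lit 4) (nat_lit 108) (nat_lit 129) (nat_lit 123)) (PT.lf (nat_lit 4484) (nat_lit 6) (nat_lit 59) (nat_lit 4) (nat_lit 109) (nat_lit 129) (nat_lit 122))))))) (PT.nd (nat_lit 780) (PT.nd (nat_lit 390) (PT.nd (nat_lit 156) (PT.nd (nat_lit 78) (PT.lf (nat_lit 4788) (nat_lit 6) (nat_lit 63) (nat_lit 4) (nat_lit 110) (nat_lit 129) (nat_lit 121)) (PT.lf (nat_lit 5472) (nat_lit 6) (nat_lit 72) (nat_lit 4) (nat_lit 111) (nat_lit 129) (nat_lit 120))) (PT.nd (nat_lit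 78) (PT.lf (nat_lit 5396) (nat_lit 6) (nat_lit 71) (nat_lit 4) (nat_lit 112) (nat_lit 129) (nat_lit 119)) (PT.nd (nat_lit 78) (PT.lf (nat_lit 5320) (nat_lit 6) (nat_lit 70) (nat_lit 4) (nat_lit 113) (nat_lit 129) (nat_lit 118)) (PT.lf (nat_lit 5244) (nat_lit 6) (nat_lit 69) (nat_lit 4) (nat_lit 114) (nat_lit 129) (nat_lit 117))))) (PT.nd (nat_lit 156) (PT.nd (nat_lit 78) (PT.lf (nat_lit 5168) (nat_lit 6) (nat_lit 68) (nat_lit 4) (nat_lit 115) (nat_lit 129) (nat_lit 116)) (PT.lf (nat_lit 5168) (nat_lit 6) (nat_lit 68) (nat_lit 2) (nat_lit 116) (nat_lit 129) (nat_lit 115))) (PT.nd (nat_lit 78) (PT.lf (nat_lit 5244) (nat_lit 6) (nat_lit 69) (nat_lit 2) (nat_lit 117) (nat_lit 129) (nat_lit 114)) (PT.nd (nat_lit 78) (PT.lf (nat_lit 5320) (nat_lit 6) (nat_lit 70) (nat_lit 2) (nat_lit 118) (nat_lit 129) (nat_lit 113)) (PT.lf (nat_lit 5396) (nat_lit 6) (nat_lit 71) (nat_lit 2) (nat_lit 119)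 (nat_lit 129) (nat_lit 112)))))) (PT.nd (nat_lit 390) (PT.nd (nat_lit 156) (PT.nd (nat_lit 78) (PT.lf (nat_lit 5472) (nat_lit 6) (nat_lit 72) (nat_lit 2) (nat_lit 120) (nat_lit 129) (nat_lit 111)) (PT.lf (nat_lit 4788) (nat_lit 6) (nat_lit 63) (nat_lit 2) (nat_lit 121) (nat_lit 129) (nat_lit 110))) (PT.nd (nat_lit 78) (PT.lf (nat_lit 4484) (nat_lit 6) (nat_lit 59) (nat_lit 2) (nat_lit 122) (nat_lit 129) (nat_lit 109)) (PT.nd (nat_lit 78) (PT.lf (nat_lit 4104) (nat_lit 6) (nat_lit 54) (nat_lit 2) (nat_lit 123) (nat_lit 129) (nat_lit 108)) (PT.lf (nat_lit 3800) (nat_lit 6) (nat_lit 50) (nat_lit 2) (nat_lit 124) (nat_lit 129) (nat_lit 107))))) (PT.nd (nat_lit 156) (PT.nd (nat_lit 78) (PT.lf (nat_lit 3496) (nat_lit 6) (nat_lit 46) (nat_lit 2) (nat_lit 125) (nat_lit 129) (nat_lit 106)) (PT.lf (nat_lit 3268) (nat_lit 6) (nat_lit 43) (nat_lit 2) (nat_lit 126) (nat_lit 129) (nat_lit 105)))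 (PT.nd (nat_lit 78) (PT.lf (nat_lit 3040) (nat_lit 6) (nat_lit 40) (nat_lit 2) (nat_lit 127) (nat_lit 129) (nat_lit 104)) (PT.nd (nat_lit 78) (PT.lf (nat_lit 2812) (nat_lit 6) (nat_lit 37) (nat_lit 2) (nat_lit 128) (nat_lit 129) (nat_lit 103)) (PT.lf (nat_lit 2584) (nat_lit 3) (nat_lit 34) (nat_lit 0) (nat_lit 129) (nat_lit 129) (nat_lit 102))))))))
noncomputable def pc13 : PT := (PT.nd (nat_lit 37050) (PT.nd (nat_lit 35412) (PT.nd (nat_lit 35022) (PT.nd (nat_lit 156) (PT.nd (nat_lit 78) (PT.lf (nat_lit 2356) (nat_lit 6) (nat_lit 31) (nat_lit 0) (nat_lit 130) (nat_lit 129) (nat_lit 101)) (PT.lf (nat_lit 2052) (nat_lit 6) (nat_lit 27) (nat_lit 0) (nat_lit 131) (nat_lit 129) (nat_lit 100))) (PT.nd (nat_lit 78) (PT.lf (nat_lit 1824) (nat_lit 6) (nat_lit 24) (nat_lit 0) (nat_lit 132) (nat_lit 129) (nat_lit 99)) (PT.nd (nat_lit 34710) (PT.lf (nat_lit 1596) (nat_lit 6) (nat_lit 21) (nat_lit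 0) (nat_lit 133) (nat_lit 129) (nat_lit 98)) (PT.lf (nat_lit 1444) (nat_lit 6) (nat_lit 19) (nat_lit 5) (nat_lit 97) (nat_lit 130) (nat_lit 133))))) (PT.nd (nat_lit 156) (PT.nd (nat_lit 78) (PT.lf (nat_lit 1672) (nat_lit 6) (nat_lit 22) (nat_lit 5) (nat_lit 98) (nat_lit 130) (nat_lit 132)) (PT.lf (nat_lit 1900) (nat_lit 6) (nat_lit 25) (nat_lit 5) (nat_lit 99) (nat_lit 130) (nat_lit 131))) (PT.nd (nat_lit 78) (PT.lf (nat_lit 2128) (nat_lit 3) (nat_lit 28) (nat_lit 4) (nat_lit 100) (nat_lit 130) (nat_lit 130)) (PT.nd (nat_lit 78) (PT.lf (nat_lit 2356) (nat_lit 6) (nat_lit 31) (nat_lit 4) (nat_lit 101) (nat_lit 130) (nat_lit 129)) (PT.lf (nat_lit 2508) (nat_lit 6) (nat_lit 33) (nat_lit 4) (nat_lit 102) (nat_lit 130) (nat_lit 128)))))) (PT.nd (nat_lit 390) (PT.nd (nat_lit 156) (PT.nd (nat_lit 78) (PT.lf (nat_lit 2736) (nat_lit 6) (nat_lit 36) (nat_lit 4) (nat_lit 103) (nat_lit 130) (nat_lit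 127)) (PT.lf (nat_lit 2964) (nat_lit 6) (nat_lit 39) (nat_lit 4) (nat_lit 104) (nat_lit 130) (nat_lit 126))) (PT.nd (nat_lit 78) (PT.lf (nat_lit 3192) (nat_lit 6) (nat_lit 42) (nat_lit 4) (nat_lit 105) (nat_lit 130) (nat_lit 125)) (PT.nd (nat_lit 78) (PT.lf (nat_lit 3420) (nat_lit 6) (nat_lit 45) (nat_lit 4) (nat_lit 106) (nat_lit 130) (nat_lit 124)) (PT.lf (nat_lit 3724) (nat_lit 6) (nat_lit 49) (nat_lit 4) (nat_lit 107) (nat_lit 130) (nat_lit 123))))) (PT.nd (nat_lit 1014) (PT.nd (nat_lit 78) (PT.lf (nat_lit 4028) (nat_lit 6) (nat_lit 53) (nat_lit 4) (nat_lit 108) (nat_lit 130) (nat_lit 122)) (PT.lf (nat_lit 4408) (nat_lit 6) (nat_lit 58) (nat_lit 4) (nat_lit 109) (nat_lit 130) (nat_lit 121))) (PT.nd (nat_lit 78) (PT.lf (nat_lit 4408) (nat_lit 6) (nat_lit 58) (nat_lit 2) (nat_lit 121) (nat_lit 130) (nat_lit 109)) (PT.nd (nat_lit 78) (PT.lf (nat_lit 4028) (nat_lit 6) (nat_lit 53)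 (nat_lit 2) (nat_lit 122) (nat_lit 130) (nat_lit 108)) (PT.lf (nat_lit 3724) (nat_lit 6) (nat_lit 49) (nat_lit 2) (nat_lit 123) (nat_lit 130) (nat_lit 107))))))) (PT.nd (nat_lit 35256) (PT.nd (nat_lit 390) (PT.nd (nat_lit 156) (PT.nd (nat_lit 78) (PT.lf (nat_lit 3420) (nat_lit 6) (nat_lit 45) (nat_lit 2) (nat_lit 124) (nat_lit 130) (nat_lit 106)) (PT.lf (nat_lit 3192) (nat_lit 6) (nat_lit 42) (nat_lit 2) (nat_lit 125) (nat_lit 130) (nat_lit 105))) (PT.nd (nat_lit 78) (PT.lf (nat_lit 2964) (nat_lit 6) (nat_lit 39) (nat_lit 2) (nat_lit 126) (nat_lit 130) (nat_lit 104)) (PT.nd (nat_lit 78) (PT.lf (nat_lit 2736) (nat_lit 6) (nat_lit 36) (nat_lit 2) (nat_lit 127) (nat_lit 130) (nat_lit 103)) (PT.lf (nat_lit 2508) (nat_lit 6) (nat_lit 33) (nat_lit 2) (nat_lit 128) (nat_lit 130) (nat_lit 102))))) (PT.nd (nat_lit 156) (PT.nd (nat_lit 78) (PT.lf (nat_lit 2356) (nat_lit 6) (nat_lit 31) (nat_lit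 2) (nat_lit 129) (nat_lit 130) (nat_lit 101)) (PT.lf (nat_lit 2128) (nat_lit 3) (nat_lit 28) (nat_lit 0) (nat_lit 130) (nat_lit 130) (nat_lit 100))) (PT.nd (nat_lit 78) (PT.lf (nat_lit 1900) (nat_lit 6) (nat_lit 25) (nat_lit 0) (nat_lit 131) (nat_lit 130) (nat_lit 99)) (PT.nd (nat_lit 78) (PT.lf (nat_lit 1672) (nat_lit 6) (nat_lit 22) (nat_lit 0) (nat_lit 132) (nat_lit 130) (nat_lit 98)) (PT.lf (nat_lit 1444) (nat_lit 6) (nat_lit 19) (nat_lit 0) (nat_lit 133) (nat_lit 130) (nat_lit 97)))))) (PT.nd (nat_lit 390) (PT.nd (nat_lit 156) (PT.nd (nat_lit 78) (PT.lf (nat_lit 1140) (nat_lit 6) (nat_lit 15) (nat_lit 5) (nat_lit 95) (nat_lit 131) (nat_lit 134)) (PT.lf (nat_lit 1292) (nat_lit 6) (nat_lit 17) (nat_lit 5) (nat_lit 96) (nat_lit 131) (nat_lit 133))) (PT.nd (nat_lit 78) (PT.lf (nat_lit 1520) (nat_lit 6) (nat_lit 20) (nat_lit 5) (nat_lit 97) (nat_lit 131) (nat_lit 132)) (PT.nd (nat_lit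 78) (PT.lf (nat_lit 1748) (nat_lit 3) (nat_lit 23) (nat_lit 4) (nat_lit 98) (nat_lit 131) (nat_lit 131)) (PT.lf (nat_lit 1900) (nat_lit 6) (nat_lit 25) (nat_lit 4) (nat_lit 99) (nat_lit 131) (nat_lit 130))))) (PT.nd (nat_lit 156) (PT.nd (nat_lit 78) (PT.lf (nat_lit 2052) (nat_lit 6) (nat_lit 27) (nat_lit 4) (nat_lit 100) (nat_lit 131) (nat_lit 129)) (PT.lf (nat_lit 2280) (nat_lit 6) (nat_lit 30) (nat_lit 4) (nat_lit 101) (nat_lit 131) (nat_lit 128))) (PT.nd (nat_lit 78) (PT.lf (nat_lit 2432) (nat_lit 6) (nat_lit 32) (nat_lit 4) (nat_lit 102) (nat_lit 131) (nat_lit 127)) (PT.nd (nat_lit 78) (PT.lf (nat_lit 2660) (nat_lit 6) (nat_lit 35) (nat_lit 4) (nat_lit 103) (nat_lit 131) (nat_lit 126)) (PT.lf (nat_lit 2888) (nat_lit 6) (nat_lit 38) (nat_lit 4) (nat_lit 104) (nat_lit 131) (nat_lit 125))))))))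
noncomputable def pc14 : PT := (PT.nd (nat_lit 37752) (PT.nd (nat_lit 35022) (PT.nd (nat_lit 390) (PT.nd (nat_lit 156) (PT.nd (nat_lit 78) (PT.lf (nat_lit 2888) (nat_lit 6) (nat_lit 38) (nat_lit 2) (nat_lit 125) (nat_lit 131) (nat_lit 104)) (PT.lf (nat_lit 2660) (nat_lit 6) (nat_lit 35) (nat_lit 2) (nat_lit 126) (nat_lit 131) (nat_lit 103))) (PT.nd (nat_lit 78) (PT.lf (nat_lit 2432) (nat_lit 6) (nat_lit 32) (nat_lit 2) (nat_lit 127) (nat_lit 131) (nat_lit 102)) (PT.nd (nat_lit 78) (PT.lf (nat_lit 2280) (nat_lit 6) (nat_lit 30) (nat_lit 2) (nat_lit 128) (nat_lit 131) (nat_lit 101)) (PT.lf (nat_lit 2052) (nat_lit 6) (nat_lit 27) (nat_lit 2) (nat_lit 129) (nat_lit 131) (nat_lit 100))))) (PT.nd (nat_lit 156) (PT.nd (nat_lit 78) (PT.lf (nat_lit 1900) (nat_lit 6) (nat_lit 25) (nat_lit 2) (nat_lit 130) (nat_lit 131) (nat_lit 99)) (PT.lf (nat_lit 1748) (nat_lit 3) (nat_lit 23) (nat_lit 0)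 (nat_lit 131) (nat_lit 131) (nat_lit 98))) (PT.nd (nat_lit 78) (PT.lf (nat_lit 1520) (nat_lit 6) (nat_lit 20) (nat_lit 0) (nat_lit 132) (nat_lit 131) (nat_lit 97)) (PT.nd (nat_lit 78) (PT.lf (nat_lit 1292) (nat_lit 6) (nat_lit 17) (nat_lit 0) (nat_lit 133) (nat_lit 131) (nat_lit 96)) (PT.lf (nat_lit 1140) (nat_lit 6) (nat_lit 15) (nat_lit 0) (nat_lit 134) (nat_lit 131) (nat_lit 95)))))) (PT.nd (nat_lit 390) (PT.nd (nat_lit 156) (PT.nd (nat_lit 78) (PT.lf (nat_lit 836) (nat_lit 6) (nat_lit 11) (nat_lit 5) (nat_lit 93) (nat_lit 132) (nat_lit 135)) (PT.lf (nat_lit 988) (nat_lit 6) (nat_lit 13) (nat_lit 5) (nat_lit 94) (nat_lit 132) (nat_lit 134))) (PT.nd (nat_lit 78) (PT.lf (nat_lit 1216) (nat_lit 6) (nat_lit 16) (nat_lit 5) (nat_lit 95) (nat_lit 132) (nat_lit 133)) (PT.nd (nat_lit 78) (PT.lf (nat_lit 1368) (nat_lit 3) (nat_lit 18) (nat_lit 4) (nat_lit 96) (nat_lit 132) (nat_lit 132))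 (PT.lf (nat_lit 1520) (nat_lit 6) (nat_lit 20) (nat_lit 4) (nat_lit 97) (nat_lit 132) (nat_lit 131))))) (PT.nd (nat_lit 156) (PT.nd (nat_lit 78) (PT.lf (nat_lit 1672) (nat_lit 6) (nat_lit 22) (nat_lit 4) (nat_lit 98) (nat_lit 132) (nat_lit 130)) (PT.lf (nat_lit 1824) (nat_lit 6) (nat_lit 24) (nat_lit 4) (nat_lit 99) (nat_lit 132) (nat_lit 129))) (PT.nd (nat_lit 78) (PT.lf (nat_lit 1976) (nat_lit 6) (nat_lit 26) (nat_lit 4) (nat_lit 100) (nat_lit 132) (nat_lit 128)) (PT.nd (nat_lit 2028) (PT.lf (nat_lit 2204) (nat_lit 6) (nat_lit 29) (nat_lit 4) (nat_lit 101) (nat_lit 132) (nat_lit 127)) (PT.lf (nat_lit 2204) (nat_lit 6) (nat_lit 29) (nat_lit 2) (nat_lit 127) (nat_lit 132) (nat_lit 101))))))) (PT.nd (nat_lit 34866) (PT.nd (nat_lit 390) (PT.nd (nat_lit 156) (PT.nd (nat_lit 78) (PT.lf (nat_lit 1976) (nat_lit 6) (nat_lit 26) (nat_lit 2) (nat_lit 128) (nat_lit 132) (nat_lit 100)) (PT.lf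 (nat_lit 1824) (nat_lit 6) (nat_lit 24) (nat_lit 2) (nat_lit 129) (nat_lit 132) (nat_lit 99))) (PT.nd (nat_lit 78) (PT.lf (nat_lit 1672) (nat_lit 6) (nat_lit 22) (nat_lit 2) (nat_lit 130) (nat_lit 132) (nat_lit 98)) (PT.nd (nat_lit 78) (PT.lf (nat_lit 1520) (nat_lit 6) (nat_lit 20) (nat_lit 2) (nat_lit 131) (nat_lit 132) (nat_lit 97)) (PT.lf (nat_lit 1368) (nat_lit 3) (nat_lit 18) (nat_lit 0) (nat_lit 132) (nat_lit 132) (nat_lit 96))))) (PT.nd (nat_lit 156) (PT.nd (nat_lit 78) (PT.lf (nat_lit 1216) (nat_lit 6) (nat_lit 16) (nat_lit 0) (nat_lit 133) (nat_lit 132) (nat_lit 95)) (PT.lf (nat_lit 988) (nat_lit 6) (nat_lit 13) (nat_lit 0) (nat_lit 134) (nat_lit 132) (nat_lit 94))) (PT.nd (nat_lit 34164) (PT.lf (nat_lit 836) (nat_lit 6) (nat_lit 11) (nat_lit 0) (nat_lit 135) (nat_lit 132) (nat_lit 93)) (PT.nd (nat_lit 78) (PT.lf (nat_lit 684) (nat_lit 6) (nat_lit 9) (nat_lit 5) (nat_lit 92)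 (nat_lit 133) (nat_lit 135)) (PT.lf (nat_lit 912) (nat_lit 6) (nat_lit 12) (nat_lit 5) (nat_lit 93) (nat_lit 133) (nat_lit 134)))))) (PT.nd (nat_lit 2730) (PT.nd (nat_lit 156) (PT.nd (nat_lit 78) (PT.lf (nat_lit 1064) (nat_lit 3) (nat_lit 14) (nat_lit 4) (nat_lit 94) (nat_lit 133) (nat_lit 133)) (PT.lf (nat_lit 1216) (nat_lit 6) (nat_lit 16) (nat_lit 4) (nat_lit 95) (nat_lit 133) (nat_lit 132))) (PT.nd (nat_lit 78) (PT.lf (nat_lit 1292) (nat_lit 6) (nat_lit 17) (nat_lit 4) (nat_lit 96) (nat_lit 133) (nat_lit 131)) (PT.nd (nat_lit 78) (PT.lf (nat_lit 1444) (nat_lit 6) (nat_lit 19) (nat_lit 4) (nat_lit 97) (nat_lit 133) (nat_lit 130)) (PT.lf (nat_lit 1596) (nat_lit 6) (nat_lit 21) (nat_lit 4) (nat_lit 98) (nat_lit 133) (nat_lit 129))))) (PT.nd (nat_lit 156) (PT.nd (nat_lit 78) (PT.lf (nat_lit 1596) (nat_lit 6) (nat_lit 21) (nat_lit 2) (nat_lit 129) (nat_lit 133) (nat_lit 98)) (PT.lf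 (nat_lit 1444) (nat_lit 6) (nat_lit 19) (nat_lit 2) (nat_lit 130) (nat_lit 133) (nat_lit 97))) (PT.nd (nat_lit 78) (PT.lf (nat_lit 1292) (nat_lit 6) (nat_lit 17) (nat_lit 2) (nat_lit 131) (nat_lit 133) (nat_lit 96)) (PT.nd (nat_lit 78) (PT.lf (nat_lit 1216) (nat_lit 6) (nat_lit 16) (nat_lit 2) (nat_lit 132) (nat_lit 133) (nat_lit 95)) (PT.lf (nat_lit 1064) (nat_lit 3) (nat_lit 14) (nat_lit 0) (nat_lit 133) (nat_lit 133) (nat_lit 94))))))))
noncomputable def pc15 : PT := (PT.nd (nat_lit 74880) (PT.nd (nat_lit 37440) (PT.nd (nat_lit 34320) (PT.nd (nat_lit 34086) (PT.nd (nat_lit 78) (PT.lf (nat_lit 912) (nat_lit 6) (nat_lit 12) (nat_lit 0) (nat_lit 134) (nat_lit 133) (nat_lit 93)) (PT.lf (nat_lit 684) (nat_lit 6) (nat_lit 9) (nat_lit 0) (nat_lit 135) (nat_lit 133) (nat_lit 92))) (PT.nd (nat_lit 78) (PT.lf (nat_lit 456) (nat_lit 6) (nat_lit 6) (nat_lit 5) (nat_lit 90) (nat_lit 134) (nat_lit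 136)) (PT.nd (nat_lit 78) (PT.lf (nat_lit 608) (nat_lit 6) (nat_lit 8) (nat_lit 5) (nat_lit 91) (nat_lit 134) (nat_lit 135)) (PT.lf (nat_lit 760) (nat_lit 3) (nat_lit 10) (nat_lit 4) (nat_lit 92) (nat_lit 134) (nat_lit 134))))) (PT.nd (nat_lit 156) (PT.nd (nat_lit 78) (PT.lf (nat_lit 912) (nat_lit 6) (nat_lit 12) (nat_lit 4) (nat_lit 93) (nat_lit 134) (nat_lit 133)) (PT.lf (nat_lit 988) (nat_lit 6) (nat_lit 13) (nat_lit 4) (nat_lit 94) (nat_lit 134) (nat_lit 132))) (PT.nd (nat_lit 2808) (PT.lf (nat_lit 1140) (nat_lit 6) (nat_lit 15) (nat_lit 4) (nat_lit 95) (nat_lit 134) (nat_lit 131)) (PT.nd (nat_lit 78) (PT.lf (nat_lit 1140) (nat_lit 6) (nat_lit 15) (nat_lit 2) (nat_lit 131) (nat_lit 134) (nat_lit 95)) (PT.lf (nat_lit 988) (nat_lit 6) (nat_lit 13) (nat_lit 2) (nat_lit 132) (nat_lit 134) (nat_lit 94)))))) (PT.nd (nat_lit 34086) (PT.nd (nat_lit 156) (PT.nd (nat_lit 78) (PT.lf (nat_lit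 912) (nat_lit 6) (nat_lit 12) (nat_lit 2) (nat_lit 133) (nat_lit 134) (nat_lit 93)) (PT.lf (nat_lit 760) (nat_lit 3) (nat_lit 10) (nat_lit 0) (nat_lit 134) (nat_lit 134) (nat_lit 92))) (PT.nd (nat_lit 78) (PT.lf (nat_lit 608) (nat_lit 6) (nat_lit 8) (nat_lit 0) (nat_lit 135) (nat_lit 134) (nat_lit 91)) (PT.nd (nat_lit 33774) (PT.lf (nat_lit 456) (nat_lit 6) (nat_lit 6) (nat_lit 0) (nat_lit 136) (nat_lit 134) (nat_lit 90)) (PT.lf (nat_lit 228) (nat_lit 6) (nat_lit 3) (nat_lit 5) (nat_lit 88) (nat_lit 135) (nat_lit 137))))) (PT.nd (nat_lit 156) (PT.nd (nat_lit 78) (PT.lf (nat_lit 380) (nat_lit 6) (nat_lit 5) (nat_lit 5) (nat_lit 89) (nat_lit 135) (nat_lit 136)) (PT.lf (nat_lit 532) (nat_lit 3) (nat_lit 7) (nat_lit 4) (nat_lit 90) (nat_lit 135) (nat_lit 135))) (PT.nd (nat_lit 78) (PT.lf (nat_lit 608) (nat_lit 6) (nat_lit 8) (nat_lit 4) (nat_lit 91) (nat_lit 135) (nat_lit 134)) (PT.nd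 (nat_lit 78) (PT.lf (nat_lit 684) (nat_lit 6) (nat_lit 9) (nat_lit 4) (nat_lit 92) (nat_lit 135) (nat_lit 133)) (PT.lf (nat_lit 836) (nat_lit 6) (nat_lit 11) (nat_lit 4) (nat_lit 93) (nat_lit 135) (nat_lit 132))))))) (PT.nd (nat_lit 37674) (PT.nd (nat_lit 390) (PT.nd (nat_lit 156) (PT.nd (nat_lit 78) (PT.lf (nat_lit 836) (nat_lit 6) (nat_lit 11) (nat_lit 2) (nat_lit 132) (nat_lit 135) (nat_lit 93)) (PT.lf (nat_lit 684) (nat_lit 6) (nat_lit 9) (nat_lit 2) (nat_lit 133) (nat_lit 135) (nat_lit 92))) (PT.nd (nat_lit 78) (PT.lf (nat_lit 608) (nat_lit 6) (nat_lit 8) (nat_lit 2) (nat_lit 134) (nat_lit 135) (nat_lit 91)) (PT.nd (nat_lit 78) (PT.lf (nat_lit 532) (nat_lit 3) (nat_lit 7) (nat_lit 0) (nat_lit 135) (nat_lit 135) (nat_lit 90)) (PT.lf (nat_lit 380) (nat_lit 6) (nat_lit 5) (nat_lit 0) (nat_lit 136) (nat_lit 135) (nat_lit 89))))) (PT.nd (nat_lit 33696) (PT.nd (nat_lit 33618) (PT.lf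 (nat_lit 228) (nat_lit 6) (nat_lit 3) (nat_lit 0) (nat_lit 137) (nat_lit 135) (nat_lit 88)) (PT.lf (nat_lit 152) (nat_lit 6) (nat_lit 2) (nat_lit 5) (nat_lit 87) (nat_lit 136) (nat_lit 137))) (PT.nd (nat_lit 78) (PT.lf (nat_lit 304) (nat_lit 3) (nat_lit 4) (nat_lit 4) (nat_lit 88) (nat_lit 136) (nat_lit 136)) (PT.nd (nat_lit 78) (PT.lf (nat_lit 380) (nat_lit 6) (nat_lit 5) (nat_lit 4) (nat_lit 89) (nat_lit 136) (nat_lit 135)) (PT.lf (nat_lit 456) (nat_lit 6) (nat_lit 6) (nat_lit 4) (nat_lit 90) (nat_lit 136) (nat_lit 134)))))) (PT.nd (nat_lit 33852) (PT.nd (nat_lit 156) (PT.nd (nat_lit 78) (PT.lf (nat_lit 456) (nat_lit 6) (nat_lit 6) (nat_lit 2) (nat_lit 134) (nat_lit 136) (nat_lit 90)) (PT.lf (nat_lit 380) (nat_lit 6) (nat_lit 5) (nat_lit 2) (nat_lit 135) (nat_lit 136) (nat_lit 89))) (PT.nd (nat_lit 78) (PT.lf (nat_lit 304) (nat_lit 3) (nat_lit 4) (nat_lit 0) (nat_lit 136) (nat_lit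 136) (nat_lit 88)) (PT.nd (nat_lit 33540) (PT.lf (nat_lit 152) (nat_lit 6) (nat_lit 2) (nat_lit 0) (nat_lit 137) (nat_lit 136) (nat_lit 87)) (PT.lf (nat_lit 76) (nat_lit 3) (nat_lit 1) (nat_lit 4) (nat_lit 86) (nat_lit 137) (nat_lit 137))))) (PT.nd (nat_lit 3744) (PT.nd (nat_lit 78) (PT.lf (nat_lit 152) (nat_lit 6) (nat_lit 2) (nat_lit 4) (nat_lit 87) (nat_lit 137) (nat_lit 136)) (PT.lf (nat_lit 228) (nat_lit 6) (nat_lit 3) (nat_lit 4) (nat_lit 88) (nat_lit 137) (nat_lit 135))) (PT.nd (nat_lit 78) (PT.lf (nat_lit 228) (nat_lit 6) (nat_lit 3) (nat_lit 2) (nat_lit 135) (nat_lit 137) (nat_lit 88)) (PT.nd (nat_lit 78) (PT.lf (nat_lit 152) (nat_lit 6) (nat_lit 2) (nat_lit 2) (nat_lit 136) (nat_lit 137) (nat_lit 87)) (PT.lf (nat_lit 76) (nat_lit 3) (nat_lit 1) (nat_lit 0) (nat_lit 137) (nat_lit 137) (nat_lit 86))))))))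
noncomputable def xc0 : XT := (XT.nd (nat_lit 112554) (nat_lit 0) (nat_lit 0) (XT.nd (nat_lit 74958) (nat_lit 0) (nat_lit 0) (XT.nd (nat_lit 37518) (nat_lit 0) (nat_lit 0) (XT.nd (nat_lit 37362) (nat_lit 0) (nat_lit 0) (XT.nd (nat_lit 37284) (nat_lit 0) (nat_lit 0) (XT.lf (nat_lit 0) (nat_lit 614167290752) (nat_lit 76) (nat_lit 24762993697) (nat_lit 76) (nat_lit 24705798459) (nat_lit 1) (nat_lit 4) (nat_lit 2) (nat_lit 5) (nat_lit 2) (nat_lit 4) (nat_lit 367) (nat_lit 177) (nat_lit 176)) (XT.lf (nat_lit 0) (nat_lit 263315661275) (nat_lit 76) (nat_lit 11688036315) (nat_lit 76) (nat_lit 11688036315) (nat_lit 1) (nat_lit 4) (nat_lit 2) (nat_lit 5) (nat_lit 2) (nat_lit 4) (nat_lit 364) (nat_lit 178) (nat_lit 178))) (XT.nd (nat_lit 78) (nat_lit 0) (nat_lit 0) (XT.lf (nat_lit 0) (nat_lit 554428492922) (nat_lit 76) (nat_lit 23821545251) (nat_lit 76) (nat_lit 23761490252) (nat_lit 1) (nat_lit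 4) (nat_lit 2) (nat_lit 5) (nat_lit 2) (nat_lit 4) (nat_lit 365) (nat_lit 178) (nat_lit 177)) (XT.lf (nat_lit 0) (nat_lit 583569369912) (nat_lit 76) (nat_lit 24310083518) (nat_lit 76) (nat_lit 24192833280) (nat_lit 1) (nat_lit 4) (nat_lit 2) (nat_lit 5) (nat_lit 2) (nat_lit 4) (nat_lit 366) (nat_lit 178) (nat_lit 176)))) (XT.nd (nat_lit 37206) (nat_lit 0) (nat_lit 0) (XT.nd (nat_lit 37128) (nat_lit 0) (nat_lit 0) (XT.lf (nat_lit 0) (nat_lit 614123336562) (nat_lit 76) (nat_lit 24842850616) (nat_lit 76) (nat_lit 24671128723) (nat_lit 1) (nat_lit 4) (nat_lit 2) (nat_lit 5) (nat_lit 2) (nat_lit 4) (nat_lit 367) (nat_lit 178) (nat_lit 175)) (XT.lf (nat_lit 0) (nat_lit 237415614572) (nat_lit 76) (nat_lit 11331028724) (nat_lit 76) (nat_lit 11331028724) (nat_lit 1) (nat_lit 4) (nat_lit 2) (nat_lit 5) (nat_lit 2) (nat_lit 4) (nat_lit 362) (nat_lit 179) (nat_lit 179))) (XT.nd (nat_lit 78) (nat_lit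 0) (nat_lit 0) (XT.lf (nat_lit 0) (nat_lit 500111675058) (nat_lit 76) (nat_lit 23035662758) (nat_lit 76) (nat_lit 22972605008) (nat_lit 1) (nat_lit 4) (nat_lit 2) (nat_lit 5) (nat_lit 2) (nat_lit 4) (nat_lit 363) (nat_lit 179) (nat_lit 178)) (XT.nd (nat_lit 78) (nat_lit 0) (nat_lit 0) (XT.lf (nat_lit 0) (nat_lit 526607683772) (nat_lit 76) (nat_lit 23449779950) (nat_lit 76) (nat_lit 23326667200) (nat_lit 1) (nat_lit 4) (nat_lit 2) (nat_lit 5) (nat_lit 2) (nat_lit 4) (nat_lit 364) (nat_lit 179) (nat_lit 177)) (XT.lf (nat_lit 0) (nat_lit 554382341022) (nat_lit 76) (nat_lit 23905395016) (nat_lit 76) (nat_lit 23725087029) (nat_lit 1) (nat_lit 4) (nat_lit 2) (nat_lit 5) (nat_lit 2) (nat_lit 4) (nat_lit 365) (nat_lit 179) (nat_lit 176)))))) (XT.nd (nat_lit 37206) (nat_lit 0) (nat_lit 0) (XT.nd (nat_lit 37050) (nat_lit 0) (nat_lit 0) (XT.nd (nat_lit 78) (nat_lit 0) (nat_lit 0) (XT.lf (nat_lit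 0) (nat_lit 583501776944) (nat_lit 76) (nat_lit 24403592755) (nat_lit 76) (nat_lit 24168813113) (nat_lit 1) (nat_lit 4) (nat_lit 2) (nat_lit 5) (nat_lit 2) (nat_lit 4) (nat_lit 366) (nat_lit 179) (nat_lit 175)) (XT.lf (nat_lit 0) (nat_lit 614035323527) (nat_lit 76) (nat_lit 24945559352) (nat_lit 76) (nat_lit 24658901942) (nat_lit 1) (nat_lit 4) (nat_lit 2) (nat_lit 5) (nat_lit 2) (nat_lit 4) (nat_lit 367) (nat_lit 179) (nat_lit 174))) (XT.nd (nat_lit 78) (nat_lit 0) (nat_lit 0) (XT.lf (nat_lit 0) (nat_lit 213852536102) (nat_lit 76) (nat_lit 11043694076) (nat_lit 76) (nat_lit 11043694076) (nat_lit 1) (nat_lit 4) (nat_lit 2) (nat_lit 5) (nat_lit 2) (nat_lit 4) (nat_lit 360) (nat_lit 180) (nat_lit 180)) (XT.lf (nat_lit 0) (nat_lit 450706154493) (nat_lit 76) (nat_lit 22394285120) (nat_lit 76) (nat_lit 22328074483) (nat_lit 1) (nat_lit 4) (nat_lit 2) (nat_lit 5) (nat_lit 2) (nat_lit 4)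 (nat_lit 361) (nat_lit 180) (nat_lit 179)))) (XT.nd (nat_lit 156) (nat_lit 0) (nat_lit 0) (XT.nd (nat_lit 78) (nat_lit 0) (nat_lit 0) (XT.lf (nat_lit 0) (nat_lit 474806408427) (nat_lit 76) (nat_lit 22739450132) (nat_lit 76) (nat_lit 22610181745) (nat_lit 1) (nat_lit 4) (nat_lit 2) (nat_lit 5) (nat_lit 2) (nat_lit 4) (nat_lit 362) (nat_lit 180) (nat_lit 178)) (XT.lf (nat_lit 0) (nat_lit 500063215563) (nat_lit 76) (nat_lit 23123705011) (nat_lit 76) (nat_lit 22934381624) (nat_lit 1) (nat_lit 4) (nat_lit 2) (nat_lit 5) (nat_lit 2) (nat_lit 4) (nat_lit 363) (nat_lit 180) (nat_lit 177))) (XT.nd (nat_lit 78) (nat_lit 0) (nat_lit 0) (XT.lf (nat_lit 0) (nat_lit 526536711155) (nat_lit 76) (nat_lit 23547964650) (nat_lit 76) (nat_lit 23301446025) (nat_lit 1) (nat_lit 4) (nat_lit 2) (nat_lit 5) (nat_lit 2) (nat_lit 4) (nat_lit 364) (nat_lit 180) (nat_lit 176)) (XT.nd (nat_lit 78) (nat_lit 0) (nat_lit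 0) (XT.lf (nat_lit 0) (nat_lit 554289927336) (nat_lit 76) (nat_lit 24013239189) (nat_lit 76) (nat_lit 23712248909) (nat_lit 1) (nat_lit 4) (nat_lit 2) (nat_lit 5) (nat_lit 2) (nat_lit 4) (nat_lit 365) (nat_lit 180) (nat_lit 175)) (XT.lf (nat_lit 0) (nat_lit 583388943193) (nat_lit 76) (nat_lit 24520636426) (nat_lit 76) (nat_lit 24167768379) (nat_lit 1) (nat_lit 4) (nat_lit 2) (nat_lit 5) (nat_lit 2) (nat_lit 4) (nat_lit 366) (nat_lit 180) (nat_lit 174))))))) (XT.nd (nat_lit 37440) (nat_lit 0) (nat_lit 0) (XT.nd (nat_lit 37050) (nat_lit 0) (nat_lit 0) (XT.nd (nat_lit 36894) (nat_lit 0) (nat_lit 0) (XT.nd (nat_lit 36816) (nat_lit 0) (nat_lit 0) (XT.lf (nat_lit 0) (nat_lit 613903042095) (nat_lit 76) (nat_lit 25071364449) (nat_lit 76) (nat_lit 24669089005) (nat_lit 1) (nat_lit 4) (nat_lit 2) (nat_lit 5) (nat_lit 2) (nat_lit 4) (nat_lit 367) (nat_lit 180) (nat_lit 173)) (XT.lf (nat_lit 0)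 (nat_lit 192405608078) (nat_lit 76) (nat_lit 10821378930) (nat_lit 76) (nat_lit 10821378930) (nat_lit 1) (nat_lit 4) (nat_lit 2) (nat_lit 5) (nat_lit 2) (nat_lit 4) (nat_lit 358) (nat_lit 181) (nat_lit 181))) (XT.nd (nat_lit 78) (nat_lit 0) (nat_lit 0) (XT.lf (nat_lit 0) (nat_lit 405748397077) (nat_lit 76) (nat_lit 21887549692) (nat_lit 76) (nat_lit 21818028523) (nat_lit 1) (nat_lit 4) (nat_lit 2) (nat_lit 5) (nat_lit 2) (nat_lit 4) (nat_lit 359) (nat_lit 181) (nat_lit 180)) (XT.lf (nat_lit 0) (nat_lit 427679010451) (nat_lit 76) (nat_lit 22168650471) (nat_lit 76) (nat_lit 22032918665) (nat_lit 1) (nat_lit 4) (nat_lit 2) (nat_lit 5) (nat_lit 2) (nat_lit 4) (nat_lit 360) (nat_lit 181) (nat_lit 179)))) (XT.nd (nat_lit 156) (nat_lit 0) (nat_lit 0) (XT.nd (nat_lit 78) (nat_lit 0) (nat_lit 0) (XT.lf (nat_lit 0) (nat_lit 450655272023) (nat_lit 76) (nat_lit 22486729486) (nat_lit 76) (nat_lit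 22287939929) (nat_lit 1) (nat_lit 4) (nat_lit 2) (nat_lit 5) (nat_lit 2) (nat_lit 4) (nat_lit 361) (nat_lit 181) (nat_lit 178)) (XT.lf (nat_lit 0) (nat_lit 474731887179) (nat_lit 76) (nat_lit 22842544067) (nat_lit 76) (nat_lit 22583699511) (nat_lit 1) (nat_lit 4) (nat_lit 2) (nat_lit 5) (nat_lit 2) (nat_lit 4) (nat_lit 362) (nat_lit 181) (nat_lit 177))) (XT.nd (nat_lit 78) (nat_lit 0) (nat_lit 0) (XT.lf (nat_lit 0) (nat_lit 499966181193) (nat_lit 76) (nat_lit 23236941393) (nat_lit 76) (nat_lit 22920901598) (nat_lit 1) (nat_lit 4) (nat_lit 2) (nat_lit 5) (nat_lit 2) (nat_lit 4) (nat_lit 363) (nat_lit 181) (nat_lit 176)) (XT.nd (nat_lit 78) (nat_lit 0) (nat_lit 0) (XT.lf (nat_lit 0) (nat_lit 526418235716) (nat_lit 76) (nat_lit 23670860503) (nat_lit 76) (nat_lit 23300349054) (nat_lit 1) (nat_lit 4) (nat_lit 2) (nat_lit 5) (nat_lit 2) (nat_lit 4) (nat_lit 364) (nat_lit 181) (nat_lit 175))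 (XT.lf (nat_lit 0) (nat_lit 554151031832) (nat_lit 76) (nat_lit 24145334541) (nat_lit 76) (nat_lit 23722945324) (nat_lit 1) (nat_lit 4) (nat_lit 2) (nat_lit 5) (nat_lit 2) (nat_lit 4) (nat_lit 365) (nat_lit 181) (nat_lit 174)))))) (XT.nd (nat_lit 36894) (nat_lit 0) (nat_lit 0) (XT.nd (nat_lit 36738) (nat_lit 0) (nat_lit 0) (XT.nd (nat_lit 78) (nat_lit 0) (nat_lit 0) (XT.lf (nat_lit 0) (nat_lit 583230600007) (nat_lit 76) (nat_lit 24661493204) (nat_lit 76) (nat_lit 24189696591) (nat_lit 1) (nat_lit 4) (nat_lit 2) (nat_lit 5) (nat_lit 2) (nat_lit 4) (nat_lit 366) (nat_lit 181) (nat_lit 173)) (XT.lf (nat_lit 0) (nat_lit 613726177308) (nat_lit 76) (nat_lit 25220565443) (nat_lit 76) (nat_lit 24701714166) (nat_lit 1) (nat_lit 4) (nat_lit 2) (nat_lit 5) (nat_lit 2) (nat_lit 4) (nat_lit 367) (nat_lit 181) (nat_lit 172))) (XT.nd (nat_lit 78) (nat_lit 0) (nat_lit 0) (XT.lf (nat_lit 0) (nat_lit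 172874364827) (nat_lit 76) (nat_lit 10659953683) (nat_lit 76) (nat_lit 10659953683) (nat_lit 1) (nat_lit 4) (nat_lit 2) (nat_lit 5) (nat_lit 2) (nat_lit 4) (nat_lit 356) (nat_lit 182) (nat_lit 182)) (XT.lf (nat_lit 0) (nat_lit 364817617257) (nat_lit 76) (nat_lit 21506689369) (nat_lit 76) (nat_lit 21433692141) (nat_lit 1) (nat_lit 4) (nat_lit 2) (nat_lit 5) (nat_lit 2) (nat_lit 4) (nat_lit 357) (nat_lit 182) (nat_lit 181)))) (XT.nd (nat_lit 156) (nat_lit 0) (nat_lit 0) (XT.nd (nat_lit 78) (nat_lit 0) (nat_lit 0) (XT.lf (nat_lit 0) (nat_lit 384783851315) (nat_lit 76) (nat_lit 21728083296) (nat_lit 76) (nat_lit 21585564899) (nat_lit 1) (nat_lit 4) (nat_lit 2) (nat_lit 5) (nat_lit 2) (nat_lit 4) (nat_lit 358) (nat_lit 182) (nat_lit 180)) (XT.lf (nat_lit 0) (nat_lit 405694970484) (nat_lit 76) (nat_lit 21984616276) (nat_lit 76) (nat_lit 21775887242) (nat_lit 1) (nat_lit 4) (nat_lit 2) (nat_lit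 5) (nat_lit 2) (nat_lit 4) (nat_lit 359) (nat_lit 182) (nat_lit 179))) (XT.nd (nat_lit 78) (nat_lit 0) (nat_lit 0) (XT.lf (nat_lit 0) (nat_lit 427600763140) (nat_lit 76) (nat_lit 22276899103) (nat_lit 76) (nat_lit 22005112319) (nat_lit 1) (nat_lit 4) (nat_lit 2) (nat_lit 5) (nat_lit 2) (nat_lit 4) (nat_lit 360) (nat_lit 182) (nat_lit 178)) (XT.nd (nat_lit 78) (nat_lit 0) (nat_lit 0) (XT.lf (nat_lit 0) (nat_lit 450553385935) (nat_lit 76) (nat_lit 22605627686) (nat_lit 76) (nat_lit 22273785902) (nat_lit 1) (nat_lit 4) (nat_lit 2) (nat_lit 5) (nat_lit 2) (nat_lit 4) (nat_lit 361) (nat_lit 182) (nat_lit 177)) (XT.lf (nat_lit 0) (nat_lit 474607487969) (nat_lit 76) (nat_lit 22971584714) (nat_lit 76) (nat_lit 22582547692) (nat_lit 1) (nat_lit 4) (nat_lit 2) (nat_lit 5) (nat_lit 2) (nat_lit 4) (nat_lit 362) (nat_lit 182) (nat_lit 176))))))))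
noncomputable def xc1 : XT := (XT.nd (nat_lit 37830) (nat_lit 0) (nat_lit 0) (XT.nd (nat_lit 37128) (nat_lit 0) (nat_lit 0) (XT.nd (nat_lit 312) (nat_lit 0) (nat_lit 0) (XT.nd (nat_lit 156) (nat_lit 0) (nat_lit 0) (XT.nd (nat_lit 78) (nat_lit 0) (nat_lit 0) (XT.lf (nat_lit 0) (nat_lit 499820340914) (nat_lit 76) (nat_lit 23375641512) (nat_lit 76) (nat_lit 22932132835) (nat_lit 1) (nat_lit 4) (nat_lit 2) (nat_lit 5) (nat_lit 2) (nat_lit 4) (nat_lit 363) (nat_lit 182) (nat_lit 175)) (XT.lf (nat_lit 0) (nat_lit 526251975372) (nat_lit 76) (nat_lit 23818760121) (nat_lit 76) (nat_lit 23323373677) (nat_lit 1) (nat_lit 4) (nat_lit 2) (nat_lit 5) (nat_lit 2) (nat_lit 4) (nat_lit 364) (nat_lit 182) (nat_lit 174))) (XT.nd (nat_lit 78) (nat_lit 0) (nat_lit 0) (XT.lf (nat_lit 0) (nat_lit 553965323806) (nat_lit 76) (nat_lit 24301995584) (nat_lit 76) (nat_lit 23757201743) (nat_lit 1) (nat_lit 4) (nat_lit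 2) (nat_lit 5) (nat_lit 2) (nat_lit 4) (nat_lit 365) (nat_lit 182) (nat_lit 173)) (XT.lf (nat_lit 0) (nat_lit 583026370380) (nat_lit 76) (nat_lit 24826498464) (nat_lit 76) (nat_lit 24234649959) (nat_lit 1) (nat_lit 4) (nat_lit 2) (nat_lit 5) (nat_lit 2) (nat_lit 4) (nat_lit 366) (nat_lit 182) (nat_lit 172)))) (XT.nd (nat_lit 36582) (nat_lit 0) (nat_lit 0) (XT.nd (nat_lit 36504) (nat_lit 0) (nat_lit 0) (XT.lf (nat_lit 0) (nat_lit 613504308061) (nat_lit 76) (nat_lit 25393517575) (nat_lit 76) (nat_lit 24756855104) (nat_lit 1) (nat_lit 4) (nat_lit 2) (nat_lit 5) (nat_lit 2) (nat_lit 4) (nat_lit 367) (nat_lit 182) (nat_lit 171)) (XT.lf (nat_lit 0) (nat_lit 155076791772) (nat_lit 76) (nat_lit 10555768424) (nat_lit 76) (nat_lit 10555768424) (nat_lit 1) (nat_lit 4) (nat_lit 2) (nat_lit 5) (nat_lit 2) (nat_lit 4) (nat_lit 354) (nat_lit 183) (nat_lit 183))) (XT.nd (nat_lit 78) (nat_lit 0) (nat_lit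 0) (XT.lf (nat_lit 0) (nat_lit 327531786397) (nat_lit 76) (nat_lit 21243939657) (nat_lit 76) (nat_lit 21167292568) (nat_lit 1) (nat_lit 4) (nat_lit 2) (nat_lit 5) (nat_lit 2) (nat_lit 4) (nat_lit 355) (nat_lit 183) (nat_lit 182)) (XT.nd (nat_lit 78) (nat_lit 0) (nat_lit 0) (XT.lf (nat_lit 0) (nat_lit 345719996573) (nat_lit 76) (nat_lit 21409499072) (nat_lit 76) (nat_lit 21259854755) (nat_lit 1) (nat_lit 4) (nat_lit 2) (nat_lit 5) (nat_lit 2) (nat_lit 4) (nat_lit 356) (nat_lit 183) (nat_lit 181)) (XT.lf (nat_lit 0) (nat_lit 364761519334) (nat_lit 76) (nat_lit 21608609282) (nat_lit 76) (nat_lit 21389443796) (nat_lit 1) (nat_lit 4) (nat_lit 2) (nat_lit 5) (nat_lit 2) (nat_lit 4) (nat_lit 357) (nat_lit 183) (nat_lit 180)))))) (XT.nd (nat_lit 312) (nat_lit 0) (nat_lit 0) (XT.nd (nat_lit 156) (nat_lit 0) (nat_lit 0) (XT.nd (nat_lit 78) (nat_lit 0) (nat_lit 0) (XT.lf (nat_lit 0) (nat_lit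 384701691639) (nat_lit 76) (nat_lit 21841744359) (nat_lit 76) (nat_lit 21556368236) (nat_lit 1) (nat_lit 4) (nat_lit 2) (nat_lit 5) (nat_lit 2) (nat_lit 4) (nat_lit 358) (nat_lit 183) (nat_lit 179)) (XT.lf (nat_lit 0) (nat_lit 405587990091) (nat_lit 76) (nat_lit 22109459387) (nat_lit 76) (nat_lit 21761025513) (nat_lit 1) (nat_lit 4) (nat_lit 2) (nat_lit 5) (nat_lit 2) (nat_lit 4) (nat_lit 359) (nat_lit 183) (nat_lit 178))) (XT.nd (nat_lit 78) (nat_lit 0) (nat_lit 0) (XT.lf (nat_lit 0) (nat_lit 427470143969) (nat_lit 76) (nat_lit 22412391781) (nat_lit 76) (nat_lit 22003902908) (nat_lit 1) (nat_lit 4) (nat_lit 2) (nat_lit 5) (nat_lit 2) (nat_lit 4) (nat_lit 360) (nat_lit 183) (nat_lit 177)) (XT.lf (nat_lit 0) (nat_lit 450400253641) (nat_lit 76) (nat_lit 22751262811) (nat_lit 76) (nat_lit 22285578700) (nat_lit 1) (nat_lit 4) (nat_lit 2) (nat_lit 5) (nat_lit 2) (nat_lit 4) (nat_lit 361)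 (nat_lit 183) (nat_lit 176)))) (XT.nd (nat_lit 156) (nat_lit 0) (nat_lit 0) (XT.nd (nat_lit 78) (nat_lit 0) (nat_lit 0) (XT.lf (nat_lit 0) (nat_lit 474432914607) (nat_lit 76) (nat_lit 23126879312) (nat_lit 76) (nat_lit 22606723546) (nat_lit 1) (nat_lit 4) (nat_lit 2) (nat_lit 5) (nat_lit 2) (nat_lit 4) (nat_lit 362) (nat_lit 183) (nat_lit 175)) (XT.lf (nat_lit 0) (nat_lit 499625347486) (nat_lit 76) (nat_lit 23540135608) (nat_lit 76) (nat_lit 22968102075) (nat_lit 1) (nat_lit 4) (nat_lit 2) (nat_lit 5) (nat_lit 2) (nat_lit 4) (nat_lit 363) (nat_lit 183) (nat_lit 174))) (XT.nd (nat_lit 78) (nat_lit 0) (nat_lit 0) (XT.lf (nat_lit 0) (nat_lit 526037534263) (nat_lit 76) (nat_lit 23992015643) (nat_lit 76) (nat_lit 23370574713) (nat_lit 1) (nat_lit 4) (nat_lit 2) (nat_lit 5) (nat_lit 2) (nat_lit 4) (nat_lit 364) (nat_lit 183) (nat_lit 173)) (XT.nd (nat_lit 78) (nat_lit 0) (nat_lit 0) (XT.lf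 (nat_lit 0) (nat_lit 553732361097) (nat_lit 76) (nat_lit 24483595323) (nat_lit 76) (nat_lit 23815099729) (nat_lit 1) (nat_lit 4) (nat_lit 2) (nat_lit 5) (nat_lit 2) (nat_lit 4) (nat_lit 365) (nat_lit 183) (nat_lit 172)) (XT.lf (nat_lit 0) (nat_lit 582775768050) (nat_lit 76) (nat_lit 25016045074) (nat_lit 76) (nat_lit 24302735515) (nat_lit 1) (nat_lit 4) (nat_lit 2) (nat_lit 5) (nat_lit 2) (nat_lit 4) (nat_lit 366) (nat_lit 183) (nat_lit 171))))))) (XT.nd (nat_lit 36972) (nat_lit 0) (nat_lit 0) (XT.nd (nat_lit 36582) (nat_lit 0) (nat_lit 0) (XT.nd (nat_lit 36426) (nat_lit 0) (nat_lit 0) (XT.nd (nat_lit 36348) (nat_lit 0) (nat_lit 0) (XT.lf (nat_lit 0) (nat_lit 613236906093) (nat_lit 76) (nat_lit 25590632635) (nat_lit 76) (nat_lit 24834643108) (nat_lit 1) (nat_lit 4) (nat_lit 2) (nat_lit 5) (nat_lit 2) (nat_lit 4) (nat_lit 367) (nat_lit 183) (nat_lit 170)) (XT.lf (nat_lit 0) (nat_lit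 138847600706) (nat_lit 76) (nat_lit 10505613133) (nat_lit 76) (nat_lit 10505613133) (nat_lit 1) (nat_lit 4) (nat_lit 2) (nat_lit 5) (nat_lit 2) (nat_lit 4) (nat_lit 352) (nat_lit 184) (nat_lit 184))) (XT.nd (nat_lit 78) (nat_lit 0) (nat_lit 0) (XT.lf (nat_lit 0) (nat_lit 293544011343) (nat_lit 76) (nat_lit 21092454844) (nat_lit 76) (nat_lit 21011975401) (nat_lit 1) (nat_lit 4) (nat_lit 2) (nat_lit 5) (nat_lit 2) (nat_lit 4) (nat_lit 353) (nat_lit 184) (nat_lit 183)) (XT.lf (nat_lit 0) (nat_lit 310123413808) (nat_lit 76) (nat_lit 21205608140) (nat_lit 76) (nat_lit 21048481608) (nat_lit 1) (nat_lit 4) (nat_lit 2) (nat_lit 5) (nat_lit 2) (nat_lit 4) (nat_lit 354) (nat_lit 184) (nat_lit 182)))) (XT.nd (nat_lit 156) (nat_lit 0) (nat_lit 0) (XT.nd (nat_lit 78) (nat_lit 0) (nat_lit 0) (XT.lf (nat_lit 0) (nat_lit 327472883578) (nat_lit 76) (nat_lit 21350955566) (nat_lit 76) (nat_lit 21120831806)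 (nat_lit 1) (nat_lit 4) (nat_lit 2) (nat_lit 5) (nat_lit 2) (nat_lit 4) (nat_lit 355) (nat_lit 184) (nat_lit 181)) (XT.lf (nat_lit 0) (nat_lit 345633728913) (nat_lit 76) (nat_lit 21528843188) (nat_lit 76) (nat_lit 21229198259) (nat_lit 1) (nat_lit 4) (nat_lit 2) (nat_lit 5) (nat_lit 2) (nat_lit 4) (nat_lit 356) (nat_lit 184) (nat_lit 180))) (XT.nd (nat_lit 78) (nat_lit 0) (nat_lit 0) (XT.lf (nat_lit 0) (nat_lit 364649189921) (nat_lit 76) (nat_lit 21739694548) (nat_lit 76) (nat_lit 21373838981) (nat_lit 1) (nat_lit 4) (nat_lit 2) (nat_lit 5) (nat_lit 2) (nat_lit 4) (nat_lit 357) (nat_lit 184) (nat_lit 179)) (XT.nd (nat_lit 78) (nat_lit 0) (nat_lit 0) (XT.lf (nat_lit 0) (nat_lit 384564541510) (nat_lit 76) (nat_lit 21984011672) (nat_lit 76) (nat_lit 21555098355) (nat_lit 1) (nat_lit 4) (nat_lit 2) (nat_lit 5) (nat_lit 2) (nat_lit 4) (nat_lit 358) (nat_lit 184) (nat_lit 178)) (XT.lf (nat_lit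 0) (nat_lit 405427201183) (nat_lit 76) (nat_lit 22262376268) (nat_lit 76) (nat_lit 21773407952) (nat_lit 1) (nat_lit 4) (nat_lit 2) (nat_lit 5) (nat_lit 2) (nat_lit 4) (nat_lit 359) (nat_lit 184) (nat_lit 177)))))) (XT.nd (nat_lit 312) (nat_lit 0) (nat_lit 0) (XT.nd (nat_lit 156) (nat_lit 0) (nat_lit 0) (XT.nd (nat_lit 78) (nat_lit 0) (nat_lit 0) (XT.lf (nat_lit 0) (nat_lit 427286841939) (nat_lit 76) (nat_lit 22575451109) (nat_lit 76) (nat_lit 22029287555) (nat_lit 1) (nat_lit 4) (nat_lit 2) (nat_lit 5) (nat_lit 2) (nat_lit 4) (nat_lit 360) (nat_lit 184) (nat_lit 176)) (XT.lf (nat_lit 0) (nat_lit 450195510543) (nat_lit 76) (nat_lit 22923981612) (nat_lit 76) (nat_lit 22323346402) (nat_lit 1) (nat_lit 4) (nat_lit 2) (nat_lit 5) (nat_lit 2) (nat_lit 4) (nat_lit 361) (nat_lit 184) (nat_lit 175))) (XT.nd (nat_lit 78) (nat_lit 0) (nat_lit 0) (XT.lf (nat_lit 0) (nat_lit 474207751443) (nat_lit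 76) (nat_lit 23308797610) (nat_lit 76) (nat_lit 22656284634) (nat_lit 1) (nat_lit 4) (nat_lit 2) (nat_lit 5) (nat_lit 2) (nat_lit 4) (nat_lit 362) (nat_lit 184) (nat_lit 174)) (XT.lf (nat_lit 0) (nat_lit 499380736641) (nat_lit 76) (nat_lit 23730815333) (nat_lit 76) (nat_lit 23028894959) (nat_lit 1) (nat_lit 4) (nat_lit 2) (nat_lit 5) (nat_lit 2) (nat_lit 4) (nat_lit 363) (nat_lit 184) (nat_lit 173)))) (XT.nd (nat_lit 156) (nat_lit 0) (nat_lit 0) (XT.nd (nat_lit 78) (nat_lit 0) (nat_lit 0) (XT.lf (nat_lit 0) (nat_lit 525774401817) (nat_lit 76) (nat_lit 24191039584) (nat_lit 76) (nat_lit 23442064547) (nat_lit 1) (nat_lit 4) (nat_lit 2) (nat_lit 5) (nat_lit 2) (nat_lit 4) (nat_lit 364) (nat_lit 184) (nat_lit 172)) (XT.lf (nat_lit 0) (nat_lit 553451589030) (nat_lit 76) (nat_lit 24690566136) (nat_lit 76) (nat_lit 23896777133) (nat_lit 1) (nat_lit 4) (nat_lit 2) (nat_lit 5) (nat_lit 2) (nat_lit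 4) (nat_lit 365) (nat_lit 184) (nat_lit 171))) (XT.nd (nat_lit 78) (nat_lit 0) (nat_lit 0) (XT.lf (nat_lit 0) (nat_lit 582478196346) (nat_lit 76) (nat_lit 25230584337) (nat_lit 76) (nat_lit 24394115367) (nat_lit 1) (nat_lit 4) (nat_lit 2) (nat_lit 5) (nat_lit 2) (nat_lit 4) (nat_lit 366) (nat_lit 184) (nat_lit 170)) (XT.nd (nat_lit 36192) (nat_lit 0) (nat_lit 0) (XT.lf (nat_lit 0) (nat_lit 612923334733) (nat_lit 76) (nat_lit 25812379945) (nat_lit 76) (nat_lit 24935263387) (nat_lit 1) (nat_lit 4) (nat_lit 2) (nat_lit 5) (nat_lit 2) (nat_lit 4) (nat_lit 367) (nat_lit 184) (nat_lit 169)) (XT.lf (nat_lit 0) (nat_lit 124036664955) (nat_lit 76) (nat_lit 10506681806) (nat_lit 76) (nat_lit 10506681806) (nat_lit 1) (nat_lit 4) (nat_lit 2) (nat_lit 5) (nat_lit 2) (nat_lit 4) (nat_lit 350) (nat_lit 185) (nat_lit 185))))))))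
noncomputable def xc2 : XT := (XT.nd (nat_lit 37362) (nat_lit 0) (nat_lit 0) (XT.nd (nat_lit 702) (nat_lit 0) (nat_lit 0) (XT.nd (nat_lit 312) (nat_lit 0) (nat_lit 0) (XT.nd (nat_lit 156) (nat_lit 0) (nat_lit 0) (XT.nd (nat_lit 78) (nat_lit 0) (nat_lit 0) (XT.lf (nat_lit 0) (nat_lit 262539248759) (nat_lit 76) (nat_lit 21046232420) (nat_lit 76) (nat_lit 20961729005) (nat_lit 1) (nat_lit 4) (nat_lit 2) (nat_lit 5) (nat_lit 2) (nat_lit 4) (nat_lit 351) (nat_lit 185) (nat_lit 184)) (XT.lf (nat_lit 0) (nat_lit 277663523190) (nat_lit 76) (nat_lit 21110001123) (nat_lit 76) (nat_lit 20945018263) (nat_lit 1) (nat_lit 4) (nat_lit 2) (nat_lit 5) (nat_lit 2) (nat_lit 4) (nat_lit 352) (nat_lit 185) (nat_lit 183))) (XT.nd (nat_lit 78) (nat_lit 0) (nat_lit 0) (XT.lf (nat_lit 0) (nat_lit 293482163382) (nat_lit 76) (nat_lit 21204821549) (nat_lit 76) (nat_lit 20963191601) (nat_lit 1) (nat_lit 4) (nat_lit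 2) (nat_lit 5) (nat_lit 2) (nat_lit 4) (nat_lit 353) (nat_lit 185) (nat_lit 182)) (XT.lf (nat_lit 0) (nat_lit 310032832765) (nat_lit 76) (nat_lit 21330919462) (nat_lit 76) (nat_lit 21016292286) (nat_lit 1) (nat_lit 4) (nat_lit 2) (nat_lit 5) (nat_lit 2) (nat_lit 4) (nat_lit 354) (nat_lit 185) (nat_lit 181)))) (XT.nd (nat_lit 156) (nat_lit 0) (nat_lit 0) (XT.nd (nat_lit 78) (nat_lit 0) (nat_lit 0) (XT.lf (nat_lit 0) (nat_lit 327354937694) (nat_lit 76) (nat_lit 21488595095) (nat_lit 76) (nat_lit 21104446750) (nat_lit 1) (nat_lit 4) (nat_lit 2) (nat_lit 5) (nat_lit 2) (nat_lit 4) (nat_lit 355) (nat_lit 185) (nat_lit 180)) (XT.lf (nat_lit 0) (nat_lit 345489721277) (nat_lit 76) (nat_lit 21678223867) (nat_lit 76) (nat_lit 21227864884) (nat_lit 1) (nat_lit 4) (nat_lit 2) (nat_lit 5) (nat_lit 2) (nat_lit 4) (nat_lit 356) (nat_lit 185) (nat_lit 179))) (XT.nd (nat_lit 78) (nat_lit 0) (nat_lit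 0) (XT.lf (nat_lit 0) (nat_lit 364480361568) (nat_lit 76) (nat_lit 21900257273) (nat_lit 76) (nat_lit 21386840541) (nat_lit 1) (nat_lit 4) (nat_lit 2) (nat_lit 5) (nat_lit 2) (nat_lit 4) (nat_lit 357) (nat_lit 185) (nat_lit 178)) (XT.nd (nat_lit 78) (nat_lit 0) (nat_lit 0) (XT.lf (nat_lit 0) (nat_lit 384372074378) (nat_lit 76) (nat_lit 22155223966) (nat_lit 76) (nat_lit 21581752234) (nat_lit 1) (nat_lit 4) (nat_lit 2) (nat_lit 5) (nat_lit 2) (nat_lit 4) (nat_lit 358) (nat_lit 185) (nat_lit 177)) (XT.lf (nat_lit 0) (nat_lit 405212220929) (nat_lit 76) (nat_lit 22443731009) (nat_lit 76) (nat_lit 21813064039) (nat_lit 1) (nat_lit 4) (nat_lit 2) (nat_lit 5) (nat_lit 2) (nat_lit 4) (nat_lit 359) (nat_lit 185) (nat_lit 176)))))) (XT.nd (nat_lit 312) (nat_lit 0) (nat_lit 0) (XT.nd (nat_lit 156) (nat_lit 0) (nat_lit 0) (XT.nd (nat_lit 78) (nat_lit 0) (nat_lit 0) (XT.lf (nat_lit 0) (nat_lit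 427050420617) (nat_lit 76) (nat_lit 22766465323) (nat_lit 76) (nat_lit 22081326698) (nat_lit 1) (nat_lit 4) (nat_lit 2) (nat_lit 5) (nat_lit 2) (nat_lit 4) (nat_lit 360) (nat_lit 185) (nat_lit 175)) (XT.lf (nat_lit 0) (nat_lit 449938669156) (nat_lit 76) (nat_lit 23124195323) (nat_lit 76) (nat_lit 22387178931) (nat_lit 1) (nat_lit 4) (nat_lit 2) (nat_lit 5) (nat_lit 2) (nat_lit 4) (nat_lit 361) (nat_lit 185) (nat_lit 174))) (XT.nd (nat_lit 78) (nat_lit 0) (nat_lit 0) (XT.lf (nat_lit 0) (nat_lit 473931462374) (nat_lit 76) (nat_lit 23517772748) (nat_lit 76) (nat_lit 22731348959) (nat_lit 1) (nat_lit 4) (nat_lit 2) (nat_lit 5) (nat_lit 2) (nat_lit 4) (nat_lit 362) (nat_lit 185) (nat_lit 173)) (XT.lf (nat_lit 0) (nat_lit 499085925971) (nat_lit 76) (nat_lit 23948134687) (nat_lit 76) (nat_lit 23114656234) (nat_lit 1) (nat_lit 4) (nat_lit 2) (nat_lit 5) (nat_lit 2) (nat_lit 4) (nat_lit 363)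 (nat_lit 185) (nat_lit 172)))) (XT.nd (nat_lit 156) (nat_lit 0) (nat_lit 0) (XT.nd (nat_lit 78) (nat_lit 0) (nat_lit 0) (XT.lf (nat_lit 0) (nat_lit 525461951527) (nat_lit 76) (nat_lit 24416305810) (nat_lit 76) (nat_lit 23538013391) (nat_lit 1) (nat_lit 4) (nat_lit 2) (nat_lit 5) (nat_lit 2) (nat_lit 4) (nat_lit 364) (nat_lit 185) (nat_lit 171)) (XT.lf (nat_lit 0) (nat_lit 553122339102) (nat_lit 76) (nat_lit 24923400811) (nat_lit 76) (nat_lit 24002428426) (nat_lit 1) (nat_lit 4) (nat_lit 2) (nat_lit 5) (nat_lit 2) (nat_lit 4) (nat_lit 365) (nat_lit 185) (nat_lit 170))) (XT.nd (nat_lit 78) (nat_lit 0) (nat_lit 0) (XT.lf (nat_lit 0) (nat_lit 582132946762) (nat_lit 76) (nat_lit 25470627060) (nat_lit 76) (nat_lit 24509007086) (nat_lit 1) (nat_lit 4) (nat_lit 2) (nat_lit 5) (nat_lit 2) (nat_lit 4) (nat_lit 366) (nat_lit 185) (nat_lit 169)) (XT.nd (nat_lit 36036) (nat_lit 0) (nat_lit 0) (XT.lf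 (nat_lit 0) (nat_lit 612562847382) (nat_lit 76) (nat_lit 26059287475) (nat_lit 76) (nat_lit 25058955513) (nat_lit 1) (nat_lit 4) (nat_lit 2) (nat_lit 5) (nat_lit 2) (nat_lit 4) (nat_lit 367) (nat_lit 185) (nat_lit 168)) (XT.lf (nat_lit 0) (nat_lit 110507599531) (nat_lit 76) (nat_lit 10556540174) (nat_lit 76) (nat_lit 10556540174) (nat_lit 1) (nat_lit 4) (nat_lit 2) (nat_lit 5) (nat_lit 2) (nat_lit 4) (nat_lit 348) (nat_lit 186) (nat_lit 186))))))) (XT.nd (nat_lit 702) (nat_lit 0) (nat_lit 0) (XT.nd (nat_lit 312) (nat_lit 0) (nat_lit 0) (XT.nd (nat_lit 156) (nat_lit 0) (nat_lit 0) (XT.nd (nat_lit 78) (nat_lit 0) (nat_lit 0) (XT.lf (nat_lit 0) (nat_lit 234231323984) (nat_lit 76) (nat_lit 21100045024) (nat_lit 76) (nat_lit 21011316438) (nat_lit 1) (nat_lit 4) (nat_lit 2) (nat_lit 5) (nat_lit 2) (nat_lit 4) (nat_lit 349) (nat_lit 186) (nat_lit 185)) (XT.lf (nat_lit 0) (nat_lit 248040067777)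 (nat_lit 76) (nat_lit 21117077211) (nat_lit 76) (nat_lit 20943845209) (nat_lit 1) (nat_lit 4) (nat_lit 2) (nat_lit 5) (nat_lit 2) (nat_lit 4) (nat_lit 350) (nat_lit 186) (nat_lit 184))) (XT.nd (nat_lit 78) (nat_lit 0) (nat_lit 0) (XT.lf (nat_lit 0) (nat_lit 262474308400) (nat_lit 76) (nat_lit 21164217460) (nat_lit 76) (nat_lit 20910506014) (nat_lit 1) (nat_lit 4) (nat_lit 2) (nat_lit 5) (nat_lit 2) (nat_lit 4) (nat_lit 351) (nat_lit 186) (nat_lit 183)) (XT.lf (nat_lit 0) (nat_lit 277568413095) (nat_lit 76) (nat_lit 21241578011) (nat_lit 76) (nat_lit 20911219476) (nat_lit 1) (nat_lit 4) (nat_lit 2) (nat_lit 5) (nat_lit 2) (nat_lit 4) (nat_lit 352) (nat_lit 186) (nat_lit 182)))) (XT.nd (nat_lit 156) (nat_lit 0) (nat_lit 0) (XT.nd (nat_lit 78) (nat_lit 0) (nat_lit 0) (XT.lf (nat_lit 0) (nat_lit 293358320205) (nat_lit 76) (nat_lit 21349343054) (nat_lit 76) (nat_lit 20945987292) (nat_lit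 1) (nat_lit 4) (nat_lit 2) (nat_lit 5) (nat_lit 2) (nat_lit 4) (nat_lit 353) (nat_lit 186) (nat_lit 181)) (XT.lf (nat_lit 0) (nat_lit 309881624747) (nat_lit 76) (nat_lit 21487769174) (nat_lit 76) (nat_lit 21014892243) (nat_lit 1) (nat_lit 4) (nat_lit 2) (nat_lit 5) (nat_lit 2) (nat_lit 4) (nat_lit 354) (nat_lit 186) (nat_lit 180))) (XT.nd (nat_lit 78) (nat_lit 0) (nat_lit 0) (XT.lf (nat_lit 0) (nat_lit 327177667924) (nat_lit 76) (nat_lit 21657185957) (nat_lit 76) (nat_lit 21118098388) (nat_lit 1) (nat_lit 4) (nat_lit 2) (nat_lit 5) (nat_lit 2) (nat_lit 4) (nat_lit 355) (nat_lit 186) (nat_lit 179)) (XT.nd (nat_lit 78) (nat_lit 0) (nat_lit 0) (XT.lf (nat_lit 0) (nat_lit 345287630789) (nat_lit 76) (nat_lit 21857996776) (nat_lit 76) (nat_lit 21255851457) (nat_lit 1) (nat_lit 4) (nat_lit 2) (nat_lit 5) (nat_lit 2) (nat_lit 4) (nat_lit 356) (nat_lit 186) (nat_lit 178)) (XT.lf (nat_lit 0)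 (nat_lit 364254632302) (nat_lit 76) (nat_lit 22090679751) (nat_lit 76) (nat_lit 21428479432) (nat_lit 1) (nat_lit 4) (nat_lit 2) (nat_lit 5) (nat_lit 2) (nat_lit 4) (nat_lit 357) (nat_lit 186) (nat_lit 177)))))) (XT.nd (nat_lit 312) (nat_lit 0) (nat_lit 0) (XT.nd (nat_lit 156) (nat_lit 0) (nat_lit 0) (XT.nd (nat_lit 78) (nat_lit 0) (nat_lit 0) (XT.lf (nat_lit 0) (nat_lit 384123831990) (nat_lit 76) (nat_lit 22355788890) (nat_lit 76) (nat_lit 21636393334) (nat_lit 1) (nat_lit 4) (nat_lit 2) (nat_lit 5) (nat_lit 2) (nat_lit 4) (nat_lit 358) (nat_lit 186) (nat_lit 176)) (XT.lf (nat_lit 0) (nat_lit 404942537473) (nat_lit 76) (nat_lit 22653955406) (nat_lit 76) (nat_lit 21880088194) (nat_lit 1) (nat_lit 4) (nat_lit 2) (nat_lit 5) (nat_lit 2) (nat_lit 4) (nat_lit 359) (nat_lit 186) (nat_lit 175))) (XT.nd (nat_lit 78) (nat_lit 0) (nat_lit 0) (XT.lf (nat_lit 0) (nat_lit 426760317095) (nat_lit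 76) (nat_lit 22985889218) (nat_lit 76) (nat_lit 22160144239) (nat_lit 1) (nat_lit 4) (nat_lit 2) (nat_lit 5) (nat_lit 2) (nat_lit 4) (nat_lit 360) (nat_lit 186) (nat_lit 174)) (XT.lf (nat_lit 0) (nat_lit 449629117952) (nat_lit 76) (nat_lit 23352380645) (nat_lit 76) (nat_lit 22477228269) (nat_lit 1) (nat_lit 4) (nat_lit 2) (nat_lit 5) (nat_lit 2) (nat_lit 4) (nat_lit 361) (nat_lit 186) (nat_lit 173)))) (XT.nd (nat_lit 156) (nat_lit 0) (nat_lit 0) (XT.nd (nat_lit 78) (nat_lit 0) (nat_lit 0) (XT.lf (nat_lit 0) (nat_lit 473603389570) (nat_lit 76) (nat_lit 23754302285) (nat_lit 76) (nat_lit 22832095246) (nat_lit 1) (nat_lit 4) (nat_lit 2) (nat_lit 5) (nat_lit 2) (nat_lit 4) (nat_lit 362) (nat_lit 186) (nat_lit 172)) (XT.lf (nat_lit 0) (nat_lit 498740213547) (nat_lit 76) (nat_lit 24192611096) (nat_lit 76) (nat_lit 23225590091) (nat_lit 1) (nat_lit 4) (nat_lit 2) (nat_lit 5) (nat_lit 2) (nat_lit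 4) (nat_lit 363) (nat_lit 186) (nat_lit 171))) (XT.nd (nat_lit 78) (nat_lit 0) (nat_lit 0) (XT.lf (nat_lit 0) (nat_lit 525099439464) (nat_lit 76) (nat_lit 24668350669) (nat_lit 76) (nat_lit 23658649697) (nat_lit 1) (nat_lit 4) (nat_lit 2) (nat_lit 5) (nat_lit 2) (nat_lit 4) (nat_lit 364) (nat_lit 186) (nat_lit 170)) (XT.nd (nat_lit 78) (nat_lit 0) (nat_lit 0) (XT.lf (nat_lit 0) (nat_lit 552743827383) (nat_lit 76) (nat_lit 25182653718) (nat_lit 76) (nat_lit 24132305158) (nat_lit 1) (nat_lit 4) (nat_lit 2) (nat_lit 5) (nat_lit 2) (nat_lit 4) (nat_lit 365) (nat_lit 186) (nat_lit 169)) (XT.lf (nat_lit 0) (nat_lit 581739197276) (nat_lit 76) (nat_lit 25736744773) (nat_lit 76) (nat_lit 24647684225) (nat_lit 1) (nat_lit 4) (nat_lit 2) (nat_lit 5) (nat_lit 2) (nat_lit 4) (nat_lit 366) (nat_lit 186) (nat_lit 168))))))))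
noncomputable def xc3 : XT := (XT.nd (nat_lit 37206) (nat_lit 0) (nat_lit 0) (XT.nd (nat_lit 36504) (nat_lit 0) (nat_lit 0) (XT.nd (nat_lit 36114) (nat_lit 0) (nat_lit 0) (XT.nd (nat_lit 35958) (nat_lit 0) (nat_lit 0) (XT.nd (nat_lit 35880) (nat_lit 0) (nat_lit 0) (XT.lf (nat_lit 0) (nat_lit 612154585737) (nat_lit 76) (nat_lit 26331943099) (nat_lit 76) (nat_lit 25206013991) (nat_lit 1) (nat_lit 4) (nat_lit 2) (nat_lit 5) (nat_lit 2) (nat_lit 4) (nat_lit 367) (nat_lit 186) (nat_lit 167)) (XT.lf (nat_lit 0) (nat_lit 98136472775) (nat_lit 76) (nat_lit 10653096686) (nat_lit 76) (nat_lit 10653096686) (nat_lit 1) (nat_lit 4) (nat_lit 2) (nat_lit 5) (nat_lit 2) (nat_lit 4) (nat_lit 346) (nat_lit 187) (nat_lit 187))) (XT.nd (nat_lit 78) (nat_lit 0) (nat_lit 0) (XT.lf (nat_lit 0) (nat_lit 208360226046) (nat_lit 76) (nat_lit 21249379233) (nat_lit 76) (nat_lit 21156214217) (nat_lit 1) (nat_lit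 4) (nat_lit 2) (nat_lit 5) (nat_lit 2) (nat_lit 4) (nat_lit 347) (nat_lit 187) (nat_lit 186)) (XT.lf (nat_lit 0) (nat_lit 220980273821) (nat_lit 76) (nat_lit 21221979627) (nat_lit 76) (nat_lit 21040086024) (nat_lit 1) (nat_lit 4) (nat_lit 2) (nat_lit 5) (nat_lit 2) (nat_lit 4) (nat_lit 348) (nat_lit 187) (nat_lit 185)))) (XT.nd (nat_lit 156) (nat_lit 0) (nat_lit 0) (XT.nd (nat_lit 78) (nat_lit 0) (nat_lit 0) (XT.lf (nat_lit 0) (nat_lit 234163136608) (nat_lit 76) (nat_lit 21223929316) (nat_lit 76) (nat_lit 20957532298) (nat_lit 1) (nat_lit 4) (nat_lit 2) (nat_lit 5) (nat_lit 2) (nat_lit 4) (nat_lit 349) (nat_lit 187) (nat_lit 184)) (XT.lf (nat_lit 0) (nat_lit 247940202177) (nat_lit 76) (nat_lit 21255232943) (nat_lit 76) (nat_lit 20908356482) (nat_lit 1) (nat_lit 4) (nat_lit 2) (nat_lit 5) (nat_lit 2) (nat_lit 4) (nat_lit 350) (nat_lit 187) (nat_lit 183))) (XT.nd (nat_lit 78) (nat_lit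 0) (nat_lit 0) (XT.lf (nat_lit 0) (nat_lit 262344273064) (nat_lit 76) (nat_lit 21315965041) (nat_lit 76) (nat_lit 20892441490) (nat_lit 1) (nat_lit 4) (nat_lit 2) (nat_lit 5) (nat_lit 2) (nat_lit 4) (nat_lit 351) (nat_lit 187) (nat_lit 182)) (XT.nd (nat_lit 78) (nat_lit 0) (nat_lit 0) (XT.lf (nat_lit 0) (nat_lit 277409644676) (nat_lit 76) (nat_lit 21406270209) (nat_lit 76) (nat_lit 20909749430) (nat_lit 1) (nat_lit 4) (nat_lit 2) (nat_lit 5) (nat_lit 2) (nat_lit 4) (nat_lit 352) (nat_lit 187) (nat_lit 181)) (XT.lf (nat_lit 0) (nat_lit 293172186946) (nat_lit 76) (nat_lit 21526363459) (nat_lit 76) (nat_lit 20960321512) (nat_lit 1) (nat_lit 4) (nat_lit 2) (nat_lit 5) (nat_lit 2) (nat_lit 4) (nat_lit 353) (nat_lit 187) (nat_lit 180)))))) (XT.nd (nat_lit 312) (nat_lit 0) (nat_lit 0) (XT.nd (nat_lit 156) (nat_lit 0) (nat_lit 0) (XT.nd (nat_lit 78) (nat_lit 0) (nat_lit 0) (XT.lf (nat_lit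 0) (nat_lit 309669429735) (nat_lit 76) (nat_lit 21676530729) (nat_lit 76) (nat_lit 21044278144) (nat_lit 1) (nat_lit 4) (nat_lit 2) (nat_lit 5) (nat_lit 2) (nat_lit 4) (nat_lit 354) (nat_lit 187) (nat_lit 179)) (XT.lf (nat_lit 0) (nat_lit 326940652194) (nat_lit 76) (nat_lit 21857129559) (nat_lit 76) (nat_lit 21161819224) (nat_lit 1) (nat_lit 4) (nat_lit 2) (nat_lit 5) (nat_lit 2) (nat_lit 4) (nat_lit 355) (nat_lit 187) (nat_lit 178))) (XT.nd (nat_lit 78) (nat_lit 0) (nat_lit 0) (XT.lf (nat_lit 0) (nat_lit 345026976281) (nat_lit 76) (nat_lit 22068589946) (nat_lit 76) (nat_lit 21313224612) (nat_lit 1) (nat_lit 4) (nat_lit 2) (nat_lit 5) (nat_lit 2) (nat_lit 4) (nat_lit 356) (nat_lit 187) (nat_lit 177)) (XT.lf (nat_lit 0) (nat_lit 363971464672) (nat_lit 76) (nat_lit 22311415368) (nat_lit 76) (nat_lit 21498854796) (nat_lit 1) (nat_lit 4) (nat_lit 2) (nat_lit 5) (nat_lit 2) (nat_lit 4)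 (nat_lit 357) (nat_lit 187) (nat_lit 176)))) (XT.nd (nat_lit 156) (nat_lit 0) (nat_lit 0) (XT.nd (nat_lit 78) (nat_lit 0) (nat_lit 0) (XT.lf (nat_lit 0) (nat_lit 383819223292) (nat_lit 76) (nat_lit 22586183980) (nat_lit 76) (nat_lit 21719151752) (nat_lit 1) (nat_lit 4) (nat_lit 2) (nat_lit 5) (nat_lit 2) (nat_lit 4) (nat_lit 358) (nat_lit 187) (nat_lit 175)) (XT.lf (nat_lit 0) (nat_lit 404617508709) (nat_lit 76) (nat_lit 22893549993) (nat_lit 76) (nat_lit 21974639999) (nat_lit 1) (nat_lit 4) (nat_lit 2) (nat_lit 5) (nat_lit 2) (nat_lit 4) (nat_lit 359) (nat_lit 187) (nat_lit 174))) (XT.nd (nat_lit 78) (nat_lit 0) (nat_lit 0) (XT.lf (nat_lit 0) (nat_lit 426415840650) (nat_lit 76) (nat_lit 23234245232) (nat_lit 76) (nat_lit 22265927841) (nat_lit 1) (nat_lit 4) (nat_lit 2) (nat_lit 5) (nat_lit 2) (nat_lit 4) (nat_lit 360) (nat_lit 187) (nat_lit 173)) (XT.nd (nat_lit 78) (nat_lit 0) (nat_lit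 0) (XT.lf (nat_lit 0) (nat_lit 449266119906) (nat_lit 76) (nat_lit 23609080875) (nat_lit 76) (nat_lit 22593708819) (nat_lit 1) (nat_lit 4) (nat_lit 2) (nat_lit 5) (nat_lit 2) (nat_lit 4) (nat_lit 361) (nat_lit 187) (nat_lit 172)) (XT.lf (nat_lit 0) (nat_lit 473222751904) (nat_lit 76) (nat_lit 24018949387) (nat_lit 76) (nat_lit 22958763367) (nat_lit 1) (nat_lit 4) (nat_lit 2) (nat_lit 5) (nat_lit 2) (nat_lit 4) (nat_lit 362) (nat_lit 187) (nat_lit 171))))))) (XT.nd (nat_lit 36348) (nat_lit 0) (nat_lit 0) (XT.nd (nat_lit 312) (nat_lit 0) (nat_lit 0) (XT.nd (nat_lit 156) (nat_lit 0) (nat_lit 0) (XT.nd (nat_lit 78) (nat_lit 0) (nat_lit 0) (XT.lf (nat_lit 0) (nat_lit 498342776242) (nat_lit 76) (nat_lit 24464826648) (nat_lit 76) (nat_lit 23361960660) (nat_lit 1) (nat_lit 4) (nat_lit 2) (nat_lit 5) (nat_lit 2) (nat_lit 4) (nat_lit 363) (nat_lit 187) (nat_lit 170)) (XT.lf (nat_lit 0) (nat_lit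 524686002504) (nat_lit 76) (nat_lit 24947774268) (nat_lit 76) (nat_lit 23804260692) (nat_lit 1) (nat_lit 4) (nat_lit 2) (nat_lit 5) (nat_lit 2) (nat_lit 4) (nat_lit 364) (nat_lit 187) (nat_lit 169))) (XT.nd (nat_lit 78) (nat_lit 0) (nat_lit 0) (XT.lf (nat_lit 0) (nat_lit 552315152656) (nat_lit 76) (nat_lit 25468942124) (nat_lit 76) (nat_lit 24286716559) (nat_lit 1) (nat_lit 4) (nat_lit 2) (nat_lit 5) (nat_lit 2) (nat_lit 4) (nat_lit 365) (nat_lit 187) (nat_lit 168)) (XT.lf (nat_lit 0) (nat_lit 581296010390) (nat_lit 76) (nat_lit 26029571090) (nat_lit 76) (nat_lit 24810476966) (nat_lit 1) (nat_lit 4) (nat_lit 2) (nat_lit 5) (nat_lit 2) (nat_lit 4) (nat_lit 366) (nat_lit 187) (nat_lit 167)))) (XT.nd (nat_lit 35802) (nat_lit 0) (nat_lit 0) (XT.nd (nat_lit 35724) (nat_lit 0) (nat_lit 0) (XT.lf (nat_lit 0) (nat_lit 611697577747) (nat_lit 76) (nat_lit 26630995999) (nat_lit 76) (nat_lit 25376788960)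 (nat_lit 1) (nat_lit 4) (nat_lit 2) (nat_lit 5) (nat_lit 2) (nat_lit 4) (nat_lit 367) (nat_lit 187) (nat_lit 166)) (XT.lf (nat_lit 0) (nat_lit 86810637246) (nat_lit 76) (nat_lit 10794576467) (nat_lit 76) (nat_lit 10794576467) (nat_lit 1) (nat_lit 4) (nat_lit 2) (nat_lit 5) (nat_lit 2) (nat_lit 4) (nat_lit 344) (nat_lit 188) (nat_lit 188))) (XT.nd (nat_lit 78) (nat_lit 0) (nat_lit 0) (XT.lf (nat_lit 0) (nat_lit 184689653096) (nat_lit 76) (nat_lit 21490380582) (nat_lit 76) (nat_lit 21392557316) (nat_lit 1) (nat_lit 4) (nat_lit 2) (nat_lit 5) (nat_lit 2) (nat_lit 4) (nat_lit 345) (nat_lit 188) (nat_lit 187)) (XT.nd (nat_lit 78) (nat_lit 0) (nat_lit 0) (XT.lf (nat_lit 0) (nat_lit 196236274047) (nat_lit 76) (nat_lit 21420537615) (nat_lit 76) (nat_lit 21229549333) (nat_lit 1) (nat_lit 4) (nat_lit 2) (nat_lit 5) (nat_lit 2) (nat_lit 4) (nat_lit 346) (nat_lit 188) (nat_lit 186)) (XT.lf (nat_lit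 0) (nat_lit 208288629301) (nat_lit 76) (nat_lit 21379457739) (nat_lit 76) (nat_lit 21099740870) (nat_lit 1) (nat_lit 4) (nat_lit 2) (nat_lit 5) (nat_lit 2) (nat_lit 4) (nat_lit 347) (nat_lit 188) (nat_lit 185)))))) (XT.nd (nat_lit 312) (nat_lit 0) (nat_lit 0) (XT.nd (nat_lit 156) (nat_lit 0) (nat_lit 0) (XT.nd (nat_lit 78) (nat_lit 0) (nat_lit 0) (XT.lf (nat_lit 0) (nat_lit 220875414941) (nat_lit 76) (nat_lit 21367043146) (nat_lit 76) (nat_lit 21002822861) (nat_lit 1) (nat_lit 4) (nat_lit 2) (nat_lit 5) (nat_lit 2) (nat_lit 4) (nat_lit 348) (nat_lit 188) (nat_lit 184)) (XT.lf (nat_lit 0) (nat_lit 234026599505) (nat_lit 76) (nat_lit 21383264276) (nat_lit 76) (nat_lit 20938564548) (nat_lit 1) (nat_lit 4) (nat_lit 2) (nat_lit 5) (nat_lit 2) (nat_lit 4) (nat_lit 349) (nat_lit 188) (nat_lit 183))) (XT.nd (nat_lit 78) (nat_lit 0) (nat_lit 0) (XT.lf (nat_lit 0) (nat_lit 247773495337) (nat_lit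 76) (nat_lit 21428159751) (nat_lit 76) (nat_lit 20906812934) (nat_lit 1) (nat_lit 4) (nat_lit 2) (nat_lit 5) (nat_lit 2) (nat_lit 4) (nat_lit 350) (nat_lit 188) (nat_lit 182)) (XT.lf (nat_lit 0) (nat_lit 262148833142) (nat_lit 76) (nat_lit 21501836466) (nat_lit 76) (nat_lit 20907492421) (nat_lit 1) (nat_lit 4) (nat_lit 2) (nat_lit 5) (nat_lit 2) (nat_lit 4) (nat_lit 351) (nat_lit 188) (nat_lit 181)))) (XT.nd (nat_lit 156) (nat_lit 0) (nat_lit 0) (XT.nd (nat_lit 78) (nat_lit 0) (nat_lit 0) (XT.lf (nat_lit 0) (nat_lit 277186839913) (nat_lit 76) (nat_lit 21604469841) (nat_lit 76) (nat_lit 20940604627) (nat_lit 1) (nat_lit 4) (nat_lit 2) (nat_lit 5) (nat_lit 2) (nat_lit 4) (nat_lit 352) (nat_lit 188) (nat_lit 180)) (XT.lf (nat_lit 0) (nat_lit 292923320430) (nat_lit 76) (nat_lit 21736304241) (nat_lit 76) (nat_lit 21006228390) (nat_lit 1) (nat_lit 4) (nat_lit 2) (nat_lit 5) (nat_lit 2) (nat_lit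 4) (nat_lit 353) (nat_lit 188) (nat_lit 179))) (XT.nd (nat_lit 78) (nat_lit 0) (nat_lit 0) (XT.lf (nat_lit 0) (nat_lit 309395742502) (nat_lit 76) (nat_lit 21897653558) (nat_lit 76) (nat_lit 21104519957) (nat_lit 1) (nat_lit 4) (nat_lit 2) (nat_lit 5) (nat_lit 2) (nat_lit 4) (nat_lit 354) (nat_lit 188) (nat_lit 178)) (XT.nd (nat_lit 78) (nat_lit 0) (nat_lit 0) (XT.lf (nat_lit 0) (nat_lit 326643326183) (nat_lit 76) (nat_lit 22088901956) (nat_lit 76) (nat_lit 21235713356) (nat_lit 1) (nat_lit 4) (nat_lit 2) (nat_lit 5) (nat_lit 2) (nat_lit 4) (nat_lit 355) (nat_lit 188) (nat_lit 177)) (XT.lf (nat_lit 0) (nat_lit 344707137148) (nat_lit 76) (nat_lit 22310504790) (nat_lit 76) (nat_lit 21400120951) (nat_lit 1) (nat_lit 4) (nat_lit 2) (nat_lit 5) (nat_lit 2) (nat_lit 4) (nat_lit 356) (nat_lit 188) (nat_lit 176))))))))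
noncomputable def xc4 : XT := (XT.nd (nat_lit 36894) (nat_lit 0) (nat_lit 0) (XT.nd (nat_lit 702) (nat_lit 0) (nat_lit 0) (XT.nd (nat_lit 312) (nat_lit 0) (nat_lit 0) (XT.nd (nat_lit 156) (nat_lit 0) (nat_lit 0) (XT.nd (nat_lit 78) (nat_lit 0) (nat_lit 0) (XT.lf (nat_lit 0) (nat_lit 363630184470) (nat_lit 76) (nat_lit 22562989685) (nat_lit 76) (nat_lit 21598134191) (nat_lit 1) (nat_lit 4) (nat_lit 2) (nat_lit 5) (nat_lit 2) (nat_lit 4) (nat_lit 357) (nat_lit 188) (nat_lit 175)) (XT.lf (nat_lit 0) (nat_lit 383457523025) (nat_lit 76) (nat_lit 22846957795) (nat_lit 76) (nat_lit 21830224534) (nat_lit 1) (nat_lit 4) (nat_lit 2) (nat_lit 5) (nat_lit 2) (nat_lit 4) (nat_lit 358) (nat_lit 188) (nat_lit 174))) (XT.nd (nat_lit 78) (nat_lit 0) (nat_lit 0) (XT.lf (nat_lit 0) (nat_lit 404236360761) (nat_lit 76) (nat_lit 23163085235) (nat_lit 76) (nat_lit 22096944577) (nat_lit 1) (nat_lit 4) (nat_lit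 2) (nat_lit 5) (nat_lit 2) (nat_lit 4) (nat_lit 359) (nat_lit 188) (nat_lit 173)) (XT.lf (nat_lit 0) (nat_lit 426016171101) (nat_lit 76) (nat_lit 23512124689) (nat_lit 76) (nat_lit 22398929367) (nat_lit 1) (nat_lit 4) (nat_lit 2) (nat_lit 5) (nat_lit 2) (nat_lit 4) (nat_lit 360) (nat_lit 188) (nat_lit 172)))) (XT.nd (nat_lit 156) (nat_lit 0) (nat_lit 0) (XT.nd (nat_lit 78) (nat_lit 0) (nat_lit 0) (XT.lf (nat_lit 0) (nat_lit 448848810737) (nat_lit 76) (nat_lit 23894907204) (nat_lit 76) (nat_lit 22736897917) (nat_lit 1) (nat_lit 4) (nat_lit 2) (nat_lit 5) (nat_lit 2) (nat_lit 4) (nat_lit 361) (nat_lit 188) (nat_lit 171)) (XT.lf (nat_lit 0) (nat_lit 472788643096) (nat_lit 76) (nat_lit 24312344166) (nat_lit 76) (nat_lit 23111654912) (nat_lit 1) (nat_lit 4) (nat_lit 2) (nat_lit 5) (nat_lit 2) (nat_lit 4) (nat_lit 362) (nat_lit 188) (nat_lit 170))) (XT.nd (nat_lit 78) (nat_lit 0) (nat_lit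 0) (XT.lf (nat_lit 0) (nat_lit 497892667779) (nat_lit 76) (nat_lit 24765429474) (nat_lit 76) (nat_lit 23524092632) (nat_lit 1) (nat_lit 4) (nat_lit 2) (nat_lit 5) (nat_lit 2) (nat_lit 4) (nat_lit 363) (nat_lit 188) (nat_lit 169)) (XT.nd (nat_lit 78) (nat_lit 0) (nat_lit 0) (XT.lf (nat_lit 0) (nat_lit 524220656273) (nat_lit 76) (nat_lit 25255241901) (nat_lit 76) (nat_lit 23975193071) (nat_lit 1) (nat_lit 4) (nat_lit 2) (nat_lit 5) (nat_lit 2) (nat_lit 4) (nat_lit 364) (nat_lit 188) (nat_lit 168)) (XT.lf (nat_lit 0) (nat_lit 551835294266) (nat_lit 76) (nat_lit 25782947668) (nat_lit 76) (nat_lit 24466030277) (nat_lit 1) (nat_lit 4) (nat_lit 2) (nat_lit 5) (nat_lit 2) (nat_lit 4) (nat_lit 365) (nat_lit 188) (nat_lit 167)))))) (XT.nd (nat_lit 35802) (nat_lit 0) (nat_lit 0) (XT.nd (nat_lit 35646) (nat_lit 0) (nat_lit 0) (XT.nd (nat_lit 78) (nat_lit 0) (nat_lit 0) (XT.lf (nat_lit 0) (nat_lit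 580802330896) (nat_lit 76) (nat_lit 26349803217) (nat_lit 76) (nat_lit 24997772911) (nat_lit 1) (nat_lit 4) (nat_lit 2) (nat_lit 5) (nat_lit 2) (nat_lit 4) (nat_lit 366) (nat_lit 188) (nat_lit 166)) (XT.lf (nat_lit 0) (nat_lit 611190735297) (nat_lit 76) (nat_lit 26957158204) (nat_lit 76) (nat_lit 25571687027) (nat_lit 1) (nat_lit 4) (nat_lit 2) (nat_lit 5) (nat_lit 2) (nat_lit 4) (nat_lit 367) (nat_lit 188) (nat_lit 165))) (XT.nd (nat_lit 78) (nat_lit 0) (nat_lit 0) (XT.lf (nat_lit 0) (nat_lit 76427668730) (nat_lit 76) (nat_lit 10979497985) (nat_lit 76) (nat_lit 10979497985) (nat_lit 1) (nat_lit 4) (nat_lit 2) (nat_lit 5) (nat_lit 2) (nat_lit 4) (nat_lit 342) (nat_lit 189) (nat_lit 189)) (XT.lf (nat_lit 0) (nat_lit 163004784955) (nat_lit 76) (nat_lit 21819804271) (nat_lit 76) (nat_lit 21717089841) (nat_lit 1) (nat_lit 4) (nat_lit 2) (nat_lit 5) (nat_lit 2) (nat_lit 4) (nat_lit 343)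 (nat_lit 189) (nat_lit 188)))) (XT.nd (nat_lit 156) (nat_lit 0) (nat_lit 0) (XT.nd (nat_lit 78) (nat_lit 0) (nat_lit 0) (XT.lf (nat_lit 0) (nat_lit 173582769414) (nat_lit 76) (nat_lit 21709214389) (nat_lit 76) (nat_lit 21508676692) (nat_lit 1) (nat_lit 4) (nat_lit 2) (nat_lit 5) (nat_lit 2) (nat_lit 4) (nat_lit 344) (nat_lit 189) (nat_lit 187)) (XT.lf (nat_lit 0) (nat_lit 184614476514) (nat_lit 76) (nat_lit 21626963014) (nat_lit 76) (nat_lit 21333260302) (nat_lit 1) (nat_lit 4) (nat_lit 2) (nat_lit 5) (nat_lit 2) (nat_lit 4) (nat_lit 345) (nat_lit 189) (nat_lit 186))) (XT.nd (nat_lit 78) (nat_lit 0) (nat_lit 0) (XT.lf (nat_lit 0) (nat_lit 196126172224) (nat_lit 76) (nat_lit 21572854310) (nat_lit 76) (nat_lit 21190423011) (nat_lit 1) (nat_lit 4) (nat_lit 2) (nat_lit 5) (nat_lit 2) (nat_lit 4) (nat_lit 346) (nat_lit 189) (nat_lit 185)) (XT.nd (nat_lit 78) (nat_lit 0) (nat_lit 0) (XT.lf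 (nat_lit 0) (nat_lit 208145265343) (nat_lit 76) (nat_lit 21546759447) (nat_lit 76) (nat_lit 21079824732) (nat_lit 1) (nat_lit 4) (nat_lit 2) (nat_lit 5) (nat_lit 2) (nat_lit 4) (nat_lit 347) (nat_lit 189) (nat_lit 184)) (XT.lf (nat_lit 0) (nat_lit 220700372759) (nat_lit 76) (nat_lit 21548616294) (nat_lit 76) (nat_lit 21001202136) (nat_lit 1) (nat_lit 4) (nat_lit 2) (nat_lit 5) (nat_lit 2) (nat_lit 4) (nat_lit 348) (nat_lit 189) (nat_lit 183))))))) (XT.nd (nat_lit 702) (nat_lit 0) (nat_lit 0) (XT.nd (nat_lit 312) (nat_lit 0) (nat_lit 0) (XT.nd (nat_lit 156) (nat_lit 0) (nat_lit 0) (XT.nd (nat_lit 78) (nat_lit 0) (nat_lit 0) (XT.lf (nat_lit 0) (nat_lit 233821387587) (nat_lit 76) (nat_lit 21578429272) (nat_lit 76) (nat_lit 20954368025) (nat_lit 1) (nat_lit 4) (nat_lit 2) (nat_lit 5) (nat_lit 2) (nat_lit 4) (nat_lit 349) (nat_lit 189) (nat_lit 182)) (XT.lf (nat_lit 0) (nat_lit 247539550336)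 (nat_lit 76) (nat_lit 21636269365) (nat_lit 76) (nat_lit 20939210890) (nat_lit 1) (nat_lit 4) (nat_lit 2) (nat_lit 5) (nat_lit 2) (nat_lit 4) (nat_lit 350) (nat_lit 189) (nat_lit 181))) (XT.nd (nat_lit 78) (nat_lit 0) (nat_lit 0) (XT.lf (nat_lit 0) (nat_lit 261887523300) (nat_lit 76) (nat_lit 21722274287) (nat_lit 76) (nat_lit 20955694643) (nat_lit 1) (nat_lit 4) (nat_lit 2) (nat_lit 5) (nat_lit 2) (nat_lit 4) (nat_lit 351) (nat_lit 189) (nat_lit 180)) (XT.lf (nat_lit 0) (nat_lit 276899468318) (nat_lit 76) (nat_lit 21836648811) (nat_lit 76) (nat_lit 21003858530) (nat_lit 1) (nat_lit 4) (nat_lit 2) (nat_lit 5) (nat_lit 2) (nat_lit 4) (nat_lit 352) (nat_lit 189) (nat_lit 179)))) (XT.nd (nat_lit 156) (nat_lit 0) (nat_lit 0) (XT.nd (nat_lit 78) (nat_lit 0) (nat_lit 0) (XT.lf (nat_lit 0) (nat_lit 292611128118) (nat_lit 76) (nat_lit 21979665259) (nat_lit 76) (nat_lit 21083817228) (nat_lit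 1) (nat_lit 4) (nat_lit 2) (nat_lit 5) (nat_lit 2) (nat_lit 4) (nat_lit 353) (nat_lit 189) (nat_lit 178)) (XT.lf (nat_lit 0) (nat_lit 309059911412) (nat_lit 76) (nat_lit 22151664144) (nat_lit 76) (nat_lit 21195761113) (nat_lit 1) (nat_lit 4) (nat_lit 2) (nat_lit 5) (nat_lit 2) (nat_lit 4) (nat_lit 354) (nat_lit 189) (nat_lit 177))) (XT.nd (nat_lit 78) (nat_lit 0) (nat_lit 0) (XT.lf (nat_lit 0) (nat_lit 326284981971) (nat_lit 76) (nat_lit 22353054989) (nat_lit 76) (nat_lit 21339956720) (nat_lit 1) (nat_lit 4) (nat_lit 2) (nat_lit 5) (nat_lit 2) (nat_lit 4) (nat_lit 355) (nat_lit 189) (nat_lit 176)) (XT.nd (nat_lit 78) (nat_lit 0) (nat_lit 0) (XT.lf (nat_lit 0) (nat_lit 344327351868) (nat_lit 76) (nat_lit 22584317296) (nat_lit 76) (nat_lit 21516747372) (nat_lit 1) (nat_lit 4) (nat_lit 2) (nat_lit 5) (nat_lit 2) (nat_lit 4) (nat_lit 356) (nat_lit 189) (nat_lit 175)) (XT.lf (nat_lit 0)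 (nat_lit 363229979125) (nat_lit 76) (nat_lit 22846001688) (nat_lit 76) (nat_lit 21726553997) (nat_lit 1) (nat_lit 4) (nat_lit 2) (nat_lit 5) (nat_lit 2) (nat_lit 4) (nat_lit 357) (nat_lit 189) (nat_lit 174)))))) (XT.nd (nat_lit 312) (nat_lit 0) (nat_lit 0) (XT.nd (nat_lit 156) (nat_lit 0) (nat_lit 0) (XT.nd (nat_lit 78) (nat_lit 0) (nat_lit 0) (XT.lf (nat_lit 0) (nat_lit 383037869998) (nat_lit 76) (nat_lit 23138731225) (nat_lit 76) (nat_lit 21969876137) (nat_lit 1) (nat_lit 4) (nat_lit 2) (nat_lit 5) (nat_lit 2) (nat_lit 4) (nat_lit 358) (nat_lit 189) (nat_lit 173)) (XT.lf (nat_lit 0) (nat_lit 403798186133) (nat_lit 76) (nat_lit 23463202880) (nat_lit 76) (nat_lit 22247293129) (nat_lit 1) (nat_lit 4) (nat_lit 2) (nat_lit 5) (nat_lit 2) (nat_lit 4) (nat_lit 359) (nat_lit 189) (nat_lit 172))) (XT.nd (nat_lit 78) (nat_lit 0) (nat_lit 0) (XT.lf (nat_lit 0) (nat_lit 425560356853) (nat_lit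 76) (nat_lit 23820189207) (nat_lit 76) (nat_lit 22559465490) (nat_lit 1) (nat_lit 4) (nat_lit 2) (nat_lit 5) (nat_lit 2) (nat_lit 4) (nat_lit 360) (nat_lit 189) (nat_lit 171)) (XT.lf (nat_lit 0) (nat_lit 448376196850) (nat_lit 76) (nat_lit 24210540171) (nat_lit 76) (nat_lit 22907136487) (nat_lit 1) (nat_lit 4) (nat_lit 2) (nat_lit 5) (nat_lit 2) (nat_lit 4) (nat_lit 361) (nat_lit 189) (nat_lit 170)))) (XT.nd (nat_lit 156) (nat_lit 0) (nat_lit 0) (XT.nd (nat_lit 78) (nat_lit 0) (nat_lit 0) (XT.lf (nat_lit 0) (nat_lit 472300029553) (nat_lit 76) (nat_lit 24635185181) (nat_lit 76) (nat_lit 23291133909) (nat_lit 1) (nat_lit 4) (nat_lit 2) (nat_lit 5) (nat_lit 2) (nat_lit 4) (nat_lit 362) (nat_lit 189) (nat_lit 169)) (XT.lf (nat_lit 0) (nat_lit 497388816469) (nat_lit 76) (nat_lit 25095135296) (nat_lit 76) (nat_lit 23712372035) (nat_lit 1) (nat_lit 4) (nat_lit 2) (nat_lit 5) (nat_lit 2) (nat_lit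 4) (nat_lit 363) (nat_lit 189) (nat_lit 168))) (XT.nd (nat_lit 78) (nat_lit 0) (nat_lit 0) (XT.lf (nat_lit 0) (nat_lit 523702292805) (nat_lit 76) (nat_lit 25591485634) (nat_lit 76) (nat_lit 24171853813) (nat_lit 1) (nat_lit 4) (nat_lit 2) (nat_lit 5) (nat_lit 2) (nat_lit 4) (nat_lit 364) (nat_lit 189) (nat_lit 167)) (XT.nd (nat_lit 78) (nat_lit 0) (nat_lit 0) (XT.lf (nat_lit 0) (nat_lit 551303109694) (nat_lit 76) (nat_lit 26125417984) (nat_lit 76) (nat_lit 24670673248) (nat_lit 1) (nat_lit 4) (nat_lit 2) (nat_lit 5) (nat_lit 2) (nat_lit 4) (nat_lit 365) (nat_lit 189) (nat_lit 166)) (XT.lf (nat_lit 0) (nat_lit 580256983367) (nat_lit 76) (nat_lit 26698203611) (nat_lit 76) (nat_lit 25210018004) (nat_lit 1) (nat_lit 4) (nat_lit 2) (nat_lit 5) (nat_lit 2) (nat_lit 4) (nat_lit 366) (nat_lit 189) (nat_lit 165))))))))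
noncomputable def xc5 : XT := (XT.nd (nat_lit 36738) (nat_lit 0) (nat_lit 0) (XT.nd (nat_lit 36036) (nat_lit 0) (nat_lit 0) (XT.nd (nat_lit 35646) (nat_lit 0) (nat_lit 0) (XT.nd (nat_lit 35490) (nat_lit 0) (nat_lit 0) (XT.nd (nat_lit 35412) (nat_lit 0) (nat_lit 0) (XT.lf (nat_lit 0) (nat_lit 610632851619) (nat_lit 76) (nat_lit 27311206292) (nat_lit 76) (nat_lit 25791172236) (nat_lit 1) (nat_lit 4) (nat_lit 2) (nat_lit 5) (nat_lit 2) (nat_lit 4) (nat_lit 367) (nat_lit 189) (nat_lit 164)) (XT.lf (nat_lit 0) (nat_lit 66894403297) (nat_lit 76) (nat_lit 11206652200) (nat_lit 76) (nat_lit 11206652200) (nat_lit 1) (nat_lit 4) (nat_lit 2) (nat_lit 5) (nat_lit 2) (nat_lit 4) (nat_lit 340) (nat_lit 190) (nat_lit 190))) (XT.nd (nat_lit 78) (nat_lit 0) (nat_lit 0) (XT.lf (nat_lit 0) (nat_lit 143110261577) (nat_lit 76) (nat_lit 22234971047) (nat_lit 76) (nat_lit 22127120896) (nat_lit 1) (nat_lit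 4) (nat_lit 2) (nat_lit 5) (nat_lit 2) (nat_lit 4) (nat_lit 341) (nat_lit 190) (nat_lit 189)) (XT.lf (nat_lit 0) (nat_lit 152814907127) (nat_lit 76) (nat_lit 22085060499) (nat_lit 76) (nat_lit 21874495917) (nat_lit 1) (nat_lit 4) (nat_lit 2) (nat_lit 5) (nat_lit 2) (nat_lit 4) (nat_lit 342) (nat_lit 190) (nat_lit 188)))) (XT.nd (nat_lit 156) (nat_lit 0) (nat_lit 0) (XT.nd (nat_lit 78) (nat_lit 0) (nat_lit 0) (XT.lf (nat_lit 0) (nat_lit 162925849544) (nat_lit 76) (nat_lit 21963215825) (nat_lit 76) (nat_lit 21654827977) (nat_lit 1) (nat_lit 4) (nat_lit 2) (nat_lit 5) (nat_lit 2) (nat_lit 4) (nat_lit 343) (nat_lit 190) (nat_lit 187)) (XT.lf (nat_lit 0) (nat_lit 173467162499) (nat_lit 76) (nat_lit 21869146918) (nat_lit 76) (nat_lit 21467594055) (nat_lit 1) (nat_lit 4) (nat_lit 2) (nat_lit 5) (nat_lit 2) (nat_lit 4) (nat_lit 344) (nat_lit 190) (nat_lit 186))) (XT.nd (nat_lit 78) (nat_lit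 0) (nat_lit 0) (XT.lf (nat_lit 0) (nat_lit 184463944358) (nat_lit 76) (nat_lit 21802629807) (nat_lit 76) (nat_lit 21312348357) (nat_lit 1) (nat_lit 4) (nat_lit 2) (nat_lit 5) (nat_lit 2) (nat_lit 4) (nat_lit 345) (nat_lit 190) (nat_lit 185)) (XT.nd (nat_lit 78) (nat_lit 0) (nat_lit 0) (XT.lf (nat_lit 0) (nat_lit 195942377933) (nat_lit 76) (nat_lit 21763506116) (nat_lit 76) (nat_lit 21188721250) (nat_lit 1) (nat_lit 4) (nat_lit 2) (nat_lit 5) (nat_lit 2) (nat_lit 4) (nat_lit 346) (nat_lit 190) (nat_lit 184)) (XT.lf (nat_lit 0) (nat_lit 207929792828) (nat_lit 76) (nat_lit 21751682693) (nat_lit 76) (nat_lit 21096418384) (nat_lit 1) (nat_lit 4) (nat_lit 2) (nat_lit 5) (nat_lit 2) (nat_lit 4) (nat_lit 347) (nat_lit 190) (nat_lit 183)))))) (XT.nd (nat_lit 312) (nat_lit 0) (nat_lit 0) (XT.nd (nat_lit 156) (nat_lit 0) (nat_lit 0) (XT.nd (nat_lit 78) (nat_lit 0) (nat_lit 0) (XT.lf (nat_lit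 0) (nat_lit 220454730508) (nat_lit 76) (nat_lit 21767131388) (nat_lit 76) (nat_lit 21035219990) (nat_lit 1) (nat_lit 4) (nat_lit 2) (nat_lit 5) (nat_lit 2) (nat_lit 4) (nat_lit 348) (nat_lit 190) (nat_lit 182)) (XT.lf (nat_lit 0) (nat_lit 233547012253) (nat_lit 76) (nat_lit 21809888984) (nat_lit 76) (nat_lit 21004980358) (nat_lit 1) (nat_lit 4) (nat_lit 2) (nat_lit 5) (nat_lit 2) (nat_lit 4) (nat_lit 349) (nat_lit 190) (nat_lit 181))) (XT.nd (nat_lit 78) (nat_lit 0) (nat_lit 0) (XT.lf (nat_lit 0) (nat_lit 247237810162) (nat_lit 76) (nat_lit 21880057284) (nat_lit 76) (nat_lit 21005627489) (nat_lit 1) (nat_lit 4) (nat_lit 2) (nat_lit 5) (nat_lit 2) (nat_lit 4) (nat_lit 350) (nat_lit 190) (nat_lit 180)) (XT.lf (nat_lit 0) (nat_lit 261559721373) (nat_lit 76) (nat_lit 21977803355) (nat_lit 76) (nat_lit 21037162923) (nat_lit 1) (nat_lit 4) (nat_lit 2) (nat_lit 5) (nat_lit 2) (nat_lit 4)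 (nat_lit 351) (nat_lit 190) (nat_lit 179)))) (XT.nd (nat_lit 156) (nat_lit 0) (nat_lit 0) (XT.nd (nat_lit 78) (nat_lit 0) (nat_lit 0) (XT.lf (nat_lit 0) (nat_lit 276546845674) (nat_lit 76) (nat_lit 22103359927) (nat_lit 76) (nat_lit 21099661744) (nat_lit 1) (nat_lit 4) (nat_lit 2) (nat_lit 5) (nat_lit 2) (nat_lit 4) (nat_lit 352) (nat_lit 190) (nat_lit 178)) (XT.lf (nat_lit 0) (nat_lit 292234866696) (nat_lit 76) (nat_lit 22257025943) (nat_lit 76) (nat_lit 21193272761) (nat_lit 1) (nat_lit 4) (nat_lit 2) (nat_lit 5) (nat_lit 2) (nat_lit 4) (nat_lit 353) (nat_lit 190) (nat_lit 177))) (XT.nd (nat_lit 78) (nat_lit 0) (nat_lit 0) (XT.lf (nat_lit 0) (nat_lit 308661136868) (nat_lit 76) (nat_lit 22439167275) (nat_lit 76) (nat_lit 21318218855) (nat_lit 1) (nat_lit 4) (nat_lit 2) (nat_lit 5) (nat_lit 2) (nat_lit 4) (nat_lit 354) (nat_lit 190) (nat_lit 176)) (XT.nd (nat_lit 78) (nat_lit 0) (nat_lit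 0) (XT.lf (nat_lit 0) (nat_lit 325864766358) (nat_lit 76) (nat_lit 22650217593) (nat_lit 76) (nat_lit 21474797517) (nat_lit 1) (nat_lit 4) (nat_lit 2) (nat_lit 5) (nat_lit 2) (nat_lit 4) (nat_lit 355) (nat_lit 190) (nat_lit 175)) (XT.lf (nat_lit 0) (nat_lit 343886716189) (nat_lit 76) (nat_lit 22890679397) (nat_lit 76) (nat_lit 21663381555) (nat_lit 1) (nat_lit 4) (nat_lit 2) (nat_lit 5) (nat_lit 2) (nat_lit 4) (nat_lit 356) (nat_lit 190) (nat_lit 174))))))) (XT.nd (nat_lit 702) (nat_lit 0) (nat_lit 0) (XT.nd (nat_lit 312) (nat_lit 0) (nat_lit 0) (XT.nd (nat_lit 156) (nat_lit 0) (nat_lit 0) (XT.nd (nat_lit 78) (nat_lit 0) (nat_lit 0) (XT.lf (nat_lit 0) (nat_lit 362769895765) (nat_lit 76) (nat_lit 23161125216) (nat_lit 76) (nat_lit 21884419977) (nat_lit 1) (nat_lit 4) (nat_lit 2) (nat_lit 5) (nat_lit 2) (nat_lit 4) (nat_lit 357) (nat_lit 190) (nat_lit 173)) (XT.lf (nat_lit 0) (nat_lit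 382559265037) (nat_lit 76) (nat_lit 23462198969) (nat_lit 76) (nat_lit 22138439065) (nat_lit 1) (nat_lit 4) (nat_lit 2) (nat_lit 5) (nat_lit 2) (nat_lit 4) (nat_lit 358) (nat_lit 190) (nat_lit 172))) (XT.nd (nat_lit 78) (nat_lit 0) (nat_lit 0) (XT.lf (nat_lit 0) (nat_lit 403301941552) (nat_lit 76) (nat_lit 23794617496) (nat_lit 76) (nat_lit 22426043628) (nat_lit 1) (nat_lit 4) (nat_lit 2) (nat_lit 5) (nat_lit 2) (nat_lit 4) (nat_lit 359) (nat_lit 190) (nat_lit 171)) (XT.lf (nat_lit 0) (nat_lit 425047312633) (nat_lit 76) (nat_lit 24159172272) (nat_lit 76) (nat_lit 22747918437) (nat_lit 1) (nat_lit 4) (nat_lit 2) (nat_lit 5) (nat_lit 2) (nat_lit 4) (nat_lit 360) (nat_lit 190) (nat_lit 170)))) (XT.nd (nat_lit 156) (nat_lit 0) (nat_lit 0) (XT.nd (nat_lit 78) (nat_lit 0) (nat_lit 0) (XT.lf (nat_lit 0) (nat_lit 447847152975) (nat_lit 76) (nat_lit 24556731284) (nat_lit 76) (nat_lit 23104829861)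 (nat_lit 1) (nat_lit 4) (nat_lit 2) (nat_lit 5) (nat_lit 2) (nat_lit 4) (nat_lit 361) (nat_lit 190) (nat_lit 169)) (XT.lf (nat_lit 0) (nat_lit 471755747912) (nat_lit 76) (nat_lit 24988241101) (nat_lit 76) (nat_lit 23497627689) (nat_lit 1) (nat_lit 4) (nat_lit 2) (nat_lit 5) (nat_lit 2) (nat_lit 4) (nat_lit 362) (nat_lit 190) (nat_lit 168))) (XT.nd (nat_lit 78) (nat_lit 0) (nat_lit 0) (XT.lf (nat_lit 0) (nat_lit 496830022668) (nat_lit 76) (nat_lit 25454729127) (nat_lit 76) (nat_lit 23927247155) (nat_lit 1) (nat_lit 4) (nat_lit 2) (nat_lit 5) (nat_lit 2) (nat_lit 4) (nat_lit 363) (nat_lit 190) (nat_lit 167)) (XT.nd (nat_lit 78) (nat_lit 0) (nat_lit 0) (XT.lf (nat_lit 0) (nat_lit 523129677900) (nat_lit 76) (nat_lit 25957306048) (nat_lit 76) (nat_lit 24394711161) (nat_lit 1) (nat_lit 4) (nat_lit 2) (nat_lit 5) (nat_lit 2) (nat_lit 4) (nat_lit 364) (nat_lit 190) (nat_lit 166)) (XT.lf (nat_lit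 0) (nat_lit 550717331833) (nat_lit 76) (nat_lit 26497168476) (nat_lit 76) (nat_lit 24901132718) (nat_lit 1) (nat_lit 4) (nat_lit 2) (nat_lit 5) (nat_lit 2) (nat_lit 4) (nat_lit 365) (nat_lit 190) (nat_lit 165)))))) (XT.nd (nat_lit 35490) (nat_lit 0) (nat_lit 0) (XT.nd (nat_lit 35334) (nat_lit 0) (nat_lit 0) (XT.nd (nat_lit 78) (nat_lit 0) (nat_lit 0) (XT.lf (nat_lit 0) (nat_lit 579658669357) (nat_lit 76) (nat_lit 27075601797) (nat_lit 76) (nat_lit 25447717590) (nat_lit 1) (nat_lit 4) (nat_lit 2) (nat_lit 5) (nat_lit 2) (nat_lit 4) (nat_lit 366) (nat_lit 190) (nat_lit 164)) (XT.lf (nat_lit 0) (nat_lit 610022598420) (nat_lit 76) (nat_lit 27693983233) (nat_lit 76) (nat_lit 26035767171) (nat_lit 1) (nat_lit 4) (nat_lit 2) (nat_lit 5) (nat_lit 2) (nat_lit 4) (nat_lit 367) (nat_lit 190) (nat_lit 163))) (XT.nd (nat_lit 78) (nat_lit 0) (nat_lit 0) (XT.lf (nat_lit 0) (nat_lit 58126063262) (nat_lit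 76) (nat_lit 11475083962) (nat_lit 76) (nat_lit 11475083962) (nat_lit 1) (nat_lit 4) (nat_lit 2) (nat_lit 5) (nat_lit 2) (nat_lit 4) (nat_lit 338) (nat_lit 191) (nat_lit 191)) (XT.lf (nat_lit 0) (nat_lit 124828348237) (nat_lit 76) (nat_lit 22733727819) (nat_lit 76) (nat_lit 22620485160) (nat_lit 1) (nat_lit 4) (nat_lit 2) (nat_lit 5) (nat_lit 2) (nat_lit 4) (nat_lit 339) (nat_lit 191) (nat_lit 190)))) (XT.nd (nat_lit 156) (nat_lit 0) (nat_lit 0) (XT.nd (nat_lit 78) (nat_lit 0) (nat_lit 0) (XT.lf (nat_lit 0) (nat_lit 133746354744) (nat_lit 76) (nat_lit 22545672154) (nat_lit 76) (nat_lit 22324579344) (nat_lit 1) (nat_lit 4) (nat_lit 2) (nat_lit 5) (nat_lit 2) (nat_lit 4) (nat_lit 340) (nat_lit 191) (nat_lit 189)) (XT.lf (nat_lit 0) (nat_lit 143027379395) (nat_lit 76) (nat_lit 22385553178) (nat_lit 76) (nat_lit 22061745938) (nat_lit 1) (nat_lit 4) (nat_lit 2) (nat_lit 5) (nat_lit 2) (nat_lit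 4) (nat_lit 341) (nat_lit 191) (nat_lit 188))) (XT.nd (nat_lit 78) (nat_lit 0) (nat_lit 0) (XT.lf (nat_lit 0) (nat_lit 152693519867) (nat_lit 76) (nat_lit 22252989655) (nat_lit 76) (nat_lit 21831359148) (nat_lit 1) (nat_lit 4) (nat_lit 2) (nat_lit 5) (nat_lit 2) (nat_lit 4) (nat_lit 342) (nat_lit 191) (nat_lit 187)) (XT.nd (nat_lit 78) (nat_lit 0) (nat_lit 0) (XT.lf (nat_lit 0) (nat_lit 162767790780) (nat_lit 76) (nat_lit 22147665957) (nat_lit 76) (nat_lit 21632870435) (nat_lit 1) (nat_lit 4) (nat_lit 2) (nat_lit 5) (nat_lit 2) (nat_lit 4) (nat_lit 343) (nat_lit 191) (nat_lit 186)) (XT.lf (nat_lit 0) (nat_lit 173274178494) (nat_lit 76) (nat_lit 22069331314) (nat_lit 76) (nat_lit 21465807205) (nat_lit 1) (nat_lit 4) (nat_lit 2) (nat_lit 5) (nat_lit 2) (nat_lit 4) (nat_lit 344) (nat_lit 191) (nat_lit 185))))))))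
noncomputable def xc6 : XT := (XT.nd (nat_lit 1404) (nat_lit 0) (nat_lit 0) (XT.nd (nat_lit 702) (nat_lit 0) (nat_lit 0) (XT.nd (nat_lit 312) (nat_lit 0) (nat_lit 0) (XT.nd (nat_lit 156) (nat_lit 0) (nat_lit 0) (XT.nd (nat_lit 78) (nat_lit 0) (nat_lit 0) (XT.lf (nat_lit 0) (nat_lit 184237698217) (nat_lit 76) (nat_lit 22017799215) (nat_lit 76) (nat_lit 21329771691) (nat_lit 1) (nat_lit 4) (nat_lit 2) (nat_lit 5) (nat_lit 2) (nat_lit 4) (nat_lit 345) (nat_lit 191) (nat_lit 184)) (XT.lf (nat_lit 0) (nat_lit 195684453569) (nat_lit 76) (nat_lit 21992946965) (nat_lit 76) (nat_lit 21224439997) (nat_lit 1) (nat_lit 4) (nat_lit 2) (nat_lit 5) (nat_lit 2) (nat_lit 4) (nat_lit 346) (nat_lit 191) (nat_lit 183))) (XT.nd (nat_lit 78) (nat_lit 0) (nat_lit 0) (XT.lf (nat_lit 0) (nat_lit 207641698728) (nat_lit 76) (nat_lit 21994715391) (nat_lit 76) (nat_lit 21149561333) (nat_lit 1) (nat_lit 4) (nat_lit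 2) (nat_lit 5) (nat_lit 2) (nat_lit 4) (nat_lit 347) (nat_lit 191) (nat_lit 182)) (XT.lf (nat_lit 0) (nat_lit 220137903325) (nat_lit 76) (nat_lit 22023108703) (nat_lit 76) (nat_lit 21104957418) (nat_lit 1) (nat_lit 4) (nat_lit 2) (nat_lit 5) (nat_lit 2) (nat_lit 4) (nat_lit 348) (nat_lit 191) (nat_lit 181)))) (XT.nd (nat_lit 156) (nat_lit 0) (nat_lit 0) (XT.nd (nat_lit 78) (nat_lit 0) (nat_lit 0) (XT.lf (nat_lit 0) (nat_lit 233202820229) (nat_lit 76) (nat_lit 22078194506) (nat_lit 76) (nat_lit 21090522052) (nat_lit 1) (nat_lit 4) (nat_lit 2) (nat_lit 5) (nat_lit 2) (nat_lit 4) (nat_lit 349) (nat_lit 191) (nat_lit 180)) (XT.lf (nat_lit 0) (nat_lit 246867556385) (nat_lit 76) (nat_lit 22160103955) (nat_lit 76) (nat_lit 21106220864) (nat_lit 1) (nat_lit 4) (nat_lit 2) (nat_lit 5) (nat_lit 2) (nat_lit 4) (nat_lit 350) (nat_lit 191) (nat_lit 179))) (XT.nd (nat_lit 78) (nat_lit 0) (nat_lit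 0) (XT.lf (nat_lit 0) (nat_lit 261164646879) (nat_lit 76) (nat_lit 22269032074) (nat_lit 76) (nat_lit 21152091232) (nat_lit 1) (nat_lit 4) (nat_lit 2) (nat_lit 5) (nat_lit 2) (nat_lit 4) (nat_lit 351) (nat_lit 191) (nat_lit 178)) (XT.nd (nat_lit 78) (nat_lit 0) (nat_lit 0) (XT.lf (nat_lit 0) (nat_lit 276128132403) (nat_lit 76) (nat_lit 22405238214) (nat_lit 76) (nat_lit 21228242373) (nat_lit 1) (nat_lit 4) (nat_lit 2) (nat_lit 5) (nat_lit 2) (nat_lit 4) (nat_lit 352) (nat_lit 191) (nat_lit 177)) (XT.lf (nat_lit 0) (nat_lit 291793640302) (nat_lit 76) (nat_lit 22569046677) (nat_lit 76) (nat_lit 21334855597) (nat_lit 1) (nat_lit 4) (nat_lit 2) (nat_lit 5) (nat_lit 2) (nat_lit 4) (nat_lit 353) (nat_lit 191) (nat_lit 176)))))) (XT.nd (nat_lit 312) (nat_lit 0) (nat_lit 0) (XT.nd (nat_lit 156) (nat_lit 0) (nat_lit 0) (XT.nd (nat_lit 78) (nat_lit 0) (nat_lit 0) (XT.lf (nat_lit 0) (nat_lit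 308198469406) (nat_lit 76) (nat_lit 22760847481) (nat_lit 76) (nat_lit 21472184747) (nat_lit 1) (nat_lit 4) (nat_lit 2) (nat_lit 5) (nat_lit 2) (nat_lit 4) (nat_lit 354) (nat_lit 191) (nat_lit 175)) (XT.lf (nat_lit 0) (nat_lit 325381678831) (nat_lit 76) (nat_lit 22981097297) (nat_lit 76) (nat_lit 21640556796) (nat_lit 1) (nat_lit 4) (nat_lit 2) (nat_lit 5) (nat_lit 2) (nat_lit 4) (nat_lit 355) (nat_lit 191) (nat_lit 174))) (XT.nd (nat_lit 78) (nat_lit 0) (nat_lit 0) (XT.lf (nat_lit 0) (nat_lit 343384180981) (nat_lit 76) (nat_lit 23230320528) (nat_lit 76) (nat_lit 21840372630) (nat_lit 1) (nat_lit 4) (nat_lit 2) (nat_lit 5) (nat_lit 2) (nat_lit 4) (nat_lit 356) (nat_lit 191) (nat_lit 173)) (XT.lf (nat_lit 0) (nat_lit 362248838955) (nat_lit 76) (nat_lit 23509110563) (nat_lit 76) (nat_lit 22072108001) (nat_lit 1) (nat_lit 4) (nat_lit 2) (nat_lit 5) (nat_lit 2) (nat_lit 4) (nat_lit 357)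 (nat_lit 191) (nat_lit 172)))) (XT.nd (nat_lit 156) (nat_lit 0) (nat_lit 0) (XT.nd (nat_lit 78) (nat_lit 0) (nat_lit 0) (XT.lf (nat_lit 0) (nat_lit 382020568607) (nat_lit 76) (nat_lit 23818131187) (nat_lit 76) (nat_lit 22336314660) (nat_lit 1) (nat_lit 4) (nat_lit 2) (nat_lit 5) (nat_lit 2) (nat_lit 4) (nat_lit 358) (nat_lit 191) (nat_lit 171)) (XT.lf (nat_lit 0) (nat_lit 402746445483) (nat_lit 76) (nat_lit 24158118165) (nat_lit 76) (nat_lit 22633621670) (nat_lit 1) (nat_lit 4) (nat_lit 2) (nat_lit 5) (nat_lit 2) (nat_lit 4) (nat_lit 359) (nat_lit 191) (nat_lit 170))) (XT.nd (nat_lit 78) (nat_lit 0) (nat_lit 0) (XT.lf (nat_lit 0) (nat_lit 424475816909) (nat_lit 76) (nat_lit 24529880988) (nat_lit 76) (nat_lit 22964736906) (nat_lit 1) (nat_lit 4) (nat_lit 2) (nat_lit 5) (nat_lit 2) (nat_lit 4) (nat_lit 360) (nat_lit 191) (nat_lit 169)) (XT.nd (nat_lit 78) (nat_lit 0) (nat_lit 0) (XT.lf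 (nat_lit 0) (nat_lit 447260419484) (nat_lit 76) (nat_lit 24934304807) (nat_lit 76) (nat_lit 23330448736) (nat_lit 1) (nat_lit 4) (nat_lit 2) (nat_lit 5) (nat_lit 2) (nat_lit 4) (nat_lit 361) (nat_lit 191) (nat_lit 168)) (XT.lf (nat_lit 0) (nat_lit 471154502261) (nat_lit 76) (nat_lit 25372352535) (nat_lit 76) (nat_lit 23731627904) (nat_lit 1) (nat_lit 4) (nat_lit 2) (nat_lit 5) (nat_lit 2) (nat_lit 4) (nat_lit 362) (nat_lit 191) (nat_lit 167))))))) (XT.nd (nat_lit 35724) (nat_lit 0) (nat_lit 0) (XT.nd (nat_lit 312) (nat_lit 0) (nat_lit 0) (XT.nd (nat_lit 156) (nat_lit 0) (nat_lit 0) (XT.nd (nat_lit 78) (nat_lit 0) (nat_lit 0) (XT.lf (nat_lit 0) (nat_lit 496214955914) (nat_lit 76) (nat_lit 25845067144) (nat_lit 76) (nat_lit 24169229598) (nat_lit 1) (nat_lit 4) (nat_lit 2) (nat_lit 5) (nat_lit 2) (nat_lit 4) (nat_lit 363) (nat_lit 191) (nat_lit 166)) (XT.lf (nat_lit 0) (nat_lit 522501448189)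 (nat_lit 76) (nat_lit 26353574143) (nat_lit 76) (nat_lit 24644295726) (nat_lit 1) (nat_lit 4) (nat_lit 2) (nat_lit 5) (nat_lit 2) (nat_lit 4) (nat_lit 364) (nat_lit 191) (nat_lit 165))) (XT.nd (nat_lit 78) (nat_lit 0) (nat_lit 0) (XT.lf (nat_lit 0) (nat_lit 550076565973) (nat_lit 76) (nat_lit 26899084264) (nat_lit 76) (nat_lit 25157957398) (nat_lit 1) (nat_lit 4) (nat_lit 2) (nat_lit 5) (nat_lit 2) (nat_lit 4) (nat_lit 365) (nat_lit 191) (nat_lit 164)) (XT.lf (nat_lit 0) (nat_lit 579005964309) (nat_lit 76) (nat_lit 27482896341) (nat_lit 76) (nat_lit 25711437620) (nat_lit 1) (nat_lit 4) (nat_lit 2) (nat_lit 5) (nat_lit 2) (nat_lit 4) (nat_lit 366) (nat_lit 191) (nat_lit 163)))) (XT.nd (nat_lit 35178) (nat_lit 0) (nat_lit 0) (XT.nd (nat_lit 35100) (nat_lit 0) (nat_lit 0) (XT.lf (nat_lit 0) (nat_lit 609358522715) (nat_lit 76) (nat_lit 28106400402) (nat_lit 76) (nat_lit 26306054199) (nat_lit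 1) (nat_lit 4) (nat_lit 2) (nat_lit 5) (nat_lit 2) (nat_lit 4) (nat_lit 367) (nat_lit 191) (nat_lit 162)) (XT.lf (nat_lit 0) (nat_lit 50045463750) (nat_lit 76) (nat_lit 11784075487) (nat_lit 76) (nat_lit 11784075487) (nat_lit 1) (nat_lit 4) (nat_lit 2) (nat_lit 5) (nat_lit 2) (nat_lit 4) (nat_lit 336) (nat_lit 192) (nat_lit 192))) (XT.nd (nat_lit 78) (nat_lit 0) (nat_lit 0) (XT.lf (nat_lit 0) (nat_lit 107997270032) (nat_lit 76) (nat_lit 23314412596) (nat_lit 76) (nat_lit 23195507804) (nat_lit 1) (nat_lit 4) (nat_lit 2) (nat_lit 5) (nat_lit 2) (nat_lit 4) (nat_lit 337) (nat_lit 192) (nat_lit 191)) (XT.nd (nat_lit 78) (nat_lit 0) (nat_lit 0) (XT.lf (nat_lit 0) (nat_lit 116207552083) (nat_lit 76) (nat_lit 23089154067) (nat_lit 76) (nat_lit 22857006616) (nat_lit 1) (nat_lit 4) (nat_lit 2) (nat_lit 5) (nat_lit 2) (nat_lit 4) (nat_lit 338) (nat_lit 192) (nat_lit 190)) (XT.lf (nat_lit 0)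 (nat_lit 124741321946) (nat_lit 76) (nat_lit 22891839057) (nat_lit 76) (nat_lit 22551841455) (nat_lit 1) (nat_lit 4) (nat_lit 2) (nat_lit 5) (nat_lit 2) (nat_lit 4) (nat_lit 339) (nat_lit 192) (nat_lit 189)))))) (XT.nd (nat_lit 312) (nat_lit 0) (nat_lit 0) (XT.nd (nat_lit 156) (nat_lit 0) (nat_lit 0) (XT.nd (nat_lit 78) (nat_lit 0) (nat_lit 0) (XT.lf (nat_lit 0) (nat_lit 133618898121) (nat_lit 76) (nat_lit 22721997768) (nat_lit 76) (nat_lit 22279285736) (nat_lit 1) (nat_lit 4) (nat_lit 2) (nat_lit 5) (nat_lit 2) (nat_lit 4) (nat_lit 340) (nat_lit 192) (nat_lit 188)) (XT.lf (nat_lit 0) (nat_lit 142861417693) (nat_lit 76) (nat_lit 22579225817) (nat_lit 76) (nat_lit 22038690519) (nat_lit 1) (nat_lit 4) (nat_lit 2) (nat_lit 5) (nat_lit 2) (nat_lit 4) (nat_lit 341) (nat_lit 192) (nat_lit 187))) (XT.nd (nat_lit 78) (nat_lit 0) (nat_lit 0) (XT.lf (nat_lit 0) (nat_lit 152490886661) (nat_lit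 76) (nat_lit 22463183271) (nat_lit 76) (nat_lit 21829482956) (nat_lit 1) (nat_lit 4) (nat_lit 2) (nat_lit 5) (nat_lit 2) (nat_lit 4) (nat_lit 342) (nat_lit 192) (nat_lit 186)) (XT.lf (nat_lit 0) (nat_lit 162530232333) (nat_lit 76) (nat_lit 22373593836) (nat_lit 76) (nat_lit 21651164935) (nat_lit 1) (nat_lit 4) (nat_lit 2) (nat_lit 5) (nat_lit 2) (nat_lit 4) (nat_lit 343) (nat_lit 192) (nat_lit 185)))) (XT.nd (nat_lit 156) (nat_lit 0) (nat_lit 0) (XT.nd (nat_lit 78) (nat_lit 0) (nat_lit 0) (XT.lf (nat_lit 0) (nat_lit 173003357912) (nat_lit 76) (nat_lit 22310244206) (nat_lit 76) (nat_lit 21503311889) (nat_lit 1) (nat_lit 4) (nat_lit 2) (nat_lit 5) (nat_lit 2) (nat_lit 4) (nat_lit 344) (nat_lit 192) (nat_lit 184)) (XT.lf (nat_lit 0) (nat_lit 183935199412) (nat_lit 76) (nat_lit 22272983548) (nat_lit 76) (nat_lit 21385571788) (nat_lit 1) (nat_lit 4) (nat_lit 2) (nat_lit 5) (nat_lit 2) (nat_lit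 4) (nat_lit 345) (nat_lit 192) (nat_lit 183))) (XT.nd (nat_lit 78) (nat_lit 0) (nat_lit 0) (XT.lf (nat_lit 0) (nat_lit 195351785027) (nat_lit 76) (nat_lit 22261723146) (nat_lit 76) (nat_lit 21297664296) (nat_lit 1) (nat_lit 4) (nat_lit 2) (nat_lit 5) (nat_lit 2) (nat_lit 4) (nat_lit 346) (nat_lit 192) (nat_lit 182)) (XT.nd (nat_lit 78) (nat_lit 0) (nat_lit 0) (XT.lf (nat_lit 0) (nat_lit 207280297103) (nat_lit 76) (nat_lit 22276436189) (nat_lit 76) (nat_lit 21239380112) (nat_lit 1) (nat_lit 4) (nat_lit 2) (nat_lit 5) (nat_lit 2) (nat_lit 4) (nat_lit 347) (nat_lit 192) (nat_lit 181)) (XT.lf (nat_lit 0) (nat_lit 219749136860) (nat_lit 76) (nat_lit 22317157708) (nat_lit 76) (nat_lit 21210580462) (nat_lit 1) (nat_lit 4) (nat_lit 2) (nat_lit 5) (nat_lit 2) (nat_lit 4) (nat_lit 348) (nat_lit 192) (nat_lit 180))))))))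
noncomputable def xc7 : XT := (XT.nd (nat_lit 1404) (nat_lit 0) (nat_lit 0) (XT.nd (nat_lit 702) (nat_lit 0) (nat_lit 0) (XT.nd (nat_lit 312) (nat_lit 0) (nat_lit 0) (XT.nd (nat_lit 156) (nat_lit 0) (nat_lit 0) (XT.nd (nat_lit 78) (nat_lit 0) (nat_lit 0) (XT.lf (nat_lit 0) (nat_lit 232787992011) (nat_lit 76) (nat_lit 22383984661) (nat_lit 76) (nat_lit 21211196777) (nat_lit 1) (nat_lit 4) (nat_lit 2) (nat_lit 5) (nat_lit 2) (nat_lit 4) (nat_lit 349) (nat_lit 192) (nat_lit 179)) (XT.lf (nat_lit 0) (nat_lit 246427907450) (nat_lit 76) (nat_lit 22477076157) (nat_lit 76) (nat_lit 21241230524) (nat_lit 1) (nat_lit 4) (nat_lit 2) (nat_lit 5) (nat_lit 2) (nat_lit 4) (nat_lit 350) (nat_lit 192) (nat_lit 178))) (XT.nd (nat_lit 78) (nat_lit 0) (nat_lit 0) (XT.lf (nat_lit 0) (nat_lit 260701359166) (nat_lit 76) (nat_lit 22596653844) (nat_lit 76) (nat_lit 21300753211) (nat_lit 1) (nat_lit 4) (nat_lit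 2) (nat_lit 5) (nat_lit 2) (nat_lit 4) (nat_lit 351) (nat_lit 192) (nat_lit 177)) (XT.lf (nat_lit 0) (nat_lit 275642331567) (nat_lit 76) (nat_lit 22743002431) (nat_lit 76) (nat_lit 21389906560) (nat_lit 1) (nat_lit 4) (nat_lit 2) (nat_lit 5) (nat_lit 2) (nat_lit 4) (nat_lit 352) (nat_lit 192) (nat_lit 176)))) (XT.nd (nat_lit 156) (nat_lit 0) (nat_lit 0) (XT.nd (nat_lit 78) (nat_lit 0) (nat_lit 0) (XT.lf (nat_lit 0) (nat_lit 291286398398) (nat_lit 76) (nat_lit 22916470366) (nat_lit 76) (nat_lit 21508902840) (nat_lit 1) (nat_lit 4) (nat_lit 2) (nat_lit 5) (nat_lit 2) (nat_lit 4) (nat_lit 353) (nat_lit 192) (nat_lit 175)) (XT.lf (nat_lit 0) (nat_lit 307670807437) (nat_lit 76) (nat_lit 23117470669) (nat_lit 76) (nat_lit 21658025376) (nat_lit 1) (nat_lit 4) (nat_lit 2) (nat_lit 5) (nat_lit 2) (nat_lit 4) (nat_lit 354) (nat_lit 192) (nat_lit 174))) (XT.nd (nat_lit 78) (nat_lit 0) (nat_lit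 0) (XT.lf (nat_lit 0) (nat_lit 324834569180) (nat_lit 76) (nat_lit 23346481911) (nat_lit 76) (nat_lit 21837629221) (nat_lit 1) (nat_lit 4) (nat_lit 2) (nat_lit 5) (nat_lit 2) (nat_lit 4) (nat_lit 355) (nat_lit 192) (nat_lit 173)) (XT.nd (nat_lit 78) (nat_lit 0) (nat_lit 0) (XT.lf (nat_lit 0) (nat_lit 342818549729) (nat_lit 76) (nat_lit 23604049358) (nat_lit 76) (nat_lit 22048142004) (nat_lit 1) (nat_lit 4) (nat_lit 2) (nat_lit 5) (nat_lit 2) (nat_lit 4) (nat_lit 356) (nat_lit 192) (nat_lit 172)) (XT.lf (nat_lit 0) (nat_lit 361665568083) (nat_lit 76) (nat_lit 23890786265) (nat_lit 76) (nat_lit 22290064945) (nat_lit 1) (nat_lit 4) (nat_lit 2) (nat_lit 5) (nat_lit 2) (nat_lit 4) (nat_lit 357) (nat_lit 192) (nat_lit 171)))))) (XT.nd (nat_lit 312) (nat_lit 0) (nat_lit 0) (XT.nd (nat_lit 156) (nat_lit 0) (nat_lit 0) (XT.nd (nat_lit 78) (nat_lit 0) (nat_lit 0) (XT.lf (nat_lit 0) (nat_lit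 381420498097) (nat_lit 76) (nat_lit 24207375339) (nat_lit 76) (nat_lit 22563974052) (nat_lit 1) (nat_lit 4) (nat_lit 2) (nat_lit 5) (nat_lit 2) (nat_lit 4) (nat_lit 358) (nat_lit 192) (nat_lit 170)) (XT.lf (nat_lit 0) (nat_lit 402130375317) (nat_lit 76) (nat_lit 24554570364) (nat_lit 76) (nat_lit 22870521489) (nat_lit 1) (nat_lit 4) (nat_lit 2) (nat_lit 5) (nat_lit 2) (nat_lit 4) (nat_lit 359) (nat_lit 192) (nat_lit 169))) (XT.nd (nat_lit 78) (nat_lit 0) (nat_lit 0) (XT.lf (nat_lit 0) (nat_lit 423844508976) (nat_lit 76) (nat_lit 24933197994) (nat_lit 76) (nat_lit 23210437131) (nat_lit 1) (nat_lit 4) (nat_lit 2) (nat_lit 5) (nat_lit 2) (nat_lit 4) (nat_lit 360) (nat_lit 192) (nat_lit 168)) (XT.lf (nat_lit 0) (nat_lit 446614599392) (nat_lit 76) (nat_lit 25344159725) (nat_lit 76) (nat_lit 23584530301) (nat_lit 1) (nat_lit 4) (nat_lit 2) (nat_lit 5) (nat_lit 2) (nat_lit 4) (nat_lit 361)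 (nat_lit 192) (nat_lit 167)))) (XT.nd (nat_lit 156) (nat_lit 0) (nat_lit 0) (XT.nd (nat_lit 78) (nat_lit 0) (nat_lit 0) (XT.lf (nat_lit 0) (nat_lit 470494861065) (nat_lit 76) (nat_lit 25788434035) (nat_lit 76) (nat_lit 23993691697) (nat_lit 1) (nat_lit 4) (nat_lit 2) (nat_lit 5) (nat_lit 2) (nat_lit 4) (nat_lit 362) (nat_lit 192) (nat_lit 166)) (XT.lf (nat_lit 0) (nat_lit 495542151762) (nat_lit 76) (nat_lit 26267078722) (nat_lit 76) (nat_lit 24438895513) (nat_lit 1) (nat_lit 4) (nat_lit 2) (nat_lit 5) (nat_lit 2) (nat_lit 4) (nat_lit 363) (nat_lit 192) (nat_lit 165))) (XT.nd (nat_lit 78) (nat_lit 0) (nat_lit 0) (XT.lf (nat_lit 0) (nat_lit 521816107888) (nat_lit 76) (nat_lit 26781233414) (nat_lit 76) (nat_lit 24921201757) (nat_lit 1) (nat_lit 4) (nat_lit 2) (nat_lit 5) (nat_lit 2) (nat_lit 4) (nat_lit 364) (nat_lit 192) (nat_lit 164)) (XT.nd (nat_lit 78) (nat_lit 0) (nat_lit 0) (XT.lf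 (nat_lit 0) (nat_lit 549379286483) (nat_lit 76) (nat_lit 27332122292) (nat_lit 76) (nat_lit 25441758778) (nat_lit 1) (nat_lit 4) (nat_lit 2) (nat_lit 5) (nat_lit 2) (nat_lit 4) (nat_lit 365) (nat_lit 192) (nat_lit 163)) (XT.lf (nat_lit 0) (nat_lit 578297314162) (nat_lit 76) (nat_lit 27921056993) (nat_lit 76) (nat_lit 26001805998) (nat_lit 1) (nat_lit 4) (nat_lit 2) (nat_lit 5) (nat_lit 2) (nat_lit 4) (nat_lit 366) (nat_lit 192) (nat_lit 162))))))) (XT.nd (nat_lit 35568) (nat_lit 0) (nat_lit 0) (XT.nd (nat_lit 35178) (nat_lit 0) (nat_lit 0) (XT.nd (nat_lit 35022) (nat_lit 0) (nat_lit 0) (XT.nd (nat_lit 34944) (nat_lit 0) (nat_lit 0) (XT.lf (nat_lit 0) (nat_lit 608639043371) (nat_lit 76) (nat_lit 28549439745) (nat_lit 76) (nat_lit 26602676862) (nat_lit 1) (nat_lit 4) (nat_lit 2) (nat_lit 5) (nat_lit 2) (nat_lit 4) (nat_lit 367) (nat_lit 192) (nat_lit 161)) (XT.lf (nat_lit 0) (nat_lit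 42582292335) (nat_lit 76) (nat_lit 12133131711) (nat_lit 76) (nat_lit 12133131711) (nat_lit 1) (nat_lit 4) (nat_lit 2) (nat_lit 5) (nat_lit 2) (nat_lit 4) (nat_lit 334) (nat_lit 193) (nat_lit 193))) (XT.nd (nat_lit 78) (nat_lit 0) (nat_lit 0) (XT.lf (nat_lit 0) (nat_lit 92469699866) (nat_lit 76) (nat_lit 23975823371) (nat_lit 76) (nat_lit 23850973339) (nat_lit 1) (nat_lit 4) (nat_lit 2) (nat_lit 5) (nat_lit 2) (nat_lit 4) (nat_lit 335) (nat_lit 193) (nat_lit 192)) (XT.lf (nat_lit 0) (nat_lit 100044124337) (nat_lit 76) (nat_lit 23714086423) (nat_lit 76) (nat_lit 23470331599) (nat_lit 1) (nat_lit 4) (nat_lit 2) (nat_lit 5) (nat_lit 2) (nat_lit 4) (nat_lit 336) (nat_lit 193) (nat_lit 191)))) (XT.nd (nat_lit 156) (nat_lit 0) (nat_lit 0) (XT.nd (nat_lit 78) (nat_lit 0) (nat_lit 0) (XT.lf (nat_lit 0) (nat_lit 107905892426) (nat_lit 76) (nat_lit 23480429395) (nat_lit 76) (nat_lit 23123431913)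 (nat_lit 1) (nat_lit 4) (nat_lit 2) (nat_lit 5) (nat_lit 2) (nat_lit 4) (nat_lit 337) (nat_lit 193) (nat_lit 190)) (XT.lf (nat_lit 0) (nat_lit 116073722628) (nat_lit 76) (nat_lit 23274295961) (nat_lit 76) (nat_lit 22809448328) (nat_lit 1) (nat_lit 4) (nat_lit 2) (nat_lit 5) (nat_lit 2) (nat_lit 4) (nat_lit 338) (nat_lit 193) (nat_lit 189))) (XT.nd (nat_lit 78) (nat_lit 0) (nat_lit 0) (XT.lf (nat_lit 0) (nat_lit 124567062159) (nat_lit 76) (nat_lit 23095195328) (nat_lit 76) (nat_lit 22527633264) (nat_lit 1) (nat_lit 4) (nat_lit 2) (nat_lit 5) (nat_lit 2) (nat_lit 4) (nat_lit 339) (nat_lit 193) (nat_lit 188)) (XT.nd (nat_lit 78) (nat_lit 0) (nat_lit 0) (XT.lf (nat_lit 0) (nat_lit 133406133255) (nat_lit 76) (nat_lit 22942701065) (nat_lit 76) (nat_lit 22277315735) (nat_lit 1) (nat_lit 4) (nat_lit 2) (nat_lit 5) (nat_lit 2) (nat_lit 4) (nat_lit 340) (nat_lit 193) (nat_lit 187)) (XT.lf (nat_lit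 0) (nat_lit 142611981323) (nat_lit 76) (nat_lit 22816450090) (nat_lit 76) (nat_lit 22057899744) (nat_lit 1) (nat_lit 4) (nat_lit 2) (nat_lit 5) (nat_lit 2) (nat_lit 4) (nat_lit 341) (nat_lit 193) (nat_lit 186)))))) (XT.nd (nat_lit 312) (nat_lit 0) (nat_lit 0) (XT.nd (nat_lit 156) (nat_lit 0) (nat_lit 0) (XT.nd (nat_lit 78) (nat_lit 0) (nat_lit 0) (XT.lf (nat_lit 0) (nat_lit 152206525050) (nat_lit 76) (nat_lit 22716141807) (nat_lit 76) (nat_lit 21868862874) (nat_lit 1) (nat_lit 4) (nat_lit 2) (nat_lit 5) (nat_lit 2) (nat_lit 4) (nat_lit 342) (nat_lit 193) (nat_lit 185)) (XT.lf (nat_lit 0) (nat_lit 162212608587) (nat_lit 76) (nat_lit 22641537385) (nat_lit 76) (nat_lit 21709755037) (nat_lit 1) (nat_lit 4) (nat_lit 2) (nat_lit 5) (nat_lit 2) (nat_lit 4) (nat_lit 343) (nat_lit 193) (nat_lit 184))) (XT.nd (nat_lit 78) (nat_lit 0) (nat_lit 0) (XT.lf (nat_lit 0) (nat_lit 172654055943) (nat_lit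 76) (nat_lit 22592459196) (nat_lit 76) (nat_lit 21580197404) (nat_lit 1) (nat_lit 4) (nat_lit 2) (nat_lit 5) (nat_lit 2) (nat_lit 4) (nat_lit 344) (nat_lit 193) (nat_lit 183)) (XT.lf (nat_lit 0) (nat_lit 183555727706) (nat_lit 76) (nat_lit 22568790386) (nat_lit 76) (nat_lit 21479881505) (nat_lit 1) (nat_lit 4) (nat_lit 2) (nat_lit 5) (nat_lit 2) (nat_lit 4) (nat_lit 345) (nat_lit 193) (nat_lit 182)))) (XT.nd (nat_lit 156) (nat_lit 0) (nat_lit 0) (XT.nd (nat_lit 78) (nat_lit 0) (nat_lit 0) (XT.lf (nat_lit 0) (nat_lit 194943580238) (nat_lit 76) (nat_lit 22570474601) (nat_lit 76) (nat_lit 21408568492) (nat_lit 1) (nat_lit 4) (nat_lit 2) (nat_lit 5) (nat_lit 2) (nat_lit 4) (nat_lit 346) (nat_lit 193) (nat_lit 181)) (XT.lf (nat_lit 0) (nat_lit 206844727474) (nat_lit 76) (nat_lit 22597515851) (nat_lit 76) (nat_lit 21366088573) (nat_lit 1) (nat_lit 4) (nat_lit 2) (nat_lit 5) (nat_lit 2) (nat_lit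 4) (nat_lit 347) (nat_lit 193) (nat_lit 180))) (XT.nd (nat_lit 78) (nat_lit 0) (nat_lit 0) (XT.lf (nat_lit 0) (nat_lit 219287505478) (nat_lit 76) (nat_lit 22649978520) (nat_lit 76) (nat_lit 21352340605) (nat_lit 1) (nat_lit 4) (nat_lit 2) (nat_lit 5) (nat_lit 2) (nat_lit 4) (nat_lit 348) (nat_lit 193) (nat_lit 179)) (XT.nd (nat_lit 78) (nat_lit 0) (nat_lit 0) (XT.lf (nat_lit 0) (nat_lit 232301539912) (nat_lit 76) (nat_lit 22727987519) (nat_lit 76) (nat_lit 21367291855) (nat_lit 1) (nat_lit 4) (nat_lit 2) (nat_lit 5) (nat_lit 2) (nat_lit 4) (nat_lit 349) (nat_lit 193) (nat_lit 178)) (XT.lf (nat_lit 0) (nat_lit 245917816573) (nat_lit 76) (nat_lit 22831728585) (nat_lit 76) (nat_lit 21410977920) (nat_lit 1) (nat_lit 4) (nat_lit 2) (nat_lit 5) (nat_lit 2) (nat_lit 4) (nat_lit 350) (nat_lit 193) (nat_lit 177))))))))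
noncomputable def xc8 : XT := (XT.nd (nat_lit 36114) (nat_lit 0) (nat_lit 0) (XT.nd (nat_lit 702) (nat_lit 0) (nat_lit 0) (XT.nd (nat_lit 312) (nat_lit 0) (nat_lit 0) (XT.nd (nat_lit 156) (nat_lit 0) (nat_lit 0) (XT.nd (nat_lit 78) (nat_lit 0) (nat_lit 0) (XT.lf (nat_lit 0) (nat_lit 260168755167) (nat_lit 76) (nat_lit 22961448718) (nat_lit 76) (nat_lit 21483502816) (nat_lit 1) (nat_lit 4) (nat_lit 2) (nat_lit 5) (nat_lit 2) (nat_lit 4) (nat_lit 351) (nat_lit 193) (nat_lit 176)) (XT.lf (nat_lit 0) (nat_lit 275088286500) (nat_lit 76) (nat_lit 23117456778) (nat_lit 76) (nat_lit 21585039220) (nat_lit 1) (nat_lit 4) (nat_lit 2) (nat_lit 5) (nat_lit 2) (nat_lit 4) (nat_lit 352) (nat_lit 193) (nat_lit 175))) (XT.nd (nat_lit 78) (nat_lit 0) (nat_lit 0) (XT.lf (nat_lit 0) (nat_lit 290711933265) (nat_lit 76) (nat_lit 23300124211) (nat_lit 76) (nat_lit 21715828886) (nat_lit 1) (nat_lit 4) (nat_lit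 2) (nat_lit 5) (nat_lit 2) (nat_lit 4) (nat_lit 353) (nat_lit 193) (nat_lit 174)) (XT.lf (nat_lit 0) (nat_lit 307076894622) (nat_lit 76) (nat_lit 23509885940) (nat_lit 76) (nat_lit 21876183219) (nat_lit 1) (nat_lit 4) (nat_lit 2) (nat_lit 5) (nat_lit 2) (nat_lit 4) (nat_lit 354) (nat_lit 193) (nat_lit 173)))) (XT.nd (nat_lit 156) (nat_lit 0) (nat_lit 0) (XT.nd (nat_lit 78) (nat_lit 0) (nat_lit 0) (XT.lf (nat_lit 0) (nat_lit 324222134765) (nat_lit 76) (nat_lit 23747241398) (nat_lit 76) (nat_lit 22066484013) (nat_lit 1) (nat_lit 4) (nat_lit 2) (nat_lit 5) (nat_lit 2) (nat_lit 4) (nat_lit 355) (nat_lit 193) (nat_lit 172)) (XT.lf (nat_lit 0) (nat_lit 342188475693) (nat_lit 76) (nat_lit 24012755717) (nat_lit 76) (nat_lit 22287184366) (nat_lit 1) (nat_lit 4) (nat_lit 2) (nat_lit 5) (nat_lit 2) (nat_lit 4) (nat_lit 356) (nat_lit 193) (nat_lit 171))) (XT.nd (nat_lit 78) (nat_lit 0) (nat_lit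 0) (XT.lf (nat_lit 0) (nat_lit 361018694409) (nat_lit 76) (nat_lit 24307061074) (nat_lit 76) (nat_lit 22538809756) (nat_lit 1) (nat_lit 4) (nat_lit 2) (nat_lit 5) (nat_lit 2) (nat_lit 4) (nat_lit 357) (nat_lit 193) (nat_lit 170)) (XT.nd (nat_lit 78) (nat_lit 0) (nat_lit 0) (XT.lf (nat_lit 0) (nat_lit 380757624767) (nat_lit 76) (nat_lit 24630858195) (nat_lit 76) (nat_lit 22821959289) (nat_lit 1) (nat_lit 4) (nat_lit 2) (nat_lit 5) (nat_lit 2) (nat_lit 4) (nat_lit 358) (nat_lit 193) (nat_lit 169)) (XT.lf (nat_lit 0) (nat_lit 401452264221) (nat_lit 76) (nat_lit 24984918027) (nat_lit 76) (nat_lit 23137307133) (nat_lit 1) (nat_lit 4) (nat_lit 2) (nat_lit 5) (nat_lit 2) (nat_lit 4) (nat_lit 359) (nat_lit 193) (nat_lit 168)))))) (XT.nd (nat_lit 312) (nat_lit 0) (nat_lit 0) (XT.nd (nat_lit 156) (nat_lit 0) (nat_lit 0) (XT.nd (nat_lit 78) (nat_lit 0) (nat_lit 0) (XT.lf (nat_lit 0) (nat_lit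 423151885721) (nat_lit 76) (nat_lit 25370083569) (nat_lit 76) (nat_lit 23485604114) (nat_lit 1) (nat_lit 4) (nat_lit 2) (nat_lit 5) (nat_lit 2) (nat_lit 4) (nat_lit 360) (nat_lit 193) (nat_lit 167)) (XT.lf (nat_lit 0) (nat_lit 445908155032) (nat_lit 76) (nat_lit 25787271881) (nat_lit 76) (nat_lit 23867679512) (nat_lit 1) (nat_lit 4) (nat_lit 2) (nat_lit 5) (nat_lit 2) (nat_lit 4) (nat_lit 361) (nat_lit 193) (nat_lit 166))) (XT.nd (nat_lit 78) (nat_lit 0) (nat_lit 0) (XT.lf (nat_lit 0) (nat_lit 469775253749) (nat_lit 76) (nat_lit 26237476270) (nat_lit 76) (nat_lit 24284443030) (nat_lit 1) (nat_lit 4) (nat_lit 2) (nat_lit 5) (nat_lit 2) (nat_lit 4) (nat_lit 362) (nat_lit 193) (nat_lit 165)) (XT.lf (nat_lit 0) (nat_lit 494810008297) (nat_lit 76) (nat_lit 26721768650) (nat_lit 76) (nat_lit 24736886961) (nat_lit 1) (nat_lit 4) (nat_lit 2) (nat_lit 5) (nat_lit 2) (nat_lit 4) (nat_lit 363)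 (nat_lit 193) (nat_lit 164)))) (XT.nd (nat_lit 156) (nat_lit 0) (nat_lit 0) (XT.nd (nat_lit 78) (nat_lit 0) (nat_lit 0) (XT.lf (nat_lit 0) (nat_lit 521072025234) (nat_lit 76) (nat_lit 27241302099) (nat_lit 76) (nat_lit 25226088554) (nat_lit 1) (nat_lit 4) (nat_lit 2) (nat_lit 5) (nat_lit 2) (nat_lit 4) (nat_lit 364) (nat_lit 193) (nat_lit 163)) (XT.lf (nat_lit 0) (nat_lit 548623833172) (nat_lit 76) (nat_lit 27797313601) (nat_lit 76) (nat_lit 25753212574) (nat_lit 1) (nat_lit 4) (nat_lit 2) (nat_lit 5) (nat_lit 2) (nat_lit 4) (nat_lit 365) (nat_lit 193) (nat_lit 162))) (XT.nd (nat_lit 78) (nat_lit 0) (nat_lit 0) (XT.lf (nat_lit 0) (nat_lit 577531031655) (nat_lit 76) (nat_lit 28391126993) (nat_lit 76) (nat_lit 26319514079) (nat_lit 1) (nat_lit 4) (nat_lit 2) (nat_lit 5) (nat_lit 2) (nat_lit 4) (nat_lit 366) (nat_lit 193) (nat_lit 161)) (XT.nd (nat_lit 34788) (nat_lit 0) (nat_lit 0) (XT.lf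 (nat_lit 0) (nat_lit 607862447344) (nat_lit 76) (nat_lit 29024156116) (nat_lit 76) (nat_lit 26926341404) (nat_lit 1) (nat_lit 4) (nat_lit 2) (nat_lit 5) (nat_lit 2) (nat_lit 4) (nat_lit 367) (nat_lit 193) (nat_lit 160)) (XT.lf (nat_lit 0) (nat_lit 35672454930) (nat_lit 76) (nat_lit 12521967390) (nat_lit 76) (nat_lit 12521967390) (nat_lit 1) (nat_lit 4) (nat_lit 2) (nat_lit 5) (nat_lit 2) (nat_lit 4) (nat_lit 332) (nat_lit 194) (nat_lit 194))))))) (XT.nd (nat_lit 702) (nat_lit 0) (nat_lit 0) (XT.nd (nat_lit 312) (nat_lit 0) (nat_lit 0) (XT.nd (nat_lit 156) (nat_lit 0) (nat_lit 0) (XT.nd (nat_lit 78) (nat_lit 0) (nat_lit 0) (XT.lf (nat_lit 0) (nat_lit 78111385616) (nat_lit 76) (nat_lit 24717190635) (nat_lit 76) (nat_lit 24586098102) (nat_lit 1) (nat_lit 4) (nat_lit 2) (nat_lit 5) (nat_lit 2) (nat_lit 4) (nat_lit 333) (nat_lit 194) (nat_lit 193)) (XT.lf (nat_lit 0) (nat_lit 85115441348)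 (nat_lit 76) (nat_lit 24419495644) (nat_lit 76) (nat_lit 24163553080) (nat_lit 1) (nat_lit 4) (nat_lit 2) (nat_lit 5) (nat_lit 2) (nat_lit 4) (nat_lit 334) (nat_lit 194) (nat_lit 192))) (XT.nd (nat_lit 78) (nat_lit 0) (nat_lit 0) (XT.lf (nat_lit 0) (nat_lit 92373753381) (nat_lit 76) (nat_lit 24150141010) (nat_lit 76) (nat_lit 23775293654) (nat_lit 1) (nat_lit 4) (nat_lit 2) (nat_lit 5) (nat_lit 2) (nat_lit 4) (nat_lit 335) (nat_lit 194) (nat_lit 191)) (XT.lf (nat_lit 0) (nat_lit 99903603410) (nat_lit 76) (nat_lit 23908485412) (nat_lit 76) (nat_lit 23420395397) (nat_lit 1) (nat_lit 4) (nat_lit 2) (nat_lit 5) (nat_lit 2) (nat_lit 4) (nat_lit 336) (nat_lit 194) (nat_lit 190)))) (XT.nd (nat_lit 156) (nat_lit 0) (nat_lit 0) (XT.nd (nat_lit 78) (nat_lit 0) (nat_lit 0) (XT.lf (nat_lit 0) (nat_lit 107722919649) (nat_lit 76) (nat_lit 23693953480) (nat_lit 76) (nat_lit 23098013313) (nat_lit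 1) (nat_lit 4) (nat_lit 2) (nat_lit 5) (nat_lit 2) (nat_lit 4) (nat_lit 337) (nat_lit 194) (nat_lit 189)) (XT.lf (nat_lit 0) (nat_lit 115850319519) (nat_lit 76) (nat_lit 23506034423) (nat_lit 76) (nat_lit 22807379826) (nat_lit 1) (nat_lit 4) (nat_lit 2) (nat_lit 5) (nat_lit 2) (nat_lit 4) (nat_lit 338) (nat_lit 194) (nat_lit 188))) (XT.nd (nat_lit 78) (nat_lit 0) (nat_lit 0) (XT.lf (nat_lit 0) (nat_lit 124305153971) (nat_lit 76) (nat_lit 23344280815) (nat_lit 76) (nat_lit 22547802951) (nat_lit 1) (nat_lit 4) (nat_lit 2) (nat_lit 5) (nat_lit 2) (nat_lit 4) (nat_lit 339) (nat_lit 194) (nat_lit 187)) (XT.nd (nat_lit 78) (nat_lit 0) (nat_lit 0) (XT.lf (nat_lit 0) (nat_lit 133107553563) (nat_lit 76) (nat_lit 23208307528) (nat_lit 76) (nat_lit 22318664649) (nat_lit 1) (nat_lit 4) (nat_lit 2) (nat_lit 5) (nat_lit 2) (nat_lit 4) (nat_lit 340) (nat_lit 194) (nat_lit 186)) (XT.lf (nat_lit 0)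 (nat_lit 142278476390) (nat_lit 76) (nat_lit 23097790817) (nat_lit 76) (nat_lit 22119419351) (nat_lit 1) (nat_lit 4) (nat_lit 2) (nat_lit 5) (nat_lit 2) (nat_lit 4) (nat_lit 341) (nat_lit 194) (nat_lit 185)))))) (XT.nd (nat_lit 312) (nat_lit 0) (nat_lit 0) (XT.nd (nat_lit 156) (nat_lit 0) (nat_lit 0) (XT.nd (nat_lit 78) (nat_lit 0) (nat_lit 0) (XT.lf (nat_lit 0) (nat_lit 151839757982) (nat_lit 76) (nat_lit 23012467546) (nat_lit 76) (nat_lit 21949592665) (nat_lit 1) (nat_lit 4) (nat_lit 2) (nat_lit 5) (nat_lit 2) (nat_lit 4) (nat_lit 342) (nat_lit 194) (nat_lit 184)) (XT.lf (nat_lit 0) (nat_lit 161814163296) (nat_lit 76) (nat_lit 22952134565) (nat_lit 76) (nat_lit 21808780240) (nat_lit 1) (nat_lit 4) (nat_lit 2) (nat_lit 5) (nat_lit 2) (nat_lit 4) (nat_lit 343) (nat_lit 194) (nat_lit 183))) (XT.nd (nat_lit 78) (nat_lit 0) (nat_lit 0) (XT.lf (nat_lit 0) (nat_lit 172225440915) (nat_lit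 76) (nat_lit 22916648224) (nat_lit 76) (nat_lit 21696646810) (nat_lit 1) (nat_lit 4) (nat_lit 2) (nat_lit 5) (nat_lit 2) (nat_lit 4) (nat_lit 344) (nat_lit 194) (nat_lit 182)) (XT.lf (nat_lit 0) (nat_lit 183098379596) (nat_lit 76) (nat_lit 22905924031) (nat_lit 76) (nat_lit 21612925390) (nat_lit 1) (nat_lit 4) (nat_lit 2) (nat_lit 5) (nat_lit 2) (nat_lit 4) (nat_lit 345) (nat_lit 194) (nat_lit 181)))) (XT.nd (nat_lit 156) (nat_lit 0) (nat_lit 0) (XT.nd (nat_lit 78) (nat_lit 0) (nat_lit 0) (XT.lf (nat_lit 0) (nat_lit 194458867287) (nat_lit 76) (nat_lit 22919936453) (nat_lit 76) (nat_lit 21557416642) (nat_lit 1) (nat_lit 4) (nat_lit 2) (nat_lit 5) (nat_lit 2) (nat_lit 4) (nat_lit 346) (nat_lit 194) (nat_lit 180)) (XT.lf (nat_lit 0) (nat_lit 206333952770) (nat_lit 76) (nat_lit 22958718853) (nat_lit 76) (nat_lit 21529988405) (nat_lit 1) (nat_lit 4) (nat_lit 2) (nat_lit 5) (nat_lit 2) (nat_lit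 4) (nat_lit 347) (nat_lit 194) (nat_lit 179))) (XT.nd (nat_lit 78) (nat_lit 0) (nat_lit 0) (XT.lf (nat_lit 0) (nat_lit 218751910057) (nat_lit 76) (nat_lit 23022363569) (nat_lit 76) (nat_lit 21530575371) (nat_lit 1) (nat_lit 4) (nat_lit 2) (nat_lit 5) (nat_lit 2) (nat_lit 4) (nat_lit 348) (nat_lit 194) (nat_lit 178)) (XT.nd (nat_lit 78) (nat_lit 0) (nat_lit 0) (XT.lf (nat_lit 0) (nat_lit 231742305713) (nat_lit 76) (nat_lit 23111022137) (nat_lit 76) (nat_lit 21559178940) (nat_lit 1) (nat_lit 4) (nat_lit 2) (nat_lit 5) (nat_lit 2) (nat_lit 4) (nat_lit 349) (nat_lit 194) (nat_lit 177)) (XT.lf (nat_lit 0) (nat_lit 245336069252) (nat_lit 76) (nat_lit 23224905649) (nat_lit 76) (nat_lit 21615867213) (nat_lit 1) (nat_lit 4) (nat_lit 2) (nat_lit 5) (nat_lit 2) (nat_lit 4) (nat_lit 350) (nat_lit 194) (nat_lit 176))))))))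
noncomputable def xc9 : XT := (XT.nd (nat_lit 35958) (nat_lit 0) (nat_lit 0) (XT.nd (nat_lit 702) (nat_lit 0) (nat_lit 0) (XT.nd (nat_lit 312) (nat_lit 0) (nat_lit 0) (XT.nd (nat_lit 156) (nat_lit 0) (nat_lit 0) (XT.nd (nat_lit 78) (nat_lit 0) (nat_lit 0) (XT.lf (nat_lit 0) (nat_lit 259565566777) (nat_lit 76) (nat_lit 23364285255) (nat_lit 76) (nat_lit 21700775164) (nat_lit 1) (nat_lit 4) (nat_lit 2) (nat_lit 5) (nat_lit 2) (nat_lit 4) (nat_lit 351) (nat_lit 194) (nat_lit 175)) (XT.lf (nat_lit 0) (nat_lit 274464678045) (nat_lit 76) (nat_lit 23529492813) (nat_lit 76) (nat_lit 21814104955) (nat_lit 1) (nat_lit 4) (nat_lit 2) (nat_lit 5) (nat_lit 2) (nat_lit 4) (nat_lit 352) (nat_lit 194) (nat_lit 174))) (XT.nd (nat_lit 78) (nat_lit 0) (nat_lit 0) (XT.lf (nat_lit 0) (nat_lit 290068877129) (nat_lit 76) (nat_lit 23720921672) (nat_lit 76) (nat_lit 21956126418) (nat_lit 1) (nat_lit 4) (nat_lit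 2) (nat_lit 5) (nat_lit 2) (nat_lit 4) (nat_lit 353) (nat_lit 194) (nat_lit 173)) (XT.lf (nat_lit 0) (nat_lit 306415316885) (nat_lit 76) (nat_lit 23939027618) (nat_lit 76) (nat_lit 22127177699) (nat_lit 1) (nat_lit 4) (nat_lit 2) (nat_lit 5) (nat_lit 2) (nat_lit 4) (nat_lit 354) (nat_lit 194) (nat_lit 172)))) (XT.nd (nat_lit 156) (nat_lit 0) (nat_lit 0) (XT.nd (nat_lit 78) (nat_lit 0) (nat_lit 0) (XT.lf (nat_lit 0) (nat_lit 323542917407) (nat_lit 76) (nat_lit 24184329948) (nat_lit 76) (nat_lit 22327666064) (nat_lit 1) (nat_lit 4) (nat_lit 2) (nat_lit 5) (nat_lit 2) (nat_lit 4) (nat_lit 355) (nat_lit 194) (nat_lit 171)) (XT.lf (nat_lit 0) (nat_lit 341492458697) (nat_lit 76) (nat_lit 24457412716) (nat_lit 76) (nat_lit 22558068865) (nat_lit 1) (nat_lit 4) (nat_lit 2) (nat_lit 5) (nat_lit 2) (nat_lit 4) (nat_lit 356) (nat_lit 194) (nat_lit 170))) (XT.nd (nat_lit 78) (nat_lit 0) (nat_lit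 0) (XT.lf (nat_lit 0) (nat_lit 360306677758) (nat_lit 76) (nat_lit 24758926120) (nat_lit 76) (nat_lit 22818934681) (nat_lit 1) (nat_lit 4) (nat_lit 2) (nat_lit 5) (nat_lit 2) (nat_lit 4) (nat_lit 357) (nat_lit 194) (nat_lit 169)) (XT.nd (nat_lit 78) (nat_lit 0) (nat_lit 0) (XT.lf (nat_lit 0) (nat_lit 380030370349) (nat_lit 76) (nat_lit 25089588049) (nat_lit 76) (nat_lit 23110884621) (nat_lit 1) (nat_lit 4) (nat_lit 2) (nat_lit 5) (nat_lit 2) (nat_lit 4) (nat_lit 358) (nat_lit 194) (nat_lit 168)) (XT.lf (nat_lit 0) (nat_lit 400710497643) (nat_lit 76) (nat_lit 25450185792) (nat_lit 76) (nat_lit 23434613804) (nat_lit 1) (nat_lit 4) (nat_lit 2) (nat_lit 5) (nat_lit 2) (nat_lit 4) (nat_lit 359) (nat_lit 194) (nat_lit 167)))))) (XT.nd (nat_lit 312) (nat_lit 0) (nat_lit 0) (XT.nd (nat_lit 156) (nat_lit 0) (nat_lit 0) (XT.nd (nat_lit 78) (nat_lit 0) (nat_lit 0) (XT.lf (nat_lit 0) (nat_lit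 422396298039) (nat_lit 76) (nat_lit 25841577916) (nat_lit 76) (nat_lit 23790893013) (nat_lit 1) (nat_lit 4) (nat_lit 2) (nat_lit 5) (nat_lit 2) (nat_lit 4) (nat_lit 360) (nat_lit 194) (nat_lit 166)) (XT.lf (nat_lit 0) (nat_lit 445139404394) (nat_lit 76) (nat_lit 26264696307) (nat_lit 76) (nat_lit 24180570533) (nat_lit 1) (nat_lit 4) (nat_lit 2) (nat_lit 5) (nat_lit 2) (nat_lit 4) (nat_lit 361) (nat_lit 194) (nat_lit 165))) (XT.nd (nat_lit 78) (nat_lit 0) (nat_lit 0) (XT.lf (nat_lit 0) (nat_lit 468993966962) (nat_lit 76) (nat_lit 26720548389) (nat_lit 76) (nat_lit 24604574167) (nat_lit 1) (nat_lit 4) (nat_lit 2) (nat_lit 5) (nat_lit 2) (nat_lit 4) (nat_lit 362) (nat_lit 194) (nat_lit 164)) (XT.lf (nat_lit 0) (nat_lit 494016782321) (nat_lit 76) (nat_lit 27210219525) (nat_lit 76) (nat_lit 25063913447) (nat_lit 1) (nat_lit 4) (nat_lit 2) (nat_lit 5) (nat_lit 2) (nat_lit 4) (nat_lit 363)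 (nat_lit 194) (nat_lit 163)))) (XT.nd (nat_lit 156) (nat_lit 0) (nat_lit 0) (XT.nd (nat_lit 78) (nat_lit 0) (nat_lit 0) (XT.lf (nat_lit 0) (nat_lit 520267428602) (nat_lit 76) (nat_lit 27734875599) (nat_lit 76) (nat_lit 25559682039) (nat_lit 1) (nat_lit 4) (nat_lit 2) (nat_lit 5) (nat_lit 2) (nat_lit 4) (nat_lit 364) (nat_lit 194) (nat_lit 162)) (XT.lf (nat_lit 0) (nat_lit 547808407343) (nat_lit 76) (nat_lit 28295765791) (nat_lit 76) (nat_lit 26093060344) (nat_lit 1) (nat_lit 4) (nat_lit 2) (nat_lit 5) (nat_lit 2) (nat_lit 4) (nat_lit 365) (nat_lit 194) (nat_lit 161))) (XT.nd (nat_lit 78) (nat_lit 0) (nat_lit 0) (XT.lf (nat_lit 0) (nat_lit 576705292305) (nat_lit 76) (nat_lit 28894225554) (nat_lit 76) (nat_lit 26665318309) (nat_lit 1) (nat_lit 4) (nat_lit 2) (nat_lit 5) (nat_lit 2) (nat_lit 4) (nat_lit 366) (nat_lit 194) (nat_lit 160)) (XT.nd (nat_lit 34632) (nat_lit 0) (nat_lit 0) (XT.lf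 (nat_lit 0) (nat_lit 607026885593) (nat_lit 76) (nat_lit 29531679793) (nat_lit 76) (nat_lit 27277818455) (nat_lit 1) (nat_lit 4) (nat_lit 2) (nat_lit 5) (nat_lit 2) (nat_lit 4) (nat_lit 367) (nat_lit 194) (nat_lit 159)) (XT.lf (nat_lit 0) (nat_lit 29257481739) (nat_lit 76) (nat_lit 12950495776) (nat_lit 76) (nat_lit 12950495776) (nat_lit 1) (nat_lit 4) (nat_lit 2) (nat_lit 5) (nat_lit 2) (nat_lit 4) (nat_lit 330) (nat_lit 195) (nat_lit 195))))))) (XT.nd (nat_lit 702) (nat_lit 0) (nat_lit 0) (XT.nd (nat_lit 312) (nat_lit 0) (nat_lit 0) (XT.nd (nat_lit 156) (nat_lit 0) (nat_lit 0) (XT.nd (nat_lit 78) (nat_lit 0) (nat_lit 0) (XT.lf (nat_lit 0) (nat_lit 64799903428) (nat_lit 76) (nat_lit 25538153201) (nat_lit 76) (nat_lit 25400506042) (nat_lit 1) (nat_lit 4) (nat_lit 2) (nat_lit 5) (nat_lit 2) (nat_lit 4) (nat_lit 331) (nat_lit 195) (nat_lit 194)) (XT.lf (nat_lit 0) (nat_lit 71293309373)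 (nat_lit 76) (nat_lit 25204828613) (nat_lit 76) (nat_lit 24936088920) (nat_lit 1) (nat_lit 4) (nat_lit 2) (nat_lit 5) (nat_lit 2) (nat_lit 4) (nat_lit 332) (nat_lit 195) (nat_lit 193))) (XT.nd (nat_lit 78) (nat_lit 0) (nat_lit 0) (XT.lf (nat_lit 0) (nat_lit 78010641805) (nat_lit 76) (nat_lit 24900224156) (nat_lit 76) (nat_lit 24506634432) (nat_lit 1) (nat_lit 4) (nat_lit 2) (nat_lit 5) (nat_lit 2) (nat_lit 4) (nat_lit 333) (nat_lit 195) (nat_lit 192)) (XT.lf (nat_lit 0) (nat_lit 84967894374) (nat_lit 76) (nat_lit 24623614583) (nat_lit 76) (nat_lit 24111120067) (nat_lit 1) (nat_lit 4) (nat_lit 2) (nat_lit 5) (nat_lit 2) (nat_lit 4) (nat_lit 334) (nat_lit 195) (nat_lit 191)))) (XT.nd (nat_lit 156) (nat_lit 0) (nat_lit 0) (XT.nd (nat_lit 78) (nat_lit 0) (nat_lit 0) (XT.lf (nat_lit 0) (nat_lit 92181631965) (nat_lit 76) (nat_lit 24374341299) (nat_lit 76) (nat_lit 23748604124) (nat_lit 1)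 (nat_lit 4) (nat_lit 2) (nat_lit 5) (nat_lit 2) (nat_lit 4) (nat_lit 335) (nat_lit 195) (nat_lit 190)) (XT.lf (nat_lit 0) (nat_lit 99669030145) (nat_lit 76) (nat_lit 24151810797) (nat_lit 76) (nat_lit 23418223470) (nat_lit 1) (nat_lit 4) (nat_lit 2) (nat_lit 5) (nat_lit 2) (nat_lit 4) (nat_lit 336) (nat_lit 195) (nat_lit 189))) (XT.nd (nat_lit 78) (nat_lit 0) (nat_lit 0) (XT.lf (nat_lit 0) (nat_lit 107447916052) (nat_lit 76) (nat_lit 23955493241) (nat_lit 76) (nat_lit 23119191484) (nat_lit 1) (nat_lit 4) (nat_lit 2) (nat_lit 5) (nat_lit 2) (nat_lit 4) (nat_lit 337) (nat_lit 195) (nat_lit 188)) (XT.nd (nat_lit 78) (nat_lit 0) (nat_lit 0) (XT.lf (nat_lit 0) (nat_lit 115536810843) (nat_lit 76) (nat_lit 23784921209) (nat_lit 76) (nat_lit 22850796186) (nat_lit 1) (nat_lit 4) (nat_lit 2) (nat_lit 5) (nat_lit 2) (nat_lit 4) (nat_lit 338) (nat_lit 195) (nat_lit 187)) (XT.lf (nat_lit 0) (nat_lit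 123954973791) (nat_lit 76) (nat_lit 23639688578) (nat_lit 76) (nat_lit 22612398539) (nat_lit 1) (nat_lit 4) (nat_lit 2) (nat_lit 5) (nat_lit 2) (nat_lit 4) (nat_lit 339) (nat_lit 195) (nat_lit 186)))))) (XT.nd (nat_lit 312) (nat_lit 0) (nat_lit 0) (XT.nd (nat_lit 156) (nat_lit 0) (nat_lit 0) (XT.nd (nat_lit 78) (nat_lit 0) (nat_lit 0) (XT.lf (nat_lit 0) (nat_lit 132722448142) (nat_lit 76) (nat_lit 23519449554) (nat_lit 76) (nat_lit 22403430929) (nat_lit 1) (nat_lit 4) (nat_lit 2) (nat_lit 5) (nat_lit 2) (nat_lit 4) (nat_lit 340) (nat_lit 195) (nat_lit 185)) (XT.lf (nat_lit 0) (nat_lit 141860108834) (nat_lit 76) (nat_lit 23423917856) (nat_lit 76) (nat_lit 22223395815) (nat_lit 1) (nat_lit 4) (nat_lit 2) (nat_lit 5) (nat_lit 2) (nat_lit 4) (nat_lit 341) (nat_lit 195) (nat_lit 184))) (XT.nd (nat_lit 78) (nat_lit 0) (nat_lit 0) (XT.lf (nat_lit 0) (nat_lit 151389712203) (nat_lit 76) (nat_lit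 23352866025) (nat_lit 76) (nat_lit 22071864541) (nat_lit 1) (nat_lit 4) (nat_lit 2) (nat_lit 5) (nat_lit 2) (nat_lit 4) (nat_lit 342) (nat_lit 195) (nat_lit 183)) (XT.lf (nat_lit 0) (nat_lit 161333947780) (nat_lit 76) (nat_lit 23306124893) (nat_lit 76) (nat_lit 21948476319) (nat_lit 1) (nat_lit 4) (nat_lit 2) (nat_lit 5) (nat_lit 2) (nat_lit 4) (nat_lit 343) (nat_lit 195) (nat_lit 182)))) (XT.nd (nat_lit 156) (nat_lit 0) (nat_lit 0) (XT.nd (nat_lit 78) (nat_lit 0) (nat_lit 0) (XT.lf (nat_lit 0) (nat_lit 171716492316) (nat_lit 76) (nat_lit 23283583169) (nat_lit 76) (nat_lit 21852937368) (nat_lit 1) (nat_lit 4) (nat_lit 2) (nat_lit 5) (nat_lit 2) (nat_lit 4) (nat_lit 344) (nat_lit 195) (nat_lit 181)) (XT.lf (nat_lit 0) (nat_lit 182562066157) (nat_lit 76) (nat_lit 23285187183) (nat_lit 76) (nat_lit 21785020213) (nat_lit 1) (nat_lit 4) (nat_lit 2) (nat_lit 5) (nat_lit 2) (nat_lit 4) (nat_lit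 345) (nat_lit 195) (nat_lit 180))) (XT.nd (nat_lit 78) (nat_lit 0) (nat_lit 0) (XT.lf (nat_lit 0) (nat_lit 193896492095) (nat_lit 76) (nat_lit 23310940755) (nat_lit 76) (nat_lit 21744563147) (nat_lit 1) (nat_lit 4) (nat_lit 2) (nat_lit 5) (nat_lit 2) (nat_lit 4) (nat_lit 346) (nat_lit 195) (nat_lit 179)) (XT.nd (nat_lit 78) (nat_lit 0) (nat_lit 0) (XT.lf (nat_lit 0) (nat_lit 205746756861) (nat_lit 76) (nat_lit 23360905202) (nat_lit 76) (nat_lit 21731469844) (nat_lit 1) (nat_lit 4) (nat_lit 2) (nat_lit 5) (nat_lit 2) (nat_lit 4) (nat_lit 347) (nat_lit 195) (nat_lit 178)) (XT.lf (nat_lit 0) (nat_lit 218141075370) (nat_lit 76) (nat_lit 23435199487) (nat_lit 76) (nat_lit 21745709129) (nat_lit 1) (nat_lit 4) (nat_lit 2) (nat_lit 5) (nat_lit 2) (nat_lit 4) (nat_lit 348) (nat_lit 195) (nat_lit 177))))))))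
noncomputable def xc10 : XT := (XT.nd (nat_lit 1404) (nat_lit 0) (nat_lit 0) (XT.nd (nat_lit 702) (nat_lit 0) (nat_lit 0) (XT.nd (nat_lit 312) (nat_lit 0) (nat_lit 0) (XT.nd (nat_lit 156) (nat_lit 0) (nat_lit 0) (XT.nd (nat_lit 78) (nat_lit 0) (nat_lit 0) (XT.lf (nat_lit 0) (nat_lit 231108957904) (nat_lit 76) (nat_lit 23534000501) (nat_lit 76) (nat_lit 21787314906) (nat_lit 1) (nat_lit 4) (nat_lit 2) (nat_lit 5) (nat_lit 2) (nat_lit 4) (nat_lit 349) (nat_lit 195) (nat_lit 176)) (XT.lf (nat_lit 0) (nat_lit 244681280374) (nat_lit 76) (nat_lit 23657543486) (nat_lit 76) (nat_lit 21856386235) (nat_lit 1) (nat_lit 4) (nat_lit 2) (nat_lit 5) (nat_lit 2) (nat_lit 4) (nat_lit 350) (nat_lit 195) (nat_lit 175))) (XT.nd (nat_lit 78) (nat_lit 0) (nat_lit 0) (XT.lf (nat_lit 0) (nat_lit 258890357834) (nat_lit 76) (nat_lit 23806122590) (nat_lit 76) (nat_lit 21953087572) (nat_lit 1) (nat_lit 4) (nat_lit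 2) (nat_lit 5) (nat_lit 2) (nat_lit 4) (nat_lit 351) (nat_lit 195) (nat_lit 174)) (XT.lf (nat_lit 0) (nat_lit 273770021420) (nat_lit 76) (nat_lit 23980091574) (nat_lit 76) (nat_lit 22077649159) (nat_lit 1) (nat_lit 4) (nat_lit 2) (nat_lit 5) (nat_lit 2) (nat_lit 4) (nat_lit 352) (nat_lit 195) (nat_lit 173)))) (XT.nd (nat_lit 156) (nat_lit 0) (nat_lit 0) (XT.nd (nat_lit 78) (nat_lit 0) (nat_lit 0) (XT.lf (nat_lit 0) (nat_lit 289355698903) (nat_lit 76) (nat_lit 24179864649) (nat_lit 76) (nat_lit 22230367571) (nat_lit 1) (nat_lit 4) (nat_lit 2) (nat_lit 5) (nat_lit 2) (nat_lit 4) (nat_lit 353) (nat_lit 195) (nat_lit 172)) (XT.lf (nat_lit 0) (nat_lit 305684499039) (nat_lit 76) (nat_lit 24405917467) (nat_lit 76) (nat_lit 22411606423) (nat_lit 1) (nat_lit 4) (nat_lit 2) (nat_lit 5) (nat_lit 2) (nat_lit 4) (nat_lit 354) (nat_lit 195) (nat_lit 171))) (XT.nd (nat_lit 78) (nat_lit 0) (nat_lit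 0) (XT.lf (nat_lit 0) (nat_lit 322795299923) (nat_lit 76) (nat_lit 24658788246) (nat_lit 76) (nat_lit 22621797235) (nat_lit 1) (nat_lit 4) (nat_lit 2) (nat_lit 5) (nat_lit 2) (nat_lit 4) (nat_lit 355) (nat_lit 195) (nat_lit 170)) (XT.nd (nat_lit 78) (nat_lit 0) (nat_lit 0) (XT.lf (nat_lit 0) (nat_lit 340728841557) (nat_lit 76) (nat_lit 24939079062) (nat_lit 76) (nat_lit 22861440463) (nat_lit 1) (nat_lit 4) (nat_lit 2) (nat_lit 5) (nat_lit 2) (nat_lit 4) (nat_lit 356) (nat_lit 195) (nat_lit 169)) (XT.lf (nat_lit 0) (nat_lit 359527822851) (nat_lit 76) (nat_lit 25247457273) (nat_lit 76) (nat_lit 23131106686) (nat_lit 1) (nat_lit 4) (nat_lit 2) (nat_lit 5) (nat_lit 2) (nat_lit 4) (nat_lit 357) (nat_lit 195) (nat_lit 168)))))) (XT.nd (nat_lit 312) (nat_lit 0) (nat_lit 0) (XT.nd (nat_lit 156) (nat_lit 0) (nat_lit 0) (XT.nd (nat_lit 78) (nat_lit 0) (nat_lit 0) (XT.lf (nat_lit 0) (nat_lit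 379237003283) (nat_lit 76) (nat_lit 25584657113) (nat_lit 76) (nat_lit 23431437965) (nat_lit 1) (nat_lit 4) (nat_lit 2) (nat_lit 5) (nat_lit 2) (nat_lit 4) (nat_lit 358) (nat_lit 195) (nat_lit 167)) (XT.lf (nat_lit 0) (nat_lit 399903309473) (nat_lit 76) (nat_lit 25951481438) (nat_lit 76) (nat_lit 23763149376) (nat_lit 1) (nat_lit 4) (nat_lit 2) (nat_lit 5) (nat_lit 2) (nat_lit 4) (nat_lit 359) (nat_lit 195) (nat_lit 166))) (XT.nd (nat_lit 78) (nat_lit 0) (nat_lit 0) (XT.lf (nat_lit 0) (nat_lit 421575946913) (nat_lit 76) (nat_lit 26348803641) (nat_lit 76) (nat_lit 24127030708) (nat_lit 1) (nat_lit 4) (nat_lit 2) (nat_lit 5) (nat_lit 2) (nat_lit 4) (nat_lit 360) (nat_lit 195) (nat_lit 165)) (XT.lf (nat_lit 0) (nat_lit 444306517119) (nat_lit 76) (nat_lit 26777569725) (nat_lit 76) (nat_lit 24523948344) (nat_lit 1) (nat_lit 4) (nat_lit 2) (nat_lit 5) (nat_lit 2) (nat_lit 4) (nat_lit 361)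 (nat_lit 195) (nat_lit 164)))) (XT.nd (nat_lit 156) (nat_lit 0) (nat_lit 0) (XT.nd (nat_lit 78) (nat_lit 0) (nat_lit 0) (XT.lf (nat_lit 0) (nat_lit 468149140498) (nat_lit 76) (nat_lit 27238800564) (nat_lit 76) (nat_lit 24954847326) (nat_lit 1) (nat_lit 4) (nat_lit 2) (nat_lit 5) (nat_lit 2) (nat_lit 4) (nat_lit 362) (nat_lit 195) (nat_lit 163)) (XT.lf (nat_lit 0) (nat_lit 493160585200) (nat_lit 76) (nat_lit 27733594325) (nat_lit 76) (nat_lit 25420753605) (nat_lit 1) (nat_lit 4) (nat_lit 2) (nat_lit 5) (nat_lit 2) (nat_lit 4) (nat_lit 363) (nat_lit 195) (nat_lit 162))) (XT.nd (nat_lit 78) (nat_lit 0) (nat_lit 0) (XT.lf (nat_lit 0) (nat_lit 519400402284) (nat_lit 76) (nat_lit 28263129088) (nat_lit 76) (nat_lit 25922776481) (nat_lit 1) (nat_lit 4) (nat_lit 2) (nat_lit 5) (nat_lit 2) (nat_lit 4) (nat_lit 364) (nat_lit 195) (nat_lit 161)) (XT.nd (nat_lit 78) (nat_lit 0) (nat_lit 0) (XT.lf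 (nat_lit 0) (nat_lit 546931067505) (nat_lit 76) (nat_lit 28828665652) (nat_lit 76) (nat_lit 26462111247) (nat_lit 1) (nat_lit 4) (nat_lit 2) (nat_lit 5) (nat_lit 2) (nat_lit 4) (nat_lit 365) (nat_lit 195) (nat_lit 160)) (XT.lf (nat_lit 0) (nat_lit 575818130066) (nat_lit 76) (nat_lit 29431550531) (nat_lit 76) (nat_lit 27040042033) (nat_lit 1) (nat_lit 4) (nat_lit 2) (nat_lit 5) (nat_lit 2) (nat_lit 4) (nat_lit 366) (nat_lit 195) (nat_lit 159))))))) (XT.nd (nat_lit 35100) (nat_lit 0) (nat_lit 0) (XT.nd (nat_lit 34710) (nat_lit 0) (nat_lit 0) (XT.nd (nat_lit 34554) (nat_lit 0) (nat_lit 0) (XT.nd (nat_lit 34476) (nat_lit 0) (nat_lit 0) (XT.lf (nat_lit 0) (nat_lit 606130368688) (nat_lit 76) (nat_lit 30073219165) (nat_lit 76) (nat_lit 27657944865) (nat_lit 1) (nat_lit 4) (nat_lit 2) (nat_lit 5) (nat_lit 2) (nat_lit 4) (nat_lit 367) (nat_lit 195) (nat_lit 158)) (XT.lf (nat_lit 0) (nat_lit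 23283987629) (nat_lit 76) (nat_lit 13418818765) (nat_lit 76) (nat_lit 13418818765) (nat_lit 1) (nat_lit 4) (nat_lit 2) (nat_lit 5) (nat_lit 2) (nat_lit 4) (nat_lit 328) (nat_lit 196) (nat_lit 196))) (XT.nd (nat_lit 78) (nat_lit 0) (nat_lit 0) (XT.lf (nat_lit 0) (nat_lit 52423525385) (nat_lit 76) (nat_lit 26438737083) (nat_lit 76) (nat_lit 26294207566) (nat_lit 1) (nat_lit 4) (nat_lit 2) (nat_lit 5) (nat_lit 2) (nat_lit 4) (nat_lit 329) (nat_lit 196) (nat_lit 195)) (XT.lf (nat_lit 0) (nat_lit 58460782967) (nat_lit 76) (nat_lit 26069930076) (nat_lit 76) (nat_lit 25787753399) (nat_lit 1) (nat_lit 4) (nat_lit 2) (nat_lit 5) (nat_lit 2) (nat_lit 4) (nat_lit 330) (nat_lit 196) (nat_lit 194)))) (XT.nd (nat_lit 156) (nat_lit 0) (nat_lit 0) (XT.nd (nat_lit 78) (nat_lit 0) (nat_lit 0) (XT.lf (nat_lit 0) (nat_lit 64694122427) (nat_lit 76) (nat_lit 25730338399) (nat_lit 76) (nat_lit 25317069188)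 (nat_lit 1) (nat_lit 4) (nat_lit 2) (nat_lit 5) (nat_lit 2) (nat_lit 4) (nat_lit 331) (nat_lit 196) (nat_lit 193)) (XT.lf (nat_lit 0) (nat_lit 71138385050) (nat_lit 76) (nat_lit 25419153499) (nat_lit 76) (nat_lit 24881034257) (nat_lit 1) (nat_lit 4) (nat_lit 2) (nat_lit 5) (nat_lit 2) (nat_lit 4) (nat_lit 332) (nat_lit 196) (nat_lit 192))) (XT.nd (nat_lit 78) (nat_lit 0) (nat_lit 0) (XT.lf (nat_lit 0) (nat_lit 77808914319) (nat_lit 76) (nat_lit 25135634460) (nat_lit 76) (nat_lit 24478610426) (nat_lit 1) (nat_lit 4) (nat_lit 2) (nat_lit 5) (nat_lit 2) (nat_lit 4) (nat_lit 333) (nat_lit 196) (nat_lit 191)) (XT.nd (nat_lit 78) (nat_lit 0) (nat_lit 0) (XT.lf (nat_lit 0) (nat_lit 84721592446) (nat_lit 76) (nat_lit 24879106237) (nat_lit 76) (nat_lit 24108839544) (nat_lit 1) (nat_lit 4) (nat_lit 2) (nat_lit 5) (nat_lit 2) (nat_lit 4) (nat_lit 334) (nat_lit 196) (nat_lit 190)) (XT.lf (nat_lit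 0) (nat_lit 91892878188) (nat_lit 76) (nat_lit 24648958048) (nat_lit 76) (nat_lit 23770841204) (nat_lit 1) (nat_lit 4) (nat_lit 2) (nat_lit 5) (nat_lit 2) (nat_lit 4) (nat_lit 335) (nat_lit 196) (nat_lit 189)))))) (XT.nd (nat_lit 312) (nat_lit 0) (nat_lit 0) (XT.nd (nat_lit 156) (nat_lit 0) (nat_lit 0) (XT.nd (nat_lit 78) (nat_lit 0) (nat_lit 0) (XT.lf (nat_lit 0) (nat_lit 99339846035) (nat_lit 76) (nat_lit 24444641922) (nat_lit 76) (nat_lit 23463810648) (nat_lit 1) (nat_lit 4) (nat_lit 2) (nat_lit 5) (nat_lit 2) (nat_lit 4) (nat_lit 336) (nat_lit 196) (nat_lit 188)) (XT.lf (nat_lit 0) (nat_lit 107080226863) (nat_lit 76) (nat_lit 24265671392) (nat_lit 76) (nat_lit 23187016851) (nat_lit 1) (nat_lit 4) (nat_lit 2) (nat_lit 5) (nat_lit 2) (nat_lit 4) (nat_lit 337) (nat_lit 196) (nat_lit 187))) (XT.nd (nat_lit 78) (nat_lit 0) (nat_lit 0) (XT.lf (nat_lit 0) (nat_lit 115132450151) (nat_lit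 76) (nat_lit 24111620337) (nat_lit 76) (nat_lit 22939800780) (nat_lit 1) (nat_lit 4) (nat_lit 2) (nat_lit 5) (nat_lit 2) (nat_lit 4) (nat_lit 338) (nat_lit 196) (nat_lit 186)) (XT.lf (nat_lit 0) (nat_lit 123515687858) (nat_lit 76) (nat_lit 23982121968) (nat_lit 76) (nat_lit 22721573825) (nat_lit 1) (nat_lit 4) (nat_lit 2) (nat_lit 5) (nat_lit 2) (nat_lit 4) (nat_lit 339) (nat_lit 196) (nat_lit 185)))) (XT.nd (nat_lit 156) (nat_lit 0) (nat_lit 0) (XT.nd (nat_lit 78) (nat_lit 0) (nat_lit 0) (XT.lf (nat_lit 0) (nat_lit 132249900074) (nat_lit 76) (nat_lit 23876867958) (nat_lit 76) (nat_lit 22531816399) (nat_lit 1) (nat_lit 4) (nat_lit 2) (nat_lit 5) (nat_lit 2) (nat_lit 4) (nat_lit 340) (nat_lit 196) (nat_lit 184)) (XT.lf (nat_lit 0) (nat_lit 141355882543) (nat_lit 76) (nat_lit 23795607700) (nat_lit 76) (nat_lit 22370076697) (nat_lit 1) (nat_lit 4) (nat_lit 2) (nat_lit 5) (nat_lit 2) (nat_lit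 4) (nat_lit 341) (nat_lit 196) (nat_lit 183))) (XT.nd (nat_lit 78) (nat_lit 0) (nat_lit 0) (XT.lf (nat_lit 0) (nat_lit 150855316175) (nat_lit 76) (nat_lit 23738147718) (nat_lit 76) (nat_lit 22235969626) (nat_lit 1) (nat_lit 4) (nat_lit 2) (nat_lit 5) (nat_lit 2) (nat_lit 4) (nat_lit 342) (nat_lit 196) (nat_lit 182)) (XT.nd (nat_lit 78) (nat_lit 0) (nat_lit 0) (XT.lf (nat_lit 0) (nat_lit 160770818669) (nat_lit 76) (nat_lit 23704351202) (nat_lit 76) (nat_lit 22129175883) (nat_lit 1) (nat_lit 4) (nat_lit 2) (nat_lit 5) (nat_lit 2) (nat_lit 4) (nat_lit 343) (nat_lit 196) (nat_lit 181)) (XT.lf (nat_lit 0) (nat_lit 171125998365) (nat_lit 76) (nat_lit 23694137685) (nat_lit 76) (nat_lit 22049441197) (nat_lit 1) (nat_lit 4) (nat_lit 2) (nat_lit 5) (nat_lit 2) (nat_lit 4) (nat_lit 344) (nat_lit 196) (nat_lit 180))))))))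
noncomputable def xc11 : XT := (XT.nd (nat_lit 1404) (nat_lit 0) (nat_lit 0) (XT.nd (nat_lit 702) (nat_lit 0) (nat_lit 0) (XT.nd (nat_lit 312) (nat_lit 0) (nat_lit 0) (XT.nd (nat_lit 156) (nat_lit 0) (nat_lit 0) (XT.nd (nat_lit 78) (nat_lit 0) (nat_lit 0) (XT.lf (nat_lit 0) (nat_lit 181945510452) (nat_lit 76) (nat_lit 23707482849) (nat_lit 76) (nat_lit 21996575724) (nat_lit 1) (nat_lit 4) (nat_lit 2) (nat_lit 5) (nat_lit 2) (nat_lit 4) (nat_lit 345) (nat_lit 196) (nat_lit 179)) (XT.lf (nat_lit 0) (nat_lit 193255115674) (nat_lit 76) (nat_lit 23744418468) (nat_lit 76) (nat_lit 21970453593) (nat_lit 1) (nat_lit 4) (nat_lit 2) (nat_lit 5) (nat_lit 2) (nat_lit 4) (nat_lit 346) (nat_lit 196) (nat_lit 178))) (XT.nd (nat_lit 78) (nat_lit 0) (nat_lit 0) (XT.lf (nat_lit 0) (nat_lit 205081741661) (nat_lit 76) (nat_lit 23805032484) (nat_lit 76) (nat_lit 21971012608) (nat_lit 1) (nat_lit 4) (nat_lit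 2) (nat_lit 5) (nat_lit 2) (nat_lit 4) (nat_lit 347) (nat_lit 196) (nat_lit 177)) (XT.lf (nat_lit 0) (nat_lit 217453547048) (nat_lit 76) (nat_lit 23889469215) (nat_lit 76) (nat_lit 21998254102) (nat_lit 1) (nat_lit 4) (nat_lit 2) (nat_lit 5) (nat_lit 2) (nat_lit 4) (nat_lit 348) (nat_lit 196) (nat_lit 176)))) (XT.nd (nat_lit 156) (nat_lit 0) (nat_lit 0) (XT.nd (nat_lit 78) (nat_lit 0) (nat_lit 0) (XT.lf (nat_lit 0) (nat_lit 230399988514) (nat_lit 76) (nat_lit 23997929702) (nat_lit 76) (nat_lit 22052242934) (nat_lit 1) (nat_lit 4) (nat_lit 2) (nat_lit 5) (nat_lit 2) (nat_lit 4) (nat_lit 349) (nat_lit 196) (nat_lit 175)) (XT.lf (nat_lit 0) (nat_lit 243951890919) (nat_lit 76) (nat_lit 24130672185) (nat_lit 76) (nat_lit 22133107649) (nat_lit 1) (nat_lit 4) (nat_lit 2) (nat_lit 5) (nat_lit 2) (nat_lit 4) (nat_lit 350) (nat_lit 196) (nat_lit 174))) (XT.nd (nat_lit 78) (nat_lit 0) (nat_lit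 0) (XT.lf (nat_lit 0) (nat_lit 258141520697) (nat_lit 76) (nat_lit 24288012716) (nat_lit 76) (nat_lit 22241040783) (nat_lit 1) (nat_lit 4) (nat_lit 2) (nat_lit 5) (nat_lit 2) (nat_lit 4) (nat_lit 351) (nat_lit 196) (nat_lit 173)) (XT.nd (nat_lit 78) (nat_lit 0) (nat_lit 0) (XT.lf (nat_lit 0) (nat_lit 273002662682) (nat_lit 76) (nat_lit 24470325915) (nat_lit 76) (nat_lit 22376299319) (nat_lit 1) (nat_lit 4) (nat_lit 2) (nat_lit 5) (nat_lit 2) (nat_lit 4) (nat_lit 352) (nat_lit 196) (nat_lit 172)) (XT.lf (nat_lit 0) (nat_lit 288570700545) (nat_lit 76) (nat_lit 24678045863) (nat_lit 76) (nat_lit 22539205301) (nat_lit 1) (nat_lit 4) (nat_lit 2) (nat_lit 5) (nat_lit 2) (nat_lit 4) (nat_lit 353) (nat_lit 196) (nat_lit 171)))))) (XT.nd (nat_lit 312) (nat_lit 0) (nat_lit 0) (XT.nd (nat_lit 156) (nat_lit 0) (nat_lit 0) (XT.nd (nat_lit 78) (nat_lit 0) (nat_lit 0) (XT.lf (nat_lit 0) (nat_lit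 304882701042) (nat_lit 76) (nat_lit 24911667130) (nat_lit 76) (nat_lit 22730146601) (nat_lit 1) (nat_lit 4) (nat_lit 2) (nat_lit 5) (nat_lit 2) (nat_lit 4) (nat_lit 354) (nat_lit 196) (nat_lit 170)) (XT.lf (nat_lit 0) (nat_lit 321977502271) (nat_lit 76) (nat_lit 25171745957) (nat_lit 76) (nat_lit 22949577840) (nat_lit 1) (nat_lit 4) (nat_lit 2) (nat_lit 5) (nat_lit 2) (nat_lit 4) (nat_lit 355) (nat_lit 196) (nat_lit 169))) (XT.nd (nat_lit 78) (nat_lit 0) (nat_lit 0) (XT.lf (nat_lit 0) (nat_lit 339895806138) (nat_lit 76) (nat_lit 25458901580) (nat_lit 76) (nat_lit 23198021475) (nat_lit 1) (nat_lit 4) (nat_lit 2) (nat_lit 5) (nat_lit 2) (nat_lit 4) (nat_lit 356) (nat_lit 196) (nat_lit 168)) (XT.lf (nat_lit 0) (nat_lit 358680275272) (nat_lit 76) (nat_lit 25773817702) (nat_lit 76) (nat_lit 23476069037) (nat_lit 1) (nat_lit 4) (nat_lit 2) (nat_lit 5) (nat_lit 2) (nat_lit 4) (nat_lit 357)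 (nat_lit 196) (nat_lit 167)))) (XT.nd (nat_lit 156) (nat_lit 0) (nat_lit 0) (XT.nd (nat_lit 78) (nat_lit 0) (nat_lit 0) (XT.lf (nat_lit 0) (nat_lit 378375634600) (nat_lit 76) (nat_lit 26117244124) (nat_lit 76) (nat_lit 23784382544) (nat_lit 1) (nat_lit 4) (nat_lit 2) (nat_lit 5) (nat_lit 2) (nat_lit 4) (nat_lit 358) (nat_lit 196) (nat_lit 166)) (XT.lf (nat_lit 0) (nat_lit 399028777834) (nat_lit 76) (nat_lit 26489998528) (nat_lit 76) (nat_lit 24123696077) (nat_lit 1) (nat_lit 4) (nat_lit 2) (nat_lit 5) (nat_lit 2) (nat_lit 4) (nat_lit 359) (nat_lit 196) (nat_lit 165))) (XT.nd (nat_lit 78) (nat_lit 0) (nat_lit 0) (XT.lf (nat_lit 0) (nat_lit 420688879125) (nat_lit 76) (nat_lit 26892968424) (nat_lit 76) (nat_lit 24494817524) (nat_lit 1) (nat_lit 4) (nat_lit 2) (nat_lit 5) (nat_lit 2) (nat_lit 4) (nat_lit 360) (nat_lit 196) (nat_lit 164)) (XT.nd (nat_lit 78) (nat_lit 0) (nat_lit 0) (XT.lf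 (nat_lit 0) (nat_lit 443407510142) (nat_lit 76) (nat_lit 27327113265) (nat_lit 76) (nat_lit 24898630509) (nat_lit 1) (nat_lit 4) (nat_lit 2) (nat_lit 5) (nat_lit 2) (nat_lit 4) (nat_lit 361) (nat_lit 196) (nat_lit 163)) (XT.lf (nat_lit 0) (nat_lit 467238762865) (nat_lit 76) (nat_lit 27793466728) (nat_lit 76) (nat_lit 25336096490) (nat_lit 1) (nat_lit 4) (nat_lit 2) (nat_lit 5) (nat_lit 2) (nat_lit 4) (nat_lit 362) (nat_lit 196) (nat_lit 162))))))) (XT.nd (nat_lit 34944) (nat_lit 0) (nat_lit 0) (XT.nd (nat_lit 312) (nat_lit 0) (nat_lit 0) (XT.nd (nat_lit 156) (nat_lit 0) (nat_lit 0) (XT.nd (nat_lit 78) (nat_lit 0) (nat_lit 0) (XT.lf (nat_lit 0) (nat_lit 492239378370) (nat_lit 76) (nat_lit 28293139178) (nat_lit 76) (nat_lit 25808257054) (nat_lit 1) (nat_lit 4) (nat_lit 2) (nat_lit 5) (nat_lit 2) (nat_lit 4) (nat_lit 363) (nat_lit 196) (nat_lit 161)) (XT.lf (nat_lit 0) (nat_lit 518468881934)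 (nat_lit 76) (nat_lit 28827320314) (nat_lit 76) (nat_lit 26316236392) (nat_lit 1) (nat_lit 4) (nat_lit 2) (nat_lit 5) (nat_lit 2) (nat_lit 4) (nat_lit 364) (nat_lit 196) (nat_lit 160))) (XT.nd (nat_lit 78) (nat_lit 0) (nat_lit 0) (XT.lf (nat_lit 0) (nat_lit 545989724754) (nat_lit 76) (nat_lit 29397281993) (nat_lit 76) (nat_lit 26861243978) (nat_lit 1) (nat_lit 4) (nat_lit 2) (nat_lit 5) (nat_lit 2) (nat_lit 4) (nat_lit 365) (nat_lit 196) (nat_lit 159)) (XT.lf (nat_lit 0) (nat_lit 574867432648) (nat_lit 76) (nat_lit 30004381268) (nat_lit 76) (nat_lit 27444577450) (nat_lit 1) (nat_lit 4) (nat_lit 2) (nat_lit 5) (nat_lit 2) (nat_lit 4) (nat_lit 366) (nat_lit 196) (nat_lit 158)))) (XT.nd (nat_lit 34398) (nat_lit 0) (nat_lit 0) (XT.nd (nat_lit 34320) (nat_lit 0) (nat_lit 0) (XT.lf (nat_lit 0) (nat_lit 605170762063) (nat_lit 76) (nat_lit 30650063613) (nat_lit 76) (nat_lit 28067625698) (nat_lit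 1) (nat_lit 4) (nat_lit 2) (nat_lit 5) (nat_lit 2) (nat_lit 4) (nat_lit 367) (nat_lit 196) (nat_lit 157)) (XT.lf (nat_lit 0) (nat_lit 17703181843) (nat_lit 76) (nat_lit 13927218389) (nat_lit 76) (nat_lit 13927218389) (nat_lit 1) (nat_lit 4) (nat_lit 2) (nat_lit 5) (nat_lit 2) (nat_lit 4) (nat_lit 326) (nat_lit 197) (nat_lit 197))) (XT.nd (nat_lit 78) (nat_lit 0) (nat_lit 0) (XT.lf (nat_lit 0) (nat_lit 40880190802) (nat_lit 76) (nat_lit 27419337177) (nat_lit 76) (nat_lit 27267581184) (nat_lit 1) (nat_lit 4) (nat_lit 2) (nat_lit 5) (nat_lit 2) (nat_lit 4) (nat_lit 327) (nat_lit 197) (nat_lit 196)) (XT.nd (nat_lit 78) (nat_lit 0) (nat_lit 0) (XT.lf (nat_lit 0) (nat_lit 46511085721) (nat_lit 76) (nat_lit 27015022982) (nat_lit 76) (nat_lit 26718737471) (nat_lit 1) (nat_lit 4) (nat_lit 2) (nat_lit 5) (nat_lit 2) (nat_lit 4) (nat_lit 328) (nat_lit 197) (nat_lit 195)) (XT.lf (nat_lit 0) (nat_lit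 52312455334) (nat_lit 76) (nat_lit 26640531541) (nat_lit 76) (nat_lit 26206598869) (nat_lit 1) (nat_lit 4) (nat_lit 2) (nat_lit 5) (nat_lit 2) (nat_lit 4) (nat_lit 329) (nat_lit 197) (nat_lit 194)))))) (XT.nd (nat_lit 312) (nat_lit 0) (nat_lit 0) (XT.nd (nat_lit 156) (nat_lit 0) (nat_lit 0) (XT.nd (nat_lit 78) (nat_lit 0) (nat_lit 0) (XT.lf (nat_lit 0) (nat_lit 58298112428) (nat_lit 76) (nat_lit 26294971207) (nat_lit 76) (nat_lit 25729946002) (nat_lit 1) (nat_lit 4) (nat_lit 2) (nat_lit 5) (nat_lit 2) (nat_lit 4) (nat_lit 330) (nat_lit 197) (nat_lit 193)) (XT.lf (nat_lit 0) (nat_lit 64482308566) (nat_lit 76) (nat_lit 25977519217) (nat_lit 76) (nat_lit 25287643982) (nat_lit 1) (nat_lit 4) (nat_lit 2) (nat_lit 5) (nat_lit 2) (nat_lit 4) (nat_lit 331) (nat_lit 197) (nat_lit 192))) (XT.nd (nat_lit 78) (nat_lit 0) (nat_lit 0) (XT.lf (nat_lit 0) (nat_lit 70879768026) (nat_lit 76) (nat_lit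 25687419735) (nat_lit 76) (nat_lit 24878639707) (nat_lit 1) (nat_lit 4) (nat_lit 2) (nat_lit 5) (nat_lit 2) (nat_lit 4) (nat_lit 332) (nat_lit 197) (nat_lit 191)) (XT.lf (nat_lit 0) (nat_lit 77505722853) (nat_lit 76) (nat_lit 25423982046) (nat_lit 76) (nat_lit 24501959360) (nat_lit 1) (nat_lit 4) (nat_lit 2) (nat_lit 5) (nat_lit 2) (nat_lit 4) (nat_lit 333) (nat_lit 197) (nat_lit 190)))) (XT.nd (nat_lit 156) (nat_lit 0) (nat_lit 0) (XT.nd (nat_lit 78) (nat_lit 0) (nat_lit 0) (XT.lf (nat_lit 0) (nat_lit 84375949130) (nat_lit 76) (nat_lit 25186578919) (nat_lit 76) (nat_lit 24156706081) (nat_lit 1) (nat_lit 4) (nat_lit 2) (nat_lit 5) (nat_lit 2) (nat_lit 4) (nat_lit 334) (nat_lit 197) (nat_lit 189)) (XT.lf (nat_lit 0) (nat_lit 91506804540) (nat_lit 76) (nat_lit 24974645107) (nat_lit 76) (nat_lit 23842057839) (nat_lit 1) (nat_lit 4) (nat_lit 2) (nat_lit 5) (nat_lit 2) (nat_lit 4) (nat_lit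 335) (nat_lit 197) (nat_lit 188))) (XT.nd (nat_lit 78) (nat_lit 0) (nat_lit 0) (XT.lf (nat_lit 0) (nat_lit 98915267308) (nat_lit 76) (nat_lit 24787676006) (nat_lit 76) (nat_lit 23557265472) (nat_lit 1) (nat_lit 4) (nat_lit 2) (nat_lit 5) (nat_lit 2) (nat_lit 4) (nat_lit 336) (nat_lit 197) (nat_lit 187)) (XT.nd (nat_lit 78) (nat_lit 0) (nat_lit 0) (XT.lf (nat_lit 0) (nat_lit 106618976633) (nat_lit 76) (nat_lit 24625226452) (nat_lit 76) (nat_lit 23301650902) (nat_lit 1) (nat_lit 4) (nat_lit 2) (nat_lit 5) (nat_lit 2) (nat_lit 4) (nat_lit 337) (nat_lit 197) (nat_lit 186)) (XT.lf (nat_lit 0) (nat_lit 114636274679) (nat_lit 76) (nat_lit 24486909660) (nat_lit 76) (nat_lit 23074605523) (nat_lit 1) (nat_lit 4) (nat_lit 2) (nat_lit 5) (nat_lit 2) (nat_lit 4) (nat_lit 338) (nat_lit 197) (nat_lit 185))))))))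
noncomputable def xc12 : XT := (XT.nd (nat_lit 1404) (nat_lit 0) (nat_lit 0) (XT.nd (nat_lit 702) (nat_lit 0) (nat_lit 0) (XT.nd (nat_lit 312) (nat_lit 0) (nat_lit 0) (XT.nd (nat_lit 156) (nat_lit 0) (nat_lit 0) (XT.nd (nat_lit 78) (nat_lit 0) (nat_lit 0) (XT.lf (nat_lit 0) (nat_lit 122986250251) (nat_lit 76) (nat_lit 24372396304) (nat_lit 76) (nat_lit 22875588752) (nat_lit 1) (nat_lit 4) (nat_lit 2) (nat_lit 5) (nat_lit 2) (nat_lit 4) (nat_lit 339) (nat_lit 197) (nat_lit 184)) (XT.lf (nat_lit 0) (nat_lit 131688784244) (nat_lit 76) (nat_lit 24281413734) (nat_lit 76) (nat_lit 22704126739) (nat_lit 1) (nat_lit 4) (nat_lit 2) (nat_lit 5) (nat_lit 2) (nat_lit 4) (nat_lit 340) (nat_lit 197) (nat_lit 183))) (XT.nd (nat_lit 78) (nat_lit 0) (nat_lit 0) (XT.lf (nat_lit 0) (nat_lit 140764596976) (nat_lit 76) (nat_lit 24213745325) (nat_lit 76) (nat_lit 22559811240) (nat_lit 1) (nat_lit 4) (nat_lit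 2) (nat_lit 5) (nat_lit 2) (nat_lit 4) (nat_lit 341) (nat_lit 197) (nat_lit 182)) (XT.lf (nat_lit 0) (nat_lit 150235297525) (nat_lit 76) (nat_lit 24169229960) (nat_lit 76) (nat_lit 22442298648) (nat_lit 1) (nat_lit 4) (nat_lit 2) (nat_lit 5) (nat_lit 2) (nat_lit 4) (nat_lit 342) (nat_lit 197) (nat_lit 181)))) (XT.nd (nat_lit 156) (nat_lit 0) (nat_lit 0) (XT.nd (nat_lit 78) (nat_lit 0) (nat_lit 0) (XT.lf (nat_lit 0) (nat_lit 160123435179) (nat_lit 76) (nat_lit 24147761652) (nat_lit 76) (nat_lit 22351309170) (nat_lit 1) (nat_lit 4) (nat_lit 2) (nat_lit 5) (nat_lit 2) (nat_lit 4) (nat_lit 343) (nat_lit 197) (nat_lit 180)) (XT.lf (nat_lit 0) (nat_lit 170452553122) (nat_lit 76) (nat_lit 24149289284) (nat_lit 76) (nat_lit 22286626165) (nat_lit 1) (nat_lit 4) (nat_lit 2) (nat_lit 5) (nat_lit 2) (nat_lit 4) (nat_lit 344) (nat_lit 197) (nat_lit 179))) (XT.nd (nat_lit 78) (nat_lit 0) (nat_lit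 0) (XT.lf (nat_lit 0) (nat_lit 181247244492) (nat_lit 76) (nat_lit 24173816495) (nat_lit 76) (nat_lit 22248095626) (nat_lit 1) (nat_lit 4) (nat_lit 2) (nat_lit 5) (nat_lit 2) (nat_lit 4) (nat_lit 345) (nat_lit 197) (nat_lit 178)) (XT.nd (nat_lit 78) (nat_lit 0) (nat_lit 0) (XT.lf (nat_lit 0) (nat_lit 192533210936) (nat_lit 76) (nat_lit 24221401683) (nat_lit 76) (nat_lit 22235625814) (nat_lit 1) (nat_lit 4) (nat_lit 2) (nat_lit 5) (nat_lit 2) (nat_lit 4) (nat_lit 346) (nat_lit 197) (nat_lit 177)) (XT.lf (nat_lit 0) (nat_lit 204337323802) (nat_lit 76) (nat_lit 24292158145) (nat_lit 76) (nat_lit 22249187038) (nat_lit 1) (nat_lit 4) (nat_lit 2) (nat_lit 5) (nat_lit 2) (nat_lit 4) (nat_lit 347) (nat_lit 197) (nat_lit 176)))))) (XT.nd (nat_lit 312) (nat_lit 0) (nat_lit 0) (XT.nd (nat_lit 156) (nat_lit 0) (nat_lit 0) (XT.nd (nat_lit 78) (nat_lit 0) (nat_lit 0) (XT.lf (nat_lit 0) (nat_lit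 216687688120) (nat_lit 76) (nat_lit 24386254349) (nat_lit 76) (nat_lit 22288811587) (nat_lit 1) (nat_lit 4) (nat_lit 2) (nat_lit 5) (nat_lit 2) (nat_lit 4) (nat_lit 348) (nat_lit 197) (nat_lit 175)) (XT.lf (nat_lit 0) (nat_lit 229613709520) (nat_lit 76) (nat_lit 24503914334) (nat_lit 76) (nat_lit 22354593805) (nat_lit 1) (nat_lit 4) (nat_lit 2) (nat_lit 5) (nat_lit 2) (nat_lit 4) (nat_lit 349) (nat_lit 197) (nat_lit 174))) (XT.nd (nat_lit 78) (nat_lit 0) (nat_lit 0) (XT.lf (nat_lit 0) (nat_lit 243146164244) (nat_lit 76) (nat_lit 24645418243) (nat_lit 76) (nat_lit 22446690317) (nat_lit 1) (nat_lit 4) (nat_lit 2) (nat_lit 5) (nat_lit 2) (nat_lit 4) (nat_lit 350) (nat_lit 197) (nat_lit 173)) (XT.lf (nat_lit 0) (nat_lit 257317272421) (nat_lit 76) (nat_lit 24811102990) (nat_lit 76) (nat_lit 22565320400) (nat_lit 1) (nat_lit 4) (nat_lit 2) (nat_lit 5) (nat_lit 2) (nat_lit 4) (nat_lit 351)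 (nat_lit 197) (nat_lit 172)))) (XT.nd (nat_lit 156) (nat_lit 0) (nat_lit 0) (XT.nd (nat_lit 78) (nat_lit 0) (nat_lit 0) (XT.lf (nat_lit 0) (nat_lit 272160774786) (nat_lit 76) (nat_lit 25001363062) (nat_lit 76) (nat_lit 22710766507) (nat_lit 1) (nat_lit 4) (nat_lit 2) (nat_lit 5) (nat_lit 2) (nat_lit 4) (nat_lit 352) (nat_lit 197) (nat_lit 171)) (XT.lf (nat_lit 0) (nat_lit 287712013010) (nat_lit 76) (nat_lit 25216651459) (nat_lit 76) (nat_lit 22883374937) (nat_lit 1) (nat_lit 4) (nat_lit 2) (nat_lit 5) (nat_lit 2) (nat_lit 4) (nat_lit 353) (nat_lit 197) (nat_lit 170))) (XT.nd (nat_lit 78) (nat_lit 0) (nat_lit 0) (XT.lf (nat_lit 0) (nat_lit 304008013852) (nat_lit 76) (nat_lit 25457480773) (nat_lit 76) (nat_lit 23083556663) (nat_lit 1) (nat_lit 4) (nat_lit 2) (nat_lit 5) (nat_lit 2) (nat_lit 4) (nat_lit 354) (nat_lit 197) (nat_lit 169)) (XT.nd (nat_lit 78) (nat_lit 0) (nat_lit 0) (XT.lf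 (nat_lit 0) (nat_lit 321087577313) (nat_lit 76) (nat_lit 25724424407) (nat_lit 76) (nat_lit 23311788309) (nat_lit 1) (nat_lit 4) (nat_lit 2) (nat_lit 5) (nat_lit 2) (nat_lit 4) (nat_lit 355) (nat_lit 197) (nat_lit 168)) (XT.lf (nat_lit 0) (nat_lit 338991369022) (nat_lit 76) (nat_lit 26018117942) (nat_lit 76) (nat_lit 23568613283) (nat_lit 1) (nat_lit 4) (nat_lit 2) (nat_lit 5) (nat_lit 2) (nat_lit 4) (nat_lit 356) (nat_lit 197) (nat_lit 167))))))) (XT.nd (nat_lit 702) (nat_lit 0) (nat_lit 0) (XT.nd (nat_lit 312) (nat_lit 0) (nat_lit 0) (XT.nd (nat_lit 156) (nat_lit 0) (nat_lit 0) (XT.nd (nat_lit 78) (nat_lit 0) (nat_lit 0) (XT.lf (nat_lit 0) (nat_lit 357762017052) (nat_lit 76) (nat_lit 26339260646) (nat_lit 76) (nat_lit 23854643073) (nat_lit 1) (nat_lit 4) (nat_lit 2) (nat_lit 5) (nat_lit 2) (nat_lit 4) (nat_lit 357) (nat_lit 197) (nat_lit 166)) (XT.lf (nat_lit 0) (nat_lit 377444213424)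 (nat_lit 76) (nat_lit 26688617147) (nat_lit 76) (nat_lit 24170558702) (nat_lit 1) (nat_lit 4) (nat_lit 2) (nat_lit 5) (nat_lit 2) (nat_lit 4) (nat_lit 358) (nat_lit 197) (nat_lit 165))) (XT.nd (nat_lit 78) (nat_lit 0) (nat_lit 0) (XT.lf (nat_lit 0) (nat_lit 398084820509) (nat_lit 76) (nat_lit 27067019244) (nat_lit 76) (nat_lit 24517112351) (nat_lit 1) (nat_lit 4) (nat_lit 2) (nat_lit 5) (nat_lit 2) (nat_lit 4) (nat_lit 359) (nat_lit 197) (nat_lit 164)) (XT.lf (nat_lit 0) (nat_lit 419732982610) (nat_lit 76) (nat_lit 27475367896) (nat_lit 76) (nat_lit 24895129147) (nat_lit 1) (nat_lit 4) (nat_lit 2) (nat_lit 5) (nat_lit 2) (nat_lit 4) (nat_lit 360) (nat_lit 197) (nat_lit 163)))) (XT.nd (nat_lit 156) (nat_lit 0) (nat_lit 0) (XT.nd (nat_lit 78) (nat_lit 0) (nat_lit 0) (XT.lf (nat_lit 0) (nat_lit 442440242971) (nat_lit 76) (nat_lit 27914635361) (nat_lit 76) (nat_lit 25305509130) (nat_lit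 1) (nat_lit 4) (nat_lit 2) (nat_lit 5) (nat_lit 2) (nat_lit 4) (nat_lit 361) (nat_lit 197) (nat_lit 162)) (XT.lf (nat_lit 0) (nat_lit 466260666497) (nat_lit 76) (nat_lit 28385867514) (nat_lit 76) (nat_lit 25749229396) (nat_lit 1) (nat_lit 4) (nat_lit 2) (nat_lit 5) (nat_lit 2) (nat_lit 4) (nat_lit 362) (nat_lit 197) (nat_lit 161))) (XT.nd (nat_lit 78) (nat_lit 0) (nat_lit 0) (XT.lf (nat_lit 0) (nat_lit 491250968482) (nat_lit 76) (nat_lit 28890186337) (nat_lit 76) (nat_lit 26227346421) (nat_lit 1) (nat_lit 4) (nat_lit 2) (nat_lit 5) (nat_lit 2) (nat_lit 4) (nat_lit 363) (nat_lit 197) (nat_lit 160)) (XT.nd (nat_lit 78) (nat_lit 0) (nat_lit 0) (XT.lf (nat_lit 0) (nat_lit 517470649645) (nat_lit 76) (nat_lit 29428792588) (nat_lit 76) (nat_lit 26740998579) (nat_lit 1) (nat_lit 4) (nat_lit 2) (nat_lit 5) (nat_lit 2) (nat_lit 4) (nat_lit 364) (nat_lit 197) (nat_lit 159)) (XT.lf (nat_lit 0)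 (nat_lit 544982137798) (nat_lit 76) (nat_lit 30002968663) (nat_lit 76) (nat_lit 27291408852) (nat_lit 1) (nat_lit 4) (nat_lit 2) (nat_lit 5) (nat_lit 2) (nat_lit 4) (nat_lit 365) (nat_lit 197) (nat_lit 158)))))) (XT.nd (nat_lit 34398) (nat_lit 0) (nat_lit 0) (XT.nd (nat_lit 34242) (nat_lit 0) (nat_lit 0) (XT.nd (nat_lit 78) (nat_lit 0) (nat_lit 0) (XT.lf (nat_lit 0) (nat_lit 573850936485) (nat_lit 76) (nat_lit 30614081648) (nat_lit 76) (nat_lit 27879887739) (nat_lit 1) (nat_lit 4) (nat_lit 2) (nat_lit 5) (nat_lit 2) (nat_lit 4) (nat_lit 366) (nat_lit 197) (nat_lit 157)) (XT.lf (nat_lit 0) (nat_lit 604145780941) (nat_lit 76) (nat_lit 31263586575) (nat_lit 76) (nat_lit 28507836382) (nat_lit 1) (nat_lit 4) (nat_lit 2) (nat_lit 5) (nat_lit 2) (nat_lit 4) (nat_lit 367) (nat_lit 197) (nat_lit 156))) (XT.nd (nat_lit 78) (nat_lit 0) (nat_lit 0) (XT.lf (nat_lit 0) (nat_lit 12470422416) (nat_lit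 76) (nat_lit 14476149545) (nat_lit 76) (nat_lit 14476149545) (nat_lit 1) (nat_lit 4) (nat_lit 2) (nat_lit 5) (nat_lit 2) (nat_lit 4) (nat_lit 324) (nat_lit 198) (nat_lit 198)) (XT.lf (nat_lit 0) (nat_lit 30076571452) (nat_lit 76) (nat_lit 28480701533) (nat_lit 76) (nat_lit 28321357739) (nat_lit 1) (nat_lit 4) (nat_lit 2) (nat_lit 5) (nat_lit 2) (nat_lit 4) (nat_lit 325) (nat_lit 198) (nat_lit 197)))) (XT.nd (nat_lit 156) (nat_lit 0) (nat_lit 0) (XT.nd (nat_lit 78) (nat_lit 0) (nat_lit 0) (XT.lf (nat_lit 0) (nat_lit 35346629671) (nat_lit 76) (nat_lit 28040691502) (nat_lit 76) (nat_lit 27729591715) (nat_lit 1) (nat_lit 4) (nat_lit 2) (nat_lit 5) (nat_lit 2) (nat_lit 4) (nat_lit 326) (nat_lit 198) (nat_lit 196)) (XT.lf (nat_lit 0) (nat_lit 40763567249) (nat_lit 76) (nat_lit 27631221357) (nat_lit 76) (nat_lit 27175592053) (nat_lit 1) (nat_lit 4) (nat_lit 2) (nat_lit 5) (nat_lit 2) (nat_lit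 4) (nat_lit 327) (nat_lit 198) (nat_lit 195))) (XT.nd (nat_lit 78) (nat_lit 0) (nat_lit 0) (XT.lf (nat_lit 0) (nat_lit 46340281655) (nat_lit 76) (nat_lit 27251316169) (nat_lit 76) (nat_lit 26658039704) (nat_lit 1) (nat_lit 4) (nat_lit 2) (nat_lit 5) (nat_lit 2) (nat_lit 4) (nat_lit 328) (nat_lit 198) (nat_lit 194)) (XT.nd (nat_lit 78) (nat_lit 0) (nat_lit 0) (XT.lf (nat_lit 0) (nat_lit 52090050781) (nat_lit 76) (nat_lit 26900071400) (nat_lit 76) (nat_lit 26175702403) (nat_lit 1) (nat_lit 4) (nat_lit 2) (nat_lit 5) (nat_lit 2) (nat_lit 4) (nat_lit 329) (nat_lit 198) (nat_lit 193)) (XT.lf (nat_lit 0) (nat_lit 58026564552) (nat_lit 76) (nat_lit 26576650755) (nat_lit 76) (nat_lit 25727431726) (nat_lit 1) (nat_lit 4) (nat_lit 2) (nat_lit 5) (nat_lit 2) (nat_lit 4) (nat_lit 330) (nat_lit 198) (nat_lit 192))))))))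
noncomputable def xc13 : XT := (XT.nd (nat_lit 1404) (nat_lit 0) (nat_lit 0) (XT.nd (nat_lit 702) (nat_lit 0) (nat_lit 0) (XT.nd (nat_lit 312) (nat_lit 0) (nat_lit 0) (XT.nd (nat_lit 156) (nat_lit 0) (nat_lit 0) (XT.nd (nat_lit 78) (nat_lit 0) (nat_lit 0) (XT.lf (nat_lit 0) (nat_lit 64163957527) (nat_lit 76) (nat_lit 26280284183) (nat_lit 76) (nat_lit 25312160362) (nat_lit 1) (nat_lit 4) (nat_lit 2) (nat_lit 5) (nat_lit 2) (nat_lit 4) (nat_lit 331) (nat_lit 198) (nat_lit 191)) (XT.lf (nat_lit 0) (nat_lit 70516842545) (nat_lit 76) (nat_lit 26010266051) (nat_lit 76) (nat_lit 24928899571) (nat_lit 1) (nat_lit 4) (nat_lit 2) (nat_lit 5) (nat_lit 2) (nat_lit 4) (nat_lit 332) (nat_lit 198) (nat_lit 190))) (XT.nd (nat_lit 78) (nat_lit 0) (nat_lit 0) (XT.lf (nat_lit 0) (nat_lit 77100345522) (nat_lit 76) (nat_lit 25765953458) (nat_lit 76) (nat_lit 24576736827) (nat_lit 1) (nat_lit 4) (nat_lit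 2) (nat_lit 5) (nat_lit 2) (nat_lit 4) (nat_lit 333) (nat_lit 198) (nat_lit 189)) (XT.lf (nat_lit 0) (nat_lit 83930141467) (nat_lit 76) (nat_lit 25546764707) (nat_lit 76) (nat_lit 24254833646) (nat_lit 1) (nat_lit 4) (nat_lit 2) (nat_lit 5) (nat_lit 2) (nat_lit 4) (nat_lit 334) (nat_lit 198) (nat_lit 188)))) (XT.nd (nat_lit 156) (nat_lit 0) (nat_lit 0) (XT.nd (nat_lit 78) (nat_lit 0) (nat_lit 0) (XT.lf (nat_lit 0) (nat_lit 91022491798) (nat_lit 76) (nat_lit 25352177920) (nat_lit 76) (nat_lit 23962423592) (nat_lit 1) (nat_lit 4) (nat_lit 2) (nat_lit 5) (nat_lit 2) (nat_lit 4) (nat_lit 335) (nat_lit 198) (nat_lit 187)) (XT.lf (nat_lit 0) (nat_lit 98394283063) (nat_lit 76) (nat_lit 25181729796) (nat_lit 76) (nat_lit 23698810452) (nat_lit 1) (nat_lit 4) (nat_lit 2) (nat_lit 5) (nat_lit 2) (nat_lit 4) (nat_lit 336) (nat_lit 198) (nat_lit 186))) (XT.nd (nat_lit 78) (nat_lit 0) (nat_lit 0)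 (XT.lf (nat_lit 0) (nat_lit 106063067146) (nat_lit 76) (nat_lit 25035014505) (nat_lit 76) (nat_lit 23463366575) (nat_lit 1) (nat_lit 4) (nat_lit 2) (nat_lit 5) (nat_lit 2) (nat_lit 4) (nat_lit 337) (nat_lit 198) (nat_lit 185)) (XT.nd (nat_lit 78) (nat_lit 0) (nat_lit 0) (XT.lf (nat_lit 0) (nat_lit 114047103058) (nat_lit 76) (nat_lit 24911682726) (nat_lit 76) (nat_lit 23255531380) (nat_lit 1) (nat_lit 4) (nat_lit 2) (nat_lit 5) (nat_lit 2) (nat_lit 4) (nat_lit 338) (nat_lit 198) (nat_lit 184)) (XT.lf (nat_lit 0) (nat_lit 122365400406) (nat_lit 76) (nat_lit 24811440811) (nat_lit 76) (nat_lit 23074810022) (nat_lit 1) (nat_lit 4) (nat_lit 2) (nat_lit 5) (nat_lit 2) (nat_lit 4) (nat_lit 339) (nat_lit 198) (nat_lit 183)))))) (XT.nd (nat_lit 312) (nat_lit 0) (nat_lit 0) (XT.nd (nat_lit 156) (nat_lit 0) (nat_lit 0) (XT.nd (nat_lit 78) (nat_lit 0) (nat_lit 0) (XT.lf (nat_lit 0) (nat_lit 131037764662)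 (nat_lit 76) (nat_lit 24734050089) (nat_lit 76) (nat_lit 22920772211) (nat_lit 1) (nat_lit 4) (nat_lit 2) (nat_lit 5) (nat_lit 2) (nat_lit 4) (nat_lit 340) (nat_lit 198) (nat_lit 182)) (XT.lf (nat_lit 0) (nat_lit 140084844312) (nat_lit 76) (nat_lit 24679326297) (nat_lit 76) (nat_lit 22793051191) (nat_lit 1) (nat_lit 4) (nat_lit 2) (nat_lit 5) (nat_lit 2) (nat_lit 4) (nat_lit 341) (nat_lit 198) (nat_lit 181))) (XT.nd (nat_lit 78) (nat_lit 0) (nat_lit 0) (XT.lf (nat_lit 0) (nat_lit 149528180021) (nat_lit 76) (nat_lit 24647139139) (nat_lit 76) (nat_lit 22691342864) (nat_lit 1) (nat_lit 4) (nat_lit 2) (nat_lit 5) (nat_lit 2) (nat_lit 4) (nat_lit 342) (nat_lit 198) (nat_lit 180)) (XT.lf (nat_lit 0) (nat_lit 159390255922) (nat_lit 76) (nat_lit 24637411980) (nat_lit 76) (nat_lit 22615405068) (nat_lit 1) (nat_lit 4) (nat_lit 2) (nat_lit 5) (nat_lit 2) (nat_lit 4) (nat_lit 343) (nat_lit 198)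 (nat_lit 179)))) (XT.nd (nat_lit 156) (nat_lit 0) (nat_lit 0) (XT.nd (nat_lit 78) (nat_lit 0) (nat_lit 0) (XT.lf (nat_lit 0) (nat_lit 169694553147) (nat_lit 76) (nat_lit 24650121660) (nat_lit 76) (nat_lit 22565056998) (nat_lit 1) (nat_lit 4) (nat_lit 2) (nat_lit 5) (nat_lit 2) (nat_lit 4) (nat_lit 344) (nat_lit 198) (nat_lit 178)) (XT.lf (nat_lit 0) (nat_lit 180465605740) (nat_lit 76) (nat_lit 24685298440) (nat_lit 76) (nat_lit 22540178778) (nat_lit 1) (nat_lit 4) (nat_lit 2) (nat_lit 5) (nat_lit 2) (nat_lit 4) (nat_lit 345) (nat_lit 198) (nat_lit 177))) (XT.nd (nat_lit 78) (nat_lit 0) (nat_lit 0) (XT.lf (nat_lit 0) (nat_lit 191729059061) (nat_lit 76) (nat_lit 24743026074) (nat_lit 76) (nat_lit 22540711174) (nat_lit 1) (nat_lit 4) (nat_lit 2) (nat_lit 5) (nat_lit 2) (nat_lit 4) (nat_lit 346) (nat_lit 198) (nat_lit 176)) (XT.nd (nat_lit 78) (nat_lit 0) (nat_lit 0) (XT.lf (nat_lit 0)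 (nat_lit 203511730858) (nat_lit 76) (nat_lit 24823442008) (nat_lit 76) (nat_lit 22566655453) (nat_lit 1) (nat_lit 4) (nat_lit 2) (nat_lit 5) (nat_lit 2) (nat_lit 4) (nat_lit 347) (nat_lit 198) (nat_lit 175)) (XT.lf (nat_lit 0) (nat_lit 215841675111) (nat_lit 76) (nat_lit 24926737711) (nat_lit 76) (nat_lit 22618073388) (nat_lit 1) (nat_lit 4) (nat_lit 2) (nat_lit 5) (nat_lit 2) (nat_lit 4) (nat_lit 348) (nat_lit 198) (nat_lit 174))))))) (XT.nd (nat_lit 702) (nat_lit 0) (nat_lit 0) (XT.nd (nat_lit 312) (nat_lit 0) (nat_lit 0) (XT.nd (nat_lit 156) (nat_lit 0) (nat_lit 0) (XT.nd (nat_lit 78) (nat_lit 0) (nat_lit 0) (XT.lf (nat_lit 0) (nat_lit 228748248830) (nat_lit 76) (nat_lit 25053159122) (nat_lit 76) (nat_lit 22695087403) (nat_lit 1) (nat_lit 4) (nat_lit 2) (nat_lit 5) (nat_lit 2) (nat_lit 4) (nat_lit 349) (nat_lit 198) (nat_lit 173)) (XT.lf (nat_lit 0) (nat_lit 242262181952) (nat_lit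 76) (nat_lit 25203007247) (nat_lit 76) (nat_lit 22797880864) (nat_lit 1) (nat_lit 4) (nat_lit 2) (nat_lit 5) (nat_lit 2) (nat_lit 4) (nat_lit 350) (nat_lit 198) (nat_lit 172))) (XT.nd (nat_lit 78) (nat_lit 0) (nat_lit 0) (XT.lf (nat_lit 0) (nat_lit 256415650509) (nat_lit 76) (nat_lit 25376638866) (nat_lit 76) (nat_lit 22926698517) (nat_lit 1) (nat_lit 4) (nat_lit 2) (nat_lit 5) (nat_lit 2) (nat_lit 4) (nat_lit 351) (nat_lit 198) (nat_lit 171)) (XT.lf (nat_lit 0) (nat_lit 271242353236) (nat_lit 76) (nat_lit 25574467387) (nat_lit 76) (nat_lit 23081847072) (nat_lit 1) (nat_lit 4) (nat_lit 2) (nat_lit 5) (nat_lit 2) (nat_lit 4) (nat_lit 352) (nat_lit 198) (nat_lit 170)))) (XT.nd (nat_lit 156) (nat_lit 0) (nat_lit 0) (XT.nd (nat_lit 78) (nat_lit 0) (nat_lit 0) (XT.lf (nat_lit 0) (nat_lit 286777591805) (nat_lit 76) (nat_lit 25796963832) (nat_lit 76) (nat_lit 23263695928) (nat_lit 1) (nat_lit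 4) (nat_lit 2) (nat_lit 5) (nat_lit 2) (nat_lit 4) (nat_lit 353) (nat_lit 198) (nat_lit 169)) (XT.lf (nat_lit 0) (nat_lit 303058354880) (nat_lit 76) (nat_lit 26044657953) (nat_lit 76) (nat_lit 23472678061) (nat_lit 1) (nat_lit 4) (nat_lit 2) (nat_lit 5) (nat_lit 2) (nat_lit 4) (nat_lit 354) (nat_lit 198) (nat_lit 168))) (XT.nd (nat_lit 78) (nat_lit 0) (nat_lit 0) (XT.lf (nat_lit 0) (nat_lit 320123406182) (nat_lit 76) (nat_lit 26318139499) (nat_lit 76) (nat_lit 23709291046) (nat_lit 1) (nat_lit 4) (nat_lit 2) (nat_lit 5) (nat_lit 2) (nat_lit 4) (nat_lit 355) (nat_lit 198) (nat_lit 167)) (XT.nd (nat_lit 78) (nat_lit 0) (nat_lit 0) (XT.lf (nat_lit 0) (nat_lit 338013376786) (nat_lit 76) (nat_lit 26618059615) (nat_lit 76) (nat_lit 23974098248) (nat_lit 1) (nat_lit 4) (nat_lit 2) (nat_lit 5) (nat_lit 2) (nat_lit 4) (nat_lit 356) (nat_lit 198) (nat_lit 166)) (XT.lf (nat_lit 0) (nat_lit 356770861860)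 (nat_lit 76) (nat_lit 26945132398) (nat_lit 76) (nat_lit 24267730160) (nat_lit 1) (nat_lit 4) (nat_lit 2) (nat_lit 5) (nat_lit 2) (nat_lit 4) (nat_lit 357) (nat_lit 198) (nat_lit 165)))))) (XT.nd (nat_lit 312) (nat_lit 0) (nat_lit 0) (XT.nd (nat_lit 156) (nat_lit 0) (nat_lit 0) (XT.nd (nat_lit 78) (nat_lit 0) (nat_lit 0) (XT.lf (nat_lit 0) (nat_lit 376440522083) (nat_lit 76) (nat_lit 27300136592) (nat_lit 76) (nat_lit 24590885906) (nat_lit 1) (nat_lit 4) (nat_lit 2) (nat_lit 5) (nat_lit 2) (nat_lit 4) (nat_lit 358) (nat_lit 198) (nat_lit 164)) (XT.lf (nat_lit 0) (nat_lit 397069189979) (nat_lit 76) (nat_lit 27683917446) (nat_lit 76) (nat_lit 24944334903) (nat_lit 1) (nat_lit 4) (nat_lit 2) (nat_lit 5) (nat_lit 2) (nat_lit 4) (nat_lit 359) (nat_lit 198) (nat_lit 163))) (XT.nd (nat_lit 78) (nat_lit 0) (nat_lit 0) (XT.lf (nat_lit 0) (nat_lit 418705981424) (nat_lit 76) (nat_lit 28097388722)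 (nat_lit 76) (nat_lit 25328918698) (nat_lit 1) (nat_lit 4) (nat_lit 2) (nat_lit 5) (nat_lit 2) (nat_lit 4) (nat_lit 360) (nat_lit 198) (nat_lit 162)) (XT.lf (nat_lit 0) (nat_lit 441402412588) (nat_lit 76) (nat_lit 28541534877) (nat_lit 76) (nat_lit 25745552966) (nat_lit 1) (nat_lit 4) (nat_lit 2) (nat_lit 5) (nat_lit 2) (nat_lit 4) (nat_lit 361) (nat_lit 198) (nat_lit 161)))) (XT.nd (nat_lit 156) (nat_lit 0) (nat_lit 0) (XT.nd (nat_lit 78) (nat_lit 0) (nat_lit 0) (XT.lf (nat_lit 0) (nat_lit 465212522594) (nat_lit 76) (nat_lit 29017413402) (nat_lit 76) (nat_lit 26195229693) (nat_lit 1) (nat_lit 4) (nat_lit 2) (nat_lit 5) (nat_lit 2) (nat_lit 4) (nat_lit 362) (nat_lit 198) (nat_lit 160)) (XT.lf (nat_lit 0) (nat_lit 490193002178) (nat_lit 76) (nat_lit 29526157340) (nat_lit 76) (nat_lit 26679019538) (nat_lit 1) (nat_lit 4) (nat_lit 2) (nat_lit 5) (nat_lit 2) (nat_lit 4) (nat_lit 363) (nat_lit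 198) (nat_lit 159))) (XT.nd (nat_lit 78) (nat_lit 0) (nat_lit 0) (XT.lf (nat_lit 0) (nat_lit 516403328674) (nat_lit 76) (nat_lit 30068977987) (nat_lit 76) (nat_lit 27198074383) (nat_lit 1) (nat_lit 4) (nat_lit 2) (nat_lit 5) (nat_lit 2) (nat_lit 4) (nat_lit 364) (nat_lit 198) (nat_lit 158)) (XT.nd (nat_lit 78) (nat_lit 0) (nat_lit 0) (XT.lf (nat_lit 0) (nat_lit 543905907620) (nat_lit 76) (nat_lit 30647167773) (nat_lit 76) (nat_lit 27753630071) (nat_lit 1) (nat_lit 4) (nat_lit 2) (nat_lit 5) (nat_lit 2) (nat_lit 4) (nat_lit 365) (nat_lit 198) (nat_lit 157)) (XT.lf (nat_lit 0) (nat_lit 572766221348) (nat_lit 76) (nat_lit 31262103340) (nat_lit 76) (nat_lit 28347009354) (nat_lit 1) (nat_lit 4) (nat_lit 2) (nat_lit 5) (nat_lit 2) (nat_lit 4) (nat_lit 366) (nat_lit 198) (nat_lit 156))))))))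
noncomputable def xc14 : XT := (XT.nd (nat_lit 35334) (nat_lit 0) (nat_lit 0) (XT.nd (nat_lit 34632) (nat_lit 0) (nat_lit 0) (XT.nd (nat_lit 34242) (nat_lit 0) (nat_lit 0) (XT.nd (nat_lit 34086) (nat_lit 0) (nat_lit 0) (XT.nd (nat_lit 34008) (nat_lit 0) (nat_lit 0) (XT.lf (nat_lit 0) (nat_lit 603052984890) (nat_lit 76) (nat_lit 31915248820) (nat_lit 76) (nat_lit 28979625040) (nat_lit 1) (nat_lit 4) (nat_lit 2) (nat_lit 5) (nat_lit 2) (nat_lit 4) (nat_lit 367) (nat_lit 198) (nat_lit 155)) (XT.lf (nat_lit 0) (nat_lit 7544811093) (nat_lit 76) (nat_lit 15066233881) (nat_lit 76) (nat_lit 15066233881) (nat_lit 1) (nat_lit 4) (nat_lit 2) (nat_lit 5) (nat_lit 2) (nat_lit 4) (nat_lit 322) (nat_lit 199) (nat_lit 199))) (XT.nd (nat_lit 78) (nat_lit 0) (nat_lit 0) (XT.lf (nat_lit 0) (nat_lit 19927221892) (nat_lit 76) (nat_lit 29623918012) (nat_lit 76) (nat_lit 29456607029) (nat_lit 1) (nat_lit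 4) (nat_lit 2) (nat_lit 5) (nat_lit 2) (nat_lit 4) (nat_lit 323) (nat_lit 199) (nat_lit 198)) (XT.lf (nat_lit 0) (nat_lit 24878124116) (nat_lit 76) (nat_lit 29147866550) (nat_lit 76) (nat_lit 28821211774) (nat_lit 1) (nat_lit 4) (nat_lit 2) (nat_lit 5) (nat_lit 2) (nat_lit 4) (nat_lit 324) (nat_lit 199) (nat_lit 197)))) (XT.nd (nat_lit 156) (nat_lit 0) (nat_lit 0) (XT.nd (nat_lit 78) (nat_lit 0) (nat_lit 0) (XT.lf (nat_lit 0) (nat_lit 29954116721) (nat_lit 76) (nat_lit 28703179922) (nat_lit 76) (nat_lit 28224769152) (nat_lit 1) (nat_lit 4) (nat_lit 2) (nat_lit 5) (nat_lit 2) (nat_lit 4) (nat_lit 325) (nat_lit 199) (nat_lit 196)) (XT.lf (nat_lit 0) (nat_lit 35167285403) (nat_lit 76) (nat_lit 28288799348) (nat_lit 76) (nat_lit 27665859061) (nat_lit 1) (nat_lit 4) (nat_lit 2) (nat_lit 5) (nat_lit 2) (nat_lit 4) (nat_lit 326) (nat_lit 199) (nat_lit 195))) (XT.nd (nat_lit 78) (nat_lit 0)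 (nat_lit 0) (XT.lf (nat_lit 0) (nat_lit 40530042468) (nat_lit 76) (nat_lit 27903738210) (nat_lit 76) (nat_lit 27143150763) (nat_lit 1) (nat_lit 4) (nat_lit 2) (nat_lit 5) (nat_lit 2) (nat_lit 4) (nat_lit 327) (nat_lit 199) (nat_lit 194)) (XT.nd (nat_lit 78) (nat_lit 0) (nat_lit 0) (XT.lf (nat_lit 0) (nat_lit 46055156385) (nat_lit 76) (nat_lit 27547079694) (nat_lit 76) (nat_lit 26655399714) (nat_lit 1) (nat_lit 4) (nat_lit 2) (nat_lit 5) (nat_lit 2) (nat_lit 4) (nat_lit 328) (nat_lit 199) (nat_lit 193)) (XT.lf (nat_lit 0) (nat_lit 51755782189) (nat_lit 76) (nat_lit 27217974614) (nat_lit 76) (nat_lit 26201444602) (nat_lit 1) (nat_lit 4) (nat_lit 2) (nat_lit 5) (nat_lit 2) (nat_lit 4) (nat_lit 329) (nat_lit 199) (nat_lit 192)))))) (XT.nd (nat_lit 312) (nat_lit 0) (nat_lit 0) (XT.nd (nat_lit 156) (nat_lit 0) (nat_lit 0) (XT.nd (nat_lit 78) (nat_lit 0) (nat_lit 0) (XT.lf (nat_lit 0) (nat_lit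 57645492797) (nat_lit 76) (nat_lit 26915639387) (nat_lit 76) (nat_lit 25780204583) (nat_lit 1) (nat_lit 4) (nat_lit 2) (nat_lit 5) (nat_lit 2) (nat_lit 4) (nat_lit 330) (nat_lit 199) (nat_lit 191)) (XT.lf (nat_lit 0) (nat_lit 63738311330) (nat_lit 76) (nat_lit 26639354165) (nat_lit 76) (nat_lit 25390676702) (nat_lit 1) (nat_lit 4) (nat_lit 2) (nat_lit 5) (nat_lit 2) (nat_lit 4) (nat_lit 331) (nat_lit 199) (nat_lit 190))) (XT.nd (nat_lit 78) (nat_lit 0) (nat_lit 0) (XT.lf (nat_lit 0) (nat_lit 70048744498) (nat_lit 76) (nat_lit 26388461128) (nat_lit 76) (nat_lit 25031933514) (nat_lit 1) (nat_lit 4) (nat_lit 2) (nat_lit 5) (nat_lit 2) (nat_lit 4) (nat_lit 332) (nat_lit 199) (nat_lit 189)) (XT.lf (nat_lit 0) (nat_lit 76591817144) (nat_lit 76) (nat_lit 26162362912) (nat_lit 76) (nat_lit 24703120868) (nat_lit 1) (nat_lit 4) (nat_lit 2) (nat_lit 5) (nat_lit 2) (nat_lit 4) (nat_lit 333) (nat_lit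 199) (nat_lit 188)))) (XT.nd (nat_lit 156) (nat_lit 0) (nat_lit 0) (XT.nd (nat_lit 78) (nat_lit 0) (nat_lit 0) (XT.lf (nat_lit 0) (nat_lit 83383108010) (nat_lit 76) (nat_lit 25960521186) (nat_lit 76) (nat_lit 24403455875) (nat_lit 1) (nat_lit 4) (nat_lit 2) (nat_lit 5) (nat_lit 2) (nat_lit 4) (nat_lit 334) (nat_lit 199) (nat_lit 187)) (XT.lf (nat_lit 0) (nat_lit 90438786837) (nat_lit 76) (nat_lit 25782455376) (nat_lit 76) (nat_lit 24132225049) (nat_lit 1) (nat_lit 4) (nat_lit 2) (nat_lit 5) (nat_lit 2) (nat_lit 4) (nat_lit 335) (nat_lit 199) (nat_lit 186))) (XT.nd (nat_lit 78) (nat_lit 0) (nat_lit 0) (XT.lf (nat_lit 0) (nat_lit 97775652860) (nat_lit 76) (nat_lit 25627741515) (nat_lit 76) (nat_lit 23888782602) (nat_lit 1) (nat_lit 4) (nat_lit 2) (nat_lit 5) (nat_lit 2) (nat_lit 4) (nat_lit 336) (nat_lit 199) (nat_lit 185)) (XT.nd (nat_lit 78) (nat_lit 0) (nat_lit 0) (XT.lf (nat_lit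 0) (nat_lit 105411174809) (nat_lit 76) (nat_lit 25496011237) (nat_lit 76) (nat_lit 23672548908) (nat_lit 1) (nat_lit 4) (nat_lit 2) (nat_lit 5) (nat_lit 2) (nat_lit 4) (nat_lit 337) (nat_lit 199) (nat_lit 184)) (XT.lf (nat_lit 0) (nat_lit 113363532497) (nat_lit 76) (nat_lit 25386950898) (nat_lit 76) (nat_lit 23483009126) (nat_lit 1) (nat_lit 4) (nat_lit 2) (nat_lit 5) (nat_lit 2) (nat_lit 4) (nat_lit 338) (nat_lit 199) (nat_lit 183))))))) (XT.nd (nat_lit 702) (nat_lit 0) (nat_lit 0) (XT.nd (nat_lit 312) (nat_lit 0) (nat_lit 0) (XT.nd (nat_lit 156) (nat_lit 0) (nat_lit 0) (XT.nd (nat_lit 78) (nat_lit 0) (nat_lit 0) (XT.lf (nat_lit 0) (nat_lit 121651660109) (nat_lit 76) (nat_lit 25300300831) (nat_lit 76) (nat_lit 23319711970) (nat_lit 1) (nat_lit 4) (nat_lit 2) (nat_lit 5) (nat_lit 2) (nat_lit 4) (nat_lit 339) (nat_lit 199) (nat_lit 182)) (XT.lf (nat_lit 0) (nat_lit 130295291282) (nat_lit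 76) (nat_lit 25235854727) (nat_lit 76) (nat_lit 23182268638) (nat_lit 1) (nat_lit 4) (nat_lit 2) (nat_lit 5) (nat_lit 2) (nat_lit 4) (nat_lit 340) (nat_lit 199) (nat_lit 181))) (XT.nd (nat_lit 78) (nat_lit 0) (nat_lit 0) (XT.lf (nat_lit 0) (nat_lit 139315006091) (nat_lit 76) (nat_lit 25193459142) (nat_lit 76) (nat_lit 23070351883) (nat_lit 1) (nat_lit 4) (nat_lit 2) (nat_lit 5) (nat_lit 2) (nat_lit 4) (nat_lit 341) (nat_lit 199) (nat_lit 180)) (XT.lf (nat_lit 0) (nat_lit 148732280047) (nat_lit 76) (nat_lit 25173013134) (nat_lit 76) (nat_lit 22983695238) (nat_lit 1) (nat_lit 4) (nat_lit 2) (nat_lit 5) (nat_lit 2) (nat_lit 4) (nat_lit 342) (nat_lit 199) (nat_lit 179)))) (XT.nd (nat_lit 156) (nat_lit 0) (nat_lit 0) (XT.nd (nat_lit 78) (nat_lit 0) (nat_lit 0) (XT.lf (nat_lit 0) (nat_lit 158569535231) (nat_lit 76) (nat_lit 25174468022) (nat_lit 76) (nat_lit 22922092376) (nat_lit 1) (nat_lit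 4) (nat_lit 2) (nat_lit 5) (nat_lit 2) (nat_lit 4) (nat_lit 343) (nat_lit 199) (nat_lit 178)) (XT.lf (nat_lit 0) (nat_lit 168850193679) (nat_lit 76) (nat_lit 25197827270) (nat_lit 76) (nat_lit 22885396625) (nat_lit 1) (nat_lit 4) (nat_lit 2) (nat_lit 5) (nat_lit 2) (nat_lit 4) (nat_lit 344) (nat_lit 199) (nat_lit 177))) (XT.nd (nat_lit 78) (nat_lit 0) (nat_lit 0) (XT.lf (nat_lit 0) (nat_lit 179598733149) (nat_lit 76) (nat_lit 25243146497) (nat_lit 76) (nat_lit 22873520613) (nat_lit 1) (nat_lit 4) (nat_lit 2) (nat_lit 5) (nat_lit 2) (nat_lit 4) (nat_lit 345) (nat_lit 199) (nat_lit 176)) (XT.nd (nat_lit 78) (nat_lit 0) (nat_lit 0) (XT.lf (nat_lit 0) (nat_lit 190840745402) (nat_lit 76) (nat_lit 25310533603) (nat_lit 76) (nat_lit 22886436065) (nat_lit 1) (nat_lit 4) (nat_lit 2) (nat_lit 5) (nat_lit 2) (nat_lit 4) (nat_lit 346) (nat_lit 199) (nat_lit 175)) (XT.lf (nat_lit 0) (nat_lit 202602997134)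 (nat_lit 76) (nat_lit 25400149036) (nat_lit 76) (nat_lit 22924173731) (nat_lit 1) (nat_lit 4) (nat_lit 2) (nat_lit 5) (nat_lit 2) (nat_lit 4) (nat_lit 347) (nat_lit 199) (nat_lit 174)))))) (XT.nd (nat_lit 312) (nat_lit 0) (nat_lit 0) (XT.nd (nat_lit 156) (nat_lit 0) (nat_lit 0) (XT.nd (nat_lit 78) (nat_lit 0) (nat_lit 0) (XT.lf (nat_lit 0) (nat_lit 214913493705) (nat_lit 76) (nat_lit 25512206165) (nat_lit 76) (nat_lit 22986823462) (nat_lit 1) (nat_lit 4) (nat_lit 2) (nat_lit 5) (nat_lit 2) (nat_lit 4) (nat_lit 348) (nat_lit 199) (nat_lit 173)) (XT.lf (nat_lit 0) (nat_lit 227801545823) (nat_lit 76) (nat_lit 25646971792) (nat_lit 76) (nat_lit 23074534426) (nat_lit 1) (nat_lit 4) (nat_lit 2) (nat_lit 5) (nat_lit 2) (nat_lit 4) (nat_lit 349) (nat_lit 199) (nat_lit 172))) (XT.nd (nat_lit 78) (nat_lit 0) (nat_lit 0) (XT.lf (nat_lit 0) (nat_lit 241297839325) (nat_lit 76) (nat_lit 25804766789)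 (nat_lit 76) (nat_lit 23187515457) (nat_lit 1) (nat_lit 4) (nat_lit 2) (nat_lit 5) (nat_lit 2) (nat_lit 4) (nat_lit 350) (nat_lit 199) (nat_lit 171)) (XT.lf (nat_lit 0) (nat_lit 255434508244) (nat_lit 76) (nat_lit 25985966857) (nat_lit 76) (nat_lit 23326035559) (nat_lit 1) (nat_lit 4) (nat_lit 2) (nat_lit 5) (nat_lit 2) (nat_lit 4) (nat_lit 351) (nat_lit 199) (nat_lit 170)))) (XT.nd (nat_lit 156) (nat_lit 0) (nat_lit 0) (XT.nd (nat_lit 78) (nat_lit 0) (nat_lit 0) (XT.lf (nat_lit 0) (nat_lit 270245211315) (nat_lit 76) (nat_lit 26191003426) (nat_lit 76) (nat_lit 23490424540) (nat_lit 1) (nat_lit 4) (nat_lit 2) (nat_lit 5) (nat_lit 2) (nat_lit 4) (nat_lit 352) (nat_lit 199) (nat_lit 169)) (XT.lf (nat_lit 0) (nat_lit 285765212117) (nat_lit 76) (nat_lit 26420364678) (nat_lit 76) (nat_lit 23681073803) (nat_lit 1) (nat_lit 4) (nat_lit 2) (nat_lit 5) (nat_lit 2) (nat_lit 4) (nat_lit 353) (nat_lit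 199) (nat_lit 168))) (XT.nd (nat_lit 78) (nat_lit 0) (nat_lit 0) (XT.lf (nat_lit 0) (nat_lit 302031463032) (nat_lit 76) (nat_lit 26674596710) (nat_lit 76) (nat_lit 23898437275) (nat_lit 1) (nat_lit 4) (nat_lit 2) (nat_lit 5) (nat_lit 2) (nat_lit 4) (nat_lit 354) (nat_lit 199) (nat_lit 167)) (XT.nd (nat_lit 78) (nat_lit 0) (nat_lit 0) (XT.lf (nat_lit 0) (nat_lit 319082693231) (nat_lit 76) (nat_lit 26954304838) (nat_lit 76) (nat_lit 24143032488) (nat_lit 1) (nat_lit 4) (nat_lit 2) (nat_lit 5) (nat_lit 2) (nat_lit 4) (nat_lit 355) (nat_lit 199) (nat_lit 166)) (XT.lf (nat_lit 0) (nat_lit 336959500878) (nat_lit 76) (nat_lit 27260155033) (nat_lit 76) (nat_lit 24415441812) (nat_lit 1) (nat_lit 4) (nat_lit 2) (nat_lit 5) (nat_lit 2) (nat_lit 4) (nat_lit 356) (nat_lit 199) (nat_lit 165))))))))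
noncomputable def xc15 : XT := (XT.nd (nat_lit 35178) (nat_lit 0) (nat_lit 0) (XT.nd (nat_lit 702) (nat_lit 0) (nat_lit 0) (XT.nd (nat_lit 312) (nat_lit 0) (nat_lit 0) (XT.nd (nat_lit 156) (nat_lit 0) (nat_lit 0) (XT.nd (nat_lit 78) (nat_lit 0) (nat_lit 0) (XT.lf (nat_lit 0) (nat_lit 355704449804) (nat_lit 76) (nat_lit 27592875510) (nat_lit 76) (nat_lit 24716313840) (nat_lit 1) (nat_lit 4) (nat_lit 2) (nat_lit 5) (nat_lit 2) (nat_lit 4) (nat_lit 357) (nat_lit 199) (nat_lit 164)) (XT.lf (nat_lit 0) (nat_lit 375362170837) (nat_lit 76) (nat_lit 27953258460) (nat_lit 76) (nat_lit 25046364934) (nat_lit 1) (nat_lit 4) (nat_lit 2) (nat_lit 5) (nat_lit 2) (nat_lit 4) (nat_lit 358) (nat_lit 199) (nat_lit 163))) (XT.nd (nat_lit 78) (nat_lit 0) (nat_lit 0) (XT.lf (nat_lit 0) (nat_lit 395979468077) (nat_lit 76) (nat_lit 28342161938) (nat_lit 76) (nat_lit 25406380931) (nat_lit 1) (nat_lit 4) (nat_lit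 2) (nat_lit 5) (nat_lit 2) (nat_lit 4) (nat_lit 359) (nat_lit 199) (nat_lit 162)) (XT.lf (nat_lit 0) (nat_lit 417605430325) (nat_lit 76) (nat_lit 28760511904) (nat_lit 76) (nat_lit 25797219010) (nat_lit 1) (nat_lit 4) (nat_lit 2) (nat_lit 5) (nat_lit 2) (nat_lit 4) (nat_lit 360) (nat_lit 199) (nat_lit 161)))) (XT.nd (nat_lit 156) (nat_lit 0) (nat_lit 0) (XT.nd (nat_lit 78) (nat_lit 0) (nat_lit 0) (XT.lf (nat_lit 0) (nat_lit 440291547969) (nat_lit 76) (nat_lit 29209304431) (nat_lit 76) (nat_lit 26219809739) (nat_lit 1) (nat_lit 4) (nat_lit 2) (nat_lit 5) (nat_lit 2) (nat_lit 4) (nat_lit 361) (nat_lit 199) (nat_lit 160)) (XT.lf (nat_lit 0) (nat_lit 464091835574) (nat_lit 76) (nat_lit 29689608072) (nat_lit 76) (nat_lit 26675159287) (nat_lit 1) (nat_lit 4) (nat_lit 2) (nat_lit 5) (nat_lit 2) (nat_lit 4) (nat_lit 362) (nat_lit 199) (nat_lit 159))) (XT.nd (nat_lit 78) (nat_lit 0) (nat_lit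 0) (XT.lf (nat_lit 0) (nat_lit 489062960491) (nat_lit 76) (nat_lit 30202566406) (nat_lit 76) (nat_lit 27164351818) (nat_lit 1) (nat_lit 4) (nat_lit 2) (nat_lit 5) (nat_lit 2) (nat_lit 4) (nat_lit 363) (nat_lit 199) (nat_lit 158)) (XT.nd (nat_lit 78) (nat_lit 0) (nat_lit 0) (XT.lf (nat_lit 0) (nat_lit 515264377780) (nat_lit 76) (nat_lit 30749400763) (nat_lit 76) (nat_lit 27688552078) (nat_lit 1) (nat_lit 4) (nat_lit 2) (nat_lit 5) (nat_lit 2) (nat_lit 4) (nat_lit 364) (nat_lit 199) (nat_lit 157)) (XT.lf (nat_lit 0) (nat_lit 542758471767) (nat_lit 76) (nat_lit 31331413130) (nat_lit 76) (nat_lit 28249008161) (nat_lit 1) (nat_lit 4) (nat_lit 2) (nat_lit 5) (nat_lit 2) (nat_lit 4) (nat_lit 365) (nat_lit 199) (nat_lit 156)))))) (XT.nd (nat_lit 34086) (nat_lit 0) (nat_lit 0) (XT.nd (nat_lit 33930) (nat_lit 0) (nat_lit 0) (XT.nd (nat_lit 78) (nat_lit 0) (nat_lit 0) (XT.lf (nat_lit 0) (nat_lit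 571610704582) (nat_lit 76) (nat_lit 31949989251) (nat_lit 76) (nat_lit 28847054488) (nat_lit 1) (nat_lit 4) (nat_lit 2) (nat_lit 5) (nat_lit 2) (nat_lit 4) (nat_lit 366) (nat_lit 199) (nat_lit 155)) (XT.lf (nat_lit 0) (nat_lit 601889772016) (nat_lit 76) (nat_lit 32606601925) (nat_lit 76) (nat_lit 29484114977) (nat_lit 1) (nat_lit 4) (nat_lit 2) (nat_lit 5) (nat_lit 2) (nat_lit 4) (nat_lit 367) (nat_lit 199) (nat_lit 154))) (XT.nd (nat_lit 78) (nat_lit 0) (nat_lit 0) (XT.lf (nat_lit 0) (nat_lit 2888824941) (nat_lit 76) (nat_lit 15698254744) (nat_lit 76) (nat_lit 15698254744) (nat_lit 1) (nat_lit 4) (nat_lit 2) (nat_lit 5) (nat_lit 2) (nat_lit 4) (nat_lit 320) (nat_lit 200) (nat_lit 200)) (XT.lf (nat_lit 0) (nat_lit 10353806903) (nat_lit 76) (nat_lit 30850403167) (nat_lit 76) (nat_lit 30674726634) (nat_lit 1) (nat_lit 4) (nat_lit 2) (nat_lit 5) (nat_lit 2) (nat_lit 4) (nat_lit 321) (nat_lit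 200) (nat_lit 199)))) (XT.nd (nat_lit 156) (nat_lit 0) (nat_lit 0) (XT.nd (nat_lit 78) (nat_lit 0) (nat_lit 0) (XT.lf (nat_lit 0) (nat_lit 15023765434) (nat_lit 76) (nat_lit 30337813595) (nat_lit 76) (nat_lit 29994826079) (nat_lit 1) (nat_lit 4) (nat_lit 2) (nat_lit 5) (nat_lit 2) (nat_lit 4) (nat_lit 322) (nat_lit 200) (nat_lit 198)) (XT.lf (nat_lit 0) (nat_lit 19798644425) (nat_lit 76) (nat_lit 29857520320) (nat_lit 76) (nat_lit 29355189012) (nat_lit 1) (nat_lit 4) (nat_lit 2) (nat_lit 5) (nat_lit 2) (nat_lit 4) (nat_lit 323) (nat_lit 200) (nat_lit 197))) (XT.nd (nat_lit 78) (nat_lit 0) (nat_lit 0) (XT.lf (nat_lit 0) (nat_lit 24689812634) (nat_lit 76) (nat_lit 29408379789) (nat_lit 76) (nat_lit 28754292487) (nat_lit 1) (nat_lit 4) (nat_lit 2) (nat_lit 5) (nat_lit 2) (nat_lit 4) (nat_lit 324) (nat_lit 200) (nat_lit 196)) (XT.nd (nat_lit 78) (nat_lit 0) (nat_lit 0) (XT.lf (nat_lit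 0) (nat_lit 29708915700) (nat_lit 76) (nat_lit 28989322617) (nat_lit 76) (nat_lit 28190705797) (nat_lit 1) (nat_lit 4) (nat_lit 2) (nat_lit 5) (nat_lit 2) (nat_lit 4) (nat_lit 325) (nat_lit 200) (nat_lit 195)) (XT.lf (nat_lit 0) (nat_lit 34867903870) (nat_lit 76) (nat_lit 28599351050) (nat_lit 76) (nat_lit 27663087071) (nat_lit 1) (nat_lit 4) (nat_lit 2) (nat_lit 5) (nat_lit 2) (nat_lit 4) (nat_lit 326) (nat_lit 200) (nat_lit 194))))))) (XT.nd (nat_lit 702) (nat_lit 0) (nat_lit 0) (XT.nd (nat_lit 312) (nat_lit 0) (nat_lit 0) (XT.nd (nat_lit 156) (nat_lit 0) (nat_lit 0) (XT.nd (nat_lit 78) (nat_lit 0) (nat_lit 0) (XT.lf (nat_lit 0) (nat_lit 40179060447) (nat_lit 76) (nat_lit 28237536585) (nat_lit 76) (nat_lit 27170180072) (nat_lit 1) (nat_lit 4) (nat_lit 2) (nat_lit 5) (nat_lit 2) (nat_lit 4) (nat_lit 327) (nat_lit 200) (nat_lit 193)) (XT.lf (nat_lit 0) (nat_lit 45655031042) (nat_lit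 76) (nat_lit 27903017758) (nat_lit 76) (nat_lit 26710811214) (nat_lit 1) (nat_lit 4) (nat_lit 2) (nat_lit 5) (nat_lit 2) (nat_lit 4) (nat_lit 328) (nat_lit 200) (nat_lit 192))) (XT.nd (nat_lit 78) (nat_lit 0) (nat_lit 0) (XT.lf (nat_lit 0) (nat_lit 51308853682) (nat_lit 76) (nat_lit 27594998095) (nat_lit 76) (nat_lit 26283886759) (nat_lit 1) (nat_lit 4) (nat_lit 2) (nat_lit 5) (nat_lit 2) (nat_lit 4) (nat_lit 329) (nat_lit 200) (nat_lit 191)) (XT.lf (nat_lit 0) (nat_lit 57153989848) (nat_lit 76) (nat_lit 27312744218) (nat_lit 76) (nat_lit 25888390223) (nat_lit 1) (nat_lit 4) (nat_lit 2) (nat_lit 5) (nat_lit 2) (nat_lit 4) (nat_lit 330) (nat_lit 200) (nat_lit 190)))) (XT.nd (nat_lit 156) (nat_lit 0) (nat_lit 0) (XT.nd (nat_lit 78) (nat_lit 0) (nat_lit 0) (XT.lf (nat_lit 0) (nat_lit 63204356532) (nat_lit 76) (nat_lit 27055584092) (nat_lit 76) (nat_lit 25523379946) (nat_lit 1) (nat_lit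 4) (nat_lit 2) (nat_lit 5) (nat_lit 2) (nat_lit 4) (nat_lit 331) (nat_lit 200) (nat_lit 189)) (XT.lf (nat_lit 0) (nat_lit 69474359368) (nat_lit 76) (nat_lit 26822905432) (nat_lit 76) (nat_lit 25187986855) (nat_lit 1) (nat_lit 4) (nat_lit 2) (nat_lit 5) (nat_lit 2) (nat_lit 4) (nat_lit 332) (nat_lit 200) (nat_lit 188))) (XT.nd (nat_lit 78) (nat_lit 0) (nat_lit 0) (XT.lf (nat_lit 0) (nat_lit 75978926934) (nat_lit 76) (nat_lit 26614154240) (nat_lit 76) (nat_lit 24881412397) (nat_lit 1) (nat_lit 4) (nat_lit 2) (nat_lit 5) (nat_lit 2) (nat_lit 4) (nat_lit 333) (nat_lit 200) (nat_lit 187)) (XT.nd (nat_lit 78) (nat_lit 0) (nat_lit 0) (XT.lf (nat_lit 0) (nat_lit 82733546297) (nat_lit 76) (nat_lit 26428833491) (nat_lit 76) (nat_lit 24602926632) (nat_lit 1) (nat_lit 4) (nat_lit 2) (nat_lit 5) (nat_lit 2) (nat_lit 4) (nat_lit 334) (nat_lit 200) (nat_lit 186)) (XT.lf (nat_lit 0) (nat_lit 89754299883)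 (nat_lit 76) (nat_lit 26266501944) (nat_lit 76) (nat_lit 24351866499) (nat_lit 1) (nat_lit 4) (nat_lit 2) (nat_lit 5) (nat_lit 2) (nat_lit 4) (nat_lit 335) (nat_lit 200) (nat_lit 185)))))) (XT.nd (nat_lit 390) (nat_lit 0) (nat_lit 0) (XT.nd (nat_lit 156) (nat_lit 0) (nat_lit 0) (XT.nd (nat_lit 78) (nat_lit 0) (nat_lit 0) (XT.lf (nat_lit 0) (nat_lit 97057903772) (nat_lit 76) (nat_lit 26126773096) (nat_lit 76) (nat_lit 24127634235) (nat_lit 1) (nat_lit 4) (nat_lit 2) (nat_lit 5) (nat_lit 2) (nat_lit 4) (nat_lit 336) (nat_lit 200) (nat_lit 184)) (XT.lf (nat_lit 0) (nat_lit 104661747497) (nat_lit 76) (nat_lit 26009314258) (nat_lit 76) (nat_lit 23929695954) (nat_lit 1) (nat_lit 4) (nat_lit 2) (nat_lit 5) (nat_lit 2) (nat_lit 4) (nat_lit 337) (nat_lit 200) (nat_lit 183))) (XT.nd (nat_lit 78) (nat_lit 0) (nat_lit 0) (XT.lf (nat_lit 0) (nat_lit 112583935448) (nat_lit 76) (nat_lit 25913845768)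 (nat_lit 76) (nat_lit 23757580375) (nat_lit 1) (nat_lit 4) (nat_lit 2) (nat_lit 5) (nat_lit 2) (nat_lit 4) (nat_lit 338) (nat_lit 200) (nat_lit 182)) (XT.nd (nat_lit 78) (nat_lit 0) (nat_lit 0) (XT.lf (nat_lit 0) (nat_lit 120843329977) (nat_lit 76) (nat_lit 25840140318) (nat_lit 76) (nat_lit 23610877697) (nat_lit 1) (nat_lit 4) (nat_lit 2) (nat_lit 5) (nat_lit 2) (nat_lit 4) (nat_lit 339) (nat_lit 200) (nat_lit 181)) (XT.lf (nat_lit 0) (nat_lit 129459596310) (nat_lit 76) (nat_lit 25788022421) (nat_lit 76) (nat_lit 23489238631) (nat_lit 1) (nat_lit 4) (nat_lit 2) (nat_lit 5) (nat_lit 2) (nat_lit 4) (nat_lit 340) (nat_lit 200) (nat_lit 180))))) (XT.nd (nat_lit 156) (nat_lit 0) (nat_lit 0) (XT.nd (nat_lit 78) (nat_lit 0) (nat_lit 0) (XT.lf (nat_lit 0) (nat_lit 138453249366) (nat_lit 76) (nat_lit 25757367985) (nat_lit 76) (nat_lit 23392373558) (nat_lit 1) (nat_lit 4) (nat_lit 2) (nat_lit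 5) (nat_lit 2) (nat_lit 4) (nat_lit 341) (nat_lit 200) (nat_lit 179)) (XT.lf (nat_lit 0) (nat_lit 147845702605) (nat_lit 76) (nat_lit 25748104024) (nat_lit 76) (nat_lit 23320051847) (nat_lit 1) (nat_lit 4) (nat_lit 2) (nat_lit 5) (nat_lit 2) (nat_lit 4) (nat_lit 342) (nat_lit 200) (nat_lit 178))) (XT.nd (nat_lit 78) (nat_lit 0) (nat_lit 0) (XT.lf (nat_lit 0) (nat_lit 157659319011) (nat_lit 76) (nat_lit 25760208481) (nat_lit 76) (nat_lit 23272101304) (nat_lit 1) (nat_lit 4) (nat_lit 2) (nat_lit 5) (nat_lit 2) (nat_lit 4) (nat_lit 343) (nat_lit 200) (nat_lit 177)) (XT.nd (nat_lit 78) (nat_lit 0) (nat_lit 0) (XT.lf (nat_lit 0) (nat_lit 167917464337) (nat_lit 76) (nat_lit 25793710176) (nat_lit 76) (nat_lit 23248407761) (nat_lit 1) (nat_lit 4) (nat_lit 2) (nat_lit 5) (nat_lit 2) (nat_lit 4) (nat_lit 344) (nat_lit 200) (nat_lit 176)) (XT.lf (nat_lit 0) (nat_lit 178644562738) (nat_lit 76)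 (nat_lit 25848688875) (nat_lit 76) (nat_lit 23248914805) (nat_lit 1) (nat_lit 4) (nat_lit 2) (nat_lit 5) (nat_lit 2) (nat_lit 4) (nat_lit 345) (nat_lit 200) (nat_lit 175))))))))
noncomputable def xc16 : XT := (XT.nd (nat_lit 1404) (nat_lit 0) (nat_lit 0) (XT.nd (nat_lit 702) (nat_lit 0) (nat_lit 0) (XT.nd (nat_lit 312) (nat_lit 0) (nat_lit 0) (XT.nd (nat_lit 156) (nat_lit 0) (nat_lit 0) (XT.nd (nat_lit 78) (nat_lit 0) (nat_lit 0) (XT.lf (nat_lit 0) (nat_lit 189866154926) (nat_lit 76) (nat_lit 25925275480) (nat_lit 76) (nat_lit 23273623643) (nat_lit 1) (nat_lit 4) (nat_lit 2) (nat_lit 5) (nat_lit 2) (nat_lit 4) (nat_lit 346) (nat_lit 200) (nat_lit 174)) (XT.lf (nat_lit 0) (nat_lit 201608958976) (nat_lit 76) (nat_lit 26023652339) (nat_lit 76) (nat_lit 23322593105) (nat_lit 1) (nat_lit 4) (nat_lit 2) (nat_lit 5) (nat_lit 2) (nat_lit 4) (nat_lit 347) (nat_lit 200) (nat_lit 173))) (XT.nd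 (nat_lit 78) (nat_lit 0) (nat_lit 0) (XT.lf (nat_lit 0) (nat_lit 213900933947) (nat_lit 76) (nat_lit 26144053684) (nat_lit 76) (nat_lit 23395939785) (nat_lit 1) (nat_lit 4) (nat_lit 2) (nat_lit 5) (nat_lit 2) (nat_lit 4) (nat_lit 348) (nat_lit 200) (nat_lit 172)) (XT.lf (nat_lit 0) (nat_lit 226771346444) (nat_lit 76) (nat_lit 26286766183) (nat_lit 76) (nat_lit 23493838320) (nat_lit 1) (nat_lit 4) (nat_lit 2) (nat_lit 5) (nat_lit 2) (nat_lit 4) (nat_lit 349) (nat_lit 200) (nat_lit 171)))) (XT.nd (nat_lit 156) (nat_lit 0) (nat_lit 0) (XT.nd (nat_lit 78) (nat_lit 0) (nat_lit 0) (XT.lf (nat_lit 0) (nat_lit 240250840308) (nat_lit 76) (nat_lit 26452129630) (nat_lit 76) (nat_lit 23616521799) (nat_lit 1) (nat_lit 4) (nat_lit 2) (nat_lit 5) (nat_lit 2) (nat_lit 4) (nat_lit 350) (nat_lit 200) (nat_lit 170)) (XT.lf (nat_lit 0) (nat_lit 254371509571) (nat_lit 76) (nat_lit 26640537745) (nat_lit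 76) (nat_lit 23764282327) (nat_lit 1) (nat_lit 4) (nat_lit 2) (nat_lit 5) (nat_lit 2) (nat_lit 4) (nat_lit 351) (nat_lit 200) (nat_lit 169))) (XT.nd (nat_lit 78) (nat_lit 0) (nat_lit 0) (XT.lf (nat_lit 0) (nat_lit 269166974875) (nat_lit 76) (nat_lit 26852439121) (nat_lit 76) (nat_lit 23937471714) (nat_lit 1) (nat_lit 4) (nat_lit 2) (nat_lit 5) (nat_lit 2) (nat_lit 4) (nat_lit 352) (nat_lit 200) (nat_lit 168)) (XT.nd (nat_lit 78) (nat_lit 0) (nat_lit 0) (XT.lf (nat_lit 0) (nat_lit 284672463518) (nat_lit 76) (nat_lit 27088338284) (nat_lit 76) (nat_lit 24136502317) (nat_lit 1) (nat_lit 4) (nat_lit 2) (nat_lit 5) (nat_lit 2) (nat_lit 4) (nat_lit 353) (nat_lit 200) (nat_lit 167)) (XT.lf (nat_lit 0) (nat_lit 300924893329) (nat_lit 76) (nat_lit 27348796899) (nat_lit 76) (nat_lit 24361848017) (nat_lit 1) (nat_lit 4) (nat_lit 2) (nat_lit 5) (nat_lit 2) (nat_lit 4) (nat_lit 354) (nat_lit 200)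 (nat_lit 166)))))) (XT.nd (nat_lit 312) (nat_lit 0) (nat_lit 0) (XT.nd (nat_lit 156) (nat_lit 0) (nat_lit 0) (XT.nd (nat_lit 78) (nat_lit 0) (nat_lit 0) (XT.lf (nat_lit 0) (nat_lit 317962960571) (nat_lit 76) (nat_lit 27634435105) (nat_lit 76) (nat_lit 24614045352) (nat_lit 1) (nat_lit 4) (nat_lit 2) (nat_lit 5) (nat_lit 2) (nat_lit 4) (nat_lit 355) (nat_lit 200) (nat_lit 165)) (XT.lf (nat_lit 0) (nat_lit 335827232071) (nat_lit 76) (nat_lit 27945932994) (nat_lit 76) (nat_lit 24893694792) (nat_lit 1) (nat_lit 4) (nat_lit 2) (nat_lit 5) (nat_lit 2) (nat_lit 4) (nat_lit 356) (nat_lit 200) (nat_lit 164))) (XT.nd (nat_lit 78) (nat_lit 0) (nat_lit 0) (XT.lf (nat_lit 0) (nat_lit 354560241807) (nat_lit 76) (nat_lit 28284032226) (nat_lit 76) (nat_lit 25201462169) (nat_lit 1) (nat_lit 4) (nat_lit 2) (nat_lit 5) (nat_lit 2) (nat_lit 4) (nat_lit 357) (nat_lit 200) (nat_lit 163)) (XT.lf (nat_lit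 0) (nat_lit 374206592184) (nat_lit 76) (nat_lit 28649537801) (nat_lit 76) (nat_lit 25538080262) (nat_lit 1) (nat_lit 4) (nat_lit 2) (nat_lit 5) (nat_lit 2) (nat_lit 4) (nat_lit 358) (nat_lit 200) (nat_lit 162)))) (XT.nd (nat_lit 156) (nat_lit 0) (nat_lit 0) (XT.nd (nat_lit 78) (nat_lit 0) (nat_lit 0) (XT.lf (nat_lit 0) (nat_lit 394813060227) (nat_lit 76) (nat_lit 29043319969) (nat_lit 76) (nat_lit 25904350543) (nat_lit 1) (nat_lit 4) (nat_lit 2) (nat_lit 5) (nat_lit 2) (nat_lit 4) (nat_lit 359) (nat_lit 200) (nat_lit 161)) (XT.lf (nat_lit 0) (nat_lit 416428708955) (nat_lit 76) (nat_lit 29466316307) (nat_lit 76) (nat_lit 26301145083) (nat_lit 1) (nat_lit 4) (nat_lit 2) (nat_lit 5) (nat_lit 2) (nat_lit 4) (nat_lit 360) (nat_lit 200) (nat_lit 160))) (XT.nd (nat_lit 78) (nat_lit 0) (nat_lit 0) (XT.lf (nat_lit 0) (nat_lit 439105004198) (nat_lit 76) (nat_lit 29919533950) (nat_lit 76) (nat_lit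 26729408633) (nat_lit 1) (nat_lit 4) (nat_lit 2) (nat_lit 5) (nat_lit 2) (nat_lit 4) (nat_lit 361) (nat_lit 200) (nat_lit 159)) (XT.nd (nat_lit 78) (nat_lit 0) (nat_lit 0) (XT.lf (nat_lit 0) (nat_lit 462895937135) (nat_lit 76) (nat_lit 30404051986) (nat_lit 76) (nat_lit 27190160867) (nat_lit 1) (nat_lit 4) (nat_lit 2) (nat_lit 5) (nat_lit 2) (nat_lit 4) (nat_lit 362) (nat_lit 200) (nat_lit 158)) (XT.lf (nat_lit 0) (nat_lit 487858152845) (nat_lit 76) (nat_lit 30921024031) (nat_lit 76) (nat_lit 27684498814) (nat_lit 1) (nat_lit 4) (nat_lit 2) (nat_lit 5) (nat_lit 2) (nat_lit 4) (nat_lit 363) (nat_lit 200) (nat_lit 157))))))) (XT.nd (nat_lit 34320) (nat_lit 0) (nat_lit 0) (XT.nd (nat_lit 33930) (nat_lit 0) (nat_lit 0) (XT.nd (nat_lit 156) (nat_lit 0) (nat_lit 0) (XT.nd (nat_lit 78) (nat_lit 0) (nat_lit 0) (XT.lf (nat_lit 0) (nat_lit 514051085175) (nat_lit 76) (nat_lit 31471680970) (nat_lit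 76) (nat_lit 28213599469) (nat_lit 1) (nat_lit 4) (nat_lit 2) (nat_lit 5) (nat_lit 2) (nat_lit 4) (nat_lit 364) (nat_lit 200) (nat_lit 156)) (XT.lf (nat_lit 0) (nat_lit 541537098250) (nat_lit 76) (nat_lit 32057333891) (nat_lit 76) (nat_lit 28778722596) (nat_lit 1) (nat_lit 4) (nat_lit 2) (nat_lit 5) (nat_lit 2) (nat_lit 4) (nat_lit 365) (nat_lit 200) (nat_lit 155))) (XT.nd (nat_lit 78) (nat_lit 0) (nat_lit 0) (XT.lf (nat_lit 0) (nat_lit 570381634956) (nat_lit 76) (nat_lit 32679377205) (nat_lit 76) (nat_lit 29381213725) (nat_lit 1) (nat_lit 4) (nat_lit 2) (nat_lit 5) (nat_lit 2) (nat_lit 4) (nat_lit 366) (nat_lit 200) (nat_lit 154)) (XT.lf (nat_lit 0) (nat_lit 600653372764) (nat_lit 76) (nat_lit 33339291969) (nat_lit 76) (nat_lit 30022507361) (nat_lit 1) (nat_lit 4) (nat_lit 2) (nat_lit 5) (nat_lit 2) (nat_lit 4) (nat_lit 367) (nat_lit 200) (nat_lit 153)))) (XT.nd (nat_lit 156) (nat_lit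 0) (nat_lit 0) (XT.nd (nat_lit 78) (nat_lit 76) (nat_lit 0) (XT.lf (nat_lit 0) (nat_lit 14865053422) (nat_lit 152) (nat_lit 1482984636) (nat_lit 0) (nat_lit 14865053422) (nat_lit 2) (nat_lit 5) (nat_lit 4) (nat_lit 4) (nat_lit 2) (nat_lit 4) (nat_lit 318) (nat_lit 201) (nat_lit 201)) (XT.lf (nat_lit 0) (nat_lit 1284398760) (nat_lit 76) (nat_lit 32161893170) (nat_lit 76) (nat_lit 31977432811) (nat_lit 1) (nat_lit 4) (nat_lit 2) (nat_lit 5) (nat_lit 2) (nat_lit 4) (nat_lit 319) (nat_lit 201) (nat_lit 200))) (XT.nd (nat_lit 78) (nat_lit 0) (nat_lit 0) (XT.lf (nat_lit 0) (nat_lit 5708500293) (nat_lit 76) (nat_lit 31612122611) (nat_lit 76) (nat_lit 31251985721) (nat_lit 1) (nat_lit 4) (nat_lit 2) (nat_lit 5) (nat_lit 2) (nat_lit 4) (nat_lit 320) (nat_lit 201) (nat_lit 199)) (XT.nd (nat_lit 78) (nat_lit 0) (nat_lit 0) (XT.lf (nat_lit 0) (nat_lit 10218800563) (nat_lit 76) (nat_lit 31095685590)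 (nat_lit 76) (nat_lit 30568237717) (nat_lit 1) (nat_lit 4) (nat_lit 2) (nat_lit 5) (nat_lit 2) (nat_lit 4) (nat_lit 321) (nat_lit 201) (nat_lit 198)) (XT.lf (nat_lit 0) (nat_lit 14826038378) (nat_lit 76) (nat_lit 30611352495) (nat_lit 76) (nat_lit 29924560828) (nat_lit 1) (nat_lit 4) (nat_lit 2) (nat_lit 5) (nat_lit 2) (nat_lit 4) (nat_lit 322) (nat_lit 201) (nat_lit 197)))))) (XT.nd (nat_lit 312) (nat_lit 0) (nat_lit 0) (XT.nd (nat_lit 156) (nat_lit 0) (nat_lit 0) (XT.nd (nat_lit 78) (nat_lit 0) (nat_lit 0) (XT.lf (nat_lit 0) (nat_lit 19541183353) (nat_lit 76) (nat_lit 30157970150) (nat_lit 76) (nat_lit 29319422490) (nat_lit 1) (nat_lit 4) (nat_lit 2) (nat_lit 5) (nat_lit 2) (nat_lit 4) (nat_lit 323) (nat_lit 201) (nat_lit 196)) (XT.lf (nat_lit 0) (nat_lit 24375462024) (nat_lit 76) (nat_lit 29734459076) (nat_lit 76) (nat_lit 28751381897) (nat_lit 1) (nat_lit 4) (nat_lit 2) (nat_lit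 5) (nat_lit 2) (nat_lit 4) (nat_lit 324) (nat_lit 201) (nat_lit 195))) (XT.nd (nat_lit 78) (nat_lit 0) (nat_lit 0) (XT.lf (nat_lit 0) (nat_lit 29340384578) (nat_lit 76) (nat_lit 29339810910) (nat_lit 76) (nat_lit 28219086572) (nat_lit 1) (nat_lit 4) (nat_lit 2) (nat_lit 5) (nat_lit 2) (nat_lit 4) (nat_lit 325) (nat_lit 201) (nat_lit 194)) (XT.lf (nat_lit 0) (nat_lit 34447772259) (nat_lit 76) (nat_lit 28973086017) (nat_lit 76) (nat_lit 27721269146) (nat_lit 1) (nat_lit 4) (nat_lit 2) (nat_lit 5) (nat_lit 2) (nat_lit 4) (nat_lit 326) (nat_lit 201) (nat_lit 193)))) (XT.nd (nat_lit 156) (nat_lit 0) (nat_lit 0) (XT.nd (nat_lit 78) (nat_lit 0) (nat_lit 0) (XT.lf (nat_lit 0) (nat_lit 39709785514) (nat_lit 76) (nat_lit 28633411240) (nat_lit 76) (nat_lit 27256744337) (nat_lit 1) (nat_lit 4) (nat_lit 2) (nat_lit 5) (nat_lit 2) (nat_lit 4) (nat_lit 327) (nat_lit 201) (nat_lit 192)) (XT.lf (nat_lit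 0) (nat_lit 45138952946) (nat_lit 76) (nat_lit 28319977830) (nat_lit 76) (nat_lit 26824406136) (nat_lit 1) (nat_lit 4) (nat_lit 2) (nat_lit 5) (nat_lit 2) (nat_lit 4) (nat_lit 328) (nat_lit 201) (nat_lit 191))) (XT.nd (nat_lit 78) (nat_lit 0) (nat_lit 0) (XT.lf (nat_lit 0) (nat_lit 50748201144) (nat_lit 76) (nat_lit 28032039518) (nat_lit 76) (nat_lit 26423225165) (nat_lit 1) (nat_lit 4) (nat_lit 2) (nat_lit 5) (nat_lit 2) (nat_lit 4) (nat_lit 329) (nat_lit 201) (nat_lit 190)) (XT.nd (nat_lit 78) (nat_lit 0) (nat_lit 0) (XT.lf (nat_lit 0) (nat_lit 56550885462) (nat_lit 76) (nat_lit 27768910736) (nat_lit 76) (nat_lit 26052246231) (nat_lit 1) (nat_lit 4) (nat_lit 2) (nat_lit 5) (nat_lit 2) (nat_lit 4) (nat_lit 330) (nat_lit 201) (nat_lit 189)) (XT.lf (nat_lit 0) (nat_lit 62560821813) (nat_lit 76) (nat_lit 27529964987) (nat_lit 76) (nat_lit 25710586052) (nat_lit 1) (nat_lit 4) (nat_lit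 2) (nat_lit 5) (nat_lit 2) (nat_lit 4) (nat_lit 331) (nat_lit 201) (nat_lit 188))))))))
noncomputable def xc17 : XT := (XT.nd (nat_lit 1404) (nat_lit 0) (nat_lit 0) (XT.nd (nat_lit 702) (nat_lit 0) (nat_lit 0) (XT.nd (nat_lit 312) (nat_lit 0) (nat_lit 0) (XT.nd (nat_lit 156) (nat_lit 0) (nat_lit 0) (XT.nd (nat_lit 78) (nat_lit 0) (nat_lit 0) (XT.lf (nat_lit 0) (nat_lit 68792319570) (nat_lit 76) (nat_lit 27314633352) (nat_lit 76) (nat_lit 25397431150) (nat_lit 1) (nat_lit 4) (nat_lit 2) (nat_lit 5) (nat_lit 2) (nat_lit 4) (nat_lit 332) (nat_lit 201) (nat_lit 187)) (XT.lf (nat_lit 0) (nat_lit 75260215633) (nat_lit 76) (nat_lit 27122403137) (nat_lit 76) (nat_lit 25112035919) (nat_lit 1) (nat_lit 4) (nat_lit 2) (nat_lit 5) (nat_lit 2) (nat_lit 4) (nat_lit 333) (nat_lit 201) (nat_lit 186))) (XT.nd (nat_lit 78) (nat_lit 0) (nat_lit 0) (XT.lf (nat_lit 0) (nat_lit 81979909754) (nat_lit 76)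 (nat_lit 26952816651) (nat_lit 76) (nat_lit 24853720847) (nat_lit 1) (nat_lit 4) (nat_lit 2) (nat_lit 5) (nat_lit 2) (nat_lit 4) (nat_lit 334) (nat_lit 201) (nat_lit 185)) (XT.lf (nat_lit 0) (nat_lit 88967401205) (nat_lit 76) (nat_lit 26805470117) (nat_lit 76) (nat_lit 24621870897) (nat_lit 1) (nat_lit 4) (nat_lit 2) (nat_lit 5) (nat_lit 2) (nat_lit 4) (nat_lit 335) (nat_lit 201) (nat_lit 184)))) (XT.nd (nat_lit 156) (nat_lit 0) (nat_lit 0) (XT.nd (nat_lit 78) (nat_lit 0) (nat_lit 0) (XT.lf (nat_lit 0) (nat_lit 96239326870) (nat_lit 76) (nat_lit 26680012709) (nat_lit 76) (nat_lit 24415934046) (nat_lit 1) (nat_lit 4) (nat_lit 2) (nat_lit 5) (nat_lit 2) (nat_lit 4) (nat_lit 336) (nat_lit 201) (nat_lit 183)) (XT.lf (nat_lit 0) (nat_lit 103813000859) (nat_lit 76) (nat_lit 26576145720) (nat_lit 76) (nat_lit 24235419968) (nat_lit 1) (nat_lit 4) (nat_lit 2) (nat_lit 5) (nat_lit 2) (nat_lit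 4) (nat_lit 337) (nat_lit 201) (nat_lit 182))) (XT.nd (nat_lit 78) (nat_lit 0) (nat_lit 0) (XT.lf (nat_lit 0) (nat_lit 111706455727) (nat_lit 76) (nat_lit 26493621847) (nat_lit 76) (nat_lit 24079898867) (nat_lit 1) (nat_lit 4) (nat_lit 2) (nat_lit 5) (nat_lit 2) (nat_lit 4) (nat_lit 338) (nat_lit 201) (nat_lit 181)) (XT.nd (nat_lit 78) (nat_lit 0) (nat_lit 0) (XT.lf (nat_lit 0) (nat_lit 119938485416) (nat_lit 76) (nat_lit 26432244604) (nat_lit 76) (nat_lit 23949000455) (nat_lit 1) (nat_lit 4) (nat_lit 2) (nat_lit 5) (nat_lit 2) (nat_lit 4) (nat_lit 339) (nat_lit 201) (nat_lit 180)) (XT.lf (nat_lit 0) (nat_lit 128528689996) (nat_lit 76) (nat_lit 26391867856) (nat_lit 76) (nat_lit 23842413070) (nat_lit 1) (nat_lit 4) (nat_lit 2) (nat_lit 5) (nat_lit 2) (nat_lit 4) (nat_lit 340) (nat_lit 201) (nat_lit 179)))))) (XT.nd (nat_lit 312) (nat_lit 0) (nat_lit 0) (XT.nd (nat_lit 156) (nat_lit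 0) (nat_lit 0) (XT.nd (nat_lit 78) (nat_lit 0) (nat_lit 0) (XT.lf (nat_lit 0) (nat_lit 137497522335) (nat_lit 76) (nat_lit 26372395468) (nat_lit 76) (nat_lit 23759882932) (nat_lit 1) (nat_lit 4) (nat_lit 2) (nat_lit 5) (nat_lit 2) (nat_lit 4) (nat_lit 341) (nat_lit 201) (nat_lit 178)) (XT.lf (nat_lit 0) (nat_lit 146866336796) (nat_lit 76) (nat_lit 26373781076) (nat_lit 76) (nat_lit 23701213540) (nat_lit 1) (nat_lit 4) (nat_lit 2) (nat_lit 5) (nat_lit 2) (nat_lit 4) (nat_lit 342) (nat_lit 201) (nat_lit 177))) (XT.nd (nat_lit 78) (nat_lit 0) (nat_lit 0) (XT.lf (nat_lit 0) (nat_lit 156657440080) (nat_lit 76) (nat_lit 26396027979) (nat_lit 76) (nat_lit 23666265205) (nat_lit 1) (nat_lit 4) (nat_lit 2) (nat_lit 5) (nat_lit 2) (nat_lit 4) (nat_lit 343) (nat_lit 201) (nat_lit 176)) (XT.lf (nat_lit 0) (nat_lit 166894144337) (nat_lit 76) (nat_lit 26439189147) (nat_lit 76) (nat_lit 23654954718)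 (nat_lit 1) (nat_lit 4) (nat_lit 2) (nat_lit 5) (nat_lit 2) (nat_lit 4) (nat_lit 344) (nat_lit 201) (nat_lit 175)))) (XT.nd (nat_lit 156) (nat_lit 0) (nat_lit 0) (XT.nd (nat_lit 78) (nat_lit 0) (nat_lit 0) (XT.lf (nat_lit 0) (nat_lit 177600822673) (nat_lit 76) (nat_lit 26503367344) (nat_lit 76) (nat_lit 23667255148) (nat_lit 1) (nat_lit 4) (nat_lit 2) (nat_lit 5) (nat_lit 2) (nat_lit 4) (nat_lit 345) (nat_lit 201) (nat_lit 174)) (XT.lf (nat_lit 0) (nat_lit 188802967179) (nat_lit 76) (nat_lit 26588715375) (nat_lit 76) (nat_lit 23703195782) (nat_lit 1) (nat_lit 4) (nat_lit 2) (nat_lit 5) (nat_lit 2) (nat_lit 4) (nat_lit 346) (nat_lit 201) (nat_lit 173))) (XT.nd (nat_lit 78) (nat_lit 0) (nat_lit 0) (XT.lf (nat_lit 0) (nat_lit 200527249628) (nat_lit 76) (nat_lit 26695436450) (nat_lit 76) (nat_lit 23762862193) (nat_lit 1) (nat_lit 4) (nat_lit 2) (nat_lit 5) (nat_lit 2) (nat_lit 4) (nat_lit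 347) (nat_lit 201) (nat_lit 172)) (XT.nd (nat_lit 78) (nat_lit 0) (nat_lit 0) (XT.lf (nat_lit 0) (nat_lit 212801584979) (nat_lit 76) (nat_lit 26823784666) (nat_lit 76) (nat_lit 23846396444) (nat_lit 1) (nat_lit 4) (nat_lit 2) (nat_lit 5) (nat_lit 2) (nat_lit 4) (nat_lit 348) (nat_lit 201) (nat_lit 171)) (XT.lf (nat_lit 0) (nat_lit 225655197838) (nat_lit 76) (nat_lit 26974065616) (nat_lit 76) (nat_lit 23953997426) (nat_lit 1) (nat_lit 4) (nat_lit 2) (nat_lit 5) (nat_lit 2) (nat_lit 4) (nat_lit 349) (nat_lit 201) (nat_lit 170))))))) (XT.nd (nat_lit 702) (nat_lit 0) (nat_lit 0) (XT.nd (nat_lit 312) (nat_lit 0) (nat_lit 0) (XT.nd (nat_lit 156) (nat_lit 0) (nat_lit 0) (XT.nd (nat_lit 78) (nat_lit 0) (nat_lit 0) (XT.lf (nat_lit 0) (nat_lit 239118692046) (nat_lit 76) (nat_lit 27146637110) (nat_lit 76) (nat_lit 24085921332) (nat_lit 1) (nat_lit 4) (nat_lit 2) (nat_lit 5) (nat_lit 2) (nat_lit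 4) (nat_lit 350) (nat_lit 201) (nat_lit 169)) (XT.lf (nat_lit 0) (nat_lit 253224123542) (nat_lit 76) (nat_lit 27341910032) (nat_lit 76) (nat_lit 24242482267) (nat_lit 1) (nat_lit 4) (nat_lit 2) (nat_lit 5) (nat_lit 2) (nat_lit 4) (nat_lit 351) (nat_lit 201) (nat_lit 168))) (XT.nd (nat_lit 78) (nat_lit 0) (nat_lit 0) (XT.lf (nat_lit 0) (nat_lit 268005076687) (nat_lit 76) (nat_lit 27560349319) (nat_lit 76) (nat_lit 24424052993) (nat_lit 1) (nat_lit 4) (nat_lit 2) (nat_lit 5) (nat_lit 2) (nat_lit 4) (nat_lit 352) (nat_lit 201) (nat_lit 167)) (XT.lf (nat_lit 0) (nat_lit 283496744226) (nat_lit 76) (nat_lit 27802475065) (nat_lit 76) (nat_lit 24631065824) (nat_lit 1) (nat_lit 4) (nat_lit 2) (nat_lit 5) (nat_lit 2) (nat_lit 4) (nat_lit 353) (nat_lit 201) (nat_lit 166)))) (XT.nd (nat_lit 156) (nat_lit 0) (nat_lit 0) (XT.nd (nat_lit 78) (nat_lit 0) (nat_lit 0) (XT.lf (nat_lit 0) (nat_lit 299736011081)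 (nat_lit 76) (nat_lit 28068863758) (nat_lit 76) (nat_lit 24864013646) (nat_lit 1) (nat_lit 4) (nat_lit 2) (nat_lit 5) (nat_lit 2) (nat_lit 4) (nat_lit 354) (nat_lit 201) (nat_lit 165)) (XT.lf (nat_lit 0) (nat_lit 316761542174) (nat_lit 76) (nat_lit 28360149658) (nat_lit 76) (nat_lit 25123451097) (nat_lit 1) (nat_lit 4) (nat_lit 2) (nat_lit 5) (nat_lit 2) (nat_lit 4) (nat_lit 355) (nat_lit 201) (nat_lit 164))) (XT.nd (nat_lit 78) (nat_lit 0) (nat_lit 0) (XT.lf (nat_lit 0) (nat_lit 334613874484) (nat_lit 76) (nat_lit 28677026302) (nat_lit 76) (nat_lit 25409995886) (nat_lit 1) (nat_lit 4) (nat_lit 2) (nat_lit 5) (nat_lit 2) (nat_lit 4) (nat_lit 356) (nat_lit 201) (nat_lit 163)) (XT.nd (nat_lit 78) (nat_lit 0) (nat_lit 0) (XT.lf (nat_lit 0) (nat_lit 353335513564) (nat_lit 76) (nat_lit 29020248159) (nat_lit 76) (nat_lit 25724330261) (nat_lit 1) (nat_lit 4) (nat_lit 2) (nat_lit 5) (nat_lit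 2) (nat_lit 4) (nat_lit 357) (nat_lit 201) (nat_lit 162)) (XT.lf (nat_lit 0) (nat_lit 372971034744) (nat_lit 76) (nat_lit 29390632424) (nat_lit 76) (nat_lit 26067202639) (nat_lit 1) (nat_lit 4) (nat_lit 2) (nat_lit 5) (nat_lit 2) (nat_lit 4) (nat_lit 358) (nat_lit 201) (nat_lit 161)))))) (XT.nd (nat_lit 312) (nat_lit 0) (nat_lit 0) (XT.nd (nat_lit 156) (nat_lit 0) (nat_lit 0) (XT.nd (nat_lit 78) (nat_lit 0) (nat_lit 0) (XT.lf (nat_lit 0) (nat_lit 393567189267) (nat_lit 76) (nat_lit 29789060964) (nat_lit 76) (nat_lit 26439429381) (nat_lit 1) (nat_lit 4) (nat_lit 2) (nat_lit 5) (nat_lit 2) (nat_lit 4) (nat_lit 359) (nat_lit 201) (nat_lit 160)) (XT.lf (nat_lit 0) (nat_lit 415173015594) (nat_lit 76) (nat_lit 30216482418) (nat_lit 76) (nat_lit 26841896742) (nat_lit 1) (nat_lit 4) (nat_lit 2) (nat_lit 5) (nat_lit 2) (nat_lit 4) (nat_lit 360) (nat_lit 201) (nat_lit 159))) (XT.nd (nat_lit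 78) (nat_lit 0) (nat_lit 0) (XT.lf (nat_lit 0) (nat_lit 437839956170) (nat_lit 76) (nat_lit 30673914457) (nat_lit 76) (nat_lit 27275562978) (nat_lit 1) (nat_lit 4) (nat_lit 2) (nat_lit 5) (nat_lit 2) (nat_lit 4) (nat_lit 361) (nat_lit 201) (nat_lit 158)) (XT.lf (nat_lit 0) (nat_lit 461621979901) (nat_lit 76) (nat_lit 31162446203) (nat_lit 76) (nat_lit 27741460627) (nat_lit 1) (nat_lit 4) (nat_lit 2) (nat_lit 5) (nat_lit 2) (nat_lit 4) (nat_lit 362) (nat_lit 201) (nat_lit 157)))) (XT.nd (nat_lit 156) (nat_lit 0) (nat_lit 0) (XT.nd (nat_lit 78) (nat_lit 0) (nat_lit 0) (XT.lf (nat_lit 0) (nat_lit 486575710652) (nat_lit 76) (nat_lit 31683240829) (nat_lit 76) (nat_lit 28240698970) (nat_lit 1) (nat_lit 4) (nat_lit 2) (nat_lit 5) (nat_lit 2) (nat_lit 4) (nat_lit 363) (nat_lit 201) (nat_lit 156)) (XT.lf (nat_lit 0) (nat_lit 512760562069) (nat_lit 76) (nat_lit 32237538322) (nat_lit 76) (nat_lit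 28774466668) (nat_lit 1) (nat_lit 4) (nat_lit 2) (nat_lit 5) (nat_lit 2) (nat_lit 4) (nat_lit 364) (nat_lit 201) (nat_lit 155))) (XT.nd (nat_lit 78) (nat_lit 0) (nat_lit 0) (XT.lf (nat_lit 0) (nat_lit 540238879035) (nat_lit 76) (nat_lit 32826658437) (nat_lit 76) (nat_lit 29344034598) (nat_lit 1) (nat_lit 4) (nat_lit 2) (nat_lit 5) (nat_lit 2) (nat_lit 4) (nat_lit 365) (nat_lit 201) (nat_lit 154)) (XT.nd (nat_lit 78) (nat_lit 0) (nat_lit 0) (XT.lf (nat_lit 0) (nat_lit 569076086115) (nat_lit 76) (nat_lit 33452003841) (nat_lit 76) (nat_lit 29950758874) (nat_lit 1) (nat_lit 4) (nat_lit 2) (nat_lit 5) (nat_lit 2) (nat_lit 4) (nat_lit 366) (nat_lit 201) (nat_lit 153)) (XT.lf (nat_lit 0) (nat_lit 599340843326) (nat_lit 76) (nat_lit 34115063452) (nat_lit 76) (nat_lit 30596084077) (nat_lit 1) (nat_lit 4) (nat_lit 2) (nat_lit 5) (nat_lit 2) (nat_lit 4) (nat_lit 367) (nat_lit 201) (nat_lit 152))))))))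
noncomputable def xc18 : XT := (XT.nd (nat_lit 1404) (nat_lit 0) (nat_lit 0) (XT.nd (nat_lit 702) (nat_lit 0) (nat_lit 0) (XT.nd (nat_lit 312) (nat_lit 0) (nat_lit 0) (XT.nd (nat_lit 156) (nat_lit 76) (nat_lit 0) (XT.nd (nat_lit 78) (nat_lit 0) (nat_lit 0) (XT.lf (nat_lit 0) (nat_lit 11432322002) (nat_lit 152) (nat_lit 5565448937) (nat_lit 0) (nat_lit 11432322002) (nat_lit 2) (nat_lit 5) (nat_lit 4) (nat_lit 4) (nat_lit 2) (nat_lit 4) (nat_lit 316) (nat_lit 202) (nat_lit 202)) (XT.lf (nat_lit 0) (nat_lit 26327984217) (nat_lit 152) (nat_lit 7112007167) (nat_lit 0) (nat_lit 26134300840) (nat_lit 2) (nat_lit 5) (nat_lit 4) (nat_lit 4) (nat_lit 2) (nat_lit 4) (nat_lit 317) (nat_lit 202) (nat_lit 201))) (XT.nd (nat_lit 78) (nat_lit 76) (nat_lit 0) (XT.lf (nat_lit 0) (nat_lit 29885027156) (nat_lit 152) (nat_lit 3036252461) (nat_lit 0) (nat_lit 29506883421) (nat_lit 2) (nat_lit 5) (nat_lit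 4) (nat_lit 4) (nat_lit 2) (nat_lit 4) (nat_lit 318) (nat_lit 202) (nat_lit 200)) (XT.lf (nat_lit 0) (nat_lit 1142642102) (nat_lit 76) (nat_lit 32419439715) (nat_lit 76) (nat_lit 31865619447) (nat_lit 1) (nat_lit 4) (nat_lit 2) (nat_lit 5) (nat_lit 2) (nat_lit 4) (nat_lit 319) (nat_lit 202) (nat_lit 199)))) (XT.nd (nat_lit 156) (nat_lit 0) (nat_lit 0) (XT.nd (nat_lit 78) (nat_lit 0) (nat_lit 0) (XT.lf (nat_lit 0) (nat_lit 5500886884) (nat_lit 76) (nat_lit 31899338457) (nat_lit 76) (nat_lit 31178207206) (nat_lit 1) (nat_lit 4) (nat_lit 2) (nat_lit 5) (nat_lit 2) (nat_lit 4) (nat_lit 320) (nat_lit 202) (nat_lit 198)) (XT.lf (nat_lit 0) (nat_lit 9948466438) (nat_lit 76) (nat_lit 31411157912) (nat_lit 76) (nat_lit 30530682868) (nat_lit 1) (nat_lit 4) (nat_lit 2) (nat_lit 5) (nat_lit 2) (nat_lit 4) (nat_lit 321) (nat_lit 202) (nat_lit 197))) (XT.nd (nat_lit 78) (nat_lit 0) (nat_lit 0) (XT.lf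 (nat_lit 0) (nat_lit 14495970238) (nat_lit 76) (nat_lit 30953735746) (nat_lit 76) (nat_lit 29921504709) (nat_lit 1) (nat_lit 4) (nat_lit 2) (nat_lit 5) (nat_lit 2) (nat_lit 4) (nat_lit 322) (nat_lit 202) (nat_lit 196)) (XT.nd (nat_lit 78) (nat_lit 0) (nat_lit 0) (XT.lf (nat_lit 0) (nat_lit 19154225675) (nat_lit 76) (nat_lit 30525982859) (nat_lit 76) (nat_lit 29349222304) (nat_lit 1) (nat_lit 4) (nat_lit 2) (nat_lit 5) (nat_lit 2) (nat_lit 4) (nat_lit 323) (nat_lit 202) (nat_lit 195)) (XT.lf (nat_lit 0) (nat_lit 23934323834) (nat_lit 76) (nat_lit 30126880790) (nat_lit 76) (nat_lit 28812473076) (nat_lit 1) (nat_lit 4) (nat_lit 2) (nat_lit 5) (nat_lit 2) (nat_lit 4) (nat_lit 324) (nat_lit 202) (nat_lit 194)))))) (XT.nd (nat_lit 312) (nat_lit 0) (nat_lit 0) (XT.nd (nat_lit 156) (nat_lit 0) (nat_lit 0) (XT.nd (nat_lit 78) (nat_lit 0) (nat_lit 0) (XT.lf (nat_lit 0) (nat_lit 28847645900)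 (nat_lit 76) (nat_lit 29755479298) (nat_lit 76) (nat_lit 28309979050) (nat_lit 1) (nat_lit 4) (nat_lit 2) (nat_lit 5) (nat_lit 2) (nat_lit 4) (nat_lit 325) (nat_lit 202) (nat_lit 193)) (XT.lf (nat_lit 0) (nat_lit 33905890259) (nat_lit 76) (nat_lit 29410894093) (nat_lit 76) (nat_lit 27840543814) (nat_lit 1) (nat_lit 4) (nat_lit 2) (nat_lit 5) (nat_lit 2) (nat_lit 4) (nat_lit 326) (nat_lit 202) (nat_lit 192))) (XT.nd (nat_lit 78) (nat_lit 0) (nat_lit 0) (XT.lf (nat_lit 0) (nat_lit 39121100350) (nat_lit 76) (nat_lit 29092304734) (nat_lit 76) (nat_lit 27403049663) (nat_lit 1) (nat_lit 4) (nat_lit 2) (nat_lit 5) (nat_lit 2) (nat_lit 4) (nat_lit 327) (nat_lit 202) (nat_lit 191)) (XT.lf (nat_lit 0) (nat_lit 44505693340) (nat_lit 76) (nat_lit 28798952675) (nat_lit 76) (nat_lit 26996454944) (nat_lit 1) (nat_lit 4) (nat_lit 2) (nat_lit 5) (nat_lit 2) (nat_lit 4) (nat_lit 328) (nat_lit 202) (nat_lit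 190)))) (XT.nd (nat_lit 156) (nat_lit 0) (nat_lit 0) (XT.nd (nat_lit 78) (nat_lit 0) (nat_lit 0) (XT.lf (nat_lit 0) (nat_lit 50072489689) (nat_lit 76) (nat_lit 28530139458) (nat_lit 76) (nat_lit 26619791576) (nat_lit 1) (nat_lit 4) (nat_lit 2) (nat_lit 5) (nat_lit 2) (nat_lit 4) (nat_lit 329) (nat_lit 202) (nat_lit 189)) (XT.lf (nat_lit 0) (nat_lit 55834743673) (nat_lit 76) (nat_lit 28285225052) (nat_lit 76) (nat_lit 26272162741) (nat_lit 1) (nat_lit 4) (nat_lit 2) (nat_lit 5) (nat_lit 2) (nat_lit 4) (nat_lit 330) (nat_lit 202) (nat_lit 188))) (XT.nd (nat_lit 78) (nat_lit 0) (nat_lit 0) (XT.lf (nat_lit 0) (nat_lit 61806174946) (nat_lit 76) (nat_lit 28063626328) (nat_lit 76) (nat_lit 25952740750) (nat_lit 1) (nat_lit 4) (nat_lit 2) (nat_lit 5) (nat_lit 2) (nat_lit 4) (nat_lit 331) (nat_lit 202) (nat_lit 187)) (XT.nd (nat_lit 78) (nat_lit 0) (nat_lit 0) (XT.lf (nat_lit 0) (nat_lit 68001001199)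 (nat_lit 76) (nat_lit 27864815670) (nat_lit 76) (nat_lit 25660765076) (nat_lit 1) (nat_lit 4) (nat_lit 2) (nat_lit 5) (nat_lit 2) (nat_lit 4) (nat_lit 332) (nat_lit 202) (nat_lit 186)) (XT.lf (nat_lit 0) (nat_lit 74433972021) (nat_lit 76) (nat_lit 27688319718) (nat_lit 76) (nat_lit 25395540538) (nat_lit 1) (nat_lit 4) (nat_lit 2) (nat_lit 5) (nat_lit 2) (nat_lit 4) (nat_lit 333) (nat_lit 202) (nat_lit 185))))))) (XT.nd (nat_lit 702) (nat_lit 0) (nat_lit 0) (XT.nd (nat_lit 312) (nat_lit 0) (nat_lit 0) (XT.nd (nat_lit 156) (nat_lit 0) (nat_lit 0) (XT.nd (nat_lit 78) (nat_lit 0) (nat_lit 0) (XT.lf (nat_lit 0) (nat_lit 81120404007) (nat_lit 76) (nat_lit 27533718245) (nat_lit 76) (nat_lit 25156435649) (nat_lit 1) (nat_lit 4) (nat_lit 2) (nat_lit 5) (nat_lit 2) (nat_lit 4) (nat_lit 334) (nat_lit 202) (nat_lit 184)) (XT.lf (nat_lit 0) (nat_lit 88076217235) (nat_lit 76) (nat_lit 27400643151)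 (nat_lit 76) (nat_lit 24942881112) (nat_lit 1) (nat_lit 4) (nat_lit 2) (nat_lit 5) (nat_lit 2) (nat_lit 4) (nat_lit 335) (nat_lit 202) (nat_lit 183))) (XT.nd (nat_lit 78) (nat_lit 0) (nat_lit 0) (XT.lf (nat_lit 0) (nat_lit 95317973164) (nat_lit 76) (nat_lit 27288777592) (nat_lit 76) (nat_lit 24754368463) (nat_lit 1) (nat_lit 4) (nat_lit 2) (nat_lit 5) (nat_lit 2) (nat_lit 4) (nat_lit 336) (nat_lit 202) (nat_lit 182)) (XT.lf (nat_lit 0) (nat_lit 102862914069) (nat_lit 76) (nat_lit 27197855220) (nat_lit 76) (nat_lit 24590448864) (nat_lit 1) (nat_lit 4) (nat_lit 2) (nat_lit 5) (nat_lit 2) (nat_lit 4) (nat_lit 337) (nat_lit 202) (nat_lit 181)))) (XT.nd (nat_lit 156) (nat_lit 0) (nat_lit 0) (XT.nd (nat_lit 78) (nat_lit 0) (nat_lit 0) (XT.lf (nat_lit 0) (nat_lit 110729004098) (nat_lit 76) (nat_lit 27127659554) (nat_lit 76) (nat_lit 24450732028) (nat_lit 1) (nat_lit 4) (nat_lit 2) (nat_lit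 5) (nat_lit 2) (nat_lit 4) (nat_lit 338) (nat_lit 202) (nat_lit 180)) (XT.lf (nat_lit 0) (nat_lit 118934972034) (nat_lit 76) (nat_lit 27078023461) (nat_lit 76) (nat_lit 24334885298) (nat_lit 1) (nat_lit 4) (nat_lit 2) (nat_lit 5) (nat_lit 2) (nat_lit 4) (nat_lit 339) (nat_lit 202) (nat_lit 179))) (XT.nd (nat_lit 78) (nat_lit 0) (nat_lit 0) (XT.lf (nat_lit 0) (nat_lit 127500355896) (nat_lit 76) (nat_lit 27048828760) (nat_lit 76) (nat_lit 24242632847) (nat_lit 1) (nat_lit 4) (nat_lit 2) (nat_lit 5) (nat_lit 2) (nat_lit 4) (nat_lit 340) (nat_lit 202) (nat_lit 178)) (XT.nd (nat_lit 78) (nat_lit 0) (nat_lit 0) (XT.lf (nat_lit 0) (nat_lit 136445549457) (nat_lit 76) (nat_lit 27040005940) (nat_lit 76) (nat_lit 24173755028) (nat_lit 1) (nat_lit 4) (nat_lit 2) (nat_lit 5) (nat_lit 2) (nat_lit 4) (nat_lit 341) (nat_lit 202) (nat_lit 177)) (XT.lf (nat_lit 0) (nat_lit 145791850796) (nat_lit 76)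 (nat_lit 27051533995) (nat_lit 76) (nat_lit 24128087844) (nat_lit 1) (nat_lit 4) (nat_lit 2) (nat_lit 5) (nat_lit 2) (nat_lit 4) (nat_lit 342) (nat_lit 202) (nat_lit 176)))))) (XT.nd (nat_lit 312) (nat_lit 0) (nat_lit 0) (XT.nd (nat_lit 156) (nat_lit 0) (nat_lit 0) (XT.nd (nat_lit 78) (nat_lit 0) (nat_lit 0) (XT.lf (nat_lit 0) (nat_lit 155561513011) (nat_lit 76) (nat_lit 27083440371) (nat_lit 76) (nat_lit 24105522565) (nat_lit 1) (nat_lit 4) (nat_lit 2) (nat_lit 5) (nat_lit 2) (nat_lit 4) (nat_lit 343) (nat_lit 202) (nat_lit 175)) (XT.lf (nat_lit 0) (nat_lit 165777797203) (nat_lit 76) (nat_lit 27135801037) (nat_lit 76) (nat_lit 24106005464) (nat_lit 1) (nat_lit 4) (nat_lit 2) (nat_lit 5) (nat_lit 2) (nat_lit 4) (nat_lit 344) (nat_lit 202) (nat_lit 174))) (XT.nd (nat_lit 78) (nat_lit 0) (nat_lit 0) (XT.lf (nat_lit 0) (nat_lit 176465027858) (nat_lit 76) (nat_lit 27208740660) (nat_lit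 76) (nat_lit 24129537690) (nat_lit 1) (nat_lit 4) (nat_lit 2) (nat_lit 5) (nat_lit 2) (nat_lit 4) (nat_lit 345) (nat_lit 202) (nat_lit 173)) (XT.lf (nat_lit 0) (nat_lit 187648650763) (nat_lit 76) (nat_lit 27302432907) (nat_lit 76) (nat_lit 24176175273) (nat_lit 1) (nat_lit 4) (nat_lit 2) (nat_lit 5) (nat_lit 2) (nat_lit 4) (nat_lit 346) (nat_lit 202) (nat_lit 172)))) (XT.nd (nat_lit 156) (nat_lit 0) (nat_lit 0) (XT.nd (nat_lit 78) (nat_lit 0) (nat_lit 0) (XT.lf (nat_lit 0) (nat_lit 199355293592) (nat_lit 76) (nat_lit 27417100854) (nat_lit 76) (nat_lit 24246029255) (nat_lit 1) (nat_lit 4) (nat_lit 2) (nat_lit 5) (nat_lit 2) (nat_lit 4) (nat_lit 347) (nat_lit 202) (nat_lit 171)) (XT.lf (nat_lit 0) (nat_lit 211612829304) (nat_lit 76) (nat_lit 27553017520) (nat_lit 76) (nat_lit 24339265954) (nat_lit 1) (nat_lit 4) (nat_lit 2) (nat_lit 5) (nat_lit 2) (nat_lit 4) (nat_lit 348) (nat_lit 202)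 (nat_lit 170))) (XT.nd (nat_lit 78) (nat_lit 0) (nat_lit 0) (XT.lf (nat_lit 0) (nat_lit 224450442508) (nat_lit 76) (nat_lit 27710506517) (nat_lit 76) (nat_lit 24456107363) (nat_lit 1) (nat_lit 4) (nat_lit 2) (nat_lit 5) (nat_lit 2) (nat_lit 4) (nat_lit 349) (nat_lit 202) (nat_lit 169)) (XT.nd (nat_lit 78) (nat_lit 0) (nat_lit 0) (XT.lf (nat_lit 0) (nat_lit 237898698949) (nat_lit 76) (nat_lit 27889942818) (nat_lit 76) (nat_lit 24596831675) (nat_lit 1) (nat_lit 4) (nat_lit 2) (nat_lit 5) (nat_lit 2) (nat_lit 4) (nat_lit 350) (nat_lit 202) (nat_lit 168)) (XT.lf (nat_lit 0) (nat_lit 251989618286) (nat_lit 76) (nat_lit 28091753652) (nat_lit 76) (nat_lit 24761773949) (nat_lit 1) (nat_lit 4) (nat_lit 2) (nat_lit 5) (nat_lit 2) (nat_lit 4) (nat_lit 351) (nat_lit 202) (nat_lit 167))))))))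
noncomputable def xc19 : XT := (XT.nd (nat_lit 34710) (nat_lit 0) (nat_lit 0) (XT.nd (nat_lit 702) (nat_lit 0) (nat_lit 0) (XT.nd (nat_lit 312) (nat_lit 0) (nat_lit 0) (XT.nd (nat_lit 156) (nat_lit 0) (nat_lit 0) (XT.nd (nat_lit 78) (nat_lit 0) (nat_lit 0) (XT.lf (nat_lit 0) (nat_lit 266756750326) (nat_lit 76) (nat_lit 28316419521) (nat_lit 76) (nat_lit 24951326904) (nat_lit 1) (nat_lit 4) (nat_lit 2) (nat_lit 5) (nat_lit 2) (nat_lit 4) (nat_lit 352) (nat_lit 202) (nat_lit 166)) (XT.lf (nat_lit 0) (nat_lit 282235254909) (nat_lit 76) (nat_lit 28564475345) (nat_lit 76) (nat_lit 25165941857) (nat_lit 1) (nat_lit 4) (nat_lit 2) (nat_lit 5) (nat_lit 2) (nat_lit 4) (nat_lit 353) (nat_lit 202) (nat_lit 165))) (XT.nd (nat_lit 78) (nat_lit 0) (nat_lit 0) (XT.lf (nat_lit 0) (nat_lit 298461985616) (nat_lit 76) (nat_lit 28836511732) (nat_lit 76) (nat_lit 25406129795) (nat_lit 1) (nat_lit 4) (nat_lit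 2) (nat_lit 5) (nat_lit 2) (nat_lit 4) (nat_lit 354) (nat_lit 202) (nat_lit 164)) (XT.lf (nat_lit 0) (nat_lit 315475577520) (nat_lit 76) (nat_lit 29133176387) (nat_lit 76) (nat_lit 25672462595) (nat_lit 1) (nat_lit 4) (nat_lit 2) (nat_lit 5) (nat_lit 2) (nat_lit 4) (nat_lit 355) (nat_lit 202) (nat_lit 163)))) (XT.nd (nat_lit 156) (nat_lit 0) (nat_lit 0) (XT.nd (nat_lit 78) (nat_lit 0) (nat_lit 0) (XT.lf (nat_lit 0) (nat_lit 333316539173) (nat_lit 76) (nat_lit 29455175656) (nat_lit 76) (nat_lit 25965574382) (nat_lit 1) (nat_lit 4) (nat_lit 2) (nat_lit 5) (nat_lit 2) (nat_lit 4) (nat_lit 356) (nat_lit 202) (nat_lit 162)) (XT.lf (nat_lit 0) (nat_lit 352027349056) (nat_lit 76) (nat_lit 29803276204) (nat_lit 76) (nat_lit 26286163042) (nat_lit 1) (nat_lit 4) (nat_lit 2) (nat_lit 5) (nat_lit 2) (nat_lit 4) (nat_lit 357) (nat_lit 202) (nat_lit 161))) (XT.nd (nat_lit 78) (nat_lit 0) (nat_lit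 0) (XT.lf (nat_lit 0) (nat_lit 371652556716) (nat_lit 76) (nat_lit 30178306840) (nat_lit 76) (nat_lit 26634991881) (nat_lit 1) (nat_lit 4) (nat_lit 2) (nat_lit 5) (nat_lit 2) (nat_lit 4) (nat_lit 358) (nat_lit 202) (nat_lit 160)) (XT.nd (nat_lit 78) (nat_lit 0) (nat_lit 0) (XT.lf (nat_lit 0) (nat_lit 392238888838) (nat_lit 76) (nat_lit 30581160496) (nat_lit 76) (nat_lit 27012891443) (nat_lit 1) (nat_lit 4) (nat_lit 2) (nat_lit 5) (nat_lit 2) (nat_lit 4) (nat_lit 359) (nat_lit 202) (nat_lit 159)) (XT.lf (nat_lit 0) (nat_lit 413835360498) (nat_lit 76) (nat_lit 31012796346) (nat_lit 76) (nat_lit 27420761491) (nat_lit 1) (nat_lit 4) (nat_lit 2) (nat_lit 5) (nat_lit 2) (nat_lit 4) (nat_lit 360) (nat_lit 202) (nat_lit 158)))))) (XT.nd (nat_lit 312) (nat_lit 0) (nat_lit 0) (XT.nd (nat_lit 156) (nat_lit 0) (nat_lit 0) (XT.nd (nat_lit 78) (nat_lit 0) (nat_lit 0) (XT.lf (nat_lit 0) (nat_lit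 436493391867) (nat_lit 76) (nat_lit 31474242095) (nat_lit 76) (nat_lit 27859573142) (nat_lit 1) (nat_lit 4) (nat_lit 2) (nat_lit 5) (nat_lit 2) (nat_lit 4) (nat_lit 361) (nat_lit 202) (nat_lit 157)) (XT.lf (nat_lit 0) (nat_lit 460266930638) (nat_lit 76) (nat_lit 31966596423) (nat_lit 76) (nat_lit 28330371186) (nat_lit 1) (nat_lit 4) (nat_lit 2) (nat_lit 5) (nat_lit 2) (nat_lit 4) (nat_lit 362) (nat_lit 202) (nat_lit 156))) (XT.nd (nat_lit 78) (nat_lit 0) (nat_lit 0) (XT.lf (nat_lit 0) (nat_lit 485212580476) (nat_lit 76) (nat_lit 32491031603) (nat_lit 76) (nat_lit 28834276572) (nat_lit 1) (nat_lit 4) (nat_lit 2) (nat_lit 5) (nat_lit 2) (nat_lit 4) (nat_lit 363) (nat_lit 202) (nat_lit 155)) (XT.lf (nat_lit 0) (nat_lit 511389735785) (nat_lit 76) (nat_lit 33048796289) (nat_lit 76) (nat_lit 29372489074) (nat_lit 1) (nat_lit 4) (nat_lit 2) (nat_lit 5) (nat_lit 2) (nat_lit 4) (nat_lit 364)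 (nat_lit 202) (nat_lit 154)))) (XT.nd (nat_lit 156) (nat_lit 0) (nat_lit 0) (XT.nd (nat_lit 78) (nat_lit 0) (nat_lit 0) (XT.lf (nat_lit 0) (nat_lit 538860723125) (nat_lit 76) (nat_lit 33641218494) (nat_lit 76) (nat_lit 29946290150) (nat_lit 1) (nat_lit 4) (nat_lit 2) (nat_lit 5) (nat_lit 2) (nat_lit 4) (nat_lit 365) (nat_lit 202) (nat_lit 153)) (XT.lf (nat_lit 0) (nat_lit 567690949609) (nat_lit 76) (nat_lit 34269708745) (nat_lit 76) (nat_lit 30557045993) (nat_lit 1) (nat_lit 4) (nat_lit 2) (nat_lit 5) (nat_lit 2) (nat_lit 4) (nat_lit 366) (nat_lit 202) (nat_lit 152))) (XT.nd (nat_lit 33384) (nat_lit 0) (nat_lit 76) (XT.lf (nat_lit 0) (nat_lit 597949058633) (nat_lit 76) (nat_lit 34935763448) (nat_lit 76) (nat_lit 31206210785) (nat_lit 1) (nat_lit 4) (nat_lit 2) (nat_lit 5) (nat_lit 2) (nat_lit 4) (nat_lit 367) (nat_lit 202) (nat_lit 151)) (XT.nd (nat_lit 78) (nat_lit 0) (nat_lit 0)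 (XT.lf (nat_lit 0) (nat_lit 8216197429) (nat_lit 152) (nat_lit 9479381311) (nat_lit 0) (nat_lit 8216197429) (nat_lit 2) (nat_lit 5) (nat_lit 4) (nat_lit 4) (nat_lit 2) (nat_lit 4) (nat_lit 314) (nat_lit 203) (nat_lit 203)) (XT.lf (nat_lit 0) (nat_lit 19690128015) (nat_lit 152) (nat_lit 15102493372) (nat_lit 0) (nat_lit 19486760470) (nat_lit 2) (nat_lit 5) (nat_lit 4) (nat_lit 4) (nat_lit 2) (nat_lit 4) (nat_lit 315) (nat_lit 203) (nat_lit 202))))))) (XT.nd (nat_lit 702) (nat_lit 0) (nat_lit 0) (XT.nd (nat_lit 312) (nat_lit 0) (nat_lit 0) (XT.nd (nat_lit 156) (nat_lit 76) (nat_lit 0) (XT.nd (nat_lit 78) (nat_lit 0) (nat_lit 0) (XT.lf (nat_lit 0) (nat_lit 23027310331) (nat_lit 152) (nat_lit 11204695223) (nat_lit 0) (nat_lit 22630259409) (nat_lit 2) (nat_lit 5) (nat_lit 4) (nat_lit 4) (nat_lit 2) (nat_lit 4) (nat_lit 316) (nat_lit 203) (nat_lit 201)) (XT.lf (nat_lit 0) (nat_lit 26451887478)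 (nat_lit 152) (nat_lit 7256087705) (nat_lit 0) (nat_lit 25870376198) (nat_lit 2) (nat_lit 5) (nat_lit 4) (nat_lit 4) (nat_lit 2) (nat_lit 4) (nat_lit 317) (nat_lit 203) (nat_lit 200))) (XT.nd (nat_lit 78) (nat_lit 76) (nat_lit 0) (XT.lf (nat_lit 0) (nat_lit 29972013213) (nat_lit 152) (nat_lit 3247269369) (nat_lit 0) (nat_lit 29214825400) (nat_lit 2) (nat_lit 5) (nat_lit 4) (nat_lit 4) (nat_lit 2) (nat_lit 4) (nat_lit 318) (nat_lit 203) (nat_lit 199)) (XT.lf (nat_lit 0) (nat_lit 858791271) (nat_lit 76) (nat_lit 32750685653) (nat_lit 76) (nat_lit 31826186857) (nat_lit 1) (nat_lit 4) (nat_lit 2) (nat_lit 5) (nat_lit 2) (nat_lit 4) (nat_lit 319) (nat_lit 203) (nat_lit 198)))) (XT.nd (nat_lit 156) (nat_lit 0) (nat_lit 0) (XT.nd (nat_lit 78) (nat_lit 0) (nat_lit 0) (XT.lf (nat_lit 0) (nat_lit 5154315337) (nat_lit 76) (nat_lit 32258840871) (nat_lit 76) (nat_lit 31174998281) (nat_lit 1) (nat_lit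 4) (nat_lit 2) (nat_lit 5) (nat_lit 2) (nat_lit 4) (nat_lit 320) (nat_lit 203) (nat_lit 197)) (XT.lf (nat_lit 0) (nat_lit 9542160875) (nat_lit 76) (nat_lit 31797571256) (nat_lit 76) (nat_lit 30561972673) (nat_lit 1) (nat_lit 4) (nat_lit 2) (nat_lit 5) (nat_lit 2) (nat_lit 4) (nat_lit 321) (nat_lit 203) (nat_lit 196))) (XT.nd (nat_lit 78) (nat_lit 0) (nat_lit 0) (XT.lf (nat_lit 0) (nat_lit 14032775138) (nat_lit 76) (nat_lit 31365778547) (nat_lit 76) (nat_lit 29985650446) (nat_lit 1) (nat_lit 4) (nat_lit 2) (nat_lit 5) (nat_lit 2) (nat_lit 4) (nat_lit 322) (nat_lit 203) (nat_lit 195)) (XT.nd (nat_lit 78) (nat_lit 0) (nat_lit 0) (XT.lf (nat_lit 0) (nat_lit 18636850062) (nat_lit 76) (nat_lit 30962434666) (nat_lit 76) (nat_lit 29444659406) (nat_lit 1) (nat_lit 4) (nat_lit 2) (nat_lit 5) (nat_lit 2) (nat_lit 4) (nat_lit 323) (nat_lit 203) (nat_lit 194)) (XT.lf (nat_lit 0) (nat_lit 23365347733)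 (nat_lit 76) (nat_lit 30586579271) (nat_lit 76) (nat_lit 28937711477) (nat_lit 1) (nat_lit 4) (nat_lit 2) (nat_lit 5) (nat_lit 2) (nat_lit 4) (nat_lit 324) (nat_lit 203) (nat_lit 193)))))) (XT.nd (nat_lit 312) (nat_lit 0) (nat_lit 0) (XT.nd (nat_lit 156) (nat_lit 0) (nat_lit 0) (XT.nd (nat_lit 78) (nat_lit 0) (nat_lit 0) (XT.lf (nat_lit 0) (nat_lit 28229526477) (nat_lit 76) (nat_lit 30237317467) (nat_lit 76) (nat_lit 28463599642) (nat_lit 1) (nat_lit 4) (nat_lit 2) (nat_lit 5) (nat_lit 2) (nat_lit 4) (nat_lit 325) (nat_lit 203) (nat_lit 192)) (XT.lf (nat_lit 0) (nat_lit 33240967672) (nat_lit 76) (nat_lit 29913817680) (nat_lit 76) (nat_lit 28021195063) (nat_lit 1) (nat_lit 4) (nat_lit 2) (nat_lit 5) (nat_lit 2) (nat_lit 4) (nat_lit 326) (nat_lit 203) (nat_lit 191))) (XT.nd (nat_lit 78) (nat_lit 0) (nat_lit 0) (XT.lf (nat_lit 0) (nat_lit 38411603322) (nat_lit 76) (nat_lit 29615309671)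 (nat_lit 76) (nat_lit 27609444395) (nat_lit 1) (nat_lit 4) (nat_lit 2) (nat_lit 5) (nat_lit 2) (nat_lit 4) (nat_lit 327) (nat_lit 203) (nat_lit 190)) (XT.lf (nat_lit 0) (nat_lit 43753744463) (nat_lit 76) (nat_lit 29341082707) (nat_lit 76) (nat_lit 27227367279) (nat_lit 1) (nat_lit 4) (nat_lit 2) (nat_lit 5) (nat_lit 2) (nat_lit 4) (nat_lit 328) (nat_lit 203) (nat_lit 189)))) (XT.nd (nat_lit 156) (nat_lit 0) (nat_lit 0) (XT.nd (nat_lit 78) (nat_lit 0) (nat_lit 0) (XT.lf (nat_lit 0) (nat_lit 49280110479) (nat_lit 76) (nat_lit 29090483867) (nat_lit 76) (nat_lit 26874054009) (nat_lit 1) (nat_lit 4) (nat_lit 2) (nat_lit 5) (nat_lit 2) (nat_lit 4) (nat_lit 329) (nat_lit 203) (nat_lit 188)) (XT.lf (nat_lit 0) (nat_lit 55003859385) (nat_lit 76) (nat_lit 28862916486) (nat_lit 76) (nat_lit 26548663362) (nat_lit 1) (nat_lit 4) (nat_lit 2) (nat_lit 5) (nat_lit 2) (nat_lit 4) (nat_lit 330) (nat_lit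 203) (nat_lit 187))) (XT.nd (nat_lit 78) (nat_lit 0) (nat_lit 0) (XT.lf (nat_lit 0) (nat_lit 60938619153) (nat_lit 76) (nat_lit 28657838739) (nat_lit 76) (nat_lit 26250420599) (nat_lit 1) (nat_lit 4) (nat_lit 2) (nat_lit 5) (nat_lit 2) (nat_lit 4) (nat_lit 331) (nat_lit 203) (nat_lit 186)) (XT.nd (nat_lit 78) (nat_lit 0) (nat_lit 0) (XT.lf (nat_lit 0) (nat_lit 67098520166) (nat_lit 76) (nat_lit 28474762343) (nat_lit 76) (nat_lit 25978615617) (nat_lit 1) (nat_lit 4) (nat_lit 2) (nat_lit 5) (nat_lit 2) (nat_lit 4) (nat_lit 332) (nat_lit 203) (nat_lit 185)) (XT.lf (nat_lit 0) (nat_lit 73498228852) (nat_lit 76) (nat_lit 28313251404) (nat_lit 76) (nat_lit 25732601263) (nat_lit 1) (nat_lit 4) (nat_lit 2) (nat_lit 5) (nat_lit 2) (nat_lit 4) (nat_lit 333) (nat_lit 203) (nat_lit 184))))))))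
noncomputable def xc20 : XT := (XT.nd (nat_lit 1404) (nat_lit 0) (nat_lit 0) (XT.nd (nat_lit 702) (nat_lit 0) (nat_lit 0) (XT.nd (nat_lit 312) (nat_lit 0) (nat_lit 0) (XT.nd (nat_lit 156) (nat_lit 0) (nat_lit 0) (XT.nd (nat_lit 78) (nat_lit 0) (nat_lit 0) (XT.lf (nat_lit 0) (nat_lit 80152982615) (nat_lit 76) (nat_lit 28172921372) (nat_lit 76) (nat_lit 25511791787) (nat_lit 1) (nat_lit 4) (nat_lit 2) (nat_lit 5) (nat_lit 2) (nat_lit 4) (nat_lit 334) (nat_lit 203) (nat_lit 183)) (XT.lf (nat_lit 0) (nat_lit 87078626106) (nat_lit 76) (nat_lit 28053438126) (nat_lit 76) (nat_lit 25315661452) (nat_lit 1) (nat_lit 4) (nat_lit 2) (nat_lit 5) (nat_lit 2) (nat_lit 4) (nat_lit 335) (nat_lit 203) (nat_lit 182))) (XT.nd (nat_lit 78) (nat_lit 0) (nat_lit 0) (XT.lf (nat_lit 0) (nat_lit 94291648952) (nat_lit 76) (nat_lit 27954517184) (nat_lit 76) (nat_lit 25143743282) (nat_lit 1) (nat_lit 4) (nat_lit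 2) (nat_lit 5) (nat_lit 2) (nat_lit 4) (nat_lit 336) (nat_lit 203) (nat_lit 181)) (XT.lf (nat_lit 0) (nat_lit 101809225018) (nat_lit 76) (nat_lit 27875923019) (nat_lit 76) (nat_lit 24995627948) (nat_lit 1) (nat_lit 4) (nat_lit 2) (nat_lit 5) (nat_lit 2) (nat_lit 4) (nat_lit 337) (nat_lit 203) (nat_lit 180)))) (XT.nd (nat_lit 156) (nat_lit 0) (nat_lit 0) (XT.nd (nat_lit 78) (nat_lit 0) (nat_lit 0) (XT.lf (nat_lit 0) (nat_lit 109649253293) (nat_lit 76) (nat_lit 27817468503) (nat_lit 76) (nat_lit 24870962794) (nat_lit 1) (nat_lit 4) (nat_lit 2) (nat_lit 5) (nat_lit 2) (nat_lit 4) (nat_lit 338) (nat_lit 203) (nat_lit 179)) (XT.lf (nat_lit 0) (nat_lit 117830400512) (nat_lit 76) (nat_lit 27779014457) (nat_lit 76) (nat_lit 24769450999) (nat_lit 1) (nat_lit 4) (nat_lit 2) (nat_lit 5) (nat_lit 2) (nat_lit 4) (nat_lit 339) (nat_lit 203) (nat_lit 178))) (XT.nd (nat_lit 78) (nat_lit 0) (nat_lit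 0) (XT.lf (nat_lit 0) (nat_lit 126372145597) (nat_lit 76) (nat_lit 27760469325) (nat_lit 76) (nat_lit 24690850867) (nat_lit 1) (nat_lit 4) (nat_lit 2) (nat_lit 5) (nat_lit 2) (nat_lit 4) (nat_lit 340) (nat_lit 203) (nat_lit 177)) (XT.nd (nat_lit 78) (nat_lit 0) (nat_lit 0) (XT.lf (nat_lit 0) (nat_lit 135294826035) (nat_lit 76) (nat_lit 27761788952) (nat_lit 76) (nat_lit 24634975256) (nat_lit 1) (nat_lit 4) (nat_lit 2) (nat_lit 5) (nat_lit 2) (nat_lit 4) (nat_lit 341) (nat_lit 203) (nat_lit 176)) (XT.lf (nat_lit 0) (nat_lit 144619686306) (nat_lit 76) (nat_lit 27782976479) (nat_lit 76) (nat_lit 24601691128) (nat_lit 1) (nat_lit 4) (nat_lit 2) (nat_lit 5) (nat_lit 2) (nat_lit 4) (nat_lit 342) (nat_lit 203) (nat_lit 175)))))) (XT.nd (nat_lit 312) (nat_lit 0) (nat_lit 0) (XT.nd (nat_lit 156) (nat_lit 0) (nat_lit 0) (XT.nd (nat_lit 78) (nat_lit 0) (nat_lit 0) (XT.lf (nat_lit 0) (nat_lit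 154368928455) (nat_lit 76) (nat_lit 27824082353) (nat_lit 76) (nat_lit 24590919235) (nat_lit 1) (nat_lit 4) (nat_lit 2) (nat_lit 5) (nat_lit 2) (nat_lit 4) (nat_lit 343) (nat_lit 203) (nat_lit 174)) (XT.lf (nat_lit 0) (nat_lit 164565764966) (nat_lit 76) (nat_lit 27885204445) (nat_lit 76) (nat_lit 24602633930) (nat_lit 1) (nat_lit 4) (nat_lit 2) (nat_lit 5) (nat_lit 2) (nat_lit 4) (nat_lit 344) (nat_lit 203) (nat_lit 173))) (XT.nd (nat_lit 78) (nat_lit 0) (nat_lit 0) (XT.lf (nat_lit 0) (nat_lit 175234474019) (nat_lit 76) (nat_lit 27966488284) (nat_lit 76) (nat_lit 24636863105) (nat_lit 1) (nat_lit 4) (nat_lit 2) (nat_lit 5) (nat_lit 2) (nat_lit 4) (nat_lit 345) (nat_lit 203) (nat_lit 172)) (XT.lf (nat_lit 0) (nat_lit 186400457304) (nat_lit 76) (nat_lit 28068127403) (nat_lit 76) (nat_lit 24693688259) (nat_lit 1) (nat_lit 4) (nat_lit 2) (nat_lit 5) (nat_lit 2) (nat_lit 4) (nat_lit 346)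 (nat_lit 203) (nat_lit 171)))) (XT.nd (nat_lit 156) (nat_lit 0) (nat_lit 0) (XT.nd (nat_lit 78) (nat_lit 0) (nat_lit 0) (XT.lf (nat_lit 0) (nat_lit 198090300495) (nat_lit 76) (nat_lit 28190363800) (nat_lit 76) (nat_lit 24773244688) (nat_lit 1) (nat_lit 4) (nat_lit 2) (nat_lit 5) (nat_lit 2) (nat_lit 4) (nat_lit 347) (nat_lit 203) (nat_lit 170)) (XT.lf (nat_lit 0) (nat_lit 210331836552) (nat_lit 76) (nat_lit 28333488514) (nat_lit 76) (nat_lit 24875721814) (nat_lit 1) (nat_lit 4) (nat_lit 2) (nat_lit 5) (nat_lit 2) (nat_lit 4) (nat_lit 348) (nat_lit 203) (nat_lit 169))) (XT.nd (nat_lit 78) (nat_lit 0) (nat_lit 0) (XT.lf (nat_lit 0) (nat_lit 223154211988) (nat_lit 76) (nat_lit 28497842317) (nat_lit 76) (nat_lit 25001363630) (nat_lit 1) (nat_lit 4) (nat_lit 2) (nat_lit 5) (nat_lit 2) (nat_lit 4) (nat_lit 349) (nat_lit 203) (nat_lit 168)) (XT.nd (nat_lit 78) (nat_lit 0) (nat_lit 0) (XT.lf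 (nat_lit 0) (nat_lit 236587956270) (nat_lit 76) (nat_lit 28683816529) (nat_lit 76) (nat_lit 25150469281) (nat_lit 1) (nat_lit 4) (nat_lit 2) (nat_lit 5) (nat_lit 2) (nat_lit 4) (nat_lit 350) (nat_lit 203) (nat_lit 167)) (XT.lf (nat_lit 0) (nat_lit 250665054503) (nat_lit 76) (nat_lit 28891853946) (nat_lit 76) (nat_lit 25323393783) (nat_lit 1) (nat_lit 4) (nat_lit 2) (nat_lit 5) (nat_lit 2) (nat_lit 4) (nat_lit 351) (nat_lit 203) (nat_lit 166))))))) (XT.nd (nat_lit 702) (nat_lit 0) (nat_lit 0) (XT.nd (nat_lit 312) (nat_lit 0) (nat_lit 0) (XT.nd (nat_lit 156) (nat_lit 0) (nat_lit 0) (XT.nd (nat_lit 78) (nat_lit 0) (nat_lit 0) (XT.lf (nat_lit 0) (nat_lit 265419023588) (nat_lit 76) (nat_lit 29122449894) (nat_lit 76) (nat_lit 25520548860) (nat_lit 1) (nat_lit 4) (nat_lit 2) (nat_lit 5) (nat_lit 2) (nat_lit 4) (nat_lit 352) (nat_lit 203) (nat_lit 165)) (XT.lf (nat_lit 0) (nat_lit 280884992021)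 (nat_lit 76) (nat_lit 29376153411) (nat_lit 76) (nat_lit 25742403929) (nat_lit 1) (nat_lit 4) (nat_lit 2) (nat_lit 5) (nat_lit 2) (nat_lit 4) (nat_lit 353) (nat_lit 203) (nat_lit 164))) (XT.nd (nat_lit 78) (nat_lit 0) (nat_lit 0) (XT.lf (nat_lit 0) (nat_lit 297099783539) (nat_lit 76) (nat_lit 29653568554) (nat_lit 76) (nat_lit 25989487215) (nat_lit 1) (nat_lit 4) (nat_lit 2) (nat_lit 5) (nat_lit 2) (nat_lit 4) (nat_lit 354) (nat_lit 203) (nat_lit 163)) (XT.lf (nat_lit 0) (nat_lit 314102004786) (nat_lit 76) (nat_lit 29955355834) (nat_lit 76) (nat_lit 26262387014) (nat_lit 1) (nat_lit 4) (nat_lit 2) (nat_lit 5) (nat_lit 2) (nat_lit 4) (nat_lit 355) (nat_lit 203) (nat_lit 162)))) (XT.nd (nat_lit 156) (nat_lit 0) (nat_lit 0) (XT.nd (nat_lit 78) (nat_lit 0) (nat_lit 0) (XT.lf (nat_lit 0) (nat_lit 331932137243) (nat_lit 76) (nat_lit 30282233793) (nat_lit 76) (nat_lit 26561753086) (nat_lit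 1) (nat_lit 4) (nat_lit 2) (nat_lit 5) (nat_lit 2) (nat_lit 4) (nat_lit 356) (nat_lit 203) (nat_lit 161)) (XT.lf (nat_lit 0) (nat_lit 350632633605) (nat_lit 76) (nat_lit 30634980712) (nat_lit 76) (nat_lit 26888298207) (nat_lit 1) (nat_lit 4) (nat_lit 2) (nat_lit 5) (nat_lit 2) (nat_lit 4) (nat_lit 357) (nat_lit 203) (nat_lit 160))) (XT.nd (nat_lit 78) (nat_lit 0) (nat_lit 0) (XT.lf (nat_lit 0) (nat_lit 370248018865) (nat_lit 76) (nat_lit 31014436464) (nat_lit 76) (nat_lit 27242799867) (nat_lit 1) (nat_lit 4) (nat_lit 2) (nat_lit 5) (nat_lit 2) (nat_lit 4) (nat_lit 358) (nat_lit 203) (nat_lit 159)) (XT.nd (nat_lit 78) (nat_lit 0) (nat_lit 0) (XT.lf (nat_lit 0) (nat_lit 390824996319) (nat_lit 76) (nat_lit 31421504516) (nat_lit 76) (nat_lit 27626102115) (nat_lit 1) (nat_lit 4) (nat_lit 2) (nat_lit 5) (nat_lit 2) (nat_lit 4) (nat_lit 359) (nat_lit 203) (nat_lit 158)) (XT.lf (nat_lit 0)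 (nat_lit 412412558772) (nat_lit 76) (nat_lit 31857154076) (nat_lit 76) (nat_lit 28039117578) (nat_lit 1) (nat_lit 4) (nat_lit 2) (nat_lit 5) (nat_lit 2) (nat_lit 4) (nat_lit 360) (nat_lit 203) (nat_lit 157)))))) (XT.nd (nat_lit 312) (nat_lit 0) (nat_lit 0) (XT.nd (nat_lit 156) (nat_lit 0) (nat_lit 0) (XT.nd (nat_lit 78) (nat_lit 0) (nat_lit 0) (XT.lf (nat_lit 0) (nat_lit 435062105183) (nat_lit 76) (nat_lit 32322422407) (nat_lit 76) (nat_lit 28482829625) (nat_lit 1) (nat_lit 4) (nat_lit 2) (nat_lit 5) (nat_lit 2) (nat_lit 4) (nat_lit 361) (nat_lit 203) (nat_lit 156)) (XT.lf (nat_lit 0) (nat_lit 458827563041) (nat_lit 76) (nat_lit 32818417289) (nat_lit 76) (nat_lit 28958294713) (nat_lit 1) (nat_lit 4) (nat_lit 2) (nat_lit 5) (nat_lit 2) (nat_lit 4) (nat_lit 362) (nat_lit 203) (nat_lit 155))) (XT.nd (nat_lit 78) (nat_lit 0) (nat_lit 0) (XT.lf (nat_lit 0) (nat_lit 483765516771) (nat_lit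 76) (nat_lit 33346319663) (nat_lit 76) (nat_lit 29466644902) (nat_lit 1) (nat_lit 4) (nat_lit 2) (nat_lit 5) (nat_lit 2) (nat_lit 4) (nat_lit 363) (nat_lit 203) (nat_lit 154)) (XT.lf (nat_lit 0) (nat_lit 509935342453) (nat_lit 76) (nat_lit 33907386439) (nat_lit 76) (nat_lit 30009090549) (nat_lit 1) (nat_lit 4) (nat_lit 2) (nat_lit 5) (nat_lit 2) (nat_lit 4) (nat_lit 364) (nat_lit 203) (nat_lit 153)))) (XT.nd (nat_lit 156) (nat_lit 0) (nat_lit 0) (XT.nd (nat_lit 78) (nat_lit 0) (nat_lit 0) (XT.lf (nat_lit 0) (nat_lit 537399349197) (nat_lit 76) (nat_lit 34502953490) (nat_lit 76) (nat_lit 30586923193) (nat_lit 1) (nat_lit 4) (nat_lit 2) (nat_lit 5) (nat_lit 2) (nat_lit 4) (nat_lit 365) (nat_lit 203) (nat_lit 152)) (XT.lf (nat_lit 0) (nat_lit 566222927493) (nat_lit 76) (nat_lit 35134438834) (nat_lit 76) (nat_lit 31201518625) (nat_lit 1) (nat_lit 4) (nat_lit 2) (nat_lit 5) (nat_lit 2) (nat_lit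 4) (nat_lit 366) (nat_lit 203) (nat_lit 151))) (XT.nd (nat_lit 33228) (nat_lit 0) (nat_lit 76) (XT.lf (nat_lit 0) (nat_lit 596474704910) (nat_lit 76) (nat_lit 35803346006) (nat_lit 76) (nat_lit 31854340166) (nat_lit 1) (nat_lit 4) (nat_lit 2) (nat_lit 5) (nat_lit 2) (nat_lit 4) (nat_lit 367) (nat_lit 203) (nat_lit 150)) (XT.nd (nat_lit 78) (nat_lit 0) (nat_lit 0) (XT.lf (nat_lit 0) (nat_lit 5191414854) (nat_lit 152) (nat_lit 13251001104) (nat_lit 0) (nat_lit 5191414854) (nat_lit 2) (nat_lit 5) (nat_lit 4) (nat_lit 4) (nat_lit 2) (nat_lit 4) (nat_lit 312) (nat_lit 204) (nat_lit 204)) (XT.lf (nat_lit 0) (nat_lit 13459890277) (nat_lit 152) (nat_lit 22782684568) (nat_lit 0) (nat_lit 13246354355) (nat_lit 2) (nat_lit 5) (nat_lit 4) (nat_lit 4) (nat_lit 2) (nat_lit 4) (nat_lit 313) (nat_lit 204) (nat_lit 203))))))))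
noncomputable def xc21 : XT := (XT.nd (nat_lit 1404) (nat_lit 0) (nat_lit 0) (XT.nd (nat_lit 702) (nat_lit 0) (nat_lit 0) (XT.nd (nat_lit 312) (nat_lit 76) (nat_lit 0) (XT.nd (nat_lit 156) (nat_lit 0) (nat_lit 0) (XT.nd (nat_lit 78) (nat_lit 0) (nat_lit 0) (XT.lf (nat_lit 0) (nat_lit 16603194502) (nat_lit 152) (nat_lit 19036249838) (nat_lit 0) (nat_lit 16186291034) (nat_lit 2) (nat_lit 5) (nat_lit 4) (nat_lit 4) (nat_lit 2) (nat_lit 4) (nat_lit 314) (nat_lit 204) (nat_lit 202)) (XT.lf (nat_lit 0) (nat_lit 19820226440) (nat_lit 152) (nat_lit 15253777936) (nat_lit 0) (nat_lit 19209639595) (nat_lit 2) (nat_lit 5) (nat_lit 4) (nat_lit 4) (nat_lit 2) (nat_lit 4) (nat_lit 315) (nat_lit 204) (nat_lit 201))) (XT.nd (nat_lit 78) (nat_lit 0) (nat_lit 0) (XT.lf (nat_lit 0) (nat_lit 23118645690) (nat_lit 152) (nat_lit 11426262976) (nat_lit 0) (nat_lit 22323598486) (nat_lit 2) (nat_lit 5) (nat_lit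 4) (nat_lit 4) (nat_lit 2) (nat_lit 4) (nat_lit 316) (nat_lit 204) (nat_lit 200)) (XT.lf (nat_lit 0) (nat_lit 26506305632) (nat_lit 152) (nat_lit 7544591828) (nat_lit 0) (nat_lit 25535581897) (nat_lit 2) (nat_lit 5) (nat_lit 4) (nat_lit 4) (nat_lit 2) (nat_lit 4) (nat_lit 317) (nat_lit 204) (nat_lit 199)))) (XT.nd (nat_lit 156) (nat_lit 0) (nat_lit 0) (XT.nd (nat_lit 78) (nat_lit 76) (nat_lit 0) (XT.lf (nat_lit 0) (nat_lit 29991272124) (nat_lit 152) (nat_lit 3599522417) (nat_lit 0) (nat_lit 28853237405) (nat_lit 2) (nat_lit 5) (nat_lit 4) (nat_lit 4) (nat_lit 2) (nat_lit 4) (nat_lit 318) (nat_lit 204) (nat_lit 198)) (XT.lf (nat_lit 0) (nat_lit 432170431) (nat_lit 76) (nat_lit 33156419663) (nat_lit 76) (nat_lit 31859041151) (nat_lit 1) (nat_lit 4) (nat_lit 2) (nat_lit 5) (nat_lit 2) (nat_lit 4) (nat_lit 319) (nat_lit 204) (nat_lit 197))) (XT.nd (nat_lit 78) (nat_lit 0) (nat_lit 0) (XT.lf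 (nat_lit 0) (nat_lit 4667960482) (nat_lit 76) (nat_lit 32691485811) (nat_lit 76) (nat_lit 31242351306) (nat_lit 1) (nat_lit 4) (nat_lit 2) (nat_lit 5) (nat_lit 2) (nat_lit 4) (nat_lit 320) (nat_lit 204) (nat_lit 196)) (XT.nd (nat_lit 78) (nat_lit 0) (nat_lit 0) (XT.lf (nat_lit 0) (nat_lit 8998916482) (nat_lit 76) (nat_lit 32255845653) (nat_lit 76) (nat_lit 30662181630) (nat_lit 1) (nat_lit 4) (nat_lit 2) (nat_lit 5) (nat_lit 2) (nat_lit 4) (nat_lit 321) (nat_lit 204) (nat_lit 195)) (XT.lf (nat_lit 0) (nat_lit 13435350232) (nat_lit 76) (nat_lit 31848461951) (nat_lit 76) (nat_lit 30117150768) (nat_lit 1) (nat_lit 4) (nat_lit 2) (nat_lit 5) (nat_lit 2) (nat_lit 4) (nat_lit 322) (nat_lit 204) (nat_lit 194)))))) (XT.nd (nat_lit 312) (nat_lit 0) (nat_lit 0) (XT.nd (nat_lit 156) (nat_lit 0) (nat_lit 0) (XT.nd (nat_lit 78) (nat_lit 0) (nat_lit 0) (XT.lf (nat_lit 0) (nat_lit 17987824668) (nat_lit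 76) (nat_lit 31468364743) (nat_lit 76) (nat_lit 29605961027) (nat_lit 1) (nat_lit 4) (nat_lit 2) (nat_lit 5) (nat_lit 2) (nat_lit 4) (nat_lit 323) (nat_lit 204) (nat_lit 193)) (XT.lf (nat_lit 0) (nat_lit 22667179017) (nat_lit 76) (nat_lit 31114649036) (nat_lit 76) (nat_lit 29127395289) (nat_lit 1) (nat_lit 4) (nat_lit 2) (nat_lit 5) (nat_lit 2) (nat_lit 4) (nat_lit 324) (nat_lit 204) (nat_lit 192))) (XT.nd (nat_lit 78) (nat_lit 0) (nat_lit 0) (XT.lf (nat_lit 0) (nat_lit 27484554597) (nat_lit 76) (nat_lit 30786472651) (nat_lit 76) (nat_lit 28680314111) (nat_lit 1) (nat_lit 4) (nat_lit 2) (nat_lit 5) (nat_lit 2) (nat_lit 4) (nat_lit 325) (nat_lit 204) (nat_lit 191)) (XT.lf (nat_lit 0) (nat_lit 32451421351) (nat_lit 76) (nat_lit 30483054213) (nat_lit 76) (nat_lit 28263653015) (nat_lit 1) (nat_lit 4) (nat_lit 2) (nat_lit 5) (nat_lit 2) (nat_lit 4) (nat_lit 326) (nat_lit 204) (nat_lit 190))))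 (XT.nd (nat_lit 156) (nat_lit 0) (nat_lit 0) (XT.nd (nat_lit 78) (nat_lit 0) (nat_lit 0) (XT.lf (nat_lit 0) (nat_lit 37579605151) (nat_lit 76) (nat_lit 30203671300) (nat_lit 76) (nat_lit 27876419950) (nat_lit 1) (nat_lit 4) (nat_lit 2) (nat_lit 5) (nat_lit 2) (nat_lit 4) (nat_lit 327) (nat_lit 204) (nat_lit 189)) (XT.lf (nat_lit 0) (nat_lit 42881315959) (nat_lit 76) (nat_lit 29947658712) (nat_lit 76) (nat_lit 27517692932) (nat_lit 1) (nat_lit 4) (nat_lit 2) (nat_lit 5) (nat_lit 2) (nat_lit 4) (nat_lit 328) (nat_lit 204) (nat_lit 188))) (XT.nd (nat_lit 78) (nat_lit 0) (nat_lit 0) (XT.lf (nat_lit 0) (nat_lit 48369176897) (nat_lit 76) (nat_lit 29714406897) (nat_lit 76) (nat_lit 27186617851) (nat_lit 1) (nat_lit 4) (nat_lit 2) (nat_lit 5) (nat_lit 2) (nat_lit 4) (nat_lit 329) (nat_lit 204) (nat_lit 187)) (XT.nd (nat_lit 78) (nat_lit 0) (nat_lit 0) (XT.lf (nat_lit 0) (nat_lit 54056254299)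 (nat_lit 76) (nat_lit 29503360493) (nat_lit 76) (nat_lit 26882406431) (nat_lit 1) (nat_lit 4) (nat_lit 2) (nat_lit 5) (nat_lit 2) (nat_lit 4) (nat_lit 330) (nat_lit 204) (nat_lit 186)) (XT.lf (nat_lit 0) (nat_lit 59956088826) (nat_lit 76) (nat_lit 29314017009) (nat_lit 76) (nat_lit 26604334360) (nat_lit 1) (nat_lit 4) (nat_lit 2) (nat_lit 5) (nat_lit 2) (nat_lit 4) (nat_lit 331) (nat_lit 204) (nat_lit 185))))))) (XT.nd (nat_lit 702) (nat_lit 0) (nat_lit 0) (XT.nd (nat_lit 312) (nat_lit 0) (nat_lit 0) (XT.nd (nat_lit 156) (nat_lit 0) (nat_lit 0) (XT.nd (nat_lit 78) (nat_lit 0) (nat_lit 0) (XT.lf (nat_lit 0) (nat_lit 66082727704) (nat_lit 76) (nat_lit 29145925627) (nat_lit 76) (nat_lit 26351739562) (nat_lit 1) (nat_lit 4) (nat_lit 2) (nat_lit 5) (nat_lit 2) (nat_lit 4) (nat_lit 332) (nat_lit 204) (nat_lit 184)) (XT.lf (nat_lit 0) (nat_lit 72450758167) (nat_lit 76) (nat_lit 28998686128)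 (nat_lit 76) (nat_lit 26124020620) (nat_lit 1) (nat_lit 4) (nat_lit 2) (nat_lit 5) (nat_lit 2) (nat_lit 4) (nat_lit 333) (nat_lit 204) (nat_lit 183))) (XT.nd (nat_lit 78) (nat_lit 0) (nat_lit 0) (XT.lf (nat_lit 0) (nat_lit 79075342193) (nat_lit 76) (nat_lit 28871947944) (nat_lit 76) (nat_lit 25920635347) (nat_lit 1) (nat_lit 4) (nat_lit 2) (nat_lit 5) (nat_lit 2) (nat_lit 4) (nat_lit 334) (nat_lit 204) (nat_lit 182)) (XT.lf (nat_lit 0) (nat_lit 85972252602) (nat_lit 76) (nat_lit 28765409316) (nat_lit 76) (nat_lit 25741099491) (nat_lit 1) (nat_lit 4) (nat_lit 2) (nat_lit 5) (nat_lit 2) (nat_lit 4) (nat_lit 335) (nat_lit 204) (nat_lit 181)))) (XT.nd (nat_lit 156) (nat_lit 0) (nat_lit 0) (XT.nd (nat_lit 78) (nat_lit 0) (nat_lit 0) (XT.lf (nat_lit 0) (nat_lit 93157910607) (nat_lit 76) (nat_lit 28678816581) (nat_lit 76) (nat_lit 25584985587) (nat_lit 1) (nat_lit 4) (nat_lit 2) (nat_lit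 5) (nat_lit 2) (nat_lit 4) (nat_lit 336) (nat_lit 204) (nat_lit 180)) (XT.lf (nat_lit 0) (nat_lit 100649424920) (nat_lit 76) (nat_lit 28611963565) (nat_lit 76) (nat_lit 25451921934) (nat_lit 1) (nat_lit 4) (nat_lit 2) (nat_lit 5) (nat_lit 2) (nat_lit 4) (nat_lit 337) (nat_lit 204) (nat_lit 179))) (XT.nd (nat_lit 78) (nat_lit 0) (nat_lit 0) (XT.lf (nat_lit 0) (nat_lit 108464632478) (nat_lit 76) (nat_lit 28564691096) (nat_lit 76) (nat_lit 25341591715) (nat_lit 1) (nat_lit 4) (nat_lit 2) (nat_lit 5) (nat_lit 2) (nat_lit 4) (nat_lit 338) (nat_lit 204) (nat_lit 178)) (XT.nd (nat_lit 78) (nat_lit 0) (nat_lit 0) (XT.lf (nat_lit 0) (nat_lit 116622140919) (nat_lit 76) (nat_lit 28536886619) (nat_lit 76) (nat_lit 25253732238) (nat_lit 1) (nat_lit 4) (nat_lit 2) (nat_lit 5) (nat_lit 2) (nat_lit 4) (nat_lit 339) (nat_lit 204) (nat_lit 177)) (XT.lf (nat_lit 0) (nat_lit 125141372881) (nat_lit 76)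 (nat_lit 28528483934) (nat_lit 76) (nat_lit 25188134315) (nat_lit 1) (nat_lit 4) (nat_lit 2) (nat_lit 5) (nat_lit 2) (nat_lit 4) (nat_lit 340) (nat_lit 204) (nat_lit 176)))))) (XT.nd (nat_lit 312) (nat_lit 0) (nat_lit 0) (XT.nd (nat_lit 156) (nat_lit 0) (nat_lit 0) (XT.nd (nat_lit 78) (nat_lit 0) (nat_lit 0) (XT.lf (nat_lit 0) (nat_lit 134042612252) (nat_lit 76) (nat_lit 28539463033) (nat_lit 76) (nat_lit 25144641759) (nat_lit 1) (nat_lit 4) (nat_lit 2) (nat_lit 5) (nat_lit 2) (nat_lit 4) (nat_lit 341) (nat_lit 204) (nat_lit 175)) (XT.lf (nat_lit 0) (nat_lit 143347052457) (nat_lit 76) (nat_lit 28569850058) (nat_lit 76) (nat_lit 25123151017) (nat_lit 1) (nat_lit 4) (nat_lit 2) (nat_lit 5) (nat_lit 2) (nat_lit 4) (nat_lit 342) (nat_lit 204) (nat_lit 174))) (XT.nd (nat_lit 78) (nat_lit 0) (nat_lit 0) (XT.lf (nat_lit 0) (nat_lit 153076846925) (nat_lit 76) (nat_lit 28619717358) (nat_lit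 76) (nat_lit 25123610921) (nat_lit 1) (nat_lit 4) (nat_lit 2) (nat_lit 5) (nat_lit 2) (nat_lit 4) (nat_lit 343) (nat_lit 204) (nat_lit 173)) (XT.lf (nat_lit 0) (nat_lit 163255161834) (nat_lit 76) (nat_lit 28689183666) (nat_lit 76) (nat_lit 25146022565) (nat_lit 1) (nat_lit 4) (nat_lit 2) (nat_lit 5) (nat_lit 2) (nat_lit 4) (nat_lit 344) (nat_lit 204) (nat_lit 172)))) (XT.nd (nat_lit 156) (nat_lit 0) (nat_lit 0) (XT.nd (nat_lit 78) (nat_lit 0) (nat_lit 0) (XT.lf (nat_lit 0) (nat_lit 173906231268) (nat_lit 76) (nat_lit 28778414378) (nat_lit 76) (nat_lit 25190439311) (nat_lit 1) (nat_lit 4) (nat_lit 2) (nat_lit 5) (nat_lit 2) (nat_lit 4) (nat_lit 345) (nat_lit 204) (nat_lit 171)) (XT.lf (nat_lit 0) (nat_lit 185055414914) (nat_lit 76) (nat_lit 28887621946) (nat_lit 76) (nat_lit 25256966912) (nat_lit 1) (nat_lit 4) (nat_lit 2) (nat_lit 5) (nat_lit 2) (nat_lit 4) (nat_lit 346) (nat_lit 204)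 (nat_lit 170))) (XT.nd (nat_lit 78) (nat_lit 0) (nat_lit 0) (XT.lf (nat_lit 0) (nat_lit 196729258450) (nat_lit 76) (nat_lit 29017066391) (nat_lit 76) (nat_lit 25345763768) (nat_lit 1) (nat_lit 4) (nat_lit 2) (nat_lit 5) (nat_lit 2) (nat_lit 4) (nat_lit 347) (nat_lit 204) (nat_lit 169)) (XT.nd (nat_lit 78) (nat_lit 0) (nat_lit 0) (XT.lf (nat_lit 0) (nat_lit 208955556739) (nat_lit 76) (nat_lit 29167055911) (nat_lit 76) (nat_lit 25457041301) (nat_lit 1) (nat_lit 4) (nat_lit 2) (nat_lit 5) (nat_lit 2) (nat_lit 4) (nat_lit 348) (nat_lit 204) (nat_lit 168)) (XT.lf (nat_lit 0) (nat_lit 221763420016) (nat_lit 76) (nat_lit 29337947626) (nat_lit 76) (nat_lit 25591064455) (nat_lit 1) (nat_lit 4) (nat_lit 2) (nat_lit 5) (nat_lit 2) (nat_lit 4) (nat_lit 349) (nat_lit 204) (nat_lit 167))))))))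
noncomputable def xc22 : XT := (XT.nd (nat_lit 34398) (nat_lit 0) (nat_lit 0) (XT.nd (nat_lit 702) (nat_lit 0) (nat_lit 0) (XT.nd (nat_lit 312) (nat_lit 0) (nat_lit 0) (XT.nd (nat_lit 156) (nat_lit 0) (nat_lit 0) (XT.nd (nat_lit 78) (nat_lit 0) (nat_lit 0) (XT.lf (nat_lit 0) (nat_lit 235183343194) (nat_lit 76) (nat_lit 29530148421) (nat_lit 76) (nat_lit 25748152335) (nat_lit 1) (nat_lit 4) (nat_lit 2) (nat_lit 5) (nat_lit 2) (nat_lit 4) (nat_lit 350) (nat_lit 204) (nat_lit 166)) (XT.lf (nat_lit 0) (nat_lit 249247278471) (nat_lit 76) (nat_lit 29744115915) (nat_lit 76) (nat_lit 25928678959) (nat_lit 1) (nat_lit 4) (nat_lit 2) (nat_lit 5) (nat_lit 2) (nat_lit 4) (nat_lit 351) (nat_lit 204) (nat_lit 165))) (XT.nd (nat_lit 78) (nat_lit 0) (nat_lit 0) (XT.lf (nat_lit 0) (nat_lit 263988711407) (nat_lit 76) (nat_lit 29980359557) (nat_lit 76) (nat_lit 26133074152) (nat_lit 1) (nat_lit 4) (nat_lit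 2) (nat_lit 5) (nat_lit 2) (nat_lit 4) (nat_lit 352) (nat_lit 204) (nat_lit 164)) (XT.lf (nat_lit 0) (nat_lit 279442740651) (nat_lit 76) (nat_lit 30239441830) (nat_lit 76) (nat_lit 26361824569) (nat_lit 1) (nat_lit 4) (nat_lit 2) (nat_lit 5) (nat_lit 2) (nat_lit 4) (nat_lit 353) (nat_lit 204) (nat_lit 163)))) (XT.nd (nat_lit 156) (nat_lit 0) (nat_lit 0) (XT.nd (nat_lit 78) (nat_lit 0) (nat_lit 0) (XT.lf (nat_lit 0) (nat_lit 295646161512) (nat_lit 76) (nat_lit 30521979597) (nat_lit 76) (nat_lit 26615474855) (nat_lit 1) (nat_lit 4) (nat_lit 2) (nat_lit 5) (nat_lit 2) (nat_lit 4) (nat_lit 354) (nat_lit 204) (nat_lit 162)) (XT.lf (nat_lit 0) (nat_lit 312637553563) (nat_lit 76) (nat_lit 30828645568) (nat_lit 76) (nat_lit 26894628938) (nat_lit 1) (nat_lit 4) (nat_lit 2) (nat_lit 5) (nat_lit 2) (nat_lit 4) (nat_lit 355) (nat_lit 204) (nat_lit 161))) (XT.nd (nat_lit 78) (nat_lit 0) (nat_lit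 0) (XT.lf (nat_lit 0) (nat_lit 330457372499) (nat_lit 76) (nat_lit 31160169899) (nat_lit 76) (nat_lit 27199951471) (nat_lit 1) (nat_lit 4) (nat_lit 2) (nat_lit 5) (nat_lit 2) (nat_lit 4) (nat_lit 356) (nat_lit 204) (nat_lit 160)) (XT.nd (nat_lit 78) (nat_lit 0) (nat_lit 0) (XT.lf (nat_lit 0) (nat_lit 349148046461) (nat_lit 76) (nat_lit 31517341933) (nat_lit 76) (nat_lit 27532169413) (nat_lit 1) (nat_lit 4) (nat_lit 2) (nat_lit 5) (nat_lit 2) (nat_lit 4) (nat_lit 357) (nat_lit 204) (nat_lit 159)) (XT.lf (nat_lit 0) (nat_lit 368754077053) (nat_lit 76) (nat_lit 31901012082) (nat_lit 76) (nat_lit 27892073758) (nat_lit 1) (nat_lit 4) (nat_lit 2) (nat_lit 5) (nat_lit 2) (nat_lit 4) (nat_lit 358) (nat_lit 204) (nat_lit 158)))))) (XT.nd (nat_lit 312) (nat_lit 0) (nat_lit 0) (XT.nd (nat_lit 156) (nat_lit 0) (nat_lit 0) (XT.nd (nat_lit 78) (nat_lit 0) (nat_lit 0) (XT.lf (nat_lit 0) (nat_lit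 389322145301) (nat_lit 76) (nat_lit 32312093843) (nat_lit 76) (nat_lit 28280521422) (nat_lit 1) (nat_lit 4) (nat_lit 2) (nat_lit 5) (nat_lit 2) (nat_lit 4) (nat_lit 359) (nat_lit 204) (nat_lit 157)) (XT.lf (nat_lit 0) (nat_lit 410901222795) (nat_lit 76) (nat_lit 32751565985) (nat_lit 76) (nat_lit 28698437281) (nat_lit 1) (nat_lit 4) (nat_lit 2) (nat_lit 5) (nat_lit 2) (nat_lit 4) (nat_lit 360) (nat_lit 204) (nat_lit 156))) (XT.nd (nat_lit 78) (nat_lit 0) (nat_lit 0) (XT.lf (nat_lit 0) (nat_lit 433542688292) (nat_lit 76) (nat_lit 33220474869) (nat_lit 76) (nat_lit 29146816371) (nat_lit 1) (nat_lit 4) (nat_lit 2) (nat_lit 5) (nat_lit 2) (nat_lit 4) (nat_lit 361) (nat_lit 204) (nat_lit 155)) (XT.lf (nat_lit 0) (nat_lit 457300450043) (nat_lit 76) (nat_lit 33719936945) (nat_lit 76) (nat_lit 29626726262) (nat_lit 1) (nat_lit 4) (nat_lit 2) (nat_lit 5) (nat_lit 2) (nat_lit 4) (nat_lit 362)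 (nat_lit 204) (nat_lit 154)))) (XT.nd (nat_lit 156) (nat_lit 0) (nat_lit 0) (XT.nd (nat_lit 78) (nat_lit 0) (nat_lit 0) (XT.lf (nat_lit 0) (nat_lit 482231074146) (nat_lit 76) (nat_lit 34251141409) (nat_lit 76) (nat_lit 30139309597) (nat_lit 1) (nat_lit 4) (nat_lit 2) (nat_lit 5) (nat_lit 2) (nat_lit 4) (nat_lit 363) (nat_lit 204) (nat_lit 153)) (XT.lf (nat_lit 0) (nat_lit 508393919232) (nat_lit 76) (nat_lit 34815353032) (nat_lit 76) (nat_lit 30685786812) (nat_lit 1) (nat_lit 4) (nat_lit 2) (nat_lit 5) (nat_lit 2) (nat_lit 4) (nat_lit 364) (nat_lit 204) (nat_lit 152))) (XT.nd (nat_lit 78) (nat_lit 0) (nat_lit 0) (XT.lf (nat_lit 0) (nat_lit 535851277788) (nat_lit 76) (nat_lit 35413915176) (nat_lit 76) (nat_lit 31267459044) (nat_lit 1) (nat_lit 4) (nat_lit 2) (nat_lit 5) (nat_lit 2) (nat_lit 4) (nat_lit 365) (nat_lit 204) (nat_lit 151)) (XT.nd (nat_lit 78) (nat_lit 0) (nat_lit 0) (XT.lf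 (nat_lit 0) (nat_lit 564668524477) (nat_lit 76) (nat_lit 36048252989) (nat_lit 76) (nat_lit 31885711226) (nat_lit 1) (nat_lit 4) (nat_lit 2) (nat_lit 5) (nat_lit 2) (nat_lit 4) (nat_lit 366) (nat_lit 204) (nat_lit 150)) (XT.lf (nat_lit 0) (nat_lit 594914271792) (nat_lit 76) (nat_lit 36719876799) (nat_lit 76) (nat_lit 32542015387) (nat_lit 1) (nat_lit 4) (nat_lit 2) (nat_lit 5) (nat_lit 2) (nat_lit 4) (nat_lit 367) (nat_lit 204) (nat_lit 149))))))) (XT.nd (nat_lit 702) (nat_lit 76) (nat_lit 0) (XT.nd (nat_lit 312) (nat_lit 0) (nat_lit 0) (XT.nd (nat_lit 156) (nat_lit 0) (nat_lit 0) (XT.nd (nat_lit 78) (nat_lit 0) (nat_lit 0) (XT.lf (nat_lit 0) (nat_lit 2334801971) (nat_lit 152) (nat_lit 16904617578) (nat_lit 0) (nat_lit 2334801971) (nat_lit 2) (nat_lit 5) (nat_lit 4) (nat_lit 4) (nat_lit 2) (nat_lit 4) (nat_lit 310) (nat_lit 205) (nat_lit 205)) (XT.lf (nat_lit 0) (nat_lit 7588899178)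 (nat_lit 152) (nat_lit 30203058277) (nat_lit 0) (nat_lit 7364686459) (nat_lit 2) (nat_lit 5) (nat_lit 4) (nat_lit 4) (nat_lit 2) (nat_lit 4) (nat_lit 311) (nat_lit 205) (nat_lit 204))) (XT.nd (nat_lit 78) (nat_lit 0) (nat_lit 0) (XT.lf (nat_lit 0) (nat_lit 10562169333) (nat_lit 152) (nat_lit 26583363785) (nat_lit 0) (nat_lit 10124420692) (nat_lit 2) (nat_lit 5) (nat_lit 4) (nat_lit 4) (nat_lit 2) (nat_lit 4) (nat_lit 312) (nat_lit 205) (nat_lit 203)) (XT.lf (nat_lit 0) (nat_lit 13596493623) (nat_lit 152) (nat_lit 22941533360) (nat_lit 0) (nat_lit 12955377436) (nat_lit 2) (nat_lit 5) (nat_lit 4) (nat_lit 4) (nat_lit 2) (nat_lit 4) (nat_lit 313) (nat_lit 205) (nat_lit 202)))) (XT.nd (nat_lit 156) (nat_lit 0) (nat_lit 0) (XT.nd (nat_lit 78) (nat_lit 0) (nat_lit 0) (XT.lf (nat_lit 0) (nat_lit 16699096629) (nat_lit 152) (nat_lit 19268895979) (nat_lit 0) (nat_lit 15864297065) (nat_lit 2)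 (nat_lit 5) (nat_lit 4) (nat_lit 4) (nat_lit 2) (nat_lit 4) (nat_lit 314) (nat_lit 205) (nat_lit 201)) (XT.lf (nat_lit 0) (nat_lit 19877365501) (nat_lit 152) (nat_lit 15556707266) (nat_lit 0) (nat_lit 18858105579) (nat_lit 2) (nat_lit 5) (nat_lit 4) (nat_lit 4) (nat_lit 2) (nat_lit 4) (nat_lit 315) (nat_lit 205) (nat_lit 200))) (XT.nd (nat_lit 78) (nat_lit 0) (nat_lit 0) (XT.lf (nat_lit 0) (nat_lit 23138867546) (nat_lit 152) (nat_lit 11796128677) (nat_lit 0) (nat_lit 21943931092) (nat_lit 2) (nat_lit 5) (nat_lit 4) (nat_lit 4) (nat_lit 2) (nat_lit 4) (nat_lit 316) (nat_lit 205) (nat_lit 199)) (XT.nd (nat_lit 78) (nat_lit 0) (nat_lit 0) (XT.lf (nat_lit 0) (nat_lit 26491368246) (nat_lit 152) (nat_lit 7978206453) (nat_lit 0) (nat_lit 25129120808) (nat_lit 2) (nat_lit 5) (nat_lit 4) (nat_lit 4) (nat_lit 2) (nat_lit 4) (nat_lit 317) (nat_lit 205) (nat_lit 198)) (XT.lf (nat_lit 0) (nat_lit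 29942849744) (nat_lit 152) (nat_lit 4093850303) (nat_lit 0) (nat_lit 28421258513) (nat_lit 2) (nat_lit 5) (nat_lit 4) (nat_lit 4) (nat_lit 2) (nat_lit 4) (nat_lit 318) (nat_lit 205) (nat_lit 197)))))) (XT.nd (nat_lit 312) (nat_lit 0) (nat_lit 0) (XT.nd (nat_lit 156) (nat_lit 0) (nat_lit 0) (XT.nd (nat_lit 78) (nat_lit 76) (nat_lit 0) (XT.lf (nat_lit 0) (nat_lit 33501529853) (nat_lit 152) (nat_lit 133811760) (nat_lit 0) (nat_lit 31828182629) (nat_lit 2) (nat_lit 5) (nat_lit 4) (nat_lit 4) (nat_lit 2) (nat_lit 4) (nat_lit 319) (nat_lit 205) (nat_lit 196)) (XT.lf (nat_lit 0) (nat_lit 4040664331) (nat_lit 76) (nat_lit 33198303386) (nat_lit 76) (nat_lit 31380426644) (nat_lit 1) (nat_lit 4) (nat_lit 2) (nat_lit 5) (nat_lit 2) (nat_lit 4) (nat_lit 320) (nat_lit 205) (nat_lit 195))) (XT.nd (nat_lit 78) (nat_lit 0) (nat_lit 0) (XT.lf (nat_lit 0) (nat_lit 8317439818) (nat_lit 76) (nat_lit 32787072234)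 (nat_lit 76) (nat_lit 30831548332) (nat_lit 1) (nat_lit 4) (nat_lit 2) (nat_lit 5) (nat_lit 2) (nat_lit 4) (nat_lit 321) (nat_lit 205) (nat_lit 194)) (XT.lf (nat_lit 0) (nat_lit 12702273080) (nat_lit 76) (nat_lit 32402935205) (nat_lit 76) (nat_lit 30316318770) (nat_lit 1) (nat_lit 4) (nat_lit 2) (nat_lit 5) (nat_lit 2) (nat_lit 4) (nat_lit 322) (nat_lit 205) (nat_lit 193)))) (XT.nd (nat_lit 156) (nat_lit 0) (nat_lit 0) (XT.nd (nat_lit 78) (nat_lit 0) (nat_lit 0) (XT.lf (nat_lit 0) (nat_lit 17205604195) (nat_lit 76) (nat_lit 32044977686) (nat_lit 76) (nat_lit 29833511219) (nat_lit 1) (nat_lit 4) (nat_lit 2) (nat_lit 5) (nat_lit 2) (nat_lit 4) (nat_lit 323) (nat_lit 205) (nat_lit 192)) (XT.lf (nat_lit 0) (nat_lit 21838155379) (nat_lit 76) (nat_lit 31712347397) (nat_lit 76) (nat_lit 29381976138) (nat_lit 1) (nat_lit 4) (nat_lit 2) (nat_lit 5) (nat_lit 2) (nat_lit 4) (nat_lit 324) (nat_lit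 205) (nat_lit 191))) (XT.nd (nat_lit 78) (nat_lit 0) (nat_lit 0) (XT.lf (nat_lit 0) (nat_lit 26610956518) (nat_lit 76) (nat_lit 31404252361) (nat_lit 76) (nat_lit 28960638444) (nat_lit 1) (nat_lit 4) (nat_lit 2) (nat_lit 5) (nat_lit 2) (nat_lit 4) (nat_lit 325) (nat_lit 205) (nat_lit 190)) (XT.nd (nat_lit 78) (nat_lit 0) (nat_lit 0) (XT.lf (nat_lit 0) (nat_lit 31535371422) (nat_lit 76) (nat_lit 31119959019) (nat_lit 76) (nat_lit 28568494950) (nat_lit 1) (nat_lit 4) (nat_lit 2) (nat_lit 5) (nat_lit 2) (nat_lit 4) (nat_lit 326) (nat_lit 205) (nat_lit 189)) (XT.lf (nat_lit 0) (nat_lit 36623124890) (nat_lit 76) (nat_lit 30858790482) (nat_lit 76) (nat_lit 28204611983) (nat_lit 1) (nat_lit 4) (nat_lit 2) (nat_lit 5) (nat_lit 2) (nat_lit 4) (nat_lit 327) (nat_lit 205) (nat_lit 188))))))))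
noncomputable def xc23 : XT := (XT.nd (nat_lit 1404) (nat_lit 0) (nat_lit 0) (XT.nd (nat_lit 702) (nat_lit 0) (nat_lit 0) (XT.nd (nat_lit 312) (nat_lit 0) (nat_lit 0) (XT.nd (nat_lit 156) (nat_lit 0) (nat_lit 0) (XT.nd (nat_lit 78) (nat_lit 0) (nat_lit 0) (XT.lf (nat_lit 0) (nat_lit 41886330619) (nat_lit 76) (nat_lit 30620124920) (nat_lit 76) (nat_lit 27868123155) (nat_lit 1) (nat_lit 4) (nat_lit 2) (nat_lit 5) (nat_lit 2) (nat_lit 4) (nat_lit 328) (nat_lit 205) (nat_lit 187)) (XT.lf (nat_lit 0) (nat_lit 47337520053) (nat_lit 76) (nat_lit 30403394081) (nat_lit 76) (nat_lit 27558227300) (nat_lit 1) (nat_lit 4) (nat_lit 2) (nat_lit 5) (nat_lit 2) (nat_lit 4) (nat_lit 329) (nat_lit 205) (nat_lit 186))) (XT.nd (nat_lit 78) (nat_lit 0) (nat_lit 0) (XT.lf (nat_lit 0) (nat_lit 52989672214) (nat_lit 76) (nat_lit 30208081941) (nat_lit 76) (nat_lit 27274186573) (nat_lit 1) (nat_lit 4) (nat_lit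 2) (nat_lit 5) (nat_lit 2) (nat_lit 4) (nat_lit 330) (nat_lit 205) (nat_lit 185)) (XT.lf (nat_lit 0) (nat_lit 58856244607) (nat_lit 76) (nat_lit 30033723469) (nat_lit 76) (nat_lit 27015324686) (nat_lit 1) (nat_lit 4) (nat_lit 2) (nat_lit 5) (nat_lit 2) (nat_lit 4) (nat_lit 331) (nat_lit 205) (nat_lit 184)))) (XT.nd (nat_lit 156) (nat_lit 0) (nat_lit 0) (XT.nd (nat_lit 78) (nat_lit 0) (nat_lit 0) (XT.lf (nat_lit 0) (nat_lit 64951205261) (nat_lit 76) (nat_lit 29879903527) (nat_lit 76) (nat_lit 26781025301) (nat_lit 1) (nat_lit 4) (nat_lit 2) (nat_lit 5) (nat_lit 2) (nat_lit 4) (nat_lit 332) (nat_lit 205) (nat_lit 183)) (XT.lf (nat_lit 0) (nat_lit 71289065988) (nat_lit 76) (nat_lit 29746255877) (nat_lit 76) (nat_lit 26570730561) (nat_lit 1) (nat_lit 4) (nat_lit 2) (nat_lit 5) (nat_lit 2) (nat_lit 4) (nat_lit 333) (nat_lit 205) (nat_lit 182))) (XT.nd (nat_lit 78) (nat_lit 0) (nat_lit 0)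 (XT.lf (nat_lit 0) (nat_lit 77884916931) (nat_lit 76) (nat_lit 29632462310) (nat_lit 76) (nat_lit 26383939767) (nat_lit 1) (nat_lit 4) (nat_lit 2) (nat_lit 5) (nat_lit 2) (nat_lit 4) (nat_lit 334) (nat_lit 205) (nat_lit 181)) (XT.nd (nat_lit 78) (nat_lit 0) (nat_lit 0) (XT.lf (nat_lit 0) (nat_lit 84754462499) (nat_lit 76) (nat_lit 29538251889) (nat_lit 76) (nat_lit 26220208176) (nat_lit 1) (nat_lit 4) (nat_lit 2) (nat_lit 5) (nat_lit 2) (nat_lit 4) (nat_lit 335) (nat_lit 205) (nat_lit 180)) (XT.lf (nat_lit 0) (nat_lit 91914058752) (nat_lit 76) (nat_lit 29463400304) (nat_lit 76) (nat_lit 26079145954) (nat_lit 1) (nat_lit 4) (nat_lit 2) (nat_lit 5) (nat_lit 2) (nat_lit 4) (nat_lit 336) (nat_lit 205) (nat_lit 179)))))) (XT.nd (nat_lit 312) (nat_lit 0) (nat_lit 0) (XT.nd (nat_lit 156) (nat_lit 0) (nat_lit 0) (XT.nd (nat_lit 78) (nat_lit 0) (nat_lit 0) (XT.lf (nat_lit 0) (nat_lit 99380752347)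 (nat_lit 76) (nat_lit 29407729335) (nat_lit 76) (nat_lit 25960417236) (nat_lit 1) (nat_lit 4) (nat_lit 2) (nat_lit 5) (nat_lit 2) (nat_lit 4) (nat_lit 337) (nat_lit 205) (nat_lit 178)) (XT.lf (nat_lit 0) (nat_lit 107172321127) (nat_lit 76) (nat_lit 29371106435) (nat_lit 76) (nat_lit 25863739335) (nat_lit 1) (nat_lit 4) (nat_lit 2) (nat_lit 5) (nat_lit 2) (nat_lit 4) (nat_lit 338) (nat_lit 205) (nat_lit 177))) (XT.nd (nat_lit 78) (nat_lit 0) (nat_lit 0) (XT.lf (nat_lit 0) (nat_lit 115307316446) (nat_lit 76) (nat_lit 29353444404) (nat_lit 76) (nat_lit 25788882067) (nat_lit 1) (nat_lit 4) (nat_lit 2) (nat_lit 5) (nat_lit 2) (nat_lit 4) (nat_lit 339) (nat_lit 205) (nat_lit 176)) (XT.lf (nat_lit 0) (nat_lit 123805107340) (nat_lit 76) (nat_lit 29354701192) (nat_lit 76) (nat_lit 25735667199) (nat_lit 1) (nat_lit 4) (nat_lit 2) (nat_lit 5) (nat_lit 2) (nat_lit 4) (nat_lit 340) (nat_lit 205)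 (nat_lit 175)))) (XT.nd (nat_lit 156) (nat_lit 0) (nat_lit 0) (XT.nd (nat_lit 78) (nat_lit 0) (nat_lit 0) (XT.lf (nat_lit 0) (nat_lit 132685926645) (nat_lit 76) (nat_lit 29374879789) (nat_lit 76) (nat_lit 25703968029) (nat_lit 1) (nat_lit 4) (nat_lit 2) (nat_lit 5) (nat_lit 2) (nat_lit 4) (nat_lit 341) (nat_lit 205) (nat_lit 174)) (XT.lf (nat_lit 0) (nat_lit 141970919168) (nat_lit 76) (nat_lit 29414028240) (nat_lit 76) (nat_lit 25693709083) (nat_lit 1) (nat_lit 4) (nat_lit 2) (nat_lit 5) (nat_lit 2) (nat_lit 4) (nat_lit 342) (nat_lit 205) (nat_lit 173))) (XT.nd (nat_lit 78) (nat_lit 0) (nat_lit 0) (XT.lf (nat_lit 0) (nat_lit 151682192036) (nat_lit 76) (nat_lit 29472239757) (nat_lit 76) (nat_lit 25704865936) (nat_lit 1) (nat_lit 4) (nat_lit 2) (nat_lit 5) (nat_lit 2) (nat_lit 4) (nat_lit 343) (nat_lit 205) (nat_lit 172)) (XT.nd (nat_lit 78) (nat_lit 0) (nat_lit 0) (XT.lf (nat_lit 0)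 (nat_lit 161842867325) (nat_lit 76) (nat_lit 29549652937) (nat_lit 76) (nat_lit 25737465151) (nat_lit 1) (nat_lit 4) (nat_lit 2) (nat_lit 5) (nat_lit 2) (nat_lit 4) (nat_lit 344) (nat_lit 205) (nat_lit 171)) (XT.lf (nat_lit 0) (nat_lit 172477137120) (nat_lit 76) (nat_lit 29646452098) (nat_lit 76) (nat_lit 25791584344) (nat_lit 1) (nat_lit 4) (nat_lit 2) (nat_lit 5) (nat_lit 2) (nat_lit 4) (nat_lit 345) (nat_lit 205) (nat_lit 170))))))) (XT.nd (nat_lit 702) (nat_lit 0) (nat_lit 0) (XT.nd (nat_lit 312) (nat_lit 0) (nat_lit 0) (XT.nd (nat_lit 156) (nat_lit 0) (nat_lit 0) (XT.nd (nat_lit 78) (nat_lit 0) (nat_lit 0) (XT.lf (nat_lit 0) (nat_lit 183610321111) (nat_lit 76) (nat_lit 29762867714) (nat_lit 76) (nat_lit 25867352373) (nat_lit 1) (nat_lit 4) (nat_lit 2) (nat_lit 5) (nat_lit 2) (nat_lit 4) (nat_lit 346) (nat_lit 205) (nat_lit 169)) (XT.lf (nat_lit 0) (nat_lit 195268926879) (nat_lit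 76) (nat_lit 29899176965) (nat_lit 76) (nat_lit 25964949635) (nat_lit 1) (nat_lit 4) (nat_lit 2) (nat_lit 5) (nat_lit 2) (nat_lit 4) (nat_lit 347) (nat_lit 205) (nat_lit 168))) (XT.nd (nat_lit 78) (nat_lit 0) (nat_lit 0) (XT.lf (nat_lit 0) (nat_lit 207480713009) (nat_lit 76) (nat_lit 30055704397) (nat_lit 76) (nat_lit 26084608507) (nat_lit 1) (nat_lit 4) (nat_lit 2) (nat_lit 5) (nat_lit 2) (nat_lit 4) (nat_lit 348) (nat_lit 205) (nat_lit 167)) (XT.lf (nat_lit 0) (nat_lit 220274755183) (nat_lit 76) (nat_lit 30232822694) (nat_lit 76) (nat_lit 26226613890) (nat_lit 1) (nat_lit 4) (nat_lit 2) (nat_lit 5) (nat_lit 2) (nat_lit 4) (nat_lit 349) (nat_lit 205) (nat_lit 166)))) (XT.nd (nat_lit 156) (nat_lit 0) (nat_lit 0) (XT.nd (nat_lit 78) (nat_lit 0) (nat_lit 0) (XT.lf (nat_lit 0) (nat_lit 233681515405) (nat_lit 76) (nat_lit 30430953567) (nat_lit 76) (nat_lit 26391303891) (nat_lit 1) (nat_lit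 4) (nat_lit 2) (nat_lit 5) (nat_lit 2) (nat_lit 4) (nat_lit 350) (nat_lit 205) (nat_lit 165)) (XT.lf (nat_lit 0) (nat_lit 247732914533) (nat_lit 76) (nat_lit 30650568755) (nat_lit 76) (nat_lit 26579070631) (nat_lit 1) (nat_lit 4) (nat_lit 2) (nat_lit 5) (nat_lit 2) (nat_lit 4) (nat_lit 351) (nat_lit 205) (nat_lit 164))) (XT.nd (nat_lit 78) (nat_lit 0) (nat_lit 0) (XT.lf (nat_lit 0) (nat_lit 262462408279) (nat_lit 76) (nat_lit 30892191153) (nat_lit 76) (nat_lit 26790361173) (nat_lit 1) (nat_lit 4) (nat_lit 2) (nat_lit 5) (nat_lit 2) (nat_lit 4) (nat_lit 352) (nat_lit 205) (nat_lit 163)) (XT.nd (nat_lit 78) (nat_lit 0) (nat_lit 0) (XT.lf (nat_lit 0) (nat_lit 277905066867) (nat_lit 76) (nat_lit 31156396051) (nat_lit 76) (nat_lit 27025678589) (nat_lit 1) (nat_lit 4) (nat_lit 2) (nat_lit 5) (nat_lit 2) (nat_lit 4) (nat_lit 353) (nat_lit 205) (nat_lit 162)) (XT.lf (nat_lit 0) (nat_lit 294097658531)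 (nat_lit 76) (nat_lit 31443812508) (nat_lit 76) (nat_lit 27285583159) (nat_lit 1) (nat_lit 4) (nat_lit 2) (nat_lit 5) (nat_lit 2) (nat_lit 4) (nat_lit 354) (nat_lit 205) (nat_lit 161)))))) (XT.nd (nat_lit 390) (nat_lit 0) (nat_lit 0) (XT.nd (nat_lit 156) (nat_lit 0) (nat_lit 0) (XT.nd (nat_lit 78) (nat_lit 0) (nat_lit 0) (XT.lf (nat_lit 0) (nat_lit 311078737062) (nat_lit 76) (nat_lit 31755124850) (nat_lit 76) (nat_lit 27570693704) (nat_lit 1) (nat_lit 4) (nat_lit 2) (nat_lit 5) (nat_lit 2) (nat_lit 4) (nat_lit 355) (nat_lit 205) (nat_lit 160)) (XT.lf (nat_lit 0) (nat_lit 328888733597) (nat_lit 76) (nat_lit 32091074297) (nat_lit 76) (nat_lit 27881689057) (nat_lit 1) (nat_lit 4) (nat_lit 2) (nat_lit 5) (nat_lit 2) (nat_lit 4) (nat_lit 356) (nat_lit 205) (nat_lit 159))) (XT.nd (nat_lit 78) (nat_lit 0) (nat_lit 0) (XT.lf (nat_lit 0) (nat_lit 347570052892) (nat_lit 76) (nat_lit 32452460727)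 (nat_lit 76) (nat_lit 28219309685) (nat_lit 1) (nat_lit 4) (nat_lit 2) (nat_lit 5) (nat_lit 2) (nat_lit 4) (nat_lit 357) (nat_lit 205) (nat_lit 158)) (XT.nd (nat_lit 78) (nat_lit 0) (nat_lit 0) (XT.lf (nat_lit 0) (nat_lit 367167174277) (nat_lit 76) (nat_lit 32840144586) (nat_lit 76) (nat_lit 28584359446) (nat_lit 1) (nat_lit 4) (nat_lit 2) (nat_lit 5) (nat_lit 2) (nat_lit 4) (nat_lit 358) (nat_lit 205) (nat_lit 157)) (XT.lf (nat_lit 0) (nat_lit 387726757566) (nat_lit 76) (nat_lit 33255048929) (nat_lit 76) (nat_lit 28977707506) (nat_lit 1) (nat_lit 4) (nat_lit 2) (nat_lit 5) (nat_lit 2) (nat_lit 4) (nat_lit 359) (nat_lit 205) (nat_lit 156))))) (XT.nd (nat_lit 156) (nat_lit 0) (nat_lit 0) (XT.nd (nat_lit 78) (nat_lit 0) (nat_lit 0) (XT.lf (nat_lit 0) (nat_lit 409297754147) (nat_lit 76) (nat_lit 33698161625) (nat_lit 76) (nat_lit 29400290407) (nat_lit 1) (nat_lit 4) (nat_lit 2) (nat_lit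 5) (nat_lit 2) (nat_lit 4) (nat_lit 360) (nat_lit 205) (nat_lit 155)) (XT.lf (nat_lit 0) (nat_lit 431931523536) (nat_lit 76) (nat_lit 34170537703) (nat_lit 76) (nat_lit 29853114301) (nat_lit 1) (nat_lit 4) (nat_lit 2) (nat_lit 5) (nat_lit 2) (nat_lit 4) (nat_lit 361) (nat_lit 205) (nat_lit 154))) (XT.nd (nat_lit 78) (nat_lit 0) (nat_lit 0) (XT.lf (nat_lit 0) (nat_lit 455681955660) (nat_lit 76) (nat_lit 34673301868) (nat_lit 76) (nat_lit 30337257338) (nat_lit 1) (nat_lit 4) (nat_lit 2) (nat_lit 5) (nat_lit 2) (nat_lit 4) (nat_lit 362) (nat_lit 205) (nat_lit 153)) (XT.nd (nat_lit 78) (nat_lit 0) (nat_lit 0) (XT.lf (nat_lit 0) (nat_lit 480605599167) (nat_lit 76) (nat_lit 35207651179) (nat_lit 76) (nat_lit 30853872240) (nat_lit 1) (nat_lit 4) (nat_lit 2) (nat_lit 5) (nat_lit 2) (nat_lit 4) (nat_lit 363) (nat_lit 205) (nat_lit 152)) (XT.lf (nat_lit 0) (nat_lit 506761796065) (nat_lit 76)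 (nat_lit 35774857895) (nat_lit 76) (nat_lit 31404189044) (nat_lit 1) (nat_lit 4) (nat_lit 2) (nat_lit 5) (nat_lit 2) (nat_lit 4) (nat_lit 364) (nat_lit 205) (nat_lit 151))))))))
noncomputable def xc24 : XT := (XT.nd (nat_lit 34242) (nat_lit 0) (nat_lit 0) (XT.nd (nat_lit 33540) (nat_lit 0) (nat_lit 0) (XT.nd (nat_lit 33150) (nat_lit 0) (nat_lit 76) (XT.nd (nat_lit 156) (nat_lit 0) (nat_lit 0) (XT.nd (nat_lit 78) (nat_lit 0) (nat_lit 0) (XT.lf (nat_lit 0) (nat_lit 534212823014) (nat_lit 76) (nat_lit 36376272508) (nat_lit 76) (nat_lit 31989518026) (nat_lit 1) (nat_lit 4) (nat_lit 2) (nat_lit 5) (nat_lit 2) (nat_lit 4) (nat_lit 365) (nat_lit 205) (nat_lit 150)) (XT.lf (nat_lit 0) (nat_lit 563024039601) (nat_lit 76) (nat_lit 37013326958) (nat_lit 76) (nat_lit 32611252828) (nat_lit 1) (nat_lit 4) (nat_lit 2) (nat_lit 5) (nat_lit 2) (nat_lit 4) (nat_lit 366) (nat_lit 205) (nat_lit 149)))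 (XT.nd (nat_lit 32916) (nat_lit 0) (nat_lit 228) (XT.lf (nat_lit 0) (nat_lit 593264043962) (nat_lit 76) (nat_lit 37687538041) (nat_lit 76) (nat_lit 33270873770) (nat_lit 1) (nat_lit 4) (nat_lit 2) (nat_lit 5) (nat_lit 2) (nat_lit 4) (nat_lit 367) (nat_lit 205) (nat_lit 148)) (XT.lf (nat_lit 0) (nat_lit 18974034331) (nat_lit 76) (nat_lit 368881106) (nat_lit 76) (nat_lit 368881106) (nat_lit 4) (nat_lit 4) (nat_lit 5) (nat_lit 5) (nat_lit 5) (nat_lit 4) (nat_lit 308) (nat_lit 206) (nat_lit 206)))) (XT.nd (nat_lit 156) (nat_lit 0) (nat_lit 0) (XT.nd (nat_lit 78) (nat_lit 0) (nat_lit 0) (XT.lf (nat_lit 0) (nat_lit 2032756279) (nat_lit 152) (nat_lit 37410480561) (nat_lit 0) (nat_lit 1797332924) (nat_lit 2) (nat_lit 5) (nat_lit 4) (nat_lit 4) (nat_lit 2) (nat_lit 4) (nat_lit 309) (nat_lit 206) (nat_lit 205)) (XT.lf (nat_lit 0) (nat_lit 4857910549) (nat_lit 152) (nat_lit 33894664812) (nat_lit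 0) (nat_lit 4398274476) (nat_lit 2) (nat_lit 5) (nat_lit 4) (nat_lit 4) (nat_lit 2) (nat_lit 4) (nat_lit 310) (nat_lit 206) (nat_lit 204))) (XT.nd (nat_lit 78) (nat_lit 0) (nat_lit 0) (XT.lf (nat_lit 0) (nat_lit 7732332691) (nat_lit 152) (nat_lit 30369849509) (nat_lit 0) (nat_lit 7059160695) (nat_lit 2) (nat_lit 5) (nat_lit 4) (nat_lit 4) (nat_lit 2) (nat_lit 4) (nat_lit 311) (nat_lit 206) (nat_lit 203)) (XT.nd (nat_lit 78) (nat_lit 0) (nat_lit 0) (XT.lf (nat_lit 0) (nat_lit 10662866567) (nat_lit 152) (nat_lit 26827642232) (nat_lit 0) (nat_lit 9786327025) (nat_lit 2) (nat_lit 5) (nat_lit 4) (nat_lit 4) (nat_lit 2) (nat_lit 4) (nat_lit 312) (nat_lit 206) (nat_lit 202)) (XT.lf (nat_lit 0) (nat_lit 13656489638) (nat_lit 152) (nat_lit 23259609157) (nat_lit 0) (nat_lit 12586266719) (nat_lit 2) (nat_lit 5) (nat_lit 4) (nat_lit 4) (nat_lit 2) (nat_lit 4) (nat_lit 313) (nat_lit 206) (nat_lit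 201)))))) (XT.nd (nat_lit 312) (nat_lit 76) (nat_lit 0) (XT.nd (nat_lit 156) (nat_lit 0) (nat_lit 0) (XT.nd (nat_lit 78) (nat_lit 0) (nat_lit 0) (XT.lf (nat_lit 0) (nat_lit 16720329578) (nat_lit 152) (nat_lit 19657254964) (nat_lit 0) (nat_lit 15465646301) (nat_lit 2) (nat_lit 5) (nat_lit 4) (nat_lit 4) (nat_lit 2) (nat_lit 4) (nat_lit 314) (nat_lit 206) (nat_lit 200)) (XT.lf (nat_lit 0) (nat_lit 19861681245) (nat_lit 152) (nat_lit 16012002622) (nat_lit 0) (nat_lit 18431321436) (nat_lit 2) (nat_lit 5) (nat_lit 4) (nat_lit 4) (nat_lit 2) (nat_lit 4) (nat_lit 315) (nat_lit 206) (nat_lit 199))) (XT.nd (nat_lit 78) (nat_lit 0) (nat_lit 0) (XT.lf (nat_lit 0) (nat_lit 23088024048) (nat_lit 152) (nat_lit 12315172957) (nat_lit 0) (nat_lit 21490353255) (nat_lit 2) (nat_lit 5) (nat_lit 4) (nat_lit 4) (nat_lit 2) (nat_lit 4) (nat_lit 316) (nat_lit 206) (nat_lit 198)) (XT.lf (nat_lit 0) (nat_lit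 26407039754) (nat_lit 152) (nat_lit 8557963994) (nat_lit 0) (nat_lit 24650025168) (nat_lit 2) (nat_lit 5) (nat_lit 4) (nat_lit 4) (nat_lit 2) (nat_lit 4) (nat_lit 317) (nat_lit 206) (nat_lit 197)))) (XT.nd (nat_lit 156) (nat_lit 76) (nat_lit 0) (XT.nd (nat_lit 78) (nat_lit 0) (nat_lit 0) (XT.lf (nat_lit 0) (nat_lit 29826630782) (nat_lit 152) (nat_lit 4731429997) (nat_lit 0) (nat_lit 27917860202) (nat_lit 2) (nat_lit 5) (nat_lit 4) (nat_lit 4) (nat_lit 2) (nat_lit 4) (nat_lit 318) (nat_lit 206) (nat_lit 196)) (XT.lf (nat_lit 0) (nat_lit 33354939015) (nat_lit 152) (nat_lit 826460172) (nat_lit 0) (nat_lit 31301638918) (nat_lit 2) (nat_lit 5) (nat_lit 4) (nat_lit 4) (nat_lit 2) (nat_lit 4) (nat_lit 319) (nat_lit 206) (nat_lit 195))) (XT.nd (nat_lit 78) (nat_lit 0) (nat_lit 0) (XT.lf (nat_lit 0) (nat_lit 3270933321) (nat_lit 76) (nat_lit 33780500303) (nat_lit 76) (nat_lit 31589553046) (nat_lit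 1) (nat_lit 4) (nat_lit 2) (nat_lit 5) (nat_lit 2) (nat_lit 4) (nat_lit 320) (nat_lit 206) (nat_lit 194)) (XT.nd (nat_lit 78) (nat_lit 0) (nat_lit 0) (XT.lf (nat_lit 0) (nat_lit 7496108321) (nat_lit 76) (nat_lit 33392515824) (nat_lit 76) (nat_lit 31070476034) (nat_lit 1) (nat_lit 4) (nat_lit 2) (nat_lit 5) (nat_lit 2) (nat_lit 4) (nat_lit 321) (nat_lit 206) (nat_lit 193)) (XT.lf (nat_lit 0) (nat_lit 11831798261) (nat_lit 76) (nat_lit 33030518483) (nat_lit 76) (nat_lit 30583628662) (nat_lit 1) (nat_lit 4) (nat_lit 2) (nat_lit 5) (nat_lit 2) (nat_lit 4) (nat_lit 322) (nat_lit 206) (nat_lit 192))))))) (XT.nd (nat_lit 702) (nat_lit 0) (nat_lit 0) (XT.nd (nat_lit 312) (nat_lit 0) (nat_lit 0) (XT.nd (nat_lit 156) (nat_lit 0) (nat_lit 0) (XT.nd (nat_lit 78) (nat_lit 0) (nat_lit 0) (XT.lf (nat_lit 0) (nat_lit 16288326212) (nat_lit 76) (nat_lit 32693646382) (nat_lit 76) (nat_lit 30127851768)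 (nat_lit 1) (nat_lit 4) (nat_lit 2) (nat_lit 5) (nat_lit 2) (nat_lit 4) (nat_lit 323) (nat_lit 206) (nat_lit 191)) (XT.lf (nat_lit 0) (nat_lit 20876302954) (nat_lit 76) (nat_lit 32381097443) (nat_lit 76) (nat_lit 29702060170) (nat_lit 1) (nat_lit 4) (nat_lit 2) (nat_lit 5) (nat_lit 2) (nat_lit 4) (nat_lit 324) (nat_lit 206) (nat_lit 190))) (XT.nd (nat_lit 78) (nat_lit 0) (nat_lit 0) (XT.lf (nat_lit 0) (nat_lit 25606652244) (nat_lit 76) (nat_lit 32092127502) (nat_lit 76) (nat_lit 29305240079) (nat_lit 1) (nat_lit 4) (nat_lit 2) (nat_lit 5) (nat_lit 2) (nat_lit 4) (nat_lit 325) (nat_lit 206) (nat_lit 189)) (XT.lf (nat_lit 0) (nat_lit 30490636815) (nat_lit 76) (nat_lit 31826048537) (nat_lit 76) (nat_lit 28936446683) (nat_lit 1) (nat_lit 4) (nat_lit 2) (nat_lit 5) (nat_lit 2) (nat_lit 4) (nat_lit 326) (nat_lit 206) (nat_lit 188)))) (XT.nd (nat_lit 156) (nat_lit 0) (nat_lit 0) (XT.nd (nat_lit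 78) (nat_lit 0) (nat_lit 0) (XT.lf (nat_lit 0) (nat_lit 35539885204) (nat_lit 76) (nat_lit 31582227025) (nat_lit 76) (nat_lit 28594801905) (nat_lit 1) (nat_lit 4) (nat_lit 2) (nat_lit 5) (nat_lit 2) (nat_lit 4) (nat_lit 327) (nat_lit 206) (nat_lit 187)) (XT.lf (nat_lit 0) (nat_lit 40766419430) (nat_lit 76) (nat_lit 31360082440) (nat_lit 76) (nat_lit 28279492304) (nat_lit 1) (nat_lit 4) (nat_lit 2) (nat_lit 5) (nat_lit 2) (nat_lit 4) (nat_lit 328) (nat_lit 206) (nat_lit 186))) (XT.nd (nat_lit 78) (nat_lit 0) (nat_lit 0) (XT.lf (nat_lit 0) (nat_lit 46182683623) (nat_lit 76) (nat_lit 31159085865) (nat_lit 76) (nat_lit 27989767142) (nat_lit 1) (nat_lit 4) (nat_lit 2) (nat_lit 5) (nat_lit 2) (nat_lit 4) (nat_lit 329) (nat_lit 206) (nat_lit 185)) (XT.nd (nat_lit 78) (nat_lit 0) (nat_lit 0) (XT.lf (nat_lit 0) (nat_lit 51801573649) (nat_lit 76) (nat_lit 30978758737) (nat_lit 76) (nat_lit 27724936599)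 (nat_lit 1) (nat_lit 4) (nat_lit 2) (nat_lit 5) (nat_lit 2) (nat_lit 4) (nat_lit 330) (nat_lit 206) (nat_lit 184)) (XT.lf (nat_lit 0) (nat_lit 57636467818) (nat_lit 76) (nat_lit 30818671706) (nat_lit 76) (nat_lit 27484370124) (nat_lit 1) (nat_lit 4) (nat_lit 2) (nat_lit 5) (nat_lit 2) (nat_lit 4) (nat_lit 331) (nat_lit 206) (nat_lit 183)))))) (XT.nd (nat_lit 312) (nat_lit 0) (nat_lit 0) (XT.nd (nat_lit 156) (nat_lit 0) (nat_lit 0) (XT.nd (nat_lit 78) (nat_lit 0) (nat_lit 0) (XT.lf (nat_lit 0) (nat_lit 63701258736) (nat_lit 76) (nat_lit 30678443612) (nat_lit 76) (nat_lit 27267494941) (nat_lit 1) (nat_lit 4) (nat_lit 2) (nat_lit 5) (nat_lit 2) (nat_lit 4) (nat_lit 332) (nat_lit 206) (nat_lit 182)) (XT.lf (nat_lit 0) (nat_lit 70010386380) (nat_lit 76) (nat_lit 30557740579) (nat_lit 76) (nat_lit 27073794681) (nat_lit 1) (nat_lit 4) (nat_lit 2) (nat_lit 5) (nat_lit 2) (nat_lit 4) (nat_lit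 333) (nat_lit 206) (nat_lit 181))) (XT.nd (nat_lit 78) (nat_lit 0) (nat_lit 0) (XT.lf (nat_lit 0) (nat_lit 76578872483) (nat_lit 76) (nat_lit 30456275219) (nat_lit 76) (nat_lit 26902808152) (nat_lit 1) (nat_lit 4) (nat_lit 2) (nat_lit 5) (nat_lit 2) (nat_lit 4) (nat_lit 334) (nat_lit 206) (nat_lit 180)) (XT.lf (nat_lit 0) (nat_lit 83422356298) (nat_lit 76) (nat_lit 30373805948) (nat_lit 76) (nat_lit 26754128243) (nat_lit 1) (nat_lit 4) (nat_lit 2) (nat_lit 5) (nat_lit 2) (nat_lit 4) (nat_lit 335) (nat_lit 206) (nat_lit 179)))) (XT.nd (nat_lit 156) (nat_lit 0) (nat_lit 0) (XT.nd (nat_lit 78) (nat_lit 0) (nat_lit 0) (XT.lf (nat_lit 0) (nat_lit 90557131833) (nat_lit 76) (nat_lit 30310136409) (nat_lit 76) (nat_lit 26627400955) (nat_lit 1) (nat_lit 4) (nat_lit 2) (nat_lit 5) (nat_lit 2) (nat_lit 4) (nat_lit 336) (nat_lit 206) (nat_lit 178)) (XT.lf (nat_lit 0) (nat_lit 98000186651) (nat_lit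 76) (nat_lit 30265115010) (nat_lit 76) (nat_lit 26522324555) (nat_lit 1) (nat_lit 4) (nat_lit 2) (nat_lit 5) (nat_lit 2) (nat_lit 4) (nat_lit 337) (nat_lit 206) (nat_lit 177))) (XT.nd (nat_lit 78) (nat_lit 0) (nat_lit 0) (XT.lf (nat_lit 0) (nat_lit 105769242309) (nat_lit 76) (nat_lit 30238634556) (nat_lit 76) (nat_lit 26438648863) (nat_lit 1) (nat_lit 4) (nat_lit 2) (nat_lit 5) (nat_lit 2) (nat_lit 4) (nat_lit 338) (nat_lit 206) (nat_lit 176)) (XT.nd (nat_lit 78) (nat_lit 0) (nat_lit 0) (XT.lf (nat_lit 0) (nat_lit 113882796559) (nat_lit 76) (nat_lit 30230631998) (nat_lit 76) (nat_lit 26376174650) (nat_lit 1) (nat_lit 4) (nat_lit 2) (nat_lit 5) (nat_lit 2) (nat_lit 4) (nat_lit 339) (nat_lit 206) (nat_lit 175)) (XT.lf (nat_lit 0) (nat_lit 122360167388) (nat_lit 76) (nat_lit 30241088283) (nat_lit 76) (nat_lit 26334753168) (nat_lit 1) (nat_lit 4) (nat_lit 2) (nat_lit 5) (nat_lit 2) (nat_lit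 4) (nat_lit 340) (nat_lit 206) (nat_lit 174))))))))
noncomputable def xc25 : XT := (XT.nd (nat_lit 1404) (nat_lit 0) (nat_lit 0) (XT.nd (nat_lit 702) (nat_lit 0) (nat_lit 0) (XT.nd (nat_lit 312) (nat_lit 0) (nat_lit 0) (XT.nd (nat_lit 156) (nat_lit 0) (nat_lit 0) (XT.nd (nat_lit 78) (nat_lit 0) (nat_lit 0) (XT.lf (nat_lit 0) (nat_lit 131221539011) (nat_lit 76) (nat_lit 30270028307) (nat_lit 76) (nat_lit 26314285795) (nat_lit 1) (nat_lit 4) (nat_lit 2) (nat_lit 5) (nat_lit 2) (nat_lit 4) (nat_lit 341) (nat_lit 206) (nat_lit 173)) (XT.lf (nat_lit 0) (nat_lit 140488009934) (nat_lit 76) (nat_lit 30317520974) (nat_lit 76) (nat_lit 26314723799) (nat_lit 1) (nat_lit 4) (nat_lit 2) (nat_lit 5) (nat_lit 2) (nat_lit 4) (nat_lit 342) (nat_lit 206) (nat_lit 172))) (XT.nd (nat_lit 78) (nat_lit 0) (nat_lit 0) (XT.lf (nat_lit 0) (nat_lit 150181643181) (nat_lit 76) (nat_lit 30383679363) (nat_lit 76)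 (nat_lit 26336068222) (nat_lit 1) (nat_lit 4) (nat_lit 2) (nat_lit 5) (nat_lit 2) (nat_lit 4) (nat_lit 343) (nat_lit 206) (nat_lit 171)) (XT.lf (nat_lit 0) (nat_lit 160325518831) (nat_lit 76) (nat_lit 30468660992) (nat_lit 76) (nat_lit 26378369884) (nat_lit 1) (nat_lit 4) (nat_lit 2) (nat_lit 5) (nat_lit 2) (nat_lit 4) (nat_lit 344) (nat_lit 206) (nat_lit 170)))) (XT.nd (nat_lit 156) (nat_lit 0) (nat_lit 0) (XT.nd (nat_lit 78) (nat_lit 0) (nat_lit 0) (XT.lf (nat_lit 0) (nat_lit 170943788971) (nat_lit 76) (nat_lit 30572668201) (nat_lit 76) (nat_lit 26441729505) (nat_lit 1) (nat_lit 4) (nat_lit 2) (nat_lit 5) (nat_lit 2) (nat_lit 4) (nat_lit 345) (nat_lit 206) (nat_lit 169)) (XT.lf (nat_lit 0) (nat_lit 182061735195) (nat_lit 76) (nat_lit 30695948624) (nat_lit 76) (nat_lit 26526297939) (nat_lit 1) (nat_lit 4) (nat_lit 2) (nat_lit 5) (nat_lit 2) (nat_lit 4) (nat_lit 346) (nat_lit 206)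 (nat_lit 168))) (XT.nd (nat_lit 78) (nat_lit 0) (nat_lit 0) (XT.lf (nat_lit 0) (nat_lit 193705828804) (nat_lit 76) (nat_lit 30838795786) (nat_lit 76) (nat_lit 26632276542) (nat_lit 1) (nat_lit 4) (nat_lit 2) (nat_lit 5) (nat_lit 2) (nat_lit 4) (nat_lit 347) (nat_lit 206) (nat_lit 167)) (XT.nd (nat_lit 78) (nat_lit 0) (nat_lit 0) (XT.lf (nat_lit 0) (nat_lit 205903793830) (nat_lit 76) (nat_lit 31001549801) (nat_lit 76) (nat_lit 26759917641) (nat_lit 1) (nat_lit 4) (nat_lit 2) (nat_lit 5) (nat_lit 2) (nat_lit 4) (nat_lit 348) (nat_lit 206) (nat_lit 166)) (XT.lf (nat_lit 0) (nat_lit 218684673047) (nat_lit 76) (nat_lit 31184598176) (nat_lit 76) (nat_lit 26909525146) (nat_lit 1) (nat_lit 4) (nat_lit 2) (nat_lit 5) (nat_lit 2) (nat_lit 4) (nat_lit 349) (nat_lit 206) (nat_lit 165)))))) (XT.nd (nat_lit 312) (nat_lit 0) (nat_lit 0) (XT.nd (nat_lit 156) (nat_lit 0) (nat_lit 0) (XT.nd (nat_lit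 78) (nat_lit 0) (nat_lit 0) (XT.lf (nat_lit 0) (nat_lit 232078897120) (nat_lit 76) (nat_lit 31388376743) (nat_lit 76) (nat_lit 27081455264) (nat_lit 1) (nat_lit 4) (nat_lit 2) (nat_lit 5) (nat_lit 2) (nat_lit 4) (nat_lit 350) (nat_lit 206) (nat_lit 164)) (XT.lf (nat_lit 0) (nat_lit 246118357059) (nat_lit 76) (nat_lit 31613370687) (nat_lit 76) (nat_lit 27276117352) (nat_lit 1) (nat_lit 4) (nat_lit 2) (nat_lit 5) (nat_lit 2) (nat_lit 4) (nat_lit 351) (nat_lit 206) (nat_lit 163))) (XT.nd (nat_lit 78) (nat_lit 0) (nat_lit 0) (XT.lf (nat_lit 0) (nat_lit 260836480149) (nat_lit 76) (nat_lit 31860115709) (nat_lit 76) (nat_lit 27493974892) (nat_lit 1) (nat_lit 4) (nat_lit 2) (nat_lit 5) (nat_lit 2) (nat_lit 4) (nat_lit 352) (nat_lit 206) (nat_lit 162)) (XT.lf (nat_lit 0) (nat_lit 276268309540) (nat_lit 76) (nat_lit 32129199297) (nat_lit 76) (nat_lit 27735546593) (nat_lit 1) (nat_lit 4) (nat_lit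 2) (nat_lit 5) (nat_lit 2) (nat_lit 4) (nat_lit 353) (nat_lit 206) (nat_lit 161)))) (XT.nd (nat_lit 156) (nat_lit 0) (nat_lit 0) (XT.nd (nat_lit 78) (nat_lit 0) (nat_lit 0) (XT.lf (nat_lit 0) (nat_lit 292450587684) (nat_lit 76) (nat_lit 32421262126) (nat_lit 76) (nat_lit 28001407625) (nat_lit 1) (nat_lit 4) (nat_lit 2) (nat_lit 5) (nat_lit 2) (nat_lit 4) (nat_lit 354) (nat_lit 206) (nat_lit 160)) (XT.lf (nat_lit 0) (nat_lit 309421843814) (nat_lit 76) (nat_lit 32736999584) (nat_lit 76) (nat_lit 28292190990) (nat_lit 1) (nat_lit 4) (nat_lit 2) (nat_lit 5) (nat_lit 2) (nat_lit 4) (nat_lit 355) (nat_lit 206) (nat_lit 159))) (XT.nd (nat_lit 78) (nat_lit 0) (nat_lit 0) (XT.lf (nat_lit 0) (nat_lit 327222485682) (nat_lit 76) (nat_lit 33077163426) (nat_lit 76) (nat_lit 28608589029) (nat_lit 1) (nat_lit 4) (nat_lit 2) (nat_lit 5) (nat_lit 2) (nat_lit 4) (nat_lit 356) (nat_lit 206) (nat_lit 158))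 (XT.nd (nat_lit 78) (nat_lit 0) (nat_lit 0) (XT.lf (nat_lit 0) (nat_lit 345894895770) (nat_lit 76) (nat_lit 33442563567) (nat_lit 76) (nat_lit 28951355073) (nat_lit 1) (nat_lit 4) (nat_lit 2) (nat_lit 5) (nat_lit 2) (nat_lit 4) (nat_lit 357) (nat_lit 206) (nat_lit 157)) (XT.lf (nat_lit 0) (nat_lit 365483532196) (nat_lit 76) (nat_lit 33834070007) (nat_lit 76) (nat_lit 29321305229) (nat_lit 1) (nat_lit 4) (nat_lit 2) (nat_lit 5) (nat_lit 2) (nat_lit 4) (nat_lit 358) (nat_lit 206) (nat_lit 156))))))) (XT.nd (nat_lit 33384) (nat_lit 0) (nat_lit 76) (XT.nd (nat_lit 312) (nat_lit 0) (nat_lit 0) (XT.nd (nat_lit 156) (nat_lit 0) (nat_lit 0) (XT.nd (nat_lit 78) (nat_lit 0) (nat_lit 0) (XT.lf (nat_lit 0) (nat_lit 386035034572) (nat_lit 76) (nat_lit 34252614904) (nat_lit 76) (nat_lit 29719320332) (nat_lit 1) (nat_lit 4) (nat_lit 2) (nat_lit 5) (nat_lit 2) (nat_lit 4) (nat_lit 359) (nat_lit 206)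 (nat_lit 155)) (XT.lf (nat_lit 0) (nat_lit 407598335045) (nat_lit 76) (nat_lit 34699194794) (nat_lit 76) (nat_lit 30146348037) (nat_lit 1) (nat_lit 4) (nat_lit 2) (nat_lit 5) (nat_lit 2) (nat_lit 4) (nat_lit 360) (nat_lit 206) (nat_lit 154))) (XT.nd (nat_lit 78) (nat_lit 0) (nat_lit 0) (XT.lf (nat_lit 0) (nat_lit 430224774807) (nat_lit 76) (nat_lit 35174872962) (nat_lit 76) (nat_lit 30603405076) (nat_lit 1) (nat_lit 4) (nat_lit 2) (nat_lit 5) (nat_lit 2) (nat_lit 4) (nat_lit 361) (nat_lit 206) (nat_lit 153)) (XT.lf (nat_lit 0) (nat_lit 453968226335) (nat_lit 76) (nat_lit 35680781974) (nat_lit 76) (nat_lit 31091579681) (nat_lit 1) (nat_lit 4) (nat_lit 2) (nat_lit 5) (nat_lit 2) (nat_lit 4) (nat_lit 362) (nat_lit 206) (nat_lit 152)))) (XT.nd (nat_lit 156) (nat_lit 0) (nat_lit 0) (XT.nd (nat_lit 78) (nat_lit 0) (nat_lit 0) (XT.lf (nat_lit 0) (nat_lit 478885221654) (nat_lit 76) (nat_lit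 36218126377) (nat_lit 76) (nat_lit 31612034172) (nat_lit 1) (nat_lit 4) (nat_lit 2) (nat_lit 5) (nat_lit 2) (nat_lit 4) (nat_lit 363) (nat_lit 206) (nat_lit 151)) (XT.lf (nat_lit 0) (nat_lit 505035086946) (nat_lit 76) (nat_lit 36788185562) (nat_lit 76) (nat_lit 32166007726) (nat_lit 1) (nat_lit 4) (nat_lit 2) (nat_lit 5) (nat_lit 2) (nat_lit 4) (nat_lit 364) (nat_lit 206) (nat_lit 150))) (XT.nd (nat_lit 78) (nat_lit 0) (nat_lit 0) (XT.lf (nat_lit 0) (nat_lit 532480083793) (nat_lit 76) (nat_lit 37392316812) (nat_lit 76) (nat_lit 32754819328) (nat_lit 1) (nat_lit 4) (nat_lit 2) (nat_lit 5) (nat_lit 2) (nat_lit 4) (nat_lit 365) (nat_lit 206) (nat_lit 149)) (XT.nd (nat_lit 78) (nat_lit 0) (nat_lit 0) (XT.lf (nat_lit 0) (nat_lit 561285557426) (nat_lit 76) (nat_lit 38031958536) (nat_lit 76) (nat_lit 33379870910) (nat_lit 1) (nat_lit 4) (nat_lit 2) (nat_lit 5) (nat_lit 2) (nat_lit 4) (nat_lit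 366) (nat_lit 206) (nat_lit 148)) (XT.lf (nat_lit 0) (nat_lit 591520092306) (nat_lit 76) (nat_lit 38708633690) (nat_lit 76) (nat_lit 34042650691) (nat_lit 1) (nat_lit 4) (nat_lit 2) (nat_lit 5) (nat_lit 2) (nat_lit 4) (nat_lit 367) (nat_lit 206) (nat_lit 147)))))) (XT.nd (nat_lit 312) (nat_lit 0) (nat_lit 0) (XT.nd (nat_lit 156) (nat_lit 152) (nat_lit 0) (XT.nd (nat_lit 78) (nat_lit 0) (nat_lit 0) (XT.lf (nat_lit 0) (nat_lit 12203352543) (nat_lit 76) (nat_lit 2909667272) (nat_lit 76) (nat_lit 2909667272) (nat_lit 4) (nat_lit 4) (nat_lit 5) (nat_lit 5) (nat_lit 5) (nat_lit 4) (nat_lit 306) (nat_lit 207) (nat_lit 207)) (XT.lf (nat_lit 0) (nat_lit 31054954146) (nat_lit 76) (nat_lit 3448330929) (nat_lit 76) (nat_lit 3188776680) (nat_lit 4) (nat_lit 4) (nat_lit 5) (nat_lit 5) (nat_lit 5) (nat_lit 4) (nat_lit 307) (nat_lit 207) (nat_lit 206))) (XT.nd (nat_lit 78) (nat_lit 152) (nat_lit 0)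 (XT.lf (nat_lit 0) (nat_lit 37864690570) (nat_lit 76) (nat_lit 1034020585) (nat_lit 76) (nat_lit 527271813) (nat_lit 4) (nat_lit 4) (nat_lit 5) (nat_lit 5) (nat_lit 5) (nat_lit 4) (nat_lit 308) (nat_lit 207) (nat_lit 205)) (XT.lf (nat_lit 0) (nat_lit 2183361468) (nat_lit 152) (nat_lit 37585611354) (nat_lit 0) (nat_lit 1476530872) (nat_lit 2) (nat_lit 5) (nat_lit 4) (nat_lit 4) (nat_lit 2) (nat_lit 4) (nat_lit 309) (nat_lit 207) (nat_lit 204)))) (XT.nd (nat_lit 156) (nat_lit 0) (nat_lit 0) (XT.nd (nat_lit 78) (nat_lit 0) (nat_lit 0) (XT.lf (nat_lit 0) (nat_lit 4963642644) (nat_lit 152) (nat_lit 34151157183) (nat_lit 0) (nat_lit 4043276125) (nat_lit 2) (nat_lit 5) (nat_lit 4) (nat_lit 4) (nat_lit 2) (nat_lit 4) (nat_lit 310) (nat_lit 207) (nat_lit 203)) (XT.lf (nat_lit 0) (nat_lit 7795328506) (nat_lit 152) (nat_lit 30703829095) (nat_lit 0) (nat_lit 6671594442) (nat_lit 2) (nat_lit 5)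 (nat_lit 4) (nat_lit 4) (nat_lit 2) (nat_lit 4) (nat_lit 311) (nat_lit 207) (nat_lit 202))) (XT.nd (nat_lit 78) (nat_lit 0) (nat_lit 0) (XT.lf (nat_lit 0) (nat_lit 10685161163) (nat_lit 152) (nat_lit 27235419167) (nat_lit 0) (nat_lit 9367743722) (nat_lit 2) (nat_lit 5) (nat_lit 4) (nat_lit 4) (nat_lit 2) (nat_lit 4) (nat_lit 312) (nat_lit 207) (nat_lit 201)) (XT.nd (nat_lit 78) (nat_lit 0) (nat_lit 0) (XT.lf (nat_lit 0) (nat_lit 13640021169) (nat_lit 152) (nat_lit 23737669280) (nat_lit 0) (nat_lit 12138143369) (nat_lit 2) (nat_lit 5) (nat_lit 4) (nat_lit 4) (nat_lit 2) (nat_lit 4) (nat_lit 313) (nat_lit 207) (nat_lit 200)) (XT.lf (nat_lit 0) (nat_lit 16666943904) (nat_lit 152) (nat_lit 20202251458) (nat_lit 0) (nat_lit 14989389572) (nat_lit 2) (nat_lit 5) (nat_lit 4) (nat_lit 4) (nat_lit 2) (nat_lit 4) (nat_lit 314) (nat_lit 207) (nat_lit 199))))))))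
noncomputable def xc26 : XT := (XT.nd (nat_lit 1404) (nat_lit 0) (nat_lit 0) (XT.nd (nat_lit 702) (nat_lit 0) (nat_lit 0) (XT.nd (nat_lit 312) (nat_lit 76) (nat_lit 0) (XT.nd (nat_lit 156) (nat_lit 0) (nat_lit 0) (XT.nd (nat_lit 78) (nat_lit 0) (nat_lit 0) (XT.lf (nat_lit 0) (nat_lit 19773136328) (nat_lit 152) (nat_lit 16620748040) (nat_lit 0) (nat_lit 17928271013) (nat_lit 2) (nat_lit 5) (nat_lit 4) (nat_lit 4) (nat_lit 2) (nat_lit 4) (nat_lit 315) (nat_lit 207) (nat_lit 198)) (XT.lf (nat_lit 0) (nat_lit 22965994137) (nat_lit 152) (nat_lit 12984631636) (nat_lit 0) (nat_lit 20961785029) (nat_lit 2) (nat_lit 5) (nat_lit 4) (nat_lit 4) (nat_lit 2) (nat_lit 4) (nat_lit 316) (nat_lit 207) (nat_lit 197))) (XT.nd (nat_lit 78) (nat_lit 0) (nat_lit 0) (XT.lf (nat_lit 0) (nat_lit 26253119374) (nat_lit 152) (nat_lit 9285244827) (nat_lit 0) (nat_lit 24097154272) (nat_lit 2) (nat_lit 5) (nat_lit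 4) (nat_lit 4) (nat_lit 2) (nat_lit 4) (nat_lit 317) (nat_lit 207) (nat_lit 196)) (XT.lf (nat_lit 0) (nat_lit 29642338526) (nat_lit 152) (nat_lit 5513779548) (nat_lit 0) (nat_lit 27341843906) (nat_lit 2) (nat_lit 5) (nat_lit 4) (nat_lit 4) (nat_lit 2) (nat_lit 4) (nat_lit 318) (nat_lit 207) (nat_lit 195)))) (XT.nd (nat_lit 156) (nat_lit 0) (nat_lit 0) (XT.nd (nat_lit 78) (nat_lit 76) (nat_lit 0) (XT.lf (nat_lit 0) (nat_lit 33141721163) (nat_lit 152) (nat_lit 1661256121) (nat_lit 0) (nat_lit 30703579384) (nat_lit 2) (nat_lit 5) (nat_lit 4) (nat_lit 4) (nat_lit 2) (nat_lit 4) (nat_lit 319) (nat_lit 207) (nat_lit 194)) (XT.lf (nat_lit 0) (nat_lit 2356934761) (nat_lit 76) (nat_lit 34439462745) (nat_lit 76) (nat_lit 31870228432) (nat_lit 1) (nat_lit 4) (nat_lit 2) (nat_lit 5) (nat_lit 2) (nat_lit 4) (nat_lit 320) (nat_lit 207) (nat_lit 193))) (XT.nd (nat_lit 78) (nat_lit 0) (nat_lit 0)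 (XT.lf (nat_lit 0) (nat_lit 6532966439) (nat_lit 76) (nat_lit 34073617955) (nat_lit 76) (nat_lit 31379533611) (nat_lit 1) (nat_lit 4) (nat_lit 2) (nat_lit 5) (nat_lit 2) (nat_lit 4) (nat_lit 321) (nat_lit 207) (nat_lit 192)) (XT.nd (nat_lit 78) (nat_lit 0) (nat_lit 0) (XT.lf (nat_lit 0) (nat_lit 10821853215) (nat_lit 76) (nat_lit 33732706032) (nat_lit 76) (nat_lit 30919716896) (nat_lit 1) (nat_lit 4) (nat_lit 2) (nat_lit 5) (nat_lit 2) (nat_lit 4) (nat_lit 322) (nat_lit 207) (nat_lit 191)) (XT.lf (nat_lit 0) (nat_lit 15233806724) (nat_lit 76) (nat_lit 33415915280) (nat_lit 76) (nat_lit 30489683485) (nat_lit 1) (nat_lit 4) (nat_lit 2) (nat_lit 5) (nat_lit 2) (nat_lit 4) (nat_lit 323) (nat_lit 207) (nat_lit 190)))))) (XT.nd (nat_lit 312) (nat_lit 0) (nat_lit 0) (XT.nd (nat_lit 156) (nat_lit 0) (nat_lit 0) (XT.nd (nat_lit 78) (nat_lit 0) (nat_lit 0) (XT.lf (nat_lit 0) (nat_lit 19779331617)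 (nat_lit 76) (nat_lit 33122491437) (nat_lit 76) (nat_lit 30088409490) (nat_lit 1) (nat_lit 4) (nat_lit 2) (nat_lit 5) (nat_lit 2) (nat_lit 4) (nat_lit 324) (nat_lit 207) (nat_lit 189)) (XT.lf (nat_lit 0) (nat_lit 24469250574) (nat_lit 76) (nat_lit 32851735873) (nat_lit 76) (nat_lit 29714939497) (nat_lit 1) (nat_lit 4) (nat_lit 2) (nat_lit 5) (nat_lit 2) (nat_lit 4) (nat_lit 325) (nat_lit 207) (nat_lit 188))) (XT.nd (nat_lit 78) (nat_lit 0) (nat_lit 0) (XT.lf (nat_lit 0) (nat_lit 29314730067) (nat_lit 76) (nat_lit 32603003933) (nat_lit 76) (nat_lit 29368384290) (nat_lit 1) (nat_lit 4) (nat_lit 2) (nat_lit 5) (nat_lit 2) (nat_lit 4) (nat_lit 326) (nat_lit 207) (nat_lit 187)) (XT.lf (nat_lit 0) (nat_lit 34327306952) (nat_lit 76) (nat_lit 32375703398) (nat_lit 76) (nat_lit 29047918739) (nat_lit 1) (nat_lit 4) (nat_lit 2) (nat_lit 5) (nat_lit 2) (nat_lit 4) (nat_lit 327) (nat_lit 207) (nat_lit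 186)))) (XT.nd (nat_lit 156) (nat_lit 0) (nat_lit 0) (XT.nd (nat_lit 78) (nat_lit 0) (nat_lit 0) (XT.lf (nat_lit 0) (nat_lit 39518915937) (nat_lit 76) (nat_lit 32169293075) (nat_lit 76) (nat_lit 28752779830) (nat_lit 1) (nat_lit 4) (nat_lit 2) (nat_lit 5) (nat_lit 2) (nat_lit 4) (nat_lit 328) (nat_lit 207) (nat_lit 185)) (XT.lf (nat_lit 0) (nat_lit 44901917995) (nat_lit 76) (nat_lit 31983281513) (nat_lit 76) (nat_lit 28482264852) (nat_lit 1) (nat_lit 4) (nat_lit 2) (nat_lit 5) (nat_lit 2) (nat_lit 4) (nat_lit 329) (nat_lit 207) (nat_lit 184))) (XT.nd (nat_lit 78) (nat_lit 0) (nat_lit 0) (XT.lf (nat_lit 0) (nat_lit 50489129798) (nat_lit 76) (nat_lit 31817225826) (nat_lit 76) (nat_lit 28235729721) (nat_lit 1) (nat_lit 4) (nat_lit 2) (nat_lit 5) (nat_lit 2) (nat_lit 4) (nat_lit 330) (nat_lit 207) (nat_lit 183)) (XT.nd (nat_lit 78) (nat_lit 0) (nat_lit 0) (XT.lf (nat_lit 0) (nat_lit 56293854230)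 (nat_lit 76) (nat_lit 31670730643) (nat_lit 76) (nat_lit 28012587450) (nat_lit 1) (nat_lit 4) (nat_lit 2) (nat_lit 5) (nat_lit 2) (nat_lit 4) (nat_lit 331) (nat_lit 207) (nat_lit 182)) (XT.lf (nat_lit 0) (nat_lit 62329912065) (nat_lit 76) (nat_lit 31543447166) (nat_lit 76) (nat_lit 27812306746) (nat_lit 1) (nat_lit 4) (nat_lit 2) (nat_lit 5) (nat_lit 2) (nat_lit 4) (nat_lit 332) (nat_lit 207) (nat_lit 181))))))) (XT.nd (nat_lit 702) (nat_lit 0) (nat_lit 0) (XT.nd (nat_lit 312) (nat_lit 0) (nat_lit 0) (XT.nd (nat_lit 156) (nat_lit 0) (nat_lit 0) (XT.nd (nat_lit 78) (nat_lit 0) (nat_lit 0) (XT.lf (nat_lit 0) (nat_lit 68611674868) (nat_lit 76) (nat_lit 31435072341) (nat_lit 76) (nat_lit 27634410751) (nat_lit 1) (nat_lit 4) (nat_lit 2) (nat_lit 5) (nat_lit 2) (nat_lit 4) (nat_lit 333) (nat_lit 207) (nat_lit 180)) (XT.lf (nat_lit 0) (nat_lit 75154099219) (nat_lit 76) (nat_lit 31345348130)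 (nat_lit 76) (nat_lit 27478475903) (nat_lit 1) (nat_lit 4) (nat_lit 2) (nat_lit 5) (nat_lit 2) (nat_lit 4) (nat_lit 334) (nat_lit 207) (nat_lit 179))) (XT.nd (nat_lit 78) (nat_lit 0) (nat_lit 0) (XT.lf (nat_lit 0) (nat_lit 81972762316) (nat_lit 76) (nat_lit 31274060906) (nat_lit 76) (nat_lit 27344130929) (nat_lit 1) (nat_lit 4) (nat_lit 2) (nat_lit 5) (nat_lit 2) (nat_lit 4) (nat_lit 335) (nat_lit 207) (nat_lit 178)) (XT.lf (nat_lit 0) (nat_lit 89083899074) (nat_lit 76) (nat_lit 31221040936) (nat_lit 76) (nat_lit 27231055959) (nat_lit 1) (nat_lit 4) (nat_lit 2) (nat_lit 5) (nat_lit 2) (nat_lit 4) (nat_lit 336) (nat_lit 207) (nat_lit 177)))) (XT.nd (nat_lit 156) (nat_lit 0) (nat_lit 0) (XT.nd (nat_lit 78) (nat_lit 0) (nat_lit 0) (XT.lf (nat_lit 0) (nat_lit 96504440769) (nat_lit 76) (nat_lit 31186161983) (nat_lit 76) (nat_lit 27138981768) (nat_lit 1) (nat_lit 4) (nat_lit 2) (nat_lit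 5) (nat_lit 2) (nat_lit 4) (nat_lit 337) (nat_lit 207) (nat_lit 176)) (XT.lf (nat_lit 0) (nat_lit 104252055358) (nat_lit 76) (nat_lit 31169341002) (nat_lit 76) (nat_lit 27067689132) (nat_lit 1) (nat_lit 4) (nat_lit 2) (nat_lit 5) (nat_lit 2) (nat_lit 4) (nat_lit 338) (nat_lit 207) (nat_lit 175))) (XT.nd (nat_lit 78) (nat_lit 0) (nat_lit 0) (XT.lf (nat_lit 0) (nat_lit 112345189543) (nat_lit 76) (nat_lit 31170537942) (nat_lit 76) (nat_lit 27017008305) (nat_lit 1) (nat_lit 4) (nat_lit 2) (nat_lit 5) (nat_lit 2) (nat_lit 4) (nat_lit 339) (nat_lit 207) (nat_lit 174)) (XT.nd (nat_lit 78) (nat_lit 0) (nat_lit 0) (XT.lf (nat_lit 0) (nat_lit 120803112691) (nat_lit 76) (nat_lit 31189755654) (nat_lit 76) (nat_lit 26986818619) (nat_lit 1) (nat_lit 4) (nat_lit 2) (nat_lit 5) (nat_lit 2) (nat_lit 4) (nat_lit 340) (nat_lit 207) (nat_lit 173)) (XT.lf (nat_lit 0) (nat_lit 129645962713) (nat_lit 76)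 (nat_lit 31227039893) (nat_lit 76) (nat_lit 26977048195) (nat_lit 1) (nat_lit 4) (nat_lit 2) (nat_lit 5) (nat_lit 2) (nat_lit 4) (nat_lit 341) (nat_lit 207) (nat_lit 172)))))) (XT.nd (nat_lit 312) (nat_lit 0) (nat_lit 0) (XT.nd (nat_lit 156) (nat_lit 0) (nat_lit 0) (XT.nd (nat_lit 78) (nat_lit 0) (nat_lit 0) (XT.lf (nat_lit 0) (nat_lit 138894794015) (nat_lit 76) (nat_lit 31282479433) (nat_lit 76) (nat_lit 26987673769) (nat_lit 1) (nat_lit 4) (nat_lit 2) (nat_lit 5) (nat_lit 2) (nat_lit 4) (nat_lit 342) (nat_lit 207) (nat_lit 171)) (XT.lf (nat_lit 0) (nat_lit 148571627624) (nat_lit 76) (nat_lit 31356206271) (nat_lit 76) (nat_lit 27018720640) (nat_lit 1) (nat_lit 4) (nat_lit 2) (nat_lit 5) (nat_lit 2) (nat_lit 4) (nat_lit 343) (nat_lit 207) (nat_lit 170))) (XT.nd (nat_lit 78) (nat_lit 0) (nat_lit 0) (XT.lf (nat_lit 0) (nat_lit 158699503620) (nat_lit 76) (nat_lit 31448395948) (nat_lit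 76) (nat_lit 27070262729) (nat_lit 1) (nat_lit 4) (nat_lit 2) (nat_lit 5) (nat_lit 2) (nat_lit 4) (nat_lit 344) (nat_lit 207) (nat_lit 169)) (XT.lf (nat_lit 0) (nat_lit 169302535992) (nat_lit 76) (nat_lit 31559267963) (nat_lit 76) (nat_lit 27142422756) (nat_lit 1) (nat_lit 4) (nat_lit 2) (nat_lit 5) (nat_lit 2) (nat_lit 4) (nat_lit 345) (nat_lit 207) (nat_lit 168)))) (XT.nd (nat_lit 156) (nat_lit 0) (nat_lit 0) (XT.nd (nat_lit 78) (nat_lit 0) (nat_lit 0) (XT.lf (nat_lit 0) (nat_lit 180405970057) (nat_lit 76) (nat_lit 31689086298) (nat_lit 76) (nat_lit 27235372530) (nat_lit 1) (nat_lit 4) (nat_lit 2) (nat_lit 5) (nat_lit 2) (nat_lit 4) (nat_lit 346) (nat_lit 207) (nat_lit 167)) (XT.lf (nat_lit 0) (nat_lit 192036242562) (nat_lit 76) (nat_lit 31838160042) (nat_lit 76) (nat_lit 27349333360) (nat_lit 1) (nat_lit 4) (nat_lit 2) (nat_lit 5) (nat_lit 2) (nat_lit 4) (nat_lit 347) (nat_lit 207)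 (nat_lit 166))) (XT.nd (nat_lit 78) (nat_lit 0) (nat_lit 0) (XT.lf (nat_lit 0) (nat_lit 204221044632) (nat_lit 76) (nat_lit 32006844135) (nat_lit 76) (nat_lit 27484576582) (nat_lit 1) (nat_lit 4) (nat_lit 2) (nat_lit 5) (nat_lit 2) (nat_lit 4) (nat_lit 348) (nat_lit 207) (nat_lit 165)) (XT.nd (nat_lit 78) (nat_lit 0) (nat_lit 0) (XT.lf (nat_lit 0) (nat_lit 216989387700) (nat_lit 76) (nat_lit 32195540204) (nat_lit 76) (nat_lit 27641424203) (nat_lit 1) (nat_lit 4) (nat_lit 2) (nat_lit 5) (nat_lit 2) (nat_lit 4) (nat_lit 349) (nat_lit 207) (nat_lit 164)) (XT.lf (nat_lit 0) (nat_lit 230371672584) (nat_lit 76) (nat_lit 32404697527) (nat_lit 76) (nat_lit 27820249669) (nat_lit 1) (nat_lit 4) (nat_lit 2) (nat_lit 5) (nat_lit 2) (nat_lit 4) (nat_lit 350) (nat_lit 207) (nat_lit 163))))))))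
noncomputable def xc27 : XT := (XT.nd (nat_lit 33930) (nat_lit 0) (nat_lit 0) (XT.nd (nat_lit 702) (nat_lit 0) (nat_lit 0) (XT.nd (nat_lit 312) (nat_lit 0) (nat_lit 0) (XT.nd (nat_lit 156) (nat_lit 0) (nat_lit 0) (XT.nd (nat_lit 78) (nat_lit 0) (nat_lit 0) (XT.lf (nat_lit 0) (nat_lit 244399761866) (nat_lit 76) (nat_lit 32634814096) (nat_lit 76) (nat_lit 28021478756) (nat_lit 1) (nat_lit 4) (nat_lit 2) (nat_lit 5) (nat_lit 2) (nat_lit 4) (nat_lit 351) (nat_lit 207) (nat_lit 162)) (XT.lf (nat_lit 0) (nat_lit 259107055759) (nat_lit 76) (nat_lit 32886437808) (nat_lit 76) (nat_lit 28245590581) (nat_lit 1) (nat_lit 4) (nat_lit 2) (nat_lit 5) (nat_lit 2) (nat_lit 4) (nat_lit 352) (nat_lit 207) (nat_lit 161))) (XT.nd (nat_lit 78) (nat_lit 0) (nat_lit 0) (XT.lf (nat_lit 0) (nat_lit 274528571630) (nat_lit 76) (nat_lit 33160167767) (nat_lit 76) (nat_lit 28493118743) (nat_lit 1) (nat_lit 4) (nat_lit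 2) (nat_lit 5) (nat_lit 2) (nat_lit 4) (nat_lit 353) (nat_lit 207) (nat_lit 160)) (XT.lf (nat_lit 0) (nat_lit 290701027373) (nat_lit 76) (nat_lit 33456655712) (nat_lit 76) (nat_lit 28764652595) (nat_lit 1) (nat_lit 4) (nat_lit 2) (nat_lit 5) (nat_lit 2) (nat_lit 4) (nat_lit 354) (nat_lit 207) (nat_lit 159)))) (XT.nd (nat_lit 156) (nat_lit 0) (nat_lit 0) (XT.nd (nat_lit 78) (nat_lit 0) (nat_lit 0) (XT.lf (nat_lit 0) (nat_lit 307662928836) (nat_lit 76) (nat_lit 33776607566) (nat_lit 76) (nat_lit 29060838646) (nat_lit 1) (nat_lit 4) (nat_lit 2) (nat_lit 5) (nat_lit 2) (nat_lit 4) (nat_lit 355) (nat_lit 207) (nat_lit 158)) (XT.lf (nat_lit 0) (nat_lit 325454661497) (nat_lit 76) (nat_lit 34120785119) (nat_lit 76) (nat_lit 29382382101) (nat_lit 1) (nat_lit 4) (nat_lit 2) (nat_lit 5) (nat_lit 2) (nat_lit 4) (nat_lit 356) (nat_lit 207) (nat_lit 157))) (XT.nd (nat_lit 78) (nat_lit 0) (nat_lit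 0) (XT.lf (nat_lit 0) (nat_lit 344118586626) (nat_lit 76) (nat_lit 34490007841) (nat_lit 76) (nat_lit 29730048540) (nat_lit 1) (nat_lit 4) (nat_lit 2) (nat_lit 5) (nat_lit 2) (nat_lit 4) (nat_lit 357) (nat_lit 207) (nat_lit 156)) (XT.nd (nat_lit 78) (nat_lit 0) (nat_lit 0) (XT.lf (nat_lit 0) (nat_lit 363699142139) (nat_lit 76) (nat_lit 34885154835) (nat_lit 76) (nat_lit 30104665740) (nat_lit 1) (nat_lit 4) (nat_lit 2) (nat_lit 5) (nat_lit 2) (nat_lit 4) (nat_lit 358) (nat_lit 207) (nat_lit 155)) (XT.lf (nat_lit 0) (nat_lit 384242948407) (nat_lit 76) (nat_lit 35307166926) (nat_lit 76) (nat_lit 30507125646) (nat_lit 1) (nat_lit 4) (nat_lit 2) (nat_lit 5) (nat_lit 2) (nat_lit 4) (nat_lit 359) (nat_lit 207) (nat_lit 154)))))) (XT.nd (nat_lit 312) (nat_lit 0) (nat_lit 0) (XT.nd (nat_lit 156) (nat_lit 0) (nat_lit 0) (XT.nd (nat_lit 78) (nat_lit 0) (nat_lit 0) (XT.lf (nat_lit 0) (nat_lit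 405798919254) (nat_lit 76) (nat_lit 35757048905) (nat_lit 76) (nat_lit 30938386497) (nat_lit 1) (nat_lit 4) (nat_lit 2) (nat_lit 5) (nat_lit 2) (nat_lit 4) (nat_lit 360) (nat_lit 207) (nat_lit 153)) (XT.lf (nat_lit 0) (nat_lit 428418378419) (nat_lit 76) (nat_lit 36235871920) (nat_lit 76) (nat_lit 31399475104) (nat_lit 1) (nat_lit 4) (nat_lit 2) (nat_lit 5) (nat_lit 2) (nat_lit 4) (nat_lit 361) (nat_lit 207) (nat_lit 152))) (XT.nd (nat_lit 78) (nat_lit 0) (nat_lit 0) (XT.lf (nat_lit 0) (nat_lit 452155181759) (nat_lit 76) (nat_lit 36744776025) (nat_lit 76) (nat_lit 31891489297) (nat_lit 1) (nat_lit 4) (nat_lit 2) (nat_lit 5) (nat_lit 2) (nat_lit 4) (nat_lit 362) (nat_lit 207) (nat_lit 151)) (XT.lf (nat_lit 0) (nat_lit 477065845472) (nat_lit 76) (nat_lit 37284972897) (nat_lit 76) (nat_lit 32415600538) (nat_lit 1) (nat_lit 4) (nat_lit 2) (nat_lit 5) (nat_lit 2) (nat_lit 4) (nat_lit 363)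 (nat_lit 207) (nat_lit 150)))) (XT.nd (nat_lit 156) (nat_lit 0) (nat_lit 0) (XT.nd (nat_lit 78) (nat_lit 0) (nat_lit 0) (XT.lf (nat_lit 0) (nat_lit 503209680661) (nat_lit 76) (nat_lit 37857748719) (nat_lit 76) (nat_lit 32973056712) (nat_lit 1) (nat_lit 4) (nat_lit 2) (nat_lit 5) (nat_lit 2) (nat_lit 4) (nat_lit 364) (nat_lit 207) (nat_lit 149)) (XT.lf (nat_lit 0) (nat_lit 530648934554) (nat_lit 76) (nat_lit 38464467243) (nat_lit 76) (nat_lit 33565185095) (nat_lit 1) (nat_lit 4) (nat_lit 2) (nat_lit 5) (nat_lit 2) (nat_lit 4) (nat_lit 365) (nat_lit 207) (nat_lit 148))) (XT.nd (nat_lit 78) (nat_lit 0) (nat_lit 0) (XT.lf (nat_lit 0) (nat_lit 559448938707) (nat_lit 76) (nat_lit 39106573037) (nat_lit 76) (nat_lit 34193395516) (nat_lit 1) (nat_lit 4) (nat_lit 2) (nat_lit 5) (nat_lit 2) (nat_lit 4) (nat_lit 366) (nat_lit 207) (nat_lit 147)) (XT.nd (nat_lit 32604) (nat_lit 0) (nat_lit 228)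 (XT.lf (nat_lit 0) (nat_lit 589678264559) (nat_lit 76) (nat_lit 39785594924) (nat_lit 76) (nat_lit 34859183714) (nat_lit 1) (nat_lit 4) (nat_lit 2) (nat_lit 5) (nat_lit 2) (nat_lit 4) (nat_lit 367) (nat_lit 207) (nat_lit 146)) (XT.lf (nat_lit 0) (nat_lit 5811811775) (nat_lit 76) (nat_lit 5342989284) (nat_lit 76) (nat_lit 5342989284) (nat_lit 4) (nat_lit 4) (nat_lit 5) (nat_lit 5) (nat_lit 5) (nat_lit 4) (nat_lit 304) (nat_lit 208) (nat_lit 208))))))) (XT.nd (nat_lit 702) (nat_lit 76) (nat_lit 0) (XT.nd (nat_lit 312) (nat_lit 152) (nat_lit 0) (XT.nd (nat_lit 156) (nat_lit 0) (nat_lit 0) (XT.nd (nat_lit 78) (nat_lit 0) (nat_lit 0) (XT.lf (nat_lit 0) (nat_lit 17904114225) (nat_lit 76) (nat_lit 8425208637) (nat_lit 76) (nat_lit 8152676676) (nat_lit 4) (nat_lit 4) (nat_lit 5) (nat_lit 5) (nat_lit 5) (nat_lit 4) (nat_lit 305) (nat_lit 208) (nat_lit 207)) (XT.lf (nat_lit 0) (nat_lit 24319158089)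 (nat_lit 76) (nat_lit 6130405834) (nat_lit 76) (nat_lit 5598319624) (nat_lit 4) (nat_lit 4) (nat_lit 5) (nat_lit 5) (nat_lit 5) (nat_lit 4) (nat_lit 306) (nat_lit 208) (nat_lit 206))) (XT.nd (nat_lit 78) (nat_lit 0) (nat_lit 0) (XT.lf (nat_lit 0) (nat_lit 30884029057) (nat_lit 76) (nat_lit 3796106341) (nat_lit 76) (nat_lit 3016825609) (nat_lit 4) (nat_lit 4) (nat_lit 5) (nat_lit 5) (nat_lit 5) (nat_lit 4) (nat_lit 307) (nat_lit 208) (nat_lit 205)) (XT.lf (nat_lit 0) (nat_lit 37614357774) (nat_lit 76) (nat_lit 1416752304) (nat_lit 76) (nat_lit 402048217) (nat_lit 4) (nat_lit 4) (nat_lit 5) (nat_lit 5) (nat_lit 5) (nat_lit 4) (nat_lit 308) (nat_lit 208) (nat_lit 204)))) (XT.nd (nat_lit 156) (nat_lit 0) (nat_lit 0) (XT.nd (nat_lit 78) (nat_lit 0) (nat_lit 0) (XT.lf (nat_lit 0) (nat_lit 2249507074) (nat_lit 152) (nat_lit 37936289920) (nat_lit 0) (nat_lit 1069586306) (nat_lit 2) (nat_lit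 5) (nat_lit 4) (nat_lit 4) (nat_lit 2) (nat_lit 4) (nat_lit 309) (nat_lit 208) (nat_lit 203)) (XT.lf (nat_lit 0) (nat_lit 4987051971) (nat_lit 152) (nat_lit 34579322964) (nat_lit 0) (nat_lit 3603763658) (nat_lit 2) (nat_lit 5) (nat_lit 4) (nat_lit 4) (nat_lit 2) (nat_lit 4) (nat_lit 310) (nat_lit 208) (nat_lit 202))) (XT.nd (nat_lit 78) (nat_lit 0) (nat_lit 0) (XT.lf (nat_lit 0) (nat_lit 7778036614) (nat_lit 152) (nat_lit 31205792225) (nat_lit 0) (nat_lit 6201064924) (nat_lit 2) (nat_lit 5) (nat_lit 4) (nat_lit 4) (nat_lit 2) (nat_lit 4) (nat_lit 311) (nat_lit 208) (nat_lit 201)) (XT.nd (nat_lit 78) (nat_lit 0) (nat_lit 0) (XT.lf (nat_lit 0) (nat_lit 10629106206) (nat_lit 152) (nat_lit 27807665486) (nat_lit 0) (nat_lit 8867674157) (nat_lit 2) (nat_lit 5) (nat_lit 4) (nat_lit 4) (nat_lit 2) (nat_lit 4) (nat_lit 312) (nat_lit 208) (nat_lit 200)) (XT.lf (nat_lit 0) (nat_lit 13547049006)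 (nat_lit 152) (nat_lit 24376851969) (nat_lit 0) (nat_lit 11609940426) (nat_lit 2) (nat_lit 5) (nat_lit 4) (nat_lit 4) (nat_lit 2) (nat_lit 4) (nat_lit 313) (nat_lit 208) (nat_lit 199)))))) (XT.nd (nat_lit 312) (nat_lit 76) (nat_lit 0) (XT.nd (nat_lit 156) (nat_lit 0) (nat_lit 0) (XT.nd (nat_lit 78) (nat_lit 0) (nat_lit 0) (XT.lf (nat_lit 0) (nat_lit 16538812499) (nat_lit 152) (nat_lit 20905183071) (nat_lit 0) (nat_lit 14434392935) (nat_lit 2) (nat_lit 5) (nat_lit 4) (nat_lit 4) (nat_lit 2) (nat_lit 4) (nat_lit 314) (nat_lit 208) (nat_lit 198)) (XT.lf (nat_lit 0) (nat_lit 19611519929) (nat_lit 152) (nat_lit 17384392914) (nat_lit 0) (nat_lit 17347756572) (nat_lit 2) (nat_lit 5) (nat_lit 4) (nat_lit 4) (nat_lit 2) (nat_lit 4) (nat_lit 315) (nat_lit 208) (nat_lit 197))) (XT.nd (nat_lit 78) (nat_lit 0) (nat_lit 0) (XT.lf (nat_lit 0) (nat_lit 22772487269) (nat_lit 152) (nat_lit 13806098664)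 (nat_lit 0) (nat_lit 20356967918) (nat_lit 2) (nat_lit 5) (nat_lit 4) (nat_lit 4) (nat_lit 2) (nat_lit 4) (nat_lit 316) (nat_lit 208) (nat_lit 196)) (XT.lf (nat_lit 0) (nat_lit 26029240629) (nat_lit 152) (nat_lit 10161780572) (nat_lit 0) (nat_lit 23469191760) (nat_lit 2) (nat_lit 5) (nat_lit 4) (nat_lit 4) (nat_lit 2) (nat_lit 4) (nat_lit 317) (nat_lit 208) (nat_lit 195)))) (XT.nd (nat_lit 156) (nat_lit 76) (nat_lit 0) (XT.nd (nat_lit 78) (nat_lit 0) (nat_lit 0) (XT.lf (nat_lit 0) (nat_lit 29389534184) (nat_lit 152) (nat_lit 6442761691) (nat_lit 0) (nat_lit 26691838156) (nat_lit 2) (nat_lit 5) (nat_lit 4) (nat_lit 4) (nat_lit 2) (nat_lit 4) (nat_lit 318) (nat_lit 208) (nat_lit 194)) (XT.lf (nat_lit 0) (nat_lit 32861368635) (nat_lit 152) (nat_lit 2640187214) (nat_lit 0) (nat_lit 30032580074) (nat_lit 2) (nat_lit 5) (nat_lit 4) (nat_lit 4) (nat_lit 2) (nat_lit 4) (nat_lit 319) (nat_lit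 208) (nat_lit 193))) (XT.nd (nat_lit 78) (nat_lit 0) (nat_lit 0) (XT.lf (nat_lit 0) (nat_lit 1296492462) (nat_lit 76) (nat_lit 35176759671) (nat_lit 76) (nat_lit 32223121078) (nat_lit 1) (nat_lit 4) (nat_lit 2) (nat_lit 5) (nat_lit 2) (nat_lit 4) (nat_lit 320) (nat_lit 208) (nat_lit 192)) (XT.nd (nat_lit 78) (nat_lit 0) (nat_lit 0) (XT.lf (nat_lit 0) (nat_lit 5425720976) (nat_lit 76) (nat_lit 34832000298) (nat_lit 76) (nat_lit 31759456914) (nat_lit 1) (nat_lit 4) (nat_lit 2) (nat_lit 5) (nat_lit 2) (nat_lit 4) (nat_lit 321) (nat_lit 208) (nat_lit 191)) (XT.lf (nat_lit 0) (nat_lit 9670033311) (nat_lit 76) (nat_lit 34511169725) (nat_lit 76) (nat_lit 31325383682) (nat_lit 1) (nat_lit 4) (nat_lit 2) (nat_lit 5) (nat_lit 2) (nat_lit 4) (nat_lit 322) (nat_lit 208) (nat_lit 190))))))))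
noncomputable def xc28 : XT := (XT.nd (nat_lit 1404) (nat_lit 0) (nat_lit 0) (XT.nd (nat_lit 702) (nat_lit 0) (nat_lit 0) (XT.nd (nat_lit 312) (nat_lit 0) (nat_lit 0) (XT.nd (nat_lit 156) (nat_lit 0) (nat_lit 0) (XT.nd (nat_lit 78) (nat_lit 0) (nat_lit 0) (XT.lf (nat_lit 0) (nat_lit 14039534971) (nat_lit 76) (nat_lit 34213504069) (nat_lit 76) (nat_lit 30919867874) (nat_lit 1) (nat_lit 4) (nat_lit 2) (nat_lit 5) (nat_lit 2) (nat_lit 4) (nat_lit 323) (nat_lit 208) (nat_lit 189)) (XT.lf (nat_lit 0) (nat_lit 18544629532) (nat_lit 76) (nat_lit 33938294602) (nat_lit 76) (nat_lit 30541943977) (nat_lit 1) (nat_lit 4) (nat_lit 2) (nat_lit 5) (nat_lit 2) (nat_lit 4) (nat_lit 324) (nat_lit 208) (nat_lit 188))) (XT.nd (nat_lit 78) (nat_lit 0) (nat_lit 0) (XT.lf (nat_lit 0) (nat_lit 23196043409) (nat_lit 76) (nat_lit 33684886064) (nat_lit 76) (nat_lit 30190712172) (nat_lit 1) (nat_lit 4) (nat_lit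 2) (nat_lit 5) (nat_lit 2) (nat_lit 4) (nat_lit 325) (nat_lit 208) (nat_lit 187)) (XT.lf (nat_lit 0) (nat_lit 28004851399) (nat_lit 76) (nat_lit 33452675100) (nat_lit 76) (nat_lit 29865336193) (nat_lit 1) (nat_lit 4) (nat_lit 2) (nat_lit 5) (nat_lit 2) (nat_lit 4) (nat_lit 326) (nat_lit 208) (nat_lit 186)))) (XT.nd (nat_lit 156) (nat_lit 0) (nat_lit 0) (XT.nd (nat_lit 78) (nat_lit 0) (nat_lit 0) (XT.lf (nat_lit 0) (nat_lit 32982503043) (nat_lit 76) (nat_lit 33241108828) (nat_lit 76) (nat_lit 29565041334) (nat_lit 1) (nat_lit 4) (nat_lit 2) (nat_lit 5) (nat_lit 2) (nat_lit 4) (nat_lit 327) (nat_lit 208) (nat_lit 185)) (XT.lf (nat_lit 0) (nat_lit 38140849893) (nat_lit 76) (nat_lit 33049683519) (nat_lit 76) (nat_lit 29289112609) (nat_lit 1) (nat_lit 4) (nat_lit 2) (nat_lit 5) (nat_lit 2) (nat_lit 4) (nat_lit 328) (nat_lit 208) (nat_lit 184))) (XT.nd (nat_lit 78) (nat_lit 0) (nat_lit 0)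 (XT.lf (nat_lit 0) (nat_lit 43492173727) (nat_lit 76) (nat_lit 32877943397) (nat_lit 76) (nat_lit 29036893044) (nat_lit 1) (nat_lit 4) (nat_lit 2) (nat_lit 5) (nat_lit 2) (nat_lit 4) (nat_lit 329) (nat_lit 208) (nat_lit 183)) (XT.nd (nat_lit 78) (nat_lit 0) (nat_lit 0) (XT.lf (nat_lit 0) (nat_lit 49049215793) (nat_lit 76) (nat_lit 32725479558) (nat_lit 76) (nat_lit 28807782116) (nat_lit 1) (nat_lit 4) (nat_lit 2) (nat_lit 5) (nat_lit 2) (nat_lit 4) (nat_lit 330) (nat_lit 208) (nat_lit 182)) (XT.lf (nat_lit 0) (nat_lit 54825207143) (nat_lit 76) (nat_lit 32591928992) (nat_lit 76) (nat_lit 28601234323) (nat_lit 1) (nat_lit 4) (nat_lit 2) (nat_lit 5) (nat_lit 2) (nat_lit 4) (nat_lit 331) (nat_lit 208) (nat_lit 181)))))) (XT.nd (nat_lit 312) (nat_lit 0) (nat_lit 0) (XT.nd (nat_lit 156) (nat_lit 0) (nat_lit 0) (XT.nd (nat_lit 78) (nat_lit 0) (nat_lit 0) (XT.lf (nat_lit 0) (nat_lit 60833900137)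 (nat_lit 76) (nat_lit 32476973723) (nat_lit 76) (nat_lit 28416757884) (nat_lit 1) (nat_lit 4) (nat_lit 2) (nat_lit 5) (nat_lit 2) (nat_lit 4) (nat_lit 332) (nat_lit 208) (nat_lit 180)) (XT.lf (nat_lit 0) (nat_lit 67089601188) (nat_lit 76) (nat_lit 32380340047) (nat_lit 76) (nat_lit 28253913571) (nat_lit 1) (nat_lit 4) (nat_lit 2) (nat_lit 5) (nat_lit 2) (nat_lit 4) (nat_lit 333) (nat_lit 208) (nat_lit 179))) (XT.nd (nat_lit 78) (nat_lit 0) (nat_lit 0) (XT.lf (nat_lit 0) (nat_lit 73607204821) (nat_lit 76) (nat_lit 32301797883) (nat_lit 76) (nat_lit 28112313657) (nat_lit 1) (nat_lit 4) (nat_lit 2) (nat_lit 5) (nat_lit 2) (nat_lit 4) (nat_lit 334) (nat_lit 208) (nat_lit 178)) (XT.lf (nat_lit 0) (nat_lit 80402229141) (nat_lit 76) (nat_lit 32241160228) (nat_lit 76) (nat_lit 27991621002) (nat_lit 1) (nat_lit 4) (nat_lit 2) (nat_lit 5) (nat_lit 2) (nat_lit 4) (nat_lit 335) (nat_lit 208) (nat_lit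 177)))) (XT.nd (nat_lit 156) (nat_lit 0) (nat_lit 0) (XT.nd (nat_lit 78) (nat_lit 0) (nat_lit 0) (XT.lf (nat_lit 0) (nat_lit 87490852776) (nat_lit 76) (nat_lit 32198282705) (nat_lit 76) (nat_lit 27891548241) (nat_lit 1) (nat_lit 4) (nat_lit 2) (nat_lit 5) (nat_lit 2) (nat_lit 4) (nat_lit 336) (nat_lit 208) (nat_lit 176)) (XT.lf (nat_lit 0) (nat_lit 94889953403) (nat_lit 76) (nat_lit 32173063224) (nat_lit 76) (nat_lit 27811857105) (nat_lit 1) (nat_lit 4) (nat_lit 2) (nat_lit 5) (nat_lit 2) (nat_lit 4) (nat_lit 337) (nat_lit 208) (nat_lit 175))) (XT.nd (nat_lit 78) (nat_lit 0) (nat_lit 0) (XT.lf (nat_lit 0) (nat_lit 102617147927) (nat_lit 76) (nat_lit 32165441741) (nat_lit 76) (nat_lit 27752357855) (nat_lit 1) (nat_lit 4) (nat_lit 2) (nat_lit 5) (nat_lit 2) (nat_lit 4) (nat_lit 338) (nat_lit 208) (nat_lit 174)) (XT.nd (nat_lit 78) (nat_lit 0) (nat_lit 0) (XT.lf (nat_lit 0) (nat_lit 110690834431)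 (nat_lit 76) (nat_lit 32175400108) (nat_lit 76) (nat_lit 27712908825) (nat_lit 1) (nat_lit 4) (nat_lit 2) (nat_lit 5) (nat_lit 2) (nat_lit 4) (nat_lit 339) (nat_lit 208) (nat_lit 173)) (XT.lf (nat_lit 0) (nat_lit 119130235977) (nat_lit 76) (nat_lit 32202962035) (nat_lit 76) (nat_lit 27693416088) (nat_lit 1) (nat_lit 4) (nat_lit 2) (nat_lit 5) (nat_lit 2) (nat_lit 4) (nat_lit 340) (nat_lit 208) (nat_lit 172))))))) (XT.nd (nat_lit 702) (nat_lit 0) (nat_lit 0) (XT.nd (nat_lit 312) (nat_lit 0) (nat_lit 0) (XT.nd (nat_lit 156) (nat_lit 0) (nat_lit 0) (XT.nd (nat_lit 78) (nat_lit 0) (nat_lit 0) (XT.lf (nat_lit 0) (nat_lit 127955446379) (nat_lit 76) (nat_lit 32248193147) (nat_lit 76) (nat_lit 27693833234) (nat_lit 1) (nat_lit 4) (nat_lit 2) (nat_lit 5) (nat_lit 2) (nat_lit 4) (nat_lit 341) (nat_lit 208) (nat_lit 171)) (XT.lf (nat_lit 0) (nat_lit 137187478043) (nat_lit 76) (nat_lit 32311201136)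 (nat_lit 76) (nat_lit 27714161256) (nat_lit 1) (nat_lit 4) (nat_lit 2) (nat_lit 5) (nat_lit 2) (nat_lit 4) (nat_lit 342) (nat_lit 208) (nat_lit 170))) (XT.nd (nat_lit 78) (nat_lit 0) (nat_lit 0) (XT.lf (nat_lit 0) (nat_lit 146848311996) (nat_lit 76) (nat_lit 32392136021) (nat_lit 76) (nat_lit 27754448554) (nat_lit 1) (nat_lit 4) (nat_lit 2) (nat_lit 5) (nat_lit 2) (nat_lit 4) (nat_lit 343) (nat_lit 208) (nat_lit 169)) (XT.lf (nat_lit 0) (nat_lit 156960950224) (nat_lit 76) (nat_lit 32491190505) (nat_lit 76) (nat_lit 27814791050) (nat_lit 1) (nat_lit 4) (nat_lit 2) (nat_lit 5) (nat_lit 2) (nat_lit 4) (nat_lit 344) (nat_lit 208) (nat_lit 168)))) (XT.nd (nat_lit 156) (nat_lit 0) (nat_lit 0) (XT.nd (nat_lit 78) (nat_lit 0) (nat_lit 0) (XT.lf (nat_lit 0) (nat_lit 167549470438) (nat_lit 76) (nat_lit 32608600432) (nat_lit 76) (nat_lit 27895332416) (nat_lit 1) (nat_lit 4) (nat_lit 2) (nat_lit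 5) (nat_lit 2) (nat_lit 4) (nat_lit 345) (nat_lit 208) (nat_lit 167)) (XT.lf (nat_lit 0) (nat_lit 178639083399) (nat_lit 76) (nat_lit 32744645349) (nat_lit 76) (nat_lit 27996264418) (nat_lit 1) (nat_lit 4) (nat_lit 2) (nat_lit 5) (nat_lit 2) (nat_lit 4) (nat_lit 346) (nat_lit 208) (nat_lit 166))) (XT.nd (nat_lit 78) (nat_lit 0) (nat_lit 0) (XT.lf (nat_lit 0) (nat_lit 190256192947) (nat_lit 76) (nat_lit 32899649172) (nat_lit 76) (nat_lit 28117827370) (nat_lit 1) (nat_lit 4) (nat_lit 2) (nat_lit 5) (nat_lit 2) (nat_lit 4) (nat_lit 347) (nat_lit 208) (nat_lit 165)) (XT.nd (nat_lit 78) (nat_lit 0) (nat_lit 0) (XT.lf (nat_lit 0) (nat_lit 202428458868) (nat_lit 76) (nat_lit 33073980958) (nat_lit 76) (nat_lit 28260310708) (nat_lit 1) (nat_lit 4) (nat_lit 2) (nat_lit 5) (nat_lit 2) (nat_lit 4) (nat_lit 348) (nat_lit 208) (nat_lit 164)) (XT.lf (nat_lit 0) (nat_lit 215184862747) (nat_lit 76)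 (nat_lit 33268055783) (nat_lit 76) (nat_lit 28424053677) (nat_lit 1) (nat_lit 4) (nat_lit 2) (nat_lit 5) (nat_lit 2) (nat_lit 4) (nat_lit 349) (nat_lit 208) (nat_lit 163)))))) (XT.nd (nat_lit 312) (nat_lit 0) (nat_lit 0) (XT.nd (nat_lit 156) (nat_lit 0) (nat_lit 0) (XT.nd (nat_lit 78) (nat_lit 0) (nat_lit 0) (XT.lf (nat_lit 0) (nat_lit 228555776975) (nat_lit 76) (nat_lit 33482335730) (nat_lit 76) (nat_lit 28609446142) (nat_lit 1) (nat_lit 4) (nat_lit 2) (nat_lit 5) (nat_lit 2) (nat_lit 4) (nat_lit 350) (nat_lit 208) (nat_lit 162)) (XT.lf (nat_lit 0) (nat_lit 242573037061) (nat_lit 76) (nat_lit 33717330989) (nat_lit 76) (nat_lit 28816929514) (nat_lit 1) (nat_lit 4) (nat_lit 2) (nat_lit 5) (nat_lit 2) (nat_lit 4) (nat_lit 351) (nat_lit 208) (nat_lit 161))) (XT.nd (nat_lit 78) (nat_lit 0) (nat_lit 0) (XT.lf (nat_lit 0) (nat_lit 257270017433) (nat_lit 76) (nat_lit 33973601073) (nat_lit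 76) (nat_lit 29046997800) (nat_lit 1) (nat_lit 4) (nat_lit 2) (nat_lit 5) (nat_lit 2) (nat_lit 4) (nat_lit 352) (nat_lit 208) (nat_lit 160)) (XT.lf (nat_lit 0) (nat_lit 272681710903) (nat_lit 76) (nat_lit 34251756149) (nat_lit 76) (nat_lit 29300198783) (nat_lit 1) (nat_lit 4) (nat_lit 2) (nat_lit 5) (nat_lit 2) (nat_lit 4) (nat_lit 353) (nat_lit 208) (nat_lit 159)))) (XT.nd (nat_lit 156) (nat_lit 0) (nat_lit 0) (XT.nd (nat_lit 78) (nat_lit 0) (nat_lit 0) (XT.lf (nat_lit 0) (nat_lit 288844811979) (nat_lit 76) (nat_lit 34552458489) (nat_lit 76) (nat_lit 29577135321) (nat_lit 1) (nat_lit 4) (nat_lit 2) (nat_lit 5) (nat_lit 2) (nat_lit 4) (nat_lit 354) (nat_lit 208) (nat_lit 158)) (XT.lf (nat_lit 0) (nat_lit 305797804235) (nat_lit 76) (nat_lit 34876424054) (nat_lit 76) (nat_lit 29878466787) (nat_lit 1) (nat_lit 4) (nat_lit 2) (nat_lit 5) (nat_lit 2) (nat_lit 4) (nat_lit 355) (nat_lit 208)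 (nat_lit 157))) (XT.nd (nat_lit 78) (nat_lit 0) (nat_lit 0) (XT.lf (nat_lit 0) (nat_lit 323581051938) (nat_lit 76) (nat_lit 35224424188) (nat_lit 76) (nat_lit 30204910638) (nat_lit 1) (nat_lit 4) (nat_lit 2) (nat_lit 5) (nat_lit 2) (nat_lit 4) (nat_lit 356) (nat_lit 208) (nat_lit 156)) (XT.nd (nat_lit 78) (nat_lit 0) (nat_lit 0) (XT.lf (nat_lit 0) (nat_lit 342236896153) (nat_lit 76) (nat_lit 35597287464) (nat_lit 76) (nat_lit 30557244120) (nat_lit 1) (nat_lit 4) (nat_lit 2) (nat_lit 5) (nat_lit 2) (nat_lit 4) (nat_lit 357) (nat_lit 208) (nat_lit 155)) (XT.lf (nat_lit 0) (nat_lit 361809755558) (nat_lit 76) (nat_lit 35995901652) (nat_lit 76) (nat_lit 30936306123) (nat_lit 1) (nat_lit 4) (nat_lit 2) (nat_lit 5) (nat_lit 2) (nat_lit 4) (nat_lit 358) (nat_lit 208) (nat_lit 154))))))))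
noncomputable def xc29 : XT := (XT.nd (nat_lit 33774) (nat_lit 0) (nat_lit 0) (XT.nd (nat_lit 33072) (nat_lit 0) (nat_lit 76) (XT.nd (nat_lit 312) (nat_lit 0) (nat_lit 0) (XT.nd (nat_lit 156) (nat_lit 0) (nat_lit 0) (XT.nd (nat_lit 78) (nat_lit 0) (nat_lit 0) (XT.lf (nat_lit 0) (nat_lit 382346232200) (nat_lit 76) (nat_lit 36421215832) (nat_lit 76) (nat_lit 31342999176) (nat_lit 1) (nat_lit 4) (nat_lit 2) (nat_lit 5) (nat_lit 2) (nat_lit 4) (nat_lit 359) (nat_lit 208) (nat_lit 153)) (XT.lf (nat_lit 0) (nat_lit 403895222449) (nat_lit 76) (nat_lit 36874242659) (nat_lit 76) (nat_lit 31778291594) (nat_lit 1) (nat_lit 4) (nat_lit 2) (nat_lit 5) (nat_lit 2) (nat_lit 4) (nat_lit 360) (nat_lit 208) (nat_lit 152))) (XT.nd (nat_lit 78) (nat_lit 0) (nat_lit 0) (XT.lf (nat_lit 0) (nat_lit 426508033428) (nat_lit 76) (nat_lit 37356060766) (nat_lit 76) (nat_lit 32243219789) (nat_lit 1) (nat_lit 4)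 (nat_lit 2) (nat_lit 5) (nat_lit 2) (nat_lit 4) (nat_lit 361) (nat_lit 208) (nat_lit 151)) (XT.lf (nat_lit 0) (nat_lit 450238505161) (nat_lit 76) (nat_lit 37867817340) (nat_lit 76) (nat_lit 32738890732) (nat_lit 1) (nat_lit 4) (nat_lit 2) (nat_lit 5) (nat_lit 2) (nat_lit 4) (nat_lit 362) (nat_lit 208) (nat_lit 150)))) (XT.nd (nat_lit 156) (nat_lit 0) (nat_lit 0) (XT.nd (nat_lit 78) (nat_lit 0) (nat_lit 0) (XT.lf (nat_lit 0) (nat_lit 475143138772) (nat_lit 76) (nat_lit 38410730850) (nat_lit 76) (nat_lit 33266484593) (nat_lit 1) (nat_lit 4) (nat_lit 2) (nat_lit 5) (nat_lit 2) (nat_lit 4) (nat_lit 363) (nat_lit 208) (nat_lit 149)) (XT.lf (nat_lit 0) (nat_lit 501281231007) (nat_lit 76) (nat_lit 38986093945) (nat_lit 76) (nat_lit 33827257548) (nat_lit 1) (nat_lit 4) (nat_lit 2) (nat_lit 5) (nat_lit 2) (nat_lit 4) (nat_lit 364) (nat_lit 208) (nat_lit 148))) (XT.nd (nat_lit 78) (nat_lit 0)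 (nat_lit 0) (XT.lf (nat_lit 0) (nat_lit 528715015419) (nat_lit 76) (nat_lit 39595276539) (nat_lit 76) (nat_lit 34422544769) (nat_lit 1) (nat_lit 4) (nat_lit 2) (nat_lit 5) (nat_lit 2) (nat_lit 4) (nat_lit 365) (nat_lit 208) (nat_lit 147)) (XT.nd (nat_lit 78) (nat_lit 0) (nat_lit 0) (XT.lf (nat_lit 0) (nat_lit 557509810544) (nat_lit 76) (nat_lit 40239729066) (nat_lit 76) (nat_lit 35053763608) (nat_lit 1) (nat_lit 4) (nat_lit 2) (nat_lit 5) (nat_lit 2) (nat_lit 4) (nat_lit 366) (nat_lit 208) (nat_lit 146)) (XT.lf (nat_lit 0) (nat_lit 587734175416) (nat_lit 76) (nat_lit 40920985937) (nat_lit 76) (nat_lit 35722416966) (nat_lit 1) (nat_lit 4) (nat_lit 2) (nat_lit 5) (nat_lit 2) (nat_lit 4) (nat_lit 367) (nat_lit 208) (nat_lit 145)))))) (XT.nd (nat_lit 312) (nat_lit 152) (nat_lit 0) (XT.nd (nat_lit 156) (nat_lit 0) (nat_lit 0) (XT.nd (nat_lit 78) (nat_lit 76) (nat_lit 0) (XT.lf (nat_lit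 0) (nat_lit 7440799790) (nat_lit 152) (nat_lit 240404684) (nat_lit 0) (nat_lit 7440799790) (nat_lit 5) (nat_lit 5) (nat_lit 7) (nat_lit 4) (nat_lit 5) (nat_lit 4) (nat_lit 302) (nat_lit 209) (nat_lit 209)) (XT.lf (nat_lit 0) (nat_lit 5462732518) (nat_lit 76) (nat_lit 13204256971) (nat_lit 76) (nat_lit 12918098411) (nat_lit 4) (nat_lit 4) (nat_lit 5) (nat_lit 5) (nat_lit 5) (nat_lit 4) (nat_lit 303) (nat_lit 209) (nat_lit 208))) (XT.nd (nat_lit 78) (nat_lit 0) (nat_lit 0) (XT.lf (nat_lit 0) (nat_lit 11531699204) (nat_lit 76) (nat_lit 11012603422) (nat_lit 76) (nat_lit 10453912902) (nat_lit 4) (nat_lit 4) (nat_lit 5) (nat_lit 5) (nat_lit 5) (nat_lit 4) (nat_lit 304) (nat_lit 209) (nat_lit 207)) (XT.lf (nat_lit 0) (nat_lit 17724642881) (nat_lit 76) (nat_lit 8790372820) (nat_lit 76) (nat_lit 7972128051) (nat_lit 4) (nat_lit 4) (nat_lit 5) (nat_lit 5) (nat_lit 5) (nat_lit 4) (nat_lit 305)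 (nat_lit 209) (nat_lit 206)))) (XT.nd (nat_lit 156) (nat_lit 152) (nat_lit 0) (XT.nd (nat_lit 78) (nat_lit 0) (nat_lit 0) (XT.lf (nat_lit 0) (nat_lit 24056308653) (nat_lit 76) (nat_lit 6532274139) (nat_lit 76) (nat_lit 5466834848) (nat_lit 4) (nat_lit 4) (nat_lit 5) (nat_lit 5) (nat_lit 5) (nat_lit 4) (nat_lit 306) (nat_lit 209) (nat_lit 205)) (XT.lf (nat_lit 0) (nat_lit 30541771914) (nat_lit 76) (nat_lit 4232930954) (nat_lit 76) (nat_lit 2932068308) (nat_lit 4) (nat_lit 4) (nat_lit 5) (nat_lit 5) (nat_lit 5) (nat_lit 4) (nat_lit 307) (nat_lit 209) (nat_lit 204))) (XT.nd (nat_lit 78) (nat_lit 152) (nat_lit 0) (XT.lf (nat_lit 0) (nat_lit 37196474244) (nat_lit 76) (nat_lit 1886868639) (nat_lit 76) (nat_lit 361793273) (nat_lit 4) (nat_lit 4) (nat_lit 5) (nat_lit 5) (nat_lit 5) (nat_lit 4) (nat_lit 308) (nat_lit 209) (nat_lit 203)) (XT.nd (nat_lit 78) (nat_lit 0) (nat_lit 0) (XT.lf (nat_lit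 0) (nat_lit 2231350587) (nat_lit 152) (nat_lit 38463351206) (nat_lit 0) (nat_lit 575530313) (nat_lit 2) (nat_lit 5) (nat_lit 4) (nat_lit 4) (nat_lit 2) (nat_lit 4) (nat_lit 309) (nat_lit 209) (nat_lit 202)) (XT.lf (nat_lit 0) (nat_lit 4928194266) (nat_lit 152) (nat_lit 35180181599) (nat_lit 0) (nat_lit 3078690614) (nat_lit 2) (nat_lit 5) (nat_lit 4) (nat_lit 4) (nat_lit 2) (nat_lit 4) (nat_lit 310) (nat_lit 209) (nat_lit 201))))))) (XT.nd (nat_lit 702) (nat_lit 76) (nat_lit 0) (XT.nd (nat_lit 312) (nat_lit 0) (nat_lit 0) (XT.nd (nat_lit 156) (nat_lit 0) (nat_lit 0) (XT.nd (nat_lit 78) (nat_lit 0) (nat_lit 0) (XT.lf (nat_lit 0) (nat_lit 7680415844) (nat_lit 152) (nat_lit 31876934048) (nat_lit 0) (nat_lit 5646451834) (nat_lit 2) (nat_lit 5) (nat_lit 4) (nat_lit 4) (nat_lit 2) (nat_lit 4) (nat_lit 311) (nat_lit 209) (nat_lit 200)) (XT.lf (nat_lit 0) (nat_lit 10494568230) (nat_lit 152)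 (nat_lit 28545743680) (nat_lit 0) (nat_lit 8284927688) (nat_lit 2) (nat_lit 5) (nat_lit 4) (nat_lit 4) (nat_lit 2) (nat_lit 4) (nat_lit 312) (nat_lit 209) (nat_lit 199))) (XT.nd (nat_lit 78) (nat_lit 0) (nat_lit 0) (XT.lf (nat_lit 0) (nat_lit 13377351787) (nat_lit 152) (nat_lit 25178679087) (nat_lit 0) (nat_lit 11000400263) (nat_lit 2) (nat_lit 5) (nat_lit 4) (nat_lit 4) (nat_lit 2) (nat_lit 4) (nat_lit 313) (nat_lit 209) (nat_lit 198)) (XT.lf (nat_lit 0) (nat_lit 16335630286) (nat_lit 152) (nat_lit 21767723451) (nat_lit 0) (nat_lit 13799334968) (nat_lit 2) (nat_lit 5) (nat_lit 4) (nat_lit 4) (nat_lit 2) (nat_lit 4) (nat_lit 314) (nat_lit 209) (nat_lit 197)))) (XT.nd (nat_lit 156) (nat_lit 0) (nat_lit 0) (XT.nd (nat_lit 78) (nat_lit 0) (nat_lit 0) (XT.lf (nat_lit 0) (nat_lit 19376447247) (nat_lit 152) (nat_lit 18304755447) (nat_lit 0) (nat_lit 16688395936) (nat_lit 2) (nat_lit 5) (nat_lit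 4) (nat_lit 4) (nat_lit 2) (nat_lit 4) (nat_lit 315) (nat_lit 209) (nat_lit 196)) (XT.lf (nat_lit 0) (nat_lit 22507042710) (nat_lit 152) (nat_lit 14781529914) (nat_lit 0) (nat_lit 19674461881) (nat_lit 2) (nat_lit 5) (nat_lit 4) (nat_lit 4) (nat_lit 2) (nat_lit 4) (nat_lit 316) (nat_lit 209) (nat_lit 195))) (XT.nd (nat_lit 78) (nat_lit 0) (nat_lit 0) (XT.lf (nat_lit 0) (nat_lit 25734870474) (nat_lit 152) (nat_lit 11189658220) (nat_lit 0) (nat_lit 22764642485) (nat_lit 2) (nat_lit 5) (nat_lit 4) (nat_lit 4) (nat_lit 2) (nat_lit 4) (nat_lit 317) (nat_lit 209) (nat_lit 194)) (XT.nd (nat_lit 78) (nat_lit 0) (nat_lit 0) (XT.lf (nat_lit 0) (nat_lit 29067615843) (nat_lit 152) (nat_lit 7520588290) (nat_lit 0) (nat_lit 25966295321) (nat_lit 2) (nat_lit 5) (nat_lit 4) (nat_lit 4) (nat_lit 2) (nat_lit 4) (nat_lit 318) (nat_lit 209) (nat_lit 193)) (XT.lf (nat_lit 0) (nat_lit 32513213925) (nat_lit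 152) (nat_lit 3765584241) (nat_lit 0) (nat_lit 29287043371) (nat_lit 2) (nat_lit 5) (nat_lit 4) (nat_lit 4) (nat_lit 2) (nat_lit 4) (nat_lit 319) (nat_lit 209) (nat_lit 192)))))) (XT.nd (nat_lit 312) (nat_lit 0) (nat_lit 0) (XT.nd (nat_lit 156) (nat_lit 0) (nat_lit 0) (XT.nd (nat_lit 78) (nat_lit 0) (nat_lit 0) (XT.lf (nat_lit 0) (nat_lit 87081563) (nat_lit 76) (nat_lit 35994146549) (nat_lit 76) (nat_lit 32649071203) (nat_lit 1) (nat_lit 4) (nat_lit 2) (nat_lit 5) (nat_lit 2) (nat_lit 4) (nat_lit 320) (nat_lit 209) (nat_lit 191)) (XT.lf (nat_lit 0) (nat_lit 4171735636) (nat_lit 76) (nat_lit 35669468527) (nat_lit 76) (nat_lit 32211150522) (nat_lit 1) (nat_lit 4) (nat_lit 2) (nat_lit 5) (nat_lit 2) (nat_lit 4) (nat_lit 321) (nat_lit 209) (nat_lit 190))) (XT.nd (nat_lit 78) (nat_lit 0) (nat_lit 0) (XT.lf (nat_lit 0) (nat_lit 8373596120) (nat_lit 76) (nat_lit 35367763049) (nat_lit 76)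 (nat_lit 31801594893) (nat_lit 1) (nat_lit 4) (nat_lit 2) (nat_lit 5) (nat_lit 2) (nat_lit 4) (nat_lit 322) (nat_lit 209) (nat_lit 189)) (XT.lf (nat_lit 0) (nat_lit 12702667448) (nat_lit 76) (nat_lit 35088311770) (nat_lit 76) (nat_lit 31419429184) (nat_lit 1) (nat_lit 4) (nat_lit 2) (nat_lit 5) (nat_lit 2) (nat_lit 4) (nat_lit 323) (nat_lit 209) (nat_lit 188)))) (XT.nd (nat_lit 156) (nat_lit 0) (nat_lit 0) (XT.nd (nat_lit 78) (nat_lit 0) (nat_lit 0) (XT.lf (nat_lit 0) (nat_lit 17169256930) (nat_lit 76) (nat_lit 34830449328) (nat_lit 76) (nat_lit 31063743475) (nat_lit 1) (nat_lit 4) (nat_lit 2) (nat_lit 5) (nat_lit 2) (nat_lit 4) (nat_lit 324) (nat_lit 209) (nat_lit 187)) (XT.lf (nat_lit 0) (nat_lit 21783999304) (nat_lit 76) (nat_lit 34593561766) (nat_lit 76) (nat_lit 30733690898) (nat_lit 1) (nat_lit 4) (nat_lit 2) (nat_lit 5) (nat_lit 2) (nat_lit 4) (nat_lit 325) (nat_lit 209) (nat_lit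 186))) (XT.nd (nat_lit 78) (nat_lit 0) (nat_lit 0) (XT.lf (nat_lit 0) (nat_lit 26557882052) (nat_lit 76) (nat_lit 34377085066) (nat_lit 76) (nat_lit 30428485611) (nat_lit 1) (nat_lit 4) (nat_lit 2) (nat_lit 5) (nat_lit 2) (nat_lit 4) (nat_lit 326) (nat_lit 209) (nat_lit 185)) (XT.nd (nat_lit 78) (nat_lit 0) (nat_lit 0) (XT.lf (nat_lit 0) (nat_lit 31502271562) (nat_lit 76) (nat_lit 34180503806) (nat_lit 76) (nat_lit 30147400936) (nat_lit 1) (nat_lit 4) (nat_lit 2) (nat_lit 5) (nat_lit 2) (nat_lit 4) (nat_lit 327) (nat_lit 209) (nat_lit 184)) (XT.lf (nat_lit 0) (nat_lit 36628940188) (nat_lit 76) (nat_lit 34003349937) (nat_lit 76) (nat_lit 29889767623) (nat_lit 1) (nat_lit 4) (nat_lit 2) (nat_lit 5) (nat_lit 2) (nat_lit 4) (nat_lit 328) (nat_lit 209) (nat_lit 183))))))))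
noncomputable def xc30 : XT := (XT.nd (nat_lit 1404) (nat_lit 0) (nat_lit 0) (XT.nd (nat_lit 702) (nat_lit 0) (nat_lit 0) (XT.nd (nat_lit 312) (nat_lit 0) (nat_lit 0) (XT.nd (nat_lit 156) (nat_lit 0) (nat_lit 0) (XT.nd (nat_lit 78) (nat_lit 0) (nat_lit 0) (XT.lf (nat_lit 0) (nat_lit 41950094286) (nat_lit 76) (nat_lit 33845201664) (nat_lit 76) (nat_lit 29654972261) (nat_lit 1) (nat_lit 4) (nat_lit 2) (nat_lit 5) (nat_lit 2) (nat_lit 4) (nat_lit 329) (nat_lit 209) (nat_lit 182)) (XT.lf (nat_lit 0) (nat_lit 47478403269) (nat_lit 76) (nat_lit 33705682442) (nat_lit 76) (nat_lit 29442455811) (nat_lit 1) (nat_lit 4) (nat_lit 2) (nat_lit 5) (nat_lit 2) (nat_lit 4) (nat_lit 330) (nat_lit 209) (nat_lit 181))) (XT.nd (nat_lit 78) (nat_lit 0) (nat_lit 0) (XT.lf (nat_lit 0) (nat_lit 53227029779) (nat_lit 76) (nat_lit 33584460084) (nat_lit 76) (nat_lit 29251712284) (nat_lit 1) (nat_lit 4) (nat_lit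 2) (nat_lit 5) (nat_lit 2) (nat_lit 4) (nat_lit 331) (nat_lit 209) (nat_lit 180)) (XT.lf (nat_lit 0) (nat_lit 59209661020) (nat_lit 76) (nat_lit 33481245964) (nat_lit 76) (nat_lit 29082287527) (nat_lit 1) (nat_lit 4) (nat_lit 2) (nat_lit 5) (nat_lit 2) (nat_lit 4) (nat_lit 332) (nat_lit 209) (nat_lit 179)))) (XT.nd (nat_lit 156) (nat_lit 0) (nat_lit 0) (XT.nd (nat_lit 78) (nat_lit 0) (nat_lit 0) (XT.lf (nat_lit 0) (nat_lit 65440541354) (nat_lit 76) (nat_lit 33395794335) (nat_lit 76) (nat_lit 28933778148) (nat_lit 1) (nat_lit 4) (nat_lit 2) (nat_lit 5) (nat_lit 2) (nat_lit 4) (nat_lit 333) (nat_lit 209) (nat_lit 178)) (XT.lf (nat_lit 0) (nat_lit 71934506209) (nat_lit 76) (nat_lit 33327901740) (nat_lit 76) (nat_lit 28805830553) (nat_lit 1) (nat_lit 4) (nat_lit 2) (nat_lit 5) (nat_lit 2) (nat_lit 4) (nat_lit 334) (nat_lit 209) (nat_lit 177))) (XT.nd (nat_lit 78) (nat_lit 0) (nat_lit 0)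 (XT.lf (nat_lit 0) (nat_lit 78707017406) (nat_lit 76) (nat_lit 33277406531) (nat_lit 76) (nat_lit 28698140106) (nat_lit 1) (nat_lit 4) (nat_lit 2) (nat_lit 5) (nat_lit 2) (nat_lit 4) (nat_lit 335) (nat_lit 209) (nat_lit 176)) (XT.nd (nat_lit 78) (nat_lit 0) (nat_lit 0) (XT.lf (nat_lit 0) (nat_lit 85774199973) (nat_lit 76) (nat_lit 33244188481) (nat_lit 76) (nat_lit 28610450400) (nat_lit 1) (nat_lit 4) (nat_lit 2) (nat_lit 5) (nat_lit 2) (nat_lit 4) (nat_lit 336) (nat_lit 209) (nat_lit 175)) (XT.lf (nat_lit 0) (nat_lit 93152880535) (nat_lit 76) (nat_lit 33228168498) (nat_lit 76) (nat_lit 28542552651) (nat_lit 1) (nat_lit 4) (nat_lit 2) (nat_lit 5) (nat_lit 2) (nat_lit 4) (nat_lit 337) (nat_lit 209) (nat_lit 174)))))) (XT.nd (nat_lit 312) (nat_lit 0) (nat_lit 0) (XT.nd (nat_lit 156) (nat_lit 0) (nat_lit 0) (XT.nd (nat_lit 78) (nat_lit 0) (nat_lit 0) (XT.lf (nat_lit 0) (nat_lit 100860627377)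 (nat_lit 76) (nat_lit 33229308441) (nat_lit 76) (nat_lit 28494285197) (nat_lit 1) (nat_lit 4) (nat_lit 2) (nat_lit 5) (nat_lit 2) (nat_lit 4) (nat_lit 338) (nat_lit 209) (nat_lit 173)) (XT.lf (nat_lit 0) (nat_lit 108915792280) (nat_lit 76) (nat_lit 33247611024) (nat_lit 76) (nat_lit 28465533116) (nat_lit 1) (nat_lit 4) (nat_lit 2) (nat_lit 5) (nat_lit 2) (nat_lit 4) (nat_lit 339) (nat_lit 209) (nat_lit 172))) (XT.nd (nat_lit 78) (nat_lit 0) (nat_lit 0) (XT.lf (nat_lit 0) (nat_lit 117337554206) (nat_lit 76) (nat_lit 33283119823) (nat_lit 76) (nat_lit 28456227950) (nat_lit 1) (nat_lit 4) (nat_lit 2) (nat_lit 5) (nat_lit 2) (nat_lit 4) (nat_lit 340) (nat_lit 209) (nat_lit 171)) (XT.lf (nat_lit 0) (nat_lit 126145964970) (nat_lit 76) (nat_lit 33335919385) (nat_lit 76) (nat_lit 28466347544) (nat_lit 1) (nat_lit 4) (nat_lit 2) (nat_lit 5) (nat_lit 2) (nat_lit 4) (nat_lit 341) (nat_lit 209)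 (nat_lit 170)))) (XT.nd (nat_lit 156) (nat_lit 0) (nat_lit 0) (XT.nd (nat_lit 78) (nat_lit 0) (nat_lit 0) (XT.lf (nat_lit 0) (nat_lit 135361996978) (nat_lit 76) (nat_lit 33406135421) (nat_lit 76) (nat_lit 28495915993) (nat_lit 1) (nat_lit 4) (nat_lit 2) (nat_lit 5) (nat_lit 2) (nat_lit 4) (nat_lit 342) (nat_lit 209) (nat_lit 169)) (XT.lf (nat_lit 0) (nat_lit 145007593164) (nat_lit 76) (nat_lit 33493935114) (nat_lit 76) (nat_lit 28545003697) (nat_lit 1) (nat_lit 4) (nat_lit 2) (nat_lit 5) (nat_lit 2) (nat_lit 4) (nat_lit 343) (nat_lit 209) (nat_lit 168))) (XT.nd (nat_lit 78) (nat_lit 0) (nat_lit 0) (XT.lf (nat_lit 0) (nat_lit 155105719233) (nat_lit 76) (nat_lit 33599527509) (nat_lit 76) (nat_lit 28613727532) (nat_lit 1) (nat_lit 4) (nat_lit 2) (nat_lit 5) (nat_lit 2) (nat_lit 4) (nat_lit 344) (nat_lit 209) (nat_lit 167)) (XT.nd (nat_lit 78) (nat_lit 0) (nat_lit 0) (XT.lf (nat_lit 0)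 (nat_lit 165680418342) (nat_lit 76) (nat_lit 33723164018) (nat_lit 76) (nat_lit 28702251126) (nat_lit 1) (nat_lit 4) (nat_lit 2) (nat_lit 5) (nat_lit 2) (nat_lit 4) (nat_lit 345) (nat_lit 209) (nat_lit 166)) (XT.lf (nat_lit 0) (nat_lit 176756868347) (nat_lit 76) (nat_lit 33865139013) (nat_lit 76) (nat_lit 28810785250) (nat_lit 1) (nat_lit 4) (nat_lit 2) (nat_lit 5) (nat_lit 2) (nat_lit 4) (nat_lit 346) (nat_lit 209) (nat_lit 165))))))) (XT.nd (nat_lit 702) (nat_lit 0) (nat_lit 0) (XT.nd (nat_lit 312) (nat_lit 0) (nat_lit 0) (XT.nd (nat_lit 156) (nat_lit 0) (nat_lit 0) (XT.nd (nat_lit 78) (nat_lit 0) (nat_lit 0) (XT.lf (nat_lit 0) (nat_lit 188361441747) (nat_lit 76) (nat_lit 34025790530) (nat_lit 76) (nat_lit 28939588318) (nat_lit 1) (nat_lit 4) (nat_lit 2) (nat_lit 5) (nat_lit 2) (nat_lit 4) (nat_lit 347) (nat_lit 209) (nat_lit 164)) (XT.lf (nat_lit 0) (nat_lit 200521768479) (nat_lit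 76) (nat_lit 34205501072) (nat_lit 76) (nat_lit 29088967005) (nat_lit 1) (nat_lit 4) (nat_lit 2) (nat_lit 5) (nat_lit 2) (nat_lit 4) (nat_lit 348) (nat_lit 209) (nat_lit 163))) (XT.nd (nat_lit 78) (nat_lit 0) (nat_lit 0) (XT.lf (nat_lit 0) (nat_lit 213266801702) (nat_lit 76) (nat_lit 34404698522) (nat_lit 76) (nat_lit 29259276973) (nat_lit 1) (nat_lit 4) (nat_lit 2) (nat_lit 5) (nat_lit 2) (nat_lit 4) (nat_lit 349) (nat_lit 209) (nat_lit 162)) (XT.lf (nat_lit 0) (nat_lit 226626886732) (nat_lit 76) (nat_lit 34623857159) (nat_lit 76) (nat_lit 29450923723) (nat_lit 1) (nat_lit 4) (nat_lit 2) (nat_lit 5) (nat_lit 2) (nat_lit 4) (nat_lit 350) (nat_lit 209) (nat_lit 161)))) (XT.nd (nat_lit 156) (nat_lit 0) (nat_lit 0) (XT.nd (nat_lit 78) (nat_lit 0) (nat_lit 0) (XT.lf (nat_lit 0) (nat_lit 240633833297) (nat_lit 76) (nat_lit 34863498790) (nat_lit 76) (nat_lit 29664363556) (nat_lit 1) (nat_lit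 4) (nat_lit 2) (nat_lit 5) (nat_lit 2) (nat_lit 4) (nat_lit 351) (nat_lit 209) (nat_lit 160)) (XT.lf (nat_lit 0) (nat_lit 255320991270) (nat_lit 76) (nat_lit 35124193989) (nat_lit 76) (nat_lit 29900104662) (nat_lit 1) (nat_lit 4) (nat_lit 2) (nat_lit 5) (nat_lit 2) (nat_lit 4) (nat_lit 352) (nat_lit 209) (nat_lit 159))) (XT.nd (nat_lit 78) (nat_lit 0) (nat_lit 0) (XT.lf (nat_lit 0) (nat_lit 270723330073) (nat_lit 76) (nat_lit 35406563461) (nat_lit 76) (nat_lit 30158708331) (nat_lit 1) (nat_lit 4) (nat_lit 2) (nat_lit 5) (nat_lit 2) (nat_lit 4) (nat_lit 353) (nat_lit 209) (nat_lit 158)) (XT.nd (nat_lit 78) (nat_lit 0) (nat_lit 0) (XT.lf (nat_lit 0) (nat_lit 286877521942) (nat_lit 76) (nat_lit 35711279512) (nat_lit 76) (nat_lit 30440790284) (nat_lit 1) (nat_lit 4) (nat_lit 2) (nat_lit 5) (nat_lit 2) (nat_lit 4) (nat_lit 354) (nat_lit 209) (nat_lit 157)) (XT.lf (nat_lit 0) (nat_lit 303822029238)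 (nat_lit 76) (nat_lit 36039067658) (nat_lit 76) (nat_lit 30747022147) (nat_lit 1) (nat_lit 4) (nat_lit 2) (nat_lit 5) (nat_lit 2) (nat_lit 4) (nat_lit 355) (nat_lit 209) (nat_lit 156)))))) (XT.nd (nat_lit 312) (nat_lit 0) (nat_lit 0) (XT.nd (nat_lit 156) (nat_lit 0) (nat_lit 0) (XT.nd (nat_lit 78) (nat_lit 0) (nat_lit 0) (XT.lf (nat_lit 0) (nat_lit 321597196028) (nat_lit 76) (nat_lit 36390708346) (nat_lit 76) (nat_lit 31078133041) (nat_lit 1) (nat_lit 4) (nat_lit 2) (nat_lit 5) (nat_lit 2) (nat_lit 4) (nat_lit 356) (nat_lit 209) (nat_lit 155)) (XT.lf (nat_lit 0) (nat_lit 340245344135) (nat_lit 76) (nat_lit 36767038816) (nat_lit 76) (nat_lit 31434911326) (nat_lit 1) (nat_lit 4) (nat_lit 2) (nat_lit 5) (nat_lit 2) (nat_lit 4) (nat_lit 357) (nat_lit 209) (nat_lit 154))) (XT.nd (nat_lit 78) (nat_lit 0) (nat_lit 0) (XT.lf (nat_lit 0) (nat_lit 359810873914) (nat_lit 76) (nat_lit 37168955093)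 (nat_lit 76) (nat_lit 31818206475) (nat_lit 1) (nat_lit 4) (nat_lit 2) (nat_lit 5) (nat_lit 2) (nat_lit 4) (nat_lit 358) (nat_lit 209) (nat_lit 153)) (XT.lf (nat_lit 0) (nat_lit 380340369958) (nat_lit 76) (nat_lit 37597414121) (nat_lit 76) (nat_lit 32228931095) (nat_lit 1) (nat_lit 4) (nat_lit 2) (nat_lit 5) (nat_lit 2) (nat_lit 4) (nat_lit 359) (nat_lit 209) (nat_lit 152)))) (XT.nd (nat_lit 156) (nat_lit 0) (nat_lit 0) (XT.nd (nat_lit 78) (nat_lit 0) (nat_lit 0) (XT.lf (nat_lit 0) (nat_lit 401882712021) (nat_lit 76) (nat_lit 38053436040) (nat_lit 76) (nat_lit 32668063101) (nat_lit 1) (nat_lit 4) (nat_lit 2) (nat_lit 5) (nat_lit 2) (nat_lit 4) (nat_lit 360) (nat_lit 209) (nat_lit 151)) (XT.lf (nat_lit 0) (nat_lit 424489191392) (nat_lit 76) (nat_lit 38538106616) (nat_lit 76) (nat_lit 33136648047) (nat_lit 1) (nat_lit 4) (nat_lit 2) (nat_lit 5) (nat_lit 2) (nat_lit 4) (nat_lit 361) (nat_lit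 209) (nat_lit 150))) (XT.nd (nat_lit 78) (nat_lit 0) (nat_lit 0) (XT.lf (nat_lit 0) (nat_lit 448213633024) (nat_lit 76) (nat_lit 39052579827) (nat_lit 76) (nat_lit 33635801610) (nat_lit 1) (nat_lit 4) (nat_lit 2) (nat_lit 5) (nat_lit 2) (nat_lit 4) (nat_lit 362) (nat_lit 209) (nat_lit 149)) (XT.nd (nat_lit 78) (nat_lit 0) (nat_lit 0) (XT.lf (nat_lit 0) (nat_lit 473112523680) (nat_lit 76) (nat_lit 39598080610) (nat_lit 76) (nat_lit 34166712252) (nat_lit 1) (nat_lit 4) (nat_lit 2) (nat_lit 5) (nat_lit 2) (nat_lit 4) (nat_lit 363) (nat_lit 209) (nat_lit 148)) (XT.lf (nat_lit 0) (nat_lit 499245146435) (nat_lit 76) (nat_lit 40175907776) (nat_lit 76) (nat_lit 34730644045) (nat_lit 1) (nat_lit 4) (nat_lit 2) (nat_lit 5) (nat_lit 2) (nat_lit 4) (nat_lit 364) (nat_lit 209) (nat_lit 147))))))))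
noncomputable def xc31 : XT := (XT.nd (nat_lit 33618) (nat_lit 0) (nat_lit 0) (XT.nd (nat_lit 32916) (nat_lit 0) (nat_lit 76) (XT.nd (nat_lit 32526) (nat_lit 0) (nat_lit 228) (XT.nd (nat_lit 156) (nat_lit 0) (nat_lit 0) (XT.nd (nat_lit 78) (nat_lit 0) (nat_lit 0) (XT.lf (nat_lit 0) (nat_lit 526673721819) (nat_lit 76) (nat_lit 40787437103) (nat_lit 76) (nat_lit 35328939684) (nat_lit 1) (nat_lit 4) (nat_lit 2) (nat_lit 5) (nat_lit 2) (nat_lit 4) (nat_lit 365) (nat_lit 209) (nat_lit 146)) (XT.lf (nat_lit 0) (nat_lit 555463555964) (nat_lit 76) (nat_lit 41434124614) (nat_lit 76) (nat_lit 35963023682) (nat_lit 1) (nat_lit 4) (nat_lit 2) (nat_lit 5) (nat_lit 2) (nat_lit 4) (nat_lit 366) (nat_lit 209) (nat_lit 145))) (XT.nd (nat_lit 32292) (nat_lit 0) (nat_lit 304) (XT.lf (nat_lit 0) (nat_lit 585683196093) (nat_lit 76) (nat_lit 42117510042) (nat_lit 76) (nat_lit 36634405764) (nat_lit 1) (nat_lit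 4) (nat_lit 2) (nat_lit 5) (nat_lit 2) (nat_lit 4) (nat_lit 367) (nat_lit 209) (nat_lit 144)) (XT.lf (nat_lit 0) (nat_lit 4024662256) (nat_lit 152) (nat_lit 5828381438) (nat_lit 0) (nat_lit 4024662256) (nat_lit 5) (nat_lit 5) (nat_lit 7) (nat_lit 4) (nat_lit 5) (nat_lit 4) (nat_lit 300) (nat_lit 210) (nat_lit 210)))) (XT.nd (nat_lit 156) (nat_lit 76) (nat_lit 0) (XT.nd (nat_lit 78) (nat_lit 0) (nat_lit 0) (XT.lf (nat_lit 0) (nat_lit 11555613171) (nat_lit 152) (nat_lit 6157223181) (nat_lit 0) (nat_lit 11255146684) (nat_lit 5) (nat_lit 5) (nat_lit 7) (nat_lit 4) (nat_lit 5) (nat_lit 4) (nat_lit 301) (nat_lit 210) (nat_lit 209)) (XT.lf (nat_lit 0) (nat_lit 15129542069) (nat_lit 152) (nat_lit 574240672) (nat_lit 0) (nat_lit 14542917023) (nat_lit 5) (nat_lit 5) (nat_lit 7) (nat_lit 4) (nat_lit 5) (nat_lit 4) (nat_lit 302) (nat_lit 210) (nat_lit 208))) (XT.nd (nat_lit 78) (nat_lit 0) (nat_lit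 0) (XT.lf (nat_lit 0) (nat_lit 5274287607) (nat_lit 76) (nat_lit 13587679363) (nat_lit 76) (nat_lit 12728522355) (nat_lit 4) (nat_lit 4) (nat_lit 5) (nat_lit 5) (nat_lit 5) (nat_lit 4) (nat_lit 303) (nat_lit 210) (nat_lit 207)) (XT.nd (nat_lit 78) (nat_lit 0) (nat_lit 0) (XT.lf (nat_lit 0) (nat_lit 11255707296) (nat_lit 76) (nat_lit 11434565143) (nat_lit 76) (nat_lit 10315853887) (nat_lit 4) (nat_lit 4) (nat_lit 5) (nat_lit 5) (nat_lit 5) (nat_lit 4) (nat_lit 304) (nat_lit 210) (nat_lit 206)) (XT.lf (nat_lit 0) (nat_lit 17365272881) (nat_lit 76) (nat_lit 9249038664) (nat_lit 76) (nat_lit 7883132885) (nat_lit 4) (nat_lit 4) (nat_lit 5) (nat_lit 5) (nat_lit 5) (nat_lit 4) (nat_lit 305) (nat_lit 210) (nat_lit 205)))))) (XT.nd (nat_lit 312) (nat_lit 0) (nat_lit 0) (XT.nd (nat_lit 156) (nat_lit 152) (nat_lit 0) (XT.nd (nat_lit 78) (nat_lit 0) (nat_lit 0) (XT.lf (nat_lit 0) (nat_lit 23617530946)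 (nat_lit 76) (nat_lit 7025896290) (nat_lit 76) (nat_lit 5424567156) (nat_lit 4) (nat_lit 4) (nat_lit 5) (nat_lit 5) (nat_lit 5) (nat_lit 4) (nat_lit 306) (nat_lit 210) (nat_lit 204)) (XT.lf (nat_lit 0) (nat_lit 30027367820) (nat_lit 76) (nat_lit 4759844826) (nat_lit 76) (nat_lit 2934302974) (nat_lit 4) (nat_lit 4) (nat_lit 5) (nat_lit 5) (nat_lit 5) (nat_lit 4) (nat_lit 307) (nat_lit 210) (nat_lit 203))) (XT.nd (nat_lit 78) (nat_lit 152) (nat_lit 0) (XT.lf (nat_lit 0) (nat_lit 36610045019) (nat_lit 76) (nat_lit 2445488912) (nat_lit 76) (nat_lit 406411136) (nat_lit 4) (nat_lit 4) (nat_lit 5) (nat_lit 5) (nat_lit 5) (nat_lit 4) (nat_lit 308) (nat_lit 210) (nat_lit 202)) (XT.lf (nat_lit 0) (nat_lit 2121919957) (nat_lit 76) (nat_lit 7038714) (nat_lit 152) (nat_lit 39161121300) (nat_lit 2) (nat_lit 5) (nat_lit 3) (nat_lit 5) (nat_lit 4) (nat_lit 4) (nat_lit 309) (nat_lit 210) (nat_lit 201))))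 (XT.nd (nat_lit 156) (nat_lit 0) (nat_lit 0) (XT.nd (nat_lit 78) (nat_lit 0) (nat_lit 0) (XT.lf (nat_lit 0) (nat_lit 4786929391) (nat_lit 152) (nat_lit 35955163702) (nat_lit 0) (nat_lit 2466806822) (nat_lit 2) (nat_lit 5) (nat_lit 4) (nat_lit 4) (nat_lit 2) (nat_lit 4) (nat_lit 310) (nat_lit 210) (nat_lit 200)) (XT.lf (nat_lit 0) (nat_lit 7502233764) (nat_lit 152) (nat_lit 32718852522) (nat_lit 0) (nat_lit 5006434663) (nat_lit 2) (nat_lit 5) (nat_lit 4) (nat_lit 4) (nat_lit 2) (nat_lit 4) (nat_lit 311) (nat_lit 210) (nat_lit 199))) (XT.nd (nat_lit 78) (nat_lit 0) (nat_lit 0) (XT.lf (nat_lit 0) (nat_lit 10281226907) (nat_lit 152) (nat_lit 29451411078) (nat_lit 0) (nat_lit 7618116823) (nat_lit 2) (nat_lit 5) (nat_lit 4) (nat_lit 4) (nat_lit 2) (nat_lit 4) (nat_lit 312) (nat_lit 210) (nat_lit 198)) (XT.nd (nat_lit 78) (nat_lit 0) (nat_lit 0) (XT.lf (nat_lit 0) (nat_lit 13130525471) (nat_lit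 152) (nat_lit 26145059747) (nat_lit 0) (nat_lit 10308071594) (nat_lit 2) (nat_lit 5) (nat_lit 4) (nat_lit 4) (nat_lit 2) (nat_lit 4) (nat_lit 313) (nat_lit 210) (nat_lit 197)) (XT.lf (nat_lit 0) (nat_lit 16056913500) (nat_lit 152) (nat_lit 22791926264) (nat_lit 0) (nat_lit 13082703629) (nat_lit 2) (nat_lit 5) (nat_lit 4) (nat_lit 4) (nat_lit 2) (nat_lit 4) (nat_lit 314) (nat_lit 210) (nat_lit 196))))))) (XT.nd (nat_lit 702) (nat_lit 0) (nat_lit 0) (XT.nd (nat_lit 312) (nat_lit 76) (nat_lit 0) (XT.nd (nat_lit 156) (nat_lit 0) (nat_lit 0) (XT.nd (nat_lit 78) (nat_lit 0) (nat_lit 0) (XT.lf (nat_lit 0) (nat_lit 19067358585) (nat_lit 152) (nat_lit 19384026978) (nat_lit 0) (nat_lit 15948619196) (nat_lit 2) (nat_lit 5) (nat_lit 4) (nat_lit 4) (nat_lit 2) (nat_lit 4) (nat_lit 315) (nat_lit 210) (nat_lit 195)) (XT.lf (nat_lit 0) (nat_lit 22169028452) (nat_lit 152) (nat_lit 15913247843) (nat_lit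 0) (nat_lit 18912641903) (nat_lit 2) (nat_lit 5) (nat_lit 4) (nat_lit 4) (nat_lit 2) (nat_lit 4) (nat_lit 316) (nat_lit 210) (nat_lit 194))) (XT.nd (nat_lit 78) (nat_lit 0) (nat_lit 0) (XT.lf (nat_lit 0) (nat_lit 25369308029) (nat_lit 152) (nat_lit 12371325099) (nat_lit 0) (nat_lit 21981828947) (nat_lit 2) (nat_lit 5) (nat_lit 4) (nat_lit 4) (nat_lit 2) (nat_lit 4) (nat_lit 317) (nat_lit 210) (nat_lit 193)) (XT.lf (nat_lit 0) (nat_lit 28675817029) (nat_lit 152) (nat_lit 8749825597) (nat_lit 0) (nat_lit 25163487916) (nat_lit 2) (nat_lit 5) (nat_lit 4) (nat_lit 4) (nat_lit 2) (nat_lit 4) (nat_lit 318) (nat_lit 210) (nat_lit 192)))) (XT.nd (nat_lit 156) (nat_lit 76) (nat_lit 0) (XT.nd (nat_lit 78) (nat_lit 0) (nat_lit 0) (XT.lf (nat_lit 0) (nat_lit 32096428094) (nat_lit 152) (nat_lit 5040126719) (nat_lit 0) (nat_lit 28465194189) (nat_lit 2) (nat_lit 5) (nat_lit 4) (nat_lit 4) (nat_lit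 2) (nat_lit 4) (nat_lit 319) (nat_lit 210) (nat_lit 191)) (XT.lf (nat_lit 0) (nat_lit 35639285534) (nat_lit 152) (nat_lit 1233395848) (nat_lit 0) (nat_lit 31894808970) (nat_lit 2) (nat_lit 5) (nat_lit 4) (nat_lit 4) (nat_lit 2) (nat_lit 4) (nat_lit 320) (nat_lit 210) (nat_lit 190))) (XT.nd (nat_lit 78) (nat_lit 0) (nat_lit 0) (XT.lf (nat_lit 0) (nat_lit 2768024737) (nat_lit 76) (nat_lit 36588016612) (nat_lit 76) (nat_lit 32735689897) (nat_lit 1) (nat_lit 4) (nat_lit 2) (nat_lit 5) (nat_lit 2) (nat_lit 4) (nat_lit 321) (nat_lit 210) (nat_lit 189)) (XT.nd (nat_lit 78) (nat_lit 0) (nat_lit 0) (XT.lf (nat_lit 0) (nat_lit 6929454889) (nat_lit 76) (nat_lit 36304525511) (nat_lit 76) (nat_lit 32349484366) (nat_lit 1) (nat_lit 4) (nat_lit 2) (nat_lit 5) (nat_lit 2) (nat_lit 4) (nat_lit 322) (nat_lit 210) (nat_lit 188)) (XT.lf (nat_lit 0) (nat_lit 11220021138) (nat_lit 76) (nat_lit 36042421257)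 (nat_lit 76) (nat_lit 31989556845) (nat_lit 1) (nat_lit 4) (nat_lit 2) (nat_lit 5) (nat_lit 2) (nat_lit 4) (nat_lit 323) (nat_lit 210) (nat_lit 187)))))) (XT.nd (nat_lit 390) (nat_lit 0) (nat_lit 0) (XT.nd (nat_lit 156) (nat_lit 0) (nat_lit 0) (XT.nd (nat_lit 78) (nat_lit 0) (nat_lit 0) (XT.lf (nat_lit 0) (nat_lit 15649939116) (nat_lit 76) (nat_lit 35801079792) (nat_lit 76) (nat_lit 31655050364) (nat_lit 1) (nat_lit 4) (nat_lit 2) (nat_lit 5) (nat_lit 2) (nat_lit 4) (nat_lit 324) (nat_lit 210) (nat_lit 186)) (XT.lf (nat_lit 0) (nat_lit 20229756249) (nat_lit 76) (nat_lit 35579926493) (nat_lit 76) (nat_lit 31345168479) (nat_lit 1) (nat_lit 4) (nat_lit 2) (nat_lit 5) (nat_lit 2) (nat_lit 4) (nat_lit 325) (nat_lit 210) (nat_lit 185))) (XT.nd (nat_lit 78) (nat_lit 0) (nat_lit 0) (XT.lf (nat_lit 0) (nat_lit 24970376863) (nat_lit 76) (nat_lit 35378434805) (nat_lit 76) (nat_lit 31059173376)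 (nat_lit 1) (nat_lit 4) (nat_lit 2) (nat_lit 5) (nat_lit 2) (nat_lit 4) (nat_lit 326) (nat_lit 210) (nat_lit 184)) (XT.nd (nat_lit 78) (nat_lit 0) (nat_lit 0) (XT.lf (nat_lit 0) (nat_lit 29883088148) (nat_lit 76) (nat_lit 35196124987) (nat_lit 76) (nat_lit 30796384113) (nat_lit 1) (nat_lit 4) (nat_lit 2) (nat_lit 5) (nat_lit 2) (nat_lit 4) (nat_lit 327) (nat_lit 210) (nat_lit 183)) (XT.lf (nat_lit 0) (nat_lit 34979587038) (nat_lit 76) (nat_lit 35032562966) (nat_lit 76) (nat_lit 30556175004) (nat_lit 1) (nat_lit 4) (nat_lit 2) (nat_lit 5) (nat_lit 2) (nat_lit 4) (nat_lit 328) (nat_lit 210) (nat_lit 182))))) (XT.nd (nat_lit 156) (nat_lit 0) (nat_lit 0) (XT.nd (nat_lit 78) (nat_lit 0) (nat_lit 0) (XT.lf (nat_lit 0) (nat_lit 40272008053) (nat_lit 76) (nat_lit 34887359310) (nat_lit 76) (nat_lit 30337974120) (nat_lit 1) (nat_lit 4) (nat_lit 2) (nat_lit 5) (nat_lit 2) (nat_lit 4) (nat_lit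 329) (nat_lit 210) (nat_lit 181)) (XT.lf (nat_lit 0) (nat_lit 45772952196) (nat_lit 76) (nat_lit 34760168295) (nat_lit 76) (nat_lit 30141261936) (nat_lit 1) (nat_lit 4) (nat_lit 2) (nat_lit 5) (nat_lit 2) (nat_lit 4) (nat_lit 330) (nat_lit 210) (nat_lit 180))) (XT.nd (nat_lit 78) (nat_lit 0) (nat_lit 0) (XT.lf (nat_lit 0) (nat_lit 51495516953) (nat_lit 76) (nat_lit 34650687086) (nat_lit 76) (nat_lit 29965570090) (nat_lit 1) (nat_lit 4) (nat_lit 2) (nat_lit 5) (nat_lit 2) (nat_lit 4) (nat_lit 331) (nat_lit 210) (nat_lit 179)) (XT.nd (nat_lit 78) (nat_lit 0) (nat_lit 0) (XT.lf (nat_lit 0) (nat_lit 57453327477) (nat_lit 76) (nat_lit 34558655014) (nat_lit 76) (nat_lit 29810480267) (nat_lit 1) (nat_lit 4) (nat_lit 2) (nat_lit 5) (nat_lit 2) (nat_lit 4) (nat_lit 332) (nat_lit 210) (nat_lit 178)) (XT.lf (nat_lit 0) (nat_lit 63660569032) (nat_lit 76) (nat_lit 34483852953) (nat_lit 76) (nat_lit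 29675623207) (nat_lit 1) (nat_lit 4) (nat_lit 2) (nat_lit 5) (nat_lit 2) (nat_lit 4) (nat_lit 333) (nat_lit 210) (nat_lit 177))))))))
noncomputable def xc32 : XT := (XT.nd (nat_lit 1404) (nat_lit 0) (nat_lit 0) (XT.nd (nat_lit 702) (nat_lit 0) (nat_lit 0) (XT.nd (nat_lit 312) (nat_lit 0) (nat_lit 0) (XT.nd (nat_lit 156) (nat_lit 0) (nat_lit 0) (XT.nd (nat_lit 78) (nat_lit 0) (nat_lit 0) (XT.lf (nat_lit 0) (nat_lit 70132020765) (nat_lit 76) (nat_lit 34426102805) (nat_lit 76) (nat_lit 29560677821) (nat_lit 1) (nat_lit 4) (nat_lit 2) (nat_lit 5) (nat_lit 2) (nat_lit 4) (nat_lit 334) (nat_lit 210) (nat_lit 176)) (XT.lf (nat_lit 0) (nat_lit 76883090894) (nat_lit 76) (nat_lit 34385267069) (nat_lit 76) (nat_lit 29465370429) (nat_lit 1) (nat_lit 4) (nat_lit 2) (nat_lit 5) (nat_lit 2) (nat_lit 4) (nat_lit 335) (nat_lit 210) (nat_lit 175))) (XT.nd (nat_lit 78) (nat_lit 0) (nat_lit 0) (XT.lf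 (nat_lit 0) (nat_lit 83929853396) (nat_lit 76) (nat_lit 34361248516) (nat_lit 76) (nat_lit 29389474110) (nat_lit 1) (nat_lit 4) (nat_lit 2) (nat_lit 5) (nat_lit 2) (nat_lit 4) (nat_lit 336) (nat_lit 210) (nat_lit 174)) (XT.lf (nat_lit 0) (nat_lit 91289086276) (nat_lit 76) (nat_lit 34353989960) (nat_lit 76) (nat_lit 29332808157) (nat_lit 1) (nat_lit 4) (nat_lit 2) (nat_lit 5) (nat_lit 2) (nat_lit 4) (nat_lit 337) (nat_lit 210) (nat_lit 173)))) (XT.nd (nat_lit 156) (nat_lit 0) (nat_lit 0) (XT.nd (nat_lit 78) (nat_lit 0) (nat_lit 0) (XT.lf (nat_lit 0) (nat_lit 98978311518) (nat_lit 76) (nat_lit 34363474119) (nat_lit 76) (nat_lit 29295237652) (nat_lit 1) (nat_lit 4) (nat_lit 2) (nat_lit 5) (nat_lit 2) (nat_lit 4) (nat_lit 338) (nat_lit 210) (nat_lit 172)) (XT.lf (nat_lit 0) (nat_lit 107015836800) (nat_lit 76) (nat_lit 34389723574) (nat_lit 76) (nat_lit 29276673141) (nat_lit 1) (nat_lit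 4) (nat_lit 2) (nat_lit 5) (nat_lit 2) (nat_lit 4) (nat_lit 339) (nat_lit 210) (nat_lit 171))) (XT.nd (nat_lit 78) (nat_lit 0) (nat_lit 0) (XT.lf (nat_lit 0) (nat_lit 115420799088) (nat_lit 76) (nat_lit 34432800823) (nat_lit 76) (nat_lit 29277070423) (nat_lit 1) (nat_lit 4) (nat_lit 2) (nat_lit 5) (nat_lit 2) (nat_lit 4) (nat_lit 340) (nat_lit 210) (nat_lit 170)) (XT.nd (nat_lit 78) (nat_lit 0) (nat_lit 0) (XT.lf (nat_lit 0) (nat_lit 124213210196) (nat_lit 76) (nat_lit 34492808432) (nat_lit 76) (nat_lit 29296430444) (nat_lit 1) (nat_lit 4) (nat_lit 2) (nat_lit 5) (nat_lit 2) (nat_lit 4) (nat_lit 341) (nat_lit 210) (nat_lit 169)) (XT.lf (nat_lit 0) (nat_lit 133414004437) (nat_lit 76) (nat_lit 34569889275) (nat_lit 76) (nat_lit 29334799299) (nat_lit 1) (nat_lit 4) (nat_lit 2) (nat_lit 5) (nat_lit 2) (nat_lit 4) (nat_lit 342) (nat_lit 210) (nat_lit 168)))))) (XT.nd (nat_lit 312) (nat_lit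 0) (nat_lit 0) (XT.nd (nat_lit 156) (nat_lit 0) (nat_lit 0) (XT.nd (nat_lit 78) (nat_lit 0) (nat_lit 0) (XT.lf (nat_lit 0) (nat_lit 143045088464) (nat_lit 76) (nat_lit 34664226879) (nat_lit 76) (nat_lit 29392268343) (nat_lit 1) (nat_lit 4) (nat_lit 2) (nat_lit 5) (nat_lit 2) (nat_lit 4) (nat_lit 343) (nat_lit 210) (nat_lit 167)) (XT.lf (nat_lit 0) (nat_lit 153129393429) (nat_lit 76) (nat_lit 34776045857) (nat_lit 76) (nat_lit 29468974406) (nat_lit 1) (nat_lit 4) (nat_lit 2) (nat_lit 5) (nat_lit 2) (nat_lit 4) (nat_lit 344) (nat_lit 210) (nat_lit 166))) (XT.nd (nat_lit 78) (nat_lit 0) (nat_lit 0) (XT.lf (nat_lit 0) (nat_lit 163690929582) (nat_lit 76) (nat_lit 34905612444) (nat_lit 76) (nat_lit 29565100122) (nat_lit 1) (nat_lit 4) (nat_lit 2) (nat_lit 5) (nat_lit 2) (nat_lit 4) (nat_lit 345) (nat_lit 210) (nat_lit 165)) (XT.lf (nat_lit 0) (nat_lit 174754843438) (nat_lit 76) (nat_lit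 35053235133) (nat_lit 76) (nat_lit 29680874362) (nat_lit 1) (nat_lit 4) (nat_lit 2) (nat_lit 5) (nat_lit 2) (nat_lit 4) (nat_lit 346) (nat_lit 210) (nat_lit 164)))) (XT.nd (nat_lit 156) (nat_lit 0) (nat_lit 0) (XT.nd (nat_lit 78) (nat_lit 0) (nat_lit 0) (XT.lf (nat_lit 0) (nat_lit 186347477649) (nat_lit 76) (nat_lit 35219265405) (nat_lit 76) (nat_lit 29816572779) (nat_lit 1) (nat_lit 4) (nat_lit 2) (nat_lit 5) (nat_lit 2) (nat_lit 4) (nat_lit 347) (nat_lit 210) (nat_lit 163)) (XT.lf (nat_lit 0) (nat_lit 198496433724) (nat_lit 76) (nat_lit 35404098572) (nat_lit 76) (nat_lit 29972518464) (nat_lit 1) (nat_lit 4) (nat_lit 2) (nat_lit 5) (nat_lit 2) (nat_lit 4) (nat_lit 348) (nat_lit 210) (nat_lit 162))) (XT.nd (nat_lit 78) (nat_lit 0) (nat_lit 0) (XT.lf (nat_lit 0) (nat_lit 211230637750) (nat_lit 76) (nat_lit 35608174712) (nat_lit 76) (nat_lit 30149082717) (nat_lit 1) (nat_lit 4) (nat_lit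 2) (nat_lit 5) (nat_lit 2) (nat_lit 4) (nat_lit 349) (nat_lit 210) (nat_lit 161)) (XT.nd (nat_lit 78) (nat_lit 0) (nat_lit 0) (XT.lf (nat_lit 0) (nat_lit 224580409260) (nat_lit 76) (nat_lit 35831979721) (nat_lit 76) (nat_lit 30346685928) (nat_lit 1) (nat_lit 4) (nat_lit 2) (nat_lit 5) (nat_lit 2) (nat_lit 4) (nat_lit 350) (nat_lit 210) (nat_lit 160)) (XT.lf (nat_lit 0) (nat_lit 238577533425) (nat_lit 76) (nat_lit 36076046467) (nat_lit 76) (nat_lit 30565798581) (nat_lit 1) (nat_lit 4) (nat_lit 2) (nat_lit 5) (nat_lit 2) (nat_lit 4) (nat_lit 351) (nat_lit 210) (nat_lit 159))))))) (XT.nd (nat_lit 702) (nat_lit 0) (nat_lit 0) (XT.nd (nat_lit 312) (nat_lit 0) (nat_lit 0) (XT.nd (nat_lit 156) (nat_lit 0) (nat_lit 0) (XT.nd (nat_lit 78) (nat_lit 0) (nat_lit 0) (XT.lf (nat_lit 0) (nat_lit 253255336730) (nat_lit 76) (nat_lit 36340956063) (nat_lit 76) (nat_lit 30806942374) (nat_lit 1) (nat_lit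 4) (nat_lit 2) (nat_lit 5) (nat_lit 2) (nat_lit 4) (nat_lit 352) (nat_lit 210) (nat_lit 158)) (XT.lf (nat_lit 0) (nat_lit 268648766326) (nat_lit 76) (nat_lit 36627339245) (nat_lit 76) (nat_lit 31070691458) (nat_lit 1) (nat_lit 4) (nat_lit 2) (nat_lit 5) (nat_lit 2) (nat_lit 4) (nat_lit 353) (nat_lit 210) (nat_lit 157))) (XT.nd (nat_lit 78) (nat_lit 0) (nat_lit 0) (XT.lf (nat_lit 0) (nat_lit 284794473236) (nat_lit 76) (nat_lit 36935877877) (nat_lit 76) (nat_lit 31357673807) (nat_lit 1) (nat_lit 4) (nat_lit 2) (nat_lit 5) (nat_lit 2) (nat_lit 4) (nat_lit 354) (nat_lit 210) (nat_lit 156)) (XT.lf (nat_lit 0) (nat_lit 301730899620) (nat_lit 76) (nat_lit 37267306577) (nat_lit 76) (nat_lit 31668572713) (nat_lit 1) (nat_lit 4) (nat_lit 2) (nat_lit 5) (nat_lit 2) (nat_lit 4) (nat_lit 355) (nat_lit 210) (nat_lit 155)))) (XT.nd (nat_lit 156) (nat_lit 0) (nat_lit 0) (XT.nd (nat_lit 78) (nat_lit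 0) (nat_lit 0) (XT.lf (nat_lit 0) (nat_lit 319498370301) (nat_lit 76) (nat_lit 37622414459) (nat_lit 76) (nat_lit 32004128410) (nat_lit 1) (nat_lit 4) (nat_lit 2) (nat_lit 5) (nat_lit 2) (nat_lit 4) (nat_lit 356) (nat_lit 210) (nat_lit 154)) (XT.lf (nat_lit 0) (nat_lit 338139188782) (nat_lit 76) (nat_lit 38002047018) (nat_lit 76) (nat_lit 32365139841) (nat_lit 1) (nat_lit 4) (nat_lit 2) (nat_lit 5) (nat_lit 2) (nat_lit 4) (nat_lit 357) (nat_lit 210) (nat_lit 153))) (XT.nd (nat_lit 78) (nat_lit 0) (nat_lit 0) (XT.lf (nat_lit 0) (nat_lit 357697737964) (nat_lit 76) (nat_lit 38407108143) (nat_lit 76) (nat_lit 32752466558) (nat_lit 1) (nat_lit 4) (nat_lit 2) (nat_lit 5) (nat_lit 2) (nat_lit 4) (nat_lit 358) (nat_lit 210) (nat_lit 152)) (XT.nd (nat_lit 78) (nat_lit 0) (nat_lit 0) (XT.lf (nat_lit 0) (nat_lit 378220585821) (nat_lit 76) (nat_lit 38838562263) (nat_lit 76) (nat_lit 33167030766)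 (nat_lit 1) (nat_lit 4) (nat_lit 2) (nat_lit 5) (nat_lit 2) (nat_lit 4) (nat_lit 359) (nat_lit 210) (nat_lit 151)) (XT.lf (nat_lit 0) (nat_lit 399756596277) (nat_lit 76) (nat_lit 39297436651) (nat_lit 76) (nat_lit 33609819523) (nat_lit 1) (nat_lit 4) (nat_lit 2) (nat_lit 5) (nat_lit 2) (nat_lit 4) (nat_lit 360) (nat_lit 210) (nat_lit 150)))))) (XT.nd (nat_lit 312) (nat_lit 0) (nat_lit 0) (XT.nd (nat_lit 156) (nat_lit 0) (nat_lit 0) (XT.nd (nat_lit 78) (nat_lit 0) (nat_lit 0) (XT.lf (nat_lit 0) (nat_lit 422357045546) (nat_lit 76) (nat_lit 39784823865) (nat_lit 76) (nat_lit 34081887088) (nat_lit 1) (nat_lit 4) (nat_lit 2) (nat_lit 5) (nat_lit 2) (nat_lit 4) (nat_lit 361) (nat_lit 210) (nat_lit 149)) (XT.lf (nat_lit 0) (nat_lit 446075744223) (nat_lit 76) (nat_lit 40301884350) (nat_lit 76) (nat_lit 34584357432) (nat_lit 1) (nat_lit 4) (nat_lit 2) (nat_lit 5) (nat_lit 2) (nat_lit 4) (nat_lit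 362) (nat_lit 210) (nat_lit 148))) (XT.nd (nat_lit 78) (nat_lit 0) (nat_lit 0) (XT.lf (nat_lit 0) (nat_lit 470969165400) (nat_lit 76) (nat_lit 40849849203) (nat_lit 76) (nat_lit 35118426912) (nat_lit 1) (nat_lit 4) (nat_lit 2) (nat_lit 5) (nat_lit 2) (nat_lit 4) (nat_lit 363) (nat_lit 210) (nat_lit 147)) (XT.lf (nat_lit 0) (nat_lit 497096579126) (nat_lit 76) (nat_lit 41430023102) (nat_lit 76) (nat_lit 35685367123) (nat_lit 1) (nat_lit 4) (nat_lit 2) (nat_lit 5) (nat_lit 2) (nat_lit 4) (nat_lit 364) (nat_lit 210) (nat_lit 146)))) (XT.nd (nat_lit 32292) (nat_lit 0) (nat_lit 304) (XT.nd (nat_lit 78) (nat_lit 0) (nat_lit 0) (XT.lf (nat_lit 0) (nat_lit 524520193530) (nat_lit 76) (nat_lit 42043787413) (nat_lit 76) (nat_lit 36286527922) (nat_lit 1) (nat_lit 4) (nat_lit 2) (nat_lit 5) (nat_lit 2) (nat_lit 4) (nat_lit 365) (nat_lit 210) (nat_lit 145)) (XT.lf (nat_lit 0) (nat_lit 553305302932)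 (nat_lit 76) (nat_lit 42692603481) (nat_lit 76) (nat_lit 36923340644) (nat_lit 1) (nat_lit 4) (nat_lit 2) (nat_lit 5) (nat_lit 2) (nat_lit 4) (nat_lit 366) (nat_lit 210) (nat_lit 144))) (XT.nd (nat_lit 78) (nat_lit 0) (nat_lit 0) (XT.lf (nat_lit 0) (nat_lit 789906685) (nat_lit 152) (nat_lit 11177357444) (nat_lit 0) (nat_lit 789906685) (nat_lit 5) (nat_lit 5) (nat_lit 7) (nat_lit 4) (nat_lit 5) (nat_lit 4) (nat_lit 298) (nat_lit 211) (nat_lit 211)) (XT.nd (nat_lit 78) (nat_lit 0) (nat_lit 0) (XT.lf (nat_lit 0) (nat_lit 4917817595) (nat_lit 152) (nat_lit 17085953901) (nat_lit 0) (nat_lit 4602327783) (nat_lit 5) (nat_lit 5) (nat_lit 7) (nat_lit 4) (nat_lit 5) (nat_lit 4) (nat_lit 299) (nat_lit 211) (nat_lit 210)) (XT.lf (nat_lit 0) (nat_lit 8309664126) (nat_lit 152) (nat_lit 11754865745) (nat_lit 0) (nat_lit 7693707827) (nat_lit 5) (nat_lit 5) (nat_lit 7) (nat_lit 4) (nat_lit 5) (nat_lit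 4) (nat_lit 300) (nat_lit 211) (nat_lit 209))))))))
noncomputable def xc33 : XT := (XT.nd (nat_lit 1404) (nat_lit 76) (nat_lit 0) (XT.nd (nat_lit 702) (nat_lit 0) (nat_lit 0) (XT.nd (nat_lit 312) (nat_lit 152) (nat_lit 0) (XT.nd (nat_lit 156) (nat_lit 76) (nat_lit 0) (XT.nd (nat_lit 78) (nat_lit 0) (nat_lit 0) (XT.lf (nat_lit 0) (nat_lit 11763428788) (nat_lit 152) (nat_lit 6348757353) (nat_lit 0) (nat_lit 10861313930) (nat_lit 5) (nat_lit 5) (nat_lit 7) (nat_lit 4) (nat_lit 5) (nat_lit 4) (nat_lit 301) (nat_lit 211) (nat_lit 208)) (XT.lf (nat_lit 0) (nat_lit 15287334831) (nat_lit 152) (nat_lit 854757037) (nat_lit 0) (nat_lit 14112688012) (nat_lit 5) (nat_lit 5) (nat_lit 7) (nat_lit 4) (nat_lit 5) (nat_lit 4) (nat_lit 302) (nat_lit 211) (nat_lit 207))) (XT.nd (nat_lit 78) (nat_lit 0) (nat_lit 0) (XT.lf (nat_lit 0) (nat_lit 4896949107) (nat_lit 76) (nat_lit 14069278498) (nat_lit 76)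 (nat_lit 12635077431) (nat_lit 4) (nat_lit 4) (nat_lit 5) (nat_lit 5) (nat_lit 5) (nat_lit 4) (nat_lit 303) (nat_lit 211) (nat_lit 206)) (XT.lf (nat_lit 0) (nat_lit 10794990704) (nat_lit 76) (nat_lit 11952868401) (nat_lit 76) (nat_lit 10271472811) (nat_lit 4) (nat_lit 4) (nat_lit 5) (nat_lit 5) (nat_lit 5) (nat_lit 4) (nat_lit 304) (nat_lit 211) (nat_lit 205)))) (XT.nd (nat_lit 156) (nat_lit 152) (nat_lit 0) (XT.nd (nat_lit 78) (nat_lit 0) (nat_lit 0) (XT.lf (nat_lit 0) (nat_lit 16825148582) (nat_lit 76) (nat_lit 9802298229) (nat_lit 76) (nat_lit 7885479284) (nat_lit 4) (nat_lit 4) (nat_lit 5) (nat_lit 5) (nat_lit 5) (nat_lit 4) (nat_lit 305) (nat_lit 211) (nat_lit 204)) (XT.lf (nat_lit 0) (nat_lit 23001780259) (nat_lit 76) (nat_lit 7612447577) (nat_lit 76) (nat_lit 5471415913) (nat_lit 4) (nat_lit 4) (nat_lit 5) (nat_lit 5) (nat_lit 5) (nat_lit 4) (nat_lit 306) (nat_lit 211) (nat_lit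 203))) (XT.nd (nat_lit 78) (nat_lit 152) (nat_lit 0) (XT.lf (nat_lit 0) (nat_lit 29339592002) (nat_lit 76) (nat_lit 5378102514) (nat_lit 76) (nat_lit 3023534927) (nat_lit 4) (nat_lit 4) (nat_lit 5) (nat_lit 5) (nat_lit 5) (nat_lit 4) (nat_lit 307) (nat_lit 211) (nat_lit 202)) (XT.nd (nat_lit 78) (nat_lit 152) (nat_lit 0) (XT.lf (nat_lit 0) (nat_lit 35853673838) (nat_lit 76) (nat_lit 3093943172) (nat_lit 76) (nat_lit 536008040) (nat_lit 4) (nat_lit 4) (nat_lit 5) (nat_lit 5) (nat_lit 5) (nat_lit 4) (nat_lit 308) (nat_lit 211) (nat_lit 201)) (XT.lf (nat_lit 0) (nat_lit 1251429793) (nat_lit 76) (nat_lit 701276695) (nat_lit 152) (nat_lit 39361736718) (nat_lit 2) (nat_lit 5) (nat_lit 3) (nat_lit 5) (nat_lit 4) (nat_lit 4) (nat_lit 309) (nat_lit 211) (nat_lit 200)))))) (XT.nd (nat_lit 312) (nat_lit 0) (nat_lit 0) (XT.nd (nat_lit 156) (nat_lit 0) (nat_lit 0) (XT.nd (nat_lit 78) (nat_lit 0)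 (nat_lit 0) (XT.lf (nat_lit 0) (nat_lit 4562921002) (nat_lit 152) (nat_lit 36906114470) (nat_lit 0) (nat_lit 1766655413) (nat_lit 2) (nat_lit 5) (nat_lit 4) (nat_lit 4) (nat_lit 2) (nat_lit 4) (nat_lit 310) (nat_lit 211) (nat_lit 199)) (XT.lf (nat_lit 0) (nat_lit 7243066132) (nat_lit 152) (nat_lit 33733552215) (nat_lit 0) (nat_lit 4279489560) (nat_lit 2) (nat_lit 5) (nat_lit 4) (nat_lit 4) (nat_lit 2) (nat_lit 4) (nat_lit 311) (nat_lit 211) (nat_lit 198))) (XT.nd (nat_lit 78) (nat_lit 0) (nat_lit 0) (XT.lf (nat_lit 0) (nat_lit 9988574282) (nat_lit 152) (nat_lit 30526824032) (nat_lit 0) (nat_lit 6865653917) (nat_lit 2) (nat_lit 5) (nat_lit 4) (nat_lit 4) (nat_lit 2) (nat_lit 4) (nat_lit 312) (nat_lit 211) (nat_lit 197)) (XT.lf (nat_lit 0) (nat_lit 12805982376) (nat_lit 152) (nat_lit 27278294854) (nat_lit 0) (nat_lit 9531306018) (nat_lit 2) (nat_lit 5) (nat_lit 4) (nat_lit 4) (nat_lit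 2) (nat_lit 4) (nat_lit 313) (nat_lit 211) (nat_lit 196)))) (XT.nd (nat_lit 156) (nat_lit 0) (nat_lit 0) (XT.nd (nat_lit 78) (nat_lit 0) (nat_lit 0) (XT.lf (nat_lit 0) (nat_lit 15701998529) (nat_lit 152) (nat_lit 23980230089) (nat_lit 0) (nat_lit 12282792653) (nat_lit 2) (nat_lit 5) (nat_lit 4) (nat_lit 4) (nat_lit 2) (nat_lit 4) (nat_lit 314) (nat_lit 211) (nat_lit 195)) (XT.lf (nat_lit 0) (nat_lit 18683518018) (nat_lit 152) (nat_lit 20624777200) (nat_lit 0) (nat_lit 15126664982) (nat_lit 2) (nat_lit 5) (nat_lit 4) (nat_lit 4) (nat_lit 2) (nat_lit 4) (nat_lit 315) (nat_lit 211) (nat_lit 194))) (XT.nd (nat_lit 78) (nat_lit 0) (nat_lit 0) (XT.lf (nat_lit 0) (nat_lit 21757639698) (nat_lit 152) (nat_lit 17203947015) (nat_lit 0) (nat_lit 18069694129) (nat_lit 2) (nat_lit 5) (nat_lit 4) (nat_lit 4) (nat_lit 2) (nat_lit 4) (nat_lit 316) (nat_lit 211) (nat_lit 193)) (XT.nd (nat_lit 78) (nat_lit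 0) (nat_lit 0) (XT.lf (nat_lit 0) (nat_lit 24931682906) (nat_lit 152) (nat_lit 13709594700) (nat_lit 0) (nat_lit 21118887306) (nat_lit 2) (nat_lit 5) (nat_lit 4) (nat_lit 4) (nat_lit 2) (nat_lit 4) (nat_lit 317) (nat_lit 211) (nat_lit 192)) (XT.lf (nat_lit 0) (nat_lit 28213204889) (nat_lit 152) (nat_lit 10133400369) (nat_lit 0) (nat_lit 24281504497) (nat_lit 2) (nat_lit 5) (nat_lit 4) (nat_lit 4) (nat_lit 2) (nat_lit 4) (nat_lit 318) (nat_lit 211) (nat_lit 191))))))) (XT.nd (nat_lit 702) (nat_lit 0) (nat_lit 0) (XT.nd (nat_lit 312) (nat_lit 0) (nat_lit 0) (XT.nd (nat_lit 156) (nat_lit 76) (nat_lit 0) (XT.nd (nat_lit 78) (nat_lit 0) (nat_lit 0) (XT.lf (nat_lit 0) (nat_lit 31610018794) (nat_lit 152) (nat_lit 6466849272) (nat_lit 0) (nat_lit 27565075743) (nat_lit 2) (nat_lit 5) (nat_lit 4) (nat_lit 4) (nat_lit 2) (nat_lit 4) (nat_lit 319) (nat_lit 211) (nat_lit 190)) (XT.lf (nat_lit 0)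 (nat_lit 35130212273) (nat_lit 152) (nat_lit 2701211526) (nat_lit 0) (nat_lit 30977419070) (nat_lit 2) (nat_lit 5) (nat_lit 4) (nat_lit 4) (nat_lit 2) (nat_lit 4) (nat_lit 320) (nat_lit 211) (nat_lit 189))) (XT.nd (nat_lit 78) (nat_lit 0) (nat_lit 0) (XT.lf (nat_lit 0) (nat_lit 1211246111) (nat_lit 76) (nat_lit 37589831574) (nat_lit 76) (nat_lit 33334323941) (nat_lit 1) (nat_lit 4) (nat_lit 2) (nat_lit 5) (nat_lit 2) (nat_lit 4) (nat_lit 321) (nat_lit 211) (nat_lit 188)) (XT.lf (nat_lit 0) (nat_lit 5334171185) (nat_lit 76) (nat_lit 37323687498) (nat_lit 76) (nat_lit 32970356599) (nat_lit 1) (nat_lit 4) (nat_lit 2) (nat_lit 5) (nat_lit 2) (nat_lit 4) (nat_lit 322) (nat_lit 211) (nat_lit 187)))) (XT.nd (nat_lit 156) (nat_lit 0) (nat_lit 0) (XT.nd (nat_lit 78) (nat_lit 0) (nat_lit 0) (XT.lf (nat_lit 0) (nat_lit 9588065930) (nat_lit 76) (nat_lit 37078104220) (nat_lit 76) (nat_lit 32631608306)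 (nat_lit 1) (nat_lit 4) (nat_lit 2) (nat_lit 5) (nat_lit 2) (nat_lit 4) (nat_lit 323) (nat_lit 211) (nat_lit 186)) (XT.lf (nat_lit 0) (nat_lit 13983058667) (nat_lit 76) (nat_lit 36852497019) (nat_lit 76) (nat_lit 32317272517) (nat_lit 1) (nat_lit 4) (nat_lit 2) (nat_lit 5) (nat_lit 2) (nat_lit 4) (nat_lit 324) (nat_lit 211) (nat_lit 185))) (XT.nd (nat_lit 78) (nat_lit 0) (nat_lit 0) (XT.lf (nat_lit 0) (nat_lit 18529613665) (nat_lit 76) (nat_lit 36646328732) (nat_lit 76) (nat_lit 32026600816) (nat_lit 1) (nat_lit 4) (nat_lit 2) (nat_lit 5) (nat_lit 2) (nat_lit 4) (nat_lit 325) (nat_lit 211) (nat_lit 184)) (XT.nd (nat_lit 78) (nat_lit 0) (nat_lit 0) (XT.lf (nat_lit 0) (nat_lit 23238556055) (nat_lit 76) (nat_lit 36459108486) (nat_lit 76) (nat_lit 31758901125) (nat_lit 1) (nat_lit 4) (nat_lit 2) (nat_lit 5) (nat_lit 2) (nat_lit 4) (nat_lit 326) (nat_lit 211) (nat_lit 183)) (XT.lf (nat_lit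 0) (nat_lit 28121097604) (nat_lit 76) (nat_lit 36290390515) (nat_lit 76) (nat_lit 31513536066) (nat_lit 1) (nat_lit 4) (nat_lit 2) (nat_lit 5) (nat_lit 2) (nat_lit 4) (nat_lit 327) (nat_lit 211) (nat_lit 182)))))) (XT.nd (nat_lit 312) (nat_lit 0) (nat_lit 0) (XT.nd (nat_lit 156) (nat_lit 0) (nat_lit 0) (XT.nd (nat_lit 78) (nat_lit 0) (nat_lit 0) (XT.lf (nat_lit 0) (nat_lit 33188863412) (nat_lit 76) (nat_lit 36139773112) (nat_lit 76) (nat_lit 31289921434) (nat_lit 1) (nat_lit 4) (nat_lit 2) (nat_lit 5) (nat_lit 2) (nat_lit 4) (nat_lit 328) (nat_lit 211) (nat_lit 181)) (XT.lf (nat_lit 0) (nat_lit 38453919586) (nat_lit 76) (nat_lit 36006897662) (nat_lit 76) (nat_lit 31087524816) (nat_lit 1) (nat_lit 4) (nat_lit 2) (nat_lit 5) (nat_lit 2) (nat_lit 4) (nat_lit 329) (nat_lit 211) (nat_lit 180))) (XT.nd (nat_lit 78) (nat_lit 0) (nat_lit 0) (XT.lf (nat_lit 0) (nat_lit 43928801976) (nat_lit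 76) (nat_lit 35891447797) (nat_lit 76) (nat_lit 30905864314) (nat_lit 1) (nat_lit 4) (nat_lit 2) (nat_lit 5) (nat_lit 2) (nat_lit 4) (nat_lit 330) (nat_lit 211) (nat_lit 179)) (XT.lf (nat_lit 0) (nat_lit 49626546015) (nat_lit 76) (nat_lit 35793148636) (nat_lit 76) (nat_lit 30744507402) (nat_lit 1) (nat_lit 4) (nat_lit 2) (nat_lit 5) (nat_lit 2) (nat_lit 4) (nat_lit 331) (nat_lit 211) (nat_lit 178)))) (XT.nd (nat_lit 156) (nat_lit 0) (nat_lit 0) (XT.nd (nat_lit 78) (nat_lit 0) (nat_lit 0) (XT.lf (nat_lit 0) (nat_lit 55560717762) (nat_lit 76) (nat_lit 35711766132) (nat_lit 76) (nat_lit 30603069898) (nat_lit 1) (nat_lit 4) (nat_lit 2) (nat_lit 5) (nat_lit 2) (nat_lit 4) (nat_lit 332) (nat_lit 211) (nat_lit 177)) (XT.lf (nat_lit 0) (nat_lit 61745446195) (nat_lit 76) (nat_lit 35647106518) (nat_lit 76) (nat_lit 30481215046) (nat_lit 1) (nat_lit 4) (nat_lit 2) (nat_lit 5) (nat_lit 2) (nat_lit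 4) (nat_lit 333) (nat_lit 211) (nat_lit 176))) (XT.nd (nat_lit 78) (nat_lit 0) (nat_lit 0) (XT.lf (nat_lit 0) (nat_lit 68195456859) (nat_lit 76) (nat_lit 35599015842) (nat_lit 76) (nat_lit 30378652716) (nat_lit 1) (nat_lit 4) (nat_lit 2) (nat_lit 5) (nat_lit 2) (nat_lit 4) (nat_lit 334) (nat_lit 211) (nat_lit 175)) (XT.nd (nat_lit 78) (nat_lit 0) (nat_lit 0) (XT.lf (nat_lit 0) (nat_lit 74926106923) (nat_lit 76) (nat_lit 35567379604) (nat_lit 76) (nat_lit 30295138710) (nat_lit 1) (nat_lit 4) (nat_lit 2) (nat_lit 5) (nat_lit 2) (nat_lit 4) (nat_lit 335) (nat_lit 211) (nat_lit 174)) (XT.lf (nat_lit 0) (nat_lit 81953421743) (nat_lit 76) (nat_lit 35552122478) (nat_lit 76) (nat_lit 30230474187) (nat_lit 1) (nat_lit 4) (nat_lit 2) (nat_lit 5) (nat_lit 2) (nat_lit 4) (nat_lit 336) (nat_lit 211) (nat_lit 173))))))))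
noncomputable def xc34 : XT := (XT.nd (nat_lit 1404) (nat_lit 0) (nat_lit 0) (XT.nd (nat_lit 702) (nat_lit 0) (nat_lit 0) (XT.nd (nat_lit 312) (nat_lit 0) (nat_lit 0) (XT.nd (nat_lit 156) (nat_lit 0) (nat_lit 0) (XT.nd (nat_lit 78) (nat_lit 0) (nat_lit 0) (XT.lf (nat_lit 0) (nat_lit 89294133022) (nat_lit 76) (nat_lit 35553208138) (nat_lit 76) (nat_lit 30184505184) (nat_lit 1) (nat_lit 4) (nat_lit 2) (nat_lit 5) (nat_lit 2) (nat_lit 4) (nat_lit 337) (nat_lit 211) (nat_lit 172)) (XT.lf (nat_lit 0) (nat_lit 96965718644) (nat_lit 76) (nat_lit 35570639169) (nat_lit 76) (nat_lit 30157122249) (nat_lit 1) (nat_lit 4) (nat_lit 2) (nat_lit 5) (nat_lit 2) (nat_lit 4) (nat_lit 338) (nat_lit 211) (nat_lit 171))) (XT.nd (nat_lit 78) (nat_lit 0) (nat_lit 0) (XT.lf (nat_lit 0) (nat_lit 104986444287) (nat_lit 76) (nat_lit 35604457073) (nat_lit 76) (nat_lit 30148260186) (nat_lit 1) (nat_lit 4) (nat_lit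 2) (nat_lit 5) (nat_lit 2) (nat_lit 4) (nat_lit 339) (nat_lit 211) (nat_lit 170)) (XT.lf (nat_lit 0) (nat_lit 113375406920) (nat_lit 76) (nat_lit 35654742370) (nat_lit 76) (nat_lit 30157897895) (nat_lit 1) (nat_lit 4) (nat_lit 2) (nat_lit 5) (nat_lit 2) (nat_lit 4) (nat_lit 340) (nat_lit 211) (nat_lit 169)))) (XT.nd (nat_lit 156) (nat_lit 0) (nat_lit 0) (XT.nd (nat_lit 78) (nat_lit 0) (nat_lit 0) (XT.lf (nat_lit 0) (nat_lit 122152580261) (nat_lit 76) (nat_lit 35721614785) (nat_lit 76) (nat_lit 30186058322) (nat_lit 1) (nat_lit 4) (nat_lit 2) (nat_lit 5) (nat_lit 2) (nat_lit 4) (nat_lit 341) (nat_lit 211) (nat_lit 168)) (XT.lf (nat_lit 0) (nat_lit 131338862343) (nat_lit 76) (nat_lit 35805233540) (nat_lit 76) (nat_lit 30232808517) (nat_lit 1) (nat_lit 4) (nat_lit 2) (nat_lit 5) (nat_lit 2) (nat_lit 4) (nat_lit 342) (nat_lit 211) (nat_lit 167))) (XT.nd (nat_lit 78) (nat_lit 0) (nat_lit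 0) (XT.lf (nat_lit 0) (nat_lit 140956125266) (nat_lit 76) (nat_lit 35905797726) (nat_lit 76) (nat_lit 30298259788) (nat_lit 1) (nat_lit 4) (nat_lit 2) (nat_lit 5) (nat_lit 2) (nat_lit 4) (nat_lit 343) (nat_lit 211) (nat_lit 166)) (XT.nd (nat_lit 78) (nat_lit 0) (nat_lit 0) (XT.lf (nat_lit 0) (nat_lit 151027267275) (nat_lit 76) (nat_lit 36023546782) (nat_lit 76) (nat_lit 30382567973) (nat_lit 1) (nat_lit 4) (nat_lit 2) (nat_lit 5) (nat_lit 2) (nat_lit 4) (nat_lit 344) (nat_lit 211) (nat_lit 165)) (XT.lf (nat_lit 0) (nat_lit 161576267279) (nat_lit 76) (nat_lit 36158761063) (nat_lit 76) (nat_lit 30485933806) (nat_lit 1) (nat_lit 4) (nat_lit 2) (nat_lit 5) (nat_lit 2) (nat_lit 4) (nat_lit 345) (nat_lit 211) (nat_lit 164)))))) (XT.nd (nat_lit 312) (nat_lit 0) (nat_lit 0) (XT.nd (nat_lit 156) (nat_lit 0) (nat_lit 0) (XT.nd (nat_lit 78) (nat_lit 0) (nat_lit 0) (XT.lf (nat_lit 0) (nat_lit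 172628241946) (nat_lit 76) (nat_lit 36311762508) (nat_lit 76) (nat_lit 30608603394) (nat_lit 1) (nat_lit 4) (nat_lit 2) (nat_lit 5) (nat_lit 2) (nat_lit 4) (nat_lit 346) (nat_lit 211) (nat_lit 163)) (XT.lf (nat_lit 0) (nat_lit 184209505500) (nat_lit 76) (nat_lit 36482915405) (nat_lit 76) (nat_lit 30750868810) (nat_lit 1) (nat_lit 4) (nat_lit 2) (nat_lit 5) (nat_lit 2) (nat_lit 4) (nat_lit 347) (nat_lit 211) (nat_lit 162))) (XT.nd (nat_lit 78) (nat_lit 0) (nat_lit 0) (XT.lf (nat_lit 0) (nat_lit 196347632379) (nat_lit 76) (nat_lit 36672627262) (nat_lit 76) (nat_lit 30913068779) (nat_lit 1) (nat_lit 4) (nat_lit 2) (nat_lit 5) (nat_lit 2) (nat_lit 4) (nat_lit 348) (nat_lit 211) (nat_lit 161)) (XT.lf (nat_lit 0) (nat_lit 209071522884) (nat_lit 76) (nat_lit 36881349774) (nat_lit 76) (nat_lit 31095589493) (nat_lit 1) (nat_lit 4) (nat_lit 2) (nat_lit 5) (nat_lit 2) (nat_lit 4) (nat_lit 349)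 (nat_lit 211) (nat_lit 160)))) (XT.nd (nat_lit 156) (nat_lit 0) (nat_lit 0) (XT.nd (nat_lit 78) (nat_lit 0) (nat_lit 0) (XT.lf (nat_lit 0) (nat_lit 222411471994) (nat_lit 76) (nat_lit 37109579898) (nat_lit 76) (nat_lit 31298865525) (nat_lit 1) (nat_lit 4) (nat_lit 2) (nat_lit 5) (nat_lit 2) (nat_lit 4) (nat_lit 350) (nat_lit 211) (nat_lit 159)) (XT.lf (nat_lit 0) (nat_lit 236399241491) (nat_lit 76) (nat_lit 37357861041) (nat_lit 76) (nat_lit 31523380865) (nat_lit 1) (nat_lit 4) (nat_lit 2) (nat_lit 5) (nat_lit 2) (nat_lit 4) (nat_lit 351) (nat_lit 211) (nat_lit 158))) (XT.nd (nat_lit 78) (nat_lit 0) (nat_lit 0) (XT.lf (nat_lit 0) (nat_lit 251068135589) (nat_lit 76) (nat_lit 37626784347) (nat_lit 76) (nat_lit 31769670073) (nat_lit 1) (nat_lit 4) (nat_lit 2) (nat_lit 5) (nat_lit 2) (nat_lit 4) (nat_lit 352) (nat_lit 211) (nat_lit 157)) (XT.nd (nat_lit 78) (nat_lit 0) (nat_lit 0) (XT.lf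 (nat_lit 0) (nat_lit 266453080226) (nat_lit 76) (nat_lit 37916990110) (nat_lit 76) (nat_lit 32038319552) (nat_lit 1) (nat_lit 4) (nat_lit 2) (nat_lit 5) (nat_lit 2) (nat_lit 4) (nat_lit 353) (nat_lit 211) (nat_lit 156)) (XT.lf (nat_lit 0) (nat_lit 282590706223) (nat_lit 76) (nat_lit 38229169296) (nat_lit 76) (nat_lit 32329968945) (nat_lit 1) (nat_lit 4) (nat_lit 2) (nat_lit 5) (nat_lit 2) (nat_lit 4) (nat_lit 354) (nat_lit 211) (nat_lit 155))))))) (XT.nd (nat_lit 702) (nat_lit 0) (nat_lit 0) (XT.nd (nat_lit 312) (nat_lit 0) (nat_lit 0) (XT.nd (nat_lit 156) (nat_lit 0) (nat_lit 0) (XT.nd (nat_lit 78) (nat_lit 0) (nat_lit 0) (XT.lf (nat_lit 0) (nat_lit 299519436499) (nat_lit 76) (nat_lit 38564065190) (nat_lit 76) (nat_lit 32645312653) (nat_lit 1) (nat_lit 4) (nat_lit 2) (nat_lit 5) (nat_lit 2) (nat_lit 4) (nat_lit 355) (nat_lit 211) (nat_lit 154)) (XT.lf (nat_lit 0) (nat_lit 317279577554)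 (nat_lit 76) (nat_lit 38922475161) (nat_lit 76) (nat_lit 32985101497) (nat_lit 1) (nat_lit 4) (nat_lit 2) (nat_lit 5) (nat_lit 2) (nat_lit 4) (nat_lit 356) (nat_lit 211) (nat_lit 153))) (XT.nd (nat_lit 78) (nat_lit 0) (nat_lit 0) (XT.lf (nat_lit 0) (nat_lit 335913415438) (nat_lit 76) (nat_lit 39305252568) (nat_lit 76) (nat_lit 33350144496) (nat_lit 1) (nat_lit 4) (nat_lit 2) (nat_lit 5) (nat_lit 2) (nat_lit 4) (nat_lit 357) (nat_lit 211) (nat_lit 152)) (XT.lf (nat_lit 0) (nat_lit 355465316433) (nat_lit 76) (nat_lit 39713308785) (nat_lit 76) (nat_lit 33741310800) (nat_lit 1) (nat_lit 4) (nat_lit 2) (nat_lit 5) (nat_lit 2) (nat_lit 4) (nat_lit 358) (nat_lit 211) (nat_lit 151)))) (XT.nd (nat_lit 156) (nat_lit 0) (nat_lit 0) (XT.nd (nat_lit 78) (nat_lit 0) (nat_lit 0) (XT.lf (nat_lit 0) (nat_lit 375981832683) (nat_lit 76) (nat_lit 40147615374) (nat_lit 76) (nat_lit 34159531759) (nat_lit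 1) (nat_lit 4) (nat_lit 2) (nat_lit 5) (nat_lit 2) (nat_lit 4) (nat_lit 359) (nat_lit 211) (nat_lit 150)) (XT.lf (nat_lit 0) (nat_lit 397511813037) (nat_lit 76) (nat_lit 40609206399) (nat_lit 76) (nat_lit 34605803136) (nat_lit 1) (nat_lit 4) (nat_lit 2) (nat_lit 5) (nat_lit 2) (nat_lit 4) (nat_lit 360) (nat_lit 211) (nat_lit 149))) (XT.nd (nat_lit 78) (nat_lit 0) (nat_lit 0) (XT.lf (nat_lit 0) (nat_lit 420106519352) (nat_lit 76) (nat_lit 41099180886) (nat_lit 76) (nat_lit 35081187482) (nat_lit 1) (nat_lit 4) (nat_lit 2) (nat_lit 5) (nat_lit 2) (nat_lit 4) (nat_lit 361) (nat_lit 211) (nat_lit 148)) (XT.nd (nat_lit 78) (nat_lit 0) (nat_lit 0) (XT.lf (nat_lit 0) (nat_lit 443819748549) (nat_lit 76) (nat_lit 41618705442) (nat_lit 76) (nat_lit 35586816664) (nat_lit 1) (nat_lit 4) (nat_lit 2) (nat_lit 5) (nat_lit 2) (nat_lit 4) (nat_lit 362) (nat_lit 211) (nat_lit 147)) (XT.lf (nat_lit 0)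 (nat_lit 468707960696) (nat_lit 76) (nat_lit 42169017028) (nat_lit 76) (nat_lit 36123894562) (nat_lit 1) (nat_lit 4) (nat_lit 2) (nat_lit 5) (nat_lit 2) (nat_lit 4) (nat_lit 363) (nat_lit 211) (nat_lit 146)))))) (XT.nd (nat_lit 32292) (nat_lit 0) (nat_lit 304) (XT.nd (nat_lit 156) (nat_lit 0) (nat_lit 0) (XT.nd (nat_lit 78) (nat_lit 0) (nat_lit 0) (XT.lf (nat_lit 0) (nat_lit 494830413443) (nat_lit 76) (nat_lit 42751425911) (nat_lit 76) (nat_lit 36693699933) (nat_lit 1) (nat_lit 4) (nat_lit 2) (nat_lit 5) (nat_lit 2) (nat_lit 4) (nat_lit 364) (nat_lit 211) (nat_lit 145)) (XT.lf (nat_lit 0) (nat_lit 522249303104) (nat_lit 76) (nat_lit 43367318779) (nat_lit 76) (nat_lit 37297589455) (nat_lit 1) (nat_lit 4) (nat_lit 2) (nat_lit 5) (nat_lit 2) (nat_lit 4) (nat_lit 365) (nat_lit 211) (nat_lit 144))) (XT.nd (nat_lit 32058) (nat_lit 0) (nat_lit 456) (XT.lf (nat_lit 0) (nat_lit 551029912752)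 (nat_lit 76) (nat_lit 44018162043) (nat_lit 76) (nat_lit 37937000962) (nat_lit 1) (nat_lit 4) (nat_lit 2) (nat_lit 5) (nat_lit 2) (nat_lit 4) (nat_lit 366) (nat_lit 211) (nat_lit 143)) (XT.lf (nat_lit 0) (nat_lit 7241591060) (nat_lit 76) (nat_lit 2250251632) (nat_lit 76) (nat_lit 2250251632) (nat_lit 7) (nat_lit 4) (nat_lit 8) (nat_lit 5) (nat_lit 8) (nat_lit 4) (nat_lit 296) (nat_lit 212) (nat_lit 212)))) (XT.nd (nat_lit 156) (nat_lit 0) (nat_lit 0) (XT.nd (nat_lit 78) (nat_lit 152) (nat_lit 0) (XT.lf (nat_lit 0) (nat_lit 21432059214) (nat_lit 76) (nat_lit 1695631590) (nat_lit 76) (nat_lit 1347804073) (nat_lit 7) (nat_lit 4) (nat_lit 8) (nat_lit 5) (nat_lit 8) (nat_lit 4) (nat_lit 297) (nat_lit 212) (nat_lit 211)) (XT.lf (nat_lit 0) (nat_lit 1853169965) (nat_lit 152) (nat_lit 22457722900) (nat_lit 0) (nat_lit 1206415851) (nat_lit 5) (nat_lit 5) (nat_lit 7) (nat_lit 4) (nat_lit 5)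 (nat_lit 4) (nat_lit 298) (nat_lit 212) (nat_lit 210))) (XT.nd (nat_lit 78) (nat_lit 0) (nat_lit 0) (XT.lf (nat_lit 0) (nat_lit 5136023992) (nat_lit 152) (nat_lit 17287064782) (nat_lit 0) (nat_lit 4188803391) (nat_lit 5) (nat_lit 5) (nat_lit 7) (nat_lit 4) (nat_lit 5) (nat_lit 4) (nat_lit 299) (nat_lit 212) (nat_lit 209)) (XT.nd (nat_lit 78) (nat_lit 0) (nat_lit 0) (XT.lf (nat_lit 0) (nat_lit 8475346525) (nat_lit 152) (nat_lit 12049407928) (nat_lit 0) (nat_lit 7241967365) (nat_lit 5) (nat_lit 5) (nat_lit 7) (nat_lit 4) (nat_lit 5) (nat_lit 4) (nat_lit 300) (nat_lit 212) (nat_lit 208)) (XT.lf (nat_lit 0) (nat_lit 11879088332) (nat_lit 152) (nat_lit 6732281729) (nat_lit 0) (nat_lit 10373177211) (nat_lit 5) (nat_lit 5) (nat_lit 7) (nat_lit 4) (nat_lit 5) (nat_lit 4) (nat_lit 301) (nat_lit 212) (nat_lit 207))))))))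
noncomputable def xc35 : XT := (XT.nd (nat_lit 1404) (nat_lit 76) (nat_lit 0) (XT.nd (nat_lit 702) (nat_lit 0) (nat_lit 0) (XT.nd (nat_lit 312) (nat_lit 152) (nat_lit 0) (XT.nd (nat_lit 156) (nat_lit 0) (nat_lit 0) (XT.nd (nat_lit 78) (nat_lit 76) (nat_lit 0) (XT.lf (nat_lit 0) (nat_lit 15355353561) (nat_lit 152) (nat_lit 1323026360) (nat_lit 0) (nat_lit 13589888191) (nat_lit 5) (nat_lit 5) (nat_lit 7) (nat_lit 4) (nat_lit 5) (nat_lit 4) (nat_lit 302) (nat_lit 212) (nat_lit 206)) (XT.lf (nat_lit 0) (nat_lit 4329818593) (nat_lit 76) (nat_lit 14650201042) (nat_lit 76) (nat_lit 12637541150) (nat_lit 4) (nat_lit 4) (nat_lit 5) (nat_lit 5) (nat_lit 5) (nat_lit 4) (nat_lit 303) (nat_lit 212) (nat_lit 205))) (XT.nd (nat_lit 78) (nat_lit 0) (nat_lit 0) (XT.lf (nat_lit 0) (nat_lit 10148452483) (nat_lit 76) (nat_lit 12568747252) (nat_lit 76) (nat_lit 10320664005) (nat_lit 4) (nat_lit 4) (nat_lit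 5) (nat_lit 5) (nat_lit 5) (nat_lit 4) (nat_lit 304) (nat_lit 212) (nat_lit 204)) (XT.lf (nat_lit 0) (nat_lit 16102983974) (nat_lit 76) (nat_lit 10451468801) (nat_lit 76) (nat_lit 7979172835) (nat_lit 4) (nat_lit 4) (nat_lit 5) (nat_lit 5) (nat_lit 5) (nat_lit 4) (nat_lit 305) (nat_lit 212) (nat_lit 203)))) (XT.nd (nat_lit 156) (nat_lit 152) (nat_lit 0) (XT.nd (nat_lit 78) (nat_lit 0) (nat_lit 0) (XT.lf (nat_lit 0) (nat_lit 22207590520) (nat_lit 76) (nat_lit 8293324550) (nat_lit 76) (nat_lit 5607492661) (nat_lit 4) (nat_lit 4) (nat_lit 5) (nat_lit 5) (nat_lit 5) (nat_lit 4) (nat_lit 306) (nat_lit 212) (nat_lit 202)) (XT.lf (nat_lit 0) (nat_lit 28476806900) (nat_lit 76) (nat_lit 6089176060) (nat_lit 76) (nat_lit 3199976626) (nat_lit 4) (nat_lit 4) (nat_lit 5) (nat_lit 5) (nat_lit 5) (nat_lit 4) (nat_lit 307) (nat_lit 212) (nat_lit 201))) (XT.nd (nat_lit 78) (nat_lit 152) (nat_lit 0)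 (XT.lf (nat_lit 0) (nat_lit 34925559819) (nat_lit 76) (nat_lit 3833775358) (nat_lit 76) (nat_lit 750892547) (nat_lit 4) (nat_lit 4) (nat_lit 5) (nat_lit 5) (nat_lit 5) (nat_lit 4) (nat_lit 308) (nat_lit 212) (nat_lit 200)) (XT.nd (nat_lit 78) (nat_lit 0) (nat_lit 0) (XT.lf (nat_lit 0) (nat_lit 203084697) (nat_lit 76) (nat_lit 1489806945) (nat_lit 152) (nat_lit 39650952312) (nat_lit 2) (nat_lit 5) (nat_lit 3) (nat_lit 5) (nat_lit 4) (nat_lit 4) (nat_lit 309) (nat_lit 212) (nat_lit 199)) (XT.lf (nat_lit 0) (nat_lit 4255635745) (nat_lit 152) (nat_lit 38035298072) (nat_lit 0) (nat_lit 976569362) (nat_lit 2) (nat_lit 5) (nat_lit 4) (nat_lit 4) (nat_lit 2) (nat_lit 4) (nat_lit 310) (nat_lit 212) (nat_lit 198)))))) (XT.nd (nat_lit 312) (nat_lit 0) (nat_lit 0) (XT.nd (nat_lit 156) (nat_lit 0) (nat_lit 0) (XT.nd (nat_lit 78) (nat_lit 0) (nat_lit 0) (XT.lf (nat_lit 0) (nat_lit 6902295882) (nat_lit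 152) (nat_lit 34923449077) (nat_lit 0) (nat_lit 3463885706) (nat_lit 2) (nat_lit 5) (nat_lit 4) (nat_lit 4) (nat_lit 2) (nat_lit 4) (nat_lit 311) (nat_lit 212) (nat_lit 197)) (XT.lf (nat_lit 0) (nat_lit 9615913562) (nat_lit 152) (nat_lit 31774543048) (nat_lit 0) (nat_lit 6025747392) (nat_lit 2) (nat_lit 5) (nat_lit 4) (nat_lit 4) (nat_lit 2) (nat_lit 4) (nat_lit 312) (nat_lit 212) (nat_lit 196))) (XT.nd (nat_lit 78) (nat_lit 0) (nat_lit 0) (XT.lf (nat_lit 0) (nat_lit 12402949780) (nat_lit 152) (nat_lit 28581082588) (nat_lit 0) (nat_lit 8668254093) (nat_lit 2) (nat_lit 5) (nat_lit 4) (nat_lit 4) (nat_lit 2) (nat_lit 4) (nat_lit 313) (nat_lit 212) (nat_lit 195)) (XT.lf (nat_lit 0) (nat_lit 15270040337) (nat_lit 152) (nat_lit 25335464220) (nat_lit 0) (nat_lit 11397697490) (nat_lit 2) (nat_lit 5) (nat_lit 4) (nat_lit 4) (nat_lit 2) (nat_lit 4) (nat_lit 314) (nat_lit 212) (nat_lit 194))))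 (XT.nd (nat_lit 156) (nat_lit 0) (nat_lit 0) (XT.nd (nat_lit 78) (nat_lit 0) (nat_lit 0) (XT.lf (nat_lit 0) (nat_lit 18224011639) (nat_lit 152) (nat_lit 22029960282) (nat_lit 0) (nat_lit 14220576258) (nat_lit 2) (nat_lit 5) (nat_lit 4) (nat_lit 4) (nat_lit 2) (nat_lit 4) (nat_lit 315) (nat_lit 212) (nat_lit 193)) (XT.lf (nat_lit 0) (nat_lit 21271896950) (nat_lit 152) (nat_lit 18656700526) (nat_lit 0) (nat_lit 17143611538) (nat_lit 2) (nat_lit 5) (nat_lit 4) (nat_lit 4) (nat_lit 2) (nat_lit 4) (nat_lit 316) (nat_lit 212) (nat_lit 192))) (XT.nd (nat_lit 78) (nat_lit 0) (nat_lit 0) (XT.lf (nat_lit 0) (nat_lit 24420953141) (nat_lit 152) (nat_lit 15207653381) (nat_lit 0) (nat_lit 20173762937) (nat_lit 2) (nat_lit 5) (nat_lit 4) (nat_lit 4) (nat_lit 2) (nat_lit 4) (nat_lit 317) (nat_lit 212) (nat_lit 191)) (XT.nd (nat_lit 78) (nat_lit 0) (nat_lit 0) (XT.lf (nat_lit 0) (nat_lit 27678677964)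 (nat_lit 152) (nat_lit 11674606831) (nat_lit 0) (nat_lit 23318245102) (nat_lit 2) (nat_lit 5) (nat_lit 4) (nat_lit 4) (nat_lit 2) (nat_lit 4) (nat_lit 318) (nat_lit 212) (nat_lit 190)) (XT.lf (nat_lit 0) (nat_lit 31052827908) (nat_lit 152) (nat_lit 8049148859) (nat_lit 0) (nat_lit 26584544894) (nat_lit 2) (nat_lit 5) (nat_lit 4) (nat_lit 4) (nat_lit 2) (nat_lit 4) (nat_lit 319) (nat_lit 212) (nat_lit 189))))))) (XT.nd (nat_lit 702) (nat_lit 0) (nat_lit 0) (XT.nd (nat_lit 312) (nat_lit 0) (nat_lit 0) (XT.nd (nat_lit 156) (nat_lit 76) (nat_lit 0) (XT.nd (nat_lit 78) (nat_lit 0) (nat_lit 0) (XT.lf (nat_lit 0) (nat_lit 34551436661) (nat_lit 152) (nat_lit 4322647423) (nat_lit 0) (nat_lit 29980439218) (nat_lit 2) (nat_lit 5) (nat_lit 4) (nat_lit 4) (nat_lit 2) (nat_lit 4) (nat_lit 320) (nat_lit 212) (nat_lit 188)) (XT.lf (nat_lit 0) (nat_lit 38182834246) (nat_lit 152) (nat_lit 486229900)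 (nat_lit 0) (nat_lit 33514013536) (nat_lit 2) (nat_lit 5) (nat_lit 4) (nat_lit 4) (nat_lit 2) (nat_lit 4) (nat_lit 321) (nat_lit 212) (nat_lit 187))) (XT.nd (nat_lit 78) (nat_lit 0) (nat_lit 0) (XT.lf (nat_lit 0) (nat_lit 3583946713) (nat_lit 76) (nat_lit 38427675586) (nat_lit 76) (nat_lit 33665689860) (nat_lit 1) (nat_lit 4) (nat_lit 2) (nat_lit 5) (nat_lit 2) (nat_lit 4) (nat_lit 322) (nat_lit 212) (nat_lit 186)) (XT.lf (nat_lit 0) (nat_lit 7802916216) (nat_lit 76) (nat_lit 38197826572) (nat_lit 76) (nat_lit 33347112259) (nat_lit 1) (nat_lit 4) (nat_lit 2) (nat_lit 5) (nat_lit 2) (nat_lit 4) (nat_lit 323) (nat_lit 212) (nat_lit 185)))) (XT.nd (nat_lit 156) (nat_lit 0) (nat_lit 0) (XT.nd (nat_lit 78) (nat_lit 0) (nat_lit 0) (XT.lf (nat_lit 0) (nat_lit 12164646819) (nat_lit 76) (nat_lit 37987204383) (nat_lit 76) (nat_lit 33051986654) (nat_lit 1) (nat_lit 4) (nat_lit 2) (nat_lit 5)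 (nat_lit 2) (nat_lit 4) (nat_lit 324) (nat_lit 212) (nat_lit 184)) (XT.lf (nat_lit 0) (nat_lit 16679523594) (nat_lit 76) (nat_lit 37795307537) (nat_lit 76) (nat_lit 32779610365) (nat_lit 1) (nat_lit 4) (nat_lit 2) (nat_lit 5) (nat_lit 2) (nat_lit 4) (nat_lit 325) (nat_lit 212) (nat_lit 183))) (XT.nd (nat_lit 78) (nat_lit 0) (nat_lit 0) (XT.lf (nat_lit 0) (nat_lit 21358296247) (nat_lit 76) (nat_lit 37621679138) (nat_lit 76) (nat_lit 32529334877) (nat_lit 1) (nat_lit 4) (nat_lit 2) (nat_lit 5) (nat_lit 2) (nat_lit 4) (nat_lit 326) (nat_lit 212) (nat_lit 182)) (XT.nd (nat_lit 78) (nat_lit 0) (nat_lit 0) (XT.lf (nat_lit 0) (nat_lit 26212104713) (nat_lit 76) (nat_lit 37465905785) (nat_lit 76) (nat_lit 32300564297) (nat_lit 1) (nat_lit 4) (nat_lit 2) (nat_lit 5) (nat_lit 2) (nat_lit 4) (nat_lit 327) (nat_lit 212) (nat_lit 181)) (XT.lf (nat_lit 0) (nat_lit 31252505680) (nat_lit 76) (nat_lit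 37327616589) (nat_lit 76) (nat_lit 32092753931) (nat_lit 1) (nat_lit 4) (nat_lit 2) (nat_lit 5) (nat_lit 2) (nat_lit 4) (nat_lit 328) (nat_lit 212) (nat_lit 180)))))) (XT.nd (nat_lit 312) (nat_lit 0) (nat_lit 0) (XT.nd (nat_lit 156) (nat_lit 0) (nat_lit 0) (XT.nd (nat_lit 78) (nat_lit 0) (nat_lit 0) (XT.lf (nat_lit 0) (nat_lit 36491500102) (nat_lit 76) (nat_lit 37206482289) (nat_lit 76) (nat_lit 31905408994) (nat_lit 1) (nat_lit 4) (nat_lit 2) (nat_lit 5) (nat_lit 2) (nat_lit 4) (nat_lit 329) (nat_lit 212) (nat_lit 179)) (XT.lf (nat_lit 0) (nat_lit 41941561775) (nat_lit 76) (nat_lit 37102214471) (nat_lit 76) (nat_lit 31738083426) (nat_lit 1) (nat_lit 4) (nat_lit 2) (nat_lit 5) (nat_lit 2) (nat_lit 4) (nat_lit 330) (nat_lit 212) (nat_lit 178))) (XT.nd (nat_lit 78) (nat_lit 0) (nat_lit 0) (XT.lf (nat_lit 0) (nat_lit 47615667036) (nat_lit 76) (nat_lit 37014564878) (nat_lit 76) (nat_lit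 31590378833) (nat_lit 1) (nat_lit 4) (nat_lit 2) (nat_lit 5) (nat_lit 2) (nat_lit 4) (nat_lit 331) (nat_lit 212) (nat_lit 177)) (XT.lf (nat_lit 0) (nat_lit 53527325660) (nat_lit 76) (nat_lit 36943324821) (nat_lit 76) (nat_lit 31461943538) (nat_lit 1) (nat_lit 4) (nat_lit 2) (nat_lit 5) (nat_lit 2) (nat_lit 4) (nat_lit 332) (nat_lit 212) (nat_lit 176)))) (XT.nd (nat_lit 156) (nat_lit 0) (nat_lit 0) (XT.nd (nat_lit 78) (nat_lit 0) (nat_lit 0) (XT.lf (nat_lit 0) (nat_lit 59690613025) (nat_lit 76) (nat_lit 36888324680) (nat_lit 76) (nat_lit 31352471742) (nat_lit 1) (nat_lit 4) (nat_lit 2) (nat_lit 5) (nat_lit 2) (nat_lit 4) (nat_lit 333) (nat_lit 212) (nat_lit 175)) (XT.lf (nat_lit 0) (nat_lit 66120203624) (nat_lit 76) (nat_lit 36849433502) (nat_lit 76) (nat_lit 31261702797) (nat_lit 1) (nat_lit 4) (nat_lit 2) (nat_lit 5) (nat_lit 2) (nat_lit 4) (nat_lit 334) (nat_lit 212) (nat_lit 174)))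 (XT.nd (nat_lit 78) (nat_lit 0) (nat_lit 0) (XT.lf (nat_lit 0) (nat_lit 72831406007) (nat_lit 76) (nat_lit 36826558690) (nat_lit 76) (nat_lit 31189420588) (nat_lit 1) (nat_lit 4) (nat_lit 2) (nat_lit 5) (nat_lit 2) (nat_lit 4) (nat_lit 335) (nat_lit 212) (nat_lit 173)) (XT.nd (nat_lit 78) (nat_lit 0) (nat_lit 0) (XT.lf (nat_lit 0) (nat_lit 79840199226) (nat_lit 76) (nat_lit 36819645780) (nat_lit 76) (nat_lit 31135453014) (nat_lit 1) (nat_lit 4) (nat_lit 2) (nat_lit 5) (nat_lit 2) (nat_lit 4) (nat_lit 336) (nat_lit 212) (nat_lit 172)) (XT.lf (nat_lit 0) (nat_lit 87163270884) (nat_lit 76) (nat_lit 36828678312) (nat_lit 76) (nat_lit 31099671581) (nat_lit 1) (nat_lit 4) (nat_lit 2) (nat_lit 5) (nat_lit 2) (nat_lit 4) (nat_lit 337) (nat_lit 212) (nat_lit 171))))))))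
noncomputable def xc36 : XT := (XT.nd (nat_lit 1404) (nat_lit 0) (nat_lit 0) (XT.nd (nat_lit 702) (nat_lit 0) (nat_lit 0) (XT.nd (nat_lit 312) (nat_lit 0) (nat_lit 0) (XT.nd (nat_lit 156) (nat_lit 0) (nat_lit 0) (XT.nd (nat_lit 78) (nat_lit 0) (nat_lit 0) (XT.lf (nat_lit 0) (nat_lit 94818056867) (nat_lit 76) (nat_lit 36853677793) (nat_lit 76) (nat_lit 31081991094) (nat_lit 1) (nat_lit 4) (nat_lit 2) (nat_lit 5) (nat_lit 2) (nat_lit 4) (nat_lit 338) (nat_lit 212) (nat_lit 170)) (XT.lf (nat_lit 0) (nat_lit 102822782856) (nat_lit 76) (nat_lit 36894703744) (nat_lit 76) (nat_lit 31082369458) (nat_lit 1) (nat_lit 4) (nat_lit 2) (nat_lit 5) (nat_lit 2) (nat_lit 4) (nat_lit 339) (nat_lit 212) (nat_lit 169))) (XT.nd (nat_lit 78) (nat_lit 0) (nat_lit 0) (XT.lf (nat_lit 0) (nat_lit 111196507721) (nat_lit 76) (nat_lit 36951853848) (nat_lit 76) (nat_lit 31100807573) (nat_lit 1) (nat_lit 4) (nat_lit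 2) (nat_lit 5) (nat_lit 2) (nat_lit 4) (nat_lit 340) (nat_lit 212) (nat_lit 168)) (XT.lf (nat_lit 0) (nat_lit 119959168903) (nat_lit 76) (nat_lit 37025264175) (nat_lit 76) (nat_lit 31137349340) (nat_lit 1) (nat_lit 4) (nat_lit 2) (nat_lit 5) (nat_lit 2) (nat_lit 4) (nat_lit 341) (nat_lit 212) (nat_lit 167)))) (XT.nd (nat_lit 156) (nat_lit 0) (nat_lit 0) (XT.nd (nat_lit 78) (nat_lit 0) (nat_lit 0) (XT.lf (nat_lit 0) (nat_lit 129131629881) (nat_lit 76) (nat_lit 37115109512) (nat_lit 76) (nat_lit 31192081762) (nat_lit 1) (nat_lit 4) (nat_lit 2) (nat_lit 5) (nat_lit 2) (nat_lit 4) (nat_lit 342) (nat_lit 212) (nat_lit 166)) (XT.lf (nat_lit 0) (nat_lit 138735729848) (nat_lit 76) (nat_lit 37221603777) (nat_lit 76) (nat_lit 31265135156) (nat_lit 1) (nat_lit 4) (nat_lit 2) (nat_lit 5) (nat_lit 2) (nat_lit 4) (nat_lit 343) (nat_lit 212) (nat_lit 165))) (XT.nd (nat_lit 78) (nat_lit 0) (nat_lit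 0) (XT.lf (nat_lit 0) (nat_lit 148794335708) (nat_lit 76) (nat_lit 37345000526) (nat_lit 76) (nat_lit 31356683457) (nat_lit 1) (nat_lit 4) (nat_lit 2) (nat_lit 5) (nat_lit 2) (nat_lit 4) (nat_lit 344) (nat_lit 212) (nat_lit 164)) (XT.nd (nat_lit 78) (nat_lit 0) (nat_lit 0) (XT.lf (nat_lit 0) (nat_lit 159331396523) (nat_lit 76) (nat_lit 37485593563) (nat_lit 76) (nat_lit 31466944638) (nat_lit 1) (nat_lit 4) (nat_lit 2) (nat_lit 5) (nat_lit 2) (nat_lit 4) (nat_lit 345) (nat_lit 212) (nat_lit 163)) (XT.lf (nat_lit 0) (nat_lit 170372000533) (nat_lit 76) (nat_lit 37643717632) (nat_lit 76) (nat_lit 31596181225) (nat_lit 1) (nat_lit 4) (nat_lit 2) (nat_lit 5) (nat_lit 2) (nat_lit 4) (nat_lit 346) (nat_lit 212) (nat_lit 162)))))) (XT.nd (nat_lit 312) (nat_lit 0) (nat_lit 0) (XT.nd (nat_lit 156) (nat_lit 0) (nat_lit 0) (XT.nd (nat_lit 78) (nat_lit 0) (nat_lit 0) (XT.lf (nat_lit 0) (nat_lit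 181942434890) (nat_lit 76) (nat_lit 37819749220) (nat_lit 76) (nat_lit 31744700926) (nat_lit 1) (nat_lit 4) (nat_lit 2) (nat_lit 5) (nat_lit 2) (nat_lit 4) (nat_lit 347) (nat_lit 212) (nat_lit 161)) (XT.lf (nat_lit 0) (nat_lit 194070248249) (nat_lit 76) (nat_lit 38014107448) (nat_lit 76) (nat_lit 31912857357) (nat_lit 1) (nat_lit 4) (nat_lit 2) (nat_lit 5) (nat_lit 2) (nat_lit 4) (nat_lit 348) (nat_lit 212) (nat_lit 160))) (XT.nd (nat_lit 78) (nat_lit 0) (nat_lit 0) (XT.lf (nat_lit 0) (nat_lit 206784316354) (nat_lit 76) (nat_lit 38227255076) (nat_lit 76) (nat_lit 32101050891) (nat_lit 1) (nat_lit 4) (nat_lit 2) (nat_lit 5) (nat_lit 2) (nat_lit 4) (nat_lit 349) (nat_lit 212) (nat_lit 159)) (XT.lf (nat_lit 0) (nat_lit 220114910796) (nat_lit 76) (nat_lit 38459699596) (nat_lit 76) (nat_lit 32309729609) (nat_lit 1) (nat_lit 4) (nat_lit 2) (nat_lit 5) (nat_lit 2) (nat_lit 4) (nat_lit 350)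 (nat_lit 212) (nat_lit 158)))) (XT.nd (nat_lit 156) (nat_lit 0) (nat_lit 0) (XT.nd (nat_lit 78) (nat_lit 0) (nat_lit 0) (XT.lf (nat_lit 0) (nat_lit 234093771086) (nat_lit 76) (nat_lit 38711994449) (nat_lit 76) (nat_lit 32539390364) (nat_lit 1) (nat_lit 4) (nat_lit 2) (nat_lit 5) (nat_lit 2) (nat_lit 4) (nat_lit 351) (nat_lit 212) (nat_lit 157)) (XT.lf (nat_lit 0) (nat_lit 248754180226) (nat_lit 76) (nat_lit 38984740336) (nat_lit 76) (nat_lit 32790579967) (nat_lit 1) (nat_lit 4) (nat_lit 2) (nat_lit 5) (nat_lit 2) (nat_lit 4) (nat_lit 352) (nat_lit 212) (nat_lit 156))) (XT.nd (nat_lit 78) (nat_lit 0) (nat_lit 0) (XT.lf (nat_lit 0) (nat_lit 264131043949) (nat_lit 76) (nat_lit 39278586653) (nat_lit 76) (nat_lit 33063896490) (nat_lit 1) (nat_lit 4) (nat_lit 2) (nat_lit 5) (nat_lit 2) (nat_lit 4) (nat_lit 353) (nat_lit 212) (nat_lit 155)) (XT.nd (nat_lit 78) (nat_lit 0) (nat_lit 0) (XT.lf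 (nat_lit 0) (nat_lit 280260973838) (nat_lit 76) (nat_lit 39594233034) (nat_lit 76) (nat_lit 33359990686) (nat_lit 1) (nat_lit 4) (nat_lit 2) (nat_lit 5) (nat_lit 2) (nat_lit 4) (nat_lit 354) (nat_lit 212) (nat_lit 154)) (XT.lf (nat_lit 0) (nat_lit 297182374488) (nat_lit 76) (nat_lit 39932431016) (nat_lit 76) (nat_lit 33679567541) (nat_lit 1) (nat_lit 4) (nat_lit 2) (nat_lit 5) (nat_lit 2) (nat_lit 4) (nat_lit 355) (nat_lit 212) (nat_lit 153))))))) (XT.nd (nat_lit 702) (nat_lit 0) (nat_lit 0) (XT.nd (nat_lit 312) (nat_lit 0) (nat_lit 0) (XT.nd (nat_lit 156) (nat_lit 0) (nat_lit 0) (XT.nd (nat_lit 78) (nat_lit 0) (nat_lit 0) (XT.lf (nat_lit 0) (nat_lit 314935534946) (nat_lit 76) (nat_lit 40293985835) (nat_lit 76) (nat_lit 34023387951) (nat_lit 1) (nat_lit 4) (nat_lit 2) (nat_lit 5) (nat_lit 2) (nat_lit 4) (nat_lit 356) (nat_lit 212) (nat_lit 152)) (XT.lf (nat_lit 0) (nat_lit 333562724643)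 (nat_lit 76) (nat_lit 40679758335) (nat_lit 76) (nat_lit 34392270539) (nat_lit 1) (nat_lit 4) (nat_lit 2) (nat_lit 5) (nat_lit 2) (nat_lit 4) (nat_lit 357) (nat_lit 212) (nat_lit 151))) (XT.nd (nat_lit 78) (nat_lit 0) (nat_lit 0) (XT.lf (nat_lit 0) (nat_lit 353108294031) (nat_lit 76) (nat_lit 41090667021) (nat_lit 76) (nat_lit 34787093594) (nat_lit 1) (nat_lit 4) (nat_lit 2) (nat_lit 5) (nat_lit 2) (nat_lit 4) (nat_lit 358) (nat_lit 212) (nat_lit 150)) (XT.lf (nat_lit 0) (nat_lit 373618780179) (nat_lit 76) (nat_lit 41527690247) (nat_lit 76) (nat_lit 35208797172) (nat_lit 1) (nat_lit 4) (nat_lit 2) (nat_lit 5) (nat_lit 2) (nat_lit 4) (nat_lit 359) (nat_lit 212) (nat_lit 149)))) (XT.nd (nat_lit 156) (nat_lit 0) (nat_lit 0) (XT.nd (nat_lit 78) (nat_lit 0) (nat_lit 0) (XT.lf (nat_lit 0) (nat_lit 395143017578) (nat_lit 76) (nat_lit 41991868546) (nat_lit 76) (nat_lit 35658385329) (nat_lit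 1) (nat_lit 4) (nat_lit 2) (nat_lit 5) (nat_lit 2) (nat_lit 4) (nat_lit 360) (nat_lit 212) (nat_lit 148)) (XT.lf (nat_lit 0) (nat_lit 417732254413) (nat_lit 76) (nat_lit 42484307103) (nat_lit 76) (nat_lit 36136928514) (nat_lit 1) (nat_lit 4) (nat_lit 2) (nat_lit 5) (nat_lit 2) (nat_lit 4) (nat_lit 361) (nat_lit 212) (nat_lit 147))) (XT.nd (nat_lit 78) (nat_lit 0) (nat_lit 0) (XT.lf (nat_lit 0) (nat_lit 441440274581) (nat_lit 76) (nat_lit 43006178392) (nat_lit 76) (nat_lit 36645566114) (nat_lit 1) (nat_lit 4) (nat_lit 2) (nat_lit 5) (nat_lit 2) (nat_lit 4) (nat_lit 362) (nat_lit 212) (nat_lit 146)) (XT.nd (nat_lit 78) (nat_lit 0) (nat_lit 0) (XT.lf (nat_lit 0) (nat_lit 466323525749) (nat_lit 76) (nat_lit 43558724962) (nat_lit 76) (nat_lit 37185509172) (nat_lit 1) (nat_lit 4) (nat_lit 2) (nat_lit 5) (nat_lit 2) (nat_lit 4) (nat_lit 363) (nat_lit 212) (nat_lit 145)) (XT.lf (nat_lit 0)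 (nat_lit 492441253753) (nat_lit 76) (nat_lit 44143262401) (nat_lit 76) (nat_lit 37758043266) (nat_lit 1) (nat_lit 4) (nat_lit 2) (nat_lit 5) (nat_lit 2) (nat_lit 4) (nat_lit 364) (nat_lit 212) (nat_lit 144)))))) (XT.nd (nat_lit 32136) (nat_lit 0) (nat_lit 304) (XT.nd (nat_lit 31980) (nat_lit 0) (nat_lit 456) (XT.nd (nat_lit 78) (nat_lit 0) (nat_lit 0) (XT.lf (nat_lit 0) (nat_lit 519855643660) (nat_lit 76) (nat_lit 44761182466) (nat_lit 76) (nat_lit 38364531573) (nat_lit 1) (nat_lit 4) (nat_lit 2) (nat_lit 5) (nat_lit 2) (nat_lit 4) (nat_lit 365) (nat_lit 212) (nat_lit 143)) (XT.lf (nat_lit 0) (nat_lit 548631967826) (nat_lit 76) (nat_lit 45413956393) (nat_lit 76) (nat_lit 39006418112) (nat_lit 1) (nat_lit 4) (nat_lit 2) (nat_lit 5) (nat_lit 2) (nat_lit 4) (nat_lit 366) (nat_lit 212) (nat_lit 142))) (XT.nd (nat_lit 78) (nat_lit 0) (nat_lit 0) (XT.lf (nat_lit 0) (nat_lit 539635040) (nat_lit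 76) (nat_lit 5143967117) (nat_lit 76) (nat_lit 5143967117) (nat_lit 7) (nat_lit 4) (nat_lit 8) (nat_lit 5) (nat_lit 8) (nat_lit 4) (nat_lit 294) (nat_lit 213) (nat_lit 213)) (XT.lf (nat_lit 0) (nat_lit 7669187472) (nat_lit 76) (nat_lit 7620939266) (nat_lit 76) (nat_lit 7255720373) (nat_lit 7) (nat_lit 4) (nat_lit 8) (nat_lit 5) (nat_lit 8) (nat_lit 4) (nat_lit 295) (nat_lit 213) (nat_lit 212)))) (XT.nd (nat_lit 156) (nat_lit 152) (nat_lit 0) (XT.nd (nat_lit 78) (nat_lit 0) (nat_lit 0) (XT.lf (nat_lit 0) (nat_lit 14382783443) (nat_lit 76) (nat_lit 4908700835) (nat_lit 76) (nat_lit 4195654425) (nat_lit 7) (nat_lit 4) (nat_lit 8) (nat_lit 5) (nat_lit 8) (nat_lit 4) (nat_lit 296) (nat_lit 213) (nat_lit 211)) (XT.lf (nat_lit 0) (nat_lit 21236042749) (nat_lit 76) (nat_lit 2144761232) (nat_lit 76) (nat_lit 1100450520) (nat_lit 7) (nat_lit 4) (nat_lit 8) (nat_lit 5) (nat_lit 8) (nat_lit 4)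 (nat_lit 297) (nat_lit 213) (nat_lit 210))) (XT.nd (nat_lit 78) (nat_lit 0) (nat_lit 0) (XT.lf (nat_lit 0) (nat_lit 2027136484) (nat_lit 152) (nat_lit 22766992193) (nat_lit 0) (nat_lit 732088366) (nat_lit 5) (nat_lit 5) (nat_lit 7) (nat_lit 4) (nat_lit 5) (nat_lit 4) (nat_lit 298) (nat_lit 213) (nat_lit 209)) (XT.nd (nat_lit 78) (nat_lit 0) (nat_lit 0) (XT.lf (nat_lit 0) (nat_lit 5257466514) (nat_lit 152) (nat_lit 17689765377) (nat_lit 0) (nat_lit 3676259837) (nat_lit 5) (nat_lit 5) (nat_lit 7) (nat_lit 4) (nat_lit 5) (nat_lit 4) (nat_lit 299) (nat_lit 213) (nat_lit 208)) (XT.lf (nat_lit 0) (nat_lit 8546766192) (nat_lit 152) (nat_lit 12541090718) (nat_lit 0) (nat_lit 6693027554) (nat_lit 5) (nat_lit 5) (nat_lit 7) (nat_lit 4) (nat_lit 5) (nat_lit 4) (nat_lit 300) (nat_lit 213) (nat_lit 207))))))))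
noncomputable def xc37 : XT := (XT.nd (nat_lit 1404) (nat_lit 76) (nat_lit 0) (XT.nd (nat_lit 702) (nat_lit 76) (nat_lit 0) (XT.nd (nat_lit 312) (nat_lit 76) (nat_lit 0) (XT.nd (nat_lit 156) (nat_lit 76) (nat_lit 0) (XT.nd (nat_lit 78) (nat_lit 0) (nat_lit 0) (XT.lf (nat_lit 0) (nat_lit 11902867185) (nat_lit 152) (nat_lit 7308709465) (nat_lit 0) (nat_lit 9789574298) (nat_lit 5) (nat_lit 5) (nat_lit 7) (nat_lit 4) (nat_lit 5) (nat_lit 4) (nat_lit 301) (nat_lit 213) (nat_lit 206)) (XT.lf (nat_lit 0) (nat_lit 15333760210) (nat_lit 152) (nat_lit 1980163568) (nat_lit 0) (nat_lit 12973272800) (nat_lit 5) (nat_lit 5) (nat_lit 7) (nat_lit 4) (nat_lit 5) (nat_lit 4) (nat_lit 302) (nat_lit 213) (nat_lit 205))) (XT.nd (nat_lit 78) (nat_lit 0) (nat_lit 0) (XT.lf (nat_lit 0) (nat_lit 3571545754) (nat_lit 76) (nat_lit 15331830143) (nat_lit 76) (nat_lit 12735919379) (nat_lit 4) (nat_lit 4) (nat_lit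 5) (nat_lit 5) (nat_lit 5) (nat_lit 4) (nat_lit 303) (nat_lit 213) (nat_lit 204)) (XT.lf (nat_lit 0) (nat_lit 9314553257) (nat_lit 76) (nat_lit 13283668074) (nat_lit 76) (nat_lit 10463544591) (nat_lit 4) (nat_lit 4) (nat_lit 5) (nat_lit 5) (nat_lit 5) (nat_lit 4) (nat_lit 304) (nat_lit 213) (nat_lit 203)))) (XT.nd (nat_lit 156) (nat_lit 76) (nat_lit 0) (XT.nd (nat_lit 78) (nat_lit 0) (nat_lit 0) (XT.lf (nat_lit 0) (nat_lit 15197059616) (nat_lit 76) (nat_lit 11198096025) (nat_lit 76) (nat_lit 8164436618) (nat_lit 4) (nat_lit 4) (nat_lit 5) (nat_lit 5) (nat_lit 5) (nat_lit 4) (nat_lit 305) (nat_lit 213) (nat_lit 202)) (XT.lf (nat_lit 0) (nat_lit 21233070800) (nat_lit 76) (nat_lit 9070148346) (nat_lit 76) (nat_lit 5833121394) (nat_lit 4) (nat_lit 4) (nat_lit 5) (nat_lit 5) (nat_lit 5) (nat_lit 4) (nat_lit 306) (nat_lit 213) (nat_lit 201))) (XT.nd (nat_lit 78) (nat_lit 76) (nat_lit 0)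 (XT.lf (nat_lit 0) (nat_lit 27436958263) (nat_lit 76) (nat_lit 6894758496) (nat_lit 76) (nat_lit 3464048168) (nat_lit 4) (nat_lit 4) (nat_lit 5) (nat_lit 5) (nat_lit 5) (nat_lit 4) (nat_lit 307) (nat_lit 213) (nat_lit 200)) (XT.nd (nat_lit 78) (nat_lit 76) (nat_lit 0) (XT.lf (nat_lit 0) (nat_lit 33823493165) (nat_lit 76) (nat_lit 4666746976) (nat_lit 76) (nat_lit 1051576289) (nat_lit 4) (nat_lit 4) (nat_lit 5) (nat_lit 5) (nat_lit 5) (nat_lit 4) (nat_lit 308) (nat_lit 213) (nat_lit 199)) (XT.lf (nat_lit 0) (nat_lit 1364908194) (nat_lit 152) (nat_lit 992785421) (nat_lit 76) (nat_lit 39019857969) (nat_lit 3) (nat_lit 5) (nat_lit 5) (nat_lit 5) (nat_lit 4) (nat_lit 4) (nat_lit 309) (nat_lit 213) (nat_lit 198)))))) (XT.nd (nat_lit 312) (nat_lit 0) (nat_lit 0) (XT.nd (nat_lit 156) (nat_lit 0) (nat_lit 0) (XT.nd (nat_lit 78) (nat_lit 0) (nat_lit 0) (XT.lf (nat_lit 0) (nat_lit 3864341989)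 (nat_lit 152) (nat_lit 39345403039) (nat_lit 0) (nat_lit 94667511) (nat_lit 2) (nat_lit 5) (nat_lit 4) (nat_lit 4) (nat_lit 2) (nat_lit 4) (nat_lit 310) (nat_lit 213) (nat_lit 197)) (XT.lf (nat_lit 0) (nat_lit 6479111656) (nat_lit 152) (nat_lit 36291376198) (nat_lit 0) (nat_lit 2557681184) (nat_lit 2) (nat_lit 5) (nat_lit 4) (nat_lit 4) (nat_lit 2) (nat_lit 4) (nat_lit 311) (nat_lit 213) (nat_lit 196))) (XT.nd (nat_lit 78) (nat_lit 0) (nat_lit 0) (XT.lf (nat_lit 0) (nat_lit 9162357460) (nat_lit 152) (nat_lit 33197538886) (nat_lit 0) (nat_lit 5096397471) (nat_lit 2) (nat_lit 5) (nat_lit 4) (nat_lit 4) (nat_lit 2) (nat_lit 4) (nat_lit 312) (nat_lit 213) (nat_lit 195)) (XT.lf (nat_lit 0) (nat_lit 11920468082) (nat_lit 152) (nat_lit 30056524823) (nat_lit 0) (nat_lit 7716860933) (nat_lit 2) (nat_lit 5) (nat_lit 4) (nat_lit 4) (nat_lit 2) (nat_lit 4) (nat_lit 313) (nat_lit 213) (nat_lit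 194)))) (XT.nd (nat_lit 156) (nat_lit 0) (nat_lit 0) (XT.nd (nat_lit 78) (nat_lit 0) (nat_lit 0) (XT.lf (nat_lit 0) (nat_lit 14760010452) (nat_lit 152) (nat_lit 26860855406) (nat_lit 0) (nat_lit 10425310770) (nat_lit 2) (nat_lit 5) (nat_lit 4) (nat_lit 4) (nat_lit 2) (nat_lit 4) (nat_lit 314) (nat_lit 213) (nat_lit 193)) (XT.lf (nat_lit 0) (nat_lit 17687745385) (nat_lit 152) (nat_lit 23602921896) (nat_lit 0) (nat_lit 13228195672) (nat_lit 2) (nat_lit 5) (nat_lit 4) (nat_lit 4) (nat_lit 2) (nat_lit 4) (nat_lit 315) (nat_lit 213) (nat_lit 192))) (XT.nd (nat_lit 78) (nat_lit 0) (nat_lit 0) (XT.lf (nat_lit 0) (nat_lit 20710643679) (nat_lit 152) (nat_lit 20274967311) (nat_lit 0) (nat_lit 16132189173) (nat_lit 2) (nat_lit 5) (nat_lit 4) (nat_lit 4) (nat_lit 2) (nat_lit 4) (nat_lit 316) (nat_lit 213) (nat_lit 191)) (XT.nd (nat_lit 78) (nat_lit 0) (nat_lit 0) (XT.lf (nat_lit 0) (nat_lit 23835902711)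 (nat_lit 152) (nat_lit 16869067947) (nat_lit 0) (nat_lit 19144205546) (nat_lit 2) (nat_lit 5) (nat_lit 4) (nat_lit 4) (nat_lit 2) (nat_lit 4) (nat_lit 317) (nat_lit 213) (nat_lit 190)) (XT.lf (nat_lit 0) (nat_lit 27070963572) (nat_lit 152) (nat_lit 13377114522) (nat_lit 0) (nat_lit 22271416256) (nat_lit 2) (nat_lit 5) (nat_lit 4) (nat_lit 4) (nat_lit 2) (nat_lit 4) (nat_lit 318) (nat_lit 213) (nat_lit 189))))))) (XT.nd (nat_lit 702) (nat_lit 0) (nat_lit 0) (XT.nd (nat_lit 312) (nat_lit 0) (nat_lit 0) (XT.nd (nat_lit 156) (nat_lit 76) (nat_lit 0) (XT.nd (nat_lit 78) (nat_lit 0) (nat_lit 0) (XT.lf (nat_lit 0) (nat_lit 30423528790) (nat_lit 152) (nat_lit 9790792859) (nat_lit 0) (nat_lit 25521267044) (nat_lit 2) (nat_lit 5) (nat_lit 4) (nat_lit 4) (nat_lit 2) (nat_lit 4) (nat_lit 319) (nat_lit 213) (nat_lit 188)) (XT.lf (nat_lit 0) (nat_lit 33901580663) (nat_lit 152) (nat_lit 6101564099)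 (nat_lit 0) (nat_lit 28901495650) (nat_lit 2) (nat_lit 5) (nat_lit 4) (nat_lit 4) (nat_lit 2) (nat_lit 4) (nat_lit 320) (nat_lit 213) (nat_lit 187))) (XT.nd (nat_lit 78) (nat_lit 76) (nat_lit 0) (XT.lf (nat_lit 0) (nat_lit 37513400266) (nat_lit 152) (nat_lit 2300644363) (nat_lit 0) (nat_lit 32420150237) (nat_lit 2) (nat_lit 5) (nat_lit 4) (nat_lit 4) (nat_lit 2) (nat_lit 4) (nat_lit 321) (nat_lit 213) (nat_lit 186)) (XT.lf (nat_lit 0) (nat_lit 1674614272) (nat_lit 76) (nat_lit 39619118318) (nat_lit 76) (nat_lit 34437139704) (nat_lit 1) (nat_lit 4) (nat_lit 2) (nat_lit 5) (nat_lit 2) (nat_lit 4) (nat_lit 322) (nat_lit 213) (nat_lit 185)))) (XT.nd (nat_lit 156) (nat_lit 0) (nat_lit 0) (XT.nd (nat_lit 78) (nat_lit 0) (nat_lit 0) (XT.lf (nat_lit 0) (nat_lit 5860321641) (nat_lit 76) (nat_lit 39404254317) (nat_lit 76) (nat_lit 34137772286) (nat_lit 1) (nat_lit 4) (nat_lit 2) (nat_lit 5)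 (nat_lit 2) (nat_lit 4) (nat_lit 323) (nat_lit 213) (nat_lit 184)) (XT.lf (nat_lit 0) (nat_lit 10190374021) (nat_lit 76) (nat_lit 39207903568) (nat_lit 76) (nat_lit 33860942094) (nat_lit 1) (nat_lit 4) (nat_lit 2) (nat_lit 5) (nat_lit 2) (nat_lit 4) (nat_lit 324) (nat_lit 213) (nat_lit 183))) (XT.nd (nat_lit 78) (nat_lit 0) (nat_lit 0) (XT.lf (nat_lit 0) (nat_lit 14675081059) (nat_lit 76) (nat_lit 39029598571) (nat_lit 76) (nat_lit 33605990008) (nat_lit 1) (nat_lit 4) (nat_lit 2) (nat_lit 5) (nat_lit 2) (nat_lit 4) (nat_lit 325) (nat_lit 213) (nat_lit 182)) (XT.nd (nat_lit 78) (nat_lit 0) (nat_lit 0) (XT.lf (nat_lit 0) (nat_lit 19325120629) (nat_lit 76) (nat_lit 38868914790) (nat_lit 76) (nat_lit 33372308999) (nat_lit 1) (nat_lit 4) (nat_lit 2) (nat_lit 5) (nat_lit 2) (nat_lit 4) (nat_lit 326) (nat_lit 213) (nat_lit 181)) (XT.lf (nat_lit 0) (nat_lit 24151564255) (nat_lit 76) (nat_lit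 38725469643) (nat_lit 76) (nat_lit 33159342683) (nat_lit 1) (nat_lit 4) (nat_lit 2) (nat_lit 5) (nat_lit 2) (nat_lit 4) (nat_lit 327) (nat_lit 213) (nat_lit 180)))))) (XT.nd (nat_lit 312) (nat_lit 0) (nat_lit 0) (XT.nd (nat_lit 156) (nat_lit 0) (nat_lit 0) (XT.nd (nat_lit 78) (nat_lit 0) (nat_lit 0) (XT.lf (nat_lit 0) (nat_lit 29165903469) (nat_lit 76) (nat_lit 38598921597) (nat_lit 76) (nat_lit 32966583999) (nat_lit 1) (nat_lit 4) (nat_lit 2) (nat_lit 5) (nat_lit 2) (nat_lit 4) (nat_lit 328) (nat_lit 213) (nat_lit 179)) (XT.lf (nat_lit 0) (nat_lit 34380077174) (nat_lit 76) (nat_lit 38488969344) (nat_lit 76) (nat_lit 32793573997) (nat_lit 1) (nat_lit 4) (nat_lit 2) (nat_lit 5) (nat_lit 2) (nat_lit 4) (nat_lit 329) (nat_lit 213) (nat_lit 178))) (XT.nd (nat_lit 78) (nat_lit 0) (nat_lit 0) (XT.lf (nat_lit 0) (nat_lit 39806500068) (nat_lit 76) (nat_lit 38395351095) (nat_lit 76) (nat_lit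 32639900748) (nat_lit 1) (nat_lit 4) (nat_lit 2) (nat_lit 5) (nat_lit 2) (nat_lit 4) (nat_lit 330) (nat_lit 213) (nat_lit 177)) (XT.lf (nat_lit 0) (nat_lit 45458092208) (nat_lit 76) (nat_lit 38317843948) (nat_lit 76) (nat_lit 32505198363) (nat_lit 1) (nat_lit 4) (nat_lit 2) (nat_lit 5) (nat_lit 2) (nat_lit 4) (nat_lit 331) (nat_lit 213) (nat_lit 176)))) (XT.nd (nat_lit 156) (nat_lit 0) (nat_lit 0) (XT.nd (nat_lit 78) (nat_lit 0) (nat_lit 0) (XT.lf (nat_lit 0) (nat_lit 51348309763) (nat_lit 76) (nat_lit 38256263364) (nat_lit 76) (nat_lit 32389146123) (nat_lit 1) (nat_lit 4) (nat_lit 2) (nat_lit 5) (nat_lit 2) (nat_lit 4) (nat_lit 332) (nat_lit 213) (nat_lit 175)) (XT.lf (nat_lit 0) (nat_lit 57491177063) (nat_lit 76) (nat_lit 38210462720) (nat_lit 76) (nat_lit 32291467713) (nat_lit 1) (nat_lit 4) (nat_lit 2) (nat_lit 5) (nat_lit 2) (nat_lit 4) (nat_lit 333) (nat_lit 213) (nat_lit 174)))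 (XT.nd (nat_lit 78) (nat_lit 0) (nat_lit 0) (XT.lf (nat_lit 0) (nat_lit 63901319980) (nat_lit 76) (nat_lit 38180332969) (nat_lit 76) (nat_lit 32211930565) (nat_lit 1) (nat_lit 4) (nat_lit 2) (nat_lit 5) (nat_lit 2) (nat_lit 4) (nat_lit 334) (nat_lit 213) (nat_lit 173)) (XT.nd (nat_lit 78) (nat_lit 0) (nat_lit 0) (XT.lf (nat_lit 0) (nat_lit 70594000762) (nat_lit 76) (nat_lit 38165802373) (nat_lit 76) (nat_lit 32150345305) (nat_lit 1) (nat_lit 4) (nat_lit 2) (nat_lit 5) (nat_lit 2) (nat_lit 4) (nat_lit 335) (nat_lit 213) (nat_lit 172)) (XT.lf (nat_lit 0) (nat_lit 77585154361) (nat_lit 76) (nat_lit 38166836335) (nat_lit 76) (nat_lit 32106565302) (nat_lit 1) (nat_lit 4) (nat_lit 2) (nat_lit 5) (nat_lit 2) (nat_lit 4) (nat_lit 336) (nat_lit 213) (nat_lit 171))))))))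
noncomputable def xc38 : XT := (XT.nd (nat_lit 1404) (nat_lit 0) (nat_lit 0) (XT.nd (nat_lit 702) (nat_lit 0) (nat_lit 0) (XT.nd (nat_lit 312) (nat_lit 0) (nat_lit 0) (XT.nd (nat_lit 156) (nat_lit 0) (nat_lit 0) (XT.nd (nat_lit 78) (nat_lit 0) (nat_lit 0) (XT.lf (nat_lit 0) (nat_lit 84891426381) (nat_lit 76) (nat_lit 38183437317) (nat_lit 76) (nat_lit 32080486316) (nat_lit 1) (nat_lit 4) (nat_lit 2) (nat_lit 5) (nat_lit 2) (nat_lit 4) (nat_lit 337) (nat_lit 213) (nat_lit 170)) (XT.lf (nat_lit 0) (nat_lit 92530212708) (nat_lit 76) (nat_lit 38215644845) (nat_lit 76) (nat_lit 32072046257) (nat_lit 1) (nat_lit 4) (nat_lit 2) (nat_lit 5) (nat_lit 2) (nat_lit 4) (nat_lit 338) (nat_lit 213) (nat_lit 169))) (XT.nd (nat_lit 78) (nat_lit 0) (nat_lit 0) (XT.lf (nat_lit 0) (nat_lit 100519700930) (nat_lit 76) (nat_lit 38263535604) (nat_lit 76) (nat_lit 32081225027) (nat_lit 1) (nat_lit 4) (nat_lit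 2) (nat_lit 5) (nat_lit 2) (nat_lit 4) (nat_lit 339) (nat_lit 213) (nat_lit 168)) (XT.lf (nat_lit 0) (nat_lit 108878913636) (nat_lit 76) (nat_lit 38327223618) (nat_lit 76) (nat_lit 32108044481) (nat_lit 1) (nat_lit 4) (nat_lit 2) (nat_lit 5) (nat_lit 2) (nat_lit 4) (nat_lit 340) (nat_lit 213) (nat_lit 167)))) (XT.nd (nat_lit 156) (nat_lit 0) (nat_lit 0) (XT.nd (nat_lit 78) (nat_lit 0) (nat_lit 0) (XT.lf (nat_lit 0) (nat_lit 117627753714) (nat_lit 76) (nat_lit 38406860528) (nat_lit 76) (nat_lit 32152568476) (nat_lit 1) (nat_lit 4) (nat_lit 2) (nat_lit 5) (nat_lit 2) (nat_lit 4) (nat_lit 341) (nat_lit 213) (nat_lit 166)) (XT.lf (nat_lit 0) (nat_lit 126787051736) (nat_lit 76) (nat_lit 38502635943) (nat_lit 76) (nat_lit 32214903020) (nat_lit 1) (nat_lit 4) (nat_lit 2) (nat_lit 5) (nat_lit 2) (nat_lit 4) (nat_lit 342) (nat_lit 213) (nat_lit 165))) (XT.nd (nat_lit 78) (nat_lit 0) (nat_lit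 0) (XT.lf (nat_lit 0) (nat_lit 136378615554) (nat_lit 76) (nat_lit 38614777901) (nat_lit 76) (nat_lit 32295196530) (nat_lit 1) (nat_lit 4) (nat_lit 2) (nat_lit 5) (nat_lit 2) (nat_lit 4) (nat_lit 343) (nat_lit 213) (nat_lit 164)) (XT.nd (nat_lit 78) (nat_lit 0) (nat_lit 0) (XT.lf (nat_lit 0) (nat_lit 146425282224) (nat_lit 76) (nat_lit 38743553407) (nat_lit 76) (nat_lit 32393640180) (nat_lit 1) (nat_lit 4) (nat_lit 2) (nat_lit 5) (nat_lit 2) (nat_lit 4) (nat_lit 344) (nat_lit 213) (nat_lit 163)) (XT.lf (nat_lit 0) (nat_lit 156950972383) (nat_lit 76) (nat_lit 38889269068) (nat_lit 76) (nat_lit 32510468359) (nat_lit 1) (nat_lit 4) (nat_lit 2) (nat_lit 5) (nat_lit 2) (nat_lit 4) (nat_lit 345) (nat_lit 213) (nat_lit 162)))))) (XT.nd (nat_lit 312) (nat_lit 0) (nat_lit 0) (XT.nd (nat_lit 156) (nat_lit 0) (nat_lit 0) (XT.nd (nat_lit 78) (nat_lit 0) (nat_lit 0) (XT.lf (nat_lit 0) (nat_lit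 167980747196) (nat_lit 76) (nat_lit 39052271828) (nat_lit 76) (nat_lit 32645959231) (nat_lit 1) (nat_lit 4) (nat_lit 2) (nat_lit 5) (nat_lit 2) (nat_lit 4) (nat_lit 346) (nat_lit 213) (nat_lit 161)) (XT.lf (nat_lit 0) (nat_lit 179540868033) (nat_lit 76) (nat_lit 39232949787) (nat_lit 76) (nat_lit 32800435393) (nat_lit 1) (nat_lit 4) (nat_lit 2) (nat_lit 5) (nat_lit 2) (nat_lit 4) (nat_lit 347) (nat_lit 213) (nat_lit 160))) (XT.nd (nat_lit 78) (nat_lit 0) (nat_lit 0) (XT.lf (nat_lit 0) (nat_lit 191658858991) (nat_lit 76) (nat_lit 39431733131) (nat_lit 76) (nat_lit 32974264644) (nat_lit 1) (nat_lit 4) (nat_lit 2) (nat_lit 5) (nat_lit 2) (nat_lit 4) (nat_lit 348) (nat_lit 213) (nat_lit 159)) (XT.lf (nat_lit 0) (nat_lit 204363572429) (nat_lit 76) (nat_lit 39649095154) (nat_lit 76) (nat_lit 33167860865) (nat_lit 1) (nat_lit 4) (nat_lit 2) (nat_lit 5) (nat_lit 2) (nat_lit 4) (nat_lit 349)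 (nat_lit 213) (nat_lit 158)))) (XT.nd (nat_lit 156) (nat_lit 0) (nat_lit 0) (XT.nd (nat_lit 78) (nat_lit 0) (nat_lit 0) (XT.lf (nat_lit 0) (nat_lit 217685257664) (nat_lit 76) (nat_lit 39885553385) (nat_lit 76) (nat_lit 33381684998) (nat_lit 1) (nat_lit 4) (nat_lit 2) (nat_lit 5) (nat_lit 2) (nat_lit 4) (nat_lit 350) (nat_lit 213) (nat_lit 157)) (XT.lf (nat_lit 0) (nat_lit 231655632996) (nat_lit 76) (nat_lit 40141670820) (nat_lit 76) (nat_lit 33616246149) (nat_lit 1) (nat_lit 4) (nat_lit 2) (nat_lit 5) (nat_lit 2) (nat_lit 4) (nat_lit 351) (nat_lit 213) (nat_lit 156))) (XT.nd (nat_lit 78) (nat_lit 0) (nat_lit 0) (XT.lf (nat_lit 0) (nat_lit 246307961222) (nat_lit 76) (nat_lit 40418057261) (nat_lit 76) (nat_lit 33872102796) (nat_lit 1) (nat_lit 4) (nat_lit 2) (nat_lit 5) (nat_lit 2) (nat_lit 4) (nat_lit 352) (nat_lit 213) (nat_lit 155)) (XT.nd (nat_lit 78) (nat_lit 0) (nat_lit 0) (XT.lf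 (nat_lit 0) (nat_lit 261677128838) (nat_lit 76) (nat_lit 40715370772) (nat_lit 76) (nat_lit 34149864122) (nat_lit 1) (nat_lit 4) (nat_lit 2) (nat_lit 5) (nat_lit 2) (nat_lit 4) (nat_lit 353) (nat_lit 213) (nat_lit 154)) (XT.lf (nat_lit 0) (nat_lit 277799729100) (nat_lit 76) (nat_lit 41034319241) (nat_lit 76) (nat_lit 34450191463) (nat_lit 1) (nat_lit 4) (nat_lit 2) (nat_lit 5) (nat_lit 2) (nat_lit 4) (nat_lit 354) (nat_lit 213) (nat_lit 153))))))) (XT.nd (nat_lit 702) (nat_lit 0) (nat_lit 0) (XT.nd (nat_lit 312) (nat_lit 0) (nat_lit 0) (XT.nd (nat_lit 156) (nat_lit 0) (nat_lit 0) (XT.nd (nat_lit 78) (nat_lit 0) (nat_lit 0) (XT.lf (nat_lit 0) (nat_lit 294714149152) (nat_lit 76) (nat_lit 41375662072) (nat_lit 76) (nat_lit 34773799886) (nat_lit 1) (nat_lit 4) (nat_lit 2) (nat_lit 5) (nat_lit 2) (nat_lit 4) (nat_lit 355) (nat_lit 213) (nat_lit 152)) (XT.lf (nat_lit 0) (nat_lit 312460661423)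 (nat_lit 76) (nat_lit 41740211983) (nat_lit 76) (nat_lit 35121459885) (nat_lit 1) (nat_lit 4) (nat_lit 2) (nat_lit 5) (nat_lit 2) (nat_lit 4) (nat_lit 356) (nat_lit 213) (nat_lit 151))) (XT.nd (nat_lit 78) (nat_lit 0) (nat_lit 0) (XT.lf (nat_lit 0) (nat_lit 331081519514) (nat_lit 76) (nat_lit 42128836951) (nat_lit 76) (nat_lit 35493999222) (nat_lit 1) (nat_lit 4) (nat_lit 2) (nat_lit 5) (nat_lit 2) (nat_lit 4) (nat_lit 357) (nat_lit 213) (nat_lit 150)) (XT.lf (nat_lit 0) (nat_lit 350621058799) (nat_lit 76) (nat_lit 42542462274) (nat_lit 76) (nat_lit 35892304897) (nat_lit 1) (nat_lit 4) (nat_lit 2) (nat_lit 5) (nat_lit 2) (nat_lit 4) (nat_lit 358) (nat_lit 213) (nat_lit 149)))) (XT.nd (nat_lit 156) (nat_lit 0) (nat_lit 0) (XT.nd (nat_lit 78) (nat_lit 0) (nat_lit 0) (XT.lf (nat_lit 0) (nat_lit 371125801993) (nat_lit 76) (nat_lit 42982072775) (nat_lit 76) (nat_lit 36317325256) (nat_lit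 1) (nat_lit 4) (nat_lit 2) (nat_lit 5) (nat_lit 2) (nat_lit 4) (nat_lit 359) (nat_lit 213) (nat_lit 148)) (XT.lf (nat_lit 0) (nat_lit 392644569913) (nat_lit 76) (nat_lit 43448715143) (nat_lit 76) (nat_lit 36770072252) (nat_lit 1) (nat_lit 4) (nat_lit 2) (nat_lit 5) (nat_lit 2) (nat_lit 4) (nat_lit 360) (nat_lit 213) (nat_lit 147))) (XT.nd (nat_lit 78) (nat_lit 0) (nat_lit 0) (XT.lf (nat_lit 0) (nat_lit 415228597719) (nat_lit 76) (nat_lit 43943500434) (nat_lit 76) (nat_lit 37251623854) (nat_lit 1) (nat_lit 4) (nat_lit 2) (nat_lit 5) (nat_lit 2) (nat_lit 4) (nat_lit 361) (nat_lit 213) (nat_lit 146)) (XT.nd (nat_lit 78) (nat_lit 0) (nat_lit 0) (XT.lf (nat_lit 0) (nat_lit 438931656907) (nat_lit 76) (nat_lit 44467606707) (nat_lit 76) (nat_lit 37763126614) (nat_lit 1) (nat_lit 4) (nat_lit 2) (nat_lit 5) (nat_lit 2) (nat_lit 4) (nat_lit 362) (nat_lit 213) (nat_lit 145)) (XT.lf (nat_lit 0)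 (nat_lit 463810183333) (nat_lit 76) (nat_lit 45022281833) (nat_lit 76) (nat_lit 38305798396) (nat_lit 1) (nat_lit 4) (nat_lit 2) (nat_lit 5) (nat_lit 2) (nat_lit 4) (nat_lit 363) (nat_lit 213) (nat_lit 144)))))) (XT.nd (nat_lit 31980) (nat_lit 0) (nat_lit 456) (XT.nd (nat_lit 156) (nat_lit 0) (nat_lit 0) (XT.nd (nat_lit 78) (nat_lit 0) (nat_lit 0) (XT.lf (nat_lit 0) (nat_lit 489923411582) (nat_lit 76) (nat_lit 45608846469) (nat_lit 76) (nat_lit 38880931274) (nat_lit 1) (nat_lit 4) (nat_lit 2) (nat_lit 5) (nat_lit 2) (nat_lit 4) (nat_lit 364) (nat_lit 213) (nat_lit 143)) (XT.lf (nat_lit 0) (nat_lit 517333516008) (nat_lit 76) (nat_lit 46228697197) (nat_lit 76) (nat_lit 39489894614) (nat_lit 1) (nat_lit 4) (nat_lit 2) (nat_lit 5) (nat_lit 2) (nat_lit 4) (nat_lit 365) (nat_lit 213) (nat_lit 142))) (XT.nd (nat_lit 31746) (nat_lit 0) (nat_lit 532) (XT.lf (nat_lit 0) (nat_lit 546105758763)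 (nat_lit 76) (nat_lit 46883309851) (nat_lit 76) (nat_lit 40134138328) (nat_lit 1) (nat_lit 4) (nat_lit 2) (nat_lit 5) (nat_lit 2) (nat_lit 4) (nat_lit 366) (nat_lit 213) (nat_lit 141)) (XT.lf (nat_lit 0) (nat_lit 2174316037) (nat_lit 152) (nat_lit 5653733738) (nat_lit 0) (nat_lit 2174316037) (nat_lit 8) (nat_lit 5) (nat_lit 10) (nat_lit 4) (nat_lit 8) (nat_lit 4) (nat_lit 292) (nat_lit 214) (nat_lit 214)))) (XT.nd (nat_lit 156) (nat_lit 0) (nat_lit 0) (XT.nd (nat_lit 78) (nat_lit 76) (nat_lit 0) (XT.lf (nat_lit 0) (nat_lit 7981207209) (nat_lit 152) (nat_lit 5229740178) (nat_lit 0) (nat_lit 7597727371) (nat_lit 8) (nat_lit 5) (nat_lit 10) (nat_lit 4) (nat_lit 8) (nat_lit 4) (nat_lit 293) (nat_lit 214) (nat_lit 213)) (XT.lf (nat_lit 0) (nat_lit 973851470) (nat_lit 76) (nat_lit 10716541683) (nat_lit 76) (nat_lit 9967842952) (nat_lit 7) (nat_lit 4) (nat_lit 8) (nat_lit 5) (nat_lit 8) (nat_lit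 4) (nat_lit 294) (nat_lit 214) (nat_lit 212))) (XT.nd (nat_lit 78) (nat_lit 0) (nat_lit 0) (XT.lf (nat_lit 0) (nat_lit 7463370183) (nat_lit 76) (nat_lit 8092525390) (nat_lit 76) (nat_lit 6995999142) (nat_lit 7) (nat_lit 4) (nat_lit 8) (nat_lit 5) (nat_lit 8) (nat_lit 4) (nat_lit 295) (nat_lit 214) (nat_lit 211)) (XT.nd (nat_lit 78) (nat_lit 0) (nat_lit 0) (XT.lf (nat_lit 0) (nat_lit 14081348367) (nat_lit 76) (nat_lit 5421219033) (nat_lit 76) (nat_lit 3993428482) (nat_lit 7) (nat_lit 4) (nat_lit 8) (nat_lit 5) (nat_lit 8) (nat_lit 4) (nat_lit 296) (nat_lit 214) (nat_lit 210)) (XT.lf (nat_lit 0) (nat_lit 20843543113) (nat_lit 76) (nat_lit 2696262356) (nat_lit 76) (nat_lit 952981995) (nat_lit 7) (nat_lit 4) (nat_lit 8) (nat_lit 5) (nat_lit 8) (nat_lit 4) (nat_lit 297) (nat_lit 214) (nat_lit 209))))))))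
noncomputable def xc39 : XT := (XT.nd (nat_lit 1404) (nat_lit 76) (nat_lit 0) (XT.nd (nat_lit 702) (nat_lit 152) (nat_lit 0) (XT.nd (nat_lit 312) (nat_lit 76) (nat_lit 0) (XT.nd (nat_lit 156) (nat_lit 0) (nat_lit 0) (XT.nd (nat_lit 78) (nat_lit 0) (nat_lit 0) (XT.lf (nat_lit 0) (nat_lit 2102127135) (nat_lit 152) (nat_lit 23283259122) (nat_lit 0) (nat_lit 155701565) (nat_lit 5) (nat_lit 5) (nat_lit 7) (nat_lit 4) (nat_lit 5) (nat_lit 4) (nat_lit 298) (nat_lit 214) (nat_lit 208)) (XT.lf (nat_lit 0) (nat_lit 5282434309) (nat_lit 152) (nat_lit 18295014500) (nat_lit 0) (nat_lit 3063476778) (nat_lit 5) (nat_lit 5) (nat_lit 7) (nat_lit 4) (nat_lit 5) (nat_lit 4) (nat_lit 299) (nat_lit 214) (nat_lit 207))) (XT.nd (nat_lit 78) (nat_lit 0) (nat_lit 0) (XT.lf (nat_lit 0) (nat_lit 8524093173) (nat_lit 152) (nat_lit 13231084786) (nat_lit 0) (nat_lit 6045581393) (nat_lit 5) (nat_lit 5) (nat_lit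 7) (nat_lit 4) (nat_lit 5) (nat_lit 4) (nat_lit 300) (nat_lit 214) (nat_lit 206)) (XT.lf (nat_lit 0) (nat_lit 11834821963) (nat_lit 152) (nat_lit 8079413006) (nat_lit 0) (nat_lit 9109115660) (nat_lit 5) (nat_lit 5) (nat_lit 7) (nat_lit 4) (nat_lit 5) (nat_lit 4) (nat_lit 301) (nat_lit 214) (nat_lit 205)))) (XT.nd (nat_lit 156) (nat_lit 0) (nat_lit 0) (XT.nd (nat_lit 78) (nat_lit 76) (nat_lit 0) (XT.lf (nat_lit 0) (nat_lit 15222503365) (nat_lit 152) (nat_lit 2827733274) (nat_lit 0) (nat_lit 12261373707) (nat_lit 5) (nat_lit 5) (nat_lit 7) (nat_lit 4) (nat_lit 5) (nat_lit 4) (nat_lit 302) (nat_lit 214) (nat_lit 204)) (XT.lf (nat_lit 0) (nat_lit 2620325179) (nat_lit 76) (nat_lit 16115788728) (nat_lit 76) (nat_lit 12930446351) (nat_lit 4) (nat_lit 4) (nat_lit 5) (nat_lit 5) (nat_lit 5) (nat_lit 4) (nat_lit 303) (nat_lit 214) (nat_lit 203))) (XT.nd (nat_lit 78) (nat_lit 0) (nat_lit 0) (XT.lf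 (nat_lit 0) (nat_lit 8291307550) (nat_lit 76) (nat_lit 14099333060) (nat_lit 76) (nat_lit 10700454761) (nat_lit 4) (nat_lit 4) (nat_lit 5) (nat_lit 5) (nat_lit 5) (nat_lit 4) (nat_lit 304) (nat_lit 214) (nat_lit 202)) (XT.nd (nat_lit 78) (nat_lit 0) (nat_lit 0) (XT.lf (nat_lit 0) (nat_lit 14105218547) (nat_lit 76) (nat_lit 12043957583) (nat_lit 76) (nat_lit 8441711738) (nat_lit 4) (nat_lit 4) (nat_lit 5) (nat_lit 5) (nat_lit 5) (nat_lit 4) (nat_lit 305) (nat_lit 214) (nat_lit 201)) (XT.lf (nat_lit 0) (nat_lit 20075900814) (nat_lit 76) (nat_lit 9944768544) (nat_lit 76) (nat_lit 6148839323) (nat_lit 4) (nat_lit 4) (nat_lit 5) (nat_lit 5) (nat_lit 5) (nat_lit 4) (nat_lit 306) (nat_lit 214) (nat_lit 200)))))) (XT.nd (nat_lit 312) (nat_lit 0) (nat_lit 0) (XT.nd (nat_lit 156) (nat_lit 152) (nat_lit 0) (XT.nd (nat_lit 78) (nat_lit 0) (nat_lit 0) (XT.lf (nat_lit 0) (nat_lit 26217570260) (nat_lit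 76) (nat_lit 7796767876) (nat_lit 76) (nat_lit 3816378296) (nat_lit 4) (nat_lit 4) (nat_lit 5) (nat_lit 5) (nat_lit 5) (nat_lit 4) (nat_lit 307) (nat_lit 214) (nat_lit 199)) (XT.lf (nat_lit 0) (nat_lit 32544849910) (nat_lit 76) (nat_lit 5594841290) (nat_lit 76) (nat_lit 1438775178) (nat_lit 4) (nat_lit 4) (nat_lit 5) (nat_lit 5) (nat_lit 5) (nat_lit 4) (nat_lit 308) (nat_lit 214) (nat_lit 198))) (XT.nd (nat_lit 78) (nat_lit 76) (nat_lit 0) (XT.lf (nat_lit 0) (nat_lit 957956617) (nat_lit 152) (nat_lit 2359566028) (nat_lit 76) (nat_lit 38098624637) (nat_lit 3) (nat_lit 5) (nat_lit 5) (nat_lit 5) (nat_lit 4) (nat_lit 4) (nat_lit 309) (nat_lit 214) (nat_lit 197)) (XT.lf (nat_lit 0) (nat_lit 2492035476) (nat_lit 76) (nat_lit 910284701) (nat_lit 152) (nat_lit 39943476062) (nat_lit 2) (nat_lit 5) (nat_lit 3) (nat_lit 5) (nat_lit 4) (nat_lit 4) (nat_lit 310) (nat_lit 214) (nat_lit 196))))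 (XT.nd (nat_lit 156) (nat_lit 0) (nat_lit 0) (XT.nd (nat_lit 78) (nat_lit 0) (nat_lit 0) (XT.lf (nat_lit 0) (nat_lit 5972505873) (nat_lit 152) (nat_lit 37840590545) (nat_lit 0) (nat_lit 1558718366) (nat_lit 2) (nat_lit 5) (nat_lit 4) (nat_lit 4) (nat_lit 2) (nat_lit 4) (nat_lit 311) (nat_lit 214) (nat_lit 195)) (XT.lf (nat_lit 0) (nat_lit 8626826081) (nat_lit 152) (nat_lit 34799199631) (nat_lit 0) (nat_lit 4075391415) (nat_lit 2) (nat_lit 5) (nat_lit 4) (nat_lit 4) (nat_lit 2) (nat_lit 4) (nat_lit 312) (nat_lit 214) (nat_lit 194))) (XT.nd (nat_lit 78) (nat_lit 0) (nat_lit 0) (XT.lf (nat_lit 0) (nat_lit 11357388516) (nat_lit 152) (nat_lit 31708134519) (nat_lit 0) (nat_lit 6674861317) (nat_lit 2) (nat_lit 5) (nat_lit 4) (nat_lit 4) (nat_lit 2) (nat_lit 4) (nat_lit 313) (nat_lit 214) (nat_lit 193)) (XT.nd (nat_lit 78) (nat_lit 0) (nat_lit 0) (XT.lf (nat_lit 0) (nat_lit 14170694518) (nat_lit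 152) (nat_lit 28560035530) (nat_lit 0) (nat_lit 9363317287) (nat_lit 2) (nat_lit 5) (nat_lit 4) (nat_lit 4) (nat_lit 2) (nat_lit 4) (nat_lit 314) (nat_lit 214) (nat_lit 192)) (XT.lf (nat_lit 0) (nat_lit 17073442433) (nat_lit 152) (nat_lit 25347407191) (nat_lit 0) (nat_lit 12147160410) (nat_lit 2) (nat_lit 5) (nat_lit 4) (nat_lit 4) (nat_lit 2) (nat_lit 4) (nat_lit 315) (nat_lit 214) (nat_lit 191))))))) (XT.nd (nat_lit 702) (nat_lit 0) (nat_lit 0) (XT.nd (nat_lit 312) (nat_lit 76) (nat_lit 0) (XT.nd (nat_lit 156) (nat_lit 0) (nat_lit 0) (XT.nd (nat_lit 78) (nat_lit 0) (nat_lit 0) (XT.lf (nat_lit 0) (nat_lit 20072543568) (nat_lit 152) (nat_lit 22062600386) (nat_lit 0) (nat_lit 15033018886) (nat_lit 2) (nat_lit 5) (nat_lit 4) (nat_lit 4) (nat_lit 2) (nat_lit 4) (nat_lit 316) (nat_lit 214) (nat_lit 190)) (XT.lf (nat_lit 0) (nat_lit 23175138637) (nat_lit 152) (nat_lit 18697794148) (nat_lit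 0) (nat_lit 18027763804) (nat_lit 2) (nat_lit 5) (nat_lit 4) (nat_lit 4) (nat_lit 2) (nat_lit 4) (nat_lit 317) (nat_lit 214) (nat_lit 189))) (XT.nd (nat_lit 78) (nat_lit 0) (nat_lit 0) (XT.lf (nat_lit 0) (nat_lit 26388614774) (nat_lit 152) (nat_lit 15244977032) (nat_lit 0) (nat_lit 21138525511) (nat_lit 2) (nat_lit 5) (nat_lit 4) (nat_lit 4) (nat_lit 2) (nat_lit 4) (nat_lit 318) (nat_lit 214) (nat_lit 188)) (XT.lf (nat_lit 0) (nat_lit 29720623111) (nat_lit 152) (nat_lit 11695928045) (nat_lit 0) (nat_lit 24372710581) (nat_lit 2) (nat_lit 5) (nat_lit 4) (nat_lit 4) (nat_lit 2) (nat_lit 4) (nat_lit 319) (nat_lit 214) (nat_lit 187)))) (XT.nd (nat_lit 156) (nat_lit 76) (nat_lit 0) (XT.nd (nat_lit 78) (nat_lit 0) (nat_lit 0) (XT.lf (nat_lit 0) (nat_lit 33179097001) (nat_lit 152) (nat_lit 8042197071) (nat_lit 0) (nat_lit 27738019456) (nat_lit 2) (nat_lit 5) (nat_lit 4) (nat_lit 4) (nat_lit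 2) (nat_lit 4) (nat_lit 320) (nat_lit 214) (nat_lit 186)) (XT.lf (nat_lit 0) (nat_lit 36772270907) (nat_lit 152) (nat_lit 4275084750) (nat_lit 0) (nat_lit 31242464775) (nat_lit 2) (nat_lit 5) (nat_lit 4) (nat_lit 4) (nat_lit 2) (nat_lit 4) (nat_lit 321) (nat_lit 214) (nat_lit 185))) (XT.nd (nat_lit 78) (nat_lit 76) (nat_lit 0) (XT.lf (nat_lit 0) (nat_lit 40508700004) (nat_lit 152) (nat_lit 385621768) (nat_lit 0) (nat_lit 34894390456) (nat_lit 2) (nat_lit 5) (nat_lit 4) (nat_lit 4) (nat_lit 2) (nat_lit 4) (nat_lit 322) (nat_lit 214) (nat_lit 184)) (XT.nd (nat_lit 78) (nat_lit 0) (nat_lit 0) (XT.lf (nat_lit 0) (nat_lit 3755656979) (nat_lit 76) (nat_lit 40700259902) (nat_lit 76) (nat_lit 35005470911) (nat_lit 1) (nat_lit 4) (nat_lit 2) (nat_lit 5) (nat_lit 2) (nat_lit 4) (nat_lit 323) (nat_lit 214) (nat_lit 183)) (XT.lf (nat_lit 0) (nat_lit 8055539622) (nat_lit 76) (nat_lit 40517501002)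 (nat_lit 76) (nat_lit 34746064921) (nat_lit 1) (nat_lit 4) (nat_lit 2) (nat_lit 5) (nat_lit 2) (nat_lit 4) (nat_lit 324) (nat_lit 214) (nat_lit 182)))))) (XT.nd (nat_lit 390) (nat_lit 0) (nat_lit 0) (XT.nd (nat_lit 156) (nat_lit 0) (nat_lit 0) (XT.nd (nat_lit 78) (nat_lit 0) (nat_lit 0) (XT.lf (nat_lit 0) (nat_lit 12511513577) (nat_lit 76) (nat_lit 40352140622) (nat_lit 76) (nat_lit 34507707314) (nat_lit 1) (nat_lit 4) (nat_lit 2) (nat_lit 5) (nat_lit 2) (nat_lit 4) (nat_lit 325) (nat_lit 214) (nat_lit 181)) (XT.lf (nat_lit 0) (nat_lit 17134188307) (nat_lit 76) (nat_lit 40203785048) (nat_lit 76) (nat_lit 34289830570) (nat_lit 1) (nat_lit 4) (nat_lit 2) (nat_lit 5) (nat_lit 2) (nat_lit 4) (nat_lit 326) (nat_lit 214) (nat_lit 180))) (XT.nd (nat_lit 78) (nat_lit 0) (nat_lit 0) (XT.lf (nat_lit 0) (nat_lit 21934570180) (nat_lit 76) (nat_lit 40072081051) (nat_lit 76) (nat_lit 34091915936)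 (nat_lit 1) (nat_lit 4) (nat_lit 2) (nat_lit 5) (nat_lit 2) (nat_lit 4) (nat_lit 327) (nat_lit 214) (nat_lit 179)) (XT.nd (nat_lit 78) (nat_lit 0) (nat_lit 0) (XT.lf (nat_lit 0) (nat_lit 26924088677) (nat_lit 76) (nat_lit 39956715051) (nat_lit 76) (nat_lit 33913492187) (nat_lit 1) (nat_lit 4) (nat_lit 2) (nat_lit 5) (nat_lit 2) (nat_lit 4) (nat_lit 328) (nat_lit 214) (nat_lit 178)) (XT.lf (nat_lit 0) (nat_lit 32114623604) (nat_lit 76) (nat_lit 39857412368) (nat_lit 76) (nat_lit 33754134503) (nat_lit 1) (nat_lit 4) (nat_lit 2) (nat_lit 5) (nat_lit 2) (nat_lit 4) (nat_lit 329) (nat_lit 214) (nat_lit 177))))) (XT.nd (nat_lit 156) (nat_lit 0) (nat_lit 0) (XT.nd (nat_lit 78) (nat_lit 0) (nat_lit 0) (XT.lf (nat_lit 0) (nat_lit 37518533376) (nat_lit 76) (nat_lit 39773936565) (nat_lit 76) (nat_lit 33613463463) (nat_lit 1) (nat_lit 4) (nat_lit 2) (nat_lit 5) (nat_lit 2) (nat_lit 4) (nat_lit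 330) (nat_lit 214) (nat_lit 176)) (XT.lf (nat_lit 0) (nat_lit 43148684447) (nat_lit 76) (nat_lit 39706088891) (nat_lit 76) (nat_lit 33491144134) (nat_lit 1) (nat_lit 4) (nat_lit 2) (nat_lit 5) (nat_lit 2) (nat_lit 4) (nat_lit 331) (nat_lit 214) (nat_lit 175))) (XT.nd (nat_lit 78) (nat_lit 0) (nat_lit 0) (XT.lf (nat_lit 0) (nat_lit 49018481937) (nat_lit 76) (nat_lit 39653707804) (nat_lit 76) (nat_lit 33386885280) (nat_lit 1) (nat_lit 4) (nat_lit 2) (nat_lit 5) (nat_lit 2) (nat_lit 4) (nat_lit 332) (nat_lit 214) (nat_lit 174)) (XT.nd (nat_lit 78) (nat_lit 0) (nat_lit 0) (XT.lf (nat_lit 0) (nat_lit 55141901556) (nat_lit 76) (nat_lit 39616668587) (nat_lit 76) (nat_lit 33300438666) (nat_lit 1) (nat_lit 4) (nat_lit 2) (nat_lit 5) (nat_lit 2) (nat_lit 4) (nat_lit 333) (nat_lit 214) (nat_lit 173)) (XT.lf (nat_lit 0) (nat_lit 61533522872) (nat_lit 76) (nat_lit 39594883052) (nat_lit 76) (nat_lit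 33231598467) (nat_lit 1) (nat_lit 4) (nat_lit 2) (nat_lit 5) (nat_lit 2) (nat_lit 4) (nat_lit 334) (nat_lit 214) (nat_lit 172))))))))
noncomputable def xc40 : XT := (XT.nd (nat_lit 1404) (nat_lit 0) (nat_lit 0) (XT.nd (nat_lit 702) (nat_lit 0) (nat_lit 0) (XT.nd (nat_lit 312) (nat_lit 0) (nat_lit 0) (XT.nd (nat_lit 156) (nat_lit 0) (nat_lit 0) (XT.nd (nat_lit 78) (nat_lit 0) (nat_lit 0) (XT.lf (nat_lit 0) (nat_lit 68208564033) (nat_lit 76) (nat_lit 39588299328) (nat_lit 76) (nat_lit 33180200778) (nat_lit 1) (nat_lit 4) (nat_lit 2) (nat_lit 5) (nat_lit 2) (nat_lit 4) (nat_lit 335) (nat_lit 214) (nat_lit 171)) (XT.lf (nat_lit 0) (nat_lit 75182917994) (nat_lit 76) (nat_lit 39596901740) (nat_lit 76) (nat_lit 33146123222) (nat_lit 1) (nat_lit 4) (nat_lit 2) (nat_lit 5) (nat_lit 2) (nat_lit 4) (nat_lit 336) (nat_lit 214) (nat_lit 170))) (XT.nd (nat_lit 78) (nat_lit 0) (nat_lit 0) (XT.lf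 (nat_lit 0) (nat_lit 82473190359) (nat_lit 76) (nat_lit 39620710769) (nat_lit 76) (nat_lit 33129284663) (nat_lit 1) (nat_lit 4) (nat_lit 2) (nat_lit 5) (nat_lit 2) (nat_lit 4) (nat_lit 337) (nat_lit 214) (nat_lit 169)) (XT.lf (nat_lit 0) (nat_lit 90096738919) (nat_lit 76) (nat_lit 39659783104) (nat_lit 76) (nat_lit 33129645010) (nat_lit 1) (nat_lit 4) (nat_lit 2) (nat_lit 5) (nat_lit 2) (nat_lit 4) (nat_lit 338) (nat_lit 214) (nat_lit 168)))) (XT.nd (nat_lit 156) (nat_lit 0) (nat_lit 0) (XT.nd (nat_lit 78) (nat_lit 0) (nat_lit 0) (XT.lf (nat_lit 0) (nat_lit 98071714981) (nat_lit 76) (nat_lit 39714211774) (nat_lit 76) (nat_lit 33147205120) (nat_lit 1) (nat_lit 4) (nat_lit 2) (nat_lit 5) (nat_lit 2) (nat_lit 4) (nat_lit 339) (nat_lit 214) (nat_lit 167)) (XT.lf (nat_lit 0) (nat_lit 106417106583) (nat_lit 76) (nat_lit 39784126371) (nat_lit 76) (nat_lit 33182006802) (nat_lit 1) (nat_lit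 4) (nat_lit 2) (nat_lit 5) (nat_lit 2) (nat_lit 4) (nat_lit 340) (nat_lit 214) (nat_lit 166))) (XT.nd (nat_lit 78) (nat_lit 0) (nat_lit 0) (XT.lf (nat_lit 0) (nat_lit 115152783705) (nat_lit 76) (nat_lit 39869693359) (nat_lit 76) (nat_lit 33234132919) (nat_lit 1) (nat_lit 4) (nat_lit 2) (nat_lit 5) (nat_lit 2) (nat_lit 4) (nat_lit 341) (nat_lit 214) (nat_lit 165)) (XT.nd (nat_lit 78) (nat_lit 0) (nat_lit 0) (XT.lf (nat_lit 0) (nat_lit 124299545578) (nat_lit 76) (nat_lit 39971116468) (nat_lit 76) (nat_lit 33303707579) (nat_lit 1) (nat_lit 4) (nat_lit 2) (nat_lit 5) (nat_lit 2) (nat_lit 4) (nat_lit 342) (nat_lit 214) (nat_lit 164)) (XT.lf (nat_lit 0) (nat_lit 133879170207) (nat_lit 76) (nat_lit 40088637182) (nat_lit 76) (nat_lit 33390896437) (nat_lit 1) (nat_lit 4) (nat_lit 2) (nat_lit 5) (nat_lit 2) (nat_lit 4) (nat_lit 343) (nat_lit 214) (nat_lit 163)))))) (XT.nd (nat_lit 312) (nat_lit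 0) (nat_lit 0) (XT.nd (nat_lit 156) (nat_lit 0) (nat_lit 0) (XT.nd (nat_lit 78) (nat_lit 0) (nat_lit 0) (XT.lf (nat_lit 0) (nat_lit 143914466221) (nat_lit 76) (nat_lit 40222535312) (nat_lit 76) (nat_lit 33495907086) (nat_lit 1) (nat_lit 4) (nat_lit 2) (nat_lit 5) (nat_lit 2) (nat_lit 4) (nat_lit 344) (nat_lit 214) (nat_lit 162)) (XT.lf (nat_lit 0) (nat_lit 154429327183) (nat_lit 76) (nat_lit 40373129664) (nat_lit 76) (nat_lit 33618989550) (nat_lit 1) (nat_lit 4) (nat_lit 2) (nat_lit 5) (nat_lit 2) (nat_lit 4) (nat_lit 345) (nat_lit 214) (nat_lit 161))) (XT.nd (nat_lit 78) (nat_lit 0) (nat_lit 0) (XT.lf (nat_lit 0) (nat_lit 165448788476) (nat_lit 76) (nat_lit 40540778795) (nat_lit 76) (nat_lit 33760436884) (nat_lit 1) (nat_lit 4) (nat_lit 2) (nat_lit 5) (nat_lit 2) (nat_lit 4) (nat_lit 346) (nat_lit 214) (nat_lit 160)) (XT.lf (nat_lit 0) (nat_lit 176999086912) (nat_lit 76) (nat_lit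 40725881870) (nat_lit 76) (nat_lit 33920585866) (nat_lit 1) (nat_lit 4) (nat_lit 2) (nat_lit 5) (nat_lit 2) (nat_lit 4) (nat_lit 347) (nat_lit 214) (nat_lit 159)))) (XT.nd (nat_lit 156) (nat_lit 0) (nat_lit 0) (XT.nd (nat_lit 78) (nat_lit 0) (nat_lit 0) (XT.lf (nat_lit 0) (nat_lit 189107723203) (nat_lit 76) (nat_lit 40928879610) (nat_lit 76) (nat_lit 34099817803) (nat_lit 1) (nat_lit 4) (nat_lit 2) (nat_lit 5) (nat_lit 2) (nat_lit 4) (nat_lit 348) (nat_lit 214) (nat_lit 158)) (XT.lf (nat_lit 0) (nat_lit 201803527433) (nat_lit 76) (nat_lit 41150255344) (nat_lit 76) (nat_lit 34298559439) (nat_lit 1) (nat_lit 4) (nat_lit 2) (nat_lit 5) (nat_lit 2) (nat_lit 4) (nat_lit 349) (nat_lit 214) (nat_lit 157))) (XT.nd (nat_lit 78) (nat_lit 0) (nat_lit 0) (XT.lf (nat_lit 0) (nat_lit 215116727710) (nat_lit 76) (nat_lit 41390536156) (nat_lit 76) (nat_lit 34517283968) (nat_lit 1) (nat_lit 4) (nat_lit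 2) (nat_lit 5) (nat_lit 2) (nat_lit 4) (nat_lit 350) (nat_lit 214) (nat_lit 156)) (XT.nd (nat_lit 78) (nat_lit 0) (nat_lit 0) (XT.lf (nat_lit 0) (nat_lit 229079022128) (nat_lit 76) (nat_lit 41650294144) (nat_lit 76) (nat_lit 34756512162) (nat_lit 1) (nat_lit 4) (nat_lit 2) (nat_lit 5) (nat_lit 2) (nat_lit 4) (nat_lit 351) (nat_lit 214) (nat_lit 155)) (XT.lf (nat_lit 0) (nat_lit 243723654246) (nat_lit 76) (nat_lit 41930147779) (nat_lit 76) (nat_lit 35016813612) (nat_lit 1) (nat_lit 4) (nat_lit 2) (nat_lit 5) (nat_lit 2) (nat_lit 4) (nat_lit 352) (nat_lit 214) (nat_lit 154))))))) (XT.nd (nat_lit 702) (nat_lit 0) (nat_lit 0) (XT.nd (nat_lit 312) (nat_lit 0) (nat_lit 0) (XT.nd (nat_lit 156) (nat_lit 0) (nat_lit 0) (XT.nd (nat_lit 78) (nat_lit 0) (nat_lit 0) (XT.lf (nat_lit 0) (nat_lit 259085492236) (nat_lit 76) (nat_lit 42230763379) (nat_lit 76) (nat_lit 35298808084) (nat_lit 1) (nat_lit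 4) (nat_lit 2) (nat_lit 5) (nat_lit 2) (nat_lit 4) (nat_lit 353) (nat_lit 214) (nat_lit 153)) (XT.lf (nat_lit 0) (nat_lit 275201111902) (nat_lit 76) (nat_lit 42552856696) (nat_lit 76) (nat_lit 35603166993) (nat_lit 1) (nat_lit 4) (nat_lit 2) (nat_lit 5) (nat_lit 2) (nat_lit 4) (nat_lit 354) (nat_lit 214) (nat_lit 152))) (XT.nd (nat_lit 78) (nat_lit 0) (nat_lit 0) (XT.lf (nat_lit 0) (nat_lit 292108883767) (nat_lit 76) (nat_lit 42897194619) (nat_lit 76) (nat_lit 35930615004) (nat_lit 1) (nat_lit 4) (nat_lit 2) (nat_lit 5) (nat_lit 2) (nat_lit 4) (nat_lit 355) (nat_lit 214) (nat_lit 151)) (XT.lf (nat_lit 0) (nat_lit 309849064431) (nat_lit 76) (nat_lit 43264596999) (nat_lit 76) (nat_lit 36281931753) (nat_lit 1) (nat_lit 4) (nat_lit 2) (nat_lit 5) (nat_lit 2) (nat_lit 4) (nat_lit 356) (nat_lit 214) (nat_lit 150)))) (XT.nd (nat_lit 156) (nat_lit 0) (nat_lit 0) (XT.nd (nat_lit 78) (nat_lit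 0) (nat_lit 0) (XT.lf (nat_lit 0) (nat_lit 328463892419) (nat_lit 76) (nat_lit 43655938605) (nat_lit 76) (nat_lit 36657953711) (nat_lit 1) (nat_lit 4) (nat_lit 2) (nat_lit 5) (nat_lit 2) (nat_lit 4) (nat_lit 357) (nat_lit 214) (nat_lit 149)) (XT.lf (nat_lit 0) (nat_lit 347997688751) (nat_lit 76) (nat_lit 44072151202) (nat_lit 76) (nat_lit 37059576166) (nat_lit 1) (nat_lit 4) (nat_lit 2) (nat_lit 5) (nat_lit 2) (nat_lit 4) (nat_lit 358) (nat_lit 214) (nat_lit 148))) (XT.nd (nat_lit 78) (nat_lit 0) (nat_lit 0) (XT.lf (nat_lit 0) (nat_lit 368496962464) (nat_lit 76) (nat_lit 44514225772) (nat_lit 76) (nat_lit 37487755364) (nat_lit 1) (nat_lit 4) (nat_lit 2) (nat_lit 5) (nat_lit 2) (nat_lit 4) (nat_lit 359) (nat_lit 214) (nat_lit 147)) (XT.nd (nat_lit 78) (nat_lit 0) (nat_lit 0) (XT.lf (nat_lit 0) (nat_lit 390010521355) (nat_lit 76) (nat_lit 44983214874) (nat_lit 76) (nat_lit 37943510777)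 (nat_lit 1) (nat_lit 4) (nat_lit 2) (nat_lit 5) (nat_lit 2) (nat_lit 4) (nat_lit 360) (nat_lit 214) (nat_lit 146)) (XT.lf (nat_lit 0) (nat_lit 412589588182) (nat_lit 76) (nat_lit 45480235149) (nat_lit 76) (nat_lit 38427927540) (nat_lit 1) (nat_lit 4) (nat_lit 2) (nat_lit 5) (nat_lit 2) (nat_lit 4) (nat_lit 361) (nat_lit 214) (nat_lit 145)))))) (XT.nd (nat_lit 312) (nat_lit 0) (nat_lit 0) (XT.nd (nat_lit 156) (nat_lit 0) (nat_lit 0) (XT.nd (nat_lit 78) (nat_lit 0) (nat_lit 0) (XT.lf (nat_lit 0) (nat_lit 436287922627) (nat_lit 76) (nat_lit 46006469978) (nat_lit 76) (nat_lit 38942159023) (nat_lit 1) (nat_lit 4) (nat_lit 2) (nat_lit 5) (nat_lit 2) (nat_lit 4) (nat_lit 362) (nat_lit 214) (nat_lit 144)) (XT.lf (nat_lit 0) (nat_lit 461161949298) (nat_lit 76) (nat_lit 46563172301) (nat_lit 76) (nat_lit 39487429589) (nat_lit 1) (nat_lit 4) (nat_lit 2) (nat_lit 5) (nat_lit 2) (nat_lit 4) (nat_lit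 363) (nat_lit 214) (nat_lit 143))) (XT.nd (nat_lit 78) (nat_lit 0) (nat_lit 0) (XT.lf (nat_lit 0) (nat_lit 487270892066) (nat_lit 76) (nat_lit 47151667600) (nat_lit 76) (nat_lit 40065037500) (nat_lit 1) (nat_lit 4) (nat_lit 2) (nat_lit 5) (nat_lit 2) (nat_lit 4) (nat_lit 364) (nat_lit 214) (nat_lit 142)) (XT.lf (nat_lit 0) (nat_lit 514676915081) (nat_lit 76) (nat_lit 47773357055) (nat_lit 76) (nat_lit 40676358014) (nat_lit 1) (nat_lit 4) (nat_lit 2) (nat_lit 5) (nat_lit 2) (nat_lit 4) (nat_lit 365) (nat_lit 214) (nat_lit 141)))) (XT.nd (nat_lit 31668) (nat_lit 0) (nat_lit 532) (XT.nd (nat_lit 31590) (nat_lit 0) (nat_lit 684) (XT.lf (nat_lit 0) (nat_lit 543445270780) (nat_lit 76) (nat_lit 48429720878) (nat_lit 76) (nat_lit 41322846655) (nat_lit 1) (nat_lit 4) (nat_lit 2) (nat_lit 5) (nat_lit 2) (nat_lit 4) (nat_lit 366) (nat_lit 214) (nat_lit 140)) (XT.lf (nat_lit 0) (nat_lit 6996560686)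 (nat_lit 152) (nat_lit 1131185811) (nat_lit 152) (nat_lit 1131185811) (nat_lit 10) (nat_lit 4) (nat_lit 12) (nat_lit 5) (nat_lit 12) (nat_lit 4) (nat_lit 290) (nat_lit 215) (nat_lit 215))) (XT.nd (nat_lit 78) (nat_lit 0) (nat_lit 0) (XT.lf (nat_lit 0) (nat_lit 1171468040) (nat_lit 152) (nat_lit 17304970530) (nat_lit 0) (nat_lit 768814211) (nat_lit 8) (nat_lit 5) (nat_lit 10) (nat_lit 4) (nat_lit 8) (nat_lit 4) (nat_lit 291) (nat_lit 215) (nat_lit 214)) (XT.nd (nat_lit 78) (nat_lit 0) (nat_lit 0) (XT.lf (nat_lit 0) (nat_lit 4689708527) (nat_lit 152) (nat_lit 11414614261) (nat_lit 0) (nat_lit 3903574860) (nat_lit 8) (nat_lit 5) (nat_lit 10) (nat_lit 4) (nat_lit 8) (nat_lit 4) (nat_lit 292) (nat_lit 215) (nat_lit 213)) (XT.lf (nat_lit 0) (nat_lit 8263638541) (nat_lit 152) (nat_lit 5438931520) (nat_lit 0) (nat_lit 7112285981) (nat_lit 8) (nat_lit 5) (nat_lit 10) (nat_lit 4) (nat_lit 8)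 (nat_lit 4) (nat_lit 293) (nat_lit 215) (nat_lit 212))))))))
noncomputable def xc41 : XT := (XT.nd (nat_lit 1404) (nat_lit 76) (nat_lit 0) (XT.nd (nat_lit 702) (nat_lit 228) (nat_lit 0) (XT.nd (nat_lit 312) (nat_lit 152) (nat_lit 0) (XT.nd (nat_lit 156) (nat_lit 0) (nat_lit 0) (XT.nd (nat_lit 78) (nat_lit 0) (nat_lit 0) (XT.lf (nat_lit 0) (nat_lit 657344640) (nat_lit 76) (nat_lit 11254685790) (nat_lit 76) (nat_lit 9755505713) (nat_lit 7) (nat_lit 4) (nat_lit 8) (nat_lit 5) (nat_lit 8) (nat_lit 4) (nat_lit 294) (nat_lit 215) (nat_lit 211)) (XT.lf (nat_lit 0) (nat_lit 7051245566) (nat_lit 76) (nat_lit 8671601571) (nat_lit 76) (nat_lit 6841157191) (nat_lit 7) (nat_lit 4) (nat_lit 8) (nat_lit 5) (nat_lit 8) (nat_lit 4) (nat_lit 295) (nat_lit 215) (nat_lit 210))) (XT.nd (nat_lit 78) (nat_lit 0) (nat_lit 0) (XT.lf (nat_lit 0) (nat_lit 13578159190) (nat_lit 76) (nat_lit 6039278139) (nat_lit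 76) (nat_lit 3893343948) (nat_lit 7) (nat_lit 4) (nat_lit 8) (nat_lit 5) (nat_lit 8) (nat_lit 4) (nat_lit 296) (nat_lit 215) (nat_lit 209)) (XT.lf (nat_lit 0) (nat_lit 20253625783) (nat_lit 76) (nat_lit 3351448060) (nat_lit 76) (nat_lit 905047382) (nat_lit 7) (nat_lit 4) (nat_lit 8) (nat_lit 5) (nat_lit 8) (nat_lit 4) (nat_lit 297) (nat_lit 215) (nat_lit 208)))) (XT.nd (nat_lit 156) (nat_lit 0) (nat_lit 0) (XT.nd (nat_lit 78) (nat_lit 0) (nat_lit 0) (XT.lf (nat_lit 0) (nat_lit 1545327388) (nat_lit 76) (nat_lit 541446575) (nat_lit 152) (nat_lit 23474759817) (nat_lit 5) (nat_lit 5) (nat_lit 6) (nat_lit 5) (nat_lit 7) (nat_lit 4) (nat_lit 298) (nat_lit 215) (nat_lit 207)) (XT.lf (nat_lit 0) (nat_lit 5210986825) (nat_lit 152) (nat_lit 19104253218) (nat_lit 0) (nat_lit 2348995208) (nat_lit 5) (nat_lit 5) (nat_lit 7) (nat_lit 4) (nat_lit 5) (nat_lit 4) (nat_lit 299) (nat_lit 215) (nat_lit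 206))) (XT.nd (nat_lit 78) (nat_lit 0) (nat_lit 0) (XT.lf (nat_lit 0) (nat_lit 8407273486) (nat_lit 152) (nat_lit 14121032977) (nat_lit 0) (nat_lit 5298087345) (nat_lit 5) (nat_lit 5) (nat_lit 7) (nat_lit 4) (nat_lit 5) (nat_lit 4) (nat_lit 300) (nat_lit 215) (nat_lit 205)) (XT.nd (nat_lit 78) (nat_lit 0) (nat_lit 0) (XT.lf (nat_lit 0) (nat_lit 11674790652) (nat_lit 152) (nat_lit 9046227361) (nat_lit 0) (nat_lit 8330181157) (nat_lit 5) (nat_lit 5) (nat_lit 7) (nat_lit 4) (nat_lit 5) (nat_lit 4) (nat_lit 301) (nat_lit 215) (nat_lit 204)) (XT.lf (nat_lit 0) (nat_lit 15021318127) (nat_lit 152) (nat_lit 3867753500) (nat_lit 0) (nat_lit 11452495913) (nat_lit 5) (nat_lit 5) (nat_lit 7) (nat_lit 4) (nat_lit 5) (nat_lit 4) (nat_lit 302) (nat_lit 215) (nat_lit 203)))))) (XT.nd (nat_lit 312) (nat_lit 152) (nat_lit 0) (XT.nd (nat_lit 156) (nat_lit 0) (nat_lit 0) (XT.nd (nat_lit 78) (nat_lit 0)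 (nat_lit 0) (XT.lf (nat_lit 0) (nat_lit 1473892056) (nat_lit 76) (nat_lit 17003943363) (nat_lit 76) (nat_lit 13221585226) (nat_lit 4) (nat_lit 4) (nat_lit 5) (nat_lit 5) (nat_lit 5) (nat_lit 4) (nat_lit 303) (nat_lit 215) (nat_lit 202)) (XT.lf (nat_lit 0) (nat_lit 7076279065) (nat_lit 76) (nat_lit 15017684268) (nat_lit 76) (nat_lit 11031958586) (nat_lit 4) (nat_lit 4) (nat_lit 5) (nat_lit 5) (nat_lit 5) (nat_lit 4) (nat_lit 304) (nat_lit 215) (nat_lit 201))) (XT.nd (nat_lit 78) (nat_lit 0) (nat_lit 0) (XT.lf (nat_lit 0) (nat_lit 12824861145) (nat_lit 76) (nat_lit 12991067431) (nat_lit 76) (nat_lit 8811658372) (nat_lit 4) (nat_lit 4) (nat_lit 5) (nat_lit 5) (nat_lit 5) (nat_lit 4) (nat_lit 305) (nat_lit 215) (nat_lit 200)) (XT.lf (nat_lit 0) (nat_lit 18733325395) (nat_lit 76) (nat_lit 10919267574) (nat_lit 76) (nat_lit 6555398157) (nat_lit 4) (nat_lit 4) (nat_lit 5) (nat_lit 5) (nat_lit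 5) (nat_lit 4) (nat_lit 306) (nat_lit 215) (nat_lit 199)))) (XT.nd (nat_lit 156) (nat_lit 152) (nat_lit 0) (XT.nd (nat_lit 78) (nat_lit 0) (nat_lit 0) (XT.lf (nat_lit 0) (nat_lit 24815739588) (nat_lit 76) (nat_lit 8797351841) (nat_lit 76) (nat_lit 4257805891) (nat_lit 4) (nat_lit 4) (nat_lit 5) (nat_lit 5) (nat_lit 5) (nat_lit 4) (nat_lit 307) (nat_lit 215) (nat_lit 198)) (XT.lf (nat_lit 0) (nat_lit 31086585663) (nat_lit 76) (nat_lit 6620268050) (nat_lit 76) (nat_lit 1913411117) (nat_lit 4) (nat_lit 4) (nat_lit 5) (nat_lit 5) (nat_lit 5) (nat_lit 4) (nat_lit 308) (nat_lit 215) (nat_lit 197))) (XT.nd (nat_lit 78) (nat_lit 76) (nat_lit 0) (XT.lf (nat_lit 0) (nat_lit 467897259) (nat_lit 152) (nat_lit 3907011343) (nat_lit 76) (nat_lit 37084972878) (nat_lit 3) (nat_lit 5) (nat_lit 5) (nat_lit 5) (nat_lit 4) (nat_lit 4) (nat_lit 309) (nat_lit 215) (nat_lit 196)) (XT.nd (nat_lit 78) (nat_lit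 0) (nat_lit 0) (XT.lf (nat_lit 0) (nat_lit 839515376) (nat_lit 76) (nat_lit 2017788084) (nat_lit 152) (nat_lit 40535007693) (nat_lit 2) (nat_lit 5) (nat_lit 3) (nat_lit 5) (nat_lit 4) (nat_lit 4) (nat_lit 310) (nat_lit 215) (nat_lit 195)) (XT.lf (nat_lit 0) (nat_lit 5381272329) (nat_lit 152) (nat_lit 39574780725) (nat_lit 0) (nat_lit 464618769) (nat_lit 2) (nat_lit 5) (nat_lit 4) (nat_lit 4) (nat_lit 2) (nat_lit 4) (nat_lit 311) (nat_lit 215) (nat_lit 194))))))) (XT.nd (nat_lit 702) (nat_lit 76) (nat_lit 0) (XT.nd (nat_lit 312) (nat_lit 0) (nat_lit 0) (XT.nd (nat_lit 156) (nat_lit 0) (nat_lit 0) (XT.nd (nat_lit 78) (nat_lit 0) (nat_lit 0) (XT.lf (nat_lit 0) (nat_lit 8008044350) (nat_lit 152) (nat_lit 36583338761) (nat_lit 0) (nat_lit 2960298257) (nat_lit 2) (nat_lit 5) (nat_lit 4) (nat_lit 4) (nat_lit 2) (nat_lit 4) (nat_lit 312) (nat_lit 215) (nat_lit 193)) (XT.lf (nat_lit 0) (nat_lit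 10712370417) (nat_lit 152) (nat_lit 33539844078) (nat_lit 0) (nat_lit 5539774292) (nat_lit 2) (nat_lit 5) (nat_lit 4) (nat_lit 4) (nat_lit 2) (nat_lit 4) (nat_lit 313) (nat_lit 215) (nat_lit 192))) (XT.nd (nat_lit 78) (nat_lit 0) (nat_lit 0) (XT.lf (nat_lit 0) (nat_lit 13500689401) (nat_lit 152) (nat_lit 30437050259) (nat_lit 0) (nat_lit 8209188485) (nat_lit 2) (nat_lit 5) (nat_lit 4) (nat_lit 4) (nat_lit 2) (nat_lit 4) (nat_lit 314) (nat_lit 215) (nat_lit 191)) (XT.lf (nat_lit 0) (nat_lit 16379640157) (nat_lit 152) (nat_lit 27267569702) (nat_lit 0) (nat_lit 10974896582) (nat_lit 2) (nat_lit 5) (nat_lit 4) (nat_lit 4) (nat_lit 2) (nat_lit 4) (nat_lit 315) (nat_lit 215) (nat_lit 190)))) (XT.nd (nat_lit 156) (nat_lit 0) (nat_lit 0) (XT.nd (nat_lit 78) (nat_lit 0) (nat_lit 0) (XT.lf (nat_lit 0) (nat_lit 19356077329) (nat_lit 152) (nat_lit 24023856022) (nat_lit 0) (nat_lit 13843483603)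 (nat_lit 2) (nat_lit 5) (nat_lit 4) (nat_lit 4) (nat_lit 2) (nat_lit 4) (nat_lit 316) (nat_lit 215) (nat_lit 189)) (XT.lf (nat_lit 0) (nat_lit 22437087674) (nat_lit 152) (nat_lit 20698186093) (nat_lit 0) (nat_lit 16821779518) (nat_lit 2) (nat_lit 5) (nat_lit 4) (nat_lit 4) (nat_lit 2) (nat_lit 4) (nat_lit 317) (nat_lit 215) (nat_lit 188))) (XT.nd (nat_lit 78) (nat_lit 0) (nat_lit 0) (XT.lf (nat_lit 0) (nat_lit 25630006929) (nat_lit 152) (nat_lit 17282641652) (nat_lit 0) (nat_lit 19916875506) (nat_lit 2) (nat_lit 5) (nat_lit 4) (nat_lit 4) (nat_lit 2) (nat_lit 4) (nat_lit 318) (nat_lit 215) (nat_lit 187)) (XT.nd (nat_lit 78) (nat_lit 0) (nat_lit 0) (XT.lf (nat_lit 0) (nat_lit 28942437284) (nat_lit 152) (nat_lit 13769090452) (nat_lit 0) (nat_lit 23136140845) (nat_lit 2) (nat_lit 5) (nat_lit 4) (nat_lit 4) (nat_lit 2) (nat_lit 4) (nat_lit 319) (nat_lit 215) (nat_lit 186)) (XT.lf (nat_lit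 0) (nat_lit 32382265477) (nat_lit 152) (nat_lit 10149166894) (nat_lit 0) (nat_lit 26487240452) (nat_lit 2) (nat_lit 5) (nat_lit 4) (nat_lit 4) (nat_lit 2) (nat_lit 4) (nat_lit 320) (nat_lit 215) (nat_lit 185)))))) (XT.nd (nat_lit 312) (nat_lit 0) (nat_lit 0) (XT.nd (nat_lit 156) (nat_lit 76) (nat_lit 0) (XT.nd (nat_lit 78) (nat_lit 0) (nat_lit 0) (XT.lf (nat_lit 0) (nat_lit 35957681576) (nat_lit 152) (nat_lit 6414252112) (nat_lit 0) (nat_lit 29978153135) (nat_lit 2) (nat_lit 5) (nat_lit 4) (nat_lit 4) (nat_lit 2) (nat_lit 4) (nat_lit 321) (nat_lit 215) (nat_lit 184)) (XT.lf (nat_lit 0) (nat_lit 39677198476) (nat_lit 152) (nat_lit 2555453452) (nat_lit 0) (nat_lit 33617190591) (nat_lit 2) (nat_lit 5) (nat_lit 4) (nat_lit 4) (nat_lit 2) (nat_lit 4) (nat_lit 322) (nat_lit 215) (nat_lit 183))) (XT.nd (nat_lit 78) (nat_lit 0) (nat_lit 0) (XT.lf (nat_lit 0) (nat_lit 1483911124) (nat_lit 76)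 (nat_lit 42088929056) (nat_lit 76) (nat_lit 35952274082) (nat_lit 1) (nat_lit 4) (nat_lit 2) (nat_lit 5) (nat_lit 2) (nat_lit 4) (nat_lit 323) (nat_lit 215) (nat_lit 182)) (XT.lf (nat_lit 0) (nat_lit 5755060684) (nat_lit 76) (nat_lit 41919114773) (nat_lit 76) (nat_lit 35709462572) (nat_lit 1) (nat_lit 4) (nat_lit 2) (nat_lit 5) (nat_lit 2) (nat_lit 4) (nat_lit 324) (nat_lit 215) (nat_lit 181)))) (XT.nd (nat_lit 156) (nat_lit 0) (nat_lit 0) (XT.nd (nat_lit 78) (nat_lit 0) (nat_lit 0) (XT.lf (nat_lit 0) (nat_lit 10183669799) (nat_lit 76) (nat_lit 41766082600) (nat_lit 76) (nat_lit 35486909230) (nat_lit 1) (nat_lit 4) (nat_lit 2) (nat_lit 5) (nat_lit 2) (nat_lit 4) (nat_lit 325) (nat_lit 215) (nat_lit 180)) (XT.lf (nat_lit 0) (nat_lit 14780282776) (nat_lit 76) (nat_lit 41629468175) (nat_lit 76) (nat_lit 35284084167) (nat_lit 1) (nat_lit 4) (nat_lit 2) (nat_lit 5) (nat_lit 2) (nat_lit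 4) (nat_lit 326) (nat_lit 215) (nat_lit 179))) (XT.nd (nat_lit 78) (nat_lit 0) (nat_lit 0) (XT.lf (nat_lit 0) (nat_lit 19555843932) (nat_lit 76) (nat_lit 41508946226) (nat_lit 76) (nat_lit 35100504468) (nat_lit 1) (nat_lit 4) (nat_lit 2) (nat_lit 5) (nat_lit 2) (nat_lit 4) (nat_lit 327) (nat_lit 215) (nat_lit 178)) (XT.nd (nat_lit 78) (nat_lit 0) (nat_lit 0) (XT.lf (nat_lit 0) (nat_lit 24521723651) (nat_lit 76) (nat_lit 41404229795) (nat_lit 76) (nat_lit 34935733037) (nat_lit 1) (nat_lit 4) (nat_lit 2) (nat_lit 5) (nat_lit 2) (nat_lit 4) (nat_lit 328) (nat_lit 215) (nat_lit 177)) (XT.lf (nat_lit 0) (nat_lit 29689745455) (nat_lit 76) (nat_lit 41315069557) (nat_lit 76) (nat_lit 34789377562) (nat_lit 1) (nat_lit 4) (nat_lit 2) (nat_lit 5) (nat_lit 2) (nat_lit 4) (nat_lit 329) (nat_lit 215) (nat_lit 176))))))))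
noncomputable def xc42 : XT := (XT.nd (nat_lit 1404) (nat_lit 0) (nat_lit 0) (XT.nd (nat_lit 702) (nat_lit 0) (nat_lit 0) (XT.nd (nat_lit 312) (nat_lit 0) (nat_lit 0) (XT.nd (nat_lit 156) (nat_lit 0) (nat_lit 0) (XT.nd (nat_lit 78) (nat_lit 0) (nat_lit 0) (XT.lf (nat_lit 0) (nat_lit 35072214159) (nat_lit 76) (nat_lit 41241253227) (nat_lit 76) (nat_lit 34661089577) (nat_lit 1) (nat_lit 4) (nat_lit 2) (nat_lit 5) (nat_lit 2) (nat_lit 4) (nat_lit 330) (nat_lit 215) (nat_lit 175)) (XT.lf (nat_lit 0) (nat_lit 40681945165) (nat_lit 76) (nat_lit 41182605051) (nat_lit 76) (nat_lit 34550563634) (nat_lit 1) (nat_lit 4) (nat_lit 2) (nat_lit 5) (nat_lit 2) (nat_lit 4) (nat_lit 331) (nat_lit 215) (nat_lit 174))) (XT.nd (nat_lit 78) (nat_lit 0) (nat_lit 0) (XT.lf (nat_lit 0) (nat_lit 46532294974) (nat_lit 76) (nat_lit 41138985391) (nat_lit 76) (nat_lit 34457536577) (nat_lit 1) (nat_lit 4) (nat_lit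 2) (nat_lit 5) (nat_lit 2) (nat_lit 4) (nat_lit 332) (nat_lit 215) (nat_lit 173)) (XT.lf (nat_lit 0) (nat_lit 52637192991) (nat_lit 76) (nat_lit 41110290390) (nat_lit 76) (nat_lit 34381786912) (nat_lit 1) (nat_lit 4) (nat_lit 2) (nat_lit 5) (nat_lit 2) (nat_lit 4) (nat_lit 333) (nat_lit 215) (nat_lit 172)))) (XT.nd (nat_lit 156) (nat_lit 0) (nat_lit 0) (XT.nd (nat_lit 78) (nat_lit 0) (nat_lit 0) (XT.lf (nat_lit 0) (nat_lit 59011174687) (nat_lit 76) (nat_lit 41096451727) (nat_lit 76) (nat_lit 34323134284) (nat_lit 1) (nat_lit 4) (nat_lit 2) (nat_lit 5) (nat_lit 2) (nat_lit 4) (nat_lit 334) (nat_lit 215) (nat_lit 171)) (XT.lf (nat_lit 0) (nat_lit 65669416210) (nat_lit 76) (nat_lit 41097436453) (nat_lit 76) (nat_lit 34281439042) (nat_lit 1) (nat_lit 4) (nat_lit 2) (nat_lit 5) (nat_lit 2) (nat_lit 4) (nat_lit 335) (nat_lit 215) (nat_lit 170))) (XT.nd (nat_lit 78) (nat_lit 0) (nat_lit 0)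 (XT.lf (nat_lit 0) (nat_lit 72627770515) (nat_lit 76) (nat_lit 41113246912) (nat_lit 76) (nat_lit 34256601913) (nat_lit 1) (nat_lit 4) (nat_lit 2) (nat_lit 5) (nat_lit 2) (nat_lit 4) (nat_lit 336) (nat_lit 215) (nat_lit 169)) (XT.nd (nat_lit 78) (nat_lit 0) (nat_lit 0) (XT.lf (nat_lit 0) (nat_lit 79902805112) (nat_lit 76) (nat_lit 41143920748) (nat_lit 76) (nat_lit 34248563761) (nat_lit 1) (nat_lit 4) (nat_lit 2) (nat_lit 5) (nat_lit 2) (nat_lit 4) (nat_lit 337) (nat_lit 215) (nat_lit 168)) (XT.lf (nat_lit 0) (nat_lit 87511841514) (nat_lit 76) (nat_lit 41189530994) (nat_lit 76) (nat_lit 34257305447) (nat_lit 1) (nat_lit 4) (nat_lit 2) (nat_lit 5) (nat_lit 2) (nat_lit 4) (nat_lit 338) (nat_lit 215) (nat_lit 167)))))) (XT.nd (nat_lit 312) (nat_lit 0) (nat_lit 0) (XT.nd (nat_lit 156) (nat_lit 0) (nat_lit 0) (XT.nd (nat_lit 78) (nat_lit 0) (nat_lit 0) (XT.lf (nat_lit 0) (nat_lit 95472996472)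 (nat_lit 76) (nat_lit 41250186246) (nat_lit 76) (nat_lit 34282847784) (nat_lit 1) (nat_lit 4) (nat_lit 2) (nat_lit 5) (nat_lit 2) (nat_lit 4) (nat_lit 339) (nat_lit 215) (nat_lit 166)) (XT.lf (nat_lit 0) (nat_lit 103805225118) (nat_lit 76) (nat_lit 41326030922) (nat_lit 76) (nat_lit 34325251589) (nat_lit 1) (nat_lit 4) (nat_lit 2) (nat_lit 5) (nat_lit 2) (nat_lit 4) (nat_lit 340) (nat_lit 215) (nat_lit 165))) (XT.nd (nat_lit 78) (nat_lit 0) (nat_lit 0) (XT.lf (nat_lit 0) (nat_lit 112528366091) (nat_lit 76) (nat_lit 41417245603) (nat_lit 76) (nat_lit 34384617822) (nat_lit 1) (nat_lit 4) (nat_lit 2) (nat_lit 5) (nat_lit 2) (nat_lit 4) (nat_lit 341) (nat_lit 215) (nat_lit 164)) (XT.lf (nat_lit 0) (nat_lit 121663188774) (nat_lit 76) (nat_lit 41524047468) (nat_lit 76) (nat_lit 34461087831) (nat_lit 1) (nat_lit 4) (nat_lit 2) (nat_lit 5) (nat_lit 2) (nat_lit 4) (nat_lit 342) (nat_lit 215)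 (nat_lit 163)))) (XT.nd (nat_lit 156) (nat_lit 0) (nat_lit 0) (XT.nd (nat_lit 78) (nat_lit 0) (nat_lit 0) (XT.lf (nat_lit 0) (nat_lit 131231442747) (nat_lit 76) (nat_lit 41646690807) (nat_lit 76) (nat_lit 34554843688) (nat_lit 1) (nat_lit 4) (nat_lit 2) (nat_lit 5) (nat_lit 2) (nat_lit 4) (nat_lit 343) (nat_lit 215) (nat_lit 162)) (XT.lf (nat_lit 0) (nat_lit 141255909564) (nat_lit 76) (nat_lit 41785467628) (nat_lit 76) (nat_lit 34666108621) (nat_lit 1) (nat_lit 4) (nat_lit 2) (nat_lit 5) (nat_lit 2) (nat_lit 4) (nat_lit 344) (nat_lit 215) (nat_lit 161))) (XT.nd (nat_lit 78) (nat_lit 0) (nat_lit 0) (XT.lf (nat_lit 0) (nat_lit 151760457006) (nat_lit 76) (nat_lit 41940708351) (nat_lit 76) (nat_lit 34795147547) (nat_lit 1) (nat_lit 4) (nat_lit 2) (nat_lit 5) (nat_lit 2) (nat_lit 4) (nat_lit 345) (nat_lit 215) (nat_lit 160)) (XT.nd (nat_lit 78) (nat_lit 0) (nat_lit 0) (XT.lf (nat_lit 0)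 (nat_lit 162770095898) (nat_lit 76) (nat_lit 42112782597) (nat_lit 76) (nat_lit 34942267700) (nat_lit 1) (nat_lit 4) (nat_lit 2) (nat_lit 5) (nat_lit 2) (nat_lit 4) (nat_lit 346) (nat_lit 215) (nat_lit 159)) (XT.lf (nat_lit 0) (nat_lit 174311039667) (nat_lit 76) (nat_lit 42302100068) (nat_lit 76) (nat_lit 35107819368) (nat_lit 1) (nat_lit 4) (nat_lit 2) (nat_lit 5) (nat_lit 2) (nat_lit 4) (nat_lit 347) (nat_lit 215) (nat_lit 158))))))) (XT.nd (nat_lit 702) (nat_lit 0) (nat_lit 0) (XT.nd (nat_lit 312) (nat_lit 0) (nat_lit 0) (XT.nd (nat_lit 156) (nat_lit 0) (nat_lit 0) (XT.nd (nat_lit 78) (nat_lit 0) (nat_lit 0) (XT.lf (nat_lit 0) (nat_lit 186410766751) (nat_lit 76) (nat_lit 42509111519) (nat_lit 76) (nat_lit 35292196721) (nat_lit 1) (nat_lit 4) (nat_lit 2) (nat_lit 5) (nat_lit 2) (nat_lit 4) (nat_lit 348) (nat_lit 215) (nat_lit 157)) (XT.lf (nat_lit 0) (nat_lit 199098086023) (nat_lit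 76) (nat_lit 42734309834) (nat_lit 76) (nat_lit 35495838753) (nat_lit 1) (nat_lit 4) (nat_lit 2) (nat_lit 5) (nat_lit 2) (nat_lit 4) (nat_lit 349) (nat_lit 215) (nat_lit 156))) (XT.nd (nat_lit 78) (nat_lit 0) (nat_lit 0) (XT.lf (nat_lit 0) (nat_lit 212403205386) (nat_lit 76) (nat_lit 42978231200) (nat_lit 76) (nat_lit 35719230325) (nat_lit 1) (nat_lit 4) (nat_lit 2) (nat_lit 5) (nat_lit 2) (nat_lit 4) (nat_lit 350) (nat_lit 215) (nat_lit 155)) (XT.lf (nat_lit 0) (nat_lit 226357803696) (nat_lit 76) (nat_lit 43241456382) (nat_lit 76) (nat_lit 35962903322) (nat_lit 1) (nat_lit 4) (nat_lit 2) (nat_lit 5) (nat_lit 2) (nat_lit 4) (nat_lit 351) (nat_lit 215) (nat_lit 154)))) (XT.nd (nat_lit 156) (nat_lit 0) (nat_lit 0) (XT.nd (nat_lit 78) (nat_lit 0) (nat_lit 0) (XT.lf (nat_lit 0) (nat_lit 240995106188) (nat_lit 76) (nat_lit 43524612107) (nat_lit 76) (nat_lit 36227437918) (nat_lit 1) (nat_lit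 4) (nat_lit 2) (nat_lit 5) (nat_lit 2) (nat_lit 4) (nat_lit 352) (nat_lit 215) (nat_lit 153)) (XT.lf (nat_lit 0) (nat_lit 256349963581) (nat_lit 76) (nat_lit 43828372554) (nat_lit 76) (nat_lit 36513463958) (nat_lit 1) (nat_lit 4) (nat_lit 2) (nat_lit 5) (nat_lit 2) (nat_lit 4) (nat_lit 353) (nat_lit 215) (nat_lit 152))) (XT.nd (nat_lit 78) (nat_lit 0) (nat_lit 0) (XT.lf (nat_lit 0) (nat_lit 272458935059) (nat_lit 76) (nat_lit 44153460964) (nat_lit 76) (nat_lit 36821662455) (nat_lit 1) (nat_lit 4) (nat_lit 2) (nat_lit 5) (nat_lit 2) (nat_lit 4) (nat_lit 354) (nat_lit 215) (nat_lit 151)) (XT.nd (nat_lit 78) (nat_lit 0) (nat_lit 0) (XT.lf (nat_lit 0) (nat_lit 289360375317) (nat_lit 76) (nat_lit 44500651355) (nat_lit 76) (nat_lit 37152767216) (nat_lit 1) (nat_lit 4) (nat_lit 2) (nat_lit 5) (nat_lit 2) (nat_lit 4) (nat_lit 355) (nat_lit 215) (nat_lit 150)) (XT.lf (nat_lit 0) (nat_lit 307094525879)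 (nat_lit 76) (nat_lit 44870770373) (nat_lit 76) (nat_lit 37507566585) (nat_lit 1) (nat_lit 4) (nat_lit 2) (nat_lit 5) (nat_lit 2) (nat_lit 4) (nat_lit 356) (nat_lit 215) (nat_lit 149)))))) (XT.nd (nat_lit 312) (nat_lit 0) (nat_lit 0) (XT.nd (nat_lit 156) (nat_lit 0) (nat_lit 0) (XT.nd (nat_lit 78) (nat_lit 0) (nat_lit 0) (XT.lf (nat_lit 0) (nat_lit 325703610913) (nat_lit 76) (nat_lit 45264699252) (nat_lit 76) (nat_lit 37886905323) (nat_lit 1) (nat_lit 4) (nat_lit 2) (nat_lit 5) (nat_lit 2) (nat_lit 4) (nat_lit 357) (nat_lit 215) (nat_lit 148)) (XT.lf (nat_lit 0) (nat_lit 345231937765) (nat_lit 76) (nat_lit 45683375919) (nat_lit 76) (nat_lit 38291686618) (nat_lit 1) (nat_lit 4) (nat_lit 2) (nat_lit 5) (nat_lit 2) (nat_lit 4) (nat_lit 358) (nat_lit 215) (nat_lit 147))) (XT.nd (nat_lit 78) (nat_lit 0) (nat_lit 0) (XT.lf (nat_lit 0) (nat_lit 365726002450) (nat_lit 76) (nat_lit 46127797223)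 (nat_lit 76) (nat_lit 38722874233) (nat_lit 1) (nat_lit 4) (nat_lit 2) (nat_lit 5) (nat_lit 2) (nat_lit 4) (nat_lit 359) (nat_lit 215) (nat_lit 146)) (XT.lf (nat_lit 0) (nat_lit 387234600361) (nat_lit 76) (nat_lit 46599021309) (nat_lit 76) (nat_lit 39181494807) (nat_lit 1) (nat_lit 4) (nat_lit 2) (nat_lit 5) (nat_lit 2) (nat_lit 4) (nat_lit 360) (nat_lit 215) (nat_lit 145)))) (XT.nd (nat_lit 156) (nat_lit 0) (nat_lit 0) (XT.nd (nat_lit 78) (nat_lit 0) (nat_lit 0) (XT.lf (nat_lit 0) (nat_lit 409808942445) (nat_lit 76) (nat_lit 47098170140) (nat_lit 76) (nat_lit 39668640292) (nat_lit 1) (nat_lit 4) (nat_lit 2) (nat_lit 5) (nat_lit 2) (nat_lit 4) (nat_lit 361) (nat_lit 215) (nat_lit 144)) (XT.lf (nat_lit 0) (nat_lit 433502777136) (nat_lit 76) (nat_lit 47626432166) (nat_lit 76) (nat_lit 40185470560) (nat_lit 1) (nat_lit 4) (nat_lit 2) (nat_lit 5) (nat_lit 2) (nat_lit 4) (nat_lit 362) (nat_lit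 215) (nat_lit 143))) (XT.nd (nat_lit 78) (nat_lit 0) (nat_lit 0) (XT.lf (nat_lit 0) (nat_lit 458372518325) (nat_lit 76) (nat_lit 48185065152) (nat_lit 76) (nat_lit 40733216159) (nat_lit 1) (nat_lit 4) (nat_lit 2) (nat_lit 5) (nat_lit 2) (nat_lit 4) (nat_lit 363) (nat_lit 215) (nat_lit 142)) (XT.nd (nat_lit 78) (nat_lit 0) (nat_lit 0) (XT.lf (nat_lit 0) (nat_lit 484477379683) (nat_lit 76) (nat_lit 48775399179) (nat_lit 76) (nat_lit 41313181244) (nat_lit 1) (nat_lit 4) (nat_lit 2) (nat_lit 5) (nat_lit 2) (nat_lit 4) (nat_lit 364) (nat_lit 215) (nat_lit 141)) (XT.lf (nat_lit 0) (nat_lit 511879515641) (nat_lit 76) (nat_lit 49398839802) (nat_lit 76) (nat_lit 41926746686) (nat_lit 1) (nat_lit 4) (nat_lit 2) (nat_lit 5) (nat_lit 2) (nat_lit 4) (nat_lit 365) (nat_lit 215) (nat_lit 140))))))))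
noncomputable def xc43 : XT := (XT.nd (nat_lit 32760) (nat_lit 0) (nat_lit 76) (XT.nd (nat_lit 32058) (nat_lit 0) (nat_lit 228) (XT.nd (nat_lit 31668) (nat_lit 0) (nat_lit 456) (XT.nd (nat_lit 31512) (nat_lit 0) (nat_lit 684) (XT.nd (nat_lit 31434) (nat_lit 0) (nat_lit 684) (XT.lf (nat_lit 0) (nat_lit 540644169380) (nat_lit 76) (nat_lit 50056871404) (nat_lit 76) (nat_lit 42575373353) (nat_lit 1) (nat_lit 4) (nat_lit 2) (nat_lit 5) (nat_lit 2) (nat_lit 4) (nat_lit 366) (nat_lit 215) (nat_lit 139)) (XT.lf (nat_lit 0) (nat_lit 85136858) (nat_lit 152) (nat_lit 4251141525) (nat_lit 152) (nat_lit 4251141525) (nat_lit 10) (nat_lit 4) (nat_lit 12) (nat_lit 5) (nat_lit 12) (nat_lit 4) (nat_lit 288) (nat_lit 216) (nat_lit 216))) (XT.nd (nat_lit 78) (nat_lit 0) (nat_lit 0) (XT.lf (nat_lit 0) (nat_lit 6966530980) (nat_lit 152) (nat_lit 5652877039) (nat_lit 152) (nat_lit 5208951192) (nat_lit 10)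 (nat_lit 4) (nat_lit 12) (nat_lit 5) (nat_lit 12) (nat_lit 4) (nat_lit 289) (nat_lit 216) (nat_lit 215)) (XT.lf (nat_lit 0) (nat_lit 13888854958) (nat_lit 152) (nat_lit 2749437224) (nat_lit 152) (nat_lit 1882724856) (nat_lit 10) (nat_lit 4) (nat_lit 12) (nat_lit 5) (nat_lit 12) (nat_lit 4) (nat_lit 290) (nat_lit 216) (nat_lit 214)))) (XT.nd (nat_lit 156) (nat_lit 76) (nat_lit 0) (XT.nd (nat_lit 78) (nat_lit 0) (nat_lit 0) (XT.lf (nat_lit 0) (nat_lit 1468020939) (nat_lit 152) (nat_lit 17524621439) (nat_lit 0) (nat_lit 259100750) (nat_lit 8) (nat_lit 5) (nat_lit 10) (nat_lit 4) (nat_lit 8) (nat_lit 4) (nat_lit 291) (nat_lit 216) (nat_lit 213)) (XT.lf (nat_lit 0) (nat_lit 4927616305) (nat_lit 152) (nat_lit 11736309727) (nat_lit 0) (nat_lit 3353477224) (nat_lit 8) (nat_lit 5) (nat_lit 10) (nat_lit 4) (nat_lit 8) (nat_lit 4) (nat_lit 292) (nat_lit 216) (nat_lit 212))) (XT.nd (nat_lit 78)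 (nat_lit 76) (nat_lit 0) (XT.lf (nat_lit 0) (nat_lit 8445693823) (nat_lit 152) (nat_lit 5857812279) (nat_lit 0) (nat_lit 6523727224) (nat_lit 8) (nat_lit 5) (nat_lit 10) (nat_lit 4) (nat_lit 8) (nat_lit 4) (nat_lit 293) (nat_lit 216) (nat_lit 211)) (XT.nd (nat_lit 78) (nat_lit 0) (nat_lit 0) (XT.lf (nat_lit 0) (nat_lit 128996004) (nat_lit 76) (nat_lit 11903647853) (nat_lit 76) (nat_lit 9650416952) (nat_lit 7) (nat_lit 4) (nat_lit 8) (nat_lit 5) (nat_lit 8) (nat_lit 4) (nat_lit 294) (nat_lit 216) (nat_lit 210)) (XT.lf (nat_lit 0) (nat_lit 6431832369) (nat_lit 76) (nat_lit 9359546559) (nat_lit 76) (nat_lit 6790825847) (nat_lit 7) (nat_lit 4) (nat_lit 8) (nat_lit 5) (nat_lit 8) (nat_lit 4) (nat_lit 295) (nat_lit 216) (nat_lit 209)))))) (XT.nd (nat_lit 312) (nat_lit 76) (nat_lit 0) (XT.nd (nat_lit 156) (nat_lit 152) (nat_lit 0) (XT.nd (nat_lit 78) (nat_lit 0) (nat_lit 0) (XT.lf (nat_lit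 0) (nat_lit 12872017841) (nat_lit 76) (nat_lit 6764349725) (nat_lit 76) (nat_lit 3895162526) (nat_lit 7) (nat_lit 4) (nat_lit 8) (nat_lit 5) (nat_lit 8) (nat_lit 4) (nat_lit 296) (nat_lit 216) (nat_lit 208)) (XT.lf (nat_lit 0) (nat_lit 19464886194) (nat_lit 76) (nat_lit 4111878309) (nat_lit 76) (nat_lit 956532550) (nat_lit 7) (nat_lit 4) (nat_lit 8) (nat_lit 5) (nat_lit 8) (nat_lit 4) (nat_lit 297) (nat_lit 216) (nat_lit 207))) (XT.nd (nat_lit 78) (nat_lit 0) (nat_lit 0) (XT.lf (nat_lit 0) (nat_lit 624505834) (nat_lit 76) (nat_lit 1352266631) (nat_lit 152) (nat_lit 23611044535) (nat_lit 5) (nat_lit 5) (nat_lit 6) (nat_lit 5) (nat_lit 7) (nat_lit 4) (nat_lit 298) (nat_lit 216) (nat_lit 206)) (XT.lf (nat_lit 0) (nat_lit 5042953949) (nat_lit 152) (nat_lit 20119408291) (nat_lit 0) (nat_lit 1531113979) (nat_lit 5) (nat_lit 5) (nat_lit 7) (nat_lit 4) (nat_lit 5) (nat_lit 4) (nat_lit 299)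 (nat_lit 216) (nat_lit 205)))) (XT.nd (nat_lit 156) (nat_lit 76) (nat_lit 0) (XT.nd (nat_lit 78) (nat_lit 0) (nat_lit 0) (XT.lf (nat_lit 0) (nat_lit 8196028987) (nat_lit 152) (nat_lit 15213054215) (nat_lit 0) (nat_lit 4448765662) (nat_lit 5) (nat_lit 5) (nat_lit 7) (nat_lit 4) (nat_lit 5) (nat_lit 4) (nat_lit 300) (nat_lit 216) (nat_lit 204)) (XT.lf (nat_lit 0) (nat_lit 11422392227) (nat_lit 152) (nat_lit 10211454470) (nat_lit 0) (nat_lit 7450916183) (nat_lit 5) (nat_lit 5) (nat_lit 7) (nat_lit 4) (nat_lit 5) (nat_lit 4) (nat_lit 301) (nat_lit 216) (nat_lit 203))) (XT.nd (nat_lit 78) (nat_lit 76) (nat_lit 0) (XT.lf (nat_lit 0) (nat_lit 14729725486) (nat_lit 152) (nat_lit 5102700485) (nat_lit 0) (nat_lit 10544713520) (nat_lit 5) (nat_lit 5) (nat_lit 7) (nat_lit 4) (nat_lit 5) (nat_lit 4) (nat_lit 302) (nat_lit 216) (nat_lit 202)) (XT.nd (nat_lit 78) (nat_lit 0) (nat_lit 0) (XT.lf (nat_lit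 0) (nat_lit 129516783) (nat_lit 76) (nat_lit 17998408705) (nat_lit 76) (nat_lit 13610029193) (nat_lit 4) (nat_lit 4) (nat_lit 5) (nat_lit 5) (nat_lit 5) (nat_lit 4) (nat_lit 303) (nat_lit 216) (nat_lit 201)) (XT.lf (nat_lit 0) (nat_lit 5666574875) (nat_lit 76) (nat_lit 16040908250) (nat_lit 76) (nat_lit 11458845361) (nat_lit 4) (nat_lit 4) (nat_lit 5) (nat_lit 5) (nat_lit 5) (nat_lit 4) (nat_lit 304) (nat_lit 216) (nat_lit 200))))))) (XT.nd (nat_lit 702) (nat_lit 0) (nat_lit 0) (XT.nd (nat_lit 312) (nat_lit 152) (nat_lit 0) (XT.nd (nat_lit 156) (nat_lit 0) (nat_lit 0) (XT.nd (nat_lit 78) (nat_lit 0) (nat_lit 0) (XT.lf (nat_lit 0) (nat_lit 11352938939) (nat_lit 76) (nat_lit 14041680594) (nat_lit 76) (nat_lit 9275157347) (nat_lit 4) (nat_lit 4) (nat_lit 5) (nat_lit 5) (nat_lit 5) (nat_lit 4) (nat_lit 305) (nat_lit 216) (nat_lit 199)) (XT.lf (nat_lit 0) (nat_lit 17202147936) (nat_lit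 76) (nat_lit 11995965672) (nat_lit 76) (nat_lit 7053765893) (nat_lit 4) (nat_lit 4) (nat_lit 5) (nat_lit 5) (nat_lit 5) (nat_lit 4) (nat_lit 306) (nat_lit 216) (nat_lit 198))) (XT.nd (nat_lit 78) (nat_lit 0) (nat_lit 0) (XT.lf (nat_lit 0) (nat_lit 23228128554) (nat_lit 76) (nat_lit 9898892734) (nat_lit 76) (nat_lit 4789381971) (nat_lit 4) (nat_lit 4) (nat_lit 5) (nat_lit 5) (nat_lit 5) (nat_lit 4) (nat_lit 307) (nat_lit 216) (nat_lit 197)) (XT.lf (nat_lit 0) (nat_lit 29445228367) (nat_lit 76) (nat_lit 7745468747) (nat_lit 76) (nat_lit 2476614192) (nat_lit 4) (nat_lit 4) (nat_lit 5) (nat_lit 5) (nat_lit 5) (nat_lit 4) (nat_lit 308) (nat_lit 216) (nat_lit 196)))) (XT.nd (nat_lit 156) (nat_lit 76) (nat_lit 0) (XT.nd (nat_lit 78) (nat_lit 76) (nat_lit 0) (XT.lf (nat_lit 0) (nat_lit 35868249993) (nat_lit 76) (nat_lit 5530566514) (nat_lit 76) (nat_lit 109955965) (nat_lit 4) (nat_lit 4) (nat_lit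 5) (nat_lit 5) (nat_lit 5) (nat_lit 4) (nat_lit 309) (nat_lit 216) (nat_lit 195)) (XT.lf (nat_lit 0) (nat_lit 2242093861) (nat_lit 152) (nat_lit 968847651) (nat_lit 76) (nat_lit 40232421535) (nat_lit 3) (nat_lit 5) (nat_lit 5) (nat_lit 5) (nat_lit 4) (nat_lit 4) (nat_lit 310) (nat_lit 216) (nat_lit 194))) (XT.nd (nat_lit 78) (nat_lit 0) (nat_lit 0) (XT.lf (nat_lit 0) (nat_lit 3964464852) (nat_lit 76) (nat_lit 751267869) (nat_lit 152) (nat_lit 40758537290) (nat_lit 2) (nat_lit 5) (nat_lit 3) (nat_lit 5) (nat_lit 4) (nat_lit 4) (nat_lit 311) (nat_lit 216) (nat_lit 193)) (XT.nd (nat_lit 78) (nat_lit 0) (nat_lit 0) (XT.lf (nat_lit 0) (nat_lit 7304538977) (nat_lit 152) (nat_lit 38554204227) (nat_lit 0) (nat_lit 1748463015) (nat_lit 2) (nat_lit 5) (nat_lit 4) (nat_lit 4) (nat_lit 2) (nat_lit 4) (nat_lit 312) (nat_lit 216) (nat_lit 192)) (XT.lf (nat_lit 0) (nat_lit 9983878026) (nat_lit 152)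 (nat_lit 35556014714) (nat_lit 0) (nat_lit 4308897272) (nat_lit 2) (nat_lit 5) (nat_lit 4) (nat_lit 4) (nat_lit 2) (nat_lit 4) (nat_lit 313) (nat_lit 216) (nat_lit 191)))))) (XT.nd (nat_lit 312) (nat_lit 0) (nat_lit 0) (XT.nd (nat_lit 156) (nat_lit 0) (nat_lit 0) (XT.nd (nat_lit 78) (nat_lit 0) (nat_lit 0) (XT.lf (nat_lit 0) (nat_lit 12748399850) (nat_lit 152) (nat_lit 32496368677) (nat_lit 0) (nat_lit 6960176438) (nat_lit 2) (nat_lit 5) (nat_lit 4) (nat_lit 4) (nat_lit 2) (nat_lit 4) (nat_lit 314) (nat_lit 216) (nat_lit 190)) (XT.lf (nat_lit 0) (nat_lit 15604686645) (nat_lit 152) (nat_lit 29367981244) (nat_lit 0) (nat_lit 9708613081) (nat_lit 2) (nat_lit 5) (nat_lit 4) (nat_lit 4) (nat_lit 2) (nat_lit 4) (nat_lit 315) (nat_lit 216) (nat_lit 189))) (XT.nd (nat_lit 78) (nat_lit 0) (nat_lit 0) (XT.lf (nat_lit 0) (nat_lit 18559539092) (nat_lit 152) (nat_lit 26163403874) (nat_lit 0) (nat_lit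 12560751098) (nat_lit 2) (nat_lit 5) (nat_lit 4) (nat_lit 4) (nat_lit 2) (nat_lit 4) (nat_lit 316) (nat_lit 216) (nat_lit 188)) (XT.lf (nat_lit 0) (nat_lit 21619992556) (nat_lit 152) (nat_lit 22875006620) (nat_lit 0) (nat_lit 15523381295) (nat_lit 2) (nat_lit 5) (nat_lit 4) (nat_lit 4) (nat_lit 2) (nat_lit 4) (nat_lit 317) (nat_lit 216) (nat_lit 187)))) (XT.nd (nat_lit 156) (nat_lit 0) (nat_lit 0) (XT.nd (nat_lit 78) (nat_lit 0) (nat_lit 0) (XT.lf (nat_lit 0) (nat_lit 24793333829) (nat_lit 152) (nat_lit 19494959966) (nat_lit 0) (nat_lit 18603557553) (nat_lit 2) (nat_lit 5) (nat_lit 4) (nat_lit 4) (nat_lit 2) (nat_lit 4) (nat_lit 318) (nat_lit 216) (nat_lit 186)) (XT.lf (nat_lit 0) (nat_lit 28087118486) (nat_lit 152) (nat_lit 16015216182) (nat_lit 0) (nat_lit 21808613624) (nat_lit 2) (nat_lit 5) (nat_lit 4) (nat_lit 4) (nat_lit 2) (nat_lit 4) (nat_lit 319) (nat_lit 216) (nat_lit 185)))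 (XT.nd (nat_lit 78) (nat_lit 0) (nat_lit 0) (XT.lf (nat_lit 0) (nat_lit 31509188873) (nat_lit 152) (nat_lit 12427490162) (nat_lit 0) (nat_lit 25146180594) (nat_lit 2) (nat_lit 5) (nat_lit 4) (nat_lit 4) (nat_lit 2) (nat_lit 4) (nat_lit 320) (nat_lit 216) (nat_lit 184)) (XT.nd (nat_lit 78) (nat_lit 0) (nat_lit 0) (XT.lf (nat_lit 0) (nat_lit 35067692774) (nat_lit 152) (nat_lit 8723239702) (nat_lit 0) (nat_lit 28624205052) (nat_lit 2) (nat_lit 5) (nat_lit 4) (nat_lit 4) (nat_lit 2) (nat_lit 4) (nat_lit 321) (nat_lit 216) (nat_lit 183)) (XT.lf (nat_lit 0) (nat_lit 38771102820) (nat_lit 152) (nat_lit 4893645159) (nat_lit 0) (nat_lit 32250968009) (nat_lit 2) (nat_lit 5) (nat_lit 4) (nat_lit 4) (nat_lit 2) (nat_lit 4) (nat_lit 322) (nat_lit 216) (nat_lit 182))))))))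
noncomputable def xc44 : XT := (XT.nd (nat_lit 1404) (nat_lit 0) (nat_lit 0) (XT.nd (nat_lit 702) (nat_lit 0) (nat_lit 0) (XT.nd (nat_lit 312) (nat_lit 0) (nat_lit 0) (XT.nd (nat_lit 156) (nat_lit 0) (nat_lit 0) (XT.nd (nat_lit 78) (nat_lit 76) (nat_lit 0) (XT.lf (nat_lit 0) (nat_lit 42628236652) (nat_lit 152) (nat_lit 929588450) (nat_lit 0) (nat_lit 36035104613) (nat_lit 2) (nat_lit 5) (nat_lit 4) (nat_lit 4) (nat_lit 2) (nat_lit 4) (nat_lit 323) (nat_lit 216) (nat_lit 181)) (XT.lf (nat_lit 0) (nat_lit 3283459876) (nat_lit 76) (nat_lit 43416082057) (nat_lit 76) (nat_lit 36753428849) (nat_lit 1) (nat_lit 4) (nat_lit 2) (nat_lit 5) (nat_lit 2) (nat_lit 4) (nat_lit 324) (nat_lit 216) (nat_lit 180))) (XT.nd (nat_lit 78) (nat_lit 0) (nat_lit 0) (XT.lf (nat_lit 0) (nat_lit 7686007238) (nat_lit 76) (nat_lit 43274791033) (nat_lit 76) (nat_lit 36545927188) (nat_lit 1) (nat_lit 4) (nat_lit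 2) (nat_lit 5) (nat_lit 2) (nat_lit 4) (nat_lit 325) (nat_lit 216) (nat_lit 179)) (XT.lf (nat_lit 0) (nat_lit 12257799498) (nat_lit 76) (nat_lit 43149358656) (nat_lit 76) (nat_lit 36357437060) (nat_lit 1) (nat_lit 4) (nat_lit 2) (nat_lit 5) (nat_lit 2) (nat_lit 4) (nat_lit 326) (nat_lit 216) (nat_lit 178)))) (XT.nd (nat_lit 156) (nat_lit 0) (nat_lit 0) (XT.nd (nat_lit 78) (nat_lit 0) (nat_lit 0) (XT.lf (nat_lit 0) (nat_lit 17009721876) (nat_lit 76) (nat_lit 43039486275) (nat_lit 76) (nat_lit 36187509680) (nat_lit 1) (nat_lit 4) (nat_lit 2) (nat_lit 5) (nat_lit 2) (nat_lit 4) (nat_lit 327) (nat_lit 216) (nat_lit 177)) (XT.lf (nat_lit 0) (nat_lit 21953088473) (nat_lit 76) (nat_lit 42944912290) (nat_lit 76) (nat_lit 36035740457) (nat_lit 1) (nat_lit 4) (nat_lit 2) (nat_lit 5) (nat_lit 2) (nat_lit 4) (nat_lit 328) (nat_lit 216) (nat_lit 176))) (XT.nd (nat_lit 78) (nat_lit 0) (nat_lit 0)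 (XT.lf (nat_lit 0) (nat_lit 27099669209) (nat_lit 76) (nat_lit 42865411526) (nat_lit 76) (nat_lit 35901768038) (nat_lit 1) (nat_lit 4) (nat_lit 2) (nat_lit 5) (nat_lit 2) (nat_lit 4) (nat_lit 329) (nat_lit 216) (nat_lit 175)) (XT.nd (nat_lit 78) (nat_lit 0) (nat_lit 0) (XT.lf (nat_lit 0) (nat_lit 32461717847) (nat_lit 76) (nat_lit 42800794694) (nat_lit 76) (nat_lit 35785273439) (nat_lit 1) (nat_lit 4) (nat_lit 2) (nat_lit 5) (nat_lit 2) (nat_lit 4) (nat_lit 330) (nat_lit 216) (nat_lit 174)) (XT.lf (nat_lit 0) (nat_lit 38052001171) (nat_lit 76) (nat_lit 42750907944) (nat_lit 76) (nat_lit 35685979292) (nat_lit 1) (nat_lit 4) (nat_lit 2) (nat_lit 5) (nat_lit 2) (nat_lit 4) (nat_lit 331) (nat_lit 216) (nat_lit 173)))))) (XT.nd (nat_lit 312) (nat_lit 0) (nat_lit 0) (XT.nd (nat_lit 156) (nat_lit 0) (nat_lit 0) (XT.nd (nat_lit 78) (nat_lit 0) (nat_lit 0) (XT.lf (nat_lit 0) (nat_lit 43883829379)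 (nat_lit 76) (nat_lit 42715632500) (nat_lit 76) (nat_lit 35603649184) (nat_lit 1) (nat_lit 4) (nat_lit 2) (nat_lit 5) (nat_lit 2) (nat_lit 4) (nat_lit 332) (nat_lit 216) (nat_lit 172)) (XT.lf (nat_lit 0) (nat_lit 49971087776) (nat_lit 76) (nat_lit 42694884371) (nat_lit 76) (nat_lit 35538087090) (nat_lit 1) (nat_lit 4) (nat_lit 2) (nat_lit 5) (nat_lit 2) (nat_lit 4) (nat_lit 333) (nat_lit 216) (nat_lit 171))) (XT.nd (nat_lit 78) (nat_lit 0) (nat_lit 0) (XT.lf (nat_lit 0) (nat_lit 56328269834) (nat_lit 76) (nat_lit 42688614158) (nat_lit 76) (nat_lit 35489136909) (nat_lit 1) (nat_lit 4) (nat_lit 2) (nat_lit 5) (nat_lit 2) (nat_lit 4) (nat_lit 334) (nat_lit 216) (nat_lit 170)) (XT.lf (nat_lit 0) (nat_lit 62970511701) (nat_lit 76) (nat_lit 42696806931) (nat_lit 76) (nat_lit 35456682094) (nat_lit 1) (nat_lit 4) (nat_lit 2) (nat_lit 5) (nat_lit 2) (nat_lit 4) (nat_lit 335) (nat_lit 216) (nat_lit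 169)))) (XT.nd (nat_lit 156) (nat_lit 0) (nat_lit 0) (XT.nd (nat_lit 78) (nat_lit 0) (nat_lit 0) (XT.lf (nat_lit 0) (nat_lit 69913628239) (nat_lit 76) (nat_lit 42719482197) (nat_lit 76) (nat_lit 35440645372) (nat_lit 1) (nat_lit 4) (nat_lit 2) (nat_lit 5) (nat_lit 2) (nat_lit 4) (nat_lit 336) (nat_lit 216) (nat_lit 168)) (XT.lf (nat_lit 0) (nat_lit 77174150678) (nat_lit 76) (nat_lit 42756693944) (nat_lit 76) (nat_lit 35440988559) (nat_lit 1) (nat_lit 4) (nat_lit 2) (nat_lit 5) (nat_lit 2) (nat_lit 4) (nat_lit 337) (nat_lit 216) (nat_lit 167))) (XT.nd (nat_lit 78) (nat_lit 0) (nat_lit 0) (XT.lf (nat_lit 0) (nat_lit 84769365975) (nat_lit 76) (nat_lit 42808530773) (nat_lit 76) (nat_lit 35457712473) (nat_lit 1) (nat_lit 4) (nat_lit 2) (nat_lit 5) (nat_lit 2) (nat_lit 4) (nat_lit 338) (nat_lit 216) (nat_lit 166)) (XT.nd (nat_lit 78) (nat_lit 0) (nat_lit 0) (XT.lf (nat_lit 0) (nat_lit 92717357977)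 (nat_lit 76) (nat_lit 42875116103) (nat_lit 76) (nat_lit 35490856933) (nat_lit 1) (nat_lit 4) (nat_lit 2) (nat_lit 5) (nat_lit 2) (nat_lit 4) (nat_lit 339) (nat_lit 216) (nat_lit 165)) (XT.lf (nat_lit 0) (nat_lit 101037050474) (nat_lit 76) (nat_lit 42956608473) (nat_lit 76) (nat_lit 35540500853) (nat_lit 1) (nat_lit 4) (nat_lit 2) (nat_lit 5) (nat_lit 2) (nat_lit 4) (nat_lit 340) (nat_lit 216) (nat_lit 164))))))) (XT.nd (nat_lit 702) (nat_lit 0) (nat_lit 0) (XT.nd (nat_lit 312) (nat_lit 0) (nat_lit 0) (XT.nd (nat_lit 156) (nat_lit 0) (nat_lit 0) (XT.nd (nat_lit 78) (nat_lit 0) (nat_lit 0) (XT.lf (nat_lit 0) (nat_lit 109748252258) (nat_lit 76) (nat_lit 43053201910) (nat_lit 76) (nat_lit 35606762434) (nat_lit 1) (nat_lit 4) (nat_lit 2) (nat_lit 5) (nat_lit 2) (nat_lit 4) (nat_lit 341) (nat_lit 216) (nat_lit 163)) (XT.lf (nat_lit 0) (nat_lit 118871704285) (nat_lit 76) (nat_lit 43165126399)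 (nat_lit 76) (nat_lit 35689799442) (nat_lit 1) (nat_lit 4) (nat_lit 2) (nat_lit 5) (nat_lit 2) (nat_lit 4) (nat_lit 342) (nat_lit 216) (nat_lit 162))) (XT.nd (nat_lit 78) (nat_lit 0) (nat_lit 0) (XT.lf (nat_lit 0) (nat_lit 128429129061) (nat_lit 76) (nat_lit 43292648428) (nat_lit 76) (nat_lit 35789809584) (nat_lit 1) (nat_lit 4) (nat_lit 2) (nat_lit 5) (nat_lit 2) (nat_lit 4) (nat_lit 343) (nat_lit 216) (nat_lit 161)) (XT.lf (nat_lit 0) (nat_lit 138443282358) (nat_lit 76) (nat_lit 43436071620) (nat_lit 76) (nat_lit 35907030978) (nat_lit 1) (nat_lit 4) (nat_lit 2) (nat_lit 5) (nat_lit 2) (nat_lit 4) (nat_lit 344) (nat_lit 216) (nat_lit 160)))) (XT.nd (nat_lit 156) (nat_lit 0) (nat_lit 0) (XT.nd (nat_lit 78) (nat_lit 0) (nat_lit 0) (XT.lf (nat_lit 0) (nat_lit 148938007399) (nat_lit 76) (nat_lit 43595737459) (nat_lit 76) (nat_lit 36041742724) (nat_lit 1) (nat_lit 4) (nat_lit 2) (nat_lit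 5) (nat_lit 2) (nat_lit 4) (nat_lit 345) (nat_lit 216) (nat_lit 159)) (XT.lf (nat_lit 0) (nat_lit 159938291624) (nat_lit 76) (nat_lit 43772026102) (nat_lit 76) (nat_lit 36194265564) (nat_lit 1) (nat_lit 4) (nat_lit 2) (nat_lit 5) (nat_lit 2) (nat_lit 4) (nat_lit 346) (nat_lit 216) (nat_lit 158))) (XT.nd (nat_lit 78) (nat_lit 0) (nat_lit 0) (XT.lf (nat_lit 0) (nat_lit 171470326186) (nat_lit 76) (nat_lit 43965357283) (nat_lit 76) (nat_lit 36364962648) (nat_lit 1) (nat_lit 4) (nat_lit 2) (nat_lit 5) (nat_lit 2) (nat_lit 4) (nat_lit 347) (nat_lit 216) (nat_lit 157)) (XT.nd (nat_lit 78) (nat_lit 0) (nat_lit 0) (XT.lf (nat_lit 0) (nat_lit 183561568311) (nat_lit 76) (nat_lit 44176191315) (nat_lit 76) (nat_lit 36554240396) (nat_lit 1) (nat_lit 4) (nat_lit 2) (nat_lit 5) (nat_lit 2) (nat_lit 4) (nat_lit 348) (nat_lit 216) (nat_lit 156)) (XT.lf (nat_lit 0) (nat_lit 196240806669) (nat_lit 76)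 (nat_lit 44405030184) (nat_lit 76) (nat_lit 36762549471) (nat_lit 1) (nat_lit 4) (nat_lit 2) (nat_lit 5) (nat_lit 2) (nat_lit 4) (nat_lit 349) (nat_lit 216) (nat_lit 155)))))) (XT.nd (nat_lit 312) (nat_lit 0) (nat_lit 0) (XT.nd (nat_lit 156) (nat_lit 0) (nat_lit 0) (XT.nd (nat_lit 78) (nat_lit 0) (nat_lit 0) (XT.lf (nat_lit 0) (nat_lit 209538229925) (nat_lit 76) (nat_lit 44652418744) (nat_lit 76) (nat_lit 36990385846) (nat_lit 1) (nat_lit 4) (nat_lit 2) (nat_lit 5) (nat_lit 2) (nat_lit 4) (nat_lit 350) (nat_lit 216) (nat_lit 154)) (XT.lf (nat_lit 0) (nat_lit 223485498609) (nat_lit 76) (nat_lit 44918946016) (nat_lit 76) (nat_lit 37238291990) (nat_lit 1) (nat_lit 4) (nat_lit 2) (nat_lit 5) (nat_lit 2) (nat_lit 4) (nat_lit 351) (nat_lit 216) (nat_lit 153))) (XT.nd (nat_lit 78) (nat_lit 0) (nat_lit 0) (XT.lf (nat_lit 0) (nat_lit 238115820503) (nat_lit 76) (nat_lit 45205246587) (nat_lit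 76) (nat_lit 37506858153) (nat_lit 1) (nat_lit 4) (nat_lit 2) (nat_lit 5) (nat_lit 2) (nat_lit 4) (nat_lit 352) (nat_lit 216) (nat_lit 152)) (XT.lf (nat_lit 0) (nat_lit 253464029709) (nat_lit 76) (nat_lit 45512002127) (nat_lit 76) (nat_lit 37796723781) (nat_lit 1) (nat_lit 4) (nat_lit 2) (nat_lit 5) (nat_lit 2) (nat_lit 4) (nat_lit 353) (nat_lit 216) (nat_lit 151)))) (XT.nd (nat_lit 156) (nat_lit 0) (nat_lit 0) (XT.nd (nat_lit 78) (nat_lit 0) (nat_lit 0) (XT.lf (nat_lit 0) (nat_lit 269566669580) (nat_lit 76) (nat_lit 45839943006) (nat_lit 76) (nat_lit 38108579029) (nat_lit 1) (nat_lit 4) (nat_lit 2) (nat_lit 5) (nat_lit 2) (nat_lit 4) (nat_lit 354) (nat_lit 216) (nat_lit 150)) (XT.lf (nat_lit 0) (nat_lit 286462079736) (nat_lit 76) (nat_lit 46189850035) (nat_lit 76) (nat_lit 38443166410) (nat_lit 1) (nat_lit 4) (nat_lit 2) (nat_lit 5) (nat_lit 2) (nat_lit 4) (nat_lit 355) (nat_lit 216)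 (nat_lit 149))) (XT.nd (nat_lit 78) (nat_lit 0) (nat_lit 0) (XT.lf (nat_lit 0) (nat_lit 304190487344) (nat_lit 76) (nat_lit 46562556326) (nat_lit 76) (nat_lit 38801282560) (nat_lit 1) (nat_lit 4) (nat_lit 2) (nat_lit 5) (nat_lit 2) (nat_lit 4) (nat_lit 356) (nat_lit 216) (nat_lit 148)) (XT.nd (nat_lit 78) (nat_lit 0) (nat_lit 0) (XT.lf (nat_lit 0) (nat_lit 322794102898) (nat_lit 76) (nat_lit 46958949275) (nat_lit 76) (nat_lit 39183780136) (nat_lit 1) (nat_lit 4) (nat_lit 2) (nat_lit 5) (nat_lit 2) (nat_lit 4) (nat_lit 357) (nat_lit 216) (nat_lit 147)) (XT.lf (nat_lit 0) (nat_lit 342317220721) (nat_lit 76) (nat_lit 47379972676) (nat_lit 76) (nat_lit 39591569848) (nat_lit 1) (nat_lit 4) (nat_lit 2) (nat_lit 5) (nat_lit 2) (nat_lit 4) (nat_lit 358) (nat_lit 216) (nat_lit 146))))))))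
noncomputable def xc45 : XT := (XT.nd (nat_lit 32604) (nat_lit 0) (nat_lit 76) (XT.nd (nat_lit 31902) (nat_lit 0) (nat_lit 456) (XT.nd (nat_lit 312) (nat_lit 0) (nat_lit 0) (XT.nd (nat_lit 156) (nat_lit 0) (nat_lit 0) (XT.nd (nat_lit 78) (nat_lit 0) (nat_lit 0) (XT.lf (nat_lit 0) (nat_lit 362806324426) (nat_lit 76) (nat_lit 47826628963) (nat_lit 76) (nat_lit 40025622623) (nat_lit 1) (nat_lit 4) (nat_lit 2) (nat_lit 5) (nat_lit 2) (nat_lit 4) (nat_lit 359) (nat_lit 216) (nat_lit 145)) (XT.lf (nat_lit 0) (nat_lit 384310197595) (nat_lit 76) (nat_lit 48299981606) (nat_lit 76) (nat_lit 40486971921) (nat_lit 1) (nat_lit 4) (nat_lit 2) (nat_lit 5) (nat_lit 2) (nat_lit 4) (nat_lit 360) (nat_lit 216) (nat_lit 144))) (XT.nd (nat_lit 78) (nat_lit 0) (nat_lit 0) (XT.lf (nat_lit 0) (nat_lit 406880039924) (nat_lit 76) (nat_lit 48801157634) (nat_lit 76) (nat_lit 40976716191) (nat_lit 1) (nat_lit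 4) (nat_lit 2) (nat_lit 5) (nat_lit 2) (nat_lit 4) (nat_lit 361) (nat_lit 216) (nat_lit 143)) (XT.lf (nat_lit 0) (nat_lit 430569589134) (nat_lit 76) (nat_lit 49331350322) (nat_lit 76) (nat_lit 41496021492) (nat_lit 1) (nat_lit 4) (nat_lit 2) (nat_lit 5) (nat_lit 2) (nat_lit 4) (nat_lit 362) (nat_lit 216) (nat_lit 142)))) (XT.nd (nat_lit 156) (nat_lit 0) (nat_lit 0) (XT.nd (nat_lit 78) (nat_lit 0) (nat_lit 0) (XT.lf (nat_lit 0) (nat_lit 455435248913) (nat_lit 76) (nat_lit 49891822036) (nat_lit 76) (nat_lit 42046124264) (nat_lit 1) (nat_lit 4) (nat_lit 2) (nat_lit 5) (nat_lit 2) (nat_lit 4) (nat_lit 363) (nat_lit 216) (nat_lit 141)) (XT.lf (nat_lit 0) (nat_lit 481536223213) (nat_lit 76) (nat_lit 50483907231) (nat_lit 76) (nat_lit 42628334277) (nat_lit 1) (nat_lit 4) (nat_lit 2) (nat_lit 5) (nat_lit 2) (nat_lit 4) (nat_lit 364) (nat_lit 216) (nat_lit 140))) (XT.nd (nat_lit 78) (nat_lit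 0) (nat_lit 0) (XT.lf (nat_lit 0) (nat_lit 508934657212) (nat_lit 76) (nat_lit 51109015634) (nat_lit 76) (nat_lit 43244037745) (nat_lit 1) (nat_lit 4) (nat_lit 2) (nat_lit 5) (nat_lit 2) (nat_lit 4) (nat_lit 365) (nat_lit 216) (nat_lit 139)) (XT.nd (nat_lit 31278) (nat_lit 0) (nat_lit 836) (XT.lf (nat_lit 0) (nat_lit 537695785275) (nat_lit 76) (nat_lit 51768635598) (nat_lit 76) (nat_lit 43894700628) (nat_lit 1) (nat_lit 4) (nat_lit 2) (nat_lit 5) (nat_lit 2) (nat_lit 4) (nat_lit 366) (nat_lit 216) (nat_lit 138)) (XT.lf (nat_lit 0) (nat_lit 846946550) (nat_lit 152) (nat_lit 6288838390) (nat_lit 0) (nat_lit 846946550) (nat_lit 12) (nat_lit 5) (nat_lit 14) (nat_lit 4) (nat_lit 12) (nat_lit 4) (nat_lit 286) (nat_lit 217) (nat_lit 217)))))) (XT.nd (nat_lit 312) (nat_lit 228) (nat_lit 0) (XT.nd (nat_lit 156) (nat_lit 0) (nat_lit 0) (XT.nd (nat_lit 78) (nat_lit 152) (nat_lit 0) (XT.lf (nat_lit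 0) (nat_lit 5356197856) (nat_lit 152) (nat_lit 6307542555) (nat_lit 0) (nat_lit 4890075717) (nat_lit 12) (nat_lit 5) (nat_lit 14) (nat_lit 4) (nat_lit 12) (nat_lit 4) (nat_lit 287) (nat_lit 217) (nat_lit 216)) (XT.lf (nat_lit 0) (nat_lit 60793981) (nat_lit 152) (nat_lit 9013701932) (nat_lit 152) (nat_lit 8103653946) (nat_lit 10) (nat_lit 4) (nat_lit 12) (nat_lit 5) (nat_lit 12) (nat_lit 4) (nat_lit 288) (nat_lit 217) (nat_lit 215))) (XT.nd (nat_lit 78) (nat_lit 0) (nat_lit 0) (XT.lf (nat_lit 0) (nat_lit 6752784831) (nat_lit 152) (nat_lit 6207435676) (nat_lit 152) (nat_lit 4874601168) (nat_lit 10) (nat_lit 4) (nat_lit 12) (nat_lit 5) (nat_lit 12) (nat_lit 4) (nat_lit 289) (nat_lit 217) (nat_lit 214)) (XT.lf (nat_lit 0) (nat_lit 13575807461) (nat_lit 152) (nat_lit 3345081341) (nat_lit 152) (nat_lit 1609593004) (nat_lit 10) (nat_lit 4) (nat_lit 12) (nat_lit 5) (nat_lit 12) (nat_lit 4)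 (nat_lit 290) (nat_lit 217) (nat_lit 213)))) (XT.nd (nat_lit 156) (nat_lit 76) (nat_lit 0) (XT.nd (nat_lit 78) (nat_lit 0) (nat_lit 0) (XT.lf (nat_lit 0) (nat_lit 1294215135) (nat_lit 76) (nat_lit 370752333) (nat_lit 152) (nat_lit 17599482386) (nat_lit 8) (nat_lit 5) (nat_lit 9) (nat_lit 5) (nat_lit 10) (nat_lit 4) (nat_lit 291) (nat_lit 217) (nat_lit 212)) (XT.lf (nat_lit 0) (nat_lit 5062921855) (nat_lit 152) (nat_lit 12273319817) (nat_lit 0) (nat_lit 2697029409) (nat_lit 8) (nat_lit 5) (nat_lit 10) (nat_lit 4) (nat_lit 8) (nat_lit 4) (nat_lit 292) (nat_lit 217) (nat_lit 211))) (XT.nd (nat_lit 78) (nat_lit 76) (nat_lit 0) (XT.lf (nat_lit 0) (nat_lit 8527806520) (nat_lit 152) (nat_lit 6487379790) (nat_lit 0) (nat_lit 5830649772) (nat_lit 8) (nat_lit 5) (nat_lit 10) (nat_lit 4) (nat_lit 8) (nat_lit 4) (nat_lit 293) (nat_lit 217) (nat_lit 210)) (XT.nd (nat_lit 78) (nat_lit 76) (nat_lit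 0) (XT.lf (nat_lit 0) (nat_lit 12062082704) (nat_lit 152) (nat_lit 592850109) (nat_lit 0) (nat_lit 9049436145) (nat_lit 8) (nat_lit 5) (nat_lit 10) (nat_lit 4) (nat_lit 8) (nat_lit 4) (nat_lit 294) (nat_lit 217) (nat_lit 209)) (XT.lf (nat_lit 0) (nat_lit 5603655801) (nat_lit 76) (nat_lit 10157998321) (nat_lit 76) (nat_lit 6844885274) (nat_lit 7) (nat_lit 4) (nat_lit 8) (nat_lit 5) (nat_lit 8) (nat_lit 4) (nat_lit 295) (nat_lit 217) (nat_lit 208))))))) (XT.nd (nat_lit 702) (nat_lit 152) (nat_lit 0) (XT.nd (nat_lit 312) (nat_lit 76) (nat_lit 0) (XT.nd (nat_lit 156) (nat_lit 152) (nat_lit 0) (XT.nd (nat_lit 78) (nat_lit 0) (nat_lit 0) (XT.lf (nat_lit 0) (nat_lit 11961243033) (nat_lit 76) (nat_lit 7598160150) (nat_lit 76) (nat_lit 3998888544) (nat_lit 7) (nat_lit 4) (nat_lit 8) (nat_lit 5) (nat_lit 8) (nat_lit 4) (nat_lit 296) (nat_lit 217) (nat_lit 207)) (XT.lf (nat_lit 0) (nat_lit 18475446395)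 (nat_lit 76) (nat_lit 4979363652) (nat_lit 76) (nat_lit 1107560085) (nat_lit 7) (nat_lit 4) (nat_lit 8) (nat_lit 5) (nat_lit 8) (nat_lit 4) (nat_lit 297) (nat_lit 217) (nat_lit 206))) (XT.nd (nat_lit 78) (nat_lit 76) (nat_lit 0) (XT.lf (nat_lit 0) (nat_lit 1777221257) (nat_lit 152) (nat_lit 488054237) (nat_lit 76) (nat_lit 23354456537) (nat_lit 6) (nat_lit 5) (nat_lit 8) (nat_lit 5) (nat_lit 7) (nat_lit 4) (nat_lit 298) (nat_lit 217) (nat_lit 205)) (XT.lf (nat_lit 0) (nat_lit 4777935603) (nat_lit 152) (nat_lit 21342896755) (nat_lit 0) (nat_lit 607885757) (nat_lit 5) (nat_lit 5) (nat_lit 7) (nat_lit 4) (nat_lit 5) (nat_lit 4) (nat_lit 299) (nat_lit 217) (nat_lit 204)))) (XT.nd (nat_lit 156) (nat_lit 76) (nat_lit 0) (XT.nd (nat_lit 78) (nat_lit 0) (nat_lit 0) (XT.lf (nat_lit 0) (nat_lit 7889856713) (nat_lit 152) (nat_lit 16509748549) (nat_lit 0) (nat_lit 3495594149) (nat_lit 5) (nat_lit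 5) (nat_lit 7) (nat_lit 4) (nat_lit 5) (nat_lit 4) (nat_lit 300) (nat_lit 217) (nat_lit 203)) (XT.lf (nat_lit 0) (nat_lit 11077025738) (nat_lit 152) (nat_lit 11577868681) (nat_lit 0) (nat_lit 6469227250) (nat_lit 5) (nat_lit 5) (nat_lit 7) (nat_lit 4) (nat_lit 5) (nat_lit 4) (nat_lit 301) (nat_lit 217) (nat_lit 202))) (XT.nd (nat_lit 78) (nat_lit 76) (nat_lit 0) (XT.lf (nat_lit 0) (nat_lit 14347031173) (nat_lit 152) (nat_lit 6535514580) (nat_lit 0) (nat_lit 9535865140) (nat_lit 5) (nat_lit 5) (nat_lit 7) (nat_lit 4) (nat_lit 5) (nat_lit 4) (nat_lit 302) (nat_lit 217) (nat_lit 201)) (XT.nd (nat_lit 78) (nat_lit 76) (nat_lit 0) (XT.lf (nat_lit 0) (nat_lit 17707658746) (nat_lit 152) (nat_lit 1370680639) (nat_lit 0) (nat_lit 12702809336) (nat_lit 5) (nat_lit 5) (nat_lit 7) (nat_lit 4) (nat_lit 5) (nat_lit 4) (nat_lit 303) (nat_lit 217) (nat_lit 200)) (XT.lf (nat_lit 0) (nat_lit 4058838543)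 (nat_lit 76) (nat_lit 17171441253) (nat_lit 76) (nat_lit 11982131484) (nat_lit 4) (nat_lit 4) (nat_lit 5) (nat_lit 5) (nat_lit 5) (nat_lit 4) (nat_lit 304) (nat_lit 217) (nat_lit 199)))))) (XT.nd (nat_lit 312) (nat_lit 152) (nat_lit 0) (XT.nd (nat_lit 156) (nat_lit 0) (nat_lit 0) (XT.nd (nat_lit 78) (nat_lit 0) (nat_lit 0) (XT.lf (nat_lit 0) (nat_lit 9685947353) (nat_lit 76) (nat_lit 15198298532) (nat_lit 76) (nat_lit 9833312231) (nat_lit 4) (nat_lit 4) (nat_lit 5) (nat_lit 5) (nat_lit 5) (nat_lit 4) (nat_lit 305) (nat_lit 217) (nat_lit 198)) (XT.lf (nat_lit 0) (nat_lit 15478722775) (nat_lit 76) (nat_lit 13177426404) (nat_lit 76) (nat_lit 7645129121) (nat_lit 4) (nat_lit 4) (nat_lit 5) (nat_lit 5) (nat_lit 5) (nat_lit 4) (nat_lit 306) (nat_lit 217) (nat_lit 197))) (XT.nd (nat_lit 78) (nat_lit 0) (nat_lit 0) (XT.lf (nat_lit 0) (nat_lit 21450957132) (nat_lit 76) (nat_lit 11104013270)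 (nat_lit 76) (nat_lit 5412372194) (nat_lit 4) (nat_lit 4) (nat_lit 5) (nat_lit 5) (nat_lit 5) (nat_lit 4) (nat_lit 307) (nat_lit 217) (nat_lit 196)) (XT.lf (nat_lit 0) (nat_lit 27616870029) (nat_lit 76) (nat_lit 8973122432) (nat_lit 76) (nat_lit 3129725361) (nat_lit 4) (nat_lit 4) (nat_lit 5) (nat_lit 5) (nat_lit 5) (nat_lit 4) (nat_lit 308) (nat_lit 217) (nat_lit 195)))) (XT.nd (nat_lit 156) (nat_lit 76) (nat_lit 0) (XT.nd (nat_lit 78) (nat_lit 76) (nat_lit 0) (XT.lf (nat_lit 0) (nat_lit 33991142211) (nat_lit 76) (nat_lit 6779680339) (nat_lit 76) (nat_lit 791753750) (nat_lit 4) (nat_lit 4) (nat_lit 5) (nat_lit 5) (nat_lit 5) (nat_lit 4) (nat_lit 309) (nat_lit 217) (nat_lit 194)) (XT.lf (nat_lit 0) (nat_lit 1555671705) (nat_lit 152) (nat_lit 2936446752) (nat_lit 76) (nat_lit 39006932759) (nat_lit 3) (nat_lit 5) (nat_lit 5) (nat_lit 5) (nat_lit 4) (nat_lit 4) (nat_lit 310) (nat_lit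 217) (nat_lit 193))) (XT.nd (nat_lit 78) (nat_lit 0) (nat_lit 0) (XT.lf (nat_lit 0) (nat_lit 1885239198) (nat_lit 76) (nat_lit 2086422011) (nat_lit 152) (nat_lit 41561207814) (nat_lit 2) (nat_lit 5) (nat_lit 3) (nat_lit 5) (nat_lit 4) (nat_lit 4) (nat_lit 311) (nat_lit 217) (nat_lit 192)) (XT.nd (nat_lit 78) (nat_lit 0) (nat_lit 0) (XT.lf (nat_lit 0) (nat_lit 6514634949) (nat_lit 152) (nat_lit 40716488565) (nat_lit 0) (nat_lit 437000366) (nat_lit 2) (nat_lit 5) (nat_lit 4) (nat_lit 4) (nat_lit 2) (nat_lit 4) (nat_lit 312) (nat_lit 217) (nat_lit 191)) (XT.lf (nat_lit 0) (nat_lit 9170176839) (nat_lit 152) (nat_lit 37761446833) (nat_lit 0) (nat_lit 2979299596) (nat_lit 2) (nat_lit 5) (nat_lit 4) (nat_lit 4) (nat_lit 2) (nat_lit 4) (nat_lit 313) (nat_lit 217) (nat_lit 190))))))))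
noncomputable def xc46 : XT := (XT.nd (nat_lit 1404) (nat_lit 0) (nat_lit 0) (XT.nd (nat_lit 702) (nat_lit 76) (nat_lit 0) (XT.nd (nat_lit 312) (nat_lit 0) (nat_lit 0) (XT.nd (nat_lit 156) (nat_lit 0) (nat_lit 0) (XT.nd (nat_lit 78) (nat_lit 0) (nat_lit 0) (XT.lf (nat_lit 0) (nat_lit 11912034702) (nat_lit 152) (nat_lit 34742893921) (nat_lit 0) (nat_lit 5613307308) (nat_lit 2) (nat_lit 5) (nat_lit 4) (nat_lit 4) (nat_lit 2) (nat_lit 4) (nat_lit 314) (nat_lit 217) (nat_lit 189)) (XT.lf (nat_lit 0) (nat_lit 14746736771) (nat_lit 152) (nat_lit 31653642798) (nat_lit 0) (nat_lit 8345294947) (nat_lit 2) (nat_lit 5) (nat_lit 4) (nat_lit 4) (nat_lit 2) (nat_lit 4) (nat_lit 315) (nat_lit 217) (nat_lit 188))) (XT.nd (nat_lit 78) (nat_lit 0) (nat_lit 0) (XT.lf (nat_lit 0) (nat_lit 17681032337) (nat_lit 152) (nat_lit 28486338103) (nat_lit 0) (nat_lit 11181767247) (nat_lit 2) (nat_lit 5) (nat_lit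 4) (nat_lit 4) (nat_lit 2) (nat_lit 4) (nat_lit 316) (nat_lit 217) (nat_lit 187)) (XT.lf (nat_lit 0) (nat_lit 20721907818) (nat_lit 152) (nat_lit 25233438636) (nat_lit 0) (nat_lit 14129477712) (nat_lit 2) (nat_lit 5) (nat_lit 4) (nat_lit 4) (nat_lit 2) (nat_lit 4) (nat_lit 317) (nat_lit 217) (nat_lit 186)))) (XT.nd (nat_lit 156) (nat_lit 0) (nat_lit 0) (XT.nd (nat_lit 78) (nat_lit 0) (nat_lit 0) (XT.lf (nat_lit 0) (nat_lit 23876603394) (nat_lit 152) (nat_lit 21887199398) (nat_lit 0) (nat_lit 17195444702) (nat_lit 2) (nat_lit 5) (nat_lit 4) (nat_lit 4) (nat_lit 2) (nat_lit 4) (nat_lit 318) (nat_lit 217) (nat_lit 185)) (XT.lf (nat_lit 0) (nat_lit 27152630245) (nat_lit 152) (nat_lit 18439653152) (nat_lit 0) (nat_lit 20386968137) (nat_lit 2) (nat_lit 5) (nat_lit 4) (nat_lit 4) (nat_lit 2) (nat_lit 4) (nat_lit 319) (nat_lit 217) (nat_lit 184))) (XT.nd (nat_lit 78) (nat_lit 0) (nat_lit 0)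 (XT.lf (nat_lit 0) (nat_lit 30557788434) (nat_lit 152) (nat_lit 14882591455) (nat_lit 0) (nat_lit 23711646883) (nat_lit 2) (nat_lit 5) (nat_lit 4) (nat_lit 4) (nat_lit 2) (nat_lit 4) (nat_lit 320) (nat_lit 217) (nat_lit 183)) (XT.nd (nat_lit 78) (nat_lit 0) (nat_lit 0) (XT.lf (nat_lit 0) (nat_lit 34100185482) (nat_lit 152) (nat_lit 11207545112) (nat_lit 0) (nat_lit 27177396841) (nat_lit 2) (nat_lit 5) (nat_lit 4) (nat_lit 4) (nat_lit 2) (nat_lit 4) (nat_lit 321) (nat_lit 217) (nat_lit 182)) (XT.lf (nat_lit 0) (nat_lit 37788255666) (nat_lit 152) (nat_lit 7405764013) (nat_lit 0) (nat_lit 30792469797) (nat_lit 2) (nat_lit 5) (nat_lit 4) (nat_lit 4) (nat_lit 2) (nat_lit 4) (nat_lit 322) (nat_lit 217) (nat_lit 181)))))) (XT.nd (nat_lit 312) (nat_lit 0) (nat_lit 0) (XT.nd (nat_lit 156) (nat_lit 0) (nat_lit 0) (XT.nd (nat_lit 78) (nat_lit 76) (nat_lit 0) (XT.lf (nat_lit 0) (nat_lit 41630780106)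 (nat_lit 152) (nat_lit 3468196299) (nat_lit 0) (nat_lit 34565473068) (nat_lit 2) (nat_lit 5) (nat_lit 4) (nat_lit 4) (nat_lit 2) (nat_lit 4) (nat_lit 323) (nat_lit 217) (nat_lit 180)) (XT.lf (nat_lit 0) (nat_lit 634852434) (nat_lit 76) (nat_lit 45011967061) (nat_lit 76) (nat_lit 37880449386) (nat_lit 1) (nat_lit 4) (nat_lit 2) (nat_lit 5) (nat_lit 2) (nat_lit 4) (nat_lit 324) (nat_lit 217) (nat_lit 179))) (XT.nd (nat_lit 78) (nat_lit 0) (nat_lit 0) (XT.lf (nat_lit 0) (nat_lit 5012579079) (nat_lit 76) (nat_lit 44881858085) (nat_lit 76) (nat_lit 37687282660) (nat_lit 1) (nat_lit 4) (nat_lit 2) (nat_lit 5) (nat_lit 2) (nat_lit 4) (nat_lit 325) (nat_lit 217) (nat_lit 178)) (XT.lf (nat_lit 0) (nat_lit 9560732561) (nat_lit 76) (nat_lit 44767075276) (nat_lit 76) (nat_lit 37512444852) (nat_lit 1) (nat_lit 4) (nat_lit 2) (nat_lit 5) (nat_lit 2) (nat_lit 4) (nat_lit 326) (nat_lit 217) (nat_lit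 177)))) (XT.nd (nat_lit 156) (nat_lit 0) (nat_lit 0) (XT.nd (nat_lit 78) (nat_lit 0) (nat_lit 0) (XT.lf (nat_lit 0) (nat_lit 14290141817) (nat_lit 76) (nat_lit 44667345342) (nat_lit 76) (nat_lit 37355519679) (nat_lit 1) (nat_lit 4) (nat_lit 2) (nat_lit 5) (nat_lit 2) (nat_lit 4) (nat_lit 327) (nat_lit 217) (nat_lit 176)) (XT.lf (nat_lit 0) (nat_lit 19212067345) (nat_lit 76) (nat_lit 44582430830) (nat_lit 76) (nat_lit 37216133512) (nat_lit 1) (nat_lit 4) (nat_lit 2) (nat_lit 5) (nat_lit 2) (nat_lit 4) (nat_lit 328) (nat_lit 217) (nat_lit 175))) (XT.nd (nat_lit 78) (nat_lit 0) (nat_lit 0) (XT.lf (nat_lit 0) (nat_lit 24338228016) (nat_lit 76) (nat_lit 44512129563) (nat_lit 76) (nat_lit 37093954479) (nat_lit 1) (nat_lit 4) (nat_lit 2) (nat_lit 5) (nat_lit 2) (nat_lit 4) (nat_lit 329) (nat_lit 217) (nat_lit 174)) (XT.nd (nat_lit 78) (nat_lit 0) (nat_lit 0) (XT.lf (nat_lit 0) (nat_lit 29680828973)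 (nat_lit 76) (nat_lit 44456274158) (nat_lit 76) (nat_lit 36988691676) (nat_lit 1) (nat_lit 4) (nat_lit 2) (nat_lit 5) (nat_lit 2) (nat_lit 4) (nat_lit 330) (nat_lit 217) (nat_lit 173)) (XT.lf (nat_lit 0) (nat_lit 35252590696) (nat_lit 76) (nat_lit 44414731624) (nat_lit 76) (nat_lit 36900094479) (nat_lit 1) (nat_lit 4) (nat_lit 2) (nat_lit 5) (nat_lit 2) (nat_lit 4) (nat_lit 331) (nat_lit 217) (nat_lit 172))))))) (XT.nd (nat_lit 702) (nat_lit 0) (nat_lit 0) (XT.nd (nat_lit 312) (nat_lit 0) (nat_lit 0) (XT.nd (nat_lit 156) (nat_lit 0) (nat_lit 0) (XT.nd (nat_lit 78) (nat_lit 0) (nat_lit 0) (XT.lf (nat_lit 0) (nat_lit 41066779284) (nat_lit 76) (nat_lit 44387403052) (nat_lit 76) (nat_lit 36827951941) (nat_lit 1) (nat_lit 4) (nat_lit 2) (nat_lit 5) (nat_lit 2) (nat_lit 4) (nat_lit 332) (nat_lit 217) (nat_lit 171)) (XT.lf (nat_lit 0) (nat_lit 47137238042) (nat_lit 76) (nat_lit 44374223373)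 (nat_lit 76) (nat_lit 36772092295) (nat_lit 1) (nat_lit 4) (nat_lit 2) (nat_lit 5) (nat_lit 2) (nat_lit 4) (nat_lit 333) (nat_lit 217) (nat_lit 170))) (XT.nd (nat_lit 78) (nat_lit 0) (nat_lit 0) (XT.lf (nat_lit 0) (nat_lit 53478420445) (nat_lit 76) (nat_lit 44375161207) (nat_lit 76) (nat_lit 36732382541) (nat_lit 1) (nat_lit 4) (nat_lit 2) (nat_lit 5) (nat_lit 2) (nat_lit 4) (nat_lit 334) (nat_lit 217) (nat_lit 169)) (XT.lf (nat_lit 0) (nat_lit 60105424545) (nat_lit 76) (nat_lit 44390218787) (nat_lit 76) (nat_lit 36708728132) (nat_lit 1) (nat_lit 4) (nat_lit 2) (nat_lit 5) (nat_lit 2) (nat_lit 4) (nat_lit 335) (nat_lit 217) (nat_lit 168)))) (XT.nd (nat_lit 156) (nat_lit 0) (nat_lit 0) (XT.nd (nat_lit 78) (nat_lit 0) (nat_lit 0) (XT.lf (nat_lit 0) (nat_lit 67034028924) (nat_lit 76) (nat_lit 44419431964) (nat_lit 76) (nat_lit 36701072749) (nat_lit 1) (nat_lit 4) (nat_lit 2) (nat_lit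 5) (nat_lit 2) (nat_lit 4) (nat_lit 336) (nat_lit 217) (nat_lit 167)) (XT.lf (nat_lit 0) (nat_lit 74280730258) (nat_lit 76) (nat_lit 44462870294) (nat_lit 76) (nat_lit 36709398165) (nat_lit 1) (nat_lit 4) (nat_lit 2) (nat_lit 5) (nat_lit 2) (nat_lit 4) (nat_lit 337) (nat_lit 217) (nat_lit 166))) (XT.nd (nat_lit 78) (nat_lit 0) (nat_lit 0) (XT.lf (nat_lit 0) (nat_lit 81862782599) (nat_lit 76) (nat_lit 44520637201) (nat_lit 76) (nat_lit 36733724200) (nat_lit 1) (nat_lit 4) (nat_lit 2) (nat_lit 5) (nat_lit 2) (nat_lit 4) (nat_lit 338) (nat_lit 217) (nat_lit 165)) (XT.nd (nat_lit 78) (nat_lit 0) (nat_lit 0) (XT.lf (nat_lit 0) (nat_lit 89798238452) (nat_lit 76) (nat_lit 44592870225) (nat_lit 76) (nat_lit 36774108776) (nat_lit 1) (nat_lit 4) (nat_lit 2) (nat_lit 5) (nat_lit 2) (nat_lit 4) (nat_lit 339) (nat_lit 217) (nat_lit 164)) (XT.lf (nat_lit 0) (nat_lit 98105991760) (nat_lit 76) (nat_lit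 44679741350) (nat_lit 76) (nat_lit 36830648045) (nat_lit 1) (nat_lit 4) (nat_lit 2) (nat_lit 5) (nat_lit 2) (nat_lit 4) (nat_lit 340) (nat_lit 217) (nat_lit 163)))))) (XT.nd (nat_lit 312) (nat_lit 0) (nat_lit 0) (XT.nd (nat_lit 156) (nat_lit 0) (nat_lit 0) (XT.nd (nat_lit 78) (nat_lit 0) (nat_lit 0) (XT.lf (nat_lit 0) (nat_lit 106805822887) (nat_lit 76) (nat_lit 44781457412) (nat_lit 76) (nat_lit 36903476625) (nat_lit 1) (nat_lit 4) (nat_lit 2) (nat_lit 5) (nat_lit 2) (nat_lit 4) (nat_lit 341) (nat_lit 217) (nat_lit 162)) (XT.lf (nat_lit 0) (nat_lit 115918445718) (nat_lit 76) (nat_lit 44898260592) (nat_lit 76) (nat_lit 36992767918) (nat_lit 1) (nat_lit 4) (nat_lit 2) (nat_lit 5) (nat_lit 2) (nat_lit 4) (nat_lit 342) (nat_lit 217) (nat_lit 161))) (XT.nd (nat_lit 78) (nat_lit 0) (nat_lit 0) (XT.lf (nat_lit 0) (nat_lit 125465556973) (nat_lit 76) (nat_lit 45030428992) (nat_lit 76) (nat_lit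 37098734521) (nat_lit 1) (nat_lit 4) (nat_lit 2) (nat_lit 5) (nat_lit 2) (nat_lit 4) (nat_lit 343) (nat_lit 217) (nat_lit 160)) (XT.lf (nat_lit 0) (nat_lit 135469887870) (nat_lit 76) (nat_lit 45178277300) (nat_lit 76) (nat_lit 37221628736) (nat_lit 1) (nat_lit 4) (nat_lit 2) (nat_lit 5) (nat_lit 2) (nat_lit 4) (nat_lit 344) (nat_lit 217) (nat_lit 159)))) (XT.nd (nat_lit 156) (nat_lit 0) (nat_lit 0) (XT.nd (nat_lit 78) (nat_lit 0) (nat_lit 0) (XT.lf (nat_lit 0) (nat_lit 145955258243) (nat_lit 76) (nat_lit 45342157535) (nat_lit 76) (nat_lit 37361743168) (nat_lit 1) (nat_lit 4) (nat_lit 2) (nat_lit 5) (nat_lit 2) (nat_lit 4) (nat_lit 345) (nat_lit 217) (nat_lit 158)) (XT.lf (nat_lit 0) (nat_lit 156946633262) (nat_lit 76) (nat_lit 45522459888) (nat_lit 76) (nat_lit 37519411423) (nat_lit 1) (nat_lit 4) (nat_lit 2) (nat_lit 5) (nat_lit 2) (nat_lit 4) (nat_lit 346) (nat_lit 217) (nat_lit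 157))) (XT.nd (nat_lit 78) (nat_lit 0) (nat_lit 0) (XT.lf (nat_lit 0) (nat_lit 168470182865) (nat_lit 76) (nat_lit 45719613651) (nat_lit 76) (nat_lit 37695008902) (nat_lit 1) (nat_lit 4) (nat_lit 2) (nat_lit 5) (nat_lit 2) (nat_lit 4) (nat_lit 347) (nat_lit 217) (nat_lit 156)) (XT.nd (nat_lit 78) (nat_lit 0) (nat_lit 0) (XT.lf (nat_lit 0) (nat_lit 180553344076) (nat_lit 76) (nat_lit 45934088237) (nat_lit 76) (nat_lit 37888953694) (nat_lit 1) (nat_lit 4) (nat_lit 2) (nat_lit 5) (nat_lit 2) (nat_lit 4) (nat_lit 348) (nat_lit 217) (nat_lit 155)) (XT.lf (nat_lit 0) (nat_lit 193224886327) (nat_lit 76) (nat_lit 46166394299) (nat_lit 76) (nat_lit 38101707572) (nat_lit 1) (nat_lit 4) (nat_lit 2) (nat_lit 5) (nat_lit 2) (nat_lit 4) (nat_lit 349) (nat_lit 217) (nat_lit 154))))))))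
noncomputable def xc47 : XT := (XT.nd (nat_lit 32448) (nat_lit 0) (nat_lit 304) (XT.nd (nat_lit 702) (nat_lit 0) (nat_lit 0) (XT.nd (nat_lit 312) (nat_lit 0) (nat_lit 0) (XT.nd (nat_lit 156) (nat_lit 0) (nat_lit 0) (XT.nd (nat_lit 78) (nat_lit 0) (nat_lit 0) (XT.lf (nat_lit 0) (nat_lit 206514979956) (nat_lit 76) (nat_lit 46417084949) (nat_lit 76) (nat_lit 38333777093) (nat_lit 1) (nat_lit 4) (nat_lit 2) (nat_lit 5) (nat_lit 2) (nat_lit 4) (nat_lit 350) (nat_lit 217) (nat_lit 153)) (XT.lf (nat_lit 0) (nat_lit 220455268043) (nat_lit 76) (nat_lit 46686757068) (nat_lit 76) (nat_lit 38585714804) (nat_lit 1) (nat_lit 4) (nat_lit 2) (nat_lit 5) (nat_lit 2) (nat_lit 4) (nat_lit 351) (nat_lit 217) (nat_lit 152))) (XT.nd (nat_lit 78) (nat_lit 0) (nat_lit 0) (XT.lf (nat_lit 0) (nat_lit 235078941751) (nat_lit 76) (nat_lit 46976052732) (nat_lit 76) (nat_lit 38858120556) (nat_lit 1) (nat_lit 4)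 (nat_lit 2) (nat_lit 5) (nat_lit 2) (nat_lit 4) (nat_lit 352) (nat_lit 217) (nat_lit 151)) (XT.lf (nat_lit 0) (nat_lit 250420819349) (nat_lit 76) (nat_lit 47285660741) (nat_lit 76) (nat_lit 39151642934) (nat_lit 1) (nat_lit 4) (nat_lit 2) (nat_lit 5) (nat_lit 2) (nat_lit 4) (nat_lit 353) (nat_lit 217) (nat_lit 150)))) (XT.nd (nat_lit 156) (nat_lit 0) (nat_lit 0) (XT.nd (nat_lit 78) (nat_lit 0) (nat_lit 0) (XT.lf (nat_lit 0) (nat_lit 266517429119) (nat_lit 76) (nat_lit 47616318257) (nat_lit 76) (nat_lit 39466980802) (nat_lit 1) (nat_lit 4) (nat_lit 2) (nat_lit 5) (nat_lit 2) (nat_lit 4) (nat_lit 354) (nat_lit 217) (nat_lit 149)) (XT.lf (nat_lit 0) (nat_lit 283407096321) (nat_lit 76) (nat_lit 47968812559) (nat_lit 76) (nat_lit 39804884963) (nat_lit 1) (nat_lit 4) (nat_lit 2) (nat_lit 5) (nat_lit 2) (nat_lit 4) (nat_lit 355) (nat_lit 217) (nat_lit 148))) (XT.nd (nat_lit 78) (nat_lit 0)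 (nat_lit 0) (XT.lf (nat_lit 0) (nat_lit 301130034448) (nat_lit 76) (nat_lit 48343982921) (nat_lit 76) (nat_lit 40166159952) (nat_lit 1) (nat_lit 4) (nat_lit 2) (nat_lit 5) (nat_lit 2) (nat_lit 4) (nat_lit 356) (nat_lit 217) (nat_lit 147)) (XT.nd (nat_lit 78) (nat_lit 0) (nat_lit 0) (XT.lf (nat_lit 0) (nat_lit 319728440973) (nat_lit 76) (nat_lit 48742722603) (nat_lit 76) (nat_lit 40551665946) (nat_lit 1) (nat_lit 4) (nat_lit 2) (nat_lit 5) (nat_lit 2) (nat_lit 4) (nat_lit 357) (nat_lit 217) (nat_lit 146)) (XT.lf (nat_lit 0) (nat_lit 339246597816) (nat_lit 76) (nat_lit 49165980988) (nat_lit 76) (nat_lit 40962320818) (nat_lit 1) (nat_lit 4) (nat_lit 2) (nat_lit 5) (nat_lit 2) (nat_lit 4) (nat_lit 358) (nat_lit 217) (nat_lit 145)))))) (XT.nd (nat_lit 312) (nat_lit 0) (nat_lit 0) (XT.nd (nat_lit 156) (nat_lit 0) (nat_lit 0) (XT.nd (nat_lit 78) (nat_lit 0) (nat_lit 0) (XT.lf (nat_lit 0)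 (nat_lit 359730976779) (nat_lit 76) (nat_lit 49614765832) (nat_lit 76) (nat_lit 41399102317) (nat_lit 1) (nat_lit 4) (nat_lit 2) (nat_lit 5) (nat_lit 2) (nat_lit 4) (nat_lit 359) (nat_lit 217) (nat_lit 144)) (XT.lf (nat_lit 0) (nat_lit 381230350192) (nat_lit 76) (nat_lit 50090145671) (nat_lit 76) (nat_lit 41863050398) (nat_lit 1) (nat_lit 4) (nat_lit 2) (nat_lit 5) (nat_lit 2) (nat_lit 4) (nat_lit 360) (nat_lit 217) (nat_lit 143))) (XT.nd (nat_lit 78) (nat_lit 0) (nat_lit 0) (XT.lf (nat_lit 0) (nat_lit 403795907041) (nat_lit 76) (nat_lit 50593252362) (nat_lit 76) (nat_lit 42355269701) (nat_lit 1) (nat_lit 4) (nat_lit 2) (nat_lit 5) (nat_lit 2) (nat_lit 4) (nat_lit 361) (nat_lit 217) (nat_lit 142)) (XT.lf (nat_lit 0) (nat_lit 427481374840) (nat_lit 76) (nat_lit 51125283778) (nat_lit 76) (nat_lit 42876932176) (nat_lit 1) (nat_lit 4) (nat_lit 2) (nat_lit 5) (nat_lit 2) (nat_lit 4) (nat_lit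 362) (nat_lit 217) (nat_lit 141)))) (XT.nd (nat_lit 156) (nat_lit 0) (nat_lit 0) (XT.nd (nat_lit 78) (nat_lit 0) (nat_lit 0) (XT.lf (nat_lit 0) (nat_lit 452343147562) (nat_lit 76) (nat_lit 51687506660) (nat_lit 76) (nat_lit 43429279876) (nat_lit 1) (nat_lit 4) (nat_lit 2) (nat_lit 5) (nat_lit 2) (nat_lit 4) (nat_lit 363) (nat_lit 217) (nat_lit 140)) (XT.lf (nat_lit 0) (nat_lit 478440419903) (nat_lit 76) (nat_lit 52281259634) (nat_lit 76) (nat_lit 44013627916) (nat_lit 1) (nat_lit 4) (nat_lit 2) (nat_lit 5) (nat_lit 2) (nat_lit 4) (nat_lit 364) (nat_lit 217) (nat_lit 139))) (XT.nd (nat_lit 78) (nat_lit 0) (nat_lit 0) (XT.lf (nat_lit 0) (nat_lit 505835328226) (nat_lit 76) (nat_lit 52907956399) (nat_lit 76) (nat_lit 44631367599) (nat_lit 1) (nat_lit 4) (nat_lit 2) (nat_lit 5) (nat_lit 2) (nat_lit 4) (nat_lit 365) (nat_lit 217) (nat_lit 138)) (XT.nd (nat_lit 31122) (nat_lit 0) (nat_lit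 988) (XT.lf (nat_lit 0) (nat_lit 534593098503) (nat_lit 76) (nat_lit 53569089088) (nat_lit 76) (nat_lit 45283969735) (nat_lit 1) (nat_lit 4) (nat_lit 2) (nat_lit 5) (nat_lit 2) (nat_lit 4) (nat_lit 366) (nat_lit 217) (nat_lit 137)) (XT.lf (nat_lit 0) (nat_lit 2573764298) (nat_lit 152) (nat_lit 2431168421) (nat_lit 152) (nat_lit 2431168421) (nat_lit 14) (nat_lit 4) (nat_lit 16) (nat_lit 5) (nat_lit 16) (nat_lit 4) (nat_lit 284) (nat_lit 218) (nat_lit 218))))))) (XT.nd (nat_lit 702) (nat_lit 228) (nat_lit 0) (XT.nd (nat_lit 312) (nat_lit 304) (nat_lit 0) (XT.nd (nat_lit 156) (nat_lit 0) (nat_lit 0) (XT.nd (nat_lit 78) (nat_lit 152) (nat_lit 0) (XT.lf (nat_lit 0) (nat_lit 12105817465) (nat_lit 152) (nat_lit 1907268589) (nat_lit 152) (nat_lit 1393368930) (nat_lit 14) (nat_lit 4) (nat_lit 16) (nat_lit 5) (nat_lit 16) (nat_lit 4) (nat_lit 285) (nat_lit 218) (nat_lit 217)) (XT.lf (nat_lit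 0) (nat_lit 2117723955) (nat_lit 152) (nat_lit 12688951264) (nat_lit 0) (nat_lit 1162173569) (nat_lit 12) (nat_lit 5) (nat_lit 14) (nat_lit 4) (nat_lit 12) (nat_lit 4) (nat_lit 286) (nat_lit 218) (nat_lit 216))) (XT.nd (nat_lit 78) (nat_lit 0) (nat_lit 0) (XT.lf (nat_lit 0) (nat_lit 5717555003) (nat_lit 152) (nat_lit 6524792740) (nat_lit 0) (nat_lit 4318078770) (nat_lit 12) (nat_lit 5) (nat_lit 14) (nat_lit 4) (nat_lit 12) (nat_lit 4) (nat_lit 287) (nat_lit 218) (nat_lit 215)) (XT.lf (nat_lit 0) (nat_lit 9375405127) (nat_lit 152) (nat_lit 259331228) (nat_lit 0) (nat_lit 7553142373) (nat_lit 12) (nat_lit 5) (nat_lit 14) (nat_lit 4) (nat_lit 12) (nat_lit 4) (nat_lit 288) (nat_lit 218) (nat_lit 214)))) (XT.nd (nat_lit 156) (nat_lit 152) (nat_lit 0) (XT.nd (nat_lit 78) (nat_lit 0) (nat_lit 0) (XT.lf (nat_lit 0) (nat_lit 6324783612) (nat_lit 152) (nat_lit 6873947479) (nat_lit 152) (nat_lit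 4649030895) (nat_lit 10) (nat_lit 4) (nat_lit 12) (nat_lit 5) (nat_lit 12) (nat_lit 4) (nat_lit 289) (nat_lit 218) (nat_lit 213)) (XT.lf (nat_lit 0) (nat_lit 13053233531) (nat_lit 152) (nat_lit 4050722174) (nat_lit 152) (nat_lit 1442325752) (nat_lit 10) (nat_lit 4) (nat_lit 12) (nat_lit 5) (nat_lit 12) (nat_lit 4) (nat_lit 290) (nat_lit 218) (nat_lit 212))) (XT.nd (nat_lit 78) (nat_lit 0) (nat_lit 0) (XT.lf (nat_lit 0) (nat_lit 640377659) (nat_lit 76) (nat_lit 1122545742) (nat_lit 152) (nat_lit 17520472466) (nat_lit 8) (nat_lit 5) (nat_lit 9) (nat_lit 5) (nat_lit 10) (nat_lit 4) (nat_lit 291) (nat_lit 218) (nat_lit 211)) (XT.nd (nat_lit 78) (nat_lit 0) (nat_lit 0) (XT.lf (nat_lit 0) (nat_lit 5095947334) (nat_lit 152) (nat_lit 13026923125) (nat_lit 0) (nat_lit 1932668446) (nat_lit 8) (nat_lit 5) (nat_lit 10) (nat_lit 4) (nat_lit 8) (nat_lit 4) (nat_lit 292) (nat_lit 218) (nat_lit 210))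 (XT.lf (nat_lit 0) (nat_lit 8510172138) (nat_lit 152) (nat_lit 7329133024) (nat_lit 0) (nat_lit 5031403439) (nat_lit 8) (nat_lit 5) (nat_lit 10) (nat_lit 4) (nat_lit 8) (nat_lit 4) (nat_lit 293) (nat_lit 218) (nat_lit 209)))))) (XT.nd (nat_lit 390) (nat_lit 76) (nat_lit 0) (XT.nd (nat_lit 156) (nat_lit 76) (nat_lit 0) (XT.nd (nat_lit 78) (nat_lit 76) (nat_lit 0) (XT.lf (nat_lit 0) (nat_lit 11996200836) (nat_lit 152) (nat_lit 1518555652) (nat_lit 0) (nat_lit 8216965650) (nat_lit 8) (nat_lit 5) (nat_lit 10) (nat_lit 4) (nat_lit 8) (nat_lit 4) (nat_lit 294) (nat_lit 218) (nat_lit 208)) (XT.lf (nat_lit 0) (nat_lit 4564744012) (nat_lit 76) (nat_lit 11068857931) (nat_lit 76) (nat_lit 7003464186) (nat_lit 7) (nat_lit 4) (nat_lit 8) (nat_lit 5) (nat_lit 8) (nat_lit 4) (nat_lit 295) (nat_lit 218) (nat_lit 207))) (XT.nd (nat_lit 78) (nat_lit 76) (nat_lit 0) (XT.lf (nat_lit 0) (nat_lit 10843666253)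 (nat_lit 76) (nat_lit 8542694678) (nat_lit 76) (nat_lit 4204768971) (nat_lit 7) (nat_lit 4) (nat_lit 8) (nat_lit 5) (nat_lit 8) (nat_lit 4) (nat_lit 296) (nat_lit 218) (nat_lit 206)) (XT.nd (nat_lit 78) (nat_lit 76) (nat_lit 0) (XT.lf (nat_lit 0) (nat_lit 17282950577) (nat_lit 76) (nat_lit 5955969530) (nat_lit 76) (nat_lit 1358489574) (nat_lit 7) (nat_lit 4) (nat_lit 8) (nat_lit 5) (nat_lit 8) (nat_lit 4) (nat_lit 297) (nat_lit 218) (nat_lit 205)) (XT.lf (nat_lit 0) (nat_lit 1492792401) (nat_lit 152) (nat_lit 1784450054) (nat_lit 76) (nat_lit 22379855049) (nat_lit 6) (nat_lit 5) (nat_lit 8) (nat_lit 5) (nat_lit 7) (nat_lit 4) (nat_lit 298) (nat_lit 218) (nat_lit 204))))) (XT.nd (nat_lit 156) (nat_lit 0) (nat_lit 0) (XT.nd (nat_lit 78) (nat_lit 0) (nat_lit 0) (XT.lf (nat_lit 0) (nat_lit 3985251360) (nat_lit 76) (nat_lit 436870197) (nat_lit 152) (nat_lit 22347582248) (nat_lit 5) (nat_lit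 5) (nat_lit 6) (nat_lit 5) (nat_lit 7) (nat_lit 4) (nat_lit 299) (nat_lit 218) (nat_lit 203)) (XT.lf (nat_lit 0) (nat_lit 7488027684) (nat_lit 152) (nat_lit 18014203348) (nat_lit 0) (nat_lit 2436303349) (nat_lit 5) (nat_lit 5) (nat_lit 7) (nat_lit 4) (nat_lit 5) (nat_lit 4) (nat_lit 300) (nat_lit 218) (nat_lit 202))) (XT.nd (nat_lit 78) (nat_lit 0) (nat_lit 0) (XT.lf (nat_lit 0) (nat_lit 10637868884) (nat_lit 152) (nat_lit 13148723363) (nat_lit 0) (nat_lit 5382777004) (nat_lit 5) (nat_lit 5) (nat_lit 7) (nat_lit 4) (nat_lit 5) (nat_lit 4) (nat_lit 301) (nat_lit 218) (nat_lit 201)) (XT.nd (nat_lit 78) (nat_lit 0) (nat_lit 0) (XT.lf (nat_lit 0) (nat_lit 13872324010) (nat_lit 152) (nat_lit 8169607245) (nat_lit 0) (nat_lit 8423548753) (nat_lit 5) (nat_lit 5) (nat_lit 7) (nat_lit 4) (nat_lit 5) (nat_lit 4) (nat_lit 302) (nat_lit 218) (nat_lit 200)) (XT.lf (nat_lit 0) (nat_lit 17199094146)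 (nat_lit 152) (nat_lit 3064999956) (nat_lit 0) (nat_lit 11565858530) (nat_lit 5) (nat_lit 5) (nat_lit 7) (nat_lit 4) (nat_lit 5) (nat_lit 4) (nat_lit 303) (nat_lit 218) (nat_lit 199))))))))
noncomputable def xc48 : XT := (XT.nd (nat_lit 1404) (nat_lit 76) (nat_lit 0) (XT.nd (nat_lit 702) (nat_lit 0) (nat_lit 0) (XT.nd (nat_lit 312) (nat_lit 152) (nat_lit 0) (XT.nd (nat_lit 156) (nat_lit 0) (nat_lit 0) (XT.nd (nat_lit 78) (nat_lit 0) (nat_lit 0) (XT.lf (nat_lit 0) (nat_lit 2249242125) (nat_lit 76) (nat_lit 18411975021) (nat_lit 76) (nat_lit 12603062874) (nat_lit 4) (nat_lit 4) (nat_lit 5) (nat_lit 5) (nat_lit 5) (nat_lit 4) (nat_lit 304) (nat_lit 218) (nat_lit 198)) (XT.lf (nat_lit 0) (nat_lit 7819917360) (nat_lit 76) (nat_lit 16463675096) (nat_lit 76) (nat_lit 10487451965) (nat_lit 4) (nat_lit 4) (nat_lit 5) (nat_lit 5) (nat_lit 5) (nat_lit 4) (nat_lit 305) (nat_lit 218) (nat_lit 197)))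 (XT.nd (nat_lit 78) (nat_lit 0) (nat_lit 0) (XT.lf (nat_lit 0) (nat_lit 13558946520) (nat_lit 76) (nat_lit 14466462773) (nat_lit 76) (nat_lit 8330895849) (nat_lit 4) (nat_lit 4) (nat_lit 5) (nat_lit 5) (nat_lit 5) (nat_lit 4) (nat_lit 306) (nat_lit 218) (nat_lit 196)) (XT.lf (nat_lit 0) (nat_lit 19479993961) (nat_lit 76) (nat_lit 12415582786) (nat_lit 76) (nat_lit 6128259869) (nat_lit 4) (nat_lit 4) (nat_lit 5) (nat_lit 5) (nat_lit 5) (nat_lit 4) (nat_lit 307) (nat_lit 218) (nat_lit 195)))) (XT.nd (nat_lit 156) (nat_lit 152) (nat_lit 0) (XT.nd (nat_lit 78) (nat_lit 0) (nat_lit 0) (XT.lf (nat_lit 0) (nat_lit 25597157414) (nat_lit 76) (nat_lit 10306152088) (nat_lit 76) (nat_lit 3874299652) (nat_lit 4) (nat_lit 4) (nat_lit 5) (nat_lit 5) (nat_lit 5) (nat_lit 4) (nat_lit 308) (nat_lit 218) (nat_lit 194)) (XT.lf (nat_lit 0) (nat_lit 31925001555) (nat_lit 76) (nat_lit 8133148224) (nat_lit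 76) (nat_lit 1563648628) (nat_lit 4) (nat_lit 4) (nat_lit 5) (nat_lit 5) (nat_lit 5) (nat_lit 4) (nat_lit 309) (nat_lit 218) (nat_lit 193))) (XT.nd (nat_lit 78) (nat_lit 76) (nat_lit 0) (XT.lf (nat_lit 0) (nat_lit 783295467) (nat_lit 152) (nat_lit 5094836420) (nat_lit 76) (nat_lit 37682031724) (nat_lit 3) (nat_lit 5) (nat_lit 5) (nat_lit 5) (nat_lit 4) (nat_lit 4) (nat_lit 310) (nat_lit 218) (nat_lit 192)) (XT.nd (nat_lit 78) (nat_lit 76) (nat_lit 0) (XT.lf (nat_lit 0) (nat_lit 3145863659) (nat_lit 152) (nat_lit 376421657) (nat_lit 76) (nat_lit 42074394190) (nat_lit 3) (nat_lit 5) (nat_lit 5) (nat_lit 5) (nat_lit 4) (nat_lit 4) (nat_lit 311) (nat_lit 218) (nat_lit 191)) (XT.lf (nat_lit 0) (nat_lit 4642689761) (nat_lit 76) (nat_lit 1009523269) (nat_lit 152) (nat_lit 42081578290) (nat_lit 2) (nat_lit 5) (nat_lit 3) (nat_lit 5) (nat_lit 4) (nat_lit 4) (nat_lit 312) (nat_lit 218) (nat_lit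 190)))))) (XT.nd (nat_lit 312) (nat_lit 0) (nat_lit 0) (XT.nd (nat_lit 156) (nat_lit 0) (nat_lit 0) (XT.nd (nat_lit 78) (nat_lit 0) (nat_lit 0) (XT.lf (nat_lit 0) (nat_lit 8269329471) (nat_lit 152) (nat_lit 40161391465) (nat_lit 0) (nat_lit 1547815556) (nat_lit 2) (nat_lit 5) (nat_lit 4) (nat_lit 4) (nat_lit 2) (nat_lit 4) (nat_lit 313) (nat_lit 218) (nat_lit 189)) (XT.lf (nat_lit 0) (nat_lit 10989602608) (nat_lit 152) (nat_lit 37181974862) (nat_lit 0) (nat_lit 4165374264) (nat_lit 2) (nat_lit 5) (nat_lit 4) (nat_lit 4) (nat_lit 2) (nat_lit 4) (nat_lit 314) (nat_lit 218) (nat_lit 188))) (XT.nd (nat_lit 78) (nat_lit 0) (nat_lit 0) (XT.lf (nat_lit 0) (nat_lit 13803747797) (nat_lit 152) (nat_lit 34129996414) (nat_lit 0) (nat_lit 6881696185) (nat_lit 2) (nat_lit 5) (nat_lit 4) (nat_lit 4) (nat_lit 2) (nat_lit 4) (nat_lit 315) (nat_lit 218) (nat_lit 187)) (XT.lf (nat_lit 0) (nat_lit 16718465381)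 (nat_lit 152) (nat_lit 30998189506) (nat_lit 0) (nat_lit 9703248754) (nat_lit 2) (nat_lit 5) (nat_lit 4) (nat_lit 4) (nat_lit 2) (nat_lit 4) (nat_lit 316) (nat_lit 218) (nat_lit 186)))) (XT.nd (nat_lit 156) (nat_lit 0) (nat_lit 0) (XT.nd (nat_lit 78) (nat_lit 0) (nat_lit 0) (XT.lf (nat_lit 0) (nat_lit 19740695165) (nat_lit 152) (nat_lit 27779097455) (nat_lit 0) (nat_lit 12636749951) (nat_lit 2) (nat_lit 5) (nat_lit 4) (nat_lit 4) (nat_lit 2) (nat_lit 4) (nat_lit 317) (nat_lit 218) (nat_lit 185)) (XT.lf (nat_lit 0) (nat_lit 22877632934) (nat_lit 152) (nat_lit 24465055755) (nat_lit 0) (nat_lit 15689184304) (nat_lit 2) (nat_lit 5) (nat_lit 4) (nat_lit 4) (nat_lit 2) (nat_lit 4) (nat_lit 318) (nat_lit 218) (nat_lit 184))) (XT.nd (nat_lit 78) (nat_lit 0) (nat_lit 0) (XT.lf (nat_lit 0) (nat_lit 26136747587) (nat_lit 152) (nat_lit 21048173832) (nat_lit 0) (nat_lit 18867819515) (nat_lit 2)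 (nat_lit 5) (nat_lit 4) (nat_lit 4) (nat_lit 2) (nat_lit 4) (nat_lit 319) (nat_lit 218) (nat_lit 183)) (XT.nd (nat_lit 78) (nat_lit 0) (nat_lit 0) (XT.lf (nat_lit 0) (nat_lit 29525798922) (nat_lit 152) (nat_lit 17520316251) (nat_lit 0) (nat_lit 22180223760) (nat_lit 2) (nat_lit 5) (nat_lit 4) (nat_lit 4) (nat_lit 2) (nat_lit 4) (nat_lit 320) (nat_lit 218) (nat_lit 182)) (XT.lf (nat_lit 0) (nat_lit 33052856108) (nat_lit 152) (nat_lit 13873083353) (nat_lit 0) (nat_lit 25634283719) (nat_lit 2) (nat_lit 5) (nat_lit 4) (nat_lit 4) (nat_lit 2) (nat_lit 4) (nat_lit 321) (nat_lit 218) (nat_lit 181))))))) (XT.nd (nat_lit 702) (nat_lit 0) (nat_lit 0) (XT.nd (nat_lit 312) (nat_lit 0) (nat_lit 0) (XT.nd (nat_lit 156) (nat_lit 76) (nat_lit 0) (XT.nd (nat_lit 78) (nat_lit 0) (nat_lit 0) (XT.lf (nat_lit 0) (nat_lit 36726316901) (nat_lit 152) (nat_lit 10097791249) (nat_lit 0) (nat_lit 29238223342)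 (nat_lit 2) (nat_lit 5) (nat_lit 4) (nat_lit 4) (nat_lit 2) (nat_lit 4) (nat_lit 322) (nat_lit 218) (nat_lit 180)) (XT.lf (nat_lit 0) (nat_lit 40554927635) (nat_lit 152) (nat_lit 6185451148) (nat_lit 0) (nat_lit 33000623439) (nat_lit 2) (nat_lit 5) (nat_lit 4) (nat_lit 4) (nat_lit 2) (nat_lit 4) (nat_lit 323) (nat_lit 218) (nat_lit 179))) (XT.nd (nat_lit 78) (nat_lit 76) (nat_lit 0) (XT.lf (nat_lit 0) (nat_lit 44547804050) (nat_lit 152) (nat_lit 2126747956) (nat_lit 0) (nat_lit 36930442105) (nat_lit 2) (nat_lit 5) (nat_lit 4) (nat_lit 4) (nat_lit 2) (nat_lit 4) (nat_lit 324) (nat_lit 218) (nat_lit 178)) (XT.lf (nat_lit 0) (nat_lit 2157020017) (nat_lit 76) (nat_lit 46591110105) (nat_lit 76) (nat_lit 38913693160) (nat_lit 1) (nat_lit 4) (nat_lit 2) (nat_lit 5) (nat_lit 2) (nat_lit 4) (nat_lit 325) (nat_lit 218) (nat_lit 177)))) (XT.nd (nat_lit 156) (nat_lit 0) (nat_lit 0) (XT.nd (nat_lit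 78) (nat_lit 0) (nat_lit 0) (XT.lf (nat_lit 0) (nat_lit 6682660377) (nat_lit 76) (nat_lit 46486469743) (nat_lit 76) (nat_lit 38751857559) (nat_lit 1) (nat_lit 4) (nat_lit 2) (nat_lit 5) (nat_lit 2) (nat_lit 4) (nat_lit 326) (nat_lit 218) (nat_lit 176)) (XT.lf (nat_lit 0) (nat_lit 11390628565) (nat_lit 76) (nat_lit 46396399281) (nat_lit 76) (nat_lit 38607315443) (nat_lit 1) (nat_lit 4) (nat_lit 2) (nat_lit 5) (nat_lit 2) (nat_lit 4) (nat_lit 327) (nat_lit 218) (nat_lit 175))) (XT.nd (nat_lit 78) (nat_lit 0) (nat_lit 0) (XT.lf (nat_lit 0) (nat_lit 16292134027) (nat_lit 76) (nat_lit 46320684268) (nat_lit 76) (nat_lit 38479722662) (nat_lit 1) (nat_lit 4) (nat_lit 2) (nat_lit 5) (nat_lit 2) (nat_lit 4) (nat_lit 328) (nat_lit 218) (nat_lit 174)) (XT.nd (nat_lit 78) (nat_lit 0) (nat_lit 0) (XT.lf (nat_lit 0) (nat_lit 21398847017) (nat_lit 76) (nat_lit 46259144427) (nat_lit 76) (nat_lit 38368775425)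 (nat_lit 1) (nat_lit 4) (nat_lit 2) (nat_lit 5) (nat_lit 2) (nat_lit 4) (nat_lit 329) (nat_lit 218) (nat_lit 173)) (XT.lf (nat_lit 0) (nat_lit 26722926373) (nat_lit 76) (nat_lit 46211633238) (nat_lit 76) (nat_lit 38274209571) (nat_lit 1) (nat_lit 4) (nat_lit 2) (nat_lit 5) (nat_lit 2) (nat_lit 4) (nat_lit 330) (nat_lit 218) (nat_lit 172)))))) (XT.nd (nat_lit 312) (nat_lit 0) (nat_lit 0) (XT.nd (nat_lit 156) (nat_lit 0) (nat_lit 0) (XT.nd (nat_lit 78) (nat_lit 0) (nat_lit 0) (XT.lf (nat_lit 0) (nat_lit 32277048476) (nat_lit 76) (nat_lit 46178037576) (nat_lit 76) (nat_lit 38195799944) (nat_lit 1) (nat_lit 4) (nat_lit 2) (nat_lit 5) (nat_lit 2) (nat_lit 4) (nat_lit 331) (nat_lit 218) (nat_lit 171)) (XT.lf (nat_lit 0) (nat_lit 38074437425) (nat_lit 76) (nat_lit 46158277454) (nat_lit 76) (nat_lit 38133359854) (nat_lit 1) (nat_lit 4) (nat_lit 2) (nat_lit 5) (nat_lit 2) (nat_lit 4) (nat_lit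 332) (nat_lit 218) (nat_lit 170))) (XT.nd (nat_lit 78) (nat_lit 0) (nat_lit 0) (XT.lf (nat_lit 0) (nat_lit 44128896528) (nat_lit 76) (nat_lit 46152305822) (nat_lit 76) (nat_lit 38086740635) (nat_lit 1) (nat_lit 4) (nat_lit 2) (nat_lit 5) (nat_lit 2) (nat_lit 4) (nat_lit 333) (nat_lit 218) (nat_lit 169)) (XT.lf (nat_lit 0) (nat_lit 50454841163) (nat_lit 76) (nat_lit 46160108463) (nat_lit 76) (nat_lit 38055831287) (nat_lit 1) (nat_lit 4) (nat_lit 2) (nat_lit 5) (nat_lit 2) (nat_lit 4) (nat_lit 334) (nat_lit 218) (nat_lit 168)))) (XT.nd (nat_lit 156) (nat_lit 0) (nat_lit 0) (XT.nd (nat_lit 78) (nat_lit 0) (nat_lit 0) (XT.lf (nat_lit 0) (nat_lit 57067333104) (nat_lit 76) (nat_lit 46181703954) (nat_lit 76) (nat_lit 38040558218) (nat_lit 1) (nat_lit 4) (nat_lit 2) (nat_lit 5) (nat_lit 2) (nat_lit 4) (nat_lit 335) (nat_lit 218) (nat_lit 167)) (XT.lf (nat_lit 0) (nat_lit 63982116379) (nat_lit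 76) (nat_lit 46217143714) (nat_lit 76) (nat_lit 38040885063) (nat_lit 1) (nat_lit 4) (nat_lit 2) (nat_lit 5) (nat_lit 2) (nat_lit 4) (nat_lit 336) (nat_lit 218) (nat_lit 166))) (XT.nd (nat_lit 78) (nat_lit 0) (nat_lit 0) (XT.lf (nat_lit 0) (nat_lit 71215654757) (nat_lit 76) (nat_lit 46266512122) (nat_lit 76) (nat_lit 38056812600) (nat_lit 1) (nat_lit 4) (nat_lit 2) (nat_lit 5) (nat_lit 2) (nat_lit 4) (nat_lit 337) (nat_lit 218) (nat_lit 165)) (XT.nd (nat_lit 78) (nat_lit 0) (nat_lit 0) (XT.lf (nat_lit 0) (nat_lit 78785170949) (nat_lit 76) (nat_lit 46329926722) (nat_lit 76) (nat_lit 38088378752) (nat_lit 1) (nat_lit 4) (nat_lit 2) (nat_lit 5) (nat_lit 2) (nat_lit 4) (nat_lit 338) (nat_lit 218) (nat_lit 164)) (XT.lf (nat_lit 0) (nat_lit 86708687613) (nat_lit 76) (nat_lit 46407538502) (nat_lit 76) (nat_lit 38135658677) (nat_lit 1) (nat_lit 4) (nat_lit 2) (nat_lit 5) (nat_lit 2) (nat_lit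 4) (nat_lit 339) (nat_lit 218) (nat_lit 163))))))))
noncomputable def xc49 : XT := (XT.nd (nat_lit 1404) (nat_lit 0) (nat_lit 0) (XT.nd (nat_lit 702) (nat_lit 0) (nat_lit 0) (XT.nd (nat_lit 312) (nat_lit 0) (nat_lit 0) (XT.nd (nat_lit 156) (nat_lit 0) (nat_lit 0) (XT.nd (nat_lit 78) (nat_lit 0) (nat_lit 0) (XT.lf (nat_lit 0) (nat_lit 95005070265) (nat_lit 76) (nat_lit 46499532252) (nat_lit 76) (nat_lit 38198764944) (nat_lit 1) (nat_lit 4) (nat_lit 2) (nat_lit 5) (nat_lit 2) (nat_lit 4) (nat_lit 340) (nat_lit 218) (nat_lit 162)) (XT.lf (nat_lit 0) (nat_lit 103694072195) (nat_lit 76) (nat_lit 46606127004) (nat_lit 76) (nat_lit 38277847809) (nat_lit 1) (nat_lit 4) (nat_lit 2) (nat_lit 5) (nat_lit 2) (nat_lit 4) (nat_lit 341) (nat_lit 218) (nat_lit 161))) (XT.nd (nat_lit 78) (nat_lit 0) (nat_lit 0) (XT.lf (nat_lit 0) (nat_lit 112796381506) (nat_lit 76) (nat_lit 46727576556) (nat_lit 76)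 (nat_lit 38373095563) (nat_lit 1) (nat_lit 4) (nat_lit 2) (nat_lit 5) (nat_lit 2) (nat_lit 4) (nat_lit 342) (nat_lit 218) (nat_lit 160)) (XT.lf (nat_lit 0) (nat_lit 122333670360) (nat_lit 76) (nat_lit 46864170072) (nat_lit 76) (nat_lit 38484734986) (nat_lit 1) (nat_lit 4) (nat_lit 2) (nat_lit 5) (nat_lit 2) (nat_lit 4) (nat_lit 343) (nat_lit 218) (nat_lit 159)))) (XT.nd (nat_lit 156) (nat_lit 0) (nat_lit 0) (XT.nd (nat_lit 78) (nat_lit 0) (nat_lit 0) (XT.lf (nat_lit 0) (nat_lit 132328646589) (nat_lit 76) (nat_lit 47016232776) (nat_lit 76) (nat_lit 38613031887) (nat_lit 1) (nat_lit 4) (nat_lit 2) (nat_lit 5) (nat_lit 2) (nat_lit 4) (nat_lit 344) (nat_lit 218) (nat_lit 158)) (XT.lf (nat_lit 0) (nat_lit 142805107756) (nat_lit 76) (nat_lit 47184126721) (nat_lit 76) (nat_lit 38758291735) (nat_lit 1) (nat_lit 4) (nat_lit 2) (nat_lit 5) (nat_lit 2) (nat_lit 4) (nat_lit 345) (nat_lit 218)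 (nat_lit 157))) (XT.nd (nat_lit 78) (nat_lit 0) (nat_lit 0) (XT.lf (nat_lit 0) (nat_lit 153787997815) (nat_lit 76) (nat_lit 47368251655) (nat_lit 76) (nat_lit 38920860386) (nat_lit 1) (nat_lit 4) (nat_lit 2) (nat_lit 5) (nat_lit 2) (nat_lit 4) (nat_lit 346) (nat_lit 218) (nat_lit 156)) (XT.nd (nat_lit 78) (nat_lit 0) (nat_lit 0) (XT.lf (nat_lit 0) (nat_lit 165303466505) (nat_lit 76) (nat_lit 47569045972) (nat_lit 76) (nat_lit 39101124908) (nat_lit 1) (nat_lit 4) (nat_lit 2) (nat_lit 5) (nat_lit 2) (nat_lit 4) (nat_lit 347) (nat_lit 218) (nat_lit 155)) (XT.lf (nat_lit 0) (nat_lit 177378931609) (nat_lit 76) (nat_lit 47786987752) (nat_lit 76) (nat_lit 39299514503) (nat_lit 1) (nat_lit 4) (nat_lit 2) (nat_lit 5) (nat_lit 2) (nat_lit 4) (nat_lit 348) (nat_lit 218) (nat_lit 154)))))) (XT.nd (nat_lit 312) (nat_lit 0) (nat_lit 0) (XT.nd (nat_lit 156) (nat_lit 0) (nat_lit 0) (XT.nd (nat_lit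 78) (nat_lit 0) (nat_lit 0) (XT.lf (nat_lit 0) (nat_lit 190043144233) (nat_lit 76) (nat_lit 48022595904) (nat_lit 76) (nat_lit 39516501527) (nat_lit 1) (nat_lit 4) (nat_lit 2) (nat_lit 5) (nat_lit 2) (nat_lit 4) (nat_lit 349) (nat_lit 218) (nat_lit 153)) (XT.lf (nat_lit 0) (nat_lit 203326257265) (nat_lit 76) (nat_lit 48276431401) (nat_lit 76) (nat_lit 39752602616) (nat_lit 1) (nat_lit 4) (nat_lit 2) (nat_lit 5) (nat_lit 2) (nat_lit 4) (nat_lit 350) (nat_lit 218) (nat_lit 152))) (XT.nd (nat_lit 78) (nat_lit 0) (nat_lit 0) (XT.lf (nat_lit 0) (nat_lit 217259897165) (nat_lit 76) (nat_lit 48549098612) (nat_lit 76) (nat_lit 40008379915) (nat_lit 1) (nat_lit 4) (nat_lit 2) (nat_lit 5) (nat_lit 2) (nat_lit 4) (nat_lit 351) (nat_lit 218) (nat_lit 151)) (XT.lf (nat_lit 0) (nat_lit 231877239266) (nat_lit 76) (nat_lit 48841246745) (nat_lit 76) (nat_lit 40284442418) (nat_lit 1) (nat_lit 4) (nat_lit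 2) (nat_lit 5) (nat_lit 2) (nat_lit 4) (nat_lit 352) (nat_lit 218) (nat_lit 150)))) (XT.nd (nat_lit 156) (nat_lit 0) (nat_lit 0) (XT.nd (nat_lit 78) (nat_lit 0) (nat_lit 0) (XT.lf (nat_lit 0) (nat_lit 247213086762) (nat_lit 76) (nat_lit 49153571392) (nat_lit 76) (nat_lit 40581447416) (nat_lit 1) (nat_lit 4) (nat_lit 2) (nat_lit 5) (nat_lit 2) (nat_lit 4) (nat_lit 353) (nat_lit 218) (nat_lit 149)) (XT.lf (nat_lit 0) (nat_lit 263303953578) (nat_lit 76) (nat_lit 49486816181) (nat_lit 76) (nat_lit 40900102064) (nat_lit 1) (nat_lit 4) (nat_lit 2) (nat_lit 5) (nat_lit 2) (nat_lit 4) (nat_lit 354) (nat_lit 218) (nat_lit 148))) (XT.nd (nat_lit 78) (nat_lit 0) (nat_lit 0) (XT.lf (nat_lit 0) (nat_lit 280188151300) (nat_lit 76) (nat_lit 49841774554) (nat_lit 76) (nat_lit 41241165064) (nat_lit 1) (nat_lit 4) (nat_lit 2) (nat_lit 5) (nat_lit 2) (nat_lit 4) (nat_lit 355) (nat_lit 218) (nat_lit 147))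 (XT.nd (nat_lit 78) (nat_lit 0) (nat_lit 0) (XT.lf (nat_lit 0) (nat_lit 297905880398) (nat_lit 76) (nat_lit 50219291648) (nat_lit 76) (nat_lit 41605448470) (nat_lit 1) (nat_lit 4) (nat_lit 2) (nat_lit 5) (nat_lit 2) (nat_lit 4) (nat_lit 356) (nat_lit 218) (nat_lit 146)) (XT.lf (nat_lit 0) (nat_lit 316499325944) (nat_lit 76) (nat_lit 50620266315) (nat_lit 76) (nat_lit 41993819624) (nat_lit 1) (nat_lit 4) (nat_lit 2) (nat_lit 5) (nat_lit 2) (nat_lit 4) (nat_lit 357) (nat_lit 218) (nat_lit 145))))))) (XT.nd (nat_lit 31590) (nat_lit 0) (nat_lit 684) (XT.nd (nat_lit 312) (nat_lit 0) (nat_lit 0) (XT.nd (nat_lit 156) (nat_lit 0) (nat_lit 0) (XT.nd (nat_lit 78) (nat_lit 0) (nat_lit 0) (XT.lf (nat_lit 0) (nat_lit 336012758044) (nat_lit 76) (nat_lit 51045653256) (nat_lit 76) (nat_lit 42407203219) (nat_lit 1) (nat_lit 4) (nat_lit 2) (nat_lit 5) (nat_lit 2) (nat_lit 4) (nat_lit 358) (nat_lit 218)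 (nat_lit 144)) (XT.lf (nat_lit 0) (nat_lit 356492637252) (nat_lit 76) (nat_lit 51496465296) (nat_lit 76) (nat_lit 42846583503) (nat_lit 1) (nat_lit 4) (nat_lit 2) (nat_lit 5) (nat_lit 2) (nat_lit 4) (nat_lit 359) (nat_lit 218) (nat_lit 143))) (XT.nd (nat_lit 78) (nat_lit 0) (nat_lit 0) (XT.lf (nat_lit 0) (nat_lit 377987725185) (nat_lit 76) (nat_lit 51973775799) (nat_lit 76) (nat_lit 43313006617) (nat_lit 1) (nat_lit 4) (nat_lit 2) (nat_lit 5) (nat_lit 2) (nat_lit 4) (nat_lit 360) (nat_lit 218) (nat_lit 142)) (XT.lf (nat_lit 0) (nat_lit 400549200623) (nat_lit 76) (nat_lit 52478721217) (nat_lit 76) (nat_lit 43807583094) (nat_lit 1) (nat_lit 4) (nat_lit 2) (nat_lit 5) (nat_lit 2) (nat_lit 4) (nat_lit 361) (nat_lit 218) (nat_lit 141)))) (XT.nd (nat_lit 156) (nat_lit 0) (nat_lit 0) (XT.nd (nat_lit 78) (nat_lit 0) (nat_lit 0) (XT.lf (nat_lit 0) (nat_lit 424230781365) (nat_lit 76) (nat_lit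 53012503801) (nat_lit 76) (nat_lit 44331490497) (nat_lit 1) (nat_lit 4) (nat_lit 2) (nat_lit 5) (nat_lit 2) (nat_lit 4) (nat_lit 362) (nat_lit 218) (nat_lit 140)) (XT.lf (nat_lit 0) (nat_lit 449088852127) (nat_lit 76) (nat_lit 53576394463) (nat_lit 76) (nat_lit 44885976223) (nat_lit 1) (nat_lit 4) (nat_lit 2) (nat_lit 5) (nat_lit 2) (nat_lit 4) (nat_lit 363) (nat_lit 218) (nat_lit 139))) (XT.nd (nat_lit 78) (nat_lit 0) (nat_lit 0) (XT.lf (nat_lit 0) (nat_lit 475182598792) (nat_lit 76) (nat_lit 54171735799) (nat_lit 76) (nat_lit 45472360478) (nat_lit 1) (nat_lit 4) (nat_lit 2) (nat_lit 5) (nat_lit 2) (nat_lit 4) (nat_lit 364) (nat_lit 218) (nat_lit 138)) (XT.nd (nat_lit 78) (nat_lit 0) (nat_lit 0) (XT.lf (nat_lit 0) (nat_lit 502574149329) (nat_lit 76) (nat_lit 54799945289) (nat_lit 76) (nat_lit 46092039414) (nat_lit 1) (nat_lit 4) (nat_lit 2) (nat_lit 5) (nat_lit 2) (nat_lit 4) (nat_lit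 365) (nat_lit 218) (nat_lit 137)) (XT.lf (nat_lit 0) (nat_lit 531328721714) (nat_lit 76) (nat_lit 55462518669) (nat_lit 76) (nat_lit 46746488458) (nat_lit 1) (nat_lit 4) (nat_lit 2) (nat_lit 5) (nat_lit 2) (nat_lit 4) (nat_lit 366) (nat_lit 218) (nat_lit 136)))))) (XT.nd (nat_lit 312) (nat_lit 304) (nat_lit 0) (XT.nd (nat_lit 156) (nat_lit 152) (nat_lit 0) (XT.nd (nat_lit 78) (nat_lit 0) (nat_lit 0) (XT.lf (nat_lit 0) (nat_lit 1460931345) (nat_lit 152) (nat_lit 4022421106) (nat_lit 0) (nat_lit 1460931345) (nat_lit 16) (nat_lit 5) (nat_lit 18) (nat_lit 4) (nat_lit 16) (nat_lit 4) (nat_lit 282) (nat_lit 219) (nat_lit 219)) (XT.lf (nat_lit 0) (nat_lit 6635968511) (nat_lit 152) (nat_lit 1636320861) (nat_lit 0) (nat_lit 6096373869) (nat_lit 16) (nat_lit 5) (nat_lit 18) (nat_lit 4) (nat_lit 16) (nat_lit 4) (nat_lit 283) (nat_lit 219) (nat_lit 218))) (XT.nd (nat_lit 78) (nat_lit 0) (nat_lit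 0) (XT.lf (nat_lit 0) (nat_lit 5039449363) (nat_lit 152) (nat_lit 5444811976) (nat_lit 152) (nat_lit 4391317676) (nat_lit 14) (nat_lit 4) (nat_lit 16) (nat_lit 5) (nat_lit 16) (nat_lit 4) (nat_lit 284) (nat_lit 219) (nat_lit 217)) (XT.lf (nat_lit 0) (nat_lit 11894805629) (nat_lit 152) (nat_lit 2530582285) (nat_lit 152) (nat_lit 987659738) (nat_lit 14) (nat_lit 4) (nat_lit 16) (nat_lit 5) (nat_lit 16) (nat_lit 4) (nat_lit 285) (nat_lit 219) (nat_lit 216)))) (XT.nd (nat_lit 156) (nat_lit 152) (nat_lit 0) (XT.nd (nat_lit 78) (nat_lit 0) (nat_lit 0) (XT.lf (nat_lit 0) (nat_lit 2434675251) (nat_lit 152) (nat_lit 13023039658) (nat_lit 0) (nat_lit 521299359) (nat_lit 12) (nat_lit 5) (nat_lit 14) (nat_lit 4) (nat_lit 12) (nat_lit 4) (nat_lit 286) (nat_lit 219) (nat_lit 215)) (XT.lf (nat_lit 0) (nat_lit 5975007530) (nat_lit 152) (nat_lit 6959810372) (nat_lit 0) (nat_lit 3638845117) (nat_lit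 12) (nat_lit 5) (nat_lit 14) (nat_lit 4) (nat_lit 12) (nat_lit 4) (nat_lit 287) (nat_lit 219) (nat_lit 214))) (XT.nd (nat_lit 78) (nat_lit 152) (nat_lit 0) (XT.lf (nat_lit 0) (nat_lit 9576192160) (nat_lit 152) (nat_lit 790471943) (nat_lit 0) (nat_lit 6837375918) (nat_lit 12) (nat_lit 5) (nat_lit 14) (nat_lit 4) (nat_lit 12) (nat_lit 4) (nat_lit 288) (nat_lit 219) (nat_lit 213)) (XT.nd (nat_lit 78) (nat_lit 0) (nat_lit 0) (XT.lf (nat_lit 0) (nat_lit 5681508274) (nat_lit 152) (nat_lit 7653999382) (nat_lit 152) (nat_lit 4531703302) (nat_lit 10) (nat_lit 4) (nat_lit 12) (nat_lit 5) (nat_lit 12) (nat_lit 4) (nat_lit 289) (nat_lit 219) (nat_lit 212)) (XT.lf (nat_lit 0) (nat_lit 12319888944) (nat_lit 152) (nat_lit 4868039819) (nat_lit 152) (nat_lit 1380524846) (nat_lit 10) (nat_lit 4) (nat_lit 12) (nat_lit 5) (nat_lit 12) (nat_lit 4) (nat_lit 290) (nat_lit 219) (nat_lit 211))))))))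
noncomputable def xc50 : XT := (XT.nd (nat_lit 1404) (nat_lit 228) (nat_lit 0) (XT.nd (nat_lit 702) (nat_lit 76) (nat_lit 0) (XT.nd (nat_lit 312) (nat_lit 228) (nat_lit 0) (XT.nd (nat_lit 156) (nat_lit 0) (nat_lit 0) (XT.nd (nat_lit 78) (nat_lit 76) (nat_lit 0) (XT.lf (nat_lit 0) (nat_lit 1761558217) (nat_lit 228) (nat_lit 224148145) (nat_lit 76) (nat_lit 17322948104) (nat_lit 9) (nat_lit 5) (nat_lit 12) (nat_lit 5) (nat_lit 10) (nat_lit 4) (nat_lit 291) (nat_lit 219) (nat_lit 210)) (XT.lf (nat_lit 0) (nat_lit 5026771372) (nat_lit 152) (nat_lit 13998913945) (nat_lit 0) (nat_lit 1058574427) (nat_lit 8) (nat_lit 5) (nat_lit 10) (nat_lit 4) (nat_lit 8) (nat_lit 4) (nat_lit 292) (nat_lit 219) (nat_lit 209))) (XT.nd (nat_lit 78) (nat_lit 0) (nat_lit 0) (XT.lf (nat_lit 0) (nat_lit 8392748691) (nat_lit 152) (nat_lit 8385076153) (nat_lit 0) (nat_lit 4124085258) (nat_lit 8) (nat_lit 5) (nat_lit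 10) (nat_lit 4) (nat_lit 8) (nat_lit 4) (nat_lit 293) (nat_lit 219) (nat_lit 208)) (XT.lf (nat_lit 0) (nat_lit 11832827403) (nat_lit 152) (nat_lit 2654453363) (nat_lit 0) (nat_lit 7278005411) (nat_lit 8) (nat_lit 5) (nat_lit 10) (nat_lit 4) (nat_lit 8) (nat_lit 4) (nat_lit 294) (nat_lit 219) (nat_lit 207)))) (XT.nd (nat_lit 156) (nat_lit 152) (nat_lit 0) (XT.nd (nat_lit 78) (nat_lit 0) (nat_lit 0) (XT.lf (nat_lit 0) (nat_lit 3312623403) (nat_lit 76) (nat_lit 12094294103) (nat_lit 76) (nat_lit 7266940150) (nat_lit 7) (nat_lit 4) (nat_lit 8) (nat_lit 5) (nat_lit 8) (nat_lit 4) (nat_lit 295) (nat_lit 219) (nat_lit 206)) (XT.lf (nat_lit 0) (nat_lit 9516626605) (nat_lit 76) (nat_lit 9600202200) (nat_lit 76) (nat_lit 4513293998) (nat_lit 7) (nat_lit 4) (nat_lit 8) (nat_lit 5) (nat_lit 8) (nat_lit 4) (nat_lit 296) (nat_lit 219) (nat_lit 205))) (XT.nd (nat_lit 78) (nat_lit 152) (nat_lit 0)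 (XT.lf (nat_lit 0) (nat_lit 15884559463) (nat_lit 76) (nat_lit 7044021195) (nat_lit 76) (nat_lit 1709918470) (nat_lit 7) (nat_lit 4) (nat_lit 8) (nat_lit 5) (nat_lit 8) (nat_lit 4) (nat_lit 297) (nat_lit 219) (nat_lit 204)) (XT.nd (nat_lit 78) (nat_lit 76) (nat_lit 0) (XT.lf (nat_lit 0) (nat_lit 1113058398) (nat_lit 152) (nat_lit 3287756361) (nat_lit 76) (nat_lit 21299675141) (nat_lit 6) (nat_lit 5) (nat_lit 8) (nat_lit 5) (nat_lit 7) (nat_lit 4) (nat_lit 298) (nat_lit 219) (nat_lit 203)) (XT.lf (nat_lit 0) (nat_lit 2364044367) (nat_lit 76) (nat_lit 1615362054) (nat_lit 152) (nat_lit 22836887366) (nat_lit 5) (nat_lit 5) (nat_lit 6) (nat_lit 5) (nat_lit 7) (nat_lit 4) (nat_lit 299) (nat_lit 219) (nat_lit 202)))))) (XT.nd (nat_lit 312) (nat_lit 76) (nat_lit 0) (XT.nd (nat_lit 156) (nat_lit 0) (nat_lit 0) (XT.nd (nat_lit 78) (nat_lit 0) (nat_lit 0) (XT.lf (nat_lit 0) (nat_lit 6989585163)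 (nat_lit 152) (nat_lit 19730000647) (nat_lit 0) (nat_lit 1268371144) (nat_lit 5) (nat_lit 5) (nat_lit 7) (nat_lit 4) (nat_lit 5) (nat_lit 4) (nat_lit 300) (nat_lit 219) (nat_lit 201)) (XT.lf (nat_lit 0) (nat_lit 10103876054) (nat_lit 152) (nat_lit 14927758645) (nat_lit 0) (nat_lit 4188978658) (nat_lit 5) (nat_lit 5) (nat_lit 7) (nat_lit 4) (nat_lit 5) (nat_lit 4) (nat_lit 301) (nat_lit 219) (nat_lit 200))) (XT.nd (nat_lit 78) (nat_lit 0) (nat_lit 0) (XT.lf (nat_lit 0) (nat_lit 13304473743) (nat_lit 152) (nat_lit 10008869179) (nat_lit 0) (nat_lit 7205115988) (nat_lit 5) (nat_lit 5) (nat_lit 7) (nat_lit 4) (nat_lit 5) (nat_lit 4) (nat_lit 302) (nat_lit 219) (nat_lit 199)) (XT.lf (nat_lit 0) (nat_lit 16598998701) (nat_lit 152) (nat_lit 4961620605) (nat_lit 0) (nat_lit 10323964413) (nat_lit 5) (nat_lit 5) (nat_lit 7) (nat_lit 4) (nat_lit 5) (nat_lit 4) (nat_lit 303) (nat_lit 219) (nat_lit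 198)))) (XT.nd (nat_lit 156) (nat_lit 0) (nat_lit 0) (XT.nd (nat_lit 78) (nat_lit 0) (nat_lit 0) (XT.lf (nat_lit 0) (nat_lit 233477057) (nat_lit 76) (nat_lit 19765463208) (nat_lit 76) (nat_lit 13323117938) (nat_lit 4) (nat_lit 4) (nat_lit 5) (nat_lit 5) (nat_lit 5) (nat_lit 4) (nat_lit 304) (nat_lit 219) (nat_lit 197)) (XT.lf (nat_lit 0) (nat_lit 5750406030) (nat_lit 76) (nat_lit 17840823087) (nat_lit 76) (nat_lit 11239134024) (nat_lit 4) (nat_lit 4) (nat_lit 5) (nat_lit 5) (nat_lit 5) (nat_lit 4) (nat_lit 305) (nat_lit 219) (nat_lit 196))) (XT.nd (nat_lit 78) (nat_lit 0) (nat_lit 0) (XT.lf (nat_lit 0) (nat_lit 11438248275) (nat_lit 76) (nat_lit 15866143912) (nat_lit 76) (nat_lit 9112698855) (nat_lit 4) (nat_lit 4) (nat_lit 5) (nat_lit 5) (nat_lit 5) (nat_lit 4) (nat_lit 306) (nat_lit 219) (nat_lit 195)) (XT.nd (nat_lit 78) (nat_lit 0) (nat_lit 0) (XT.lf (nat_lit 0) (nat_lit 17310546272)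 (nat_lit 76) (nat_lit 13836724065) (nat_lit 76) (nat_lit 6938749490) (nat_lit 4) (nat_lit 4) (nat_lit 5) (nat_lit 5) (nat_lit 5) (nat_lit 4) (nat_lit 307) (nat_lit 219) (nat_lit 194)) (XT.lf (nat_lit 0) (nat_lit 23381281684) (nat_lit 76) (nat_lit 11747731596) (nat_lit 76) (nat_lit 4712109861) (nat_lit 4) (nat_lit 4) (nat_lit 5) (nat_lit 5) (nat_lit 5) (nat_lit 4) (nat_lit 308) (nat_lit 219) (nat_lit 193))))))) (XT.nd (nat_lit 702) (nat_lit 76) (nat_lit 0) (XT.nd (nat_lit 312) (nat_lit 0) (nat_lit 0) (XT.nd (nat_lit 156) (nat_lit 152) (nat_lit 0) (XT.nd (nat_lit 78) (nat_lit 0) (nat_lit 0) (XT.lf (nat_lit 0) (nat_lit 29664908642) (nat_lit 76) (nat_lit 9594192711) (nat_lit 76) (nat_lit 2427478444) (nat_lit 4) (nat_lit 4) (nat_lit 5) (nat_lit 5) (nat_lit 5) (nat_lit 4) (nat_lit 309) (nat_lit 219) (nat_lit 192)) (XT.lf (nat_lit 0) (nat_lit 36176388163) (nat_lit 76) (nat_lit 7370979939)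 (nat_lit 76) (nat_lit 79415640) (nat_lit 4) (nat_lit 4) (nat_lit 5) (nat_lit 5) (nat_lit 5) (nat_lit 4) (nat_lit 310) (nat_lit 219) (nat_lit 191))) (XT.nd (nat_lit 78) (nat_lit 76) (nat_lit 0) (XT.lf (nat_lit 0) (nat_lit 2262849163) (nat_lit 152) (nat_lit 2771628305) (nat_lit 76) (nat_lit 40630052161) (nat_lit 3) (nat_lit 5) (nat_lit 5) (nat_lit 5) (nat_lit 4) (nat_lit 4) (nat_lit 311) (nat_lit 219) (nat_lit 190)) (XT.lf (nat_lit 0) (nat_lit 2128058848) (nat_lit 76) (nat_lit 2580121931) (nat_lit 152) (nat_lit 43096536062) (nat_lit 2) (nat_lit 5) (nat_lit 3) (nat_lit 5) (nat_lit 4) (nat_lit 4) (nat_lit 312) (nat_lit 219) (nat_lit 189)))) (XT.nd (nat_lit 156) (nat_lit 0) (nat_lit 0) (XT.nd (nat_lit 78) (nat_lit 0) (nat_lit 0) (XT.lf (nat_lit 0) (nat_lit 7279191048) (nat_lit 152) (nat_lit 42761562762) (nat_lit 0) (nat_lit 11036856) (nat_lit 2) (nat_lit 5) (nat_lit 4) (nat_lit 4) (nat_lit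 2) (nat_lit 4) (nat_lit 313) (nat_lit 219) (nat_lit 188)) (XT.lf (nat_lit 0) (nat_lit 9978907304) (nat_lit 152) (nat_lit 39819418835) (nat_lit 0) (nat_lit 2612929846) (nat_lit 2) (nat_lit 5) (nat_lit 4) (nat_lit 4) (nat_lit 2) (nat_lit 4) (nat_lit 314) (nat_lit 219) (nat_lit 187))) (XT.nd (nat_lit 78) (nat_lit 0) (nat_lit 0) (XT.lf (nat_lit 0) (nat_lit 12773474510) (nat_lit 152) (nat_lit 36802938174) (nat_lit 0) (nat_lit 5314332036) (nat_lit 2) (nat_lit 5) (nat_lit 4) (nat_lit 4) (nat_lit 2) (nat_lit 4) (nat_lit 315) (nat_lit 219) (nat_lit 186)) (XT.nd (nat_lit 78) (nat_lit 0) (nat_lit 0) (XT.lf (nat_lit 0) (nat_lit 15669546397) (nat_lit 152) (nat_lit 33704938682) (nat_lit 0) (nat_lit 8121675336) (nat_lit 2) (nat_lit 5) (nat_lit 4) (nat_lit 4) (nat_lit 2) (nat_lit 4) (nat_lit 316) (nat_lit 219) (nat_lit 185)) (XT.lf (nat_lit 0) (nat_lit 18674018374) (nat_lit 152) (nat_lit 30518044169)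 (nat_lit 0) (nat_lit 11041643898) (nat_lit 2) (nat_lit 5) (nat_lit 4) (nat_lit 4) (nat_lit 2) (nat_lit 4) (nat_lit 317) (nat_lit 219) (nat_lit 184)))))) (XT.nd (nat_lit 312) (nat_lit 76) (nat_lit 0) (XT.nd (nat_lit 156) (nat_lit 0) (nat_lit 0) (XT.nd (nat_lit 78) (nat_lit 0) (nat_lit 0) (XT.lf (nat_lit 0) (nat_lit 21794043946) (nat_lit 152) (nat_lit 27234666792) (nat_lit 0) (nat_lit 14081190026) (nat_lit 2) (nat_lit 5) (nat_lit 4) (nat_lit 4) (nat_lit 2) (nat_lit 4) (nat_lit 318) (nat_lit 219) (nat_lit 183)) (XT.lf (nat_lit 0) (nat_lit 25037051746) (nat_lit 152) (nat_lit 23846988985) (nat_lit 0) (nat_lit 17247550737) (nat_lit 2) (nat_lit 5) (nat_lit 4) (nat_lit 4) (nat_lit 2) (nat_lit 4) (nat_lit 319) (nat_lit 219) (nat_lit 182))) (XT.nd (nat_lit 78) (nat_lit 0) (nat_lit 0) (XT.lf (nat_lit 0) (nat_lit 28410763219) (nat_lit 152) (nat_lit 20346944849) (nat_lit 0) (nat_lit 20548264983)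 (nat_lit 2) (nat_lit 5) (nat_lit 4) (nat_lit 4) (nat_lit 2) (nat_lit 4) (nat_lit 320) (nat_lit 219) (nat_lit 181)) (XT.lf (nat_lit 0) (nat_lit 31923211014) (nat_lit 152) (nat_lit 16726200945) (nat_lit 0) (nat_lit 23991191608) (nat_lit 2) (nat_lit 5) (nat_lit 4) (nat_lit 4) (nat_lit 2) (nat_lit 4) (nat_lit 321) (nat_lit 219) (nat_lit 180)))) (XT.nd (nat_lit 156) (nat_lit 76) (nat_lit 0) (XT.nd (nat_lit 78) (nat_lit 0) (nat_lit 0) (XT.lf (nat_lit 0) (nat_lit 35582758100) (nat_lit 152) (nat_lit 12976136455) (nat_lit 0) (nat_lit 27584528057) (nat_lit 2) (nat_lit 5) (nat_lit 4) (nat_lit 4) (nat_lit 2) (nat_lit 4) (nat_lit 322) (nat_lit 219) (nat_lit 179)) (XT.lf (nat_lit 0) (nat_lit 39398117685) (nat_lit 152) (nat_lit 9087822654) (nat_lit 0) (nat_lit 31336829892) (nat_lit 2) (nat_lit 5) (nat_lit 4) (nat_lit 4) (nat_lit 2) (nat_lit 4) (nat_lit 323) (nat_lit 219) (nat_lit 178))) (XT.nd (nat_lit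 78) (nat_lit 76) (nat_lit 0) (XT.lf (nat_lit 0) (nat_lit 43378373959) (nat_lit 152) (nat_lit 5052001651) (nat_lit 0) (nat_lit 35257031166) (nat_lit 2) (nat_lit 5) (nat_lit 4) (nat_lit 4) (nat_lit 2) (nat_lit 4) (nat_lit 324) (nat_lit 219) (nat_lit 177)) (XT.nd (nat_lit 78) (nat_lit 76) (nat_lit 0) (XT.lf (nat_lit 0) (nat_lit 47533003721) (nat_lit 152) (nat_lit 859064350) (nat_lit 0) (nat_lit 39354465691) (nat_lit 2) (nat_lit 5) (nat_lit 4) (nat_lit 4) (nat_lit 2) (nat_lit 4) (nat_lit 325) (nat_lit 219) (nat_lit 176)) (XT.lf (nat_lit 0) (nat_lit 3616730394) (nat_lit 76) (nat_lit 48311635852) (nat_lit 76) (nat_lit 40078626166) (nat_lit 1) (nat_lit 4) (nat_lit 2) (nat_lit 5) (nat_lit 2) (nat_lit 4) (nat_lit 326) (nat_lit 219) (nat_lit 175))))))))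
noncomputable def xc51 : XT := (XT.nd (nat_lit 1404) (nat_lit 0) (nat_lit 0) (XT.nd (nat_lit 702) (nat_lit 0) (nat_lit 0) (XT.nd (nat_lit 312) (nat_lit 0) (nat_lit 0) (XT.nd (nat_lit 156) (nat_lit 0) (nat_lit 0) (XT.nd (nat_lit 78) (nat_lit 0) (nat_lit 0) (XT.lf (nat_lit 0) (nat_lit 8304278516) (nat_lit 76) (nat_lit 48230764889) (nat_lit 76) (nat_lit 39945877436) (nat_lit 1) (nat_lit 4) (nat_lit 2) (nat_lit 5) (nat_lit 2) (nat_lit 4) (nat_lit 327) (nat_lit 219) (nat_lit 174)) (XT.lf (nat_lit 0) (nat_lit 13186336297) (nat_lit 76) (nat_lit 48163811301) (nat_lit 76) (nat_lit 39829516451) (nat_lit 1) (nat_lit 4) (nat_lit 2) (nat_lit 5) (nat_lit 2) (nat_lit 4) (nat_lit 328) (nat_lit 219) (nat_lit 173))) (XT.nd (nat_lit 78) (nat_lit 0) (nat_lit 0) (XT.lf (nat_lit 0) (nat_lit 18274527685) (nat_lit 76) (nat_lit 48110615677) (nat_lit 76) (nat_lit 39729266163) (nat_lit 1) (nat_lit 4) (nat_lit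 2) (nat_lit 5) (nat_lit 2) (nat_lit 4) (nat_lit 329) (nat_lit 219) (nat_lit 172)) (XT.lf (nat_lit 0) (nat_lit 23580967421) (nat_lit 76) (nat_lit 48071051359) (nat_lit 76) (nat_lit 39644887880) (nat_lit 1) (nat_lit 4) (nat_lit 2) (nat_lit 5) (nat_lit 2) (nat_lit 4) (nat_lit 330) (nat_lit 219) (nat_lit 171)))) (XT.nd (nat_lit 156) (nat_lit 0) (nat_lit 0) (XT.nd (nat_lit 78) (nat_lit 0) (nat_lit 0) (XT.lf (nat_lit 0) (nat_lit 29118289886) (nat_lit 76) (nat_lit 48045024147) (nat_lit 76) (nat_lit 39576180701) (nat_lit 1) (nat_lit 4) (nat_lit 2) (nat_lit 5) (nat_lit 2) (nat_lit 4) (nat_lit 331) (nat_lit 219) (nat_lit 170)) (XT.lf (nat_lit 0) (nat_lit 34899679179) (nat_lit 76) (nat_lit 48032472072) (nat_lit 76) (nat_lit 39522981038) (nat_lit 1) (nat_lit 4) (nat_lit 2) (nat_lit 5) (nat_lit 2) (nat_lit 4) (nat_lit 332) (nat_lit 219) (nat_lit 169))) (XT.nd (nat_lit 78) (nat_lit 0) (nat_lit 0)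 (XT.lf (nat_lit 0) (nat_lit 40938900515) (nat_lit 76) (nat_lit 48033365247) (nat_lit 76) (nat_lit 39485162225) (nat_lit 1) (nat_lit 4) (nat_lit 2) (nat_lit 5) (nat_lit 2) (nat_lit 4) (nat_lit 333) (nat_lit 219) (nat_lit 168)) (XT.nd (nat_lit 78) (nat_lit 0) (nat_lit 0) (XT.lf (nat_lit 0) (nat_lit 47250332991) (nat_lit 76) (nat_lit 48047705800) (nat_lit 76) (nat_lit 39462634217) (nat_lit 1) (nat_lit 4) (nat_lit 2) (nat_lit 5) (nat_lit 2) (nat_lit 4) (nat_lit 334) (nat_lit 219) (nat_lit 167)) (XT.lf (nat_lit 0) (nat_lit 53849003828) (nat_lit 76) (nat_lit 48075527873) (nat_lit 76) (nat_lit 39455343376) (nat_lit 1) (nat_lit 4) (nat_lit 2) (nat_lit 5) (nat_lit 2) (nat_lit 4) (nat_lit 335) (nat_lit 219) (nat_lit 166)))))) (XT.nd (nat_lit 312) (nat_lit 0) (nat_lit 0) (XT.nd (nat_lit 156) (nat_lit 0) (nat_lit 0) (XT.nd (nat_lit 78) (nat_lit 0) (nat_lit 0) (XT.lf (nat_lit 0) (nat_lit 60750624147)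 (nat_lit 76) (nat_lit 48116897711) (nat_lit 76) (nat_lit 39463272342) (nat_lit 1) (nat_lit 4) (nat_lit 2) (nat_lit 5) (nat_lit 2) (nat_lit 4) (nat_lit 336) (nat_lit 219) (nat_lit 165)) (XT.lf (nat_lit 0) (nat_lit 67971626376) (nat_lit 76) (nat_lit 48171913813) (nat_lit 76) (nat_lit 39486439996) (nat_lit 1) (nat_lit 4) (nat_lit 2) (nat_lit 5) (nat_lit 2) (nat_lit 4) (nat_lit 337) (nat_lit 219) (nat_lit 164))) (XT.nd (nat_lit 78) (nat_lit 0) (nat_lit 0) (XT.lf (nat_lit 0) (nat_lit 75529203379) (nat_lit 76) (nat_lit 48240707169) (nat_lit 76) (nat_lit 39524901496) (nat_lit 1) (nat_lit 4) (nat_lit 2) (nat_lit 5) (nat_lit 2) (nat_lit 4) (nat_lit 338) (nat_lit 219) (nat_lit 163)) (XT.lf (nat_lit 0) (nat_lit 83441349387) (nat_lit 76) (nat_lit 48323441574) (nat_lit 76) (nat_lit 39578748419) (nat_lit 1) (nat_lit 4) (nat_lit 2) (nat_lit 5) (nat_lit 2) (nat_lit 4) (nat_lit 339) (nat_lit 219) (nat_lit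 162)))) (XT.nd (nat_lit 156) (nat_lit 0) (nat_lit 0) (XT.nd (nat_lit 78) (nat_lit 0) (nat_lit 0) (XT.lf (nat_lit 0) (nat_lit 91726902841) (nat_lit 76) (nat_lit 48420314014) (nat_lit 76) (nat_lit 39648108972) (nat_lit 1) (nat_lit 4) (nat_lit 2) (nat_lit 5) (nat_lit 2) (nat_lit 4) (nat_lit 340) (nat_lit 219) (nat_lit 161)) (XT.lf (nat_lit 0) (nat_lit 100405591252) (nat_lit 76) (nat_lit 48531555138) (nat_lit 76) (nat_lit 39733148298) (nat_lit 1) (nat_lit 4) (nat_lit 2) (nat_lit 5) (nat_lit 2) (nat_lit 4) (nat_lit 341) (nat_lit 219) (nat_lit 160))) (XT.nd (nat_lit 78) (nat_lit 0) (nat_lit 0) (XT.lf (nat_lit 0) (nat_lit 109498078161) (nat_lit 76) (nat_lit 48657429805) (nat_lit 76) (nat_lit 39834068872) (nat_lit 1) (nat_lit 4) (nat_lit 2) (nat_lit 5) (nat_lit 2) (nat_lit 4) (nat_lit 342) (nat_lit 219) (nat_lit 159)) (XT.nd (nat_lit 78) (nat_lit 0) (nat_lit 0) (XT.lf (nat_lit 0) (nat_lit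 119026012348) (nat_lit 76) (nat_lit 48798237717) (nat_lit 76) (nat_lit 39951110982) (nat_lit 1) (nat_lit 4) (nat_lit 2) (nat_lit 5) (nat_lit 2) (nat_lit 4) (nat_lit 343) (nat_lit 219) (nat_lit 158)) (XT.lf (nat_lit 0) (nat_lit 129012079371) (nat_lit 76) (nat_lit 48954314131) (nat_lit 76) (nat_lit 40084553298) (nat_lit 1) (nat_lit 4) (nat_lit 2) (nat_lit 5) (nat_lit 2) (nat_lit 4) (nat_lit 344) (nat_lit 219) (nat_lit 157))))))) (XT.nd (nat_lit 702) (nat_lit 0) (nat_lit 0) (XT.nd (nat_lit 312) (nat_lit 0) (nat_lit 0) (XT.nd (nat_lit 156) (nat_lit 0) (nat_lit 0) (XT.nd (nat_lit 78) (nat_lit 0) (nat_lit 0) (XT.lf (nat_lit 0) (nat_lit 139480055579) (nat_lit 76) (nat_lit 49126030658) (nat_lit 76) (nat_lit 40234713541) (nat_lit 1) (nat_lit 4) (nat_lit 2) (nat_lit 5) (nat_lit 2) (nat_lit 4) (nat_lit 345) (nat_lit 219) (nat_lit 156)) (XT.lf (nat_lit 0) (nat_lit 150454864725) (nat_lit 76) (nat_lit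 49313796146) (nat_lit 76) (nat_lit 40401949235) (nat_lit 1) (nat_lit 4) (nat_lit 2) (nat_lit 5) (nat_lit 2) (nat_lit 4) (nat_lit 346) (nat_lit 219) (nat_lit 155))) (XT.nd (nat_lit 78) (nat_lit 0) (nat_lit 0) (XT.lf (nat_lit 0) (nat_lit 161962637307) (nat_lit 76) (nat_lit 49518057657) (nat_lit 76) (nat_lit 40586658561) (nat_lit 1) (nat_lit 4) (nat_lit 2) (nat_lit 5) (nat_lit 2) (nat_lit 4) (nat_lit 347) (nat_lit 219) (nat_lit 154)) (XT.lf (nat_lit 0) (nat_lit 174030772784) (nat_lit 76) (nat_lit 49739301526) (nat_lit 76) (nat_lit 40789281302) (nat_lit 1) (nat_lit 4) (nat_lit 2) (nat_lit 5) (nat_lit 2) (nat_lit 4) (nat_lit 348) (nat_lit 219) (nat_lit 153)))) (XT.nd (nat_lit 156) (nat_lit 0) (nat_lit 0) (XT.nd (nat_lit 78) (nat_lit 0) (nat_lit 0) (XT.lf (nat_lit 0) (nat_lit 186688004812) (nat_lit 76) (nat_lit 49978054525) (nat_lit 76) (nat_lit 41010299894) (nat_lit 1) (nat_lit 4) (nat_lit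 2) (nat_lit 5) (nat_lit 2) (nat_lit 4) (nat_lit 349) (nat_lit 219) (nat_lit 152)) (XT.lf (nat_lit 0) (nat_lit 199964469656) (nat_lit 76) (nat_lit 50234885115) (nat_lit 76) (nat_lit 41250240571) (nat_lit 1) (nat_lit 4) (nat_lit 2) (nat_lit 5) (nat_lit 2) (nat_lit 4) (nat_lit 350) (nat_lit 219) (nat_lit 151))) (XT.nd (nat_lit 78) (nat_lit 0) (nat_lit 0) (XT.lf (nat_lit 0) (nat_lit 213891777949) (nat_lit 76) (nat_lit 50510404795) (nat_lit 76) (nat_lit 41509674620) (nat_lit 1) (nat_lit 4) (nat_lit 2) (nat_lit 5) (nat_lit 2) (nat_lit 4) (nat_lit 351) (nat_lit 219) (nat_lit 150)) (XT.nd (nat_lit 78) (nat_lit 0) (nat_lit 0) (XT.lf (nat_lit 0) (nat_lit 228503089948) (nat_lit 76) (nat_lit 50805269566) (nat_lit 76) (nat_lit 41789219742) (nat_lit 1) (nat_lit 4) (nat_lit 2) (nat_lit 5) (nat_lit 2) (nat_lit 4) (nat_lit 352) (nat_lit 219) (nat_lit 149)) (XT.lf (nat_lit 0) (nat_lit 243833194490)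 (nat_lit 76) (nat_lit 51120181485) (nat_lit 76) (nat_lit 42089541521) (nat_lit 1) (nat_lit 4) (nat_lit 2) (nat_lit 5) (nat_lit 2) (nat_lit 4) (nat_lit 353) (nat_lit 219) (nat_lit 148)))))) (XT.nd (nat_lit 312) (nat_lit 0) (nat_lit 0) (XT.nd (nat_lit 156) (nat_lit 0) (nat_lit 0) (XT.nd (nat_lit 78) (nat_lit 0) (nat_lit 0) (XT.lf (nat_lit 0) (nat_lit 259918591825) (nat_lit 76) (nat_lit 51455890345) (nat_lit 76) (nat_lit 42411355008) (nat_lit 1) (nat_lit 4) (nat_lit 2) (nat_lit 5) (nat_lit 2) (nat_lit 4) (nat_lit 354) (nat_lit 219) (nat_lit 147)) (XT.lf (nat_lit 0) (nat_lit 276797580519) (nat_lit 76) (nat_lit 51813195451) (nat_lit 76) (nat_lit 42755426426) (nat_lit 1) (nat_lit 4) (nat_lit 2) (nat_lit 5) (nat_lit 2) (nat_lit 4) (nat_lit 355) (nat_lit 219) (nat_lit 146))) (XT.nd (nat_lit 78) (nat_lit 0) (nat_lit 0) (XT.lf (nat_lit 0) (nat_lit 294510348638) (nat_lit 76) (nat_lit 52192947530)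 (nat_lit 76) (nat_lit 43122574992) (nat_lit 1) (nat_lit 4) (nat_lit 2) (nat_lit 5) (nat_lit 2) (nat_lit 4) (nat_lit 356) (nat_lit 219) (nat_lit 145)) (XT.lf (nat_lit 0) (nat_lit 313099069441) (nat_lit 76) (nat_lit 52596050753) (nat_lit 76) (nat_lit 43513674869) (nat_lit 1) (nat_lit 4) (nat_lit 2) (nat_lit 5) (nat_lit 2) (nat_lit 4) (nat_lit 357) (nat_lit 219) (nat_lit 144)))) (XT.nd (nat_lit 156) (nat_lit 0) (nat_lit 0) (XT.nd (nat_lit 78) (nat_lit 0) (nat_lit 0) (XT.lf (nat_lit 0) (nat_lit 332608001786) (nat_lit 76) (nat_lit 53023464890) (nat_lit 76) (nat_lit 43929657249) (nat_lit 1) (nat_lit 4) (nat_lit 2) (nat_lit 5) (nat_lit 2) (nat_lit 4) (nat_lit 358) (nat_lit 219) (nat_lit 143)) (XT.lf (nat_lit 0) (nat_lit 353083595513) (nat_lit 76) (nat_lit 53476207594) (nat_lit 76) (nat_lit 44371512565) (nat_lit 1) (nat_lit 4) (nat_lit 2) (nat_lit 5) (nat_lit 2) (nat_lit 4) (nat_lit 359) (nat_lit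 219) (nat_lit 142))) (XT.nd (nat_lit 78) (nat_lit 0) (nat_lit 0) (XT.lf (nat_lit 0) (nat_lit 374574602035) (nat_lit 76) (nat_lit 53955356823) (nat_lit 76) (nat_lit 44840292854) (nat_lit 1) (nat_lit 4) (nat_lit 2) (nat_lit 5) (nat_lit 2) (nat_lit 4) (nat_lit 360) (nat_lit 219) (nat_lit 141)) (XT.nd (nat_lit 78) (nat_lit 0) (nat_lit 0) (XT.lf (nat_lit 0) (nat_lit 397132190416) (nat_lit 76) (nat_lit 54462053410) (nat_lit 76) (nat_lit 45337114258) (nat_lit 1) (nat_lit 4) (nat_lit 2) (nat_lit 5) (nat_lit 2) (nat_lit 4) (nat_lit 361) (nat_lit 219) (nat_lit 140)) (XT.lf (nat_lit 0) (nat_lit 420810069198) (nat_lit 76) (nat_lit 54997503774) (nat_lit 76) (nat_lit 45863159687) (nat_lit 1) (nat_lit 4) (nat_lit 2) (nat_lit 5) (nat_lit 2) (nat_lit 4) (nat_lit 362) (nat_lit 219) (nat_lit 139))))))))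
noncomputable def xc52 : XT := (XT.nd (nat_lit 32136) (nat_lit 0) (nat_lit 152) (XT.nd (nat_lit 31434) (nat_lit 0) (nat_lit 532) (XT.nd (nat_lit 31044) (nat_lit 0) (nat_lit 988) (XT.nd (nat_lit 156) (nat_lit 0) (nat_lit 0) (XT.nd (nat_lit 78) (nat_lit 0) (nat_lit 0) (XT.lf (nat_lit 0) (nat_lit 445664614285) (nat_lit 76) (nat_lit 55562982797) (nat_lit 76) (nat_lit 46419681629) (nat_lit 1) (nat_lit 4) (nat_lit 2) (nat_lit 5) (nat_lit 2) (nat_lit 4) (nat_lit 363) (nat_lit 219) (nat_lit 138)) (XT.lf (nat_lit 0) (nat_lit 471755003164) (nat_lit 76) (nat_lit 56159836859) (nat_lit 76) (nat_lit 47008005137) (nat_lit 1) (nat_lit 4) (nat_lit 2) (nat_lit 5) (nat_lit 2) (nat_lit 4) (nat_lit 364) (nat_lit 219) (nat_lit 137))) (XT.nd (nat_lit 78) (nat_lit 0) (nat_lit 0) (XT.lf (nat_lit 0) (nat_lit 499143355809) (nat_lit 76) (nat_lit 56789487039) (nat_lit 76) (nat_lit 47629530981) (nat_lit 1) (nat_lit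 4) (nat_lit 2) (nat_lit 5) (nat_lit 2) (nat_lit 4) (nat_lit 365) (nat_lit 219) (nat_lit 136)) (XT.lf (nat_lit 0) (nat_lit 527894882583) (nat_lit 76) (nat_lit 57453432506) (nat_lit 76) (nat_lit 48285738984) (nat_lit 1) (nat_lit 4) (nat_lit 2) (nat_lit 5) (nat_lit 2) (nat_lit 4) (nat_lit 366) (nat_lit 219) (nat_lit 135)))) (XT.nd (nat_lit 156) (nat_lit 304) (nat_lit 0) (XT.nd (nat_lit 78) (nat_lit 0) (nat_lit 0) (XT.lf (nat_lit 0) (nat_lit 2822172088) (nat_lit 152) (nat_lit 1839097576) (nat_lit 152) (nat_lit 1839097576) (nat_lit 18) (nat_lit 4) (nat_lit 20) (nat_lit 5) (nat_lit 20) (nat_lit 4) (nat_lit 280) (nat_lit 220) (nat_lit 220)) (XT.lf (nat_lit 0) (nat_lit 12526955928) (nat_lit 152) (nat_lit 752287195) (nat_lit 152) (nat_lit 157384103) (nat_lit 18) (nat_lit 4) (nat_lit 20) (nat_lit 5) (nat_lit 20) (nat_lit 4) (nat_lit 281) (nat_lit 220) (nat_lit 219))) (XT.nd (nat_lit 78) (nat_lit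 152) (nat_lit 0) (XT.lf (nat_lit 0) (nat_lit 3421750176) (nat_lit 152) (nat_lit 8154693237) (nat_lit 0) (nat_lit 2315581160) (nat_lit 16) (nat_lit 5) (nat_lit 18) (nat_lit 4) (nat_lit 16) (nat_lit 4) (nat_lit 282) (nat_lit 220) (nat_lit 218)) (XT.nd (nat_lit 78) (nat_lit 152) (nat_lit 0) (XT.lf (nat_lit 0) (nat_lit 7072344674) (nat_lit 152) (nat_lit 1850791907) (nat_lit 0) (nat_lit 5452276000) (nat_lit 16) (nat_lit 5) (nat_lit 18) (nat_lit 4) (nat_lit 16) (nat_lit 4) (nat_lit 283) (nat_lit 220) (nat_lit 217)) (XT.lf (nat_lit 0) (nat_lit 4714954333) (nat_lit 152) (nat_lit 6140129920) (nat_lit 152) (nat_lit 4030632999) (nat_lit 14) (nat_lit 4) (nat_lit 16) (nat_lit 5) (nat_lit 16) (nat_lit 4) (nat_lit 284) (nat_lit 220) (nat_lit 216)))))) (XT.nd (nat_lit 312) (nat_lit 304) (nat_lit 0) (XT.nd (nat_lit 156) (nat_lit 0) (nat_lit 0) (XT.nd (nat_lit 78) (nat_lit 152) (nat_lit 0) (XT.lf (nat_lit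 0) (nat_lit 11472279549) (nat_lit 152) (nat_lit 3264794098) (nat_lit 152) (nat_lit 689175038) (nat_lit 14) (nat_lit 4) (nat_lit 16) (nat_lit 5) (nat_lit 16) (nat_lit 4) (nat_lit 285) (nat_lit 220) (nat_lit 215)) (XT.lf (nat_lit 0) (nat_lit 2411346732) (nat_lit 76) (nat_lit 237868701) (nat_lit 152) (nat_lit 13346582505) (nat_lit 12) (nat_lit 5) (nat_lit 13) (nat_lit 5) (nat_lit 14) (nat_lit 4) (nat_lit 286) (nat_lit 220) (nat_lit 214))) (XT.nd (nat_lit 78) (nat_lit 0) (nat_lit 0) (XT.lf (nat_lit 0) (nat_lit 6129168421) (nat_lit 152) (nat_lit 7613631207) (nat_lit 0) (nat_lit 2850757537) (nat_lit 12) (nat_lit 5) (nat_lit 14) (nat_lit 4) (nat_lit 12) (nat_lit 4) (nat_lit 287) (nat_lit 220) (nat_lit 213)) (XT.lf (nat_lit 0) (nat_lit 9676385914) (nat_lit 152) (nat_lit 1535838573) (nat_lit 0) (nat_lit 6014495192) (nat_lit 12) (nat_lit 5) (nat_lit 14) (nat_lit 4) (nat_lit 12) (nat_lit 4) (nat_lit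 288) (nat_lit 220) (nat_lit 212)))) (XT.nd (nat_lit 156) (nat_lit 152) (nat_lit 0) (XT.nd (nat_lit 78) (nat_lit 0) (nat_lit 0) (XT.lf (nat_lit 0) (nat_lit 4821427209) (nat_lit 152) (nat_lit 8549448652) (nat_lit 152) (nat_lit 4522339037) (nat_lit 10) (nat_lit 4) (nat_lit 12) (nat_lit 5) (nat_lit 12) (nat_lit 4) (nat_lit 289) (nat_lit 220) (nat_lit 211)) (XT.lf (nat_lit 0) (nat_lit 11374027642) (nat_lit 152) (nat_lit 5798980272) (nat_lit 152) (nat_lit 1424043139) (nat_lit 10) (nat_lit 4) (nat_lit 12) (nat_lit 5) (nat_lit 12) (nat_lit 4) (nat_lit 290) (nat_lit 220) (nat_lit 210))) (XT.nd (nat_lit 78) (nat_lit 76) (nat_lit 0) (XT.lf (nat_lit 0) (nat_lit 1670680412) (nat_lit 228) (nat_lit 1281306588) (nat_lit 76) (nat_lit 16387808201) (nat_lit 9) (nat_lit 5) (nat_lit 12) (nat_lit 5) (nat_lit 10) (nat_lit 4) (nat_lit 291) (nat_lit 220) (nat_lit 209)) (XT.nd (nat_lit 78) (nat_lit 0) (nat_lit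 0) (XT.lf (nat_lit 0) (nat_lit 4855229267) (nat_lit 152) (nat_lit 15191606541) (nat_lit 0) (nat_lit 72666176) (nat_lit 8) (nat_lit 5) (nat_lit 10) (nat_lit 4) (nat_lit 8) (nat_lit 4) (nat_lit 292) (nat_lit 220) (nat_lit 208)) (XT.lf (nat_lit 0) (nat_lit 8175256599) (nat_lit 152) (nat_lit 9657723330) (nat_lit 0) (nat_lit 3106534948) (nat_lit 8) (nat_lit 5) (nat_lit 10) (nat_lit 4) (nat_lit 8) (nat_lit 4) (nat_lit 293) (nat_lit 220) (nat_lit 207))))))) (XT.nd (nat_lit 702) (nat_lit 152) (nat_lit 0) (XT.nd (nat_lit 312) (nat_lit 152) (nat_lit 0) (XT.nd (nat_lit 156) (nat_lit 0) (nat_lit 0) (XT.nd (nat_lit 78) (nat_lit 76) (nat_lit 0) (XT.lf (nat_lit 0) (nat_lit 11571573418) (nat_lit 152) (nat_lit 4003247759) (nat_lit 0) (nat_lit 6230319807) (nat_lit 8) (nat_lit 5) (nat_lit 10) (nat_lit 4) (nat_lit 8) (nat_lit 4) (nat_lit 294) (nat_lit 220) (nat_lit 206)) (XT.lf (nat_lit 0) (nat_lit 1844312734)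 (nat_lit 76) (nat_lit 13236748351) (nat_lit 76) (nat_lit 7635940490) (nat_lit 7) (nat_lit 4) (nat_lit 8) (nat_lit 5) (nat_lit 8) (nat_lit 4) (nat_lit 295) (nat_lit 220) (nat_lit 205))) (XT.nd (nat_lit 78) (nat_lit 0) (nat_lit 0) (XT.lf (nat_lit 0) (nat_lit 7976964471) (nat_lit 76) (nat_lit 10773200591) (nat_lit 76) (nat_lit 4925198208) (nat_lit 7) (nat_lit 4) (nat_lit 8) (nat_lit 5) (nat_lit 8) (nat_lit 4) (nat_lit 296) (nat_lit 220) (nat_lit 204)) (XT.lf (nat_lit 0) (nat_lit 14276943552) (nat_lit 76) (nat_lit 8246109246) (nat_lit 76) (nat_lit 2162683508) (nat_lit 7) (nat_lit 4) (nat_lit 8) (nat_lit 5) (nat_lit 8) (nat_lit 4) (nat_lit 297) (nat_lit 220) (nat_lit 203)))) (XT.nd (nat_lit 156) (nat_lit 0) (nat_lit 0) (XT.nd (nat_lit 78) (nat_lit 76) (nat_lit 0) (XT.lf (nat_lit 0) (nat_lit 637115121) (nat_lit 152) (nat_lit 5001552457) (nat_lit 76) (nat_lit 20111344954) (nat_lit 6) (nat_lit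 5) (nat_lit 8) (nat_lit 5) (nat_lit 7) (nat_lit 4) (nat_lit 298) (nat_lit 220) (nat_lit 202)) (XT.lf (nat_lit 0) (nat_lit 528635202) (nat_lit 76) (nat_lit 2910296301) (nat_lit 152) (nat_lit 23430157719) (nat_lit 5) (nat_lit 5) (nat_lit 6) (nat_lit 5) (nat_lit 7) (nat_lit 4) (nat_lit 299) (nat_lit 220) (nat_lit 201))) (XT.nd (nat_lit 78) (nat_lit 0) (nat_lit 0) (XT.lf (nat_lit 0) (nat_lit 6382173117) (nat_lit 76) (nat_lit 11346415) (nat_lit 152) (nat_lit 21650056411) (nat_lit 5) (nat_lit 5) (nat_lit 6) (nat_lit 5) (nat_lit 7) (nat_lit 4) (nat_lit 300) (nat_lit 220) (nat_lit 200)) (XT.nd (nat_lit 78) (nat_lit 0) (nat_lit 0) (XT.lf (nat_lit 0) (nat_lit 9473775836) (nat_lit 152) (nat_lit 16919210327) (nat_lit 0) (nat_lit 2884989835) (nat_lit 5) (nat_lit 5) (nat_lit 7) (nat_lit 4) (nat_lit 5) (nat_lit 4) (nat_lit 301) (nat_lit 220) (nat_lit 199)) (XT.lf (nat_lit 0) (nat_lit 12642128347)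 (nat_lit 152) (nat_lit 12057679575) (nat_lit 0) (nat_lit 5877665813) (nat_lit 5) (nat_lit 5) (nat_lit 7) (nat_lit 4) (nat_lit 5) (nat_lit 4) (nat_lit 302) (nat_lit 220) (nat_lit 198)))))) (XT.nd (nat_lit 312) (nat_lit 76) (nat_lit 0) (XT.nd (nat_lit 156) (nat_lit 76) (nat_lit 0) (XT.nd (nat_lit 78) (nat_lit 0) (nat_lit 0) (XT.lf (nat_lit 0) (nat_lit 15905943611) (nat_lit 152) (nat_lit 7065058350) (nat_lit 0) (nat_lit 8974170094) (nat_lit 5) (nat_lit 5) (nat_lit 7) (nat_lit 4) (nat_lit 5) (nat_lit 4) (nat_lit 303) (nat_lit 220) (nat_lit 197)) (XT.lf (nat_lit 0) (nat_lit 19272992618) (nat_lit 152) (nat_lit 1929459456) (nat_lit 0) (nat_lit 12181875308) (nat_lit 5) (nat_lit 5) (nat_lit 7) (nat_lit 4) (nat_lit 5) (nat_lit 4) (nat_lit 304) (nat_lit 220) (nat_lit 196))) (XT.nd (nat_lit 78) (nat_lit 0) (nat_lit 0) (XT.lf (nat_lit 0) (nat_lit 3472485957) (nat_lit 76) (nat_lit 19333021430) (nat_lit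 76) (nat_lit 12090148127) (nat_lit 4) (nat_lit 4) (nat_lit 5) (nat_lit 5) (nat_lit 5) (nat_lit 4) (nat_lit 305) (nat_lit 220) (nat_lit 195)) (XT.lf (nat_lit 0) (nat_lit 9111578758) (nat_lit 76) (nat_lit 17379802395) (nat_lit 76) (nat_lit 9992399574) (nat_lit 4) (nat_lit 4) (nat_lit 5) (nat_lit 5) (nat_lit 5) (nat_lit 4) (nat_lit 306) (nat_lit 220) (nat_lit 194)))) (XT.nd (nat_lit 156) (nat_lit 76) (nat_lit 0) (XT.nd (nat_lit 78) (nat_lit 0) (nat_lit 0) (XT.lf (nat_lit 0) (nat_lit 14937448713) (nat_lit 76) (nat_lit 15370820778) (nat_lit 76) (nat_lit 7845770797) (nat_lit 4) (nat_lit 4) (nat_lit 5) (nat_lit 5) (nat_lit 5) (nat_lit 4) (nat_lit 307) (nat_lit 220) (nat_lit 193)) (XT.lf (nat_lit 0) (nat_lit 20963966942) (nat_lit 76) (nat_lit 13301293288) (nat_lit 76) (nat_lit 5645150774) (nat_lit 4) (nat_lit 4) (nat_lit 5) (nat_lit 5) (nat_lit 5) (nat_lit 4) (nat_lit 308) (nat_lit 220) (nat_lit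 192))) (XT.nd (nat_lit 78) (nat_lit 76) (nat_lit 0) (XT.lf (nat_lit 0) (nat_lit 27205482298) (nat_lit 76) (nat_lit 11166292480) (nat_lit 76) (nat_lit 3385299934) (nat_lit 4) (nat_lit 4) (nat_lit 5) (nat_lit 5) (nat_lit 5) (nat_lit 4) (nat_lit 309) (nat_lit 220) (nat_lit 191)) (XT.nd (nat_lit 78) (nat_lit 76) (nat_lit 0) (XT.lf (nat_lit 0) (nat_lit 33676855531) (nat_lit 76) (nat_lit 8960735018) (nat_lit 76) (nat_lit 1060837680) (nat_lit 4) (nat_lit 4) (nat_lit 5) (nat_lit 5) (nat_lit 5) (nat_lit 4) (nat_lit 310) (nat_lit 220) (nat_lit 190)) (XT.lf (nat_lit 0) (nat_lit 1291081438) (nat_lit 152) (nat_lit 5366423047) (nat_lit 76) (nat_lit 39080548146) (nat_lit 3) (nat_lit 5) (nat_lit 5) (nat_lit 5) (nat_lit 4) (nat_lit 4) (nat_lit 311) (nat_lit 220) (nat_lit 189))))))))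
noncomputable def xc53 : XT := (XT.nd (nat_lit 1404) (nat_lit 0) (nat_lit 0) (XT.nd (nat_lit 702) (nat_lit 76) (nat_lit 0) (XT.nd (nat_lit 312) (nat_lit 0) (nat_lit 0) (XT.nd (nat_lit 156) (nat_lit 0) (nat_lit 0) (XT.nd (nat_lit 78) (nat_lit 76) (nat_lit 0) (XT.lf (nat_lit 0) (nat_lit 3682466835) (nat_lit 152) (nat_lit 571933134) (nat_lit 76) (nat_lit 43626560529) (nat_lit 3) (nat_lit 5) (nat_lit 5) (nat_lit 5) (nat_lit 4) (nat_lit 4) (nat_lit 312) (nat_lit 220) (nat_lit 188)) (XT.lf (nat_lit 0) (nat_lit 4535024238) (nat_lit 76) (nat_lit 1688745916) (nat_lit 152) (nat_lit 43905771750) (nat_lit 2) (nat_lit 5) (nat_lit 3) (nat_lit 5) (nat_lit 4) (nat_lit 4) (nat_lit 313) (nat_lit 220) (nat_lit 187))) (XT.nd (nat_lit 78) (nat_lit 0) (nat_lit 0) (XT.lf (nat_lit 0) (nat_lit 8877542372) (nat_lit 152) (nat_lit 42661505469) (nat_lit 0) (nat_lit 952277758) (nat_lit 2) (nat_lit 5) (nat_lit 4)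 (nat_lit 4) (nat_lit 2) (nat_lit 4) (nat_lit 314) (nat_lit 220) (nat_lit 186)) (XT.lf (nat_lit 0) (nat_lit 11653463880) (nat_lit 152) (nat_lit 39678832224) (nat_lit 0) (nat_lit 3639470680) (nat_lit 2) (nat_lit 5) (nat_lit 4) (nat_lit 4) (nat_lit 2) (nat_lit 4) (nat_lit 315) (nat_lit 220) (nat_lit 185)))) (XT.nd (nat_lit 156) (nat_lit 0) (nat_lit 0) (XT.nd (nat_lit 78) (nat_lit 0) (nat_lit 0) (XT.lf (nat_lit 0) (nat_lit 14531777960) (nat_lit 152) (nat_lit 36613030270) (nat_lit 0) (nat_lit 6433281344) (nat_lit 2) (nat_lit 5) (nat_lit 4) (nat_lit 4) (nat_lit 2) (nat_lit 4) (nat_lit 316) (nat_lit 220) (nat_lit 184)) (XT.lf (nat_lit 0) (nat_lit 17519337740) (nat_lit 152) (nat_lit 33456800080) (nat_lit 0) (nat_lit 9340361681) (nat_lit 2) (nat_lit 5) (nat_lit 4) (nat_lit 4) (nat_lit 2) (nat_lit 4) (nat_lit 317) (nat_lit 220) (nat_lit 183))) (XT.nd (nat_lit 78) (nat_lit 0) (nat_lit 0) (XT.lf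 (nat_lit 0) (nat_lit 20623256458) (nat_lit 152) (nat_lit 30202626819) (nat_lit 0) (nat_lit 12367633310) (nat_lit 2) (nat_lit 5) (nat_lit 4) (nat_lit 4) (nat_lit 2) (nat_lit 4) (nat_lit 318) (nat_lit 220) (nat_lit 182)) (XT.nd (nat_lit 78) (nat_lit 0) (nat_lit 0) (XT.lf (nat_lit 0) (nat_lit 23850924396) (nat_lit 152) (nat_lit 26842762457) (nat_lit 0) (nat_lit 15522304020) (nat_lit 2) (nat_lit 5) (nat_lit 4) (nat_lit 4) (nat_lit 2) (nat_lit 4) (nat_lit 319) (nat_lit 220) (nat_lit 181)) (XT.lf (nat_lit 0) (nat_lit 27210026478) (nat_lit 152) (nat_lit 23369207316) (nat_lit 0) (nat_lit 18811884933) (nat_lit 2) (nat_lit 5) (nat_lit 4) (nat_lit 4) (nat_lit 2) (nat_lit 4) (nat_lit 320) (nat_lit 220) (nat_lit 180)))))) (XT.nd (nat_lit 312) (nat_lit 76) (nat_lit 0) (XT.nd (nat_lit 156) (nat_lit 0) (nat_lit 0) (XT.nd (nat_lit 78) (nat_lit 0) (nat_lit 0) (XT.lf (nat_lit 0) (nat_lit 30708560566)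 (nat_lit 152) (nat_lit 19773691026) (nat_lit 0) (nat_lit 22244208383) (nat_lit 2) (nat_lit 5) (nat_lit 4) (nat_lit 4) (nat_lit 2) (nat_lit 4) (nat_lit 321) (nat_lit 220) (nat_lit 179)) (XT.lf (nat_lit 0) (nat_lit 34354856503) (nat_lit 152) (nat_lit 16047652835) (nat_lit 0) (nat_lit 25827446571) (nat_lit 2) (nat_lit 5) (nat_lit 4) (nat_lit 4) (nat_lit 2) (nat_lit 4) (nat_lit 322) (nat_lit 220) (nat_lit 178))) (XT.nd (nat_lit 78) (nat_lit 0) (nat_lit 0) (XT.lf (nat_lit 0) (nat_lit 38157595947) (nat_lit 152) (nat_lit 12182221223) (nat_lit 0) (nat_lit 29570131014) (nat_lit 2) (nat_lit 5) (nat_lit 4) (nat_lit 4) (nat_lit 2) (nat_lit 4) (nat_lit 323) (nat_lit 220) (nat_lit 177)) (XT.lf (nat_lit 0) (nat_lit 42125833038) (nat_lit 152) (nat_lit 8168192782) (nat_lit 0) (nat_lit 33481172867) (nat_lit 2) (nat_lit 5) (nat_lit 4) (nat_lit 4) (nat_lit 2) (nat_lit 4) (nat_lit 324) (nat_lit 220) (nat_lit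 176)))) (XT.nd (nat_lit 156) (nat_lit 0) (nat_lit 0) (XT.nd (nat_lit 78) (nat_lit 76) (nat_lit 0) (XT.lf (nat_lit 0) (nat_lit 46269015960) (nat_lit 152) (nat_lit 3996010301) (nat_lit 0) (nat_lit 37569884134) (nat_lit 2) (nat_lit 5) (nat_lit 4) (nat_lit 4) (nat_lit 2) (nat_lit 4) (nat_lit 325) (nat_lit 220) (nat_lit 175)) (XT.lf (nat_lit 0) (nat_lit 355642777) (nat_lit 76) (nat_lit 50246919238) (nat_lit 76) (nat_lit 41495909645) (nat_lit 1) (nat_lit 4) (nat_lit 2) (nat_lit 5) (nat_lit 2) (nat_lit 4) (nat_lit 326) (nat_lit 220) (nat_lit 174))) (XT.nd (nat_lit 78) (nat_lit 0) (nat_lit 0) (XT.lf (nat_lit 0) (nat_lit 5023743218) (nat_lit 76) (nat_lit 50174809700) (nat_lit 76) (nat_lit 41374392711) (nat_lit 1) (nat_lit 4) (nat_lit 2) (nat_lit 5) (nat_lit 2) (nat_lit 4) (nat_lit 327) (nat_lit 220) (nat_lit 173)) (XT.nd (nat_lit 78) (nat_lit 0) (nat_lit 0) (XT.lf (nat_lit 0) (nat_lit 9887279398)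 (nat_lit 76) (nat_lit 50116200329) (nat_lit 76) (nat_lit 41268728676) (nat_lit 1) (nat_lit 4) (nat_lit 2) (nat_lit 5) (nat_lit 2) (nat_lit 4) (nat_lit 328) (nat_lit 220) (nat_lit 172)) (XT.lf (nat_lit 0) (nat_lit 14957831166) (nat_lit 76) (nat_lit 50070951577) (nat_lit 76) (nat_lit 41178665958) (nat_lit 1) (nat_lit 4) (nat_lit 2) (nat_lit 5) (nat_lit 2) (nat_lit 4) (nat_lit 329) (nat_lit 220) (nat_lit 171))))))) (XT.nd (nat_lit 702) (nat_lit 0) (nat_lit 0) (XT.nd (nat_lit 312) (nat_lit 0) (nat_lit 0) (XT.nd (nat_lit 156) (nat_lit 0) (nat_lit 0) (XT.nd (nat_lit 78) (nat_lit 0) (nat_lit 0) (XT.lf (nat_lit 0) (nat_lit 20247471263) (nat_lit 76) (nat_lit 50038955709) (nat_lit 76) (nat_lit 41103990123) (nat_lit 1) (nat_lit 4) (nat_lit 2) (nat_lit 5) (nat_lit 2) (nat_lit 4) (nat_lit 330) (nat_lit 220) (nat_lit 170)) (XT.lf (nat_lit 0) (nat_lit 25768794072) (nat_lit 76) (nat_lit 50020136544)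 (nat_lit 76) (nat_lit 41044523371) (nat_lit 1) (nat_lit 4) (nat_lit 2) (nat_lit 5) (nat_lit 2) (nat_lit 4) (nat_lit 331) (nat_lit 220) (nat_lit 169))) (XT.nd (nat_lit 78) (nat_lit 0) (nat_lit 0) (XT.lf (nat_lit 0) (nat_lit 31534945599) (nat_lit 76) (nat_lit 50014449276) (nat_lit 76) (nat_lit 41000124114) (nat_lit 1) (nat_lit 4) (nat_lit 2) (nat_lit 5) (nat_lit 2) (nat_lit 4) (nat_lit 332) (nat_lit 220) (nat_lit 168)) (XT.lf (nat_lit 0) (nat_lit 37559654776) (nat_lit 76) (nat_lit 50021880362) (nat_lit 76) (nat_lit 40970686640) (nat_lit 1) (nat_lit 4) (nat_lit 2) (nat_lit 5) (nat_lit 2) (nat_lit 4) (nat_lit 333) (nat_lit 220) (nat_lit 167)))) (XT.nd (nat_lit 156) (nat_lit 0) (nat_lit 0) (XT.nd (nat_lit 78) (nat_lit 0) (nat_lit 0) (XT.lf (nat_lit 0) (nat_lit 43857266148) (nat_lit 76) (nat_lit 50042447497) (nat_lit 76) (nat_lit 40956140860) (nat_lit 1) (nat_lit 4) (nat_lit 2) (nat_lit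 5) (nat_lit 2) (nat_lit 4) (nat_lit 334) (nat_lit 220) (nat_lit 166)) (XT.lf (nat_lit 0) (nat_lit 50442774028) (nat_lit 76) (nat_lit 50076199649) (nat_lit 76) (nat_lit 40956452141) (nat_lit 1) (nat_lit 4) (nat_lit 2) (nat_lit 5) (nat_lit 2) (nat_lit 4) (nat_lit 335) (nat_lit 220) (nat_lit 165))) (XT.nd (nat_lit 78) (nat_lit 0) (nat_lit 0) (XT.lf (nat_lit 0) (nat_lit 57331858198) (nat_lit 76) (nat_lit 50123217181) (nat_lit 76) (nat_lit 40971621224) (nat_lit 1) (nat_lit 4) (nat_lit 2) (nat_lit 5) (nat_lit 2) (nat_lit 4) (nat_lit 336) (nat_lit 220) (nat_lit 164)) (XT.nd (nat_lit 78) (nat_lit 0) (nat_lit 0) (XT.lf (nat_lit 0) (nat_lit 64540921239) (nat_lit 76) (nat_lit 50183612038) (nat_lit 76) (nat_lit 41001684226) (nat_lit 1) (nat_lit 4) (nat_lit 2) (nat_lit 5) (nat_lit 2) (nat_lit 4) (nat_lit 337) (nat_lit 220) (nat_lit 163)) (XT.lf (nat_lit 0) (nat_lit 72087127585) (nat_lit 76) (nat_lit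 50257528019) (nat_lit 76) (nat_lit 41046712725) (nat_lit 1) (nat_lit 4) (nat_lit 2) (nat_lit 5) (nat_lit 2) (nat_lit 4) (nat_lit 338) (nat_lit 220) (nat_lit 162)))))) (XT.nd (nat_lit 312) (nat_lit 0) (nat_lit 0) (XT.nd (nat_lit 156) (nat_lit 0) (nat_lit 0) (XT.nd (nat_lit 78) (nat_lit 0) (nat_lit 0) (XT.lf (nat_lit 0) (nat_lit 79988444396) (nat_lit 76) (nat_lit 50345141114) (nat_lit 76) (nat_lit 41106813933) (nat_lit 1) (nat_lit 4) (nat_lit 2) (nat_lit 5) (nat_lit 2) (nat_lit 4) (nat_lit 339) (nat_lit 220) (nat_lit 161)) (XT.lf (nat_lit 0) (nat_lit 88263684330) (nat_lit 76) (nat_lit 50446659926) (nat_lit 76) (nat_lit 41182130947) (nat_lit 1) (nat_lit 4) (nat_lit 2) (nat_lit 5) (nat_lit 2) (nat_lit 4) (nat_lit 340) (nat_lit 220) (nat_lit 160))) (XT.nd (nat_lit 78) (nat_lit 0) (nat_lit 0) (XT.lf (nat_lit 0) (nat_lit 96932550340) (nat_lit 76) (nat_lit 50562326165) (nat_lit 76) (nat_lit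 41272843093) (nat_lit 1) (nat_lit 4) (nat_lit 2) (nat_lit 5) (nat_lit 2) (nat_lit 4) (nat_lit 341) (nat_lit 220) (nat_lit 159)) (XT.lf (nat_lit 0) (nat_lit 106015682582) (nat_lit 76) (nat_lit 50692415228) (nat_lit 76) (nat_lit 41379166353) (nat_lit 1) (nat_lit 4) (nat_lit 2) (nat_lit 5) (nat_lit 2) (nat_lit 4) (nat_lit 342) (nat_lit 220) (nat_lit 158)))) (XT.nd (nat_lit 156) (nat_lit 0) (nat_lit 0) (XT.nd (nat_lit 78) (nat_lit 0) (nat_lit 0) (XT.lf (nat_lit 0) (nat_lit 115534707562) (nat_lit 76) (nat_lit 50837236851) (nat_lit 76) (nat_lit 41501353878) (nat_lit 1) (nat_lit 4) (nat_lit 2) (nat_lit 5) (nat_lit 2) (nat_lit 4) (nat_lit 343) (nat_lit 220) (nat_lit 157)) (XT.lf (nat_lit 0) (nat_lit 125512289626) (nat_lit 76) (nat_lit 50997135847) (nat_lit 76) (nat_lit 41639696590) (nat_lit 1) (nat_lit 4) (nat_lit 2) (nat_lit 5) (nat_lit 2) (nat_lit 4) (nat_lit 344) (nat_lit 220) (nat_lit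 156))) (XT.nd (nat_lit 78) (nat_lit 0) (nat_lit 0) (XT.lf (nat_lit 0) (nat_lit 135972184920) (nat_lit 76) (nat_lit 51172492927) (nat_lit 76) (nat_lit 41794523877) (nat_lit 1) (nat_lit 4) (nat_lit 2) (nat_lit 5) (nat_lit 2) (nat_lit 4) (nat_lit 345) (nat_lit 220) (nat_lit 155)) (XT.nd (nat_lit 78) (nat_lit 0) (nat_lit 0) (XT.lf (nat_lit 0) (nat_lit 146939297959) (nat_lit 76) (nat_lit 51363725609) (nat_lit 76) (nat_lit 41966204374) (nat_lit 1) (nat_lit 4) (nat_lit 2) (nat_lit 5) (nat_lit 2) (nat_lit 4) (nat_lit 346) (nat_lit 220) (nat_lit 154)) (XT.lf (nat_lit 0) (nat_lit 158439740914) (nat_lit 76) (nat_lit 51571289209) (nat_lit 76) (nat_lit 42155146846) (nat_lit 1) (nat_lit 4) (nat_lit 2) (nat_lit 5) (nat_lit 2) (nat_lit 4) (nat_lit 347) (nat_lit 220) (nat_lit 153))))))))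
noncomputable def xc54 : XT := (XT.nd (nat_lit 1404) (nat_lit 0) (nat_lit 0) (XT.nd (nat_lit 702) (nat_lit 0) (nat_lit 0) (XT.nd (nat_lit 312) (nat_lit 0) (nat_lit 0) (XT.nd (nat_lit 156) (nat_lit 0) (nat_lit 0) (XT.nd (nat_lit 78) (nat_lit 0) (nat_lit 0) (XT.lf (nat_lit 0) (nat_lit 170500895794) (nat_lit 76) (nat_lit 51795677926) (nat_lit 76) (nat_lit 42361801154) (nat_lit 1) (nat_lit 4) (nat_lit 2) (nat_lit 5) (nat_lit 2) (nat_lit 4) (nat_lit 348) (nat_lit 220) (nat_lit 152)) (XT.lf (nat_lit 0) (nat_lit 183151479635) (nat_lit 76) (nat_lit 52037426018) (nat_lit 76) (nat_lit 42586659334) (nat_lit 1) (nat_lit 4) (nat_lit 2) (nat_lit 5) (nat_lit 2) (nat_lit 4) (nat_lit 349) (nat_lit 220) (nat_lit 151))) (XT.nd (nat_lit 78) (nat_lit 0) (nat_lit 0) (XT.lf (nat_lit 0) (nat_lit 196421612873) (nat_lit 76) (nat_lit 52297109076) (nat_lit 76) (nat_lit 42830256762) (nat_lit 1) (nat_lit 4) (nat_lit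 2) (nat_lit 5) (nat_lit 2) (nat_lit 4) (nat_lit 350) (nat_lit 220) (nat_lit 150)) (XT.lf (nat_lit 0) (nat_lit 210342891064) (nat_lit 76) (nat_lit 52575345393) (nat_lit 76) (nat_lit 43093173431) (nat_lit 1) (nat_lit 4) (nat_lit 2) (nat_lit 5) (nat_lit 2) (nat_lit 4) (nat_lit 351) (nat_lit 220) (nat_lit 149)))) (XT.nd (nat_lit 156) (nat_lit 0) (nat_lit 0) (XT.nd (nat_lit 78) (nat_lit 0) (nat_lit 0) (XT.lf (nat_lit 0) (nat_lit 224948460108) (nat_lit 76) (nat_lit 52872797438) (nat_lit 76) (nat_lit 43376035334) (nat_lit 1) (nat_lit 4) (nat_lit 2) (nat_lit 5) (nat_lit 2) (nat_lit 4) (nat_lit 352) (nat_lit 220) (nat_lit 148)) (XT.lf (nat_lit 0) (nat_lit 240273095170) (nat_lit 76) (nat_lit 53190173428) (nat_lit 76) (nat_lit 43679515951) (nat_lit 1) (nat_lit 4) (nat_lit 2) (nat_lit 5) (nat_lit 2) (nat_lit 4) (nat_lit 353) (nat_lit 220) (nat_lit 147))) (XT.nd (nat_lit 78) (nat_lit 0) (nat_lit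 0) (XT.lf (nat_lit 0) (nat_lit 256353283477) (nat_lit 76) (nat_lit 53528229020) (nat_lit 76) (nat_lit 44004337856) (nat_lit 1) (nat_lit 4) (nat_lit 2) (nat_lit 5) (nat_lit 2) (nat_lit 4) (nat_lit 354) (nat_lit 220) (nat_lit 146)) (XT.nd (nat_lit 78) (nat_lit 0) (nat_lit 0) (XT.lf (nat_lit 0) (nat_lit 273227311190) (nat_lit 76) (nat_lit 53887769111) (nat_lit 76) (nat_lit 44351274433) (nat_lit 1) (nat_lit 4) (nat_lit 2) (nat_lit 5) (nat_lit 2) (nat_lit 4) (nat_lit 355) (nat_lit 220) (nat_lit 145)) (XT.lf (nat_lit 0) (nat_lit 290935354567) (nat_lit 76) (nat_lit 54269649746) (nat_lit 76) (nat_lit 44721151723) (nat_lit 1) (nat_lit 4) (nat_lit 2) (nat_lit 5) (nat_lit 2) (nat_lit 4) (nat_lit 356) (nat_lit 220) (nat_lit 144)))))) (XT.nd (nat_lit 312) (nat_lit 0) (nat_lit 0) (XT.nd (nat_lit 156) (nat_lit 0) (nat_lit 0) (XT.nd (nat_lit 78) (nat_lit 0) (nat_lit 0) (XT.lf (nat_lit 0) (nat_lit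 309519575614) (nat_lit 76) (nat_lit 54674780165) (nat_lit 76) (nat_lit 45114850385) (nat_lit 1) (nat_lit 4) (nat_lit 2) (nat_lit 5) (nat_lit 2) (nat_lit 4) (nat_lit 357) (nat_lit 220) (nat_lit 143)) (XT.lf (nat_lit 0) (nat_lit 329024222479) (nat_lit 76) (nat_lit 55104124966) (nat_lit 76) (nat_lit 45533307798) (nat_lit 1) (nat_lit 4) (nat_lit 2) (nat_lit 5) (nat_lit 2) (nat_lit 4) (nat_lit 358) (nat_lit 220) (nat_lit 142))) (XT.nd (nat_lit 78) (nat_lit 0) (nat_lit 0) (XT.lf (nat_lit 0) (nat_lit 349495734796) (nat_lit 76) (nat_lit 55558706397) (nat_lit 76) (nat_lit 45977520288) (nat_lit 1) (nat_lit 4) (nat_lit 2) (nat_lit 5) (nat_lit 2) (nat_lit 4) (nat_lit 359) (nat_lit 220) (nat_lit 141)) (XT.lf (nat_lit 0) (nat_lit 370982854261) (nat_lit 76) (nat_lit 56039606795) (nat_lit 76) (nat_lit 46448545504) (nat_lit 1) (nat_lit 4) (nat_lit 2) (nat_lit 5) (nat_lit 2) (nat_lit 4) (nat_lit 360)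 (nat_lit 220) (nat_lit 140)))) (XT.nd (nat_lit 156) (nat_lit 0) (nat_lit 0) (XT.nd (nat_lit 78) (nat_lit 0) (nat_lit 0) (XT.lf (nat_lit 0) (nat_lit 393536740682) (nat_lit 76) (nat_lit 56547971161) (nat_lit 76) (nat_lit 46947504935) (nat_lit 1) (nat_lit 4) (nat_lit 2) (nat_lit 5) (nat_lit 2) (nat_lit 4) (nat_lit 361) (nat_lit 220) (nat_lit 139)) (XT.lf (nat_lit 0) (nat_lit 417211093789) (nat_lit 76) (nat_lit 57085009887) (nat_lit 76) (nat_lit 47475586579) (nat_lit 1) (nat_lit 4) (nat_lit 2) (nat_lit 5) (nat_lit 2) (nat_lit 4) (nat_lit 362) (nat_lit 220) (nat_lit 138))) (XT.nd (nat_lit 78) (nat_lit 0) (nat_lit 0) (XT.lf (nat_lit 0) (nat_lit 442062281089) (nat_lit 76) (nat_lit 57652001635) (nat_lit 76) (nat_lit 48034047774) (nat_lit 1) (nat_lit 4) (nat_lit 2) (nat_lit 5) (nat_lit 2) (nat_lit 4) (nat_lit 363) (nat_lit 220) (nat_lit 137)) (XT.nd (nat_lit 78) (nat_lit 0) (nat_lit 0) (XT.lf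 (nat_lit 0) (nat_lit 468149472076) (nat_lit 76) (nat_lit 58250296387) (nat_lit 76) (nat_lit 48624218190) (nat_lit 1) (nat_lit 4) (nat_lit 2) (nat_lit 5) (nat_lit 2) (nat_lit 4) (nat_lit 364) (nat_lit 220) (nat_lit 136)) (XT.lf (nat_lit 0) (nat_lit 495534779110) (nat_lit 76) (nat_lit 58881318654) (nat_lit 76) (nat_lit 49247502993) (nat_lit 1) (nat_lit 4) (nat_lit 2) (nat_lit 5) (nat_lit 2) (nat_lit 4) (nat_lit 365) (nat_lit 220) (nat_lit 135))))))) (XT.nd (nat_lit 31278) (nat_lit 0) (nat_lit 532) (XT.nd (nat_lit 30888) (nat_lit 0) (nat_lit 988) (XT.nd (nat_lit 30732) (nat_lit 0) (nat_lit 1292) (XT.nd (nat_lit 30654) (nat_lit 0) (nat_lit 1444) (XT.lf (nat_lit 0) (nat_lit 524283405301) (nat_lit 76) (nat_lit 59546570869) (nat_lit 76) (nat_lit 49905386196) (nat_lit 1) (nat_lit 4) (nat_lit 2) (nat_lit 5) (nat_lit 2) (nat_lit 4) (nat_lit 366) (nat_lit 220) (nat_lit 134)) (XT.lf (nat_lit 0)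 (nat_lit 1195175318) (nat_lit 228) (nat_lit 3710082650) (nat_lit 0) (nat_lit 1195175318) (nat_lit 20) (nat_lit 5) (nat_lit 23) (nat_lit 4) (nat_lit 20) (nat_lit 4) (nat_lit 278) (nat_lit 221) (nat_lit 221))) (XT.nd (nat_lit 78) (nat_lit 152) (nat_lit 0) (XT.lf (nat_lit 0) (nat_lit 6066770648) (nat_lit 228) (nat_lit 1082575835) (nat_lit 0) (nat_lit 5442122401) (nat_lit 20) (nat_lit 5) (nat_lit 23) (nat_lit 4) (nat_lit 20) (nat_lit 4) (nat_lit 279) (nat_lit 221) (nat_lit 220)) (XT.lf (nat_lit 0) (nat_lit 5537886200) (nat_lit 152) (nat_lit 4342926777) (nat_lit 152) (nat_lit 3123375438) (nat_lit 18) (nat_lit 4) (nat_lit 20) (nat_lit 5) (nat_lit 20) (nat_lit 4) (nat_lit 280) (nat_lit 221) (nat_lit 219)))) (XT.nd (nat_lit 156) (nat_lit 152) (nat_lit 0) (XT.nd (nat_lit 78) (nat_lit 76) (nat_lit 0) (XT.lf (nat_lit 0) (nat_lit 320340347) (nat_lit 228) (nat_lit 1129428001) (nat_lit 76) (nat_lit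 11993343936) (nat_lit 17) (nat_lit 5) (nat_lit 20) (nat_lit 5) (nat_lit 18) (nat_lit 4) (nat_lit 281) (nat_lit 221) (nat_lit 218)) (XT.lf (nat_lit 0) (nat_lit 3816433826) (nat_lit 152) (nat_lit 8484507858) (nat_lit 0) (nat_lit 1601462059) (nat_lit 16) (nat_lit 5) (nat_lit 18) (nat_lit 4) (nat_lit 16) (nat_lit 4) (nat_lit 282) (nat_lit 221) (nat_lit 217))) (XT.nd (nat_lit 78) (nat_lit 152) (nat_lit 0) (XT.lf (nat_lit 0) (nat_lit 7406541351) (nat_lit 152) (nat_lit 2280244645) (nat_lit 0) (nat_lit 4702141338) (nat_lit 16) (nat_lit 5) (nat_lit 18) (nat_lit 4) (nat_lit 16) (nat_lit 4) (nat_lit 283) (nat_lit 221) (nat_lit 216)) (XT.nd (nat_lit 78) (nat_lit 0) (nat_lit 0) (XT.lf (nat_lit 0) (nat_lit 4173270898) (nat_lit 152) (nat_lit 6949946194) (nat_lit 152) (nat_lit 3779424041) (nat_lit 14) (nat_lit 4) (nat_lit 16) (nat_lit 5) (nat_lit 16) (nat_lit 4) (nat_lit 284) (nat_lit 221) (nat_lit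 215)) (XT.lf (nat_lit 0) (nat_lit 10837233209) (nat_lit 152) (nat_lit 4111652153) (nat_lit 152) (nat_lit 497204153) (nat_lit 14) (nat_lit 4) (nat_lit 16) (nat_lit 5) (nat_lit 16) (nat_lit 4) (nat_lit 285) (nat_lit 221) (nat_lit 214)))))) (XT.nd (nat_lit 312) (nat_lit 152) (nat_lit 0) (XT.nd (nat_lit 156) (nat_lit 152) (nat_lit 0) (XT.nd (nat_lit 78) (nat_lit 0) (nat_lit 0) (XT.lf (nat_lit 0) (nat_lit 1637892733) (nat_lit 76) (nat_lit 1130462024) (nat_lit 152) (nat_lit 13250560026) (nat_lit 12) (nat_lit 5) (nat_lit 13) (nat_lit 5) (nat_lit 14) (nat_lit 4) (nat_lit 286) (nat_lit 221) (nat_lit 213)) (XT.lf (nat_lit 0) (nat_lit 6180404725) (nat_lit 152) (nat_lit 8487811962) (nat_lit 0) (nat_lit 1951939629) (nat_lit 12) (nat_lit 5) (nat_lit 14) (nat_lit 4) (nat_lit 12) (nat_lit 4) (nat_lit 287) (nat_lit 221) (nat_lit 212))) (XT.nd (nat_lit 78) (nat_lit 152) (nat_lit 0) (XT.lf (nat_lit 0)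 (nat_lit 9676224944) (nat_lit 152) (nat_lit 2497205798) (nat_lit 0) (nat_lit 5082540955) (nat_lit 12) (nat_lit 5) (nat_lit 14) (nat_lit 4) (nat_lit 12) (nat_lit 4) (nat_lit 288) (nat_lit 221) (nat_lit 211)) (XT.lf (nat_lit 0) (nat_lit 3742492604) (nat_lit 152) (nat_lit 9562427310) (nat_lit 152) (nat_lit 4620915804) (nat_lit 10) (nat_lit 4) (nat_lit 12) (nat_lit 5) (nat_lit 12) (nat_lit 4) (nat_lit 289) (nat_lit 221) (nat_lit 210)))) (XT.nd (nat_lit 156) (nat_lit 76) (nat_lit 0) (XT.nd (nat_lit 78) (nat_lit 76) (nat_lit 0) (XT.lf (nat_lit 0) (nat_lit 10213397573) (nat_lit 152) (nat_lit 6845760056) (nat_lit 152) (nat_lit 1572984248) (nat_lit 10) (nat_lit 4) (nat_lit 12) (nat_lit 5) (nat_lit 12) (nat_lit 4) (nat_lit 290) (nat_lit 221) (nat_lit 209)) (XT.lf (nat_lit 0) (nat_lit 1480075523) (nat_lit 228) (nat_lit 2554110797) (nat_lit 76) (nat_lit 15343205804) (nat_lit 9) (nat_lit 5) (nat_lit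 12) (nat_lit 5) (nat_lit 10) (nat_lit 4) (nat_lit 291) (nat_lit 221) (nat_lit 208))) (XT.nd (nat_lit 78) (nat_lit 0) (nat_lit 0) (XT.lf (nat_lit 0) (nat_lit 3536109296) (nat_lit 76) (nat_lit 1061374314) (nat_lit 152) (nat_lit 15563037370) (nat_lit 8) (nat_lit 5) (nat_lit 9) (nat_lit 5) (nat_lit 10) (nat_lit 4) (nat_lit 292) (nat_lit 221) (nat_lit 207)) (XT.nd (nat_lit 78) (nat_lit 0) (nat_lit 0) (XT.lf (nat_lit 0) (nat_lit 7857178023) (nat_lit 152) (nat_lit 11150104666) (nat_lit 0) (nat_lit 1976329770) (nat_lit 8) (nat_lit 5) (nat_lit 10) (nat_lit 4) (nat_lit 8) (nat_lit 4) (nat_lit 293) (nat_lit 221) (nat_lit 206)) (XT.lf (nat_lit 0) (nat_lit 11211816850) (nat_lit 152) (nat_lit 5568150256) (nat_lit 0) (nat_lit 5071414348) (nat_lit 8) (nat_lit 5) (nat_lit 10) (nat_lit 4) (nat_lit 8) (nat_lit 4) (nat_lit 294) (nat_lit 221) (nat_lit 205))))))))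
noncomputable def xc55 : XT := (XT.nd (nat_lit 1404) (nat_lit 152) (nat_lit 0) (XT.nd (nat_lit 702) (nat_lit 152) (nat_lit 0) (XT.nd (nat_lit 312) (nat_lit 76) (nat_lit 0) (XT.nd (nat_lit 156) (nat_lit 76) (nat_lit 0) (XT.nd (nat_lit 78) (nat_lit 0) (nat_lit 0) (XT.lf (nat_lit 0) (nat_lit 156316027) (nat_lit 76) (nat_lit 14498940804) (nat_lit 76) (nat_lit 8111343780) (nat_lit 7) (nat_lit 4) (nat_lit 8) (nat_lit 5) (nat_lit 8) (nat_lit 4) (nat_lit 295) (nat_lit 221) (nat_lit 204)) (XT.lf (nat_lit 0) (nat_lit 6221013987) (nat_lit 76) (nat_lit 12064482704) (nat_lit 76) (nat_lit 5441462325) (nat_lit 7) (nat_lit 4) (nat_lit 8) (nat_lit 5) (nat_lit 8) (nat_lit 4) (nat_lit 296) (nat_lit 221) (nat_lit 203))) (XT.nd (nat_lit 78) (nat_lit 76) (nat_lit 0) (XT.lf (nat_lit 0) (nat_lit 12456275186) (nat_lit 76) (nat_lit 9565095797) (nat_lit 76) (nat_lit 2717862699) (nat_lit 7) (nat_lit 4) (nat_lit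 8) (nat_lit 5) (nat_lit 8) (nat_lit 4) (nat_lit 297) (nat_lit 221) (nat_lit 202)) (XT.lf (nat_lit 0) (nat_lit 63829371) (nat_lit 152) (nat_lit 6929918810) (nat_lit 76) (nat_lit 18812035132) (nat_lit 6) (nat_lit 5) (nat_lit 8) (nat_lit 5) (nat_lit 7) (nat_lit 4) (nat_lit 298) (nat_lit 221) (nat_lit 201)))) (XT.nd (nat_lit 156) (nat_lit 0) (nat_lit 0) (XT.nd (nat_lit 78) (nat_lit 76) (nat_lit 0) (XT.lf (nat_lit 0) (nat_lit 2823224884) (nat_lit 152) (nat_lit 1476525553) (nat_lit 76) (nat_lit 22627274627) (nat_lit 6) (nat_lit 5) (nat_lit 8) (nat_lit 5) (nat_lit 7) (nat_lit 4) (nat_lit 299) (nat_lit 221) (nat_lit 200)) (XT.lf (nat_lit 0) (nat_lit 4269282706) (nat_lit 76) (nat_lit 1451255171) (nat_lit 152) (nat_lit 22383879583) (nat_lit 5) (nat_lit 5) (nat_lit 6) (nat_lit 5) (nat_lit 7) (nat_lit 4) (nat_lit 300) (nat_lit 221) (nat_lit 199))) (XT.nd (nat_lit 78) (nat_lit 0) (nat_lit 0) (XT.lf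 (nat_lit 0) (nat_lit 8746067992) (nat_lit 152) (nat_lit 19127819959) (nat_lit 0) (nat_lit 1467705800) (nat_lit 5) (nat_lit 5) (nat_lit 7) (nat_lit 4) (nat_lit 5) (nat_lit 4) (nat_lit 301) (nat_lit 221) (nat_lit 198)) (XT.nd (nat_lit 78) (nat_lit 0) (nat_lit 0) (XT.lf (nat_lit 0) (nat_lit 11883710809) (nat_lit 152) (nat_lit 14320916555) (nat_lit 0) (nat_lit 4438037634) (nat_lit 5) (nat_lit 5) (nat_lit 7) (nat_lit 4) (nat_lit 5) (nat_lit 4) (nat_lit 302) (nat_lit 221) (nat_lit 197)) (XT.lf (nat_lit 0) (nat_lit 15118278746) (nat_lit 152) (nat_lit 9380321375) (nat_lit 0) (nat_lit 7513261778) (nat_lit 5) (nat_lit 5) (nat_lit 7) (nat_lit 4) (nat_lit 5) (nat_lit 4) (nat_lit 303) (nat_lit 221) (nat_lit 196)))))) (XT.nd (nat_lit 312) (nat_lit 76) (nat_lit 0) (XT.nd (nat_lit 156) (nat_lit 0) (nat_lit 0) (XT.nd (nat_lit 78) (nat_lit 76) (nat_lit 0) (XT.lf (nat_lit 0) (nat_lit 18457473156) (nat_lit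 152) (nat_lit 4294271097) (nat_lit 0) (nat_lit 10700700193) (nat_lit 5) (nat_lit 5) (nat_lit 7) (nat_lit 4) (nat_lit 5) (nat_lit 4) (nat_lit 304) (nat_lit 221) (nat_lit 195)) (XT.lf (nat_lit 0) (nat_lit 980733520) (nat_lit 76) (nat_lit 20943822978) (nat_lit 76) (nat_lit 13042520498) (nat_lit 4) (nat_lit 4) (nat_lit 5) (nat_lit 5) (nat_lit 5) (nat_lit 4) (nat_lit 305) (nat_lit 221) (nat_lit 194))) (XT.nd (nat_lit 78) (nat_lit 0) (nat_lit 0) (XT.lf (nat_lit 0) (nat_lit 6573398279) (nat_lit 76) (nat_lit 19011042172) (nat_lit 76) (nat_lit 10972092532) (nat_lit 4) (nat_lit 4) (nat_lit 5) (nat_lit 5) (nat_lit 5) (nat_lit 4) (nat_lit 306) (nat_lit 221) (nat_lit 193)) (XT.lf (nat_lit 0) (nat_lit 12355051052) (nat_lit 76) (nat_lit 17021525534) (nat_lit 76) (nat_lit 8851483361) (nat_lit 4) (nat_lit 4) (nat_lit 5) (nat_lit 5) (nat_lit 5) (nat_lit 4) (nat_lit 307) (nat_lit 221) (nat_lit 192))))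 (XT.nd (nat_lit 156) (nat_lit 76) (nat_lit 0) (XT.nd (nat_lit 78) (nat_lit 0) (nat_lit 0) (XT.lf (nat_lit 0) (nat_lit 18339457679) (nat_lit 76) (nat_lit 14970536121) (nat_lit 76) (nat_lit 6675643916) (nat_lit 4) (nat_lit 4) (nat_lit 5) (nat_lit 5) (nat_lit 5) (nat_lit 4) (nat_lit 308) (nat_lit 221) (nat_lit 191)) (XT.lf (nat_lit 0) (nat_lit 24540866747) (nat_lit 76) (nat_lit 12853190623) (nat_lit 76) (nat_lit 4439393627) (nat_lit 4) (nat_lit 4) (nat_lit 5) (nat_lit 5) (nat_lit 5) (nat_lit 4) (nat_lit 309) (nat_lit 221) (nat_lit 190))) (XT.nd (nat_lit 78) (nat_lit 76) (nat_lit 0) (XT.lf (nat_lit 0) (nat_lit 30974043515) (nat_lit 76) (nat_lit 10664447742) (nat_lit 76) (nat_lit 2137408087) (nat_lit 4) (nat_lit 4) (nat_lit 5) (nat_lit 5) (nat_lit 5) (nat_lit 4) (nat_lit 310) (nat_lit 221) (nat_lit 189)) (XT.nd (nat_lit 78) (nat_lit 0) (nat_lit 0) (XT.lf (nat_lit 0) (nat_lit 228246751)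 (nat_lit 152) (nat_lit 8166983966) (nat_lit 76) (nat_lit 37422192851) (nat_lit 3) (nat_lit 5) (nat_lit 5) (nat_lit 5) (nat_lit 4) (nat_lit 4) (nat_lit 311) (nat_lit 221) (nat_lit 188)) (XT.lf (nat_lit 0) (nat_lit 2599897618) (nat_lit 152) (nat_lit 3407814118) (nat_lit 76) (nat_lit 41953628658) (nat_lit 3) (nat_lit 5) (nat_lit 5) (nat_lit 5) (nat_lit 4) (nat_lit 4) (nat_lit 312) (nat_lit 221) (nat_lit 187))))))) (XT.nd (nat_lit 702) (nat_lit 76) (nat_lit 0) (XT.nd (nat_lit 312) (nat_lit 0) (nat_lit 0) (XT.nd (nat_lit 156) (nat_lit 0) (nat_lit 0) (XT.nd (nat_lit 78) (nat_lit 0) (nat_lit 0) (XT.lf (nat_lit 0) (nat_lit 1570625836) (nat_lit 76) (nat_lit 3505497744) (nat_lit 152) (nat_lit 45137073262) (nat_lit 2) (nat_lit 5) (nat_lit 3) (nat_lit 5) (nat_lit 4) (nat_lit 4) (nat_lit 313) (nat_lit 221) (nat_lit 186)) (XT.lf (nat_lit 0) (nat_lit 6848453406) (nat_lit 76) (nat_lit 847666556) (nat_lit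 152) (nat_lit 44880569531) (nat_lit 2) (nat_lit 5) (nat_lit 3) (nat_lit 5) (nat_lit 4) (nat_lit 4) (nat_lit 314) (nat_lit 221) (nat_lit 185))) (XT.nd (nat_lit 78) (nat_lit 0) (nat_lit 0) (XT.lf (nat_lit 0) (nat_lit 10441049215) (nat_lit 152) (nat_lit 42764525930) (nat_lit 0) (nat_lit 1853124352) (nat_lit 2) (nat_lit 5) (nat_lit 4) (nat_lit 4) (nat_lit 2) (nat_lit 4) (nat_lit 315) (nat_lit 221) (nat_lit 184)) (XT.lf (nat_lit 0) (nat_lit 13302451098) (nat_lit 152) (nat_lit 39729388299) (nat_lit 0) (nat_lit 4634046792) (nat_lit 2) (nat_lit 5) (nat_lit 4) (nat_lit 4) (nat_lit 2) (nat_lit 4) (nat_lit 316) (nat_lit 221) (nat_lit 183)))) (XT.nd (nat_lit 156) (nat_lit 0) (nat_lit 0) (XT.nd (nat_lit 78) (nat_lit 0) (nat_lit 0) (XT.lf (nat_lit 0) (nat_lit 16273904023) (nat_lit 152) (nat_lit 36602362225) (nat_lit 0) (nat_lit 7528852628) (nat_lit 2) (nat_lit 5) (nat_lit 4) (nat_lit 4) (nat_lit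 2) (nat_lit 4) (nat_lit 317) (nat_lit 221) (nat_lit 182)) (XT.lf (nat_lit 0) (nat_lit 19362482880) (nat_lit 152) (nat_lit 33376002409) (nat_lit 0) (nat_lit 10544434257) (nat_lit 2) (nat_lit 5) (nat_lit 4) (nat_lit 4) (nat_lit 2) (nat_lit 4) (nat_lit 318) (nat_lit 221) (nat_lit 181))) (XT.nd (nat_lit 78) (nat_lit 0) (nat_lit 0) (XT.lf (nat_lit 0) (nat_lit 22575541426) (nat_lit 152) (nat_lit 30042627042) (nat_lit 0) (nat_lit 13687971634) (nat_lit 2) (nat_lit 5) (nat_lit 4) (nat_lit 4) (nat_lit 2) (nat_lit 4) (nat_lit 319) (nat_lit 221) (nat_lit 180)) (XT.nd (nat_lit 78) (nat_lit 0) (nat_lit 0) (XT.lf (nat_lit 0) (nat_lit 25920729802) (nat_lit 152) (nat_lit 26594299514) (nat_lit 0) (nat_lit 16966949373) (nat_lit 2) (nat_lit 5) (nat_lit 4) (nat_lit 4) (nat_lit 2) (nat_lit 4) (nat_lit 320) (nat_lit 221) (nat_lit 179)) (XT.lf (nat_lit 0) (nat_lit 29406012741) (nat_lit 152) (nat_lit 23022809524)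 (nat_lit 0) (nat_lit 20389174562) (nat_lit 2) (nat_lit 5) (nat_lit 4) (nat_lit 4) (nat_lit 2) (nat_lit 4) (nat_lit 321) (nat_lit 221) (nat_lit 178)))))) (XT.nd (nat_lit 390) (nat_lit 76) (nat_lit 0) (XT.nd (nat_lit 156) (nat_lit 0) (nat_lit 0) (XT.nd (nat_lit 78) (nat_lit 0) (nat_lit 0) (XT.lf (nat_lit 0) (nat_lit 33039688536) (nat_lit 152) (nat_lit 19319653523) (nat_lit 0) (nat_lit 23962795357) (nat_lit 2) (nat_lit 5) (nat_lit 4) (nat_lit 4) (nat_lit 2) (nat_lit 4) (nat_lit 322) (nat_lit 221) (nat_lit 177)) (XT.lf (nat_lit 0) (nat_lit 36830408797) (nat_lit 152) (nat_lit 15476014473) (nat_lit 0) (nat_lit 27696320380) (nat_lit 2) (nat_lit 5) (nat_lit 4) (nat_lit 4) (nat_lit 2) (nat_lit 4) (nat_lit 323) (nat_lit 221) (nat_lit 176))) (XT.nd (nat_lit 78) (nat_lit 0) (nat_lit 0) (XT.lf (nat_lit 0) (nat_lit 40787199047) (nat_lit 152) (nat_lit 11482740852) (nat_lit 0) (nat_lit 31598638975)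 (nat_lit 2) (nat_lit 5) (nat_lit 4) (nat_lit 4) (nat_lit 2) (nat_lit 4) (nat_lit 324) (nat_lit 221) (nat_lit 175)) (XT.nd (nat_lit 78) (nat_lit 0) (nat_lit 0) (XT.lf (nat_lit 0) (nat_lit 44919480216) (nat_lit 152) (nat_lit 7330324866) (nat_lit 0) (nat_lit 35679042378) (nat_lit 2) (nat_lit 5) (nat_lit 4) (nat_lit 4) (nat_lit 2) (nat_lit 4) (nat_lit 325) (nat_lit 221) (nat_lit 174)) (XT.lf (nat_lit 0) (nat_lit 49237091069) (nat_lit 152) (nat_lit 3008879811) (nat_lit 0) (nat_lit 39947245833) (nat_lit 2) (nat_lit 5) (nat_lit 4) (nat_lit 4) (nat_lit 2) (nat_lit 4) (nat_lit 326) (nat_lit 221) (nat_lit 173))))) (XT.nd (nat_lit 156) (nat_lit 0) (nat_lit 0) (XT.nd (nat_lit 78) (nat_lit 0) (nat_lit 0) (XT.lf (nat_lit 0) (nat_lit 1541211872) (nat_lit 76) (nat_lit 52233162395) (nat_lit 76) (nat_lit 42896262496) (nat_lit 1) (nat_lit 4) (nat_lit 2) (nat_lit 5) (nat_lit 2) (nat_lit 4) (nat_lit 327)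 (nat_lit 221) (nat_lit 172)) (XT.lf (nat_lit 0) (nat_lit 6387108432) (nat_lit 76) (nat_lit 52182499896) (nat_lit 76) (nat_lit 42800786031) (nat_lit 1) (nat_lit 4) (nat_lit 2) (nat_lit 5) (nat_lit 2) (nat_lit 4) (nat_lit 328) (nat_lit 221) (nat_lit 171))) (XT.nd (nat_lit 78) (nat_lit 0) (nat_lit 0) (XT.lf (nat_lit 0) (nat_lit 11440860562) (nat_lit 76) (nat_lit 52144819593) (nat_lit 76) (nat_lit 42720425761) (nat_lit 1) (nat_lit 4) (nat_lit 2) (nat_lit 5) (nat_lit 2) (nat_lit 4) (nat_lit 329) (nat_lit 221) (nat_lit 170)) (XT.nd (nat_lit 78) (nat_lit 0) (nat_lit 0) (XT.lf (nat_lit 0) (nat_lit 16714501004) (nat_lit 76) (nat_lit 52120031773) (nat_lit 76) (nat_lit 42654990352) (nat_lit 1) (nat_lit 4) (nat_lit 2) (nat_lit 5) (nat_lit 2) (nat_lit 4) (nat_lit 330) (nat_lit 221) (nat_lit 169)) (XT.lf (nat_lit 0) (nat_lit 22220586046) (nat_lit 76) (nat_lit 52108077415) (nat_lit 76) (nat_lit 42604324007)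 (nat_lit 1) (nat_lit 4) (nat_lit 2) (nat_lit 5) (nat_lit 2) (nat_lit 4) (nat_lit 331) (nat_lit 221) (nat_lit 168))))))))
noncomputable def xc56 : XT := (XT.nd (nat_lit 1404) (nat_lit 0) (nat_lit 0) (XT.nd (nat_lit 702) (nat_lit 0) (nat_lit 0) (XT.nd (nat_lit 312) (nat_lit 0) (nat_lit 0) (XT.nd (nat_lit 156) (nat_lit 0) (nat_lit 0) (XT.nd (nat_lit 78) (nat_lit 0) (nat_lit 0) (XT.lf (nat_lit 0) (nat_lit 27972225413) (nat_lit 76) (nat_lit 52108928058) (nat_lit 76) (nat_lit 42568306089) (nat_lit 1) (nat_lit 4) (nat_lit 2) (nat_lit 5) (nat_lit 2) (nat_lit 4) (nat_lit 332) (nat_lit 221) (nat_lit 167)) (XT.lf (nat_lit 0) (nat_lit 33983113486) (nat_lit 76) (nat_lit 52122585727) (nat_lit 76) (nat_lit 42546850844) (nat_lit 1) (nat_lit 4) (nat_lit 2) (nat_lit 5) (nat_lit 2) (nat_lit 4) (nat_lit 333) (nat_lit 221) (nat_lit 166))) (XT.nd (nat_lit 78) (nat_lit 0) (nat_lit 0) (XT.lf (nat_lit 0) (nat_lit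 40267561902) (nat_lit 76) (nat_lit 52149082940) (nat_lit 76) (nat_lit 42539907185) (nat_lit 1) (nat_lit 4) (nat_lit 2) (nat_lit 5) (nat_lit 2) (nat_lit 4) (nat_lit 334) (nat_lit 221) (nat_lit 165)) (XT.lf (nat_lit 0) (nat_lit 46840533634) (nat_lit 76) (nat_lit 52188482786) (nat_lit 76) (nat_lit 42547458582) (nat_lit 1) (nat_lit 4) (nat_lit 2) (nat_lit 5) (nat_lit 2) (nat_lit 4) (nat_lit 335) (nat_lit 221) (nat_lit 164)))) (XT.nd (nat_lit 156) (nat_lit 0) (nat_lit 0) (XT.nd (nat_lit 78) (nat_lit 0) (nat_lit 0) (XT.lf (nat_lit 0) (nat_lit 53717678614) (nat_lit 76) (nat_lit 52240879073) (nat_lit 76) (nat_lit 42569523014) (nat_lit 1) (nat_lit 4) (nat_lit 2) (nat_lit 5) (nat_lit 2) (nat_lit 4) (nat_lit 336) (nat_lit 221) (nat_lit 163)) (XT.lf (nat_lit 0) (nat_lit 60915370998) (nat_lit 76) (nat_lit 52306396555) (nat_lit 76) (nat_lit 42606153015) (nat_lit 1) (nat_lit 4) (nat_lit 2) (nat_lit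 5) (nat_lit 2) (nat_lit 4) (nat_lit 337) (nat_lit 221) (nat_lit 162))) (XT.nd (nat_lit 78) (nat_lit 0) (nat_lit 0) (XT.lf (nat_lit 0) (nat_lit 68450748148) (nat_lit 76) (nat_lit 52385191227) (nat_lit 76) (nat_lit 42657435799) (nat_lit 1) (nat_lit 4) (nat_lit 2) (nat_lit 5) (nat_lit 2) (nat_lit 4) (nat_lit 338) (nat_lit 221) (nat_lit 161)) (XT.nd (nat_lit 78) (nat_lit 0) (nat_lit 0) (XT.lf (nat_lit 0) (nat_lit 76341751438) (nat_lit 76) (nat_lit 52477450693) (nat_lit 76) (nat_lit 42723493468) (nat_lit 1) (nat_lit 4) (nat_lit 2) (nat_lit 5) (nat_lit 2) (nat_lit 4) (nat_lit 339) (nat_lit 221) (nat_lit 160)) (XT.lf (nat_lit 0) (nat_lit 84607168972) (nat_lit 76) (nat_lit 52583394621) (nat_lit 76) (nat_lit 42804483302) (nat_lit 1) (nat_lit 4) (nat_lit 2) (nat_lit 5) (nat_lit 2) (nat_lit 4) (nat_lit 340) (nat_lit 221) (nat_lit 159)))))) (XT.nd (nat_lit 312) (nat_lit 0) (nat_lit 0) (XT.nd (nat_lit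 156) (nat_lit 0) (nat_lit 0) (XT.nd (nat_lit 78) (nat_lit 0) (nat_lit 0) (XT.lf (nat_lit 0) (nat_lit 93266680314) (nat_lit 76) (nat_lit 52703275256) (nat_lit 76) (nat_lit 42900598135) (nat_lit 1) (nat_lit 4) (nat_lit 2) (nat_lit 5) (nat_lit 2) (nat_lit 4) (nat_lit 341) (nat_lit 221) (nat_lit 158)) (XT.lf (nat_lit 0) (nat_lit 102340903349) (nat_lit 76) (nat_lit 52837378029) (nat_lit 76) (nat_lit 43012066810) (nat_lit 1) (nat_lit 4) (nat_lit 2) (nat_lit 5) (nat_lit 2) (nat_lit 4) (nat_lit 342) (nat_lit 221) (nat_lit 157))) (XT.nd (nat_lit 78) (nat_lit 0) (nat_lit 0) (XT.lf (nat_lit 0) (nat_lit 111851443371) (nat_lit 76) (nat_lit 52986022233) (nat_lit 76) (nat_lit 43139154731) (nat_lit 1) (nat_lit 4) (nat_lit 2) (nat_lit 5) (nat_lit 2) (nat_lit 4) (nat_lit 343) (nat_lit 221) (nat_lit 156)) (XT.lf (nat_lit 0) (nat_lit 121820944521) (nat_lit 76) (nat_lit 53149561783) (nat_lit 76) (nat_lit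 43282164486) (nat_lit 1) (nat_lit 4) (nat_lit 2) (nat_lit 5) (nat_lit 2) (nat_lit 4) (nat_lit 344) (nat_lit 221) (nat_lit 155)))) (XT.nd (nat_lit 156) (nat_lit 0) (nat_lit 0) (XT.nd (nat_lit 78) (nat_lit 0) (nat_lit 0) (XT.lf (nat_lit 0) (nat_lit 132273143708) (nat_lit 76) (nat_lit 53328386057) (nat_lit 76) (nat_lit 43441436576) (nat_lit 1) (nat_lit 4) (nat_lit 2) (nat_lit 5) (nat_lit 2) (nat_lit 4) (nat_lit 345) (nat_lit 221) (nat_lit 154)) (XT.lf (nat_lit 0) (nat_lit 143232927120) (nat_lit 76) (nat_lit 53522920829) (nat_lit 76) (nat_lit 43617350219) (nat_lit 1) (nat_lit 4) (nat_lit 2) (nat_lit 5) (nat_lit 2) (nat_lit 4) (nat_lit 346) (nat_lit 221) (nat_lit 153))) (XT.nd (nat_lit 78) (nat_lit 0) (nat_lit 0) (XT.lf (nat_lit 0) (nat_lit 154726389479) (nat_lit 76) (nat_lit 53733629276) (nat_lit 76) (nat_lit 43810324258) (nat_lit 1) (nat_lit 4) (nat_lit 2) (nat_lit 5) (nat_lit 2) (nat_lit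 4) (nat_lit 347) (nat_lit 221) (nat_lit 152)) (XT.nd (nat_lit 78) (nat_lit 0) (nat_lit 0) (XT.lf (nat_lit 0) (nat_lit 166780896171) (nat_lit 76) (nat_lit 53961013085) (nat_lit 76) (nat_lit 44020818155) (nat_lit 1) (nat_lit 4) (nat_lit 2) (nat_lit 5) (nat_lit 2) (nat_lit 4) (nat_lit 348) (nat_lit 221) (nat_lit 151)) (XT.lf (nat_lit 0) (nat_lit 179425148405) (nat_lit 76) (nat_lit 54205613646) (nat_lit 76) (nat_lit 44249333085) (nat_lit 1) (nat_lit 4) (nat_lit 2) (nat_lit 5) (nat_lit 2) (nat_lit 4) (nat_lit 349) (nat_lit 221) (nat_lit 150))))))) (XT.nd (nat_lit 702) (nat_lit 0) (nat_lit 0) (XT.nd (nat_lit 312) (nat_lit 0) (nat_lit 0) (XT.nd (nat_lit 156) (nat_lit 0) (nat_lit 0) (XT.nd (nat_lit 78) (nat_lit 0) (nat_lit 0) (XT.lf (nat_lit 0) (nat_lit 192689251541) (nat_lit 76) (nat_lit 54468013342) (nat_lit 76) (nat_lit 44496413133) (nat_lit 1) (nat_lit 4) (nat_lit 2) (nat_lit 5) (nat_lit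 2) (nat_lit 4) (nat_lit 350) (nat_lit 221) (nat_lit 149)) (XT.lf (nat_lit 0) (nat_lit 206604786777) (nat_lit 76) (nat_lit 54748836933) (nat_lit 76) (nat_lit 44762646582) (nat_lit 1) (nat_lit 4) (nat_lit 2) (nat_lit 5) (nat_lit 2) (nat_lit 4) (nat_lit 351) (nat_lit 221) (nat_lit 148))) (XT.nd (nat_lit 78) (nat_lit 0) (nat_lit 0) (XT.lf (nat_lit 0) (nat_lit 221204886342) (nat_lit 76) (nat_lit 55048753047) (nat_lit 76) (nat_lit 45048667324) (nat_lit 1) (nat_lit 4) (nat_lit 2) (nat_lit 5) (nat_lit 2) (nat_lit 4) (nat_lit 352) (nat_lit 221) (nat_lit 147)) (XT.lf (nat_lit 0) (nat_lit 236524312375) (nat_lit 76) (nat_lit 55368475770) (nat_lit 76) (nat_lit 45355156359) (nat_lit 1) (nat_lit 4) (nat_lit 2) (nat_lit 5) (nat_lit 2) (nat_lit 4) (nat_lit 353) (nat_lit 221) (nat_lit 146)))) (XT.nd (nat_lit 156) (nat_lit 0) (nat_lit 0) (XT.nd (nat_lit 78) (nat_lit 0) (nat_lit 0) (XT.lf (nat_lit 0)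 (nat_lit 252599539702) (nat_lit 76) (nat_lit 55708766347) (nat_lit 76) (nat_lit 45682843423) (nat_lit 1) (nat_lit 4) (nat_lit 2) (nat_lit 5) (nat_lit 2) (nat_lit 4) (nat_lit 354) (nat_lit 221) (nat_lit 145)) (XT.lf (nat_lit 0) (nat_lit 269468842673) (nat_lit 76) (nat_lit 56070434994) (nat_lit 76) (nat_lit 46032508724) (nat_lit 1) (nat_lit 4) (nat_lit 2) (nat_lit 5) (nat_lit 2) (nat_lit 4) (nat_lit 355) (nat_lit 221) (nat_lit 144))) (XT.nd (nat_lit 78) (nat_lit 0) (nat_lit 0) (XT.lf (nat_lit 0) (nat_lit 287172386294) (nat_lit 76) (nat_lit 56454342825) (nat_lit 76) (nat_lit 46404984799) (nat_lit 1) (nat_lit 4) (nat_lit 2) (nat_lit 5) (nat_lit 2) (nat_lit 4) (nat_lit 356) (nat_lit 221) (nat_lit 143)) (XT.nd (nat_lit 78) (nat_lit 0) (nat_lit 0) (XT.lf (nat_lit 0) (nat_lit 305752321861) (nat_lit 76) (nat_lit 56861403908) (nat_lit 76) (nat_lit 46801158494) (nat_lit 1) (nat_lit 4) (nat_lit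 2) (nat_lit 5) (nat_lit 2) (nat_lit 4) (nat_lit 357) (nat_lit 221) (nat_lit 142)) (XT.lf (nat_lit 0) (nat_lit 325252887316) (nat_lit 76) (nat_lit 57292587436) (nat_lit 76) (nat_lit 47221973080) (nat_lit 1) (nat_lit 4) (nat_lit 2) (nat_lit 5) (nat_lit 2) (nat_lit 4) (nat_lit 358) (nat_lit 221) (nat_lit 141)))))) (XT.nd (nat_lit 312) (nat_lit 0) (nat_lit 0) (XT.nd (nat_lit 156) (nat_lit 0) (nat_lit 0) (XT.nd (nat_lit 78) (nat_lit 0) (nat_lit 0) (XT.lf (nat_lit 0) (nat_lit 345720512575) (nat_lit 76) (nat_lit 57748920035) (nat_lit 76) (nat_lit 47668430498) (nat_lit 1) (nat_lit 4) (nat_lit 2) (nat_lit 5) (nat_lit 2) (nat_lit 4) (nat_lit 359) (nat_lit 221) (nat_lit 140)) (XT.lf (nat_lit 0) (nat_lit 367203930080) (nat_lit 76) (nat_lit 58231488213) (nat_lit 76) (nat_lit 48141593740) (nat_lit 1) (nat_lit 4) (nat_lit 2) (nat_lit 5) (nat_lit 2) (nat_lit 4) (nat_lit 360) (nat_lit 221) (nat_lit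 139))) (XT.nd (nat_lit 78) (nat_lit 0) (nat_lit 0) (XT.lf (nat_lit 0) (nat_lit 389754290826) (nat_lit 76) (nat_lit 58741440941) (nat_lit 76) (nat_lit 48642589387) (nat_lit 1) (nat_lit 4) (nat_lit 2) (nat_lit 5) (nat_lit 2) (nat_lit 4) (nat_lit 361) (nat_lit 221) (nat_lit 138)) (XT.lf (nat_lit 0) (nat_lit 413425286146) (nat_lit 76) (nat_lit 59279992392) (nat_lit 76) (nat_lit 49172610284) (nat_lit 1) (nat_lit 4) (nat_lit 2) (nat_lit 5) (nat_lit 2) (nat_lit 4) (nat_lit 362) (nat_lit 221) (nat_lit 137)))) (XT.nd (nat_lit 156) (nat_lit 0) (nat_lit 0) (XT.nd (nat_lit 78) (nat_lit 0) (nat_lit 0) (XT.lf (nat_lit 0) (nat_lit 438273275555) (nat_lit 76) (nat_lit 59848424831) (nat_lit 76) (nat_lit 49732918387) (nat_lit 1) (nat_lit 4) (nat_lit 2) (nat_lit 5) (nat_lit 2) (nat_lit 4) (nat_lit 363) (nat_lit 221) (nat_lit 136)) (XT.lf (nat_lit 0) (nat_lit 464357420931) (nat_lit 76) (nat_lit 60448091669)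 (nat_lit 76) (nat_lit 50324847762) (nat_lit 1) (nat_lit 4) (nat_lit 2) (nat_lit 5) (nat_lit 2) (nat_lit 4) (nat_lit 364) (nat_lit 221) (nat_lit 135))) (XT.nd (nat_lit 78) (nat_lit 0) (nat_lit 0) (XT.lf (nat_lit 0) (nat_lit 491739827382) (nat_lit 76) (nat_lit 61080420685) (nat_lit 76) (nat_lit 50949807765) (nat_lit 1) (nat_lit 4) (nat_lit 2) (nat_lit 5) (nat_lit 2) (nat_lit 4) (nat_lit 365) (nat_lit 221) (nat_lit 134)) (XT.nd (nat_lit 30498) (nat_lit 0) (nat_lit 1672) (XT.lf (nat_lit 0) (nat_lit 520485691115) (nat_lit 76) (nat_lit 61746917423) (nat_lit 76) (nat_lit 51609286396) (nat_lit 1) (nat_lit 4) (nat_lit 2) (nat_lit 5) (nat_lit 2) (nat_lit 4) (nat_lit 366) (nat_lit 221) (nat_lit 133)) (XT.lf (nat_lit 0) (nat_lit 1689025626) (nat_lit 152) (nat_lit 2025148138) (nat_lit 152) (nat_lit 2025148138) (nat_lit 23) (nat_lit 4) (nat_lit 25) (nat_lit 5) (nat_lit 25) (nat_lit 4) (nat_lit 276)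 (nat_lit 222) (nat_lit 222))))))))
noncomputable def xc57 : XT := (XT.nd (nat_lit 1404) (nat_lit 380) (nat_lit 0) (XT.nd (nat_lit 702) (nat_lit 456) (nat_lit 0) (XT.nd (nat_lit 312) (nat_lit 304) (nat_lit 0) (XT.nd (nat_lit 156) (nat_lit 152) (nat_lit 0) (XT.nd (nat_lit 78) (nat_lit 228) (nat_lit 0) (XT.lf (nat_lit 0) (nat_lit 10030986325) (nat_lit 152) (nat_lit 1245289666) (nat_lit 152) (nat_lit 556614974) (nat_lit 23) (nat_lit 4) (nat_lit 25) (nat_lit 5) (nat_lit 25) (nat_lit 4) (nat_lit 277) (nat_lit 222) (nat_lit 221)) (XT.lf (nat_lit 0) (nat_lit 2978283181) (nat_lit 228) (nat_lit 7528368491) (nat_lit 0) (nat_lit 1697754274) (nat_lit 20) (nat_lit 5) (nat_lit 23) (nat_lit 4) (nat_lit 20) (nat_lit 4) (nat_lit 278) (nat_lit 222) (nat_lit 220))) (XT.nd (nat_lit 78) (nat_lit 152) (nat_lit 0) (XT.lf (nat_lit 0) (nat_lit 6589990702) (nat_lit 228) (nat_lit 1293829681) (nat_lit 0) (nat_lit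 4714558703) (nat_lit 20) (nat_lit 5) (nat_lit 23) (nat_lit 4) (nat_lit 20) (nat_lit 4) (nat_lit 279) (nat_lit 222) (nat_lit 219)) (XT.lf (nat_lit 0) (nat_lit 5218258800) (nat_lit 152) (nat_lit 5119153009) (nat_lit 152) (nat_lit 2677146636) (nat_lit 18) (nat_lit 4) (nat_lit 20) (nat_lit 5) (nat_lit 20) (nat_lit 4) (nat_lit 280) (nat_lit 222) (nat_lit 218)))) (XT.nd (nat_lit 156) (nat_lit 152) (nat_lit 0) (XT.nd (nat_lit 78) (nat_lit 76) (nat_lit 0) (XT.lf (nat_lit 0) (nat_lit 690977667) (nat_lit 228) (nat_lit 1565096796) (nat_lit 76) (nat_lit 11200241770) (nat_lit 17) (nat_lit 5) (nat_lit 20) (nat_lit 5) (nat_lit 18) (nat_lit 4) (nat_lit 281) (nat_lit 222) (nat_lit 217)) (XT.lf (nat_lit 0) (nat_lit 4106853363) (nat_lit 152) (nat_lit 9035071349) (nat_lit 0) (nat_lit 777805102) (nat_lit 16) (nat_lit 5) (nat_lit 18) (nat_lit 4) (nat_lit 16) (nat_lit 4) (nat_lit 282) (nat_lit 222) (nat_lit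 216))) (XT.nd (nat_lit 78) (nat_lit 152) (nat_lit 0) (XT.lf (nat_lit 0) (nat_lit 7639354247) (nat_lit 152) (nat_lit 2925701580) (nat_lit 0) (nat_lit 3844183847) (nat_lit 16) (nat_lit 5) (nat_lit 18) (nat_lit 4) (nat_lit 16) (nat_lit 4) (nat_lit 283) (nat_lit 222) (nat_lit 215)) (XT.nd (nat_lit 78) (nat_lit 0) (nat_lit 0) (XT.lf (nat_lit 0) (nat_lit 3413109337) (nat_lit 152) (nat_lit 7876188931) (nat_lit 152) (nat_lit 3637092684) (nat_lit 14) (nat_lit 4) (nat_lit 16) (nat_lit 5) (nat_lit 16) (nat_lit 4) (nat_lit 284) (nat_lit 222) (nat_lit 214)) (XT.lf (nat_lit 0) (nat_lit 9988154595) (nat_lit 152) (nat_lit 5073172776) (nat_lit 152) (nat_lit 411290008) (nat_lit 14) (nat_lit 4) (nat_lit 16) (nat_lit 5) (nat_lit 16) (nat_lit 4) (nat_lit 285) (nat_lit 222) (nat_lit 213)))))) (XT.nd (nat_lit 312) (nat_lit 152) (nat_lit 0) (XT.nd (nat_lit 156) (nat_lit 152) (nat_lit 0) (XT.nd (nat_lit 78)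 (nat_lit 0) (nat_lit 0) (XT.lf (nat_lit 0) (nat_lit 642599516) (nat_lit 76) (nat_lit 2141369319) (nat_lit 152) (nat_lit 13264871414) (nat_lit 12) (nat_lit 5) (nat_lit 13) (nat_lit 5) (nat_lit 14) (nat_lit 4) (nat_lit 286) (nat_lit 222) (nat_lit 212)) (XT.lf (nat_lit 0) (nat_lit 6128838434) (nat_lit 152) (nat_lit 9584434020) (nat_lit 0) (nat_lit 940251352) (nat_lit 12) (nat_lit 5) (nat_lit 14) (nat_lit 4) (nat_lit 12) (nat_lit 4) (nat_lit 287) (nat_lit 222) (nat_lit 211))) (XT.nd (nat_lit 78) (nat_lit 152) (nat_lit 0) (XT.lf (nat_lit 0) (nat_lit 9575708868) (nat_lit 152) (nat_lit 3676862590) (nat_lit 0) (nat_lit 4039294270) (nat_lit 12) (nat_lit 5) (nat_lit 14) (nat_lit 4) (nat_lit 12) (nat_lit 4) (nat_lit 288) (nat_lit 222) (nat_lit 210)) (XT.lf (nat_lit 0) (nat_lit 2442135568) (nat_lit 152) (nat_lit 10695347210) (nat_lit 152) (nat_lit 4827668309) (nat_lit 10) (nat_lit 4) (nat_lit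 12) (nat_lit 5) (nat_lit 12) (nat_lit 4) (nat_lit 289) (nat_lit 222) (nat_lit 209)))) (XT.nd (nat_lit 156) (nat_lit 76) (nat_lit 0) (XT.nd (nat_lit 78) (nat_lit 76) (nat_lit 0) (XT.lf (nat_lit 0) (nat_lit 8835235333) (nat_lit 152) (nat_lit 8010871505) (nat_lit 152) (nat_lit 1827702793) (nat_lit 10) (nat_lit 4) (nat_lit 12) (nat_lit 5) (nat_lit 12) (nat_lit 4) (nat_lit 290) (nat_lit 222) (nat_lit 208)) (XT.lf (nat_lit 0) (nat_lit 1189289726) (nat_lit 228) (nat_lit 4045591259) (nat_lit 76) (nat_lit 14186653765) (nat_lit 9) (nat_lit 5) (nat_lit 12) (nat_lit 5) (nat_lit 10) (nat_lit 4) (nat_lit 291) (nat_lit 222) (nat_lit 207))) (XT.nd (nat_lit 78) (nat_lit 0) (nat_lit 0) (XT.lf (nat_lit 0) (nat_lit 1920906213) (nat_lit 76) (nat_lit 2318459626) (nat_lit 152) (nat_lit 15968726305) (nat_lit 8) (nat_lit 5) (nat_lit 9) (nat_lit 5) (nat_lit 10) (nat_lit 4) (nat_lit 292) (nat_lit 222) (nat_lit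 206)) (XT.nd (nat_lit 78) (nat_lit 0) (nat_lit 0) (XT.lf (nat_lit 0) (nat_lit 7437755635) (nat_lit 152) (nat_lit 12865773450) (nat_lit 0) (nat_lit 730778759) (nat_lit 8) (nat_lit 5) (nat_lit 10) (nat_lit 4) (nat_lit 8) (nat_lit 4) (nat_lit 293) (nat_lit 222) (nat_lit 205)) (XT.lf (nat_lit 0) (nat_lit 10752701136) (nat_lit 152) (nat_lit 7352886813) (nat_lit 0) (nat_lit 3798529737) (nat_lit 8) (nat_lit 5) (nat_lit 10) (nat_lit 4) (nat_lit 8) (nat_lit 4) (nat_lit 294) (nat_lit 222) (nat_lit 204))))))) (XT.nd (nat_lit 702) (nat_lit 152) (nat_lit 0) (XT.nd (nat_lit 312) (nat_lit 152) (nat_lit 0) (XT.nd (nat_lit 156) (nat_lit 0) (nat_lit 0) (XT.nd (nat_lit 78) (nat_lit 76) (nat_lit 0) (XT.lf (nat_lit 0) (nat_lit 14155897418) (nat_lit 152) (nat_lit 1699202449) (nat_lit 0) (nat_lit 6966302665) (nat_lit 8) (nat_lit 5) (nat_lit 10) (nat_lit 4) (nat_lit 8) (nat_lit 4) (nat_lit 295) (nat_lit 222)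 (nat_lit 203)) (XT.lf (nat_lit 0) (nat_lit 4244594320) (nat_lit 76) (nat_lit 13477123022) (nat_lit 76) (nat_lit 6063315549) (nat_lit 7) (nat_lit 4) (nat_lit 8) (nat_lit 5) (nat_lit 8) (nat_lit 4) (nat_lit 296) (nat_lit 222) (nat_lit 202))) (XT.nd (nat_lit 78) (nat_lit 0) (nat_lit 0) (XT.lf (nat_lit 0) (nat_lit 10418219441) (nat_lit 76) (nat_lit 11004121294) (nat_lit 76) (nat_lit 3376777899) (nat_lit 7) (nat_lit 4) (nat_lit 8) (nat_lit 5) (nat_lit 8) (nat_lit 4) (nat_lit 297) (nat_lit 222) (nat_lit 201)) (XT.lf (nat_lit 0) (nat_lit 16780188712) (nat_lit 76) (nat_lit 8458983401) (nat_lit 76) (nat_lit 628272461) (nat_lit 7) (nat_lit 4) (nat_lit 8) (nat_lit 5) (nat_lit 8) (nat_lit 4) (nat_lit 298) (nat_lit 222) (nat_lit 200)))) (XT.nd (nat_lit 156) (nat_lit 0) (nat_lit 0) (XT.nd (nat_lit 78) (nat_lit 76) (nat_lit 0) (XT.lf (nat_lit 0) (nat_lit 2118691322) (nat_lit 152) (nat_lit 3681077106)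 (nat_lit 76) (nat_lit 21191077293) (nat_lit 6) (nat_lit 5) (nat_lit 8) (nat_lit 5) (nat_lit 7) (nat_lit 4) (nat_lit 299) (nat_lit 222) (nat_lit 199)) (XT.lf (nat_lit 0) (nat_lit 1935734863) (nat_lit 76) (nat_lit 3012845399) (nat_lit 152) (nat_lit 23223068983) (nat_lit 5) (nat_lit 5) (nat_lit 6) (nat_lit 5) (nat_lit 7) (nat_lit 4) (nat_lit 300) (nat_lit 222) (nat_lit 198))) (XT.nd (nat_lit 78) (nat_lit 0) (nat_lit 0) (XT.lf (nat_lit 0) (nat_lit 7851650011) (nat_lit 76) (nat_lit 68438388) (nat_lit 152) (nat_lit 21491476262) (nat_lit 5) (nat_lit 5) (nat_lit 6) (nat_lit 5) (nat_lit 7) (nat_lit 4) (nat_lit 301) (nat_lit 222) (nat_lit 197)) (XT.nd (nat_lit 78) (nat_lit 0) (nat_lit 0) (XT.lf (nat_lit 0) (nat_lit 11027415374) (nat_lit 152) (nat_lit 16803968778) (nat_lit 0) (nat_lit 2882803763) (nat_lit 5) (nat_lit 5) (nat_lit 7) (nat_lit 4) (nat_lit 5) (nat_lit 4) (nat_lit 302) (nat_lit 222)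 (nat_lit 196)) (XT.lf (nat_lit 0) (nat_lit 14234128714) (nat_lit 152) (nat_lit 11912922212) (nat_lit 0) (nat_lit 5937761110) (nat_lit 5) (nat_lit 5) (nat_lit 7) (nat_lit 4) (nat_lit 5) (nat_lit 4) (nat_lit 303) (nat_lit 222) (nat_lit 195)))))) (XT.nd (nat_lit 312) (nat_lit 76) (nat_lit 0) (XT.nd (nat_lit 156) (nat_lit 76) (nat_lit 0) (XT.nd (nat_lit 78) (nat_lit 0) (nat_lit 0) (XT.lf (nat_lit 0) (nat_lit 17546794935) (nat_lit 152) (nat_lit 6874061091) (nat_lit 0) (nat_lit 9105897813) (nat_lit 5) (nat_lit 5) (nat_lit 7) (nat_lit 4) (nat_lit 5) (nat_lit 4) (nat_lit 304) (nat_lit 222) (nat_lit 194)) (XT.lf (nat_lit 0) (nat_lit 20973301339) (nat_lit 152) (nat_lit 1675388125) (nat_lit 0) (nat_lit 12394757057) (nat_lit 5) (nat_lit 5) (nat_lit 7) (nat_lit 4) (nat_lit 5) (nat_lit 4) (nat_lit 305) (nat_lit 222) (nat_lit 193))) (XT.nd (nat_lit 78) (nat_lit 0) (nat_lit 0) (XT.lf (nat_lit 0) (nat_lit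 3817663553) (nat_lit 76) (nat_lit 20763747146) (nat_lit 76) (nat_lit 12054110332) (nat_lit 4) (nat_lit 4) (nat_lit 5) (nat_lit 5) (nat_lit 5) (nat_lit 4) (nat_lit 306) (nat_lit 222) (nat_lit 192)) (XT.lf (nat_lit 0) (nat_lit 9557204724) (nat_lit 76) (nat_lit 18792768585) (nat_lit 76) (nat_lit 9958281739) (nat_lit 4) (nat_lit 4) (nat_lit 5) (nat_lit 5) (nat_lit 5) (nat_lit 4) (nat_lit 307) (nat_lit 222) (nat_lit 191)))) (XT.nd (nat_lit 156) (nat_lit 76) (nat_lit 0) (XT.nd (nat_lit 78) (nat_lit 0) (nat_lit 0) (XT.lf (nat_lit 0) (nat_lit 15501505062) (nat_lit 76) (nat_lit 16759434482) (nat_lit 76) (nat_lit 7806042843) (nat_lit 4) (nat_lit 4) (nat_lit 5) (nat_lit 5) (nat_lit 5) (nat_lit 4) (nat_lit 308) (nat_lit 222) (nat_lit 190)) (XT.lf (nat_lit 0) (nat_lit 21664717665) (nat_lit 76) (nat_lit 14658903565) (nat_lit 76) (nat_lit 5592269268) (nat_lit 4) (nat_lit 4) (nat_lit 5) (nat_lit 5)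 (nat_lit 5) (nat_lit 4) (nat_lit 309) (nat_lit 222) (nat_lit 189))) (XT.nd (nat_lit 78) (nat_lit 76) (nat_lit 0) (XT.lf (nat_lit 0) (nat_lit 28061516848) (nat_lit 76) (nat_lit 12486174572) (nat_lit 76) (nat_lit 3311690123) (nat_lit 4) (nat_lit 4) (nat_lit 5) (nat_lit 5) (nat_lit 5) (nat_lit 4) (nat_lit 310) (nat_lit 222) (nat_lit 188)) (XT.nd (nat_lit 78) (nat_lit 76) (nat_lit 0) (XT.lf (nat_lit 0) (nat_lit 34707133085) (nat_lit 76) (nat_lit 10236074337) (nat_lit 76) (nat_lit 958875458) (nat_lit 4) (nat_lit 4) (nat_lit 5) (nat_lit 5) (nat_lit 5) (nat_lit 4) (nat_lit 311) (nat_lit 222) (nat_lit 187)) (XT.lf (nat_lit 0) (nat_lit 1424670620) (nat_lit 152) (nat_lit 6454447372) (nat_lit 76) (nat_lit 40168591165) (nat_lit 3) (nat_lit 5) (nat_lit 5) (nat_lit 5) (nat_lit 4) (nat_lit 4) (nat_lit 312) (nat_lit 222) (nat_lit 186))))))))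
noncomputable def xc58 : XT := (XT.nd (nat_lit 1404) (nat_lit 0) (nat_lit 0) (XT.nd (nat_lit 702) (nat_lit 76) (nat_lit 0) (XT.nd (nat_lit 312) (nat_lit 0) (nat_lit 0) (XT.nd (nat_lit 156) (nat_lit 0) (nat_lit 0) (XT.nd (nat_lit 78) (nat_lit 76) (nat_lit 0) (XT.lf (nat_lit 0) (nat_lit 3858474910) (nat_lit 152) (nat_lit 1558313593) (nat_lit 76) (nat_lit 44884918350) (nat_lit 3) (nat_lit 5) (nat_lit 5) (nat_lit 5) (nat_lit 4) (nat_lit 4) (nat_lit 313) (nat_lit 222) (nat_lit 185)) (XT.lf (nat_lit 0) (nat_lit 3636469467) (nat_lit 76) (nat_lit 2799328198) (nat_lit 152) (nat_lit 46231554728) (nat_lit 2) (nat_lit 5) (nat_lit 3) (nat_lit 5) (nat_lit 4) (nat_lit 4) (nat_lit 314) (nat_lit 222) (nat_lit 184))) (XT.nd (nat_lit 78) (nat_lit 0) (nat_lit 0) (XT.lf (nat_lit 0) (nat_lit 9083554496) (nat_lit 76) (nat_lit 50578996) (nat_lit 152) (nat_lit 46017576867) (nat_lit 2) (nat_lit 5) (nat_lit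 3) (nat_lit 5) (nat_lit 4) (nat_lit 4) (nat_lit 315) (nat_lit 222) (nat_lit 183)) (XT.lf (nat_lit 0) (nat_lit 11978638840) (nat_lit 152) (nat_lit 43061432668) (nat_lit 0) (nat_lit 2719687787) (nat_lit 2) (nat_lit 5) (nat_lit 4) (nat_lit 4) (nat_lit 2) (nat_lit 4) (nat_lit 316) (nat_lit 222) (nat_lit 182)))) (XT.nd (nat_lit 156) (nat_lit 0) (nat_lit 0) (XT.nd (nat_lit 78) (nat_lit 0) (nat_lit 0) (XT.lf (nat_lit 0) (nat_lit 14934751905) (nat_lit 152) (nat_lit 39962220039) (nat_lit 0) (nat_lit 5602803624) (nat_lit 2) (nat_lit 5) (nat_lit 4) (nat_lit 4) (nat_lit 2) (nat_lit 4) (nat_lit 317) (nat_lit 222) (nat_lit 181)) (XT.lf (nat_lit 0) (nat_lit 18008721370) (nat_lit 152) (nat_lit 36762349218) (nat_lit 0) (nat_lit 8607251919) (nat_lit 2) (nat_lit 5) (nat_lit 4) (nat_lit 4) (nat_lit 2) (nat_lit 4) (nat_lit 318) (nat_lit 222) (nat_lit 180))) (XT.nd (nat_lit 78) (nat_lit 0) (nat_lit 0) (XT.lf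 (nat_lit 0) (nat_lit 21207866210) (nat_lit 152) (nat_lit 33454201464) (nat_lit 0) (nat_lit 11740186122) (nat_lit 2) (nat_lit 5) (nat_lit 4) (nat_lit 4) (nat_lit 2) (nat_lit 4) (nat_lit 319) (nat_lit 222) (nat_lit 179)) (XT.nd (nat_lit 78) (nat_lit 0) (nat_lit 0) (XT.lf (nat_lit 0) (nat_lit 24539803437) (nat_lit 152) (nat_lit 30029900236) (nat_lit 0) (nat_lit 15009065599) (nat_lit 2) (nat_lit 5) (nat_lit 4) (nat_lit 4) (nat_lit 2) (nat_lit 4) (nat_lit 320) (nat_lit 222) (nat_lit 178)) (XT.lf (nat_lit 0) (nat_lit 28012466234) (nat_lit 152) (nat_lit 26481292435) (nat_lit 0) (nat_lit 18421673396) (nat_lit 2) (nat_lit 5) (nat_lit 4) (nat_lit 4) (nat_lit 2) (nat_lit 4) (nat_lit 321) (nat_lit 222) (nat_lit 177)))))) (XT.nd (nat_lit 312) (nat_lit 76) (nat_lit 0) (XT.nd (nat_lit 156) (nat_lit 0) (nat_lit 0) (XT.nd (nat_lit 78) (nat_lit 0) (nat_lit 0) (XT.lf (nat_lit 0) (nat_lit 31634122847)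 (nat_lit 152) (nat_lit 22799928996) (nat_lit 0) (nat_lit 21986134771) (nat_lit 2) (nat_lit 5) (nat_lit 4) (nat_lit 4) (nat_lit 2) (nat_lit 4) (nat_lit 322) (nat_lit 222) (nat_lit 176)) (XT.lf (nat_lit 0) (nat_lit 35413396266) (nat_lit 152) (nat_lit 18977044766) (nat_lit 0) (nat_lit 25710936536) (nat_lit 2) (nat_lit 5) (nat_lit 4) (nat_lit 4) (nat_lit 2) (nat_lit 4) (nat_lit 323) (nat_lit 222) (nat_lit 175))) (XT.nd (nat_lit 78) (nat_lit 0) (nat_lit 0) (XT.lf (nat_lit 0) (nat_lit 39359284764) (nat_lit 152) (nat_lit 15003537641) (nat_lit 0) (nat_lit 29604947266) (nat_lit 2) (nat_lit 5) (nat_lit 4) (nat_lit 4) (nat_lit 2) (nat_lit 4) (nat_lit 324) (nat_lit 222) (nat_lit 174)) (XT.lf (nat_lit 0) (nat_lit 43481183311) (nat_lit 152) (nat_lit 10869946890) (nat_lit 0) (nat_lit 33677438416) (nat_lit 2) (nat_lit 5) (nat_lit 4) (nat_lit 4) (nat_lit 2) (nat_lit 4) (nat_lit 325) (nat_lit 222) (nat_lit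 173)))) (XT.nd (nat_lit 156) (nat_lit 76) (nat_lit 0) (XT.nd (nat_lit 78) (nat_lit 0) (nat_lit 0) (XT.lf (nat_lit 0) (nat_lit 47788905952) (nat_lit 152) (nat_lit 6566430629) (nat_lit 0) (nat_lit 37938106394) (nat_lit 2) (nat_lit 5) (nat_lit 4) (nat_lit 4) (nat_lit 2) (nat_lit 4) (nat_lit 326) (nat_lit 222) (nat_lit 172)) (XT.lf (nat_lit 0) (nat_lit 52292709170) (nat_lit 152) (nat_lit 2082742392) (nat_lit 0) (nat_lit 42397095646) (nat_lit 2) (nat_lit 5) (nat_lit 4) (nat_lit 4) (nat_lit 2) (nat_lit 4) (nat_lit 327) (nat_lit 222) (nat_lit 171))) (XT.nd (nat_lit 78) (nat_lit 0) (nat_lit 0) (XT.lf (nat_lit 0) (nat_lit 2677489660) (nat_lit 76) (nat_lit 54367629763) (nat_lit 76) (nat_lit 44429336272) (nat_lit 1) (nat_lit 4) (nat_lit 2) (nat_lit 5) (nat_lit 2) (nat_lit 4) (nat_lit 328) (nat_lit 222) (nat_lit 170)) (XT.nd (nat_lit 78) (nat_lit 0) (nat_lit 0) (XT.lf (nat_lit 0) (nat_lit 7715242134)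 (nat_lit 76) (nat_lit 54337157508) (nat_lit 76) (nat_lit 44358216429) (nat_lit 1) (nat_lit 4) (nat_lit 2) (nat_lit 5) (nat_lit 2) (nat_lit 4) (nat_lit 329) (nat_lit 222) (nat_lit 169)) (XT.lf (nat_lit 0) (nat_lit 12973644809) (nat_lit 76) (nat_lit 54319234494) (nat_lit 76) (nat_lit 44301581427) (nat_lit 1) (nat_lit 4) (nat_lit 2) (nat_lit 5) (nat_lit 2) (nat_lit 4) (nat_lit 330) (nat_lit 222) (nat_lit 168))))))) (XT.nd (nat_lit 702) (nat_lit 0) (nat_lit 0) (XT.nd (nat_lit 312) (nat_lit 0) (nat_lit 0) (XT.nd (nat_lit 156) (nat_lit 0) (nat_lit 0) (XT.nd (nat_lit 78) (nat_lit 0) (nat_lit 0) (XT.lf (nat_lit 0) (nat_lit 18465217691) (nat_lit 76) (nat_lit 54313818048) (nat_lit 76) (nat_lit 44259296420) (nat_lit 1) (nat_lit 4) (nat_lit 2) (nat_lit 5) (nat_lit 2) (nat_lit 4) (nat_lit 331) (nat_lit 222) (nat_lit 167)) (XT.lf (nat_lit 0) (nat_lit 24203035955) (nat_lit 76) (nat_lit 54320895273)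 (nat_lit 76) (nat_lit 44231260731) (nat_lit 1) (nat_lit 4) (nat_lit 2) (nat_lit 5) (nat_lit 2) (nat_lit 4) (nat_lit 332) (nat_lit 222) (nat_lit 166))) (XT.nd (nat_lit 78) (nat_lit 0) (nat_lit 0) (XT.lf (nat_lit 0) (nat_lit 30200761071) (nat_lit 76) (nat_lit 54340483021) (nat_lit 76) (nat_lit 44217407607) (nat_lit 1) (nat_lit 4) (nat_lit 2) (nat_lit 5) (nat_lit 2) (nat_lit 4) (nat_lit 333) (nat_lit 222) (nat_lit 165)) (XT.lf (nat_lit 0) (nat_lit 36472673339) (nat_lit 76) (nat_lit 54372627927) (nat_lit 76) (nat_lit 44217704065) (nat_lit 1) (nat_lit 4) (nat_lit 2) (nat_lit 5) (nat_lit 2) (nat_lit 4) (nat_lit 334) (nat_lit 222) (nat_lit 164)))) (XT.nd (nat_lit 156) (nat_lit 0) (nat_lit 0) (XT.nd (nat_lit 78) (nat_lit 0) (nat_lit 0) (XT.lf (nat_lit 0) (nat_lit 43033705881) (nat_lit 76) (nat_lit 54417406529) (nat_lit 76) (nat_lit 44232150811) (nat_lit 1) (nat_lit 4) (nat_lit 2) (nat_lit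 5) (nat_lit 2) (nat_lit 4) (nat_lit 335) (nat_lit 222) (nat_lit 163)) (XT.lf (nat_lit 0) (nat_lit 49899480205) (nat_lit 76) (nat_lit 54474925441) (nat_lit 76) (nat_lit 44260782241) (nat_lit 1) (nat_lit 4) (nat_lit 2) (nat_lit 5) (nat_lit 2) (nat_lit 4) (nat_lit 336) (nat_lit 222) (nat_lit 162))) (XT.nd (nat_lit 78) (nat_lit 0) (nat_lit 0) (XT.lf (nat_lit 0) (nat_lit 57086343392) (nat_lit 76) (nat_lit 54545321613) (nat_lit 76) (nat_lit 44303666526) (nat_lit 1) (nat_lit 4) (nat_lit 2) (nat_lit 5) (nat_lit 2) (nat_lit 4) (nat_lit 337) (nat_lit 222) (nat_lit 161)) (XT.nd (nat_lit 78) (nat_lit 0) (nat_lit 0) (XT.lf (nat_lit 0) (nat_lit 64611407022) (nat_lit 76) (nat_lit 54628762656) (nat_lit 76) (nat_lit 44360905772) (nat_lit 1) (nat_lit 4) (nat_lit 2) (nat_lit 5) (nat_lit 2) (nat_lit 4) (nat_lit 338) (nat_lit 222) (nat_lit 160)) (XT.lf (nat_lit 0) (nat_lit 72492587911) (nat_lit 76) (nat_lit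 54725447238) (nat_lit 76) (nat_lit 44432636261) (nat_lit 1) (nat_lit 4) (nat_lit 2) (nat_lit 5) (nat_lit 2) (nat_lit 4) (nat_lit 339) (nat_lit 222) (nat_lit 159)))))) (XT.nd (nat_lit 312) (nat_lit 0) (nat_lit 0) (XT.nd (nat_lit 156) (nat_lit 0) (nat_lit 0) (XT.nd (nat_lit 78) (nat_lit 0) (nat_lit 0) (XT.lf (nat_lit 0) (nat_lit 80748650778) (nat_lit 76) (nat_lit 54835605562) (nat_lit 76) (nat_lit 44519028782) (nat_lit 1) (nat_lit 4) (nat_lit 2) (nat_lit 5) (nat_lit 2) (nat_lit 4) (nat_lit 340) (nat_lit 222) (nat_lit 158)) (XT.lf (nat_lit 0) (nat_lit 89399252913) (nat_lit 76) (nat_lit 54959499907) (nat_lit 76) (nat_lit 44620289029) (nat_lit 1) (nat_lit 4) (nat_lit 2) (nat_lit 5) (nat_lit 2) (nat_lit 4) (nat_lit 341) (nat_lit 222) (nat_lit 157))) (XT.nd (nat_lit 78) (nat_lit 0) (nat_lit 0) (XT.lf (nat_lit 0) (nat_lit 98464990990) (nat_lit 76) (nat_lit 55097425262) (nat_lit 76) (nat_lit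 44736658101) (nat_lit 1) (nat_lit 4) (nat_lit 2) (nat_lit 5) (nat_lit 2) (nat_lit 4) (nat_lit 342) (nat_lit 222) (nat_lit 156)) (XT.lf (nat_lit 0) (nat_lit 107967450098) (nat_lit 76) (nat_lit 55249710020) (nat_lit 76) (nat_lit 44868413064) (nat_lit 1) (nat_lit 4) (nat_lit 2) (nat_lit 5) (nat_lit 2) (nat_lit 4) (nat_lit 343) (nat_lit 222) (nat_lit 155)))) (XT.nd (nat_lit 156) (nat_lit 0) (nat_lit 0) (XT.nd (nat_lit 78) (nat_lit 0) (nat_lit 0) (XT.lf (nat_lit 0) (nat_lit 117929255140) (nat_lit 76) (nat_lit 55416716763) (nat_lit 76) (nat_lit 45015867623) (nat_lit 1) (nat_lit 4) (nat_lit 2) (nat_lit 5) (nat_lit 2) (nat_lit 4) (nat_lit 344) (nat_lit 222) (nat_lit 154)) (XT.lf (nat_lit 0) (nat_lit 128374124700) (nat_lit 76) (nat_lit 55598843127) (nat_lit 76) (nat_lit 45179372859) (nat_lit 1) (nat_lit 4) (nat_lit 2) (nat_lit 5) (nat_lit 2) (nat_lit 4) (nat_lit 345) (nat_lit 222) (nat_lit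 153))) (XT.nd (nat_lit 78) (nat_lit 0) (nat_lit 0) (XT.lf (nat_lit 0) (nat_lit 139326927515) (nat_lit 76) (nat_lit 55796522746) (nat_lit 76) (nat_lit 45359318070) (nat_lit 1) (nat_lit 4) (nat_lit 2) (nat_lit 5) (nat_lit 2) (nat_lit 4) (nat_lit 346) (nat_lit 222) (nat_lit 152)) (XT.nd (nat_lit 78) (nat_lit 0) (nat_lit 0) (XT.lf (nat_lit 0) (nat_lit 150813741687) (nat_lit 76) (nat_lit 56010226286) (nat_lit 76) (nat_lit 45556131697) (nat_lit 1) (nat_lit 4) (nat_lit 2) (nat_lit 5) (nat_lit 2) (nat_lit 4) (nat_lit 347) (nat_lit 222) (nat_lit 151)) (XT.lf (nat_lit 0) (nat_lit 162861916773) (nat_lit 76) (nat_lit 56240462564) (nat_lit 76) (nat_lit 45770282344) (nat_lit 1) (nat_lit 4) (nat_lit 2) (nat_lit 5) (nat_lit 2) (nat_lit 4) (nat_lit 348) (nat_lit 222) (nat_lit 150))))))))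
noncomputable def xc59 : XT := (XT.nd (nat_lit 31746) (nat_lit 0) (nat_lit 532) (XT.nd (nat_lit 702) (nat_lit 0) (nat_lit 0) (XT.nd (nat_lit 312) (nat_lit 0) (nat_lit 0) (XT.nd (nat_lit 156) (nat_lit 0) (nat_lit 0) (XT.nd (nat_lit 78) (nat_lit 0) (nat_lit 0) (XT.lf (nat_lit 0) (nat_lit 175500138904) (nat_lit 76) (nat_lit 56487779762) (nat_lit 76) (nat_lit 46002279894) (nat_lit 1) (nat_lit 4) (nat_lit 2) (nat_lit 5) (nat_lit 2) (nat_lit 4) (nat_lit 349) (nat_lit 222) (nat_lit 149)) (XT.lf (nat_lit 0) (nat_lit 188758499086) (nat_lit 76) (nat_lit 56752766731) (nat_lit 76) (nat_lit 46252676722) (nat_lit 1) (nat_lit 4) (nat_lit 2) (nat_lit 5) (nat_lit 2) (nat_lit 4) (nat_lit 350) (nat_lit 222) (nat_lit 148))) (XT.nd (nat_lit 78) (nat_lit 0) (nat_lit 0) (XT.lf (nat_lit 0) (nat_lit 202668564843) (nat_lit 76) (nat_lit 57036054393) (nat_lit 76) (nat_lit 46522069011) (nat_lit 1) (nat_lit 4)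 (nat_lit 2) (nat_lit 5) (nat_lit 2) (nat_lit 4) (nat_lit 351) (nat_lit 222) (nat_lit 147)) (XT.lf (nat_lit 0) (nat_lit 217263455378) (nat_lit 76) (nat_lit 57338317240) (nat_lit 76) (nat_lit 46811098170) (nat_lit 1) (nat_lit 4) (nat_lit 2) (nat_lit 5) (nat_lit 2) (nat_lit 4) (nat_lit 352) (nat_lit 222) (nat_lit 146)))) (XT.nd (nat_lit 156) (nat_lit 0) (nat_lit 0) (XT.nd (nat_lit 78) (nat_lit 0) (nat_lit 0) (XT.lf (nat_lit 0) (nat_lit 232577920432) (nat_lit 76) (nat_lit 57660274948) (nat_lit 76) (nat_lit 47120452365) (nat_lit 1) (nat_lit 4) (nat_lit 2) (nat_lit 5) (nat_lit 2) (nat_lit 4) (nat_lit 353) (nat_lit 222) (nat_lit 145)) (XT.lf (nat_lit 0) (nat_lit 248648423016) (nat_lit 76) (nat_lit 58002694081) (nat_lit 76) (nat_lit 47450868153) (nat_lit 1) (nat_lit 4) (nat_lit 2) (nat_lit 5) (nat_lit 2) (nat_lit 4) (nat_lit 354) (nat_lit 222) (nat_lit 144))) (XT.nd (nat_lit 78) (nat_lit 0)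 (nat_lit 0) (XT.lf (nat_lit 0) (nat_lit 265513226232) (nat_lit 76) (nat_lit 58366389924) (nat_lit 76) (nat_lit 47803132238) (nat_lit 1) (nat_lit 4) (nat_lit 2) (nat_lit 5) (nat_lit 2) (nat_lit 4) (nat_lit 355) (nat_lit 222) (nat_lit 143)) (XT.nd (nat_lit 78) (nat_lit 0) (nat_lit 0) (XT.lf (nat_lit 0) (nat_lit 283212484373) (nat_lit 76) (nat_lit 58752228419) (nat_lit 76) (nat_lit 48178083345) (nat_lit 1) (nat_lit 4) (nat_lit 2) (nat_lit 5) (nat_lit 2) (nat_lit 4) (nat_lit 356) (nat_lit 222) (nat_lit 142)) (XT.lf (nat_lit 0) (nat_lit 301788338530) (nat_lit 76) (nat_lit 59161128229) (nat_lit 76) (nat_lit 48576614214) (nat_lit 1) (nat_lit 4) (nat_lit 2) (nat_lit 5) (nat_lit 2) (nat_lit 4) (nat_lit 357) (nat_lit 222) (nat_lit 141)))))) (XT.nd (nat_lit 312) (nat_lit 0) (nat_lit 0) (XT.nd (nat_lit 156) (nat_lit 0) (nat_lit 0) (XT.nd (nat_lit 78) (nat_lit 0) (nat_lit 0) (XT.lf (nat_lit 0)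 (nat_lit 321285016926) (nat_lit 76) (nat_lit 59594062925) (nat_lit 76) (nat_lit 48999673729) (nat_lit 1) (nat_lit 4) (nat_lit 2) (nat_lit 5) (nat_lit 2) (nat_lit 4) (nat_lit 358) (nat_lit 222) (nat_lit 140)) (XT.lf (nat_lit 0) (nat_lit 341748940226) (nat_lit 76) (nat_lit 60052063304) (nat_lit 76) (nat_lit 49448269173) (nat_lit 1) (nat_lit 4) (nat_lit 2) (nat_lit 5) (nat_lit 2) (nat_lit 4) (nat_lit 359) (nat_lit 222) (nat_lit 139))) (XT.nd (nat_lit 78) (nat_lit 0) (nat_lit 0) (XT.lf (nat_lit 0) (nat_lit 363228832056) (nat_lit 76) (nat_lit 60536219843) (nat_lit 76) (nat_lit 49923468631) (nat_lit 1) (nat_lit 4) (nat_lit 2) (nat_lit 5) (nat_lit 2) (nat_lit 4) (nat_lit 360) (nat_lit 222) (nat_lit 138)) (XT.lf (nat_lit 0) (nat_lit 385775835015) (nat_lit 76) (nat_lit 61047685296) (nat_lit 76) (nat_lit 50426403530) (nat_lit 1) (nat_lit 4) (nat_lit 2) (nat_lit 5) (nat_lit 2) (nat_lit 4) (nat_lit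 361) (nat_lit 222) (nat_lit 137)))) (XT.nd (nat_lit 156) (nat_lit 0) (nat_lit 0) (XT.nd (nat_lit 78) (nat_lit 0) (nat_lit 0) (XT.lf (nat_lit 0) (nat_lit 409443632444) (nat_lit 76) (nat_lit 61587677438) (nat_lit 76) (nat_lit 50958271335) (nat_lit 1) (nat_lit 4) (nat_lit 2) (nat_lit 5) (nat_lit 2) (nat_lit 4) (nat_lit 362) (nat_lit 222) (nat_lit 136)) (XT.lf (nat_lit 0) (nat_lit 434288576241) (nat_lit 76) (nat_lit 62157481964) (nat_lit 76) (nat_lit 51520338397) (nat_lit 1) (nat_lit 4) (nat_lit 2) (nat_lit 5) (nat_lit 2) (nat_lit 4) (nat_lit 363) (nat_lit 222) (nat_lit 135))) (XT.nd (nat_lit 78) (nat_lit 0) (nat_lit 0) (XT.lf (nat_lit 0) (nat_lit 460369821035) (nat_lit 76) (nat_lit 62758455551) (nat_lit 76) (nat_lit 52113942972) (nat_lit 1) (nat_lit 4) (nat_lit 2) (nat_lit 5) (nat_lit 2) (nat_lit 4) (nat_lit 364) (nat_lit 222) (nat_lit 134)) (XT.nd (nat_lit 30420) (nat_lit 0) (nat_lit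 1824) (XT.lf (nat_lit 0) (nat_lit 487749465027) (nat_lit 76) (nat_lit 63392029090) (nat_lit 76) (nat_lit 52740498403) (nat_lit 1) (nat_lit 4) (nat_lit 2) (nat_lit 5) (nat_lit 2) (nat_lit 4) (nat_lit 365) (nat_lit 222) (nat_lit 133)) (XT.lf (nat_lit 0) (nat_lit 409450860) (nat_lit 228) (nat_lit 4595893209) (nat_lit 0) (nat_lit 409450860) (nat_lit 25) (nat_lit 5) (nat_lit 28) (nat_lit 4) (nat_lit 25) (nat_lit 4) (nat_lit 274) (nat_lit 223) (nat_lit 223))))))) (XT.nd (nat_lit 702) (nat_lit 608) (nat_lit 0) (XT.nd (nat_lit 312) (nat_lit 304) (nat_lit 0) (XT.nd (nat_lit 156) (nat_lit 228) (nat_lit 0) (XT.nd (nat_lit 78) (nat_lit 152) (nat_lit 0) (XT.lf (nat_lit 0) (nat_lit 4403887833) (nat_lit 228) (nat_lit 3061047614) (nat_lit 0) (nat_lit 3680779406) (nat_lit 25) (nat_lit 5) (nat_lit 28) (nat_lit 4) (nat_lit 25) (nat_lit 4) (nat_lit 275) (nat_lit 223) (nat_lit 222)) (XT.lf (nat_lit 0)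 (nat_lit 3273470082) (nat_lit 152) (nat_lit 4810250074) (nat_lit 152) (nat_lit 3398466954) (nat_lit 23) (nat_lit 4) (nat_lit 25) (nat_lit 5) (nat_lit 25) (nat_lit 4) (nat_lit 276) (nat_lit 223) (nat_lit 221))) (XT.nd (nat_lit 78) (nat_lit 152) (nat_lit 0) (XT.lf (nat_lit 0) (nat_lit 26454770) (nat_lit 228) (nat_lit 2013431499) (nat_lit 76) (nat_lit 9799901247) (nat_lit 22) (nat_lit 5) (nat_lit 25) (nat_lit 5) (nat_lit 23) (nat_lit 4) (nat_lit 277) (nat_lit 223) (nat_lit 220)) (XT.lf (nat_lit 0) (nat_lit 3462951747) (nat_lit 228) (nat_lit 7853235685) (nat_lit 0) (nat_lit 898845055) (nat_lit 20) (nat_lit 5) (nat_lit 23) (nat_lit 4) (nat_lit 20) (nat_lit 4) (nat_lit 278) (nat_lit 223) (nat_lit 219)))) (XT.nd (nat_lit 156) (nat_lit 152) (nat_lit 0) (XT.nd (nat_lit 78) (nat_lit 152) (nat_lit 0) (XT.lf (nat_lit 0) (nat_lit 7013028325) (nat_lit 228) (nat_lit 1716840358) (nat_lit 0) (nat_lit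 3882347259) (nat_lit 20) (nat_lit 5) (nat_lit 23) (nat_lit 4) (nat_lit 20) (nat_lit 4) (nat_lit 279) (nat_lit 223) (nat_lit 218)) (XT.lf (nat_lit 0) (nat_lit 4684700957) (nat_lit 152) (nat_lit 6008722004) (nat_lit 152) (nat_lit 2338446297) (nat_lit 18) (nat_lit 4) (nat_lit 20) (nat_lit 5) (nat_lit 20) (nat_lit 4) (nat_lit 280) (nat_lit 223) (nat_lit 217))) (XT.nd (nat_lit 78) (nat_lit 76) (nat_lit 0) (XT.lf (nat_lit 0) (nat_lit 960447601) (nat_lit 228) (nat_lit 2215257783) (nat_lit 76) (nat_lit 10300687987) (nat_lit 17) (nat_lit 5) (nat_lit 20) (nat_lit 5) (nat_lit 18) (nat_lit 4) (nat_lit 281) (nat_lit 223) (nat_lit 216)) (XT.nd (nat_lit 78) (nat_lit 0) (nat_lit 0) (XT.lf (nat_lit 0) (nat_lit 4133684654) (nat_lit 76) (nat_lit 162553524) (nat_lit 152) (nat_lit 9647678967) (nat_lit 16) (nat_lit 5) (nat_lit 17) (nat_lit 5) (nat_lit 18) (nat_lit 4) (nat_lit 282) (nat_lit 223) (nat_lit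 215)) (XT.lf (nat_lit 0) (nat_lit 7771337679) (nat_lit 152) (nat_lit 3788699516) (nat_lit 0) (nat_lit 2876360772) (nat_lit 16) (nat_lit 5) (nat_lit 18) (nat_lit 4) (nat_lit 16) (nat_lit 4) (nat_lit 283) (nat_lit 223) (nat_lit 214)))))) (XT.nd (nat_lit 312) (nat_lit 304) (nat_lit 0) (XT.nd (nat_lit 156) (nat_lit 152) (nat_lit 0) (XT.nd (nat_lit 78) (nat_lit 0) (nat_lit 0) (XT.lf (nat_lit 0) (nat_lit 2432659740) (nat_lit 152) (nat_lit 8921063472) (nat_lit 152) (nat_lit 3603300045) (nat_lit 14) (nat_lit 4) (nat_lit 16) (nat_lit 5) (nat_lit 16) (nat_lit 4) (nat_lit 284) (nat_lit 223) (nat_lit 213)) (XT.lf (nat_lit 0) (nat_lit 8923022091) (nat_lit 152) (nat_lit 6151645304) (nat_lit 152) (nat_lit 431228047) (nat_lit 14) (nat_lit 4) (nat_lit 16) (nat_lit 5) (nat_lit 16) (nat_lit 4) (nat_lit 285) (nat_lit 223) (nat_lit 212))) (XT.nd (nat_lit 78) (nat_lit 76) (nat_lit 0) (XT.lf (nat_lit 0)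 (nat_lit 2705101911) (nat_lit 228) (nat_lit 558438177) (nat_lit 76) (nat_lit 12821655145) (nat_lit 13) (nat_lit 5) (nat_lit 16) (nat_lit 5) (nat_lit 14) (nat_lit 4) (nat_lit 286) (nat_lit 223) (nat_lit 211)) (XT.lf (nat_lit 0) (nat_lit 5784468566) (nat_lit 76) (nat_lit 192889752) (nat_lit 152) (nat_lit 10716230181) (nat_lit 12) (nat_lit 5) (nat_lit 13) (nat_lit 5) (nat_lit 14) (nat_lit 4) (nat_lit 287) (nat_lit 223) (nat_lit 210)))) (XT.nd (nat_lit 156) (nat_lit 152) (nat_lit 0) (XT.nd (nat_lit 78) (nat_lit 152) (nat_lit 0) (XT.lf (nat_lit 0) (nat_lit 9374598362) (nat_lit 152) (nat_lit 5077617653) (nat_lit 0) (nat_lit 2882271214) (nat_lit 12) (nat_lit 5) (nat_lit 14) (nat_lit 4) (nat_lit 12) (nat_lit 4) (nat_lit 288) (nat_lit 223) (nat_lit 209)) (XT.lf (nat_lit 0) (nat_lit 917260012) (nat_lit 152) (nat_lit 11950905781) (nat_lit 152) (nat_lit 5143088821) (nat_lit 10) (nat_lit 4) (nat_lit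 12) (nat_lit 5) (nat_lit 12) (nat_lit 4) (nat_lit 289) (nat_lit 223) (nat_lit 208))) (XT.nd (nat_lit 78) (nat_lit 152) (nat_lit 0) (XT.lf (nat_lit 0) (nat_lit 7236259583) (nat_lit 152) (nat_lit 9297088694) (nat_lit 152) (nat_lit 2188805248) (nat_lit 10) (nat_lit 4) (nat_lit 12) (nat_lit 5) (nat_lit 12) (nat_lit 4) (nat_lit 290) (nat_lit 223) (nat_lit 207)) (XT.nd (nat_lit 78) (nat_lit 76) (nat_lit 0) (XT.lf (nat_lit 0) (nat_lit 797630677) (nat_lit 228) (nat_lit 5759299117) (nat_lit 76) (nat_lit 12915398387) (nat_lit 9) (nat_lit 5) (nat_lit 12) (nat_lit 5) (nat_lit 10) (nat_lit 4) (nat_lit 291) (nat_lit 223) (nat_lit 206)) (XT.lf (nat_lit 0) (nat_lit 79671108) (nat_lit 76) (nat_lit 3699180147) (nat_lit 152) (nat_lit 16483536086) (nat_lit 8) (nat_lit 5) (nat_lit 9) (nat_lit 5) (nat_lit 10) (nat_lit 4) (nat_lit 292) (nat_lit 223) (nat_lit 205))))))))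
noncomputable def xc60 : XT := (XT.nd (nat_lit 1404) (nat_lit 152) (nat_lit 0) (XT.nd (nat_lit 702) (nat_lit 76) (nat_lit 0) (XT.nd (nat_lit 312) (nat_lit 152) (nat_lit 0) (XT.nd (nat_lit 156) (nat_lit 76) (nat_lit 0) (XT.nd (nat_lit 78) (nat_lit 0) (nat_lit 0) (XT.lf (nat_lit 0) (nat_lit 6272185547) (nat_lit 76) (nat_lit 654016288) (nat_lit 152) (nat_lit 14165009347) (nat_lit 8) (nat_lit 5) (nat_lit 9) (nat_lit 5) (nat_lit 10) (nat_lit 4) (nat_lit 293) (nat_lit 223) (nat_lit 204)) (XT.lf (nat_lit 0) (nat_lit 10193133141) (nat_lit 152) (nat_lit 9361706803) (nat_lit 0) (nat_lit 2408635295) (nat_lit 8) (nat_lit 5) (nat_lit 10) (nat_lit 4) (nat_lit 8) (nat_lit 4) (nat_lit 294) (nat_lit 223) (nat_lit 203))) (XT.nd (nat_lit 78) (nat_lit 76) (nat_lit 0) (XT.lf (nat_lit 0) (nat_lit 13560326407) (nat_lit 152) (nat_lit 3770668945) (nat_lit 0) (nat_lit 5551615842) (nat_lit 8) (nat_lit 5) (nat_lit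 10) (nat_lit 4) (nat_lit 8) (nat_lit 4) (nat_lit 295) (nat_lit 223) (nat_lit 202)) (XT.lf (nat_lit 0) (nat_lit 2042999709) (nat_lit 76) (nat_lit 15014484972) (nat_lit 76) (nat_lit 6792238485) (nat_lit 7) (nat_lit 4) (nat_lit 8) (nat_lit 5) (nat_lit 8) (nat_lit 4) (nat_lit 296) (nat_lit 223) (nat_lit 201)))) (XT.nd (nat_lit 156) (nat_lit 152) (nat_lit 0) (XT.nd (nat_lit 78) (nat_lit 0) (nat_lit 0) (XT.lf (nat_lit 0) (nat_lit 8157923802) (nat_lit 76) (nat_lit 12566611987) (nat_lit 76) (nat_lit 4140997954) (nat_lit 7) (nat_lit 4) (nat_lit 8) (nat_lit 5) (nat_lit 8) (nat_lit 4) (nat_lit 297) (nat_lit 223) (nat_lit 200)) (XT.lf (nat_lit 0) (nat_lit 14463987333) (nat_lit 76) (nat_lit 10045406229) (nat_lit 76) (nat_lit 1426108819) (nat_lit 7) (nat_lit 4) (nat_lit 8) (nat_lit 5) (nat_lit 8) (nat_lit 4) (nat_lit 298) (nat_lit 223) (nat_lit 199))) (XT.nd (nat_lit 78) (nat_lit 76) (nat_lit 0)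 (XT.lf (nat_lit 0) (nat_lit 1315399878) (nat_lit 152) (nat_lit 6107188016) (nat_lit 76) (nat_lit 19638527925) (nat_lit 6) (nat_lit 5) (nat_lit 8) (nat_lit 5) (nat_lit 7) (nat_lit 4) (nat_lit 299) (nat_lit 223) (nat_lit 198)) (XT.nd (nat_lit 78) (nat_lit 76) (nat_lit 0) (XT.lf (nat_lit 0) (nat_lit 4085551496) (nat_lit 152) (nat_lit 604053732) (nat_lit 76) (nat_lit 23555339008) (nat_lit 6) (nat_lit 5) (nat_lit 8) (nat_lit 5) (nat_lit 7) (nat_lit 4) (nat_lit 300) (nat_lit 223) (nat_lit 197)) (XT.lf (nat_lit 0) (nat_lit 5241000816) (nat_lit 76) (nat_lit 1777411915) (nat_lit 152) (nat_lit 22468415480) (nat_lit 5) (nat_lit 5) (nat_lit 6) (nat_lit 5) (nat_lit 7) (nat_lit 4) (nat_lit 301) (nat_lit 223) (nat_lit 196)))))) (XT.nd (nat_lit 312) (nat_lit 76) (nat_lit 0) (XT.nd (nat_lit 156) (nat_lit 0) (nat_lit 0) (XT.nd (nat_lit 78) (nat_lit 0) (nat_lit 0) (XT.lf (nat_lit 0) (nat_lit 10071203242)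 (nat_lit 152) (nat_lit 19512748272) (nat_lit 0) (nat_lit 1208261264) (nat_lit 5) (nat_lit 5) (nat_lit 7) (nat_lit 4) (nat_lit 5) (nat_lit 4) (nat_lit 302) (nat_lit 223) (nat_lit 195)) (XT.lf (nat_lit 0) (nat_lit 13251388394) (nat_lit 152) (nat_lit 14668890864) (nat_lit 0) (nat_lit 4243916898) (nat_lit 5) (nat_lit 5) (nat_lit 7) (nat_lit 4) (nat_lit 5) (nat_lit 4) (nat_lit 303) (nat_lit 223) (nat_lit 194))) (XT.nd (nat_lit 78) (nat_lit 0) (nat_lit 0) (XT.lf (nat_lit 0) (nat_lit 16538789674) (nat_lit 152) (nat_lit 9674971797) (nat_lit 0) (nat_lit 7393671019) (nat_lit 5) (nat_lit 5) (nat_lit 7) (nat_lit 4) (nat_lit 5) (nat_lit 4) (nat_lit 304) (nat_lit 223) (nat_lit 193)) (XT.lf (nat_lit 0) (nat_lit 19941234229) (nat_lit 152) (nat_lit 4519100787) (nat_lit 0) (nat_lit 10665023041) (nat_lit 5) (nat_lit 5) (nat_lit 7) (nat_lit 4) (nat_lit 5) (nat_lit 4) (nat_lit 305) (nat_lit 223) (nat_lit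 192)))) (XT.nd (nat_lit 156) (nat_lit 0) (nat_lit 0) (XT.nd (nat_lit 78) (nat_lit 0) (nat_lit 0) (XT.lf (nat_lit 0) (nat_lit 837813305) (nat_lit 76) (nat_lit 22642090425) (nat_lit 76) (nat_lit 13241029205) (nat_lit 4) (nat_lit 4) (nat_lit 5) (nat_lit 5) (nat_lit 5) (nat_lit 4) (nat_lit 306) (nat_lit 223) (nat_lit 191)) (XT.lf (nat_lit 0) (nat_lit 6537248188) (nat_lit 76) (nat_lit 20688767174) (nat_lit 76) (nat_lit 11168801162) (nat_lit 4) (nat_lit 4) (nat_lit 5) (nat_lit 5) (nat_lit 5) (nat_lit 4) (nat_lit 307) (nat_lit 223) (nat_lit 190))) (XT.nd (nat_lit 78) (nat_lit 0) (nat_lit 0) (XT.lf (nat_lit 0) (nat_lit 12443352062) (nat_lit 76) (nat_lit 18672247653) (nat_lit 76) (nat_lit 9039038982) (nat_lit 4) (nat_lit 4) (nat_lit 5) (nat_lit 5) (nat_lit 5) (nat_lit 4) (nat_lit 308) (nat_lit 223) (nat_lit 189)) (XT.nd (nat_lit 78) (nat_lit 0) (nat_lit 0) (XT.lf (nat_lit 0) (nat_lit 18570187080)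 (nat_lit 76) (nat_lit 16587730624) (nat_lit 76) (nat_lit 6846671801) (nat_lit 4) (nat_lit 4) (nat_lit 5) (nat_lit 5) (nat_lit 5) (nat_lit 4) (nat_lit 309) (nat_lit 223) (nat_lit 188)) (XT.lf (nat_lit 0) (nat_lit 24932340943) (nat_lit 76) (nat_lit 14430252951) (nat_lit 76) (nat_lit 4586479699) (nat_lit 4) (nat_lit 4) (nat_lit 5) (nat_lit 5) (nat_lit 5) (nat_lit 4) (nat_lit 310) (nat_lit 223) (nat_lit 187))))))) (XT.nd (nat_lit 702) (nat_lit 0) (nat_lit 0) (XT.nd (nat_lit 312) (nat_lit 0) (nat_lit 0) (XT.nd (nat_lit 156) (nat_lit 76) (nat_lit 0) (XT.nd (nat_lit 78) (nat_lit 76) (nat_lit 0) (XT.lf (nat_lit 0) (nat_lit 31544961638) (nat_lit 76) (nat_lit 12194677784) (nat_lit 76) (nat_lit 2253081265) (nat_lit 4) (nat_lit 4) (nat_lit 5) (nat_lit 5) (nat_lit 5) (nat_lit 4) (nat_lit 311) (nat_lit 223) (nat_lit 186)) (XT.lf (nat_lit 0) (nat_lit 153987682) (nat_lit 152) (nat_lit 9719086785)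 (nat_lit 76) (nat_lit 38267197960) (nat_lit 3) (nat_lit 5) (nat_lit 5) (nat_lit 5) (nat_lit 4) (nat_lit 4) (nat_lit 312) (nat_lit 223) (nat_lit 185))) (XT.nd (nat_lit 78) (nat_lit 76) (nat_lit 0) (XT.lf (nat_lit 0) (nat_lit 2570744543) (nat_lit 152) (nat_lit 4853463806) (nat_lit 76) (nat_lit 42970933351) (nat_lit 3) (nat_lit 5) (nat_lit 5) (nat_lit 5) (nat_lit 4) (nat_lit 4) (nat_lit 313) (nat_lit 223) (nat_lit 184)) (XT.lf (nat_lit 0) (nat_lit 202348016) (nat_lit 76) (nat_lit 4875867375) (nat_lit 152) (nat_lit 47686082735) (nat_lit 2) (nat_lit 5) (nat_lit 3) (nat_lit 5) (nat_lit 4) (nat_lit 4) (nat_lit 314) (nat_lit 223) (nat_lit 183)))) (XT.nd (nat_lit 156) (nat_lit 0) (nat_lit 0) (XT.nd (nat_lit 78) (nat_lit 0) (nat_lit 0) (XT.lf (nat_lit 0) (nat_lit 5620843816) (nat_lit 76) (nat_lit 2139798523) (nat_lit 152) (nat_lit 47488826616) (nat_lit 2) (nat_lit 5) (nat_lit 3) (nat_lit 5)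 (nat_lit 4) (nat_lit 4) (nat_lit 315) (nat_lit 223) (nat_lit 182)) (XT.lf (nat_lit 0) (nat_lit 10557189255) (nat_lit 152) (nat_lit 46617096818) (nat_lit 0) (nat_lit 685646332) (nat_lit 2) (nat_lit 5) (nat_lit 4) (nat_lit 4) (nat_lit 2) (nat_lit 4) (nat_lit 316) (nat_lit 223) (nat_lit 181))) (XT.nd (nat_lit 78) (nat_lit 0) (nat_lit 0) (XT.lf (nat_lit 0) (nat_lit 13498692928) (nat_lit 152) (nat_lit 43544373183) (nat_lit 0) (nat_lit 3557628835) (nat_lit 2) (nat_lit 5) (nat_lit 4) (nat_lit 4) (nat_lit 2) (nat_lit 4) (nat_lit 317) (nat_lit 223) (nat_lit 180)) (XT.nd (nat_lit 78) (nat_lit 0) (nat_lit 0) (XT.lf (nat_lit 0) (nat_lit 16558748686) (nat_lit 152) (nat_lit 40369729976) (nat_lit 0) (nat_lit 6551473956) (nat_lit 2) (nat_lit 5) (nat_lit 4) (nat_lit 4) (nat_lit 2) (nat_lit 4) (nat_lit 318) (nat_lit 223) (nat_lit 179)) (XT.lf (nat_lit 0) (nat_lit 19744642377) (nat_lit 152) (nat_lit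 37085608522) (nat_lit 0) (nat_lit 9674309898) (nat_lit 2) (nat_lit 5) (nat_lit 4) (nat_lit 4) (nat_lit 2) (nat_lit 4) (nat_lit 319) (nat_lit 223) (nat_lit 178)))))) (XT.nd (nat_lit 312) (nat_lit 0) (nat_lit 0) (XT.nd (nat_lit 156) (nat_lit 0) (nat_lit 0) (XT.nd (nat_lit 78) (nat_lit 0) (nat_lit 0) (XT.lf (nat_lit 0) (nat_lit 23063959462) (nat_lit 152) (nat_lit 33684189483) (nat_lit 0) (nat_lit 12933571983) (nat_lit 2) (nat_lit 5) (nat_lit 4) (nat_lit 4) (nat_lit 2) (nat_lit 4) (nat_lit 320) (nat_lit 223) (nat_lit 177)) (XT.lf (nat_lit 0) (nat_lit 26524603077) (nat_lit 152) (nat_lit 30157374244) (nat_lit 0) (nat_lit 16337020359) (nat_lit 2) (nat_lit 5) (nat_lit 4) (nat_lit 4) (nat_lit 2) (nat_lit 4) (nat_lit 321) (nat_lit 223) (nat_lit 176))) (XT.nd (nat_lit 78) (nat_lit 0) (nat_lit 0) (XT.lf (nat_lit 0) (nat_lit 30134812849) (nat_lit 152) (nat_lit 26496765624) (nat_lit 0) (nat_lit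 19892758476) (nat_lit 2) (nat_lit 5) (nat_lit 4) (nat_lit 4) (nat_lit 2) (nat_lit 4) (nat_lit 322) (nat_lit 223) (nat_lit 175)) (XT.lf (nat_lit 0) (nat_lit 33903184516) (nat_lit 152) (nat_lit 22693647891) (nat_lit 0) (nat_lit 23609252376) (nat_lit 2) (nat_lit 5) (nat_lit 4) (nat_lit 4) (nat_lit 2) (nat_lit 4) (nat_lit 323) (nat_lit 223) (nat_lit 174)))) (XT.nd (nat_lit 156) (nat_lit 0) (nat_lit 0) (XT.nd (nat_lit 78) (nat_lit 0) (nat_lit 0) (XT.lf (nat_lit 0) (nat_lit 37838690391) (nat_lit 152) (nat_lit 18738966000) (nat_lit 0) (nat_lit 27495350855) (nat_lit 2) (nat_lit 5) (nat_lit 4) (nat_lit 4) (nat_lit 2) (nat_lit 4) (nat_lit 324) (nat_lit 223) (nat_lit 173)) (XT.lf (nat_lit 0) (nat_lit 41950700727) (nat_lit 152) (nat_lit 14623304042) (nat_lit 0) (nat_lit 31560306527) (nat_lit 2) (nat_lit 5) (nat_lit 4) (nat_lit 4) (nat_lit 2) (nat_lit 4) (nat_lit 325) (nat_lit 223) (nat_lit 172)))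 (XT.nd (nat_lit 78) (nat_lit 0) (nat_lit 0) (XT.lf (nat_lit 0) (nat_lit 46249006024) (nat_lit 152) (nat_lit 10336862824) (nat_lit 0) (nat_lit 35813797859) (nat_lit 2) (nat_lit 5) (nat_lit 4) (nat_lit 4) (nat_lit 2) (nat_lit 4) (nat_lit 326) (nat_lit 223) (nat_lit 171)) (XT.nd (nat_lit 78) (nat_lit 0) (nat_lit 0) (XT.lf (nat_lit 0) (nat_lit 50743840343) (nat_lit 152) (nat_lit 5869436532) (nat_lit 0) (nat_lit 40265952210) (nat_lit 2) (nat_lit 5) (nat_lit 4) (nat_lit 4) (nat_lit 2) (nat_lit 4) (nat_lit 327) (nat_lit 223) (nat_lit 170)) (XT.lf (nat_lit 0) (nat_lit 55445905670) (nat_lit 152) (nat_lit 1210388436) (nat_lit 0) (nat_lit 44927369949) (nat_lit 2) (nat_lit 5) (nat_lit 4) (nat_lit 4) (nat_lit 2) (nat_lit 4) (nat_lit 328) (nat_lit 223) (nat_lit 169))))))))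
noncomputable def xc61 : XT := (XT.nd (nat_lit 1404) (nat_lit 0) (nat_lit 0) (XT.nd (nat_lit 702) (nat_lit 0) (nat_lit 0) (XT.nd (nat_lit 312) (nat_lit 0) (nat_lit 0) (XT.nd (nat_lit 156) (nat_lit 0) (nat_lit 0) (XT.nd (nat_lit 78) (nat_lit 0) (nat_lit 0) (XT.lf (nat_lit 0) (nat_lit 3772105362) (nat_lit 76) (nat_lit 56653185172) (nat_lit 76) (nat_lit 46095937463) (nat_lit 1) (nat_lit 4) (nat_lit 2) (nat_lit 5) (nat_lit 2) (nat_lit 4) (nat_lit 329) (nat_lit 223) (nat_lit 168)) (XT.lf (nat_lit 0) (nat_lit 9015995878) (nat_lit 76) (nat_lit 56641800070) (nat_lit 76) (nat_lit 46047683801) (nat_lit 1) (nat_lit 4) (nat_lit 2) (nat_lit 5) (nat_lit 2) (nat_lit 4) (nat_lit 330) (nat_lit 223) (nat_lit 167))) (XT.nd (nat_lit 78) (nat_lit 0) (nat_lit 0) (XT.lf (nat_lit 0) (nat_lit 14493747656) (nat_lit 76) (nat_lit 56642610206) (nat_lit 76) (nat_lit 46013381022) (nat_lit 1) (nat_lit 4) (nat_lit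 2) (nat_lit 5) (nat_lit 2) (nat_lit 4) (nat_lit 331) (nat_lit 223) (nat_lit 166)) (XT.lf (nat_lit 0) (nat_lit 20218402963) (nat_lit 76) (nat_lit 56655617510) (nat_lit 76) (nat_lit 45992947455) (nat_lit 1) (nat_lit 4) (nat_lit 2) (nat_lit 5) (nat_lit 2) (nat_lit 4) (nat_lit 332) (nat_lit 223) (nat_lit 165)))) (XT.nd (nat_lit 156) (nat_lit 0) (nat_lit 0) (XT.nd (nat_lit 78) (nat_lit 0) (nat_lit 0) (XT.lf (nat_lit 0) (nat_lit 26203591931) (nat_lit 76) (nat_lit 56680852951) (nat_lit 76) (nat_lit 45986334447) (nat_lit 1) (nat_lit 4) (nat_lit 2) (nat_lit 5) (nat_lit 2) (nat_lit 4) (nat_lit 333) (nat_lit 223) (nat_lit 164)) (XT.lf (nat_lit 0) (nat_lit 32463565009) (nat_lit 76) (nat_lit 56718376613) (nat_lit 76) (nat_lit 45993526254) (nat_lit 1) (nat_lit 4) (nat_lit 2) (nat_lit 5) (nat_lit 2) (nat_lit 4) (nat_lit 334) (nat_lit 223) (nat_lit 163))) (XT.nd (nat_lit 78) (nat_lit 0) (nat_lit 0)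 (XT.lf (nat_lit 0) (nat_lit 39013226895) (nat_lit 76) (nat_lit 56768277839) (nat_lit 76) (nat_lit 46014539998) (nat_lit 1) (nat_lit 4) (nat_lit 2) (nat_lit 5) (nat_lit 2) (nat_lit 4) (nat_lit 335) (nat_lit 223) (nat_lit 162)) (XT.nd (nat_lit 78) (nat_lit 0) (nat_lit 0) (XT.lf (nat_lit 0) (nat_lit 45868172023) (nat_lit 76) (nat_lit 56830675442) (nat_lit 76) (nat_lit 46049425713) (nat_lit 1) (nat_lit 4) (nat_lit 2) (nat_lit 5) (nat_lit 2) (nat_lit 4) (nat_lit 336) (nat_lit 223) (nat_lit 161)) (XT.lf (nat_lit 0) (nat_lit 53044721689) (nat_lit 76) (nat_lit 56905717986) (nat_lit 76) (nat_lit 46098266459) (nat_lit 1) (nat_lit 4) (nat_lit 2) (nat_lit 5) (nat_lit 2) (nat_lit 4) (nat_lit 337) (nat_lit 223) (nat_lit 160)))))) (XT.nd (nat_lit 312) (nat_lit 0) (nat_lit 0) (XT.nd (nat_lit 156) (nat_lit 0) (nat_lit 0) (XT.nd (nat_lit 78) (nat_lit 0) (nat_lit 0) (XT.lf (nat_lit 0) (nat_lit 60559962918)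 (nat_lit 76) (nat_lit 56993584144) (nat_lit 76) (nat_lit 46161178525) (nat_lit 1) (nat_lit 4) (nat_lit 2) (nat_lit 5) (nat_lit 2) (nat_lit 4) (nat_lit 338) (nat_lit 223) (nat_lit 159)) (XT.lf (nat_lit 0) (nat_lit 68431789140) (nat_lit 76) (nat_lit 57094483123) (nat_lit 76) (nat_lit 46238311701) (nat_lit 1) (nat_lit 4) (nat_lit 2) (nat_lit 5) (nat_lit 2) (nat_lit 4) (nat_lit 339) (nat_lit 223) (nat_lit 158))) (XT.nd (nat_lit 78) (nat_lit 0) (nat_lit 0) (XT.lf (nat_lit 0) (nat_lit 76678942800) (nat_lit 76) (nat_lit 57208655156) (nat_lit 76) (nat_lit 46329849637) (nat_lit 1) (nat_lit 4) (nat_lit 2) (nat_lit 5) (nat_lit 2) (nat_lit 4) (nat_lit 340) (nat_lit 223) (nat_lit 157)) (XT.lf (nat_lit 0) (nat_lit 85321059976) (nat_lit 76) (nat_lit 57336372083) (nat_lit 76) (nat_lit 46436010280) (nat_lit 1) (nat_lit 4) (nat_lit 2) (nat_lit 5) (nat_lit 2) (nat_lit 4) (nat_lit 341) (nat_lit 223) (nat_lit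 156)))) (XT.nd (nat_lit 156) (nat_lit 0) (nat_lit 0) (XT.nd (nat_lit 78) (nat_lit 0) (nat_lit 0) (XT.lf (nat_lit 0) (nat_lit 94378717140) (nat_lit 76) (nat_lit 57477937992) (nat_lit 76) (nat_lit 46557046395) (nat_lit 1) (nat_lit 4) (nat_lit 2) (nat_lit 5) (nat_lit 2) (nat_lit 4) (nat_lit 342) (nat_lit 223) (nat_lit 155)) (XT.lf (nat_lit 0) (nat_lit 103873480140) (nat_lit 76) (nat_lit 57633689944) (nat_lit 76) (nat_lit 46693246162) (nat_lit 1) (nat_lit 4) (nat_lit 2) (nat_lit 5) (nat_lit 2) (nat_lit 4) (nat_lit 343) (nat_lit 223) (nat_lit 154))) (XT.nd (nat_lit 78) (nat_lit 0) (nat_lit 0) (XT.lf (nat_lit 0) (nat_lit 113827955556) (nat_lit 76) (nat_lit 57803998777) (nat_lit 76) (nat_lit 46844933866) (nat_lit 1) (nat_lit 4) (nat_lit 2) (nat_lit 5) (nat_lit 2) (nat_lit 4) (nat_lit 344) (nat_lit 223) (nat_lit 153)) (XT.nd (nat_lit 78) (nat_lit 0) (nat_lit 0) (XT.lf (nat_lit 0) (nat_lit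 124265844519) (nat_lit 76) (nat_lit 57989269988) (nat_lit 76) (nat_lit 47012470670) (nat_lit 1) (nat_lit 4) (nat_lit 2) (nat_lit 5) (nat_lit 2) (nat_lit 4) (nat_lit 345) (nat_lit 223) (nat_lit 152)) (XT.lf (nat_lit 0) (nat_lit 135211999147) (nat_lit 76) (nat_lit 58189944699) (nat_lit 76) (nat_lit 47196255469) (nat_lit 1) (nat_lit 4) (nat_lit 2) (nat_lit 5) (nat_lit 2) (nat_lit 4) (nat_lit 346) (nat_lit 223) (nat_lit 151))))))) (XT.nd (nat_lit 702) (nat_lit 0) (nat_lit 0) (XT.nd (nat_lit 312) (nat_lit 0) (nat_lit 0) (XT.nd (nat_lit 156) (nat_lit 0) (nat_lit 0) (XT.nd (nat_lit 78) (nat_lit 0) (nat_lit 0) (XT.lf (nat_lit 0) (nat_lit 146692481712) (nat_lit 76) (nat_lit 58406500708) (nat_lit 76) (nat_lit 47396725847) (nat_lit 1) (nat_lit 4) (nat_lit 2) (nat_lit 5) (nat_lit 2) (nat_lit 4) (nat_lit 347) (nat_lit 223) (nat_lit 150)) (XT.lf (nat_lit 0) (nat_lit 158734626696) (nat_lit 76) (nat_lit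 58639453623) (nat_lit 76) (nat_lit 47614359114) (nat_lit 1) (nat_lit 4) (nat_lit 2) (nat_lit 5) (nat_lit 2) (nat_lit 4) (nat_lit 348) (nat_lit 223) (nat_lit 149))) (XT.nd (nat_lit 78) (nat_lit 0) (nat_lit 0) (XT.lf (nat_lit 0) (nat_lit 171367105873) (nat_lit 76) (nat_lit 58889358095) (nat_lit 76) (nat_lit 47849673444) (nat_lit 1) (nat_lit 4) (nat_lit 2) (nat_lit 5) (nat_lit 2) (nat_lit 4) (nat_lit 349) (nat_lit 223) (nat_lit 148)) (XT.lf (nat_lit 0) (nat_lit 184619996575) (nat_lit 76) (nat_lit 59156809134) (nat_lit 76) (nat_lit 48103229111) (nat_lit 1) (nat_lit 4) (nat_lit 2) (nat_lit 5) (nat_lit 2) (nat_lit 4) (nat_lit 350) (nat_lit 223) (nat_lit 147)))) (XT.nd (nat_lit 156) (nat_lit 0) (nat_lit 0) (XT.nd (nat_lit 78) (nat_lit 0) (nat_lit 0) (XT.lf (nat_lit 0) (nat_lit 198524853302) (nat_lit 76) (nat_lit 59442443529) (nat_lit 76) (nat_lit 48375629817) (nat_lit 1) (nat_lit 4) (nat_lit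 2) (nat_lit 5) (nat_lit 2) (nat_lit 4) (nat_lit 351) (nat_lit 223) (nat_lit 146)) (XT.lf (nat_lit 0) (nat_lit 213114782858) (nat_lit 76) (nat_lit 59746941361) (nat_lit 76) (nat_lit 48667524136) (nat_lit 1) (nat_lit 4) (nat_lit 2) (nat_lit 5) (nat_lit 2) (nat_lit 4) (nat_lit 352) (nat_lit 223) (nat_lit 145))) (XT.nd (nat_lit 78) (nat_lit 0) (nat_lit 0) (XT.lf (nat_lit 0) (nat_lit 228424523169) (nat_lit 76) (nat_lit 60071027624) (nat_lit 76) (nat_lit 48979607055) (nat_lit 1) (nat_lit 4) (nat_lit 2) (nat_lit 5) (nat_lit 2) (nat_lit 4) (nat_lit 353) (nat_lit 223) (nat_lit 144)) (XT.nd (nat_lit 78) (nat_lit 0) (nat_lit 0) (XT.lf (nat_lit 0) (nat_lit 244490525998) (nat_lit 76) (nat_lit 60415473954) (nat_lit 76) (nat_lit 49312621627) (nat_lit 1) (nat_lit 4) (nat_lit 2) (nat_lit 5) (nat_lit 2) (nat_lit 4) (nat_lit 354) (nat_lit 223) (nat_lit 143)) (XT.lf (nat_lit 0) (nat_lit 261351043733)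 (nat_lit 76) (nat_lit 60781100461) (nat_lit 76) (nat_lit 49667360745) (nat_lit 1) (nat_lit 4) (nat_lit 2) (nat_lit 5) (nat_lit 2) (nat_lit 4) (nat_lit 355) (nat_lit 223) (nat_lit 142)))))) (XT.nd (nat_lit 312) (nat_lit 0) (nat_lit 0) (XT.nd (nat_lit 156) (nat_lit 0) (nat_lit 0) (XT.nd (nat_lit 78) (nat_lit 0) (nat_lit 0) (XT.lf (nat_lit 0) (nat_lit 279046220464) (nat_lit 76) (nat_lit 61168777682) (nat_lit 76) (nat_lit 50044669026) (nat_lit 1) (nat_lit 4) (nat_lit 2) (nat_lit 5) (nat_lit 2) (nat_lit 4) (nat_lit 356) (nat_lit 223) (nat_lit 141)) (XT.lf (nat_lit 0) (nat_lit 297618187563) (nat_lit 76) (nat_lit 61579428661) (nat_lit 76) (nat_lit 50445444823) (nat_lit 1) (nat_lit 4) (nat_lit 2) (nat_lit 5) (nat_lit 2) (nat_lit 4) (nat_lit 357) (nat_lit 223) (nat_lit 140))) (XT.nd (nat_lit 78) (nat_lit 0) (nat_lit 0) (XT.lf (nat_lit 0) (nat_lit 317111164001) (nat_lit 76) (nat_lit 62014031137)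 (nat_lit 76) (nat_lit 50870642363) (nat_lit 1) (nat_lit 4) (nat_lit 2) (nat_lit 5) (nat_lit 2) (nat_lit 4) (nat_lit 358) (nat_lit 223) (nat_lit 139)) (XT.lf (nat_lit 0) (nat_lit 337571561625) (nat_lit 76) (nat_lit 62473619877) (nat_lit 76) (nat_lit 51321274023) (nat_lit 1) (nat_lit 4) (nat_lit 2) (nat_lit 5) (nat_lit 2) (nat_lit 4) (nat_lit 359) (nat_lit 223) (nat_lit 138)))) (XT.nd (nat_lit 156) (nat_lit 0) (nat_lit 0) (XT.nd (nat_lit 78) (nat_lit 0) (nat_lit 0) (XT.lf (nat_lit 0) (nat_lit 359048095668) (nat_lit 76) (nat_lit 62959289142) (nat_lit 76) (nat_lit 51798412734) (nat_lit 1) (nat_lit 4) (nat_lit 2) (nat_lit 5) (nat_lit 2) (nat_lit 4) (nat_lit 360) (nat_lit 223) (nat_lit 137)) (XT.lf (nat_lit 0) (nat_lit 381591900735) (nat_lit 76) (nat_lit 63472195286) (nat_lit 76) (nat_lit 52303194541) (nat_lit 1) (nat_lit 4) (nat_lit 2) (nat_lit 5) (nat_lit 2) (nat_lit 4) (nat_lit 361) (nat_lit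 223) (nat_lit 136))) (XT.nd (nat_lit 78) (nat_lit 0) (nat_lit 0) (XT.lf (nat_lit 0) (nat_lit 405256652553) (nat_lit 76) (nat_lit 64013559514) (nat_lit 76) (nat_lit 52836821306) (nat_lit 1) (nat_lit 4) (nat_lit 2) (nat_lit 5) (nat_lit 2) (nat_lit 4) (nat_lit 362) (nat_lit 223) (nat_lit 135)) (XT.nd (nat_lit 78) (nat_lit 0) (nat_lit 0) (XT.lf (nat_lit 0) (nat_lit 430098695768) (nat_lit 76) (nat_lit 64584670788) (nat_lit 76) (nat_lit 53400563568) (nat_lit 1) (nat_lit 4) (nat_lit 2) (nat_lit 5) (nat_lit 2) (nat_lit 4) (nat_lit 363) (nat_lit 223) (nat_lit 134)) (XT.lf (nat_lit 0) (nat_lit 456177178103) (nat_lit 76) (nat_lit 65186888898) (nat_lit 76) (nat_lit 53995763570) (nat_lit 1) (nat_lit 4) (nat_lit 2) (nat_lit 5) (nat_lit 2) (nat_lit 4) (nat_lit 364) (nat_lit 223) (nat_lit 133))))))))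
noncomputable def xc62 : XT := (XT.nd (nat_lit 31590) (nat_lit 0) (nat_lit 304) (XT.nd (nat_lit 30888) (nat_lit 0) (nat_lit 836) (XT.nd (nat_lit 30498) (nat_lit 0) (nat_lit 1444) (XT.nd (nat_lit 30342) (nat_lit 0) (nat_lit 1824) (XT.nd (nat_lit 30264) (nat_lit 0) (nat_lit 2280) (XT.lf (nat_lit 0) (nat_lit 483554191182) (nat_lit 76) (nat_lit 65821647697) (nat_lit 76) (nat_lit 54623838457) (nat_lit 1) (nat_lit 4) (nat_lit 2) (nat_lit 5) (nat_lit 2) (nat_lit 4) (nat_lit 365) (nat_lit 223) (nat_lit 132)) (XT.lf (nat_lit 0) (nat_lit 2457266866) (nat_lit 228) (nat_lit 206399933) (nat_lit 0) (nat_lit 2457266866) (nat_lit 31) (nat_lit 5) (nat_lit 34) (nat_lit 4) (nat_lit 31) (nat_lit 4) (nat_lit 272) (nat_lit 224) (nat_lit 224))) (XT.nd (nat_lit 78) (nat_lit 228) (nat_lit 0) (XT.lf (nat_lit 0) (nat_lit 5901557575) (nat_lit 228) (nat_lit 2711940114) (nat_lit 228) (nat_lit 1914713073) (nat_lit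 28) (nat_lit 4) (nat_lit 31) (nat_lit 5) (nat_lit 31) (nat_lit 4) (nat_lit 273) (nat_lit 224) (nat_lit 223)) (XT.lf (nat_lit 0) (nat_lit 1508757425) (nat_lit 228) (nat_lit 9298082034) (nat_lit 0) (nat_lit 26385149) (nat_lit 25) (nat_lit 5) (nat_lit 28) (nat_lit 4) (nat_lit 25) (nat_lit 4) (nat_lit 274) (nat_lit 224) (nat_lit 222)))) (XT.nd (nat_lit 156) (nat_lit 228) (nat_lit 0) (XT.nd (nat_lit 78) (nat_lit 152) (nat_lit 0) (XT.lf (nat_lit 0) (nat_lit 5027640545) (nat_lit 228) (nat_lit 3268577148) (nat_lit 0) (nat_lit 2856593577) (nat_lit 25) (nat_lit 5) (nat_lit 28) (nat_lit 4) (nat_lit 25) (nat_lit 4) (nat_lit 275) (nat_lit 224) (nat_lit 221)) (XT.lf (nat_lit 0) (nat_lit 2959477571) (nat_lit 152) (nat_lit 5680137762) (nat_lit 152) (nat_lit 2853210135) (nat_lit 23) (nat_lit 4) (nat_lit 25) (nat_lit 5) (nat_lit 25) (nat_lit 4) (nat_lit 276) (nat_lit 224) (nat_lit 220))) (XT.nd (nat_lit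 78) (nat_lit 152) (nat_lit 0) (XT.lf (nat_lit 0) (nat_lit 491676992) (nat_lit 228) (nat_lit 2443638039) (nat_lit 76) (nat_lit 8917949547) (nat_lit 22) (nat_lit 5) (nat_lit 25) (nat_lit 5) (nat_lit 23) (nat_lit 4) (nat_lit 277) (nat_lit 224) (nat_lit 219)) (XT.nd (nat_lit 78) (nat_lit 0) (nat_lit 0) (XT.lf (nat_lit 0) (nat_lit 3837090910) (nat_lit 152) (nat_lit 8552932) (nat_lit 228) (nat_lit 8387120980) (nat_lit 20) (nat_lit 5) (nat_lit 22) (nat_lit 5) (nat_lit 23) (nat_lit 4) (nat_lit 278) (nat_lit 224) (nat_lit 218)) (XT.lf (nat_lit 0) (nat_lit 7336890748) (nat_lit 228) (nat_lit 2352615033) (nat_lit 0) (nat_lit 2943506614) (nat_lit 20) (nat_lit 5) (nat_lit 23) (nat_lit 4) (nat_lit 20) (nat_lit 4) (nat_lit 279) (nat_lit 224) (nat_lit 217)))))) (XT.nd (nat_lit 312) (nat_lit 304) (nat_lit 0) (XT.nd (nat_lit 156) (nat_lit 76) (nat_lit 0) (XT.nd (nat_lit 78) (nat_lit 76) (nat_lit 0) (XT.lf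 (nat_lit 0) (nat_lit 3935942296) (nat_lit 152) (nat_lit 7013751785) (nat_lit 152) (nat_lit 2106467992) (nat_lit 18) (nat_lit 4) (nat_lit 20) (nat_lit 5) (nat_lit 20) (nat_lit 4) (nat_lit 280) (nat_lit 224) (nat_lit 216)) (XT.lf (nat_lit 0) (nat_lit 1129391743) (nat_lit 228) (nat_lit 3081458965) (nat_lit 76) (nat_lit 9292540793) (nat_lit 17) (nat_lit 5) (nat_lit 20) (nat_lit 5) (nat_lit 18) (nat_lit 4) (nat_lit 281) (nat_lit 224) (nat_lit 215))) (XT.nd (nat_lit 78) (nat_lit 0) (nat_lit 0) (XT.lf (nat_lit 0) (nat_lit 3150759071) (nat_lit 76) (nat_lit 1246115684) (nat_lit 152) (nat_lit 9577556790) (nat_lit 16) (nat_lit 5) (nat_lit 17) (nat_lit 5) (nat_lit 18) (nat_lit 4) (nat_lit 282) (nat_lit 224) (nat_lit 214)) (XT.lf (nat_lit 0) (nat_lit 7802805893) (nat_lit 152) (nat_lit 4871293208) (nat_lit 0) (nat_lit 1796367772) (nat_lit 16) (nat_lit 5) (nat_lit 18) (nat_lit 4) (nat_lit 16) (nat_lit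 4) (nat_lit 283) (nat_lit 224) (nat_lit 213)))) (XT.nd (nat_lit 156) (nat_lit 152) (nat_lit 0) (XT.nd (nat_lit 78) (nat_lit 0) (nat_lit 0) (XT.lf (nat_lit 0) (nat_lit 1229587703) (nat_lit 152) (nat_lit 10087057614) (nat_lit 152) (nat_lit 3677965664) (nat_lit 14) (nat_lit 4) (nat_lit 16) (nat_lit 5) (nat_lit 16) (nat_lit 4) (nat_lit 284) (nat_lit 224) (nat_lit 212)) (XT.lf (nat_lit 0) (nat_lit 7639299667) (nat_lit 152) (nat_lit 7349637528) (nat_lit 152) (nat_lit 557065741) (nat_lit 14) (nat_lit 4) (nat_lit 16) (nat_lit 5) (nat_lit 16) (nat_lit 4) (nat_lit 285) (nat_lit 224) (nat_lit 211))) (XT.nd (nat_lit 78) (nat_lit 76) (nat_lit 0) (XT.lf (nat_lit 0) (nat_lit 2536116334) (nat_lit 228) (nat_lit 1958752195) (nat_lit 76) (nat_lit 11632970257) (nat_lit 13) (nat_lit 5) (nat_lit 16) (nat_lit 5) (nat_lit 14) (nat_lit 4) (nat_lit 286) (nat_lit 224) (nat_lit 210)) (XT.nd (nat_lit 78) (nat_lit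 0) (nat_lit 0) (XT.lf (nat_lit 0) (nat_lit 4260670367) (nat_lit 76) (nat_lit 1478982591) (nat_lit 152) (nat_lit 11000090372) (nat_lit 12) (nat_lit 5) (nat_lit 13) (nat_lit 5) (nat_lit 14) (nat_lit 4) (nat_lit 287) (nat_lit 224) (nat_lit 209)) (XT.lf (nat_lit 0) (nat_lit 9072414590) (nat_lit 152) (nat_lit 6702806120) (nat_lit 0) (nat_lit 1608716971) (nat_lit 12) (nat_lit 5) (nat_lit 14) (nat_lit 4) (nat_lit 12) (nat_lit 4) (nat_lit 288) (nat_lit 224) (nat_lit 208))))))) (XT.nd (nat_lit 702) (nat_lit 152) (nat_lit 0) (XT.nd (nat_lit 312) (nat_lit 152) (nat_lit 0) (XT.nd (nat_lit 156) (nat_lit 76) (nat_lit 0) (XT.nd (nat_lit 78) (nat_lit 152) (nat_lit 0) (XT.lf (nat_lit 0) (nat_lit 12509376358) (nat_lit 152) (nat_lit 809015028) (nat_lit 0) (nat_lit 4745212252) (nat_lit 12) (nat_lit 5) (nat_lit 14) (nat_lit 4) (nat_lit 12) (nat_lit 4) (nat_lit 289) (nat_lit 224) (nat_lit 207)) (XT.lf (nat_lit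 0) (nat_lit 5412663238) (nat_lit 152) (nat_lit 10707474045) (nat_lit 152) (nat_lit 2657151380) (nat_lit 10) (nat_lit 4) (nat_lit 12) (nat_lit 5) (nat_lit 12) (nat_lit 4) (nat_lit 290) (nat_lit 224) (nat_lit 206))) (XT.nd (nat_lit 78) (nat_lit 0) (nat_lit 0) (XT.lf (nat_lit 0) (nat_lit 304165852) (nat_lit 228) (nat_lit 7699314629) (nat_lit 76) (nat_lit 11526412872) (nat_lit 9) (nat_lit 5) (nat_lit 12) (nat_lit 5) (nat_lit 10) (nat_lit 4) (nat_lit 291) (nat_lit 224) (nat_lit 205)) (XT.lf (nat_lit 0) (nat_lit 3245943786) (nat_lit 228) (nat_lit 1928224113) (nat_lit 76) (nat_lit 15147812927) (nat_lit 9) (nat_lit 5) (nat_lit 12) (nat_lit 5) (nat_lit 10) (nat_lit 4) (nat_lit 292) (nat_lit 224) (nat_lit 204)))) (XT.nd (nat_lit 156) (nat_lit 76) (nat_lit 0) (XT.nd (nat_lit 78) (nat_lit 0) (nat_lit 0) (XT.lf (nat_lit 0) (nat_lit 4136258495) (nat_lit 76) (nat_lit 2188552184) (nat_lit 152) (nat_lit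 14829471677) (nat_lit 8) (nat_lit 5) (nat_lit 9) (nat_lit 5) (nat_lit 10) (nat_lit 4) (nat_lit 293) (nat_lit 224) (nat_lit 203)) (XT.lf (nat_lit 0) (nat_lit 9531780563) (nat_lit 152) (nat_lit 11599393129) (nat_lit 0) (nat_lit 898421751) (nat_lit 8) (nat_lit 5) (nat_lit 10) (nat_lit 4) (nat_lit 8) (nat_lit 4) (nat_lit 294) (nat_lit 224) (nat_lit 202))) (XT.nd (nat_lit 78) (nat_lit 76) (nat_lit 0) (XT.lf (nat_lit 0) (nat_lit 12864685241) (nat_lit 152) (nat_lit 6068018610) (nat_lit 0) (nat_lit 4017790506) (nat_lit 8) (nat_lit 5) (nat_lit 10) (nat_lit 4) (nat_lit 8) (nat_lit 4) (nat_lit 295) (nat_lit 224) (nat_lit 201)) (XT.nd (nat_lit 78) (nat_lit 76) (nat_lit 0) (XT.lf (nat_lit 0) (nat_lit 16297290767) (nat_lit 152) (nat_lit 376560932) (nat_lit 0) (nat_lit 7247028487) (nat_lit 8) (nat_lit 5) (nat_lit 10) (nat_lit 4) (nat_lit 8) (nat_lit 4) (nat_lit 296) (nat_lit 224) (nat_lit 200)) (XT.lf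 (nat_lit 0) (nat_lit 5670006615) (nat_lit 76) (nat_lit 14256288091) (nat_lit 76) (nat_lit 5012342434) (nat_lit 7) (nat_lit 4) (nat_lit 8) (nat_lit 5) (nat_lit 8) (nat_lit 4) (nat_lit 297) (nat_lit 224) (nat_lit 199)))))) (XT.nd (nat_lit 312) (nat_lit 0) (nat_lit 0) (XT.nd (nat_lit 156) (nat_lit 76) (nat_lit 0) (XT.nd (nat_lit 78) (nat_lit 76) (nat_lit 0) (XT.lf (nat_lit 0) (nat_lit 11922826583) (nat_lit 76) (nat_lit 11757874844) (nat_lit 76) (nat_lit 2329468828) (nat_lit 7) (nat_lit 4) (nat_lit 8) (nat_lit 5) (nat_lit 8) (nat_lit 4) (nat_lit 298) (nat_lit 224) (nat_lit 198)) (XT.lf (nat_lit 0) (nat_lit 411437955) (nat_lit 152) (nat_lit 8760634739) (nat_lit 76) (nat_lit 17965929978) (nat_lit 6) (nat_lit 5) (nat_lit 8) (nat_lit 5) (nat_lit 7) (nat_lit 4) (nat_lit 299) (nat_lit 224) (nat_lit 197))) (XT.nd (nat_lit 78) (nat_lit 76) (nat_lit 0) (XT.lf (nat_lit 0) (nat_lit 3153479975) (nat_lit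 152) (nat_lit 3306759580) (nat_lit 76) (nat_lit 21863033227) (nat_lit 6) (nat_lit 5) (nat_lit 8) (nat_lit 5) (nat_lit 7) (nat_lit 4) (nat_lit 300) (nat_lit 224) (nat_lit 196)) (XT.lf (nat_lit 0) (nat_lit 2400466684) (nat_lit 76) (nat_lit 3614754783) (nat_lit 152) (nat_lit 23553525768) (nat_lit 5) (nat_lit 5) (nat_lit 6) (nat_lit 5) (nat_lit 7) (nat_lit 4) (nat_lit 301) (nat_lit 224) (nat_lit 195)))) (XT.nd (nat_lit 156) (nat_lit 0) (nat_lit 0) (XT.nd (nat_lit 78) (nat_lit 0) (nat_lit 0) (XT.lf (nat_lit 0) (nat_lit 8413236080) (nat_lit 76) (nat_lit 609070942) (nat_lit 152) (nat_lit 21854142874) (nat_lit 5) (nat_lit 5) (nat_lit 6) (nat_lit 5) (nat_lit 7) (nat_lit 4) (nat_lit 302) (nat_lit 224) (nat_lit 194)) (XT.lf (nat_lit 0) (nat_lit 12167717930) (nat_lit 152) (nat_lit 17654789159) (nat_lit 0) (nat_lit 2427696182) (nat_lit 5) (nat_lit 5) (nat_lit 7) (nat_lit 4) (nat_lit 5) (nat_lit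 4) (nat_lit 303) (nat_lit 224) (nat_lit 193))) (XT.nd (nat_lit 78) (nat_lit 0) (nat_lit 0) (XT.lf (nat_lit 0) (nat_lit 15431057361) (nat_lit 152) (nat_lit 12703672048) (nat_lit 0) (nat_lit 5559943080) (nat_lit 5) (nat_lit 5) (nat_lit 7) (nat_lit 4) (nat_lit 5) (nat_lit 4) (nat_lit 304) (nat_lit 224) (nat_lit 192)) (XT.nd (nat_lit 78) (nat_lit 0) (nat_lit 0) (XT.lf (nat_lit 0) (nat_lit 18810585870) (nat_lit 152) (nat_lit 7588564807) (nat_lit 0) (nat_lit 8814621558) (nat_lit 5) (nat_lit 5) (nat_lit 7) (nat_lit 4) (nat_lit 5) (nat_lit 4) (nat_lit 305) (nat_lit 224) (nat_lit 191)) (XT.lf (nat_lit 0) (nat_lit 22314349952) (nat_lit 152) (nat_lit 2297288608) (nat_lit 0) (nat_lit 12199480848) (nat_lit 5) (nat_lit 5) (nat_lit 7) (nat_lit 4) (nat_lit 5) (nat_lit 4) (nat_lit 306) (nat_lit 224) (nat_lit 190))))))))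
noncomputable def xc63 : XT := (XT.nd (nat_lit 1404) (nat_lit 76) (nat_lit 0) (XT.nd (nat_lit 702) (nat_lit 0) (nat_lit 0) (XT.nd (nat_lit 312) (nat_lit 152) (nat_lit 0) (XT.nd (nat_lit 156) (nat_lit 0) (nat_lit 0) (XT.nd (nat_lit 78) (nat_lit 0) (nat_lit 0) (XT.lf (nat_lit 0) (nat_lit 3287991073) (nat_lit 76) (nat_lit 22714035585) (nat_lit 76) (nat_lit 12485923822) (nat_lit 4) (nat_lit 4) (nat_lit 5) (nat_lit 5) (nat_lit 5) (nat_lit 4) (nat_lit 307) (nat_lit 224) (nat_lit 189)) (XT.lf (nat_lit 0) (nat_lit 9157717361) (nat_lit 76) (nat_lit 20713529951) (nat_lit 76) (nat_lit 10377568036) (nat_lit 4) (nat_lit 4) (nat_lit 5) (nat_lit 5) (nat_lit 5) (nat_lit 4) (nat_lit 308) (nat_lit 224) (nat_lit 188))) (XT.nd (nat_lit 78) (nat_lit 0) (nat_lit 0) (XT.lf (nat_lit 0) (nat_lit 15249907059) (nat_lit 76) (nat_lit 18644264243) (nat_lit 76) (nat_lit 8205587898) (nat_lit 4) (nat_lit 4) (nat_lit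 5) (nat_lit 5) (nat_lit 5) (nat_lit 4) (nat_lit 309) (nat_lit 224) (nat_lit 187)) (XT.lf (nat_lit 0) (nat_lit 21579065381) (nat_lit 76) (nat_lit 16501311638) (nat_lit 76) (nat_lit 5964812027) (nat_lit 4) (nat_lit 4) (nat_lit 5) (nat_lit 5) (nat_lit 5) (nat_lit 4) (nat_lit 310) (nat_lit 224) (nat_lit 186)))) (XT.nd (nat_lit 156) (nat_lit 152) (nat_lit 0) (XT.nd (nat_lit 78) (nat_lit 0) (nat_lit 0) (XT.lf (nat_lit 0) (nat_lit 28160261749) (nat_lit 76) (nat_lit 14279569868) (nat_lit 76) (nat_lit 3649905241) (nat_lit 4) (nat_lit 4) (nat_lit 5) (nat_lit 5) (nat_lit 5) (nat_lit 4) (nat_lit 311) (nat_lit 224) (nat_lit 185)) (XT.lf (nat_lit 0) (nat_lit 35009165681) (nat_lit 76) (nat_lit 11973749073) (nat_lit 76) (nat_lit 1255355859) (nat_lit 4) (nat_lit 4) (nat_lit 5) (nat_lit 5) (nat_lit 5) (nat_lit 4) (nat_lit 312) (nat_lit 224) (nat_lit 184))) (XT.nd (nat_lit 78) (nat_lit 76) (nat_lit 0)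 (XT.lf (nat_lit 0) (nat_lit 1185344582) (nat_lit 152) (nat_lit 8372940235) (nat_lit 76) (nat_lit 40936665123) (nat_lit 3) (nat_lit 5) (nat_lit 5) (nat_lit 5) (nat_lit 4) (nat_lit 4) (nat_lit 313) (nat_lit 224) (nat_lit 183)) (XT.nd (nat_lit 78) (nat_lit 76) (nat_lit 0) (XT.lf (nat_lit 0) (nat_lit 3674193690) (nat_lit 152) (nat_lit 3351279007) (nat_lit 76) (nat_lit 45839582175) (nat_lit 3) (nat_lit 5) (nat_lit 5) (nat_lit 5) (nat_lit 4) (nat_lit 4) (nat_lit 314) (nat_lit 224) (nat_lit 182)) (XT.lf (nat_lit 0) (nat_lit 1929180536) (nat_lit 76) (nat_lit 4358235901) (nat_lit 152) (nat_lit 49066286064) (nat_lit 2) (nat_lit 5) (nat_lit 3) (nat_lit 5) (nat_lit 4) (nat_lit 4) (nat_lit 315) (nat_lit 224) (nat_lit 181)))))) (XT.nd (nat_lit 312) (nat_lit 0) (nat_lit 0) (XT.nd (nat_lit 156) (nat_lit 0) (nat_lit 0) (XT.nd (nat_lit 78) (nat_lit 0) (nat_lit 0) (XT.lf (nat_lit 0) (nat_lit 7536852787)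 (nat_lit 76) (nat_lit 1521621933) (nat_lit 152) (nat_lit 48906981463) (nat_lit 2) (nat_lit 5) (nat_lit 3) (nat_lit 5) (nat_lit 4) (nat_lit 4) (nat_lit 316) (nat_lit 224) (nat_lit 180)) (XT.lf (nat_lit 0) (nat_lit 11962307904) (nat_lit 152) (nat_lit 47357350593) (nat_lit 0) (nat_lit 1388458800) (nat_lit 2) (nat_lit 5) (nat_lit 4) (nat_lit 4) (nat_lit 2) (nat_lit 4) (nat_lit 317) (nat_lit 224) (nat_lit 179))) (XT.nd (nat_lit 78) (nat_lit 0) (nat_lit 0) (XT.lf (nat_lit 0) (nat_lit 15009112513) (nat_lit 152) (nat_lit 44206733685) (nat_lit 0) (nat_lit 4372205660) (nat_lit 2) (nat_lit 5) (nat_lit 4) (nat_lit 4) (nat_lit 2) (nat_lit 4) (nat_lit 318) (nat_lit 224) (nat_lit 178)) (XT.lf (nat_lit 0) (nat_lit 18182386062) (nat_lit 152) (nat_lit 40945494420) (nat_lit 0) (nat_lit 7485424209) (nat_lit 2) (nat_lit 5) (nat_lit 4) (nat_lit 4) (nat_lit 2) (nat_lit 4) (nat_lit 319) (nat_lit 224) (nat_lit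 177)))) (XT.nd (nat_lit 156) (nat_lit 0) (nat_lit 0) (XT.nd (nat_lit 78) (nat_lit 0) (nat_lit 0) (XT.lf (nat_lit 0) (nat_lit 21489683965) (nat_lit 152) (nat_lit 37565867943) (nat_lit 0) (nat_lit 10735526873) (nat_lit 2) (nat_lit 5) (nat_lit 4) (nat_lit 4) (nat_lit 2) (nat_lit 4) (nat_lit 320) (nat_lit 224) (nat_lit 176)) (XT.lf (nat_lit 0) (nat_lit 24938880739) (nat_lit 152) (nat_lit 34059807524) (nat_lit 0) (nat_lit 14130251992) (nat_lit 2) (nat_lit 5) (nat_lit 4) (nat_lit 4) (nat_lit 2) (nat_lit 4) (nat_lit 321) (nat_lit 224) (nat_lit 175))) (XT.nd (nat_lit 78) (nat_lit 0) (nat_lit 0) (XT.lf (nat_lit 0) (nat_lit 28538188758) (nat_lit 152) (nat_lit 30418965401) (nat_lit 0) (nat_lit 17677682244) (nat_lit 2) (nat_lit 5) (nat_lit 4) (nat_lit 4) (nat_lit 2) (nat_lit 4) (nat_lit 322) (nat_lit 224) (nat_lit 174)) (XT.nd (nat_lit 78) (nat_lit 0) (nat_lit 0) (XT.lf (nat_lit 0) (nat_lit 32296177803)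 (nat_lit 152) (nat_lit 26634672901) (nat_lit 0) (nat_lit 21386263892) (nat_lit 2) (nat_lit 5) (nat_lit 4) (nat_lit 4) (nat_lit 2) (nat_lit 4) (nat_lit 323) (nat_lit 224) (nat_lit 173)) (XT.lf (nat_lit 0) (nat_lit 36221795467) (nat_lit 152) (nat_lit 22697919804) (nat_lit 0) (nat_lit 25264826893) (nat_lit 2) (nat_lit 5) (nat_lit 4) (nat_lit 4) (nat_lit 2) (nat_lit 4) (nat_lit 324) (nat_lit 224) (nat_lit 172))))))) (XT.nd (nat_lit 702) (nat_lit 0) (nat_lit 0) (XT.nd (nat_lit 312) (nat_lit 76) (nat_lit 0) (XT.nd (nat_lit 156) (nat_lit 0) (nat_lit 0) (XT.nd (nat_lit 78) (nat_lit 0) (nat_lit 0) (XT.lf (nat_lit 0) (nat_lit 40324388459) (nat_lit 152) (nat_lit 18599332889) (nat_lit 0) (nat_lit 29322605919) (nat_lit 2) (nat_lit 5) (nat_lit 4) (nat_lit 4) (nat_lit 2) (nat_lit 4) (nat_lit 325) (nat_lit 224) (nat_lit 171)) (XT.lf (nat_lit 0) (nat_lit 44613724857) (nat_lit 152) (nat_lit 14329153616)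 (nat_lit 0) (nat_lit 33569262350) (nat_lit 2) (nat_lit 5) (nat_lit 4) (nat_lit 4) (nat_lit 2) (nat_lit 4) (nat_lit 326) (nat_lit 224) (nat_lit 170))) (XT.nd (nat_lit 78) (nat_lit 0) (nat_lit 0) (XT.lf (nat_lit 0) (nat_lit 49100017367) (nat_lit 152) (nat_lit 9877214890) (nat_lit 0) (nat_lit 38014907272) (nat_lit 2) (nat_lit 5) (nat_lit 4) (nat_lit 4) (nat_lit 2) (nat_lit 4) (nat_lit 327) (nat_lit 224) (nat_lit 169)) (XT.lf (nat_lit 0) (nat_lit 53793947638) (nat_lit 152) (nat_lit 5232916858) (nat_lit 0) (nat_lit 42670125555) (nat_lit 2) (nat_lit 5) (nat_lit 4) (nat_lit 4) (nat_lit 2) (nat_lit 4) (nat_lit 328) (nat_lit 224) (nat_lit 168)))) (XT.nd (nat_lit 156) (nat_lit 0) (nat_lit 0) (XT.nd (nat_lit 78) (nat_lit 76) (nat_lit 0) (XT.lf (nat_lit 0) (nat_lit 58706691694) (nat_lit 152) (nat_lit 385201668) (nat_lit 0) (nat_lit 47546001050) (nat_lit 2) (nat_lit 5) (nat_lit 4) (nat_lit 4) (nat_lit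 2) (nat_lit 4) (nat_lit 329) (nat_lit 224) (nat_lit 167)) (XT.lf (nat_lit 0) (nat_lit 4832131237) (nat_lit 76) (nat_lit 59093258418) (nat_lit 76) (nat_lit 47897454860) (nat_lit 1) (nat_lit 4) (nat_lit 2) (nat_lit 5) (nat_lit 2) (nat_lit 4) (nat_lit 330) (nat_lit 224) (nat_lit 166))) (XT.nd (nat_lit 78) (nat_lit 0) (nat_lit 0) (XT.lf (nat_lit 0) (nat_lit 10296720059) (nat_lit 76) (nat_lit 59099998633) (nat_lit 76) (nat_lit 47870754204) (nat_lit 1) (nat_lit 4) (nat_lit 2) (nat_lit 5) (nat_lit 2) (nat_lit 4) (nat_lit 331) (nat_lit 224) (nat_lit 165)) (XT.nd (nat_lit 78) (nat_lit 0) (nat_lit 0) (XT.lf (nat_lit 0) (nat_lit 16008839217) (nat_lit 76) (nat_lit 59118653630) (nat_lit 76) (nat_lit 47857560753) (nat_lit 1) (nat_lit 4) (nat_lit 2) (nat_lit 5) (nat_lit 2) (nat_lit 4) (nat_lit 332) (nat_lit 224) (nat_lit 164)) (XT.lf (nat_lit 0) (nat_lit 21982088996) (nat_lit 76) (nat_lit 59149267827)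 (nat_lit 76) (nat_lit 47857843094) (nat_lit 1) (nat_lit 4) (nat_lit 2) (nat_lit 5) (nat_lit 2) (nat_lit 4) (nat_lit 333) (nat_lit 224) (nat_lit 163)))))) (XT.nd (nat_lit 390) (nat_lit 0) (nat_lit 0) (XT.nd (nat_lit 156) (nat_lit 0) (nat_lit 0) (XT.nd (nat_lit 78) (nat_lit 0) (nat_lit 0) (XT.lf (nat_lit 0) (nat_lit 28230691417) (nat_lit 76) (nat_lit 59191914114) (nat_lit 76) (nat_lit 47871601899) (nat_lit 1) (nat_lit 4) (nat_lit 2) (nat_lit 5) (nat_lit 2) (nat_lit 4) (nat_lit 334) (nat_lit 224) (nat_lit 162)) (XT.lf (nat_lit 0) (nat_lit 34769524107) (nat_lit 76) (nat_lit 59246694030) (nat_lit 76) (nat_lit 47898869928) (nat_lit 1) (nat_lit 4) (nat_lit 2) (nat_lit 5) (nat_lit 2) (nat_lit 4) (nat_lit 335) (nat_lit 224) (nat_lit 161))) (XT.nd (nat_lit 78) (nat_lit 0) (nat_lit 0) (XT.lf (nat_lit 0) (nat_lit 41614155714) (nat_lit 76) (nat_lit 59313738004) (nat_lit 76) (nat_lit 47939712104)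 (nat_lit 1) (nat_lit 4) (nat_lit 2) (nat_lit 5) (nat_lit 2) (nat_lit 4) (nat_lit 336) (nat_lit 224) (nat_lit 160)) (XT.nd (nat_lit 78) (nat_lit 0) (nat_lit 0) (XT.lf (nat_lit 0) (nat_lit 48780882980) (nat_lit 76) (nat_lit 59393205664) (nat_lit 76) (nat_lit 47994225671) (nat_lit 1) (nat_lit 4) (nat_lit 2) (nat_lit 5) (nat_lit 2) (nat_lit 4) (nat_lit 337) (nat_lit 224) (nat_lit 159)) (XT.lf (nat_lit 0) (nat_lit 56286769541) (nat_lit 76) (nat_lit 59485286219) (nat_lit 76) (nat_lit 48062540423) (nat_lit 1) (nat_lit 4) (nat_lit 2) (nat_lit 5) (nat_lit 2) (nat_lit 4) (nat_lit 338) (nat_lit 224) (nat_lit 158))))) (XT.nd (nat_lit 156) (nat_lit 0) (nat_lit 0) (XT.nd (nat_lit 78) (nat_lit 0) (nat_lit 0) (XT.lf (nat_lit 0) (nat_lit 64149686557) (nat_lit 76) (nat_lit 59590198907) (nat_lit 76) (nat_lit 48144819014) (nat_lit 1) (nat_lit 4) (nat_lit 2) (nat_lit 5) (nat_lit 2) (nat_lit 4) (nat_lit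 339) (nat_lit 224) (nat_lit 157)) (XT.lf (nat_lit 0) (nat_lit 72388355257) (nat_lit 76) (nat_lit 59708193522) (nat_lit 76) (nat_lit 48241257345) (nat_lit 1) (nat_lit 4) (nat_lit 2) (nat_lit 5) (nat_lit 2) (nat_lit 4) (nat_lit 340) (nat_lit 224) (nat_lit 156))) (XT.nd (nat_lit 78) (nat_lit 0) (nat_lit 0) (XT.lf (nat_lit 0) (nat_lit 81022391521) (nat_lit 76) (nat_lit 59839551003) (nat_lit 76) (nat_lit 48352085032) (nat_lit 1) (nat_lit 4) (nat_lit 2) (nat_lit 5) (nat_lit 2) (nat_lit 4) (nat_lit 341) (nat_lit 224) (nat_lit 155)) (XT.nd (nat_lit 78) (nat_lit 0) (nat_lit 0) (XT.lf (nat_lit 0) (nat_lit 90072352576) (nat_lit 76) (nat_lit 59984584106) (nat_lit 76) (nat_lit 48477565950) (nat_lit 1) (nat_lit 4) (nat_lit 2) (nat_lit 5) (nat_lit 2) (nat_lit 4) (nat_lit 342) (nat_lit 224) (nat_lit 154)) (XT.lf (nat_lit 0) (nat_lit 99559785950) (nat_lit 76) (nat_lit 60143638147) (nat_lit 76) (nat_lit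 48617998863) (nat_lit 1) (nat_lit 4) (nat_lit 2) (nat_lit 5) (nat_lit 2) (nat_lit 4) (nat_lit 343) (nat_lit 224) (nat_lit 153))))))))
noncomputable def xc64 : XT := (XT.nd (nat_lit 1404) (nat_lit 0) (nat_lit 0) (XT.nd (nat_lit 702) (nat_lit 0) (nat_lit 0) (XT.nd (nat_lit 312) (nat_lit 0) (nat_lit 0) (XT.nd (nat_lit 156) (nat_lit 0) (nat_lit 0) (XT.nd (nat_lit 78) (nat_lit 0) (nat_lit 0) (XT.lf (nat_lit 0) (nat_lit 109507280769) (nat_lit 76) (nat_lit 60317091827) (nat_lit 76) (nat_lit 48773718135) (nat_lit 1) (nat_lit 4) (nat_lit 2) (nat_lit 5) (nat_lit 2) (nat_lit 4) (nat_lit 344) (nat_lit 224) (nat_lit 152)) (XT.lf (nat_lit 0) (nat_lit 119938521545) (nat_lit 76) (nat_lit 60505358131) (nat_lit 76) (nat_lit 48945094527) (nat_lit 1) (nat_lit 4) (nat_lit 2) (nat_lit 5) (nat_lit 2) (nat_lit 4) (nat_lit 345) (nat_lit 224) (nat_lit 151))) (XT.nd (nat_lit 78) (nat_lit 0) (nat_lit 0) (XT.lf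 (nat_lit 0) (nat_lit 130878344566) (nat_lit 76) (nat_lit 60708885311) (nat_lit 76) (nat_lit 49132536076) (nat_lit 1) (nat_lit 4) (nat_lit 2) (nat_lit 5) (nat_lit 2) (nat_lit 4) (nat_lit 346) (nat_lit 224) (nat_lit 150)) (XT.lf (nat_lit 0) (nat_lit 142352797029) (nat_lit 76) (nat_lit 60928157957) (nat_lit 76) (nat_lit 49336489074) (nat_lit 1) (nat_lit 4) (nat_lit 2) (nat_lit 5) (nat_lit 2) (nat_lit 4) (nat_lit 347) (nat_lit 224) (nat_lit 149)))) (XT.nd (nat_lit 156) (nat_lit 0) (nat_lit 0) (XT.nd (nat_lit 78) (nat_lit 0) (nat_lit 0) (XT.lf (nat_lit 0) (nat_lit 154389199059) (nat_lit 76) (nat_lit 61163698146) (nat_lit 76) (nat_lit 49557439121) (nat_lit 1) (nat_lit 4) (nat_lit 2) (nat_lit 5) (nat_lit 2) (nat_lit 4) (nat_lit 348) (nat_lit 224) (nat_lit 148)) (XT.lf (nat_lit 0) (nat_lit 167016208756) (nat_lit 76) (nat_lit 61416066688) (nat_lit 76) (nat_lit 49795912291) (nat_lit 1) (nat_lit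 4) (nat_lit 2) (nat_lit 5) (nat_lit 2) (nat_lit 4) (nat_lit 349) (nat_lit 224) (nat_lit 147))) (XT.nd (nat_lit 78) (nat_lit 0) (nat_lit 0) (XT.lf (nat_lit 0) (nat_lit 180263890428) (nat_lit 76) (nat_lit 61685864461) (nat_lit 76) (nat_lit 50052476375) (nat_lit 1) (nat_lit 4) (nat_lit 2) (nat_lit 5) (nat_lit 2) (nat_lit 4) (nat_lit 350) (nat_lit 224) (nat_lit 146)) (XT.nd (nat_lit 78) (nat_lit 0) (nat_lit 0) (XT.lf (nat_lit 0) (nat_lit 194163786177) (nat_lit 76) (nat_lit 61973733839) (nat_lit 76) (nat_lit 50327742241) (nat_lit 1) (nat_lit 4) (nat_lit 2) (nat_lit 5) (nat_lit 2) (nat_lit 4) (nat_lit 351) (nat_lit 224) (nat_lit 145)) (XT.lf (nat_lit 0) (nat_lit 208748990990) (nat_lit 76) (nat_lit 62280360227) (nat_lit 76) (nat_lit 50622365284) (nat_lit 1) (nat_lit 4) (nat_lit 2) (nat_lit 5) (nat_lit 2) (nat_lit 4) (nat_lit 352) (nat_lit 224) (nat_lit 144)))))) (XT.nd (nat_lit 312) (nat_lit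 0) (nat_lit 0) (XT.nd (nat_lit 156) (nat_lit 0) (nat_lit 0) (XT.nd (nat_lit 78) (nat_lit 0) (nat_lit 0) (XT.lf (nat_lit 0) (nat_lit 224054231546) (nat_lit 76) (nat_lit 62606473688) (nat_lit 76) (nat_lit 50937046987) (nat_lit 1) (nat_lit 4) (nat_lit 2) (nat_lit 5) (nat_lit 2) (nat_lit 4) (nat_lit 353) (nat_lit 224) (nat_lit 143)) (XT.lf (nat_lit 0) (nat_lit 240115948894) (nat_lit 76) (nat_lit 62952850681) (nat_lit 76) (nat_lit 51272536592) (nat_lit 1) (nat_lit 4) (nat_lit 2) (nat_lit 5) (nat_lit 2) (nat_lit 4) (nat_lit 354) (nat_lit 224) (nat_lit 142))) (XT.nd (nat_lit 78) (nat_lit 0) (nat_lit 0) (XT.lf (nat_lit 0) (nat_lit 256972385219) (nat_lit 76) (nat_lit 63320315914) (nat_lit 76) (nat_lit 51629632884) (nat_lit 1) (nat_lit 4) (nat_lit 2) (nat_lit 5) (nat_lit 2) (nat_lit 4) (nat_lit 355) (nat_lit 224) (nat_lit 141)) (XT.lf (nat_lit 0) (nat_lit 274663674892) (nat_lit 76) (nat_lit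 63709744305) (nat_lit 76) (nat_lit 52009186093) (nat_lit 1) (nat_lit 4) (nat_lit 2) (nat_lit 5) (nat_lit 2) (nat_lit 4) (nat_lit 356) (nat_lit 224) (nat_lit 140)))) (XT.nd (nat_lit 156) (nat_lit 0) (nat_lit 0) (XT.nd (nat_lit 78) (nat_lit 0) (nat_lit 0) (XT.lf (nat_lit 0) (nat_lit 293231940032) (nat_lit 76) (nat_lit 64122063063) (nat_lit 76) (nat_lit 52412099916) (nat_lit 1) (nat_lit 4) (nat_lit 2) (nat_lit 5) (nat_lit 2) (nat_lit 4) (nat_lit 357) (nat_lit 224) (nat_lit 139)) (XT.lf (nat_lit 0) (nat_lit 312721390794) (nat_lit 76) (nat_lit 64558253900) (nat_lit 76) (nat_lit 52839333672) (nat_lit 1) (nat_lit 4) (nat_lit 2) (nat_lit 5) (nat_lit 2) (nat_lit 4) (nat_lit 358) (nat_lit 224) (nat_lit 138))) (XT.nd (nat_lit 78) (nat_lit 0) (nat_lit 0) (XT.lf (nat_lit 0) (nat_lit 333178430631) (nat_lit 76) (nat_lit 65019355366) (nat_lit 76) (nat_lit 53291904585) (nat_lit 1) (nat_lit 4) (nat_lit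 2) (nat_lit 5) (nat_lit 2) (nat_lit 4) (nat_lit 359) (nat_lit 224) (nat_lit 137)) (XT.nd (nat_lit 78) (nat_lit 0) (nat_lit 0) (XT.lf (nat_lit 0) (nat_lit 354651766783) (nat_lit 76) (nat_lit 65506465321) (nat_lit 76) (nat_lit 53770890203) (nat_lit 1) (nat_lit 4) (nat_lit 2) (nat_lit 5) (nat_lit 2) (nat_lit 4) (nat_lit 360) (nat_lit 224) (nat_lit 136)) (XT.lf (nat_lit 0) (nat_lit 377192526239) (nat_lit 76) (nat_lit 66020743551) (nat_lit 76) (nat_lit 54277430970) (nat_lit 1) (nat_lit 4) (nat_lit 2) (nat_lit 5) (nat_lit 2) (nat_lit 4) (nat_lit 361) (nat_lit 224) (nat_lit 135))))))) (XT.nd (nat_lit 30732) (nat_lit 0) (nat_lit 1140) (XT.nd (nat_lit 30342) (nat_lit 0) (nat_lit 1824) (XT.nd (nat_lit 156) (nat_lit 0) (nat_lit 0) (XT.nd (nat_lit 78) (nat_lit 0) (nat_lit 0) (XT.lf (nat_lit 0) (nat_lit 400854377474) (nat_lit 76) (nat_lit 66563414528) (nat_lit 76) (nat_lit 54812732934) (nat_lit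 1) (nat_lit 4) (nat_lit 2) (nat_lit 5) (nat_lit 2) (nat_lit 4) (nat_lit 362) (nat_lit 224) (nat_lit 134)) (XT.lf (nat_lit 0) (nat_lit 425693658230) (nat_lit 76) (nat_lit 67135770326) (nat_lit 76) (nat_lit 55378070624) (nat_lit 1) (nat_lit 4) (nat_lit 2) (nat_lit 5) (nat_lit 2) (nat_lit 4) (nat_lit 363) (nat_lit 224) (nat_lit 133))) (XT.nd (nat_lit 78) (nat_lit 0) (nat_lit 0) (XT.lf (nat_lit 0) (nat_lit 451769509652) (nat_lit 76) (nat_lit 67739173696) (nat_lit 76) (nat_lit 55974790082) (nat_lit 1) (nat_lit 4) (nat_lit 2) (nat_lit 5) (nat_lit 2) (nat_lit 4) (nat_lit 364) (nat_lit 224) (nat_lit 132)) (XT.lf (nat_lit 0) (nat_lit 479144017098) (nat_lit 76) (nat_lit 68375061313) (nat_lit 76) (nat_lit 56604312069) (nat_lit 1) (nat_lit 4) (nat_lit 2) (nat_lit 5) (nat_lit 2) (nat_lit 4) (nat_lit 365) (nat_lit 224) (nat_lit 131)))) (XT.nd (nat_lit 156) (nat_lit 456) (nat_lit 0) (XT.nd (nat_lit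 78) (nat_lit 228) (nat_lit 0) (XT.lf (nat_lit 0) (nat_lit 3596894357) (nat_lit 228) (nat_lit 630053010) (nat_lit 228) (nat_lit 630053010) (nat_lit 34) (nat_lit 4) (nat_lit 37) (nat_lit 5) (nat_lit 37) (nat_lit 4) (nat_lit 270) (nat_lit 225) (nat_lit 225)) (XT.lf (nat_lit 0) (nat_lit 2184350615) (nat_lit 228) (nat_lit 6440122649) (nat_lit 0) (nat_lit 1347262222) (nat_lit 31) (nat_lit 5) (nat_lit 34) (nat_lit 4) (nat_lit 31) (nat_lit 4) (nat_lit 271) (nat_lit 225) (nat_lit 224))) (XT.nd (nat_lit 78) (nat_lit 456) (nat_lit 0) (XT.lf (nat_lit 0) (nat_lit 5683909451) (nat_lit 228) (nat_lit 511930685) (nat_lit 0) (nat_lit 4049594018) (nat_lit 31) (nat_lit 5) (nat_lit 34) (nat_lit 4) (nat_lit 31) (nat_lit 4) (nat_lit 272) (nat_lit 225) (nat_lit 223)) (XT.nd (nat_lit 78) (nat_lit 228) (nat_lit 0) (XT.lf (nat_lit 0) (nat_lit 5701617110) (nat_lit 228) (nat_lit 3613646405) (nat_lit 228) (nat_lit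 1220067123) (nat_lit 28) (nat_lit 4) (nat_lit 31) (nat_lit 5) (nat_lit 31) (nat_lit 4) (nat_lit 273) (nat_lit 225) (nat_lit 222)) (XT.lf (nat_lit 0) (nat_lit 1212170175) (nat_lit 152) (nat_lit 899467816) (nat_lit 228) (nat_lit 8731797360) (nat_lit 25) (nat_lit 5) (nat_lit 27) (nat_lit 5) (nat_lit 28) (nat_lit 4) (nat_lit 274) (nat_lit 225) (nat_lit 221)))))) (XT.nd (nat_lit 312) (nat_lit 304) (nat_lit 0) (XT.nd (nat_lit 156) (nat_lit 228) (nat_lit 0) (XT.nd (nat_lit 78) (nat_lit 152) (nat_lit 0) (XT.lf (nat_lit 0) (nat_lit 5553522667) (nat_lit 228) (nat_lit 3684130334) (nat_lit 0) (nat_lit 1929367998) (nat_lit 25) (nat_lit 5) (nat_lit 28) (nat_lit 4) (nat_lit 25) (nat_lit 4) (nat_lit 275) (nat_lit 225) (nat_lit 220)) (XT.lf (nat_lit 0) (nat_lit 2435326116) (nat_lit 152) (nat_lit 6662030502) (nat_lit 152) (nat_lit 2413227586) (nat_lit 23) (nat_lit 4) (nat_lit 25) (nat_lit 5) (nat_lit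 25) (nat_lit 4) (nat_lit 276) (nat_lit 225) (nat_lit 219))) (XT.nd (nat_lit 78) (nat_lit 152) (nat_lit 0) (XT.lf (nat_lit 0) (nat_lit 857974519) (nat_lit 228) (nat_lit 3084858243) (nat_lit 76) (nat_lit 7930955993) (nat_lit 22) (nat_lit 5) (nat_lit 25) (nat_lit 5) (nat_lit 23) (nat_lit 4) (nat_lit 277) (nat_lit 225) (nat_lit 218)) (XT.lf (nat_lit 0) (nat_lit 3083719396) (nat_lit 152) (nat_lit 1059695129) (nat_lit 228) (nat_lit 8113423452) (nat_lit 20) (nat_lit 5) (nat_lit 22) (nat_lit 5) (nat_lit 23) (nat_lit 4) (nat_lit 278) (nat_lit 225) (nat_lit 217)))) (XT.nd (nat_lit 156) (nat_lit 152) (nat_lit 0) (XT.nd (nat_lit 78) (nat_lit 152) (nat_lit 0) (XT.lf (nat_lit 0) (nat_lit 7562349073) (nat_lit 228) (nat_lit 3202667458) (nat_lit 0) (nat_lit 1895801432) (nat_lit 20) (nat_lit 5) (nat_lit 23) (nat_lit 4) (nat_lit 20) (nat_lit 4) (nat_lit 279) (nat_lit 225) (nat_lit 216)) (XT.lf (nat_lit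 0) (nat_lit 2970200059) (nat_lit 152) (nat_lit 8136635278) (nat_lit 152) (nat_lit 1980659390) (nat_lit 18) (nat_lit 4) (nat_lit 20) (nat_lit 5) (nat_lit 20) (nat_lit 4) (nat_lit 280) (nat_lit 225) (nat_lit 215))) (XT.nd (nat_lit 78) (nat_lit 76) (nat_lit 0) (XT.lf (nat_lit 0) (nat_lit 1198212341) (nat_lit 228) (nat_lit 4165762726) (nat_lit 76) (nat_lit 8173399837) (nat_lit 17) (nat_lit 5) (nat_lit 20) (nat_lit 5) (nat_lit 18) (nat_lit 4) (nat_lit 281) (nat_lit 225) (nat_lit 214)) (XT.nd (nat_lit 78) (nat_lit 0) (nat_lit 0) (XT.lf (nat_lit 0) (nat_lit 1946713924) (nat_lit 76) (nat_lit 2449743538) (nat_lit 152) (nat_lit 9615515469) (nat_lit 16) (nat_lit 5) (nat_lit 17) (nat_lit 5) (nat_lit 18) (nat_lit 4) (nat_lit 282) (nat_lit 225) (nat_lit 213)) (XT.lf (nat_lit 0) (nat_lit 7733833813) (nat_lit 152) (nat_lit 6176060262) (nat_lit 0) (nat_lit 601633436) (nat_lit 16) (nat_lit 5) (nat_lit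 18) (nat_lit 4) (nat_lit 16) (nat_lit 4) (nat_lit 283) (nat_lit 225) (nat_lit 212))))))))
noncomputable def xc65 : XT := (XT.nd (nat_lit 1404) (nat_lit 304) (nat_lit 0) (XT.nd (nat_lit 702) (nat_lit 228) (nat_lit 0) (XT.nd (nat_lit 312) (nat_lit 228) (nat_lit 0) (XT.nd (nat_lit 156) (nat_lit 152) (nat_lit 0) (XT.nd (nat_lit 78) (nat_lit 152) (nat_lit 0) (XT.lf (nat_lit 0) (nat_lit 11181082801) (nat_lit 152) (nat_lit 192602907) (nat_lit 0) (nat_lit 3665402587) (nat_lit 16) (nat_lit 5) (nat_lit 18) (nat_lit 4) (nat_lit 16) (nat_lit 4) (nat_lit 284) (nat_lit 225) (nat_lit 211)) (XT.lf (nat_lit 0) (nat_lit 6133930841) (nat_lit 152) (nat_lit 8670001811) (nat_lit 152) (nat_lit 789102703) (nat_lit 14) (nat_lit 4) (nat_lit 16) (nat_lit 5) (nat_lit 16) (nat_lit 4) (nat_lit 285) (nat_lit 225) (nat_lit 210))) (XT.nd (nat_lit 78) (nat_lit 76) (nat_lit 0) (XT.lf (nat_lit 0) (nat_lit 2266576980)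 (nat_lit 228) (nat_lit 3582243815) (nat_lit 76) (nat_lit 10328553286) (nat_lit 13) (nat_lit 5) (nat_lit 16) (nat_lit 5) (nat_lit 14) (nat_lit 4) (nat_lit 286) (nat_lit 225) (nat_lit 209)) (XT.lf (nat_lit 0) (nat_lit 2509990709) (nat_lit 76) (nat_lit 2890000332) (nat_lit 152) (nat_lit 11392865414) (nat_lit 12) (nat_lit 5) (nat_lit 13) (nat_lit 5) (nat_lit 14) (nat_lit 4) (nat_lit 287) (nat_lit 225) (nat_lit 208)))) (XT.nd (nat_lit 156) (nat_lit 228) (nat_lit 0) (XT.nd (nat_lit 78) (nat_lit 0) (nat_lit 0) (XT.lf (nat_lit 0) (nat_lit 8668438068) (nat_lit 152) (nat_lit 8556297487) (nat_lit 0) (nat_lit 215599269) (nat_lit 12) (nat_lit 5) (nat_lit 14) (nat_lit 4) (nat_lit 12) (nat_lit 4) (nat_lit 288) (nat_lit 225) (nat_lit 207)) (XT.lf (nat_lit 0) (nat_lit 12065128727) (nat_lit 152) (nat_lit 2730819276) (nat_lit 0) (nat_lit 3326131370) (nat_lit 12) (nat_lit 5) (nat_lit 14) (nat_lit 4) (nat_lit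 12) (nat_lit 4) (nat_lit 289) (nat_lit 225) (nat_lit 206))) (XT.nd (nat_lit 78) (nat_lit 76) (nat_lit 0) (XT.lf (nat_lit 0) (nat_lit 3360104402) (nat_lit 152) (nat_lit 12245385618) (nat_lit 152) (nat_lit 3233856299) (nat_lit 10) (nat_lit 4) (nat_lit 12) (nat_lit 5) (nat_lit 12) (nat_lit 4) (nat_lit 290) (nat_lit 225) (nat_lit 205)) (XT.nd (nat_lit 78) (nat_lit 76) (nat_lit 0) (XT.lf (nat_lit 0) (nat_lit 9719160550) (nat_lit 152) (nat_lit 9573027317) (nat_lit 152) (nat_lit 301943749) (nat_lit 10) (nat_lit 4) (nat_lit 12) (nat_lit 5) (nat_lit 12) (nat_lit 4) (nat_lit 291) (nat_lit 225) (nat_lit 204)) (XT.lf (nat_lit 0) (nat_lit 2613118502) (nat_lit 228) (nat_lit 4161385160) (nat_lit 76) (nat_lit 13613823630) (nat_lit 9) (nat_lit 5) (nat_lit 12) (nat_lit 5) (nat_lit 10) (nat_lit 4) (nat_lit 292) (nat_lit 225) (nat_lit 203)))))) (XT.nd (nat_lit 312) (nat_lit 152) (nat_lit 0) (XT.nd (nat_lit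 156) (nat_lit 0) (nat_lit 0) (XT.nd (nat_lit 78) (nat_lit 0) (nat_lit 0) (XT.lf (nat_lit 0) (nat_lit 1768043790) (nat_lit 76) (nat_lit 3852319739) (nat_lit 152) (nat_lit 15603897344) (nat_lit 8) (nat_lit 5) (nat_lit 9) (nat_lit 5) (nat_lit 10) (nat_lit 4) (nat_lit 293) (nat_lit 225) (nat_lit 202)) (XT.lf (nat_lit 0) (nat_lit 8018902560) (nat_lit 76) (nat_lit 760032427) (nat_lit 152) (nat_lit 13323107425) (nat_lit 8) (nat_lit 5) (nat_lit 9) (nat_lit 5) (nat_lit 10) (nat_lit 4) (nat_lit 294) (nat_lit 225) (nat_lit 201))) (XT.nd (nat_lit 78) (nat_lit 0) (nat_lit 0) (XT.lf (nat_lit 0) (nat_lit 12067317631) (nat_lit 152) (nat_lit 8596721325) (nat_lit 0) (nat_lit 2361174691) (nat_lit 8) (nat_lit 5) (nat_lit 10) (nat_lit 4) (nat_lit 8) (nat_lit 4) (nat_lit 295) (nat_lit 225) (nat_lit 200)) (XT.lf (nat_lit 0) (nat_lit 15468822398) (nat_lit 152) (nat_lit 2959380055) (nat_lit 0) (nat_lit 5568996082)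 (nat_lit 8) (nat_lit 5) (nat_lit 10) (nat_lit 4) (nat_lit 8) (nat_lit 4) (nat_lit 296) (nat_lit 225) (nat_lit 199)))) (XT.nd (nat_lit 156) (nat_lit 76) (nat_lit 0) (XT.nd (nat_lit 78) (nat_lit 0) (nat_lit 0) (XT.lf (nat_lit 0) (nat_lit 2948544265) (nat_lit 76) (nat_lit 16077172646) (nat_lit 76) (nat_lit 5992885971) (nat_lit 7) (nat_lit 4) (nat_lit 8) (nat_lit 5) (nat_lit 8) (nat_lit 4) (nat_lit 297) (nat_lit 225) (nat_lit 198)) (XT.lf (nat_lit 0) (nat_lit 9150656079) (nat_lit 76) (nat_lit 13600466551) (nat_lit 76) (nat_lit 3340503343) (nat_lit 7) (nat_lit 4) (nat_lit 8) (nat_lit 5) (nat_lit 8) (nat_lit 4) (nat_lit 298) (nat_lit 225) (nat_lit 197))) (XT.nd (nat_lit 78) (nat_lit 76) (nat_lit 0) (XT.lf (nat_lit 0) (nat_lit 15563871849) (nat_lit 76) (nat_lit 11042305781) (nat_lit 76) (nat_lit 615031590) (nat_lit 7) (nat_lit 4) (nat_lit 8) (nat_lit 5) (nat_lit 8) (nat_lit 4) (nat_lit 299)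 (nat_lit 225) (nat_lit 196)) (XT.nd (nat_lit 78) (nat_lit 0) (nat_lit 0) (XT.lf (nat_lit 0) (nat_lit 2119924236) (nat_lit 152) (nat_lit 6240773298) (nat_lit 76) (nat_lit 20047634957) (nat_lit 6) (nat_lit 5) (nat_lit 8) (nat_lit 5) (nat_lit 7) (nat_lit 4) (nat_lit 300) (nat_lit 225) (nat_lit 195)) (XT.lf (nat_lit 0) (nat_lit 4918691482) (nat_lit 152) (nat_lit 655056437) (nat_lit 76) (nat_lit 24083240584) (nat_lit 6) (nat_lit 5) (nat_lit 8) (nat_lit 5) (nat_lit 7) (nat_lit 4) (nat_lit 301) (nat_lit 225) (nat_lit 194))))))) (XT.nd (nat_lit 702) (nat_lit 152) (nat_lit 0) (XT.nd (nat_lit 312) (nat_lit 76) (nat_lit 0) (XT.nd (nat_lit 156) (nat_lit 0) (nat_lit 0) (XT.nd (nat_lit 78) (nat_lit 0) (nat_lit 0) (XT.lf (nat_lit 0) (nat_lit 5292094993) (nat_lit 76) (nat_lit 2598148171) (nat_lit 152) (nat_lit 23076255979) (nat_lit 5) (nat_lit 5) (nat_lit 6) (nat_lit 5) (nat_lit 7) (nat_lit 4) (nat_lit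 302) (nat_lit 225) (nat_lit 193)) (XT.lf (nat_lit 0) (nat_lit 10980537152) (nat_lit 152) (nat_lit 20877726380) (nat_lit 0) (nat_lit 484774624) (nat_lit 5) (nat_lit 5) (nat_lit 7) (nat_lit 4) (nat_lit 5) (nat_lit 4) (nat_lit 303) (nat_lit 225) (nat_lit 192))) (XT.nd (nat_lit 78) (nat_lit 0) (nat_lit 0) (XT.lf (nat_lit 0) (nat_lit 14220960538) (nat_lit 152) (nat_lit 15967373037) (nat_lit 0) (nat_lit 3600347978) (nat_lit 5) (nat_lit 5) (nat_lit 7) (nat_lit 4) (nat_lit 5) (nat_lit 4) (nat_lit 304) (nat_lit 225) (nat_lit 191)) (XT.lf (nat_lit 0) (nat_lit 17578664241) (nat_lit 152) (nat_lit 10891088432) (nat_lit 0) (nat_lit 6839146889) (nat_lit 5) (nat_lit 5) (nat_lit 7) (nat_lit 4) (nat_lit 5) (nat_lit 4) (nat_lit 305) (nat_lit 225) (nat_lit 190)))) (XT.nd (nat_lit 156) (nat_lit 76) (nat_lit 0) (XT.nd (nat_lit 78) (nat_lit 0) (nat_lit 0) (XT.lf (nat_lit 0) (nat_lit 21061642794) (nat_lit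 152) (nat_lit 5636786172) (nat_lit 0) (nat_lit 10208882783) (nat_lit 5) (nat_lit 5) (nat_lit 7) (nat_lit 4) (nat_lit 5) (nat_lit 4) (nat_lit 306) (nat_lit 225) (nat_lit 189)) (XT.lf (nat_lit 0) (nat_lit 24678189002) (nat_lit 152) (nat_lit 191956014) (nat_lit 0) (nat_lit 13717578840) (nat_lit 5) (nat_lit 5) (nat_lit 7) (nat_lit 4) (nat_lit 5) (nat_lit 4) (nat_lit 307) (nat_lit 225) (nat_lit 188))) (XT.nd (nat_lit 78) (nat_lit 0) (nat_lit 0) (XT.lf (nat_lit 0) (nat_lit 5636778021) (nat_lit 76) (nat_lit 22888141572) (nat_lit 76) (nat_lit 11824816980) (nat_lit 4) (nat_lit 4) (nat_lit 5) (nat_lit 5) (nat_lit 5) (nat_lit 4) (nat_lit 308) (nat_lit 225) (nat_lit 187)) (XT.nd (nat_lit 78) (nat_lit 0) (nat_lit 0) (XT.lf (nat_lit 0) (nat_lit 11695972177) (nat_lit 76) (nat_lit 20833400932) (nat_lit 76) (nat_lit 9672253073) (nat_lit 4) (nat_lit 4) (nat_lit 5) (nat_lit 5) (nat_lit 5) (nat_lit 4)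 (nat_lit 309) (nat_lit 225) (nat_lit 186)) (XT.lf (nat_lit 0) (nat_lit 17993706172) (nat_lit 76) (nat_lit 18704281725) (nat_lit 76) (nat_lit 7449968850) (nat_lit 4) (nat_lit 4) (nat_lit 5) (nat_lit 5) (nat_lit 5) (nat_lit 4) (nat_lit 310) (nat_lit 225) (nat_lit 185)))))) (XT.nd (nat_lit 312) (nat_lit 76) (nat_lit 0) (XT.nd (nat_lit 156) (nat_lit 76) (nat_lit 0) (XT.nd (nat_lit 78) (nat_lit 0) (nat_lit 0) (XT.lf (nat_lit 0) (nat_lit 24544974611) (nat_lit 76) (nat_lit 16495714620) (nat_lit 76) (nat_lit 5152673159) (nat_lit 4) (nat_lit 4) (nat_lit 5) (nat_lit 5) (nat_lit 5) (nat_lit 4) (nat_lit 311) (nat_lit 225) (nat_lit 184)) (XT.lf (nat_lit 0) (nat_lit 31365375752) (nat_lit 76) (nat_lit 14202441123) (nat_lit 76) (nat_lit 2774896247) (nat_lit 4) (nat_lit 4) (nat_lit 5) (nat_lit 5) (nat_lit 5) (nat_lit 4) (nat_lit 312) (nat_lit 225) (nat_lit 183))) (XT.nd (nat_lit 78) (nat_lit 76) (nat_lit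 0) (XT.lf (nat_lit 0) (nat_lit 38471148646) (nat_lit 76) (nat_lit 11819001061) (nat_lit 76) (nat_lit 310976741) (nat_lit 4) (nat_lit 4) (nat_lit 5) (nat_lit 5) (nat_lit 5) (nat_lit 4) (nat_lit 313) (nat_lit 225) (nat_lit 182)) (XT.lf (nat_lit 0) (nat_lit 2173099354) (nat_lit 152) (nat_lit 7129817732) (nat_lit 76) (nat_lit 43669309956) (nat_lit 3) (nat_lit 5) (nat_lit 5) (nat_lit 5) (nat_lit 4) (nat_lit 4) (nat_lit 314) (nat_lit 225) (nat_lit 181)))) (XT.nd (nat_lit 156) (nat_lit 0) (nat_lit 0) (XT.nd (nat_lit 78) (nat_lit 76) (nat_lit 0) (XT.lf (nat_lit 0) (nat_lit 4742177225) (nat_lit 152) (nat_lit 1936205324) (nat_lit 76) (nat_lit 48784715167) (nat_lit 3) (nat_lit 5) (nat_lit 5) (nat_lit 5) (nat_lit 4) (nat_lit 4) (nat_lit 315) (nat_lit 225) (nat_lit 180)) (XT.lf (nat_lit 0) (nat_lit 3582750782) (nat_lit 76) (nat_lit 3885512918) (nat_lit 152) (nat_lit 50608851335) (nat_lit 2) (nat_lit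 5) (nat_lit 3) (nat_lit 5) (nat_lit 4) (nat_lit 4) (nat_lit 316) (nat_lit 225) (nat_lit 179))) (XT.nd (nat_lit 78) (nat_lit 0) (nat_lit 0) (XT.lf (nat_lit 0) (nat_lit 9396658492) (nat_lit 76) (nat_lit 939955622) (nat_lit 152) (nat_lit 50484950506) (nat_lit 2) (nat_lit 5) (nat_lit 3) (nat_lit 5) (nat_lit 4) (nat_lit 4) (nat_lit 317) (nat_lit 225) (nat_lit 178)) (XT.nd (nat_lit 78) (nat_lit 0) (nat_lit 0) (XT.lf (nat_lit 0) (nat_lit 13356123241) (nat_lit 152) (nat_lit 48282496068) (nat_lit 0) (nat_lit 2064258295) (nat_lit 2) (nat_lit 5) (nat_lit 4) (nat_lit 4) (nat_lit 2) (nat_lit 4) (nat_lit 318) (nat_lit 225) (nat_lit 177)) (XT.lf (nat_lit 0) (nat_lit 16517377607) (nat_lit 152) (nat_lit 45043049365) (nat_lit 0) (nat_lit 5168317424) (nat_lit 2) (nat_lit 5) (nat_lit 4) (nat_lit 4) (nat_lit 2) (nat_lit 4) (nat_lit 319) (nat_lit 225) (nat_lit 176))))))))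
noncomputable def xc66 : XT := (XT.nd (nat_lit 1404) (nat_lit 0) (nat_lit 0) (XT.nd (nat_lit 702) (nat_lit 76) (nat_lit 0) (XT.nd (nat_lit 312) (nat_lit 0) (nat_lit 0) (XT.nd (nat_lit 156) (nat_lit 0) (nat_lit 0) (XT.nd (nat_lit 78) (nat_lit 0) (nat_lit 0) (XT.lf (nat_lit 0) (nat_lit 19813228669) (nat_lit 152) (nat_lit 41684177708) (nat_lit 0) (nat_lit 8409696830) (nat_lit 2) (nat_lit 5) (nat_lit 4) (nat_lit 4) (nat_lit 2) (nat_lit 4) (nat_lit 320) (nat_lit 225) (nat_lit 175)) (XT.lf (nat_lit 0) (nat_lit 23251523690) (nat_lit 152) (nat_lit 38197883785) (nat_lit 0) (nat_lit 11796114084) (nat_lit 2) (nat_lit 5) (nat_lit 4) (nat_lit 4) (nat_lit 2) (nat_lit 4) (nat_lit 321) (nat_lit 225) (nat_lit 174))) (XT.nd (nat_lit 78) (nat_lit 0) (nat_lit 0) (XT.lf (nat_lit 0) (nat_lit 26840449087) (nat_lit 152) (nat_lit 34575866896) (nat_lit 0) (nat_lit 15335632084) (nat_lit 2) (nat_lit 5) (nat_lit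 4) (nat_lit 4) (nat_lit 2) (nat_lit 4) (nat_lit 322) (nat_lit 225) (nat_lit 173)) (XT.lf (nat_lit 0) (nat_lit 30588549921) (nat_lit 152) (nat_lit 30809503190) (nat_lit 0) (nat_lit 19036678254) (nat_lit 2) (nat_lit 5) (nat_lit 4) (nat_lit 4) (nat_lit 2) (nat_lit 4) (nat_lit 323) (nat_lit 225) (nat_lit 172)))) (XT.nd (nat_lit 156) (nat_lit 0) (nat_lit 0) (XT.nd (nat_lit 78) (nat_lit 0) (nat_lit 0) (XT.lf (nat_lit 0) (nat_lit 34504750241) (nat_lit 152) (nat_lit 26889825136) (nat_lit 0) (nat_lit 22908064608) (nat_lit 2) (nat_lit 5) (nat_lit 4) (nat_lit 4) (nat_lit 2) (nat_lit 4) (nat_lit 324) (nat_lit 225) (nat_lit 171)) (XT.lf (nat_lit 0) (nat_lit 38598374333) (nat_lit 152) (nat_lit 22807500166) (nat_lit 0) (nat_lit 26959008734) (nat_lit 2) (nat_lit 5) (nat_lit 4) (nat_lit 4) (nat_lit 2) (nat_lit 4) (nat_lit 325) (nat_lit 225) (nat_lit 170))) (XT.nd (nat_lit 78) (nat_lit 0) (nat_lit 0)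 (XT.lf (nat_lit 0) (nat_lit 42879168922) (nat_lit 152) (nat_lit 18552808459) (nat_lit 0) (nat_lit 31199155735) (nat_lit 2) (nat_lit 5) (nat_lit 4) (nat_lit 4) (nat_lit 2) (nat_lit 4) (nat_lit 326) (nat_lit 225) (nat_lit 169)) (XT.nd (nat_lit 78) (nat_lit 0) (nat_lit 0) (XT.lf (nat_lit 0) (nat_lit 47357326377) (nat_lit 152) (nat_lit 14115619797) (nat_lit 0) (nat_lit 35638601201) (nat_lit 2) (nat_lit 5) (nat_lit 4) (nat_lit 4) (nat_lit 2) (nat_lit 4) (nat_lit 327) (nat_lit 225) (nat_lit 168)) (XT.lf (nat_lit 0) (nat_lit 52043508975) (nat_lit 152) (nat_lit 9485369444) (nat_lit 0) (nat_lit 40287915239) (nat_lit 2) (nat_lit 5) (nat_lit 4) (nat_lit 4) (nat_lit 2) (nat_lit 4) (nat_lit 328) (nat_lit 225) (nat_lit 167)))))) (XT.nd (nat_lit 312) (nat_lit 0) (nat_lit 0) (XT.nd (nat_lit 156) (nat_lit 0) (nat_lit 0) (XT.nd (nat_lit 78) (nat_lit 76) (nat_lit 0) (XT.lf (nat_lit 0) (nat_lit 56948874296)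 (nat_lit 152) (nat_lit 4651032996) (nat_lit 0) (nat_lit 45158167645) (nat_lit 2) (nat_lit 5) (nat_lit 4) (nat_lit 4) (nat_lit 2) (nat_lit 4) (nat_lit 329) (nat_lit 225) (nat_lit 166)) (XT.lf (nat_lit 0) (nat_lit 412089303) (nat_lit 76) (nat_lit 61679446345) (nat_lit 76) (nat_lit 49855298823) (nat_lit 1) (nat_lit 4) (nat_lit 2) (nat_lit 5) (nat_lit 2) (nat_lit 4) (nat_lit 330) (nat_lit 225) (nat_lit 165))) (XT.nd (nat_lit 78) (nat_lit 0) (nat_lit 0) (XT.lf (nat_lit 0) (nat_lit 5864141977) (nat_lit 76) (nat_lit 61691834253) (nat_lit 76) (nat_lit 49835838283) (nat_lit 1) (nat_lit 4) (nat_lit 2) (nat_lit 5) (nat_lit 2) (nat_lit 4) (nat_lit 331) (nat_lit 225) (nat_lit 164)) (XT.lf (nat_lit 0) (nat_lit 11564321946) (nat_lit 76) (nat_lit 61715868006) (nat_lit 76) (nat_lit 49829540180) (nat_lit 1) (nat_lit 4) (nat_lit 2) (nat_lit 5) (nat_lit 2) (nat_lit 4) (nat_lit 332) (nat_lit 225) (nat_lit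 163)))) (XT.nd (nat_lit 156) (nat_lit 0) (nat_lit 0) (XT.nd (nat_lit 78) (nat_lit 0) (nat_lit 0) (XT.lf (nat_lit 0) (nat_lit 17526201068) (nat_lit 76) (nat_lit 61751604828) (nat_lit 76) (nat_lit 49836389520) (nat_lit 1) (nat_lit 4) (nat_lit 2) (nat_lit 5) (nat_lit 2) (nat_lit 4) (nat_lit 333) (nat_lit 225) (nat_lit 162)) (XT.lf (nat_lit 0) (nat_lit 23763974293) (nat_lit 76) (nat_lit 61799129805) (nat_lit 76) (nat_lit 49856402610) (nat_lit 1) (nat_lit 4) (nat_lit 2) (nat_lit 5) (nat_lit 2) (nat_lit 4) (nat_lit 334) (nat_lit 225) (nat_lit 161))) (XT.nd (nat_lit 78) (nat_lit 0) (nat_lit 0) (XT.lf (nat_lit 0) (nat_lit 30292493462) (nat_lit 76) (nat_lit 61858556093) (nat_lit 76) (nat_lit 49889627100) (nat_lit 1) (nat_lit 4) (nat_lit 2) (nat_lit 5) (nat_lit 2) (nat_lit 4) (nat_lit 335) (nat_lit 225) (nat_lit 160)) (XT.nd (nat_lit 78) (nat_lit 0) (nat_lit 0) (XT.lf (nat_lit 0) (nat_lit 37127302668)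 (nat_lit 76) (nat_lit 61930025182) (nat_lit 76) (nat_lit 49936142097) (nat_lit 1) (nat_lit 4) (nat_lit 2) (nat_lit 5) (nat_lit 2) (nat_lit 4) (nat_lit 336) (nat_lit 225) (nat_lit 159)) (XT.lf (nat_lit 0) (nat_lit 44284675267) (nat_lit 76) (nat_lit 62013707238) (nat_lit 76) (nat_lit 49996058350) (nat_lit 1) (nat_lit 4) (nat_lit 2) (nat_lit 5) (nat_lit 2) (nat_lit 4) (nat_lit 337) (nat_lit 225) (nat_lit 158))))))) (XT.nd (nat_lit 702) (nat_lit 0) (nat_lit 0) (XT.nd (nat_lit 312) (nat_lit 0) (nat_lit 0) (XT.nd (nat_lit 156) (nat_lit 0) (nat_lit 0) (XT.nd (nat_lit 78) (nat_lit 0) (nat_lit 0) (XT.lf (nat_lit 0) (nat_lit 51781652622) (nat_lit 76) (nat_lit 62109801503) (nat_lit 76) (nat_lit 50069518517) (nat_lit 1) (nat_lit 4) (nat_lit 2) (nat_lit 5) (nat_lit 2) (nat_lit 4) (nat_lit 338) (nat_lit 225) (nat_lit 157)) (XT.lf (nat_lit 0) (nat_lit 59636084678) (nat_lit 76) (nat_lit 62218536773)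 (nat_lit 76) (nat_lit 50156697504) (nat_lit 1) (nat_lit 4) (nat_lit 2) (nat_lit 5) (nat_lit 2) (nat_lit 4) (nat_lit 339) (nat_lit 225) (nat_lit 156))) (XT.nd (nat_lit 78) (nat_lit 0) (nat_lit 0) (XT.lf (nat_lit 0) (nat_lit 67866672466) (nat_lit 76) (nat_lit 62340171942) (nat_lit 76) (nat_lit 50257802878) (nat_lit 1) (nat_lit 4) (nat_lit 2) (nat_lit 5) (nat_lit 2) (nat_lit 4) (nat_lit 340) (nat_lit 225) (nat_lit 155)) (XT.lf (nat_lit 0) (nat_lit 76493012621) (nat_lit 76) (nat_lit 62474996617) (nat_lit 76) (nat_lit 50373075369) (nat_lit 1) (nat_lit 4) (nat_lit 2) (nat_lit 5) (nat_lit 2) (nat_lit 4) (nat_lit 341) (nat_lit 225) (nat_lit 154)))) (XT.nd (nat_lit 156) (nat_lit 0) (nat_lit 0) (XT.nd (nat_lit 78) (nat_lit 0) (nat_lit 0) (XT.lf (nat_lit 0) (nat_lit 85535644050) (nat_lit 76) (nat_lit 62623331809) (nat_lit 76) (nat_lit 50502789432) (nat_lit 1) (nat_lit 4) (nat_lit 2) (nat_lit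 5) (nat_lit 2) (nat_lit 4) (nat_lit 342) (nat_lit 225) (nat_lit 153)) (XT.lf (nat_lit 0) (nat_lit 95016096827) (nat_lit 76) (nat_lit 62785530697) (nat_lit 76) (nat_lit 50647253913) (nat_lit 1) (nat_lit 4) (nat_lit 2) (nat_lit 5) (nat_lit 2) (nat_lit 4) (nat_lit 343) (nat_lit 225) (nat_lit 152))) (XT.nd (nat_lit 78) (nat_lit 0) (nat_lit 0) (XT.lf (nat_lit 0) (nat_lit 104956943459) (nat_lit 76) (nat_lit 62961979470) (nat_lit 76) (nat_lit 50806812773) (nat_lit 1) (nat_lit 4) (nat_lit 2) (nat_lit 5) (nat_lit 2) (nat_lit 4) (nat_lit 344) (nat_lit 225) (nat_lit 151)) (XT.nd (nat_lit 78) (nat_lit 0) (nat_lit 0) (XT.lf (nat_lit 0) (nat_lit 115381852628) (nat_lit 76) (nat_lit 63153098243) (nat_lit 76) (nat_lit 50981845915) (nat_lit 1) (nat_lit 4) (nat_lit 2) (nat_lit 5) (nat_lit 2) (nat_lit 4) (nat_lit 345) (nat_lit 225) (nat_lit 150)) (XT.lf (nat_lit 0) (nat_lit 126315645547) (nat_lit 76)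 (nat_lit 63359342061) (nat_lit 76) (nat_lit 51172770085) (nat_lit 1) (nat_lit 4) (nat_lit 2) (nat_lit 5) (nat_lit 2) (nat_lit 4) (nat_lit 346) (nat_lit 225) (nat_lit 149)))))) (XT.nd (nat_lit 312) (nat_lit 0) (nat_lit 0) (XT.nd (nat_lit 156) (nat_lit 0) (nat_lit 0) (XT.nd (nat_lit 78) (nat_lit 0) (nat_lit 0) (XT.lf (nat_lit 0) (nat_lit 137784355055) (nat_lit 76) (nat_lit 63581201980) (nat_lit 76) (nat_lit 51380039863) (nat_lit 1) (nat_lit 4) (nat_lit 2) (nat_lit 5) (nat_lit 2) (nat_lit 4) (nat_lit 347) (nat_lit 225) (nat_lit 148)) (XT.lf (nat_lit 0) (nat_lit 149815287605) (nat_lit 76) (nat_lit 63819206239) (nat_lit 76) (nat_lit 51604148749) (nat_lit 1) (nat_lit 4) (nat_lit 2) (nat_lit 5) (nat_lit 2) (nat_lit 4) (nat_lit 348) (nat_lit 225) (nat_lit 147))) (XT.nd (nat_lit 78) (nat_lit 0) (nat_lit 0) (XT.lf (nat_lit 0) (nat_lit 162437088273) (nat_lit 76) (nat_lit 64073921514) (nat_lit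 76) (nat_lit 51845630336) (nat_lit 1) (nat_lit 4) (nat_lit 2) (nat_lit 5) (nat_lit 2) (nat_lit 4) (nat_lit 349) (nat_lit 225) (nat_lit 146)) (XT.lf (nat_lit 0) (nat_lit 175679808967) (nat_lit 76) (nat_lit 64345954271) (nat_lit 76) (nat_lit 52105059580) (nat_lit 1) (nat_lit 4) (nat_lit 2) (nat_lit 5) (nat_lit 2) (nat_lit 4) (nat_lit 350) (nat_lit 225) (nat_lit 145)))) (XT.nd (nat_lit 156) (nat_lit 0) (nat_lit 0) (XT.nd (nat_lit 78) (nat_lit 0) (nat_lit 0) (XT.lf (nat_lit 0) (nat_lit 189574979972) (nat_lit 76) (nat_lit 64635952206) (nat_lit 76) (nat_lit 52383054170) (nat_lit 1) (nat_lit 4) (nat_lit 2) (nat_lit 5) (nat_lit 2) (nat_lit 4) (nat_lit 351) (nat_lit 225) (nat_lit 144)) (XT.lf (nat_lit 0) (nat_lit 204155685030) (nat_lit 76) (nat_lit 64944605791) (nat_lit 76) (nat_lit 52680275997) (nat_lit 1) (nat_lit 4) (nat_lit 2) (nat_lit 5) (nat_lit 2) (nat_lit 4) (nat_lit 352) (nat_lit 225)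 (nat_lit 143))) (XT.nd (nat_lit 78) (nat_lit 0) (nat_lit 0) (XT.lf (nat_lit 0) (nat_lit 219456640106) (nat_lit 76) (nat_lit 65272649914) (nat_lit 76) (nat_lit 52997432733) (nat_lit 1) (nat_lit 4) (nat_lit 2) (nat_lit 5) (nat_lit 2) (nat_lit 4) (nat_lit 353) (nat_lit 225) (nat_lit 142)) (XT.nd (nat_lit 78) (nat_lit 0) (nat_lit 0) (XT.lf (nat_lit 0) (nat_lit 235514276044) (nat_lit 76) (nat_lit 65620865635) (nat_lit 76) (nat_lit 53335279512) (nat_lit 1) (nat_lit 4) (nat_lit 2) (nat_lit 5) (nat_lit 2) (nat_lit 4) (nat_lit 354) (nat_lit 225) (nat_lit 141)) (XT.lf (nat_lit 0) (nat_lit 252366825311) (nat_lit 76) (nat_lit 65990082036) (nat_lit 76) (nat_lit 53694620732) (nat_lit 1) (nat_lit 4) (nat_lit 2) (nat_lit 5) (nat_lit 2) (nat_lit 4) (nat_lit 355) (nat_lit 225) (nat_lit 140))))))))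
noncomputable def xc67 : XT := (XT.nd (nat_lit 31278) (nat_lit 0) (nat_lit 608) (XT.nd (nat_lit 702) (nat_lit 0) (nat_lit 0) (XT.nd (nat_lit 312) (nat_lit 0) (nat_lit 0) (XT.nd (nat_lit 156) (nat_lit 0) (nat_lit 0) (XT.nd (nat_lit 78) (nat_lit 0) (nat_lit 0) (XT.lf (nat_lit 0) (nat_lit 270054413025) (nat_lit 76) (nat_lit 66381178207) (nat_lit 76) (nat_lit 54076311967) (nat_lit 1) (nat_lit 4) (nat_lit 2) (nat_lit 5) (nat_lit 2) (nat_lit 4) (nat_lit 356) (nat_lit 225) (nat_lit 139)) (XT.lf (nat_lit 0) (nat_lit 288619152489) (nat_lit 76) (nat_lit 66795085326) (nat_lit 76) (nat_lit 54481262005) (nat_lit 1) (nat_lit 4) (nat_lit 2) (nat_lit 5) (nat_lit 2) (nat_lit 4) (nat_lit 357) (nat_lit 225) (nat_lit 138))) (XT.nd (nat_lit 78) (nat_lit 0) (nat_lit 0) (XT.lf (nat_lit 0) (nat_lit 308105245464) (nat_lit 76) (nat_lit 67232788889) (nat_lit 76) (nat_lit 54910435015) (nat_lit 1) (nat_lit 4)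 (nat_lit 2) (nat_lit 5) (nat_lit 2) (nat_lit 4) (nat_lit 358) (nat_lit 225) (nat_lit 137)) (XT.lf (nat_lit 0) (nat_lit 328559087410) (nat_lit 76) (nat_lit 67695331045) (nat_lit 76) (nat_lit 55364852835) (nat_lit 1) (nat_lit 4) (nat_lit 2) (nat_lit 5) (nat_lit 2) (nat_lit 4) (nat_lit 359) (nat_lit 225) (nat_lit 136)))) (XT.nd (nat_lit 156) (nat_lit 0) (nat_lit 0) (XT.nd (nat_lit 78) (nat_lit 0) (nat_lit 0) (XT.lf (nat_lit 0) (nat_lit 350029377950) (nat_lit 76) (nat_lit 68183813087) (nat_lit 76) (nat_lit 55845597413) (nat_lit 1) (nat_lit 4) (nat_lit 2) (nat_lit 5) (nat_lit 2) (nat_lit 4) (nat_lit 360) (nat_lit 225) (nat_lit 135)) (XT.lf (nat_lit 0) (nat_lit 372567236824) (nat_lit 76) (nat_lit 68699398066) (nat_lit 76) (nat_lit 56353813379) (nat_lit 1) (nat_lit 4) (nat_lit 2) (nat_lit 5) (nat_lit 2) (nat_lit 4) (nat_lit 361) (nat_lit 225) (nat_lit 134))) (XT.nd (nat_lit 78) (nat_lit 0)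 (nat_lit 0) (XT.lf (nat_lit 0) (nat_lit 396226325601) (nat_lit 76) (nat_lit 69243313566) (nat_lit 76) (nat_lit 56890710771) (nat_lit 1) (nat_lit 4) (nat_lit 2) (nat_lit 5) (nat_lit 2) (nat_lit 4) (nat_lit 362) (nat_lit 225) (nat_lit 133)) (XT.nd (nat_lit 78) (nat_lit 0) (nat_lit 0) (XT.lf (nat_lit 0) (nat_lit 421062975443) (nat_lit 76) (nat_lit 69816854623) (nat_lit 76) (nat_lit 57457567917) (nat_lit 1) (nat_lit 4) (nat_lit 2) (nat_lit 5) (nat_lit 2) (nat_lit 4) (nat_lit 363) (nat_lit 225) (nat_lit 132)) (XT.lf (nat_lit 0) (nat_lit 447136321232) (nat_lit 76) (nat_lit 70421386812) (nat_lit 76) (nat_lit 58055734475) (nat_lit 1) (nat_lit 4) (nat_lit 2) (nat_lit 5) (nat_lit 2) (nat_lit 4) (nat_lit 364) (nat_lit 225) (nat_lit 131)))))) (XT.nd (nat_lit 30186) (nat_lit 0) (nat_lit 1824) (XT.nd (nat_lit 30030) (nat_lit 0) (nat_lit 2508) (XT.nd (nat_lit 29952) (nat_lit 0) (nat_lit 2736) (XT.lf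 (nat_lit 0) (nat_lit 474508442363) (nat_lit 76) (nat_lit 71058349495) (nat_lit 76) (nat_lit 58686634653) (nat_lit 1) (nat_lit 4) (nat_lit 2) (nat_lit 5) (nat_lit 2) (nat_lit 4) (nat_lit 365) (nat_lit 225) (nat_lit 130)) (XT.lf (nat_lit 0) (nat_lit 1123558401) (nat_lit 304) (nat_lit 2371814215) (nat_lit 0) (nat_lit 1123558401) (nat_lit 37) (nat_lit 5) (nat_lit 41) (nat_lit 4) (nat_lit 37) (nat_lit 4) (nat_lit 268) (nat_lit 226) (nat_lit 226))) (XT.nd (nat_lit 78) (nat_lit 0) (nat_lit 0) (XT.lf (nat_lit 0) (nat_lit 1047894744) (nat_lit 228) (nat_lit 4672621055) (nat_lit 228) (nat_lit 3749731102) (nat_lit 34) (nat_lit 4) (nat_lit 37) (nat_lit 5) (nat_lit 37) (nat_lit 4) (nat_lit 269) (nat_lit 226) (nat_lit 225)) (XT.lf (nat_lit 0) (nat_lit 7098652115) (nat_lit 228) (nat_lit 2210384291) (nat_lit 228) (nat_lit 408551525) (nat_lit 34) (nat_lit 4) (nat_lit 37) (nat_lit 5) (nat_lit 37) (nat_lit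 4) (nat_lit 270) (nat_lit 226) (nat_lit 224)))) (XT.nd (nat_lit 156) (nat_lit 456) (nat_lit 0) (XT.nd (nat_lit 78) (nat_lit 0) (nat_lit 0) (XT.lf (nat_lit 0) (nat_lit 2924482445) (nat_lit 228) (nat_lit 6643340827) (nat_lit 0) (nat_lit 411224199) (nat_lit 31) (nat_lit 5) (nat_lit 34) (nat_lit 4) (nat_lit 31) (nat_lit 4) (nat_lit 271) (nat_lit 226) (nat_lit 223)) (XT.lf (nat_lit 0) (nat_lit 6359553020) (nat_lit 228) (nat_lit 809559166) (nat_lit 0) (nat_lit 3087030925) (nat_lit 31) (nat_lit 5) (nat_lit 34) (nat_lit 4) (nat_lit 31) (nat_lit 4) (nat_lit 272) (nat_lit 226) (nat_lit 222))) (XT.nd (nat_lit 78) (nat_lit 228) (nat_lit 0) (XT.lf (nat_lit 0) (nat_lit 5301260131) (nat_lit 228) (nat_lit 4621978867) (nat_lit 228) (nat_lit 626348345) (nat_lit 28) (nat_lit 4) (nat_lit 31) (nat_lit 5) (nat_lit 31) (nat_lit 4) (nat_lit 273) (nat_lit 226) (nat_lit 221)) (XT.nd (nat_lit 78) (nat_lit 0)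 (nat_lit 0) (XT.lf (nat_lit 0) (nat_lit 680644156) (nat_lit 152) (nat_lit 1936404316) (nat_lit 228) (nat_lit 8243794446) (nat_lit 25) (nat_lit 5) (nat_lit 27) (nat_lit 5) (nat_lit 28) (nat_lit 4) (nat_lit 274) (nat_lit 226) (nat_lit 220)) (XT.lf (nat_lit 0) (nat_lit 5982786299) (nat_lit 228) (nat_lit 4308696584) (nat_lit 0) (nat_lit 896894991) (nat_lit 25) (nat_lit 5) (nat_lit 28) (nat_lit 4) (nat_lit 25) (nat_lit 4) (nat_lit 275) (nat_lit 226) (nat_lit 219))))))) (XT.nd (nat_lit 702) (nat_lit 532) (nat_lit 0) (XT.nd (nat_lit 312) (nat_lit 304) (nat_lit 0) (XT.nd (nat_lit 156) (nat_lit 152) (nat_lit 0) (XT.nd (nat_lit 78) (nat_lit 76) (nat_lit 0) (XT.lf (nat_lit 0) (nat_lit 1699767739) (nat_lit 152) (nat_lit 7758266133) (nat_lit 152) (nat_lit 2077471732) (nat_lit 23) (nat_lit 4) (nat_lit 25) (nat_lit 5) (nat_lit 25) (nat_lit 4) (nat_lit 276) (nat_lit 226) (nat_lit 218)) (XT.lf (nat_lit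 0) (nat_lit 1126219487) (nat_lit 228) (nat_lit 3938618826) (nat_lit 76) (nat_lit 6836570603) (nat_lit 22) (nat_lit 5) (nat_lit 25) (nat_lit 5) (nat_lit 23) (nat_lit 4) (nat_lit 277) (nat_lit 226) (nat_lit 217))) (XT.nd (nat_lit 78) (nat_lit 0) (nat_lit 0) (XT.lf (nat_lit 0) (nat_lit 2115110896) (nat_lit 152) (nat_lit 2227364378) (nat_lit 228) (nat_lit 7945558869) (nat_lit 20) (nat_lit 5) (nat_lit 22) (nat_lit 5) (nat_lit 23) (nat_lit 4) (nat_lit 278) (nat_lit 226) (nat_lit 216)) (XT.lf (nat_lit 0) (nat_lit 7689940106) (nat_lit 228) (nat_lit 4269021565) (nat_lit 0) (nat_lit 736737178) (nat_lit 20) (nat_lit 5) (nat_lit 23) (nat_lit 4) (nat_lit 20) (nat_lit 4) (nat_lit 279) (nat_lit 226) (nat_lit 215)))) (XT.nd (nat_lit 156) (nat_lit 76) (nat_lit 0) (XT.nd (nat_lit 78) (nat_lit 76) (nat_lit 0) (XT.lf (nat_lit 0) (nat_lit 1785174859) (nat_lit 152) (nat_lit 9380046017) (nat_lit 152) (nat_lit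 1960720949) (nat_lit 18) (nat_lit 4) (nat_lit 20) (nat_lit 5) (nat_lit 20) (nat_lit 4) (nat_lit 280) (nat_lit 226) (nat_lit 214)) (XT.lf (nat_lit 0) (nat_lit 1167073255) (nat_lit 228) (nat_lit 5470750741) (nat_lit 76) (nat_lit 6940600497) (nat_lit 17) (nat_lit 5) (nat_lit 20) (nat_lit 5) (nat_lit 18) (nat_lit 4) (nat_lit 281) (nat_lit 226) (nat_lit 213))) (XT.nd (nat_lit 78) (nat_lit 0) (nat_lit 0) (XT.lf (nat_lit 0) (nat_lit 518682439) (nat_lit 76) (nat_lit 3776302866) (nat_lit 152) (nat_lit 9761645382) (nat_lit 16) (nat_lit 5) (nat_lit 17) (nat_lit 5) (nat_lit 18) (nat_lit 4) (nat_lit 282) (nat_lit 226) (nat_lit 212)) (XT.nd (nat_lit 78) (nat_lit 0) (nat_lit 0) (XT.lf (nat_lit 0) (nat_lit 6841534551) (nat_lit 76) (nat_lit 734185359) (nat_lit 152) (nat_lit 6983384597) (nat_lit 16) (nat_lit 5) (nat_lit 17) (nat_lit 5) (nat_lit 18) (nat_lit 4) (nat_lit 283) (nat_lit 226) (nat_lit 211))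 (XT.lf (nat_lit 0) (nat_lit 10966369897) (nat_lit 152) (nat_lit 1797001407) (nat_lit 0) (nat_lit 2326206941) (nat_lit 16) (nat_lit 5) (nat_lit 18) (nat_lit 4) (nat_lit 16) (nat_lit 4) (nat_lit 284) (nat_lit 226) (nat_lit 210)))))) (XT.nd (nat_lit 312) (nat_lit 228) (nat_lit 0) (XT.nd (nat_lit 156) (nat_lit 76) (nat_lit 0) (XT.nd (nat_lit 78) (nat_lit 76) (nat_lit 0) (XT.lf (nat_lit 0) (nat_lit 4403331402) (nat_lit 152) (nat_lit 10115881877) (nat_lit 152) (nat_lit 1127891403) (nat_lit 14) (nat_lit 4) (nat_lit 16) (nat_lit 5) (nat_lit 16) (nat_lit 4) (nat_lit 285) (nat_lit 226) (nat_lit 209)) (XT.lf (nat_lit 0) (nat_lit 1895842088) (nat_lit 228) (nat_lit 5432778494) (nat_lit 76) (nat_lit 8905298476) (nat_lit 13) (nat_lit 5) (nat_lit 16) (nat_lit 5) (nat_lit 14) (nat_lit 4) (nat_lit 286) (nat_lit 226) (nat_lit 208))) (XT.nd (nat_lit 78) (nat_lit 0) (nat_lit 0) (XT.lf (nat_lit 0) (nat_lit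 528261308) (nat_lit 76) (nat_lit 4429302543) (nat_lit 152) (nat_lit 11895490485) (nat_lit 12) (nat_lit 5) (nat_lit 13) (nat_lit 5) (nat_lit 14) (nat_lit 4) (nat_lit 287) (nat_lit 226) (nat_lit 207)) (XT.lf (nat_lit 0) (nat_lit 6839285226) (nat_lit 76) (nat_lit 1343395895) (nat_lit 152) (nat_lit 9320083108) (nat_lit 12) (nat_lit 5) (nat_lit 13) (nat_lit 5) (nat_lit 14) (nat_lit 4) (nat_lit 288) (nat_lit 226) (nat_lit 206)))) (XT.nd (nat_lit 156) (nat_lit 76) (nat_lit 0) (XT.nd (nat_lit 78) (nat_lit 152) (nat_lit 0) (XT.lf (nat_lit 0) (nat_lit 11520044169) (nat_lit 152) (nat_lit 4882086504) (nat_lit 0) (nat_lit 1785406423) (nat_lit 12) (nat_lit 5) (nat_lit 14) (nat_lit 4) (nat_lit 12) (nat_lit 4) (nat_lit 289) (nat_lit 226) (nat_lit 205)) (XT.lf (nat_lit 0) (nat_lit 1073696030) (nat_lit 152) (nat_lit 13914485106) (nat_lit 152) (nat_lit 3920293112) (nat_lit 10) (nat_lit 4) (nat_lit 12)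 (nat_lit 5) (nat_lit 12) (nat_lit 4) (nat_lit 290) (nat_lit 226) (nat_lit 204))) (XT.nd (nat_lit 78) (nat_lit 76) (nat_lit 0) (XT.lf (nat_lit 0) (nat_lit 7371789765) (nat_lit 152) (nat_lit 11267349726) (nat_lit 152) (nat_lit 1025963209) (nat_lit 10) (nat_lit 4) (nat_lit 12) (nat_lit 5) (nat_lit 12) (nat_lit 4) (nat_lit 291) (nat_lit 226) (nat_lit 203)) (XT.nd (nat_lit 78) (nat_lit 0) (nat_lit 0) (XT.lf (nat_lit 0) (nat_lit 1877624788) (nat_lit 228) (nat_lit 6627679055) (nat_lit 76) (nat_lit 11956343060) (nat_lit 9) (nat_lit 5) (nat_lit 12) (nat_lit 5) (nat_lit 10) (nat_lit 4) (nat_lit 292) (nat_lit 226) (nat_lit 202)) (XT.lf (nat_lit 0) (nat_lit 4824268175) (nat_lit 228) (nat_lit 811272831) (nat_lit 76) (nat_lit 15665118091) (nat_lit 9) (nat_lit 5) (nat_lit 12) (nat_lit 5) (nat_lit 10) (nat_lit 4) (nat_lit 293) (nat_lit 226) (nat_lit 201))))))))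
noncomputable def xc68 : XT := (XT.nd (nat_lit 1404) (nat_lit 152) (nat_lit 0) (XT.nd (nat_lit 702) (nat_lit 76) (nat_lit 0) (XT.nd (nat_lit 312) (nat_lit 228) (nat_lit 0) (XT.nd (nat_lit 156) (nat_lit 0) (nat_lit 0) (XT.nd (nat_lit 78) (nat_lit 0) (nat_lit 0) (XT.lf (nat_lit 0) (nat_lit 5357237541) (nat_lit 76) (nat_lit 2580223948) (nat_lit 152) (nat_lit 14243294273) (nat_lit 8) (nat_lit 5) (nat_lit 9) (nat_lit 5) (nat_lit 10) (nat_lit 4) (nat_lit 294) (nat_lit 226) (nat_lit 200)) (XT.lf (nat_lit 0) (nat_lit 11166325084) (nat_lit 152) (nat_lit 11362797812) (nat_lit 0) (nat_lit 577824075) (nat_lit 8) (nat_lit 5) (nat_lit 10) (nat_lit 4) (nat_lit 8) (nat_lit 4) (nat_lit 295) (nat_lit 226) (nat_lit 199))) (XT.nd (nat_lit 78) (nat_lit 0) (nat_lit 0) (XT.lf (nat_lit 0) (nat_lit 14538210080) (nat_lit 152) (nat_lit 5776995977) (nat_lit 0) (nat_lit 3765248712) (nat_lit 8) (nat_lit 5) (nat_lit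 10) (nat_lit 4) (nat_lit 8) (nat_lit 4) (nat_lit 296) (nat_lit 226) (nat_lit 198)) (XT.lf (nat_lit 0) (nat_lit 18020860249) (nat_lit 152) (nat_lit 12528663) (nat_lit 0) (nat_lit 7072222349) (nat_lit 8) (nat_lit 5) (nat_lit 10) (nat_lit 4) (nat_lit 8) (nat_lit 4) (nat_lit 297) (nat_lit 226) (nat_lit 197)))) (XT.nd (nat_lit 156) (nat_lit 152) (nat_lit 0) (XT.nd (nat_lit 78) (nat_lit 0) (nat_lit 0) (XT.lf (nat_lit 0) (nat_lit 6140875416) (nat_lit 76) (nat_lit 15577568474) (nat_lit 76) (nat_lit 4461619591) (nat_lit 7) (nat_lit 4) (nat_lit 8) (nat_lit 5) (nat_lit 8) (nat_lit 4) (nat_lit 298) (nat_lit 226) (nat_lit 196)) (XT.lf (nat_lit 0) (nat_lit 12508097395) (nat_lit 76) (nat_lit 13039096731) (nat_lit 76) (nat_lit 1763804055) (nat_lit 7) (nat_lit 4) (nat_lit 8) (nat_lit 5) (nat_lit 8) (nat_lit 4) (nat_lit 299) (nat_lit 226) (nat_lit 195))) (XT.nd (nat_lit 78) (nat_lit 76) (nat_lit 0)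 (XT.lf (nat_lit 0) (nat_lit 982423432) (nat_lit 152) (nat_lit 9413080633) (nat_lit 76) (nat_lit 18104821823) (nat_lit 6) (nat_lit 5) (nat_lit 8) (nat_lit 5) (nat_lit 7) (nat_lit 4) (nat_lit 300) (nat_lit 226) (nat_lit 194)) (XT.nd (nat_lit 78) (nat_lit 76) (nat_lit 0) (XT.lf (nat_lit 0) (nat_lit 3756908551) (nat_lit 152) (nat_lit 3869915656) (nat_lit 76) (nat_lit 22123403082) (nat_lit 6) (nat_lit 5) (nat_lit 8) (nat_lit 5) (nat_lit 7) (nat_lit 4) (nat_lit 301) (nat_lit 226) (nat_lit 193)) (XT.lf (nat_lit 0) (nat_lit 1929072445) (nat_lit 76) (nat_lit 4723755745) (nat_lit 152) (nat_lit 24410721135) (nat_lit 5) (nat_lit 5) (nat_lit 6) (nat_lit 5) (nat_lit 7) (nat_lit 4) (nat_lit 302) (nat_lit 226) (nat_lit 192)))))) (XT.nd (nat_lit 312) (nat_lit 76) (nat_lit 0) (XT.nd (nat_lit 156) (nat_lit 0) (nat_lit 0) (XT.nd (nat_lit 78) (nat_lit 0) (nat_lit 0) (XT.lf (nat_lit 0) (nat_lit 8070627157)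 (nat_lit 76) (nat_lit 1642028958) (nat_lit 152) (nat_lit 22728983902) (nat_lit 5) (nat_lit 5) (nat_lit 6) (nat_lit 5) (nat_lit 7) (nat_lit 4) (nat_lit 303) (nat_lit 226) (nat_lit 191)) (XT.lf (nat_lit 0) (nat_lit 12905618022) (nat_lit 152) (nat_lit 19473845480) (nat_lit 0) (nat_lit 1510220010) (nat_lit 5) (nat_lit 5) (nat_lit 7) (nat_lit 4) (nat_lit 5) (nat_lit 4) (nat_lit 304) (nat_lit 226) (nat_lit 190))) (XT.nd (nat_lit 78) (nat_lit 0) (nat_lit 0) (XT.lf (nat_lit 0) (nat_lit 16242536195) (nat_lit 152) (nat_lit 14434534814) (nat_lit 0) (nat_lit 4733895525) (nat_lit 5) (nat_lit 5) (nat_lit 7) (nat_lit 4) (nat_lit 5) (nat_lit 4) (nat_lit 305) (nat_lit 226) (nat_lit 189)) (XT.lf (nat_lit 0) (nat_lit 19705719006) (nat_lit 152) (nat_lit 9215445830) (nat_lit 0) (nat_lit 8089228184) (nat_lit 5) (nat_lit 5) (nat_lit 7) (nat_lit 4) (nat_lit 5) (nat_lit 4) (nat_lit 306) (nat_lit 226) (nat_lit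 188)))) (XT.nd (nat_lit 156) (nat_lit 0) (nat_lit 0) (XT.nd (nat_lit 78) (nat_lit 76) (nat_lit 0) (XT.lf (nat_lit 0) (nat_lit 23303412126) (nat_lit 152) (nat_lit 3804152125) (nat_lit 0) (nat_lit 11584206875) (nat_lit 5) (nat_lit 5) (nat_lit 7) (nat_lit 4) (nat_lit 5) (nat_lit 4) (nat_lit 307) (nat_lit 226) (nat_lit 187)) (XT.lf (nat_lit 0) (nat_lit 1872150851) (nat_lit 76) (nat_lit 25201260163) (nat_lit 76) (nat_lit 13384231645) (nat_lit 4) (nat_lit 4) (nat_lit 5) (nat_lit 5) (nat_lit 5) (nat_lit 4) (nat_lit 308) (nat_lit 226) (nat_lit 186))) (XT.nd (nat_lit 78) (nat_lit 0) (nat_lit 0) (XT.lf (nat_lit 0) (nat_lit 7899920681) (nat_lit 76) (nat_lit 23160352920) (nat_lit 76) (nat_lit 11250159387) (nat_lit 4) (nat_lit 4) (nat_lit 5) (nat_lit 5) (nat_lit 5) (nat_lit 4) (nat_lit 309) (nat_lit 226) (nat_lit 185)) (XT.nd (nat_lit 78) (nat_lit 0) (nat_lit 0) (XT.lf (nat_lit 0) (nat_lit 14167726746)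 (nat_lit 76) (nat_lit 21044408378) (nat_lit 76) (nat_lit 9045486258) (nat_lit 4) (nat_lit 4) (nat_lit 5) (nat_lit 5) (nat_lit 5) (nat_lit 4) (nat_lit 310) (nat_lit 226) (nat_lit 184)) (XT.lf (nat_lit 0) (nat_lit 20690492395) (nat_lit 76) (nat_lit 18848388573) (nat_lit 76) (nat_lit 6764963037) (nat_lit 4) (nat_lit 4) (nat_lit 5) (nat_lit 5) (nat_lit 5) (nat_lit 4) (nat_lit 311) (nat_lit 226) (nat_lit 183))))))) (XT.nd (nat_lit 702) (nat_lit 0) (nat_lit 0) (XT.nd (nat_lit 312) (nat_lit 76) (nat_lit 0) (XT.nd (nat_lit 156) (nat_lit 76) (nat_lit 0) (XT.nd (nat_lit 78) (nat_lit 0) (nat_lit 0) (XT.lf (nat_lit 0) (nat_lit 27483748022) (nat_lit 76) (nat_lit 16567064886) (nat_lit 76) (nat_lit 4403159906) (nat_lit 4) (nat_lit 4) (nat_lit 5) (nat_lit 5) (nat_lit 5) (nat_lit 4) (nat_lit 312) (nat_lit 226) (nat_lit 182)) (XT.lf (nat_lit 0) (nat_lit 34563668045) (nat_lit 76) (nat_lit 14195005594)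 (nat_lit 76) (nat_lit 1954453525) (nat_lit 4) (nat_lit 4) (nat_lit 5) (nat_lit 5) (nat_lit 5) (nat_lit 4) (nat_lit 313) (nat_lit 226) (nat_lit 181))) (XT.nd (nat_lit 78) (nat_lit 0) (nat_lit 0) (XT.lf (nat_lit 0) (nat_lit 568199128) (nat_lit 152) (nat_lit 11148741081) (nat_lit 76) (nat_lit 41369287561) (nat_lit 3) (nat_lit 5) (nat_lit 5) (nat_lit 5) (nat_lit 4) (nat_lit 4) (nat_lit 314) (nat_lit 226) (nat_lit 180)) (XT.lf (nat_lit 0) (nat_lit 3123919893) (nat_lit 152) (nat_lit 5979034683) (nat_lit 76) (nat_lit 46474826771) (nat_lit 3) (nat_lit 5) (nat_lit 5) (nat_lit 5) (nat_lit 4) (nat_lit 4) (nat_lit 315) (nat_lit 226) (nat_lit 179)))) (XT.nd (nat_lit 156) (nat_lit 0) (nat_lit 0) (XT.nd (nat_lit 78) (nat_lit 76) (nat_lit 0) (XT.lf (nat_lit 0) (nat_lit 5781348535) (nat_lit 152) (nat_lit 597516604) (nat_lit 76) (nat_lit 51816380751) (nat_lit 3) (nat_lit 5) (nat_lit 5) (nat_lit 5) (nat_lit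 4) (nat_lit 4) (nat_lit 316) (nat_lit 226) (nat_lit 178)) (XT.lf (nat_lit 0) (nat_lit 5174234098) (nat_lit 76) (nat_lit 3453362462) (nat_lit 152) (nat_lit 52313217682) (nat_lit 2) (nat_lit 5) (nat_lit 3) (nat_lit 5) (nat_lit 4) (nat_lit 4) (nat_lit 317) (nat_lit 226) (nat_lit 177))) (XT.nd (nat_lit 78) (nat_lit 0) (nat_lit 0) (XT.lf (nat_lit 0) (nat_lit 11211582633) (nat_lit 76) (nat_lit 390357115) (nat_lit 152) (nat_lit 52222458775) (nat_lit 2) (nat_lit 5) (nat_lit 3) (nat_lit 5) (nat_lit 4) (nat_lit 4) (nat_lit 318) (nat_lit 226) (nat_lit 176)) (XT.nd (nat_lit 78) (nat_lit 0) (nat_lit 0) (XT.lf (nat_lit 0) (nat_lit 14745652706) (nat_lit 152) (nat_lit 49388029439) (nat_lit 0) (nat_lit 2717472620) (nat_lit 2) (nat_lit 5) (nat_lit 4) (nat_lit 4) (nat_lit 2) (nat_lit 4) (nat_lit 319) (nat_lit 226) (nat_lit 175)) (XT.lf (nat_lit 0) (nat_lit 18030602015) (nat_lit 152) (nat_lit 46048924278)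 (nat_lit 0) (nat_lit 5950544162) (nat_lit 2) (nat_lit 5) (nat_lit 4) (nat_lit 4) (nat_lit 2) (nat_lit 4) (nat_lit 320) (nat_lit 226) (nat_lit 174)))))) (XT.nd (nat_lit 312) (nat_lit 0) (nat_lit 0) (XT.nd (nat_lit 156) (nat_lit 0) (nat_lit 0) (XT.nd (nat_lit 78) (nat_lit 0) (nat_lit 0) (XT.lf (nat_lit 0) (nat_lit 21458514414) (nat_lit 152) (nat_lit 42581455589) (nat_lit 0) (nat_lit 9329049164) (nat_lit 2) (nat_lit 5) (nat_lit 4) (nat_lit 4) (nat_lit 2) (nat_lit 4) (nat_lit 321) (nat_lit 226) (nat_lit 173)) (XT.lf (nat_lit 0) (nat_lit 25037551599) (nat_lit 152) (nat_lit 38977367494) (nat_lit 0) (nat_lit 12861031686) (nat_lit 2) (nat_lit 5) (nat_lit 4) (nat_lit 4) (nat_lit 2) (nat_lit 4) (nat_lit 322) (nat_lit 226) (nat_lit 172))) (XT.nd (nat_lit 78) (nat_lit 0) (nat_lit 0) (XT.lf (nat_lit 0) (nat_lit 28776235089) (nat_lit 152) (nat_lit 35228078830) (nat_lit 0) (nat_lit 16554901210) (nat_lit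 2) (nat_lit 5) (nat_lit 4) (nat_lit 4) (nat_lit 2) (nat_lit 4) (nat_lit 323) (nat_lit 226) (nat_lit 171)) (XT.lf (nat_lit 0) (nat_lit 32683466510) (nat_lit 152) (nat_lit 31324662721) (nat_lit 0) (nat_lit 20419452663) (nat_lit 2) (nat_lit 5) (nat_lit 4) (nat_lit 4) (nat_lit 2) (nat_lit 4) (nat_lit 324) (nat_lit 226) (nat_lit 170)))) (XT.nd (nat_lit 156) (nat_lit 0) (nat_lit 0) (XT.nd (nat_lit 78) (nat_lit 0) (nat_lit 0) (XT.lf (nat_lit 0) (nat_lit 36768548794) (nat_lit 152) (nat_lit 27257825318) (nat_lit 0) (nat_lit 24463887359) (nat_lit 2) (nat_lit 5) (nat_lit 4) (nat_lit 4) (nat_lit 2) (nat_lit 4) (nat_lit 325) (nat_lit 226) (nat_lit 169)) (XT.lf (nat_lit 0) (nat_lit 41041208327) (nat_lit 152) (nat_lit 23017883674) (nat_lit 0) (nat_lit 28697834904) (nat_lit 2) (nat_lit 5) (nat_lit 4) (nat_lit 4) (nat_lit 2) (nat_lit 4) (nat_lit 326) (nat_lit 226) (nat_lit 168))) (XT.nd (nat_lit 78)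 (nat_lit 0) (nat_lit 0) (XT.lf (nat_lit 0) (nat_lit 45511618109) (nat_lit 152) (nat_lit 18594742691) (nat_lit 0) (nat_lit 33131376126) (nat_lit 2) (nat_lit 5) (nat_lit 4) (nat_lit 4) (nat_lit 2) (nat_lit 4) (nat_lit 327) (nat_lit 226) (nat_lit 167)) (XT.nd (nat_lit 78) (nat_lit 0) (nat_lit 0) (XT.lf (nat_lit 0) (nat_lit 50190421972) (nat_lit 152) (nat_lit 13977871081) (nat_lit 0) (nat_lit 37775067074) (nat_lit 2) (nat_lit 5) (nat_lit 4) (nat_lit 4) (nat_lit 2) (nat_lit 4) (nat_lit 328) (nat_lit 226) (nat_lit 166)) (XT.lf (nat_lit 0) (nat_lit 55088759925) (nat_lit 152) (nat_lit 9156276292) (nat_lit 0) (nat_lit 42639964157) (nat_lit 2) (nat_lit 5) (nat_lit 4) (nat_lit 4) (nat_lit 2) (nat_lit 4) (nat_lit 329) (nat_lit 226) (nat_lit 165))))))))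
noncomputable def xc69 : XT := (XT.nd (nat_lit 1404) (nat_lit 0) (nat_lit 0) (XT.nd (nat_lit 702) (nat_lit 0) (nat_lit 0) (XT.nd (nat_lit 312) (nat_lit 0) (nat_lit 0) (XT.nd (nat_lit 156) (nat_lit 0) (nat_lit 0) (XT.nd (nat_lit 78) (nat_lit 76) (nat_lit 0) (XT.lf (nat_lit 0) (nat_lit 60218294678) (nat_lit 152) (nat_lit 4118478337) (nat_lit 0) (nat_lit 47737650461) (nat_lit 2) (nat_lit 5) (nat_lit 4) (nat_lit 4) (nat_lit 2) (nat_lit 4) (nat_lit 330) (nat_lit 226) (nat_lit 164)) (XT.lf (nat_lit 0) (nat_lit 1185459653) (nat_lit 76) (nat_lit 64424288104) (nat_lit 76) (nat_lit 51913312030) (nat_lit 1) (nat_lit 4) (nat_lit 2) (nat_lit 5) (nat_lit 2) (nat_lit 4) (nat_lit 331) (nat_lit 226) (nat_lit 163))) (XT.nd (nat_lit 78) (nat_lit 0) (nat_lit 0) (XT.lf (nat_lit 0) (nat_lit 6874268966) (nat_lit 76) (nat_lit 64453444481) (nat_lit 76) (nat_lit 51913580927) (nat_lit 1) (nat_lit 4) (nat_lit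 2) (nat_lit 5) (nat_lit 2) (nat_lit 4) (nat_lit 332) (nat_lit 226) (nat_lit 162)) (XT.lf (nat_lit 0) (nat_lit 12825318891) (nat_lit 76) (nat_lit 64494059993) (nat_lit 76) (nat_lit 51926684551) (nat_lit 1) (nat_lit 4) (nat_lit 2) (nat_lit 5) (nat_lit 2) (nat_lit 4) (nat_lit 333) (nat_lit 226) (nat_lit 161)))) (XT.nd (nat_lit 156) (nat_lit 0) (nat_lit 0) (XT.nd (nat_lit 78) (nat_lit 0) (nat_lit 0) (XT.lf (nat_lit 0) (nat_lit 19052778595) (nat_lit 76) (nat_lit 64546231342) (nat_lit 76) (nat_lit 51952654102) (nat_lit 1) (nat_lit 4) (nat_lit 2) (nat_lit 5) (nat_lit 2) (nat_lit 4) (nat_lit 334) (nat_lit 226) (nat_lit 160)) (XT.lf (nat_lit 0) (nat_lit 25571475364) (nat_lit 76) (nat_lit 64610082746) (nat_lit 76) (nat_lit 51991551413) (nat_lit 1) (nat_lit 4) (nat_lit 2) (nat_lit 5) (nat_lit 2) (nat_lit 4) (nat_lit 335) (nat_lit 226) (nat_lit 159))) (XT.nd (nat_lit 78) (nat_lit 0) (nat_lit 0)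 (XT.lf (nat_lit 0) (nat_lit 32396929903) (nat_lit 76) (nat_lit 64685766231) (nat_lit 76) (nat_lit 52043469096) (nat_lit 1) (nat_lit 4) (nat_lit 2) (nat_lit 5) (nat_lit 2) (nat_lit 4) (nat_lit 336) (nat_lit 226) (nat_lit 158)) (XT.nd (nat_lit 78) (nat_lit 0) (nat_lit 0) (XT.lf (nat_lit 0) (nat_lit 39545393295) (nat_lit 76) (nat_lit 64773461997) (nat_lit 76) (nat_lit 52108530764) (nat_lit 1) (nat_lit 4) (nat_lit 2) (nat_lit 5) (nat_lit 2) (nat_lit 4) (nat_lit 337) (nat_lit 226) (nat_lit 157)) (XT.lf (nat_lit 0) (nat_lit 47033885690) (nat_lit 76) (nat_lit 64873378844) (nat_lit 76) (nat_lit 52186891327) (nat_lit 1) (nat_lit 4) (nat_lit 2) (nat_lit 5) (nat_lit 2) (nat_lit 4) (nat_lit 338) (nat_lit 226) (nat_lit 156)))))) (XT.nd (nat_lit 312) (nat_lit 0) (nat_lit 0) (XT.nd (nat_lit 156) (nat_lit 0) (nat_lit 0) (XT.nd (nat_lit 78) (nat_lit 0) (nat_lit 0) (XT.lf (nat_lit 0) (nat_lit 54880236834)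 (nat_lit 76) (nat_lit 64985754668) (nat_lit 76) (nat_lit 52278737357) (nat_lit 1) (nat_lit 4) (nat_lit 2) (nat_lit 5) (nat_lit 2) (nat_lit 4) (nat_lit 339) (nat_lit 226) (nat_lit 155)) (XT.lf (nat_lit 0) (nat_lit 63103128513) (nat_lit 76) (nat_lit 65110857030) (nat_lit 76) (nat_lit 52384287535) (nat_lit 1) (nat_lit 4) (nat_lit 2) (nat_lit 5) (nat_lit 2) (nat_lit 4) (nat_lit 340) (nat_lit 226) (nat_lit 154))) (XT.nd (nat_lit 78) (nat_lit 0) (nat_lit 0) (XT.lf (nat_lit 0) (nat_lit 71722139042) (nat_lit 76) (nat_lit 65248983795) (nat_lit 76) (nat_lit 52503793171) (nat_lit 1) (nat_lit 4) (nat_lit 2) (nat_lit 5) (nat_lit 2) (nat_lit 4) (nat_lit 341) (nat_lit 226) (nat_lit 153)) (XT.lf (nat_lit 0) (nat_lit 80757789874) (nat_lit 76) (nat_lit 65400463834) (nat_lit 76) (nat_lit 52637538802) (nat_lit 1) (nat_lit 4) (nat_lit 2) (nat_lit 5) (nat_lit 2) (nat_lit 4) (nat_lit 342) (nat_lit 226) (nat_lit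 152)))) (XT.nd (nat_lit 156) (nat_lit 0) (nat_lit 0) (XT.nd (nat_lit 78) (nat_lit 0) (nat_lit 0) (XT.lf (nat_lit 0) (nat_lit 90231594464) (nat_lit 76) (nat_lit 65565657815) (nat_lit 76) (nat_lit 52785842871) (nat_lit 1) (nat_lit 4) (nat_lit 2) (nat_lit 5) (nat_lit 2) (nat_lit 4) (nat_lit 343) (nat_lit 226) (nat_lit 151)) (XT.lf (nat_lit 0) (nat_lit 100166109489) (nat_lit 76) (nat_lit 65744959057) (nat_lit 76) (nat_lit 52949058482) (nat_lit 1) (nat_lit 4) (nat_lit 2) (nat_lit 5) (nat_lit 2) (nat_lit 4) (nat_lit 344) (nat_lit 226) (nat_lit 150))) (XT.nd (nat_lit 78) (nat_lit 0) (nat_lit 0) (XT.lf (nat_lit 0) (nat_lit 110584988556) (nat_lit 76) (nat_lit 65938794467) (nat_lit 76) (nat_lit 53127574244) (nat_lit 1) (nat_lit 4) (nat_lit 2) (nat_lit 5) (nat_lit 2) (nat_lit 4) (nat_lit 345) (nat_lit 226) (nat_lit 149)) (XT.nd (nat_lit 78) (nat_lit 0) (nat_lit 0) (XT.lf (nat_lit 0) (nat_lit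 121513038521) (nat_lit 76) (nat_lit 66147625558) (nat_lit 76) (nat_lit 53321815194) (nat_lit 1) (nat_lit 4) (nat_lit 2) (nat_lit 5) (nat_lit 2) (nat_lit 4) (nat_lit 346) (nat_lit 226) (nat_lit 148)) (XT.lf (nat_lit 0) (nat_lit 132976278549) (nat_lit 76) (nat_lit 66371949547) (nat_lit 76) (nat_lit 53532243810) (nat_lit 1) (nat_lit 4) (nat_lit 2) (nat_lit 5) (nat_lit 2) (nat_lit 4) (nat_lit 347) (nat_lit 226) (nat_lit 147))))))) (XT.nd (nat_lit 702) (nat_lit 0) (nat_lit 0) (XT.nd (nat_lit 312) (nat_lit 0) (nat_lit 0) (XT.nd (nat_lit 156) (nat_lit 0) (nat_lit 0) (XT.nd (nat_lit 78) (nat_lit 0) (nat_lit 0) (XT.lf (nat_lit 0) (nat_lit 145002002070) (nat_lit 76) (nat_lit 66612300540) (nat_lit 76) (nat_lit 53759361114) (nat_lit 1) (nat_lit 4) (nat_lit 2) (nat_lit 5) (nat_lit 2) (nat_lit 4) (nat_lit 348) (nat_lit 226) (nat_lit 146)) (XT.lf (nat_lit 0) (nat_lit 157618841759) (nat_lit 76) (nat_lit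 66869250799) (nat_lit 76) (nat_lit 54003707861) (nat_lit 1) (nat_lit 4) (nat_lit 2) (nat_lit 5) (nat_lit 2) (nat_lit 4) (nat_lit 349) (nat_lit 226) (nat_lit 145))) (XT.nd (nat_lit 78) (nat_lit 0) (nat_lit 0) (XT.lf (nat_lit 0) (nat_lit 170856837709) (nat_lit 76) (nat_lit 67143412112) (nat_lit 76) (nat_lit 54265865829) (nat_lit 1) (nat_lit 4) (nat_lit 2) (nat_lit 5) (nat_lit 2) (nat_lit 4) (nat_lit 350) (nat_lit 226) (nat_lit 144)) (XT.lf (nat_lit 0) (nat_lit 184747508960) (nat_lit 76) (nat_lit 67435437244) (nat_lit 76) (nat_lit 54546459203) (nat_lit 1) (nat_lit 4) (nat_lit 2) (nat_lit 5) (nat_lit 2) (nat_lit 4) (nat_lit 351) (nat_lit 226) (nat_lit 143)))) (XT.nd (nat_lit 156) (nat_lit 0) (nat_lit 0) (XT.nd (nat_lit 78) (nat_lit 0) (nat_lit 0) (XT.lf (nat_lit 0) (nat_lit 199323928537) (nat_lit 76) (nat_lit 67746021492) (nat_lit 76) (nat_lit 54846156063) (nat_lit 1) (nat_lit 4) (nat_lit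 2) (nat_lit 5) (nat_lit 2) (nat_lit 4) (nat_lit 352) (nat_lit 226) (nat_lit 142)) (XT.lf (nat_lit 0) (nat_lit 214620802202) (nat_lit 76) (nat_lit 68075904342) (nat_lit 76) (nat_lit 55165669973) (nat_lit 1) (nat_lit 4) (nat_lit 2) (nat_lit 5) (nat_lit 2) (nat_lit 4) (nat_lit 353) (nat_lit 226) (nat_lit 141))) (XT.nd (nat_lit 78) (nat_lit 0) (nat_lit 0) (XT.lf (nat_lit 0) (nat_lit 230674551083) (nat_lit 76) (nat_lit 68425871231) (nat_lit 76) (nat_lit 55505761680) (nat_lit 1) (nat_lit 4) (nat_lit 2) (nat_lit 5) (nat_lit 2) (nat_lit 4) (nat_lit 354) (nat_lit 226) (nat_lit 140)) (XT.nd (nat_lit 78) (nat_lit 0) (nat_lit 0) (XT.lf (nat_lit 0) (nat_lit 247523398391) (nat_lit 76) (nat_lit 68796755413) (nat_lit 76) (nat_lit 55867240926) (nat_lit 1) (nat_lit 4) (nat_lit 2) (nat_lit 5) (nat_lit 2) (nat_lit 4) (nat_lit 355) (nat_lit 226) (nat_lit 139)) (XT.lf (nat_lit 0) (nat_lit 265207460429)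 (nat_lit 76) (nat_lit 69189439944) (nat_lit 76) (nat_lit 56250968376) (nat_lit 1) (nat_lit 4) (nat_lit 2) (nat_lit 5) (nat_lit 2) (nat_lit 4) (nat_lit 356) (nat_lit 226) (nat_lit 138)))))) (XT.nd (nat_lit 312) (nat_lit 0) (nat_lit 0) (XT.nd (nat_lit 156) (nat_lit 0) (nat_lit 0) (XT.nd (nat_lit 78) (nat_lit 0) (nat_lit 0) (XT.lf (nat_lit 0) (nat_lit 283768842106) (nat_lit 76) (nat_lit 69604859789) (nat_lit 76) (nat_lit 56657857668) (nat_lit 1) (nat_lit 4) (nat_lit 2) (nat_lit 5) (nat_lit 2) (nat_lit 4) (nat_lit 357) (nat_lit 226) (nat_lit 137)) (XT.lf (nat_lit 0) (nat_lit 303251737190) (nat_lit 76) (nat_lit 70044004043) (nat_lit 76) (nat_lit 57088877585) (nat_lit 1) (nat_lit 4) (nat_lit 2) (nat_lit 5) (nat_lit 2) (nat_lit 4) (nat_lit 358) (nat_lit 226) (nat_lit 136))) (XT.nd (nat_lit 78) (nat_lit 0) (nat_lit 0) (XT.lf (nat_lit 0) (nat_lit 323702533525) (nat_lit 76) (nat_lit 70507918286)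 (nat_lit 76) (nat_lit 57545054364) (nat_lit 1) (nat_lit 4) (nat_lit 2) (nat_lit 5) (nat_lit 2) (nat_lit 4) (nat_lit 359) (nat_lit 226) (nat_lit 135)) (XT.lf (nat_lit 0) (nat_lit 345169923483) (nat_lit 76) (nat_lit 70997707076) (nat_lit 76) (nat_lit 58027474142) (nat_lit 1) (nat_lit 4) (nat_lit 2) (nat_lit 5) (nat_lit 2) (nat_lit 4) (nat_lit 360) (nat_lit 226) (nat_lit 134)))) (XT.nd (nat_lit 156) (nat_lit 0) (nat_lit 0) (XT.nd (nat_lit 78) (nat_lit 0) (nat_lit 0) (XT.lf (nat_lit 0) (nat_lit 367705019898) (nat_lit 76) (nat_lit 71514536578) (nat_lit 76) (nat_lit 58537285536) (nat_lit 1) (nat_lit 4) (nat_lit 2) (nat_lit 5) (nat_lit 2) (nat_lit 4) (nat_lit 361) (nat_lit 226) (nat_lit 133)) (XT.lf (nat_lit 0) (nat_lit 391361477760) (nat_lit 76) (nat_lit 72059637338) (nat_lit 76) (nat_lit 59075702384) (nat_lit 1) (nat_lit 4) (nat_lit 2) (nat_lit 5) (nat_lit 2) (nat_lit 4) (nat_lit 362) (nat_lit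 226) (nat_lit 132))) (XT.nd (nat_lit 78) (nat_lit 0) (nat_lit 0) (XT.lf (nat_lit 0) (nat_lit 416195621971) (nat_lit 76) (nat_lit 72634307214) (nat_lit 76) (nat_lit 59644006630) (nat_lit 1) (nat_lit 4) (nat_lit 2) (nat_lit 5) (nat_lit 2) (nat_lit 4) (nat_lit 363) (nat_lit 226) (nat_lit 131)) (XT.nd (nat_lit 78) (nat_lit 0) (nat_lit 0) (XT.lf (nat_lit 0) (nat_lit 442266581444) (nat_lit 76) (nat_lit 73239914468) (nat_lit 76) (nat_lit 60243551379) (nat_lit 1) (nat_lit 4) (nat_lit 2) (nat_lit 5) (nat_lit 2) (nat_lit 4) (nat_lit 364) (nat_lit 226) (nat_lit 130)) (XT.lf (nat_lit 0) (nat_lit 469636429893) (nat_lit 76) (nat_lit 73877901023) (nat_lit 76) (nat_lit 60875764120) (nat_lit 1) (nat_lit 4) (nat_lit 2) (nat_lit 5) (nat_lit 2) (nat_lit 4) (nat_lit 365) (nat_lit 226) (nat_lit 129))))))))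
noncomputable def xc70 : XT := (XT.nd (nat_lit 1404) (nat_lit 760) (nat_lit 0) (XT.nd (nat_lit 702) (nat_lit 836) (nat_lit 0) (XT.nd (nat_lit 312) (nat_lit 532) (nat_lit 0) (XT.nd (nat_lit 156) (nat_lit 532) (nat_lit 0) (XT.nd (nat_lit 78) (nat_lit 0) (nat_lit 0) (XT.lf (nat_lit 0) (nat_lit 915928087) (nat_lit 228) (nat_lit 1744741498) (nat_lit 228) (nat_lit 1744741498) (nat_lit 41) (nat_lit 4) (nat_lit 44) (nat_lit 5) (nat_lit 44) (nat_lit 4) (nat_lit 266) (nat_lit 227) (nat_lit 227)) (XT.lf (nat_lit 0) (nat_lit 7649998471) (nat_lit 228) (nat_lit 1194129770) (nat_lit 228) (nat_lit 176643597) (nat_lit 41) (nat_lit 4) (nat_lit 44) (nat_lit 5) (nat_lit 44) (nat_lit 4) (nat_lit 267) (nat_lit 227) (nat_lit 226))) (XT.nd (nat_lit 78) (nat_lit 228) (nat_lit 0) (XT.lf (nat_lit 0) (nat_lit 3146575173) (nat_lit 304) (nat_lit 4840324647) (nat_lit 0) (nat_lit 1254650769) (nat_lit 37) (nat_lit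 5) (nat_lit 41) (nat_lit 4) (nat_lit 37) (nat_lit 4) (nat_lit 268) (nat_lit 227) (nat_lit 225)) (XT.lf (nat_lit 0) (nat_lit 852864713) (nat_lit 228) (nat_lit 5697801555) (nat_lit 228) (nat_lit 2926934339) (nat_lit 34) (nat_lit 4) (nat_lit 37) (nat_lit 5) (nat_lit 37) (nat_lit 4) (nat_lit 269) (nat_lit 227) (nat_lit 224)))) (XT.nd (nat_lit 156) (nat_lit 304) (nat_lit 0) (XT.nd (nat_lit 78) (nat_lit 152) (nat_lit 0) (XT.lf (nat_lit 0) (nat_lit 335222729) (nat_lit 304) (nat_lit 2920749013) (nat_lit 76) (nat_lit 6472115911) (nat_lit 33) (nat_lit 5) (nat_lit 37) (nat_lit 5) (nat_lit 34) (nat_lit 4) (nat_lit 270) (nat_lit 227) (nat_lit 223)) (XT.lf (nat_lit 0) (nat_lit 2932826336) (nat_lit 152) (nat_lit 646690242) (nat_lit 228) (nat_lit 6413667439) (nat_lit 31) (nat_lit 5) (nat_lit 33) (nat_lit 5) (nat_lit 34) (nat_lit 4) (nat_lit 271) (nat_lit 227) (nat_lit 222))) (XT.nd (nat_lit 78) (nat_lit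 304) (nat_lit 0) (XT.lf (nat_lit 0) (nat_lit 6943073115) (nat_lit 228) (nat_lit 1306393948) (nat_lit 0) (nat_lit 2024552639) (nat_lit 31) (nat_lit 5) (nat_lit 34) (nat_lit 4) (nat_lit 31) (nat_lit 4) (nat_lit 272) (nat_lit 227) (nat_lit 221)) (XT.nd (nat_lit 78) (nat_lit 76) (nat_lit 0) (XT.lf (nat_lit 0) (nat_lit 4699533407) (nat_lit 228) (nat_lit 5739338290) (nat_lit 228) (nat_lit 132143123) (nat_lit 28) (nat_lit 4) (nat_lit 31) (nat_lit 5) (nat_lit 31) (nat_lit 4) (nat_lit 273) (nat_lit 227) (nat_lit 220)) (XT.lf (nat_lit 0) (nat_lit 3026707396) (nat_lit 304) (nat_lit 58325664) (nat_lit 76) (nat_lit 7800429938) (nat_lit 27) (nat_lit 5) (nat_lit 31) (nat_lit 5) (nat_lit 28) (nat_lit 4) (nat_lit 274) (nat_lit 227) (nat_lit 219)))))) (XT.nd (nat_lit 312) (nat_lit 304) (nat_lit 0) (XT.nd (nat_lit 156) (nat_lit 228) (nat_lit 0) (XT.nd (nat_lit 78) (nat_lit 152) (nat_lit 0) (XT.lf (nat_lit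 0) (nat_lit 6069049657) (nat_lit 152) (nat_lit 251327772) (nat_lit 228) (nat_lit 4896359118) (nat_lit 25) (nat_lit 5) (nat_lit 27) (nat_lit 5) (nat_lit 28) (nat_lit 4) (nat_lit 275) (nat_lit 227) (nat_lit 218)) (XT.lf (nat_lit 0) (nat_lit 751051110) (nat_lit 152) (nat_lit 8971454740) (nat_lit 152) (nat_lit 1845143152) (nat_lit 23) (nat_lit 4) (nat_lit 25) (nat_lit 5) (nat_lit 25) (nat_lit 4) (nat_lit 276) (nat_lit 227) (nat_lit 217))) (XT.nd (nat_lit 78) (nat_lit 152) (nat_lit 0) (XT.lf (nat_lit 0) (nat_lit 1297050574) (nat_lit 228) (nat_lit 5006952550) (nat_lit 76) (nat_lit 5632187696) (nat_lit 22) (nat_lit 5) (nat_lit 25) (nat_lit 5) (nat_lit 23) (nat_lit 4) (nat_lit 277) (nat_lit 227) (nat_lit 216)) (XT.lf (nat_lit 0) (nat_lit 928959199) (nat_lit 152) (nat_lit 3514340843) (nat_lit 228) (nat_lit 7883127556) (nat_lit 20) (nat_lit 5) (nat_lit 22) (nat_lit 5) (nat_lit 23) (nat_lit 4)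 (nat_lit 278) (nat_lit 227) (nat_lit 215)))) (XT.nd (nat_lit 156) (nat_lit 152) (nat_lit 0) (XT.nd (nat_lit 78) (nat_lit 152) (nat_lit 0) (XT.lf (nat_lit 0) (nat_lit 7174436840) (nat_lit 152) (nat_lit 554183147) (nat_lit 228) (nat_lit 5008685498) (nat_lit 20) (nat_lit 5) (nat_lit 22) (nat_lit 5) (nat_lit 23) (nat_lit 4) (nat_lit 279) (nat_lit 227) (nat_lit 214)) (XT.lf (nat_lit 0) (nat_lit 378045208) (nat_lit 152) (nat_lit 10746944503) (nat_lit 152) (nat_lit 2046605194) (nat_lit 18) (nat_lit 4) (nat_lit 20) (nat_lit 5) (nat_lit 20) (nat_lit 4) (nat_lit 280) (nat_lit 227) (nat_lit 213))) (XT.nd (nat_lit 78) (nat_lit 76) (nat_lit 0) (XT.lf (nat_lit 0) (nat_lit 1035900344) (nat_lit 228) (nat_lit 6999530124) (nat_lit 76) (nat_lit 5591207538) (nat_lit 17) (nat_lit 5) (nat_lit 20) (nat_lit 5) (nat_lit 18) (nat_lit 4) (nat_lit 281) (nat_lit 227) (nat_lit 212)) (XT.nd (nat_lit 78) (nat_lit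 76) (nat_lit 0) (XT.lf (nat_lit 0) (nat_lit 4109964308) (nat_lit 228) (nat_lit 1100352826) (nat_lit 76) (nat_lit 8897306623) (nat_lit 17) (nat_lit 5) (nat_lit 20) (nat_lit 5) (nat_lit 18) (nat_lit 4) (nat_lit 282) (nat_lit 227) (nat_lit 211)) (XT.lf (nat_lit 0) (nat_lit 5113649828) (nat_lit 76) (nat_lit 2214598622) (nat_lit 152) (nat_lit 7285054655) (nat_lit 16) (nat_lit 5) (nat_lit 17) (nat_lit 5) (nat_lit 18) (nat_lit 4) (nat_lit 283) (nat_lit 227) (nat_lit 210))))))) (XT.nd (nat_lit 702) (nat_lit 228) (nat_lit 0) (XT.nd (nat_lit 312) (nat_lit 304) (nat_lit 0) (XT.nd (nat_lit 156) (nat_lit 76) (nat_lit 0) (XT.nd (nat_lit 78) (nat_lit 152) (nat_lit 0) (XT.lf (nat_lit 0) (nat_lit 10652798075) (nat_lit 152) (nat_lit 3626782278) (nat_lit 0) (nat_lit 867580561) (nat_lit 16) (nat_lit 5) (nat_lit 18) (nat_lit 4) (nat_lit 16) (nat_lit 4) (nat_lit 284) (nat_lit 227) (nat_lit 209)) (XT.lf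 (nat_lit 0) (nat_lit 2443380875) (nat_lit 152) (nat_lit 11690720297) (nat_lit 152) (nat_lit 1574238480) (nat_lit 14) (nat_lit 4) (nat_lit 16) (nat_lit 5) (nat_lit 16) (nat_lit 4) (nat_lit 285) (nat_lit 227) (nat_lit 208))) (XT.nd (nat_lit 78) (nat_lit 0) (nat_lit 0) (XT.lf (nat_lit 0) (nat_lit 1423028955) (nat_lit 228) (nat_lit 7514762268) (nat_lit 76) (nat_lit 7359817127) (nat_lit 13) (nat_lit 5) (nat_lit 16) (nat_lit 5) (nat_lit 14) (nat_lit 4) (nat_lit 286) (nat_lit 227) (nat_lit 207)) (XT.lf (nat_lit 0) (nat_lit 4437691699) (nat_lit 228) (nat_lit 1635170130) (nat_lit 76) (nat_lit 10846299785) (nat_lit 13) (nat_lit 5) (nat_lit 16) (nat_lit 5) (nat_lit 14) (nat_lit 4) (nat_lit 287) (nat_lit 227) (nat_lit 206)))) (XT.nd (nat_lit 156) (nat_lit 228) (nat_lit 0) (XT.nd (nat_lit 78) (nat_lit 0) (nat_lit 0) (XT.lf (nat_lit 0) (nat_lit 4558288641) (nat_lit 76) (nat_lit 3040192000) (nat_lit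 152) (nat_lit 9973669222) (nat_lit 12) (nat_lit 5) (nat_lit 13) (nat_lit 5) (nat_lit 14) (nat_lit 4) (nat_lit 288) (nat_lit 227) (nat_lit 205)) (XT.lf (nat_lit 0) (nat_lit 10872824864) (nat_lit 152) (nat_lit 7267938777) (nat_lit 0) (nat_lit 119369021) (nat_lit 12) (nat_lit 5) (nat_lit 14) (nat_lit 4) (nat_lit 12) (nat_lit 4) (nat_lit 289) (nat_lit 227) (nat_lit 204))) (XT.nd (nat_lit 78) (nat_lit 228) (nat_lit 0) (XT.lf (nat_lit 0) (nat_lit 14289410730) (nat_lit 152) (nat_lit 1405532455) (nat_lit 0) (nat_lit 3288760364) (nat_lit 12) (nat_lit 5) (nat_lit 14) (nat_lit 4) (nat_lit 12) (nat_lit 4) (nat_lit 290) (nat_lit 227) (nat_lit 203)) (XT.nd (nat_lit 78) (nat_lit 76) (nat_lit 0) (XT.lf (nat_lit 0) (nat_lit 4788028587) (nat_lit 152) (nat_lit 13095633007) (nat_lit 152) (nat_lit 1859559287) (nat_lit 10) (nat_lit 4) (nat_lit 12) (nat_lit 5) (nat_lit 12) (nat_lit 4) (nat_lit 291) (nat_lit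 227) (nat_lit 202)) (XT.lf (nat_lit 0) (nat_lit 1037711469) (nat_lit 228) (nat_lit 9332977926) (nat_lit 76) (nat_lit 10171424834) (nat_lit 9) (nat_lit 5) (nat_lit 12) (nat_lit 5) (nat_lit 10) (nat_lit 4) (nat_lit 292) (nat_lit 227) (nat_lit 201)))))) (XT.nd (nat_lit 312) (nat_lit 152) (nat_lit 0) (XT.nd (nat_lit 156) (nat_lit 0) (nat_lit 0) (XT.nd (nat_lit 78) (nat_lit 76) (nat_lit 0) (XT.lf (nat_lit 0) (nat_lit 3952928645) (nat_lit 228) (nat_lit 3570318639) (nat_lit 76) (nat_lit 13859496670) (nat_lit 9) (nat_lit 5) (nat_lit 12) (nat_lit 5) (nat_lit 10) (nat_lit 4) (nat_lit 293) (nat_lit 227) (nat_lit 200)) (XT.lf (nat_lit 0) (nat_lit 2454085168) (nat_lit 76) (nat_lit 4536780722) (nat_lit 152) (nat_lit 15275781552) (nat_lit 8) (nat_lit 5) (nat_lit 9) (nat_lit 5) (nat_lit 10) (nat_lit 4) (nat_lit 294) (nat_lit 227) (nat_lit 199))) (XT.nd (nat_lit 78) (nat_lit 0) (nat_lit 0) (XT.lf (nat_lit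 0) (nat_lit 8800420563) (nat_lit 76) (nat_lit 1380698386) (nat_lit 152) (nat_lit 13013692150) (nat_lit 8) (nat_lit 5) (nat_lit 9) (nat_lit 5) (nat_lit 10) (nat_lit 4) (nat_lit 295) (nat_lit 227) (nat_lit 198)) (XT.lf (nat_lit 0) (nat_lit 13503238068) (nat_lit 152) (nat_lit 8836117307) (nat_lit 0) (nat_lit 1831491742) (nat_lit 8) (nat_lit 5) (nat_lit 10) (nat_lit 4) (nat_lit 8) (nat_lit 4) (nat_lit 296) (nat_lit 227) (nat_lit 197)))) (XT.nd (nat_lit 156) (nat_lit 76) (nat_lit 0) (XT.nd (nat_lit 78) (nat_lit 76) (nat_lit 0) (XT.lf (nat_lit 0) (nat_lit 16959022232) (nat_lit 152) (nat_lit 3118397781) (nat_lit 0) (nat_lit 5119964922) (nat_lit 8) (nat_lit 5) (nat_lit 10) (nat_lit 4) (nat_lit 8) (nat_lit 4) (nat_lit 297) (nat_lit 227) (nat_lit 196)) (XT.lf (nat_lit 0) (nat_lit 2886318447) (nat_lit 76) (nat_lit 17693887998) (nat_lit 76) (nat_lit 5695486895) (nat_lit 7) (nat_lit 4) (nat_lit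 8) (nat_lit 5) (nat_lit 8) (nat_lit 4) (nat_lit 298) (nat_lit 227) (nat_lit 195))) (XT.nd (nat_lit 78) (nat_lit 76) (nat_lit 0) (XT.lf (nat_lit 0) (nat_lit 9209736816) (nat_lit 76) (nat_lit 15174167709) (nat_lit 76) (nat_lit 3024010612) (nat_lit 7) (nat_lit 4) (nat_lit 8) (nat_lit 5) (nat_lit 8) (nat_lit 4) (nat_lit 299) (nat_lit 227) (nat_lit 194)) (XT.nd (nat_lit 78) (nat_lit 76) (nat_lit 0) (XT.lf (nat_lit 0) (nat_lit 15763804769) (nat_lit 76) (nat_lit 12565071388) (nat_lit 76) (nat_lit 270384773) (nat_lit 7) (nat_lit 4) (nat_lit 8) (nat_lit 5) (nat_lit 8) (nat_lit 4) (nat_lit 300) (nat_lit 227) (nat_lit 193)) (XT.lf (nat_lit 0) (nat_lit 2489628511) (nat_lit 152) (nat_lit 7328595325) (nat_lit 76) (nat_lit 20032335655) (nat_lit 6) (nat_lit 5) (nat_lit 8) (nat_lit 5) (nat_lit 7) (nat_lit 4) (nat_lit 301) (nat_lit 227) (nat_lit 192))))))))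
noncomputable def xc71 : XT := (XT.nd (nat_lit 1404) (nat_lit 76) (nat_lit 0) (XT.nd (nat_lit 702) (nat_lit 152) (nat_lit 0) (XT.nd (nat_lit 312) (nat_lit 76) (nat_lit 0) (XT.nd (nat_lit 156) (nat_lit 0) (nat_lit 0) (XT.nd (nat_lit 78) (nat_lit 76) (nat_lit 0) (XT.lf (nat_lit 0) (nat_lit 5333405319) (nat_lit 152) (nat_lit 1629945401) (nat_lit 76) (nat_lit 24203166323) (nat_lit 6) (nat_lit 5) (nat_lit 8) (nat_lit 5) (nat_lit 7) (nat_lit 4) (nat_lit 302) (nat_lit 227) (nat_lit 191)) (XT.lf (nat_lit 0) (nat_lit 4419742653) (nat_lit 76) (nat_lit 3925632464) (nat_lit 152) (nat_lit 24201652547) (nat_lit 5) (nat_lit 5) (nat_lit 6) (nat_lit 5) (nat_lit 7) (nat_lit 4) (nat_lit 303) (nat_lit 227) (nat_lit 190))) (XT.nd (nat_lit 78) (nat_lit 0) (nat_lit 0) (XT.lf (nat_lit 0) (nat_lit 10754364787) (nat_lit 76) (nat_lit 739072245) (nat_lit 152) (nat_lit 22503904864) (nat_lit 5) (nat_lit 5) (nat_lit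 6) (nat_lit 5) (nat_lit 7) (nat_lit 4) (nat_lit 304) (nat_lit 227) (nat_lit 189)) (XT.lf (nat_lit 0) (nat_lit 14799020475) (nat_lit 152) (nat_lit 18227340730) (nat_lit 0) (nat_lit 2493854961) (nat_lit 5) (nat_lit 5) (nat_lit 7) (nat_lit 4) (nat_lit 5) (nat_lit 4) (nat_lit 305) (nat_lit 227) (nat_lit 188)))) (XT.nd (nat_lit 156) (nat_lit 76) (nat_lit 0) (XT.nd (nat_lit 78) (nat_lit 0) (nat_lit 0) (XT.lf (nat_lit 0) (nat_lit 18243350198) (nat_lit 152) (nat_lit 13041788199) (nat_lit 0) (nat_lit 5835470254) (nat_lit 5) (nat_lit 5) (nat_lit 7) (nat_lit 4) (nat_lit 5) (nat_lit 4) (nat_lit 306) (nat_lit 227) (nat_lit 187)) (XT.lf (nat_lit 0) (nat_lit 21823087997) (nat_lit 152) (nat_lit 7662433973) (nat_lit 0) (nat_lit 9317384786) (nat_lit 5) (nat_lit 5) (nat_lit 7) (nat_lit 4) (nat_lit 5) (nat_lit 4) (nat_lit 307) (nat_lit 227) (nat_lit 186))) (XT.nd (nat_lit 78) (nat_lit 76) (nat_lit 0)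 (XT.lf (nat_lit 0) (nat_lit 25546757057) (nat_lit 152) (nat_lit 2076470066) (nat_lit 0) (nat_lit 12947888831) (nat_lit 5) (nat_lit 5) (nat_lit 7) (nat_lit 4) (nat_lit 5) (nat_lit 4) (nat_lit 308) (nat_lit 227) (nat_lit 185)) (XT.nd (nat_lit 78) (nat_lit 0) (nat_lit 0) (XT.lf (nat_lit 0) (nat_lit 3852714355) (nat_lit 76) (nat_lit 25630660571) (nat_lit 76) (nat_lit 12943063758) (nat_lit 4) (nat_lit 4) (nat_lit 5) (nat_lit 5) (nat_lit 5) (nat_lit 4) (nat_lit 309) (nat_lit 227) (nat_lit 184)) (XT.lf (nat_lit 0) (nat_lit 10092017630) (nat_lit 76) (nat_lit 23527263328) (nat_lit 76) (nat_lit 10755163100) (nat_lit 4) (nat_lit 4) (nat_lit 5) (nat_lit 5) (nat_lit 5) (nat_lit 4) (nat_lit 310) (nat_lit 227) (nat_lit 183)))))) (XT.nd (nat_lit 312) (nat_lit 152) (nat_lit 0) (XT.nd (nat_lit 156) (nat_lit 0) (nat_lit 0) (XT.nd (nat_lit 78) (nat_lit 0) (nat_lit 0) (XT.lf (nat_lit 0) (nat_lit 16587637765)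 (nat_lit 76) (nat_lit 21343193332) (nat_lit 76) (nat_lit 8490613660) (nat_lit 4) (nat_lit 4) (nat_lit 5) (nat_lit 5) (nat_lit 5) (nat_lit 4) (nat_lit 311) (nat_lit 227) (nat_lit 182)) (XT.lf (nat_lit 0) (nat_lit 23355040521) (nat_lit 76) (nat_lit 19073250415) (nat_lit 76) (nat_lit 6144023654) (nat_lit 4) (nat_lit 4) (nat_lit 5) (nat_lit 5) (nat_lit 5) (nat_lit 4) (nat_lit 312) (nat_lit 227) (nat_lit 181))) (XT.nd (nat_lit 78) (nat_lit 0) (nat_lit 0) (XT.lf (nat_lit 0) (nat_lit 30410338762) (nat_lit 76) (nat_lit 16712029953) (nat_lit 76) (nat_lit 3709805964) (nat_lit 4) (nat_lit 4) (nat_lit 5) (nat_lit 5) (nat_lit 5) (nat_lit 4) (nat_lit 313) (nat_lit 227) (nat_lit 180)) (XT.lf (nat_lit 0) (nat_lit 37770330818) (nat_lit 76) (nat_lit 14253909991) (nat_lit 76) (nat_lit 1182164833) (nat_lit 4) (nat_lit 4) (nat_lit 5) (nat_lit 5) (nat_lit 5) (nat_lit 4) (nat_lit 314) (nat_lit 227) (nat_lit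 179)))) (XT.nd (nat_lit 156) (nat_lit 76) (nat_lit 0) (XT.nd (nat_lit 78) (nat_lit 0) (nat_lit 0) (XT.lf (nat_lit 0) (nat_lit 1398671534) (nat_lit 152) (nat_lit 10270679149) (nat_lit 76) (nat_lit 44030181765) (nat_lit 3) (nat_lit 5) (nat_lit 5) (nat_lit 5) (nat_lit 4) (nat_lit 4) (nat_lit 315) (nat_lit 227) (nat_lit 178)) (XT.lf (nat_lit 0) (nat_lit 4043984887) (nat_lit 152) (nat_lit 4910844526) (nat_lit 76) (nat_lit 49362786992) (nat_lit 3) (nat_lit 5) (nat_lit 5) (nat_lit 5) (nat_lit 4) (nat_lit 4) (nat_lit 316) (nat_lit 227) (nat_lit 177))) (XT.nd (nat_lit 78) (nat_lit 0) (nat_lit 0) (XT.lf (nat_lit 0) (nat_lit 696954354) (nat_lit 76) (nat_lit 6111837303) (nat_lit 152) (nat_lit 54258478161) (nat_lit 2) (nat_lit 5) (nat_lit 3) (nat_lit 5) (nat_lit 4) (nat_lit 4) (nat_lit 317) (nat_lit 227) (nat_lit 176)) (XT.nd (nat_lit 78) (nat_lit 0) (nat_lit 0) (XT.lf (nat_lit 0) (nat_lit 6713985057)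 (nat_lit 76) (nat_lit 3057843645) (nat_lit 152) (nat_lit 54179603084) (nat_lit 2) (nat_lit 5) (nat_lit 3) (nat_lit 5) (nat_lit 4) (nat_lit 4) (nat_lit 318) (nat_lit 227) (nat_lit 175)) (XT.lf (nat_lit 0) (nat_lit 12862992966) (nat_lit 152) (nat_lit 53990779833) (nat_lit 0) (nat_lit 127054454) (nat_lit 2) (nat_lit 5) (nat_lit 4) (nat_lit 4) (nat_lit 2) (nat_lit 4) (nat_lit 319) (nat_lit 227) (nat_lit 174))))))) (XT.nd (nat_lit 702) (nat_lit 76) (nat_lit 0) (XT.nd (nat_lit 312) (nat_lit 0) (nat_lit 0) (XT.nd (nat_lit 156) (nat_lit 0) (nat_lit 0) (XT.nd (nat_lit 78) (nat_lit 0) (nat_lit 0) (XT.lf (nat_lit 0) (nat_lit 16137559653) (nat_lit 152) (nat_lit 50670499906) (nat_lit 0) (nat_lit 3352213743) (nat_lit 2) (nat_lit 5) (nat_lit 4) (nat_lit 4) (nat_lit 2) (nat_lit 4) (nat_lit 320) (nat_lit 227) (nat_lit 173)) (XT.lf (nat_lit 0) (nat_lit 19555583840) (nat_lit 152) (nat_lit 47220960011)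 (nat_lit 0) (nat_lit 6723183267) (nat_lit 2) (nat_lit 5) (nat_lit 4) (nat_lit 4) (nat_lit 2) (nat_lit 4) (nat_lit 321) (nat_lit 227) (nat_lit 172))) (XT.nd (nat_lit 78) (nat_lit 0) (nat_lit 0) (XT.lf (nat_lit 0) (nat_lit 23125203682) (nat_lit 152) (nat_lit 43633946958) (nat_lit 0) (nat_lit 10247989143) (nat_lit 2) (nat_lit 5) (nat_lit 4) (nat_lit 4) (nat_lit 2) (nat_lit 4) (nat_lit 322) (nat_lit 227) (nat_lit 171)) (XT.lf (nat_lit 0) (nat_lit 26854918273) (nat_lit 152) (nat_lit 39900920240) (nat_lit 0) (nat_lit 13935023767) (nat_lit 2) (nat_lit 5) (nat_lit 4) (nat_lit 4) (nat_lit 2) (nat_lit 4) (nat_lit 323) (nat_lit 227) (nat_lit 170)))) (XT.nd (nat_lit 156) (nat_lit 0) (nat_lit 0) (XT.nd (nat_lit 78) (nat_lit 0) (nat_lit 0) (XT.lf (nat_lit 0) (nat_lit 30753607885) (nat_lit 152) (nat_lit 36012991697) (nat_lit 0) (nat_lit 17793065791) (nat_lit 2) (nat_lit 5) (nat_lit 4) (nat_lit 4)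 (nat_lit 2) (nat_lit 4) (nat_lit 324) (nat_lit 227) (nat_lit 169)) (XT.lf (nat_lit 0) (nat_lit 34830555112) (nat_lit 152) (nat_lit 31960904357) (nat_lit 0) (nat_lit 21831301030) (nat_lit 2) (nat_lit 5) (nat_lit 4) (nat_lit 4) (nat_lit 2) (nat_lit 4) (nat_lit 325) (nat_lit 227) (nat_lit 168))) (XT.nd (nat_lit 78) (nat_lit 0) (nat_lit 0) (XT.lf (nat_lit 0) (nat_lit 39095466974) (nat_lit 152) (nat_lit 27735010393) (nat_lit 0) (nat_lit 26059344331) (nat_lit 2) (nat_lit 5) (nat_lit 4) (nat_lit 4) (nat_lit 2) (nat_lit 4) (nat_lit 326) (nat_lit 227) (nat_lit 167)) (XT.nd (nat_lit 78) (nat_lit 0) (nat_lit 0) (XT.lf (nat_lit 0) (nat_lit 43558498020) (nat_lit 152) (nat_lit 23325248152) (nat_lit 0) (nat_lit 30487262463) (nat_lit 2) (nat_lit 5) (nat_lit 4) (nat_lit 4) (nat_lit 2) (nat_lit 4) (nat_lit 327) (nat_lit 227) (nat_lit 166)) (XT.lf (nat_lit 0) (nat_lit 48230274516) (nat_lit 152) (nat_lit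 18721118202) (nat_lit 0) (nat_lit 35125598087) (nat_lit 2) (nat_lit 5) (nat_lit 4) (nat_lit 4) (nat_lit 2) (nat_lit 4) (nat_lit 328) (nat_lit 227) (nat_lit 165)))))) (XT.nd (nat_lit 312) (nat_lit 0) (nat_lit 0) (XT.nd (nat_lit 156) (nat_lit 76) (nat_lit 0) (XT.nd (nat_lit 78) (nat_lit 0) (nat_lit 0) (XT.lf (nat_lit 0) (nat_lit 53121919738) (nat_lit 152) (nat_lit 13911658327) (nat_lit 0) (nat_lit 39985394862) (nat_lit 2) (nat_lit 5) (nat_lit 4) (nat_lit 4) (nat_lit 2) (nat_lit 4) (nat_lit 329) (nat_lit 227) (nat_lit 164)) (XT.lf (nat_lit 0) (nat_lit 58245080462) (nat_lit 152) (nat_lit 8885417432) (nat_lit 0) (nat_lit 45078223730) (nat_lit 2) (nat_lit 5) (nat_lit 4) (nat_lit 4) (nat_lit 2) (nat_lit 4) (nat_lit 330) (nat_lit 227) (nat_lit 163))) (XT.nd (nat_lit 78) (nat_lit 76) (nat_lit 0) (XT.lf (nat_lit 0) (nat_lit 63611954689) (nat_lit 152) (nat_lit 3630428278) (nat_lit 0) (nat_lit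 50416210475) (nat_lit 2) (nat_lit 5) (nat_lit 4) (nat_lit 4) (nat_lit 2) (nat_lit 4) (nat_lit 331) (nat_lit 227) (nat_lit 162)) (XT.lf (nat_lit 0) (nat_lit 1927513483) (nat_lit 76) (nat_lit 67337901095) (nat_lit 76) (nat_lit 54114644994) (nat_lit 1) (nat_lit 4) (nat_lit 2) (nat_lit 5) (nat_lit 2) (nat_lit 4) (nat_lit 332) (nat_lit 227) (nat_lit 161)))) (XT.nd (nat_lit 156) (nat_lit 0) (nat_lit 0) (XT.nd (nat_lit 78) (nat_lit 0) (nat_lit 0) (XT.lf (nat_lit 0) (nat_lit 7868249888) (nat_lit 76) (nat_lit 67383162978) (nat_lit 76) (nat_lit 54133705079) (nat_lit 1) (nat_lit 4) (nat_lit 2) (nat_lit 5) (nat_lit 2) (nat_lit 4) (nat_lit 333) (nat_lit 227) (nat_lit 160)) (XT.lf (nat_lit 0) (nat_lit 14085887191) (nat_lit 76) (nat_lit 67439759443) (nat_lit 76) (nat_lit 54165347451) (nat_lit 1) (nat_lit 4) (nat_lit 2) (nat_lit 5) (nat_lit 2) (nat_lit 4) (nat_lit 334) (nat_lit 227) (nat_lit 159)))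 (XT.nd (nat_lit 78) (nat_lit 0) (nat_lit 0) (XT.lf (nat_lit 0) (nat_lit 20595229293) (nat_lit 76) (nat_lit 67507825243) (nat_lit 76) (nat_lit 54209647448) (nat_lit 1) (nat_lit 4) (nat_lit 2) (nat_lit 5) (nat_lit 2) (nat_lit 4) (nat_lit 335) (nat_lit 227) (nat_lit 158)) (XT.nd (nat_lit 78) (nat_lit 0) (nat_lit 0) (XT.lf (nat_lit 0) (nat_lit 27411774625) (nat_lit 76) (nat_lit 67587522439) (nat_lit 76) (nat_lit 54266710546) (nat_lit 1) (nat_lit 4) (nat_lit 2) (nat_lit 5) (nat_lit 2) (nat_lit 4) (nat_lit 336) (nat_lit 227) (nat_lit 157)) (XT.lf (nat_lit 0) (nat_lit 34551753058) (nat_lit 76) (nat_lit 67679040786) (nat_lit 76) (nat_lit 54336672610) (nat_lit 1) (nat_lit 4) (nat_lit 2) (nat_lit 5) (nat_lit 2) (nat_lit 4) (nat_lit 337) (nat_lit 227) (nat_lit 156))))))))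
noncomputable def xc72 : XT := (XT.nd (nat_lit 1404) (nat_lit 0) (nat_lit 0) (XT.nd (nat_lit 702) (nat_lit 0) (nat_lit 0) (XT.nd (nat_lit 312) (nat_lit 0) (nat_lit 0) (XT.nd (nat_lit 156) (nat_lit 0) (nat_lit 0) (XT.nd (nat_lit 78) (nat_lit 0) (nat_lit 0) (XT.lf (nat_lit 0) (nat_lit 42032164540) (nat_lit 76) (nat_lit 67782598186) (nat_lit 76) (nat_lit 54419700216) (nat_lit 1) (nat_lit 4) (nat_lit 2) (nat_lit 5) (nat_lit 2) (nat_lit 4) (nat_lit 338) (nat_lit 227) (nat_lit 155)) (XT.lf (nat_lit 0) (nat_lit 49870819576) (nat_lit 76) (nat_lit 67898441204) (nat_lit 76) (nat_lit 54515991049) (nat_lit 1) (nat_lit 4) (nat_lit 2) (nat_lit 5) (nat_lit 2) (nat_lit 4) (nat_lit 339) (nat_lit 227) (nat_lit 154))) (XT.nd (nat_lit 78) (nat_lit 0) (nat_lit 0) (XT.lf (nat_lit 0) (nat_lit 58086381629) (nat_lit 76) (nat_lit 68026845657) (nat_lit 76) (nat_lit 54625774373) (nat_lit 1) (nat_lit 4) (nat_lit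 2) (nat_lit 5) (nat_lit 2) (nat_lit 4) (nat_lit 340) (nat_lit 227) (nat_lit 153)) (XT.lf (nat_lit 0) (nat_lit 66698411561) (nat_lit 76) (nat_lit 68168117268) (nat_lit 76) (nat_lit 54749311577) (nat_lit 1) (nat_lit 4) (nat_lit 2) (nat_lit 5) (nat_lit 2) (nat_lit 4) (nat_lit 341) (nat_lit 227) (nat_lit 152)))) (XT.nd (nat_lit 156) (nat_lit 0) (nat_lit 0) (XT.nd (nat_lit 78) (nat_lit 0) (nat_lit 0) (XT.lf (nat_lit 0) (nat_lit 75727414206) (nat_lit 76) (nat_lit 68322592400) (nat_lit 76) (nat_lit 54886896796) (nat_lit 1) (nat_lit 4) (nat_lit 2) (nat_lit 5) (nat_lit 2) (nat_lit 4) (nat_lit 342) (nat_lit 227) (nat_lit 151)) (XT.lf (nat_lit 0) (nat_lit 85194887188) (nat_lit 76) (nat_lit 68490638850) (nat_lit 76) (nat_lit 55038857616) (nat_lit 1) (nat_lit 4) (nat_lit 2) (nat_lit 5) (nat_lit 2) (nat_lit 4) (nat_lit 343) (nat_lit 227) (nat_lit 150))) (XT.nd (nat_lit 78) (nat_lit 0) (nat_lit 0)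 (XT.lf (nat_lit 0) (nat_lit 95123372111) (nat_lit 76) (nat_lit 68672656729) (nat_lit 76) (nat_lit 55205555846) (nat_lit 1) (nat_lit 4) (nat_lit 2) (nat_lit 5) (nat_lit 2) (nat_lit 4) (nat_lit 344) (nat_lit 227) (nat_lit 149)) (XT.nd (nat_lit 78) (nat_lit 0) (nat_lit 0) (XT.lf (nat_lit 0) (nat_lit 105536508225) (nat_lit 76) (nat_lit 68869079412) (nat_lit 76) (nat_lit 55387388389) (nat_lit 1) (nat_lit 4) (nat_lit 2) (nat_lit 5) (nat_lit 2) (nat_lit 4) (nat_lit 345) (nat_lit 227) (nat_lit 148)) (XT.lf (nat_lit 0) (nat_lit 116459088709) (nat_lit 76) (nat_lit 69080374574) (nat_lit 76) (nat_lit 55584788177) (nat_lit 1) (nat_lit 4) (nat_lit 2) (nat_lit 5) (nat_lit 2) (nat_lit 4) (nat_lit 346) (nat_lit 227) (nat_lit 147)))))) (XT.nd (nat_lit 312) (nat_lit 0) (nat_lit 0) (XT.nd (nat_lit 156) (nat_lit 0) (nat_lit 0) (XT.nd (nat_lit 78) (nat_lit 0) (nat_lit 0) (XT.lf (nat_lit 0) (nat_lit 127917119709)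 (nat_lit 76) (nat_lit 69307045297) (nat_lit 76) (nat_lit 55798225212) (nat_lit 1) (nat_lit 4) (nat_lit 2) (nat_lit 5) (nat_lit 2) (nat_lit 4) (nat_lit 347) (nat_lit 227) (nat_lit 146)) (XT.lf (nat_lit 0) (nat_lit 139937882250) (nat_lit 76) (nat_lit 69549631273) (nat_lit 76) (nat_lit 56028207676) (nat_lit 1) (nat_lit 4) (nat_lit 2) (nat_lit 5) (nat_lit 2) (nat_lit 4) (nat_lit 348) (nat_lit 227) (nat_lit 145))) (XT.nd (nat_lit 78) (nat_lit 0) (nat_lit 0) (XT.lf (nat_lit 0) (nat_lit 152549997196) (nat_lit 76) (nat_lit 69808710089) (nat_lit 76) (nat_lit 56275283146) (nat_lit 1) (nat_lit 4) (nat_lit 2) (nat_lit 5) (nat_lit 2) (nat_lit 4) (nat_lit 349) (nat_lit 227) (nat_lit 144)) (XT.lf (nat_lit 0) (nat_lit 165783493391) (nat_lit 76) (nat_lit 70084898598) (nat_lit 76) (nat_lit 56540039898) (nat_lit 1) (nat_lit 4) (nat_lit 2) (nat_lit 5) (nat_lit 2) (nat_lit 4) (nat_lit 350) (nat_lit 227)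 (nat_lit 143)))) (XT.nd (nat_lit 156) (nat_lit 0) (nat_lit 0) (XT.nd (nat_lit 78) (nat_lit 0) (nat_lit 0) (XT.lf (nat_lit 0) (nat_lit 179669879161) (nat_lit 76) (nat_lit 70378854393) (nat_lit 76) (nat_lit 56823108305) (nat_lit 1) (nat_lit 4) (nat_lit 2) (nat_lit 5) (nat_lit 2) (nat_lit 4) (nat_lit 351) (nat_lit 227) (nat_lit 142)) (XT.lf (nat_lit 0) (nat_lit 194242217328) (nat_lit 76) (nat_lit 70691277368) (nat_lit 76) (nat_lit 57125162339) (nat_lit 1) (nat_lit 4) (nat_lit 2) (nat_lit 5) (nat_lit 2) (nat_lit 4) (nat_lit 352) (nat_lit 227) (nat_lit 141))) (XT.nd (nat_lit 78) (nat_lit 0) (nat_lit 0) (XT.lf (nat_lit 0) (nat_lit 209535203936) (nat_lit 76) (nat_lit 71022911388) (nat_lit 76) (nat_lit 57446921176) (nat_lit 1) (nat_lit 4) (nat_lit 2) (nat_lit 5) (nat_lit 2) (nat_lit 4) (nat_lit 353) (nat_lit 227) (nat_lit 140)) (XT.nd (nat_lit 78) (nat_lit 0) (nat_lit 0) (XT.lf (nat_lit 0)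 (nat_lit 225585250857) (nat_lit 76) (nat_lit 71374546056) (nat_lit 76) (nat_lit 57789150910) (nat_lit 1) (nat_lit 4) (nat_lit 2) (nat_lit 5) (nat_lit 2) (nat_lit 4) (nat_lit 354) (nat_lit 227) (nat_lit 139)) (XT.lf (nat_lit 0) (nat_lit 242430572489) (nat_lit 76) (nat_lit 71747018599) (nat_lit 76) (nat_lit 58152666372) (nat_lit 1) (nat_lit 4) (nat_lit 2) (nat_lit 5) (nat_lit 2) (nat_lit 4) (nat_lit 355) (nat_lit 227) (nat_lit 138))))))) (XT.nd (nat_lit 702) (nat_lit 0) (nat_lit 0) (XT.nd (nat_lit 312) (nat_lit 0) (nat_lit 0) (XT.nd (nat_lit 156) (nat_lit 0) (nat_lit 0) (XT.nd (nat_lit 78) (nat_lit 0) (nat_lit 0) (XT.lf (nat_lit 0) (nat_lit 260111276741) (nat_lit 76) (nat_lit 72141215856) (nat_lit 76) (nat_lit 58538333075) (nat_lit 1) (nat_lit 4) (nat_lit 2) (nat_lit 5) (nat_lit 2) (nat_lit 4) (nat_lit 356) (nat_lit 227) (nat_lit 137)) (XT.lf (nat_lit 0) (nat_lit 278669460527) (nat_lit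 76) (nat_lit 72558076392) (nat_lit 76) (nat_lit 58947069274) (nat_lit 1) (nat_lit 4) (nat_lit 2) (nat_lit 5) (nat_lit 2) (nat_lit 4) (nat_lit 357) (nat_lit 227) (nat_lit 136))) (XT.nd (nat_lit 78) (nat_lit 0) (nat_lit 0) (XT.lf (nat_lit 0) (nat_lit 298149309999) (nat_lit 76) (nat_lit 72998592731) (nat_lit 76) (nat_lit 59379848150) (nat_lit 1) (nat_lit 4) (nat_lit 2) (nat_lit 5) (nat_lit 2) (nat_lit 4) (nat_lit 358) (nat_lit 227) (nat_lit 135)) (XT.lf (nat_lit 0) (nat_lit 318597205752) (nat_lit 76) (nat_lit 73463813723) (nat_lit 76) (nat_lit 59837700130) (nat_lit 1) (nat_lit 4) (nat_lit 2) (nat_lit 5) (nat_lit 2) (nat_lit 4) (nat_lit 359) (nat_lit 227) (nat_lit 134)))) (XT.nd (nat_lit 156) (nat_lit 0) (nat_lit 0) (XT.nd (nat_lit 78) (nat_lit 0) (nat_lit 0) (XT.lf (nat_lit 0) (nat_lit 340061833251) (nat_lit 76) (nat_lit 73954847037) (nat_lit 76) (nat_lit 60321715335) (nat_lit 1) (nat_lit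 4) (nat_lit 2) (nat_lit 5) (nat_lit 2) (nat_lit 4) (nat_lit 360) (nat_lit 227) (nat_lit 133)) (XT.lf (nat_lit 0) (nat_lit 362594298752) (nat_lit 76) (nat_lit 74472861798) (nat_lit 76) (nat_lit 60833046185) (nat_lit 1) (nat_lit 4) (nat_lit 2) (nat_lit 5) (nat_lit 2) (nat_lit 4) (nat_lit 361) (nat_lit 227) (nat_lit 132))) (XT.nd (nat_lit 78) (nat_lit 0) (nat_lit 0) (XT.lf (nat_lit 0) (nat_lit 386248250983) (nat_lit 76) (nat_lit 75019091377) (nat_lit 76) (nat_lit 61372910133) (nat_lit 1) (nat_lit 4) (nat_lit 2) (nat_lit 5) (nat_lit 2) (nat_lit 4) (nat_lit 362) (nat_lit 227) (nat_lit 131)) (XT.nd (nat_lit 78) (nat_lit 0) (nat_lit 0) (XT.lf (nat_lit 0) (nat_lit 411080008878) (nat_lit 76) (nat_lit 75594836318) (nat_lit 76) (nat_lit 61942592570) (nat_lit 1) (nat_lit 4) (nat_lit 2) (nat_lit 5) (nat_lit 2) (nat_lit 4) (nat_lit 363) (nat_lit 227) (nat_lit 130)) (XT.lf (nat_lit 0) (nat_lit 437148695669)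 (nat_lit 76) (nat_lit 76201467445) (nat_lit 76) (nat_lit 62543449882) (nat_lit 1) (nat_lit 4) (nat_lit 2) (nat_lit 5) (nat_lit 2) (nat_lit 4) (nat_lit 364) (nat_lit 227) (nat_lit 129)))))) (XT.nd (nat_lit 29874) (nat_lit 0) (nat_lit 2280) (XT.nd (nat_lit 29718) (nat_lit 0) (nat_lit 3040) (XT.nd (nat_lit 29640) (nat_lit 0) (nat_lit 3572) (XT.lf (nat_lit 0) (nat_lit 464516379659) (nat_lit 76) (nat_lit 76840429116) (nat_lit 76) (nat_lit 63176912683) (nat_lit 1) (nat_lit 4) (nat_lit 2) (nat_lit 5) (nat_lit 2) (nat_lit 4) (nat_lit 365) (nat_lit 227) (nat_lit 128)) (XT.lf (nat_lit 0) (nat_lit 3871530728) (nat_lit 304) (nat_lit 171703235) (nat_lit 304) (nat_lit 171703235) (nat_lit 48) (nat_lit 4) (nat_lit 52) (nat_lit 5) (nat_lit 52) (nat_lit 4) (nat_lit 264) (nat_lit 228) (nat_lit 228))) (XT.nd (nat_lit 78) (nat_lit 228) (nat_lit 0) (XT.lf (nat_lit 0) (nat_lit 2959192468) (nat_lit 304) (nat_lit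 3765070621) (nat_lit 0) (nat_lit 1890831986) (nat_lit 44) (nat_lit 5) (nat_lit 48) (nat_lit 4) (nat_lit 44) (nat_lit 4) (nat_lit 265) (nat_lit 228) (nat_lit 227)) (XT.lf (nat_lit 0) (nat_lit 1739492472) (nat_lit 228) (nat_lit 4580447782) (nat_lit 228) (nat_lit 2494601127) (nat_lit 41) (nat_lit 4) (nat_lit 44) (nat_lit 5) (nat_lit 44) (nat_lit 4) (nat_lit 266) (nat_lit 228) (nat_lit 226)))) (XT.nd (nat_lit 156) (nat_lit 456) (nat_lit 0) (XT.nd (nat_lit 78) (nat_lit 228) (nat_lit 0) (XT.lf (nat_lit 0) (nat_lit 724309690) (nat_lit 304) (nat_lit 1570046241) (nat_lit 76) (nat_lit 6733093114) (nat_lit 40) (nat_lit 5) (nat_lit 44) (nat_lit 5) (nat_lit 41) (nat_lit 4) (nat_lit 267) (nat_lit 228) (nat_lit 225)) (XT.lf (nat_lit 0) (nat_lit 3955167446) (nat_lit 304) (nat_lit 5130643526) (nat_lit 0) (nat_lit 166814056) (nat_lit 37) (nat_lit 5) (nat_lit 41) (nat_lit 4) (nat_lit 37) (nat_lit 4)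 (nat_lit 268) (nat_lit 228) (nat_lit 224))) (XT.nd (nat_lit 78) (nat_lit 228) (nat_lit 0) (XT.lf (nat_lit 0) (nat_lit 462340296) (nat_lit 228) (nat_lit 6827713508) (nat_lit 228) (nat_lit 2202271725) (nat_lit 34) (nat_lit 4) (nat_lit 37) (nat_lit 5) (nat_lit 37) (nat_lit 4) (nat_lit 269) (nat_lit 228) (nat_lit 223)) (XT.nd (nat_lit 78) (nat_lit 152) (nat_lit 0) (XT.lf (nat_lit 0) (nat_lit 974059162) (nat_lit 304) (nat_lit 3425847539) (nat_lit 76) (nat_lit 5345644355) (nat_lit 33) (nat_lit 5) (nat_lit 37) (nat_lit 5) (nat_lit 34) (nat_lit 4) (nat_lit 270) (nat_lit 228) (nat_lit 222)) (XT.lf (nat_lit 0) (nat_lit 2323919786) (nat_lit 152) (nat_lit 1825276535) (nat_lit 228) (nat_lit 5865073278) (nat_lit 31) (nat_lit 5) (nat_lit 33) (nat_lit 5) (nat_lit 34) (nat_lit 4) (nat_lit 271) (nat_lit 228) (nat_lit 221))))))))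
noncomputable def xc73 : XT := (XT.nd (nat_lit 1404) (nat_lit 532) (nat_lit 0) (XT.nd (nat_lit 702) (nat_lit 608) (nat_lit 0) (XT.nd (nat_lit 312) (nat_lit 380) (nat_lit 0) (XT.nd (nat_lit 156) (nat_lit 152) (nat_lit 0) (XT.nd (nat_lit 78) (nat_lit 304) (nat_lit 0) (XT.lf (nat_lit 0) (nat_lit 7435859068) (nat_lit 228) (nat_lit 2003617972) (nat_lit 0) (nat_lit 859629449) (nat_lit 31) (nat_lit 5) (nat_lit 34) (nat_lit 4) (nat_lit 31) (nat_lit 4) (nat_lit 272) (nat_lit 228) (nat_lit 220)) (XT.lf (nat_lit 0) (nat_lit 255284368) (nat_lit 304) (nat_lit 6708777322) (nat_lit 76) (nat_lit 3635396524) (nat_lit 27) (nat_lit 5) (nat_lit 31) (nat_lit 5) (nat_lit 28) (nat_lit 4) (nat_lit 273) (nat_lit 228) (nat_lit 219))) (XT.nd (nat_lit 78) (nat_lit 152) (nat_lit 0) (XT.lf (nat_lit 0) (nat_lit 3354570355) (nat_lit 304) (nat_lit 979889295) (nat_lit 76) (nat_lit 6582245546) (nat_lit 27) (nat_lit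 5) (nat_lit 31) (nat_lit 5) (nat_lit 28) (nat_lit 4) (nat_lit 274) (nat_lit 228) (nat_lit 218)) (XT.lf (nat_lit 0) (nat_lit 5036136252) (nat_lit 152) (nat_lit 1543277342) (nat_lit 228) (nat_lit 4672135259) (nat_lit 25) (nat_lit 5) (nat_lit 27) (nat_lit 5) (nat_lit 28) (nat_lit 4) (nat_lit 275) (nat_lit 228) (nat_lit 217)))) (XT.nd (nat_lit 156) (nat_lit 152) (nat_lit 0) (XT.nd (nat_lit 78) (nat_lit 228) (nat_lit 0) (XT.lf (nat_lit 0) (nat_lit 9897851624) (nat_lit 228) (nat_lit 399861396) (nat_lit 0) (nat_lit 1309055442) (nat_lit 25) (nat_lit 5) (nat_lit 28) (nat_lit 4) (nat_lit 25) (nat_lit 4) (nat_lit 276) (nat_lit 228) (nat_lit 216)) (XT.lf (nat_lit 0) (nat_lit 1370874523) (nat_lit 228) (nat_lit 6292403068) (nat_lit 76) (nat_lit 4314939694) (nat_lit 22) (nat_lit 5) (nat_lit 25) (nat_lit 5) (nat_lit 23) (nat_lit 4) (nat_lit 277) (nat_lit 228) (nat_lit 215))) (XT.nd (nat_lit 78) (nat_lit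 152) (nat_lit 0) (XT.lf (nat_lit 0) (nat_lit 4453584936) (nat_lit 228) (nat_lit 462274967) (nat_lit 76) (nat_lit 7455877048) (nat_lit 22) (nat_lit 5) (nat_lit 25) (nat_lit 5) (nat_lit 23) (nat_lit 4) (nat_lit 278) (nat_lit 228) (nat_lit 214)) (XT.nd (nat_lit 78) (nat_lit 0) (nat_lit 0) (XT.lf (nat_lit 0) (nat_lit 5693093253) (nat_lit 152) (nat_lit 1990486980) (nat_lit 228) (nat_lit 5101901729) (nat_lit 20) (nat_lit 5) (nat_lit 22) (nat_lit 5) (nat_lit 23) (nat_lit 4) (nat_lit 279) (nat_lit 228) (nat_lit 213)) (XT.lf (nat_lit 0) (nat_lit 11005632926) (nat_lit 228) (nat_lit 1214386113) (nat_lit 0) (nat_lit 1003564284) (nat_lit 20) (nat_lit 5) (nat_lit 23) (nat_lit 4) (nat_lit 20) (nat_lit 4) (nat_lit 280) (nat_lit 228) (nat_lit 212)))))) (XT.nd (nat_lit 312) (nat_lit 304) (nat_lit 0) (XT.nd (nat_lit 156) (nat_lit 76) (nat_lit 0) (XT.nd (nat_lit 78) (nat_lit 0) (nat_lit 0) (XT.lf (nat_lit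 0) (nat_lit 804381290) (nat_lit 228) (nat_lit 8755740826) (nat_lit 76) (nat_lit 4122008119) (nat_lit 17) (nat_lit 5) (nat_lit 20) (nat_lit 5) (nat_lit 18) (nat_lit 4) (nat_lit 281) (nat_lit 228) (nat_lit 211)) (XT.lf (nat_lit 0) (nat_lit 3834873828) (nat_lit 228) (nat_lit 2926710961) (nat_lit 76) (nat_lit 7403792773) (nat_lit 17) (nat_lit 5) (nat_lit 20) (nat_lit 5) (nat_lit 18) (nat_lit 4) (nat_lit 282) (nat_lit 228) (nat_lit 210))) (XT.nd (nat_lit 78) (nat_lit 0) (nat_lit 0) (XT.lf (nat_lit 0) (nat_lit 3157888021) (nat_lit 76) (nat_lit 3823238429) (nat_lit 152) (nat_lit 7693611088) (nat_lit 16) (nat_lit 5) (nat_lit 17) (nat_lit 5) (nat_lit 18) (nat_lit 4) (nat_lit 283) (nat_lit 228) (nat_lit 209)) (XT.lf (nat_lit 0) (nat_lit 9513580181) (nat_lit 76) (nat_lit 737555868) (nat_lit 152) (nat_lit 4960261587) (nat_lit 16) (nat_lit 5) (nat_lit 17) (nat_lit 5) (nat_lit 18) (nat_lit 4) (nat_lit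 284) (nat_lit 228) (nat_lit 208)))) (XT.nd (nat_lit 156) (nat_lit 76) (nat_lit 0) (XT.nd (nat_lit 78) (nat_lit 76) (nat_lit 0) (XT.lf (nat_lit 0) (nat_lit 249412711) (nat_lit 152) (nat_lit 13398266687) (nat_lit 152) (nat_lit 2129206666) (nat_lit 14) (nat_lit 4) (nat_lit 16) (nat_lit 5) (nat_lit 16) (nat_lit 4) (nat_lit 285) (nat_lit 228) (nat_lit 207)) (XT.lf (nat_lit 0) (nat_lit 847011838) (nat_lit 228) (nat_lit 9833152239) (nat_lit 76) (nat_lit 5688429520) (nat_lit 13) (nat_lit 5) (nat_lit 16) (nat_lit 5) (nat_lit 14) (nat_lit 4) (nat_lit 286) (nat_lit 228) (nat_lit 206))) (XT.nd (nat_lit 78) (nat_lit 76) (nat_lit 0) (XT.lf (nat_lit 0) (nat_lit 3824711363) (nat_lit 228) (nat_lit 4015026772) (nat_lit 76) (nat_lit 9152318826) (nat_lit 13) (nat_lit 5) (nat_lit 16) (nat_lit 5) (nat_lit 14) (nat_lit 4) (nat_lit 287) (nat_lit 228) (nat_lit 205)) (XT.nd (nat_lit 78) (nat_lit 0) (nat_lit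 0) (XT.lf (nat_lit 0) (nat_lit 2039267918) (nat_lit 76) (nat_lit 4871700348) (nat_lit 152) (nat_lit 10737862536) (nat_lit 12) (nat_lit 5) (nat_lit 13) (nat_lit 5) (nat_lit 14) (nat_lit 4) (nat_lit 288) (nat_lit 228) (nat_lit 204)) (XT.lf (nat_lit 0) (nat_lit 8417599235) (nat_lit 76) (nat_lit 1731361989) (nat_lit 152) (nat_lit 8189726119) (nat_lit 12) (nat_lit 5) (nat_lit 13) (nat_lit 5) (nat_lit 14) (nat_lit 4) (nat_lit 289) (nat_lit 228) (nat_lit 203))))))) (XT.nd (nat_lit 702) (nat_lit 228) (nat_lit 0) (XT.nd (nat_lit 312) (nat_lit 76) (nat_lit 0) (XT.nd (nat_lit 156) (nat_lit 76) (nat_lit 0) (XT.nd (nat_lit 78) (nat_lit 152) (nat_lit 0) (XT.lf (nat_lit 0) (nat_lit 13505384538) (nat_lit 152) (nat_lit 4087851550) (nat_lit 0) (nat_lit 1472083776) (nat_lit 12) (nat_lit 5) (nat_lit 14) (nat_lit 4) (nat_lit 12) (nat_lit 4) (nat_lit 290) (nat_lit 228) (nat_lit 202)) (XT.lf (nat_lit 0)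 (nat_lit 1961725203) (nat_lit 152) (nat_lit 15062230215) (nat_lit 152) (nat_lit 2804716734) (nat_lit 10) (nat_lit 4) (nat_lit 12) (nat_lit 5) (nat_lit 12) (nat_lit 4) (nat_lit 291) (nat_lit 228) (nat_lit 201))) (XT.nd (nat_lit 78) (nat_lit 0) (nat_lit 0) (XT.lf (nat_lit 0) (nat_lit 91378751) (nat_lit 228) (nat_lit 12283722962) (nat_lit 76) (nat_lit 8254819146) (nat_lit 9) (nat_lit 5) (nat_lit 12) (nat_lit 5) (nat_lit 10) (nat_lit 4) (nat_lit 292) (nat_lit 228) (nat_lit 200)) (XT.lf (nat_lit 0) (nat_lit 2976666202) (nat_lit 228) (nat_lit 6572251233) (nat_lit 76) (nat_lit 11923173653) (nat_lit 9) (nat_lit 5) (nat_lit 12) (nat_lit 5) (nat_lit 10) (nat_lit 4) (nat_lit 293) (nat_lit 228) (nat_lit 199)))) (XT.nd (nat_lit 156) (nat_lit 0) (nat_lit 0) (XT.nd (nat_lit 78) (nat_lit 76) (nat_lit 0) (XT.lf (nat_lit 0) (nat_lit 5947783800) (nat_lit 228) (nat_lit 675143533) (nat_lit 76) (nat_lit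 15736450148) (nat_lit 9) (nat_lit 5) (nat_lit 12) (nat_lit 5) (nat_lit 10) (nat_lit 4) (nat_lit 294) (nat_lit 228) (nat_lit 198)) (XT.lf (nat_lit 0) (nat_lit 5600904802) (nat_lit 76) (nat_lit 3498346654) (nat_lit 152) (nat_lit 14190268880) (nat_lit 8) (nat_lit 5) (nat_lit 9) (nat_lit 5) (nat_lit 10) (nat_lit 4) (nat_lit 295) (nat_lit 228) (nat_lit 197))) (XT.nd (nat_lit 78) (nat_lit 0) (nat_lit 0) (XT.lf (nat_lit 0) (nat_lit 12120551472) (nat_lit 76) (nat_lit 244711302) (nat_lit 152) (nat_lit 11903136995) (nat_lit 8) (nat_lit 5) (nat_lit 9) (nat_lit 5) (nat_lit 10) (nat_lit 4) (nat_lit 296) (nat_lit 228) (nat_lit 196)) (XT.nd (nat_lit 78) (nat_lit 0) (nat_lit 0) (XT.lf (nat_lit 0) (nat_lit 15791639637) (nat_lit 152) (nat_lit 6470829844) (nat_lit 0) (nat_lit 3033974685) (nat_lit 8) (nat_lit 5) (nat_lit 10) (nat_lit 4) (nat_lit 8) (nat_lit 4) (nat_lit 297) (nat_lit 228) (nat_lit 195))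 (XT.lf (nat_lit 0) (nat_lit 19343392072) (nat_lit 152) (nat_lit 600895452) (nat_lit 0) (nat_lit 6433971127) (nat_lit 8) (nat_lit 5) (nat_lit 10) (nat_lit 4) (nat_lit 8) (nat_lit 4) (nat_lit 298) (nat_lit 228) (nat_lit 194)))))) (XT.nd (nat_lit 312) (nat_lit 76) (nat_lit 0) (XT.nd (nat_lit 156) (nat_lit 76) (nat_lit 0) (XT.nd (nat_lit 78) (nat_lit 0) (nat_lit 0) (XT.lf (nat_lit 0) (nat_lit 5660936874) (nat_lit 76) (nat_lit 17452602219) (nat_lit 76) (nat_lit 4398651756) (nat_lit 7) (nat_lit 4) (nat_lit 8) (nat_lit 5) (nat_lit 8) (nat_lit 4) (nat_lit 299) (nat_lit 228) (nat_lit 193)) (XT.lf (nat_lit 0) (nat_lit 12175273662) (nat_lit 76) (nat_lit 14860514019) (nat_lit 76) (nat_lit 1668916396) (nat_lit 7) (nat_lit 4) (nat_lit 8) (nat_lit 5) (nat_lit 8) (nat_lit 4) (nat_lit 300) (nat_lit 228) (nat_lit 192))) (XT.nd (nat_lit 78) (nat_lit 0) (nat_lit 0) (XT.lf (nat_lit 0) (nat_lit 1113834029)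 (nat_lit 152) (nat_lit 11039330395) (nat_lit 76) (nat_lit 17805059569) (nat_lit 6) (nat_lit 5) (nat_lit 8) (nat_lit 5) (nat_lit 7) (nat_lit 4) (nat_lit 301) (nat_lit 228) (nat_lit 191)) (XT.lf (nat_lit 0) (nat_lit 3936635023) (nat_lit 152) (nat_lit 5377438389) (nat_lit 76) (nat_lit 21961183948) (nat_lit 6) (nat_lit 5) (nat_lit 8) (nat_lit 5) (nat_lit 7) (nat_lit 4) (nat_lit 302) (nat_lit 228) (nat_lit 190)))) (XT.nd (nat_lit 156) (nat_lit 0) (nat_lit 0) (XT.nd (nat_lit 78) (nat_lit 0) (nat_lit 0) (XT.lf (nat_lit 0) (nat_lit 512175576) (nat_lit 76) (nat_lit 6355444206) (nat_lit 152) (nat_lit 25792223188) (nat_lit 5) (nat_lit 5) (nat_lit 6) (nat_lit 5) (nat_lit 7) (nat_lit 4) (nat_lit 303) (nat_lit 228) (nat_lit 189)) (XT.lf (nat_lit 0) (nat_lit 6812354807) (nat_lit 76) (nat_lit 3183763458) (nat_lit 152) (nat_lit 24115041619) (nat_lit 5) (nat_lit 5) (nat_lit 6) (nat_lit 5) (nat_lit 7)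 (nat_lit 4) (nat_lit 304) (nat_lit 228) (nat_lit 188))) (XT.nd (nat_lit 78) (nat_lit 0) (nat_lit 0) (XT.lf (nat_lit 0) (nat_lit 13244680139) (nat_lit 152) (nat_lit 22278536671) (nat_lit 0) (nat_lit 113691768) (nat_lit 5) (nat_lit 5) (nat_lit 7) (nat_lit 4) (nat_lit 5) (nat_lit 4) (nat_lit 305) (nat_lit 228) (nat_lit 187)) (XT.nd (nat_lit 78) (nat_lit 0) (nat_lit 0) (XT.lf (nat_lit 0) (nat_lit 16671054540) (nat_lit 152) (nat_lit 17124923618) (nat_lit 0) (nat_lit 3442242902) (nat_lit 5) (nat_lit 5) (nat_lit 7) (nat_lit 4) (nat_lit 5) (nat_lit 4) (nat_lit 306) (nat_lit 228) (nat_lit 186)) (XT.lf (nat_lit 0) (nat_lit 20233692032) (nat_lit 152) (nat_lit 11775987944) (nat_lit 0) (nat_lit 6911715379) (nat_lit 5) (nat_lit 5) (nat_lit 7) (nat_lit 4) (nat_lit 5) (nat_lit 4) (nat_lit 307) (nat_lit 228) (nat_lit 185))))))))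
noncomputable def xc74 : XT := (XT.nd (nat_lit 1404) (nat_lit 76) (nat_lit 0) (XT.nd (nat_lit 702) (nat_lit 76) (nat_lit 0) (XT.nd (nat_lit 312) (nat_lit 76) (nat_lit 0) (XT.nd (nat_lit 156) (nat_lit 76) (nat_lit 0) (XT.nd (nat_lit 78) (nat_lit 0) (nat_lit 0) (XT.lf (nat_lit 0) (nat_lit 23941075086) (nat_lit 152) (nat_lit 6218994086) (nat_lit 0) (nat_lit 10530369847) (nat_lit 5) (nat_lit 5) (nat_lit 7) (nat_lit 4) (nat_lit 5) (nat_lit 4) (nat_lit 308) (nat_lit 228) (nat_lit 184)) (XT.lf (nat_lit 0) (nat_lit 27802030805) (nat_lit 152) (nat_lit 440711107) (nat_lit 0) (nat_lit 14306822150) (nat_lit 5) (nat_lit 5) (nat_lit 7) (nat_lit 4) (nat_lit 5) (nat_lit 4) (nat_lit 309) (nat_lit 228) (nat_lit 183))) (XT.nd (nat_lit 78) (nat_lit 0) (nat_lit 0) (XT.lf (nat_lit 0) (nat_lit 5756874754) (nat_lit 76) (nat_lit 26158758134) (nat_lit 76) (nat_lit 12583070035) (nat_lit 4) (nat_lit 4) (nat_lit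 5) (nat_lit 5) (nat_lit 5) (nat_lit 4) (nat_lit 310) (nat_lit 228) (nat_lit 182)) (XT.lf (nat_lit 0) (nat_lit 12226642018) (nat_lit 76) (nat_lit 23986068909) (nat_lit 76) (nat_lit 10333733721) (nat_lit 4) (nat_lit 4) (nat_lit 5) (nat_lit 5) (nat_lit 5) (nat_lit 4) (nat_lit 311) (nat_lit 228) (nat_lit 181)))) (XT.nd (nat_lit 156) (nat_lit 76) (nat_lit 0) (XT.nd (nat_lit 78) (nat_lit 0) (nat_lit 0) (XT.lf (nat_lit 0) (nat_lit 18969422992) (nat_lit 76) (nat_lit 21726964821) (nat_lit 76) (nat_lit 8001632406) (nat_lit 4) (nat_lit 4) (nat_lit 5) (nat_lit 5) (nat_lit 5) (nat_lit 4) (nat_lit 312) (nat_lit 228) (nat_lit 180)) (XT.lf (nat_lit 0) (nat_lit 26001271917) (nat_lit 76) (nat_lit 19376067053) (nat_lit 76) (nat_lit 5581213468) (nat_lit 4) (nat_lit 4) (nat_lit 5) (nat_lit 5) (nat_lit 5) (nat_lit 4) (nat_lit 313) (nat_lit 228) (nat_lit 179))) (XT.nd (nat_lit 78) (nat_lit 76) (nat_lit 0)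 (XT.lf (nat_lit 0) (nat_lit 33338931291) (nat_lit 76) (nat_lit 16927778229) (nat_lit 76) (nat_lit 3066714007) (nat_lit 4) (nat_lit 4) (nat_lit 5) (nat_lit 5) (nat_lit 5) (nat_lit 4) (nat_lit 314) (nat_lit 228) (nat_lit 178)) (XT.nd (nat_lit 78) (nat_lit 76) (nat_lit 0) (XT.lf (nat_lit 0) (nat_lit 40999871731) (nat_lit 76) (nat_lit 14376269089) (nat_lit 76) (nat_lit 452147117) (nat_lit 4) (nat_lit 4) (nat_lit 5) (nat_lit 5) (nat_lit 5) (nat_lit 4) (nat_lit 315) (nat_lit 228) (nat_lit 177)) (XT.lf (nat_lit 0) (nat_lit 2196099396) (nat_lit 152) (nat_lit 9482173209) (nat_lit 76) (nat_lit 46769042170) (nat_lit 3) (nat_lit 5) (nat_lit 5) (nat_lit 5) (nat_lit 4) (nat_lit 4) (nat_lit 316) (nat_lit 228) (nat_lit 176)))))) (XT.nd (nat_lit 312) (nat_lit 0) (nat_lit 0) (XT.nd (nat_lit 156) (nat_lit 0) (nat_lit 0) (XT.nd (nat_lit 78) (nat_lit 76) (nat_lit 0) (XT.lf (nat_lit 0) (nat_lit 4939035831)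 (nat_lit 152) (nat_lit 3916348755) (nat_lit 76) (nat_lit 52342689500) (nat_lit 3) (nat_lit 5) (nat_lit 5) (nat_lit 5) (nat_lit 4) (nat_lit 4) (nat_lit 317) (nat_lit 228) (nat_lit 175)) (XT.lf (nat_lit 0) (nat_lit 1951839456) (nat_lit 76) (nat_lit 5876298749) (nat_lit 152) (nat_lit 56257806372) (nat_lit 2) (nat_lit 5) (nat_lit 3) (nat_lit 5) (nat_lit 4) (nat_lit 4) (nat_lit 318) (nat_lit 228) (nat_lit 174))) (XT.nd (nat_lit 78) (nat_lit 0) (nat_lit 0) (XT.lf (nat_lit 0) (nat_lit 8211624676) (nat_lit 76) (nat_lit 2695373522) (nat_lit 152) (nat_lit 56208968288) (nat_lit 2) (nat_lit 5) (nat_lit 3) (nat_lit 5) (nat_lit 4) (nat_lit 4) (nat_lit 319) (nat_lit 228) (nat_lit 173)) (XT.lf (nat_lit 0) (nat_lit 14129594340) (nat_lit 152) (nat_lit 55559908344) (nat_lit 0) (nat_lit 608519074) (nat_lit 2) (nat_lit 5) (nat_lit 4) (nat_lit 4) (nat_lit 2) (nat_lit 4) (nat_lit 320) (nat_lit 228) (nat_lit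 172)))) (XT.nd (nat_lit 156) (nat_lit 0) (nat_lit 0) (XT.nd (nat_lit 78) (nat_lit 0) (nat_lit 0) (XT.lf (nat_lit 0) (nat_lit 17538201183) (nat_lit 152) (nat_lit 52127443491) (nat_lit 0) (nat_lit 3972311952) (nat_lit 2) (nat_lit 5) (nat_lit 4) (nat_lit 4) (nat_lit 2) (nat_lit 4) (nat_lit 321) (nat_lit 228) (nat_lit 171)) (XT.lf (nat_lit 0) (nat_lit 21098852126) (nat_lit 152) (nat_lit 48556692383) (nat_lit 0) (nat_lit 7490282927) (nat_lit 2) (nat_lit 5) (nat_lit 4) (nat_lit 4) (nat_lit 2) (nat_lit 4) (nat_lit 322) (nat_lit 228) (nat_lit 170))) (XT.nd (nat_lit 78) (nat_lit 0) (nat_lit 0) (XT.lf (nat_lit 0) (nat_lit 24820024907) (nat_lit 152) (nat_lit 44839153231) (nat_lit 0) (nat_lit 11170808121) (nat_lit 2) (nat_lit 5) (nat_lit 4) (nat_lit 4) (nat_lit 2) (nat_lit 4) (nat_lit 323) (nat_lit 228) (nat_lit 169)) (XT.nd (nat_lit 78) (nat_lit 0) (nat_lit 0) (XT.lf (nat_lit 0) (nat_lit 28710579463)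 (nat_lit 152) (nat_lit 40965974752) (nat_lit 0) (nat_lit 15022650689) (nat_lit 2) (nat_lit 5) (nat_lit 4) (nat_lit 4) (nat_lit 2) (nat_lit 4) (nat_lit 324) (nat_lit 228) (nat_lit 168)) (XT.lf (nat_lit 0) (nat_lit 32779779019) (nat_lit 152) (nat_lit 36927935091) (nat_lit 0) (nat_lit 19054981684) (nat_lit 2) (nat_lit 5) (nat_lit 4) (nat_lit 4) (nat_lit 2) (nat_lit 4) (nat_lit 325) (nat_lit 228) (nat_lit 167))))))) (XT.nd (nat_lit 702) (nat_lit 0) (nat_lit 0) (XT.nd (nat_lit 312) (nat_lit 76) (nat_lit 0) (XT.nd (nat_lit 156) (nat_lit 0) (nat_lit 0) (XT.nd (nat_lit 78) (nat_lit 0) (nat_lit 0) (XT.lf (nat_lit 0) (nat_lit 37037312144) (nat_lit 152) (nat_lit 32715419870) (nat_lit 0) (nat_lit 23277401895) (nat_lit 2) (nat_lit 5) (nat_lit 4) (nat_lit 4) (nat_lit 2) (nat_lit 4) (nat_lit 326) (nat_lit 228) (nat_lit 166)) (XT.lf (nat_lit 0) (nat_lit 41493315823) (nat_lit 152) (nat_lit 28318399289)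 (nat_lit 0) (nat_lit 27699964703) (nat_lit 2) (nat_lit 5) (nat_lit 4) (nat_lit 4) (nat_lit 2) (nat_lit 4) (nat_lit 327) (nat_lit 228) (nat_lit 165))) (XT.nd (nat_lit 78) (nat_lit 0) (nat_lit 0) (XT.lf (nat_lit 0) (nat_lit 46158399589) (nat_lit 152) (nat_lit 23726404251) (nat_lit 0) (nat_lit 32333200019) (nat_lit 2) (nat_lit 5) (nat_lit 4) (nat_lit 4) (nat_lit 2) (nat_lit 4) (nat_lit 328) (nat_lit 228) (nat_lit 164)) (XT.lf (nat_lit 0) (nat_lit 51043670782) (nat_lit 152) (nat_lit 18928501437) (nat_lit 0) (nat_lit 37188139357) (nat_lit 2) (nat_lit 5) (nat_lit 4) (nat_lit 4) (nat_lit 2) (nat_lit 4) (nat_lit 329) (nat_lit 228) (nat_lit 163)))) (XT.nd (nat_lit 156) (nat_lit 76) (nat_lit 0) (XT.nd (nat_lit 78) (nat_lit 0) (nat_lit 0) (XT.lf (nat_lit 0) (nat_lit 56160761002) (nat_lit 152) (nat_lit 13913267267) (nat_lit 0) (nat_lit 42276342095) (nat_lit 2) (nat_lit 5) (nat_lit 4) (nat_lit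 4) (nat_lit 2) (nat_lit 4) (nat_lit 330) (nat_lit 228) (nat_lit 162)) (XT.lf (nat_lit 0) (nat_lit 61521853797) (nat_lit 152) (nat_lit 8668760707) (nat_lit 0) (nat_lit 47609923003) (nat_lit 2) (nat_lit 5) (nat_lit 4) (nat_lit 4) (nat_lit 2) (nat_lit 4) (nat_lit 331) (nat_lit 228) (nat_lit 161))) (XT.nd (nat_lit 78) (nat_lit 76) (nat_lit 0) (XT.lf (nat_lit 0) (nat_lit 67139713673) (nat_lit 152) (nat_lit 3182494838) (nat_lit 0) (nat_lit 53201581081) (nat_lit 2) (nat_lit 5) (nat_lit 4) (nat_lit 4) (nat_lit 2) (nat_lit 4) (nat_lit 332) (nat_lit 228) (nat_lit 160)) (XT.nd (nat_lit 78) (nat_lit 0) (nat_lit 0) (XT.lf (nat_lit 0) (nat_lit 2643191513) (nat_lit 76) (nat_lit 70425792600) (nat_lit 76) (nat_lit 56462705916) (nat_lit 1) (nat_lit 4) (nat_lit 2) (nat_lit 5) (nat_lit 2) (nat_lit 4) (nat_lit 333) (nat_lit 228) (nat_lit 159)) (XT.lf (nat_lit 0) (nat_lit 8851474150) (nat_lit 76) (nat_lit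 70486603461) (nat_lit 76) (nat_lit 56499750974) (nat_lit 1) (nat_lit 4) (nat_lit 2) (nat_lit 5) (nat_lit 2) (nat_lit 4) (nat_lit 334) (nat_lit 228) (nat_lit 158)))))) (XT.nd (nat_lit 312) (nat_lit 0) (nat_lit 0) (XT.nd (nat_lit 156) (nat_lit 0) (nat_lit 0) (XT.nd (nat_lit 78) (nat_lit 0) (nat_lit 0) (XT.lf (nat_lit 0) (nat_lit 15351907044) (nat_lit 76) (nat_lit 70558682971) (nat_lit 76) (nat_lit 56549196386) (nat_lit 1) (nat_lit 4) (nat_lit 2) (nat_lit 5) (nat_lit 2) (nat_lit 4) (nat_lit 335) (nat_lit 228) (nat_lit 157)) (XT.lf (nat_lit 0) (nat_lit 22159967417) (nat_lit 76) (nat_lit 70642202748) (nat_lit 76) (nat_lit 56611159880) (nat_lit 1) (nat_lit 4) (nat_lit 2) (nat_lit 5) (nat_lit 2) (nat_lit 4) (nat_lit 336) (nat_lit 228) (nat_lit 156))) (XT.nd (nat_lit 78) (nat_lit 0) (nat_lit 0) (XT.lf (nat_lit 0) (nat_lit 29291864937) (nat_lit 76) (nat_lit 70737361650) (nat_lit 76) (nat_lit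 56685788987) (nat_lit 1) (nat_lit 4) (nat_lit 2) (nat_lit 5) (nat_lit 2) (nat_lit 4) (nat_lit 337) (nat_lit 228) (nat_lit 155)) (XT.lf (nat_lit 0) (nat_lit 36764580312) (nat_lit 76) (nat_lit 70844386244) (nat_lit 76) (nat_lit 56773261396) (nat_lit 1) (nat_lit 4) (nat_lit 2) (nat_lit 5) (nat_lit 2) (nat_lit 4) (nat_lit 338) (nat_lit 228) (nat_lit 154)))) (XT.nd (nat_lit 156) (nat_lit 0) (nat_lit 0) (XT.nd (nat_lit 78) (nat_lit 0) (nat_lit 0) (XT.lf (nat_lit 0) (nat_lit 44595905721) (nat_lit 76) (nat_lit 70963531351) (nat_lit 76) (nat_lit 56873785376) (nat_lit 1) (nat_lit 4) (nat_lit 2) (nat_lit 5) (nat_lit 2) (nat_lit 4) (nat_lit 339) (nat_lit 228) (nat_lit 153)) (XT.lf (nat_lit 0) (nat_lit 52804487177) (nat_lit 76) (nat_lit 71095080651) (nat_lit 76) (nat_lit 56987600267) (nat_lit 1) (nat_lit 4) (nat_lit 2) (nat_lit 5) (nat_lit 2) (nat_lit 4) (nat_lit 340) (nat_lit 228) (nat_lit 152)))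 (XT.nd (nat_lit 78) (nat_lit 0) (nat_lit 0) (XT.lf (nat_lit 0) (nat_lit 61409868922) (nat_lit 76) (nat_lit 71239347355) (nat_lit 76) (nat_lit 57114977059) (nat_lit 1) (nat_lit 4) (nat_lit 2) (nat_lit 5) (nat_lit 2) (nat_lit 4) (nat_lit 341) (nat_lit 228) (nat_lit 151)) (XT.nd (nat_lit 78) (nat_lit 0) (nat_lit 0) (XT.lf (nat_lit 0) (nat_lit 70432539959) (nat_lit 76) (nat_lit 71396674956) (nat_lit 76) (nat_lit 57256219029) (nat_lit 1) (nat_lit 4) (nat_lit 2) (nat_lit 5) (nat_lit 2) (nat_lit 4) (nat_lit 342) (nat_lit 228) (nat_lit 150)) (XT.lf (nat_lit 0) (nat_lit 79893982840) (nat_lit 76) (nat_lit 71567438043) (nat_lit 76) (nat_lit 57411662468) (nat_lit 1) (nat_lit 4) (nat_lit 2) (nat_lit 5) (nat_lit 2) (nat_lit 4) (nat_lit 343) (nat_lit 228) (nat_lit 149))))))))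
noncomputable def xc75 : XT := (XT.nd (nat_lit 1404) (nat_lit 0) (nat_lit 0) (XT.nd (nat_lit 702) (nat_lit 0) (nat_lit 0) (XT.nd (nat_lit 312) (nat_lit 0) (nat_lit 0) (XT.nd (nat_lit 156) (nat_lit 0) (nat_lit 0) (XT.nd (nat_lit 78) (nat_lit 0) (nat_lit 0) (XT.lf (nat_lit 0) (nat_lit 89816724809) (nat_lit 76) (nat_lit 71752043195) (nat_lit 76) (nat_lit 57581677479) (nat_lit 1) (nat_lit 4) (nat_lit 2) (nat_lit 5) (nat_lit 2) (nat_lit 4) (nat_lit 344) (nat_lit 228) (nat_lit 148)) (XT.lf (nat_lit 0) (nat_lit 100224391442) (nat_lit 76) (nat_lit 71950929949) (nat_lit 76) (nat_lit 57766668860) (nat_lit 1) (nat_lit 4) (nat_lit 2) (nat_lit 5) (nat_lit 2) (nat_lit 4) (nat_lit 345) (nat_lit 228) (nat_lit 147))) (XT.nd (nat_lit 78) (nat_lit 0) (nat_lit 0) (XT.lf (nat_lit 0) (nat_lit 111141762898) (nat_lit 76) (nat_lit 72164571844) (nat_lit 76) (nat_lit 57967077067) (nat_lit 1) (nat_lit 4) (nat_lit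 2) (nat_lit 5) (nat_lit 2) (nat_lit 4) (nat_lit 346) (nat_lit 228) (nat_lit 146)) (XT.lf (nat_lit 0) (nat_lit 122594832918) (nat_lit 76) (nat_lit 72393477551) (nat_lit 76) (nat_lit 58183379261) (nat_lit 1) (nat_lit 4) (nat_lit 2) (nat_lit 5) (nat_lit 2) (nat_lit 4) (nat_lit 347) (nat_lit 228) (nat_lit 145)))) (XT.nd (nat_lit 156) (nat_lit 0) (nat_lit 0) (XT.nd (nat_lit 78) (nat_lit 0) (nat_lit 0) (XT.lf (nat_lit 0) (nat_lit 134610870716) (nat_lit 76) (nat_lit 72638192084) (nat_lit 76) (nat_lit 58416090448) (nat_lit 1) (nat_lit 4) (nat_lit 2) (nat_lit 5) (nat_lit 2) (nat_lit 4) (nat_lit 348) (nat_lit 228) (nat_lit 144)) (XT.lf (nat_lit 0) (nat_lit 147218485907) (nat_lit 76) (nat_lit 72899298096) (nat_lit 76) (nat_lit 58665764703) (nat_lit 1) (nat_lit 4) (nat_lit 2) (nat_lit 5) (nat_lit 2) (nat_lit 4) (nat_lit 349) (nat_lit 228) (nat_lit 143))) (XT.nd (nat_lit 78) (nat_lit 0) (nat_lit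 0) (XT.lf (nat_lit 0) (nat_lit 160447696622) (nat_lit 76) (nat_lit 73177417269) (nat_lit 76) (nat_lit 58932996488) (nat_lit 1) (nat_lit 4) (nat_lit 2) (nat_lit 5) (nat_lit 2) (nat_lit 4) (nat_lit 350) (nat_lit 228) (nat_lit 142)) (XT.nd (nat_lit 78) (nat_lit 0) (nat_lit 0) (XT.lf (nat_lit 0) (nat_lit 174330000981) (nat_lit 76) (nat_lit 73473211791) (nat_lit 76) (nat_lit 59218422069) (nat_lit 1) (nat_lit 4) (nat_lit 2) (nat_lit 5) (nat_lit 2) (nat_lit 4) (nat_lit 351) (nat_lit 228) (nat_lit 141)) (XT.lf (nat_lit 0) (nat_lit 188898452091) (nat_lit 76) (nat_lit 73787385934) (nat_lit 76) (nat_lit 59522721031) (nat_lit 1) (nat_lit 4) (nat_lit 2) (nat_lit 5) (nat_lit 2) (nat_lit 4) (nat_lit 352) (nat_lit 228) (nat_lit 140)))))) (XT.nd (nat_lit 312) (nat_lit 0) (nat_lit 0) (XT.nd (nat_lit 156) (nat_lit 0) (nat_lit 0) (XT.nd (nat_lit 78) (nat_lit 0) (nat_lit 0) (XT.lf (nat_lit 0) (nat_lit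 204187736739) (nat_lit 76) (nat_lit 74120687733) (nat_lit 76) (nat_lit 59846617894) (nat_lit 1) (nat_lit 4) (nat_lit 2) (nat_lit 5) (nat_lit 2) (nat_lit 4) (nat_lit 353) (nat_lit 228) (nat_lit 139)) (XT.lf (nat_lit 0) (nat_lit 220234257985) (nat_lit 76) (nat_lit 74473910763) (nat_lit 76) (nat_lit 60190883843) (nat_lit 1) (nat_lit 4) (nat_lit 2) (nat_lit 5) (nat_lit 2) (nat_lit 4) (nat_lit 354) (nat_lit 228) (nat_lit 138))) (XT.nd (nat_lit 78) (nat_lit 0) (nat_lit 0) (XT.lf (nat_lit 0) (nat_lit 237076221830) (nat_lit 76) (nat_lit 74847896031) (nat_lit 76) (nat_lit 60556338558) (nat_lit 1) (nat_lit 4) (nat_lit 2) (nat_lit 5) (nat_lit 2) (nat_lit 4) (nat_lit 355) (nat_lit 228) (nat_lit 137)) (XT.lf (nat_lit 0) (nat_lit 254753728190) (nat_lit 76) (nat_lit 75243533979) (nat_lit 76) (nat_lit 60943852169) (nat_lit 1) (nat_lit 4) (nat_lit 2) (nat_lit 5) (nat_lit 2) (nat_lit 4) (nat_lit 356)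 (nat_lit 228) (nat_lit 136)))) (XT.nd (nat_lit 156) (nat_lit 0) (nat_lit 0) (XT.nd (nat_lit 78) (nat_lit 0) (nat_lit 0) (XT.lf (nat_lit 0) (nat_lit 273308866365) (nat_lit 76) (nat_lit 75661766601) (nat_lit 76) (nat_lit 61354347328) (nat_lit 1) (nat_lit 4) (nat_lit 2) (nat_lit 5) (nat_lit 2) (nat_lit 4) (nat_lit 357) (nat_lit 228) (nat_lit 135)) (XT.lf (nat_lit 0) (nat_lit 292785815255) (nat_lit 76) (nat_lit 76103589690) (nat_lit 76) (nat_lit 61788801404) (nat_lit 1) (nat_lit 4) (nat_lit 2) (nat_lit 5) (nat_lit 2) (nat_lit 4) (nat_lit 358) (nat_lit 228) (nat_lit 134))) (XT.nd (nat_lit 78) (nat_lit 0) (nat_lit 0) (XT.lf (nat_lit 0) (nat_lit 313230948549) (nat_lit 76) (nat_lit 76570055205) (nat_lit 76) (nat_lit 62248248811) (nat_lit 1) (nat_lit 4) (nat_lit 2) (nat_lit 5) (nat_lit 2) (nat_lit 4) (nat_lit 359) (nat_lit 228) (nat_lit 133)) (XT.nd (nat_lit 78) (nat_lit 0) (nat_lit 0) (XT.lf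 (nat_lit 0) (nat_lit 334692945134) (nat_lit 76) (nat_lit 77062273778) (nat_lit 76) (nat_lit 62733783472) (nat_lit 1) (nat_lit 4) (nat_lit 2) (nat_lit 5) (nat_lit 2) (nat_lit 4) (nat_lit 360) (nat_lit 228) (nat_lit 132)) (XT.lf (nat_lit 0) (nat_lit 357222905004) (nat_lit 76) (nat_lit 77581417358) (nat_lit 76) (nat_lit 63246561422) (nat_lit 1) (nat_lit 4) (nat_lit 2) (nat_lit 5) (nat_lit 2) (nat_lit 4) (nat_lit 361) (nat_lit 228) (nat_lit 131))))))) (XT.nd (nat_lit 30108) (nat_lit 0) (nat_lit 1824) (XT.nd (nat_lit 29718) (nat_lit 0) (nat_lit 3040) (XT.nd (nat_lit 156) (nat_lit 0) (nat_lit 0) (XT.nd (nat_lit 78) (nat_lit 0) (nat_lit 0) (XT.lf (nat_lit 0) (nat_lit 380874470919) (nat_lit 76) (nat_lit 78128722002) (nat_lit 76) (nat_lit 63787803561) (nat_lit 1) (nat_lit 4) (nat_lit 2) (nat_lit 5) (nat_lit 2) (nat_lit 4) (nat_lit 362) (nat_lit 228) (nat_lit 130)) (XT.lf (nat_lit 0) (nat_lit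 405703956131) (nat_lit 76) (nat_lit 78705490816) (nat_lit 76) (nat_lit 64358798561) (nat_lit 1) (nat_lit 4) (nat_lit 2) (nat_lit 5) (nat_lit 2) (nat_lit 4) (nat_lit 363) (nat_lit 228) (nat_lit 129))) (XT.nd (nat_lit 78) (nat_lit 0) (nat_lit 0) (XT.lf (nat_lit 0) (nat_lit 431770478463) (nat_lit 76) (nat_lit 79313097059) (nat_lit 76) (nat_lit 64960905933) (nat_lit 1) (nat_lit 4) (nat_lit 2) (nat_lit 5) (nat_lit 2) (nat_lit 4) (nat_lit 364) (nat_lit 228) (nat_lit 128)) (XT.lf (nat_lit 0) (nat_lit 459136101064) (nat_lit 76) (nat_lit 79952987412) (nat_lit 76) (nat_lit 65595559266) (nat_lit 1) (nat_lit 4) (nat_lit 2) (nat_lit 5) (nat_lit 2) (nat_lit 4) (nat_lit 365) (nat_lit 228) (nat_lit 127)))) (XT.nd (nat_lit 156) (nat_lit 532) (nat_lit 0) (XT.nd (nat_lit 78) (nat_lit 304) (nat_lit 0) (XT.lf (nat_lit 0) (nat_lit 1253556669) (nat_lit 380) (nat_lit 1536157017) (nat_lit 0) (nat_lit 1253556669)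 (nat_lit 52) (nat_lit 5) (nat_lit 57) (nat_lit 4) (nat_lit 52) (nat_lit 4) (nat_lit 262) (nat_lit 229) (nat_lit 229)) (XT.lf (nat_lit 0) (nat_lit 2194937385) (nat_lit 304) (nat_lit 3618165421) (nat_lit 304) (nat_lit 2440297989) (nat_lit 48) (nat_lit 4) (nat_lit 52) (nat_lit 5) (nat_lit 52) (nat_lit 4) (nat_lit 263) (nat_lit 229) (nat_lit 228))) (XT.nd (nat_lit 78) (nat_lit 456) (nat_lit 0) (XT.lf (nat_lit 0) (nat_lit 737725947) (nat_lit 380) (nat_lit 787307745) (nat_lit 76) (nat_lit 6907933454) (nat_lit 47) (nat_lit 5) (nat_lit 52) (nat_lit 5) (nat_lit 48) (nat_lit 4) (nat_lit 264) (nat_lit 229) (nat_lit 227)) (XT.nd (nat_lit 78) (nat_lit 228) (nat_lit 0) (XT.lf (nat_lit 0) (nat_lit 3940920427) (nat_lit 304) (nat_lit 3948355967) (nat_lit 0) (nat_lit 733295265) (nat_lit 44) (nat_lit 5) (nat_lit 48) (nat_lit 4) (nat_lit 44) (nat_lit 4) (nat_lit 265) (nat_lit 229) (nat_lit 226)) (XT.lf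 (nat_lit 0) (nat_lit 1462181454) (nat_lit 228) (nat_lit 5770093022) (nat_lit 228) (nat_lit 1593433410) (nat_lit 41) (nat_lit 4) (nat_lit 44) (nat_lit 5) (nat_lit 44) (nat_lit 4) (nat_lit 266) (nat_lit 229) (nat_lit 225)))))) (XT.nd (nat_lit 312) (nat_lit 608) (nat_lit 0) (XT.nd (nat_lit 156) (nat_lit 304) (nat_lit 0) (XT.nd (nat_lit 78) (nat_lit 228) (nat_lit 0) (XT.lf (nat_lit 0) (nat_lit 1532120272) (nat_lit 304) (nat_lit 1958703007) (nat_lit 76) (nat_lit 5550514251) (nat_lit 40) (nat_lit 5) (nat_lit 44) (nat_lit 5) (nat_lit 41) (nat_lit 4) (nat_lit 267) (nat_lit 229) (nat_lit 224)) (XT.lf (nat_lit 0) (nat_lit 3638578439) (nat_lit 228) (nat_lit 1052675617) (nat_lit 304) (nat_lit 4579035901) (nat_lit 37) (nat_lit 5) (nat_lit 40) (nat_lit 5) (nat_lit 41) (nat_lit 4) (nat_lit 268) (nat_lit 229) (nat_lit 223))) (XT.nd (nat_lit 78) (nat_lit 304) (nat_lit 0) (XT.lf (nat_lit 0) (nat_lit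 7942384337) (nat_lit 304) (nat_lit 120620083) (nat_lit 0) (nat_lit 1451355031) (nat_lit 37) (nat_lit 5) (nat_lit 41) (nat_lit 4) (nat_lit 37) (nat_lit 4) (nat_lit 269) (nat_lit 229) (nat_lit 222)) (XT.lf (nat_lit 0) (nat_lit 1522555013) (nat_lit 304) (nat_lit 4129055376) (nat_lit 76) (nat_lit 4118728265) (nat_lit 33) (nat_lit 5) (nat_lit 37) (nat_lit 5) (nat_lit 34) (nat_lit 4) (nat_lit 270) (nat_lit 229) (nat_lit 221)))) (XT.nd (nat_lit 156) (nat_lit 456) (nat_lit 0) (XT.nd (nat_lit 78) (nat_lit 0) (nat_lit 0) (XT.lf (nat_lit 0) (nat_lit 1514501498) (nat_lit 152) (nat_lit 3113743906) (nat_lit 228) (nat_lit 5414440646) (nat_lit 31) (nat_lit 5) (nat_lit 33) (nat_lit 5) (nat_lit 34) (nat_lit 4) (nat_lit 271) (nat_lit 229) (nat_lit 220)) (XT.lf (nat_lit 0) (nat_lit 7421619685) (nat_lit 152) (nat_lit 424085660) (nat_lit 228) (nat_lit 2485426801) (nat_lit 31) (nat_lit 5) (nat_lit 33) (nat_lit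 5) (nat_lit 34) (nat_lit 4) (nat_lit 272) (nat_lit 229) (nat_lit 219))) (XT.nd (nat_lit 78) (nat_lit 152) (nat_lit 0) (XT.lf (nat_lit 0) (nat_lit 544205348) (nat_lit 304) (nat_lit 7758623734) (nat_lit 76) (nat_lit 2332335403) (nat_lit 27) (nat_lit 5) (nat_lit 31) (nat_lit 5) (nat_lit 28) (nat_lit 4) (nat_lit 273) (nat_lit 229) (nat_lit 218)) (XT.nd (nat_lit 78) (nat_lit 152) (nat_lit 0) (XT.lf (nat_lit 0) (nat_lit 3590791214) (nat_lit 304) (nat_lit 2108025800) (nat_lit 76) (nat_lit 5256358226) (nat_lit 27) (nat_lit 5) (nat_lit 31) (nat_lit 5) (nat_lit 28) (nat_lit 4) (nat_lit 274) (nat_lit 229) (nat_lit 217)) (XT.lf (nat_lit 0) (nat_lit 3793671110) (nat_lit 152) (nat_lit 2952374389) (nat_lit 228) (nat_lit 4547575480) (nat_lit 25) (nat_lit 5) (nat_lit 27) (nat_lit 5) (nat_lit 28) (nat_lit 4) (nat_lit 275) (nat_lit 229) (nat_lit 216))))))))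
noncomputable def xc76 : XT := (XT.nd (nat_lit 1404) (nat_lit 380) (nat_lit 0) (XT.nd (nat_lit 702) (nat_lit 532) (nat_lit 0) (XT.nd (nat_lit 312) (nat_lit 304) (nat_lit 0) (XT.nd (nat_lit 156) (nat_lit 152) (nat_lit 0) (XT.nd (nat_lit 78) (nat_lit 228) (nat_lit 0) (XT.lf (nat_lit 0) (nat_lit 9913252031) (nat_lit 152) (nat_lit 81171791) (nat_lit 228) (nat_lit 1658036547) (nat_lit 25) (nat_lit 5) (nat_lit 27) (nat_lit 5) (nat_lit 28) (nat_lit 4) (nat_lit 276) (nat_lit 229) (nat_lit 215)) (XT.lf (nat_lit 0) (nat_lit 1347867103) (nat_lit 228) (nat_lit 7798030976) (nat_lit 76) (nat_lit 2881690292) (nat_lit 22) (nat_lit 5) (nat_lit 25) (nat_lit 5) (nat_lit 23) (nat_lit 4) (nat_lit 277) (nat_lit 229) (nat_lit 214))) (XT.nd (nat_lit 78) (nat_lit 152) (nat_lit 0) (XT.lf (nat_lit 0) (nat_lit 4383877138) (nat_lit 228) (nat_lit 2040332544) (nat_lit 76) (nat_lit 5999334267) (nat_lit 22) (nat_lit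 5) (nat_lit 25) (nat_lit 5) (nat_lit 23) (nat_lit 4) (nat_lit 278) (nat_lit 229) (nat_lit 213)) (XT.lf (nat_lit 0) (nat_lit 3991596516) (nat_lit 152) (nat_lit 3551234235) (nat_lit 228) (nat_lit 5298106381) (nat_lit 20) (nat_lit 5) (nat_lit 22) (nat_lit 5) (nat_lit 23) (nat_lit 4) (nat_lit 279) (nat_lit 229) (nat_lit 212)))) (XT.nd (nat_lit 156) (nat_lit 76) (nat_lit 0) (XT.nd (nat_lit 78) (nat_lit 228) (nat_lit 0) (XT.lf (nat_lit 0) (nat_lit 10256828274) (nat_lit 152) (nat_lit 548450418) (nat_lit 228) (nat_lit 2476831550) (nat_lit 20) (nat_lit 5) (nat_lit 22) (nat_lit 5) (nat_lit 23) (nat_lit 4) (nat_lit 280) (nat_lit 229) (nat_lit 211)) (XT.lf (nat_lit 0) (nat_lit 471964858) (nat_lit 228) (nat_lit 10743564301) (nat_lit 76) (nat_lit 2529504146) (nat_lit 17) (nat_lit 5) (nat_lit 20) (nat_lit 5) (nat_lit 18) (nat_lit 4) (nat_lit 281) (nat_lit 229) (nat_lit 210))) (XT.nd (nat_lit 78)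 (nat_lit 76) (nat_lit 0) (XT.lf (nat_lit 0) (nat_lit 3460960799) (nat_lit 228) (nat_lit 4981341516) (nat_lit 76) (nat_lit 5788132199) (nat_lit 17) (nat_lit 5) (nat_lit 20) (nat_lit 5) (nat_lit 18) (nat_lit 4) (nat_lit 282) (nat_lit 229) (nat_lit 209)) (XT.nd (nat_lit 78) (nat_lit 0) (nat_lit 0) (XT.lf (nat_lit 0) (nat_lit 969592555) (nat_lit 76) (nat_lit 5563934872) (nat_lit 152) (nat_lit 8210026650) (nat_lit 16) (nat_lit 5) (nat_lit 17) (nat_lit 5) (nat_lit 18) (nat_lit 4) (nat_lit 283) (nat_lit 229) (nat_lit 208)) (XT.lf (nat_lit 0) (nat_lit 7262685148) (nat_lit 76) (nat_lit 2502235887) (nat_lit 152) (nat_lit 5517295642) (nat_lit 16) (nat_lit 5) (nat_lit 17) (nat_lit 5) (nat_lit 18) (nat_lit 4) (nat_lit 284) (nat_lit 229) (nat_lit 207)))))) (XT.nd (nat_lit 312) (nat_lit 304) (nat_lit 0) (XT.nd (nat_lit 156) (nat_lit 0) (nat_lit 0) (XT.nd (nat_lit 78) (nat_lit 228) (nat_lit 0) (XT.lf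 (nat_lit 0) (nat_lit 13092884997) (nat_lit 152) (nat_lit 2113901687) (nat_lit 0) (nat_lit 644415677) (nat_lit 16) (nat_lit 5) (nat_lit 18) (nat_lit 4) (nat_lit 16) (nat_lit 4) (nat_lit 285) (nat_lit 229) (nat_lit 206)) (XT.lf (nat_lit 0) (nat_lit 166419265) (nat_lit 228) (nat_lit 12393468384) (nat_lit 76) (nat_lit 3887156161) (nat_lit 13) (nat_lit 5) (nat_lit 16) (nat_lit 5) (nat_lit 14) (nat_lit 4) (nat_lit 286) (nat_lit 229) (nat_lit 205))) (XT.nd (nat_lit 78) (nat_lit 0) (nat_lit 0) (XT.lf (nat_lit 0) (nat_lit 3108915724) (nat_lit 228) (nat_lit 6633882604) (nat_lit 76) (nat_lit 7329527989) (nat_lit 13) (nat_lit 5) (nat_lit 16) (nat_lit 5) (nat_lit 14) (nat_lit 4) (nat_lit 287) (nat_lit 229) (nat_lit 204)) (XT.lf (nat_lit 0) (nat_lit 6129807211) (nat_lit 228) (nat_lit 700609305) (nat_lit 76) (nat_lit 10902008093) (nat_lit 13) (nat_lit 5) (nat_lit 16) (nat_lit 5) (nat_lit 14) (nat_lit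 4) (nat_lit 288) (nat_lit 229) (nat_lit 203)))) (XT.nd (nat_lit 156) (nat_lit 228) (nat_lit 0) (XT.nd (nat_lit 78) (nat_lit 0) (nat_lit 0) (XT.lf (nat_lit 0) (nat_lit 5599703849) (nat_lit 76) (nat_lit 3724009546) (nat_lit 152) (nat_lit 9100825601) (nat_lit 12) (nat_lit 5) (nat_lit 13) (nat_lit 5) (nat_lit 14) (nat_lit 4) (nat_lit 289) (nat_lit 229) (nat_lit 202)) (XT.lf (nat_lit 0) (nat_lit 12132262564) (nat_lit 76) (nat_lit 492905499) (nat_lit 152) (nat_lit 6528802843) (nat_lit 12) (nat_lit 5) (nat_lit 13) (nat_lit 5) (nat_lit 14) (nat_lit 4) (nat_lit 290) (nat_lit 229) (nat_lit 201))) (XT.nd (nat_lit 78) (nat_lit 228) (nat_lit 0) (XT.lf (nat_lit 0) (nat_lit 16075364359) (nat_lit 152) (nat_lit 1078199533) (nat_lit 0) (nat_lit 2767226563) (nat_lit 12) (nat_lit 5) (nat_lit 14) (nat_lit 4) (nat_lit 12) (nat_lit 4) (nat_lit 291) (nat_lit 229) (nat_lit 200)) (XT.nd (nat_lit 78) (nat_lit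 76) (nat_lit 0) (XT.lf (nat_lit 0) (nat_lit 5222016630) (nat_lit 152) (nat_lit 14506993725) (nat_lit 152) (nat_lit 995488383) (nat_lit 10) (nat_lit 4) (nat_lit 12) (nat_lit 5) (nat_lit 12) (nat_lit 4) (nat_lit 292) (nat_lit 229) (nat_lit 199)) (XT.lf (nat_lit 0) (nat_lit 1893156412) (nat_lit 228) (nat_lit 9824218073) (nat_lit 76) (nat_lit 9851538748) (nat_lit 9) (nat_lit 5) (nat_lit 12) (nat_lit 5) (nat_lit 10) (nat_lit 4) (nat_lit 293) (nat_lit 229) (nat_lit 198))))))) (XT.nd (nat_lit 702) (nat_lit 152) (nat_lit 0) (XT.nd (nat_lit 312) (nat_lit 152) (nat_lit 0) (XT.nd (nat_lit 156) (nat_lit 0) (nat_lit 0) (XT.nd (nat_lit 78) (nat_lit 76) (nat_lit 0) (XT.lf (nat_lit 0) (nat_lit 4837126867) (nat_lit 228) (nat_lit 3973538997) (nat_lit 76) (nat_lit 13646931045) (nat_lit 9) (nat_lit 5) (nat_lit 12) (nat_lit 5) (nat_lit 10) (nat_lit 4) (nat_lit 294) (nat_lit 229) (nat_lit 197)) (XT.lf (nat_lit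 0) (nat_lit 2147769711) (nat_lit 76) (nat_lit 5761057273) (nat_lit 152) (nat_lit 15482939181) (nat_lit 8) (nat_lit 5) (nat_lit 9) (nat_lit 5) (nat_lit 10) (nat_lit 4) (nat_lit 295) (nat_lit 229) (nat_lit 196))) (XT.nd (nat_lit 78) (nat_lit 0) (nat_lit 0) (XT.lf (nat_lit 0) (nat_lit 8623911834) (nat_lit 76) (nat_lit 2525623983) (nat_lit 152) (nat_lit 13222411122) (nat_lit 8) (nat_lit 5) (nat_lit 9) (nat_lit 5) (nat_lit 10) (nat_lit 4) (nat_lit 296) (nat_lit 229) (nat_lit 195)) (XT.lf (nat_lit 0) (nat_lit 14515932981) (nat_lit 152) (nat_lit 10077806834) (nat_lit 0) (nat_lit 809284995) (nat_lit 8) (nat_lit 5) (nat_lit 10) (nat_lit 4) (nat_lit 8) (nat_lit 4) (nat_lit 297) (nat_lit 229) (nat_lit 194)))) (XT.nd (nat_lit 156) (nat_lit 76) (nat_lit 0) (XT.nd (nat_lit 78) (nat_lit 76) (nat_lit 0) (XT.lf (nat_lit 0) (nat_lit 18044477551) (nat_lit 152) (nat_lit 4248254938) (nat_lit 0) (nat_lit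 4193300047) (nat_lit 8) (nat_lit 5) (nat_lit 10) (nat_lit 4) (nat_lit 8) (nat_lit 4) (nat_lit 298) (nat_lit 229) (nat_lit 193)) (XT.lf (nat_lit 0) (nat_lit 1853248046) (nat_lit 76) (nat_lit 19879825103) (nat_lit 76) (nat_lit 5891000440) (nat_lit 7) (nat_lit 4) (nat_lit 8) (nat_lit 5) (nat_lit 8) (nat_lit 4) (nat_lit 299) (nat_lit 229) (nat_lit 192))) (XT.nd (nat_lit 78) (nat_lit 76) (nat_lit 0) (XT.lf (nat_lit 0) (nat_lit 8329745627) (nat_lit 76) (nat_lit 17303935115) (nat_lit 76) (nat_lit 3184017918) (nat_lit 7) (nat_lit 4) (nat_lit 8) (nat_lit 5) (nat_lit 8) (nat_lit 4) (nat_lit 300) (nat_lit 229) (nat_lit 191)) (XT.nd (nat_lit 78) (nat_lit 76) (nat_lit 0) (XT.lf (nat_lit 0) (nat_lit 15056191544) (nat_lit 76) (nat_lit 14630875706) (nat_lit 76) (nat_lit 386108478) (nat_lit 7) (nat_lit 4) (nat_lit 8) (nat_lit 5) (nat_lit 8) (nat_lit 4) (nat_lit 301) (nat_lit 229) (nat_lit 190)) (XT.lf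 (nat_lit 0) (nat_lit 2429073432) (nat_lit 152) (nat_lit 9384071483) (nat_lit 76) (nat_lit 19578390176) (nat_lit 6) (nat_lit 5) (nat_lit 8) (nat_lit 5) (nat_lit 7) (nat_lit 4) (nat_lit 302) (nat_lit 229) (nat_lit 189)))))) (XT.nd (nat_lit 312) (nat_lit 76) (nat_lit 0) (XT.nd (nat_lit 156) (nat_lit 0) (nat_lit 0) (XT.nd (nat_lit 78) (nat_lit 76) (nat_lit 0) (XT.lf (nat_lit 0) (nat_lit 5333036014) (nat_lit 152) (nat_lit 3544190850) (nat_lit 76) (nat_lit 23900269459) (nat_lit 6) (nat_lit 5) (nat_lit 8) (nat_lit 5) (nat_lit 7) (nat_lit 4) (nat_lit 303) (nat_lit 229) (nat_lit 188)) (XT.lf (nat_lit 0) (nat_lit 2605998660) (nat_lit 76) (nat_lit 5779739627) (nat_lit 152) (nat_lit 25846888104) (nat_lit 5) (nat_lit 5) (nat_lit 6) (nat_lit 5) (nat_lit 7) (nat_lit 4) (nat_lit 304) (nat_lit 229) (nat_lit 187))) (XT.nd (nat_lit 78) (nat_lit 0) (nat_lit 0) (XT.lf (nat_lit 0) (nat_lit 9122700457) (nat_lit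 76) (nat_lit 2492021355) (nat_lit 152) (nat_lit 24144654421) (nat_lit 5) (nat_lit 5) (nat_lit 6) (nat_lit 5) (nat_lit 7) (nat_lit 4) (nat_lit 305) (nat_lit 229) (nat_lit 186)) (XT.lf (nat_lit 0) (nat_lit 14985088470) (nat_lit 152) (nat_lit 21474573839) (nat_lit 0) (nat_lit 903847968) (nat_lit 5) (nat_lit 5) (nat_lit 7) (nat_lit 4) (nat_lit 5) (nat_lit 4) (nat_lit 306) (nat_lit 229) (nat_lit 185)))) (XT.nd (nat_lit 156) (nat_lit 76) (nat_lit 0) (XT.nd (nat_lit 78) (nat_lit 0) (nat_lit 0) (XT.lf (nat_lit 0) (nat_lit 18531439957) (nat_lit 152) (nat_lit 16154608213) (nat_lit 0) (nat_lit 4361470868) (nat_lit 5) (nat_lit 5) (nat_lit 7) (nat_lit 4) (nat_lit 5) (nat_lit 4) (nat_lit 307) (nat_lit 229) (nat_lit 184)) (XT.lf (nat_lit 0) (nat_lit 22223312529) (nat_lit 152) (nat_lit 10625204878) (nat_lit 0) (nat_lit 7968840025) (nat_lit 5) (nat_lit 5) (nat_lit 7) (nat_lit 4) (nat_lit 5) (nat_lit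 4) (nat_lit 308) (nat_lit 229) (nat_lit 183))) (XT.nd (nat_lit 78) (nat_lit 76) (nat_lit 0) (XT.lf (nat_lit 0) (nat_lit 26069496360) (nat_lit 152) (nat_lit 4873198587) (nat_lit 0) (nat_lit 11734544413) (nat_lit 5) (nat_lit 5) (nat_lit 7) (nat_lit 4) (nat_lit 5) (nat_lit 4) (nat_lit 309) (nat_lit 229) (nat_lit 182)) (XT.nd (nat_lit 78) (nat_lit 0) (nat_lit 0) (XT.lf (nat_lit 0) (nat_lit 1151976348) (nat_lit 76) (nat_lit 28945158261) (nat_lit 76) (nat_lit 14533559224) (nat_lit 4) (nat_lit 4) (nat_lit 5) (nat_lit 5) (nat_lit 5) (nat_lit 4) (nat_lit 310) (nat_lit 229) (nat_lit 181)) (XT.lf (nat_lit 0) (nat_lit 7597121831) (nat_lit 76) (nat_lit 26783307864) (nat_lit 76) (nat_lit 12298711600) (nat_lit 4) (nat_lit 4) (nat_lit 5) (nat_lit 5) (nat_lit 5) (nat_lit 4) (nat_lit 311) (nat_lit 229) (nat_lit 180))))))))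
noncomputable def xc77 : XT := (XT.nd (nat_lit 1404) (nat_lit 76) (nat_lit 0) (XT.nd (nat_lit 702) (nat_lit 0) (nat_lit 0) (XT.nd (nat_lit 312) (nat_lit 152) (nat_lit 0) (XT.nd (nat_lit 156) (nat_lit 0) (nat_lit 0) (XT.nd (nat_lit 78) (nat_lit 0) (nat_lit 0) (XT.lf (nat_lit 0) (nat_lit 14316453489) (nat_lit 76) (nat_lit 24534526471) (nat_lit 76) (nat_lit 9980409038) (nat_lit 4) (nat_lit 4) (nat_lit 5) (nat_lit 5) (nat_lit 5) (nat_lit 4) (nat_lit 312) (nat_lit 229) (nat_lit 179)) (XT.lf (nat_lit 0) (nat_lit 21325969733) (nat_lit 76) (nat_lit 22193459841) (nat_lit 76) (nat_lit 7573131770) (nat_lit 4) (nat_lit 4) (nat_lit 5) (nat_lit 5) (nat_lit 5) (nat_lit 4) (nat_lit 313) (nat_lit 229) (nat_lit 178))) (XT.nd (nat_lit 78) (nat_lit 0) (nat_lit 0) (XT.lf (nat_lit 0) (nat_lit 28642359886) (nat_lit 76) (nat_lit 19754534004) (nat_lit 76) (nat_lit 5071148184) (nat_lit 4) (nat_lit 4) (nat_lit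 5) (nat_lit 5) (nat_lit 5) (nat_lit 4) (nat_lit 314) (nat_lit 229) (nat_lit 177)) (XT.lf (nat_lit 0) (nat_lit 36283043925) (nat_lit 76) (nat_lit 17211941996) (nat_lit 76) (nat_lit 2468501175) (nat_lit 4) (nat_lit 4) (nat_lit 5) (nat_lit 5) (nat_lit 5) (nat_lit 4) (nat_lit 315) (nat_lit 229) (nat_lit 176)))) (XT.nd (nat_lit 156) (nat_lit 76) (nat_lit 0) (XT.nd (nat_lit 78) (nat_lit 0) (nat_lit 0) (XT.lf (nat_lit 0) (nat_lit 233292334) (nat_lit 152) (nat_lit 14322386771) (nat_lit 76) (nat_lit 44028970701) (nat_lit 3) (nat_lit 5) (nat_lit 5) (nat_lit 5) (nat_lit 4) (nat_lit 4) (nat_lit 316) (nat_lit 229) (nat_lit 175)) (XT.lf (nat_lit 0) (nat_lit 2965763127) (nat_lit 152) (nat_lit 8775293301) (nat_lit 76) (nat_lit 49594887762) (nat_lit 3) (nat_lit 5) (nat_lit 5) (nat_lit 5) (nat_lit 4) (nat_lit 4) (nat_lit 317) (nat_lit 229) (nat_lit 174))) (XT.nd (nat_lit 78) (nat_lit 76) (nat_lit 0)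 (XT.lf (nat_lit 0) (nat_lit 5814424539) (nat_lit 152) (nat_lit 2987415174) (nat_lit 76) (nat_lit 55424008245) (nat_lit 3) (nat_lit 5) (nat_lit 5) (nat_lit 5) (nat_lit 4) (nat_lit 4) (nat_lit 318) (nat_lit 229) (nat_lit 173)) (XT.nd (nat_lit 78) (nat_lit 0) (nat_lit 0) (XT.lf (nat_lit 0) (nat_lit 3156041301) (nat_lit 76) (nat_lit 5679292444) (nat_lit 152) (nat_lit 58423444357) (nat_lit 2) (nat_lit 5) (nat_lit 3) (nat_lit 5) (nat_lit 4) (nat_lit 4) (nat_lit 319) (nat_lit 229) (nat_lit 172)) (XT.lf (nat_lit 0) (nat_lit 9676120074) (nat_lit 76) (nat_lit 2362693396) (nat_lit 152) (nat_lit 58402985908) (nat_lit 2) (nat_lit 5) (nat_lit 3) (nat_lit 5) (nat_lit 4) (nat_lit 4) (nat_lit 320) (nat_lit 229) (nat_lit 171)))))) (XT.nd (nat_lit 312) (nat_lit 0) (nat_lit 0) (XT.nd (nat_lit 156) (nat_lit 0) (nat_lit 0) (XT.nd (nat_lit 78) (nat_lit 0) (nat_lit 0) (XT.lf (nat_lit 0) (nat_lit 15401563150)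 (nat_lit 152) (nat_lit 57312588132) (nat_lit 0) (nat_lit 1069885524) (nat_lit 2) (nat_lit 5) (nat_lit 4) (nat_lit 4) (nat_lit 2) (nat_lit 4) (nat_lit 321) (nat_lit 229) (nat_lit 170)) (XT.lf (nat_lit 0) (nat_lit 18953672283) (nat_lit 152) (nat_lit 53757324591) (nat_lit 0) (nat_lit 4581347070) (nat_lit 2) (nat_lit 5) (nat_lit 4) (nat_lit 4) (nat_lit 2) (nat_lit 4) (nat_lit 322) (nat_lit 229) (nat_lit 169))) (XT.nd (nat_lit 78) (nat_lit 0) (nat_lit 0) (XT.lf (nat_lit 0) (nat_lit 22666710009) (nat_lit 152) (nat_lit 50054535502) (nat_lit 0) (nat_lit 8255672807) (nat_lit 2) (nat_lit 5) (nat_lit 4) (nat_lit 4) (nat_lit 2) (nat_lit 4) (nat_lit 323) (nat_lit 229) (nat_lit 168)) (XT.lf (nat_lit 0) (nat_lit 26549516893) (nat_lit 152) (nat_lit 46195404702) (nat_lit 0) (nat_lit 12101611131) (nat_lit 2) (nat_lit 5) (nat_lit 4) (nat_lit 4) (nat_lit 2) (nat_lit 4) (nat_lit 324) (nat_lit 229) (nat_lit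 167)))) (XT.nd (nat_lit 156) (nat_lit 0) (nat_lit 0) (XT.nd (nat_lit 78) (nat_lit 0) (nat_lit 0) (XT.lf (nat_lit 0) (nat_lit 30611337713) (nat_lit 152) (nat_lit 42170743784) (nat_lit 0) (nat_lit 16128319036) (nat_lit 2) (nat_lit 5) (nat_lit 4) (nat_lit 4) (nat_lit 2) (nat_lit 4) (nat_lit 325) (nat_lit 229) (nat_lit 166)) (XT.lf (nat_lit 0) (nat_lit 34861843471) (nat_lit 152) (nat_lit 37970970222) (nat_lit 0) (nat_lit 20345383923) (nat_lit 2) (nat_lit 5) (nat_lit 4) (nat_lit 4) (nat_lit 2) (nat_lit 4) (nat_lit 326) (nat_lit 229) (nat_lit 165))) (XT.nd (nat_lit 78) (nat_lit 0) (nat_lit 0) (XT.lf (nat_lit 0) (nat_lit 39311154420) (nat_lit 152) (nat_lit 33586084554) (nat_lit 0) (nat_lit 24762846423) (nat_lit 2) (nat_lit 5) (nat_lit 4) (nat_lit 4) (nat_lit 2) (nat_lit 4) (nat_lit 327) (nat_lit 229) (nat_lit 164)) (XT.nd (nat_lit 78) (nat_lit 0) (nat_lit 0) (XT.lf (nat_lit 0) (nat_lit 43969864156)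 (nat_lit 152) (nat_lit 29005646578) (nat_lit 0) (nat_lit 29391224303) (nat_lit 2) (nat_lit 5) (nat_lit 4) (nat_lit 4) (nat_lit 2) (nat_lit 4) (nat_lit 328) (nat_lit 229) (nat_lit 163)) (XT.lf (nat_lit 0) (nat_lit 48849064845) (nat_lit 152) (nat_lit 24218750488) (nat_lit 0) (nat_lit 34241537511) (nat_lit 2) (nat_lit 5) (nat_lit 4) (nat_lit 4) (nat_lit 2) (nat_lit 4) (nat_lit 329) (nat_lit 229) (nat_lit 162))))))) (XT.nd (nat_lit 702) (nat_lit 0) (nat_lit 0) (XT.nd (nat_lit 312) (nat_lit 76) (nat_lit 0) (XT.nd (nat_lit 156) (nat_lit 0) (nat_lit 0) (XT.nd (nat_lit 78) (nat_lit 0) (nat_lit 0) (XT.lf (nat_lit 0) (nat_lit 53960373633) (nat_lit 152) (nat_lit 19213998913) (nat_lit 0) (nat_lit 39325334411) (nat_lit 2) (nat_lit 5) (nat_lit 4) (nat_lit 4) (nat_lit 2) (nat_lit 4) (nat_lit 330) (nat_lit 229) (nat_lit 161)) (XT.lf (nat_lit 0) (nat_lit 59315960301) (nat_lit 152) (nat_lit 13979475777)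 (nat_lit 0) (nat_lit 44654719283) (nat_lit 2) (nat_lit 5) (nat_lit 4) (nat_lit 4) (nat_lit 2) (nat_lit 4) (nat_lit 331) (nat_lit 229) (nat_lit 160))) (XT.nd (nat_lit 78) (nat_lit 0) (nat_lit 0) (XT.lf (nat_lit 0) (nat_lit 64928576248) (nat_lit 152) (nat_lit 8502717930) (nat_lit 0) (nat_lit 50242381136) (nat_lit 2) (nat_lit 5) (nat_lit 4) (nat_lit 4) (nat_lit 2) (nat_lit 4) (nat_lit 332) (nat_lit 229) (nat_lit 159)) (XT.lf (nat_lit 0) (nat_lit 70811584843) (nat_lit 152) (nat_lit 2770685473) (nat_lit 0) (nat_lit 56101623929) (nat_lit 2) (nat_lit 5) (nat_lit 4) (nat_lit 4) (nat_lit 2) (nat_lit 4) (nat_lit 333) (nat_lit 229) (nat_lit 158)))) (XT.nd (nat_lit 156) (nat_lit 0) (nat_lit 0) (XT.nd (nat_lit 78) (nat_lit 0) (nat_lit 0) (XT.lf (nat_lit 0) (nat_lit 3337076582) (nat_lit 76) (nat_lit 73694017786) (nat_lit 76) (nat_lit 58961422774) (nat_lit 1) (nat_lit 4) (nat_lit 2) (nat_lit 5) (nat_lit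 2) (nat_lit 4) (nat_lit 334) (nat_lit 229) (nat_lit 157)) (XT.lf (nat_lit 0) (nat_lit 9829024517) (nat_lit 76) (nat_lit 73769919878) (nat_lit 76) (nat_lit 59015768582) (nat_lit 1) (nat_lit 4) (nat_lit 2) (nat_lit 5) (nat_lit 2) (nat_lit 4) (nat_lit 335) (nat_lit 229) (nat_lit 156))) (XT.nd (nat_lit 78) (nat_lit 0) (nat_lit 0) (XT.lf (nat_lit 0) (nat_lit 16629003977) (nat_lit 76) (nat_lit 73857080209) (nat_lit 76) (nat_lit 59082399119) (nat_lit 1) (nat_lit 4) (nat_lit 2) (nat_lit 5) (nat_lit 2) (nat_lit 4) (nat_lit 336) (nat_lit 229) (nat_lit 155)) (XT.nd (nat_lit 78) (nat_lit 0) (nat_lit 0) (XT.lf (nat_lit 0) (nat_lit 23753205389) (nat_lit 76) (nat_lit 73955706304) (nat_lit 76) (nat_lit 59161473030) (nat_lit 1) (nat_lit 4) (nat_lit 2) (nat_lit 5) (nat_lit 2) (nat_lit 4) (nat_lit 337) (nat_lit 229) (nat_lit 154)) (XT.lf (nat_lit 0) (nat_lit 31218591137) (nat_lit 76) (nat_lit 74066032988)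 (nat_lit 76) (nat_lit 59253178585) (nat_lit 1) (nat_lit 4) (nat_lit 2) (nat_lit 5) (nat_lit 2) (nat_lit 4) (nat_lit 338) (nat_lit 229) (nat_lit 153)))))) (XT.nd (nat_lit 312) (nat_lit 0) (nat_lit 0) (XT.nd (nat_lit 156) (nat_lit 0) (nat_lit 0) (XT.nd (nat_lit 78) (nat_lit 0) (nat_lit 0) (XT.lf (nat_lit 0) (nat_lit 39042935949) (nat_lit 76) (nat_lit 74188322942) (nat_lit 76) (nat_lit 59357734132) (nat_lit 1) (nat_lit 4) (nat_lit 2) (nat_lit 5) (nat_lit 2) (nat_lit 4) (nat_lit 339) (nat_lit 229) (nat_lit 152)) (XT.lf (nat_lit 0) (nat_lit 47244869218) (nat_lit 76) (nat_lit 74322867334) (nat_lit 76) (nat_lit 59475388611) (nat_lit 1) (nat_lit 4) (nat_lit 2) (nat_lit 5) (nat_lit 2) (nat_lit 4) (nat_lit 340) (nat_lit 229) (nat_lit 151))) (XT.nd (nat_lit 78) (nat_lit 0) (nat_lit 0) (XT.lf (nat_lit 0) (nat_lit 55843919356) (nat_lit 76) (nat_lit 74469986508) (nat_lit 76) (nat_lit 59606422154)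 (nat_lit 1) (nat_lit 4) (nat_lit 2) (nat_lit 5) (nat_lit 2) (nat_lit 4) (nat_lit 341) (nat_lit 229) (nat_lit 150)) (XT.lf (nat_lit 0) (nat_lit 64860560292) (nat_lit 76) (nat_lit 74630030746) (nat_lit 76) (nat_lit 59751146743) (nat_lit 1) (nat_lit 4) (nat_lit 2) (nat_lit 5) (nat_lit 2) (nat_lit 4) (nat_lit 342) (nat_lit 229) (nat_lit 149)))) (XT.nd (nat_lit 156) (nat_lit 0) (nat_lit 0) (XT.nd (nat_lit 78) (nat_lit 0) (nat_lit 0) (XT.lf (nat_lit 0) (nat_lit 74316260219) (nat_lit 76) (nat_lit 74803381107) (nat_lit 76) (nat_lit 59909906963) (nat_lit 1) (nat_lit 4) (nat_lit 2) (nat_lit 5) (nat_lit 2) (nat_lit 4) (nat_lit 343) (nat_lit 229) (nat_lit 148)) (XT.lf (nat_lit 0) (nat_lit 84233532707) (nat_lit 76) (nat_lit 74990450329) (nat_lit 76) (nat_lit 60083080813) (nat_lit 1) (nat_lit 4) (nat_lit 2) (nat_lit 5) (nat_lit 2) (nat_lit 4) (nat_lit 344) (nat_lit 229) (nat_lit 147))) (XT.nd (nat_lit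 78) (nat_lit 0) (nat_lit 0) (XT.lf (nat_lit 0) (nat_lit 94635990311) (nat_lit 76) (nat_lit 75191683816) (nat_lit 76) (nat_lit 60271080612) (nat_lit 1) (nat_lit 4) (nat_lit 2) (nat_lit 5) (nat_lit 2) (nat_lit 4) (nat_lit 345) (nat_lit 229) (nat_lit 146)) (XT.nd (nat_lit 78) (nat_lit 0) (nat_lit 0) (XT.lf (nat_lit 0) (nat_lit 105548400787) (nat_lit 76) (nat_lit 75407560695) (nat_lit 76) (nat_lit 60474353978) (nat_lit 1) (nat_lit 4) (nat_lit 2) (nat_lit 5) (nat_lit 2) (nat_lit 4) (nat_lit 346) (nat_lit 229) (nat_lit 145)) (XT.lf (nat_lit 0) (nat_lit 116996746065) (nat_lit 76) (nat_lit 75638594958) (nat_lit 76) (nat_lit 60693384896) (nat_lit 1) (nat_lit 4) (nat_lit 2) (nat_lit 5) (nat_lit 2) (nat_lit 4) (nat_lit 347) (nat_lit 229) (nat_lit 144))))))))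
noncomputable def xc78 : XT := (XT.nd (nat_lit 30732) (nat_lit 0) (nat_lit 1596) (XT.nd (nat_lit 702) (nat_lit 0) (nat_lit 0) (XT.nd (nat_lit 312) (nat_lit 0) (nat_lit 0) (XT.nd (nat_lit 156) (nat_lit 0) (nat_lit 0) (XT.nd (nat_lit 78) (nat_lit 0) (nat_lit 0) (XT.lf (nat_lit 0) (nat_lit 129008284108) (nat_lit 76) (nat_lit 75885336688) (nat_lit 76) (nat_lit 60928694868) (nat_lit 1) (nat_lit 4) (nat_lit 2) (nat_lit 5) (nat_lit 2) (nat_lit 4) (nat_lit 348) (nat_lit 229) (nat_lit 143)) (XT.lf (nat_lit 0) (nat_lit 141611613819) (nat_lit 76) (nat_lit 76148373363) (nat_lit 76) (nat_lit 61180844155) (nat_lit 1) (nat_lit 4) (nat_lit 2) (nat_lit 5) (nat_lit 2) (nat_lit 4) (nat_lit 349) (nat_lit 229) (nat_lit 142))) (XT.nd (nat_lit 78) (nat_lit 0) (nat_lit 0) (XT.lf (nat_lit 0) (nat_lit 154836743123) (nat_lit 76) (nat_lit 76428331263) (nat_lit 76) (nat_lit 61450433114) (nat_lit 1) (nat_lit 4)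 (nat_lit 2) (nat_lit 5) (nat_lit 2) (nat_lit 4) (nat_lit 350) (nat_lit 229) (nat_lit 141)) (XT.lf (nat_lit 0) (nat_lit 168715160425) (nat_lit 76) (nat_lit 76725876954) (nat_lit 76) (nat_lit 61738103623) (nat_lit 1) (nat_lit 4) (nat_lit 2) (nat_lit 5) (nat_lit 2) (nat_lit 4) (nat_lit 351) (nat_lit 229) (nat_lit 140)))) (XT.nd (nat_lit 156) (nat_lit 0) (nat_lit 0) (XT.nd (nat_lit 78) (nat_lit 0) (nat_lit 0) (XT.lf (nat_lit 0) (nat_lit 183279909575) (nat_lit 76) (nat_lit 77041718877) (nat_lit 76) (nat_lit 62044540611) (nat_lit 1) (nat_lit 4) (nat_lit 2) (nat_lit 5) (nat_lit 2) (nat_lit 4) (nat_lit 352) (nat_lit 229) (nat_lit 139)) (XT.lf (nat_lit 0) (nat_lit 198565668548) (nat_lit 76) (nat_lit 77376609037) (nat_lit 76) (nat_lit 62370473690) (nat_lit 1) (nat_lit 4) (nat_lit 2) (nat_lit 5) (nat_lit 2) (nat_lit 4) (nat_lit 353) (nat_lit 229) (nat_lit 138))) (XT.nd (nat_lit 78) (nat_lit 0)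 (nat_lit 0) (XT.lf (nat_lit 0) (nat_lit 214608832007) (nat_lit 76) (nat_lit 77731344792) (nat_lit 76) (nat_lit 62716678892) (nat_lit 1) (nat_lit 4) (nat_lit 2) (nat_lit 5) (nat_lit 2) (nat_lit 4) (nat_lit 354) (nat_lit 229) (nat_lit 137)) (XT.nd (nat_lit 78) (nat_lit 0) (nat_lit 0) (XT.lf (nat_lit 0) (nat_lit 231447597961) (nat_lit 76) (nat_lit 78106770751) (nat_lit 76) (nat_lit 63083980514) (nat_lit 1) (nat_lit 4) (nat_lit 2) (nat_lit 5) (nat_lit 2) (nat_lit 4) (nat_lit 355) (nat_lit 229) (nat_lit 136)) (XT.lf (nat_lit 0) (nat_lit 249122058709) (nat_lit 76) (nat_lit 78503780785) (nat_lit 76) (nat_lit 63473253085) (nat_lit 1) (nat_lit 4) (nat_lit 2) (nat_lit 5) (nat_lit 2) (nat_lit 4) (nat_lit 356) (nat_lit 229) (nat_lit 135)))))) (XT.nd (nat_lit 312) (nat_lit 0) (nat_lit 0) (XT.nd (nat_lit 156) (nat_lit 0) (nat_lit 0) (XT.nd (nat_lit 78) (nat_lit 0) (nat_lit 0) (XT.lf (nat_lit 0)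 (nat_lit 267674296302) (nat_lit 76) (nat_lit 78923320156) (nat_lit 76) (nat_lit 63885423443) (nat_lit 1) (nat_lit 4) (nat_lit 2) (nat_lit 5) (nat_lit 2) (nat_lit 4) (nat_lit 357) (nat_lit 229) (nat_lit 134)) (XT.lf (nat_lit 0) (nat_lit 287148482733) (nat_lit 76) (nat_lit 79366387768) (nat_lit 76) (nat_lit 64321472947) (nat_lit 1) (nat_lit 4) (nat_lit 2) (nat_lit 5) (nat_lit 2) (nat_lit 4) (nat_lit 358) (nat_lit 229) (nat_lit 133))) (XT.nd (nat_lit 78) (nat_lit 0) (nat_lit 0) (XT.lf (nat_lit 0) (nat_lit 307590985113) (nat_lit 76) (nat_lit 79834038542) (nat_lit 76) (nat_lit 64782439810) (nat_lit 1) (nat_lit 4) (nat_lit 2) (nat_lit 5) (nat_lit 2) (nat_lit 4) (nat_lit 359) (nat_lit 229) (nat_lit 132)) (XT.lf (nat_lit 0) (nat_lit 329050476067) (nat_lit 76) (nat_lit 80327385935) (nat_lit 76) (nat_lit 65269421572) (nat_lit 1) (nat_lit 4) (nat_lit 2) (nat_lit 5) (nat_lit 2) (nat_lit 4) (nat_lit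 360) (nat_lit 229) (nat_lit 131)))) (XT.nd (nat_lit 156) (nat_lit 0) (nat_lit 0) (XT.nd (nat_lit 78) (nat_lit 0) (nat_lit 0) (XT.lf (nat_lit 0) (nat_lit 351578049620) (nat_lit 76) (nat_lit 80847604581) (nat_lit 76) (nat_lit 65783577713) (nat_lit 1) (nat_lit 4) (nat_lit 2) (nat_lit 5) (nat_lit 2) (nat_lit 4) (nat_lit 361) (nat_lit 229) (nat_lit 130)) (XT.lf (nat_lit 0) (nat_lit 375227342853) (nat_lit 76) (nat_lit 81395933097) (nat_lit 76) (nat_lit 66326132414) (nat_lit 1) (nat_lit 4) (nat_lit 2) (nat_lit 5) (nat_lit 2) (nat_lit 4) (nat_lit 362) (nat_lit 229) (nat_lit 129))) (XT.nd (nat_lit 78) (nat_lit 0) (nat_lit 0) (XT.lf (nat_lit 0) (nat_lit 400054663607) (nat_lit 76) (nat_lit 81973677027) (nat_lit 76) (nat_lit 66898377474) (nat_lit 1) (nat_lit 4) (nat_lit 2) (nat_lit 5) (nat_lit 2) (nat_lit 4) (nat_lit 363) (nat_lit 229) (nat_lit 128)) (XT.nd (nat_lit 29406) (nat_lit 0) (nat_lit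 4256) (XT.lf (nat_lit 0) (nat_lit 426119124549) (nat_lit 76) (nat_lit 82582211951) (nat_lit 76) (nat_lit 67501675379) (nat_lit 1) (nat_lit 4) (nat_lit 2) (nat_lit 5) (nat_lit 2) (nat_lit 4) (nat_lit 364) (nat_lit 229) (nat_lit 127)) (XT.lf (nat_lit 0) (nat_lit 1254928667) (nat_lit 380) (nat_lit 1318273526) (nat_lit 380) (nat_lit 1318273526) (nat_lit 57) (nat_lit 4) (nat_lit 62) (nat_lit 5) (nat_lit 62) (nat_lit 4) (nat_lit 260) (nat_lit 230) (nat_lit 230))))))) (XT.nd (nat_lit 702) (nat_lit 1140) (nat_lit 0) (XT.nd (nat_lit 312) (nat_lit 760) (nat_lit 0) (XT.nd (nat_lit 156) (nat_lit 380) (nat_lit 0) (XT.nd (nat_lit 78) (nat_lit 304) (nat_lit 0) (XT.lf (nat_lit 0) (nat_lit 506179609) (nat_lit 456) (nat_lit 260930642) (nat_lit 76) (nat_lit 7165495400) (nat_lit 56) (nat_lit 5) (nat_lit 62) (nat_lit 5) (nat_lit 57) (nat_lit 4) (nat_lit 261) (nat_lit 230) (nat_lit 229)) (XT.lf (nat_lit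 0) (nat_lit 3673178570) (nat_lit 380) (nat_lit 3158614283) (nat_lit 0) (nat_lit 1258550335) (nat_lit 52) (nat_lit 5) (nat_lit 57) (nat_lit 4) (nat_lit 52) (nat_lit 4) (nat_lit 262) (nat_lit 230) (nat_lit 228))) (XT.nd (nat_lit 78) (nat_lit 76) (nat_lit 0) (XT.lf (nat_lit 0) (nat_lit 2020875351) (nat_lit 304) (nat_lit 4888245973) (nat_lit 304) (nat_lit 1351839232) (nat_lit 48) (nat_lit 4) (nat_lit 52) (nat_lit 5) (nat_lit 52) (nat_lit 4) (nat_lit 263) (nat_lit 230) (nat_lit 227)) (XT.lf (nat_lit 0) (nat_lit 1724654797) (nat_lit 380) (nat_lit 1069224888) (nat_lit 76) (nat_lit 5649363396) (nat_lit 47) (nat_lit 5) (nat_lit 52) (nat_lit 5) (nat_lit 48) (nat_lit 4) (nat_lit 264) (nat_lit 230) (nat_lit 226)))) (XT.nd (nat_lit 156) (nat_lit 304) (nat_lit 0) (XT.nd (nat_lit 78) (nat_lit 228) (nat_lit 0) (XT.lf (nat_lit 0) (nat_lit 4313437921) (nat_lit 228) (nat_lit 533240769) (nat_lit 304)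 (nat_lit 3790447667) (nat_lit 44) (nat_lit 5) (nat_lit 47) (nat_lit 5) (nat_lit 48) (nat_lit 4) (nat_lit 265) (nat_lit 230) (nat_lit 225)) (XT.lf (nat_lit 0) (nat_lit 999262856) (nat_lit 228) (nat_lit 7061251205) (nat_lit 228) (nat_lit 783834207) (nat_lit 41) (nat_lit 4) (nat_lit 44) (nat_lit 5) (nat_lit 44) (nat_lit 4) (nat_lit 266) (nat_lit 230) (nat_lit 224))) (XT.nd (nat_lit 78) (nat_lit 228) (nat_lit 0) (XT.lf (nat_lit 0) (nat_lit 2254365206) (nat_lit 304) (nat_lit 2534911135) (nat_lit 76) (nat_lit 4273331913) (nat_lit 40) (nat_lit 5) (nat_lit 44) (nat_lit 5) (nat_lit 41) (nat_lit 4) (nat_lit 267) (nat_lit 230) (nat_lit 223)) (XT.nd (nat_lit 78) (nat_lit 0) (nat_lit 0) (XT.lf (nat_lit 0) (nat_lit 2962631957) (nat_lit 228) (nat_lit 2381797388) (nat_lit 304) (nat_lit 3950766006) (nat_lit 37) (nat_lit 5) (nat_lit 40) (nat_lit 5) (nat_lit 41) (nat_lit 4) (nat_lit 268) (nat_lit 230)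 (nat_lit 222)) (XT.lf (nat_lit 0) (nat_lit 8517567896) (nat_lit 304) (nat_lit 880272861) (nat_lit 0) (nat_lit 145496236) (nat_lit 37) (nat_lit 5) (nat_lit 41) (nat_lit 4) (nat_lit 37) (nat_lit 4) (nat_lit 269) (nat_lit 230) (nat_lit 221)))))) (XT.nd (nat_lit 312) (nat_lit 380) (nat_lit 0) (XT.nd (nat_lit 156) (nat_lit 304) (nat_lit 0) (XT.nd (nat_lit 78) (nat_lit 152) (nat_lit 0) (XT.lf (nat_lit 0) (nat_lit 1982016224) (nat_lit 304) (nat_lit 5032046827) (nat_lit 76) (nat_lit 2788446411) (nat_lit 33) (nat_lit 5) (nat_lit 37) (nat_lit 5) (nat_lit 34) (nat_lit 4) (nat_lit 270) (nat_lit 230) (nat_lit 220)) (XT.lf (nat_lit 0) (nat_lit 502644286) (nat_lit 152) (nat_lit 4515160136) (nat_lit 228) (nat_lit 5060696610) (nat_lit 31) (nat_lit 5) (nat_lit 33) (nat_lit 5) (nat_lit 34) (nat_lit 4) (nat_lit 271) (nat_lit 230) (nat_lit 219))) (XT.nd (nat_lit 78) (nat_lit 304) (nat_lit 0) (XT.lf (nat_lit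 0) (nat_lit 6334516011) (nat_lit 152) (nat_lit 1848045671) (nat_lit 228) (nat_lit 2187162544) (nat_lit 31) (nat_lit 5) (nat_lit 33) (nat_lit 5) (nat_lit 34) (nat_lit 4) (nat_lit 272) (nat_lit 230) (nat_lit 218)) (XT.lf (nat_lit 0) (nat_lit 739537129) (nat_lit 304) (nat_lit 9021457157) (nat_lit 76) (nat_lit 917327518) (nat_lit 27) (nat_lit 5) (nat_lit 31) (nat_lit 5) (nat_lit 28) (nat_lit 4) (nat_lit 273) (nat_lit 230) (nat_lit 217)))) (XT.nd (nat_lit 156) (nat_lit 228) (nat_lit 0) (XT.nd (nat_lit 78) (nat_lit 152) (nat_lit 0) (XT.lf (nat_lit 0) (nat_lit 3735932404) (nat_lit 304) (nat_lit 3445421217) (nat_lit 76) (nat_lit 3819611103) (nat_lit 27) (nat_lit 5) (nat_lit 31) (nat_lit 5) (nat_lit 28) (nat_lit 4) (nat_lit 274) (nat_lit 230) (nat_lit 216)) (XT.lf (nat_lit 0) (nat_lit 2338695980) (nat_lit 152) (nat_lit 4481973906) (nat_lit 228) (nat_lit 4522383212) (nat_lit 25) (nat_lit 5)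 (nat_lit 27) (nat_lit 5) (nat_lit 28) (nat_lit 4) (nat_lit 275) (nat_lit 230) (nat_lit 215))) (XT.nd (nat_lit 78) (nat_lit 228) (nat_lit 0) (XT.lf (nat_lit 0) (nat_lit 8388410824) (nat_lit 152) (nat_lit 1634022234) (nat_lit 228) (nat_lit 1681901421) (nat_lit 25) (nat_lit 5) (nat_lit 27) (nat_lit 5) (nat_lit 28) (nat_lit 4) (nat_lit 276) (nat_lit 230) (nat_lit 214)) (XT.nd (nat_lit 78) (nat_lit 0) (nat_lit 0) (XT.lf (nat_lit 0) (nat_lit 1227973536) (nat_lit 228) (nat_lit 9527421102) (nat_lit 76) (nat_lit 1329026991) (nat_lit 22) (nat_lit 5) (nat_lit 25) (nat_lit 5) (nat_lit 23) (nat_lit 4) (nat_lit 277) (nat_lit 230) (nat_lit 213)) (XT.lf (nat_lit 0) (nat_lit 4219507019) (nat_lit 228) (nat_lit 3838703308) (nat_lit 76) (nat_lit 4424486795) (nat_lit 22) (nat_lit 5) (nat_lit 25) (nat_lit 5) (nat_lit 23) (nat_lit 4) (nat_lit 278) (nat_lit 230) (nat_lit 212))))))))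
noncomputable def xc79 : XT := (XT.nd (nat_lit 1404) (nat_lit 304) (nat_lit 0) (XT.nd (nat_lit 702) (nat_lit 380) (nat_lit 0) (XT.nd (nat_lit 312) (nat_lit 304) (nat_lit 0) (XT.nd (nat_lit 156) (nat_lit 228) (nat_lit 0) (XT.nd (nat_lit 78) (nat_lit 0) (nat_lit 0) (XT.lf (nat_lit 0) (nat_lit 2065895446) (nat_lit 152) (nat_lit 5240140975) (nat_lit 228) (nat_lit 5597766607) (nat_lit 20) (nat_lit 5) (nat_lit 22) (nat_lit 5) (nat_lit 23) (nat_lit 4) (nat_lit 279) (nat_lit 230) (nat_lit 211)) (XT.lf (nat_lit 0) (nat_lit 8266490969) (nat_lit 152) (nat_lit 2260642698) (nat_lit 228) (nat_lit 2819997161) (nat_lit 20) (nat_lit 5) (nat_lit 22) (nat_lit 5) (nat_lit 23) (nat_lit 4) (nat_lit 280) (nat_lit 230) (nat_lit 210))) (XT.nd (nat_lit 78) (nat_lit 0) (nat_lit 0) (XT.lf (nat_lit 0) (nat_lit 37859581) (nat_lit 228) (nat_lit 12967733463) (nat_lit 76) (nat_lit 809903943) (nat_lit 17) (nat_lit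 5) (nat_lit 20) (nat_lit 5) (nat_lit 18) (nat_lit 4) (nat_lit 281) (nat_lit 230) (nat_lit 209)) (XT.lf (nat_lit 0) (nat_lit 2987334953) (nat_lit 228) (nat_lit 7269136468) (nat_lit 76) (nat_lit 4046478090) (nat_lit 17) (nat_lit 5) (nat_lit 20) (nat_lit 5) (nat_lit 18) (nat_lit 4) (nat_lit 282) (nat_lit 230) (nat_lit 208)))) (XT.nd (nat_lit 156) (nat_lit 228) (nat_lit 0) (XT.nd (nat_lit 78) (nat_lit 76) (nat_lit 0) (XT.lf (nat_lit 0) (nat_lit 6007124889) (nat_lit 228) (nat_lit 1409831403) (nat_lit 76) (nat_lit 7401823321) (nat_lit 17) (nat_lit 5) (nat_lit 20) (nat_lit 5) (nat_lit 18) (nat_lit 4) (nat_lit 283) (nat_lit 230) (nat_lit 207)) (XT.lf (nat_lit 0) (nat_lit 4777027160) (nat_lit 76) (nat_lit 4401974985) (nat_lit 152) (nat_lit 6181484172) (nat_lit 16) (nat_lit 5) (nat_lit 17) (nat_lit 5) (nat_lit 18) (nat_lit 4) (nat_lit 284) (nat_lit 230) (nat_lit 206))) (XT.nd (nat_lit 78) (nat_lit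 228) (nat_lit 0) (XT.lf (nat_lit 0) (nat_lit 11205776525) (nat_lit 76) (nat_lit 1255769937) (nat_lit 152) (nat_lit 3470261557) (nat_lit 16) (nat_lit 5) (nat_lit 17) (nat_lit 5) (nat_lit 18) (nat_lit 4) (nat_lit 285) (nat_lit 230) (nat_lit 205)) (XT.nd (nat_lit 78) (nat_lit 76) (nat_lit 0) (XT.lf (nat_lit 0) (nat_lit 1320832831) (nat_lit 152) (nat_lit 14570931222) (nat_lit 152) (nat_lit 640881428) (nat_lit 14) (nat_lit 4) (nat_lit 16) (nat_lit 5) (nat_lit 16) (nat_lit 4) (nat_lit 286) (nat_lit 230) (nat_lit 204)) (XT.lf (nat_lit 0) (nat_lit 2288600509) (nat_lit 228) (nat_lit 9497972997) (nat_lit 76) (nat_lit 5373587295) (nat_lit 13) (nat_lit 5) (nat_lit 16) (nat_lit 5) (nat_lit 14) (nat_lit 4) (nat_lit 287) (nat_lit 230) (nat_lit 203)))))) (XT.nd (nat_lit 312) (nat_lit 304) (nat_lit 0) (XT.nd (nat_lit 156) (nat_lit 0) (nat_lit 0) (XT.nd (nat_lit 78) (nat_lit 76) (nat_lit 0) (XT.lf (nat_lit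 0) (nat_lit 5277561778) (nat_lit 228) (nat_lit 3617796919) (nat_lit 76) (nat_lit 8926550413) (nat_lit 13) (nat_lit 5) (nat_lit 16) (nat_lit 5) (nat_lit 14) (nat_lit 4) (nat_lit 288) (nat_lit 230) (nat_lit 202)) (XT.lf (nat_lit 0) (nat_lit 2533820023) (nat_lit 76) (nat_lit 5859371168) (nat_lit 152) (nat_lit 10124797102) (nat_lit 12) (nat_lit 5) (nat_lit 13) (nat_lit 5) (nat_lit 14) (nat_lit 4) (nat_lit 289) (nat_lit 230) (nat_lit 201))) (XT.nd (nat_lit 78) (nat_lit 0) (nat_lit 0) (XT.lf (nat_lit 0) (nat_lit 9016625581) (nat_lit 76) (nat_lit 2648281843) (nat_lit 152) (nat_lit 7584048232) (nat_lit 12) (nat_lit 5) (nat_lit 13) (nat_lit 5) (nat_lit 14) (nat_lit 4) (nat_lit 290) (nat_lit 230) (nat_lit 200)) (XT.lf (nat_lit 0) (nat_lit 15052832329) (nat_lit 152) (nat_lit 4303718489) (nat_lit 0) (nat_lit 662384175) (nat_lit 12) (nat_lit 5) (nat_lit 14) (nat_lit 4) (nat_lit 12) (nat_lit 4)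 (nat_lit 291) (nat_lit 230) (nat_lit 199)))) (XT.nd (nat_lit 156) (nat_lit 76) (nat_lit 0) (XT.nd (nat_lit 78) (nat_lit 76) (nat_lit 0) (XT.lf (nat_lit 0) (nat_lit 1842081804) (nat_lit 152) (nat_lit 16784369194) (nat_lit 152) (nat_lit 2200237664) (nat_lit 10) (nat_lit 4) (nat_lit 12) (nat_lit 5) (nat_lit 12) (nat_lit 4) (nat_lit 292) (nat_lit 230) (nat_lit 198)) (XT.lf (nat_lit 0) (nat_lit 699819489) (nat_lit 228) (nat_lit 13333961935) (nat_lit 76) (nat_lit 7639659492) (nat_lit 9) (nat_lit 5) (nat_lit 12) (nat_lit 5) (nat_lit 10) (nat_lit 4) (nat_lit 293) (nat_lit 230) (nat_lit 197))) (XT.nd (nat_lit 78) (nat_lit 76) (nat_lit 0) (XT.lf (nat_lit 0) (nat_lit 3617935523) (nat_lit 228) (nat_lit 7527500598) (nat_lit 76) (nat_lit 11418019219) (nat_lit 9) (nat_lit 5) (nat_lit 12) (nat_lit 5) (nat_lit 10) (nat_lit 4) (nat_lit 294) (nat_lit 230) (nat_lit 196)) (XT.nd (nat_lit 78) (nat_lit 76)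 (nat_lit 0) (XT.lf (nat_lit 0) (nat_lit 6631479678) (nat_lit 228) (nat_lit 1517046063) (nat_lit 76) (nat_lit 15352042867) (nat_lit 9) (nat_lit 5) (nat_lit 12) (nat_lit 5) (nat_lit 10) (nat_lit 4) (nat_lit 295) (nat_lit 230) (nat_lit 195)) (XT.lf (nat_lit 0) (nat_lit 4867502761) (nat_lit 76) (nat_lit 4956119657) (nat_lit 152) (nat_lit 14659589758) (nat_lit 8) (nat_lit 5) (nat_lit 9) (nat_lit 5) (nat_lit 10) (nat_lit 4) (nat_lit 296) (nat_lit 230) (nat_lit 194))))))) (XT.nd (nat_lit 702) (nat_lit 76) (nat_lit 0) (XT.nd (nat_lit 312) (nat_lit 152) (nat_lit 0) (XT.nd (nat_lit 156) (nat_lit 76) (nat_lit 0) (XT.nd (nat_lit 78) (nat_lit 0) (nat_lit 0) (XT.lf (nat_lit 0) (nat_lit 11543054629) (nat_lit 76) (nat_lit 1610961868) (nat_lit 152) (nat_lit 12362106552) (nat_lit 8) (nat_lit 5) (nat_lit 9) (nat_lit 5) (nat_lit 10) (nat_lit 4) (nat_lit 297) (nat_lit 230) (nat_lit 193)) (XT.lf (nat_lit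 0) (nat_lit 16635306708) (nat_lit 152) (nat_lit 8156824416) (nat_lit 0) (nat_lit 1809393652) (nat_lit 8) (nat_lit 5) (nat_lit 10) (nat_lit 4) (nat_lit 8) (nat_lit 4) (nat_lit 298) (nat_lit 230) (nat_lit 192))) (XT.nd (nat_lit 78) (nat_lit 76) (nat_lit 0) (XT.lf (nat_lit 0) (nat_lit 20273917693) (nat_lit 152) (nat_lit 2151265057) (nat_lit 0) (nat_lit 5316912103) (nat_lit 8) (nat_lit 5) (nat_lit 10) (nat_lit 4) (nat_lit 8) (nat_lit 4) (nat_lit 299) (nat_lit 230) (nat_lit 191)) (XT.lf (nat_lit 0) (nat_lit 4218064647) (nat_lit 76) (nat_lit 19901152344) (nat_lit 76) (nat_lit 4819296723) (nat_lit 7) (nat_lit 4) (nat_lit 8) (nat_lit 5) (nat_lit 8) (nat_lit 4) (nat_lit 300) (nat_lit 230) (nat_lit 190)))) (XT.nd (nat_lit 156) (nat_lit 76) (nat_lit 0) (XT.nd (nat_lit 78) (nat_lit 76) (nat_lit 0) (XT.lf (nat_lit 0) (nat_lit 10910189289) (nat_lit 76) (nat_lit 17242785190) (nat_lit 76) (nat_lit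 2042024777) (nat_lit 7) (nat_lit 4) (nat_lit 8) (nat_lit 5) (nat_lit 8) (nat_lit 4) (nat_lit 301) (nat_lit 230) (nat_lit 189)) (XT.lf (nat_lit 0) (nat_lit 807131113) (nat_lit 152) (nat_lit 13659384288) (nat_lit 76) (nat_lit 17049111689) (nat_lit 6) (nat_lit 5) (nat_lit 8) (nat_lit 5) (nat_lit 7) (nat_lit 4) (nat_lit 302) (nat_lit 230) (nat_lit 188))) (XT.nd (nat_lit 78) (nat_lit 76) (nat_lit 0) (XT.lf (nat_lit 0) (nat_lit 3692973998) (nat_lit 152) (nat_lit 7851256526) (nat_lit 76) (nat_lit 21358287126) (nat_lit 6) (nat_lit 5) (nat_lit 8) (nat_lit 5) (nat_lit 7) (nat_lit 4) (nat_lit 303) (nat_lit 230) (nat_lit 187)) (XT.nd (nat_lit 78) (nat_lit 76) (nat_lit 0) (XT.lf (nat_lit 0) (nat_lit 6687732476) (nat_lit 152) (nat_lit 1814716076) (nat_lit 76) (nat_lit 25858118590) (nat_lit 6) (nat_lit 5) (nat_lit 8) (nat_lit 5) (nat_lit 7) (nat_lit 4) (nat_lit 304) (nat_lit 230) (nat_lit 186)) (XT.lf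 (nat_lit 0) (nat_lit 4612229936) (nat_lit 76) (nat_lit 5258316822) (nat_lit 152) (nat_lit 26019099862) (nat_lit 5) (nat_lit 5) (nat_lit 6) (nat_lit 5) (nat_lit 7) (nat_lit 4) (nat_lit 305) (nat_lit 230) (nat_lit 185)))))) (XT.nd (nat_lit 390) (nat_lit 76) (nat_lit 0) (XT.nd (nat_lit 156) (nat_lit 0) (nat_lit 0) (XT.nd (nat_lit 78) (nat_lit 0) (nat_lit 0) (XT.lf (nat_lit 0) (nat_lit 11365436759) (nat_lit 76) (nat_lit 1844803579) (nat_lit 152) (nat_lit 24285094146) (nat_lit 5) (nat_lit 5) (nat_lit 6) (nat_lit 5) (nat_lit 7) (nat_lit 4) (nat_lit 306) (nat_lit 230) (nat_lit 184)) (XT.lf (nat_lit 0) (nat_lit 16712278789) (nat_lit 152) (nat_lit 20808720068) (nat_lit 0) (nat_lit 1660579244) (nat_lit 5) (nat_lit 5) (nat_lit 7) (nat_lit 4) (nat_lit 5) (nat_lit 4) (nat_lit 307) (nat_lit 230) (nat_lit 183))) (XT.nd (nat_lit 78) (nat_lit 0) (nat_lit 0) (XT.lf (nat_lit 0) (nat_lit 20389379474)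 (nat_lit 152) (nat_lit 15305593421) (nat_lit 0) (nat_lit 5257200485) (nat_lit 5) (nat_lit 5) (nat_lit 7) (nat_lit 4) (nat_lit 5) (nat_lit 4) (nat_lit 308) (nat_lit 230) (nat_lit 182)) (XT.nd (nat_lit 78) (nat_lit 0) (nat_lit 0) (XT.lf (nat_lit 0) (nat_lit 24221494840) (nat_lit 152) (nat_lit 9578612548) (nat_lit 0) (nat_lit 9012668763) (nat_lit 5) (nat_lit 5) (nat_lit 7) (nat_lit 4) (nat_lit 5) (nat_lit 4) (nat_lit 309) (nat_lit 230) (nat_lit 181)) (XT.lf (nat_lit 0) (nat_lit 28217748973) (nat_lit 152) (nat_lit 3614141780) (nat_lit 0) (nat_lit 12935925668) (nat_lit 5) (nat_lit 5) (nat_lit 7) (nat_lit 4) (nat_lit 5) (nat_lit 4) (nat_lit 310) (nat_lit 230) (nat_lit 180))))) (XT.nd (nat_lit 156) (nat_lit 0) (nat_lit 0) (XT.nd (nat_lit 78) (nat_lit 0) (nat_lit 0) (XT.lf (nat_lit 0) (nat_lit 2688054536) (nat_lit 76) (nat_lit 29741570291) (nat_lit 76) (nat_lit 14390225817) (nat_lit 4) (nat_lit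 4) (nat_lit 5) (nat_lit 5) (nat_lit 5) (nat_lit 4) (nat_lit 311) (nat_lit 230) (nat_lit 179)) (XT.lf (nat_lit 0) (nat_lit 9385053513) (nat_lit 76) (nat_lit 27502620036) (nat_lit 76) (nat_lit 12085064924) (nat_lit 4) (nat_lit 4) (nat_lit 5) (nat_lit 5) (nat_lit 5) (nat_lit 4) (nat_lit 312) (nat_lit 230) (nat_lit 178))) (XT.nd (nat_lit 78) (nat_lit 0) (nat_lit 0) (XT.lf (nat_lit 0) (nat_lit 16373300536) (nat_lit 76) (nat_lit 25170916393) (nat_lit 76) (nat_lit 9690303532) (nat_lit 4) (nat_lit 4) (nat_lit 5) (nat_lit 5) (nat_lit 5) (nat_lit 4) (nat_lit 313) (nat_lit 230) (nat_lit 177)) (XT.nd (nat_lit 78) (nat_lit 0) (nat_lit 0) (XT.lf (nat_lit 0) (nat_lit 23669434288) (nat_lit 76) (nat_lit 22740907688) (nat_lit 76) (nat_lit 7200239827) (nat_lit 4) (nat_lit 4) (nat_lit 5) (nat_lit 5) (nat_lit 5) (nat_lit 4) (nat_lit 314) (nat_lit 230) (nat_lit 176)) (XT.lf (nat_lit 0) (nat_lit 31290826517)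 (nat_lit 76) (nat_lit 20206808186) (nat_lit 76) (nat_lit 4608945087) (nat_lit 4) (nat_lit 4) (nat_lit 5) (nat_lit 5) (nat_lit 5) (nat_lit 4) (nat_lit 315) (nat_lit 230) (nat_lit 175))))))))
noncomputable def xc80 : XT := (XT.nd (nat_lit 1404) (nat_lit 76) (nat_lit 0) (XT.nd (nat_lit 702) (nat_lit 0) (nat_lit 0) (XT.nd (nat_lit 312) (nat_lit 76) (nat_lit 0) (XT.nd (nat_lit 156) (nat_lit 0) (nat_lit 0) (XT.nd (nat_lit 78) (nat_lit 76) (nat_lit 0) (XT.lf (nat_lit 0) (nat_lit 39255623394) (nat_lit 76) (nat_lit 17562584316) (nat_lit 76) (nat_lit 1910249562) (nat_lit 4) (nat_lit 4) (nat_lit 5) (nat_lit 5) (nat_lit 5) (nat_lit 4) (nat_lit 316) (nat_lit 230) (nat_lit 174)) (XT.lf (nat_lit 0) (nat_lit 873393867) (nat_lit 152) (nat_lit 13913755092) (nat_lit 76) (nat_lit 46694603507) (nat_lit 3) (nat_lit 5) (nat_lit 5) (nat_lit 5) (nat_lit 4) (nat_lit 4) (nat_lit 317) (nat_lit 230) (nat_lit 173)))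 (XT.nd (nat_lit 78) (nat_lit 0) (nat_lit 0) (XT.lf (nat_lit 0) (nat_lit 3712562632) (nat_lit 152) (nat_lit 8142866520) (nat_lit 76) (nat_lit 52516712408) (nat_lit 3) (nat_lit 5) (nat_lit 5) (nat_lit 5) (nat_lit 4) (nat_lit 4) (nat_lit 318) (nat_lit 230) (nat_lit 172)) (XT.lf (nat_lit 0) (nat_lit 6675156574) (nat_lit 152) (nat_lit 2116603604) (nat_lit 76) (nat_lit 58616237474) (nat_lit 3) (nat_lit 5) (nat_lit 5) (nat_lit 5) (nat_lit 4) (nat_lit 4) (nat_lit 319) (nat_lit 230) (nat_lit 171)))) (XT.nd (nat_lit 156) (nat_lit 0) (nat_lit 0) (XT.nd (nat_lit 78) (nat_lit 0) (nat_lit 0) (XT.lf (nat_lit 0) (nat_lit 4317571142) (nat_lit 76) (nat_lit 5518067730) (nat_lit 152) (nat_lit 60757539628) (nat_lit 2) (nat_lit 5) (nat_lit 3) (nat_lit 5) (nat_lit 4) (nat_lit 4) (nat_lit 320) (nat_lit 230) (nat_lit 170)) (XT.lf (nat_lit 0) (nat_lit 11115857292) (nat_lit 76) (nat_lit 2056838223) (nat_lit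 152) (nat_lit 60764014303) (nat_lit 2) (nat_lit 5) (nat_lit 3) (nat_lit 5) (nat_lit 4) (nat_lit 4) (nat_lit 321) (nat_lit 230) (nat_lit 169))) (XT.nd (nat_lit 78) (nat_lit 0) (nat_lit 0) (XT.lf (nat_lit 0) (nat_lit 16684556584) (nat_lit 152) (nat_lit 59248226039) (nat_lit 0) (nat_lit 1514255534) (nat_lit 2) (nat_lit 5) (nat_lit 4) (nat_lit 4) (nat_lit 2) (nat_lit 4) (nat_lit 322) (nat_lit 230) (nat_lit 168)) (XT.nd (nat_lit 78) (nat_lit 0) (nat_lit 0) (XT.lf (nat_lit 0) (nat_lit 20389846638) (nat_lit 152) (nat_lit 55559484630) (nat_lit 0) (nat_lit 5182677027) (nat_lit 2) (nat_lit 5) (nat_lit 4) (nat_lit 4) (nat_lit 2) (nat_lit 4) (nat_lit 323) (nat_lit 230) (nat_lit 167)) (XT.lf (nat_lit 0) (nat_lit 24265274786) (nat_lit 152) (nat_lit 51713732572) (nat_lit 0) (nat_lit 9022992261) (nat_lit 2) (nat_lit 5) (nat_lit 4) (nat_lit 4) (nat_lit 2) (nat_lit 4) (nat_lit 324) (nat_lit 230) (nat_lit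 166)))))) (XT.nd (nat_lit 312) (nat_lit 0) (nat_lit 0) (XT.nd (nat_lit 156) (nat_lit 0) (nat_lit 0) (XT.nd (nat_lit 78) (nat_lit 0) (nat_lit 0) (XT.lf (nat_lit 0) (nat_lit 28320068239) (nat_lit 152) (nat_lit 47701813313) (nat_lit 0) (nat_lit 13044344843) (nat_lit 2) (nat_lit 5) (nat_lit 4) (nat_lit 4) (nat_lit 2) (nat_lit 4) (nat_lit 325) (nat_lit 230) (nat_lit 165)) (XT.lf (nat_lit 0) (nat_lit 32563881266) (nat_lit 152) (nat_lit 43514174665) (nat_lit 0) (nat_lit 17256309422) (nat_lit 2) (nat_lit 5) (nat_lit 4) (nat_lit 4) (nat_lit 2) (nat_lit 4) (nat_lit 326) (nat_lit 230) (nat_lit 164))) (XT.nd (nat_lit 78) (nat_lit 0) (nat_lit 0) (XT.lf (nat_lit 0) (nat_lit 37006818186) (nat_lit 152) (nat_lit 39140846058) (nat_lit 0) (nat_lit 21668914485) (nat_lit 2) (nat_lit 5) (nat_lit 4) (nat_lit 4) (nat_lit 2) (nat_lit 4) (nat_lit 327) (nat_lit 230) (nat_lit 163)) (XT.lf (nat_lit 0) (nat_lit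 41659457418) (nat_lit 152) (nat_lit 34571414806) (nat_lit 0) (nat_lit 26292666235) (nat_lit 2) (nat_lit 5) (nat_lit 4) (nat_lit 4) (nat_lit 2) (nat_lit 4) (nat_lit 328) (nat_lit 230) (nat_lit 162)))) (XT.nd (nat_lit 156) (nat_lit 0) (nat_lit 0) (XT.nd (nat_lit 78) (nat_lit 0) (nat_lit 0) (XT.lf (nat_lit 0) (nat_lit 46532876675) (nat_lit 152) (nat_lit 29795001311) (nat_lit 0) (nat_lit 31138573605) (nat_lit 2) (nat_lit 5) (nat_lit 4) (nat_lit 4) (nat_lit 2) (nat_lit 4) (nat_lit 329) (nat_lit 230) (nat_lit 161)) (XT.lf (nat_lit 0) (nat_lit 51638679336) (nat_lit 152) (nat_lit 24800233159) (nat_lit 0) (nat_lit 36218174469) (nat_lit 2) (nat_lit 5) (nat_lit 4) (nat_lit 4) (nat_lit 2) (nat_lit 4) (nat_lit 330) (nat_lit 230) (nat_lit 160))) (XT.nd (nat_lit 78) (nat_lit 0) (nat_lit 0) (XT.lf (nat_lit 0) (nat_lit 56989022075) (nat_lit 152) (nat_lit 19575218045) (nat_lit 0) (nat_lit 41543563115)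 (nat_lit 2) (nat_lit 5) (nat_lit 4) (nat_lit 4) (nat_lit 2) (nat_lit 4) (nat_lit 331) (nat_lit 230) (nat_lit 159)) (XT.nd (nat_lit 78) (nat_lit 0) (nat_lit 0) (XT.lf (nat_lit 0) (nat_lit 62596643803) (nat_lit 152) (nat_lit 14107515458) (nat_lit 0) (nat_lit 47127419040) (nat_lit 2) (nat_lit 5) (nat_lit 4) (nat_lit 4) (nat_lit 2) (nat_lit 4) (nat_lit 332) (nat_lit 230) (nat_lit 158)) (XT.lf (nat_lit 0) (nat_lit 68474896000) (nat_lit 152) (nat_lit 8384107057) (nat_lit 0) (nat_lit 52983037139) (nat_lit 2) (nat_lit 5) (nat_lit 4) (nat_lit 4) (nat_lit 2) (nat_lit 4) (nat_lit 333) (nat_lit 230) (nat_lit 157))))))) (XT.nd (nat_lit 702) (nat_lit 0) (nat_lit 0) (XT.nd (nat_lit 312) (nat_lit 0) (nat_lit 0) (XT.nd (nat_lit 156) (nat_lit 0) (nat_lit 0) (XT.nd (nat_lit 78) (nat_lit 76) (nat_lit 0) (XT.lf (nat_lit 0) (nat_lit 74637774504) (nat_lit 152) (nat_lit 2391365680) (nat_lit 0) (nat_lit 59124359360)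 (nat_lit 2) (nat_lit 5) (nat_lit 4) (nat_lit 4) (nat_lit 2) (nat_lit 4) (nat_lit 334) (nat_lit 230) (nat_lit 156)) (XT.lf (nat_lit 0) (nat_lit 4013431992) (nat_lit 76) (nat_lit 77149181765) (nat_lit 76) (nat_lit 61615236827) (nat_lit 1) (nat_lit 4) (nat_lit 2) (nat_lit 5) (nat_lit 2) (nat_lit 4) (nat_lit 335) (nat_lit 230) (nat_lit 155))) (XT.nd (nat_lit 78) (nat_lit 0) (nat_lit 0) (XT.lf (nat_lit 0) (nat_lit 10805715344) (nat_lit 76) (nat_lit 77239809290) (nat_lit 76) (nat_lit 61686312167) (nat_lit 1) (nat_lit 4) (nat_lit 2) (nat_lit 5) (nat_lit 2) (nat_lit 4) (nat_lit 336) (nat_lit 230) (nat_lit 154)) (XT.lf (nat_lit 0) (nat_lit 17922587129) (nat_lit 76) (nat_lit 77341737475) (nat_lit 76) (nat_lit 61769619224) (nat_lit 1) (nat_lit 4) (nat_lit 2) (nat_lit 5) (nat_lit 2) (nat_lit 4) (nat_lit 337) (nat_lit 230) (nat_lit 153)))) (XT.nd (nat_lit 156) (nat_lit 0) (nat_lit 0) (XT.nd (nat_lit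 78) (nat_lit 0) (nat_lit 0) (XT.lf (nat_lit 0) (nat_lit 25380992281) (nat_lit 76) (nat_lit 77455209006) (nat_lit 76) (nat_lit 61865356346) (nat_lit 1) (nat_lit 4) (nat_lit 2) (nat_lit 5) (nat_lit 2) (nat_lit 4) (nat_lit 338) (nat_lit 230) (nat_lit 152)) (XT.lf (nat_lit 0) (nat_lit 33198688905) (nat_lit 76) (nat_lit 77580494053) (nat_lit 76) (nat_lit 61973751481) (nat_lit 1) (nat_lit 4) (nat_lit 2) (nat_lit 5) (nat_lit 2) (nat_lit 4) (nat_lit 339) (nat_lit 230) (nat_lit 151))) (XT.nd (nat_lit 78) (nat_lit 0) (nat_lit 0) (XT.lf (nat_lit 0) (nat_lit 41394290567) (nat_lit 76) (nat_lit 77717890914) (nat_lit 76) (nat_lit 62095062711) (nat_lit 1) (nat_lit 4) (nat_lit 2) (nat_lit 5) (nat_lit 2) (nat_lit 4) (nat_lit 340) (nat_lit 230) (nat_lit 150)) (XT.nd (nat_lit 78) (nat_lit 0) (nat_lit 0) (XT.lf (nat_lit 0) (nat_lit 49987310603) (nat_lit 76) (nat_lit 77867726724) (nat_lit 76) (nat_lit 62229578874)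 (nat_lit 1) (nat_lit 4) (nat_lit 2) (nat_lit 5) (nat_lit 2) (nat_lit 4) (nat_lit 341) (nat_lit 230) (nat_lit 149)) (XT.lf (nat_lit 0) (nat_lit 58998208585) (nat_lit 76) (nat_lit 78030358236) (nat_lit 76) (nat_lit 62377620244) (nat_lit 1) (nat_lit 4) (nat_lit 2) (nat_lit 5) (nat_lit 2) (nat_lit 4) (nat_lit 342) (nat_lit 230) (nat_lit 148)))))) (XT.nd (nat_lit 312) (nat_lit 0) (nat_lit 0) (XT.nd (nat_lit 156) (nat_lit 0) (nat_lit 0) (XT.nd (nat_lit 78) (nat_lit 0) (nat_lit 0) (XT.lf (nat_lit 0) (nat_lit 68448439032) (nat_lit 76) (nat_lit 78206172667) (nat_lit 76) (nat_lit 62539539302) (nat_lit 1) (nat_lit 4) (nat_lit 2) (nat_lit 5) (nat_lit 2) (nat_lit 4) (nat_lit 343) (nat_lit 230) (nat_lit 147)) (XT.lf (nat_lit 0) (nat_lit 78360502491) (nat_lit 76) (nat_lit 78395588623) (nat_lit 76) (nat_lit 62715721570) (nat_lit 1) (nat_lit 4) (nat_lit 2) (nat_lit 5) (nat_lit 2) (nat_lit 4) (nat_lit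 344) (nat_lit 230) (nat_lit 146))) (XT.nd (nat_lit 78) (nat_lit 0) (nat_lit 0) (XT.lf (nat_lit 0) (nat_lit 88757999116) (nat_lit 76) (nat_lit 78599057094) (nat_lit 76) (nat_lit 62906586528) (nat_lit 1) (nat_lit 4) (nat_lit 2) (nat_lit 5) (nat_lit 2) (nat_lit 4) (nat_lit 345) (nat_lit 230) (nat_lit 145)) (XT.lf (nat_lit 0) (nat_lit 99665684849) (nat_lit 76) (nat_lit 78817062529) (nat_lit 76) (nat_lit 63112588618) (nat_lit 1) (nat_lit 4) (nat_lit 2) (nat_lit 5) (nat_lit 2) (nat_lit 4) (nat_lit 346) (nat_lit 230) (nat_lit 144)))) (XT.nd (nat_lit 156) (nat_lit 0) (nat_lit 0) (XT.nd (nat_lit 78) (nat_lit 0) (nat_lit 0) (XT.lf (nat_lit 0) (nat_lit 111109530372) (nat_lit 76) (nat_lit 79050123989) (nat_lit 76) (nat_lit 63334218321) (nat_lit 1) (nat_lit 4) (nat_lit 2) (nat_lit 5) (nat_lit 2) (nat_lit 4) (nat_lit 347) (nat_lit 230) (nat_lit 143)) (XT.lf (nat_lit 0) (nat_lit 123116782934) (nat_lit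 76) (nat_lit 79298796382) (nat_lit 76) (nat_lit 63572003325) (nat_lit 1) (nat_lit 4) (nat_lit 2) (nat_lit 5) (nat_lit 2) (nat_lit 4) (nat_lit 348) (nat_lit 230) (nat_lit 142))) (XT.nd (nat_lit 78) (nat_lit 0) (nat_lit 0) (XT.lf (nat_lit 0) (nat_lit 135716031234) (nat_lit 76) (nat_lit 79563671784) (nat_lit 76) (nat_lit 63826509787) (nat_lit 1) (nat_lit 4) (nat_lit 2) (nat_lit 5) (nat_lit 2) (nat_lit 4) (nat_lit 349) (nat_lit 230) (nat_lit 141)) (XT.nd (nat_lit 78) (nat_lit 0) (nat_lit 0) (XT.lf (nat_lit 0) (nat_lit 148937273481) (nat_lit 76) (nat_lit 79845380853) (nat_lit 76) (nat_lit 64098343674) (nat_lit 1) (nat_lit 4) (nat_lit 2) (nat_lit 5) (nat_lit 2) (nat_lit 4) (nat_lit 350) (nat_lit 230) (nat_lit 140)) (XT.lf (nat_lit 0) (nat_lit 162811988824) (nat_lit 76) (nat_lit 80144594323) (nat_lit 76) (nat_lit 64388152208) (nat_lit 1) (nat_lit 4) (nat_lit 2) (nat_lit 5) (nat_lit 2) (nat_lit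 4) (nat_lit 351) (nat_lit 230) (nat_lit 139))))))))
noncomputable def xc81 : XT := (XT.nd (nat_lit 30576) (nat_lit 0) (nat_lit 1444) (XT.nd (nat_lit 702) (nat_lit 0) (nat_lit 0) (XT.nd (nat_lit 312) (nat_lit 0) (nat_lit 0) (XT.nd (nat_lit 156) (nat_lit 0) (nat_lit 0) (XT.nd (nat_lit 78) (nat_lit 0) (nat_lit 0) (XT.lf (nat_lit 0) (nat_lit 177373212298) (nat_lit 76) (nat_lit 80462024607) (nat_lit 76) (nat_lit 64696625412) (nat_lit 1) (nat_lit 4) (nat_lit 2) (nat_lit 5) (nat_lit 2) (nat_lit 4) (nat_lit 352) (nat_lit 230) (nat_lit 138)) (XT.lf (nat_lit 0) (nat_lit 192655613485) (nat_lit 76) (nat_lit 80798427493) (nat_lit 76) (nat_lit 65024497744) (nat_lit 1) (nat_lit 4) (nat_lit 2) (nat_lit 5) (nat_lit 2) (nat_lit 4) (nat_lit 353) (nat_lit 230) (nat_lit 137))) (XT.nd (nat_lit 78) (nat_lit 0) (nat_lit 0) (XT.lf (nat_lit 0) (nat_lit 208695579052) (nat_lit 76) (nat_lit 81154603939) (nat_lit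 76) (nat_lit 65372549854) (nat_lit 1) (nat_lit 4) (nat_lit 2) (nat_lit 5) (nat_lit 2) (nat_lit 4) (nat_lit 354) (nat_lit 230) (nat_lit 136)) (XT.lf (nat_lit 0) (nat_lit 225531299395) (nat_lit 76) (nat_lit 81531401984) (nat_lit 76) (nat_lit 65741610436) (nat_lit 1) (nat_lit 4) (nat_lit 2) (nat_lit 5) (nat_lit 2) (nat_lit 4) (nat_lit 355) (nat_lit 230) (nat_lit 135)))) (XT.nd (nat_lit 156) (nat_lit 0) (nat_lit 0) (XT.nd (nat_lit 78) (nat_lit 0) (nat_lit 0) (XT.lf (nat_lit 0) (nat_lit 243202859561) (nat_lit 76) (nat_lit 81929718767) (nat_lit 76) (nat_lit 66132558206) (nat_lit 1) (nat_lit 4) (nat_lit 2) (nat_lit 5) (nat_lit 2) (nat_lit 4) (nat_lit 356) (nat_lit 230) (nat_lit 134)) (XT.lf (nat_lit 0) (nat_lit 261752334695) (nat_lit 76) (nat_lit 82350502661) (nat_lit 76) (nat_lit 66546323992) (nat_lit 1) (nat_lit 4) (nat_lit 2) (nat_lit 5) (nat_lit 2) (nat_lit 4) (nat_lit 357) (nat_lit 230)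 (nat_lit 133))) (XT.nd (nat_lit 78) (nat_lit 0) (nat_lit 0) (XT.lf (nat_lit 0) (nat_lit 281223890212) (nat_lit 76) (nat_lit 82794755533) (nat_lit 76) (nat_lit 66983892952) (nat_lit 1) (nat_lit 4) (nat_lit 2) (nat_lit 5) (nat_lit 2) (nat_lit 4) (nat_lit 358) (nat_lit 230) (nat_lit 132)) (XT.nd (nat_lit 78) (nat_lit 0) (nat_lit 0) (XT.lf (nat_lit 0) (nat_lit 301663886960) (nat_lit 76) (nat_lit 83263535126) (nat_lit 76) (nat_lit 67446306915) (nat_lit 1) (nat_lit 4) (nat_lit 2) (nat_lit 5) (nat_lit 2) (nat_lit 4) (nat_lit 359) (nat_lit 230) (nat_lit 131)) (XT.lf (nat_lit 0) (nat_lit 323120991598) (nat_lit 76) (nat_lit 83757957584) (nat_lit 76) (nat_lit 67934666867) (nat_lit 1) (nat_lit 4) (nat_lit 2) (nat_lit 5) (nat_lit 2) (nat_lit 4) (nat_lit 360) (nat_lit 230) (nat_lit 130)))))) (XT.nd (nat_lit 29484) (nat_lit 0) (nat_lit 3876) (XT.nd (nat_lit 156) (nat_lit 0) (nat_lit 0) (XT.nd (nat_lit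 78) (nat_lit 0) (nat_lit 0) (XT.lf (nat_lit 0) (nat_lit 345646292469) (nat_lit 76) (nat_lit 84279200102) (nat_lit 76) (nat_lit 68450135571) (nat_lit 1) (nat_lit 4) (nat_lit 2) (nat_lit 5) (nat_lit 2) (nat_lit 4) (nat_lit 361) (nat_lit 230) (nat_lit 129)) (XT.lf (nat_lit 0) (nat_lit 369293421243) (nat_lit 76) (nat_lit 84828503734) (nat_lit 76) (nat_lit 68993940332) (nat_lit 1) (nat_lit 4) (nat_lit 2) (nat_lit 5) (nat_lit 2) (nat_lit 4) (nat_lit 362) (nat_lit 230) (nat_lit 128))) (XT.nd (nat_lit 78) (nat_lit 0) (nat_lit 0) (XT.lf (nat_lit 0) (nat_lit 394118680607) (nat_lit 76) (nat_lit 85407176346) (nat_lit 76) (nat_lit 69567375925) (nat_lit 1) (nat_lit 4) (nat_lit 2) (nat_lit 5) (nat_lit 2) (nat_lit 4) (nat_lit 363) (nat_lit 230) (nat_lit 127)) (XT.lf (nat_lit 0) (nat_lit 420181178322) (nat_lit 76) (nat_lit 86016595730) (nat_lit 76) (nat_lit 70171807671) (nat_lit 1) (nat_lit 4) (nat_lit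 2) (nat_lit 5) (nat_lit 2) (nat_lit 4) (nat_lit 364) (nat_lit 230) (nat_lit 126)))) (XT.nd (nat_lit 156) (nat_lit 760) (nat_lit 0) (XT.nd (nat_lit 78) (nat_lit 0) (nat_lit 0) (XT.lf (nat_lit 0) (nat_lit 65245050) (nat_lit 380) (nat_lit 3627823782) (nat_lit 0) (nat_lit 65245050) (nat_lit 62) (nat_lit 5) (nat_lit 67) (nat_lit 4) (nat_lit 62) (nat_lit 4) (nat_lit 258) (nat_lit 231) (nat_lit 231)) (XT.lf (nat_lit 0) (nat_lit 3259127095) (nat_lit 380) (nat_lit 2490829504) (nat_lit 0) (nat_lit 1895598309) (nat_lit 62) (nat_lit 5) (nat_lit 67) (nat_lit 4) (nat_lit 62) (nat_lit 4) (nat_lit 259) (nat_lit 231) (nat_lit 230))) (XT.nd (nat_lit 78) (nat_lit 380) (nat_lit 0) (XT.lf (nat_lit 0) (nat_lit 2428488025) (nat_lit 380) (nat_lit 4010223627) (nat_lit 380) (nat_lit 1348095999) (nat_lit 57) (nat_lit 4) (nat_lit 62) (nat_lit 5) (nat_lit 62) (nat_lit 4) (nat_lit 260) (nat_lit 231) (nat_lit 229))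 (XT.nd (nat_lit 78) (nat_lit 304) (nat_lit 0) (XT.lf (nat_lit 0) (nat_lit 1684178110) (nat_lit 456) (nat_lit 446323304) (nat_lit 76) (nat_lit 5808683034) (nat_lit 56) (nat_lit 5) (nat_lit 62) (nat_lit 5) (nat_lit 57) (nat_lit 4) (nat_lit 261) (nat_lit 231) (nat_lit 228)) (XT.lf (nat_lit 0) (nat_lit 4682760819) (nat_lit 304) (nat_lit 77979025) (nat_lit 380) (nat_lit 3340958951) (nat_lit 52) (nat_lit 5) (nat_lit 56) (nat_lit 5) (nat_lit 57) (nat_lit 4) (nat_lit 262) (nat_lit 231) (nat_lit 227))))))) (XT.nd (nat_lit 702) (nat_lit 988) (nat_lit 0) (XT.nd (nat_lit 312) (nat_lit 608) (nat_lit 0) (XT.nd (nat_lit 156) (nat_lit 456) (nat_lit 0) (XT.nd (nat_lit 78) (nat_lit 76) (nat_lit 0) (XT.lf (nat_lit 0) (nat_lit 1672336850) (nat_lit 304) (nat_lit 6253563647) (nat_lit 304) (nat_lit 350197581) (nat_lit 48) (nat_lit 4) (nat_lit 52) (nat_lit 5) (nat_lit 52) (nat_lit 4) (nat_lit 263) (nat_lit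 231) (nat_lit 226)) (XT.lf (nat_lit 0) (nat_lit 2630721061) (nat_lit 380) (nat_lit 1527874064) (nat_lit 76) (nat_lit 4302399622) (nat_lit 47) (nat_lit 5) (nat_lit 52) (nat_lit 5) (nat_lit 48) (nat_lit 4) (nat_lit 264) (nat_lit 231) (nat_lit 225))) (XT.nd (nat_lit 78) (nat_lit 228) (nat_lit 0) (XT.lf (nat_lit 0) (nat_lit 3761568605) (nat_lit 228) (nat_lit 1922068124) (nat_lit 304) (nat_lit 2974906454) (nat_lit 44) (nat_lit 5) (nat_lit 47) (nat_lit 5) (nat_lit 48) (nat_lit 4) (nat_lit 265) (nat_lit 231) (nat_lit 224)) (XT.lf (nat_lit 0) (nat_lit 349634489) (nat_lit 228) (nat_lit 8456996515) (nat_lit 228) (nat_lit 63875902) (nat_lit 41) (nat_lit 4) (nat_lit 44) (nat_lit 5) (nat_lit 44) (nat_lit 4) (nat_lit 266) (nat_lit 231) (nat_lit 223)))) (XT.nd (nat_lit 156) (nat_lit 304) (nat_lit 0) (XT.nd (nat_lit 78) (nat_lit 228) (nat_lit 0) (XT.lf (nat_lit 0) (nat_lit 2892764123) (nat_lit 304)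 (nat_lit 3300042551) (nat_lit 76) (nat_lit 2898505189) (nat_lit 40) (nat_lit 5) (nat_lit 44) (nat_lit 5) (nat_lit 41) (nat_lit 4) (nat_lit 267) (nat_lit 231) (nat_lit 222)) (XT.lf (nat_lit 0) (nat_lit 2095357736) (nat_lit 228) (nat_lit 3818200206) (nat_lit 304) (nat_lit 3413977095) (nat_lit 37) (nat_lit 5) (nat_lit 40) (nat_lit 5) (nat_lit 41) (nat_lit 4) (nat_lit 268) (nat_lit 231) (nat_lit 221))) (XT.nd (nat_lit 78) (nat_lit 304) (nat_lit 0) (XT.lf (nat_lit 0) (nat_lit 7725069098) (nat_lit 228) (nat_lit 1305062117) (nat_lit 304) (nat_lit 548538069) (nat_lit 37) (nat_lit 5) (nat_lit 40) (nat_lit 5) (nat_lit 41) (nat_lit 4) (nat_lit 269) (nat_lit 231) (nat_lit 220)) (XT.nd (nat_lit 78) (nat_lit 0) (nat_lit 0) (XT.lf (nat_lit 0) (nat_lit 2353536750) (nat_lit 304) (nat_lit 6136971873) (nat_lit 76) (nat_lit 1351631455) (nat_lit 33) (nat_lit 5) (nat_lit 37) (nat_lit 5) (nat_lit 34) (nat_lit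 4) (nat_lit 270) (nat_lit 231) (nat_lit 219)) (XT.lf (nat_lit 0) (nat_lit 5329949390) (nat_lit 304) (nat_lit 691206621) (nat_lit 76) (nat_lit 4100086381) (nat_lit 33) (nat_lit 5) (nat_lit 37) (nat_lit 5) (nat_lit 34) (nat_lit 4) (nat_lit 271) (nat_lit 231) (nat_lit 218)))))) (XT.nd (nat_lit 312) (nat_lit 380) (nat_lit 0) (XT.nd (nat_lit 156) (nat_lit 152) (nat_lit 0) (XT.nd (nat_lit 78) (nat_lit 304) (nat_lit 0) (XT.lf (nat_lit 0) (nat_lit 5046147394) (nat_lit 152) (nat_lit 3387217733) (nat_lit 228) (nat_lit 1982302741) (nat_lit 31) (nat_lit 5) (nat_lit 33) (nat_lit 5) (nat_lit 34) (nat_lit 4) (nat_lit 272) (nat_lit 231) (nat_lit 217)) (XT.lf (nat_lit 0) (nat_lit 218367201) (nat_lit 228) (nat_lit 633264621) (nat_lit 304) (nat_lit 9876906752) (nat_lit 27) (nat_lit 5) (nat_lit 30) (nat_lit 5) (nat_lit 31) (nat_lit 5) (nat_lit 273) (nat_lit 231) (nat_lit 216))) (XT.nd (nat_lit 78) (nat_lit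 152) (nat_lit 0) (XT.lf (nat_lit 0) (nat_lit 3790339499) (nat_lit 304) (nat_lit 4995259821) (nat_lit 76) (nat_lit 2268583350) (nat_lit 27) (nat_lit 5) (nat_lit 31) (nat_lit 5) (nat_lit 28) (nat_lit 4) (nat_lit 274) (nat_lit 231) (nat_lit 215)) (XT.lf (nat_lit 0) (nat_lit 667746635) (nat_lit 152) (nat_lit 6135717798) (nat_lit 228) (nat_lit 4596498472) (nat_lit 25) (nat_lit 5) (nat_lit 27) (nat_lit 5) (nat_lit 28) (nat_lit 4) (nat_lit 275) (nat_lit 231) (nat_lit 214)))) (XT.nd (nat_lit 156) (nat_lit 152) (nat_lit 0) (XT.nd (nat_lit 78) (nat_lit 228) (nat_lit 0) (XT.lf (nat_lit 0) (nat_lit 6650922359) (nat_lit 152) (nat_lit 3309909864) (nat_lit 228) (nat_lit 1802737770) (nat_lit 25) (nat_lit 5) (nat_lit 27) (nat_lit 5) (nat_lit 28) (nat_lit 4) (nat_lit 276) (nat_lit 231) (nat_lit 213)) (XT.lf (nat_lit 0) (nat_lit 658289006) (nat_lit 152) (nat_lit 358212047) (nat_lit 228) (nat_lit 11132071688)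 (nat_lit 22) (nat_lit 5) (nat_lit 24) (nat_lit 5) (nat_lit 25) (nat_lit 5) (nat_lit 277) (nat_lit 231) (nat_lit 212))) (XT.nd (nat_lit 78) (nat_lit 152) (nat_lit 0) (XT.lf (nat_lit 0) (nat_lit 3960083222) (nat_lit 228) (nat_lit 5861669094) (nat_lit 76) (nat_lit 2727584997) (nat_lit 22) (nat_lit 5) (nat_lit 25) (nat_lit 5) (nat_lit 23) (nat_lit 4) (nat_lit 278) (nat_lit 231) (nat_lit 211)) (XT.nd (nat_lit 78) (nat_lit 152) (nat_lit 0) (XT.lf (nat_lit 0) (nat_lit 6974016665) (nat_lit 228) (nat_lit 85759366) (nat_lit 76) (nat_lit 5914384140) (nat_lit 22) (nat_lit 5) (nat_lit 25) (nat_lit 5) (nat_lit 23) (nat_lit 4) (nat_lit 279) (nat_lit 231) (nat_lit 210)) (XT.lf (nat_lit 0) (nat_lit 6050442244) (nat_lit 152) (nat_lit 4103906835) (nat_lit 228) (nat_lit 3265260139) (nat_lit 20) (nat_lit 5) (nat_lit 22) (nat_lit 5) (nat_lit 23) (nat_lit 4) (nat_lit 280) (nat_lit 231) (nat_lit 209))))))))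
noncomputable def xc82 : XT := (XT.nd (nat_lit 1404) (nat_lit 304) (nat_lit 0) (XT.nd (nat_lit 702) (nat_lit 380) (nat_lit 0) (XT.nd (nat_lit 312) (nat_lit 228) (nat_lit 0) (XT.nd (nat_lit 156) (nat_lit 76) (nat_lit 0) (XT.nd (nat_lit 78) (nat_lit 228) (nat_lit 0) (XT.lf (nat_lit 0) (nat_lit 12376246017) (nat_lit 152) (nat_lit 1042016557) (nat_lit 228) (nat_lit 473001973) (nat_lit 20) (nat_lit 5) (nat_lit 22) (nat_lit 5) (nat_lit 23) (nat_lit 4) (nat_lit 281) (nat_lit 231) (nat_lit 208)) (XT.lf (nat_lit 0) (nat_lit 2412868610) (nat_lit 228) (nat_lit 9795542947) (nat_lit 76) (nat_lit 2174683652) (nat_lit 17) (nat_lit 5) (nat_lit 20) (nat_lit 5) (nat_lit 18) (nat_lit 4) (nat_lit 282) (nat_lit 231) (nat_lit 207))) (XT.nd (nat_lit 78) (nat_lit 76) (nat_lit 0) (XT.lf (nat_lit 0) (nat_lit 5396812224) (nat_lit 228) (nat_lit 3993948349) (nat_lit 76) (nat_lit 5510025339) (nat_lit 17) (nat_lit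 5) (nat_lit 20) (nat_lit 5) (nat_lit 18) (nat_lit 4) (nat_lit 283) (nat_lit 231) (nat_lit 206)) (XT.lf (nat_lit 0) (nat_lit 2050687984) (nat_lit 76) (nat_lit 6441296348) (nat_lit 152) (nat_lit 6954408579) (nat_lit 16) (nat_lit 5) (nat_lit 17) (nat_lit 5) (nat_lit 18) (nat_lit 4) (nat_lit 284) (nat_lit 231) (nat_lit 205)))) (XT.nd (nat_lit 156) (nat_lit 228) (nat_lit 0) (XT.nd (nat_lit 78) (nat_lit 0) (nat_lit 0) (XT.lf (nat_lit 0) (nat_lit 8425361489) (nat_lit 76) (nat_lit 3315809215) (nat_lit 152) (nat_lit 4278273745) (nat_lit 16) (nat_lit 5) (nat_lit 17) (nat_lit 5) (nat_lit 18) (nat_lit 4) (nat_lit 285) (nat_lit 231) (nat_lit 204)) (XT.lf (nat_lit 0) (nat_lit 15013191991) (nat_lit 76) (nat_lit 74496988) (nat_lit 152) (nat_lit 1536836887) (nat_lit 16) (nat_lit 5) (nat_lit 17) (nat_lit 5) (nat_lit 18) (nat_lit 4) (nat_lit 286) (nat_lit 231) (nat_lit 203))) (XT.nd (nat_lit 78) (nat_lit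 0) (nat_lit 0) (XT.lf (nat_lit 0) (nat_lit 1361812586) (nat_lit 228) (nat_lit 12614117214) (nat_lit 76) (nat_lit 3279839744) (nat_lit 13) (nat_lit 5) (nat_lit 16) (nat_lit 5) (nat_lit 14) (nat_lit 4) (nat_lit 287) (nat_lit 231) (nat_lit 202)) (XT.nd (nat_lit 78) (nat_lit 0) (nat_lit 0) (XT.lf (nat_lit 0) (nat_lit 4320364122) (nat_lit 228) (nat_lit 6784509918) (nat_lit 76) (nat_lit 6814215255) (nat_lit 13) (nat_lit 5) (nat_lit 16) (nat_lit 5) (nat_lit 14) (nat_lit 4) (nat_lit 288) (nat_lit 231) (nat_lit 201)) (XT.lf (nat_lit 0) (nat_lit 7367471855) (nat_lit 228) (nat_lit 762151785) (nat_lit 76) (nat_lit 10489019453) (nat_lit 13) (nat_lit 5) (nat_lit 16) (nat_lit 5) (nat_lit 14) (nat_lit 4) (nat_lit 289) (nat_lit 231) (nat_lit 200)))))) (XT.nd (nat_lit 312) (nat_lit 152) (nat_lit 0) (XT.nd (nat_lit 156) (nat_lit 152) (nat_lit 0) (XT.nd (nat_lit 78) (nat_lit 0) (nat_lit 0) (XT.lf (nat_lit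 0) (nat_lit 5648069633) (nat_lit 76) (nat_lit 4950503364) (nat_lit 152) (nat_lit 8753114433) (nat_lit 12) (nat_lit 5) (nat_lit 13) (nat_lit 5) (nat_lit 14) (nat_lit 4) (nat_lit 290) (nat_lit 231) (nat_lit 199)) (XT.lf (nat_lit 0) (nat_lit 12312750774) (nat_lit 76) (nat_lit 1636089875) (nat_lit 152) (nat_lit 6174753002) (nat_lit 12) (nat_lit 5) (nat_lit 13) (nat_lit 5) (nat_lit 14) (nat_lit 4) (nat_lit 291) (nat_lit 231) (nat_lit 198))) (XT.nd (nat_lit 78) (nat_lit 152) (nat_lit 0) (XT.lf (nat_lit 0) (nat_lit 17442196196) (nat_lit 152) (nat_lit 1742491849) (nat_lit 0) (nat_lit 1750714353) (nat_lit 12) (nat_lit 5) (nat_lit 14) (nat_lit 4) (nat_lit 12) (nat_lit 4) (nat_lit 292) (nat_lit 231) (nat_lit 197)) (XT.lf (nat_lit 0) (nat_lit 4665817611) (nat_lit 152) (nat_lit 16493387459) (nat_lit 152) (nat_lit 626229084) (nat_lit 10) (nat_lit 4) (nat_lit 12) (nat_lit 5) (nat_lit 12) (nat_lit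 4) (nat_lit 293) (nat_lit 231) (nat_lit 196)))) (XT.nd (nat_lit 156) (nat_lit 76) (nat_lit 0) (XT.nd (nat_lit 78) (nat_lit 0) (nat_lit 0) (XT.lf (nat_lit 0) (nat_lit 2287306931) (nat_lit 228) (nat_lit 11345490147) (nat_lit 76) (nat_lit 9044407736) (nat_lit 9) (nat_lit 5) (nat_lit 12) (nat_lit 5) (nat_lit 10) (nat_lit 4) (nat_lit 294) (nat_lit 231) (nat_lit 195)) (XT.lf (nat_lit 0) (nat_lit 5277400364) (nat_lit 228) (nat_lit 5375142404) (nat_lit 76) (nat_lit 12962982341) (nat_lit 9) (nat_lit 5) (nat_lit 12) (nat_lit 5) (nat_lit 10) (nat_lit 4) (nat_lit 295) (nat_lit 231) (nat_lit 194))) (XT.nd (nat_lit 78) (nat_lit 0) (nat_lit 0) (XT.lf (nat_lit 0) (nat_lit 842380423) (nat_lit 76) (nat_lit 7541985219) (nat_lit 152) (nat_lit 16218094755) (nat_lit 8) (nat_lit 5) (nat_lit 9) (nat_lit 5) (nat_lit 10) (nat_lit 4) (nat_lit 296) (nat_lit 231) (nat_lit 193)) (XT.nd (nat_lit 78) (nat_lit 0)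 (nat_lit 0) (XT.lf (nat_lit 0) (nat_lit 7480351426) (nat_lit 76) (nat_lit 4212551055) (nat_lit 152) (nat_lit 13943592935) (nat_lit 8) (nat_lit 5) (nat_lit 9) (nat_lit 5) (nat_lit 10) (nat_lit 4) (nat_lit 297) (nat_lit 231) (nat_lit 192)) (XT.lf (nat_lit 0) (nat_lit 14376848815) (nat_lit 76) (nat_lit 747343690) (nat_lit 152) (nat_lit 11600234441) (nat_lit 8) (nat_lit 5) (nat_lit 9) (nat_lit 5) (nat_lit 10) (nat_lit 4) (nat_lit 298) (nat_lit 231) (nat_lit 191))))))) (XT.nd (nat_lit 702) (nat_lit 76) (nat_lit 0) (XT.nd (nat_lit 312) (nat_lit 152) (nat_lit 0) (XT.nd (nat_lit 156) (nat_lit 76) (nat_lit 0) (XT.nd (nat_lit 78) (nat_lit 0) (nat_lit 0) (XT.lf (nat_lit 0) (nat_lit 18731087534) (nat_lit 152) (nat_lit 6365234562) (nat_lit 0) (nat_lit 2770289100) (nat_lit 8) (nat_lit 5) (nat_lit 10) (nat_lit 4) (nat_lit 8) (nat_lit 4) (nat_lit 299) (nat_lit 231) (nat_lit 190)) (XT.lf (nat_lit 0)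 (nat_lit 22491437854) (nat_lit 152) (nat_lit 164132048) (nat_lit 0) (nat_lit 6411734628) (nat_lit 8) (nat_lit 5) (nat_lit 10) (nat_lit 4) (nat_lit 8) (nat_lit 4) (nat_lit 300) (nat_lit 231) (nat_lit 189))) (XT.nd (nat_lit 78) (nat_lit 0) (nat_lit 0) (XT.lf (nat_lit 0) (nat_lit 6489878718) (nat_lit 76) (nat_lit 20013975028) (nat_lit 76) (nat_lit 3821029144) (nat_lit 7) (nat_lit 4) (nat_lit 8) (nat_lit 5) (nat_lit 8) (nat_lit 4) (nat_lit 301) (nat_lit 231) (nat_lit 188)) (XT.lf (nat_lit 0) (nat_lit 13418470980) (nat_lit 76) (nat_lit 17264700704) (nat_lit 76) (nat_lit 963904668) (nat_lit 7) (nat_lit 4) (nat_lit 8) (nat_lit 5) (nat_lit 8) (nat_lit 4) (nat_lit 302) (nat_lit 231) (nat_lit 187)))) (XT.nd (nat_lit 156) (nat_lit 76) (nat_lit 0) (XT.nd (nat_lit 78) (nat_lit 0) (nat_lit 0) (XT.lf (nat_lit 0) (nat_lit 1935532331) (nat_lit 152) (nat_lit 12435669187) (nat_lit 76) (nat_lit 18664402932)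 (nat_lit 6) (nat_lit 5) (nat_lit 8) (nat_lit 5) (nat_lit 7) (nat_lit 4) (nat_lit 303) (nat_lit 231) (nat_lit 186)) (XT.lf (nat_lit 0) (nat_lit 4913855709) (nat_lit 152) (nat_lit 6427929527) (nat_lit 76) (nat_lit 23152711633) (nat_lit 6) (nat_lit 5) (nat_lit 8) (nat_lit 5) (nat_lit 7) (nat_lit 4) (nat_lit 304) (nat_lit 231) (nat_lit 185))) (XT.nd (nat_lit 78) (nat_lit 76) (nat_lit 0) (XT.lf (nat_lit 0) (nat_lit 8009007681) (nat_lit 152) (nat_lit 176033000) (nat_lit 76) (nat_lit 27842938949) (nat_lit 6) (nat_lit 5) (nat_lit 8) (nat_lit 5) (nat_lit 7) (nat_lit 4) (nat_lit 305) (nat_lit 231) (nat_lit 184)) (XT.nd (nat_lit 78) (nat_lit 0) (nat_lit 0) (XT.lf (nat_lit 0) (nat_lit 6544366461) (nat_lit 76) (nat_lit 4786167097) (nat_lit 152) (nat_lit 26304061525) (nat_lit 5) (nat_lit 5) (nat_lit 6) (nat_lit 5) (nat_lit 7) (nat_lit 4) (nat_lit 306) (nat_lit 231) (nat_lit 183)) (XT.lf (nat_lit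 0) (nat_lit 13554208624) (nat_lit 76) (nat_lit 1236981314) (nat_lit 152) (nat_lit 24531736157) (nat_lit 5) (nat_lit 5) (nat_lit 6) (nat_lit 5) (nat_lit 7) (nat_lit 4) (nat_lit 307) (nat_lit 231) (nat_lit 182)))))) (XT.nd (nat_lit 312) (nat_lit 76) (nat_lit 0) (XT.nd (nat_lit 156) (nat_lit 0) (nat_lit 0) (XT.nd (nat_lit 78) (nat_lit 0) (nat_lit 0) (XT.lf (nat_lit 0) (nat_lit 18434909414) (nat_lit 152) (nat_lit 20271303498) (nat_lit 0) (nat_lit 2388994943) (nat_lit 5) (nat_lit 5) (nat_lit 7) (nat_lit 4) (nat_lit 5) (nat_lit 4) (nat_lit 308) (nat_lit 231) (nat_lit 181)) (XT.lf (nat_lit 0) (nat_lit 22253626243) (nat_lit 152) (nat_lit 14568156355) (nat_lit 0) (nat_lit 6134714545) (nat_lit 5) (nat_lit 5) (nat_lit 7) (nat_lit 4) (nat_lit 5) (nat_lit 4) (nat_lit 309) (nat_lit 231) (nat_lit 180))) (XT.nd (nat_lit 78) (nat_lit 0) (nat_lit 0) (XT.lf (nat_lit 0) (nat_lit 26237119864) (nat_lit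 152) (nat_lit 8626384378) (nat_lit 0) (nat_lit 10048686996) (nat_lit 5) (nat_lit 5) (nat_lit 7) (nat_lit 4) (nat_lit 5) (nat_lit 4) (nat_lit 310) (nat_lit 231) (nat_lit 179)) (XT.lf (nat_lit 0) (nat_lit 30394874785) (nat_lit 152) (nat_lit 2431840490) (nat_lit 0) (nat_lit 14140231280) (nat_lit 5) (nat_lit 5) (nat_lit 7) (nat_lit 4) (nat_lit 5) (nat_lit 4) (nat_lit 311) (nat_lit 231) (nat_lit 178)))) (XT.nd (nat_lit 156) (nat_lit 0) (nat_lit 0) (XT.nd (nat_lit 78) (nat_lit 0) (nat_lit 0) (XT.lf (nat_lit 0) (nat_lit 4163481635) (nat_lit 76) (nat_lit 30638312404) (nat_lit 76) (nat_lit 14320611150) (nat_lit 4) (nat_lit 4) (nat_lit 5) (nat_lit 5) (nat_lit 5) (nat_lit 4) (nat_lit 312) (nat_lit 231) (nat_lit 177)) (XT.lf (nat_lit 0) (nat_lit 11131472257) (nat_lit 76) (nat_lit 28315525893) (nat_lit 76) (nat_lit 11937769639) (nat_lit 4) (nat_lit 4) (nat_lit 5) (nat_lit 5) (nat_lit 5) (nat_lit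 4) (nat_lit 313) (nat_lit 231) (nat_lit 176))) (XT.nd (nat_lit 78) (nat_lit 0) (nat_lit 0) (XT.lf (nat_lit 0) (nat_lit 18408314199) (nat_lit 76) (nat_lit 25894009695) (nat_lit 76) (nat_lit 9459058202) (nat_lit 4) (nat_lit 4) (nat_lit 5) (nat_lit 5) (nat_lit 5) (nat_lit 4) (nat_lit 314) (nat_lit 231) (nat_lit 175)) (XT.nd (nat_lit 78) (nat_lit 0) (nat_lit 0) (XT.lf (nat_lit 0) (nat_lit 26011333276) (nat_lit 76) (nat_lit 23367998293) (nat_lit 76) (nat_lit 6878575146) (nat_lit 4) (nat_lit 4) (nat_lit 5) (nat_lit 5) (nat_lit 5) (nat_lit 4) (nat_lit 315) (nat_lit 231) (nat_lit 174)) (XT.lf (nat_lit 0) (nat_lit 33958631913) (nat_lit 76) (nat_lit 20731477377) (nat_lit 76) (nat_lit 4190176463) (nat_lit 4) (nat_lit 4) (nat_lit 5) (nat_lit 5) (nat_lit 5) (nat_lit 4) (nat_lit 316) (nat_lit 231) (nat_lit 173))))))))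
noncomputable def xc83 : XT := (XT.nd (nat_lit 1404) (nat_lit 76) (nat_lit 0) (XT.nd (nat_lit 702) (nat_lit 0) (nat_lit 0) (XT.nd (nat_lit 312) (nat_lit 76) (nat_lit 0) (XT.nd (nat_lit 156) (nat_lit 0) (nat_lit 0) (XT.nd (nat_lit 78) (nat_lit 76) (nat_lit 0) (XT.lf (nat_lit 0) (nat_lit 42269132250) (nat_lit 76) (nat_lit 17978169514) (nat_lit 76) (nat_lit 1387461203) (nat_lit 4) (nat_lit 4) (nat_lit 5) (nat_lit 5) (nat_lit 5) (nat_lit 4) (nat_lit 317) (nat_lit 231) (nat_lit 172)) (XT.lf (nat_lit 0) (nat_lit 1487074369) (nat_lit 152) (nat_lit 13589260517) (nat_lit 76) (nat_lit 49450362499) (nat_lit 3) (nat_lit 5) (nat_lit 5) (nat_lit 5) (nat_lit 4) (nat_lit 4) (nat_lit 318) (nat_lit 231) (nat_lit 171))) (XT.nd (nat_lit 78) (nat_lit 0) (nat_lit 0) (XT.lf (nat_lit 0) (nat_lit 4441058200) (nat_lit 152) (nat_lit 7578407628) (nat_lit 76) (nat_lit 55543527854) (nat_lit 3) (nat_lit 5) (nat_lit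 5) (nat_lit 5) (nat_lit 4) (nat_lit 4) (nat_lit 319) (nat_lit 231) (nat_lit 170)) (XT.lf (nat_lit 0) (nat_lit 7525931009) (nat_lit 152) (nat_lit 1297098338) (nat_lit 76) (nat_lit 61928934896) (nat_lit 3) (nat_lit 5) (nat_lit 5) (nat_lit 5) (nat_lit 4) (nat_lit 4) (nat_lit 320) (nat_lit 231) (nat_lit 169)))) (XT.nd (nat_lit 156) (nat_lit 0) (nat_lit 0) (XT.nd (nat_lit 78) (nat_lit 0) (nat_lit 0) (XT.lf (nat_lit 0) (nat_lit 5443860379) (nat_lit 76) (nat_lit 5390171266) (nat_lit 152) (nat_lit 63262920513) (nat_lit 2) (nat_lit 5) (nat_lit 3) (nat_lit 5) (nat_lit 4) (nat_lit 4) (nat_lit 321) (nat_lit 231) (nat_lit 168)) (XT.lf (nat_lit 0) (nat_lit 12538707948) (nat_lit 76) (nat_lit 1775108847) (nat_lit 152) (nat_lit 63295075878) (nat_lit 2) (nat_lit 5) (nat_lit 3) (nat_lit 5) (nat_lit 4) (nat_lit 4) (nat_lit 322) (nat_lit 231) (nat_lit 167))) (XT.nd (nat_lit 78) (nat_lit 0) (nat_lit 0)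 (XT.lf (nat_lit 0) (nat_lit 17984013690) (nat_lit 152) (nat_lit 61367107635) (nat_lit 0) (nat_lit 1944504124) (nat_lit 2) (nat_lit 5) (nat_lit 4) (nat_lit 4) (nat_lit 2) (nat_lit 4) (nat_lit 323) (nat_lit 231) (nat_lit 166)) (XT.nd (nat_lit 78) (nat_lit 0) (nat_lit 0) (XT.lf (nat_lit 0) (nat_lit 21852414471) (nat_lit 152) (nat_lit 57534097237) (nat_lit 0) (nat_lit 5779464034) (nat_lit 2) (nat_lit 5) (nat_lit 4) (nat_lit 4) (nat_lit 2) (nat_lit 4) (nat_lit 324) (nat_lit 231) (nat_lit 165)) (XT.lf (nat_lit 0) (nat_lit 25900515193) (nat_lit 152) (nat_lit 53534312892) (nat_lit 0) (nat_lit 9795716307) (nat_lit 2) (nat_lit 5) (nat_lit 4) (nat_lit 4) (nat_lit 2) (nat_lit 4) (nat_lit 325) (nat_lit 231) (nat_lit 164)))))) (XT.nd (nat_lit 312) (nat_lit 0) (nat_lit 0) (XT.nd (nat_lit 156) (nat_lit 0) (nat_lit 0) (XT.nd (nat_lit 78) (nat_lit 0) (nat_lit 0) (XT.lf (nat_lit 0) (nat_lit 30137954192)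 (nat_lit 152) (nat_lit 49358231304) (nat_lit 0) (nat_lit 14002823450) (nat_lit 2) (nat_lit 5) (nat_lit 4) (nat_lit 4) (nat_lit 2) (nat_lit 4) (nat_lit 326) (nat_lit 231) (nat_lit 163)) (XT.lf (nat_lit 0) (nat_lit 34574820607) (nat_lit 152) (nat_lit 44995909422) (nat_lit 0) (nat_lit 18410802384) (nat_lit 2) (nat_lit 5) (nat_lit 4) (nat_lit 4) (nat_lit 2) (nat_lit 4) (nat_lit 327) (nat_lit 231) (nat_lit 162))) (XT.nd (nat_lit 78) (nat_lit 0) (nat_lit 0) (XT.lf (nat_lit 0) (nat_lit 39221678406) (nat_lit 152) (nat_lit 40436960765) (nat_lit 0) (nat_lit 23030148296) (nat_lit 2) (nat_lit 5) (nat_lit 4) (nat_lit 4) (nat_lit 2) (nat_lit 4) (nat_lit 328) (nat_lit 231) (nat_lit 161)) (XT.lf (nat_lit 0) (nat_lit 44089591537) (nat_lit 152) (nat_lit 35670530693) (nat_lit 0) (nat_lit 27871859629) (nat_lit 2) (nat_lit 5) (nat_lit 4) (nat_lit 4) (nat_lit 2) (nat_lit 4) (nat_lit 329) (nat_lit 231) (nat_lit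 160)))) (XT.nd (nat_lit 156) (nat_lit 0) (nat_lit 0) (XT.nd (nat_lit 78) (nat_lit 0) (nat_lit 0) (XT.lf (nat_lit 0) (nat_lit 49190150269) (nat_lit 152) (nat_lit 30685270563) (nat_lit 0) (nat_lit 32947464268) (nat_lit 2) (nat_lit 5) (nat_lit 4) (nat_lit 4) (nat_lit 2) (nat_lit 4) (nat_lit 330) (nat_lit 231) (nat_lit 159)) (XT.lf (nat_lit 0) (nat_lit 54535498790) (nat_lit 152) (nat_lit 25469310709) (nat_lit 0) (nat_lit 38269046986) (nat_lit 2) (nat_lit 5) (nat_lit 4) (nat_lit 4) (nat_lit 2) (nat_lit 4) (nat_lit 331) (nat_lit 231) (nat_lit 158))) (XT.nd (nat_lit 78) (nat_lit 0) (nat_lit 0) (XT.lf (nat_lit 0) (nat_lit 60138364119) (nat_lit 152) (nat_lit 20010232178) (nat_lit 0) (nat_lit 43849278217) (nat_lit 2) (nat_lit 5) (nat_lit 4) (nat_lit 4) (nat_lit 2) (nat_lit 4) (nat_lit 332) (nat_lit 231) (nat_lit 157)) (XT.nd (nat_lit 78) (nat_lit 0) (nat_lit 0) (XT.lf (nat_lit 0) (nat_lit 66012086412)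 (nat_lit 152) (nat_lit 14295037165) (nat_lit 0) (nat_lit 49701444227) (nat_lit 2) (nat_lit 5) (nat_lit 4) (nat_lit 4) (nat_lit 2) (nat_lit 4) (nat_lit 333) (nat_lit 231) (nat_lit 156)) (XT.lf (nat_lit 0) (nat_lit 72170650722) (nat_lit 152) (nat_lit 8310118062) (nat_lit 0) (nat_lit 55839478743) (nat_lit 2) (nat_lit 5) (nat_lit 4) (nat_lit 4) (nat_lit 2) (nat_lit 4) (nat_lit 334) (nat_lit 231) (nat_lit 155))))))) (XT.nd (nat_lit 702) (nat_lit 0) (nat_lit 0) (XT.nd (nat_lit 312) (nat_lit 0) (nat_lit 0) (XT.nd (nat_lit 156) (nat_lit 0) (nat_lit 0) (XT.nd (nat_lit 78) (nat_lit 76) (nat_lit 0) (XT.lf (nat_lit 0) (nat_lit 78628720298) (nat_lit 152) (nat_lit 2041225061) (nat_lit 0) (nat_lit 62277996134) (nat_lit 2) (nat_lit 5) (nat_lit 4) (nat_lit 4) (nat_lit 2) (nat_lit 4) (nat_lit 335) (nat_lit 231) (nat_lit 154)) (XT.lf (nat_lit 0) (nat_lit 4676236544) (nat_lit 76) (nat_lit 80798444109)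 (nat_lit 76) (nat_lit 64429098816) (nat_lit 1) (nat_lit 4) (nat_lit 2) (nat_lit 5) (nat_lit 2) (nat_lit 4) (nat_lit 336) (nat_lit 231) (nat_lit 153))) (XT.nd (nat_lit 78) (nat_lit 0) (nat_lit 0) (XT.lf (nat_lit 0) (nat_lit 11786127733) (nat_lit 76) (nat_lit 80903517141) (nat_lit 76) (nat_lit 64516437441) (nat_lit 1) (nat_lit 4) (nat_lit 2) (nat_lit 5) (nat_lit 2) (nat_lit 4) (nat_lit 337) (nat_lit 231) (nat_lit 152)) (XT.lf (nat_lit 0) (nat_lit 19237884697) (nat_lit 76) (nat_lit 81019983764) (nat_lit 76) (nat_lit 64616014152) (nat_lit 1) (nat_lit 4) (nat_lit 2) (nat_lit 5) (nat_lit 2) (nat_lit 4) (nat_lit 338) (nat_lit 231) (nat_lit 151)))) (XT.nd (nat_lit 156) (nat_lit 0) (nat_lit 0) (XT.nd (nat_lit 78) (nat_lit 0) (nat_lit 0) (XT.lf (nat_lit 0) (nat_lit 27049249715) (nat_lit 76) (nat_lit 81148121280) (nat_lit 76) (nat_lit 64728066037) (nat_lit 1) (nat_lit 4) (nat_lit 2) (nat_lit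 5) (nat_lit 2) (nat_lit 4) (nat_lit 339) (nat_lit 231) (nat_lit 150)) (XT.lf (nat_lit 0) (nat_lit 35238821275) (nat_lit 76) (nat_lit 81288234779) (nat_lit 76) (nat_lit 64852859887) (nat_lit 1) (nat_lit 4) (nat_lit 2) (nat_lit 5) (nat_lit 2) (nat_lit 4) (nat_lit 340) (nat_lit 231) (nat_lit 149))) (XT.nd (nat_lit 78) (nat_lit 0) (nat_lit 0) (XT.lf (nat_lit 0) (nat_lit 43826098357) (nat_lit 76) (nat_lit 81440657862) (nat_lit 76) (nat_lit 64990692830) (nat_lit 1) (nat_lit 4) (nat_lit 2) (nat_lit 5) (nat_lit 2) (nat_lit 4) (nat_lit 341) (nat_lit 231) (nat_lit 148)) (XT.nd (nat_lit 78) (nat_lit 0) (nat_lit 0) (XT.lf (nat_lit 0) (nat_lit 52831526858) (nat_lit 76) (nat_lit 81605753444) (nat_lit 76) (nat_lit 65141893039) (nat_lit 1) (nat_lit 4) (nat_lit 2) (nat_lit 5) (nat_lit 2) (nat_lit 4) (nat_lit 342) (nat_lit 231) (nat_lit 147)) (XT.lf (nat_lit 0) (nat_lit 62276548276) (nat_lit 76) (nat_lit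 81783914608) (nat_lit 76) (nat_lit 65306820515) (nat_lit 1) (nat_lit 4) (nat_lit 2) (nat_lit 5) (nat_lit 2) (nat_lit 4) (nat_lit 343) (nat_lit 231) (nat_lit 146)))))) (XT.nd (nat_lit 312) (nat_lit 0) (nat_lit 0) (XT.nd (nat_lit 156) (nat_lit 0) (nat_lit 0) (XT.nd (nat_lit 78) (nat_lit 0) (nat_lit 0) (XT.lf (nat_lit 0) (nat_lit 72183650756) (nat_lit 76) (nat_lit 81975565548) (nat_lit 76) (nat_lit 65485867942) (nat_lit 1) (nat_lit 4) (nat_lit 2) (nat_lit 5) (nat_lit 2) (nat_lit 4) (nat_lit 344) (nat_lit 231) (nat_lit 145)) (XT.lf (nat_lit 0) (nat_lit 82576422638) (nat_lit 76) (nat_lit 82181162576) (nat_lit 76) (nat_lit 65679461624) (nat_lit 1) (nat_lit 4) (nat_lit 2) (nat_lit 5) (nat_lit 2) (nat_lit 4) (nat_lit 345) (nat_lit 231) (nat_lit 144))) (XT.nd (nat_lit 78) (nat_lit 0) (nat_lit 0) (XT.lf (nat_lit 0) (nat_lit 93479608617) (nat_lit 76) (nat_lit 82401195208) (nat_lit 76) (nat_lit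 65888062499) (nat_lit 1) (nat_lit 4) (nat_lit 2) (nat_lit 5) (nat_lit 2) (nat_lit 4) (nat_lit 346) (nat_lit 231) (nat_lit 143)) (XT.lf (nat_lit 0) (nat_lit 104919168658) (nat_lit 76) (nat_lit 82636187331) (nat_lit 76) (nat_lit 66112167234) (nat_lit 1) (nat_lit 4) (nat_lit 2) (nat_lit 5) (nat_lit 2) (nat_lit 4) (nat_lit 347) (nat_lit 231) (nat_lit 142)))) (XT.nd (nat_lit 156) (nat_lit 0) (nat_lit 0) (XT.nd (nat_lit 78) (nat_lit 0) (nat_lit 0) (XT.lf (nat_lit 0) (nat_lit 116922339811) (nat_lit 76) (nat_lit 82886698451) (nat_lit 76) (nat_lit 66352309412) (nat_lit 1) (nat_lit 4) (nat_lit 2) (nat_lit 5) (nat_lit 2) (nat_lit 4) (nat_lit 348) (nat_lit 231) (nat_lit 141)) (XT.lf (nat_lit 0) (nat_lit 129517701053) (nat_lit 76) (nat_lit 83153325022) (nat_lit 76) (nat_lit 66609060802) (nat_lit 1) (nat_lit 4) (nat_lit 2) (nat_lit 5) (nat_lit 2) (nat_lit 4) (nat_lit 349) (nat_lit 231) (nat_lit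 140))) (XT.nd (nat_lit 78) (nat_lit 0) (nat_lit 0) (XT.lf (nat_lit 0) (nat_lit 142735241341) (nat_lit 76) (nat_lit 83436701870) (nat_lit 76) (nat_lit 66883032715) (nat_lit 1) (nat_lit 4) (nat_lit 2) (nat_lit 5) (nat_lit 2) (nat_lit 4) (nat_lit 350) (nat_lit 231) (nat_lit 139)) (XT.nd (nat_lit 78) (nat_lit 0) (nat_lit 0) (XT.lf (nat_lit 0) (nat_lit 156606431008) (nat_lit 76) (nat_lit 83737503702) (nat_lit 76) (nat_lit 67174877465) (nat_lit 1) (nat_lit 4) (nat_lit 2) (nat_lit 5) (nat_lit 2) (nat_lit 4) (nat_lit 351) (nat_lit 231) (nat_lit 138)) (XT.lf (nat_lit 0) (nat_lit 171164296696) (nat_lit 76) (nat_lit 84056446711) (nat_lit 76) (nat_lit 67485289922) (nat_lit 1) (nat_lit 4) (nat_lit 2) (nat_lit 5) (nat_lit 2) (nat_lit 4) (nat_lit 352) (nat_lit 231) (nat_lit 137))))))))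
noncomputable def xc84 : XT := (XT.nd (nat_lit 30420) (nat_lit 0) (nat_lit 1596) (XT.nd (nat_lit 702) (nat_lit 0) (nat_lit 0) (XT.nd (nat_lit 312) (nat_lit 0) (nat_lit 0) (XT.nd (nat_lit 156) (nat_lit 0) (nat_lit 0) (XT.nd (nat_lit 78) (nat_lit 0) (nat_lit 0) (XT.lf (nat_lit 0) (nat_lit 186443499990) (nat_lit 76) (nat_lit 84394290288) (nat_lit 76) (nat_lit 67815009162) (nat_lit 1) (nat_lit 4) (nat_lit 2) (nat_lit 5) (nat_lit 2) (nat_lit 4) (nat_lit 353) (nat_lit 231) (nat_lit 136)) (XT.lf (nat_lit 0) (nat_lit 202480419946) (nat_lit 76) (nat_lit 84751838820) (nat_lit 76) (nat_lit 68164820230) (nat_lit 1) (nat_lit 4) (nat_lit 2) (nat_lit 5) (nat_lit 2) (nat_lit 4) (nat_lit 354) (nat_lit 231) (nat_lit 135))) (XT.nd (nat_lit 78) (nat_lit 0) (nat_lit 0) (XT.lf (nat_lit 0) (nat_lit 219313239707) (nat_lit 76) (nat_lit 85129943615) (nat_lit 76) (nat_lit 68535556012) (nat_lit 1) (nat_lit 4)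 (nat_lit 2) (nat_lit 5) (nat_lit 2) (nat_lit 4) (nat_lit 355) (nat_lit 231) (nat_lit 134)) (XT.lf (nat_lit 0) (nat_lit 236982037414) (nat_lit 76) (nat_lit 85529504920) (nat_lit 76) (nat_lit 68928099210) (nat_lit 1) (nat_lit 4) (nat_lit 2) (nat_lit 5) (nat_lit 2) (nat_lit 4) (nat_lit 356) (nat_lit 231) (nat_lit 133)))) (XT.nd (nat_lit 156) (nat_lit 0) (nat_lit 0) (XT.nd (nat_lit 78) (nat_lit 0) (nat_lit 0) (XT.lf (nat_lit 0) (nat_lit 255528881634) (nat_lit 76) (nat_lit 85951474074) (nat_lit 76) (nat_lit 69343384452) (nat_lit 1) (nat_lit 4) (nat_lit 2) (nat_lit 5) (nat_lit 2) (nat_lit 4) (nat_lit 357) (nat_lit 231) (nat_lit 132)) (XT.lf (nat_lit 0) (nat_lit 274997931520) (nat_lit 76) (nat_lit 86396855764) (nat_lit 76) (nat_lit 69782400512) (nat_lit 1) (nat_lit 4) (nat_lit 2) (nat_lit 5) (nat_lit 2) (nat_lit 4) (nat_lit 358) (nat_lit 231) (nat_lit 131))) (XT.nd (nat_lit 78) (nat_lit 0)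 (nat_lit 0) (XT.lf (nat_lit 0) (nat_lit 295435541952) (nat_lit 76) (nat_lit 86866710423) (nat_lit 76) (nat_lit 70246192666) (nat_lit 1) (nat_lit 4) (nat_lit 2) (nat_lit 5) (nat_lit 2) (nat_lit 4) (nat_lit 359) (nat_lit 231) (nat_lit 130)) (XT.nd (nat_lit 78) (nat_lit 0) (nat_lit 0) (XT.lf (nat_lit 0) (nat_lit 316890373907) (nat_lit 76) (nat_lit 87362156753) (nat_lit 76) (nat_lit 70735865181) (nat_lit 1) (nat_lit 4) (nat_lit 2) (nat_lit 5) (nat_lit 2) (nat_lit 4) (nat_lit 360) (nat_lit 231) (nat_lit 129)) (XT.lf (nat_lit 0) (nat_lit 339413510320) (nat_lit 76) (nat_lit 87884374387) (nat_lit 76) (nat_lit 71252583945) (nat_lit 1) (nat_lit 4) (nat_lit 2) (nat_lit 5) (nat_lit 2) (nat_lit 4) (nat_lit 361) (nat_lit 231) (nat_lit 128)))))) (XT.nd (nat_lit 29328) (nat_lit 0) (nat_lit 4180) (XT.nd (nat_lit 156) (nat_lit 0) (nat_lit 0) (XT.nd (nat_lit 78) (nat_lit 0) (nat_lit 0) (XT.lf (nat_lit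 0) (nat_lit 363058577704) (nat_lit 76) (nat_lit 88434606701) (nat_lit 76) (nat_lit 71797579239) (nat_lit 1) (nat_lit 4) (nat_lit 2) (nat_lit 5) (nat_lit 2) (nat_lit 4) (nat_lit 362) (nat_lit 231) (nat_lit 127)) (XT.lf (nat_lit 0) (nat_lit 387881873840) (nat_lit 76) (nat_lit 89014163773) (nat_lit 76) (nat_lit 72372148673) (nat_lit 1) (nat_lit 4) (nat_lit 2) (nat_lit 5) (nat_lit 2) (nat_lit 4) (nat_lit 363) (nat_lit 231) (nat_lit 126))) (XT.nd (nat_lit 29094) (nat_lit 0) (nat_lit 5700) (XT.lf (nat_lit 0) (nat_lit 413942501813) (nat_lit 76) (nat_lit 89624425499) (nat_lit 76) (nat_lit 72977660267) (nat_lit 1) (nat_lit 4) (nat_lit 2) (nat_lit 5) (nat_lit 2) (nat_lit 4) (nat_lit 364) (nat_lit 231) (nat_lit 125)) (XT.lf (nat_lit 0) (nat_lit 1387569191) (nat_lit 684) (nat_lit 864938481) (nat_lit 0) (nat_lit 1387569191) (nat_lit 76) (nat_lit 5) (nat_lit 85) (nat_lit 4) (nat_lit 76) (nat_lit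 4) (nat_lit 256) (nat_lit 232) (nat_lit 232)))) (XT.nd (nat_lit 156) (nat_lit 456) (nat_lit 0) (XT.nd (nat_lit 78) (nat_lit 380) (nat_lit 0) (XT.lf (nat_lit 0) (nat_lit 2914465252) (nat_lit 684) (nat_lit 2991635448) (nat_lit 684) (nat_lit 1488344962) (nat_lit 67) (nat_lit 4) (nat_lit 76) (nat_lit 5) (nat_lit 76) (nat_lit 4) (nat_lit 257) (nat_lit 232) (nat_lit 231)) (XT.lf (nat_lit 0) (nat_lit 160133300) (nat_lit 304) (nat_lit 1349685729) (nat_lit 380) (nat_lit 6009737444) (nat_lit 62) (nat_lit 5) (nat_lit 66) (nat_lit 5) (nat_lit 67) (nat_lit 4) (nat_lit 258) (nat_lit 232) (nat_lit 230))) (XT.nd (nat_lit 78) (nat_lit 456) (nat_lit 0) (XT.lf (nat_lit 0) (nat_lit 4547432530) (nat_lit 380) (nat_lit 2652297720) (nat_lit 0) (nat_lit 453599676) (nat_lit 62) (nat_lit 5) (nat_lit 67) (nat_lit 4) (nat_lit 62) (nat_lit 4) (nat_lit 259) (nat_lit 232) (nat_lit 229)) (XT.nd (nat_lit 78) (nat_lit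 76) (nat_lit 0) (XT.lf (nat_lit 0) (nat_lit 2184186359) (nat_lit 380) (nat_lit 5472396383) (nat_lit 380) (nat_lit 141802727) (nat_lit 57) (nat_lit 4) (nat_lit 62) (nat_lit 5) (nat_lit 62) (nat_lit 4) (nat_lit 260) (nat_lit 232) (nat_lit 228)) (XT.lf (nat_lit 0) (nat_lit 2785944301) (nat_lit 456) (nat_lit 797275270) (nat_lit 76) (nat_lit 4370151872) (nat_lit 56) (nat_lit 5) (nat_lit 62) (nat_lit 5) (nat_lit 57) (nat_lit 4) (nat_lit 261) (nat_lit 232) (nat_lit 227))))))) (XT.nd (nat_lit 702) (nat_lit 836) (nat_lit 0) (XT.nd (nat_lit 312) (nat_lit 836) (nat_lit 0) (XT.nd (nat_lit 156) (nat_lit 228) (nat_lit 0) (XT.nd (nat_lit 78) (nat_lit 380) (nat_lit 0) (XT.lf (nat_lit 0) (nat_lit 4245195590) (nat_lit 304) (nat_lit 1547699621) (nat_lit 380) (nat_lit 2326713929) (nat_lit 52) (nat_lit 5) (nat_lit 56) (nat_lit 5) (nat_lit 57) (nat_lit 4) (nat_lit 262) (nat_lit 232) (nat_lit 226)) (XT.lf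 (nat_lit 0) (nat_lit 548863905) (nat_lit 380) (nat_lit 7159210017) (nat_lit 76) (nat_lit 590332846) (nat_lit 47) (nat_lit 5) (nat_lit 52) (nat_lit 5) (nat_lit 48) (nat_lit 4) (nat_lit 263) (nat_lit 232) (nat_lit 225))) (XT.nd (nat_lit 78) (nat_lit 228) (nat_lit 0) (XT.lf (nat_lit 0) (nat_lit 3458082039) (nat_lit 380) (nat_lit 2164347295) (nat_lit 76) (nat_lit 2863835073) (nat_lit 47) (nat_lit 5) (nat_lit 52) (nat_lit 5) (nat_lit 48) (nat_lit 4) (nat_lit 264) (nat_lit 232) (nat_lit 224)) (XT.lf (nat_lit 0) (nat_lit 3029712477) (nat_lit 228) (nat_lit 3412247476) (nat_lit 304) (nat_lit 2245504537) (nat_lit 44) (nat_lit 5) (nat_lit 47) (nat_lit 5) (nat_lit 48) (nat_lit 4) (nat_lit 265) (nat_lit 232) (nat_lit 223)))) (XT.nd (nat_lit 156) (nat_lit 532) (nat_lit 0) (XT.nd (nat_lit 78) (nat_lit 228) (nat_lit 0) (XT.lf (nat_lit 0) (nat_lit 574912250) (nat_lit 304) (nat_lit 498811952) (nat_lit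 76) (nat_lit 7828831303) (nat_lit 43) (nat_lit 5) (nat_lit 47) (nat_lit 5) (nat_lit 44) (nat_lit 5) (nat_lit 266) (nat_lit 232) (nat_lit 222)) (XT.lf (nat_lit 0) (nat_lit 3448837020) (nat_lit 304) (nat_lit 4255918996) (nat_lit 76) (nat_lit 1422760683) (nat_lit 40) (nat_lit 5) (nat_lit 44) (nat_lit 5) (nat_lit 41) (nat_lit 4) (nat_lit 267) (nat_lit 232) (nat_lit 221))) (XT.nd (nat_lit 78) (nat_lit 304) (nat_lit 0) (XT.lf (nat_lit 0) (nat_lit 1034690837) (nat_lit 228) (nat_lit 5365304077) (nat_lit 304) (nat_lit 2967391098) (nat_lit 37) (nat_lit 5) (nat_lit 40) (nat_lit 5) (nat_lit 41) (nat_lit 4) (nat_lit 268) (nat_lit 232) (nat_lit 220)) (XT.nd (nat_lit 78) (nat_lit 304) (nat_lit 0) (XT.lf (nat_lit 0) (nat_lit 6594702331) (nat_lit 228) (nat_lit 2870229130) (nat_lit 304) (nat_lit 156327152) (nat_lit 37) (nat_lit 5) (nat_lit 40) (nat_lit 5) (nat_lit 41) (nat_lit 4) (nat_lit 269) (nat_lit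 232) (nat_lit 219)) (XT.lf (nat_lit 0) (nat_lit 2439558825) (nat_lit 228) (nat_lit 201589718) (nat_lit 304) (nat_lit 7248018949) (nat_lit 33) (nat_lit 5) (nat_lit 36) (nat_lit 5) (nat_lit 37) (nat_lit 5) (nat_lit 270) (nat_lit 232) (nat_lit 218)))))) (XT.nd (nat_lit 312) (nat_lit 380) (nat_lit 0) (XT.nd (nat_lit 156) (nat_lit 304) (nat_lit 0) (XT.nd (nat_lit 78) (nat_lit 152) (nat_lit 0) (XT.lf (nat_lit 0) (nat_lit 5565339639) (nat_lit 304) (nat_lit 2070065659) (nat_lit 76) (nat_lit 2535610790) (nat_lit 33) (nat_lit 5) (nat_lit 37) (nat_lit 5) (nat_lit 34) (nat_lit 4) (nat_lit 271) (nat_lit 232) (nat_lit 217)) (XT.lf (nat_lit 0) (nat_lit 3553446289) (nat_lit 152) (nat_lit 5045266541) (nat_lit 228) (nat_lit 1870359630) (nat_lit 31) (nat_lit 5) (nat_lit 33) (nat_lit 5) (nat_lit 34) (nat_lit 4) (nat_lit 272) (nat_lit 232) (nat_lit 216))) (XT.nd (nat_lit 78) (nat_lit 228) (nat_lit 0) (XT.lf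 (nat_lit 0) (nat_lit 910191127) (nat_lit 228) (nat_lit 1403126788) (nat_lit 76) (nat_lit 8471144704) (nat_lit 30) (nat_lit 5) (nat_lit 33) (nat_lit 5) (nat_lit 31) (nat_lit 5) (nat_lit 273) (nat_lit 232) (nat_lit 215)) (XT.lf (nat_lit 0) (nat_lit 3754142039) (nat_lit 304) (nat_lit 6761231704) (nat_lit 76) (nat_lit 599582045) (nat_lit 27) (nat_lit 5) (nat_lit 31) (nat_lit 5) (nat_lit 28) (nat_lit 4) (nat_lit 274) (nat_lit 232) (nat_lit 214)))) (XT.nd (nat_lit 156) (nat_lit 228) (nat_lit 0) (XT.nd (nat_lit 78) (nat_lit 152) (nat_lit 0) (XT.lf (nat_lit 0) (nat_lit 6713485057) (nat_lit 304) (nat_lit 1184006763) (nat_lit 76) (nat_lit 3566039236) (nat_lit 27) (nat_lit 5) (nat_lit 31) (nat_lit 5) (nat_lit 28) (nat_lit 4) (nat_lit 275) (nat_lit 232) (nat_lit 213)) (XT.lf (nat_lit 0) (nat_lit 4696649757) (nat_lit 152) (nat_lit 5112824890) (nat_lit 228) (nat_lit 2020833298) (nat_lit 25) (nat_lit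 5) (nat_lit 27) (nat_lit 5) (nat_lit 28) (nat_lit 4) (nat_lit 276) (nat_lit 232) (nat_lit 212))) (XT.nd (nat_lit 78) (nat_lit 152) (nat_lit 0) (XT.lf (nat_lit 0) (nat_lit 754087145) (nat_lit 228) (nat_lit 1442186622) (nat_lit 76) (nat_lit 10021863633) (nat_lit 24) (nat_lit 5) (nat_lit 27) (nat_lit 5) (nat_lit 25) (nat_lit 5) (nat_lit 277) (nat_lit 232) (nat_lit 211)) (XT.nd (nat_lit 78) (nat_lit 0) (nat_lit 0) (XT.lf (nat_lit 0) (nat_lit 3604988073) (nat_lit 228) (nat_lit 8114046486) (nat_lit 76) (nat_lit 904588629) (nat_lit 22) (nat_lit 5) (nat_lit 25) (nat_lit 5) (nat_lit 23) (nat_lit 4) (nat_lit 278) (nat_lit 232) (nat_lit 210)) (XT.lf (nat_lit 0) (nat_lit 6580500998) (nat_lit 228) (nat_lit 2397724827) (nat_lit 76) (nat_lit 4072224252) (nat_lit 22) (nat_lit 5) (nat_lit 25) (nat_lit 5) (nat_lit 23) (nat_lit 4) (nat_lit 279) (nat_lit 232) (nat_lit 209))))))))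
noncomputable def xc85 : XT := (XT.nd (nat_lit 1404) (nat_lit 304) (nat_lit 0) (XT.nd (nat_lit 702) (nat_lit 380) (nat_lit 0) (XT.nd (nat_lit 312) (nat_lit 304) (nat_lit 0) (XT.nd (nat_lit 156) (nat_lit 228) (nat_lit 0) (XT.nd (nat_lit 78) (nat_lit 0) (nat_lit 0) (XT.lf (nat_lit 0) (nat_lit 3603405793) (nat_lit 152) (nat_lit 6082631553) (nat_lit 228) (nat_lit 3813680632) (nat_lit 20) (nat_lit 5) (nat_lit 22) (nat_lit 5) (nat_lit 23) (nat_lit 4) (nat_lit 280) (nat_lit 232) (nat_lit 208)) (XT.lf (nat_lit 0) (nat_lit 9873374356) (nat_lit 152) (nat_lit 3040856200) (nat_lit 228) (nat_lit 1059004054) (nat_lit 20) (nat_lit 5) (nat_lit 22) (nat_lit 5) (nat_lit 23) (nat_lit 4) (nat_lit 281) (nat_lit 232) (nat_lit 207))) (XT.nd (nat_lit 78) (nat_lit 0) (nat_lit 0) (XT.lf (nat_lit 0) (nat_lit 1736193992) (nat_lit 228) (nat_lit 12566576208) (nat_lit 76) (nat_lit 168292229) (nat_lit 17) (nat_lit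 5) (nat_lit 20) (nat_lit 5) (nat_lit 18) (nat_lit 4) (nat_lit 282) (nat_lit 232) (nat_lit 206)) (XT.lf (nat_lit 0) (nat_lit 4685998253) (nat_lit 228) (nat_lit 6819943960) (nat_lit 76) (nat_lit 3484582924) (nat_lit 17) (nat_lit 5) (nat_lit 20) (nat_lit 5) (nat_lit 18) (nat_lit 4) (nat_lit 283) (nat_lit 232) (nat_lit 205)))) (XT.nd (nat_lit 156) (nat_lit 228) (nat_lit 0) (XT.nd (nat_lit 78) (nat_lit 76) (nat_lit 0) (XT.lf (nat_lit 0) (nat_lit 7716639705) (nat_lit 228) (nat_lit 893287543) (nat_lit 76) (nat_lit 6929493359) (nat_lit 17) (nat_lit 5) (nat_lit 20) (nat_lit 5) (nat_lit 18) (nat_lit 4) (nat_lit 284) (nat_lit 232) (nat_lit 204)) (XT.lf (nat_lit 0) (nat_lit 5400349023) (nat_lit 76) (nat_lit 5519299720) (nat_lit 152) (nat_lit 5195191260) (nat_lit 16) (nat_lit 5) (nat_lit 17) (nat_lit 5) (nat_lit 18) (nat_lit 4) (nat_lit 285) (nat_lit 232) (nat_lit 203))) (XT.nd (nat_lit 78) (nat_lit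 228) (nat_lit 0) (XT.lf (nat_lit 0) (nat_lit 11939131126) (nat_lit 76) (nat_lit 2296779252) (nat_lit 152) (nat_lit 2485580054) (nat_lit 16) (nat_lit 5) (nat_lit 17) (nat_lit 5) (nat_lit 18) (nat_lit 4) (nat_lit 286) (nat_lit 232) (nat_lit 202)) (XT.nd (nat_lit 78) (nat_lit 0) (nat_lit 0) (XT.lf (nat_lit 0) (nat_lit 326345316) (nat_lit 228) (nat_lit 15989734646) (nat_lit 76) (nat_lit 1043300222) (nat_lit 13) (nat_lit 5) (nat_lit 16) (nat_lit 5) (nat_lit 14) (nat_lit 4) (nat_lit 287) (nat_lit 232) (nat_lit 201)) (XT.lf (nat_lit 0) (nat_lit 3255935203) (nat_lit 228) (nat_lit 10208288095) (nat_lit 76) (nat_lit 4559973251) (nat_lit 13) (nat_lit 5) (nat_lit 16) (nat_lit 5) (nat_lit 14) (nat_lit 4) (nat_lit 288) (nat_lit 232) (nat_lit 200)))))) (XT.nd (nat_lit 312) (nat_lit 304) (nat_lit 0) (XT.nd (nat_lit 156) (nat_lit 0) (nat_lit 0) (XT.nd (nat_lit 78) (nat_lit 76) (nat_lit 0) (XT.lf (nat_lit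 0) (nat_lit 6275460413) (nat_lit 228) (nat_lit 4231797338) (nat_lit 76) (nat_lit 8217917941) (nat_lit 13) (nat_lit 5) (nat_lit 16) (nat_lit 5) (nat_lit 14) (nat_lit 4) (nat_lit 289) (nat_lit 232) (nat_lit 199)) (XT.lf (nat_lit 0) (nat_lit 2018574349) (nat_lit 76) (nat_lit 7405051543) (nat_lit 152) (nat_lit 10038784939) (nat_lit 12) (nat_lit 5) (nat_lit 13) (nat_lit 5) (nat_lit 14) (nat_lit 4) (nat_lit 290) (nat_lit 232) (nat_lit 198))) (XT.nd (nat_lit 78) (nat_lit 0) (nat_lit 0) (XT.lf (nat_lit 0) (nat_lit 8640276842) (nat_lit 76) (nat_lit 4107927523) (nat_lit 152) (nat_lit 7487439068) (nat_lit 12) (nat_lit 5) (nat_lit 13) (nat_lit 5) (nat_lit 14) (nat_lit 4) (nat_lit 291) (nat_lit 232) (nat_lit 197)) (XT.lf (nat_lit 0) (nat_lit 15509153767) (nat_lit 76) (nat_lit 679702932) (nat_lit 152) (nat_lit 4861270569) (nat_lit 12) (nat_lit 5) (nat_lit 13) (nat_lit 5) (nat_lit 14) (nat_lit 4)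 (nat_lit 292) (nat_lit 232) (nat_lit 196)))) (XT.nd (nat_lit 156) (nat_lit 76) (nat_lit 0) (XT.nd (nat_lit 78) (nat_lit 76) (nat_lit 0) (XT.lf (nat_lit 0) (nat_lit 711442191) (nat_lit 152) (nat_lit 19098526749) (nat_lit 152) (nat_lit 2095022941) (nat_lit 10) (nat_lit 4) (nat_lit 12) (nat_lit 5) (nat_lit 12) (nat_lit 4) (nat_lit 293) (nat_lit 232) (nat_lit 195)) (XT.lf (nat_lit 0) (nat_lit 842072928) (nat_lit 228) (nat_lit 15436598097) (nat_lit 76) (nat_lit 6520445141) (nat_lit 9) (nat_lit 5) (nat_lit 12) (nat_lit 5) (nat_lit 10) (nat_lit 4) (nat_lit 294) (nat_lit 232) (nat_lit 194))) (XT.nd (nat_lit 78) (nat_lit 76) (nat_lit 0) (XT.lf (nat_lit 0) (nat_lit 3809832339) (nat_lit 228) (nat_lit 9504447299) (nat_lit 76) (nat_lit 10424306372) (nat_lit 9) (nat_lit 5) (nat_lit 12) (nat_lit 5) (nat_lit 10) (nat_lit 4) (nat_lit 295) (nat_lit 232) (nat_lit 193)) (XT.nd (nat_lit 78) (nat_lit 76)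 (nat_lit 0) (XT.lf (nat_lit 0) (nat_lit 6882375202) (nat_lit 228) (nat_lit 3350263948) (nat_lit 76) (nat_lit 14494634553) (nat_lit 9) (nat_lit 5) (nat_lit 12) (nat_lit 5) (nat_lit 10) (nat_lit 4) (nat_lit 296) (nat_lit 232) (nat_lit 192)) (XT.lf (nat_lit 0) (nat_lit 3141140898) (nat_lit 76) (nat_lit 6974918209) (nat_lit 152) (nat_lit 15649022054) (nat_lit 8) (nat_lit 5) (nat_lit 9) (nat_lit 5) (nat_lit 10) (nat_lit 4) (nat_lit 297) (nat_lit 232) (nat_lit 191))))))) (XT.nd (nat_lit 702) (nat_lit 76) (nat_lit 0) (XT.nd (nat_lit 312) (nat_lit 152) (nat_lit 0) (XT.nd (nat_lit 156) (nat_lit 76) (nat_lit 0) (XT.nd (nat_lit 78) (nat_lit 0) (nat_lit 0) (XT.lf (nat_lit 0) (nat_lit 10003551335) (nat_lit 76) (nat_lit 3523972636) (nat_lit 152) (nat_lit 13326508354) (nat_lit 8) (nat_lit 5) (nat_lit 9) (nat_lit 5) (nat_lit 10) (nat_lit 4) (nat_lit 298) (nat_lit 232) (nat_lit 190)) (XT.lf (nat_lit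 0) (nat_lit 17071974871) (nat_lit 152) (nat_lit 10858009241) (nat_lit 0) (nat_lit 69381693) (nat_lit 8) (nat_lit 5) (nat_lit 10) (nat_lit 4) (nat_lit 8) (nat_lit 4) (nat_lit 299) (nat_lit 232) (nat_lit 189))) (XT.nd (nat_lit 78) (nat_lit 76) (nat_lit 0) (XT.lf (nat_lit 0) (nat_lit 20814141221) (nat_lit 152) (nat_lit 4688547469) (nat_lit 0) (nat_lit 3698305384) (nat_lit 8) (nat_lit 5) (nat_lit 10) (nat_lit 4) (nat_lit 8) (nat_lit 4) (nat_lit 300) (nat_lit 232) (nat_lit 188)) (XT.lf (nat_lit 0) (nat_lit 1784735281) (nat_lit 76) (nat_lit 22951043290) (nat_lit 76) (nat_lit 5727357301) (nat_lit 7) (nat_lit 4) (nat_lit 8) (nat_lit 5) (nat_lit 8) (nat_lit 4) (nat_lit 301) (nat_lit 232) (nat_lit 187)))) (XT.nd (nat_lit 156) (nat_lit 76) (nat_lit 0) (XT.nd (nat_lit 78) (nat_lit 76) (nat_lit 0) (XT.lf (nat_lit 0) (nat_lit 8683679536) (nat_lit 76) (nat_lit 20214460688) (nat_lit 76) (nat_lit 2888060269)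 (nat_lit 7) (nat_lit 4) (nat_lit 8) (nat_lit 5) (nat_lit 8) (nat_lit 4) (nat_lit 302) (nat_lit 232) (nat_lit 186)) (XT.lf (nat_lit 0) (nat_lit 56526626) (nat_lit 152) (nat_lit 17308344100) (nat_lit 76) (nat_lit 15812202866) (nat_lit 6) (nat_lit 5) (nat_lit 8) (nat_lit 5) (nat_lit 7) (nat_lit 4) (nat_lit 303) (nat_lit 232) (nat_lit 185))) (XT.nd (nat_lit 78) (nat_lit 76) (nat_lit 0) (XT.lf (nat_lit 0) (nat_lit 3019197529) (nat_lit 152) (nat_lit 11328033765) (nat_lit 76) (nat_lit 20289537508) (nat_lit 6) (nat_lit 5) (nat_lit 8) (nat_lit 5) (nat_lit 7) (nat_lit 4) (nat_lit 304) (nat_lit 232) (nat_lit 184)) (XT.nd (nat_lit 78) (nat_lit 76) (nat_lit 0) (XT.lf (nat_lit 0) (nat_lit 6099442382) (nat_lit 152) (nat_lit 5102260403) (nat_lit 76) (nat_lit 24969313338) (nat_lit 6) (nat_lit 5) (nat_lit 8) (nat_lit 5) (nat_lit 7) (nat_lit 4) (nat_lit 305) (nat_lit 232) (nat_lit 183)) (XT.lf (nat_lit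 0) (nat_lit 1429553907) (nat_lit 76) (nat_lit 7897360536) (nat_lit 152) (nat_lit 28455438115) (nat_lit 5) (nat_lit 5) (nat_lit 6) (nat_lit 5) (nat_lit 7) (nat_lit 4) (nat_lit 306) (nat_lit 232) (nat_lit 182)))))) (XT.nd (nat_lit 312) (nat_lit 76) (nat_lit 0) (XT.nd (nat_lit 156) (nat_lit 0) (nat_lit 0) (XT.nd (nat_lit 78) (nat_lit 0) (nat_lit 0) (XT.lf (nat_lit 0) (nat_lit 8414918142) (nat_lit 76) (nat_lit 4358749315) (nat_lit 152) (nat_lit 26697728701) (nat_lit 5) (nat_lit 5) (nat_lit 6) (nat_lit 5) (nat_lit 7) (nat_lit 4) (nat_lit 307) (nat_lit 232) (nat_lit 181)) (XT.lf (nat_lit 0) (nat_lit 15701760349) (nat_lit 76) (nat_lit 663853106) (nat_lit 152) (nat_lit 24880669727) (nat_lit 5) (nat_lit 5) (nat_lit 6) (nat_lit 5) (nat_lit 7) (nat_lit 4) (nat_lit 308) (nat_lit 232) (nat_lit 180))) (XT.nd (nat_lit 78) (nat_lit 0) (nat_lit 0) (XT.lf (nat_lit 0) (nat_lit 20161205165) (nat_lit 152)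 (nat_lit 19853709875) (nat_lit 0) (nat_lit 3093829486) (nat_lit 5) (nat_lit 5) (nat_lit 7) (nat_lit 4) (nat_lit 5) (nat_lit 4) (nat_lit 309) (nat_lit 232) (nat_lit 179)) (XT.lf (nat_lit 0) (nat_lit 24132545918) (nat_lit 152) (nat_lit 13933555795) (nat_lit 0) (nat_lit 6998959601) (nat_lit 5) (nat_lit 5) (nat_lit 7) (nat_lit 4) (nat_lit 5) (nat_lit 4) (nat_lit 310) (nat_lit 232) (nat_lit 178)))) (XT.nd (nat_lit 156) (nat_lit 76) (nat_lit 0) (XT.nd (nat_lit 78) (nat_lit 0) (nat_lit 0) (XT.lf (nat_lit 0) (nat_lit 28278726679) (nat_lit 152) (nat_lit 7759600380) (nat_lit 0) (nat_lit 11082082612) (nat_lit 5) (nat_lit 5) (nat_lit 7) (nat_lit 4) (nat_lit 5) (nat_lit 4) (nat_lit 311) (nat_lit 232) (nat_lit 177)) (XT.lf (nat_lit 0) (nat_lit 32609619307) (nat_lit 152) (nat_lit 1317143736) (nat_lit 0) (nat_lit 15352920240) (nat_lit 5) (nat_lit 5) (nat_lit 7) (nat_lit 4) (nat_lit 5) (nat_lit 4)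 (nat_lit 312) (nat_lit 232) (nat_lit 176))) (XT.nd (nat_lit 78) (nat_lit 0) (nat_lit 0) (XT.lf (nat_lit 0) (nat_lit 5588004354) (nat_lit 76) (nat_lit 31634775506) (nat_lit 76) (nat_lit 14320881201) (nat_lit 4) (nat_lit 4) (nat_lit 5) (nat_lit 5) (nat_lit 5) (nat_lit 4) (nat_lit 313) (nat_lit 232) (nat_lit 175)) (XT.nd (nat_lit 78) (nat_lit 0) (nat_lit 0) (XT.lf (nat_lit 0) (nat_lit 12846473144) (nat_lit 76) (nat_lit 29221347408) (nat_lit 76) (nat_lit 11852981448) (nat_lit 4) (nat_lit 4) (nat_lit 5) (nat_lit 5) (nat_lit 5) (nat_lit 4) (nat_lit 314) (nat_lit 232) (nat_lit 174)) (XT.lf (nat_lit 0) (nat_lit 20431993979) (nat_lit 76) (nat_lit 26703038961) (nat_lit 76) (nat_lit 9282795234) (nat_lit 4) (nat_lit 4) (nat_lit 5) (nat_lit 5) (nat_lit 5) (nat_lit 4) (nat_lit 315) (nat_lit 232) (nat_lit 173))))))))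
noncomputable def xc86 : XT := (XT.nd (nat_lit 1404) (nat_lit 76) (nat_lit 0) (XT.nd (nat_lit 702) (nat_lit 0) (nat_lit 0) (XT.nd (nat_lit 312) (nat_lit 76) (nat_lit 0) (XT.nd (nat_lit 156) (nat_lit 76) (nat_lit 0) (XT.nd (nat_lit 78) (nat_lit 0) (nat_lit 0) (XT.lf (nat_lit 0) (nat_lit 28362627625) (nat_lit 76) (nat_lit 24073854190) (nat_lit 76) (nat_lit 6604203067) (nat_lit 4) (nat_lit 4) (nat_lit 5) (nat_lit 5) (nat_lit 5) (nat_lit 4) (nat_lit 316) (nat_lit 232) (nat_lit 172)) (XT.lf (nat_lit 0) (nat_lit 36657256542) (nat_lit 76) (nat_lit 21327533134) (nat_lit 76) (nat_lit 3810827346) (nat_lit 4) (nat_lit 4) (nat_lit 5) (nat_lit 5) (nat_lit 5) (nat_lit 4) (nat_lit 317) (nat_lit 232) (nat_lit 171))) (XT.nd (nat_lit 78) (nat_lit 76) (nat_lit 0) (XT.lf (nat_lit 0) (nat_lit 45335629847) (nat_lit 76) (nat_lit 18457536931) (nat_lit 76) (nat_lit 896017178) (nat_lit 4) (nat_lit 4) (nat_lit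 5) (nat_lit 5) (nat_lit 5) (nat_lit 4) (nat_lit 318) (nat_lit 232) (nat_lit 170)) (XT.lf (nat_lit 0) (nat_lit 2078444693) (nat_lit 152) (nat_lit 13343388097) (nat_lit 76) (nat_lit 52304766172) (nat_lit 3) (nat_lit 5) (nat_lit 5) (nat_lit 5) (nat_lit 4) (nat_lit 4) (nat_lit 319) (nat_lit 232) (nat_lit 169)))) (XT.nd (nat_lit 156) (nat_lit 76) (nat_lit 0) (XT.nd (nat_lit 78) (nat_lit 0) (nat_lit 0) (XT.lf (nat_lit 0) (nat_lit 5155507878) (nat_lit 152) (nat_lit 7076056156) (nat_lit 76) (nat_lit 58684404768) (nat_lit 3) (nat_lit 5) (nat_lit 5) (nat_lit 5) (nat_lit 4) (nat_lit 4) (nat_lit 320) (nat_lit 232) (nat_lit 168)) (XT.lf (nat_lit 0) (nat_lit 8371176862) (nat_lit 152) (nat_lit 522646728) (nat_lit 76) (nat_lit 65371763090) (nat_lit 3) (nat_lit 5) (nat_lit 5) (nat_lit 5) (nat_lit 4) (nat_lit 4) (nat_lit 321) (nat_lit 232) (nat_lit 167))) (XT.nd (nat_lit 78) (nat_lit 0) (nat_lit 0)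 (XT.lf (nat_lit 0) (nat_lit 6541822723) (nat_lit 76) (nat_lit 5293421461) (nat_lit 152) (nat_lit 65943076882) (nat_lit 2) (nat_lit 5) (nat_lit 3) (nat_lit 5) (nat_lit 4) (nat_lit 4) (nat_lit 322) (nat_lit 232) (nat_lit 166)) (XT.nd (nat_lit 78) (nat_lit 0) (nat_lit 0) (XT.lf (nat_lit 0) (nat_lit 13952090322) (nat_lit 76) (nat_lit 1515046796) (nat_lit 152) (nat_lit 65999839523) (nat_lit 2) (nat_lit 5) (nat_lit 3) (nat_lit 5) (nat_lit 4) (nat_lit 4) (nat_lit 323) (nat_lit 232) (nat_lit 165)) (XT.lf (nat_lit 0) (nat_lit 19305191042) (nat_lit 152) (nat_lit 63670356709) (nat_lit 0) (nat_lit 2363303764) (nat_lit 2) (nat_lit 5) (nat_lit 4) (nat_lit 4) (nat_lit 2) (nat_lit 4) (nat_lit 324) (nat_lit 232) (nat_lit 164)))))) (XT.nd (nat_lit 312) (nat_lit 0) (nat_lit 0) (XT.nd (nat_lit 156) (nat_lit 0) (nat_lit 0) (XT.nd (nat_lit 78) (nat_lit 0) (nat_lit 0) (XT.lf (nat_lit 0) (nat_lit 23346917735)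 (nat_lit 152) (nat_lit 59682129424) (nat_lit 0) (nat_lit 6374698601) (nat_lit 2) (nat_lit 5) (nat_lit 4) (nat_lit 4) (nat_lit 2) (nat_lit 4) (nat_lit 325) (nat_lit 232) (nat_lit 163)) (XT.lf (nat_lit 0) (nat_lit 27578286230) (nat_lit 152) (nat_lit 55517054561) (nat_lit 0) (nat_lit 10577179614) (nat_lit 2) (nat_lit 5) (nat_lit 4) (nat_lit 4) (nat_lit 2) (nat_lit 4) (nat_lit 326) (nat_lit 232) (nat_lit 162))) (XT.nd (nat_lit 78) (nat_lit 0) (nat_lit 0) (XT.lf (nat_lit 0) (nat_lit 32009371213) (nat_lit 152) (nat_lit 51165215273) (nat_lit 0) (nat_lit 14980752709) (nat_lit 2) (nat_lit 5) (nat_lit 4) (nat_lit 4) (nat_lit 2) (nat_lit 4) (nat_lit 327) (nat_lit 232) (nat_lit 161)) (XT.lf (nat_lit 0) (nat_lit 36650722886) (nat_lit 152) (nat_lit 46616250039) (nat_lit 0) (nat_lit 19595902585) (nat_lit 2) (nat_lit 5) (nat_lit 4) (nat_lit 4) (nat_lit 2) (nat_lit 4) (nat_lit 328) (nat_lit 232) (nat_lit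 160)))) (XT.nd (nat_lit 156) (nat_lit 0) (nat_lit 0) (XT.nd (nat_lit 78) (nat_lit 0) (nat_lit 0) (XT.lf (nat_lit 0) (nat_lit 41513392088) (nat_lit 152) (nat_lit 41859327990) (nat_lit 0) (nat_lit 24433617694) (nat_lit 2) (nat_lit 5) (nat_lit 4) (nat_lit 4) (nat_lit 2) (nat_lit 4) (nat_lit 329) (nat_lit 232) (nat_lit 159)) (XT.lf (nat_lit 0) (nat_lit 46608956601) (nat_lit 152) (nat_lit 36883123120) (nat_lit 0) (nat_lit 29505416404) (nat_lit 2) (nat_lit 5) (nat_lit 4) (nat_lit 4) (nat_lit 2) (nat_lit 4) (nat_lit 330) (nat_lit 232) (nat_lit 158))) (XT.nd (nat_lit 78) (nat_lit 0) (nat_lit 0) (XT.lf (nat_lit 0) (nat_lit 51949548723) (nat_lit 152) (nat_lit 31675787322) (nat_lit 0) (nat_lit 34823374428) (nat_lit 2) (nat_lit 5) (nat_lit 4) (nat_lit 4) (nat_lit 2) (nat_lit 4) (nat_lit 331) (nat_lit 232) (nat_lit 157)) (XT.nd (nat_lit 78) (nat_lit 0) (nat_lit 0) (XT.lf (nat_lit 0) (nat_lit 57547884148)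 (nat_lit 152) (nat_lit 26224922179) (nat_lit 0) (nat_lit 40400153570) (nat_lit 2) (nat_lit 5) (nat_lit 4) (nat_lit 4) (nat_lit 2) (nat_lit 4) (nat_lit 332) (nat_lit 232) (nat_lit 156)) (XT.lf (nat_lit 0) (nat_lit 63417292247) (nat_lit 152) (nat_lit 20517549439) (nat_lit 0) (nat_lit 46249031875) (nat_lit 2) (nat_lit 5) (nat_lit 4) (nat_lit 4) (nat_lit 2) (nat_lit 4) (nat_lit 333) (nat_lit 232) (nat_lit 155))))))) (XT.nd (nat_lit 702) (nat_lit 0) (nat_lit 0) (XT.nd (nat_lit 312) (nat_lit 0) (nat_lit 0) (XT.nd (nat_lit 156) (nat_lit 76) (nat_lit 0) (XT.nd (nat_lit 78) (nat_lit 0) (nat_lit 0) (XT.lf (nat_lit 0) (nat_lit 69571747802) (nat_lit 152) (nat_lit 14540080120) (nat_lit 0) (nat_lit 52383935245) (nat_lit 2) (nat_lit 5) (nat_lit 4) (nat_lit 4) (nat_lit 2) (nat_lit 4) (nat_lit 334) (nat_lit 232) (nat_lit 154)) (XT.lf (nat_lit 0) (nat_lit 76025904277) (nat_lit 152) (nat_lit 8278282152)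 (nat_lit 0) (nat_lit 58819470591) (nat_lit 2) (nat_lit 5) (nat_lit 4) (nat_lit 4) (nat_lit 2) (nat_lit 4) (nat_lit 335) (nat_lit 232) (nat_lit 153))) (XT.nd (nat_lit 78) (nat_lit 76) (nat_lit 0) (XT.lf (nat_lit 0) (nat_lit 82795128712) (nat_lit 152) (nat_lit 1717246493) (nat_lit 0) (nat_lit 65570960618) (nat_lit 2) (nat_lit 5) (nat_lit 4) (nat_lit 4) (nat_lit 2) (nat_lit 4) (nat_lit 336) (nat_lit 232) (nat_lit 152)) (XT.lf (nat_lit 0) (nat_lit 5329216583) (nat_lit 76) (nat_lit 84649525730) (nat_lit 76) (nat_lit 67408467724) (nat_lit 1) (nat_lit 4) (nat_lit 2) (nat_lit 5) (nat_lit 2) (nat_lit 4) (nat_lit 337) (nat_lit 232) (nat_lit 151)))) (XT.nd (nat_lit 156) (nat_lit 0) (nat_lit 0) (XT.nd (nat_lit 78) (nat_lit 0) (nat_lit 0) (XT.lf (nat_lit 0) (nat_lit 12774641940) (nat_lit 76) (nat_lit 84768844822) (nat_lit 76) (nat_lit 67511701186) (nat_lit 1) (nat_lit 4) (nat_lit 2) (nat_lit 5)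 (nat_lit 2) (nat_lit 4) (nat_lit 338) (nat_lit 232) (nat_lit 150)) (XT.lf (nat_lit 0) (nat_lit 20579976856) (nat_lit 76) (nat_lit 84899698975) (nat_lit 76) (nat_lit 67627235691) (nat_lit 1) (nat_lit 4) (nat_lit 2) (nat_lit 5) (nat_lit 2) (nat_lit 4) (nat_lit 339) (nat_lit 232) (nat_lit 149))) (XT.nd (nat_lit 78) (nat_lit 0) (nat_lit 0) (XT.lf (nat_lit 0) (nat_lit 28763805462) (nat_lit 76) (nat_lit 85042399747) (nat_lit 76) (nat_lit 67755346321) (nat_lit 1) (nat_lit 4) (nat_lit 2) (nat_lit 5) (nat_lit 2) (nat_lit 4) (nat_lit 340) (nat_lit 232) (nat_lit 148)) (XT.nd (nat_lit 78) (nat_lit 0) (nat_lit 0) (XT.lf (nat_lit 0) (nat_lit 37345613064) (nat_lit 76) (nat_lit 85197286901) (nat_lit 76) (nat_lit 67896338103) (nat_lit 1) (nat_lit 4) (nat_lit 2) (nat_lit 5) (nat_lit 2) (nat_lit 4) (nat_lit 341) (nat_lit 232) (nat_lit 147)) (XT.lf (nat_lit 0) (nat_lit 46345832537) (nat_lit 76) (nat_lit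 85364729216) (nat_lit 76) (nat_lit 68050546730) (nat_lit 1) (nat_lit 4) (nat_lit 2) (nat_lit 5) (nat_lit 2) (nat_lit 4) (nat_lit 342) (nat_lit 232) (nat_lit 146)))))) (XT.nd (nat_lit 312) (nat_lit 0) (nat_lit 0) (XT.nd (nat_lit 156) (nat_lit 0) (nat_lit 0) (XT.nd (nat_lit 78) (nat_lit 0) (nat_lit 0) (XT.lf (nat_lit 0) (nat_lit 55785892975) (nat_lit 76) (nat_lit 85545125365) (nat_lit 76) (nat_lit 68218339366) (nat_lit 1) (nat_lit 4) (nat_lit 2) (nat_lit 5) (nat_lit 2) (nat_lit 4) (nat_lit 343) (nat_lit 232) (nat_lit 145)) (XT.lf (nat_lit 0) (nat_lit 65688270712) (nat_lit 76) (nat_lit 85738904861) (nat_lit 76) (nat_lit 68400115517) (nat_lit 1) (nat_lit 4) (nat_lit 2) (nat_lit 5) (nat_lit 2) (nat_lit 4) (nat_lit 344) (nat_lit 232) (nat_lit 144))) (XT.nd (nat_lit 78) (nat_lit 0) (nat_lit 0) (XT.lf (nat_lit 0) (nat_lit 76076542839) (nat_lit 76) (nat_lit 85946529085) (nat_lit 76) (nat_lit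 68596307983) (nat_lit 1) (nat_lit 4) (nat_lit 2) (nat_lit 5) (nat_lit 2) (nat_lit 4) (nat_lit 345) (nat_lit 232) (nat_lit 143)) (XT.lf (nat_lit 0) (nat_lit 86975443337) (nat_lit 76) (nat_lit 86168492380) (nat_lit 76) (nat_lit 68807383890) (nat_lit 1) (nat_lit 4) (nat_lit 2) (nat_lit 5) (nat_lit 2) (nat_lit 4) (nat_lit 346) (nat_lit 232) (nat_lit 142)))) (XT.nd (nat_lit 156) (nat_lit 0) (nat_lit 0) (XT.nd (nat_lit 78) (nat_lit 0) (nat_lit 0) (XT.lf (nat_lit 0) (nat_lit 98410921968) (nat_lit 76) (nat_lit 86405323230) (nat_lit 76) (nat_lit 69033845799) (nat_lit 1) (nat_lit 4) (nat_lit 2) (nat_lit 5) (nat_lit 2) (nat_lit 4) (nat_lit 347) (nat_lit 232) (nat_lit 141)) (XT.lf (nat_lit 0) (nat_lit 110410206063) (nat_lit 76) (nat_lit 86657585519) (nat_lit 76) (nat_lit 69276232906) (nat_lit 1) (nat_lit 4) (nat_lit 2) (nat_lit 5) (nat_lit 2) (nat_lit 4) (nat_lit 348) (nat_lit 232) (nat_lit 140)))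 (XT.nd (nat_lit 78) (nat_lit 0) (nat_lit 0) (XT.lf (nat_lit 0) (nat_lit 123001865346) (nat_lit 76) (nat_lit 86925879870) (nat_lit 76) (nat_lit 69535122321) (nat_lit 1) (nat_lit 4) (nat_lit 2) (nat_lit 5) (nat_lit 2) (nat_lit 4) (nat_lit 349) (nat_lit 232) (nat_lit 139)) (XT.nd (nat_lit 78) (nat_lit 0) (nat_lit 0) (XT.lf (nat_lit 0) (nat_lit 136215879958) (nat_lit 76) (nat_lit 87210845079) (nat_lit 76) (nat_lit 69811130450) (nat_lit 1) (nat_lit 4) (nat_lit 2) (nat_lit 5) (nat_lit 2) (nat_lit 4) (nat_lit 350) (nat_lit 232) (nat_lit 138)) (XT.lf (nat_lit 0) (nat_lit 150083711838) (nat_lit 76) (nat_lit 87513159636) (nat_lit 76) (nat_lit 70104914453) (nat_lit 1) (nat_lit 4) (nat_lit 2) (nat_lit 5) (nat_lit 2) (nat_lit 4) (nat_lit 351) (nat_lit 232) (nat_lit 137))))))))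
noncomputable def xc87 : XT := (XT.nd (nat_lit 30264) (nat_lit 0) (nat_lit 1748) (XT.nd (nat_lit 702) (nat_lit 0) (nat_lit 0) (XT.nd (nat_lit 312) (nat_lit 0) (nat_lit 0) (XT.nd (nat_lit 156) (nat_lit 0) (nat_lit 0) (XT.nd (nat_lit 78) (nat_lit 0) (nat_lit 0) (XT.lf (nat_lit 0) (nat_lit 164638379635) (nat_lit 76) (nat_lit 87833543337) (nat_lit 76) (nat_lit 70417173817) (nat_lit 1) (nat_lit 4) (nat_lit 2) (nat_lit 5) (nat_lit 2) (nat_lit 4) (nat_lit 352) (nat_lit 232) (nat_lit 136)) (XT.lf (nat_lit 0) (nat_lit 179914537318) (nat_lit 76) (nat_lit 88172758999) (nat_lit 76) (nat_lit 70748652017) (nat_lit 1) (nat_lit 4) (nat_lit 2) (nat_lit 5) (nat_lit 2) (nat_lit 4) (nat_lit 353) (nat_lit 232) (nat_lit 135))) (XT.nd (nat_lit 78) (nat_lit 0) (nat_lit 0) (XT.lf (nat_lit 0) (nat_lit 195948556692) (nat_lit 76) (nat_lit 88531614281) (nat_lit 76) (nat_lit 71100138285) (nat_lit 1) (nat_lit 4)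 (nat_lit 2) (nat_lit 5) (nat_lit 2) (nat_lit 4) (nat_lit 354) (nat_lit 232) (nat_lit 134)) (XT.lf (nat_lit 0) (nat_lit 212778613993) (nat_lit 76) (nat_lit 88910963598) (nat_lit 76) (nat_lit 71472469495) (nat_lit 1) (nat_lit 4) (nat_lit 2) (nat_lit 5) (nat_lit 2) (nat_lit 4) (nat_lit 355) (nat_lit 232) (nat_lit 133)))) (XT.nd (nat_lit 156) (nat_lit 0) (nat_lit 0) (XT.nd (nat_lit 78) (nat_lit 0) (nat_lit 0) (XT.lf (nat_lit 0) (nat_lit 230444780787) (nat_lit 76) (nat_lit 89311710164) (nat_lit 76) (nat_lit 71866532149) (nat_lit 1) (nat_lit 4) (nat_lit 2) (nat_lit 5) (nat_lit 2) (nat_lit 4) (nat_lit 356) (nat_lit 232) (nat_lit 132)) (XT.lf (nat_lit 0) (nat_lit 248989119375) (nat_lit 76) (nat_lit 89734808136) (nat_lit 76) (nat_lit 72283264491) (nat_lit 1) (nat_lit 4) (nat_lit 2) (nat_lit 5) (nat_lit 2) (nat_lit 4) (nat_lit 357) (nat_lit 232) (nat_lit 131))) (XT.nd (nat_lit 78) (nat_lit 0)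 (nat_lit 0) (XT.lf (nat_lit 0) (nat_lit 268455782945) (nat_lit 76) (nat_lit 90181264892) (nat_lit 76) (nat_lit 72723658742) (nat_lit 1) (nat_lit 4) (nat_lit 2) (nat_lit 5) (nat_lit 2) (nat_lit 4) (nat_lit 358) (nat_lit 232) (nat_lit 130)) (XT.nd (nat_lit 78) (nat_lit 0) (nat_lit 0) (XT.lf (nat_lit 0) (nat_lit 288891120695) (nat_lit 76) (nat_lit 90652143423) (nat_lit 76) (nat_lit 73188763458) (nat_lit 1) (nat_lit 4) (nat_lit 2) (nat_lit 5) (nat_lit 2) (nat_lit 4) (nat_lit 359) (nat_lit 232) (nat_lit 129)) (XT.lf (nat_lit 0) (nat_lit 310343788191) (nat_lit 76) (nat_lit 91148564869) (nat_lit 76) (nat_lit 73679686033) (nat_lit 1) (nat_lit 4) (nat_lit 2) (nat_lit 5) (nat_lit 2) (nat_lit 4) (nat_lit 360) (nat_lit 232) (nat_lit 128)))))) (XT.nd (nat_lit 29172) (nat_lit 0) (nat_lit 4940) (XT.nd (nat_lit 156) (nat_lit 0) (nat_lit 0) (XT.nd (nat_lit 78) (nat_lit 0) (nat_lit 0) (XT.lf (nat_lit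 0) (nat_lit 332864863214) (nat_lit 76) (nat_lit 91671711185) (nat_lit 76) (nat_lit 74197595330) (nat_lit 1) (nat_lit 4) (nat_lit 2) (nat_lit 5) (nat_lit 2) (nat_lit 4) (nat_lit 361) (nat_lit 232) (nat_lit 127)) (XT.lf (nat_lit 0) (nat_lit 356507967370) (nat_lit 76) (nat_lit 92222827959) (nat_lit 76) (nat_lit 74743724466) (nat_lit 1) (nat_lit 4) (nat_lit 2) (nat_lit 5) (nat_lit 2) (nat_lit 4) (nat_lit 362) (nat_lit 232) (nat_lit 126))) (XT.nd (nat_lit 78) (nat_lit 0) (nat_lit 0) (XT.lf (nat_lit 0) (nat_lit 381329393765) (nat_lit 76) (nat_lit 92803227372) (nat_lit 76) (nat_lit 75319373747) (nat_lit 1) (nat_lit 4) (nat_lit 2) (nat_lit 5) (nat_lit 2) (nat_lit 4) (nat_lit 363) (nat_lit 232) (nat_lit 125)) (XT.lf (nat_lit 0) (nat_lit 407388241033) (nat_lit 76) (nat_lit 93414291328) (nat_lit 76) (nat_lit 75925913769) (nat_lit 1) (nat_lit 4) (nat_lit 2) (nat_lit 5) (nat_lit 2) (nat_lit 4)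 (nat_lit 364) (nat_lit 232) (nat_lit 124)))) (XT.nd (nat_lit 156) (nat_lit 760) (nat_lit 0) (XT.nd (nat_lit 78) (nat_lit 684) (nat_lit 0) (XT.lf (nat_lit 0) (nat_lit 1831816716) (nat_lit 532) (nat_lit 853378825) (nat_lit 532) (nat_lit 853378825) (nat_lit 85) (nat_lit 4) (nat_lit 92) (nat_lit 5) (nat_lit 92) (nat_lit 4) (nat_lit 254) (nat_lit 233) (nat_lit 233)) (XT.lf (nat_lit 0) (nat_lit 961491372) (nat_lit 608) (nat_lit 316005765) (nat_lit 684) (nat_lit 5899185538) (nat_lit 76) (nat_lit 5) (nat_lit 84) (nat_lit 5) (nat_lit 85) (nat_lit 4) (nat_lit 255) (nat_lit 233) (nat_lit 232))) (XT.nd (nat_lit 78) (nat_lit 760) (nat_lit 0) (XT.lf (nat_lit 0) (nat_lit 4280606982) (nat_lit 684) (nat_lit 1804676236) (nat_lit 0) (nat_lit 1198861486) (nat_lit 76) (nat_lit 5) (nat_lit 85) (nat_lit 4) (nat_lit 76) (nat_lit 4) (nat_lit 256) (nat_lit 233) (nat_lit 231)) (XT.nd (nat_lit 78) (nat_lit 76)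 (nat_lit 0) (XT.lf (nat_lit 0) (nat_lit 2763599943) (nat_lit 684) (nat_lit 4576103060) (nat_lit 684) (nat_lit 62652339) (nat_lit 67) (nat_lit 4) (nat_lit 76) (nat_lit 5) (nat_lit 76) (nat_lit 4) (nat_lit 257) (nat_lit 233) (nat_lit 230)) (XT.lf (nat_lit 0) (nat_lit 2818682180) (nat_lit 760) (nat_lit 98681036) (nat_lit 76) (nat_lit 4612845041) (nat_lit 66) (nat_lit 5) (nat_lit 76) (nat_lit 5) (nat_lit 67) (nat_lit 4) (nat_lit 258) (nat_lit 233) (nat_lit 229))))))) (XT.nd (nat_lit 702) (nat_lit 1216) (nat_lit 0) (XT.nd (nat_lit 312) (nat_lit 912) (nat_lit 0) (XT.nd (nat_lit 156) (nat_lit 304) (nat_lit 0) (XT.nd (nat_lit 78) (nat_lit 456) (nat_lit 0) (XT.lf (nat_lit 0) (nat_lit 4675153790) (nat_lit 304) (nat_lit 1105691155) (nat_lit 380) (nat_lit 1887190383) (nat_lit 62) (nat_lit 5) (nat_lit 66) (nat_lit 5) (nat_lit 67) (nat_lit 4) (nat_lit 259) (nat_lit 233) (nat_lit 228)) (XT.lf (nat_lit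 0) (nat_lit 953672181) (nat_lit 456) (nat_lit 6056723602) (nat_lit 76) (nat_lit 806547585) (nat_lit 56) (nat_lit 5) (nat_lit 62) (nat_lit 5) (nat_lit 57) (nat_lit 4) (nat_lit 260) (nat_lit 233) (nat_lit 227))) (XT.nd (nat_lit 78) (nat_lit 304) (nat_lit 0) (XT.lf (nat_lit 0) (nat_lit 3814101432) (nat_lit 456) (nat_lit 1314622142) (nat_lit 76) (nat_lit 2846476840) (nat_lit 56) (nat_lit 5) (nat_lit 62) (nat_lit 5) (nat_lit 57) (nat_lit 4) (nat_lit 261) (nat_lit 233) (nat_lit 226)) (XT.lf (nat_lit 0) (nat_lit 3639305556) (nat_lit 304) (nat_lit 3112497428) (nat_lit 380) (nat_lit 1393328843) (nat_lit 52) (nat_lit 5) (nat_lit 56) (nat_lit 5) (nat_lit 57) (nat_lit 4) (nat_lit 262) (nat_lit 233) (nat_lit 225)))) (XT.nd (nat_lit 156) (nat_lit 532) (nat_lit 0) (XT.nd (nat_lit 78) (nat_lit 0) (nat_lit 0) (XT.lf (nat_lit 0) (nat_lit 409326765) (nat_lit 304) (nat_lit 962806271) (nat_lit 380) (nat_lit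 6955289619) (nat_lit 47) (nat_lit 5) (nat_lit 51) (nat_lit 5) (nat_lit 52) (nat_lit 5) (nat_lit 263) (nat_lit 233) (nat_lit 224)) (XT.lf (nat_lit 0) (nat_lit 4208707638) (nat_lit 380) (nat_lit 2980159994) (nat_lit 76) (nat_lit 1330244598) (nat_lit 47) (nat_lit 5) (nat_lit 52) (nat_lit 5) (nat_lit 48) (nat_lit 4) (nat_lit 264) (nat_lit 233) (nat_lit 223))) (XT.nd (nat_lit 78) (nat_lit 304) (nat_lit 0) (XT.lf (nat_lit 0) (nat_lit 2116127024) (nat_lit 228) (nat_lit 5007326873) (nat_lit 304) (nat_lit 1600505246) (nat_lit 44) (nat_lit 5) (nat_lit 47) (nat_lit 5) (nat_lit 48) (nat_lit 4) (nat_lit 265) (nat_lit 233) (nat_lit 222)) (XT.nd (nat_lit 78) (nat_lit 228) (nat_lit 0) (XT.lf (nat_lit 0) (nat_lit 1144910258) (nat_lit 304) (nat_lit 1528359116) (nat_lit 76) (nat_lit 6268167696) (nat_lit 43) (nat_lit 5) (nat_lit 47) (nat_lit 5) (nat_lit 44) (nat_lit 5) (nat_lit 266) (nat_lit 233) (nat_lit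 221)) (XT.lf (nat_lit 0) (nat_lit 3763826694) (nat_lit 228) (nat_lit 162620142) (nat_lit 304) (nat_lit 5244735180) (nat_lit 40) (nat_lit 5) (nat_lit 43) (nat_lit 5) (nat_lit 44) (nat_lit 5) (nat_lit 267) (nat_lit 233) (nat_lit 220)))))) (XT.nd (nat_lit 390) (nat_lit 532) (nat_lit 0) (XT.nd (nat_lit 156) (nat_lit 380) (nat_lit 0) (XT.nd (nat_lit 78) (nat_lit 304) (nat_lit 0) (XT.lf (nat_lit 0) (nat_lit 6808362835) (nat_lit 304) (nat_lit 214792138) (nat_lit 76) (nat_lit 2391514968) (nat_lit 40) (nat_lit 5) (nat_lit 44) (nat_lit 5) (nat_lit 41) (nat_lit 4) (nat_lit 268) (nat_lit 233) (nat_lit 219)) (XT.lf (nat_lit 0) (nat_lit 144553836) (nat_lit 304) (nat_lit 4401918702) (nat_lit 76) (nat_lit 5124734603) (nat_lit 36) (nat_lit 5) (nat_lit 40) (nat_lit 5) (nat_lit 37) (nat_lit 5) (nat_lit 269) (nat_lit 233) (nat_lit 218))) (XT.nd (nat_lit 78) (nat_lit 152) (nat_lit 0) (XT.lf (nat_lit 0)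 (nat_lit 949118728) (nat_lit 228) (nat_lit 1916896154) (nat_lit 304) (nat_lit 7076664869) (nat_lit 33) (nat_lit 5) (nat_lit 36) (nat_lit 5) (nat_lit 37) (nat_lit 5) (nat_lit 270) (nat_lit 233) (nat_lit 217)) (XT.nd (nat_lit 78) (nat_lit 152) (nat_lit 0) (XT.lf (nat_lit 0) (nat_lit 5716687938) (nat_lit 304) (nat_lit 3653303583) (nat_lit 76) (nat_lit 858341495) (nat_lit 33) (nat_lit 5) (nat_lit 37) (nat_lit 5) (nat_lit 34) (nat_lit 4) (nat_lit 271) (nat_lit 233) (nat_lit 216)) (XT.lf (nat_lit 0) (nat_lit 1852858647) (nat_lit 152) (nat_lit 6826139829) (nat_lit 228) (nat_lit 1851066678) (nat_lit 31) (nat_lit 5) (nat_lit 33) (nat_lit 5) (nat_lit 34) (nat_lit 4) (nat_lit 272) (nat_lit 233) (nat_lit 215))))) (XT.nd (nat_lit 156) (nat_lit 228) (nat_lit 0) (XT.nd (nat_lit 78) (nat_lit 228) (nat_lit 0) (XT.lf (nat_lit 0) (nat_lit 884684104) (nat_lit 228) (nat_lit 3228485900) (nat_lit 76) (nat_lit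 6734590608) (nat_lit 30) (nat_lit 5) (nat_lit 33) (nat_lit 5) (nat_lit 31) (nat_lit 5) (nat_lit 273) (nat_lit 233) (nat_lit 214)) (XT.lf (nat_lit 0) (nat_lit 2415710844) (nat_lit 228) (nat_lit 1230758586) (nat_lit 304) (nat_lit 7535998565) (nat_lit 27) (nat_lit 5) (nat_lit 30) (nat_lit 5) (nat_lit 31) (nat_lit 5) (nat_lit 274) (nat_lit 233) (nat_lit 213))) (XT.nd (nat_lit 78) (nat_lit 228) (nat_lit 0) (XT.lf (nat_lit 0) (nat_lit 6545304935) (nat_lit 304) (nat_lit 3231658957) (nat_lit 76) (nat_lit 1757205640) (nat_lit 27) (nat_lit 5) (nat_lit 31) (nat_lit 5) (nat_lit 28) (nat_lit 4) (nat_lit 275) (nat_lit 233) (nat_lit 212)) (XT.nd (nat_lit 78) (nat_lit 76) (nat_lit 0) (XT.lf (nat_lit 0) (nat_lit 2520939990) (nat_lit 152) (nat_lit 7047059966) (nat_lit 228) (nat_lit 2336707281) (nat_lit 25) (nat_lit 5) (nat_lit 27) (nat_lit 5) (nat_lit 28) (nat_lit 4) (nat_lit 276) (nat_lit 233) (nat_lit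 211)) (XT.lf (nat_lit 0) (nat_lit 409255424) (nat_lit 228) (nat_lit 3746221906) (nat_lit 76) (nat_lit 8139346486) (nat_lit 24) (nat_lit 5) (nat_lit 27) (nat_lit 5) (nat_lit 25) (nat_lit 5) (nat_lit 277) (nat_lit 233) (nat_lit 210))))))))
noncomputable def xc88 : XT := (XT.nd (nat_lit 1404) (nat_lit 304) (nat_lit 0) (XT.nd (nat_lit 702) (nat_lit 532) (nat_lit 0) (XT.nd (nat_lit 312) (nat_lit 304) (nat_lit 0) (XT.nd (nat_lit 156) (nat_lit 152) (nat_lit 0) (XT.nd (nat_lit 78) (nat_lit 0) (nat_lit 0) (XT.lf (nat_lit 0) (nat_lit 2086770671) (nat_lit 152) (nat_lit 1083522253) (nat_lit 228) (nat_lit 9534592855) (nat_lit 22) (nat_lit 5) (nat_lit 24) (nat_lit 5) (nat_lit 25) (nat_lit 5) (nat_lit 278) (nat_lit 233) (nat_lit 209)) (XT.lf (nat_lit 0) (nat_lit 6092298062) (nat_lit 228) (nat_lit 4941627171) (nat_lit 76) (nat_lit 2100541875) (nat_lit 22) (nat_lit 5) (nat_lit 25) (nat_lit 5) (nat_lit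 23) (nat_lit 4) (nat_lit 279) (nat_lit 233) (nat_lit 208))) (XT.nd (nat_lit 78) (nat_lit 0) (nat_lit 0) (XT.lf (nat_lit 0) (nat_lit 919555339) (nat_lit 152) (nat_lit 8201528102) (nat_lit 228) (nat_lit 4466564404) (nat_lit 20) (nat_lit 5) (nat_lit 22) (nat_lit 5) (nat_lit 23) (nat_lit 4) (nat_lit 280) (nat_lit 233) (nat_lit 207)) (XT.lf (nat_lit 0) (nat_lit 7136347511) (nat_lit 152) (nat_lit 5178909820) (nat_lit 228) (nat_lit 1747679814) (nat_lit 20) (nat_lit 5) (nat_lit 22) (nat_lit 5) (nat_lit 23) (nat_lit 4) (nat_lit 281) (nat_lit 233) (nat_lit 206)))) (XT.nd (nat_lit 156) (nat_lit 76) (nat_lit 0) (XT.nd (nat_lit 78) (nat_lit 152) (nat_lit 0) (XT.lf (nat_lit 0) (nat_lit 1004070309) (nat_lit 228) (nat_lit 1021487797) (nat_lit 76) (nat_lit 12539083994) (nat_lit 19) (nat_lit 5) (nat_lit 22) (nat_lit 5) (nat_lit 20) (nat_lit 5) (nat_lit 282) (nat_lit 233) (nat_lit 205)) (XT.lf (nat_lit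 0) (nat_lit 3872990561) (nat_lit 228) (nat_lit 9894546795) (nat_lit 76) (nat_lit 1320673593) (nat_lit 17) (nat_lit 5) (nat_lit 20) (nat_lit 5) (nat_lit 18) (nat_lit 4) (nat_lit 283) (nat_lit 233) (nat_lit 204))) (XT.nd (nat_lit 78) (nat_lit 76) (nat_lit 0) (XT.lf (nat_lit 0) (nat_lit 6872666613) (nat_lit 228) (nat_lit 4017742849) (nat_lit 76) (nat_lit 4748304215) (nat_lit 17) (nat_lit 5) (nat_lit 20) (nat_lit 5) (nat_lit 18) (nat_lit 4) (nat_lit 284) (nat_lit 233) (nat_lit 203)) (XT.nd (nat_lit 78) (nat_lit 0) (nat_lit 0) (XT.lf (nat_lit 0) (nat_lit 2123536714) (nat_lit 76) (nat_lit 7871487855) (nat_lit 152) (nat_lit 6223197238) (nat_lit 16) (nat_lit 5) (nat_lit 17) (nat_lit 5) (nat_lit 18) (nat_lit 4) (nat_lit 285) (nat_lit 233) (nat_lit 202)) (XT.lf (nat_lit 0) (nat_lit 8615606056) (nat_lit 76) (nat_lit 4666864301) (nat_lit 152) (nat_lit 3543896176) (nat_lit 16) (nat_lit 5) (nat_lit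 17) (nat_lit 5) (nat_lit 18) (nat_lit 4) (nat_lit 286) (nat_lit 233) (nat_lit 201)))))) (XT.nd (nat_lit 312) (nat_lit 304) (nat_lit 0) (XT.nd (nat_lit 156) (nat_lit 0) (nat_lit 0) (XT.nd (nat_lit 78) (nat_lit 228) (nat_lit 0) (XT.lf (nat_lit 0) (nat_lit 15341077761) (nat_lit 76) (nat_lit 1336951162) (nat_lit 152) (nat_lit 789807012) (nat_lit 16) (nat_lit 5) (nat_lit 17) (nat_lit 5) (nat_lit 18) (nat_lit 4) (nat_lit 287) (nat_lit 233) (nat_lit 200)) (XT.lf (nat_lit 0) (nat_lit 2081740666) (nat_lit 228) (nat_lit 13897283302) (nat_lit 76) (nat_lit 2158457156) (nat_lit 13) (nat_lit 5) (nat_lit 16) (nat_lit 5) (nat_lit 14) (nat_lit 4) (nat_lit 288) (nat_lit 233) (nat_lit 199))) (XT.nd (nat_lit 78) (nat_lit 0) (nat_lit 0) (XT.lf (nat_lit 0) (nat_lit 5074996806) (nat_lit 228) (nat_lit 7964475761) (nat_lit 76) (nat_lit 5800345173) (nat_lit 13) (nat_lit 5) (nat_lit 16) (nat_lit 5) (nat_lit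 14) (nat_lit 4) (nat_lit 289) (nat_lit 233) (nat_lit 198)) (XT.lf (nat_lit 0) (nat_lit 8166628521) (nat_lit 228) (nat_lit 1820314120) (nat_lit 76) (nat_lit 9592978848) (nat_lit 13) (nat_lit 5) (nat_lit 16) (nat_lit 5) (nat_lit 14) (nat_lit 4) (nat_lit 290) (nat_lit 233) (nat_lit 197)))) (XT.nd (nat_lit 156) (nat_lit 228) (nat_lit 0) (XT.nd (nat_lit 78) (nat_lit 0) (nat_lit 0) (XT.lf (nat_lit 0) (nat_lit 4700268521) (nat_lit 76) (nat_lit 6737112683) (nat_lit 152) (nat_lit 8918504103) (nat_lit 12) (nat_lit 5) (nat_lit 13) (nat_lit 5) (nat_lit 14) (nat_lit 4) (nat_lit 291) (nat_lit 233) (nat_lit 196)) (XT.lf (nat_lit 0) (nat_lit 11530162545) (nat_lit 76) (nat_lit 3324570150) (nat_lit 152) (nat_lit 6316839514) (nat_lit 12) (nat_lit 5) (nat_lit 13) (nat_lit 5) (nat_lit 14) (nat_lit 4) (nat_lit 292) (nat_lit 233) (nat_lit 195))) (XT.nd (nat_lit 78) (nat_lit 228) (nat_lit 0) (XT.lf (nat_lit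 0) (nat_lit 18401019081) (nat_lit 152) (nat_lit 3408509943) (nat_lit 0) (nat_lit 220685306) (nat_lit 12) (nat_lit 5) (nat_lit 14) (nat_lit 4) (nat_lit 12) (nat_lit 4) (nat_lit 293) (nat_lit 233) (nat_lit 194)) (XT.nd (nat_lit 78) (nat_lit 76) (nat_lit 0) (XT.lf (nat_lit 0) (nat_lit 3106700482) (nat_lit 152) (nat_lit 19077143664) (nat_lit 152) (nat_lit 745053895) (nat_lit 10) (nat_lit 4) (nat_lit 12) (nat_lit 5) (nat_lit 12) (nat_lit 4) (nat_lit 294) (nat_lit 233) (nat_lit 193)) (XT.lf (nat_lit 0) (nat_lit 2225281395) (nat_lit 228) (nat_lit 13914792425) (nat_lit 76) (nat_lit 7729970493) (nat_lit 9) (nat_lit 5) (nat_lit 12) (nat_lit 5) (nat_lit 10) (nat_lit 4) (nat_lit 295) (nat_lit 233) (nat_lit 192))))))) (XT.nd (nat_lit 702) (nat_lit 76) (nat_lit 0) (XT.nd (nat_lit 312) (nat_lit 152) (nat_lit 0) (XT.nd (nat_lit 156) (nat_lit 76) (nat_lit 0) (XT.nd (nat_lit 78) (nat_lit 0) (nat_lit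 0) (XT.lf (nat_lit 0) (nat_lit 5277566642) (nat_lit 228) (nat_lit 7795254829) (nat_lit 76) (nat_lit 11786953209) (nat_lit 9) (nat_lit 5) (nat_lit 12) (nat_lit 5) (nat_lit 10) (nat_lit 4) (nat_lit 296) (nat_lit 233) (nat_lit 191)) (XT.lf (nat_lit 0) (nat_lit 8442915568) (nat_lit 228) (nat_lit 1437382064) (nat_lit 76) (nat_lit 16020729631) (nat_lit 9) (nat_lit 5) (nat_lit 12) (nat_lit 5) (nat_lit 10) (nat_lit 4) (nat_lit 297) (nat_lit 233) (nat_lit 190))) (XT.nd (nat_lit 78) (nat_lit 0) (nat_lit 0) (XT.lf (nat_lit 0) (nat_lit 5345038265) (nat_lit 76) (nat_lit 6467277479) (nat_lit 152) (nat_lit 15179792941) (nat_lit 8) (nat_lit 5) (nat_lit 9) (nat_lit 5) (nat_lit 10) (nat_lit 4) (nat_lit 298) (nat_lit 233) (nat_lit 189)) (XT.lf (nat_lit 0) (nat_lit 12453100637) (nat_lit 76) (nat_lit 2884564943) (nat_lit 152) (nat_lit 12800757375) (nat_lit 8) (nat_lit 5) (nat_lit 9) (nat_lit 5) (nat_lit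 10) (nat_lit 4) (nat_lit 299) (nat_lit 233) (nat_lit 188)))) (XT.nd (nat_lit 156) (nat_lit 152) (nat_lit 0) (XT.nd (nat_lit 78) (nat_lit 0) (nat_lit 0) (XT.lf (nat_lit 0) (nat_lit 19017477721) (nat_lit 152) (nat_lit 9500958445) (nat_lit 0) (nat_lit 824757281) (nat_lit 8) (nat_lit 5) (nat_lit 10) (nat_lit 4) (nat_lit 8) (nat_lit 4) (nat_lit 300) (nat_lit 233) (nat_lit 187)) (XT.lf (nat_lit 0) (nat_lit 22894756954) (nat_lit 152) (nat_lit 3113497454) (nat_lit 0) (nat_lit 4599322085) (nat_lit 8) (nat_lit 5) (nat_lit 10) (nat_lit 4) (nat_lit 8) (nat_lit 4) (nat_lit 301) (nat_lit 233) (nat_lit 186))) (XT.nd (nat_lit 78) (nat_lit 76) (nat_lit 0) (XT.lf (nat_lit 0) (nat_lit 3654264315) (nat_lit 76) (nat_lit 23336487748) (nat_lit 76) (nat_lit 4943229612) (nat_lit 7) (nat_lit 4) (nat_lit 8) (nat_lit 5) (nat_lit 8) (nat_lit 4) (nat_lit 302) (nat_lit 233) (nat_lit 185)) (XT.nd (nat_lit 78) (nat_lit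 76) (nat_lit 0) (XT.lf (nat_lit 0) (nat_lit 10813379960) (nat_lit 76) (nat_lit 20499366859) (nat_lit 76) (nat_lit 2012943707) (nat_lit 7) (nat_lit 4) (nat_lit 8) (nat_lit 5) (nat_lit 8) (nat_lit 4) (nat_lit 303) (nat_lit 233) (nat_lit 184)) (XT.lf (nat_lit 0) (nat_lit 999246845) (nat_lit 152) (nat_lit 16526695705) (nat_lit 76) (nat_lit 17261779132) (nat_lit 6) (nat_lit 5) (nat_lit 8) (nat_lit 5) (nat_lit 7) (nat_lit 4) (nat_lit 304) (nat_lit 233) (nat_lit 183)))))) (XT.nd (nat_lit 312) (nat_lit 0) (nat_lit 0) (XT.nd (nat_lit 156) (nat_lit 76) (nat_lit 0) (XT.nd (nat_lit 78) (nat_lit 0) (nat_lit 0) (XT.lf (nat_lit 0) (nat_lit 4065294441) (nat_lit 152) (nat_lit 10325801548) (nat_lit 76) (nat_lit 21931601167) (nat_lit 6) (nat_lit 5) (nat_lit 8) (nat_lit 5) (nat_lit 7) (nat_lit 4) (nat_lit 305) (nat_lit 233) (nat_lit 182)) (XT.lf (nat_lit 0) (nat_lit 7256925964) (nat_lit 152) (nat_lit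 3863436371) (nat_lit 76) (nat_lit 26815480704) (nat_lit 6) (nat_lit 5) (nat_lit 8) (nat_lit 5) (nat_lit 7) (nat_lit 4) (nat_lit 306) (nat_lit 233) (nat_lit 181))) (XT.nd (nat_lit 78) (nat_lit 0) (nat_lit 0) (XT.lf (nat_lit 0) (nat_lit 2970872897) (nat_lit 76) (nat_lit 7657251290) (nat_lit 152) (nat_lit 29000556782) (nat_lit 5) (nat_lit 5) (nat_lit 6) (nat_lit 5) (nat_lit 7) (nat_lit 4) (nat_lit 307) (nat_lit 233) (nat_lit 180)) (XT.lf (nat_lit 0) (nat_lit 10235512901) (nat_lit 76) (nat_lit 3971946521) (nat_lit 152) (nat_lit 27196754909) (nat_lit 5) (nat_lit 5) (nat_lit 6) (nat_lit 5) (nat_lit 7) (nat_lit 4) (nat_lit 308) (nat_lit 233) (nat_lit 179)))) (XT.nd (nat_lit 156) (nat_lit 0) (nat_lit 0) (XT.nd (nat_lit 78) (nat_lit 0) (nat_lit 0) (XT.lf (nat_lit 0) (nat_lit 17820037748) (nat_lit 76) (nat_lit 121102657) (nat_lit 152) (nat_lit 25328645854) (nat_lit 5) (nat_lit 5) (nat_lit 6)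 (nat_lit 5) (nat_lit 7) (nat_lit 4) (nat_lit 309) (nat_lit 233) (nat_lit 178)) (XT.lf (nat_lit 0) (nat_lit 21899016246) (nat_lit 152) (nat_lit 19548292151) (nat_lit 0) (nat_lit 3779482226) (nat_lit 5) (nat_lit 5) (nat_lit 7) (nat_lit 4) (nat_lit 5) (nat_lit 4) (nat_lit 310) (nat_lit 233) (nat_lit 177))) (XT.nd (nat_lit 78) (nat_lit 0) (nat_lit 0) (XT.lf (nat_lit 0) (nat_lit 26034173996) (nat_lit 152) (nat_lit 13393944806) (nat_lit 0) (nat_lit 7854584977) (nat_lit 5) (nat_lit 5) (nat_lit 7) (nat_lit 4) (nat_lit 5) (nat_lit 4) (nat_lit 311) (nat_lit 233) (nat_lit 176)) (XT.nd (nat_lit 78) (nat_lit 0) (nat_lit 0) (XT.lf (nat_lit 0) (nat_lit 30354568520) (nat_lit 152) (nat_lit 6970162514) (nat_lit 0) (nat_lit 12117784262) (nat_lit 5) (nat_lit 5) (nat_lit 7) (nat_lit 4) (nat_lit 5) (nat_lit 4) (nat_lit 312) (nat_lit 233) (nat_lit 175)) (XT.lf (nat_lit 0) (nat_lit 34870486470) (nat_lit 152)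 (nat_lit 261650557) (nat_lit 0) (nat_lit 16579230557) (nat_lit 5) (nat_lit 5) (nat_lit 7) (nat_lit 4) (nat_lit 5) (nat_lit 4) (nat_lit 313) (nat_lit 233) (nat_lit 174))))))))
noncomputable def xc89 : XT := (XT.nd (nat_lit 1404) (nat_lit 76) (nat_lit 0) (XT.nd (nat_lit 702) (nat_lit 0) (nat_lit 0) (XT.nd (nat_lit 312) (nat_lit 152) (nat_lit 0) (XT.nd (nat_lit 156) (nat_lit 0) (nat_lit 0) (XT.nd (nat_lit 78) (nat_lit 0) (nat_lit 0) (XT.lf (nat_lit 0) (nat_lit 6970668642) (nat_lit 76) (nat_lit 32730843062) (nat_lit 76) (nat_lit 14387709382) (nat_lit 4) (nat_lit 4) (nat_lit 5) (nat_lit 5) (nat_lit 5) (nat_lit 4) (nat_lit 314) (nat_lit 233) (nat_lit 173)) (XT.lf (nat_lit 0) (nat_lit 14539524486) (nat_lit 76) (nat_lit 30219870761) (nat_lit 76) (nat_lit 11827329684) (nat_lit 4) (nat_lit 4) (nat_lit 5) (nat_lit 5) (nat_lit 5) (nat_lit 4) (nat_lit 315) (nat_lit 233) (nat_lit 172))) (XT.nd (nat_lit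 78) (nat_lit 0) (nat_lit 0) (XT.lf (nat_lit 0) (nat_lit 22454286712) (nat_lit 76) (nat_lit 27597672797) (nat_lit 76) (nat_lit 9158077056) (nat_lit 4) (nat_lit 4) (nat_lit 5) (nat_lit 5) (nat_lit 5) (nat_lit 4) (nat_lit 316) (nat_lit 233) (nat_lit 171)) (XT.lf (nat_lit 0) (nat_lit 30733799991) (nat_lit 76) (nat_lit 24858005841) (nat_lit 76) (nat_lit 6373596134) (nat_lit 4) (nat_lit 4) (nat_lit 5) (nat_lit 5) (nat_lit 5) (nat_lit 4) (nat_lit 317) (nat_lit 233) (nat_lit 170)))) (XT.nd (nat_lit 156) (nat_lit 152) (nat_lit 0) (XT.nd (nat_lit 78) (nat_lit 0) (nat_lit 0) (XT.lf (nat_lit 0) (nat_lit 39397777450) (nat_lit 76) (nat_lit 21994346877) (nat_lit 76) (nat_lit 3467257203) (nat_lit 4) (nat_lit 4) (nat_lit 5) (nat_lit 5) (nat_lit 5) (nat_lit 4) (nat_lit 318) (nat_lit 233) (nat_lit 169)) (XT.lf (nat_lit 0) (nat_lit 48466847606) (nat_lit 76) (nat_lit 18999877669) (nat_lit 76) (nat_lit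 432140408) (nat_lit 4) (nat_lit 4) (nat_lit 5) (nat_lit 5) (nat_lit 5) (nat_lit 4) (nat_lit 319) (nat_lit 233) (nat_lit 168))) (XT.nd (nat_lit 78) (nat_lit 76) (nat_lit 0) (XT.lf (nat_lit 0) (nat_lit 2651316231) (nat_lit 152) (nat_lit 13171250975) (nat_lit 76) (nat_lit 55266385930) (nat_lit 3) (nat_lit 5) (nat_lit 5) (nat_lit 5) (nat_lit 4) (nat_lit 4) (nat_lit 320) (nat_lit 233) (nat_lit 167)) (XT.nd (nat_lit 78) (nat_lit 76) (nat_lit 0) (XT.lf (nat_lit 0) (nat_lit 5859901655) (nat_lit 152) (nat_lit 6630519415) (nat_lit 76) (nat_lit 61948512102) (nat_lit 3) (nat_lit 5) (nat_lit 5) (nat_lit 5) (nat_lit 4) (nat_lit 4) (nat_lit 321) (nat_lit 233) (nat_lit 166)) (XT.lf (nat_lit 0) (nat_lit 219522796) (nat_lit 76) (nat_lit 8998991116) (nat_lit 152) (nat_lit 68738434000) (nat_lit 2) (nat_lit 5) (nat_lit 3) (nat_lit 5) (nat_lit 4) (nat_lit 4) (nat_lit 322) (nat_lit 233) (nat_lit 165))))))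 (XT.nd (nat_lit 312) (nat_lit 0) (nat_lit 0) (XT.nd (nat_lit 156) (nat_lit 0) (nat_lit 0) (XT.nd (nat_lit 78) (nat_lit 0) (nat_lit 0) (XT.lf (nat_lit 0) (nat_lit 7617910979) (nat_lit 76) (nat_lit 5225885398) (nat_lit 152) (nat_lit 68802144870) (nat_lit 2) (nat_lit 5) (nat_lit 3) (nat_lit 5) (nat_lit 4) (nat_lit 4) (nat_lit 323) (nat_lit 233) (nat_lit 164)) (XT.lf (nat_lit 0) (nat_lit 15363025428) (nat_lit 76) (nat_lit 1274411387) (nat_lit 152) (nat_lit 68882606874) (nat_lit 2) (nat_lit 5) (nat_lit 3) (nat_lit 5) (nat_lit 4) (nat_lit 4) (nat_lit 324) (nat_lit 233) (nat_lit 163))) (XT.nd (nat_lit 78) (nat_lit 0) (nat_lit 0) (XT.lf (nat_lit 0) (nat_lit 20653195871) (nat_lit 152) (nat_lit 66159900568) (nat_lit 0) (nat_lit 2773146443) (nat_lit 2) (nat_lit 5) (nat_lit 4) (nat_lit 4) (nat_lit 2) (nat_lit 4) (nat_lit 325) (nat_lit 233) (nat_lit 162)) (XT.lf (nat_lit 0) (nat_lit 24878782934)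 (nat_lit 152) (nat_lit 62005308299) (nat_lit 0) (nat_lit 6971221617) (nat_lit 2) (nat_lit 5) (nat_lit 4) (nat_lit 4) (nat_lit 2) (nat_lit 4) (nat_lit 326) (nat_lit 233) (nat_lit 161)))) (XT.nd (nat_lit 156) (nat_lit 0) (nat_lit 0) (XT.nd (nat_lit 78) (nat_lit 0) (nat_lit 0) (XT.lf (nat_lit 0) (nat_lit 29304361790) (nat_lit 152) (nat_lit 57663452435) (nat_lit 0) (nat_lit 11370598677) (nat_lit 2) (nat_lit 5) (nat_lit 4) (nat_lit 4) (nat_lit 2) (nat_lit 4) (nat_lit 327) (nat_lit 233) (nat_lit 160)) (XT.lf (nat_lit 0) (nat_lit 33940469534) (nat_lit 152) (nat_lit 53123995224) (nat_lit 0) (nat_lit 15981752328) (nat_lit 2) (nat_lit 5) (nat_lit 4) (nat_lit 4) (nat_lit 2) (nat_lit 4) (nat_lit 328) (nat_lit 233) (nat_lit 159))) (XT.nd (nat_lit 78) (nat_lit 0) (nat_lit 0) (XT.lf (nat_lit 0) (nat_lit 38798144517) (nat_lit 152) (nat_lit 48376128434) (nat_lit 0) (nat_lit 20815661508) (nat_lit 2)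 (nat_lit 5) (nat_lit 4) (nat_lit 4) (nat_lit 2) (nat_lit 4) (nat_lit 329) (nat_lit 233) (nat_lit 158)) (XT.nd (nat_lit 78) (nat_lit 0) (nat_lit 0) (XT.lf (nat_lit 0) (nat_lit 43888952632) (nat_lit 152) (nat_lit 43408547620) (nat_lit 0) (nat_lit 25883835525) (nat_lit 2) (nat_lit 5) (nat_lit 4) (nat_lit 4) (nat_lit 2) (nat_lit 4) (nat_lit 330) (nat_lit 233) (nat_lit 157)) (XT.lf (nat_lit 0) (nat_lit 49225014850) (nat_lit 152) (nat_lit 38209425210) (nat_lit 0) (nat_lit 31198341459) (nat_lit 2) (nat_lit 5) (nat_lit 4) (nat_lit 4) (nat_lit 2) (nat_lit 4) (nat_lit 331) (nat_lit 233) (nat_lit 156))))))) (XT.nd (nat_lit 702) (nat_lit 0) (nat_lit 0) (XT.nd (nat_lit 312) (nat_lit 76) (nat_lit 0) (XT.nd (nat_lit 156) (nat_lit 0) (nat_lit 0) (XT.nd (nat_lit 78) (nat_lit 0) (nat_lit 0) (XT.lf (nat_lit 0) (nat_lit 54819036081) (nat_lit 152) (nat_lit 32766382340) (nat_lit 0) (nat_lit 36771832897)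 (nat_lit 2) (nat_lit 5) (nat_lit 4) (nat_lit 4) (nat_lit 2) (nat_lit 4) (nat_lit 332) (nat_lit 233) (nat_lit 155)) (XT.lf (nat_lit 0) (nat_lit 60684335425) (nat_lit 152) (nat_lit 27066459385) (nat_lit 0) (nat_lit 42617580055) (nat_lit 2) (nat_lit 5) (nat_lit 4) (nat_lit 4) (nat_lit 2) (nat_lit 4) (nat_lit 333) (nat_lit 233) (nat_lit 154))) (XT.nd (nat_lit 78) (nat_lit 0) (nat_lit 0) (XT.lf (nat_lit 0) (nat_lit 66834877878) (nat_lit 152) (nat_lit 21096085098) (nat_lit 0) (nat_lit 48749501380) (nat_lit 2) (nat_lit 5) (nat_lit 4) (nat_lit 4) (nat_lit 2) (nat_lit 4) (nat_lit 334) (nat_lit 233) (nat_lit 153)) (XT.lf (nat_lit 0) (nat_lit 73285307590) (nat_lit 152) (nat_lit 14841044305) (nat_lit 0) (nat_lit 55182196684) (nat_lit 2) (nat_lit 5) (nat_lit 4) (nat_lit 4) (nat_lit 2) (nat_lit 4) (nat_lit 335) (nat_lit 233) (nat_lit 152)))) (XT.nd (nat_lit 156) (nat_lit 76) (nat_lit 0) (XT.nd (nat_lit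 78) (nat_lit 0) (nat_lit 0) (XT.lf (nat_lit 0) (nat_lit 80050982727) (nat_lit 152) (nat_lit 8286444049) (nat_lit 0) (nat_lit 61930981909) (nat_lit 2) (nat_lit 5) (nat_lit 4) (nat_lit 4) (nat_lit 2) (nat_lit 4) (nat_lit 336) (nat_lit 233) (nat_lit 151)) (XT.lf (nat_lit 0) (nat_lit 87148012039) (nat_lit 152) (nat_lit 1416678140) (nat_lit 0) (nat_lit 69011925590) (nat_lit 2) (nat_lit 5) (nat_lit 4) (nat_lit 4) (nat_lit 2) (nat_lit 4) (nat_lit 337) (nat_lit 233) (nat_lit 150))) (XT.nd (nat_lit 78) (nat_lit 0) (nat_lit 0) (XT.lf (nat_lit 0) (nat_lit 5975875337) (nat_lit 76) (nat_lit 88710718039) (nat_lit 76) (nat_lit 70559311942) (nat_lit 1) (nat_lit 4) (nat_lit 2) (nat_lit 5) (nat_lit 2) (nat_lit 4) (nat_lit 338) (nat_lit 233) (nat_lit 149)) (XT.nd (nat_lit 78) (nat_lit 0) (nat_lit 0) (XT.lf (nat_lit 0) (nat_lit 13775467299) (nat_lit 76) (nat_lit 88844159466) (nat_lit 76) (nat_lit 70678163228)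 (nat_lit 1) (nat_lit 4) (nat_lit 2) (nat_lit 5) (nat_lit 2) (nat_lit 4) (nat_lit 339) (nat_lit 233) (nat_lit 148)) (XT.lf (nat_lit 0) (nat_lit 21953826424) (nat_lit 76) (nat_lit 88989324308) (nat_lit 76) (nat_lit 70809432697) (nat_lit 1) (nat_lit 4) (nat_lit 2) (nat_lit 5) (nat_lit 2) (nat_lit 4) (nat_lit 340) (nat_lit 233) (nat_lit 147)))))) (XT.nd (nat_lit 312) (nat_lit 0) (nat_lit 0) (XT.nd (nat_lit 156) (nat_lit 0) (nat_lit 0) (XT.nd (nat_lit 78) (nat_lit 0) (nat_lit 0) (XT.lf (nat_lit 0) (nat_lit 30530424997) (nat_lit 76) (nat_lit 89146558195) (nat_lit 76) (nat_lit 70953432896) (nat_lit 1) (nat_lit 4) (nat_lit 2) (nat_lit 5) (nat_lit 2) (nat_lit 4) (nat_lit 341) (nat_lit 233) (nat_lit 146)) (XT.lf (nat_lit 0) (nat_lit 39525683490) (nat_lit 76) (nat_lit 89316235495) (nat_lit 76) (nat_lit 71110506683) (nat_lit 1) (nat_lit 4) (nat_lit 2) (nat_lit 5) (nat_lit 2) (nat_lit 4) (nat_lit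 342) (nat_lit 233) (nat_lit 145))) (XT.nd (nat_lit 78) (nat_lit 0) (nat_lit 0) (XT.lf (nat_lit 0) (nat_lit 48961019186) (nat_lit 76) (nat_lit 89498760199) (nat_lit 76) (nat_lit 71281028042) (nat_lit 1) (nat_lit 4) (nat_lit 2) (nat_lit 5) (nat_lit 2) (nat_lit 4) (nat_lit 343) (nat_lit 233) (nat_lit 144)) (XT.lf (nat_lit 0) (nat_lit 58858897168) (nat_lit 76) (nat_lit 89694566892) (nat_lit 76) (nat_lit 71465402978) (nat_lit 1) (nat_lit 4) (nat_lit 2) (nat_lit 5) (nat_lit 2) (nat_lit 4) (nat_lit 344) (nat_lit 233) (nat_lit 143)))) (XT.nd (nat_lit 156) (nat_lit 0) (nat_lit 0) (XT.nd (nat_lit 78) (nat_lit 0) (nat_lit 0) (XT.lf (nat_lit 0) (nat_lit 69242883814) (nat_lit 76) (nat_lit 89904121780) (nat_lit 76) (nat_lit 71664070477) (nat_lit 1) (nat_lit 4) (nat_lit 2) (nat_lit 5) (nat_lit 2) (nat_lit 4) (nat_lit 345) (nat_lit 233) (nat_lit 142)) (XT.lf (nat_lit 0) (nat_lit 80137702902) (nat_lit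 76) (nat_lit 90127923802) (nat_lit 76) (nat_lit 71877503558) (nat_lit 1) (nat_lit 4) (nat_lit 2) (nat_lit 5) (nat_lit 2) (nat_lit 4) (nat_lit 346) (nat_lit 233) (nat_lit 141))) (XT.nd (nat_lit 78) (nat_lit 0) (nat_lit 0) (XT.lf (nat_lit 0) (nat_lit 91569294475) (nat_lit 76) (nat_lit 90366505821) (nat_lit 76) (nat_lit 72106210395) (nat_lit 1) (nat_lit 4) (nat_lit 2) (nat_lit 5) (nat_lit 2) (nat_lit 4) (nat_lit 347) (nat_lit 233) (nat_lit 140)) (XT.nd (nat_lit 78) (nat_lit 0) (nat_lit 0) (XT.lf (nat_lit 0) (nat_lit 103564876611) (nat_lit 76) (nat_lit 90620435888) (nat_lit 76) (nat_lit 72350735528) (nat_lit 1) (nat_lit 4) (nat_lit 2) (nat_lit 5) (nat_lit 2) (nat_lit 4) (nat_lit 348) (nat_lit 233) (nat_lit 139)) (XT.lf (nat_lit 0) (nat_lit 116153010218) (nat_lit 76) (nat_lit 90890318601) (nat_lit 76) (nat_lit 72611661159) (nat_lit 1) (nat_lit 4) (nat_lit 2) (nat_lit 5) (nat_lit 2) (nat_lit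 4) (nat_lit 349) (nat_lit 233) (nat_lit 138))))))))
noncomputable def xc90 : XT := (XT.nd (nat_lit 30108) (nat_lit 0) (nat_lit 2432) (XT.nd (nat_lit 702) (nat_lit 0) (nat_lit 0) (XT.nd (nat_lit 312) (nat_lit 0) (nat_lit 0) (XT.nd (nat_lit 156) (nat_lit 0) (nat_lit 0) (XT.nd (nat_lit 78) (nat_lit 0) (nat_lit 0) (XT.lf (nat_lit 0) (nat_lit 129363667044) (nat_lit 76) (nat_lit 91176796536) (nat_lit 76) (nat_lit 72889608540) (nat_lit 1) (nat_lit 4) (nat_lit 2) (nat_lit 5) (nat_lit 2) (nat_lit 4) (nat_lit 350) (nat_lit 233) (nat_lit 137)) (XT.lf (nat_lit 0) (nat_lit 143228301033) (nat_lit 76) (nat_lit 91480551783) (nat_lit 76) (nat_lit 73185239451) (nat_lit 1) (nat_lit 4) (nat_lit 2) (nat_lit 5) (nat_lit 2) (nat_lit 4) (nat_lit 351) (nat_lit 233) (nat_lit 136))) (XT.nd (nat_lit 78) (nat_lit 0) (nat_lit 0) (XT.lf (nat_lit 0) (nat_lit 157779923218) (nat_lit 76) (nat_lit 91802307570) (nat_lit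 76) (nat_lit 73499257775) (nat_lit 1) (nat_lit 4) (nat_lit 2) (nat_lit 5) (nat_lit 2) (nat_lit 4) (nat_lit 352) (nat_lit 233) (nat_lit 135)) (XT.lf (nat_lit 0) (nat_lit 173053180319) (nat_lit 76) (nat_lit 92142829982) (nat_lit 76) (nat_lit 73832411174) (nat_lit 1) (nat_lit 4) (nat_lit 2) (nat_lit 5) (nat_lit 2) (nat_lit 4) (nat_lit 353) (nat_lit 233) (nat_lit 134)))) (XT.nd (nat_lit 156) (nat_lit 0) (nat_lit 0) (XT.nd (nat_lit 78) (nat_lit 0) (nat_lit 0) (XT.lf (nat_lit 0) (nat_lit 189084437234) (nat_lit 76) (nat_lit 92502929786) (nat_lit 76) (nat_lit 74185492871) (nat_lit 1) (nat_lit 4) (nat_lit 2) (nat_lit 5) (nat_lit 2) (nat_lit 4) (nat_lit 354) (nat_lit 233) (nat_lit 133)) (XT.lf (nat_lit 0) (nat_lit 205911863621) (nat_lit 76) (nat_lit 92883464363) (nat_lit 76) (nat_lit 74559343536) (nat_lit 1) (nat_lit 4) (nat_lit 2) (nat_lit 5) (nat_lit 2) (nat_lit 4) (nat_lit 355) (nat_lit 233)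 (nat_lit 132))) (XT.nd (nat_lit 78) (nat_lit 0) (nat_lit 0) (XT.lf (nat_lit 0) (nat_lit 223575524783) (nat_lit 76) (nat_lit 93285339748) (nat_lit 76) (nat_lit 74954853290) (nat_lit 1) (nat_lit 4) (nat_lit 2) (nat_lit 5) (nat_lit 2) (nat_lit 4) (nat_lit 356) (nat_lit 233) (nat_lit 131)) (XT.nd (nat_lit 78) (nat_lit 0) (nat_lit 0) (XT.lf (nat_lit 0) (nat_lit 242117477056) (nat_lit 76) (nat_lit 93709512786) (nat_lit 76) (nat_lit 75372963823) (nat_lit 1) (nat_lit 4) (nat_lit 2) (nat_lit 5) (nat_lit 2) (nat_lit 4) (nat_lit 357) (nat_lit 233) (nat_lit 130)) (XT.lf (nat_lit 0) (nat_lit 261581867943) (nat_lit 76) (nat_lit 94156993413) (nat_lit 76) (nat_lit 75814670636) (nat_lit 1) (nat_lit 4) (nat_lit 2) (nat_lit 5) (nat_lit 2) (nat_lit 4) (nat_lit 358) (nat_lit 233) (nat_lit 129)))))) (XT.nd (nat_lit 312) (nat_lit 0) (nat_lit 0) (XT.nd (nat_lit 156) (nat_lit 0) (nat_lit 0) (XT.nd (nat_lit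 78) (nat_lit 0) (nat_lit 0) (XT.lf (nat_lit 0) (nat_lit 282015041234) (nat_lit 76) (nat_lit 94628847061) (nat_lit 76) (nat_lit 76281025413) (nat_lit 1) (nat_lit 4) (nat_lit 2) (nat_lit 5) (nat_lit 2) (nat_lit 4) (nat_lit 359) (nat_lit 233) (nat_lit 128)) (XT.lf (nat_lit 0) (nat_lit 303465647341) (nat_lit 76) (nat_lit 95126197189) (nat_lit 76) (nat_lit 76773138521) (nat_lit 1) (nat_lit 4) (nat_lit 2) (nat_lit 5) (nat_lit 2) (nat_lit 4) (nat_lit 360) (nat_lit 233) (nat_lit 127))) (XT.nd (nat_lit 78) (nat_lit 0) (nat_lit 0) (XT.lf (nat_lit 0) (nat_lit 325984759136) (nat_lit 76) (nat_lit 95650227964) (nat_lit 76) (nat_lit 77292181659) (nat_lit 1) (nat_lit 4) (nat_lit 2) (nat_lit 5) (nat_lit 2) (nat_lit 4) (nat_lit 361) (nat_lit 233) (nat_lit 126)) (XT.lf (nat_lit 0) (nat_lit 349625993551) (nat_lit 76) (nat_lit 96202187080) (nat_lit 76) (nat_lit 77839390643) (nat_lit 1) (nat_lit 4) (nat_lit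 2) (nat_lit 5) (nat_lit 2) (nat_lit 4) (nat_lit 362) (nat_lit 233) (nat_lit 125)))) (XT.nd (nat_lit 28860) (nat_lit 0) (nat_lit 6384) (XT.nd (nat_lit 78) (nat_lit 0) (nat_lit 0) (XT.lf (nat_lit 0) (nat_lit 374445639240) (nat_lit 76) (nat_lit 96783388723) (nat_lit 76) (nat_lit 78416068352) (nat_lit 1) (nat_lit 4) (nat_lit 2) (nat_lit 5) (nat_lit 2) (nat_lit 4) (nat_lit 363) (nat_lit 233) (nat_lit 124)) (XT.lf (nat_lit 0) (nat_lit 400502790597) (nat_lit 76) (nat_lit 97395216709) (nat_lit 76) (nat_lit 79023587828) (nat_lit 1) (nat_lit 4) (nat_lit 2) (nat_lit 5) (nat_lit 2) (nat_lit 4) (nat_lit 364) (nat_lit 233) (nat_lit 123))) (XT.nd (nat_lit 78) (nat_lit 532) (nat_lit 0) (XT.lf (nat_lit 0) (nat_lit 522744299) (nat_lit 532) (nat_lit 2406763553) (nat_lit 0) (nat_lit 522744299) (nat_lit 92) (nat_lit 5) (nat_lit 99) (nat_lit 4) (nat_lit 92) (nat_lit 4) (nat_lit 252) (nat_lit 234) (nat_lit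 234)) (XT.nd (nat_lit 78) (nat_lit 532) (nat_lit 0) (XT.lf (nat_lit 0) (nat_lit 4013512837) (nat_lit 532) (nat_lit 701278394) (nat_lit 0) (nat_lit 2273266188) (nat_lit 92) (nat_lit 5) (nat_lit 99) (nat_lit 4) (nat_lit 92) (nat_lit 4) (nat_lit 253) (nat_lit 234) (nat_lit 233)) (XT.lf (nat_lit 0) (nat_lit 3594557359) (nat_lit 532) (nat_lit 3442144624) (nat_lit 532) (nat_lit 44520214) (nat_lit 85) (nat_lit 4) (nat_lit 92) (nat_lit 5) (nat_lit 92) (nat_lit 4) (nat_lit 254) (nat_lit 234) (nat_lit 232))))))) (XT.nd (nat_lit 702) (nat_lit 1368) (nat_lit 0) (XT.nd (nat_lit 312) (nat_lit 1140) (nat_lit 0) (XT.nd (nat_lit 156) (nat_lit 760) (nat_lit 0) (XT.nd (nat_lit 78) (nat_lit 0) (nat_lit 0) (XT.lf (nat_lit 0) (nat_lit 788341489) (nat_lit 608) (nat_lit 2023571148) (nat_lit 684) (nat_lit 4371618548) (nat_lit 76) (nat_lit 5) (nat_lit 84) (nat_lit 5) (nat_lit 85) (nat_lit 4) (nat_lit 255) (nat_lit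 234) (nat_lit 231)) (XT.lf (nat_lit 0) (nat_lit 5259220543) (nat_lit 608) (nat_lit 466921139) (nat_lit 684) (nat_lit 1569620959) (nat_lit 76) (nat_lit 5) (nat_lit 84) (nat_lit 5) (nat_lit 85) (nat_lit 4) (nat_lit 256) (nat_lit 234) (nat_lit 230))) (XT.nd (nat_lit 78) (nat_lit 0) (nat_lit 0) (XT.lf (nat_lit 0) (nat_lit 1247586095) (nat_lit 760) (nat_lit 4976805770) (nat_lit 76) (nat_lit 1192795551) (nat_lit 66) (nat_lit 5) (nat_lit 76) (nat_lit 5) (nat_lit 67) (nat_lit 4) (nat_lit 257) (nat_lit 234) (nat_lit 229)) (XT.lf (nat_lit 0) (nat_lit 4061488420) (nat_lit 760) (nat_lit 506904846) (nat_lit 76) (nat_lit 2980150584) (nat_lit 66) (nat_lit 5) (nat_lit 76) (nat_lit 5) (nat_lit 67) (nat_lit 4) (nat_lit 258) (nat_lit 234) (nat_lit 228)))) (XT.nd (nat_lit 156) (nat_lit 380) (nat_lit 0) (XT.nd (nat_lit 78) (nat_lit 456) (nat_lit 0) (XT.lf (nat_lit 0) (nat_lit 4185353047) (nat_lit 304)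 (nat_lit 2768339615) (nat_lit 380) (nat_lit 736443883) (nat_lit 62) (nat_lit 5) (nat_lit 66) (nat_lit 5) (nat_lit 67) (nat_lit 4) (nat_lit 259) (nat_lit 234) (nat_lit 227)) (XT.lf (nat_lit 0) (nat_lit 1157154999) (nat_lit 380) (nat_lit 826202300) (nat_lit 456) (nat_lit 5859243292) (nat_lit 56) (nat_lit 5) (nat_lit 61) (nat_lit 5) (nat_lit 62) (nat_lit 5) (nat_lit 260) (nat_lit 234) (nat_lit 226))) (XT.nd (nat_lit 78) (nat_lit 380) (nat_lit 0) (XT.lf (nat_lit 0) (nat_lit 4771097499) (nat_lit 456) (nat_lit 1999595697) (nat_lit 76) (nat_lit 1234030140) (nat_lit 56) (nat_lit 5) (nat_lit 62) (nat_lit 5) (nat_lit 57) (nat_lit 4) (nat_lit 261) (nat_lit 234) (nat_lit 225)) (XT.nd (nat_lit 78) (nat_lit 76) (nat_lit 0) (XT.lf (nat_lit 0) (nat_lit 2863648121) (nat_lit 304) (nat_lit 4776098154) (nat_lit 380) (nat_lit 538581347) (nat_lit 52) (nat_lit 5) (nat_lit 56) (nat_lit 5) (nat_lit 57) (nat_lit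 4) (nat_lit 262) (nat_lit 234) (nat_lit 224)) (XT.lf (nat_lit 0) (nat_lit 2136781205) (nat_lit 380) (nat_lit 492831242) (nat_lit 76) (nat_lit 5733675618) (nat_lit 51) (nat_lit 5) (nat_lit 56) (nat_lit 5) (nat_lit 52) (nat_lit 5) (nat_lit 263) (nat_lit 234) (nat_lit 223)))))) (XT.nd (nat_lit 312) (nat_lit 532) (nat_lit 0) (XT.nd (nat_lit 156) (nat_lit 304) (nat_lit 0) (XT.nd (nat_lit 78) (nat_lit 228) (nat_lit 0) (XT.lf (nat_lit 0) (nat_lit 4577246943) (nat_lit 304) (nat_lit 312009461) (nat_lit 380) (nat_lit 3670116452) (nat_lit 47) (nat_lit 5) (nat_lit 51) (nat_lit 5) (nat_lit 52) (nat_lit 5) (nat_lit 264) (nat_lit 234) (nat_lit 222)) (XT.lf (nat_lit 0) (nat_lit 1018637042) (nat_lit 228) (nat_lit 6711104121) (nat_lit 304) (nat_lit 1038372869) (nat_lit 44) (nat_lit 5) (nat_lit 47) (nat_lit 5) (nat_lit 48) (nat_lit 4) (nat_lit 265) (nat_lit 234) (nat_lit 221))) (XT.nd (nat_lit 78) (nat_lit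 228) (nat_lit 0) (XT.lf (nat_lit 0) (nat_lit 1637282053) (nat_lit 304) (nat_lit 2744872650) (nat_lit 76) (nat_lit 4605751218) (nat_lit 43) (nat_lit 5) (nat_lit 47) (nat_lit 5) (nat_lit 44) (nat_lit 5) (nat_lit 266) (nat_lit 234) (nat_lit 220)) (XT.lf (nat_lit 0) (nat_lit 2442063530) (nat_lit 228) (nat_lit 1906815021) (nat_lit 304) (nat_lit 4872425838) (nat_lit 40) (nat_lit 5) (nat_lit 43) (nat_lit 5) (nat_lit 44) (nat_lit 5) (nat_lit 267) (nat_lit 234) (nat_lit 219)))) (XT.nd (nat_lit 156) (nat_lit 228) (nat_lit 0) (XT.nd (nat_lit 78) (nat_lit 304) (nat_lit 0) (XT.lf (nat_lit 0) (nat_lit 7155421335) (nat_lit 304) (nat_lit 1623702130) (nat_lit 76) (nat_lit 689586573) (nat_lit 40) (nat_lit 5) (nat_lit 44) (nat_lit 5) (nat_lit 41) (nat_lit 4) (nat_lit 268) (nat_lit 234) (nat_lit 218)) (XT.lf (nat_lit 0) (nat_lit 357355677) (nat_lit 304) (nat_lit 5981725825) (nat_lit 76) (nat_lit 3389614106)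 (nat_lit 36) (nat_lit 5) (nat_lit 40) (nat_lit 5) (nat_lit 37) (nat_lit 5) (nat_lit 269) (nat_lit 234) (nat_lit 217))) (XT.nd (nat_lit 78) (nat_lit 228) (nat_lit 0) (XT.lf (nat_lit 0) (nat_lit 3018530454) (nat_lit 304) (nat_lit 722907628) (nat_lit 76) (nat_lit 6261873216) (nat_lit 36) (nat_lit 5) (nat_lit 40) (nat_lit 5) (nat_lit 37) (nat_lit 5) (nat_lit 270) (nat_lit 234) (nat_lit 216)) (XT.nd (nat_lit 78) (nat_lit 0) (nat_lit 0) (XT.lf (nat_lit 0) (nat_lit 4832792851) (nat_lit 228) (nat_lit 966653965) (nat_lit 304) (nat_lit 4493128218) (nat_lit 33) (nat_lit 5) (nat_lit 36) (nat_lit 5) (nat_lit 37) (nat_lit 5) (nat_lit 271) (nat_lit 234) (nat_lit 215)) (XT.lf (nat_lit 0) (nat_lit 8675344753) (nat_lit 304) (nat_lit 57754913) (nat_lit 76) (nat_lit 1865644932) (nat_lit 33) (nat_lit 5) (nat_lit 37) (nat_lit 5) (nat_lit 34) (nat_lit 4) (nat_lit 272) (nat_lit 234) (nat_lit 214))))))))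
noncomputable def xc91 : XT := (XT.nd (nat_lit 1404) (nat_lit 608) (nat_lit 0) (XT.nd (nat_lit 702) (nat_lit 532) (nat_lit 0) (XT.nd (nat_lit 312) (nat_lit 380) (nat_lit 0) (XT.nd (nat_lit 156) (nat_lit 152) (nat_lit 0) (XT.nd (nat_lit 78) (nat_lit 228) (nat_lit 0) (XT.lf (nat_lit 0) (nat_lit 771640696) (nat_lit 228) (nat_lit 5269045339) (nat_lit 76) (nat_lit 4878067690) (nat_lit 30) (nat_lit 5) (nat_lit 33) (nat_lit 5) (nat_lit 31) (nat_lit 5) (nat_lit 273) (nat_lit 234) (nat_lit 213)) (XT.lf (nat_lit 0) (nat_lit 248201556) (nat_lit 228) (nat_lit 3211308760) (nat_lit 304) (nat_lit 7797747469) (nat_lit 27) (nat_lit 5) (nat_lit 30) (nat_lit 5) (nat_lit 31) (nat_lit 5) (nat_lit 274) (nat_lit 234) (nat_lit 212))) (XT.nd (nat_lit 78) (nat_lit 152) (nat_lit 0) (XT.lf (nat_lit 0) (nat_lit 6108113045) (nat_lit 228) (nat_lit 182839837) (nat_lit 304) (nat_lit 5321472175) (nat_lit 27) (nat_lit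 5) (nat_lit 30) (nat_lit 5) (nat_lit 31) (nat_lit 5) (nat_lit 275) (nat_lit 234) (nat_lit 211)) (XT.lf (nat_lit 0) (nat_lit 118612796) (nat_lit 152) (nat_lit 9117220414) (nat_lit 228) (nat_lit 2751111800) (nat_lit 25) (nat_lit 5) (nat_lit 27) (nat_lit 5) (nat_lit 28) (nat_lit 4) (nat_lit 276) (nat_lit 234) (nat_lit 210)))) (XT.nd (nat_lit 156) (nat_lit 304) (nat_lit 0) (XT.nd (nat_lit 78) (nat_lit 76) (nat_lit 0) (XT.lf (nat_lit 0) (nat_lit 6098463755) (nat_lit 152) (nat_lit 6250786425) (nat_lit 228) (nat_lit 30054817) (nat_lit 25) (nat_lit 5) (nat_lit 27) (nat_lit 5) (nat_lit 28) (nat_lit 4) (nat_lit 277) (nat_lit 234) (nat_lit 209)) (XT.lf (nat_lit 0) (nat_lit 2663928750) (nat_lit 228) (nat_lit 567554971) (nat_lit 76) (nat_lit 9561386546) (nat_lit 24) (nat_lit 5) (nat_lit 27) (nat_lit 5) (nat_lit 25) (nat_lit 5) (nat_lit 278) (nat_lit 234) (nat_lit 208))) (XT.nd (nat_lit 78) (nat_lit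 152) (nat_lit 0) (XT.lf (nat_lit 0) (nat_lit 5502797266) (nat_lit 152) (nat_lit 5534612) (nat_lit 228) (nat_lit 7718075107) (nat_lit 22) (nat_lit 5) (nat_lit 24) (nat_lit 5) (nat_lit 25) (nat_lit 5) (nat_lit 279) (nat_lit 234) (nat_lit 207)) (XT.nd (nat_lit 78) (nat_lit 152) (nat_lit 0) (XT.lf (nat_lit 0) (nat_lit 8489484924) (nat_lit 228) (nat_lit 1943246725) (nat_lit 76) (nat_lit 3249309391) (nat_lit 22) (nat_lit 5) (nat_lit 25) (nat_lit 5) (nat_lit 23) (nat_lit 4) (nat_lit 280) (nat_lit 234) (nat_lit 206)) (XT.lf (nat_lit 0) (nat_lit 4158648752) (nat_lit 152) (nat_lit 7461268021) (nat_lit 228) (nat_lit 2540668958) (nat_lit 20) (nat_lit 5) (nat_lit 22) (nat_lit 5) (nat_lit 23) (nat_lit 4) (nat_lit 281) (nat_lit 234) (nat_lit 205)))))) (XT.nd (nat_lit 312) (nat_lit 304) (nat_lit 0) (XT.nd (nat_lit 156) (nat_lit 0) (nat_lit 0) (XT.nd (nat_lit 78) (nat_lit 152) (nat_lit 0) (XT.lf (nat_lit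 0) (nat_lit 205036445) (nat_lit 228) (nat_lit 4133787915) (nat_lit 76) (nat_lit 10325718570) (nat_lit 19) (nat_lit 5) (nat_lit 22) (nat_lit 5) (nat_lit 20) (nat_lit 5) (nat_lit 282) (nat_lit 234) (nat_lit 204)) (XT.lf (nat_lit 0) (nat_lit 1952285731) (nat_lit 152) (nat_lit 1019484696) (nat_lit 228) (nat_lit 12221509654) (nat_lit 17) (nat_lit 5) (nat_lit 19) (nat_lit 5) (nat_lit 20) (nat_lit 5) (nat_lit 283) (nat_lit 234) (nat_lit 203))) (XT.nd (nat_lit 78) (nat_lit 0) (nat_lit 0) (XT.lf (nat_lit 0) (nat_lit 5926038610) (nat_lit 228) (nat_lit 7395751936) (nat_lit 76) (nat_lit 2424318839) (nat_lit 17) (nat_lit 5) (nat_lit 20) (nat_lit 5) (nat_lit 18) (nat_lit 4) (nat_lit 284) (nat_lit 234) (nat_lit 202)) (XT.lf (nat_lit 0) (nat_lit 8987155678) (nat_lit 228) (nat_lit 1367656469) (nat_lit 76) (nat_lit 5973920918) (nat_lit 17) (nat_lit 5) (nat_lit 20) (nat_lit 5) (nat_lit 18) (nat_lit 4)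 (nat_lit 285) (nat_lit 234) (nat_lit 201)))) (XT.nd (nat_lit 156) (nat_lit 228) (nat_lit 0) (XT.nd (nat_lit 78) (nat_lit 0) (nat_lit 0) (XT.lf (nat_lit 0) (nat_lit 5034703629) (nat_lit 76) (nat_lit 7190395196) (nat_lit 152) (nat_lit 4714305055) (nat_lit 16) (nat_lit 5) (nat_lit 17) (nat_lit 5) (nat_lit 18) (nat_lit 4) (nat_lit 286) (nat_lit 234) (nat_lit 200)) (XT.lf (nat_lit 0) (nat_lit 11717805482) (nat_lit 76) (nat_lit 3876715086) (nat_lit 152) (nat_lit 1987708086) (nat_lit 16) (nat_lit 5) (nat_lit 17) (nat_lit 5) (nat_lit 18) (nat_lit 4) (nat_lit 287) (nat_lit 234) (nat_lit 199))) (XT.nd (nat_lit 78) (nat_lit 0) (nat_lit 0) (XT.lf (nat_lit 0) (nat_lit 392226571) (nat_lit 152) (nat_lit 409146155) (nat_lit 228) (nat_lit 17457520624) (nat_lit 13) (nat_lit 5) (nat_lit 15) (nat_lit 5) (nat_lit 16) (nat_lit 5) (nat_lit 288) (nat_lit 234) (nat_lit 198)) (XT.nd (nat_lit 78) (nat_lit 0)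 (nat_lit 0) (XT.lf (nat_lit 0) (nat_lit 3763222787) (nat_lit 228) (nat_lit 11969074382) (nat_lit 76) (nat_lit 3230545024) (nat_lit 13) (nat_lit 5) (nat_lit 16) (nat_lit 5) (nat_lit 14) (nat_lit 4) (nat_lit 289) (nat_lit 234) (nat_lit 197)) (XT.lf (nat_lit 0) (nat_lit 6831027682) (nat_lit 228) (nat_lit 5864534706) (nat_lit 76) (nat_lit 7008614822) (nat_lit 13) (nat_lit 5) (nat_lit 16) (nat_lit 5) (nat_lit 14) (nat_lit 4) (nat_lit 290) (nat_lit 234) (nat_lit 196))))))) (XT.nd (nat_lit 702) (nat_lit 228) (nat_lit 0) (XT.nd (nat_lit 312) (nat_lit 304) (nat_lit 0) (XT.nd (nat_lit 156) (nat_lit 0) (nat_lit 0) (XT.nd (nat_lit 78) (nat_lit 0) (nat_lit 0) (XT.lf (nat_lit 0) (nat_lit 483344838) (nat_lit 76) (nat_lit 9529905320) (nat_lit 152) (nat_lit 10471355405) (nat_lit 12) (nat_lit 5) (nat_lit 13) (nat_lit 5) (nat_lit 14) (nat_lit 4) (nat_lit 291) (nat_lit 234) (nat_lit 195)) (XT.lf (nat_lit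 0) (nat_lit 7276112291) (nat_lit 76) (nat_lit 6132298080) (nat_lit 152) (nat_lit 7893027873) (nat_lit 12) (nat_lit 5) (nat_lit 13) (nat_lit 5) (nat_lit 14) (nat_lit 4) (nat_lit 292) (nat_lit 234) (nat_lit 194))) (XT.nd (nat_lit 78) (nat_lit 0) (nat_lit 0) (XT.lf (nat_lit 0) (nat_lit 14336032905) (nat_lit 76) (nat_lit 2593969859) (nat_lit 152) (nat_lit 5231346789) (nat_lit 12) (nat_lit 5) (nat_lit 13) (nat_lit 5) (nat_lit 14) (nat_lit 4) (nat_lit 293) (nat_lit 234) (nat_lit 193)) (XT.lf (nat_lit 0) (nat_lit 20603484745) (nat_lit 152) (nat_lit 1403543547) (nat_lit 0) (nat_lit 1058504976) (nat_lit 12) (nat_lit 5) (nat_lit 14) (nat_lit 4) (nat_lit 12) (nat_lit 4) (nat_lit 294) (nat_lit 234) (nat_lit 192)))) (XT.nd (nat_lit 156) (nat_lit 76) (nat_lit 0) (XT.nd (nat_lit 78) (nat_lit 0) (nat_lit 0) (XT.lf (nat_lit 0) (nat_lit 519974791) (nat_lit 228) (nat_lit 18616678605) (nat_lit 76) (nat_lit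 4873559617) (nat_lit 9) (nat_lit 5) (nat_lit 12) (nat_lit 5) (nat_lit 10) (nat_lit 4) (nat_lit 295) (nat_lit 234) (nat_lit 191)) (XT.lf (nat_lit 0) (nat_lit 3552967070) (nat_lit 228) (nat_lit 12530136966) (nat_lit 76) (nat_lit 8917832368) (nat_lit 9) (nat_lit 5) (nat_lit 12) (nat_lit 5) (nat_lit 10) (nat_lit 4) (nat_lit 296) (nat_lit 234) (nat_lit 190))) (XT.nd (nat_lit 78) (nat_lit 76) (nat_lit 0) (XT.lf (nat_lit 0) (nat_lit 6699941741) (nat_lit 228) (nat_lit 6203688922) (nat_lit 76) (nat_lit 13139504061) (nat_lit 9) (nat_lit 5) (nat_lit 12) (nat_lit 5) (nat_lit 10) (nat_lit 4) (nat_lit 297) (nat_lit 234) (nat_lit 189)) (XT.nd (nat_lit 78) (nat_lit 0) (nat_lit 0) (XT.lf (nat_lit 0) (nat_lit 390217907) (nat_lit 76) (nat_lit 9584266088) (nat_lit 152) (nat_lit 17164500783) (nat_lit 8) (nat_lit 5) (nat_lit 9) (nat_lit 5) (nat_lit 10) (nat_lit 4) (nat_lit 298) (nat_lit 234) (nat_lit 188))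 (XT.lf (nat_lit 0) (nat_lit 7468834687) (nat_lit 76) (nat_lit 6013873425) (nat_lit 152) (nat_lit 14803471734) (nat_lit 8) (nat_lit 5) (nat_lit 9) (nat_lit 5) (nat_lit 10) (nat_lit 4) (nat_lit 299) (nat_lit 234) (nat_lit 187)))))) (XT.nd (nat_lit 312) (nat_lit 152) (nat_lit 0) (XT.nd (nat_lit 156) (nat_lit 76) (nat_lit 0) (XT.nd (nat_lit 78) (nat_lit 0) (nat_lit 0) (XT.lf (nat_lit 0) (nat_lit 14843893296) (nat_lit 76) (nat_lit 2289014211) (nat_lit 152) (nat_lit 12359546811) (nat_lit 8) (nat_lit 5) (nat_lit 9) (nat_lit 5) (nat_lit 10) (nat_lit 4) (nat_lit 300) (nat_lit 234) (nat_lit 186)) (XT.lf (nat_lit 0) (nat_lit 20958740818) (nat_lit 152) (nat_lit 8252694569) (nat_lit 0) (nat_lit 1547996508) (nat_lit 8) (nat_lit 5) (nat_lit 10) (nat_lit 4) (nat_lit 8) (nat_lit 4) (nat_lit 301) (nat_lit 234) (nat_lit 185))) (XT.nd (nat_lit 78) (nat_lit 76) (nat_lit 0) (XT.lf (nat_lit 0) (nat_lit 24982722623)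 (nat_lit 152) (nat_lit 1627922995) (nat_lit 0) (nat_lit 5478813297) (nat_lit 8) (nat_lit 5) (nat_lit 10) (nat_lit 4) (nat_lit 8) (nat_lit 4) (nat_lit 302) (nat_lit 234) (nat_lit 184)) (XT.lf (nat_lit 0) (nat_lit 5451755099) (nat_lit 76) (nat_lit 23812057980) (nat_lit 76) (nat_lit 4219420068) (nat_lit 7) (nat_lit 4) (nat_lit 8) (nat_lit 5) (nat_lit 8) (nat_lit 4) (nat_lit 303) (nat_lit 234) (nat_lit 183)))) (XT.nd (nat_lit 156) (nat_lit 76) (nat_lit 0) (XT.nd (nat_lit 78) (nat_lit 76) (nat_lit 0) (XT.lf (nat_lit 0) (nat_lit 12891932356) (nat_lit 76) (nat_lit 20865997912) (nat_lit 76) (nat_lit 1188856584) (nat_lit 7) (nat_lit 4) (nat_lit 8) (nat_lit 5) (nat_lit 8) (nat_lit 4) (nat_lit 304) (nat_lit 234) (nat_lit 182)) (XT.lf (nat_lit 0) (nat_lit 1901720650) (nat_lit 152) (nat_lit 15859093438) (nat_lit 76) (nat_lit 18722569788) (nat_lit 6) (nat_lit 5) (nat_lit 8) (nat_lit 5) (nat_lit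 7) (nat_lit 4) (nat_lit 305) (nat_lit 234) (nat_lit 181))) (XT.nd (nat_lit 78) (nat_lit 76) (nat_lit 0) (XT.lf (nat_lit 0) (nat_lit 5080474842) (nat_lit 152) (nat_lit 9419294433) (nat_lit 76) (nat_lit 23597420939) (nat_lit 6) (nat_lit 5) (nat_lit 8) (nat_lit 5) (nat_lit 7) (nat_lit 4) (nat_lit 306) (nat_lit 234) (nat_lit 180)) (XT.nd (nat_lit 78) (nat_lit 76) (nat_lit 0) (XT.lf (nat_lit 0) (nat_lit 8393025289) (nat_lit 152) (nat_lit 2701563244) (nat_lit 76) (nat_lit 28698387800) (nat_lit 6) (nat_lit 5) (nat_lit 8) (nat_lit 5) (nat_lit 7) (nat_lit 4) (nat_lit 307) (nat_lit 234) (nat_lit 179)) (XT.lf (nat_lit 0) (nat_lit 4452605924) (nat_lit 76) (nat_lit 7464170749) (nat_lit 152) (nat_lit 29654527262) (nat_lit 5) (nat_lit 5) (nat_lit 6) (nat_lit 5) (nat_lit 7) (nat_lit 4) (nat_lit 308) (nat_lit 234) (nat_lit 178))))))))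
noncomputable def xc92 : XT := (XT.nd (nat_lit 1404) (nat_lit 76) (nat_lit 0) (XT.nd (nat_lit 702) (nat_lit 152) (nat_lit 0) (XT.nd (nat_lit 312) (nat_lit 76) (nat_lit 0) (XT.nd (nat_lit 156) (nat_lit 0) (nat_lit 0) (XT.nd (nat_lit 78) (nat_lit 0) (nat_lit 0) (XT.lf (nat_lit 0) (nat_lit 12016992719) (nat_lit 76) (nat_lit 3622026604) (nat_lit 152) (nat_lit 27798442788) (nat_lit 5) (nat_lit 5) (nat_lit 6) (nat_lit 5) (nat_lit 7) (nat_lit 4) (nat_lit 309) (nat_lit 234) (nat_lit 177)) (XT.lf (nat_lit 0) (nat_lit 19531212919) (nat_lit 152) (nat_lit 25483961868) (nat_lit 0) (nat_lit 382589449) (nat_lit 5) (nat_lit 5) (nat_lit 7) (nat_lit 4) (nat_lit 5) (nat_lit 4) (nat_lit 310) (nat_lit 234) (nat_lit 176))) (XT.nd (nat_lit 78) (nat_lit 0) (nat_lit 0) (XT.lf (nat_lit 0) (nat_lit 23655872565) (nat_lit 152) (nat_lit 19348288875) (nat_lit 0) (nat_lit 4450053857) (nat_lit 5) (nat_lit 5) (nat_lit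 7) (nat_lit 4) (nat_lit 5) (nat_lit 4) (nat_lit 311) (nat_lit 234) (nat_lit 175)) (XT.lf (nat_lit 0) (nat_lit 27966268894) (nat_lit 152) (nat_lit 12942291680) (nat_lit 0) (nat_lit 8705978530) (nat_lit 5) (nat_lit 5) (nat_lit 7) (nat_lit 4) (nat_lit 5) (nat_lit 4) (nat_lit 312) (nat_lit 234) (nat_lit 174)))) (XT.nd (nat_lit 156) (nat_lit 0) (nat_lit 0) (XT.nd (nat_lit 78) (nat_lit 76) (nat_lit 0) (XT.lf (nat_lit 0) (nat_lit 32472664753) (nat_lit 152) (nat_lit 6250717911) (nat_lit 0) (nat_lit 13160496622) (nat_lit 5) (nat_lit 5) (nat_lit 7) (nat_lit 4) (nat_lit 5) (nat_lit 4) (nat_lit 313) (nat_lit 234) (nat_lit 173)) (XT.lf (nat_lit 0) (nat_lit 766910683) (nat_lit 76) (nat_lit 36430852599) (nat_lit 76) (nat_lit 17069277071) (nat_lit 4) (nat_lit 4) (nat_lit 5) (nat_lit 5) (nat_lit 5) (nat_lit 4) (nat_lit 314) (nat_lit 234) (nat_lit 172))) (XT.nd (nat_lit 78) (nat_lit 0) (nat_lit 0) (XT.lf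 (nat_lit 0) (nat_lit 8319895108) (nat_lit 76) (nat_lit 33926867103) (nat_lit 76) (nat_lit 14518236912) (nat_lit 4) (nat_lit 4) (nat_lit 5) (nat_lit 5) (nat_lit 5) (nat_lit 4) (nat_lit 315) (nat_lit 234) (nat_lit 171)) (XT.nd (nat_lit 78) (nat_lit 0) (nat_lit 0) (XT.lf (nat_lit 0) (nat_lit 16219541695) (nat_lit 76) (nat_lit 31311323240) (nat_lit 76) (nat_lit 11857879083) (nat_lit 4) (nat_lit 4) (nat_lit 5) (nat_lit 5) (nat_lit 5) (nat_lit 4) (nat_lit 316) (nat_lit 234) (nat_lit 170)) (XT.lf (nat_lit 0) (nat_lit 24484659128) (nat_lit 76) (nat_lit 28577993523) (nat_lit 76) (nat_lit 9081869399) (nat_lit 4) (nat_lit 4) (nat_lit 5) (nat_lit 5) (nat_lit 5) (nat_lit 4) (nat_lit 317) (nat_lit 234) (nat_lit 169)))))) (XT.nd (nat_lit 312) (nat_lit 76) (nat_lit 0) (XT.nd (nat_lit 156) (nat_lit 76) (nat_lit 0) (XT.nd (nat_lit 78) (nat_lit 0) (nat_lit 0) (XT.lf (nat_lit 0) (nat_lit 33134926258)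 (nat_lit 76) (nat_lit 25720370025) (nat_lit 76) (nat_lit 6183598313) (nat_lit 4) (nat_lit 4) (nat_lit 5) (nat_lit 5) (nat_lit 5) (nat_lit 4) (nat_lit 318) (nat_lit 234) (nat_lit 168)) (XT.lf (nat_lit 0) (nat_lit 42190938958) (nat_lit 76) (nat_lit 22731648880) (nat_lit 76) (nat_lit 3156165179) (nat_lit 4) (nat_lit 4) (nat_lit 5) (nat_lit 5) (nat_lit 5) (nat_lit 4) (nat_lit 319) (nat_lit 234) (nat_lit 167))) (XT.nd (nat_lit 78) (nat_lit 0) (nat_lit 0) (XT.lf (nat_lit 0) (nat_lit 7393705) (nat_lit 152) (nat_lit 19597195164) (nat_lit 76) (nat_lit 51666740241) (nat_lit 3) (nat_lit 5) (nat_lit 5) (nat_lit 5) (nat_lit 4) (nat_lit 4) (nat_lit 320) (nat_lit 234) (nat_lit 166)) (XT.lf (nat_lit 0) (nat_lit 3209232884) (nat_lit 152) (nat_lit 13068537763) (nat_lit 76) (nat_lit 58343883412) (nat_lit 3) (nat_lit 5) (nat_lit 5) (nat_lit 5) (nat_lit 4) (nat_lit 4) (nat_lit 321) (nat_lit 234) (nat_lit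 165)))) (XT.nd (nat_lit 156) (nat_lit 0) (nat_lit 0) (XT.nd (nat_lit 78) (nat_lit 76) (nat_lit 0) (XT.lf (nat_lit 0) (nat_lit 6557992778) (nat_lit 152) (nat_lit 6237020851) (nat_lit 76) (nat_lit 65345155026) (nat_lit 3) (nat_lit 5) (nat_lit 5) (nat_lit 5) (nat_lit 4) (nat_lit 4) (nat_lit 322) (nat_lit 234) (nat_lit 164)) (XT.lf (nat_lit 0) (nat_lit 943829526) (nat_lit 76) (nat_lit 9132552922) (nat_lit 152) (nat_lit 71758131075) (nat_lit 2) (nat_lit 5) (nat_lit 3) (nat_lit 5) (nat_lit 4) (nat_lit 4) (nat_lit 323) (nat_lit 234) (nat_lit 163))) (XT.nd (nat_lit 78) (nat_lit 0) (nat_lit 0) (XT.lf (nat_lit 0) (nat_lit 8678168996) (nat_lit 76) (nat_lit 5185858002) (nat_lit 152) (nat_lit 71844895328) (nat_lit 2) (nat_lit 5) (nat_lit 3) (nat_lit 5) (nat_lit 4) (nat_lit 4) (nat_lit 324) (nat_lit 234) (nat_lit 162)) (XT.nd (nat_lit 78) (nat_lit 0) (nat_lit 0) (XT.lf (nat_lit 0) (nat_lit 16778188573)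 (nat_lit 76) (nat_lit 1051158941) (nat_lit 152) (nat_lit 71948302183) (nat_lit 2) (nat_lit 5) (nat_lit 3) (nat_lit 5) (nat_lit 4) (nat_lit 4) (nat_lit 325) (nat_lit 234) (nat_lit 161)) (XT.lf (nat_lit 0) (nat_lit 22033016914) (nat_lit 152) (nat_lit 68838440743) (nat_lit 0) (nat_lit 3176363847) (nat_lit 2) (nat_lit 5) (nat_lit 4) (nat_lit 4) (nat_lit 2) (nat_lit 4) (nat_lit 326) (nat_lit 234) (nat_lit 160))))))) (XT.nd (nat_lit 702) (nat_lit 76) (nat_lit 0) (XT.nd (nat_lit 312) (nat_lit 0) (nat_lit 0) (XT.nd (nat_lit 156) (nat_lit 0) (nat_lit 0) (XT.nd (nat_lit 78) (nat_lit 0) (nat_lit 0) (XT.lf (nat_lit 0) (nat_lit 26453351841) (nat_lit 152) (nat_lit 64506092901) (nat_lit 0) (nat_lit 7571744681) (nat_lit 2) (nat_lit 5) (nat_lit 4) (nat_lit 4) (nat_lit 2) (nat_lit 4) (nat_lit 327) (nat_lit 234) (nat_lit 159)) (XT.lf (nat_lit 0) (nat_lit 31084465366) (nat_lit 152) (nat_lit 59975690949)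 (nat_lit 0) (nat_lit 12179092404) (nat_lit 2) (nat_lit 5) (nat_lit 4) (nat_lit 4) (nat_lit 2) (nat_lit 4) (nat_lit 328) (nat_lit 234) (nat_lit 158))) (XT.nd (nat_lit 78) (nat_lit 0) (nat_lit 0) (XT.lf (nat_lit 0) (nat_lit 35937383951) (nat_lit 152) (nat_lit 55236448216) (nat_lit 0) (nat_lit 17009376890) (nat_lit 2) (nat_lit 5) (nat_lit 4) (nat_lit 4) (nat_lit 2) (nat_lit 4) (nat_lit 329) (nat_lit 234) (nat_lit 157)) (XT.lf (nat_lit 0) (nat_lit 41023662162) (nat_lit 152) (nat_lit 50277080790) (nat_lit 0) (nat_lit 22074098818) (nat_lit 2) (nat_lit 5) (nat_lit 4) (nat_lit 4) (nat_lit 2) (nat_lit 4) (nat_lit 330) (nat_lit 234) (nat_lit 156)))) (XT.nd (nat_lit 156) (nat_lit 0) (nat_lit 0) (XT.nd (nat_lit 78) (nat_lit 0) (nat_lit 0) (XT.lf (nat_lit 0) (nat_lit 46355410186) (nat_lit 152) (nat_lit 45085780653) (nat_lit 0) (nat_lit 27385317048) (nat_lit 2) (nat_lit 5) (nat_lit 4) (nat_lit 4)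 (nat_lit 2) (nat_lit 4) (nat_lit 331) (nat_lit 234) (nat_lit 155)) (XT.lf (nat_lit 0) (nat_lit 51945322661) (nat_lit 152) (nat_lit 39650187567) (nat_lit 0) (nat_lit 32955677339) (nat_lit 2) (nat_lit 5) (nat_lit 4) (nat_lit 4) (nat_lit 2) (nat_lit 4) (nat_lit 332) (nat_lit 234) (nat_lit 154))) (XT.nd (nat_lit 78) (nat_lit 0) (nat_lit 0) (XT.lf (nat_lit 0) (nat_lit 57806708904) (nat_lit 152) (nat_lit 33957359645) (nat_lit 0) (nat_lit 38798442453) (nat_lit 2) (nat_lit 5) (nat_lit 4) (nat_lit 4) (nat_lit 2) (nat_lit 4) (nat_lit 333) (nat_lit 234) (nat_lit 153)) (XT.nd (nat_lit 78) (nat_lit 0) (nat_lit 0) (XT.lf (nat_lit 0) (nat_lit 63953524594) (nat_lit 152) (nat_lit 27993742532) (nat_lit 0) (nat_lit 44927523735) (nat_lit 2) (nat_lit 5) (nat_lit 4) (nat_lit 4) (nat_lit 2) (nat_lit 4) (nat_lit 334) (nat_lit 234) (nat_lit 152)) (XT.lf (nat_lit 0) (nat_lit 70400405008) (nat_lit 152) (nat_lit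 21745137142) (nat_lit 0) (nat_lit 51357514237) (nat_lit 2) (nat_lit 5) (nat_lit 4) (nat_lit 4) (nat_lit 2) (nat_lit 4) (nat_lit 335) (nat_lit 234) (nat_lit 151)))))) (XT.nd (nat_lit 312) (nat_lit 0) (nat_lit 0) (XT.nd (nat_lit 156) (nat_lit 76) (nat_lit 0) (XT.nd (nat_lit 78) (nat_lit 0) (nat_lit 0) (XT.lf (nat_lit 0) (nat_lit 77162699861) (nat_lit 152) (nat_lit 15196665843) (nat_lit 0) (nat_lit 58103723459) (nat_lit 2) (nat_lit 5) (nat_lit 4) (nat_lit 4) (nat_lit 2) (nat_lit 4) (nat_lit 336) (nat_lit 234) (nat_lit 150)) (XT.lf (nat_lit 0) (nat_lit 84256509856) (nat_lit 152) (nat_lit 8332737035) (nat_lit 0) (nat_lit 65182213805) (nat_lit 2) (nat_lit 5) (nat_lit 4) (nat_lit 4) (nat_lit 2) (nat_lit 4) (nat_lit 337) (nat_lit 234) (nat_lit 149))) (XT.nd (nat_lit 78) (nat_lit 76) (nat_lit 0) (XT.lf (nat_lit 0) (nat_lit 91698725015) (nat_lit 152) (nat_lit 1137008032) (nat_lit 0) (nat_lit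 72609838823) (nat_lit 2) (nat_lit 5) (nat_lit 4) (nat_lit 4) (nat_lit 2) (nat_lit 4) (nat_lit 338) (nat_lit 234) (nat_lit 148)) (XT.lf (nat_lit 0) (nat_lit 6619519828) (nat_lit 76) (nat_lit 92990894325) (nat_lit 76) (nat_lit 73888112761) (nat_lit 1) (nat_lit 4) (nat_lit 2) (nat_lit 5) (nat_lit 2) (nat_lit 4) (nat_lit 339) (nat_lit 234) (nat_lit 147)))) (XT.nd (nat_lit 156) (nat_lit 0) (nat_lit 0) (XT.nd (nat_lit 78) (nat_lit 0) (nat_lit 0) (XT.lf (nat_lit 0) (nat_lit 14792669925) (nat_lit 76) (nat_lit 93138405900) (nat_lit 76) (nat_lit 74022390648) (nat_lit 1) (nat_lit 4) (nat_lit 2) (nat_lit 5) (nat_lit 2) (nat_lit 4) (nat_lit 340) (nat_lit 234) (nat_lit 146)) (XT.lf (nat_lit 0) (nat_lit 23364307519) (nat_lit 76) (nat_lit 93297874772) (nat_lit 76) (nat_lit 74169256007) (nat_lit 1) (nat_lit 4) (nat_lit 2) (nat_lit 5) (nat_lit 2) (nat_lit 4) (nat_lit 341) (nat_lit 234) (nat_lit 145)))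 (XT.nd (nat_lit 78) (nat_lit 0) (nat_lit 0) (XT.lf (nat_lit 0) (nat_lit 32354841269) (nat_lit 76) (nat_lit 93469680627) (nat_lit 76) (nat_lit 74329058517) (nat_lit 1) (nat_lit 4) (nat_lit 2) (nat_lit 5) (nat_lit 2) (nat_lit 4) (nat_lit 342) (nat_lit 234) (nat_lit 144)) (XT.nd (nat_lit 78) (nat_lit 0) (nat_lit 0) (XT.lf (nat_lit 0) (nat_lit 41785677210) (nat_lit 76) (nat_lit 93654232529) (nat_lit 76) (nat_lit 74502178661) (nat_lit 1) (nat_lit 4) (nat_lit 2) (nat_lit 5) (nat_lit 2) (nat_lit 4) (nat_lit 343) (nat_lit 234) (nat_lit 143)) (XT.lf (nat_lit 0) (nat_lit 51679269711) (nat_lit 76) (nat_lit 93851969885) (nat_lit 76) (nat_lit 74689028629) (nat_lit 1) (nat_lit 4) (nat_lit 2) (nat_lit 5) (nat_lit 2) (nat_lit 4) (nat_lit 344) (nat_lit 234) (nat_lit 142))))))))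
noncomputable def xc93 : XT := (XT.nd (nat_lit 1404) (nat_lit 0) (nat_lit 0) (XT.nd (nat_lit 702) (nat_lit 0) (nat_lit 0) (XT.nd (nat_lit 312) (nat_lit 0) (nat_lit 0) (XT.nd (nat_lit 156) (nat_lit 0) (nat_lit 0) (XT.nd (nat_lit 78) (nat_lit 0) (nat_lit 0) (XT.lf (nat_lit 0) (nat_lit 62059174947) (nat_lit 76) (nat_lit 94063363499) (nat_lit 76) (nat_lit 74890053302) (nat_lit 1) (nat_lit 4) (nat_lit 2) (nat_lit 5) (nat_lit 2) (nat_lit 4) (nat_lit 345) (nat_lit 234) (nat_lit 141)) (XT.lf (nat_lit 0) (nat_lit 72950106977) (nat_lit 76) (nat_lit 94288916690) (nat_lit 76) (nat_lit 75105731311) (nat_lit 1) (nat_lit 4) (nat_lit 2) (nat_lit 5) (nat_lit 2) (nat_lit 4) (nat_lit 346) (nat_lit 234) (nat_lit 140))) (XT.nd (nat_lit 78) (nat_lit 0) (nat_lit 0) (XT.lf (nat_lit 0) (nat_lit 84377996591) (nat_lit 76) (nat_lit 94529166488) (nat_lit 76) (nat_lit 75336576174) (nat_lit 1) (nat_lit 4) (nat_lit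 2) (nat_lit 5) (nat_lit 2) (nat_lit 4) (nat_lit 347) (nat_lit 234) (nat_lit 139)) (XT.lf (nat_lit 0) (nat_lit 96370053051) (nat_lit 76) (nat_lit 94784684918) (nat_lit 76) (nat_lit 75583137523) (nat_lit 1) (nat_lit 4) (nat_lit 2) (nat_lit 5) (nat_lit 2) (nat_lit 4) (nat_lit 348) (nat_lit 234) (nat_lit 138)))) (XT.nd (nat_lit 156) (nat_lit 0) (nat_lit 0) (XT.nd (nat_lit 78) (nat_lit 0) (nat_lit 0) (XT.lf (nat_lit 0) (nat_lit 108954828872) (nat_lit 76) (nat_lit 95056080355) (nat_lit 76) (nat_lit 75846002407) (nat_lit 1) (nat_lit 4) (nat_lit 2) (nat_lit 5) (nat_lit 2) (nat_lit 4) (nat_lit 349) (nat_lit 234) (nat_lit 137)) (XT.lf (nat_lit 0) (nat_lit 122162287806) (nat_lit 76) (nat_lit 95343998981) (nat_lit 76) (nat_lit 76125796696) (nat_lit 1) (nat_lit 4) (nat_lit 2) (nat_lit 5) (nat_lit 2) (nat_lit 4) (nat_lit 350) (nat_lit 234) (nat_lit 136))) (XT.nd (nat_lit 78) (nat_lit 0) (nat_lit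 0) (XT.lf (nat_lit 0) (nat_lit 136023876183) (nat_lit 76) (nat_lit 95649126315) (nat_lit 76) (nat_lit 76423186566) (nat_lit 1) (nat_lit 4) (nat_lit 2) (nat_lit 5) (nat_lit 2) (nat_lit 4) (nat_lit 351) (nat_lit 234) (nat_lit 135)) (XT.nd (nat_lit 78) (nat_lit 0) (nat_lit 0) (XT.lf (nat_lit 0) (nat_lit 150572597786) (nat_lit 76) (nat_lit 95972188851) (nat_lit 76) (nat_lit 76738880090) (nat_lit 1) (nat_lit 4) (nat_lit 2) (nat_lit 5) (nat_lit 2) (nat_lit 4) (nat_lit 352) (nat_lit 234) (nat_lit 134)) (XT.lf (nat_lit 0) (nat_lit 165843092428) (nat_lit 76) (nat_lit 96313955785) (nat_lit 76) (nat_lit 77073628917) (nat_lit 1) (nat_lit 4) (nat_lit 2) (nat_lit 5) (nat_lit 2) (nat_lit 4) (nat_lit 353) (nat_lit 234) (nat_lit 133)))))) (XT.nd (nat_lit 312) (nat_lit 0) (nat_lit 0) (XT.nd (nat_lit 156) (nat_lit 0) (nat_lit 0) (XT.nd (nat_lit 78) (nat_lit 0) (nat_lit 0) (XT.lf (nat_lit 0) (nat_lit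 181871718430) (nat_lit 76) (nat_lit 96675240849) (nat_lit 76) (nat_lit 77428230069) (nat_lit 1) (nat_lit 4) (nat_lit 2) (nat_lit 5) (nat_lit 2) (nat_lit 4) (nat_lit 354) (nat_lit 234) (nat_lit 132)) (XT.lf (nat_lit 0) (nat_lit 198696639186) (nat_lit 76) (nat_lit 97056904245) (nat_lit 76) (nat_lit 77803527834) (nat_lit 1) (nat_lit 4) (nat_lit 2) (nat_lit 5) (nat_lit 2) (nat_lit 4) (nat_lit 355) (nat_lit 234) (nat_lit 131))) (XT.nd (nat_lit 78) (nat_lit 0) (nat_lit 0) (XT.lf (nat_lit 0) (nat_lit 216357914032) (nat_lit 76) (nat_lit 97459854695) (nat_lit 76) (nat_lit 78200415779) (nat_lit 1) (nat_lit 4) (nat_lit 2) (nat_lit 5) (nat_lit 2) (nat_lit 4) (nat_lit 356) (nat_lit 234) (nat_lit 130)) (XT.lf (nat_lit 0) (nat_lit 234897593622) (nat_lit 76) (nat_lit 97885051605) (nat_lit 76) (nat_lit 78619838875) (nat_lit 1) (nat_lit 4) (nat_lit 2) (nat_lit 5) (nat_lit 2) (nat_lit 4) (nat_lit 357)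 (nat_lit 234) (nat_lit 129)))) (XT.nd (nat_lit 156) (nat_lit 0) (nat_lit 0) (XT.nd (nat_lit 78) (nat_lit 0) (nat_lit 0) (XT.lf (nat_lit 0) (nat_lit 254359820050) (nat_lit 76) (nat_lit 98333507349) (nat_lit 76) (nat_lit 79062795748) (nat_lit 1) (nat_lit 4) (nat_lit 2) (nat_lit 5) (nat_lit 2) (nat_lit 4) (nat_lit 358) (nat_lit 234) (nat_lit 128)) (XT.lf (nat_lit 0) (nat_lit 274790931952) (nat_lit 76) (nat_lit 98806289679) (nat_lit 76) (nat_lit 79530341058) (nat_lit 1) (nat_lit 4) (nat_lit 2) (nat_lit 5) (nat_lit 2) (nat_lit 4) (nat_lit 359) (nat_lit 234) (nat_lit 127))) (XT.nd (nat_lit 78) (nat_lit 0) (nat_lit 0) (XT.lf (nat_lit 0) (nat_lit 296239574831) (nat_lit 76) (nat_lit 99304524266) (nat_lit 76) (nat_lit 80023588007) (nat_lit 1) (nat_lit 4) (nat_lit 2) (nat_lit 5) (nat_lit 2) (nat_lit 4) (nat_lit 360) (nat_lit 234) (nat_lit 126)) (XT.nd (nat_lit 78) (nat_lit 0) (nat_lit 0) (XT.lf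 (nat_lit 0) (nat_lit 318756816884) (nat_lit 76) (nat_lit 99829397383) (nat_lit 76) (nat_lit 80543710993) (nat_lit 1) (nat_lit 4) (nat_lit 2) (nat_lit 5) (nat_lit 2) (nat_lit 4) (nat_lit 361) (nat_lit 234) (nat_lit 125)) (XT.lf (nat_lit 0) (nat_lit 342396270593) (nat_lit 76) (nat_lit 100382158729) (nat_lit 76) (nat_lit 81091948405) (nat_lit 1) (nat_lit 4) (nat_lit 2) (nat_lit 5) (nat_lit 2) (nat_lit 4) (nat_lit 362) (nat_lit 234) (nat_lit 124))))))) (XT.nd (nat_lit 29250) (nat_lit 0) (nat_lit 3496) (XT.nd (nat_lit 28860) (nat_lit 0) (nat_lit 5700) (XT.nd (nat_lit 28704) (nat_lit 0) (nat_lit 7448) (XT.nd (nat_lit 78) (nat_lit 0) (nat_lit 0) (XT.lf (nat_lit 0) (nat_lit 367214220372) (nat_lit 76) (nat_lit 100964124402) (nat_lit 76) (nat_lit 81669605568) (nat_lit 1) (nat_lit 4) (nat_lit 2) (nat_lit 5) (nat_lit 2) (nat_lit 4) (nat_lit 363) (nat_lit 234) (nat_lit 123)) (XT.lf (nat_lit 0)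 (nat_lit 393269756577) (nat_lit 76) (nat_lit 101576680034) (nat_lit 76) (nat_lit 82278057858) (nat_lit 1) (nat_lit 4) (nat_lit 2) (nat_lit 5) (nat_lit 2) (nat_lit 4) (nat_lit 364) (nat_lit 234) (nat_lit 122))) (XT.nd (nat_lit 78) (nat_lit 0) (nat_lit 0) (XT.lf (nat_lit 0) (nat_lit 414465388) (nat_lit 380) (nat_lit 1482757683) (nat_lit 380) (nat_lit 1482757683) (nat_lit 99) (nat_lit 4) (nat_lit 104) (nat_lit 5) (nat_lit 104) (nat_lit 4) (nat_lit 250) (nat_lit 235) (nat_lit 235)) (XT.lf (nat_lit 0) (nat_lit 4828913649) (nat_lit 380) (nat_lit 1959837966) (nat_lit 380) (nat_lit 41216035) (nat_lit 99) (nat_lit 4) (nat_lit 104) (nat_lit 5) (nat_lit 104) (nat_lit 4) (nat_lit 251) (nat_lit 235) (nat_lit 234)))) (XT.nd (nat_lit 156) (nat_lit 1216) (nat_lit 0) (XT.nd (nat_lit 78) (nat_lit 0) (nat_lit 0) (XT.lf (nat_lit 0) (nat_lit 2011927614) (nat_lit 456) (nat_lit 796759471) (nat_lit 532) (nat_lit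 4099415752) (nat_lit 92) (nat_lit 5) (nat_lit 98) (nat_lit 5) (nat_lit 99) (nat_lit 4) (nat_lit 252) (nat_lit 235) (nat_lit 233)) (XT.lf (nat_lit 0) (nat_lit 5691414398) (nat_lit 532) (nat_lit 838352072) (nat_lit 0) (nat_lit 466531008) (nat_lit 92) (nat_lit 5) (nat_lit 99) (nat_lit 4) (nat_lit 92) (nat_lit 4) (nat_lit 253) (nat_lit 235) (nat_lit 232))) (XT.nd (nat_lit 78) (nat_lit 608) (nat_lit 0) (XT.lf (nat_lit 0) (nat_lit 1498962907) (nat_lit 608) (nat_lit 3730464440) (nat_lit 76) (nat_lit 1862816100) (nat_lit 84) (nat_lit 5) (nat_lit 92) (nat_lit 5) (nat_lit 85) (nat_lit 4) (nat_lit 254) (nat_lit 235) (nat_lit 231)) (XT.nd (nat_lit 78) (nat_lit 0) (nat_lit 0) (XT.lf (nat_lit 0) (nat_lit 468361362) (nat_lit 608) (nat_lit 3812121685) (nat_lit 684) (nat_lit 2918034411) (nat_lit 76) (nat_lit 5) (nat_lit 84) (nat_lit 5) (nat_lit 85) (nat_lit 4) (nat_lit 255) (nat_lit 235) (nat_lit 230))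 (XT.lf (nat_lit 0) (nat_lit 4875048661) (nat_lit 608) (nat_lit 2253430739) (nat_lit 684) (nat_lit 185891040) (nat_lit 76) (nat_lit 5) (nat_lit 84) (nat_lit 5) (nat_lit 85) (nat_lit 4) (nat_lit 256) (nat_lit 235) (nat_lit 229)))))) (XT.nd (nat_lit 312) (nat_lit 684) (nat_lit 0) (XT.nd (nat_lit 156) (nat_lit 760) (nat_lit 0) (XT.nd (nat_lit 78) (nat_lit 0) (nat_lit 0) (XT.lf (nat_lit 0) (nat_lit 1956520105) (nat_lit 684) (nat_lit 539000929) (nat_lit 760) (nat_lit 4944050418) (nat_lit 66) (nat_lit 5) (nat_lit 75) (nat_lit 5) (nat_lit 76) (nat_lit 5) (nat_lit 257) (nat_lit 235) (nat_lit 228)) (XT.lf (nat_lit 0) (nat_lit 5238696684) (nat_lit 760) (nat_lit 1070635358) (nat_lit 76) (nat_lit 1265399876) (nat_lit 66) (nat_lit 5) (nat_lit 76) (nat_lit 5) (nat_lit 67) (nat_lit 4) (nat_lit 258) (nat_lit 235) (nat_lit 227))) (XT.nd (nat_lit 78) (nat_lit 380) (nat_lit 0) (XT.lf (nat_lit 0) (nat_lit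 330473112) (nat_lit 380) (nat_lit 4187236501) (nat_lit 76) (nat_lit 3202075882) (nat_lit 61) (nat_lit 5) (nat_lit 66) (nat_lit 5) (nat_lit 62) (nat_lit 5) (nat_lit 259) (nat_lit 235) (nat_lit 226)) (XT.lf (nat_lit 0) (nat_lit 374224735) (nat_lit 380) (nat_lit 2581595320) (nat_lit 456) (nat_lit 4919630007) (nat_lit 56) (nat_lit 5) (nat_lit 61) (nat_lit 5) (nat_lit 62) (nat_lit 5) (nat_lit 260) (nat_lit 235) (nat_lit 225)))) (XT.nd (nat_lit 156) (nat_lit 304) (nat_lit 0) (XT.nd (nat_lit 78) (nat_lit 380) (nat_lit 0) (XT.lf (nat_lit 0) (nat_lit 5180206601) (nat_lit 380) (nat_lit 486601677) (nat_lit 456) (nat_lit 2374822363) (nat_lit 56) (nat_lit 5) (nat_lit 61) (nat_lit 5) (nat_lit 62) (nat_lit 5) (nat_lit 261) (nat_lit 235) (nat_lit 224)) (XT.lf (nat_lit 0) (nat_lit 231896137) (nat_lit 380) (nat_lit 6306639345) (nat_lit 76) (nat_lit 1680553072) (nat_lit 51) (nat_lit 5) (nat_lit 56) (nat_lit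 5) (nat_lit 52) (nat_lit 5) (nat_lit 262) (nat_lit 235) (nat_lit 223))) (XT.nd (nat_lit 78) (nat_lit 304) (nat_lit 0) (XT.lf (nat_lit 0) (nat_lit 2836352788) (nat_lit 380) (nat_lit 1556874859) (nat_lit 76) (nat_lit 4013274554) (nat_lit 51) (nat_lit 5) (nat_lit 56) (nat_lit 5) (nat_lit 52) (nat_lit 5) (nat_lit 263) (nat_lit 235) (nat_lit 222)) (XT.nd (nat_lit 78) (nat_lit 0) (nat_lit 0) (XT.lf (nat_lit 0) (nat_lit 3415373245) (nat_lit 304) (nat_lit 2104202319) (nat_lit 380) (nat_lit 3086655239) (nat_lit 47) (nat_lit 5) (nat_lit 51) (nat_lit 5) (nat_lit 52) (nat_lit 5) (nat_lit 264) (nat_lit 235) (nat_lit 221)) (XT.lf (nat_lit 0) (nat_lit 8266408473) (nat_lit 380) (nat_lit 256877024) (nat_lit 76) (nat_lit 296541634) (nat_lit 47) (nat_lit 5) (nat_lit 52) (nat_lit 5) (nat_lit 48) (nat_lit 4) (nat_lit 265) (nat_lit 235) (nat_lit 220))))))))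
noncomputable def xc94 : XT := (XT.nd (nat_lit 1404) (nat_lit 836) (nat_lit 0) (XT.nd (nat_lit 702) (nat_lit 836) (nat_lit 0) (XT.nd (nat_lit 312) (nat_lit 456) (nat_lit 0) (XT.nd (nat_lit 156) (nat_lit 304) (nat_lit 0) (XT.nd (nat_lit 78) (nat_lit 228) (nat_lit 0) (XT.lf (nat_lit 0) (nat_lit 2053199949) (nat_lit 304) (nat_lit 4151249016) (nat_lit 76) (nat_lit 2837623734) (nat_lit 43) (nat_lit 5) (nat_lit 47) (nat_lit 5) (nat_lit 44) (nat_lit 5) (nat_lit 266) (nat_lit 235) (nat_lit 219)) (XT.lf (nat_lit 0) (nat_lit 927256298) (nat_lit 228) (nat_lit 3766933902) (nat_lit 304) (nat_lit 4584960342) (nat_lit 40) (nat_lit 5) (nat_lit 43) (nat_lit 5) (nat_lit 44) (nat_lit 5) (nat_lit 267) (nat_lit 235) (nat_lit 218))) (XT.nd (nat_lit 78) (nat_lit 304) (nat_lit 0) (XT.lf (nat_lit 0) (nat_lit 6282898480) (nat_lit 228) (nat_lit 1161071419) (nat_lit 304) (nat_lit 2085566412) (nat_lit 40) (nat_lit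 5) (nat_lit 43) (nat_lit 5) (nat_lit 44) (nat_lit 5) (nat_lit 268) (nat_lit 235) (nat_lit 217)) (XT.lf (nat_lit 0) (nat_lit 487588485) (nat_lit 304) (nat_lit 7767298394) (nat_lit 76) (nat_lit 1539096048) (nat_lit 36) (nat_lit 5) (nat_lit 40) (nat_lit 5) (nat_lit 37) (nat_lit 5) (nat_lit 269) (nat_lit 235) (nat_lit 216)))) (XT.nd (nat_lit 156) (nat_lit 228) (nat_lit 0) (XT.nd (nat_lit 78) (nat_lit 228) (nat_lit 0) (XT.lf (nat_lit 0) (nat_lit 3105460533) (nat_lit 304) (nat_lit 2567376870) (nat_lit 76) (nat_lit 4398048986) (nat_lit 36) (nat_lit 5) (nat_lit 40) (nat_lit 5) (nat_lit 37) (nat_lit 5) (nat_lit 270) (nat_lit 235) (nat_lit 215)) (XT.lf (nat_lit 0) (nat_lit 2869390399) (nat_lit 228) (nat_lit 2945091587) (nat_lit 304) (nat_lit 4549379679) (nat_lit 33) (nat_lit 5) (nat_lit 36) (nat_lit 5) (nat_lit 37) (nat_lit 5) (nat_lit 271) (nat_lit 235) (nat_lit 214))) (XT.nd (nat_lit 78) (nat_lit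 228) (nat_lit 0) (XT.lf (nat_lit 0) (nat_lit 8553995474) (nat_lit 228) (nat_lit 66154920) (nat_lit 304) (nat_lit 2053503545) (nat_lit 33) (nat_lit 5) (nat_lit 36) (nat_lit 5) (nat_lit 37) (nat_lit 5) (nat_lit 272) (nat_lit 235) (nat_lit 213)) (XT.nd (nat_lit 78) (nat_lit 0) (nat_lit 0) (XT.lf (nat_lit 0) (nat_lit 570791754) (nat_lit 228) (nat_lit 7529663581) (nat_lit 76) (nat_lit 2897155657) (nat_lit 30) (nat_lit 5) (nat_lit 33) (nat_lit 5) (nat_lit 31) (nat_lit 5) (nat_lit 273) (nat_lit 235) (nat_lit 212)) (XT.lf (nat_lit 0) (nat_lit 3216619766) (nat_lit 228) (nat_lit 2075194985) (nat_lit 76) (nat_lit 6046498470) (nat_lit 30) (nat_lit 5) (nat_lit 33) (nat_lit 5) (nat_lit 31) (nat_lit 5) (nat_lit 274) (nat_lit 235) (nat_lit 211)))))) (XT.nd (nat_lit 312) (nat_lit 380) (nat_lit 0) (XT.nd (nat_lit 156) (nat_lit 228) (nat_lit 0) (XT.nd (nat_lit 78) (nat_lit 0) (nat_lit 0) (XT.lf (nat_lit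 0) (nat_lit 3662151309) (nat_lit 228) (nat_lit 2315248790) (nat_lit 304) (nat_lit 5719705016) (nat_lit 27) (nat_lit 5) (nat_lit 30) (nat_lit 5) (nat_lit 31) (nat_lit 5) (nat_lit 275) (nat_lit 235) (nat_lit 210)) (XT.lf (nat_lit 0) (nat_lit 8851466153) (nat_lit 304) (nat_lit 2435522285) (nat_lit 76) (nat_lit 788264499) (nat_lit 27) (nat_lit 5) (nat_lit 31) (nat_lit 5) (nat_lit 28) (nat_lit 4) (nat_lit 276) (nat_lit 235) (nat_lit 209))) (XT.nd (nat_lit 78) (nat_lit 76) (nat_lit 0) (XT.lf (nat_lit 0) (nat_lit 3411664164) (nat_lit 152) (nat_lit 8479151397) (nat_lit 228) (nat_lit 580583744) (nat_lit 25) (nat_lit 5) (nat_lit 27) (nat_lit 5) (nat_lit 28) (nat_lit 4) (nat_lit 277) (nat_lit 235) (nat_lit 208)) (XT.lf (nat_lit 0) (nat_lit 2097272057) (nat_lit 228) (nat_lit 3388697241) (nat_lit 76) (nat_lit 7401187738) (nat_lit 24) (nat_lit 5) (nat_lit 27) (nat_lit 5) (nat_lit 25) (nat_lit 5)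 (nat_lit 278) (nat_lit 235) (nat_lit 207)))) (XT.nd (nat_lit 156) (nat_lit 228) (nat_lit 0) (XT.nd (nat_lit 78) (nat_lit 0) (nat_lit 0) (XT.lf (nat_lit 0) (nat_lit 2538351682) (nat_lit 152) (nat_lit 2324899124) (nat_lit 228) (nat_lit 8461435869) (nat_lit 22) (nat_lit 5) (nat_lit 24) (nat_lit 5) (nat_lit 25) (nat_lit 5) (nat_lit 279) (nat_lit 235) (nat_lit 206)) (XT.lf (nat_lit 0) (nat_lit 7776583417) (nat_lit 228) (nat_lit 5018783470) (nat_lit 76) (nat_lit 988413152) (nat_lit 22) (nat_lit 5) (nat_lit 25) (nat_lit 5) (nat_lit 23) (nat_lit 4) (nat_lit 280) (nat_lit 235) (nat_lit 205))) (XT.nd (nat_lit 78) (nat_lit 76) (nat_lit 0) (XT.lf (nat_lit 0) (nat_lit 933188319) (nat_lit 152) (nat_lit 9893364989) (nat_lit 228) (nat_lit 3439859555) (nat_lit 20) (nat_lit 5) (nat_lit 22) (nat_lit 5) (nat_lit 23) (nat_lit 4) (nat_lit 281) (nat_lit 235) (nat_lit 204)) (XT.nd (nat_lit 78) (nat_lit 76)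 (nat_lit 0) (XT.lf (nat_lit 0) (nat_lit 7262831209) (nat_lit 152) (nat_lit 6790942318) (nat_lit 228) (nat_lit 718293185) (nat_lit 20) (nat_lit 5) (nat_lit 22) (nat_lit 5) (nat_lit 23) (nat_lit 4) (nat_lit 282) (nat_lit 235) (nat_lit 203)) (XT.lf (nat_lit 0) (nat_lit 2012446316) (nat_lit 228) (nat_lit 1519179613) (nat_lit 76) (nat_lit 11772744061) (nat_lit 19) (nat_lit 5) (nat_lit 22) (nat_lit 5) (nat_lit 20) (nat_lit 5) (nat_lit 283) (nat_lit 235) (nat_lit 202))))))) (XT.nd (nat_lit 702) (nat_lit 304) (nat_lit 0) (XT.nd (nat_lit 312) (nat_lit 304) (nat_lit 0) (XT.nd (nat_lit 156) (nat_lit 76) (nat_lit 0) (XT.nd (nat_lit 78) (nat_lit 0) (nat_lit 0) (XT.lf (nat_lit 0) (nat_lit 4825692914) (nat_lit 152) (nat_lit 49583035) (nat_lit 228) (nat_lit 10986548777) (nat_lit 17) (nat_lit 5) (nat_lit 19) (nat_lit 5) (nat_lit 20) (nat_lit 5) (nat_lit 284) (nat_lit 235) (nat_lit 201)) (XT.lf (nat_lit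 0) (nat_lit 7908869811) (nat_lit 228) (nat_lit 5050326654) (nat_lit 76) (nat_lit 3486679059) (nat_lit 17) (nat_lit 5) (nat_lit 20) (nat_lit 5) (nat_lit 18) (nat_lit 4) (nat_lit 285) (nat_lit 235) (nat_lit 200))) (XT.nd (nat_lit 78) (nat_lit 0) (nat_lit 0) (XT.lf (nat_lit 0) (nat_lit 1187897885) (nat_lit 76) (nat_lit 9873380344) (nat_lit 152) (nat_lit 5999593378) (nat_lit 16) (nat_lit 5) (nat_lit 17) (nat_lit 5) (nat_lit 18) (nat_lit 4) (nat_lit 286) (nat_lit 235) (nat_lit 199)) (XT.lf (nat_lit 0) (nat_lit 7830647498) (nat_lit 76) (nat_lit 6575160260) (nat_lit 152) (nat_lit 3299179451) (nat_lit 16) (nat_lit 5) (nat_lit 17) (nat_lit 5) (nat_lit 18) (nat_lit 4) (nat_lit 287) (nat_lit 235) (nat_lit 198)))) (XT.nd (nat_lit 156) (nat_lit 76) (nat_lit 0) (XT.nd (nat_lit 78) (nat_lit 228) (nat_lit 0) (XT.lf (nat_lit 0) (nat_lit 14726751649) (nat_lit 76) (nat_lit 3142213035) (nat_lit 152) (nat_lit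 514864103) (nat_lit 16) (nat_lit 5) (nat_lit 17) (nat_lit 5) (nat_lit 18) (nat_lit 4) (nat_lit 288) (nat_lit 235) (nat_lit 197)) (XT.lf (nat_lit 0) (nat_lit 2337015085) (nat_lit 228) (nat_lit 16255127961) (nat_lit 76) (nat_lit 502398920) (nat_lit 13) (nat_lit 5) (nat_lit 16) (nat_lit 5) (nat_lit 14) (nat_lit 4) (nat_lit 289) (nat_lit 235) (nat_lit 196))) (XT.nd (nat_lit 78) (nat_lit 76) (nat_lit 0) (XT.lf (nat_lit 0) (nat_lit 5382127770) (nat_lit 228) (nat_lit 10188323489) (nat_lit 76) (nat_lit 4266598361) (nat_lit 13) (nat_lit 5) (nat_lit 16) (nat_lit 5) (nat_lit 14) (nat_lit 4) (nat_lit 290) (nat_lit 235) (nat_lit 195)) (XT.nd (nat_lit 78) (nat_lit 76) (nat_lit 0) (XT.lf (nat_lit 0) (nat_lit 8535192250) (nat_lit 228) (nat_lit 3891852287) (nat_lit 76) (nat_lit 8191927550) (nat_lit 13) (nat_lit 5) (nat_lit 16) (nat_lit 5) (nat_lit 14) (nat_lit 4) (nat_lit 291) (nat_lit 235) (nat_lit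 194)) (XT.lf (nat_lit 0) (nat_lit 2736874313) (nat_lit 76) (nat_lit 9109571788) (nat_lit 152) (nat_lit 9593588475) (nat_lit 12) (nat_lit 5) (nat_lit 13) (nat_lit 5) (nat_lit 14) (nat_lit 4) (nat_lit 292) (nat_lit 235) (nat_lit 193)))))) (XT.nd (nat_lit 312) (nat_lit 76) (nat_lit 0) (XT.nd (nat_lit 156) (nat_lit 228) (nat_lit 0) (XT.nd (nat_lit 78) (nat_lit 0) (nat_lit 0) (XT.lf (nat_lit 0) (nat_lit 9763120032) (nat_lit 76) (nat_lit 5584790319) (nat_lit 152) (nat_lit 6953074790) (nat_lit 12) (nat_lit 5) (nat_lit 13) (nat_lit 5) (nat_lit 14) (nat_lit 4) (nat_lit 293) (nat_lit 235) (nat_lit 192)) (XT.lf (nat_lit 0) (nat_lit 17074931814) (nat_lit 76) (nat_lit 1910218195) (nat_lit 152) (nat_lit 4221862246) (nat_lit 12) (nat_lit 5) (nat_lit 13) (nat_lit 5) (nat_lit 14) (nat_lit 4) (nat_lit 294) (nat_lit 235) (nat_lit 191))) (XT.nd (nat_lit 78) (nat_lit 76) (nat_lit 0) (XT.lf (nat_lit 0)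 (nat_lit 515937057) (nat_lit 152) (nat_lit 22288965094) (nat_lit 152) (nat_lit 1353467126) (nat_lit 10) (nat_lit 4) (nat_lit 12) (nat_lit 5) (nat_lit 12) (nat_lit 4) (nat_lit 295) (nat_lit 235) (nat_lit 190)) (XT.lf (nat_lit 0) (nat_lit 1704470298) (nat_lit 228) (nat_lit 17566183887) (nat_lit 76) (nat_lit 5880440790) (nat_lit 9) (nat_lit 5) (nat_lit 12) (nat_lit 5) (nat_lit 10) (nat_lit 4) (nat_lit 296) (nat_lit 235) (nat_lit 189)))) (XT.nd (nat_lit 156) (nat_lit 76) (nat_lit 0) (XT.nd (nat_lit 78) (nat_lit 0) (nat_lit 0) (XT.lf (nat_lit 0) (nat_lit 4833945678) (nat_lit 228) (nat_lit 11269664149) (nat_lit 76) (nat_lit 10090584169) (nat_lit 9) (nat_lit 5) (nat_lit 12) (nat_lit 5) (nat_lit 10) (nat_lit 4) (nat_lit 297) (nat_lit 235) (nat_lit 188)) (XT.lf (nat_lit 0) (nat_lit 8085729547) (nat_lit 228) (nat_lit 4716749877) (nat_lit 76) (nat_lit 14488727056) (nat_lit 9) (nat_lit 5) (nat_lit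 12) (nat_lit 5) (nat_lit 10) (nat_lit 4) (nat_lit 298) (nat_lit 235) (nat_lit 187))) (XT.nd (nat_lit 78) (nat_lit 0) (nat_lit 0) (XT.lf (nat_lit 0) (nat_lit 2177866430) (nat_lit 76) (nat_lit 9323700414) (nat_lit 152) (nat_lit 16941477390) (nat_lit 8) (nat_lit 5) (nat_lit 9) (nat_lit 5) (nat_lit 10) (nat_lit 4) (nat_lit 299) (nat_lit 235) (nat_lit 186)) (XT.nd (nat_lit 78) (nat_lit 0) (nat_lit 0) (XT.lf (nat_lit 0) (nat_lit 9526217020) (nat_lit 76) (nat_lit 5610015687) (nat_lit 152) (nat_lit 14513884908) (nat_lit 8) (nat_lit 5) (nat_lit 9) (nat_lit 5) (nat_lit 10) (nat_lit 4) (nat_lit 300) (nat_lit 235) (nat_lit 185)) (XT.lf (nat_lit 0) (nat_lit 17189840912) (nat_lit 76) (nat_lit 1732463580) (nat_lit 152) (nat_lit 11996799950) (nat_lit 8) (nat_lit 5) (nat_lit 9) (nat_lit 5) (nat_lit 10) (nat_lit 4) (nat_lit 301) (nat_lit 235) (nat_lit 184))))))))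
noncomputable def xc95 : XT := (XT.nd (nat_lit 1404) (nat_lit 152) (nat_lit 0) (XT.nd (nat_lit 702) (nat_lit 76) (nat_lit 0) (XT.nd (nat_lit 312) (nat_lit 152) (nat_lit 0) (XT.nd (nat_lit 156) (nat_lit 76) (nat_lit 0) (XT.nd (nat_lit 78) (nat_lit 0) (nat_lit 0) (XT.lf (nat_lit 0) (nat_lit 22904990069) (nat_lit 152) (nat_lit 7102234695) (nat_lit 0) (nat_lit 2243991675) (nat_lit 8) (nat_lit 5) (nat_lit 10) (nat_lit 4) (nat_lit 8) (nat_lit 4) (nat_lit 302) (nat_lit 235) (nat_lit 183)) (XT.lf (nat_lit 0) (nat_lit 27087394192) (nat_lit 152) (nat_lit 220657620) (nat_lit 0) (nat_lit 6341892382) (nat_lit 8) (nat_lit 5) (nat_lit 10) (nat_lit 4) (nat_lit 8) (nat_lit 4) (nat_lit 303) (nat_lit 235) (nat_lit 182))) (XT.nd (nat_lit 78) (nat_lit 0) (nat_lit 0) (XT.lf (nat_lit 0) (nat_lit 7188993710) (nat_lit 76) (nat_lit 24375672983) (nat_lit 76) (nat_lit 3549691730) (nat_lit 7) (nat_lit 4) (nat_lit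 8) (nat_lit 5) (nat_lit 8) (nat_lit 4) (nat_lit 304) (nat_lit 235) (nat_lit 181)) (XT.lf (nat_lit 0) (nat_lit 14931434551) (nat_lit 76) (nat_lit 21312166478) (nat_lit 76) (nat_lit 409538135) (nat_lit 7) (nat_lit 4) (nat_lit 8) (nat_lit 5) (nat_lit 8) (nat_lit 4) (nat_lit 305) (nat_lit 235) (nat_lit 180)))) (XT.nd (nat_lit 156) (nat_lit 76) (nat_lit 0) (XT.nd (nat_lit 78) (nat_lit 0) (nat_lit 0) (XT.lf (nat_lit 0) (nat_lit 2770059710) (nat_lit 152) (nat_lit 15297003164) (nat_lit 76) (nat_lit 20200831338) (nat_lit 6) (nat_lit 5) (nat_lit 8) (nat_lit 5) (nat_lit 7) (nat_lit 4) (nat_lit 306) (nat_lit 235) (nat_lit 179)) (XT.lf (nat_lit 0) (nat_lit 6070930039) (nat_lit 152) (nat_lit 8599740158) (nat_lit 76) (nat_lit 25293609186) (nat_lit 6) (nat_lit 5) (nat_lit 8) (nat_lit 5) (nat_lit 7) (nat_lit 4) (nat_lit 307) (nat_lit 235) (nat_lit 178))) (XT.nd (nat_lit 78) (nat_lit 76) (nat_lit 0)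 (XT.lf (nat_lit 0) (nat_lit 9514039844) (nat_lit 152) (nat_lit 1607575695) (nat_lit 76) (nat_lit 30625037857) (nat_lit 6) (nat_lit 5) (nat_lit 8) (nat_lit 5) (nat_lit 7) (nat_lit 4) (nat_lit 308) (nat_lit 235) (nat_lit 177)) (XT.nd (nat_lit 78) (nat_lit 0) (nat_lit 0) (XT.lf (nat_lit 0) (nat_lit 5884478290) (nat_lit 76) (nat_lit 7314981913) (nat_lit 152) (nat_lit 30415206134) (nat_lit 5) (nat_lit 5) (nat_lit 6) (nat_lit 5) (nat_lit 7) (nat_lit 4) (nat_lit 309) (nat_lit 235) (nat_lit 176)) (XT.lf (nat_lit 0) (nat_lit 13769501469) (nat_lit 76) (nat_lit 3305606625) (nat_lit 152) (nat_lit 28500700650) (nat_lit 5) (nat_lit 5) (nat_lit 6) (nat_lit 5) (nat_lit 7) (nat_lit 4) (nat_lit 310) (nat_lit 235) (nat_lit 175)))))) (XT.nd (nat_lit 312) (nat_lit 76) (nat_lit 0) (XT.nd (nat_lit 156) (nat_lit 0) (nat_lit 0) (XT.nd (nat_lit 78) (nat_lit 0) (nat_lit 0) (XT.lf (nat_lit 0) (nat_lit 21138159763)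 (nat_lit 152) (nat_lit 25636809596) (nat_lit 0) (nat_lit 860383225) (nat_lit 5) (nat_lit 5) (nat_lit 7) (nat_lit 4) (nat_lit 5) (nat_lit 4) (nat_lit 311) (nat_lit 235) (nat_lit 174)) (XT.lf (nat_lit 0) (nat_lit 25439034001) (nat_lit 152) (nat_lit 19247750589) (nat_lit 0) (nat_lit 5109379697) (nat_lit 5) (nat_lit 5) (nat_lit 7) (nat_lit 4) (nat_lit 5) (nat_lit 4) (nat_lit 312) (nat_lit 235) (nat_lit 173))) (XT.nd (nat_lit 78) (nat_lit 0) (nat_lit 0) (XT.lf (nat_lit 0) (nat_lit 29936361203) (nat_lit 152) (nat_lit 12572308427) (nat_lit 0) (nat_lit 9557299501) (nat_lit 5) (nat_lit 5) (nat_lit 7) (nat_lit 4) (nat_lit 5) (nat_lit 4) (nat_lit 313) (nat_lit 235) (nat_lit 172)) (XT.lf (nat_lit 0) (nat_lit 34640849290) (nat_lit 152) (nat_lit 5594589199) (nat_lit 0) (nat_lit 14214732925) (nat_lit 5) (nat_lit 5) (nat_lit 7) (nat_lit 4) (nat_lit 5) (nat_lit 4) (nat_lit 314) (nat_lit 235) (nat_lit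 171)))) (XT.nd (nat_lit 156) (nat_lit 0) (nat_lit 0) (XT.nd (nat_lit 78) (nat_lit 0) (nat_lit 0) (XT.lf (nat_lit 0) (nat_lit 1758297202) (nat_lit 76) (nat_lit 37832854170) (nat_lit 76) (nat_lit 17361923839) (nat_lit 4) (nat_lit 4) (nat_lit 5) (nat_lit 5) (nat_lit 5) (nat_lit 4) (nat_lit 315) (nat_lit 235) (nat_lit 170)) (XT.lf (nat_lit 0) (nat_lit 9643547944) (nat_lit 76) (nat_lit 35223647545) (nat_lit 76) (nat_lit 14710037247) (nat_lit 4) (nat_lit 4) (nat_lit 5) (nat_lit 5) (nat_lit 5) (nat_lit 4) (nat_lit 316) (nat_lit 235) (nat_lit 169))) (XT.nd (nat_lit 78) (nat_lit 0) (nat_lit 0) (XT.lf (nat_lit 0) (nat_lit 17894955047) (nat_lit 76) (nat_lit 32496353294) (nat_lit 76) (nat_lit 11942095408) (nat_lit 4) (nat_lit 4) (nat_lit 5) (nat_lit 5) (nat_lit 5) (nat_lit 4) (nat_lit 317) (nat_lit 235) (nat_lit 168)) (XT.nd (nat_lit 78) (nat_lit 0) (nat_lit 0) (XT.lf (nat_lit 0) (nat_lit 26532164720)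 (nat_lit 76) (nat_lit 29644477858) (nat_lit 76) (nat_lit 9051507984) (nat_lit 4) (nat_lit 4) (nat_lit 5) (nat_lit 5) (nat_lit 5) (nat_lit 4) (nat_lit 318) (nat_lit 235) (nat_lit 167)) (XT.lf (nat_lit 0) (nat_lit 35575741747) (nat_lit 76) (nat_lit 26661231058) (nat_lit 76) (nat_lit 6031392624) (nat_lit 4) (nat_lit 4) (nat_lit 5) (nat_lit 5) (nat_lit 5) (nat_lit 4) (nat_lit 319) (nat_lit 235) (nat_lit 166))))))) (XT.nd (nat_lit 702) (nat_lit 0) (nat_lit 0) (XT.nd (nat_lit 312) (nat_lit 76) (nat_lit 0) (XT.nd (nat_lit 156) (nat_lit 0) (nat_lit 0) (XT.nd (nat_lit 78) (nat_lit 76) (nat_lit 0) (XT.lf (nat_lit 0) (nat_lit 45047218455) (nat_lit 76) (nat_lit 23539509926) (nat_lit 76) (nat_lit 2874558577) (nat_lit 4) (nat_lit 4) (nat_lit 5) (nat_lit 5) (nat_lit 5) (nat_lit 4) (nat_lit 320) (nat_lit 235) (nat_lit 165)) (XT.lf (nat_lit 0) (nat_lit 412859430) (nat_lit 152) (nat_lit 19852030387)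 (nat_lit 76) (nat_lit 54549294573) (nat_lit 3) (nat_lit 5) (nat_lit 5) (nat_lit 5) (nat_lit 4) (nat_lit 4) (nat_lit 321) (nat_lit 235) (nat_lit 164))) (XT.nd (nat_lit 78) (nat_lit 0) (nat_lit 0) (XT.lf (nat_lit 0) (nat_lit 3755500280) (nat_lit 152) (nat_lit 13031465094) (nat_lit 76) (nat_lit 61546046459) (nat_lit 3) (nat_lit 5) (nat_lit 5) (nat_lit 5) (nat_lit 4) (nat_lit 4) (nat_lit 322) (nat_lit 235) (nat_lit 163)) (XT.lf (nat_lit 0) (nat_lit 7253326466) (nat_lit 152) (nat_lit 5891253268) (nat_lit 76) (nat_lit 68883811707) (nat_lit 3) (nat_lit 5) (nat_lit 5) (nat_lit 5) (nat_lit 4) (nat_lit 4) (nat_lit 323) (nat_lit 235) (nat_lit 162)))) (XT.nd (nat_lit 156) (nat_lit 0) (nat_lit 0) (XT.nd (nat_lit 78) (nat_lit 0) (nat_lit 0) (XT.lf (nat_lit 0) (nat_lit 1638032876) (nat_lit 76) (nat_lit 9302207553) (nat_lit 152) (nat_lit 74967602594) (nat_lit 2) (nat_lit 5) (nat_lit 3) (nat_lit 5)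 (nat_lit 4) (nat_lit 4) (nat_lit 324) (nat_lit 235) (nat_lit 161)) (XT.lf (nat_lit 0) (nat_lit 9728279230) (nat_lit 76) (nat_lit 5171843269) (nat_lit 152) (nat_lit 75076725776) (nat_lit 2) (nat_lit 5) (nat_lit 3) (nat_lit 5) (nat_lit 4) (nat_lit 4) (nat_lit 325) (nat_lit 235) (nat_lit 160))) (XT.nd (nat_lit 78) (nat_lit 0) (nat_lit 0) (XT.lf (nat_lit 0) (nat_lit 18203956844) (nat_lit 76) (nat_lit 843423904) (nat_lit 152) (nat_lit 75202465561) (nat_lit 2) (nat_lit 5) (nat_lit 3) (nat_lit 5) (nat_lit 4) (nat_lit 4) (nat_lit 326) (nat_lit 235) (nat_lit 159)) (XT.nd (nat_lit 78) (nat_lit 0) (nat_lit 0) (XT.lf (nat_lit 0) (nat_lit 23449553246) (nat_lit 152) (nat_lit 71709428672) (nat_lit 0) (nat_lit 3575145833) (nat_lit 2) (nat_lit 5) (nat_lit 4) (nat_lit 4) (nat_lit 2) (nat_lit 4) (nat_lit 327) (nat_lit 235) (nat_lit 158)) (XT.lf (nat_lit 0) (nat_lit 28075910373) (nat_lit 152) (nat_lit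 67187650777) (nat_lit 0) (nat_lit 8178868862) (nat_lit 2) (nat_lit 5) (nat_lit 4) (nat_lit 4) (nat_lit 2) (nat_lit 4) (nat_lit 328) (nat_lit 235) (nat_lit 157)))))) (XT.nd (nat_lit 390) (nat_lit 0) (nat_lit 0) (XT.nd (nat_lit 156) (nat_lit 0) (nat_lit 0) (XT.nd (nat_lit 78) (nat_lit 0) (nat_lit 0) (XT.lf (nat_lit 0) (nat_lit 32924299053) (nat_lit 152) (nat_lit 62456621431) (nat_lit 0) (nat_lit 13005701259) (nat_lit 2) (nat_lit 5) (nat_lit 4) (nat_lit 4) (nat_lit 2) (nat_lit 4) (nat_lit 329) (nat_lit 235) (nat_lit 156)) (XT.lf (nat_lit 0) (nat_lit 38006263071) (nat_lit 152) (nat_lit 57505076278) (nat_lit 0) (nat_lit 18067135482) (nat_lit 2) (nat_lit 5) (nat_lit 4) (nat_lit 4) (nat_lit 2) (nat_lit 4) (nat_lit 330) (nat_lit 235) (nat_lit 155))) (XT.nd (nat_lit 78) (nat_lit 0) (nat_lit 0) (XT.lf (nat_lit 0) (nat_lit 43333902339) (nat_lit 152) (nat_lit 52321225926) (nat_lit 0) (nat_lit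 23375222565) (nat_lit 2) (nat_lit 5) (nat_lit 4) (nat_lit 4) (nat_lit 2) (nat_lit 4) (nat_lit 331) (nat_lit 235) (nat_lit 154)) (XT.nd (nat_lit 78) (nat_lit 0) (nat_lit 0) (XT.lf (nat_lit 0) (nat_lit 48919901713) (nat_lit 152) (nat_lit 46892727873) (nat_lit 0) (nat_lit 28942600812) (nat_lit 2) (nat_lit 5) (nat_lit 4) (nat_lit 4) (nat_lit 2) (nat_lit 4) (nat_lit 332) (nat_lit 235) (nat_lit 153)) (XT.lf (nat_lit 0) (nat_lit 54777561193) (nat_lit 152) (nat_lit 41206657124) (nat_lit 0) (nat_lit 34782525883) (nat_lit 2) (nat_lit 5) (nat_lit 4) (nat_lit 4) (nat_lit 2) (nat_lit 4) (nat_lit 333) (nat_lit 235) (nat_lit 152))))) (XT.nd (nat_lit 156) (nat_lit 0) (nat_lit 0) (XT.nd (nat_lit 78) (nat_lit 0) (nat_lit 0) (XT.lf (nat_lit 0) (nat_lit 60920827585) (nat_lit 152) (nat_lit 35249475416) (nat_lit 0) (nat_lit 40908902363) (nat_lit 2) (nat_lit 5) (nat_lit 4) (nat_lit 4) (nat_lit 2) (nat_lit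 4) (nat_lit 334) (nat_lit 235) (nat_lit 151)) (XT.lf (nat_lit 0) (nat_lit 67364327716) (nat_lit 152) (nat_lit 29006998982) (nat_lit 0) (nat_lit 47336316863) (nat_lit 2) (nat_lit 5) (nat_lit 4) (nat_lit 4) (nat_lit 2) (nat_lit 4) (nat_lit 335) (nat_lit 235) (nat_lit 150))) (XT.nd (nat_lit 78) (nat_lit 0) (nat_lit 0) (XT.lf (nat_lit 0) (nat_lit 74123403251) (nat_lit 152) (nat_lit 22464364783) (nat_lit 0) (nat_lit 54080072750) (nat_lit 2) (nat_lit 5) (nat_lit 4) (nat_lit 4) (nat_lit 2) (nat_lit 4) (nat_lit 336) (nat_lit 235) (nat_lit 149)) (XT.nd (nat_lit 78) (nat_lit 0) (nat_lit 0) (XT.lf (nat_lit 0) (nat_lit 81214147228) (nat_lit 152) (nat_lit 15605995119) (nat_lit 0) (nat_lit 61156226586) (nat_lit 2) (nat_lit 5) (nat_lit 4) (nat_lit 4) (nat_lit 2) (nat_lit 4) (nat_lit 337) (nat_lit 235) (nat_lit 148)) (XT.lf (nat_lit 0) (nat_lit 88653442371) (nat_lit 152) (nat_lit 8415560539) (nat_lit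 0) (nat_lit 68581626356) (nat_lit 2) (nat_lit 5) (nat_lit 4) (nat_lit 4) (nat_lit 2) (nat_lit 4) (nat_lit 338) (nat_lit 235) (nat_lit 147))))))))
noncomputable def xc96 : XT := (XT.nd (nat_lit 1404) (nat_lit 0) (nat_lit 0) (XT.nd (nat_lit 702) (nat_lit 0) (nat_lit 0) (XT.nd (nat_lit 312) (nat_lit 0) (nat_lit 0) (XT.nd (nat_lit 156) (nat_lit 0) (nat_lit 0) (XT.nd (nat_lit 78) (nat_lit 76) (nat_lit 0) (XT.lf (nat_lit 0) (nat_lit 96459001287) (nat_lit 152) (nat_lit 875940959) (nat_lit 0) (nat_lit 76373951583) (nat_lit 2) (nat_lit 5) (nat_lit 4) (nat_lit 4) (nat_lit 2) (nat_lit 4) (nat_lit 339) (nat_lit 235) (nat_lit 146)) (XT.lf (nat_lit 0) (nat_lit 7263285593) (nat_lit 76) (nat_lit 97499523290) (nat_lit 76) (nat_lit 77401870074) (nat_lit 1) (nat_lit 4) (nat_lit 2) (nat_lit 5) (nat_lit 2) (nat_lit 4) (nat_lit 340) (nat_lit 235) (nat_lit 145))) (XT.nd (nat_lit 78) (nat_lit 0) (nat_lit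 0) (XT.lf (nat_lit 0) (nat_lit 15830198444) (nat_lit 76) (nat_lit 97661120717) (nat_lit 76) (nat_lit 77551464156) (nat_lit 1) (nat_lit 4) (nat_lit 2) (nat_lit 5) (nat_lit 2) (nat_lit 4) (nat_lit 341) (nat_lit 235) (nat_lit 144)) (XT.lf (nat_lit 0) (nat_lit 24816232439) (nat_lit 76) (nat_lit 97834953770) (nat_lit 76) (nat_lit 77713865451) (nat_lit 1) (nat_lit 4) (nat_lit 2) (nat_lit 5) (nat_lit 2) (nat_lit 4) (nat_lit 342) (nat_lit 235) (nat_lit 143)))) (XT.nd (nat_lit 156) (nat_lit 0) (nat_lit 0) (XT.nd (nat_lit 78) (nat_lit 0) (nat_lit 0) (XT.lf (nat_lit 0) (nat_lit 34242782899) (nat_lit 76) (nat_lit 98021436334) (nat_lit 76) (nat_lit 77889460627) (nat_lit 1) (nat_lit 4) (nat_lit 2) (nat_lit 5) (nat_lit 2) (nat_lit 4) (nat_lit 343) (nat_lit 235) (nat_lit 142)) (XT.lf (nat_lit 0) (nat_lit 44132293991) (nat_lit 76) (nat_lit 98221012417) (nat_lit 76) (nat_lit 78078667770) (nat_lit 1)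 (nat_lit 4) (nat_lit 2) (nat_lit 5) (nat_lit 2) (nat_lit 4) (nat_lit 344) (nat_lit 235) (nat_lit 141))) (XT.nd (nat_lit 78) (nat_lit 0) (nat_lit 0) (XT.lf (nat_lit 0) (nat_lit 54508312169) (nat_lit 76) (nat_lit 98434157200) (nat_lit 76) (nat_lit 78281937371) (nat_lit 1) (nat_lit 4) (nat_lit 2) (nat_lit 5) (nat_lit 2) (nat_lit 4) (nat_lit 345) (nat_lit 235) (nat_lit 140)) (XT.nd (nat_lit 78) (nat_lit 0) (nat_lit 0) (XT.lf (nat_lit 0) (nat_lit 65395542239) (nat_lit 76) (nat_lit 98661378171) (nat_lit 76) (nat_lit 78499753406) (nat_lit 1) (nat_lit 4) (nat_lit 2) (nat_lit 5) (nat_lit 2) (nat_lit 4) (nat_lit 346) (nat_lit 235) (nat_lit 139)) (XT.lf (nat_lit 0) (nat_lit 76819906178) (nat_lit 76) (nat_lit 98903216331) (nat_lit 76) (nat_lit 78732634485) (nat_lit 1) (nat_lit 4) (nat_lit 2) (nat_lit 5) (nat_lit 2) (nat_lit 4) (nat_lit 347) (nat_lit 235) (nat_lit 138)))))) (XT.nd (nat_lit 312)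 (nat_lit 0) (nat_lit 0) (XT.nd (nat_lit 156) (nat_lit 0) (nat_lit 0) (XT.nd (nat_lit 78) (nat_lit 0) (nat_lit 0) (XT.lf (nat_lit 0) (nat_lit 88808604851) (nat_lit 76) (nat_lit 99160247485) (nat_lit 76) (nat_lit 78981135086) (nat_lit 1) (nat_lit 4) (nat_lit 2) (nat_lit 5) (nat_lit 2) (nat_lit 4) (nat_lit 348) (nat_lit 235) (nat_lit 137)) (XT.lf (nat_lit 0) (nat_lit 101390182781) (nat_lit 76) (nat_lit 99433083614) (nat_lit 76) (nat_lit 79245846878) (nat_lit 1) (nat_lit 4) (nat_lit 2) (nat_lit 5) (nat_lit 2) (nat_lit 4) (nat_lit 349) (nat_lit 235) (nat_lit 136))) (XT.nd (nat_lit 78) (nat_lit 0) (nat_lit 0) (XT.lf (nat_lit 0) (nat_lit 114594596103) (nat_lit 76) (nat_lit 99722374326) (nat_lit 76) (nat_lit 79527400126) (nat_lit 1) (nat_lit 4) (nat_lit 2) (nat_lit 5) (nat_lit 2) (nat_lit 4) (nat_lit 350) (nat_lit 235) (nat_lit 135)) (XT.lf (nat_lit 0) (nat_lit 128453283898) (nat_lit 76) (nat_lit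 100028808408) (nat_lit 76) (nat_lit 79826465196) (nat_lit 1) (nat_lit 4) (nat_lit 2) (nat_lit 5) (nat_lit 2) (nat_lit 4) (nat_lit 351) (nat_lit 235) (nat_lit 134)))) (XT.nd (nat_lit 156) (nat_lit 0) (nat_lit 0) (XT.nd (nat_lit 78) (nat_lit 0) (nat_lit 0) (XT.lf (nat_lit 0) (nat_lit 142999243042) (nat_lit 76) (nat_lit 100353115467) (nat_lit 76) (nat_lit 80143754148) (nat_lit 1) (nat_lit 4) (nat_lit 2) (nat_lit 5) (nat_lit 2) (nat_lit 4) (nat_lit 352) (nat_lit 235) (nat_lit 133)) (XT.lf (nat_lit 0) (nat_lit 158267106771) (nat_lit 76) (nat_lit 100696067662) (nat_lit 76) (nat_lit 80480022430) (nat_lit 1) (nat_lit 4) (nat_lit 2) (nat_lit 5) (nat_lit 2) (nat_lit 4) (nat_lit 353) (nat_lit 235) (nat_lit 132))) (XT.nd (nat_lit 78) (nat_lit 0) (nat_lit 0) (XT.lf (nat_lit 0) (nat_lit 174293227140) (nat_lit 76) (nat_lit 101058481544) (nat_lit 76) (nat_lit 80836070683) (nat_lit 1) (nat_lit 4) (nat_lit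 2) (nat_lit 5) (nat_lit 2) (nat_lit 4) (nat_lit 354) (nat_lit 235) (nat_lit 131)) (XT.nd (nat_lit 78) (nat_lit 0) (nat_lit 0) (XT.lf (nat_lit 0) (nat_lit 191115761580) (nat_lit 76) (nat_lit 101441220006) (nat_lit 76) (nat_lit 81212746639) (nat_lit 1) (nat_lit 4) (nat_lit 2) (nat_lit 5) (nat_lit 2) (nat_lit 4) (nat_lit 355) (nat_lit 235) (nat_lit 130)) (XT.lf (nat_lit 0) (nat_lit 208774763744) (nat_lit 76) (nat_lit 101845194328) (nat_lit 76) (nat_lit 81610947147) (nat_lit 1) (nat_lit 4) (nat_lit 2) (nat_lit 5) (nat_lit 2) (nat_lit 4) (nat_lit 356) (nat_lit 235) (nat_lit 129))))))) (XT.nd (nat_lit 29094) (nat_lit 0) (nat_lit 4940) (XT.nd (nat_lit 312) (nat_lit 0) (nat_lit 0) (XT.nd (nat_lit 156) (nat_lit 0) (nat_lit 0) (XT.nd (nat_lit 78) (nat_lit 0) (nat_lit 0) (XT.lf (nat_lit 0) (nat_lit 227312278875) (nat_lit 76) (nat_lit 102271366354) (nat_lit 76) (nat_lit 82031620302) (nat_lit 1)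 (nat_lit 4) (nat_lit 2) (nat_lit 5) (nat_lit 2) (nat_lit 4) (nat_lit 357) (nat_lit 235) (nat_lit 128)) (XT.lf (nat_lit 0) (nat_lit 246772443914) (nat_lit 76) (nat_lit 102720750780) (nat_lit 76) (nat_lit 82475767709) (nat_lit 1) (nat_lit 4) (nat_lit 2) (nat_lit 5) (nat_lit 2) (nat_lit 4) (nat_lit 358) (nat_lit 235) (nat_lit 127))) (XT.nd (nat_lit 78) (nat_lit 0) (nat_lit 0) (XT.lf (nat_lit 0) (nat_lit 267201592587) (nat_lit 76) (nat_lit 103194417569) (nat_lit 76) (nat_lit 82944446859) (nat_lit 1) (nat_lit 4) (nat_lit 2) (nat_lit 5) (nat_lit 2) (nat_lit 4) (nat_lit 359) (nat_lit 235) (nat_lit 126)) (XT.lf (nat_lit 0) (nat_lit 288648365725) (nat_lit 76) (nat_lit 103693494498) (nat_lit 76) (nat_lit 83438773657) (nat_lit 1) (nat_lit 4) (nat_lit 2) (nat_lit 5) (nat_lit 2) (nat_lit 4) (nat_lit 360) (nat_lit 235) (nat_lit 125)))) (XT.nd (nat_lit 156) (nat_lit 0) (nat_lit 0) (XT.nd (nat_lit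 78) (nat_lit 0) (nat_lit 0) (XT.lf (nat_lit 0) (nat_lit 311163827073) (nat_lit 76) (nat_lit 104219169846) (nat_lit 76) (nat_lit 83959925070) (nat_lit 1) (nat_lit 4) (nat_lit 2) (nat_lit 5) (nat_lit 2) (nat_lit 4) (nat_lit 361) (nat_lit 235) (nat_lit 124)) (XT.lf (nat_lit 0) (nat_lit 334801584872) (nat_lit 76) (nat_lit 104772695221) (nat_lit 76) (nat_lit 84509141936) (nat_lit 1) (nat_lit 4) (nat_lit 2) (nat_lit 5) (nat_lit 2) (nat_lit 4) (nat_lit 362) (nat_lit 235) (nat_lit 123))) (XT.nd (nat_lit 78) (nat_lit 0) (nat_lit 0) (XT.lf (nat_lit 0) (nat_lit 359617919498) (nat_lit 76) (nat_lit 105355388540) (nat_lit 76) (nat_lit 85087731914) (nat_lit 1) (nat_lit 4) (nat_lit 2) (nat_lit 5) (nat_lit 2) (nat_lit 4) (nat_lit 363) (nat_lit 235) (nat_lit 122)) (XT.nd (nat_lit 28470) (nat_lit 0) (nat_lit 8208) (XT.lf (nat_lit 0) (nat_lit 385671917462) (nat_lit 76) (nat_lit 105968637170) (nat_lit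 76) (nat_lit 85697072598) (nat_lit 1) (nat_lit 4) (nat_lit 2) (nat_lit 5) (nat_lit 2) (nat_lit 4) (nat_lit 364) (nat_lit 235) (nat_lit 121)) (XT.lf (nat_lit 0) (nat_lit 3298276792) (nat_lit 228) (nat_lit 12139993) (nat_lit 228) (nat_lit 12139993) (nat_lit 109) (nat_lit 4) (nat_lit 112) (nat_lit 5) (nat_lit 112) (nat_lit 4) (nat_lit 248) (nat_lit 236) (nat_lit 236)))))) (XT.nd (nat_lit 312) (nat_lit 1976) (nat_lit 0) (XT.nd (nat_lit 156) (nat_lit 532) (nat_lit 0) (XT.nd (nat_lit 78) (nat_lit 380) (nat_lit 0) (XT.lf (nat_lit 0) (nat_lit 2854006362) (nat_lit 380) (nat_lit 3005844302) (nat_lit 0) (nat_lit 839453336) (nat_lit 104) (nat_lit 5) (nat_lit 109) (nat_lit 4) (nat_lit 104) (nat_lit 4) (nat_lit 249) (nat_lit 236) (nat_lit 235)) (XT.lf (nat_lit 0) (nat_lit 765083416) (nat_lit 380) (nat_lit 4966187751) (nat_lit 380) (nat_lit 1033012794) (nat_lit 99) (nat_lit 4) (nat_lit 104) (nat_lit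 5) (nat_lit 104) (nat_lit 4) (nat_lit 250) (nat_lit 236) (nat_lit 234))) (XT.nd (nat_lit 78) (nat_lit 456) (nat_lit 0) (XT.lf (nat_lit 0) (nat_lit 1755111340) (nat_lit 456) (nat_lit 2162455689) (nat_lit 76) (nat_lit 2919424279) (nat_lit 98) (nat_lit 5) (nat_lit 104) (nat_lit 5) (nat_lit 99) (nat_lit 4) (nat_lit 251) (nat_lit 236) (nat_lit 233)) (XT.lf (nat_lit 0) (nat_lit 1781848366) (nat_lit 456) (nat_lit 2746214537) (nat_lit 532) (nat_lit 2391189713) (nat_lit 92) (nat_lit 5) (nat_lit 98) (nat_lit 5) (nat_lit 99) (nat_lit 4) (nat_lit 252) (nat_lit 236) (nat_lit 232)))) (XT.nd (nat_lit 156) (nat_lit 1368) (nat_lit 0) (XT.nd (nat_lit 78) (nat_lit 532) (nat_lit 0) (XT.lf (nat_lit 0) (nat_lit 311756458) (nat_lit 532) (nat_lit 1140612097) (nat_lit 76) (nat_lit 5559039343) (nat_lit 91) (nat_lit 5) (nat_lit 98) (nat_lit 5) (nat_lit 92) (nat_lit 5) (nat_lit 253) (nat_lit 236) (nat_lit 231))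 (XT.lf (nat_lit 0) (nat_lit 2977715412) (nat_lit 608) (nat_lit 4120934221) (nat_lit 76) (nat_lit 12817109) (nat_lit 84) (nat_lit 5) (nat_lit 92) (nat_lit 5) (nat_lit 85) (nat_lit 4) (nat_lit 254) (nat_lit 236) (nat_lit 230))) (XT.nd (nat_lit 78) (nat_lit 760) (nat_lit 0) (XT.lf (nat_lit 0) (nat_lit 789132) (nat_lit 608) (nat_lit 5685915830) (nat_lit 684) (nat_lit 1534972214) (nat_lit 76) (nat_lit 5) (nat_lit 84) (nat_lit 5) (nat_lit 85) (nat_lit 4) (nat_lit 255) (nat_lit 236) (nat_lit 229)) (XT.nd (nat_lit 78) (nat_lit 684) (nat_lit 0) (XT.lf (nat_lit 0) (nat_lit 1094455682) (nat_lit 684) (nat_lit 3012290316) (nat_lit 76) (nat_lit 3233350609) (nat_lit 75) (nat_lit 5) (nat_lit 84) (nat_lit 5) (nat_lit 76) (nat_lit 5) (nat_lit 256) (nat_lit 236) (nat_lit 228)) (XT.lf (nat_lit 0) (nat_lit 1299087933) (nat_lit 684) (nat_lit 2399233867) (nat_lit 760) (nat_lit 3770678216) (nat_lit 66) (nat_lit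 5) (nat_lit 75) (nat_lit 5) (nat_lit 76) (nat_lit 5) (nat_lit 257) (nat_lit 236) (nat_lit 227))))))))
noncomputable def xc97 : XT := (XT.nd (nat_lit 1404) (nat_lit 1140) (nat_lit 0) (XT.nd (nat_lit 702) (nat_lit 1216) (nat_lit 0) (XT.nd (nat_lit 312) (nat_lit 988) (nat_lit 0) (XT.nd (nat_lit 156) (nat_lit 380) (nat_lit 0) (XT.nd (nat_lit 78) (nat_lit 380) (nat_lit 0) (XT.lf (nat_lit 0) (nat_lit 5808551246) (nat_lit 684) (nat_lit 553195533) (nat_lit 760) (nat_lit 1246656185) (nat_lit 66) (nat_lit 5) (nat_lit 75) (nat_lit 5) (nat_lit 76) (nat_lit 5) (nat_lit 258) (nat_lit 236) (nat_lit 226)) (XT.lf (nat_lit 0) (nat_lit 1305734229) (nat_lit 380) (nat_lit 5046922338) (nat_lit 76) (nat_lit 1404143359) (nat_lit 61) (nat_lit 5) (nat_lit 66) (nat_lit 5) (nat_lit 62) (nat_lit 5) (nat_lit 259) (nat_lit 236) (nat_lit 225))) (XT.nd (nat_lit 78) (nat_lit 380) (nat_lit 0) (XT.lf (nat_lit 0) (nat_lit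 3869372095) (nat_lit 380) (nat_lit 558315440) (nat_lit 76) (nat_lit 3488082646) (nat_lit 61) (nat_lit 5) (nat_lit 66) (nat_lit 5) (nat_lit 62) (nat_lit 5) (nat_lit 260) (nat_lit 236) (nat_lit 224)) (XT.lf (nat_lit 0) (nat_lit 4169311069) (nat_lit 380) (nat_lit 2347902956) (nat_lit 456) (nat_lit 1568103798) (nat_lit 56) (nat_lit 5) (nat_lit 61) (nat_lit 5) (nat_lit 62) (nat_lit 5) (nat_lit 261) (nat_lit 236) (nat_lit 223)))) (XT.nd (nat_lit 156) (nat_lit 608) (nat_lit 0) (XT.nd (nat_lit 78) (nat_lit 0) (nat_lit 0) (XT.lf (nat_lit 0) (nat_lit 777524444) (nat_lit 304) (nat_lit 137399104) (nat_lit 380) (nat_lit 7352306233) (nat_lit 51) (nat_lit 5) (nat_lit 55) (nat_lit 5) (nat_lit 56) (nat_lit 5) (nat_lit 262) (nat_lit 236) (nat_lit 222)) (XT.lf (nat_lit 0) (nat_lit 3466122695) (nat_lit 380) (nat_lit 2798438535) (nat_lit 76) (nat_lit 2192926263) (nat_lit 51) (nat_lit 5) (nat_lit 56) (nat_lit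 5) (nat_lit 52) (nat_lit 5) (nat_lit 263) (nat_lit 236) (nat_lit 221))) (XT.nd (nat_lit 78) (nat_lit 304) (nat_lit 0) (XT.lf (nat_lit 0) (nat_lit 2073093110) (nat_lit 304) (nat_lit 4006617206) (nat_lit 380) (nat_lit 2581160095) (nat_lit 47) (nat_lit 5) (nat_lit 51) (nat_lit 5) (nat_lit 52) (nat_lit 5) (nat_lit 264) (nat_lit 236) (nat_lit 220)) (XT.nd (nat_lit 78) (nat_lit 304) (nat_lit 0) (XT.lf (nat_lit 0) (nat_lit 7168868472) (nat_lit 304) (nat_lit 1605644268) (nat_lit 380) (nat_lit 102719867) (nat_lit 47) (nat_lit 5) (nat_lit 51) (nat_lit 5) (nat_lit 52) (nat_lit 5) (nat_lit 265) (nat_lit 236) (nat_lit 219)) (XT.lf (nat_lit 0) (nat_lit 2393654226) (nat_lit 304) (nat_lit 5750836728) (nat_lit 76) (nat_lit 959575417) (nat_lit 43) (nat_lit 5) (nat_lit 47) (nat_lit 5) (nat_lit 44) (nat_lit 5) (nat_lit 266) (nat_lit 236) (nat_lit 218)))))) (XT.nd (nat_lit 312) (nat_lit 684) (nat_lit 0)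 (XT.nd (nat_lit 156) (nat_lit 304) (nat_lit 0) (XT.nd (nat_lit 78) (nat_lit 228) (nat_lit 0) (XT.lf (nat_lit 0) (nat_lit 4975447542) (nat_lit 304) (nat_lit 759102334) (nat_lit 76) (nat_lit 3609696152) (nat_lit 43) (nat_lit 5) (nat_lit 47) (nat_lit 5) (nat_lit 44) (nat_lit 5) (nat_lit 267) (nat_lit 236) (nat_lit 217)) (XT.lf (nat_lit 0) (nat_lit 4515268421) (nat_lit 228) (nat_lit 3154247881) (nat_lit 304) (nat_lit 1928036247) (nat_lit 40) (nat_lit 5) (nat_lit 43) (nat_lit 5) (nat_lit 44) (nat_lit 5) (nat_lit 268) (nat_lit 236) (nat_lit 216))) (XT.nd (nat_lit 78) (nat_lit 0) (nat_lit 0) (XT.lf (nat_lit 0) (nat_lit 97033759) (nat_lit 228) (nat_lit 445483830) (nat_lit 304) (nat_lit 9324359191) (nat_lit 36) (nat_lit 5) (nat_lit 39) (nat_lit 5) (nat_lit 40) (nat_lit 5) (nat_lit 269) (nat_lit 236) (nat_lit 215)) (XT.lf (nat_lit 0) (nat_lit 3112193693) (nat_lit 304) (nat_lit 4619058317) (nat_lit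 76) (nat_lit 2415054826) (nat_lit 36) (nat_lit 5) (nat_lit 40) (nat_lit 5) (nat_lit 37) (nat_lit 5) (nat_lit 270) (nat_lit 236) (nat_lit 214)))) (XT.nd (nat_lit 156) (nat_lit 456) (nat_lit 0) (XT.nd (nat_lit 78) (nat_lit 0) (nat_lit 0) (XT.lf (nat_lit 0) (nat_lit 694683739) (nat_lit 228) (nat_lit 5053301289) (nat_lit 304) (nat_lit 4695069823) (nat_lit 33) (nat_lit 5) (nat_lit 36) (nat_lit 5) (nat_lit 37) (nat_lit 5) (nat_lit 271) (nat_lit 236) (nat_lit 213)) (XT.lf (nat_lit 0) (nat_lit 6326729424) (nat_lit 228) (nat_lit 2188696887) (nat_lit 304) (nat_lit 2239438107) (nat_lit 33) (nat_lit 5) (nat_lit 36) (nat_lit 5) (nat_lit 37) (nat_lit 5) (nat_lit 272) (nat_lit 236) (nat_lit 212))) (XT.nd (nat_lit 78) (nat_lit 228) (nat_lit 0) (XT.lf (nat_lit 0) (nat_lit 281659065) (nat_lit 228) (nat_lit 10015723050) (nat_lit 76) (nat_lit 787138051) (nat_lit 30) (nat_lit 5) (nat_lit 33) (nat_lit 5)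 (nat_lit 31) (nat_lit 5) (nat_lit 273) (nat_lit 236) (nat_lit 211)) (XT.nd (nat_lit 78) (nat_lit 228) (nat_lit 0) (XT.lf (nat_lit 0) (nat_lit 2891138041) (nat_lit 228) (nat_lit 4613477597) (nat_lit 76) (nat_lit 3922515721) (nat_lit 30) (nat_lit 5) (nat_lit 33) (nat_lit 5) (nat_lit 31) (nat_lit 5) (nat_lit 274) (nat_lit 236) (nat_lit 210)) (XT.lf (nat_lit 0) (nat_lit 988560777) (nat_lit 228) (nat_lit 4586997229) (nat_lit 304) (nat_lit 6214270423) (nat_lit 27) (nat_lit 5) (nat_lit 30) (nat_lit 5) (nat_lit 31) (nat_lit 5) (nat_lit 275) (nat_lit 236) (nat_lit 209))))))) (XT.nd (nat_lit 702) (nat_lit 380) (nat_lit 0) (XT.nd (nat_lit 312) (nat_lit 532) (nat_lit 0) (XT.nd (nat_lit 156) (nat_lit 76) (nat_lit 0) (XT.nd (nat_lit 78) (nat_lit 152) (nat_lit 0) (XT.lf (nat_lit 0) (nat_lit 6930555633) (nat_lit 228) (nat_lit 1472620836) (nat_lit 304) (nat_lit 3767205164) (nat_lit 27) (nat_lit 5)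 (nat_lit 30) (nat_lit 5) (nat_lit 31) (nat_lit 5) (nat_lit 276) (nat_lit 236) (nat_lit 208)) (XT.lf (nat_lit 0) (nat_lit 488736936) (nat_lit 152) (nat_lit 10852808816) (nat_lit 228) (nat_lit 1230110308) (nat_lit 25) (nat_lit 5) (nat_lit 27) (nat_lit 5) (nat_lit 28) (nat_lit 4) (nat_lit 277) (nat_lit 236) (nat_lit 207))) (XT.nd (nat_lit 78) (nat_lit 0) (nat_lit 0) (XT.lf (nat_lit 0) (nat_lit 1436393324) (nat_lit 228) (nat_lit 6450162835) (nat_lit 76) (nat_lit 5103043433) (nat_lit 24) (nat_lit 5) (nat_lit 27) (nat_lit 5) (nat_lit 25) (nat_lit 5) (nat_lit 278) (nat_lit 236) (nat_lit 206)) (XT.lf (nat_lit 0) (nat_lit 4132130741) (nat_lit 228) (nat_lit 650473725) (nat_lit 76) (nat_lit 8648105119) (nat_lit 24) (nat_lit 5) (nat_lit 27) (nat_lit 5) (nat_lit 25) (nat_lit 5) (nat_lit 279) (nat_lit 236) (nat_lit 205)))) (XT.nd (nat_lit 156) (nat_lit 380) (nat_lit 0) (XT.nd (nat_lit 78) (nat_lit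 0) (nat_lit 0) (XT.lf (nat_lit 0) (nat_lit 5526029929) (nat_lit 152) (nat_lit 1463138462) (nat_lit 228) (nat_lit 6903514343) (nat_lit 22) (nat_lit 5) (nat_lit 24) (nat_lit 5) (nat_lit 25) (nat_lit 5) (nat_lit 280) (nat_lit 236) (nat_lit 204)) (XT.lf (nat_lit 0) (nat_lit 9973054924) (nat_lit 228) (nat_lit 2466170712) (nat_lit 76) (nat_lit 1939456029) (nat_lit 22) (nat_lit 5) (nat_lit 25) (nat_lit 5) (nat_lit 23) (nat_lit 4) (nat_lit 281) (nat_lit 236) (nat_lit 203))) (XT.nd (nat_lit 78) (nat_lit 228) (nat_lit 0) (XT.lf (nat_lit 0) (nat_lit 3738181087) (nat_lit 152) (nat_lit 9394329330) (nat_lit 228) (nat_lit 1755272323) (nat_lit 20) (nat_lit 5) (nat_lit 22) (nat_lit 5) (nat_lit 23) (nat_lit 4) (nat_lit 282) (nat_lit 236) (nat_lit 202)) (XT.nd (nat_lit 78) (nat_lit 152) (nat_lit 0) (XT.lf (nat_lit 0) (nat_lit 981510610) (nat_lit 228) (nat_lit 5185971792) (nat_lit 76) (nat_lit 9254823947)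 (nat_lit 19) (nat_lit 5) (nat_lit 22) (nat_lit 5) (nat_lit 20) (nat_lit 5) (nat_lit 283) (nat_lit 236) (nat_lit 201)) (XT.lf (nat_lit 0) (nat_lit 995731202) (nat_lit 152) (nat_lit 2762958911) (nat_lit 228) (nat_lit 12225404435) (nat_lit 17) (nat_lit 5) (nat_lit 19) (nat_lit 5) (nat_lit 20) (nat_lit 5) (nat_lit 284) (nat_lit 236) (nat_lit 200)))))) (XT.nd (nat_lit 312) (nat_lit 304) (nat_lit 0) (XT.nd (nat_lit 156) (nat_lit 76) (nat_lit 0) (XT.nd (nat_lit 78) (nat_lit 0) (nat_lit 0) (XT.lf (nat_lit 0) (nat_lit 6724445263) (nat_lit 228) (nat_lit 9001208539) (nat_lit 76) (nat_lit 845932012) (nat_lit 17) (nat_lit 5) (nat_lit 20) (nat_lit 5) (nat_lit 18) (nat_lit 4) (nat_lit 285) (nat_lit 236) (nat_lit 199)) (XT.lf (nat_lit 0) (nat_lit 9834045066) (nat_lit 228) (nat_lit 2840064865) (nat_lit 76) (nat_lit 4514658616) (nat_lit 17) (nat_lit 5) (nat_lit 20) (nat_lit 5) (nat_lit 18) (nat_lit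 4) (nat_lit 286) (nat_lit 236) (nat_lit 198))) (XT.nd (nat_lit 78) (nat_lit 0) (nat_lit 0) (XT.lf (nat_lit 0) (nat_lit 3670348673) (nat_lit 76) (nat_lit 9438711556) (nat_lit 152) (nat_lit 4727343659) (nat_lit 16) (nat_lit 5) (nat_lit 17) (nat_lit 5) (nat_lit 18) (nat_lit 4) (nat_lit 287) (nat_lit 236) (nat_lit 197)) (XT.lf (nat_lit 0) (nat_lit 10529852153) (nat_lit 76) (nat_lit 6019787030) (nat_lit 152) (nat_lit 1966777103) (nat_lit 16) (nat_lit 5) (nat_lit 17) (nat_lit 5) (nat_lit 18) (nat_lit 4) (nat_lit 288) (nat_lit 236) (nat_lit 196)))) (XT.nd (nat_lit 156) (nat_lit 76) (nat_lit 0) (XT.nd (nat_lit 78) (nat_lit 152) (nat_lit 0) (XT.lf (nat_lit 0) (nat_lit 857111127) (nat_lit 152) (nat_lit 1585667211) (nat_lit 76) (nat_lit 16789245636) (nat_lit 15) (nat_lit 5) (nat_lit 17) (nat_lit 5) (nat_lit 16) (nat_lit 5) (nat_lit 289) (nat_lit 236) (nat_lit 195)) (XT.lf (nat_lit 0) (nat_lit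 3816479024) (nat_lit 228) (nat_lit 14801975205) (nat_lit 76) (nat_lit 1360400853) (nat_lit 13) (nat_lit 5) (nat_lit 16) (nat_lit 5) (nat_lit 14) (nat_lit 4) (nat_lit 290) (nat_lit 236) (nat_lit 194))) (XT.nd (nat_lit 78) (nat_lit 76) (nat_lit 0) (XT.lf (nat_lit 0) (nat_lit 6948961001) (nat_lit 228) (nat_lit 8539730945) (nat_lit 76) (nat_lit 5273149218) (nat_lit 13) (nat_lit 5) (nat_lit 16) (nat_lit 5) (nat_lit 14) (nat_lit 4) (nat_lit 291) (nat_lit 236) (nat_lit 193)) (XT.nd (nat_lit 78) (nat_lit 76) (nat_lit 0) (XT.lf (nat_lit 0) (nat_lit 10197882189) (nat_lit 228) (nat_lit 2031198503) (nat_lit 76) (nat_lit 9356972441) (nat_lit 13) (nat_lit 5) (nat_lit 16) (nat_lit 5) (nat_lit 14) (nat_lit 4) (nat_lit 292) (nat_lit 236) (nat_lit 192)) (XT.lf (nat_lit 0) (nat_lit 4895815291) (nat_lit 76) (nat_lit 8751600220) (nat_lit 152) (nat_lit 8802216016) (nat_lit 12) (nat_lit 5) (nat_lit 13) (nat_lit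 5) (nat_lit 14) (nat_lit 4) (nat_lit 293) (nat_lit 236) (nat_lit 191))))))))
noncomputable def xc98 : XT := (XT.nd (nat_lit 1404) (nat_lit 228) (nat_lit 0) (XT.nd (nat_lit 702) (nat_lit 228) (nat_lit 0) (XT.nd (nat_lit 312) (nat_lit 76) (nat_lit 0) (XT.nd (nat_lit 156) (nat_lit 228) (nat_lit 0) (XT.nd (nat_lit 78) (nat_lit 0) (nat_lit 0) (XT.lf (nat_lit 0) (nat_lit 12177082951) (nat_lit 76) (nat_lit 5089315400) (nat_lit 152) (nat_lit 6090202926) (nat_lit 12) (nat_lit 5) (nat_lit 13) (nat_lit 5) (nat_lit 14) (nat_lit 4) (nat_lit 294) (nat_lit 236) (nat_lit 190)) (XT.lf (nat_lit 0) (nat_lit 19762780230) (nat_lit 76) (nat_lit 1267905834) (nat_lit 152) (nat_lit 3280073832) (nat_lit 12) (nat_lit 5) (nat_lit 13) (nat_lit 5) (nat_lit 14) (nat_lit 4) (nat_lit 295) (nat_lit 236) (nat_lit 189))) (XT.nd (nat_lit 78) (nat_lit 76) (nat_lit 0) (XT.lf (nat_lit 0) (nat_lit 2390609778) (nat_lit 152)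 (nat_lit 22638449370) (nat_lit 152) (nat_lit 281329147) (nat_lit 10) (nat_lit 4) (nat_lit 12) (nat_lit 5) (nat_lit 12) (nat_lit 4) (nat_lit 296) (nat_lit 236) (nat_lit 188)) (XT.lf (nat_lit 0) (nat_lit 2840484531) (nat_lit 228) (nat_lit 16647369591) (nat_lit 76) (nat_lit 6866710622) (nat_lit 9) (nat_lit 5) (nat_lit 12) (nat_lit 5) (nat_lit 10) (nat_lit 4) (nat_lit 297) (nat_lit 236) (nat_lit 187)))) (XT.nd (nat_lit 156) (nat_lit 76) (nat_lit 0) (XT.nd (nat_lit 78) (nat_lit 0) (nat_lit 0) (XT.lf (nat_lit 0) (nat_lit 6076396028) (nat_lit 228) (nat_lit 10121601175) (nat_lit 76) (nat_lit 11254396989) (nat_lit 9) (nat_lit 5) (nat_lit 12) (nat_lit 5) (nat_lit 10) (nat_lit 4) (nat_lit 298) (nat_lit 236) (nat_lit 186)) (XT.lf (nat_lit 0) (nat_lit 9443114182) (nat_lit 228) (nat_lit 3322543389) (nat_lit 76) (nat_lit 15841052563) (nat_lit 9) (nat_lit 5) (nat_lit 12) (nat_lit 5) (nat_lit 10) (nat_lit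 4) (nat_lit 299) (nat_lit 236) (nat_lit 185))) (XT.nd (nat_lit 78) (nat_lit 0) (nat_lit 0) (XT.lf (nat_lit 0) (nat_lit 3890512702) (nat_lit 76) (nat_lit 9118884093) (nat_lit 152) (nat_lit 16807827057) (nat_lit 8) (nat_lit 5) (nat_lit 9) (nat_lit 5) (nat_lit 10) (nat_lit 4) (nat_lit 300) (nat_lit 236) (nat_lit 184)) (XT.nd (nat_lit 78) (nat_lit 0) (nat_lit 0) (XT.lf (nat_lit 0) (nat_lit 11529911633) (nat_lit 76) (nat_lit 5251467575) (nat_lit 152) (nat_lit 14305556105) (nat_lit 8) (nat_lit 5) (nat_lit 9) (nat_lit 5) (nat_lit 10) (nat_lit 4) (nat_lit 301) (nat_lit 236) (nat_lit 183)) (XT.lf (nat_lit 0) (nat_lit 19503984160) (nat_lit 76) (nat_lit 1210468762) (nat_lit 152) (nat_lit 11707094187) (nat_lit 8) (nat_lit 5) (nat_lit 9) (nat_lit 5) (nat_lit 10) (nat_lit 4) (nat_lit 302) (nat_lit 236) (nat_lit 182)))))) (XT.nd (nat_lit 312) (nat_lit 76) (nat_lit 0) (XT.nd (nat_lit 156) (nat_lit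 76) (nat_lit 0) (XT.nd (nat_lit 78) (nat_lit 76) (nat_lit 0) (XT.lf (nat_lit 0) (nat_lit 24865035228) (nat_lit 152) (nat_lit 6039573549) (nat_lit 0) (nat_lit 2917275468) (nat_lit 8) (nat_lit 5) (nat_lit 10) (nat_lit 4) (nat_lit 8) (nat_lit 4) (nat_lit 303) (nat_lit 236) (nat_lit 181)) (XT.lf (nat_lit 0) (nat_lit 1155554341) (nat_lit 76) (nat_lit 28080246864) (nat_lit 76) (nat_lit 6055840015) (nat_lit 7) (nat_lit 4) (nat_lit 8) (nat_lit 5) (nat_lit 8) (nat_lit 4) (nat_lit 304) (nat_lit 236) (nat_lit 180))) (XT.nd (nat_lit 78) (nat_lit 76) (nat_lit 0) (XT.lf (nat_lit 0) (nat_lit 8876924897) (nat_lit 76) (nat_lit 25025760128) (nat_lit 76) (nat_lit 2928356052) (nat_lit 7) (nat_lit 4) (nat_lit 8) (nat_lit 5) (nat_lit 8) (nat_lit 4) (nat_lit 305) (nat_lit 236) (nat_lit 179)) (XT.lf (nat_lit 0) (nat_lit 320179578) (nat_lit 152) (nat_lit 21510557108) (nat_lit 76) (nat_lit 16617624782) (nat_lit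 6) (nat_lit 5) (nat_lit 8) (nat_lit 5) (nat_lit 7) (nat_lit 4) (nat_lit 306) (nat_lit 236) (nat_lit 178)))) (XT.nd (nat_lit 156) (nat_lit 76) (nat_lit 0) (XT.nd (nat_lit 78) (nat_lit 0) (nat_lit 0) (XT.lf (nat_lit 0) (nat_lit 3609925985) (nat_lit 152) (nat_lit 14832787612) (nat_lit 76) (nat_lit 21702603571) (nat_lit 6) (nat_lit 5) (nat_lit 8) (nat_lit 5) (nat_lit 7) (nat_lit 4) (nat_lit 307) (nat_lit 236) (nat_lit 177)) (XT.lf (nat_lit 0) (nat_lit 7042441579) (nat_lit 152) (nat_lit 7859188395) (nat_lit 76) (nat_lit 27026604567) (nat_lit 6) (nat_lit 5) (nat_lit 8) (nat_lit 5) (nat_lit 7) (nat_lit 4) (nat_lit 308) (nat_lit 236) (nat_lit 176))) (XT.nd (nat_lit 78) (nat_lit 76) (nat_lit 0) (XT.lf (nat_lit 0) (nat_lit 10625899015) (nat_lit 152) (nat_lit 573155650) (nat_lit 76) (nat_lit 32602303960) (nat_lit 6) (nat_lit 5) (nat_lit 8) (nat_lit 5) (nat_lit 7) (nat_lit 4) (nat_lit 309) (nat_lit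 236) (nat_lit 175)) (XT.nd (nat_lit 78) (nat_lit 0) (nat_lit 0) (XT.lf (nat_lit 0) (nat_lit 7275520408) (nat_lit 76) (nat_lit 7206901190) (nat_lit 152) (nat_lit 31281048081) (nat_lit 5) (nat_lit 5) (nat_lit 6) (nat_lit 5) (nat_lit 7) (nat_lit 4) (nat_lit 310) (nat_lit 236) (nat_lit 174)) (XT.lf (nat_lit 0) (nat_lit 15502565309) (nat_lit 76) (nat_lit 3019620463) (nat_lit 152) (nat_lit 29302003912) (nat_lit 5) (nat_lit 5) (nat_lit 6) (nat_lit 5) (nat_lit 7) (nat_lit 4) (nat_lit 311) (nat_lit 236) (nat_lit 173))))))) (XT.nd (nat_lit 702) (nat_lit 152) (nat_lit 0) (XT.nd (nat_lit 312) (nat_lit 76) (nat_lit 0) (XT.nd (nat_lit 156) (nat_lit 0) (nat_lit 0) (XT.nd (nat_lit 78) (nat_lit 0) (nat_lit 0) (XT.lf (nat_lit 0) (nat_lit 22766846615) (nat_lit 152) (nat_lit 25901552238) (nat_lit 0) (nat_lit 1319424432) (nat_lit 5) (nat_lit 5) (nat_lit 7) (nat_lit 4) (nat_lit 5) (nat_lit 4) (nat_lit 312)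 (nat_lit 236) (nat_lit 172)) (XT.lf (nat_lit 0) (nat_lit 27255537000) (nat_lit 152) (nat_lit 19241473511) (nat_lit 0) (nat_lit 5761060153) (nat_lit 5) (nat_lit 5) (nat_lit 7) (nat_lit 4) (nat_lit 5) (nat_lit 4) (nat_lit 313) (nat_lit 236) (nat_lit 171))) (XT.nd (nat_lit 78) (nat_lit 0) (nat_lit 0) (XT.lf (nat_lit 0) (nat_lit 31951799548) (nat_lit 152) (nat_lit 12278386127) (nat_lit 0) (nat_lit 10412508735) (nat_lit 5) (nat_lit 5) (nat_lit 7) (nat_lit 4) (nat_lit 5) (nat_lit 4) (nat_lit 314) (nat_lit 236) (nat_lit 170)) (XT.lf (nat_lit 0) (nat_lit 36866815835) (nat_lit 152) (nat_lit 4995711305) (nat_lit 0) (nat_lit 15284845055) (nat_lit 5) (nat_lit 5) (nat_lit 7) (nat_lit 4) (nat_lit 5) (nat_lit 4) (nat_lit 315) (nat_lit 236) (nat_lit 169)))) (XT.nd (nat_lit 156) (nat_lit 0) (nat_lit 0) (XT.nd (nat_lit 78) (nat_lit 0) (nat_lit 0) (XT.lf (nat_lit 0) (nat_lit 2710648329) (nat_lit 76)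 (nat_lit 39343960770) (nat_lit 76) (nat_lit 17721342403) (nat_lit 4) (nat_lit 4) (nat_lit 5) (nat_lit 5) (nat_lit 5) (nat_lit 4) (nat_lit 316) (nat_lit 236) (nat_lit 168)) (XT.lf (nat_lit 0) (nat_lit 10948997976) (nat_lit 76) (nat_lit 36622414581) (nat_lit 76) (nat_lit 14961084225) (nat_lit 4) (nat_lit 4) (nat_lit 5) (nat_lit 5) (nat_lit 5) (nat_lit 4) (nat_lit 317) (nat_lit 236) (nat_lit 167))) (XT.nd (nat_lit 78) (nat_lit 0) (nat_lit 0) (XT.lf (nat_lit 0) (nat_lit 19573771976) (nat_lit 76) (nat_lit 33776013491) (nat_lit 76) (nat_lit 12077814575) (nat_lit 4) (nat_lit 4) (nat_lit 5) (nat_lit 5) (nat_lit 5) (nat_lit 4) (nat_lit 318) (nat_lit 236) (nat_lit 166)) (XT.nd (nat_lit 78) (nat_lit 0) (nat_lit 0) (XT.lf (nat_lit 0) (nat_lit 28605505505) (nat_lit 76) (nat_lit 30797980353) (nat_lit 76) (nat_lit 9064668522) (nat_lit 4) (nat_lit 4) (nat_lit 5) (nat_lit 5) (nat_lit 5) (nat_lit 4)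 (nat_lit 319) (nat_lit 236) (nat_lit 165)) (XT.lf (nat_lit 0) (nat_lit 38065702691) (nat_lit 76) (nat_lit 27681224614) (nat_lit 76) (nat_lit 5914471912) (nat_lit 4) (nat_lit 4) (nat_lit 5) (nat_lit 5) (nat_lit 5) (nat_lit 4) (nat_lit 320) (nat_lit 236) (nat_lit 164)))))) (XT.nd (nat_lit 312) (nat_lit 76) (nat_lit 0) (XT.nd (nat_lit 156) (nat_lit 0) (nat_lit 0) (XT.nd (nat_lit 78) (nat_lit 76) (nat_lit 0) (XT.lf (nat_lit 0) (nat_lit 47976887812) (nat_lit 76) (nat_lit 24418325424) (nat_lit 76) (nat_lit 2619724274) (nat_lit 4) (nat_lit 4) (nat_lit 5) (nat_lit 5) (nat_lit 5) (nat_lit 4) (nat_lit 321) (nat_lit 236) (nat_lit 163)) (XT.lf (nat_lit 0) (nat_lit 800936451) (nat_lit 152) (nat_lit 20187013281) (nat_lit 76) (nat_lit 57548158231) (nat_lit 3) (nat_lit 5) (nat_lit 5) (nat_lit 5) (nat_lit 4) (nat_lit 4) (nat_lit 322) (nat_lit 236) (nat_lit 162))) (XT.nd (nat_lit 78) (nat_lit 0) (nat_lit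 0) (XT.lf (nat_lit 0) (nat_lit 4293212483) (nat_lit 152) (nat_lit 13056734896) (nat_lit 76) (nat_lit 64881823952) (nat_lit 3) (nat_lit 5) (nat_lit 5) (nat_lit 5) (nat_lit 4) (nat_lit 4) (nat_lit 323) (nat_lit 236) (nat_lit 161)) (XT.lf (nat_lit 0) (nat_lit 7949266303) (nat_lit 152) (nat_lit 5589336452) (nat_lit 76) (nat_lit 72574169122) (nat_lit 3) (nat_lit 5) (nat_lit 5) (nat_lit 5) (nat_lit 4) (nat_lit 4) (nat_lit 324) (nat_lit 236) (nat_lit 160)))) (XT.nd (nat_lit 156) (nat_lit 0) (nat_lit 0) (XT.nd (nat_lit 78) (nat_lit 0) (nat_lit 0) (XT.lf (nat_lit 0) (nat_lit 2306793362) (nat_lit 76) (nat_lit 9507024947) (nat_lit 152) (nat_lit 78372730993) (nat_lit 2) (nat_lit 5) (nat_lit 3) (nat_lit 5) (nat_lit 4) (nat_lit 4) (nat_lit 325) (nat_lit 236) (nat_lit 159)) (XT.lf (nat_lit 0) (nat_lit 10773606374) (nat_lit 76) (nat_lit 5182537352) (nat_lit 152) (nat_lit 78503655653) (nat_lit 2) (nat_lit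 5) (nat_lit 3) (nat_lit 5) (nat_lit 4) (nat_lit 4) (nat_lit 326) (nat_lit 236) (nat_lit 158))) (XT.nd (nat_lit 78) (nat_lit 0) (nat_lit 0) (XT.lf (nat_lit 0) (nat_lit 19646452956) (nat_lit 76) (nat_lit 649501689) (nat_lit 152) (nat_lit 78651249400) (nat_lit 2) (nat_lit 5) (nat_lit 3) (nat_lit 5) (nat_lit 4) (nat_lit 4) (nat_lit 327) (nat_lit 236) (nat_lit 157)) (XT.nd (nat_lit 78) (nat_lit 0) (nat_lit 0) (XT.lf (nat_lit 0) (nat_lit 24907641327) (nat_lit 152) (nat_lit 74777046040) (nat_lit 0) (nat_lit 3971557359) (nat_lit 2) (nat_lit 5) (nat_lit 4) (nat_lit 4) (nat_lit 2) (nat_lit 4) (nat_lit 328) (nat_lit 236) (nat_lit 156)) (XT.lf (nat_lit 0) (nat_lit 29751715814) (nat_lit 152) (nat_lit 70053838968) (nat_lit 0) (nat_lit 8795102052) (nat_lit 2) (nat_lit 5) (nat_lit 4) (nat_lit 4) (nat_lit 2) (nat_lit 4) (nat_lit 329) (nat_lit 236) (nat_lit 155))))))))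
noncomputable def xc99 : XT := (XT.nd (nat_lit 1404) (nat_lit 0) (nat_lit 0) (XT.nd (nat_lit 702) (nat_lit 76) (nat_lit 0) (XT.nd (nat_lit 312) (nat_lit 0) (nat_lit 0) (XT.nd (nat_lit 156) (nat_lit 0) (nat_lit 0) (XT.nd (nat_lit 78) (nat_lit 0) (nat_lit 0) (XT.lf (nat_lit 0) (nat_lit 34829571075) (nat_lit 152) (nat_lit 65109743599) (nat_lit 0) (nat_lit 13853405128) (nat_lit 2) (nat_lit 5) (nat_lit 4) (nat_lit 4) (nat_lit 2) (nat_lit 4) (nat_lit 330) (nat_lit 236) (nat_lit 154)) (XT.lf (nat_lit 0) (nat_lit 40153297242) (nat_lit 152) (nat_lit 59932988280) (nat_lit 0) (nat_lit 19158510167) (nat_lit 2) (nat_lit 5) (nat_lit 4) (nat_lit 4) (nat_lit 2) (nat_lit 4) (nat_lit 331) (nat_lit 236) (nat_lit 153))) (XT.nd (nat_lit 78) (nat_lit 0) (nat_lit 0) (XT.lf (nat_lit 0) (nat_lit 45735569854) (nat_lit 152) (nat_lit 54511247401) (nat_lit 0) (nat_lit 24723048371) (nat_lit 2) (nat_lit 5) (nat_lit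 4) (nat_lit 4) (nat_lit 2) (nat_lit 4) (nat_lit 332) (nat_lit 236) (nat_lit 152)) (XT.lf (nat_lit 0) (nat_lit 51589680035) (nat_lit 152) (nat_lit 48831612056) (nat_lit 0) (nat_lit 30560268640) (nat_lit 2) (nat_lit 5) (nat_lit 4) (nat_lit 4) (nat_lit 2) (nat_lit 4) (nat_lit 333) (nat_lit 236) (nat_lit 151)))) (XT.nd (nat_lit 156) (nat_lit 0) (nat_lit 0) (XT.nd (nat_lit 78) (nat_lit 0) (nat_lit 0) (XT.lf (nat_lit 0) (nat_lit 57729566144) (nat_lit 152) (nat_lit 42880559303) (nat_lit 0) (nat_lit 36684069118) (nat_lit 2) (nat_lit 5) (nat_lit 4) (nat_lit 4) (nat_lit 2) (nat_lit 4) (nat_lit 334) (nat_lit 236) (nat_lit 150)) (XT.lf (nat_lit 0) (nat_lit 64169846957) (nat_lit 152) (nat_lit 36643919970) (nat_lit 0) (nat_lit 43109030282) (nat_lit 2) (nat_lit 5) (nat_lit 4) (nat_lit 4) (nat_lit 2) (nat_lit 4) (nat_lit 335) (nat_lit 236) (nat_lit 149))) (XT.nd (nat_lit 78) (nat_lit 0) (nat_lit 0)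 (XT.lf (nat_lit 0) (nat_lit 70925856475) (nat_lit 152) (nat_lit 30106844916) (nat_lit 0) (nat_lit 49850449659) (nat_lit 2) (nat_lit 5) (nat_lit 4) (nat_lit 4) (nat_lit 2) (nat_lit 4) (nat_lit 336) (nat_lit 236) (nat_lit 148)) (XT.nd (nat_lit 78) (nat_lit 0) (nat_lit 0) (XT.lf (nat_lit 0) (nat_lit 78013680436) (nat_lit 152) (nat_lit 23253769674) (nat_lit 0) (nat_lit 56924378248) (nat_lit 2) (nat_lit 5) (nat_lit 4) (nat_lit 4) (nat_lit 2) (nat_lit 4) (nat_lit 337) (nat_lit 236) (nat_lit 147)) (XT.lf (nat_lit 0) (nat_lit 85450194611) (nat_lit 152) (nat_lit 16068377401) (nat_lit 0) (nat_lit 64347658734) (nat_lit 2) (nat_lit 5) (nat_lit 4) (nat_lit 4) (nat_lit 2) (nat_lit 4) (nat_lit 338) (nat_lit 236) (nat_lit 146)))))) (XT.nd (nat_lit 312) (nat_lit 0) (nat_lit 0) (XT.nd (nat_lit 156) (nat_lit 76) (nat_lit 0) (XT.nd (nat_lit 78) (nat_lit 0) (nat_lit 0) (XT.lf (nat_lit 0) (nat_lit 93253104986)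 (nat_lit 152) (nat_lit 8533560019) (nat_lit 0) (nat_lit 72137965597) (nat_lit 2) (nat_lit 5) (nat_lit 4) (nat_lit 4) (nat_lit 2) (nat_lit 4) (nat_lit 339) (nat_lit 236) (nat_lit 145)) (XT.lf (nat_lit 0) (nat_lit 101440989919) (nat_lit 152) (nat_lit 631377486) (nat_lit 0) (nat_lit 80313847185) (nat_lit 2) (nat_lit 5) (nat_lit 4) (nat_lit 4) (nat_lit 2) (nat_lit 4) (nat_lit 340) (nat_lit 236) (nat_lit 144))) (XT.nd (nat_lit 78) (nat_lit 0) (nat_lit 0) (XT.lf (nat_lit 0) (nat_lit 7910159418) (nat_lit 76) (nat_lit 102246684713) (nat_lit 76) (nat_lit 81108110221) (nat_lit 1) (nat_lit 4) (nat_lit 2) (nat_lit 5) (nat_lit 2) (nat_lit 4) (nat_lit 341) (nat_lit 236) (nat_lit 143)) (XT.lf (nat_lit 0) (nat_lit 16891907932) (nat_lit 76) (nat_lit 102422448429) (nat_lit 76) (nat_lit 81272986549) (nat_lit 1) (nat_lit 4) (nat_lit 2) (nat_lit 5) (nat_lit 2) (nat_lit 4) (nat_lit 342) (nat_lit 236) (nat_lit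 142)))) (XT.nd (nat_lit 156) (nat_lit 0) (nat_lit 0) (XT.nd (nat_lit 78) (nat_lit 0) (nat_lit 0) (XT.lf (nat_lit 0) (nat_lit 26314376982) (nat_lit 76) (nat_lit 102610769720) (nat_lit 76) (nat_lit 81450938899) (nat_lit 1) (nat_lit 4) (nat_lit 2) (nat_lit 5) (nat_lit 2) (nat_lit 4) (nat_lit 343) (nat_lit 236) (nat_lit 141)) (XT.lf (nat_lit 0) (nat_lit 36200001016) (nat_lit 76) (nat_lit 102812096972) (nat_lit 76) (nat_lit 81642390969) (nat_lit 1) (nat_lit 4) (nat_lit 2) (nat_lit 5) (nat_lit 2) (nat_lit 4) (nat_lit 344) (nat_lit 236) (nat_lit 140))) (XT.nd (nat_lit 78) (nat_lit 0) (nat_lit 0) (XT.lf (nat_lit 0) (nat_lit 46572317235) (nat_lit 76) (nat_lit 103026909535) (nat_lit 76) (nat_lit 81847798597) (nat_lit 1) (nat_lit 4) (nat_lit 2) (nat_lit 5) (nat_lit 2) (nat_lit 4) (nat_lit 345) (nat_lit 236) (nat_lit 139)) (XT.nd (nat_lit 78) (nat_lit 0) (nat_lit 0) (XT.lf (nat_lit 0) (nat_lit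 57456021629) (nat_lit 76) (nat_lit 103255718867) (nat_lit 76) (nat_lit 82067650847) (nat_lit 1) (nat_lit 4) (nat_lit 2) (nat_lit 5) (nat_lit 2) (nat_lit 4) (nat_lit 346) (nat_lit 236) (nat_lit 138)) (XT.lf (nat_lit 0) (nat_lit 68877027782) (nat_lit 76) (nat_lit 103499069752) (nat_lit 76) (nat_lit 82302471179) (nat_lit 1) (nat_lit 4) (nat_lit 2) (nat_lit 5) (nat_lit 2) (nat_lit 4) (nat_lit 347) (nat_lit 236) (nat_lit 137))))))) (XT.nd (nat_lit 702) (nat_lit 0) (nat_lit 0) (XT.nd (nat_lit 312) (nat_lit 0) (nat_lit 0) (XT.nd (nat_lit 156) (nat_lit 0) (nat_lit 0) (XT.nd (nat_lit 78) (nat_lit 0) (nat_lit 0) (XT.lf (nat_lit 0) (nat_lit 80862528564) (nat_lit 76) (nat_lit 103757541597) (nat_lit 76) (nat_lit 82552818688) (nat_lit 1) (nat_lit 4) (nat_lit 2) (nat_lit 5) (nat_lit 2) (nat_lit 4) (nat_lit 348) (nat_lit 236) (nat_lit 136)) (XT.lf (nat_lit 0) (nat_lit 93441060881) (nat_lit 76) (nat_lit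 104031749812) (nat_lit 76) (nat_lit 82819289439) (nat_lit 1) (nat_lit 4) (nat_lit 2) (nat_lit 5) (nat_lit 2) (nat_lit 4) (nat_lit 349) (nat_lit 236) (nat_lit 135))) (XT.nd (nat_lit 78) (nat_lit 0) (nat_lit 0) (XT.lf (nat_lit 0) (nat_lit 106642573622) (nat_lit 76) (nat_lit 104322347273) (nat_lit 76) (nat_lit 83102517887) (nat_lit 1) (nat_lit 4) (nat_lit 2) (nat_lit 5) (nat_lit 2) (nat_lit 4) (nat_lit 350) (nat_lit 236) (nat_lit 134)) (XT.lf (nat_lit 0) (nat_lit 120498498958) (nat_lit 76) (nat_lit 104630025879) (nat_lit 76) (nat_lit 83403178386) (nat_lit 1) (nat_lit 4) (nat_lit 2) (nat_lit 5) (nat_lit 2) (nat_lit 4) (nat_lit 351) (nat_lit 236) (nat_lit 133)))) (XT.nd (nat_lit 156) (nat_lit 0) (nat_lit 0) (XT.nd (nat_lit 78) (nat_lit 0) (nat_lit 0) (XT.lf (nat_lit 0) (nat_lit 135041827188) (nat_lit 76) (nat_lit 104955518197) (nat_lit 76) (nat_lit 83721986792) (nat_lit 1) (nat_lit 4) (nat_lit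 2) (nat_lit 5) (nat_lit 2) (nat_lit 4) (nat_lit 352) (nat_lit 236) (nat_lit 132)) (XT.lf (nat_lit 0) (nat_lit 150307185285) (nat_lit 76) (nat_lit 105299599210) (nat_lit 76) (nat_lit 84059702175) (nat_lit 1) (nat_lit 4) (nat_lit 2) (nat_lit 5) (nat_lit 2) (nat_lit 4) (nat_lit 353) (nat_lit 236) (nat_lit 131))) (XT.nd (nat_lit 78) (nat_lit 0) (nat_lit 0) (XT.lf (nat_lit 0) (nat_lit 166330919338) (nat_lit 76) (nat_lit 105663088159) (nat_lit 76) (nat_lit 84417128619) (nat_lit 1) (nat_lit 4) (nat_lit 2) (nat_lit 5) (nat_lit 2) (nat_lit 4) (nat_lit 354) (nat_lit 236) (nat_lit 130)) (XT.nd (nat_lit 78) (nat_lit 0) (nat_lit 0) (XT.lf (nat_lit 0) (nat_lit 183151181096) (nat_lit 76) (nat_lit 106046850492) (nat_lit 76) (nat_lit 84795117138) (nat_lit 1) (nat_lit 4) (nat_lit 2) (nat_lit 5) (nat_lit 2) (nat_lit 4) (nat_lit 355) (nat_lit 236) (nat_lit 129)) (XT.lf (nat_lit 0) (nat_lit 200808018801)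 (nat_lit 76) (nat_lit 106451799931) (nat_lit 76) (nat_lit 85194567705) (nat_lit 1) (nat_lit 4) (nat_lit 2) (nat_lit 5) (nat_lit 2) (nat_lit 4) (nat_lit 356) (nat_lit 236) (nat_lit 128)))))) (XT.nd (nat_lit 312) (nat_lit 0) (nat_lit 0) (XT.nd (nat_lit 156) (nat_lit 0) (nat_lit 0) (XT.nd (nat_lit 78) (nat_lit 0) (nat_lit 0) (XT.lf (nat_lit 0) (nat_lit 219343472543) (nat_lit 76) (nat_lit 106878900639) (nat_lit 76) (nat_lit 85616431394) (nat_lit 1) (nat_lit 4) (nat_lit 2) (nat_lit 5) (nat_lit 2) (nat_lit 4) (nat_lit 357) (nat_lit 236) (nat_lit 127)) (XT.lf (nat_lit 0) (nat_lit 238801674354) (nat_lit 76) (nat_lit 107329169524) (nat_lit 76) (nat_lit 86061712641) (nat_lit 1) (nat_lit 4) (nat_lit 2) (nat_lit 5) (nat_lit 2) (nat_lit 4) (nat_lit 358) (nat_lit 236) (nat_lit 126))) (XT.nd (nat_lit 78) (nat_lit 0) (nat_lit 0) (XT.lf (nat_lit 0) (nat_lit 259228953286) (nat_lit 76) (nat_lit 107803678655)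 (nat_lit 76) (nat_lit 86531471640) (nat_lit 1) (nat_lit 4) (nat_lit 2) (nat_lit 5) (nat_lit 2) (nat_lit 4) (nat_lit 359) (nat_lit 236) (nat_lit 125)) (XT.lf (nat_lit 0) (nat_lit 280673945718) (nat_lit 76) (nat_lit 108303557814) (nat_lit 76) (nat_lit 87026826865) (nat_lit 1) (nat_lit 4) (nat_lit 2) (nat_lit 5) (nat_lit 2) (nat_lit 4) (nat_lit 360) (nat_lit 236) (nat_lit 124)))) (XT.nd (nat_lit 156) (nat_lit 0) (nat_lit 0) (XT.nd (nat_lit 78) (nat_lit 0) (nat_lit 0) (XT.lf (nat_lit 0) (nat_lit 303187711155) (nat_lit 76) (nat_lit 108829997191) (nat_lit 76) (nat_lit 87548957733) (nat_lit 1) (nat_lit 4) (nat_lit 2) (nat_lit 5) (nat_lit 2) (nat_lit 4) (nat_lit 361) (nat_lit 236) (nat_lit 123)) (XT.lf (nat_lit 0) (nat_lit 326823853802) (nat_lit 76) (nat_lit 109384250213) (nat_lit 76) (nat_lit 88099107413) (nat_lit 1) (nat_lit 4) (nat_lit 2) (nat_lit 5) (nat_lit 2) (nat_lit 4) (nat_lit 362)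 (nat_lit 236) (nat_lit 122))) (XT.nd (nat_lit 78) (nat_lit 0) (nat_lit 0) (XT.lf (nat_lit 0) (nat_lit 351638650187) (nat_lit 76) (nat_lit 109967636529) (nat_lit 76) (nat_lit 88678585784) (nat_lit 1) (nat_lit 4) (nat_lit 2) (nat_lit 5) (nat_lit 2) (nat_lit 4) (nat_lit 363) (nat_lit 236) (nat_lit 121)) (XT.nd (nat_lit 28314) (nat_lit 0) (nat_lit 8436) (XT.lf (nat_lit 0) (nat_lit 377691183160) (nat_lit 76) (nat_lit 110581545155) (nat_lit 76) (nat_lit 89288772558) (nat_lit 1) (nat_lit 4) (nat_lit 2) (nat_lit 5) (nat_lit 2) (nat_lit 4) (nat_lit 364) (nat_lit 236) (nat_lit 120)) (XT.lf (nat_lit 0) (nat_lit 1486797913) (nat_lit 228) (nat_lit 303493089) (nat_lit 0) (nat_lit 1486797913) (nat_lit 112) (nat_lit 5) (nat_lit 115) (nat_lit 4) (nat_lit 112) (nat_lit 4) (nat_lit 246) (nat_lit 237) (nat_lit 237))))))))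
noncomputable def xc100 : XT := (XT.nd (nat_lit 1404) (nat_lit 1900) (nat_lit 0) (XT.nd (nat_lit 702) (nat_lit 2812) (nat_lit 0) (XT.nd (nat_lit 312) (nat_lit 1064) (nat_lit 0) (XT.nd (nat_lit 156) (nat_lit 760) (nat_lit 0) (XT.nd (nat_lit 78) (nat_lit 76) (nat_lit 0) (XT.lf (nat_lit 0) (nat_lit 2924848476) (nat_lit 228) (nat_lit 2946367284) (nat_lit 228) (nat_lit 725322572) (nat_lit 109) (nat_lit 4) (nat_lit 112) (nat_lit 5) (nat_lit 112) (nat_lit 4) (nat_lit 247) (nat_lit 237) (nat_lit 236)) (XT.lf (nat_lit 0) (nat_lit 2046499453) (nat_lit 304) (nat_lit 141001509) (nat_lit 76) (nat_lit 4460353319) (nat_lit 108) (nat_lit 5) (nat_lit 112) (nat_lit 5) (nat_lit 109) (nat_lit 4) (nat_lit 248) (nat_lit 237) (nat_lit 235))) (XT.nd (nat_lit 78) (nat_lit 456) (nat_lit 0) (XT.lf (nat_lit 0) (nat_lit 3554580487) (nat_lit 304) (nat_lit 1277350685) (nat_lit 380) (nat_lit 1875134525) (nat_lit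 104) (nat_lit 5) (nat_lit 108) (nat_lit 5) (nat_lit 109) (nat_lit 4) (nat_lit 249) (nat_lit 237) (nat_lit 234)) (XT.lf (nat_lit 0) (nat_lit 555460615) (nat_lit 380) (nat_lit 257729734) (nat_lit 456) (nat_lit 5963217509) (nat_lit 98) (nat_lit 5) (nat_lit 103) (nat_lit 5) (nat_lit 104) (nat_lit 5) (nat_lit 250) (nat_lit 237) (nat_lit 233)))) (XT.nd (nat_lit 156) (nat_lit 608) (nat_lit 0) (XT.nd (nat_lit 78) (nat_lit 456) (nat_lit 0) (XT.lf (nat_lit 0) (nat_lit 3492187535) (nat_lit 456) (nat_lit 2456976817) (nat_lit 76) (nat_lit 903324322) (nat_lit 98) (nat_lit 5) (nat_lit 104) (nat_lit 5) (nat_lit 99) (nat_lit 4) (nat_lit 251) (nat_lit 237) (nat_lit 232)) (XT.lf (nat_lit 0) (nat_lit 1417897501) (nat_lit 456) (nat_lit 4772949584) (nat_lit 532) (nat_lit 747976236) (nat_lit 92) (nat_lit 5) (nat_lit 98) (nat_lit 5) (nat_lit 99) (nat_lit 4) (nat_lit 252) (nat_lit 237) (nat_lit 231))) (XT.nd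 (nat_lit 78) (nat_lit 532) (nat_lit 0) (XT.lf (nat_lit 0) (nat_lit 1834730215) (nat_lit 532) (nat_lit 1609200011) (nat_lit 76) (nat_lit 3589473339) (nat_lit 91) (nat_lit 5) (nat_lit 98) (nat_lit 5) (nat_lit 92) (nat_lit 5) (nat_lit 253) (nat_lit 237) (nat_lit 230)) (XT.nd (nat_lit 78) (nat_lit 0) (nat_lit 0) (XT.lf (nat_lit 0) (nat_lit 2448215108) (nat_lit 532) (nat_lit 1979371491) (nat_lit 608) (nat_lit 2709840831) (nat_lit 84) (nat_lit 5) (nat_lit 91) (nat_lit 5) (nat_lit 92) (nat_lit 5) (nat_lit 254) (nat_lit 237) (nat_lit 229)) (XT.lf (nat_lit 0) (nat_lit 6650246386) (nat_lit 532) (nat_lit 399527385) (nat_lit 608) (nat_lit 202499348) (nat_lit 84) (nat_lit 5) (nat_lit 91) (nat_lit 5) (nat_lit 92) (nat_lit 5) (nat_lit 255) (nat_lit 237) (nat_lit 228)))))) (XT.nd (nat_lit 312) (nat_lit 1064) (nat_lit 0) (XT.nd (nat_lit 156) (nat_lit 380) (nat_lit 0) (XT.nd (nat_lit 78) (nat_lit 684)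 (nat_lit 0) (XT.lf (nat_lit 0) (nat_lit 2306842138) (nat_lit 684) (nat_lit 3741019486) (nat_lit 76) (nat_lit 1325930389) (nat_lit 75) (nat_lit 5) (nat_lit 84) (nat_lit 5) (nat_lit 76) (nat_lit 5) (nat_lit 256) (nat_lit 237) (nat_lit 227)) (XT.lf (nat_lit 0) (nat_lit 486720384) (nat_lit 684) (nat_lit 4352893180) (nat_lit 760) (nat_lit 2666891541) (nat_lit 66) (nat_lit 5) (nat_lit 75) (nat_lit 5) (nat_lit 76) (nat_lit 5) (nat_lit 257) (nat_lit 237) (nat_lit 226))) (XT.nd (nat_lit 78) (nat_lit 380) (nat_lit 0) (XT.lf (nat_lit 0) (nat_lit 4939475791) (nat_lit 684) (nat_lit 2507047520) (nat_lit 760) (nat_lit 202453313) (nat_lit 66) (nat_lit 5) (nat_lit 75) (nat_lit 5) (nat_lit 76) (nat_lit 5) (nat_lit 258) (nat_lit 237) (nat_lit 225)) (XT.lf (nat_lit 0) (nat_lit 1719192157) (nat_lit 304) (nat_lit 503907573) (nat_lit 380) (nat_lit 5578349764) (nat_lit 61) (nat_lit 5) (nat_lit 65) (nat_lit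 5) (nat_lit 66) (nat_lit 5) (nat_lit 259) (nat_lit 237) (nat_lit 224)))) (XT.nd (nat_lit 156) (nat_lit 684) (nat_lit 0) (XT.nd (nat_lit 78) (nat_lit 380) (nat_lit 0) (XT.lf (nat_lit 0) (nat_lit 4725664109) (nat_lit 380) (nat_lit 1643760944) (nat_lit 76) (nat_lit 1594258117) (nat_lit 61) (nat_lit 5) (nat_lit 66) (nat_lit 5) (nat_lit 62) (nat_lit 5) (nat_lit 260) (nat_lit 237) (nat_lit 223)) (XT.lf (nat_lit 0) (nat_lit 2990933048) (nat_lit 380) (nat_lit 4313502754) (nat_lit 456) (nat_lit 832448282) (nat_lit 56) (nat_lit 5) (nat_lit 61) (nat_lit 5) (nat_lit 62) (nat_lit 5) (nat_lit 261) (nat_lit 237) (nat_lit 222))) (XT.nd (nat_lit 78) (nat_lit 608) (nat_lit 0) (XT.lf (nat_lit 0) (nat_lit 1564797287) (nat_lit 456) (nat_lit 544955200) (nat_lit 76) (nat_lit 6211762271) (nat_lit 55) (nat_lit 5) (nat_lit 61) (nat_lit 5) (nat_lit 56) (nat_lit 5) (nat_lit 262) (nat_lit 237) (nat_lit 221)) (XT.nd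 (nat_lit 78) (nat_lit 304) (nat_lit 0) (XT.lf (nat_lit 0) (nat_lit 4027590378) (nat_lit 380) (nat_lit 4220478373) (nat_lit 76) (nat_lit 268296581) (nat_lit 51) (nat_lit 5) (nat_lit 56) (nat_lit 5) (nat_lit 52) (nat_lit 5) (nat_lit 263) (nat_lit 237) (nat_lit 220)) (XT.lf (nat_lit 0) (nat_lit 547210635) (nat_lit 304) (nat_lit 6023783682) (nat_lit 380) (nat_lit 2152427461) (nat_lit 47) (nat_lit 5) (nat_lit 51) (nat_lit 5) (nat_lit 52) (nat_lit 5) (nat_lit 264) (nat_lit 237) (nat_lit 219))))))) (XT.nd (nat_lit 702) (nat_lit 836) (nat_lit 0) (XT.nd (nat_lit 312) (nat_lit 532) (nat_lit 0) (XT.nd (nat_lit 156) (nat_lit 228) (nat_lit 0) (XT.nd (nat_lit 78) (nat_lit 228) (nat_lit 0) (XT.lf (nat_lit 0) (nat_lit 269691475) (nat_lit 380) (nat_lit 3357671934) (nat_lit 76) (nat_lit 5314609473) (nat_lit 46) (nat_lit 5) (nat_lit 51) (nat_lit 5) (nat_lit 47) (nat_lit 5) (nat_lit 265) (nat_lit 237)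 (nat_lit 218)) (XT.lf (nat_lit 0) (nat_lit 1609098143) (nat_lit 228) (nat_lit 1067016465) (nat_lit 304) (nat_lit 6497086981) (nat_lit 43) (nat_lit 5) (nat_lit 46) (nat_lit 5) (nat_lit 47) (nat_lit 5) (nat_lit 266) (nat_lit 237) (nat_lit 217))) (XT.nd (nat_lit 78) (nat_lit 228) (nat_lit 0) (XT.lf (nat_lit 0) (nat_lit 5198658458) (nat_lit 304) (nat_lit 2610084152) (nat_lit 76) (nat_lit 1607736313) (nat_lit 43) (nat_lit 5) (nat_lit 47) (nat_lit 5) (nat_lit 44) (nat_lit 5) (nat_lit 267) (nat_lit 237) (nat_lit 216)) (XT.lf (nat_lit 0) (nat_lit 2549587571) (nat_lit 228) (nat_lit 5271887623) (nat_lit 304) (nat_lit 1852001619) (nat_lit 40) (nat_lit 5) (nat_lit 43) (nat_lit 5) (nat_lit 44) (nat_lit 5) (nat_lit 268) (nat_lit 237) (nat_lit 215)))) (XT.nd (nat_lit 156) (nat_lit 228) (nat_lit 0) (XT.nd (nat_lit 78) (nat_lit 228) (nat_lit 0) (XT.lf (nat_lit 0) (nat_lit 574412455) (nat_lit 304) (nat_lit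 2001259579) (nat_lit 76) (nat_lit 7369271759) (nat_lit 39) (nat_lit 5) (nat_lit 43) (nat_lit 5) (nat_lit 40) (nat_lit 5) (nat_lit 269) (nat_lit 237) (nat_lit 214)) (XT.lf (nat_lit 0) (nat_lit 3038745964) (nat_lit 304) (nat_lit 6882836925) (nat_lit 76) (nat_lit 308169322) (nat_lit 36) (nat_lit 5) (nat_lit 40) (nat_lit 5) (nat_lit 37) (nat_lit 5) (nat_lit 270) (nat_lit 237) (nat_lit 213))) (XT.nd (nat_lit 78) (nat_lit 228) (nat_lit 0) (XT.lf (nat_lit 0) (nat_lit 5626284814) (nat_lit 304) (nat_lit 1642206247) (nat_lit 76) (nat_lit 3260527726) (nat_lit 36) (nat_lit 5) (nat_lit 40) (nat_lit 5) (nat_lit 37) (nat_lit 5) (nat_lit 271) (nat_lit 237) (nat_lit 212)) (XT.nd (nat_lit 78) (nat_lit 0) (nat_lit 0) (XT.lf (nat_lit 0) (nat_lit 3885484121) (nat_lit 228) (nat_lit 4445347993) (nat_lit 304) (nat_lit 2513241832) (nat_lit 33) (nat_lit 5) (nat_lit 36) (nat_lit 5) (nat_lit 37) (nat_lit 5) (nat_lit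 272) (nat_lit 237) (nat_lit 211)) (XT.lf (nat_lit 0) (nat_lit 9648843225) (nat_lit 228) (nat_lit 1478495197) (nat_lit 304) (nat_lit 49903839) (nat_lit 33) (nat_lit 5) (nat_lit 36) (nat_lit 5) (nat_lit 37) (nat_lit 5) (nat_lit 273) (nat_lit 237) (nat_lit 210)))))) (XT.nd (nat_lit 312) (nat_lit 380) (nat_lit 0) (XT.nd (nat_lit 156) (nat_lit 228) (nat_lit 0) (XT.nd (nat_lit 78) (nat_lit 0) (nat_lit 0) (XT.lf (nat_lit 0) (nat_lit 2478415066) (nat_lit 228) (nat_lit 7380633810) (nat_lit 76) (nat_lit 1665068555) (nat_lit 30) (nat_lit 5) (nat_lit 33) (nat_lit 5) (nat_lit 31) (nat_lit 5) (nat_lit 274) (nat_lit 237) (nat_lit 209)) (XT.lf (nat_lit 0) (nat_lit 5114431179) (nat_lit 228) (nat_lit 1857603484) (nat_lit 76) (nat_lit 4917283033) (nat_lit 30) (nat_lit 5) (nat_lit 33) (nat_lit 5) (nat_lit 31) (nat_lit 5) (nat_lit 275) (nat_lit 237) (nat_lit 208))) (XT.nd (nat_lit 78) (nat_lit 0) (nat_lit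 0) (XT.lf (nat_lit 0) (nat_lit 3976366680) (nat_lit 228) (nat_lit 3903594335) (nat_lit 304) (nat_lit 4393093369) (nat_lit 27) (nat_lit 5) (nat_lit 30) (nat_lit 5) (nat_lit 31) (nat_lit 5) (nat_lit 276) (nat_lit 237) (nat_lit 207)) (XT.lf (nat_lit 0) (nat_lit 10075538523) (nat_lit 228) (nat_lit 676963540) (nat_lit 304) (nat_lit 1925193446) (nat_lit 27) (nat_lit 5) (nat_lit 30) (nat_lit 5) (nat_lit 31) (nat_lit 5) (nat_lit 277) (nat_lit 237) (nat_lit 206)))) (XT.nd (nat_lit 156) (nat_lit 152) (nat_lit 0) (XT.nd (nat_lit 78) (nat_lit 0) (nat_lit 0) (XT.lf (nat_lit 0) (nat_lit 679719029) (nat_lit 228) (nat_lit 9759240959) (nat_lit 76) (nat_lit 2661481858) (nat_lit 24) (nat_lit 5) (nat_lit 27) (nat_lit 5) (nat_lit 25) (nat_lit 5) (nat_lit 278) (nat_lit 237) (nat_lit 205)) (XT.lf (nat_lit 0) (nat_lit 3346303543) (nat_lit 228) (nat_lit 4003472522) (nat_lit 76) (nat_lit 6193298456) (nat_lit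 24) (nat_lit 5) (nat_lit 27) (nat_lit 5) (nat_lit 25) (nat_lit 5) (nat_lit 279) (nat_lit 237) (nat_lit 204))) (XT.nd (nat_lit 78) (nat_lit 0) (nat_lit 0) (XT.lf (nat_lit 0) (nat_lit 2018953573) (nat_lit 152) (nat_lit 4101867660) (nat_lit 228) (nat_lit 7888414375) (nat_lit 22) (nat_lit 5) (nat_lit 24) (nat_lit 5) (nat_lit 25) (nat_lit 5) (nat_lit 280) (nat_lit 237) (nat_lit 203)) (XT.nd (nat_lit 78) (nat_lit 0) (nat_lit 0) (XT.lf (nat_lit 0) (nat_lit 8397125676) (nat_lit 152) (nat_lit 649215460) (nat_lit 228) (nat_lit 5451870724) (nat_lit 22) (nat_lit 5) (nat_lit 24) (nat_lit 5) (nat_lit 25) (nat_lit 5) (nat_lit 281) (nat_lit 237) (nat_lit 202)) (XT.lf (nat_lit 0) (nat_lit 12111292556) (nat_lit 228) (nat_lit 46575002) (nat_lit 76) (nat_lit 2854226762) (nat_lit 22) (nat_lit 5) (nat_lit 25) (nat_lit 5) (nat_lit 23) (nat_lit 4) (nat_lit 282) (nat_lit 237) (nat_lit 201))))))))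
noncomputable def xc101 : XT := (XT.nd (nat_lit 1404) (nat_lit 380) (nat_lit 0) (XT.nd (nat_lit 702) (nat_lit 304) (nat_lit 0) (XT.nd (nat_lit 312) (nat_lit 304) (nat_lit 0) (XT.nd (nat_lit 156) (nat_lit 152) (nat_lit 0) (XT.nd (nat_lit 78) (nat_lit 76) (nat_lit 0) (XT.lf (nat_lit 0) (nat_lit 6426979803) (nat_lit 152) (nat_lit 8962727059) (nat_lit 228) (nat_lit 159062960) (nat_lit 20) (nat_lit 5) (nat_lit 22) (nat_lit 5) (nat_lit 23) (nat_lit 4) (nat_lit 283) (nat_lit 237) (nat_lit 200)) (XT.lf (nat_lit 0) (nat_lit 2583038833) (nat_lit 228) (nat_lit 3008127354) (nat_lit 76) (nat_lit 10521572972) (nat_lit 19) (nat_lit 5) (nat_lit 22) (nat_lit 5) (nat_lit 20) (nat_lit 5) (nat_lit 284) (nat_lit 237) (nat_lit 199))) (XT.nd (nat_lit 78) (nat_lit 0) (nat_lit 0) (XT.lf (nat_lit 0) (nat_lit 3443352032) (nat_lit 152) (nat_lit 2019235874) (nat_lit 228) (nat_lit 11241999040) (nat_lit 17) (nat_lit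 5) (nat_lit 19) (nat_lit 5) (nat_lit 20) (nat_lit 5) (nat_lit 285) (nat_lit 237) (nat_lit 198)) (XT.lf (nat_lit 0) (nat_lit 8517554921) (nat_lit 228) (nat_lit 7105765993) (nat_lit 76) (nat_lit 1701224425) (nat_lit 17) (nat_lit 5) (nat_lit 20) (nat_lit 5) (nat_lit 18) (nat_lit 4) (nat_lit 286) (nat_lit 237) (nat_lit 197)))) (XT.nd (nat_lit 156) (nat_lit 228) (nat_lit 0) (XT.nd (nat_lit 78) (nat_lit 76) (nat_lit 0) (XT.lf (nat_lit 0) (nat_lit 11713259124) (nat_lit 228) (nat_lit 748255754) (nat_lit 76) (nat_lit 5514673273) (nat_lit 17) (nat_lit 5) (nat_lit 20) (nat_lit 5) (nat_lit 18) (nat_lit 4) (nat_lit 287) (nat_lit 237) (nat_lit 196)) (XT.lf (nat_lit 0) (nat_lit 6051649230) (nat_lit 76) (nat_lit 9068617378) (nat_lit 152) (nat_lit 3537652441) (nat_lit 16) (nat_lit 5) (nat_lit 17) (nat_lit 5) (nat_lit 18) (nat_lit 4) (nat_lit 288) (nat_lit 237) (nat_lit 195))) (XT.nd (nat_lit 78) (nat_lit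 228) (nat_lit 0) (XT.lf (nat_lit 0) (nat_lit 13149471545) (nat_lit 76) (nat_lit 5518843281) (nat_lit 152) (nat_lit 706965100) (nat_lit 16) (nat_lit 5) (nat_lit 17) (nat_lit 5) (nat_lit 18) (nat_lit 4) (nat_lit 289) (nat_lit 237) (nat_lit 194)) (XT.nd (nat_lit 78) (nat_lit 0) (nat_lit 0) (XT.lf (nat_lit 0) (nat_lit 384380004) (nat_lit 152) (nat_lit 1773665594) (nat_lit 228) (nat_lit 17970501035) (nat_lit 13) (nat_lit 5) (nat_lit 15) (nat_lit 5) (nat_lit 16) (nat_lit 5) (nat_lit 290) (nat_lit 237) (nat_lit 193)) (XT.lf (nat_lit 0) (nat_lit 5243233301) (nat_lit 228) (nat_lit 13486827567) (nat_lit 76) (nat_lit 2183869410) (nat_lit 13) (nat_lit 5) (nat_lit 16) (nat_lit 5) (nat_lit 14) (nat_lit 4) (nat_lit 291) (nat_lit 237) (nat_lit 192)))))) (XT.nd (nat_lit 312) (nat_lit 228) (nat_lit 0) (XT.nd (nat_lit 156) (nat_lit 76) (nat_lit 0) (XT.nd (nat_lit 78) (nat_lit 0) (nat_lit 0) (XT.lf (nat_lit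 0) (nat_lit 8473485552) (nat_lit 228) (nat_lit 7009339970) (nat_lit 76) (nat_lit 6256281455) (nat_lit 13) (nat_lit 5) (nat_lit 16) (nat_lit 5) (nat_lit 14) (nat_lit 4) (nat_lit 292) (nat_lit 237) (nat_lit 191)) (XT.lf (nat_lit 0) (nat_lit 11828801538) (nat_lit 228) (nat_lit 268589359) (nat_lit 76) (nat_lit 10510035135) (nat_lit 13) (nat_lit 5) (nat_lit 16) (nat_lit 5) (nat_lit 14) (nat_lit 4) (nat_lit 293) (nat_lit 237) (nat_lit 190))) (XT.nd (nat_lit 78) (nat_lit 0) (nat_lit 0) (XT.lf (nat_lit 0) (nat_lit 6974707882) (nat_lit 76) (nat_lit 8451356960) (nat_lit 152) (nat_lit 8089445290) (nat_lit 12) (nat_lit 5) (nat_lit 13) (nat_lit 5) (nat_lit 14) (nat_lit 4) (nat_lit 294) (nat_lit 237) (nat_lit 189)) (XT.lf (nat_lit 0) (nat_lit 14532700742) (nat_lit 76) (nat_lit 4641092340) (nat_lit 152) (nat_lit 5296730667) (nat_lit 12) (nat_lit 5) (nat_lit 13) (nat_lit 5) (nat_lit 14) (nat_lit 4)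 (nat_lit 295) (nat_lit 237) (nat_lit 188)))) (XT.nd (nat_lit 156) (nat_lit 0) (nat_lit 0) (XT.nd (nat_lit 78) (nat_lit 228) (nat_lit 0) (XT.lf (nat_lit 0) (nat_lit 22414503664) (nat_lit 76) (nat_lit 662073668) (nat_lit 152) (nat_lit 2398379994) (nat_lit 12) (nat_lit 5) (nat_lit 13) (nat_lit 5) (nat_lit 14) (nat_lit 4) (nat_lit 296) (nat_lit 237) (nat_lit 187)) (XT.lf (nat_lit 0) (nat_lit 714811964) (nat_lit 228) (nat_lit 22349609308) (nat_lit 76) (nat_lit 3460207530) (nat_lit 9) (nat_lit 5) (nat_lit 12) (nat_lit 5) (nat_lit 10) (nat_lit 4) (nat_lit 297) (nat_lit 237) (nat_lit 186))) (XT.nd (nat_lit 78) (nat_lit 0) (nat_lit 0) (XT.lf (nat_lit 0) (nat_lit 3935606915) (nat_lit 228) (nat_lit 15849694088) (nat_lit 76) (nat_lit 7837935307) (nat_lit 9) (nat_lit 5) (nat_lit 12) (nat_lit 5) (nat_lit 10) (nat_lit 4) (nat_lit 298) (nat_lit 237) (nat_lit 185)) (XT.nd (nat_lit 78) (nat_lit 0) (nat_lit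 0) (XT.lf (nat_lit 0) (nat_lit 7287928360) (nat_lit 228) (nat_lit 9075258393) (nat_lit 76) (nat_lit 12415106509) (nat_lit 9) (nat_lit 5) (nat_lit 12) (nat_lit 5) (nat_lit 10) (nat_lit 4) (nat_lit 299) (nat_lit 237) (nat_lit 184)) (XT.lf (nat_lit 0) (nat_lit 10779758016) (nat_lit 228) (nat_lit 2010172615) (nat_lit 76) (nat_lit 17202619164) (nat_lit 9) (nat_lit 5) (nat_lit 12) (nat_lit 5) (nat_lit 10) (nat_lit 4) (nat_lit 300) (nat_lit 237) (nat_lit 183))))))) (XT.nd (nat_lit 702) (nat_lit 152) (nat_lit 0) (XT.nd (nat_lit 312) (nat_lit 152) (nat_lit 0) (XT.nd (nat_lit 156) (nat_lit 0) (nat_lit 0) (XT.nd (nat_lit 78) (nat_lit 0) (nat_lit 0) (XT.lf (nat_lit 0) (nat_lit 5539689539) (nat_lit 76) (nat_lit 8966210301) (nat_lit 152) (nat_lit 16758672649) (nat_lit 8) (nat_lit 5) (nat_lit 9) (nat_lit 5) (nat_lit 10) (nat_lit 4) (nat_lit 301) (nat_lit 237) (nat_lit 182)) (XT.lf (nat_lit 0) (nat_lit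 13491789312) (nat_lit 76) (nat_lit 4934404766) (nat_lit 152) (nat_lit 14173647471) (nat_lit 8) (nat_lit 5) (nat_lit 9) (nat_lit 5) (nat_lit 10) (nat_lit 4) (nat_lit 302) (nat_lit 237) (nat_lit 181))) (XT.nd (nat_lit 78) (nat_lit 0) (nat_lit 0) (XT.lf (nat_lit 0) (nat_lit 21798594889) (nat_lit 76) (nat_lit 718957736) (nat_lit 152) (nat_lit 11485604668) (nat_lit 8) (nat_lit 5) (nat_lit 9) (nat_lit 5) (nat_lit 10) (nat_lit 4) (nat_lit 303) (nat_lit 237) (nat_lit 180)) (XT.lf (nat_lit 0) (nat_lit 26847330667) (nat_lit 152) (nat_lit 5055590429) (nat_lit 0) (nat_lit 3572059159) (nat_lit 8) (nat_lit 5) (nat_lit 10) (nat_lit 4) (nat_lit 8) (nat_lit 4) (nat_lit 304) (nat_lit 237) (nat_lit 179)))) (XT.nd (nat_lit 156) (nat_lit 76) (nat_lit 0) (XT.nd (nat_lit 78) (nat_lit 0) (nat_lit 0) (XT.lf (nat_lit 0) (nat_lit 2478552536) (nat_lit 76) (nat_lit 28942643489) (nat_lit 76) (nat_lit 5597850812)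 (nat_lit 7) (nat_lit 4) (nat_lit 8) (nat_lit 5) (nat_lit 8) (nat_lit 4) (nat_lit 305) (nat_lit 237) (nat_lit 178)) (XT.lf (nat_lit 0) (nat_lit 10525743026) (nat_lit 76) (nat_lit 25761223641) (nat_lit 76) (nat_lit 2350220327) (nat_lit 7) (nat_lit 4) (nat_lit 8) (nat_lit 5) (nat_lit 8) (nat_lit 4) (nat_lit 306) (nat_lit 237) (nat_lit 177))) (XT.nd (nat_lit 78) (nat_lit 0) (nat_lit 0) (XT.lf (nat_lit 0) (nat_lit 1004153595) (nat_lit 152) (nat_lit 21415546192) (nat_lit 76) (nat_lit 17916820942) (nat_lit 6) (nat_lit 5) (nat_lit 8) (nat_lit 5) (nat_lit 7) (nat_lit 4) (nat_lit 307) (nat_lit 237) (nat_lit 176)) (XT.nd (nat_lit 78) (nat_lit 0) (nat_lit 0) (XT.lf (nat_lit 0) (nat_lit 4426579464) (nat_lit 152) (nat_lit 14459628162) (nat_lit 76) (nat_lit 23233747960) (nat_lit 6) (nat_lit 5) (nat_lit 8) (nat_lit 5) (nat_lit 7) (nat_lit 4) (nat_lit 308) (nat_lit 237) (nat_lit 175)) (XT.lf (nat_lit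 0) (nat_lit 8000427638) (nat_lit 152) (nat_lit 7190434643) (nat_lit 76) (nat_lit 28802710233) (nat_lit 6) (nat_lit 5) (nat_lit 8) (nat_lit 5) (nat_lit 7) (nat_lit 4) (nat_lit 309) (nat_lit 237) (nat_lit 174)))))) (XT.nd (nat_lit 312) (nat_lit 76) (nat_lit 0) (XT.nd (nat_lit 156) (nat_lit 0) (nat_lit 0) (XT.nd (nat_lit 78) (nat_lit 0) (nat_lit 0) (XT.lf (nat_lit 0) (nat_lit 422876662) (nat_lit 76) (nat_lit 11317932907) (nat_lit 152) (nat_lit 34220692822) (nat_lit 5) (nat_lit 5) (nat_lit 6) (nat_lit 5) (nat_lit 7) (nat_lit 4) (nat_lit 310) (nat_lit 237) (nat_lit 173)) (XT.lf (nat_lit 0) (nat_lit 8634142872) (nat_lit 76) (nat_lit 7137468637) (nat_lit 152) (nat_lit 32251070227) (nat_lit 5) (nat_lit 5) (nat_lit 6) (nat_lit 5) (nat_lit 7) (nat_lit 4) (nat_lit 311) (nat_lit 237) (nat_lit 172))) (XT.nd (nat_lit 78) (nat_lit 0) (nat_lit 0) (XT.lf (nat_lit 0) (nat_lit 17225166378) (nat_lit 76)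 (nat_lit 2761289475) (nat_lit 152) (nat_lit 30201361004) (nat_lit 5) (nat_lit 5) (nat_lit 6) (nat_lit 5) (nat_lit 7) (nat_lit 4) (nat_lit 312) (nat_lit 237) (nat_lit 171)) (XT.lf (nat_lit 0) (nat_lit 24423809231) (nat_lit 152) (nat_lit 26274092129) (nat_lit 0) (nat_lit 1762739912) (nat_lit 5) (nat_lit 5) (nat_lit 7) (nat_lit 4) (nat_lit 5) (nat_lit 4) (nat_lit 313) (nat_lit 237) (nat_lit 170)))) (XT.nd (nat_lit 156) (nat_lit 76) (nat_lit 0) (XT.nd (nat_lit 78) (nat_lit 0) (nat_lit 0) (XT.lf (nat_lit 0) (nat_lit 29112237931) (nat_lit 152) (nat_lit 19324939833) (nat_lit 0) (nat_lit 6408488645) (nat_lit 5) (nat_lit 5) (nat_lit 7) (nat_lit 4) (nat_lit 5) (nat_lit 4) (nat_lit 314) (nat_lit 237) (nat_lit 169)) (XT.lf (nat_lit 0) (nat_lit 34019793411) (nat_lit 152) (nat_lit 12055536525) (nat_lit 0) (nat_lit 11275396538) (nat_lit 5) (nat_lit 5) (nat_lit 7) (nat_lit 4) (nat_lit 5) (nat_lit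 4) (nat_lit 315) (nat_lit 237) (nat_lit 168))) (XT.nd (nat_lit 78) (nat_lit 76) (nat_lit 0) (XT.lf (nat_lit 0) (nat_lit 39158160328) (nat_lit 152) (nat_lit 4448574101) (nat_lit 0) (nat_lit 16375051466) (nat_lit 5) (nat_lit 5) (nat_lit 7) (nat_lit 4) (nat_lit 5) (nat_lit 4) (nat_lit 316) (nat_lit 237) (nat_lit 167)) (XT.nd (nat_lit 78) (nat_lit 0) (nat_lit 0) (XT.lf (nat_lit 0) (nat_lit 3630249922) (nat_lit 76) (nat_lit 40966001341) (nat_lit 76) (nat_lit 18146023919) (nat_lit 4) (nat_lit 4) (nat_lit 5) (nat_lit 5) (nat_lit 5) (nat_lit 4) (nat_lit 317) (nat_lit 237) (nat_lit 166)) (XT.lf (nat_lit 0) (nat_lit 12243180424) (nat_lit 76) (nat_lit 38124813913) (nat_lit 76) (nat_lit 15269723576) (nat_lit 4) (nat_lit 4) (nat_lit 5) (nat_lit 5) (nat_lit 5) (nat_lit 4) (nat_lit 318) (nat_lit 237) (nat_lit 165))))))))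
noncomputable def xc102 : XT := (XT.nd (nat_lit 1404) (nat_lit 76) (nat_lit 0) (XT.nd (nat_lit 702) (nat_lit 0) (nat_lit 0) (XT.nd (nat_lit 312) (nat_lit 152) (nat_lit 0) (XT.nd (nat_lit 156) (nat_lit 0) (nat_lit 0) (XT.nd (nat_lit 78) (nat_lit 0) (nat_lit 0) (XT.lf (nat_lit 0) (nat_lit 21263634431) (nat_lit 76) (nat_lit 35151746168) (nat_lit 76) (nat_lit 12263214960) (nat_lit 4) (nat_lit 4) (nat_lit 5) (nat_lit 5) (nat_lit 5) (nat_lit 4) (nat_lit 319) (nat_lit 237) (nat_lit 164)) (XT.lf (nat_lit 0) (nat_lit 30713089215) (nat_lit 76) (nat_lit 32039719373) (nat_lit 76) (nat_lit 9119339716) (nat_lit 4) (nat_lit 4) (nat_lit 5) (nat_lit 5) (nat_lit 5) (nat_lit 4) (nat_lit 320) (nat_lit 237) (nat_lit 163))) (XT.nd (nat_lit 78) (nat_lit 0) (nat_lit 0) (XT.lf (nat_lit 0) (nat_lit 40614043477) (nat_lit 76) (nat_lit 28781323941) (nat_lit 76) (nat_lit 5830612429) (nat_lit 4) (nat_lit 4) (nat_lit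 5) (nat_lit 5) (nat_lit 5) (nat_lit 4) (nat_lit 321) (nat_lit 237) (nat_lit 162)) (XT.lf (nat_lit 0) (nat_lit 50990070919) (nat_lit 76) (nat_lit 25368801788) (nat_lit 76) (nat_lit 2389202794) (nat_lit 4) (nat_lit 4) (nat_lit 5) (nat_lit 5) (nat_lit 5) (nat_lit 4) (nat_lit 322) (nat_lit 237) (nat_lit 161)))) (XT.nd (nat_lit 156) (nat_lit 76) (nat_lit 0) (XT.nd (nat_lit 78) (nat_lit 0) (nat_lit 0) (XT.lf (nat_lit 0) (nat_lit 1174256787) (nat_lit 152) (nat_lit 20599884466) (nat_lit 76) (nat_lit 60671732972) (nat_lit 3) (nat_lit 5) (nat_lit 5) (nat_lit 5) (nat_lit 4) (nat_lit 4) (nat_lit 323) (nat_lit 237) (nat_lit 160)) (XT.lf (nat_lit 0) (nat_lit 4825276454) (nat_lit 152) (nat_lit 13141495946) (nat_lit 76) (nat_lit 68360359749) (nat_lit 3) (nat_lit 5) (nat_lit 5) (nat_lit 5) (nat_lit 4) (nat_lit 4) (nat_lit 324) (nat_lit 237) (nat_lit 159))) (XT.nd (nat_lit 78) (nat_lit 76) (nat_lit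 0) (XT.lf (nat_lit 0) (nat_lit 8649018520) (nat_lit 152) (nat_lit 5327778804) (nat_lit 76) (nat_lit 76426158148) (nat_lit 3) (nat_lit 5) (nat_lit 5) (nat_lit 5) (nat_lit 4) (nat_lit 4) (nat_lit 325) (nat_lit 237) (nat_lit 158)) (XT.nd (nat_lit 78) (nat_lit 0) (nat_lit 0) (XT.lf (nat_lit 0) (nat_lit 2954431300) (nat_lit 76) (nat_lit 9746282785) (nat_lit 152) (nat_lit 81980028103) (nat_lit 2) (nat_lit 5) (nat_lit 3) (nat_lit 5) (nat_lit 4) (nat_lit 4) (nat_lit 326) (nat_lit 237) (nat_lit 157)) (XT.lf (nat_lit 0) (nat_lit 11819237426) (nat_lit 76) (nat_lit 5216813353) (nat_lit 152) (nat_lit 82132324684) (nat_lit 2) (nat_lit 5) (nat_lit 3) (nat_lit 5) (nat_lit 4) (nat_lit 4) (nat_lit 327) (nat_lit 237) (nat_lit 156)))))) (XT.nd (nat_lit 312) (nat_lit 0) (nat_lit 0) (XT.nd (nat_lit 156) (nat_lit 0) (nat_lit 0) (XT.nd (nat_lit 78) (nat_lit 0) (nat_lit 0) (XT.lf (nat_lit 0) (nat_lit 21111585826)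 (nat_lit 76) (nat_lit 467833092) (nat_lit 152) (nat_lit 82301417821) (nat_lit 2) (nat_lit 5) (nat_lit 3) (nat_lit 5) (nat_lit 4) (nat_lit 4) (nat_lit 328) (nat_lit 237) (nat_lit 155)) (XT.lf (nat_lit 0) (nat_lit 26412080463) (nat_lit 152) (nat_lit 78046189439) (nat_lit 0) (nat_lit 4367554034) (nat_lit 2) (nat_lit 5) (nat_lit 4) (nat_lit 4) (nat_lit 2) (nat_lit 4) (nat_lit 329) (nat_lit 237) (nat_lit 154))) (XT.nd (nat_lit 78) (nat_lit 0) (nat_lit 0) (XT.lf (nat_lit 0) (nat_lit 31486022623) (nat_lit 152) (nat_lit 73109189103) (nat_lit 0) (nat_lit 9422875066) (nat_lit 2) (nat_lit 5) (nat_lit 4) (nat_lit 4) (nat_lit 2) (nat_lit 4) (nat_lit 330) (nat_lit 237) (nat_lit 153)) (XT.lf (nat_lit 0) (nat_lit 36806022027) (nat_lit 152) (nat_lit 67939190958) (nat_lit 0) (nat_lit 14725140062) (nat_lit 2) (nat_lit 5) (nat_lit 4) (nat_lit 4) (nat_lit 2) (nat_lit 4) (nat_lit 331) (nat_lit 237) (nat_lit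 152)))) (XT.nd (nat_lit 156) (nat_lit 0) (nat_lit 0) (XT.nd (nat_lit 78) (nat_lit 0) (nat_lit 0) (XT.lf (nat_lit 0) (nat_lit 42384745341) (nat_lit 152) (nat_lit 62523885483) (nat_lit 0) (nat_lit 20286973464) (nat_lit 2) (nat_lit 5) (nat_lit 4) (nat_lit 4) (nat_lit 2) (nat_lit 4) (nat_lit 332) (nat_lit 237) (nat_lit 151)) (XT.lf (nat_lit 0) (nat_lit 48235475239) (nat_lit 152) (nat_lit 56850379094) (nat_lit 0) (nat_lit 26121617730) (nat_lit 2) (nat_lit 5) (nat_lit 4) (nat_lit 4) (nat_lit 2) (nat_lit 4) (nat_lit 333) (nat_lit 237) (nat_lit 150))) (XT.nd (nat_lit 78) (nat_lit 0) (nat_lit 0) (XT.lf (nat_lit 0) (nat_lit 54372142029) (nat_lit 152) (nat_lit 50905163442) (nat_lit 0) (nat_lit 32242964873) (nat_lit 2) (nat_lit 5) (nat_lit 4) (nat_lit 4) (nat_lit 2) (nat_lit 4) (nat_lit 334) (nat_lit 237) (nat_lit 149)) (XT.nd (nat_lit 78) (nat_lit 0) (nat_lit 0) (XT.lf (nat_lit 0) (nat_lit 60809356825)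 (nat_lit 152) (nat_lit 44674083253) (nat_lit 0) (nat_lit 38665589527) (nat_lit 2) (nat_lit 5) (nat_lit 4) (nat_lit 4) (nat_lit 2) (nat_lit 4) (nat_lit 335) (nat_lit 237) (nat_lit 148)) (XT.lf (nat_lit 0) (nat_lit 67562446327) (nat_lit 152) (nat_lit 38142302621) (nat_lit 0) (nat_lit 45404783657) (nat_lit 2) (nat_lit 5) (nat_lit 4) (nat_lit 4) (nat_lit 2) (nat_lit 4) (nat_lit 336) (nat_lit 237) (nat_lit 147))))))) (XT.nd (nat_lit 702) (nat_lit 0) (nat_lit 0) (XT.nd (nat_lit 312) (nat_lit 76) (nat_lit 0) (XT.nd (nat_lit 156) (nat_lit 0) (nat_lit 0) (XT.nd (nat_lit 78) (nat_lit 0) (nat_lit 0) (XT.lf (nat_lit 0) (nat_lit 74647489320) (nat_lit 152) (nat_lit 31294269687) (nat_lit 0) (nat_lit 52476592961) (nat_lit 2) (nat_lit 5) (nat_lit 4) (nat_lit 4) (nat_lit 2) (nat_lit 4) (nat_lit 337) (nat_lit 237) (nat_lit 146)) (XT.lf (nat_lit 0) (nat_lit 82081354954) (nat_lit 152) (nat_lit 24113679611)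 (nat_lit 0) (nat_lit 59897855083) (nat_lit 2) (nat_lit 5) (nat_lit 4) (nat_lit 4) (nat_lit 2) (nat_lit 4) (nat_lit 338) (nat_lit 237) (nat_lit 145))) (XT.nd (nat_lit 78) (nat_lit 0) (nat_lit 0) (XT.lf (nat_lit 0) (nat_lit 89881742910) (nat_lit 152) (nat_lit 16583435750) (nat_lit 0) (nat_lit 67686239693) (nat_lit 2) (nat_lit 5) (nat_lit 4) (nat_lit 4) (nat_lit 2) (nat_lit 4) (nat_lit 339) (nat_lit 237) (nat_lit 144)) (XT.lf (nat_lit 0) (nat_lit 98067225538) (nat_lit 152) (nat_lit 8685608952) (nat_lit 0) (nat_lit 75860290564) (nat_lit 2) (nat_lit 5) (nat_lit 4) (nat_lit 4) (nat_lit 2) (nat_lit 4) (nat_lit 340) (nat_lit 237) (nat_lit 143)))) (XT.nd (nat_lit 156) (nat_lit 0) (nat_lit 0) (XT.nd (nat_lit 78) (nat_lit 76) (nat_lit 0) (XT.lf (nat_lit 0) (nat_lit 106657292085) (nat_lit 152) (nat_lit 401394867) (nat_lit 0) (nat_lit 84439469722) (nat_lit 2) (nat_lit 5) (nat_lit 4) (nat_lit 4)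 (nat_lit 2) (nat_lit 4) (nat_lit 341) (nat_lit 237) (nat_lit 142)) (XT.lf (nat_lit 0) (nat_lit 8563000309) (nat_lit 76) (nat_lit 107243087211) (nat_lit 76) (nat_lit 85014895908) (nat_lit 1) (nat_lit 4) (nat_lit 2) (nat_lit 5) (nat_lit 2) (nat_lit 4) (nat_lit 342) (nat_lit 237) (nat_lit 141))) (XT.nd (nat_lit 78) (nat_lit 0) (nat_lit 0) (XT.lf (nat_lit 0) (nat_lit 17981582301) (nat_lit 76) (nat_lit 107433159671) (nat_lit 76) (nat_lit 85195093186) (nat_lit 1) (nat_lit 4) (nat_lit 2) (nat_lit 5) (nat_lit 2) (nat_lit 4) (nat_lit 343) (nat_lit 237) (nat_lit 140)) (XT.nd (nat_lit 78) (nat_lit 0) (nat_lit 0) (XT.lf (nat_lit 0) (nat_lit 27863504376) (nat_lit 76) (nat_lit 107636154703) (nat_lit 76) (nat_lit 85388683283) (nat_lit 1) (nat_lit 4) (nat_lit 2) (nat_lit 5) (nat_lit 2) (nat_lit 4) (nat_lit 344) (nat_lit 237) (nat_lit 139)) (XT.lf (nat_lit 0) (nat_lit 38232294919) (nat_lit 76) (nat_lit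 107852555627) (nat_lit 76) (nat_lit 85596127126) (nat_lit 1) (nat_lit 4) (nat_lit 2) (nat_lit 5) (nat_lit 2) (nat_lit 4) (nat_lit 345) (nat_lit 237) (nat_lit 138)))))) (XT.nd (nat_lit 312) (nat_lit 0) (nat_lit 0) (XT.nd (nat_lit 156) (nat_lit 0) (nat_lit 0) (XT.nd (nat_lit 78) (nat_lit 0) (nat_lit 0) (XT.lf (nat_lit 0) (nat_lit 49112641527) (nat_lit 76) (nat_lit 108082877684) (nat_lit 76) (nat_lit 85817918629) (nat_lit 1) (nat_lit 4) (nat_lit 2) (nat_lit 5) (nat_lit 2) (nat_lit 4) (nat_lit 346) (nat_lit 237) (nat_lit 137)) (XT.lf (nat_lit 0) (nat_lit 60530449788) (nat_lit 76) (nat_lit 108327669260) (nat_lit 76) (nat_lit 86054585869) (nat_lit 1) (nat_lit 4) (nat_lit 2) (nat_lit 5) (nat_lit 2) (nat_lit 4) (nat_lit 347) (nat_lit 237) (nat_lit 136))) (XT.nd (nat_lit 78) (nat_lit 0) (nat_lit 0) (XT.lf (nat_lit 0) (nat_lit 72512904958) (nat_lit 76) (nat_lit 108587513192) (nat_lit 76) (nat_lit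 86306692337) (nat_lit 1) (nat_lit 4) (nat_lit 2) (nat_lit 5) (nat_lit 2) (nat_lit 4) (nat_lit 348) (nat_lit 237) (nat_lit 135)) (XT.lf (nat_lit 0) (nat_lit 85088536694) (nat_lit 76) (nat_lit 108863028155) (nat_lit 76) (nat_lit 86574838288) (nat_lit 1) (nat_lit 4) (nat_lit 2) (nat_lit 5) (nat_lit 2) (nat_lit 4) (nat_lit 349) (nat_lit 237) (nat_lit 134)))) (XT.nd (nat_lit 156) (nat_lit 0) (nat_lit 0) (XT.nd (nat_lit 78) (nat_lit 0) (nat_lit 0) (XT.lf (nat_lit 0) (nat_lit 98287286975) (nat_lit 76) (nat_lit 109154870139) (nat_lit 76) (nat_lit 86859662164) (nat_lit 1) (nat_lit 4) (nat_lit 2) (nat_lit 5) (nat_lit 2) (nat_lit 4) (nat_lit 350) (nat_lit 237) (nat_lit 133)) (XT.lf (nat_lit 0) (nat_lit 112140581398) (nat_lit 76) (nat_lit 109463734005) (nat_lit 76) (nat_lit 87161842118) (nat_lit 1) (nat_lit 4) (nat_lit 2) (nat_lit 5) (nat_lit 2) (nat_lit 4) (nat_lit 351) (nat_lit 237) (nat_lit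 132))) (XT.nd (nat_lit 78) (nat_lit 0) (nat_lit 0) (XT.lf (nat_lit 0) (nat_lit 126681403996) (nat_lit 76) (nat_lit 109790355142) (nat_lit 76) (nat_lit 87482097625) (nat_lit 1) (nat_lit 4) (nat_lit 2) (nat_lit 5) (nat_lit 2) (nat_lit 4) (nat_lit 352) (nat_lit 237) (nat_lit 131)) (XT.nd (nat_lit 78) (nat_lit 0) (nat_lit 0) (XT.lf (nat_lit 0) (nat_lit 141944375777) (nat_lit 76) (nat_lit 110135511221) (nat_lit 76) (nat_lit 87821191199) (nat_lit 1) (nat_lit 4) (nat_lit 2) (nat_lit 5) (nat_lit 2) (nat_lit 4) (nat_lit 353) (nat_lit 237) (nat_lit 130)) (XT.lf (nat_lit 0) (nat_lit 157965837148) (nat_lit 76) (nat_lit 110500024042) (nat_lit 76) (nat_lit 88179930205) (nat_lit 1) (nat_lit 4) (nat_lit 2) (nat_lit 5) (nat_lit 2) (nat_lit 4) (nat_lit 354) (nat_lit 237) (nat_lit 129))))))))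
noncomputable def xc103 : XT := (XT.nd (nat_lit 29562) (nat_lit 0) (nat_lit 2660) (XT.nd (nat_lit 28860) (nat_lit 0) (nat_lit 6840) (XT.nd (nat_lit 312) (nat_lit 0) (nat_lit 0) (XT.nd (nat_lit 156) (nat_lit 0) (nat_lit 0) (XT.nd (nat_lit 78) (nat_lit 0) (nat_lit 0) (XT.lf (nat_lit 0) (nat_lit 174783934447) (nat_lit 76) (nat_lit 110884761491) (nat_lit 76) (nat_lit 88559168784) (nat_lit 1) (nat_lit 4) (nat_lit 2) (nat_lit 5) (nat_lit 2) (nat_lit 4) (nat_lit 355) (nat_lit 237) (nat_lit 128)) (XT.lf (nat_lit 0) (nat_lit 192438710763) (nat_lit 76) (nat_lit 111290639611) (nat_lit 76) (nat_lit 88959809884) (nat_lit 1) (nat_lit 4) (nat_lit 2) (nat_lit 5) (nat_lit 2) (nat_lit 4) (nat_lit 356) (nat_lit 237) (nat_lit 127))) (XT.nd (nat_lit 78) (nat_lit 0) (nat_lit 0) (XT.lf (nat_lit 0) (nat_lit 210972201276) (nat_lit 76) (nat_lit 111718624779) (nat_lit 76) (nat_lit 89382807414) (nat_lit 1) (nat_lit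 4) (nat_lit 2) (nat_lit 5) (nat_lit 2) (nat_lit 4) (nat_lit 357) (nat_lit 237) (nat_lit 126)) (XT.lf (nat_lit 0) (nat_lit 230428533346) (nat_lit 76) (nat_lit 112169736006) (nat_lit 76) (nat_lit 89829168510) (nat_lit 1) (nat_lit 4) (nat_lit 2) (nat_lit 5) (nat_lit 2) (nat_lit 4) (nat_lit 358) (nat_lit 237) (nat_lit 125)))) (XT.nd (nat_lit 156) (nat_lit 0) (nat_lit 0) (XT.nd (nat_lit 78) (nat_lit 0) (nat_lit 0) (XT.lf (nat_lit 0) (nat_lit 250854031572) (nat_lit 76) (nat_lit 112645047367) (nat_lit 76) (nat_lit 90299955936) (nat_lit 1) (nat_lit 4) (nat_lit 2) (nat_lit 5) (nat_lit 2) (nat_lit 4) (nat_lit 359) (nat_lit 237) (nat_lit 124)) (XT.lf (nat_lit 0) (nat_lit 272297328094) (nat_lit 76) (nat_lit 113145690556) (nat_lit 76) (nat_lit 90796290616) (nat_lit 1) (nat_lit 4) (nat_lit 2) (nat_lit 5) (nat_lit 2) (nat_lit 4) (nat_lit 360) (nat_lit 237) (nat_lit 123))) (XT.nd (nat_lit 78) (nat_lit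 0) (nat_lit 0) (XT.lf (nat_lit 0) (nat_lit 294809478379) (nat_lit 76) (nat_lit 113672857580) (nat_lit 76) (nat_lit 91319354297) (nat_lit 1) (nat_lit 4) (nat_lit 2) (nat_lit 5) (nat_lit 2) (nat_lit 4) (nat_lit 361) (nat_lit 237) (nat_lit 122)) (XT.nd (nat_lit 78) (nat_lit 0) (nat_lit 0) (XT.lf (nat_lit 0) (nat_lit 318444082784) (nat_lit 76) (nat_lit 114227803598) (nat_lit 76) (nat_lit 91870392371) (nat_lit 1) (nat_lit 4) (nat_lit 2) (nat_lit 5) (nat_lit 2) (nat_lit 4) (nat_lit 362) (nat_lit 237) (nat_lit 121)) (XT.lf (nat_lit 0) (nat_lit 343257414179) (nat_lit 76) (nat_lit 114811849912) (nat_lit 76) (nat_lit 92450716832) (nat_lit 1) (nat_lit 4) (nat_lit 2) (nat_lit 5) (nat_lit 2) (nat_lit 4) (nat_lit 363) (nat_lit 237) (nat_lit 120)))))) (XT.nd (nat_lit 312) (nat_lit 1292) (nat_lit 0) (XT.nd (nat_lit 156) (nat_lit 304) (nat_lit 0) (XT.nd (nat_lit 78) (nat_lit 228) (nat_lit 0) (XT.lf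 (nat_lit 0) (nat_lit 2864160898) (nat_lit 76) (nat_lit 190897887) (nat_lit 76) (nat_lit 190897887) (nat_lit 115) (nat_lit 4) (nat_lit 116) (nat_lit 5) (nat_lit 116) (nat_lit 4) (nat_lit 244) (nat_lit 238) (nat_lit 238)) (XT.lf (nat_lit 0) (nat_lit 2430981355) (nat_lit 228) (nat_lit 3990707937) (nat_lit 0) (nat_lit 98884407) (nat_lit 112) (nat_lit 5) (nat_lit 115) (nat_lit 4) (nat_lit 112) (nat_lit 4) (nat_lit 245) (nat_lit 238) (nat_lit 237))) (XT.nd (nat_lit 78) (nat_lit 304) (nat_lit 0) (XT.lf (nat_lit 0) (nat_lit 5224477097) (nat_lit 228) (nat_lit 662930865) (nat_lit 0) (nat_lit 671335437) (nat_lit 112) (nat_lit 5) (nat_lit 115) (nat_lit 4) (nat_lit 112) (nat_lit 4) (nat_lit 246) (nat_lit 238) (nat_lit 236)) (XT.lf (nat_lit 0) (nat_lit 1391439645) (nat_lit 304) (nat_lit 3815971064) (nat_lit 76) (nat_lit 1397007304) (nat_lit 108) (nat_lit 5) (nat_lit 112) (nat_lit 5) (nat_lit 109)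 (nat_lit 4) (nat_lit 247) (nat_lit 238) (nat_lit 235)))) (XT.nd (nat_lit 156) (nat_lit 912) (nat_lit 0) (XT.nd (nat_lit 78) (nat_lit 380) (nat_lit 0) (XT.lf (nat_lit 0) (nat_lit 4063899123) (nat_lit 304) (nat_lit 351982161) (nat_lit 76) (nat_lit 2243529899) (nat_lit 108) (nat_lit 5) (nat_lit 112) (nat_lit 5) (nat_lit 109) (nat_lit 4) (nat_lit 248) (nat_lit 238) (nat_lit 234)) (XT.lf (nat_lit 0) (nat_lit 48089013) (nat_lit 380) (nat_lit 3441510387) (nat_lit 76) (nat_lit 3233238459) (nat_lit 103) (nat_lit 5) (nat_lit 108) (nat_lit 5) (nat_lit 104) (nat_lit 5) (nat_lit 249) (nat_lit 238) (nat_lit 233))) (XT.nd (nat_lit 78) (nat_lit 532) (nat_lit 0) (XT.lf (nat_lit 0) (nat_lit 170203393) (nat_lit 380) (nat_lit 2428772822) (nat_lit 456) (nat_lit 4195987760) (nat_lit 98) (nat_lit 5) (nat_lit 103) (nat_lit 5) (nat_lit 104) (nat_lit 5) (nat_lit 250) (nat_lit 238) (nat_lit 232)) (XT.nd (nat_lit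 78) (nat_lit 532) (nat_lit 0) (XT.lf (nat_lit 0) (nat_lit 3971808619) (nat_lit 380) (nat_lit 1222749541) (nat_lit 456) (nat_lit 1681016132) (nat_lit 98) (nat_lit 5) (nat_lit 103) (nat_lit 5) (nat_lit 104) (nat_lit 5) (nat_lit 251) (nat_lit 238) (nat_lit 231)) (XT.lf (nat_lit 0) (nat_lit 807439492) (nat_lit 532) (nat_lit 6060676302) (nat_lit 76) (nat_lit 98094597) (nat_lit 91) (nat_lit 5) (nat_lit 98) (nat_lit 5) (nat_lit 92) (nat_lit 5) (nat_lit 252) (nat_lit 238) (nat_lit 230))))))) (XT.nd (nat_lit 702) (nat_lit 1520) (nat_lit 0) (XT.nd (nat_lit 312) (nat_lit 1444) (nat_lit 0) (XT.nd (nat_lit 156) (nat_lit 684) (nat_lit 0) (XT.nd (nat_lit 78) (nat_lit 532) (nat_lit 0) (XT.lf (nat_lit 0) (nat_lit 3301780676) (nat_lit 532) (nat_lit 2217210569) (nat_lit 76) (nat_lit 1544746649) (nat_lit 91) (nat_lit 5) (nat_lit 98) (nat_lit 5) (nat_lit 92) (nat_lit 5) (nat_lit 253) (nat_lit 238) (nat_lit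 229)) (XT.lf (nat_lit 0) (nat_lit 1764431517) (nat_lit 532) (nat_lit 4058172281) (nat_lit 608) (nat_lit 1349054761) (nat_lit 84) (nat_lit 5) (nat_lit 91) (nat_lit 5) (nat_lit 92) (nat_lit 5) (nat_lit 254) (nat_lit 238) (nat_lit 228))) (XT.nd (nat_lit 78) (nat_lit 608) (nat_lit 0) (XT.lf (nat_lit 0) (nat_lit 1060707229) (nat_lit 608) (nat_lit 1393412420) (nat_lit 76) (nat_lit 4834773445) (nat_lit 83) (nat_lit 5) (nat_lit 91) (nat_lit 5) (nat_lit 84) (nat_lit 5) (nat_lit 255) (nat_lit 238) (nat_lit 227)) (XT.lf (nat_lit 0) (nat_lit 2780014067) (nat_lit 608) (nat_lit 690877095) (nat_lit 684) (nat_lit 3944251511) (nat_lit 75) (nat_lit 5) (nat_lit 83) (nat_lit 5) (nat_lit 84) (nat_lit 5) (nat_lit 256) (nat_lit 238) (nat_lit 226)))) (XT.nd (nat_lit 156) (nat_lit 684) (nat_lit 0) (XT.nd (nat_lit 78) (nat_lit 760) (nat_lit 0) (XT.lf (nat_lit 0) (nat_lit 5929647130) (nat_lit 684) (nat_lit 467073198)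 (nat_lit 76) (nat_lit 1155079020) (nat_lit 75) (nat_lit 5) (nat_lit 84) (nat_lit 5) (nat_lit 76) (nat_lit 5) (nat_lit 257) (nat_lit 238) (nat_lit 225)) (XT.lf (nat_lit 0) (nat_lit 752740420) (nat_lit 760) (nat_lit 3793479834) (nat_lit 76) (nat_lit 3150742686) (nat_lit 65) (nat_lit 5) (nat_lit 75) (nat_lit 5) (nat_lit 66) (nat_lit 5) (nat_lit 258) (nat_lit 238) (nat_lit 224))) (XT.nd (nat_lit 78) (nat_lit 380) (nat_lit 0) (XT.lf (nat_lit 0) (nat_lit 540966469) (nat_lit 304) (nat_lit 2560137308) (nat_lit 380) (nat_lit 4751919232) (nat_lit 61) (nat_lit 5) (nat_lit 65) (nat_lit 5) (nat_lit 66) (nat_lit 5) (nat_lit 259) (nat_lit 238) (nat_lit 223)) (XT.nd (nat_lit 78) (nat_lit 380) (nat_lit 0) (XT.lf (nat_lit 0) (nat_lit 5116181719) (nat_lit 304) (nat_lit 411129355) (nat_lit 380) (nat_lit 2491963226) (nat_lit 61) (nat_lit 5) (nat_lit 65) (nat_lit 5) (nat_lit 66) (nat_lit 5) (nat_lit 260)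 (nat_lit 238) (nat_lit 222)) (XT.lf (nat_lit 0) (nat_lit 1642266875) (nat_lit 380) (nat_lit 6388081072) (nat_lit 456) (nat_lit 166104255) (nat_lit 56) (nat_lit 5) (nat_lit 61) (nat_lit 5) (nat_lit 62) (nat_lit 5) (nat_lit 261) (nat_lit 238) (nat_lit 221)))))) (XT.nd (nat_lit 390) (nat_lit 760) (nat_lit 0) (XT.nd (nat_lit 156) (nat_lit 380) (nat_lit 0) (XT.nd (nat_lit 78) (nat_lit 304) (nat_lit 0) (XT.lf (nat_lit 0) (nat_lit 2162102839) (nat_lit 456) (nat_lit 2017082589) (nat_lit 76) (nat_lit 4203935399) (nat_lit 55) (nat_lit 5) (nat_lit 61) (nat_lit 5) (nat_lit 56) (nat_lit 5) (nat_lit 262) (nat_lit 238) (nat_lit 220)) (XT.lf (nat_lit 0) (nat_lit 2727001259) (nat_lit 304) (nat_lit 1823562324) (nat_lit 380) (nat_lit 4031288777) (nat_lit 51) (nat_lit 5) (nat_lit 55) (nat_lit 5) (nat_lit 56) (nat_lit 5) (nat_lit 263) (nat_lit 238) (nat_lit 219))) (XT.nd (nat_lit 78) (nat_lit 380) (nat_lit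 0) (XT.lf (nat_lit 0) (nat_lit 7012800370) (nat_lit 380) (nat_lit 1128590921) (nat_lit 76) (nat_lit 651732390) (nat_lit 51) (nat_lit 5) (nat_lit 56) (nat_lit 5) (nat_lit 52) (nat_lit 5) (nat_lit 264) (nat_lit 238) (nat_lit 218)) (XT.nd (nat_lit 78) (nat_lit 0) (nat_lit 0) (XT.lf (nat_lit 0) (nat_lit 567682719) (nat_lit 380) (nat_lit 5200040640) (nat_lit 76) (nat_lit 3246913073) (nat_lit 46) (nat_lit 5) (nat_lit 51) (nat_lit 5) (nat_lit 47) (nat_lit 5) (nat_lit 265) (nat_lit 238) (nat_lit 217)) (XT.lf (nat_lit 0) (nat_lit 2907362598) (nat_lit 380) (nat_lit 335369469) (nat_lit 76) (nat_lit 6006605440) (nat_lit 46) (nat_lit 5) (nat_lit 51) (nat_lit 5) (nat_lit 47) (nat_lit 5) (nat_lit 266) (nat_lit 238) (nat_lit 216))))) (XT.nd (nat_lit 156) (nat_lit 304) (nat_lit 0) (XT.nd (nat_lit 78) (nat_lit 228) (nat_lit 0) (XT.lf (nat_lit 0) (nat_lit 4828284497) (nat_lit 228) (nat_lit 529865520)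 (nat_lit 304) (nat_lit 4138181413) (nat_lit 43) (nat_lit 5) (nat_lit 46) (nat_lit 5) (nat_lit 47) (nat_lit 5) (nat_lit 267) (nat_lit 238) (nat_lit 215)) (XT.lf (nat_lit 0) (nat_lit 381175736) (nat_lit 228) (nat_lit 7519032644) (nat_lit 304) (nat_lit 1857281494) (nat_lit 40) (nat_lit 5) (nat_lit 43) (nat_lit 5) (nat_lit 44) (nat_lit 5) (nat_lit 268) (nat_lit 238) (nat_lit 214))) (XT.nd (nat_lit 78) (nat_lit 228) (nat_lit 0) (XT.lf (nat_lit 0) (nat_lit 531024226) (nat_lit 304) (nat_lit 4303502447) (nat_lit 76) (nat_lit 5196459404) (nat_lit 39) (nat_lit 5) (nat_lit 43) (nat_lit 5) (nat_lit 40) (nat_lit 5) (nat_lit 269) (nat_lit 238) (nat_lit 213)) (XT.nd (nat_lit 78) (nat_lit 0) (nat_lit 0) (XT.lf (nat_lit 0) (nat_lit 924673309) (nat_lit 228) (nat_lit 1991359871) (nat_lit 304) (nat_lit 7403833480) (nat_lit 36) (nat_lit 5) (nat_lit 39) (nat_lit 5) (nat_lit 40) (nat_lit 5) (nat_lit 270)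 (nat_lit 238) (nat_lit 212)) (XT.lf (nat_lit 0) (nat_lit 5436856059) (nat_lit 304) (nat_lit 4171926404) (nat_lit 76) (nat_lit 1013787464) (nat_lit 36) (nat_lit 5) (nat_lit 40) (nat_lit 5) (nat_lit 37) (nat_lit 5) (nat_lit 271) (nat_lit 238) (nat_lit 211))))))))
noncomputable def xc104 : XT := (XT.nd (nat_lit 1404) (nat_lit 684) (nat_lit 0) (XT.nd (nat_lit 702) (nat_lit 608) (nat_lit 0) (XT.nd (nat_lit 312) (nat_lit 456) (nat_lit 0) (XT.nd (nat_lit 156) (nat_lit 228) (nat_lit 0) (XT.nd (nat_lit 78) (nat_lit 0) (nat_lit 0) (XT.lf (nat_lit 0) (nat_lit 1224447076) (nat_lit 228) (nat_lit 6841481216) (nat_lit 304) (nat_lit 2875566635) (nat_lit 33) (nat_lit 5) (nat_lit 36) (nat_lit 5) (nat_lit 37) (nat_lit 5) (nat_lit 272) (nat_lit 238) (nat_lit 210)) (XT.lf (nat_lit 0) (nat_lit 6942403403) (nat_lit 228) (nat_lit 3887009169) (nat_lit 304) (nat_lit 446993283) (nat_lit 33) (nat_lit 5) (nat_lit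 36) (nat_lit 5) (nat_lit 37) (nat_lit 5) (nat_lit 273) (nat_lit 238) (nat_lit 209))) (XT.nd (nat_lit 78) (nat_lit 0) (nat_lit 0) (XT.lf (nat_lit 0) (nat_lit 1233866735) (nat_lit 152) (nat_lit 755395268) (nat_lit 228) (nat_lit 9639650658) (nat_lit 30) (nat_lit 5) (nat_lit 32) (nat_lit 5) (nat_lit 33) (nat_lit 5) (nat_lit 274) (nat_lit 238) (nat_lit 208)) (XT.lf (nat_lit 0) (nat_lit 4582084615) (nat_lit 228) (nat_lit 4905334078) (nat_lit 76) (nat_lit 2508932959) (nat_lit 30) (nat_lit 5) (nat_lit 33) (nat_lit 5) (nat_lit 31) (nat_lit 5) (nat_lit 275) (nat_lit 238) (nat_lit 207)))) (XT.nd (nat_lit 156) (nat_lit 228) (nat_lit 0) (XT.nd (nat_lit 78) (nat_lit 0) (nat_lit 0) (XT.lf (nat_lit 0) (nat_lit 783479652) (nat_lit 228) (nat_lit 6484380443) (nat_lit 304) (nat_lit 5116291251) (nat_lit 27) (nat_lit 5) (nat_lit 30) (nat_lit 5) (nat_lit 31) (nat_lit 5) (nat_lit 276) (nat_lit 238) (nat_lit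 206)) (XT.lf (nat_lit 0) (nat_lit 6840380356) (nat_lit 228) (nat_lit 3270880396) (nat_lit 304) (nat_lit 2679060441) (nat_lit 27) (nat_lit 5) (nat_lit 30) (nat_lit 5) (nat_lit 31) (nat_lit 5) (nat_lit 277) (nat_lit 238) (nat_lit 205))) (XT.nd (nat_lit 78) (nat_lit 228) (nat_lit 0) (XT.lf (nat_lit 0) (nat_lit 13041150762) (nat_lit 304) (nat_lit 103399918) (nat_lit 76) (nat_lit 75172876) (nat_lit 27) (nat_lit 5) (nat_lit 31) (nat_lit 5) (nat_lit 28) (nat_lit 4) (nat_lit 278) (nat_lit 238) (nat_lit 204)) (XT.nd (nat_lit 78) (nat_lit 0) (nat_lit 0) (XT.lf (nat_lit 0) (nat_lit 2464267412) (nat_lit 228) (nat_lit 7609871145) (nat_lit 76) (nat_lit 3589892001) (nat_lit 24) (nat_lit 5) (nat_lit 27) (nat_lit 5) (nat_lit 25) (nat_lit 5) (nat_lit 279) (nat_lit 238) (nat_lit 203)) (XT.lf (nat_lit 0) (nat_lit 5180821036) (nat_lit 228) (nat_lit 1691901518) (nat_lit 76) (nat_lit 7260426284) (nat_lit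 24) (nat_lit 5) (nat_lit 27) (nat_lit 5) (nat_lit 25) (nat_lit 5) (nat_lit 280) (nat_lit 238) (nat_lit 202)))))) (XT.nd (nat_lit 312) (nat_lit 228) (nat_lit 0) (XT.nd (nat_lit 156) (nat_lit 228) (nat_lit 0) (XT.nd (nat_lit 78) (nat_lit 0) (nat_lit 0) (XT.lf (nat_lit 0) (nat_lit 4591133872) (nat_lit 152) (nat_lit 3462123019) (nat_lit 228) (nat_lit 6571578583) (nat_lit 22) (nat_lit 5) (nat_lit 24) (nat_lit 5) (nat_lit 25) (nat_lit 5) (nat_lit 281) (nat_lit 238) (nat_lit 201)) (XT.lf (nat_lit 0) (nat_lit 11049524732) (nat_lit 228) (nat_lit 3973684049) (nat_lit 76) (nat_lit 118996835) (nat_lit 22) (nat_lit 5) (nat_lit 25) (nat_lit 5) (nat_lit 23) (nat_lit 4) (nat_lit 282) (nat_lit 238) (nat_lit 200))) (XT.nd (nat_lit 78) (nat_lit 76) (nat_lit 0) (XT.lf (nat_lit 0) (nat_lit 2332231327) (nat_lit 152) (nat_lit 11908190347) (nat_lit 228) (nat_lit 1442886270) (nat_lit 20) (nat_lit 5) (nat_lit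 22) (nat_lit 5) (nat_lit 23) (nat_lit 4) (nat_lit 283) (nat_lit 238) (nat_lit 199)) (XT.lf (nat_lit 0) (nat_lit 1316855824) (nat_lit 228) (nat_lit 7254183332) (nat_lit 76) (nat_lit 7678459052) (nat_lit 19) (nat_lit 5) (nat_lit 22) (nat_lit 5) (nat_lit 20) (nat_lit 5) (nat_lit 284) (nat_lit 238) (nat_lit 198)))) (XT.nd (nat_lit 156) (nat_lit 76) (nat_lit 0) (XT.nd (nat_lit 78) (nat_lit 152) (nat_lit 0) (XT.lf (nat_lit 0) (nat_lit 4120311131) (nat_lit 228) (nat_lit 947973151) (nat_lit 76) (nat_lit 11776910422) (nat_lit 19) (nat_lit 5) (nat_lit 22) (nat_lit 5) (nat_lit 20) (nat_lit 5) (nat_lit 285) (nat_lit 238) (nat_lit 197)) (XT.lf (nat_lit 0) (nat_lit 5790426001) (nat_lit 152) (nat_lit 1320314691) (nat_lit 228) (nat_lit 10357681200) (nat_lit 17) (nat_lit 5) (nat_lit 19) (nat_lit 5) (nat_lit 20) (nat_lit 5) (nat_lit 286) (nat_lit 238) (nat_lit 196))) (XT.nd (nat_lit 78) (nat_lit 76)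 (nat_lit 0) (XT.lf (nat_lit 0) (nat_lit 10264872481) (nat_lit 228) (nat_lit 5333613955) (nat_lit 76) (nat_lit 2523696815) (nat_lit 17) (nat_lit 5) (nat_lit 20) (nat_lit 5) (nat_lit 18) (nat_lit 4) (nat_lit 287) (nat_lit 238) (nat_lit 195)) (XT.nd (nat_lit 78) (nat_lit 0) (nat_lit 0) (XT.lf (nat_lit 0) (nat_lit 1281480491) (nat_lit 76) (nat_lit 12295963199) (nat_lit 152) (nat_lit 5231230298) (nat_lit 16) (nat_lit 5) (nat_lit 17) (nat_lit 5) (nat_lit 18) (nat_lit 4) (nat_lit 288) (nat_lit 238) (nat_lit 194)) (XT.lf (nat_lit 0) (nat_lit 8347685771) (nat_lit 76) (nat_lit 8758302437) (nat_lit 152) (nat_lit 2421058055) (nat_lit 16) (nat_lit 5) (nat_lit 17) (nat_lit 5) (nat_lit 18) (nat_lit 4) (nat_lit 289) (nat_lit 238) (nat_lit 193))))))) (XT.nd (nat_lit 702) (nat_lit 152) (nat_lit 0) (XT.nd (nat_lit 312) (nat_lit 304) (nat_lit 0) (XT.nd (nat_lit 156) (nat_lit 0) (nat_lit 0) (XT.nd (nat_lit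 78) (nat_lit 152) (nat_lit 0) (XT.lf (nat_lit 0) (nat_lit 473900227) (nat_lit 152) (nat_lit 4585482526) (nat_lit 76) (nat_lit 15223546860) (nat_lit 15) (nat_lit 5) (nat_lit 17) (nat_lit 5) (nat_lit 16) (nat_lit 5) (nat_lit 290) (nat_lit 238) (nat_lit 192)) (XT.lf (nat_lit 0) (nat_lit 2312334934) (nat_lit 152) (nat_lit 1119085013) (nat_lit 228) (nat_lit 17643307993) (nat_lit 13) (nat_lit 5) (nat_lit 15) (nat_lit 5) (nat_lit 16) (nat_lit 5) (nat_lit 291) (nat_lit 238) (nat_lit 191))) (XT.nd (nat_lit 78) (nat_lit 0) (nat_lit 0) (XT.lf (nat_lit 0) (nat_lit 6626420205) (nat_lit 228) (nat_lit 12296999876) (nat_lit 76) (nat_lit 2978276952) (nat_lit 13) (nat_lit 5) (nat_lit 16) (nat_lit 5) (nat_lit 14) (nat_lit 4) (nat_lit 292) (nat_lit 238) (nat_lit 190)) (XT.lf (nat_lit 0) (nat_lit 9964802914) (nat_lit 228) (nat_lit 5584407855) (nat_lit 76) (nat_lit 7221680357) (nat_lit 13) (nat_lit 5) (nat_lit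 16) (nat_lit 5) (nat_lit 14) (nat_lit 4) (nat_lit 293) (nat_lit 238) (nat_lit 189)))) (XT.nd (nat_lit 156) (nat_lit 228) (nat_lit 0) (XT.nd (nat_lit 78) (nat_lit 0) (nat_lit 0) (XT.lf (nat_lit 0) (nat_lit 1455420000) (nat_lit 76) (nat_lit 12004347737) (nat_lit 152) (nat_lit 10224349438) (nat_lit 12) (nat_lit 5) (nat_lit 13) (nat_lit 5) (nat_lit 14) (nat_lit 4) (nat_lit 294) (nat_lit 238) (nat_lit 188)) (XT.lf (nat_lit 0) (nat_lit 8987027699) (nat_lit 76) (nat_lit 8204697351) (nat_lit 152) (nat_lit 7448220025) (nat_lit 12) (nat_lit 5) (nat_lit 13) (nat_lit 5) (nat_lit 14) (nat_lit 4) (nat_lit 295) (nat_lit 238) (nat_lit 187))) (XT.nd (nat_lit 78) (nat_lit 228) (nat_lit 0) (XT.lf (nat_lit 0) (nat_lit 16843701896) (nat_lit 76) (nat_lit 4235787474) (nat_lit 152) (nat_lit 4565664791) (nat_lit 12) (nat_lit 5) (nat_lit 13) (nat_lit 5) (nat_lit 14) (nat_lit 4) (nat_lit 296) (nat_lit 238) (nat_lit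 186)) (XT.nd (nat_lit 78) (nat_lit 228) (nat_lit 0) (XT.lf (nat_lit 0) (nat_lit 25044148959) (nat_lit 76) (nat_lit 88168320) (nat_lit 152) (nat_lit 1569820508) (nat_lit 12) (nat_lit 5) (nat_lit 13) (nat_lit 5) (nat_lit 14) (nat_lit 4) (nat_lit 297) (nat_lit 238) (nat_lit 185)) (XT.lf (nat_lit 0) (nat_lit 1658265093) (nat_lit 228) (nat_lit 21914666933) (nat_lit 76) (nat_lit 4231207578) (nat_lit 9) (nat_lit 5) (nat_lit 12) (nat_lit 5) (nat_lit 10) (nat_lit 4) (nat_lit 298) (nat_lit 238) (nat_lit 184)))))) (XT.nd (nat_lit 312) (nat_lit 76) (nat_lit 0) (XT.nd (nat_lit 156) (nat_lit 76) (nat_lit 0) (XT.nd (nat_lit 78) (nat_lit 0) (nat_lit 0) (XT.lf (nat_lit 0) (nat_lit 4996875386) (nat_lit 228) (nat_lit 15163680849) (nat_lit 76) (nat_lit 8799346044) (nat_lit 9) (nat_lit 5) (nat_lit 12) (nat_lit 5) (nat_lit 10) (nat_lit 4) (nat_lit 299) (nat_lit 238) (nat_lit 183)) (XT.lf (nat_lit 0) (nat_lit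 8475646802) (nat_lit 228) (nat_lit 8120928033) (nat_lit 76) (nat_lit 13578256094) (nat_lit 9) (nat_lit 5) (nat_lit 12) (nat_lit 5) (nat_lit 10) (nat_lit 4) (nat_lit 300) (nat_lit 238) (nat_lit 182))) (XT.nd (nat_lit 78) (nat_lit 76) (nat_lit 0) (XT.lf (nat_lit 0) (nat_lit 12102862129) (nat_lit 228) (nat_lit 769640027) (nat_lit 76) (nat_lit 18579316083) (nat_lit 9) (nat_lit 5) (nat_lit 12) (nat_lit 5) (nat_lit 10) (nat_lit 4) (nat_lit 301) (nat_lit 238) (nat_lit 181)) (XT.lf (nat_lit 0) (nat_lit 7136085538) (nat_lit 76) (nat_lit 8862486352) (nat_lit 152) (nat_lit 16789762054) (nat_lit 8) (nat_lit 5) (nat_lit 9) (nat_lit 5) (nat_lit 10) (nat_lit 4) (nat_lit 302) (nat_lit 238) (nat_lit 180)))) (XT.nd (nat_lit 156) (nat_lit 76) (nat_lit 0) (XT.nd (nat_lit 78) (nat_lit 0) (nat_lit 0) (XT.lf (nat_lit 0) (nat_lit 15422961179) (nat_lit 76) (nat_lit 4655377896) (nat_lit 152) (nat_lit 14113906770)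 (nat_lit 8) (nat_lit 5) (nat_lit 9) (nat_lit 5) (nat_lit 10) (nat_lit 4) (nat_lit 303) (nat_lit 238) (nat_lit 179)) (XT.lf (nat_lit 0) (nat_lit 24085269777) (nat_lit 76) (nat_lit 254194091) (nat_lit 152) (nat_lit 11328053402) (nat_lit 8) (nat_lit 5) (nat_lit 9) (nat_lit 5) (nat_lit 10) (nat_lit 4) (nat_lit 304) (nat_lit 238) (nat_lit 178))) (XT.nd (nat_lit 78) (nat_lit 76) (nat_lit 0) (XT.lf (nat_lit 0) (nat_lit 28860031603) (nat_lit 152) (nat_lit 4141964692) (nat_lit 0) (nat_lit 4212267485) (nat_lit 8) (nat_lit 5) (nat_lit 10) (nat_lit 4) (nat_lit 8) (nat_lit 4) (nat_lit 305) (nat_lit 238) (nat_lit 177)) (XT.nd (nat_lit 78) (nat_lit 0) (nat_lit 0) (XT.lf (nat_lit 0) (nat_lit 3750072433) (nat_lit 76) (nat_lit 29898514240) (nat_lit 76) (nat_lit 5187692373) (nat_lit 7) (nat_lit 4) (nat_lit 8) (nat_lit 5) (nat_lit 8) (nat_lit 4) (nat_lit 306) (nat_lit 238) (nat_lit 176)) (XT.lf (nat_lit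 0) (nat_lit 12144975196) (nat_lit 76) (nat_lit 26581416802) (nat_lit 76) (nat_lit 1810539935) (nat_lit 7) (nat_lit 4) (nat_lit 8) (nat_lit 5) (nat_lit 8) (nat_lit 4) (nat_lit 307) (nat_lit 238) (nat_lit 175))))))))
noncomputable def xc105 : XT := (XT.nd (nat_lit 1404) (nat_lit 152) (nat_lit 0) (XT.nd (nat_lit 702) (nat_lit 152) (nat_lit 0) (XT.nd (nat_lit 312) (nat_lit 0) (nat_lit 0) (XT.nd (nat_lit 156) (nat_lit 76) (nat_lit 0) (XT.nd (nat_lit 78) (nat_lit 0) (nat_lit 0) (XT.lf (nat_lit 0) (nat_lit 1660225255) (nat_lit 152) (nat_lit 21424610330) (nat_lit 76) (nat_lit 19237437427) (nat_lit 6) (nat_lit 5) (nat_lit 8) (nat_lit 5) (nat_lit 7) (nat_lit 4) (nat_lit 308) (nat_lit 238) (nat_lit 174)) (XT.lf (nat_lit 0) (nat_lit 5224921751) (nat_lit 152) (nat_lit 14171454168) (nat_lit 76) (nat_lit 24799983395) (nat_lit 6) (nat_lit 5) (nat_lit 8) (nat_lit 5) (nat_lit 7) (nat_lit 4) (nat_lit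 309) (nat_lit 238) (nat_lit 173))) (XT.nd (nat_lit 78) (nat_lit 76) (nat_lit 0) (XT.lf (nat_lit 0) (nat_lit 8949985510) (nat_lit 152) (nat_lit 6586951230) (nat_lit 76) (nat_lit 30628129590) (nat_lit 6) (nat_lit 5) (nat_lit 8) (nat_lit 5) (nat_lit 7) (nat_lit 4) (nat_lit 310) (nat_lit 238) (nat_lit 172)) (XT.lf (nat_lit 0) (nat_lit 1391493299) (nat_lit 76) (nat_lit 11474517541) (nat_lit 152) (nat_lit 35365984360) (nat_lit 5) (nat_lit 5) (nat_lit 6) (nat_lit 5) (nat_lit 7) (nat_lit 4) (nat_lit 311) (nat_lit 238) (nat_lit 171)))) (XT.nd (nat_lit 156) (nat_lit 0) (nat_lit 0) (XT.nd (nat_lit 78) (nat_lit 0) (nat_lit 0) (XT.lf (nat_lit 0) (nat_lit 9968205067) (nat_lit 76) (nat_lit 7104521105) (nat_lit 152) (nat_lit 33324820783) (nat_lit 5) (nat_lit 5) (nat_lit 6) (nat_lit 5) (nat_lit 7) (nat_lit 4) (nat_lit 312) (nat_lit 238) (nat_lit 170)) (XT.lf (nat_lit 0) (nat_lit 18945810459) (nat_lit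 76) (nat_lit 2528095888) (nat_lit 152) (nat_lit 31198283383) (nat_lit 5) (nat_lit 5) (nat_lit 6) (nat_lit 5) (nat_lit 7) (nat_lit 4) (nat_lit 313) (nat_lit 238) (nat_lit 169))) (XT.nd (nat_lit 78) (nat_lit 0) (nat_lit 0) (XT.lf (nat_lit 0) (nat_lit 26115403579) (nat_lit 152) (nat_lit 26751027827) (nat_lit 0) (nat_lit 2193139273) (nat_lit 5) (nat_lit 5) (nat_lit 7) (nat_lit 4) (nat_lit 5) (nat_lit 4) (nat_lit 314) (nat_lit 238) (nat_lit 168)) (XT.nd (nat_lit 78) (nat_lit 0) (nat_lit 0) (XT.lf (nat_lit 0) (nat_lit 31015853529) (nat_lit 152) (nat_lit 19494264055) (nat_lit 0) (nat_lit 7054877235) (nat_lit 5) (nat_lit 5) (nat_lit 7) (nat_lit 4) (nat_lit 5) (nat_lit 4) (nat_lit 315) (nat_lit 238) (nat_lit 167)) (XT.lf (nat_lit 0) (nat_lit 36147453274) (nat_lit 152) (nat_lit 11899339285) (nat_lit 0) (nat_lit 12149608420) (nat_lit 5) (nat_lit 5) (nat_lit 7) (nat_lit 4) (nat_lit 5) (nat_lit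 4) (nat_lit 316) (nat_lit 238) (nat_lit 166)))))) (XT.nd (nat_lit 312) (nat_lit 76) (nat_lit 0) (XT.nd (nat_lit 156) (nat_lit 0) (nat_lit 0) (XT.nd (nat_lit 78) (nat_lit 76) (nat_lit 0) (XT.lf (nat_lit 0) (nat_lit 41522420908) (nat_lit 152) (nat_lit 3948170362) (nat_lit 0) (nat_lit 17489463140) (nat_lit 5) (nat_lit 5) (nat_lit 7) (nat_lit 4) (nat_lit 5) (nat_lit 4) (nat_lit 317) (nat_lit 238) (nat_lit 165)) (XT.lf (nat_lit 0) (nat_lit 4522936275) (nat_lit 76) (nat_lit 42701233410) (nat_lit 76) (nat_lit 18634834771) (nat_lit 4) (nat_lit 4) (nat_lit 5) (nat_lit 5) (nat_lit 5) (nat_lit 4) (nat_lit 318) (nat_lit 238) (nat_lit 164))) (XT.nd (nat_lit 78) (nat_lit 0) (nat_lit 0) (XT.lf (nat_lit 0) (nat_lit 13532647880) (nat_lit 76) (nat_lit 39732894611) (nat_lit 76) (nat_lit 15634647522) (nat_lit 4) (nat_lit 4) (nat_lit 5) (nat_lit 5) (nat_lit 5) (nat_lit 4) (nat_lit 319) (nat_lit 238) (nat_lit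 163)) (XT.lf (nat_lit 0) (nat_lit 22971871805) (nat_lit 76) (nat_lit 36625371573) (nat_lit 76) (nat_lit 12496792629) (nat_lit 4) (nat_lit 4) (nat_lit 5) (nat_lit 5) (nat_lit 5) (nat_lit 4) (nat_lit 320) (nat_lit 238) (nat_lit 162)))) (XT.nd (nat_lit 156) (nat_lit 76) (nat_lit 0) (XT.nd (nat_lit 78) (nat_lit 0) (nat_lit 0) (XT.lf (nat_lit 0) (nat_lit 32863082392) (nat_lit 76) (nat_lit 33371265434) (nat_lit 76) (nat_lit 9213799008) (nat_lit 4) (nat_lit 4) (nat_lit 5) (nat_lit 5) (nat_lit 5) (nat_lit 4) (nat_lit 321) (nat_lit 238) (nat_lit 161)) (XT.lf (nat_lit 0) (nat_lit 43229830143) (nat_lit 76) (nat_lit 29962828322) (nat_lit 76) (nat_lit 5777850009) (nat_lit 4) (nat_lit 4) (nat_lit 5) (nat_lit 5) (nat_lit 5) (nat_lit 4) (nat_lit 322) (nat_lit 238) (nat_lit 160))) (XT.nd (nat_lit 78) (nat_lit 76) (nat_lit 0) (XT.lf (nat_lit 0) (nat_lit 54096797790) (nat_lit 76) (nat_lit 26391944910)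 (nat_lit 76) (nat_lit 2180764799) (nat_lit 4) (nat_lit 4) (nat_lit 5) (nat_lit 5) (nat_lit 5) (nat_lit 4) (nat_lit 323) (nat_lit 238) (nat_lit 159)) (XT.nd (nat_lit 78) (nat_lit 0) (nat_lit 0) (XT.lf (nat_lit 0) (nat_lit 1535258528) (nat_lit 152) (nat_lit 21088854219) (nat_lit 76) (nat_lit 63928600191) (nat_lit 3) (nat_lit 5) (nat_lit 5) (nat_lit 5) (nat_lit 4) (nat_lit 4) (nat_lit 324) (nat_lit 238) (nat_lit 158)) (XT.lf (nat_lit 0) (nat_lit 5354434469) (nat_lit 152) (nat_lit 13283309343) (nat_lit 76) (nat_lit 71991025899) (nat_lit 3) (nat_lit 5) (nat_lit 5) (nat_lit 5) (nat_lit 4) (nat_lit 4) (nat_lit 325) (nat_lit 238) (nat_lit 157))))))) (XT.nd (nat_lit 702) (nat_lit 76) (nat_lit 0) (XT.nd (nat_lit 312) (nat_lit 0) (nat_lit 0) (XT.nd (nat_lit 156) (nat_lit 0) (nat_lit 0) (XT.nd (nat_lit 78) (nat_lit 76) (nat_lit 0) (XT.lf (nat_lit 0) (nat_lit 9355654391) (nat_lit 152) (nat_lit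 5103442601) (nat_lit 76) (nat_lit 80449988116) (nat_lit 3) (nat_lit 5) (nat_lit 5) (nat_lit 5) (nat_lit 4) (nat_lit 4) (nat_lit 326) (nat_lit 238) (nat_lit 156)) (XT.lf (nat_lit 0) (nat_lit 3584963087) (nat_lit 76) (nat_lit 10019453242) (nat_lit 152) (nat_lit 85796635459) (nat_lit 2) (nat_lit 5) (nat_lit 3) (nat_lit 5) (nat_lit 4) (nat_lit 4) (nat_lit 327) (nat_lit 238) (nat_lit 155))) (XT.nd (nat_lit 78) (nat_lit 0) (nat_lit 0) (XT.lf (nat_lit 0) (nat_lit 12870018556) (nat_lit 76) (nat_lit 5273707657) (nat_lit 152) (nat_lit 85969994205) (nat_lit 2) (nat_lit 5) (nat_lit 3) (nat_lit 5) (nat_lit 4) (nat_lit 4) (nat_lit 328) (nat_lit 238) (nat_lit 154)) (XT.lf (nat_lit 0) (nat_lit 22605088221) (nat_lit 76) (nat_lit 296990114) (nat_lit 152) (nat_lit 86160348985) (nat_lit 2) (nat_lit 5) (nat_lit 3) (nat_lit 5) (nat_lit 4) (nat_lit 4) (nat_lit 329) (nat_lit 238) (nat_lit 153)))) (XT.nd (nat_lit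 156) (nat_lit 0) (nat_lit 0) (XT.nd (nat_lit 78) (nat_lit 0) (nat_lit 0) (XT.lf (nat_lit 0) (nat_lit 27967656884) (nat_lit 152) (nat_lit 81522459089) (nat_lit 0) (nat_lit 4764996413) (nat_lit 2) (nat_lit 5) (nat_lit 4) (nat_lit 4) (nat_lit 2) (nat_lit 4) (nat_lit 330) (nat_lit 238) (nat_lit 152)) (XT.lf (nat_lit 0) (nat_lit 33284106991) (nat_lit 152) (nat_lit 76358896348) (nat_lit 0) (nat_lit 10064556607) (nat_lit 2) (nat_lit 5) (nat_lit 4) (nat_lit 4) (nat_lit 2) (nat_lit 4) (nat_lit 331) (nat_lit 238) (nat_lit 151))) (XT.nd (nat_lit 78) (nat_lit 0) (nat_lit 0) (XT.lf (nat_lit 0) (nat_lit 38859450021) (nat_lit 152) (nat_lit 70949719829) (nat_lit 0) (nat_lit 15623814006) (nat_lit 2) (nat_lit 5) (nat_lit 4) (nat_lit 4) (nat_lit 2) (nat_lit 4) (nat_lit 332) (nat_lit 238) (nat_lit 150)) (XT.nd (nat_lit 78) (nat_lit 0) (nat_lit 0) (XT.lf (nat_lit 0) (nat_lit 44706960600) (nat_lit 152)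 (nat_lit 65282050541) (nat_lit 0) (nat_lit 21456004938) (nat_lit 2) (nat_lit 5) (nat_lit 4) (nat_lit 4) (nat_lit 2) (nat_lit 4) (nat_lit 333) (nat_lit 238) (nat_lit 149)) (XT.lf (nat_lit 0) (nat_lit 50840561374) (nat_lit 152) (nat_lit 59342394033) (nat_lit 0) (nat_lit 27575015570) (nat_lit 2) (nat_lit 5) (nat_lit 4) (nat_lit 4) (nat_lit 2) (nat_lit 4) (nat_lit 334) (nat_lit 238) (nat_lit 148)))))) (XT.nd (nat_lit 312) (nat_lit 76) (nat_lit 0) (XT.nd (nat_lit 156) (nat_lit 0) (nat_lit 0) (XT.nd (nat_lit 78) (nat_lit 0) (nat_lit 0) (XT.lf (nat_lit 0) (nat_lit 57274856153) (nat_lit 152) (nat_lit 53116608266) (nat_lit 0) (nat_lit 33995414977) (nat_lit 2) (nat_lit 5) (nat_lit 4) (nat_lit 4) (nat_lit 2) (nat_lit 4) (nat_lit 335) (nat_lit 238) (nat_lit 147)) (XT.lf (nat_lit 0) (nat_lit 64025164688) (nat_lit 152) (nat_lit 46589869941) (nat_lit 0) (nat_lit 40732489823) (nat_lit 2) (nat_lit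 5) (nat_lit 4) (nat_lit 4) (nat_lit 2) (nat_lit 4) (nat_lit 336) (nat_lit 238) (nat_lit 146))) (XT.nd (nat_lit 78) (nat_lit 0) (nat_lit 0) (XT.lf (nat_lit 0) (nat_lit 71107559140) (nat_lit 152) (nat_lit 39746639205) (nat_lit 0) (nat_lit 47802280762) (nat_lit 2) (nat_lit 5) (nat_lit 4) (nat_lit 4) (nat_lit 2) (nat_lit 4) (nat_lit 337) (nat_lit 238) (nat_lit 145)) (XT.lf (nat_lit 0) (nat_lit 78538902354) (nat_lit 152) (nat_lit 32570622650) (nat_lit 0) (nat_lit 55221620632) (nat_lit 2) (nat_lit 5) (nat_lit 4) (nat_lit 4) (nat_lit 2) (nat_lit 4) (nat_lit 338) (nat_lit 238) (nat_lit 144)))) (XT.nd (nat_lit 156) (nat_lit 76) (nat_lit 0) (XT.nd (nat_lit 78) (nat_lit 0) (nat_lit 0) (XT.lf (nat_lit 0) (nat_lit 86336888005) (nat_lit 152) (nat_lit 25044734524) (nat_lit 0) (nat_lit 63008174525) (nat_lit 2) (nat_lit 5) (nat_lit 4) (nat_lit 4) (nat_lit 2) (nat_lit 4) (nat_lit 339) (nat_lit 238)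 (nat_lit 143)) (XT.lf (nat_lit 0) (nat_lit 94520082725) (nat_lit 152) (nat_lit 17151056045) (nat_lit 0) (nat_lit 71180481856) (nat_lit 2) (nat_lit 5) (nat_lit 4) (nat_lit 4) (nat_lit 2) (nat_lit 4) (nat_lit 340) (nat_lit 238) (nat_lit 142))) (XT.nd (nat_lit 78) (nat_lit 76) (nat_lit 0) (XT.lf (nat_lit 0) (nat_lit 103107970310) (nat_lit 152) (nat_lit 8870792740) (nat_lit 0) (nat_lit 79758000501) (nat_lit 2) (nat_lit 5) (nat_lit 4) (nat_lit 4) (nat_lit 2) (nat_lit 4) (nat_lit 341) (nat_lit 238) (nat_lit 141)) (XT.nd (nat_lit 78) (nat_lit 76) (nat_lit 0) (XT.lf (nat_lit 0) (nat_lit 112120998113) (nat_lit 152) (nat_lit 184229696) (nat_lit 0) (nat_lit 88761153121) (nat_lit 2) (nat_lit 5) (nat_lit 4) (nat_lit 4) (nat_lit 2) (nat_lit 4) (nat_lit 342) (nat_lit 238) (nat_lit 140)) (XT.lf (nat_lit 0) (nat_lit 9224558869) (nat_lit 76) (nat_lit 112500088068) (nat_lit 76) (nat_lit 89130838142)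 (nat_lit 1) (nat_lit 4) (nat_lit 2) (nat_lit 5) (nat_lit 2) (nat_lit 4) (nat_lit 343) (nat_lit 238) (nat_lit 139))))))))
noncomputable def xc106 : XT := (XT.nd (nat_lit 1404) (nat_lit 0) (nat_lit 0) (XT.nd (nat_lit 702) (nat_lit 0) (nat_lit 0) (XT.nd (nat_lit 312) (nat_lit 0) (nat_lit 0) (XT.nd (nat_lit 156) (nat_lit 0) (nat_lit 0) (XT.nd (nat_lit 78) (nat_lit 0) (nat_lit 0) (XT.lf (nat_lit 0) (nat_lit 19102955268) (nat_lit 76) (nat_lit 112704671461) (nat_lit 76) (nat_lit 89326464454) (nat_lit 1) (nat_lit 4) (nat_lit 2) (nat_lit 5) (nat_lit 2) (nat_lit 4) (nat_lit 344) (nat_lit 238) (nat_lit 138)) (XT.lf (nat_lit 0) (nat_lit 29468388025) (nat_lit 76) (nat_lit 112922585111) (nat_lit 76) (nat_lit 89535847550) (nat_lit 1) (nat_lit 4) (nat_lit 2) (nat_lit 5) (nat_lit 2) (nat_lit 4) (nat_lit 345) (nat_lit 238) (nat_lit 137))) (XT.nd (nat_lit 78) (nat_lit 0) (nat_lit 0) (XT.lf (nat_lit 0)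 (nat_lit 40345536741) (nat_lit 76) (nat_lit 113154347858) (nat_lit 76) (nat_lit 89759485961) (nat_lit 1) (nat_lit 4) (nat_lit 2) (nat_lit 5) (nat_lit 2) (nat_lit 4) (nat_lit 346) (nat_lit 238) (nat_lit 136)) (XT.lf (nat_lit 0) (nat_lit 51760299391) (nat_lit 76) (nat_lit 113400511521) (nat_lit 76) (nat_lit 89997912160) (nat_lit 1) (nat_lit 4) (nat_lit 2) (nat_lit 5) (nat_lit 2) (nat_lit 4) (nat_lit 347) (nat_lit 238) (nat_lit 135)))) (XT.nd (nat_lit 156) (nat_lit 0) (nat_lit 0) (XT.nd (nat_lit 78) (nat_lit 0) (nat_lit 0) (XT.lf (nat_lit 0) (nat_lit 63739853979) (nat_lit 76) (nat_lit 113661662201) (nat_lit 76) (nat_lit 90251693828) (nat_lit 1) (nat_lit 4) (nat_lit 2) (nat_lit 5) (nat_lit 2) (nat_lit 4) (nat_lit 348) (nat_lit 238) (nat_lit 134)) (XT.lf (nat_lit 0) (nat_lit 76312723256) (nat_lit 76) (nat_lit 113938421688) (nat_lit 76) (nat_lit 90521435207) (nat_lit 1) (nat_lit 4) (nat_lit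 2) (nat_lit 5) (nat_lit 2) (nat_lit 4) (nat_lit 349) (nat_lit 238) (nat_lit 133))) (XT.nd (nat_lit 78) (nat_lit 0) (nat_lit 0) (XT.lf (nat_lit 0) (nat_lit 89508842624) (nat_lit 76) (nat_lit 114231448932) (nat_lit 76) (nat_lit 90807778539) (nat_lit 1) (nat_lit 4) (nat_lit 2) (nat_lit 5) (nat_lit 2) (nat_lit 4) (nat_lit 350) (nat_lit 238) (nat_lit 132)) (XT.nd (nat_lit 78) (nat_lit 0) (nat_lit 0) (XT.lf (nat_lit 0) (nat_lit 103359631415) (nat_lit 76) (nat_lit 114541441616) (nat_lit 76) (nat_lit 91111405593) (nat_lit 1) (nat_lit 4) (nat_lit 2) (nat_lit 5) (nat_lit 2) (nat_lit 4) (nat_lit 351) (nat_lit 238) (nat_lit 131)) (XT.lf (nat_lit 0) (nat_lit 117898067697) (nat_lit 76) (nat_lit 114869137819) (nat_lit 76) (nat_lit 91433039291) (nat_lit 1) (nat_lit 4) (nat_lit 2) (nat_lit 5) (nat_lit 2) (nat_lit 4) (nat_lit 352) (nat_lit 238) (nat_lit 130)))))) (XT.nd (nat_lit 312) (nat_lit 0) (nat_lit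 0) (XT.nd (nat_lit 156) (nat_lit 0) (nat_lit 0) (XT.nd (nat_lit 78) (nat_lit 0) (nat_lit 0) (XT.lf (nat_lit 0) (nat_lit 133158766795) (nat_lit 76) (nat_lit 115215317770) (nat_lit 76) (nat_lit 91773445427) (nat_lit 1) (nat_lit 4) (nat_lit 2) (nat_lit 5) (nat_lit 2) (nat_lit 4) (nat_lit 353) (nat_lit 238) (nat_lit 129)) (XT.lf (nat_lit 0) (nat_lit 149178063708) (nat_lit 76) (nat_lit 115580805706) (nat_lit 76) (nat_lit 92133434493) (nat_lit 1) (nat_lit 4) (nat_lit 2) (nat_lit 5) (nat_lit 2) (nat_lit 4) (nat_lit 354) (nat_lit 238) (nat_lit 128))) (XT.nd (nat_lit 78) (nat_lit 0) (nat_lit 0) (XT.lf (nat_lit 0) (nat_lit 165994099617) (nat_lit 76) (nat_lit 115966471838) (nat_lit 76) (nat_lit 92513863605) (nat_lit 1) (nat_lit 4) (nat_lit 2) (nat_lit 5) (nat_lit 2) (nat_lit 4) (nat_lit 355) (nat_lit 238) (nat_lit 127)) (XT.lf (nat_lit 0) (nat_lit 183646912704) (nat_lit 76) (nat_lit 116373234418)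 (nat_lit 76) (nat_lit 92915638546) (nat_lit 1) (nat_lit 4) (nat_lit 2) (nat_lit 5) (nat_lit 2) (nat_lit 4) (nat_lit 356) (nat_lit 238) (nat_lit 126)))) (XT.nd (nat_lit 156) (nat_lit 0) (nat_lit 0) (XT.nd (nat_lit 78) (nat_lit 0) (nat_lit 0) (XT.lf (nat_lit 0) (nat_lit 202178533477) (nat_lit 76) (nat_lit 116802061927) (nat_lit 76) (nat_lit 93339715925) (nat_lit 1) (nat_lit 4) (nat_lit 2) (nat_lit 5) (nat_lit 2) (nat_lit 4) (nat_lit 357) (nat_lit 238) (nat_lit 125)) (XT.lf (nat_lit 0) (nat_lit 221633084841) (nat_lit 76) (nat_lit 117253975385) (nat_lit 76) (nat_lit 93787105448) (nat_lit 1) (nat_lit 4) (nat_lit 2) (nat_lit 5) (nat_lit 2) (nat_lit 4) (nat_lit 358) (nat_lit 238) (nat_lit 124))) (XT.nd (nat_lit 78) (nat_lit 0) (nat_lit 0) (XT.lf (nat_lit 0) (nat_lit 242056887157) (nat_lit 76) (nat_lit 117730050775) (nat_lit 76) (nat_lit 94258872329) (nat_lit 1) (nat_lit 4) (nat_lit 2) (nat_lit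 5) (nat_lit 2) (nat_lit 4) (nat_lit 359) (nat_lit 238) (nat_lit 123)) (XT.nd (nat_lit 78) (nat_lit 0) (nat_lit 0) (XT.lf (nat_lit 0) (nat_lit 263498568526) (nat_lit 76) (nat_lit 118231421610) (nat_lit 76) (nat_lit 94756139822) (nat_lit 1) (nat_lit 4) (nat_lit 2) (nat_lit 5) (nat_lit 2) (nat_lit 4) (nat_lit 360) (nat_lit 238) (nat_lit 122)) (XT.lf (nat_lit 0) (nat_lit 286009180570) (nat_lit 76) (nat_lit 118759281631) (nat_lit 76) (nat_lit 95280091898) (nat_lit 1) (nat_lit 4) (nat_lit 2) (nat_lit 5) (nat_lit 2) (nat_lit 4) (nat_lit 361) (nat_lit 238) (nat_lit 121))))))) (XT.nd (nat_lit 28704) (nat_lit 0) (nat_lit 5624) (XT.nd (nat_lit 28314) (nat_lit 0) (nat_lit 8132) (XT.nd (nat_lit 28158) (nat_lit 0) (nat_lit 8664) (XT.nd (nat_lit 78) (nat_lit 0) (nat_lit 0) (XT.lf (nat_lit 0) (nat_lit 309642319984) (nat_lit 76) (nat_lit 119314887647) (nat_lit 76) (nat_lit 95831976061) (nat_lit 1)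 (nat_lit 4) (nat_lit 2) (nat_lit 5) (nat_lit 2) (nat_lit 4) (nat_lit 362) (nat_lit 238) (nat_lit 120)) (XT.lf (nat_lit 0) (nat_lit 334454256149) (nat_lit 76) (nat_lit 119899562529) (nat_lit 76) (nat_lit 96413106322) (nat_lit 1) (nat_lit 4) (nat_lit 2) (nat_lit 5) (nat_lit 2) (nat_lit 4) (nat_lit 363) (nat_lit 238) (nat_lit 119))) (XT.nd (nat_lit 78) (nat_lit 76) (nat_lit 0) (XT.lf (nat_lit 0) (nat_lit 1464971099) (nat_lit 76) (nat_lit 296755333) (nat_lit 0) (nat_lit 1464971099) (nat_lit 116) (nat_lit 5) (nat_lit 117) (nat_lit 0) (nat_lit 116) (nat_lit 4) (nat_lit 242) (nat_lit 239) (nat_lit 239)) (XT.lf (nat_lit 0) (nat_lit 2505033043) (nat_lit 76) (nat_lit 3268060794) (nat_lit 76) (nat_lit 696923909) (nat_lit 115) (nat_lit 4) (nat_lit 116) (nat_lit 5) (nat_lit 116) (nat_lit 4) (nat_lit 243) (nat_lit 239) (nat_lit 238)))) (XT.nd (nat_lit 156) (nat_lit 304) (nat_lit 0) (XT.nd (nat_lit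 78) (nat_lit 152) (nat_lit 0) (XT.lf (nat_lit 0) (nat_lit 2034320761) (nat_lit 152) (nat_lit 849481119) (nat_lit 76) (nat_lit 3611179788) (nat_lit 114) (nat_lit 5) (nat_lit 116) (nat_lit 5) (nat_lit 115) (nat_lit 4) (nat_lit 244) (nat_lit 239) (nat_lit 237)) (XT.lf (nat_lit 0) (nat_lit 2385779132) (nat_lit 152) (nat_lit 2364325628) (nat_lit 228) (nat_lit 1777982664) (nat_lit 112) (nat_lit 5) (nat_lit 114) (nat_lit 5) (nat_lit 115) (nat_lit 4) (nat_lit 245) (nat_lit 239) (nat_lit 236))) (XT.nd (nat_lit 78) (nat_lit 228) (nat_lit 0) (XT.lf (nat_lit 0) (nat_lit 857130382) (nat_lit 228) (nat_lit 871945158) (nat_lit 76) (nat_lit 4841323078) (nat_lit 111) (nat_lit 5) (nat_lit 114) (nat_lit 5) (nat_lit 112) (nat_lit 5) (nat_lit 246) (nat_lit 239) (nat_lit 235)) (XT.nd (nat_lit 78) (nat_lit 0) (nat_lit 0) (XT.lf (nat_lit 0) (nat_lit 2512582848) (nat_lit 228) (nat_lit 935585871) (nat_lit 304)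 (nat_lit 3171897119) (nat_lit 108) (nat_lit 5) (nat_lit 111) (nat_lit 5) (nat_lit 112) (nat_lit 5) (nat_lit 247) (nat_lit 239) (nat_lit 234)) (XT.lf (nat_lit 0) (nat_lit 5997607827) (nat_lit 228) (nat_lit 36460894) (nat_lit 304) (nat_lit 645733547) (nat_lit 108) (nat_lit 5) (nat_lit 111) (nat_lit 5) (nat_lit 112) (nat_lit 5) (nat_lit 248) (nat_lit 239) (nat_lit 233)))))) (XT.nd (nat_lit 312) (nat_lit 1216) (nat_lit 0) (XT.nd (nat_lit 156) (nat_lit 912) (nat_lit 0) (XT.nd (nat_lit 78) (nat_lit 0) (nat_lit 0) (XT.lf (nat_lit 0) (nat_lit 1858073151) (nat_lit 380) (nat_lit 3887708606) (nat_lit 76) (nat_lit 1000171255) (nat_lit 103) (nat_lit 5) (nat_lit 108) (nat_lit 5) (nat_lit 104) (nat_lit 5) (nat_lit 249) (nat_lit 239) (nat_lit 232)) (XT.lf (nat_lit 0) (nat_lit 4338296607) (nat_lit 380) (nat_lit 333466494) (nat_lit 76) (nat_lit 2150207952) (nat_lit 103) (nat_lit 5) (nat_lit 108) (nat_lit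 5) (nat_lit 104) (nat_lit 5) (nat_lit 250) (nat_lit 239) (nat_lit 231))) (XT.nd (nat_lit 78) (nat_lit 532) (nat_lit 0) (XT.lf (nat_lit 0) (nat_lit 3405927823) (nat_lit 380) (nat_lit 3457005102) (nat_lit 456) (nat_lit 43537385) (nat_lit 98) (nat_lit 5) (nat_lit 103) (nat_lit 5) (nat_lit 104) (nat_lit 5) (nat_lit 251) (nat_lit 239) (nat_lit 230)) (XT.lf (nat_lit 0) (nat_lit 211417192) (nat_lit 456) (nat_lit 2104862732) (nat_lit 532) (nat_lit 4683669533) (nat_lit 91) (nat_lit 5) (nat_lit 97) (nat_lit 5) (nat_lit 98) (nat_lit 5) (nat_lit 252) (nat_lit 239) (nat_lit 229)))) (XT.nd (nat_lit 156) (nat_lit 684) (nat_lit 0) (XT.nd (nat_lit 78) (nat_lit 532) (nat_lit 0) (XT.lf (nat_lit 0) (nat_lit 4126568963) (nat_lit 456) (nat_lit 599186841) (nat_lit 532) (nat_lit 2376259558) (nat_lit 91) (nat_lit 5) (nat_lit 97) (nat_lit 5) (nat_lit 98) (nat_lit 5) (nat_lit 253) (nat_lit 239) (nat_lit 228))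 (XT.lf (nat_lit 0) (nat_lit 937770758) (nat_lit 532) (nat_lit 6228110992) (nat_lit 608) (nat_lit 48370217) (nat_lit 84) (nat_lit 5) (nat_lit 91) (nat_lit 5) (nat_lit 92) (nat_lit 5) (nat_lit 254) (nat_lit 239) (nat_lit 227))) (XT.nd (nat_lit 78) (nat_lit 608) (nat_lit 0) (XT.lf (nat_lit 0) (nat_lit 2262135949) (nat_lit 608) (nat_lit 2335628077) (nat_lit 76) (nat_lit 2735843349) (nat_lit 83) (nat_lit 5) (nat_lit 91) (nat_lit 5) (nat_lit 84) (nat_lit 5) (nat_lit 255) (nat_lit 239) (nat_lit 226)) (XT.nd (nat_lit 78) (nat_lit 0) (nat_lit 0) (XT.lf (nat_lit 0) (nat_lit 1754839609) (nat_lit 608) (nat_lit 2846592719) (nat_lit 684) (nat_lit 2862211814) (nat_lit 75) (nat_lit 5) (nat_lit 83) (nat_lit 5) (nat_lit 84) (nat_lit 5) (nat_lit 256) (nat_lit 239) (nat_lit 225)) (XT.lf (nat_lit 0) (nat_lit 6029775517) (nat_lit 608) (nat_lit 958743872) (nat_lit 684) (nat_lit 615596120) (nat_lit 75) (nat_lit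 5) (nat_lit 83) (nat_lit 5) (nat_lit 84) (nat_lit 5) (nat_lit 257) (nat_lit 239) (nat_lit 224))))))))
noncomputable def xc107 : XT := (XT.nd (nat_lit 1404) (nat_lit 1292) (nat_lit 0) (XT.nd (nat_lit 702) (nat_lit 1216) (nat_lit 0) (XT.nd (nat_lit 312) (nat_lit 684) (nat_lit 0) (XT.nd (nat_lit 156) (nat_lit 760) (nat_lit 0) (XT.nd (nat_lit 78) (nat_lit 0) (nat_lit 0) (XT.lf (nat_lit 0) (nat_lit 1641645332) (nat_lit 760) (nat_lit 5044395941) (nat_lit 76) (nat_lit 1066933572) (nat_lit 65) (nat_lit 5) (nat_lit 75) (nat_lit 5) (nat_lit 66) (nat_lit 5) (nat_lit 258) (nat_lit 239) (nat_lit 223)) (XT.lf (nat_lit 0) (nat_lit 3931739341) (nat_lit 760) (nat_lit 778097508) (nat_lit 76) (nat_lit 3202311291) (nat_lit 65) (nat_lit 5) (nat_lit 75) (nat_lit 5) (nat_lit 66) (nat_lit 5) (nat_lit 259) (nat_lit 239) (nat_lit 222))) (XT.nd (nat_lit 78) (nat_lit 456) (nat_lit 0) (XT.lf (nat_lit 0) (nat_lit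 3721376654) (nat_lit 304) (nat_lit 2575788366) (nat_lit 380) (nat_lit 1784463740) (nat_lit 61) (nat_lit 5) (nat_lit 65) (nat_lit 5) (nat_lit 66) (nat_lit 5) (nat_lit 260) (nat_lit 239) (nat_lit 221)) (XT.lf (nat_lit 0) (nat_lit 107834523) (nat_lit 380) (nat_lit 315767127) (nat_lit 456) (nat_lit 7839978215) (nat_lit 55) (nat_lit 5) (nat_lit 60) (nat_lit 5) (nat_lit 61) (nat_lit 5) (nat_lit 261) (nat_lit 239) (nat_lit 220)))) (XT.nd (nat_lit 156) (nat_lit 380) (nat_lit 0) (XT.nd (nat_lit 78) (nat_lit 304) (nat_lit 0) (XT.lf (nat_lit 0) (nat_lit 2696123023) (nat_lit 456) (nat_lit 3667248424) (nat_lit 76) (nat_lit 2089430185) (nat_lit 55) (nat_lit 5) (nat_lit 61) (nat_lit 5) (nat_lit 56) (nat_lit 5) (nat_lit 262) (nat_lit 239) (nat_lit 219)) (XT.lf (nat_lit 0) (nat_lit 972152665) (nat_lit 304) (nat_lit 4041757438) (nat_lit 380) (nat_lit 3641313264) (nat_lit 51) (nat_lit 5) (nat_lit 55)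 (nat_lit 5) (nat_lit 56) (nat_lit 5) (nat_lit 263) (nat_lit 239) (nat_lit 218))) (XT.nd (nat_lit 78) (nat_lit 380) (nat_lit 0) (XT.lf (nat_lit 0) (nat_lit 5872987452) (nat_lit 304) (nat_lit 1550687541) (nat_lit 380) (nat_lit 1445592352) (nat_lit 51) (nat_lit 5) (nat_lit 55) (nat_lit 5) (nat_lit 56) (nat_lit 5) (nat_lit 264) (nat_lit 239) (nat_lit 217)) (XT.nd (nat_lit 78) (nat_lit 0) (nat_lit 0) (XT.lf (nat_lit 0) (nat_lit 795251044) (nat_lit 380) (nat_lit 7238253101) (nat_lit 76) (nat_lit 1061972310) (nat_lit 46) (nat_lit 5) (nat_lit 51) (nat_lit 5) (nat_lit 47) (nat_lit 5) (nat_lit 265) (nat_lit 239) (nat_lit 216)) (XT.lf (nat_lit 0) (nat_lit 3095292140) (nat_lit 380) (nat_lit 2421770232) (nat_lit 76) (nat_lit 3815225864) (nat_lit 46) (nat_lit 5) (nat_lit 51) (nat_lit 5) (nat_lit 47) (nat_lit 5) (nat_lit 266) (nat_lit 239) (nat_lit 215)))))) (XT.nd (nat_lit 312) (nat_lit 684) (nat_lit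 0) (XT.nd (nat_lit 156) (nat_lit 304) (nat_lit 0) (XT.nd (nat_lit 78) (nat_lit 0) (nat_lit 0) (XT.lf (nat_lit 0) (nat_lit 2625486831) (nat_lit 228) (nat_lit 2848449662) (nat_lit 304) (nat_lit 4109075456) (nat_lit 43) (nat_lit 5) (nat_lit 46) (nat_lit 5) (nat_lit 47) (nat_lit 5) (nat_lit 267) (nat_lit 239) (nat_lit 214)) (XT.lf (nat_lit 0) (nat_lit 7916620670) (nat_lit 228) (nat_lit 20756286) (nat_lit 304) (nat_lit 1910841126) (nat_lit 43) (nat_lit 5) (nat_lit 46) (nat_lit 5) (nat_lit 47) (nat_lit 5) (nat_lit 268) (nat_lit 239) (nat_lit 213))) (XT.nd (nat_lit 78) (nat_lit 0) (nat_lit 0) (XT.lf (nat_lit 0) (nat_lit 410734628) (nat_lit 304) (nat_lit 6818282060) (nat_lit 76) (nat_lit 2896267555) (nat_lit 39) (nat_lit 5) (nat_lit 43) (nat_lit 5) (nat_lit 40) (nat_lit 5) (nat_lit 269) (nat_lit 239) (nat_lit 212)) (XT.lf (nat_lit 0) (nat_lit 2746588161) (nat_lit 304) (nat_lit 1664962762)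 (nat_lit 76) (nat_lit 6005172565) (nat_lit 39) (nat_lit 5) (nat_lit 43) (nat_lit 5) (nat_lit 40) (nat_lit 5) (nat_lit 270) (nat_lit 239) (nat_lit 211)))) (XT.nd (nat_lit 156) (nat_lit 456) (nat_lit 0) (XT.nd (nat_lit 78) (nat_lit 0) (nat_lit 0) (XT.lf (nat_lit 0) (nat_lit 3778594124) (nat_lit 228) (nat_lit 1411850603) (nat_lit 304) (nat_lit 5532926433) (nat_lit 36) (nat_lit 5) (nat_lit 39) (nat_lit 5) (nat_lit 40) (nat_lit 5) (nat_lit 271) (nat_lit 239) (nat_lit 210)) (XT.lf (nat_lit 0) (nat_lit 7746043802) (nat_lit 304) (nat_lit 1609500169) (nat_lit 76) (nat_lit 1690517359) (nat_lit 36) (nat_lit 5) (nat_lit 40) (nat_lit 5) (nat_lit 37) (nat_lit 5) (nat_lit 272) (nat_lit 239) (nat_lit 209))) (XT.nd (nat_lit 78) (nat_lit 228) (nat_lit 0) (XT.lf (nat_lit 0) (nat_lit 4011998073) (nat_lit 228) (nat_lit 6440120778) (nat_lit 304) (nat_lit 931811022) (nat_lit 33) (nat_lit 5) (nat_lit 36)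 (nat_lit 5) (nat_lit 37) (nat_lit 5) (nat_lit 273) (nat_lit 239) (nat_lit 208)) (XT.nd (nat_lit 78) (nat_lit 152) (nat_lit 0) (XT.lf (nat_lit 0) (nat_lit 1470174025) (nat_lit 304) (nat_lit 1878254638) (nat_lit 76) (nat_lit 8390954908) (nat_lit 32) (nat_lit 5) (nat_lit 36) (nat_lit 5) (nat_lit 33) (nat_lit 5) (nat_lit 274) (nat_lit 239) (nat_lit 207)) (XT.lf (nat_lit 0) (nat_lit 3917694440) (nat_lit 152) (nat_lit 44821974) (nat_lit 228) (nat_lit 8149405448) (nat_lit 30) (nat_lit 5) (nat_lit 32) (nat_lit 5) (nat_lit 33) (nat_lit 5) (nat_lit 275) (nat_lit 239) (nat_lit 206))))))) (XT.nd (nat_lit 702) (nat_lit 532) (nat_lit 0) (XT.nd (nat_lit 312) (nat_lit 304) (nat_lit 0) (XT.nd (nat_lit 156) (nat_lit 228) (nat_lit 0) (XT.nd (nat_lit 78) (nat_lit 228) (nat_lit 0) (XT.lf (nat_lit 0) (nat_lit 6606879364) (nat_lit 228) (nat_lit 2570708335) (nat_lit 76) (nat_lit 3324276184) (nat_lit 30) (nat_lit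 5) (nat_lit 33) (nat_lit 5) (nat_lit 31) (nat_lit 5) (nat_lit 276) (nat_lit 239) (nat_lit 205)) (XT.lf (nat_lit 0) (nat_lit 3360934912) (nat_lit 228) (nat_lit 6020129316) (nat_lit 304) (nat_lit 3530498579) (nat_lit 27) (nat_lit 5) (nat_lit 30) (nat_lit 5) (nat_lit 31) (nat_lit 5) (nat_lit 277) (nat_lit 239) (nat_lit 204))) (XT.nd (nat_lit 78) (nat_lit 228) (nat_lit 0) (XT.lf (nat_lit 0) (nat_lit 9599810115) (nat_lit 228) (nat_lit 2683500465) (nat_lit 304) (nat_lit 1059101812) (nat_lit 27) (nat_lit 5) (nat_lit 30) (nat_lit 5) (nat_lit 31) (nat_lit 5) (nat_lit 278) (nat_lit 239) (nat_lit 203)) (XT.lf (nat_lit 0) (nat_lit 1483922263) (nat_lit 228) (nat_lit 11478256258) (nat_lit 76) (nat_lit 831687166) (nat_lit 24) (nat_lit 5) (nat_lit 27) (nat_lit 5) (nat_lit 25) (nat_lit 5) (nat_lit 279) (nat_lit 239) (nat_lit 202)))) (XT.nd (nat_lit 156) (nat_lit 152) (nat_lit 0) (XT.nd (nat_lit 78)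 (nat_lit 152) (nat_lit 0) (XT.lf (nat_lit 0) (nat_lit 4175292512) (nat_lit 228) (nat_lit 5598226959) (nat_lit 76) (nat_lit 4490779843) (nat_lit 24) (nat_lit 5) (nat_lit 27) (nat_lit 5) (nat_lit 25) (nat_lit 5) (nat_lit 280) (nat_lit 239) (nat_lit 201)) (XT.lf (nat_lit 0) (nat_lit 518319282) (nat_lit 152) (nat_lit 6441836870) (nat_lit 228) (nat_lit 7800261915) (nat_lit 22) (nat_lit 5) (nat_lit 24) (nat_lit 5) (nat_lit 25) (nat_lit 5) (nat_lit 281) (nat_lit 239) (nat_lit 200))) (XT.nd (nat_lit 78) (nat_lit 152) (nat_lit 0) (XT.lf (nat_lit 0) (nat_lit 7062171400) (nat_lit 152) (nat_lit 2868936177) (nat_lit 228) (nat_lit 5347997411) (nat_lit 22) (nat_lit 5) (nat_lit 24) (nat_lit 5) (nat_lit 25) (nat_lit 5) (nat_lit 282) (nat_lit 239) (nat_lit 199)) (XT.nd (nat_lit 78) (nat_lit 152) (nat_lit 0) (XT.lf (nat_lit 0) (nat_lit 13018336039) (nat_lit 228) (nat_lit 1975711954) (nat_lit 76) (nat_lit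 831391278) (nat_lit 22) (nat_lit 5) (nat_lit 25) (nat_lit 5) (nat_lit 23) (nat_lit 4) (nat_lit 283) (nat_lit 239) (nat_lit 198)) (XT.lf (nat_lit 0) (nat_lit 4610069250) (nat_lit 152) (nat_lit 11725006851) (nat_lit 228) (nat_lit 60351409) (nat_lit 20) (nat_lit 5) (nat_lit 22) (nat_lit 5) (nat_lit 23) (nat_lit 4) (nat_lit 284) (nat_lit 239) (nat_lit 197)))))) (XT.nd (nat_lit 312) (nat_lit 304) (nat_lit 0) (XT.nd (nat_lit 156) (nat_lit 0) (nat_lit 0) (XT.nd (nat_lit 78) (nat_lit 152) (nat_lit 0) (XT.lf (nat_lit 0) (nat_lit 2723765622) (nat_lit 228) (nat_lit 5511596718) (nat_lit 76) (nat_lit 8756914196) (nat_lit 19) (nat_lit 5) (nat_lit 22) (nat_lit 5) (nat_lit 20) (nat_lit 5) (nat_lit 285) (nat_lit 239) (nat_lit 196)) (XT.lf (nat_lit 0) (nat_lit 1043056100) (nat_lit 152) (nat_lit 4576762289) (nat_lit 228) (nat_lit 12000444101) (nat_lit 17) (nat_lit 5) (nat_lit 19) (nat_lit 5) (nat_lit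 20) (nat_lit 5) (nat_lit 286) (nat_lit 239) (nat_lit 195))) (XT.nd (nat_lit 78) (nat_lit 0) (nat_lit 0) (XT.lf (nat_lit 0) (nat_lit 8052651489) (nat_lit 152) (nat_lit 660812985) (nat_lit 228) (nat_lit 9563621684) (nat_lit 17) (nat_lit 5) (nat_lit 19) (nat_lit 5) (nat_lit 20) (nat_lit 5) (nat_lit 287) (nat_lit 239) (nat_lit 194)) (XT.lf (nat_lit 0) (nat_lit 11976700971) (nat_lit 228) (nat_lit 3670643552) (nat_lit 76) (nat_lit 3318735323) (nat_lit 17) (nat_lit 5) (nat_lit 20) (nat_lit 5) (nat_lit 18) (nat_lit 4) (nat_lit 288) (nat_lit 239) (nat_lit 193)))) (XT.nd (nat_lit 156) (nat_lit 228) (nat_lit 0) (XT.nd (nat_lit 78) (nat_lit 0) (nat_lit 0) (XT.lf (nat_lit 0) (nat_lit 3244082211) (nat_lit 76) (nat_lit 12183384397) (nat_lit 152) (nat_lit 4260908948) (nat_lit 16) (nat_lit 5) (nat_lit 17) (nat_lit 5) (nat_lit 18) (nat_lit 4) (nat_lit 289) (nat_lit 239) (nat_lit 192)) (XT.lf (nat_lit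 0) (nat_lit 10573191674) (nat_lit 76) (nat_lit 8503477596) (nat_lit 152) (nat_lit 1368889182) (nat_lit 16) (nat_lit 5) (nat_lit 17) (nat_lit 5) (nat_lit 18) (nat_lit 4) (nat_lit 290) (nat_lit 239) (nat_lit 191))) (XT.nd (nat_lit 78) (nat_lit 152) (nat_lit 0) (XT.lf (nat_lit 0) (nat_lit 1579187003) (nat_lit 152) (nat_lit 3055095262) (nat_lit 76) (nat_lit 16606835744) (nat_lit 15) (nat_lit 5) (nat_lit 17) (nat_lit 5) (nat_lit 16) (nat_lit 5) (nat_lit 291) (nat_lit 239) (nat_lit 190)) (XT.nd (nat_lit 78) (nat_lit 0) (nat_lit 0) (XT.lf (nat_lit 0) (nat_lit 4159231436) (nat_lit 152) (nat_lit 500877032) (nat_lit 228) (nat_lit 17413710949) (nat_lit 13) (nat_lit 5) (nat_lit 15) (nat_lit 5) (nat_lit 16) (nat_lit 5) (nat_lit 292) (nat_lit 239) (nat_lit 189)) (XT.lf (nat_lit 0) (nat_lit 7974544153) (nat_lit 228) (nat_lit 11220993571) (nat_lit 76) (nat_lit 3748700161) (nat_lit 13) (nat_lit 5)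 (nat_lit 16) (nat_lit 5) (nat_lit 14) (nat_lit 4) (nat_lit 293) (nat_lit 239) (nat_lit 188))))))))
noncomputable def xc108 : XT := (XT.nd (nat_lit 1404) (nat_lit 304) (nat_lit 0) (XT.nd (nat_lit 702) (nat_lit 152) (nat_lit 0) (XT.nd (nat_lit 312) (nat_lit 304) (nat_lit 0) (XT.nd (nat_lit 156) (nat_lit 0) (nat_lit 0) (XT.nd (nat_lit 78) (nat_lit 76) (nat_lit 0) (XT.lf (nat_lit 0) (nat_lit 11431426810) (nat_lit 228) (nat_lit 4253288916) (nat_lit 76) (nat_lit 8174678053) (nat_lit 13) (nat_lit 5) (nat_lit 16) (nat_lit 5) (nat_lit 14) (nat_lit 4) (nat_lit 294) (nat_lit 239) (nat_lit 187)) (XT.lf (nat_lit 0) (nat_lit 3112557117) (nat_lit 76) (nat_lit 11967205641) (nat_lit 152) (nat_lit 9739664501) (nat_lit 12) (nat_lit 5) (nat_lit 13) (nat_lit 5) (nat_lit 14) (nat_lit 4) (nat_lit 295) (nat_lit 239) (nat_lit 186))) (XT.nd (nat_lit 78) (nat_lit 0) (nat_lit 0) (XT.lf (nat_lit 0) (nat_lit 10945299195)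 (nat_lit 76) (nat_lit 8007923187) (nat_lit 152) (nat_lit 6872152542) (nat_lit 12) (nat_lit 5) (nat_lit 13) (nat_lit 5) (nat_lit 14) (nat_lit 4) (nat_lit 296) (nat_lit 239) (nat_lit 185)) (XT.lf (nat_lit 0) (nat_lit 19122953763) (nat_lit 76) (nat_lit 3869473008) (nat_lit 152) (nat_lit 3890635188) (nat_lit 12) (nat_lit 5) (nat_lit 13) (nat_lit 5) (nat_lit 14) (nat_lit 4) (nat_lit 297) (nat_lit 239) (nat_lit 184)))) (XT.nd (nat_lit 156) (nat_lit 76) (nat_lit 0) (XT.nd (nat_lit 78) (nat_lit 228) (nat_lit 0) (XT.lf (nat_lit 0) (nat_lit 27214143718) (nat_lit 152) (nat_lit 337165878) (nat_lit 0) (nat_lit 443339541) (nat_lit 12) (nat_lit 5) (nat_lit 14) (nat_lit 4) (nat_lit 12) (nat_lit 4) (nat_lit 298) (nat_lit 239) (nat_lit 183)) (XT.lf (nat_lit 0) (nat_lit 2564500371) (nat_lit 228) (nat_lit 21602307001) (nat_lit 76) (nat_lit 4985162216) (nat_lit 9) (nat_lit 5) (nat_lit 12) (nat_lit 5) (nat_lit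 10) (nat_lit 4) (nat_lit 299) (nat_lit 239) (nat_lit 182))) (XT.nd (nat_lit 78) (nat_lit 76) (nat_lit 0) (XT.lf (nat_lit 0) (nat_lit 6030835368) (nat_lit 228) (nat_lit 14580823673) (nat_lit 76) (nat_lit 9755879308) (nat_lit 9) (nat_lit 5) (nat_lit 12) (nat_lit 5) (nat_lit 10) (nat_lit 4) (nat_lit 300) (nat_lit 239) (nat_lit 181)) (XT.nd (nat_lit 78) (nat_lit 76) (nat_lit 0) (XT.lf (nat_lit 0) (nat_lit 9646206487) (nat_lit 228) (nat_lit 7249792322) (nat_lit 76) (nat_lit 14749136480) (nat_lit 9) (nat_lit 5) (nat_lit 12) (nat_lit 5) (nat_lit 10) (nat_lit 4) (nat_lit 301) (nat_lit 239) (nat_lit 180)) (XT.lf (nat_lit 0) (nat_lit 421740208) (nat_lit 76) (nat_lit 13004066094) (nat_lit 152) (nat_lit 19561666780) (nat_lit 8) (nat_lit 5) (nat_lit 9) (nat_lit 5) (nat_lit 10) (nat_lit 4) (nat_lit 302) (nat_lit 239) (nat_lit 179)))))) (XT.nd (nat_lit 312) (nat_lit 152) (nat_lit 0) (XT.nd (nat_lit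 156) (nat_lit 0) (nat_lit 0) (XT.nd (nat_lit 78) (nat_lit 0) (nat_lit 0) (XT.lf (nat_lit 0) (nat_lit 8689634959) (nat_lit 76) (nat_lit 8804899137) (nat_lit 152) (nat_lit 16897418657) (nat_lit 8) (nat_lit 5) (nat_lit 9) (nat_lit 5) (nat_lit 10) (nat_lit 4) (nat_lit 303) (nat_lit 239) (nat_lit 178)) (XT.lf (nat_lit 0) (nat_lit 17333866518) (nat_lit 76) (nat_lit 4411278665) (nat_lit 152) (nat_lit 14122619728) (nat_lit 8) (nat_lit 5) (nat_lit 9) (nat_lit 5) (nat_lit 10) (nat_lit 4) (nat_lit 304) (nat_lit 239) (nat_lit 177))) (XT.nd (nat_lit 78) (nat_lit 0) (nat_lit 0) (XT.lf (nat_lit 0) (nat_lit 26190683662) (nat_lit 152) (nat_lit 11046330601) (nat_lit 0) (nat_lit 181262952) (nat_lit 8) (nat_lit 5) (nat_lit 10) (nat_lit 4) (nat_lit 8) (nat_lit 4) (nat_lit 305) (nat_lit 239) (nat_lit 176)) (XT.lf (nat_lit 0) (nat_lit 30911046246) (nat_lit 152) (nat_lit 3291098974) (nat_lit 0) (nat_lit 4841570536)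 (nat_lit 8) (nat_lit 5) (nat_lit 10) (nat_lit 4) (nat_lit 8) (nat_lit 4) (nat_lit 306) (nat_lit 239) (nat_lit 175)))) (XT.nd (nat_lit 156) (nat_lit 76) (nat_lit 0) (XT.nd (nat_lit 78) (nat_lit 0) (nat_lit 0) (XT.lf (nat_lit 0) (nat_lit 4978476073) (nat_lit 76) (nat_lit 30947851361) (nat_lit 76) (nat_lit 4821180413) (nat_lit 7) (nat_lit 4) (nat_lit 8) (nat_lit 5) (nat_lit 8) (nat_lit 4) (nat_lit 307) (nat_lit 239) (nat_lit 174)) (XT.lf (nat_lit 0) (nat_lit 13743557307) (nat_lit 76) (nat_lit 27486117554) (nat_lit 76) (nat_lit 1304974951) (nat_lit 7) (nat_lit 4) (nat_lit 8) (nat_lit 5) (nat_lit 8) (nat_lit 4) (nat_lit 308) (nat_lit 239) (nat_lit 173))) (XT.nd (nat_lit 78) (nat_lit 0) (nat_lit 0) (XT.lf (nat_lit 0) (nat_lit 2292773008) (nat_lit 152) (nat_lit 21532835702) (nat_lit 76) (nat_lit 20584593143) (nat_lit 6) (nat_lit 5) (nat_lit 8) (nat_lit 5) (nat_lit 7) (nat_lit 4) (nat_lit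 309) (nat_lit 239) (nat_lit 172)) (XT.nd (nat_lit 78) (nat_lit 0) (nat_lit 0) (XT.lf (nat_lit 0) (nat_lit 6009535925) (nat_lit 152) (nat_lit 13962879120) (nat_lit 76) (nat_lit 26406919560) (nat_lit 6) (nat_lit 5) (nat_lit 8) (nat_lit 5) (nat_lit 7) (nat_lit 4) (nat_lit 310) (nat_lit 239) (nat_lit 171)) (XT.lf (nat_lit 0) (nat_lit 9895930581) (nat_lit 152) (nat_lit 6042824738) (nat_lit 76) (nat_lit 32508999874) (nat_lit 6) (nat_lit 5) (nat_lit 8) (nat_lit 5) (nat_lit 7) (nat_lit 4) (nat_lit 311) (nat_lit 239) (nat_lit 170))))))) (XT.nd (nat_lit 702) (nat_lit 152) (nat_lit 0) (XT.nd (nat_lit 312) (nat_lit 76) (nat_lit 0) (XT.nd (nat_lit 156) (nat_lit 0) (nat_lit 0) (XT.nd (nat_lit 78) (nat_lit 0) (nat_lit 0) (XT.lf (nat_lit 0) (nat_lit 2320453727) (nat_lit 76) (nat_lit 11676985357) (nat_lit 152) (nat_lit 36621137906) (nat_lit 5) (nat_lit 5) (nat_lit 6) (nat_lit 5) (nat_lit 7) (nat_lit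 4) (nat_lit 312) (nat_lit 239) (nat_lit 169)) (XT.lf (nat_lit 0) (nat_lit 11285077951) (nat_lit 76) (nat_lit 7106168055) (nat_lit 152) (nat_lit 34502351659) (nat_lit 5) (nat_lit 5) (nat_lit 6) (nat_lit 5) (nat_lit 7) (nat_lit 4) (nat_lit 313) (nat_lit 239) (nat_lit 168))) (XT.nd (nat_lit 78) (nat_lit 0) (nat_lit 0) (XT.lf (nat_lit 0) (nat_lit 20672589202) (nat_lit 76) (nat_lit 2317758677) (nat_lit 152) (nat_lit 32292759301) (nat_lit 5) (nat_lit 5) (nat_lit 6) (nat_lit 5) (nat_lit 7) (nat_lit 4) (nat_lit 314) (nat_lit 239) (nat_lit 167)) (XT.lf (nat_lit 0) (nat_lit 27847843949) (nat_lit 152) (nat_lit 27329605152) (nat_lit 0) (nat_lit 2613238292) (nat_lit 5) (nat_lit 5) (nat_lit 7) (nat_lit 4) (nat_lit 5) (nat_lit 4) (nat_lit 315) (nat_lit 239) (nat_lit 166)))) (XT.nd (nat_lit 156) (nat_lit 76) (nat_lit 0) (XT.nd (nat_lit 78) (nat_lit 0) (nat_lit 0) (XT.lf (nat_lit 0) (nat_lit 32972998769)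 (nat_lit 152) (nat_lit 19746144814) (nat_lit 0) (nat_lit 7703280197) (nat_lit 5) (nat_lit 5) (nat_lit 7) (nat_lit 4) (nat_lit 5) (nat_lit 4) (nat_lit 316) (nat_lit 239) (nat_lit 165)) (XT.lf (nat_lit 0) (nat_lit 38341828379) (nat_lit 152) (nat_lit 11805894397) (nat_lit 0) (nat_lit 13038668936) (nat_lit 5) (nat_lit 5) (nat_lit 7) (nat_lit 4) (nat_lit 5) (nat_lit 4) (nat_lit 317) (nat_lit 239) (nat_lit 164))) (XT.nd (nat_lit 78) (nat_lit 76) (nat_lit 0) (XT.lf (nat_lit 0) (nat_lit 43967115708) (nat_lit 152) (nat_lit 3489948545) (nat_lit 0) (nat_lit 18632107816) (nat_lit 5) (nat_lit 5) (nat_lit 7) (nat_lit 4) (nat_lit 5) (nat_lit 4) (nat_lit 318) (nat_lit 239) (nat_lit 163)) (XT.nd (nat_lit 78) (nat_lit 0) (nat_lit 0) (XT.lf (nat_lit 0) (nat_lit 5394138740) (nat_lit 76) (nat_lit 44552333178) (nat_lit 76) (nat_lit 19186993431) (nat_lit 4) (nat_lit 4) (nat_lit 5) (nat_lit 5) (nat_lit 5)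 (nat_lit 4) (nat_lit 319) (nat_lit 239) (nat_lit 162)) (XT.lf (nat_lit 0) (nat_lit 14823618990) (nat_lit 76) (nat_lit 41449099434) (nat_lit 76) (nat_lit 16054872205) (nat_lit 4) (nat_lit 4) (nat_lit 5) (nat_lit 5) (nat_lit 5) (nat_lit 4) (nat_lit 320) (nat_lit 239) (nat_lit 161)))))) (XT.nd (nat_lit 312) (nat_lit 152) (nat_lit 0) (XT.nd (nat_lit 156) (nat_lit 0) (nat_lit 0) (XT.nd (nat_lit 78) (nat_lit 0) (nat_lit 0) (XT.lf (nat_lit 0) (nat_lit 24705549887) (nat_lit 76) (nat_lit 38199078335) (nat_lit 76) (nat_lit 12777339219) (nat_lit 4) (nat_lit 4) (nat_lit 5) (nat_lit 5) (nat_lit 5) (nat_lit 4) (nat_lit 321) (nat_lit 239) (nat_lit 160)) (XT.lf (nat_lit 0) (nat_lit 35063459837) (nat_lit 76) (nat_lit 34794531738) (nat_lit 76) (nat_lit 9346590824) (nat_lit 4) (nat_lit 4) (nat_lit 5) (nat_lit 5) (nat_lit 5) (nat_lit 4) (nat_lit 322) (nat_lit 239) (nat_lit 159))) (XT.nd (nat_lit 78) (nat_lit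 0) (nat_lit 0) (XT.lf (nat_lit 0) (nat_lit 45922010531) (nat_lit 76) (nat_lit 31227353578) (nat_lit 76) (nat_lit 5754458571) (nat_lit 4) (nat_lit 4) (nat_lit 5) (nat_lit 5) (nat_lit 5) (nat_lit 4) (nat_lit 323) (nat_lit 239) (nat_lit 158)) (XT.lf (nat_lit 0) (nat_lit 57307055662) (nat_lit 76) (nat_lit 27489050574) (nat_lit 76) (nat_lit 1992389764) (nat_lit 4) (nat_lit 4) (nat_lit 5) (nat_lit 5) (nat_lit 5) (nat_lit 4) (nat_lit 324) (nat_lit 239) (nat_lit 157)))) (XT.nd (nat_lit 156) (nat_lit 76) (nat_lit 0) (XT.nd (nat_lit 78) (nat_lit 0) (nat_lit 0) (XT.lf (nat_lit 0) (nat_lit 1886206400) (nat_lit 152) (nat_lit 21652571786) (nat_lit 76) (nat_lit 67327552261) (nat_lit 3) (nat_lit 5) (nat_lit 5) (nat_lit 5) (nat_lit 4) (nat_lit 4) (nat_lit 325) (nat_lit 239) (nat_lit 156)) (XT.lf (nat_lit 0) (nat_lit 5883284712) (nat_lit 152) (nat_lit 13480117531) (nat_lit 76) (nat_lit 75783455347)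 (nat_lit 3) (nat_lit 5) (nat_lit 5) (nat_lit 5) (nat_lit 4) (nat_lit 4) (nat_lit 326) (nat_lit 239) (nat_lit 155))) (XT.nd (nat_lit 78) (nat_lit 76) (nat_lit 0) (XT.lf (nat_lit 0) (nat_lit 10072130938) (nat_lit 152) (nat_lit 4913512560) (nat_lit 76) (nat_lit 84656180999) (nat_lit 3) (nat_lit 5) (nat_lit 5) (nat_lit 5) (nat_lit 4) (nat_lit 4) (nat_lit 327) (nat_lit 239) (nat_lit 154)) (XT.nd (nat_lit 78) (nat_lit 0) (nat_lit 0) (XT.lf (nat_lit 0) (nat_lit 4202134345) (nat_lit 76) (nat_lit 10326191271) (nat_lit 152) (nat_lit 89830327505) (nat_lit 2) (nat_lit 5) (nat_lit 3) (nat_lit 5) (nat_lit 4) (nat_lit 4) (nat_lit 328) (nat_lit 239) (nat_lit 153)) (XT.lf (nat_lit 0) (nat_lit 13930589107) (nat_lit 76) (nat_lit 5352407675) (nat_lit 152) (nat_lit 90024551318) (nat_lit 2) (nat_lit 5) (nat_lit 3) (nat_lit 5) (nat_lit 4) (nat_lit 4) (nat_lit 329) (nat_lit 239) (nat_lit 152))))))))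
noncomputable def xc109 : XT := (XT.nd (nat_lit 1404) (nat_lit 0) (nat_lit 0) (XT.nd (nat_lit 702) (nat_lit 76) (nat_lit 0) (XT.nd (nat_lit 312) (nat_lit 0) (nat_lit 0) (XT.nd (nat_lit 156) (nat_lit 0) (nat_lit 0) (XT.nd (nat_lit 78) (nat_lit 0) (nat_lit 0) (XT.lf (nat_lit 0) (nat_lit 24132551796) (nat_lit 76) (nat_lit 135663082) (nat_lit 152) (nat_lit 90236040151) (nat_lit 2) (nat_lit 5) (nat_lit 3) (nat_lit 5) (nat_lit 4) (nat_lit 4) (nat_lit 330) (nat_lit 239) (nat_lit 151)) (XT.lf (nat_lit 0) (nat_lit 29579166620) (nat_lit 152) (nat_lit 85212151367) (nat_lit 0) (nat_lit 5165663175) (nat_lit 2) (nat_lit 5) (nat_lit 4) (nat_lit 4) (nat_lit 2) (nat_lit 4) (nat_lit 331) (nat_lit 239) (nat_lit 150))) (XT.nd (nat_lit 78) (nat_lit 0) (nat_lit 0) (XT.lf (nat_lit 0) (nat_lit 35151290332) (nat_lit 152) (nat_lit 79808811949) (nat_lit 0) (nat_lit 10722467238) (nat_lit 2) (nat_lit 5) (nat_lit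 4) (nat_lit 4) (nat_lit 2) (nat_lit 4) (nat_lit 332) (nat_lit 239) (nat_lit 149)) (XT.lf (nat_lit 0) (nat_lit 40995734895) (nat_lit 152) (nat_lit 74146701804) (nat_lit 0) (nat_lit 16552321660) (nat_lit 2) (nat_lit 5) (nat_lit 4) (nat_lit 4) (nat_lit 2) (nat_lit 4) (nat_lit 333) (nat_lit 239) (nat_lit 148)))) (XT.nd (nat_lit 156) (nat_lit 0) (nat_lit 0) (XT.nd (nat_lit 78) (nat_lit 0) (nat_lit 0) (XT.lf (nat_lit 0) (nat_lit 47126415653) (nat_lit 152) (nat_lit 68212339720) (nat_lit 0) (nat_lit 22669107045) (nat_lit 2) (nat_lit 5) (nat_lit 4) (nat_lit 4) (nat_lit 2) (nat_lit 4) (nat_lit 334) (nat_lit 239) (nat_lit 147)) (XT.lf (nat_lit 0) (nat_lit 53557929464) (nat_lit 152) (nat_lit 61991596260) (nat_lit 0) (nat_lit 29087387168) (nat_lit 2) (nat_lit 5) (nat_lit 4) (nat_lit 4) (nat_lit 2) (nat_lit 4) (nat_lit 335) (nat_lit 239) (nat_lit 146))) (XT.nd (nat_lit 78) (nat_lit 0) (nat_lit 0)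 (XT.lf (nat_lit 0) (nat_lit 60305589458) (nat_lit 152) (nat_lit 55469660133) (nat_lit 0) (nat_lit 35822443649) (nat_lit 2) (nat_lit 5) (nat_lit 4) (nat_lit 4) (nat_lit 2) (nat_lit 4) (nat_lit 336) (nat_lit 239) (nat_lit 145)) (XT.nd (nat_lit 78) (nat_lit 0) (nat_lit 0) (XT.lf (nat_lit 0) (nat_lit 67385461490) (nat_lit 152) (nat_lit 48631002917) (nat_lit 0) (nat_lit 42890312336) (nat_lit 2) (nat_lit 5) (nat_lit 4) (nat_lit 4) (nat_lit 2) (nat_lit 4) (nat_lit 337) (nat_lit 239) (nat_lit 144)) (XT.lf (nat_lit 0) (nat_lit 74814402400) (nat_lit 152) (nat_lit 41459342098) (nat_lit 0) (nat_lit 50307821488) (nat_lit 2) (nat_lit 5) (nat_lit 4) (nat_lit 4) (nat_lit 2) (nat_lit 4) (nat_lit 338) (nat_lit 239) (nat_lit 143)))))) (XT.nd (nat_lit 312) (nat_lit 76) (nat_lit 0) (XT.nd (nat_lit 156) (nat_lit 0) (nat_lit 0) (XT.nd (nat_lit 78) (nat_lit 0) (nat_lit 0) (XT.lf (nat_lit 0) (nat_lit 82610100142)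 (nat_lit 152) (nat_lit 33937602290) (nat_lit 0) (nat_lit 58092631842) (nat_lit 2) (nat_lit 5) (nat_lit 4) (nat_lit 4) (nat_lit 2) (nat_lit 4) (nat_lit 339) (nat_lit 239) (nat_lit 142)) (XT.lf (nat_lit 0) (nat_lit 90791115900) (nat_lit 152) (nat_lit 26047874590) (nat_lit 0) (nat_lit 66263278659) (nat_lit 2) (nat_lit 5) (nat_lit 4) (nat_lit 4) (nat_lit 2) (nat_lit 4) (nat_lit 340) (nat_lit 239) (nat_lit 141))) (XT.nd (nat_lit 78) (nat_lit 0) (nat_lit 0) (XT.lf (nat_lit 0) (nat_lit 99376928284) (nat_lit 152) (nat_lit 17771373933) (nat_lit 0) (nat_lit 74839215862) (nat_lit 2) (nat_lit 5) (nat_lit 4) (nat_lit 4) (nat_lit 2) (nat_lit 4) (nat_lit 341) (nat_lit 239) (nat_lit 140)) (XT.lf (nat_lit 0) (nat_lit 108387979705) (nat_lit 152) (nat_lit 9088394363) (nat_lit 0) (nat_lit 83840862347) (nat_lit 2) (nat_lit 5) (nat_lit 4) (nat_lit 4) (nat_lit 2) (nat_lit 4) (nat_lit 342) (nat_lit 239) (nat_lit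 139)))) (XT.nd (nat_lit 156) (nat_lit 0) (nat_lit 0) (XT.nd (nat_lit 78) (nat_lit 0) (nat_lit 0) (XT.lf (nat_lit 0) (nat_lit 22456631) (nat_lit 76) (nat_lit 117823619026) (nat_lit 76) (nat_lit 93267544587) (nat_lit 1) (nat_lit 4) (nat_lit 2) (nat_lit 5) (nat_lit 2) (nat_lit 4) (nat_lit 343) (nat_lit 239) (nat_lit 138)) (XT.lf (nat_lit 0) (nat_lit 9897495243) (nat_lit 76) (nat_lit 118029715144) (nat_lit 76) (nat_lit 93465110152) (nat_lit 1) (nat_lit 4) (nat_lit 2) (nat_lit 5) (nat_lit 2) (nat_lit 4) (nat_lit 344) (nat_lit 239) (nat_lit 137))) (XT.nd (nat_lit 78) (nat_lit 0) (nat_lit 0) (XT.lf (nat_lit 0) (nat_lit 20259730108) (nat_lit 76) (nat_lit 118249069484) (nat_lit 76) (nat_lit 93676340155) (nat_lit 1) (nat_lit 4) (nat_lit 2) (nat_lit 5) (nat_lit 2) (nat_lit 4) (nat_lit 345) (nat_lit 239) (nat_lit 136)) (XT.nd (nat_lit 78) (nat_lit 0) (nat_lit 0) (XT.lf (nat_lit 0) (nat_lit 31133833214)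 (nat_lit 76) (nat_lit 118482204319) (nat_lit 76) (nat_lit 93901737526) (nat_lit 1) (nat_lit 4) (nat_lit 2) (nat_lit 5) (nat_lit 2) (nat_lit 4) (nat_lit 346) (nat_lit 239) (nat_lit 135)) (XT.lf (nat_lit 0) (nat_lit 42545695281) (nat_lit 76) (nat_lit 118729674730) (nat_lit 76) (nat_lit 94141838925) (nat_lit 1) (nat_lit 4) (nat_lit 2) (nat_lit 5) (nat_lit 2) (nat_lit 4) (nat_lit 347) (nat_lit 239) (nat_lit 134))))))) (XT.nd (nat_lit 702) (nat_lit 0) (nat_lit 0) (XT.nd (nat_lit 312) (nat_lit 0) (nat_lit 0) (XT.nd (nat_lit 156) (nat_lit 0) (nat_lit 0) (XT.nd (nat_lit 78) (nat_lit 0) (nat_lit 0) (XT.lf (nat_lit 0) (nat_lit 54522487410) (nat_lit 76) (nat_lit 118992069933) (nat_lit 76) (nat_lit 94397216021) (nat_lit 1) (nat_lit 4) (nat_lit 2) (nat_lit 5) (nat_lit 2) (nat_lit 4) (nat_lit 348) (nat_lit 239) (nat_lit 133)) (XT.lf (nat_lit 0) (nat_lit 67092725773) (nat_lit 76) (nat_lit 119270014680)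 (nat_lit 76) (nat_lit 94668476855) (nat_lit 1) (nat_lit 4) (nat_lit 2) (nat_lit 5) (nat_lit 2) (nat_lit 4) (nat_lit 349) (nat_lit 239) (nat_lit 132))) (XT.nd (nat_lit 78) (nat_lit 0) (nat_lit 0) (XT.lf (nat_lit 0) (nat_lit 80286339509) (nat_lit 76) (nat_lit 119564170742) (nat_lit 76) (nat_lit 94956267287) (nat_lit 1) (nat_lit 4) (nat_lit 2) (nat_lit 5) (nat_lit 2) (nat_lit 4) (nat_lit 350) (nat_lit 239) (nat_lit 131)) (XT.lf (nat_lit 0) (nat_lit 94134741984) (nat_lit 76) (nat_lit 119875238492) (nat_lit 76) (nat_lit 95261272532) (nat_lit 1) (nat_lit 4) (nat_lit 2) (nat_lit 5) (nat_lit 2) (nat_lit 4) (nat_lit 351) (nat_lit 239) (nat_lit 130)))) (XT.nd (nat_lit 156) (nat_lit 0) (nat_lit 0) (XT.nd (nat_lit 78) (nat_lit 0) (nat_lit 0) (XT.lf (nat_lit 0) (nat_lit 108670905584) (nat_lit 76) (nat_lit 120203958567) (nat_lit 76) (nat_lit 95584218793) (nat_lit 1) (nat_lit 4) (nat_lit 2) (nat_lit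 5) (nat_lit 2) (nat_lit 4) (nat_lit 352) (nat_lit 239) (nat_lit 129)) (XT.lf (nat_lit 0) (nat_lit 123929440224) (nat_lit 76) (nat_lit 120551113634) (nat_lit 76) (nat_lit 95925874989) (nat_lit 1) (nat_lit 4) (nat_lit 2) (nat_lit 5) (nat_lit 2) (nat_lit 4) (nat_lit 353) (nat_lit 239) (nat_lit 128))) (XT.nd (nat_lit 78) (nat_lit 0) (nat_lit 0) (XT.lf (nat_lit 0) (nat_lit 139946675747) (nat_lit 76) (nat_lit 120917530253) (nat_lit 76) (nat_lit 96287054588) (nat_lit 1) (nat_lit 4) (nat_lit 2) (nat_lit 5) (nat_lit 2) (nat_lit 4) (nat_lit 354) (nat_lit 239) (nat_lit 127)) (XT.nd (nat_lit 78) (nat_lit 0) (nat_lit 0) (XT.lf (nat_lit 0) (nat_lit 156760748428) (nat_lit 76) (nat_lit 121304080844) (nat_lit 76) (nat_lit 96668617541) (nat_lit 1) (nat_lit 4) (nat_lit 2) (nat_lit 5) (nat_lit 2) (nat_lit 4) (nat_lit 355) (nat_lit 239) (nat_lit 126)) (XT.lf (nat_lit 0) (nat_lit 174411691774) (nat_lit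 76) (nat_lit 121711685765) (nat_lit 76) (nat_lit 97071472331) (nat_lit 1) (nat_lit 4) (nat_lit 2) (nat_lit 5) (nat_lit 2) (nat_lit 4) (nat_lit 356) (nat_lit 239) (nat_lit 125)))))) (XT.nd (nat_lit 312) (nat_lit 0) (nat_lit 0) (XT.nd (nat_lit 156) (nat_lit 0) (nat_lit 0) (XT.nd (nat_lit 78) (nat_lit 0) (nat_lit 0) (XT.lf (nat_lit 0) (nat_lit 192941531840) (nat_lit 76) (nat_lit 122141315505) (nat_lit 76) (nat_lit 97496578137) (nat_lit 1) (nat_lit 4) (nat_lit 2) (nat_lit 5) (nat_lit 2) (nat_lit 4) (nat_lit 357) (nat_lit 239) (nat_lit 124)) (XT.lf (nat_lit 0) (nat_lit 212394387294) (nat_lit 76) (nat_lit 122593992992) (nat_lit 76) (nat_lit 97944947114) (nat_lit 1) (nat_lit 4) (nat_lit 2) (nat_lit 5) (nat_lit 2) (nat_lit 4) (nat_lit 358) (nat_lit 239) (nat_lit 123))) (XT.nd (nat_lit 78) (nat_lit 0) (nat_lit 0) (XT.lf (nat_lit 0) (nat_lit 232816574458) (nat_lit 76) (nat_lit 123070796029)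 (nat_lit 76) (nat_lit 98417646809) (nat_lit 1) (nat_lit 4) (nat_lit 2) (nat_lit 5) (nat_lit 2) (nat_lit 4) (nat_lit 359) (nat_lit 239) (nat_lit 122)) (XT.lf (nat_lit 0) (nat_lit 254256717586) (nat_lit 76) (nat_lit 123572859861) (nat_lit 76) (nat_lit 98915802696) (nat_lit 1) (nat_lit 4) (nat_lit 2) (nat_lit 5) (nat_lit 2) (nat_lit 4) (nat_lit 360) (nat_lit 239) (nat_lit 121)))) (XT.nd (nat_lit 156) (nat_lit 0) (nat_lit 0) (XT.nd (nat_lit 78) (nat_lit 0) (nat_lit 0) (XT.lf (nat_lit 0) (nat_lit 276765864639) (nat_lit 76) (nat_lit 124101379879) (nat_lit 76) (nat_lit 99440600862) (nat_lit 1) (nat_lit 4) (nat_lit 2) (nat_lit 5) (nat_lit 2) (nat_lit 4) (nat_lit 361) (nat_lit 239) (nat_lit 120)) (XT.lf (nat_lit 0) (nat_lit 300397608824) (nat_lit 76) (nat_lit 124657614463) (nat_lit 76) (nat_lit 99993290825) (nat_lit 1) (nat_lit 4) (nat_lit 2) (nat_lit 5) (nat_lit 2) (nat_lit 4) (nat_lit 362)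 (nat_lit 239) (nat_lit 119))) (XT.nd (nat_lit 27924) (nat_lit 0) (nat_lit 8740) (XT.lf (nat_lit 0) (nat_lit 325208216199) (nat_lit 76) (nat_lit 125242887982) (nat_lit 76) (nat_lit 100575188514) (nat_lit 1) (nat_lit 4) (nat_lit 2) (nat_lit 5) (nat_lit 2) (nat_lit 4) (nat_lit 363) (nat_lit 239) (nat_lit 118)) (XT.nd (nat_lit 78) (nat_lit 76) (nat_lit 0) (XT.lf (nat_lit 0) (nat_lit 1073741823) (nat_lit 0) (nat_lit 0) (nat_lit 0) (nat_lit 0) (nat_lit 117) (nat_lit 0) (nat_lit 1) (nat_lit 0) (nat_lit 1) (nat_lit 0) (nat_lit 240) (nat_lit 240) (nat_lit 240)) (XT.lf (nat_lit 0) (nat_lit 2790421141) (nat_lit 76) (nat_lit 3564128821) (nat_lit 0) (nat_lit 90727412) (nat_lit 116) (nat_lit 5) (nat_lit 117) (nat_lit 0) (nat_lit 116) (nat_lit 4) (nat_lit 241) (nat_lit 240) (nat_lit 239))))))))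
noncomputable def xc110 : XT := (XT.nd (nat_lit 1404) (nat_lit 2660) (nat_lit 0) (XT.nd (nat_lit 702) (nat_lit 2888) (nat_lit 0) (XT.nd (nat_lit 312) (nat_lit 608) (nat_lit 0) (XT.nd (nat_lit 156) (nat_lit 228) (nat_lit 0) (XT.nd (nat_lit 78) (nat_lit 152) (nat_lit 0) (XT.lf (nat_lit 0) (nat_lit 5543228867) (nat_lit 76) (nat_lit 642672643) (nat_lit 0) (nat_lit 272398254) (nat_lit 116) (nat_lit 5) (nat_lit 117) (nat_lit 0) (nat_lit 116) (nat_lit 4) (nat_lit 242) (nat_lit 240) (nat_lit 238)) (XT.lf (nat_lit 0) (nat_lit 1764525767) (nat_lit 152) (nat_lit 4102254584) (nat_lit 76) (nat_lit 611467643) (nat_lit 114) (nat_lit 5) (nat_lit 116) (nat_lit 5) (nat_lit 115) (nat_lit 4) (nat_lit 243) (nat_lit 240) (nat_lit 237))) (XT.nd (nat_lit 78) (nat_lit 228) (nat_lit 0) (XT.lf (nat_lit 0) (nat_lit 4392561891) (nat_lit 152) (nat_lit 1046877478) (nat_lit 76) (nat_lit 1067778414) (nat_lit 114)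 (nat_lit 5) (nat_lit 116) (nat_lit 5) (nat_lit 115) (nat_lit 4) (nat_lit 244) (nat_lit 240) (nat_lit 236)) (XT.lf (nat_lit 0) (nat_lit 467058621) (nat_lit 228) (nat_lit 4418982311) (nat_lit 76) (nat_lit 1658436212) (nat_lit 111) (nat_lit 5) (nat_lit 114) (nat_lit 5) (nat_lit 112) (nat_lit 5) (nat_lit 245) (nat_lit 240) (nat_lit 235)))) (XT.nd (nat_lit 156) (nat_lit 380) (nat_lit 0) (XT.nd (nat_lit 78) (nat_lit 228) (nat_lit 0) (XT.lf (nat_lit 0) (nat_lit 2969505634) (nat_lit 228) (nat_lit 1225463528) (nat_lit 76) (nat_lit 2394655238) (nat_lit 111) (nat_lit 5) (nat_lit 114) (nat_lit 5) (nat_lit 112) (nat_lit 5) (nat_lit 246) (nat_lit 240) (nat_lit 234)) (XT.lf (nat_lit 0) (nat_lit 2099082201) (nat_lit 228) (nat_lit 3382853975) (nat_lit 304) (nat_lit 1161701119) (nat_lit 108) (nat_lit 5) (nat_lit 111) (nat_lit 5) (nat_lit 112) (nat_lit 5) (nat_lit 247) (nat_lit 240) (nat_lit 233))) (XT.nd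 (nat_lit 78) (nat_lit 304) (nat_lit 0) (XT.lf (nat_lit 0) (nat_lit 1249835839) (nat_lit 304) (nat_lit 1189286087) (nat_lit 76) (nat_lit 4267111086) (nat_lit 107) (nat_lit 5) (nat_lit 111) (nat_lit 5) (nat_lit 108) (nat_lit 5) (nat_lit 248) (nat_lit 240) (nat_lit 232)) (XT.nd (nat_lit 78) (nat_lit 0) (nat_lit 0) (XT.lf (nat_lit 0) (nat_lit 2292978638) (nat_lit 304) (nat_lit 1347198290) (nat_lit 380) (nat_lit 3136701387) (nat_lit 103) (nat_lit 5) (nat_lit 107) (nat_lit 5) (nat_lit 108) (nat_lit 5) (nat_lit 249) (nat_lit 240) (nat_lit 231)) (XT.lf (nat_lit 0) (nat_lit 5897066924) (nat_lit 304) (nat_lit 139713240) (nat_lit 380) (nat_lit 820638861) (nat_lit 103) (nat_lit 5) (nat_lit 107) (nat_lit 5) (nat_lit 108) (nat_lit 5) (nat_lit 250) (nat_lit 240) (nat_lit 230)))))) (XT.nd (nat_lit 312) (nat_lit 1900) (nat_lit 0) (XT.nd (nat_lit 156) (nat_lit 532) (nat_lit 0) (XT.nd (nat_lit 78) (nat_lit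 0) (nat_lit 0) (XT.lf (nat_lit 0) (nat_lit 1491422465) (nat_lit 456) (nat_lit 4258213607) (nat_lit 76) (nat_lit 1195139941) (nat_lit 97) (nat_lit 5) (nat_lit 103) (nat_lit 5) (nat_lit 98) (nat_lit 5) (nat_lit 251) (nat_lit 240) (nat_lit 229)) (XT.lf (nat_lit 0) (nat_lit 3785799253) (nat_lit 456) (nat_lit 602430323) (nat_lit 76) (nat_lit 2653489086) (nat_lit 97) (nat_lit 5) (nat_lit 103) (nat_lit 5) (nat_lit 98) (nat_lit 5) (nat_lit 252) (nat_lit 240) (nat_lit 228))) (XT.nd (nat_lit 78) (nat_lit 76) (nat_lit 0) (XT.lf (nat_lit 0) (nat_lit 3244858362) (nat_lit 456) (nat_lit 2882098051) (nat_lit 532) (nat_lit 1020525172) (nat_lit 91) (nat_lit 5) (nat_lit 97) (nat_lit 5) (nat_lit 98) (nat_lit 5) (nat_lit 253) (nat_lit 240) (nat_lit 227)) (XT.lf (nat_lit 0) (nat_lit 1177727278) (nat_lit 532) (nat_lit 71466078) (nat_lit 76) (nat_lit 6014148856) (nat_lit 90) (nat_lit 5) (nat_lit 97) (nat_lit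 5) (nat_lit 91) (nat_lit 5) (nat_lit 254) (nat_lit 240) (nat_lit 226)))) (XT.nd (nat_lit 156) (nat_lit 760) (nat_lit 0) (XT.nd (nat_lit 78) (nat_lit 608) (nat_lit 0) (XT.lf (nat_lit 0) (nat_lit 3411128602) (nat_lit 608) (nat_lit 3427755491) (nat_lit 76) (nat_lit 547796411) (nat_lit 83) (nat_lit 5) (nat_lit 91) (nat_lit 5) (nat_lit 84) (nat_lit 5) (nat_lit 255) (nat_lit 240) (nat_lit 225)) (XT.lf (nat_lit 0) (nat_lit 577263532) (nat_lit 608) (nat_lit 5102507891) (nat_lit 684) (nat_lit 1840709773) (nat_lit 75) (nat_lit 5) (nat_lit 83) (nat_lit 5) (nat_lit 84) (nat_lit 5) (nat_lit 256) (nat_lit 240) (nat_lit 224))) (XT.nd (nat_lit 78) (nat_lit 684) (nat_lit 0) (XT.lf (nat_lit 0) (nat_lit 341360177) (nat_lit 684) (nat_lit 2863993385) (nat_lit 76) (nat_lit 4458069594) (nat_lit 74) (nat_lit 5) (nat_lit 83) (nat_lit 5) (nat_lit 75) (nat_lit 5) (nat_lit 257) (nat_lit 240) (nat_lit 223)) (XT.nd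 (nat_lit 78) (nat_lit 0) (nat_lit 0) (XT.lf (nat_lit 0) (nat_lit 1336309639) (nat_lit 684) (nat_lit 1154574131) (nat_lit 760) (nat_lit 5325518670) (nat_lit 65) (nat_lit 5) (nat_lit 74) (nat_lit 5) (nat_lit 75) (nat_lit 5) (nat_lit 258) (nat_lit 240) (nat_lit 222)) (XT.lf (nat_lit 0) (nat_lit 4715500837) (nat_lit 760) (nat_lit 2244181150) (nat_lit 76) (nat_lit 1019357843) (nat_lit 65) (nat_lit 5) (nat_lit 75) (nat_lit 5) (nat_lit 66) (nat_lit 5) (nat_lit 259) (nat_lit 240) (nat_lit 221))))))) (XT.nd (nat_lit 702) (nat_lit 988) (nat_lit 0) (XT.nd (nat_lit 312) (nat_lit 912) (nat_lit 0) (XT.nd (nat_lit 156) (nat_lit 380) (nat_lit 0) (XT.nd (nat_lit 78) (nat_lit 76) (nat_lit 0) (XT.lf (nat_lit 0) (nat_lit 2159185599) (nat_lit 304) (nat_lit 4852159493) (nat_lit 380) (nat_lit 1140835615) (nat_lit 61) (nat_lit 5) (nat_lit 65) (nat_lit 5) (nat_lit 66) (nat_lit 5) (nat_lit 260) (nat_lit 240)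 (nat_lit 220)) (XT.lf (nat_lit 0) (nat_lit 1000314311) (nat_lit 380) (nat_lit 1585412637) (nat_lit 76) (nat_lit 5750382532) (nat_lit 60) (nat_lit 5) (nat_lit 65) (nat_lit 5) (nat_lit 61) (nat_lit 5) (nat_lit 261) (nat_lit 240) (nat_lit 219))) (XT.nd (nat_lit 78) (nat_lit 0) (nat_lit 0) (XT.lf (nat_lit 0) (nat_lit 3029024843) (nat_lit 380) (nat_lit 141310731) (nat_lit 456) (nat_lit 5360277197) (nat_lit 55) (nat_lit 5) (nat_lit 60) (nat_lit 5) (nat_lit 61) (nat_lit 5) (nat_lit 262) (nat_lit 240) (nat_lit 218)) (XT.lf (nat_lit 0) (nat_lit 5429523551) (nat_lit 456) (nat_lit 937301866) (nat_lit 76) (nat_lit 2369288107) (nat_lit 55) (nat_lit 5) (nat_lit 61) (nat_lit 5) (nat_lit 56) (nat_lit 5) (nat_lit 263) (nat_lit 240) (nat_lit 217)))) (XT.nd (nat_lit 156) (nat_lit 532) (nat_lit 0) (XT.nd (nat_lit 78) (nat_lit 76) (nat_lit 0) (XT.lf (nat_lit 0) (nat_lit 3887080423) (nat_lit 304) (nat_lit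 3897128262) (nat_lit 380) (nat_lit 1168844771) (nat_lit 51) (nat_lit 5) (nat_lit 55) (nat_lit 5) (nat_lit 56) (nat_lit 5) (nat_lit 264) (nat_lit 240) (nat_lit 216)) (XT.lf (nat_lit 0) (nat_lit 977921303) (nat_lit 380) (nat_lit 303532333) (nat_lit 76) (nat_lit 7901982641) (nat_lit 50) (nat_lit 5) (nat_lit 55) (nat_lit 5) (nat_lit 51) (nat_lit 5) (nat_lit 265) (nat_lit 240) (nat_lit 215))) (XT.nd (nat_lit 78) (nat_lit 228) (nat_lit 0) (XT.lf (nat_lit 0) (nat_lit 3215228154) (nat_lit 380) (nat_lit 4706572957) (nat_lit 76) (nat_lit 1501706294) (nat_lit 46) (nat_lit 5) (nat_lit 51) (nat_lit 5) (nat_lit 47) (nat_lit 5) (nat_lit 266) (nat_lit 240) (nat_lit 214)) (XT.nd (nat_lit 78) (nat_lit 0) (nat_lit 0) (XT.lf (nat_lit 0) (nat_lit 219984809) (nat_lit 228) (nat_lit 5300377525) (nat_lit 304) (nat_lit 4157661087) (nat_lit 43) (nat_lit 5) (nat_lit 46) (nat_lit 5) (nat_lit 47) (nat_lit 5) (nat_lit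 267) (nat_lit 240) (nat_lit 213)) (XT.lf (nat_lit 0) (nat_lit 5468115409) (nat_lit 228) (nat_lit 2480774516) (nat_lit 304) (nat_lit 1996196507) (nat_lit 43) (nat_lit 5) (nat_lit 46) (nat_lit 5) (nat_lit 47) (nat_lit 5) (nat_lit 268) (nat_lit 240) (nat_lit 212)))))) (XT.nd (nat_lit 312) (nat_lit 456) (nat_lit 0) (XT.nd (nat_lit 156) (nat_lit 228) (nat_lit 0) (XT.nd (nat_lit 78) (nat_lit 0) (nat_lit 0) (XT.lf (nat_lit 0) (nat_lit 213257258) (nat_lit 304) (nat_lit 9551585988) (nat_lit 76) (nat_lit 463219565) (nat_lit 39) (nat_lit 5) (nat_lit 43) (nat_lit 5) (nat_lit 40) (nat_lit 5) (nat_lit 269) (nat_lit 240) (nat_lit 211)) (XT.lf (nat_lit 0) (nat_lit 2516045382) (nat_lit 304) (nat_lit 4441372537) (nat_lit 76) (nat_lit 3563833496) (nat_lit 39) (nat_lit 5) (nat_lit 43) (nat_lit 5) (nat_lit 40) (nat_lit 5) (nat_lit 270) (nat_lit 240) (nat_lit 210))) (XT.nd (nat_lit 78) (nat_lit 0) (nat_lit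 0) (XT.lf (nat_lit 0) (nat_lit 867973112) (nat_lit 228) (nat_lit 4014995019) (nat_lit 304) (nat_lit 5948869158) (nat_lit 36) (nat_lit 5) (nat_lit 39) (nat_lit 5) (nat_lit 40) (nat_lit 5) (nat_lit 271) (nat_lit 240) (nat_lit 209)) (XT.lf (nat_lit 0) (nat_lit 6514178840) (nat_lit 228) (nat_lit 866500039) (nat_lit 304) (nat_lit 3776830151) (nat_lit 36) (nat_lit 5) (nat_lit 39) (nat_lit 5) (nat_lit 40) (nat_lit 5) (nat_lit 272) (nat_lit 240) (nat_lit 208)))) (XT.nd (nat_lit 156) (nat_lit 152) (nat_lit 0) (XT.nd (nat_lit 78) (nat_lit 76) (nat_lit 0) (XT.lf (nat_lit 0) (nat_lit 850650080) (nat_lit 228) (nat_lit 9143908861) (nat_lit 304) (nat_lit 1505511386) (nat_lit 33) (nat_lit 5) (nat_lit 36) (nat_lit 5) (nat_lit 37) (nat_lit 5) (nat_lit 273) (nat_lit 240) (nat_lit 207)) (XT.lf (nat_lit 0) (nat_lit 885765831) (nat_lit 304) (nat_lit 5187043107) (nat_lit 76) (nat_lit 5784691719) (nat_lit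 32) (nat_lit 5) (nat_lit 36) (nat_lit 5) (nat_lit 33) (nat_lit 5) (nat_lit 274) (nat_lit 240) (nat_lit 206))) (XT.nd (nat_lit 78) (nat_lit 0) (nat_lit 0) (XT.lf (nat_lit 0) (nat_lit 459894697) (nat_lit 152) (nat_lit 2836542032) (nat_lit 228) (nat_lit 8937757496) (nat_lit 30) (nat_lit 5) (nat_lit 32) (nat_lit 5) (nat_lit 33) (nat_lit 5) (nat_lit 275) (nat_lit 240) (nat_lit 205)) (XT.nd (nat_lit 78) (nat_lit 0) (nat_lit 0) (XT.lf (nat_lit 0) (nat_lit 5870088894) (nat_lit 228) (nat_lit 6146163581) (nat_lit 76) (nat_lit 611487598) (nat_lit 30) (nat_lit 5) (nat_lit 33) (nat_lit 5) (nat_lit 31) (nat_lit 5) (nat_lit 276) (nat_lit 240) (nat_lit 204)) (XT.lf (nat_lit 0) (nat_lit 8565967566) (nat_lit 228) (nat_lit 359205252) (nat_lit 76) (nat_lit 4116246526) (nat_lit 30) (nat_lit 5) (nat_lit 33) (nat_lit 5) (nat_lit 31) (nat_lit 5) (nat_lit 277) (nat_lit 240) (nat_lit 203))))))))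
noncomputable def xc111 : XT := (XT.nd (nat_lit 1404) (nat_lit 608) (nat_lit 0) (XT.nd (nat_lit 702) (nat_lit 456) (nat_lit 0) (XT.nd (nat_lit 312) (nat_lit 380) (nat_lit 0) (XT.nd (nat_lit 156) (nat_lit 152) (nat_lit 0) (XT.nd (nat_lit 78) (nat_lit 76) (nat_lit 0) (XT.lf (nat_lit 0) (nat_lit 5831277602) (nat_lit 228) (nat_lit 5605970115) (nat_lit 304) (nat_lit 2036631459) (nat_lit 27) (nat_lit 5) (nat_lit 30) (nat_lit 5) (nat_lit 31) (nat_lit 5) (nat_lit 278) (nat_lit 240) (nat_lit 202)) (XT.lf (nat_lit 0) (nat_lit 463468312) (nat_lit 304) (nat_lit 1665247956) (nat_lit 76) (nat_lit 11801146051) (nat_lit 26) (nat_lit 5) (nat_lit 30) (nat_lit 5) (nat_lit 27) (nat_lit 5) (nat_lit 279) (nat_lit 240) (nat_lit 201))) (XT.nd (nat_lit 78) (nat_lit 0) (nat_lit 0) (XT.lf (nat_lit 0) (nat_lit 3070320023) (nat_lit 228) (nat_lit 9773942649) (nat_lit 76) (nat_lit 1560312708) (nat_lit 24) (nat_lit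 5) (nat_lit 27) (nat_lit 5) (nat_lit 25) (nat_lit 5) (nat_lit 280) (nat_lit 240) (nat_lit 200)) (XT.lf (nat_lit 0) (nat_lit 5824249183) (nat_lit 228) (nat_lit 3708398858) (nat_lit 76) (nat_lit 5369643772) (nat_lit 24) (nat_lit 5) (nat_lit 27) (nat_lit 5) (nat_lit 25) (nat_lit 5) (nat_lit 281) (nat_lit 240) (nat_lit 199)))) (XT.nd (nat_lit 156) (nat_lit 228) (nat_lit 0) (XT.nd (nat_lit 78) (nat_lit 0) (nat_lit 0) (XT.lf (nat_lit 0) (nat_lit 2678978898) (nat_lit 152) (nat_lit 6034125863) (nat_lit 228) (nat_lit 6712027296) (nat_lit 22) (nat_lit 5) (nat_lit 24) (nat_lit 5) (nat_lit 25) (nat_lit 5) (nat_lit 282) (nat_lit 240) (nat_lit 198)) (XT.lf (nat_lit 0) (nat_lit 9448369163) (nat_lit 152) (nat_lit 2317332653) (nat_lit 228) (nat_lit 4207542315) (nat_lit 22) (nat_lit 5) (nat_lit 24) (nat_lit 5) (nat_lit 25) (nat_lit 5) (nat_lit 283) (nat_lit 240) (nat_lit 197))) (XT.nd (nat_lit 78) (nat_lit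 228) (nat_lit 0) (XT.lf (nat_lit 0) (nat_lit 14953910501) (nat_lit 228) (nat_lit 82065537) (nat_lit 76) (nat_lit 1513726920) (nat_lit 22) (nat_lit 5) (nat_lit 25) (nat_lit 5) (nat_lit 23) (nat_lit 4) (nat_lit 284) (nat_lit 240) (nat_lit 196)) (XT.nd (nat_lit 78) (nat_lit 0) (nat_lit 0) (XT.lf (nat_lit 0) (nat_lit 1215865895) (nat_lit 228) (nat_lit 10368593205) (nat_lit 76) (nat_lit 5564411555) (nat_lit 19) (nat_lit 5) (nat_lit 22) (nat_lit 5) (nat_lit 20) (nat_lit 5) (nat_lit 285) (nat_lit 240) (nat_lit 195)) (XT.lf (nat_lit 0) (nat_lit 4076341210) (nat_lit 228) (nat_lit 3877611219) (nat_lit 76) (nat_lit 9824721077) (nat_lit 19) (nat_lit 5) (nat_lit 22) (nat_lit 5) (nat_lit 20) (nat_lit 5) (nat_lit 286) (nat_lit 240) (nat_lit 194)))))) (XT.nd (nat_lit 312) (nat_lit 228) (nat_lit 0) (XT.nd (nat_lit 156) (nat_lit 76) (nat_lit 0) (XT.nd (nat_lit 78) (nat_lit 0) (nat_lit 0) (XT.lf (nat_lit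 0) (nat_lit 2973974798) (nat_lit 152) (nat_lit 4114631413) (nat_lit 228) (nat_lit 11350996234) (nat_lit 17) (nat_lit 5) (nat_lit 19) (nat_lit 5) (nat_lit 20) (nat_lit 5) (nat_lit 287) (nat_lit 240) (nat_lit 193)) (XT.lf (nat_lit 0) (nat_lit 10244584914) (nat_lit 152) (nat_lit 35787930) (nat_lit 228) (nat_lit 8851831271) (nat_lit 17) (nat_lit 5) (nat_lit 19) (nat_lit 5) (nat_lit 20) (nat_lit 5) (nat_lit 288) (nat_lit 240) (nat_lit 192))) (XT.nd (nat_lit 78) (nat_lit 76) (nat_lit 0) (XT.lf (nat_lit 0) (nat_lit 13662687825) (nat_lit 228) (nat_lit 2103925299) (nat_lit 76) (nat_lit 4091342082) (nat_lit 17) (nat_lit 5) (nat_lit 20) (nat_lit 5) (nat_lit 18) (nat_lit 4) (nat_lit 289) (nat_lit 240) (nat_lit 191)) (XT.lf (nat_lit 0) (nat_lit 5128306907) (nat_lit 76) (nat_lit 12132801270) (nat_lit 152) (nat_lit 3356600323) (nat_lit 16) (nat_lit 5) (nat_lit 17) (nat_lit 5) (nat_lit 18) (nat_lit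 4) (nat_lit 290) (nat_lit 240) (nat_lit 190)))) (XT.nd (nat_lit 156) (nat_lit 152) (nat_lit 0) (XT.nd (nat_lit 78) (nat_lit 76) (nat_lit 0) (XT.lf (nat_lit 0) (nat_lit 12741870863) (nat_lit 76) (nat_lit 8300315908) (nat_lit 152) (nat_lit 373186906) (nat_lit 16) (nat_lit 5) (nat_lit 17) (nat_lit 5) (nat_lit 18) (nat_lit 4) (nat_lit 291) (nat_lit 240) (nat_lit 189)) (XT.lf (nat_lit 0) (nat_lit 2639181966) (nat_lit 152) (nat_lit 1611785273) (nat_lit 76) (nat_lit 18001451039) (nat_lit 15) (nat_lit 5) (nat_lit 17) (nat_lit 5) (nat_lit 16) (nat_lit 5) (nat_lit 292) (nat_lit 240) (nat_lit 188))) (XT.nd (nat_lit 78) (nat_lit 0) (nat_lit 0) (XT.lf (nat_lit 0) (nat_lit 5853286543) (nat_lit 228) (nat_lit 17191766950) (nat_lit 76) (nat_lit 82825546) (nat_lit 13) (nat_lit 5) (nat_lit 16) (nat_lit 5) (nat_lit 14) (nat_lit 4) (nat_lit 293) (nat_lit 240) (nat_lit 187)) (XT.nd (nat_lit 78) (nat_lit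 0) (nat_lit 0) (XT.lf (nat_lit 0) (nat_lit 9295541599) (nat_lit 228) (nat_lit 10248386743) (nat_lit 76) (nat_lit 4499862482) (nat_lit 13) (nat_lit 5) (nat_lit 16) (nat_lit 5) (nat_lit 14) (nat_lit 4) (nat_lit 294) (nat_lit 240) (nat_lit 186)) (XT.lf (nat_lit 0) (nat_lit 12881350759) (nat_lit 228) (nat_lit 3005328118) (nat_lit 76) (nat_lit 9120295111) (nat_lit 13) (nat_lit 5) (nat_lit 16) (nat_lit 5) (nat_lit 14) (nat_lit 4) (nat_lit 295) (nat_lit 240) (nat_lit 185))))))) (XT.nd (nat_lit 702) (nat_lit 228) (nat_lit 0) (XT.nd (nat_lit 312) (nat_lit 152) (nat_lit 0) (XT.nd (nat_lit 156) (nat_lit 152) (nat_lit 0) (XT.nd (nat_lit 78) (nat_lit 0) (nat_lit 0) (XT.lf (nat_lit 0) (nat_lit 4705251745) (nat_lit 76) (nat_lit 11987462083) (nat_lit 152) (nat_lit 9323334884) (nat_lit 12) (nat_lit 5) (nat_lit 13) (nat_lit 5) (nat_lit 14) (nat_lit 4) (nat_lit 296) (nat_lit 240) (nat_lit 184)) (XT.lf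 (nat_lit 0) (nat_lit 12861199176) (nat_lit 76) (nat_lit 7857744261) (nat_lit 152) (nat_lit 6355462224) (nat_lit 12) (nat_lit 5) (nat_lit 13) (nat_lit 5) (nat_lit 14) (nat_lit 4) (nat_lit 297) (nat_lit 240) (nat_lit 183))) (XT.nd (nat_lit 78) (nat_lit 152) (nat_lit 0) (XT.lf (nat_lit 0) (nat_lit 21382563377) (nat_lit 76) (nat_lit 3538589434) (nat_lit 152) (nat_lit 3265835571) (nat_lit 12) (nat_lit 5) (nat_lit 13) (nat_lit 5) (nat_lit 14) (nat_lit 4) (nat_lit 298) (nat_lit 240) (nat_lit 182)) (XT.lf (nat_lit 0) (nat_lit 948231751) (nat_lit 152) (nat_lit 28391225028) (nat_lit 152) (nat_lit 15483624) (nat_lit 10) (nat_lit 4) (nat_lit 12) (nat_lit 5) (nat_lit 12) (nat_lit 4) (nat_lit 299) (nat_lit 240) (nat_lit 181)))) (XT.nd (nat_lit 156) (nat_lit 76) (nat_lit 0) (XT.nd (nat_lit 78) (nat_lit 0) (nat_lit 0) (XT.lf (nat_lit 0) (nat_lit 3439502735) (nat_lit 228) (nat_lit 21405240238) (nat_lit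 76) (nat_lit 5726387909) (nat_lit 9) (nat_lit 5) (nat_lit 12) (nat_lit 5) (nat_lit 10) (nat_lit 4) (nat_lit 300) (nat_lit 240) (nat_lit 180)) (XT.lf (nat_lit 0) (nat_lit 7043593656) (nat_lit 228) (nat_lit 14093500940) (nat_lit 76) (nat_lit 10712213827) (nat_lit 9) (nat_lit 5) (nat_lit 12) (nat_lit 5) (nat_lit 10) (nat_lit 4) (nat_lit 301) (nat_lit 240) (nat_lit 179))) (XT.nd (nat_lit 78) (nat_lit 76) (nat_lit 0) (XT.lf (nat_lit 0) (nat_lit 10805865878) (nat_lit 228) (nat_lit 6453840113) (nat_lit 76) (nat_lit 15932822404) (nat_lit 9) (nat_lit 5) (nat_lit 12) (nat_lit 5) (nat_lit 10) (nat_lit 4) (nat_lit 302) (nat_lit 240) (nat_lit 178)) (XT.nd (nat_lit 78) (nat_lit 0) (nat_lit 0) (XT.lf (nat_lit 0) (nat_lit 1582584498) (nat_lit 76) (nat_lit 13177401272) (nat_lit 152) (nat_lit 19842767739) (nat_lit 8) (nat_lit 5) (nat_lit 9) (nat_lit 5) (nat_lit 10) (nat_lit 4) (nat_lit 303) (nat_lit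 240) (nat_lit 177)) (XT.lf (nat_lit 0) (nat_lit 10209599831) (nat_lit 76) (nat_lit 8790983974) (nat_lit 152) (nat_lit 17078496847) (nat_lit 8) (nat_lit 5) (nat_lit 9) (nat_lit 5) (nat_lit 10) (nat_lit 4) (nat_lit 304) (nat_lit 240) (nat_lit 176)))))) (XT.nd (nat_lit 390) (nat_lit 152) (nat_lit 0) (XT.nd (nat_lit 156) (nat_lit 76) (nat_lit 0) (XT.nd (nat_lit 78) (nat_lit 0) (nat_lit 0) (XT.lf (nat_lit 0) (nat_lit 19234353296) (nat_lit 76) (nat_lit 4199309150) (nat_lit 152) (nat_lit 14196567150) (nat_lit 8) (nat_lit 5) (nat_lit 9) (nat_lit 5) (nat_lit 10) (nat_lit 4) (nat_lit 305) (nat_lit 240) (nat_lit 175)) (XT.lf (nat_lit 0) (nat_lit 28079277905) (nat_lit 152) (nat_lit 10591062414) (nat_lit 0) (nat_lit 589078172) (nat_lit 8) (nat_lit 5) (nat_lit 10) (nat_lit 4) (nat_lit 8) (nat_lit 4) (nat_lit 306) (nat_lit 240) (nat_lit 174))) (XT.nd (nat_lit 78) (nat_lit 76) (nat_lit 0) (XT.lf (nat_lit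 0) (nat_lit 33008084330) (nat_lit 152) (nat_lit 2496049430) (nat_lit 0) (nat_lit 5463412941) (nat_lit 8) (nat_lit 5) (nat_lit 10) (nat_lit 4) (nat_lit 8) (nat_lit 4) (nat_lit 307) (nat_lit 240) (nat_lit 173)) (XT.nd (nat_lit 78) (nat_lit 0) (nat_lit 0) (XT.lf (nat_lit 0) (nat_lit 6171526877) (nat_lit 76) (nat_lit 32091081941) (nat_lit 76) (nat_lit 4494532785) (nat_lit 7) (nat_lit 4) (nat_lit 8) (nat_lit 5) (nat_lit 8) (nat_lit 4) (nat_lit 308) (nat_lit 240) (nat_lit 172)) (XT.lf (nat_lit 0) (nat_lit 15329903744) (nat_lit 76) (nat_lit 28475507253) (nat_lit 76) (nat_lit 829550700) (nat_lit 7) (nat_lit 4) (nat_lit 8) (nat_lit 5) (nat_lit 8) (nat_lit 4) (nat_lit 309) (nat_lit 240) (nat_lit 171))))) (XT.nd (nat_lit 156) (nat_lit 76) (nat_lit 0) (XT.nd (nat_lit 78) (nat_lit 0) (nat_lit 0) (XT.lf (nat_lit 0) (nat_lit 2905857455) (nat_lit 152) (nat_lit 21736003433) (nat_lit 76) (nat_lit 21963286605)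 (nat_lit 6) (nat_lit 5) (nat_lit 8) (nat_lit 5) (nat_lit 7) (nat_lit 4) (nat_lit 310) (nat_lit 240) (nat_lit 170)) (XT.lf (nat_lit 0) (nat_lit 6784723003) (nat_lit 152) (nat_lit 13829143025) (nat_lit 76) (nat_lit 28060088209) (nat_lit 6) (nat_lit 5) (nat_lit 8) (nat_lit 5) (nat_lit 7) (nat_lit 4) (nat_lit 311) (nat_lit 240) (nat_lit 169))) (XT.nd (nat_lit 78) (nat_lit 76) (nat_lit 0) (XT.lf (nat_lit 0) (nat_lit 10842832141) (nat_lit 152) (nat_lit 5552699259) (nat_lit 76) (nat_lit 34451423840) (nat_lit 6) (nat_lit 5) (nat_lit 8) (nat_lit 5) (nat_lit 7) (nat_lit 4) (nat_lit 312) (nat_lit 240) (nat_lit 168)) (XT.nd (nat_lit 78) (nat_lit 0) (nat_lit 0) (XT.lf (nat_lit 0) (nat_lit 3215964633) (nat_lit 76) (nat_lit 11924092620) (nat_lit 152) (nat_lit 37986756551) (nat_lit 5) (nat_lit 5) (nat_lit 6) (nat_lit 5) (nat_lit 7) (nat_lit 4) (nat_lit 313) (nat_lit 240) (nat_lit 167)) (XT.lf (nat_lit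 0) (nat_lit 12591701582) (nat_lit 76) (nat_lit 7140769786) (nat_lit 152) (nat_lit 35784194717) (nat_lit 5) (nat_lit 5) (nat_lit 6) (nat_lit 5) (nat_lit 7) (nat_lit 4) (nat_lit 314) (nat_lit 240) (nat_lit 166))))))))
noncomputable def xc112 : XT := (XT.nd (nat_lit 1404) (nat_lit 76) (nat_lit 0) (XT.nd (nat_lit 702) (nat_lit 152) (nat_lit 0) (XT.nd (nat_lit 312) (nat_lit 76) (nat_lit 0) (XT.nd (nat_lit 156) (nat_lit 0) (nat_lit 0) (XT.nd (nat_lit 78) (nat_lit 0) (nat_lit 0) (XT.lf (nat_lit 0) (nat_lit 22413237456) (nat_lit 76) (nat_lit 2128211685) (nat_lit 152) (nat_lit 33485231052) (nat_lit 5) (nat_lit 5) (nat_lit 6) (nat_lit 5) (nat_lit 7) (nat_lit 4) (nat_lit 315) (nat_lit 240) (nat_lit 165)) (XT.lf (nat_lit 0) (nat_lit 29627238588) (nat_lit 152) (nat_lit 28007673558) (nat_lit 0) (nat_lit 3025480302) (nat_lit 5) (nat_lit 5) (nat_lit 7) (nat_lit 4) (nat_lit 5) (nat_lit 4) (nat_lit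 316) (nat_lit 240) (nat_lit 164))) (XT.nd (nat_lit 78) (nat_lit 0) (nat_lit 0) (XT.lf (nat_lit 0) (nat_lit 34990222461) (nat_lit 152) (nat_lit 20077821720) (nat_lit 0) (nat_lit 8356615726) (nat_lit 5) (nat_lit 5) (nat_lit 7) (nat_lit 4) (nat_lit 5) (nat_lit 4) (nat_lit 317) (nat_lit 240) (nat_lit 163)) (XT.lf (nat_lit 0) (nat_lit 40609942421) (nat_lit 152) (nat_lit 11771779275) (nat_lit 0) (nat_lit 13946003830) (nat_lit 5) (nat_lit 5) (nat_lit 7) (nat_lit 4) (nat_lit 5) (nat_lit 4) (nat_lit 318) (nat_lit 240) (nat_lit 162)))) (XT.nd (nat_lit 156) (nat_lit 0) (nat_lit 0) (XT.nd (nat_lit 78) (nat_lit 76) (nat_lit 0) (XT.lf (nat_lit 0) (nat_lit 46499778753) (nat_lit 152) (nat_lit 3069769932) (nat_lit 0) (nat_lit 19806952681) (nat_lit 5) (nat_lit 5) (nat_lit 7) (nat_lit 4) (nat_lit 5) (nat_lit 4) (nat_lit 319) (nat_lit 240) (nat_lit 161)) (XT.lf (nat_lit 0) (nat_lit 6248930169) (nat_lit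 76) (nat_lit 46522388020) (nat_lit 76) (nat_lit 19802050061) (nat_lit 4) (nat_lit 4) (nat_lit 5) (nat_lit 5) (nat_lit 5) (nat_lit 4) (nat_lit 320) (nat_lit 240) (nat_lit 160))) (XT.nd (nat_lit 78) (nat_lit 0) (nat_lit 0) (XT.lf (nat_lit 0) (nat_lit 16122023265) (nat_lit 76) (nat_lit 43276257437) (nat_lit 76) (nat_lit 16529717680) (nat_lit 4) (nat_lit 4) (nat_lit 5) (nat_lit 5) (nat_lit 5) (nat_lit 4) (nat_lit 321) (nat_lit 240) (nat_lit 159)) (XT.nd (nat_lit 78) (nat_lit 0) (nat_lit 0) (XT.lf (nat_lit 0) (nat_lit 26471516263) (nat_lit 76) (nat_lit 39875416092) (nat_lit 76) (nat_lit 13103922242) (nat_lit 4) (nat_lit 4) (nat_lit 5) (nat_lit 5) (nat_lit 5) (nat_lit 4) (nat_lit 322) (nat_lit 240) (nat_lit 158)) (XT.lf (nat_lit 0) (nat_lit 37322050811) (nat_lit 76) (nat_lit 36311766744) (nat_lit 76) (nat_lit 9516507091) (nat_lit 4) (nat_lit 4) (nat_lit 5) (nat_lit 5) (nat_lit 5) (nat_lit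 4) (nat_lit 323) (nat_lit 240) (nat_lit 157)))))) (XT.nd (nat_lit 312) (nat_lit 76) (nat_lit 0) (XT.nd (nat_lit 156) (nat_lit 76) (nat_lit 0) (XT.nd (nat_lit 78) (nat_lit 0) (nat_lit 0) (XT.lf (nat_lit 0) (nat_lit 48699461517) (nat_lit 76) (nat_lit 32576824513) (nat_lit 76) (nat_lit 5758930762) (nat_lit 4) (nat_lit 4) (nat_lit 5) (nat_lit 5) (nat_lit 5) (nat_lit 4) (nat_lit 324) (nat_lit 240) (nat_lit 156)) (XT.lf (nat_lit 0) (nat_lit 60630837454) (nat_lit 76) (nat_lit 28661696680) (nat_lit 76) (nat_lit 1822246646) (nat_lit 4) (nat_lit 4) (nat_lit 5) (nat_lit 5) (nat_lit 5) (nat_lit 4) (nat_lit 325) (nat_lit 240) (nat_lit 155))) (XT.nd (nat_lit 78) (nat_lit 0) (nat_lit 0) (XT.lf (nat_lit 0) (nat_lit 2229210547) (nat_lit 152) (nat_lit 22290098205) (nat_lit 76) (nat_lit 70877623352) (nat_lit 3) (nat_lit 5) (nat_lit 5) (nat_lit 5) (nat_lit 4) (nat_lit 4) (nat_lit 326) (nat_lit 240) (nat_lit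 154)) (XT.lf (nat_lit 0) (nat_lit 6414300211) (nat_lit 152) (nat_lit 13730216578) (nat_lit 76) (nat_lit 79747574284) (nat_lit 3) (nat_lit 5) (nat_lit 5) (nat_lit 5) (nat_lit 4) (nat_lit 4) (nat_lit 327) (nat_lit 240) (nat_lit 153)))) (XT.nd (nat_lit 156) (nat_lit 0) (nat_lit 0) (XT.nd (nat_lit 78) (nat_lit 76) (nat_lit 0) (XT.lf (nat_lit 0) (nat_lit 10801310118) (nat_lit 152) (nat_lit 4755467398) (nat_lit 76) (nat_lit 89055605449) (nat_lit 3) (nat_lit 5) (nat_lit 5) (nat_lit 5) (nat_lit 4) (nat_lit 4) (nat_lit 328) (nat_lit 240) (nat_lit 152)) (XT.lf (nat_lit 0) (nat_lit 4809450226) (nat_lit 76) (nat_lit 10666324297) (nat_lit 152) (nat_lit 94089517597) (nat_lit 2) (nat_lit 5) (nat_lit 3) (nat_lit 5) (nat_lit 4) (nat_lit 4) (nat_lit 329) (nat_lit 240) (nat_lit 151))) (XT.nd (nat_lit 78) (nat_lit 0) (nat_lit 0) (XT.lf (nat_lit 0) (nat_lit 15005413004) (nat_lit 76) (nat_lit 5452240881)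 (nat_lit 152) (nat_lit 94304515758) (nat_lit 2) (nat_lit 5) (nat_lit 3) (nat_lit 5) (nat_lit 4) (nat_lit 4) (nat_lit 330) (nat_lit 240) (nat_lit 150)) (XT.nd (nat_lit 78) (nat_lit 0) (nat_lit 0) (XT.lf (nat_lit 0) (nat_lit 25682379630) (nat_lit 152) (nat_lit 94520035194) (nat_lit 0) (nat_lit 16795733) (nat_lit 2) (nat_lit 5) (nat_lit 4) (nat_lit 4) (nat_lit 2) (nat_lit 4) (nat_lit 331) (nat_lit 240) (nat_lit 149)) (XT.lf (nat_lit 0) (nat_lit 31251437325) (nat_lit 152) (nat_lit 89122254920) (nat_lit 0) (nat_lit 5571263286) (nat_lit 2) (nat_lit 5) (nat_lit 4) (nat_lit 4) (nat_lit 2) (nat_lit 4) (nat_lit 332) (nat_lit 240) (nat_lit 148))))))) (XT.nd (nat_lit 702) (nat_lit 76) (nat_lit 0) (XT.nd (nat_lit 312) (nat_lit 0) (nat_lit 0) (XT.nd (nat_lit 156) (nat_lit 0) (nat_lit 0) (XT.nd (nat_lit 78) (nat_lit 0) (nat_lit 0) (XT.lf (nat_lit 0) (nat_lit 37092961872) (nat_lit 152) (nat_lit 83465439198)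 (nat_lit 0) (nat_lit 11398892460) (nat_lit 2) (nat_lit 5) (nat_lit 4) (nat_lit 4) (nat_lit 2) (nat_lit 4) (nat_lit 333) (nat_lit 240) (nat_lit 147)) (XT.lf (nat_lit 0) (nat_lit 43220861661) (nat_lit 152) (nat_lit 77536119420) (nat_lit 0) (nat_lit 17513558562) (nat_lit 2) (nat_lit 5) (nat_lit 4) (nat_lit 4) (nat_lit 2) (nat_lit 4) (nat_lit 334) (nat_lit 240) (nat_lit 146))) (XT.nd (nat_lit 78) (nat_lit 0) (nat_lit 0) (XT.lf (nat_lit 0) (nat_lit 49649726932) (nat_lit 152) (nat_lit 71320178158) (nat_lit 0) (nat_lit 23929820320) (nat_lit 2) (nat_lit 5) (nat_lit 4) (nat_lit 4) (nat_lit 2) (nat_lit 4) (nat_lit 335) (nat_lit 240) (nat_lit 145)) (XT.lf (nat_lit 0) (nat_lit 56394864506) (nat_lit 152) (nat_lit 64802815552) (nat_lit 0) (nat_lit 30662954548) (nat_lit 2) (nat_lit 5) (nat_lit 4) (nat_lit 4) (nat_lit 2) (nat_lit 4) (nat_lit 336) (nat_lit 240) (nat_lit 144)))) (XT.nd (nat_lit 156)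 (nat_lit 0) (nat_lit 0) (XT.nd (nat_lit 78) (nat_lit 0) (nat_lit 0) (XT.lf (nat_lit 0) (nat_lit 63472334234) (nat_lit 152) (nat_lit 57968514072) (nat_lit 0) (nat_lit 37728992519) (nat_lit 2) (nat_lit 5) (nat_lit 4) (nat_lit 4) (nat_lit 2) (nat_lit 4) (nat_lit 337) (nat_lit 240) (nat_lit 143)) (XT.lf (nat_lit 0) (nat_lit 70898987234) (nat_lit 152) (nat_lit 50801001570) (nat_lit 0) (nat_lit 45144758131) (nat_lit 2) (nat_lit 5) (nat_lit 4) (nat_lit 4) (nat_lit 2) (nat_lit 4) (nat_lit 338) (nat_lit 240) (nat_lit 142))) (XT.nd (nat_lit 78) (nat_lit 0) (nat_lit 0) (XT.lf (nat_lit 0) (nat_lit 78692506015) (nat_lit 152) (nat_lit 43283212542) (nat_lit 0) (nat_lit 52927907971) (nat_lit 2) (nat_lit 5) (nat_lit 4) (nat_lit 4) (nat_lit 2) (nat_lit 4) (nat_lit 339) (nat_lit 240) (nat_lit 141)) (XT.nd (nat_lit 78) (nat_lit 0) (nat_lit 0) (XT.lf (nat_lit 0) (nat_lit 86871446572) (nat_lit 152) (nat_lit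 35397247490) (nat_lit 0) (nat_lit 61096973346) (nat_lit 2) (nat_lit 5) (nat_lit 4) (nat_lit 4) (nat_lit 2) (nat_lit 4) (nat_lit 340) (nat_lit 240) (nat_lit 140)) (XT.lf (nat_lit 0) (nat_lit 95455282575) (nat_lit 152) (nat_lit 27124330306) (nat_lit 0) (nat_lit 69671404414) (nat_lit 2) (nat_lit 5) (nat_lit 4) (nat_lit 4) (nat_lit 2) (nat_lit 4) (nat_lit 341) (nat_lit 240) (nat_lit 139)))))) (XT.nd (nat_lit 312) (nat_lit 0) (nat_lit 0) (XT.nd (nat_lit 156) (nat_lit 76) (nat_lit 0) (XT.nd (nat_lit 78) (nat_lit 0) (nat_lit 0) (XT.lf (nat_lit 0) (nat_lit 104464451727) (nat_lit 152) (nat_lit 18444763569) (nat_lit 0) (nat_lit 78671616485) (nat_lit 2) (nat_lit 5) (nat_lit 4) (nat_lit 4) (nat_lit 2) (nat_lit 4) (nat_lit 342) (nat_lit 240) (nat_lit 138)) (XT.lf (nat_lit 0) (nat_lit 113920404432) (nat_lit 152) (nat_lit 9337881643) (nat_lit 0) (nat_lit 88119038636) (nat_lit 2) (nat_lit 5) (nat_lit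 4) (nat_lit 4) (nat_lit 2) (nat_lit 4) (nat_lit 343) (nat_lit 240) (nat_lit 137))) (XT.nd (nat_lit 78) (nat_lit 0) (nat_lit 0) (XT.lf (nat_lit 0) (nat_lit 225206539) (nat_lit 76) (nat_lit 123623964427) (nat_lit 76) (nat_lit 97814474295) (nat_lit 1) (nat_lit 4) (nat_lit 2) (nat_lit 5) (nat_lit 2) (nat_lit 4) (nat_lit 344) (nat_lit 240) (nat_lit 136)) (XT.lf (nat_lit 0) (nat_lit 10584395793) (nat_lit 76) (nat_lit 123844690854) (nat_lit 76) (nat_lit 98027463258) (nat_lit 1) (nat_lit 4) (nat_lit 2) (nat_lit 5) (nat_lit 2) (nat_lit 4) (nat_lit 345) (nat_lit 240) (nat_lit 135)))) (XT.nd (nat_lit 156) (nat_lit 0) (nat_lit 0) (XT.nd (nat_lit 78) (nat_lit 0) (nat_lit 0) (XT.lf (nat_lit 0) (nat_lit 21455598316) (nat_lit 76) (nat_lit 124079132437) (nat_lit 76) (nat_lit 98254535829) (nat_lit 1) (nat_lit 4) (nat_lit 2) (nat_lit 5) (nat_lit 2) (nat_lit 4) (nat_lit 346) (nat_lit 240) (nat_lit 134))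 (XT.lf (nat_lit 0) (nat_lit 32864697924) (nat_lit 76) (nat_lit 124327847371) (nat_lit 76) (nat_lit 98496232655) (nat_lit 1) (nat_lit 4) (nat_lit 2) (nat_lit 5) (nat_lit 2) (nat_lit 4) (nat_lit 347) (nat_lit 240) (nat_lit 133))) (XT.nd (nat_lit 78) (nat_lit 0) (nat_lit 0) (XT.lf (nat_lit 0) (nat_lit 44838859140) (nat_lit 76) (nat_lit 124591427835) (nat_lit 76) (nat_lit 98753129207) (nat_lit 1) (nat_lit 4) (nat_lit 2) (nat_lit 5) (nat_lit 2) (nat_lit 4) (nat_lit 348) (nat_lit 240) (nat_lit 132)) (XT.nd (nat_lit 78) (nat_lit 0) (nat_lit 0) (XT.lf (nat_lit 0) (nat_lit 57406591871) (nat_lit 76) (nat_lit 124870501400) (nat_lit 76) (nat_lit 99025837142) (nat_lit 1) (nat_lit 4) (nat_lit 2) (nat_lit 5) (nat_lit 2) (nat_lit 4) (nat_lit 349) (nat_lit 240) (nat_lit 131)) (XT.lf (nat_lit 0) (nat_lit 70597819291) (nat_lit 76) (nat_lit 125165732528) (nat_lit 76) (nat_lit 99315005765) (nat_lit 1)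 (nat_lit 4) (nat_lit 2) (nat_lit 5) (nat_lit 2) (nat_lit 4) (nat_lit 350) (nat_lit 240) (nat_lit 130))))))))
noncomputable def xc113 : XT := (XT.nd (nat_lit 29328) (nat_lit 0) (nat_lit 4104) (XT.nd (nat_lit 702) (nat_lit 0) (nat_lit 0) (XT.nd (nat_lit 312) (nat_lit 0) (nat_lit 0) (XT.nd (nat_lit 156) (nat_lit 0) (nat_lit 0) (XT.nd (nat_lit 78) (nat_lit 0) (nat_lit 0) (XT.lf (nat_lit 0) (nat_lit 84443949084) (nat_lit 76) (nat_lit 125477824150) (nat_lit 76) (nat_lit 99621323573) (nat_lit 1) (nat_lit 4) (nat_lit 2) (nat_lit 5) (nat_lit 2) (nat_lit 4) (nat_lit 351) (nat_lit 240) (nat_lit 129)) (XT.lf (nat_lit 0) (nat_lit 98977948225) (nat_lit 76) (nat_lit 125807519341) (nat_lit 76) (nat_lit 99945519893) (nat_lit 1) (nat_lit 4) (nat_lit 2) (nat_lit 5) (nat_lit 2) (nat_lit 4) (nat_lit 352) (nat_lit 240) (nat_lit 128))) (XT.nd (nat_lit 78) (nat_lit 0) (nat_lit 0) (XT.lf (nat_lit 0) (nat_lit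 114234421475) (nat_lit 76) (nat_lit 126155603090) (nat_lit 76) (nat_lit 100288366622) (nat_lit 1) (nat_lit 4) (nat_lit 2) (nat_lit 5) (nat_lit 2) (nat_lit 4) (nat_lit 353) (nat_lit 240) (nat_lit 127)) (XT.lf (nat_lit 0) (nat_lit 130249693770) (nat_lit 76) (nat_lit 126522904168) (nat_lit 76) (nat_lit 100650680062) (nat_lit 1) (nat_lit 4) (nat_lit 2) (nat_lit 5) (nat_lit 2) (nat_lit 4) (nat_lit 354) (nat_lit 240) (nat_lit 126)))) (XT.nd (nat_lit 156) (nat_lit 0) (nat_lit 0) (XT.nd (nat_lit 78) (nat_lit 0) (nat_lit 0) (XT.lf (nat_lit 0) (nat_lit 147061896710) (nat_lit 76) (nat_lit 126910297101) (nat_lit 76) (nat_lit 101033322864) (nat_lit 1) (nat_lit 4) (nat_lit 2) (nat_lit 5) (nat_lit 2) (nat_lit 4) (nat_lit 355) (nat_lit 240) (nat_lit 125)) (XT.lf (nat_lit 0) (nat_lit 164711059350) (nat_lit 76) (nat_lit 127318704253) (nat_lit 76) (nat_lit 101437206081) (nat_lit 1) (nat_lit 4) (nat_lit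 2) (nat_lit 5) (nat_lit 2) (nat_lit 4) (nat_lit 356) (nat_lit 240) (nat_lit 124))) (XT.nd (nat_lit 78) (nat_lit 0) (nat_lit 0) (XT.lf (nat_lit 0) (nat_lit 183239203506) (nat_lit 76) (nat_lit 127749098022) (nat_lit 76) (nat_lit 101863291341) (nat_lit 1) (nat_lit 4) (nat_lit 2) (nat_lit 5) (nat_lit 2) (nat_lit 4) (nat_lit 357) (nat_lit 240) (nat_lit 123)) (XT.nd (nat_lit 78) (nat_lit 0) (nat_lit 0) (XT.lf (nat_lit 0) (nat_lit 202690443807) (nat_lit 76) (nat_lit 128202503155) (nat_lit 76) (nat_lit 102312593132) (nat_lit 1) (nat_lit 4) (nat_lit 2) (nat_lit 5) (nat_lit 2) (nat_lit 4) (nat_lit 358) (nat_lit 240) (nat_lit 122)) (XT.lf (nat_lit 0) (nat_lit 223111092730) (nat_lit 76) (nat_lit 128679999189) (nat_lit 76) (nat_lit 102786181221) (nat_lit 1) (nat_lit 4) (nat_lit 2) (nat_lit 5) (nat_lit 2) (nat_lit 4) (nat_lit 359) (nat_lit 240) (nat_lit 121)))))) (XT.nd (nat_lit 28236) (nat_lit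 0) (nat_lit 8284) (XT.nd (nat_lit 156) (nat_lit 0) (nat_lit 0) (XT.nd (nat_lit 78) (nat_lit 0) (nat_lit 0) (XT.lf (nat_lit 0) (nat_lit 244549770867) (nat_lit 76) (nat_lit 129182723018) (nat_lit 76) (nat_lit 103285183198) (nat_lit 1) (nat_lit 4) (nat_lit 2) (nat_lit 5) (nat_lit 2) (nat_lit 4) (nat_lit 360) (nat_lit 240) (nat_lit 120)) (XT.lf (nat_lit 0) (nat_lit 267057522691) (nat_lit 76) (nat_lit 129711871605) (nat_lit 76) (nat_lit 103810787163) (nat_lit 1) (nat_lit 4) (nat_lit 2) (nat_lit 5) (nat_lit 2) (nat_lit 4) (nat_lit 361) (nat_lit 240) (nat_lit 119))) (XT.nd (nat_lit 78) (nat_lit 0) (nat_lit 0) (XT.lf (nat_lit 0) (nat_lit 290687938086) (nat_lit 76) (nat_lit 130268704826) (nat_lit 76) (nat_lit 104364244555) (nat_lit 1) (nat_lit 4) (nat_lit 2) (nat_lit 5) (nat_lit 2) (nat_lit 4) (nat_lit 362) (nat_lit 240) (nat_lit 118)) (XT.lf (nat_lit 0) (nat_lit 315497279946) (nat_lit 76)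 (nat_lit 130854548475) (nat_lit 76) (nat_lit 104946873128) (nat_lit 1) (nat_lit 4) (nat_lit 2) (nat_lit 5) (nat_lit 2) (nat_lit 4) (nat_lit 363) (nat_lit 240) (nat_lit 117)))) (XT.nd (nat_lit 156) (nat_lit 228) (nat_lit 0) (XT.nd (nat_lit 78) (nat_lit 228) (nat_lit 0) (XT.lf (nat_lit 0) (nat_lit 1372707174) (nat_lit 0) (nat_lit 1372707174) (nat_lit 76) (nat_lit 481180068) (nat_lit 116) (nat_lit 5) (nat_lit 116) (nat_lit 3) (nat_lit 117) (nat_lit 0) (nat_lit 241) (nat_lit 241) (nat_lit 238)) (XT.lf (nat_lit 0) (nat_lit 1632720000) (nat_lit 228) (nat_lit 855895794) (nat_lit 228) (nat_lit 3981128747) (nat_lit 113) (nat_lit 3) (nat_lit 116) (nat_lit 3) (nat_lit 116) (nat_lit 5) (nat_lit 242) (nat_lit 241) (nat_lit 237))) (XT.nd (nat_lit 78) (nat_lit 228) (nat_lit 0) (XT.lf (nat_lit 76) (nat_lit 2102620791) (nat_lit 0) (nat_lit 2089782901) (nat_lit 228) (nat_lit 2301610770) (nat_lit 114)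 (nat_lit 5) (nat_lit 113) (nat_lit 3) (nat_lit 116) (nat_lit 5) (nat_lit 243) (nat_lit 241) (nat_lit 236)) (XT.nd (nat_lit 78) (nat_lit 0) (nat_lit 0) (XT.lf (nat_lit 0) (nat_lit 201110733) (nat_lit 228) (nat_lit 1378244777) (nat_lit 304) (nat_lit 4948195607) (nat_lit 110) (nat_lit 5) (nat_lit 113) (nat_lit 3) (nat_lit 114) (nat_lit 5) (nat_lit 244) (nat_lit 241) (nat_lit 235)) (XT.lf (nat_lit 76) (nat_lit 1714729004) (nat_lit 0) (nat_lit 908752317) (nat_lit 304) (nat_lit 3944697510) (nat_lit 111) (nat_lit 5) (nat_lit 110) (nat_lit 5) (nat_lit 114) (nat_lit 5) (nat_lit 245) (nat_lit 241) (nat_lit 234))))))) (XT.nd (nat_lit 702) (nat_lit 2660) (nat_lit 0) (XT.nd (nat_lit 312) (nat_lit 988) (nat_lit 0) (XT.nd (nat_lit 156) (nat_lit 304) (nat_lit 0) (XT.nd (nat_lit 78) (nat_lit 228) (nat_lit 0) (XT.lf (nat_lit 76) (nat_lit 4923636836) (nat_lit 0) (nat_lit 117790475) (nat_lit 304) (nat_lit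 1576539112) (nat_lit 111) (nat_lit 5) (nat_lit 110) (nat_lit 5) (nat_lit 114) (nat_lit 5) (nat_lit 246) (nat_lit 241) (nat_lit 233)) (XT.lf (nat_lit 0) (nat_lit 773172252) (nat_lit 304) (nat_lit 5118166167) (nat_lit 76) (nat_lit 784353180) (nat_lit 107) (nat_lit 5) (nat_lit 111) (nat_lit 5) (nat_lit 108) (nat_lit 5) (nat_lit 247) (nat_lit 241) (nat_lit 232))) (XT.nd (nat_lit 78) (nat_lit 304) (nat_lit 0) (XT.lf (nat_lit 0) (nat_lit 3079951049) (nat_lit 304) (nat_lit 1827431198) (nat_lit 76) (nat_lit 1833735762) (nat_lit 107) (nat_lit 5) (nat_lit 111) (nat_lit 5) (nat_lit 108) (nat_lit 5) (nat_lit 248) (nat_lit 241) (nat_lit 231)) (XT.lf (nat_lit 0) (nat_lit 1588085274) (nat_lit 304) (nat_lit 3806842961) (nat_lit 380) (nat_lit 1420944929) (nat_lit 103) (nat_lit 5) (nat_lit 107) (nat_lit 5) (nat_lit 108) (nat_lit 5) (nat_lit 249) (nat_lit 241) (nat_lit 230)))) (XT.nd (nat_lit 156) (nat_lit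 532) (nat_lit 0) (XT.nd (nat_lit 78) (nat_lit 380) (nat_lit 0) (XT.lf (nat_lit 0) (nat_lit 803164715) (nat_lit 380) (nat_lit 1764093168) (nat_lit 76) (nat_lit 4331932295) (nat_lit 102) (nat_lit 5) (nat_lit 107) (nat_lit 5) (nat_lit 103) (nat_lit 5) (nat_lit 250) (nat_lit 241) (nat_lit 229)) (XT.lf (nat_lit 0) (nat_lit 1818112592) (nat_lit 380) (nat_lit 1177407412) (nat_lit 456) (nat_lit 3995353697) (nat_lit 97) (nat_lit 5) (nat_lit 102) (nat_lit 5) (nat_lit 103) (nat_lit 5) (nat_lit 251) (nat_lit 241) (nat_lit 228))) (XT.nd (nat_lit 78) (nat_lit 532) (nat_lit 0) (XT.lf (nat_lit 0) (nat_lit 5213660603) (nat_lit 456) (nat_lit 1545004706) (nat_lit 76) (nat_lit 333243933) (nat_lit 97) (nat_lit 5) (nat_lit 103) (nat_lit 5) (nat_lit 98) (nat_lit 5) (nat_lit 252) (nat_lit 241) (nat_lit 227)) (XT.nd (nat_lit 78) (nat_lit 0) (nat_lit 0) (XT.lf (nat_lit 0) (nat_lit 273277071) (nat_lit 532) (nat_lit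 4980441031) (nat_lit 76) (nat_lit 1947552094) (nat_lit 90) (nat_lit 5) (nat_lit 97) (nat_lit 5) (nat_lit 91) (nat_lit 5) (nat_lit 253) (nat_lit 241) (nat_lit 226)) (XT.lf (nat_lit 0) (nat_lit 2384594345) (nat_lit 532) (nat_lit 1210741067) (nat_lit 76) (nat_lit 3723955156) (nat_lit 90) (nat_lit 5) (nat_lit 97) (nat_lit 5) (nat_lit 91) (nat_lit 5) (nat_lit 254) (nat_lit 241) (nat_lit 225)))))) (XT.nd (nat_lit 312) (nat_lit 1444) (nat_lit 0) (XT.nd (nat_lit 156) (nat_lit 684) (nat_lit 0) (XT.nd (nat_lit 78) (nat_lit 0) (nat_lit 0) (XT.lf (nat_lit 0) (nat_lit 2746467979) (nat_lit 532) (nat_lit 1791929952) (nat_lit 608) (nat_lit 2908442063) (nat_lit 83) (nat_lit 5) (nat_lit 90) (nat_lit 5) (nat_lit 91) (nat_lit 5) (nat_lit 255) (nat_lit 241) (nat_lit 224)) (XT.lf (nat_lit 0) (nat_lit 6720271675) (nat_lit 608) (nat_lit 731336623) (nat_lit 76) (nat_lit 133591077) (nat_lit 83) (nat_lit 5)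 (nat_lit 91) (nat_lit 5) (nat_lit 84) (nat_lit 5) (nat_lit 256) (nat_lit 241) (nat_lit 223))) (XT.nd (nat_lit 78) (nat_lit 0) (nat_lit 0) (XT.lf (nat_lit 0) (nat_lit 1224822749) (nat_lit 684) (nat_lit 4323698339) (nat_lit 76) (nat_lit 2182112691) (nat_lit 74) (nat_lit 5) (nat_lit 83) (nat_lit 5) (nat_lit 75) (nat_lit 5) (nat_lit 257) (nat_lit 241) (nat_lit 222)) (XT.lf (nat_lit 0) (nat_lit 3306721607) (nat_lit 684) (nat_lit 210521970) (nat_lit 76) (nat_lit 4369940970) (nat_lit 74) (nat_lit 5) (nat_lit 83) (nat_lit 5) (nat_lit 75) (nat_lit 5) (nat_lit 258) (nat_lit 241) (nat_lit 221)))) (XT.nd (nat_lit 156) (nat_lit 456) (nat_lit 0) (XT.nd (nat_lit 78) (nat_lit 304) (nat_lit 0) (XT.lf (nat_lit 0) (nat_lit 4154688607) (nat_lit 684) (nat_lit 1311597465) (nat_lit 760) (nat_lit 2586969683) (nat_lit 65) (nat_lit 5) (nat_lit 74) (nat_lit 5) (nat_lit 75) (nat_lit 5) (nat_lit 259) (nat_lit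 241) (nat_lit 220)) (XT.lf (nat_lit 0) (nat_lit 425889054) (nat_lit 304) (nat_lit 7245662667) (nat_lit 380) (nat_lit 559546403) (nat_lit 61) (nat_lit 5) (nat_lit 65) (nat_lit 5) (nat_lit 66) (nat_lit 5) (nat_lit 260) (nat_lit 241) (nat_lit 219))) (XT.nd (nat_lit 78) (nat_lit 380) (nat_lit 0) (XT.lf (nat_lit 0) (nat_lit 1520492215) (nat_lit 380) (nat_lit 3451467811) (nat_lit 76) (nat_lit 3444894930) (nat_lit 60) (nat_lit 5) (nat_lit 65) (nat_lit 5) (nat_lit 61) (nat_lit 5) (nat_lit 261) (nat_lit 241) (nat_lit 218)) (XT.nd (nat_lit 78) (nat_lit 0) (nat_lit 0) (XT.lf (nat_lit 0) (nat_lit 1057225825) (nat_lit 380) (nat_lit 2562020035) (nat_lit 456) (nat_lit 4995824831) (nat_lit 55) (nat_lit 5) (nat_lit 60) (nat_lit 5) (nat_lit 61) (nat_lit 5) (nat_lit 262) (nat_lit 241) (nat_lit 217)) (XT.lf (nat_lit 0) (nat_lit 5801387571) (nat_lit 456) (nat_lit 2999770775) (nat_lit 76) (nat_lit 23407377)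 (nat_lit 55) (nat_lit 5) (nat_lit 61) (nat_lit 5) (nat_lit 56) (nat_lit 5) (nat_lit 263) (nat_lit 241) (nat_lit 216))))))))
noncomputable def xc114 : XT := (XT.nd (nat_lit 1404) (nat_lit 912) (nat_lit 0) (XT.nd (nat_lit 702) (nat_lit 912) (nat_lit 0) (XT.nd (nat_lit 312) (nat_lit 760) (nat_lit 0) (XT.nd (nat_lit 156) (nat_lit 304) (nat_lit 0) (XT.nd (nat_lit 78) (nat_lit 76) (nat_lit 0) (XT.lf (nat_lit 0) (nat_lit 1713120725) (nat_lit 304) (nat_lit 6371627320) (nat_lit 380) (nat_lit 960459048) (nat_lit 51) (nat_lit 5) (nat_lit 55) (nat_lit 5) (nat_lit 56) (nat_lit 5) (nat_lit 264) (nat_lit 241) (nat_lit 215)) (XT.lf (nat_lit 0) (nat_lit 1142671830) (nat_lit 380) (nat_lit 2615478562) (nat_lit 76) (nat_lit 5519247760) (nat_lit 50) (nat_lit 5) (nat_lit 55) (nat_lit 5) (nat_lit 51) (nat_lit 5) (nat_lit 265) (nat_lit 241) (nat_lit 214))) (XT.nd (nat_lit 78) (nat_lit 0) (nat_lit 0) (XT.lf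 (nat_lit 0) (nat_lit 2312084314) (nat_lit 304) (nat_lit 970524494) (nat_lit 380) (nat_lit 6239845762) (nat_lit 46) (nat_lit 5) (nat_lit 50) (nat_lit 5) (nat_lit 51) (nat_lit 5) (nat_lit 266) (nat_lit 241) (nat_lit 213)) (XT.lf (nat_lit 0) (nat_lit 5534914330) (nat_lit 380) (nat_lit 2317327637) (nat_lit 76) (nat_lit 1927481285) (nat_lit 46) (nat_lit 5) (nat_lit 51) (nat_lit 5) (nat_lit 47) (nat_lit 5) (nat_lit 267) (nat_lit 241) (nat_lit 212)))) (XT.nd (nat_lit 156) (nat_lit 456) (nat_lit 0) (XT.nd (nat_lit 78) (nat_lit 76) (nat_lit 0) (XT.lf (nat_lit 0) (nat_lit 2813226179) (nat_lit 228) (nat_lit 5079589135) (nat_lit 304) (nat_lit 2157608216) (nat_lit 43) (nat_lit 5) (nat_lit 46) (nat_lit 5) (nat_lit 47) (nat_lit 5) (nat_lit 268) (nat_lit 241) (nat_lit 211)) (XT.lf (nat_lit 0) (nat_lit 6572470) (nat_lit 304) (nat_lit 2135455876) (nat_lit 76) (nat_lit 8194115619) (nat_lit 42) (nat_lit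 5) (nat_lit 46) (nat_lit 5) (nat_lit 43) (nat_lit 5) (nat_lit 269) (nat_lit 241) (nat_lit 210))) (XT.nd (nat_lit 78) (nat_lit 228) (nat_lit 0) (XT.lf (nat_lit 0) (nat_lit 2209419190) (nat_lit 304) (nat_lit 7440761834) (nat_lit 76) (nat_lit 984240128) (nat_lit 39) (nat_lit 5) (nat_lit 43) (nat_lit 5) (nat_lit 40) (nat_lit 5) (nat_lit 270) (nat_lit 241) (nat_lit 209)) (XT.nd (nat_lit 78) (nat_lit 228) (nat_lit 0) (XT.lf (nat_lit 0) (nat_lit 4532799146) (nat_lit 304) (nat_lit 2198295018) (nat_lit 76) (nat_lit 4216177156) (nat_lit 39) (nat_lit 5) (nat_lit 43) (nat_lit 5) (nat_lit 40) (nat_lit 5) (nat_lit 271) (nat_lit 241) (nat_lit 208)) (XT.lf (nat_lit 0) (nat_lit 3336757492) (nat_lit 228) (nat_lit 3629132299) (nat_lit 304) (nat_lit 4310367279) (nat_lit 36) (nat_lit 5) (nat_lit 39) (nat_lit 5) (nat_lit 40) (nat_lit 5) (nat_lit 272) (nat_lit 241) (nat_lit 207)))))) (XT.nd (nat_lit 312)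 (nat_lit 456) (nat_lit 0) (XT.nd (nat_lit 156) (nat_lit 152) (nat_lit 0) (XT.nd (nat_lit 78) (nat_lit 304) (nat_lit 0) (XT.lf (nat_lit 0) (nat_lit 9149778949) (nat_lit 228) (nat_lit 351146497) (nat_lit 304) (nat_lit 2121914194) (nat_lit 36) (nat_lit 5) (nat_lit 39) (nat_lit 5) (nat_lit 40) (nat_lit 5) (nat_lit 273) (nat_lit 241) (nat_lit 206)) (XT.lf (nat_lit 0) (nat_lit 215381856) (nat_lit 304) (nat_lit 8739868181) (nat_lit 76) (nat_lit 3029258320) (nat_lit 32) (nat_lit 5) (nat_lit 36) (nat_lit 5) (nat_lit 33) (nat_lit 5) (nat_lit 274) (nat_lit 241) (nat_lit 205))) (XT.nd (nat_lit 78) (nat_lit 152) (nat_lit 0) (XT.lf (nat_lit 0) (nat_lit 2592505320) (nat_lit 304) (nat_lit 3144164248) (nat_lit 76) (nat_lit 6626278014) (nat_lit 32) (nat_lit 5) (nat_lit 36) (nat_lit 5) (nat_lit 33) (nat_lit 5) (nat_lit 275) (nat_lit 241) (nat_lit 204)) (XT.lf (nat_lit 0) (nat_lit 2747987688) (nat_lit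 152) (nat_lit 2331922264) (nat_lit 228) (nat_lit 7680960893) (nat_lit 30) (nat_lit 5) (nat_lit 32) (nat_lit 5) (nat_lit 33) (nat_lit 5) (nat_lit 276) (nat_lit 241) (nat_lit 203)))) (XT.nd (nat_lit 156) (nat_lit 228) (nat_lit 0) (XT.nd (nat_lit 78) (nat_lit 228) (nat_lit 0) (XT.lf (nat_lit 0) (nat_lit 7714778324) (nat_lit 228) (nat_lit 4224863665) (nat_lit 76) (nat_lit 1238020581) (nat_lit 30) (nat_lit 5) (nat_lit 33) (nat_lit 5) (nat_lit 31) (nat_lit 5) (nat_lit 277) (nat_lit 241) (nat_lit 202)) (XT.lf (nat_lit 0) (nat_lit 1803026493) (nat_lit 228) (nat_lit 8696708780) (nat_lit 304) (nat_lit 3114762277) (nat_lit 27) (nat_lit 5) (nat_lit 30) (nat_lit 5) (nat_lit 31) (nat_lit 5) (nat_lit 278) (nat_lit 241) (nat_lit 201))) (XT.nd (nat_lit 78) (nat_lit 228) (nat_lit 0) (XT.lf (nat_lit 0) (nat_lit 8211091771) (nat_lit 228) (nat_lit 5237592278) (nat_lit 304) (nat_lit 623368203) (nat_lit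 27) (nat_lit 5) (nat_lit 30) (nat_lit 5) (nat_lit 31) (nat_lit 5) (nat_lit 279) (nat_lit 241) (nat_lit 200)) (XT.nd (nat_lit 78) (nat_lit 0) (nat_lit 0) (XT.lf (nat_lit 0) (nat_lit 299274287) (nat_lit 152) (nat_lit 1588804077) (nat_lit 228) (nat_lit 12664992373) (nat_lit 24) (nat_lit 5) (nat_lit 26) (nat_lit 5) (nat_lit 27) (nat_lit 5) (nat_lit 280) (nat_lit 241) (nat_lit 199)) (XT.lf (nat_lit 0) (nat_lit 4595447495) (nat_lit 228) (nat_lit 8196221258) (nat_lit 76) (nat_lit 2261494949) (nat_lit 24) (nat_lit 5) (nat_lit 27) (nat_lit 5) (nat_lit 25) (nat_lit 5) (nat_lit 281) (nat_lit 241) (nat_lit 198))))))) (XT.nd (nat_lit 702) (nat_lit 380) (nat_lit 0) (XT.nd (nat_lit 312) (nat_lit 228) (nat_lit 0) (XT.nd (nat_lit 156) (nat_lit 152) (nat_lit 0) (XT.nd (nat_lit 78) (nat_lit 152) (nat_lit 0) (XT.lf (nat_lit 0) (nat_lit 7421758281) (nat_lit 228) (nat_lit 1925801159) (nat_lit 76) (nat_lit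 6231617966) (nat_lit 24) (nat_lit 5) (nat_lit 27) (nat_lit 5) (nat_lit 25) (nat_lit 5) (nat_lit 282) (nat_lit 241) (nat_lit 197)) (XT.lf (nat_lit 0) (nat_lit 4749203264) (nat_lit 152) (nat_lit 5673879458) (nat_lit 228) (nat_lit 5706814407) (nat_lit 22) (nat_lit 5) (nat_lit 24) (nat_lit 5) (nat_lit 25) (nat_lit 5) (nat_lit 283) (nat_lit 241) (nat_lit 196))) (XT.nd (nat_lit 78) (nat_lit 152) (nat_lit 0) (XT.lf (nat_lit 0) (nat_lit 11764859451) (nat_lit 152) (nat_lit 1802768144) (nat_lit 228) (nat_lit 3140953474) (nat_lit 22) (nat_lit 5) (nat_lit 24) (nat_lit 5) (nat_lit 25) (nat_lit 5) (nat_lit 284) (nat_lit 241) (nat_lit 195)) (XT.lf (nat_lit 0) (nat_lit 1777930642) (nat_lit 152) (nat_lit 15116656231) (nat_lit 228) (nat_lit 420434825) (nat_lit 20) (nat_lit 5) (nat_lit 22) (nat_lit 5) (nat_lit 23) (nat_lit 4) (nat_lit 285) (nat_lit 241) (nat_lit 194)))) (XT.nd (nat_lit 156) (nat_lit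 152) (nat_lit 0) (XT.nd (nat_lit 78) (nat_lit 0) (nat_lit 0) (XT.lf (nat_lit 0) (nat_lit 2435123292) (nat_lit 228) (nat_lit 9068389214) (nat_lit 76) (nat_lit 6442595153) (nat_lit 19) (nat_lit 5) (nat_lit 22) (nat_lit 5) (nat_lit 20) (nat_lit 5) (nat_lit 286) (nat_lit 241) (nat_lit 193)) (XT.lf (nat_lit 0) (nat_lit 5383457416) (nat_lit 228) (nat_lit 2339459731) (nat_lit 76) (nat_lit 10887350484) (nat_lit 19) (nat_lit 5) (nat_lit 22) (nat_lit 5) (nat_lit 20) (nat_lit 5) (nat_lit 287) (nat_lit 241) (nat_lit 192))) (XT.nd (nat_lit 78) (nat_lit 0) (nat_lit 0) (XT.lf (nat_lit 0) (nat_lit 4826769587) (nat_lit 152) (nat_lit 3693633741) (nat_lit 228) (nat_lit 10785239857) (nat_lit 17) (nat_lit 5) (nat_lit 19) (nat_lit 5) (nat_lit 20) (nat_lit 5) (nat_lit 288) (nat_lit 241) (nat_lit 191)) (XT.nd (nat_lit 78) (nat_lit 0) (nat_lit 0) (XT.lf (nat_lit 0) (nat_lit 11829187471) (nat_lit 228) (nat_lit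 7664508302) (nat_lit 76) (nat_lit 541406328) (nat_lit 17) (nat_lit 5) (nat_lit 20) (nat_lit 5) (nat_lit 18) (nat_lit 4) (nat_lit 289) (nat_lit 241) (nat_lit 190)) (XT.lf (nat_lit 0) (nat_lit 15331900951) (nat_lit 228) (nat_lit 621592828) (nat_lit 76) (nat_lit 4846176754) (nat_lit 17) (nat_lit 5) (nat_lit 20) (nat_lit 5) (nat_lit 18) (nat_lit 4) (nat_lit 290) (nat_lit 241) (nat_lit 189)))))) (XT.nd (nat_lit 312) (nat_lit 76) (nat_lit 0) (XT.nd (nat_lit 156) (nat_lit 152) (nat_lit 0) (XT.nd (nat_lit 78) (nat_lit 76) (nat_lit 0) (XT.lf (nat_lit 0) (nat_lit 6946645686) (nat_lit 76) (nat_lit 12141026507) (nat_lit 152) (nat_lit 2510957258) (nat_lit 16) (nat_lit 5) (nat_lit 17) (nat_lit 5) (nat_lit 18) (nat_lit 4) (nat_lit 291) (nat_lit 241) (nat_lit 188)) (XT.lf (nat_lit 0) (nat_lit 555014907) (nat_lit 152) (nat_lit 7580998467) (nat_lit 76) (nat_lit 14302096180) (nat_lit 15) (nat_lit 5)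 (nat_lit 17) (nat_lit 5) (nat_lit 16) (nat_lit 5) (nat_lit 292) (nat_lit 241) (nat_lit 187))) (XT.nd (nat_lit 78) (nat_lit 152) (nat_lit 0) (XT.lf (nat_lit 0) (nat_lit 3660969285) (nat_lit 152) (nat_lit 244696756) (nat_lit 76) (nat_lit 19413336296) (nat_lit 15) (nat_lit 5) (nat_lit 17) (nat_lit 5) (nat_lit 16) (nat_lit 5) (nat_lit 293) (nat_lit 241) (nat_lit 186)) (XT.lf (nat_lit 0) (nat_lit 7024303478) (nat_lit 228) (nat_lit 16590730053) (nat_lit 76) (nat_lit 623849978) (nat_lit 13) (nat_lit 5) (nat_lit 16) (nat_lit 5) (nat_lit 14) (nat_lit 4) (nat_lit 294) (nat_lit 241) (nat_lit 185)))) (XT.nd (nat_lit 156) (nat_lit 76) (nat_lit 0) (XT.nd (nat_lit 78) (nat_lit 0) (nat_lit 0) (XT.lf (nat_lit 0) (nat_lit 10596844973) (nat_lit 228) (nat_lit 9369734419) (nat_lit 76) (nat_lit 5236172896) (nat_lit 13) (nat_lit 5) (nat_lit 16) (nat_lit 5) (nat_lit 14) (nat_lit 4) (nat_lit 295) (nat_lit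 241) (nat_lit 184)) (XT.lf (nat_lit 0) (nat_lit 14322110005) (nat_lit 228) (nat_lit 1830764370) (nat_lit 76) (nat_lit 10063278714) (nat_lit 13) (nat_lit 5) (nat_lit 16) (nat_lit 5) (nat_lit 14) (nat_lit 4) (nat_lit 296) (nat_lit 241) (nat_lit 183))) (XT.nd (nat_lit 78) (nat_lit 0) (nat_lit 0) (XT.lf (nat_lit 0) (nat_lit 6243976258) (nat_lit 76) (nat_lit 12062477964) (nat_lit 152) (nat_lit 8970170251) (nat_lit 12) (nat_lit 5) (nat_lit 13) (nat_lit 5) (nat_lit 14) (nat_lit 4) (nat_lit 297) (nat_lit 241) (nat_lit 182)) (XT.nd (nat_lit 78) (nat_lit 0) (nat_lit 0) (XT.lf (nat_lit 0) (nat_lit 14745651445) (nat_lit 76) (nat_lit 7751243642) (nat_lit 152) (nat_lit 5892919738) (nat_lit 12) (nat_lit 5) (nat_lit 13) (nat_lit 5) (nat_lit 14) (nat_lit 4) (nat_lit 298) (nat_lit 241) (nat_lit 181)) (XT.lf (nat_lit 0) (nat_lit 23633969936) (nat_lit 76) (nat_lit 3239911447) (nat_lit 152) (nat_lit 2685969638)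 (nat_lit 12) (nat_lit 5) (nat_lit 13) (nat_lit 5) (nat_lit 14) (nat_lit 4) (nat_lit 299) (nat_lit 241) (nat_lit 180))))))))
noncomputable def xc115 : XT := (XT.nd (nat_lit 1404) (nat_lit 228) (nat_lit 0) (XT.nd (nat_lit 702) (nat_lit 228) (nat_lit 0) (XT.nd (nat_lit 312) (nat_lit 76) (nat_lit 0) (XT.nd (nat_lit 156) (nat_lit 0) (nat_lit 0) (XT.nd (nat_lit 78) (nat_lit 0) (nat_lit 0) (XT.lf (nat_lit 0) (nat_lit 695479064) (nat_lit 228) (nat_lit 28610426339) (nat_lit 76) (nat_lit 1480187869) (nat_lit 9) (nat_lit 5) (nat_lit 12) (nat_lit 5) (nat_lit 10) (nat_lit 4) (nat_lit 300) (nat_lit 241) (nat_lit 179)) (XT.lf (nat_lit 0) (nat_lit 4288826939) (nat_lit 228) (nat_lit 21317060424) (nat_lit 76) (nat_lit 6458936403) (nat_lit 9) (nat_lit 5) (nat_lit 12) (nat_lit 5) (nat_lit 10) (nat_lit 4) (nat_lit 301) (nat_lit 241) (nat_lit 178))) (XT.nd (nat_lit 78) (nat_lit 0) (nat_lit 0) (XT.lf (nat_lit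 0) (nat_lit 8040867688) (nat_lit 228) (nat_lit 13694898058) (nat_lit 76) (nat_lit 11672804613) (nat_lit 9) (nat_lit 5) (nat_lit 12) (nat_lit 5) (nat_lit 10) (nat_lit 4) (nat_lit 302) (nat_lit 241) (nat_lit 177)) (XT.lf (nat_lit 0) (nat_lit 11960534742) (nat_lit 228) (nat_lit 5725791233) (nat_lit 76) (nat_lit 17134206471) (nat_lit 9) (nat_lit 5) (nat_lit 12) (nat_lit 5) (nat_lit 10) (nat_lit 4) (nat_lit 303) (nat_lit 241) (nat_lit 176)))) (XT.nd (nat_lit 156) (nat_lit 0) (nat_lit 0) (XT.nd (nat_lit 78) (nat_lit 0) (nat_lit 0) (XT.lf (nat_lit 0) (nat_lit 2695507175) (nat_lit 76) (nat_lit 13403737888) (nat_lit 152) (nat_lit 20202722561) (nat_lit 8) (nat_lit 5) (nat_lit 9) (nat_lit 5) (nat_lit 10) (nat_lit 4) (nat_lit 304) (nat_lit 241) (nat_lit 175)) (XT.lf (nat_lit 0) (nat_lit 11704645014) (nat_lit 76) (nat_lit 8818596556) (nat_lit 152) (nat_lit 17330342104) (nat_lit 8) (nat_lit 5) (nat_lit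 9) (nat_lit 5) (nat_lit 10) (nat_lit 4) (nat_lit 305) (nat_lit 241) (nat_lit 174))) (XT.nd (nat_lit 78) (nat_lit 0) (nat_lit 0) (XT.lf (nat_lit 0) (nat_lit 21133752095) (nat_lit 76) (nat_lit 4016954021) (nat_lit 152) (nat_lit 14332986378) (nat_lit 8) (nat_lit 5) (nat_lit 9) (nat_lit 5) (nat_lit 10) (nat_lit 4) (nat_lit 306) (nat_lit 241) (nat_lit 173)) (XT.nd (nat_lit 78) (nat_lit 0) (nat_lit 0) (XT.lf (nat_lit 0) (nat_lit 30008466345) (nat_lit 152) (nat_lit 10206706494) (nat_lit 0) (nat_lit 980211965) (nat_lit 8) (nat_lit 5) (nat_lit 10) (nat_lit 4) (nat_lit 8) (nat_lit 4) (nat_lit 307) (nat_lit 241) (nat_lit 172)) (XT.lf (nat_lit 0) (nat_lit 35158702398) (nat_lit 152) (nat_lit 1750462339) (nat_lit 0) (nat_lit 6081040621) (nat_lit 8) (nat_lit 5) (nat_lit 10) (nat_lit 4) (nat_lit 8) (nat_lit 4) (nat_lit 308) (nat_lit 241) (nat_lit 171)))))) (XT.nd (nat_lit 312) (nat_lit 76) (nat_lit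 0) (XT.nd (nat_lit 156) (nat_lit 76) (nat_lit 0) (XT.nd (nat_lit 78) (nat_lit 0) (nat_lit 0) (XT.lf (nat_lit 0) (nat_lit 7336454242) (nat_lit 76) (nat_lit 33329049200) (nat_lit 76) (nat_lit 4204332759) (nat_lit 7) (nat_lit 4) (nat_lit 8) (nat_lit 5) (nat_lit 8) (nat_lit 4) (nat_lit 309) (nat_lit 241) (nat_lit 170)) (XT.lf (nat_lit 0) (nat_lit 16911971332) (nat_lit 76) (nat_lit 29550152294) (nat_lit 76) (nat_lit 380621888) (nat_lit 7) (nat_lit 4) (nat_lit 8) (nat_lit 5) (nat_lit 8) (nat_lit 4) (nat_lit 310) (nat_lit 241) (nat_lit 169))) (XT.nd (nat_lit 78) (nat_lit 0) (nat_lit 0) (XT.lf (nat_lit 0) (nat_lit 3503255358) (nat_lit 152) (nat_lit 22030536889) (nat_lit 76) (nat_lit 23378424907) (nat_lit 6) (nat_lit 5) (nat_lit 8) (nat_lit 5) (nat_lit 7) (nat_lit 4) (nat_lit 311) (nat_lit 241) (nat_lit 168)) (XT.lf (nat_lit 0) (nat_lit 7554535372) (nat_lit 152) (nat_lit 13766060447) (nat_lit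 76) (nat_lit 29764972593) (nat_lit 6) (nat_lit 5) (nat_lit 8) (nat_lit 5) (nat_lit 7) (nat_lit 4) (nat_lit 312) (nat_lit 241) (nat_lit 167)))) (XT.nd (nat_lit 156) (nat_lit 0) (nat_lit 0) (XT.nd (nat_lit 78) (nat_lit 76) (nat_lit 0) (XT.lf (nat_lit 0) (nat_lit 11795046337) (nat_lit 152) (nat_lit 5111724957) (nat_lit 76) (nat_lit 36461499768) (nat_lit 6) (nat_lit 5) (nat_lit 8) (nat_lit 5) (nat_lit 7) (nat_lit 4) (nat_lit 313) (nat_lit 241) (nat_lit 166)) (XT.lf (nat_lit 0) (nat_lit 4083781659) (nat_lit 76) (nat_lit 12214862325) (nat_lit 152) (nat_lit 39463928164) (nat_lit 5) (nat_lit 5) (nat_lit 6) (nat_lit 5) (nat_lit 7) (nat_lit 4) (nat_lit 314) (nat_lit 241) (nat_lit 165))) (XT.nd (nat_lit 78) (nat_lit 0) (nat_lit 0) (XT.lf (nat_lit 0) (nat_lit 13894637894) (nat_lit 76) (nat_lit 7206917871) (nat_lit 152) (nat_lit 37171341392) (nat_lit 5) (nat_lit 5) (nat_lit 6) (nat_lit 5) (nat_lit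 7) (nat_lit 4) (nat_lit 315) (nat_lit 241) (nat_lit 164)) (XT.nd (nat_lit 78) (nat_lit 0) (nat_lit 0) (XT.lf (nat_lit 0) (nat_lit 24175186217) (nat_lit 76) (nat_lit 1957583789) (nat_lit 152) (nat_lit 34776575404) (nat_lit 5) (nat_lit 5) (nat_lit 6) (nat_lit 5) (nat_lit 7) (nat_lit 4) (nat_lit 316) (nat_lit 241) (nat_lit 163)) (XT.lf (nat_lit 0) (nat_lit 31459623140) (nat_lit 152) (nat_lit 28783647393) (nat_lit 0) (nat_lit 3432155765) (nat_lit 5) (nat_lit 5) (nat_lit 7) (nat_lit 4) (nat_lit 5) (nat_lit 4) (nat_lit 317) (nat_lit 241) (nat_lit 162))))))) (XT.nd (nat_lit 702) (nat_lit 152) (nat_lit 0) (XT.nd (nat_lit 312) (nat_lit 0) (nat_lit 0) (XT.nd (nat_lit 156) (nat_lit 76) (nat_lit 0) (XT.nd (nat_lit 78) (nat_lit 0) (nat_lit 0) (XT.lf (nat_lit 0) (nat_lit 37074040844) (nat_lit 152) (nat_lit 20487036765) (nat_lit 0) (nat_lit 9017685986) (nat_lit 5) (nat_lit 5) (nat_lit 7) (nat_lit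 4) (nat_lit 5) (nat_lit 4) (nat_lit 318) (nat_lit 241) (nat_lit 161)) (XT.lf (nat_lit 0) (nat_lit 42958827408) (nat_lit 152) (nat_lit 11794010105) (nat_lit 0) (nat_lit 14874960663) (nat_lit 5) (nat_lit 5) (nat_lit 7) (nat_lit 4) (nat_lit 5) (nat_lit 4) (nat_lit 319) (nat_lit 241) (nat_lit 160))) (XT.nd (nat_lit 78) (nat_lit 76) (nat_lit 0) (XT.lf (nat_lit 0) (nat_lit 49127994230) (nat_lit 152) (nat_lit 2683869729) (nat_lit 0) (nat_lit 21017925688) (nat_lit 5) (nat_lit 5) (nat_lit 7) (nat_lit 4) (nat_lit 5) (nat_lit 4) (nat_lit 320) (nat_lit 241) (nat_lit 159)) (XT.lf (nat_lit 0) (nat_lit 7092065559) (nat_lit 76) (nat_lit 48614891261) (nat_lit 76) (nat_lit 20479868626) (nat_lit 4) (nat_lit 4) (nat_lit 5) (nat_lit 5) (nat_lit 5) (nat_lit 4) (nat_lit 321) (nat_lit 241) (nat_lit 158)))) (XT.nd (nat_lit 156) (nat_lit 0) (nat_lit 0) (XT.nd (nat_lit 78) (nat_lit 0) (nat_lit 0) (XT.lf (nat_lit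 0) (nat_lit 17433542411) (nat_lit 76) (nat_lit 45217578728) (nat_lit 76) (nat_lit 17058790290) (nat_lit 4) (nat_lit 4) (nat_lit 5) (nat_lit 5) (nat_lit 5) (nat_lit 4) (nat_lit 322) (nat_lit 241) (nat_lit 157)) (XT.lf (nat_lit 0) (nat_lit 28276442535) (nat_lit 76) (nat_lit 41657290153) (nat_lit 76) (nat_lit 13475867617) (nat_lit 4) (nat_lit 4) (nat_lit 5) (nat_lit 5) (nat_lit 5) (nat_lit 4) (nat_lit 323) (nat_lit 241) (nat_lit 156))) (XT.nd (nat_lit 78) (nat_lit 0) (nat_lit 0) (XT.lf (nat_lit 0) (nat_lit 39646582361) (nat_lit 76) (nat_lit 37925548658) (nat_lit 76) (nat_lit 9722569839) (nat_lit 4) (nat_lit 4) (nat_lit 5) (nat_lit 5) (nat_lit 5) (nat_lit 4) (nat_lit 324) (nat_lit 241) (nat_lit 155)) (XT.nd (nat_lit 78) (nat_lit 0) (nat_lit 0) (XT.lf (nat_lit 0) (nat_lit 51571033649) (nat_lit 76) (nat_lit 34013469145) (nat_lit 76) (nat_lit 5789960532) (nat_lit 4) (nat_lit 4) (nat_lit 5)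 (nat_lit 5) (nat_lit 5) (nat_lit 4) (nat_lit 325) (nat_lit 241) (nat_lit 154)) (XT.lf (nat_lit 0) (nat_lit 64078187951) (nat_lit 76) (nat_lit 29911737139) (nat_lit 76) (nat_lit 1668676341) (nat_lit 4) (nat_lit 4) (nat_lit 5) (nat_lit 5) (nat_lit 5) (nat_lit 4) (nat_lit 326) (nat_lit 241) (nat_lit 153)))))) (XT.nd (nat_lit 312) (nat_lit 0) (nat_lit 0) (XT.nd (nat_lit 156) (nat_lit 76) (nat_lit 0) (XT.nd (nat_lit 78) (nat_lit 0) (nat_lit 0) (XT.lf (nat_lit 0) (nat_lit 2566243707) (nat_lit 152) (nat_lit 23000882325) (nat_lit 76) (nat_lit 74588119919) (nat_lit 3) (nat_lit 5) (nat_lit 5) (nat_lit 5) (nat_lit 4) (nat_lit 4) (nat_lit 327) (nat_lit 241) (nat_lit 152)) (XT.lf (nat_lit 0) (nat_lit 6949846301) (nat_lit 152) (nat_lit 14032231416) (nat_lit 76) (nat_lit 83893634331) (nat_lit 3) (nat_lit 5) (nat_lit 5) (nat_lit 5) (nat_lit 4) (nat_lit 4) (nat_lit 328) (nat_lit 241) (nat_lit 151)))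 (XT.nd (nat_lit 78) (nat_lit 76) (nat_lit 0) (XT.lf (nat_lit 0) (nat_lit 11545976651) (nat_lit 152) (nat_lit 4627054111) (nat_lit 76) (nat_lit 93659510801) (nat_lit 3) (nat_lit 5) (nat_lit 5) (nat_lit 5) (nat_lit 4) (nat_lit 4) (nat_lit 329) (nat_lit 241) (nat_lit 150)) (XT.lf (nat_lit 0) (nat_lit 5410203159) (nat_lit 76) (nat_lit 11039843199) (nat_lit 152) (nat_lit 98583266690) (nat_lit 2) (nat_lit 5) (nat_lit 3) (nat_lit 5) (nat_lit 4) (nat_lit 4) (nat_lit 330) (nat_lit 241) (nat_lit 149)))) (XT.nd (nat_lit 156) (nat_lit 0) (nat_lit 0) (XT.nd (nat_lit 78) (nat_lit 0) (nat_lit 0) (XT.lf (nat_lit 0) (nat_lit 16098807865) (nat_lit 76) (nat_lit 5572665008) (nat_lit 152) (nat_lit 98819049367) (nat_lit 2) (nat_lit 5) (nat_lit 3) (nat_lit 5) (nat_lit 4) (nat_lit 4) (nat_lit 331) (nat_lit 241) (nat_lit 148)) (XT.lf (nat_lit 0) (nat_lit 27150605634) (nat_lit 152) (nat_lit 98912223605) (nat_lit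 0) (nat_lit 157937380) (nat_lit 2) (nat_lit 5) (nat_lit 4) (nat_lit 4) (nat_lit 2) (nat_lit 4) (nat_lit 332) (nat_lit 241) (nat_lit 147))) (XT.nd (nat_lit 78) (nat_lit 0) (nat_lit 0) (XT.lf (nat_lit 0) (nat_lit 32989349213) (nat_lit 152) (nat_lit 93260450191) (nat_lit 0) (nat_lit 5983447270) (nat_lit 2) (nat_lit 5) (nat_lit 4) (nat_lit 4) (nat_lit 2) (nat_lit 4) (nat_lit 333) (nat_lit 241) (nat_lit 146)) (XT.nd (nat_lit 78) (nat_lit 0) (nat_lit 0) (XT.lf (nat_lit 0) (nat_lit 39114600462) (nat_lit 152) (nat_lit 87335932611) (nat_lit 0) (nat_lit 12096095006) (nat_lit 2) (nat_lit 5) (nat_lit 4) (nat_lit 4) (nat_lit 2) (nat_lit 4) (nat_lit 334) (nat_lit 241) (nat_lit 145)) (XT.lf (nat_lit 0) (nat_lit 45540943313) (nat_lit 152) (nat_lit 81124564870) (nat_lit 0) (nat_lit 18510434512) (nat_lit 2) (nat_lit 5) (nat_lit 4) (nat_lit 4) (nat_lit 2) (nat_lit 4) (nat_lit 335) (nat_lit 241) (nat_lit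 144))))))))
noncomputable def xc116 : XT := (XT.nd (nat_lit 1404) (nat_lit 0) (nat_lit 0) (XT.nd (nat_lit 702) (nat_lit 76) (nat_lit 0) (XT.nd (nat_lit 312) (nat_lit 0) (nat_lit 0) (XT.nd (nat_lit 156) (nat_lit 0) (nat_lit 0) (XT.nd (nat_lit 78) (nat_lit 0) (nat_lit 0) (XT.lf (nat_lit 0) (nat_lit 52283678582) (nat_lit 152) (nat_lit 74611557999) (nat_lit 0) (nat_lit 25241738024) (nat_lit 2) (nat_lit 5) (nat_lit 4) (nat_lit 4) (nat_lit 2) (nat_lit 4) (nat_lit 336) (nat_lit 241) (nat_lit 143)) (XT.lf (nat_lit 0) (nat_lit 59358860400) (nat_lit 152) (nat_lit 67781404837) (nat_lit 0) (nat_lit 32306032454) (nat_lit 2) (nat_lit 5) (nat_lit 4) (nat_lit 4) (nat_lit 2) (nat_lit 4) (nat_lit 337) (nat_lit 241) (nat_lit 142))) (XT.nd (nat_lit 78) (nat_lit 0) (nat_lit 0) (XT.lf (nat_lit 0) (nat_lit 66783334440) (nat_lit 152) (nat_lit 60617843115) (nat_lit 0) (nat_lit 39720137553) (nat_lit 2) (nat_lit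 5) (nat_lit 4) (nat_lit 4) (nat_lit 2) (nat_lit 4) (nat_lit 338) (nat_lit 241) (nat_lit 141)) (XT.lf (nat_lit 0) (nat_lit 74574778020) (nat_lit 152) (nat_lit 53103816735) (nat_lit 0) (nat_lit 47501705951) (nat_lit 2) (nat_lit 5) (nat_lit 4) (nat_lit 4) (nat_lit 2) (nat_lit 4) (nat_lit 339) (nat_lit 241) (nat_lit 140)))) (XT.nd (nat_lit 156) (nat_lit 0) (nat_lit 0) (XT.nd (nat_lit 78) (nat_lit 0) (nat_lit 0) (XT.lf (nat_lit 0) (nat_lit 82751742195) (nat_lit 152) (nat_lit 45221435156) (nat_lit 0) (nat_lit 55669265191) (nat_lit 2) (nat_lit 5) (nat_lit 4) (nat_lit 4) (nat_lit 2) (nat_lit 4) (nat_lit 340) (nat_lit 241) (nat_lit 139)) (XT.lf (nat_lit 0) (nat_lit 91333695929) (nat_lit 152) (nat_lit 36951930804) (nat_lit 0) (nat_lit 64242261844) (nat_lit 2) (nat_lit 5) (nat_lit 4) (nat_lit 4) (nat_lit 2) (nat_lit 4) (nat_lit 341) (nat_lit 241) (nat_lit 138))) (XT.nd (nat_lit 78) (nat_lit 0)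 (nat_lit 0) (XT.lf (nat_lit 0) (nat_lit 100341072445) (nat_lit 152) (nat_lit 28275614383) (nat_lit 0) (nat_lit 73241107806) (nat_lit 2) (nat_lit 5) (nat_lit 4) (nat_lit 4) (nat_lit 2) (nat_lit 4) (nat_lit 342) (nat_lit 241) (nat_lit 137)) (XT.nd (nat_lit 78) (nat_lit 0) (nat_lit 0) (XT.lf (nat_lit 0) (nat_lit 109795317876) (nat_lit 152) (nat_lit 19171827996) (nat_lit 0) (nat_lit 82687228901) (nat_lit 2) (nat_lit 5) (nat_lit 4) (nat_lit 4) (nat_lit 2) (nat_lit 4) (nat_lit 343) (nat_lit 241) (nat_lit 136)) (XT.lf (nat_lit 0) (nat_lit 119718942332) (nat_lit 152) (nat_lit 9618895962) (nat_lit 0) (nat_lit 92603115893) (nat_lit 2) (nat_lit 5) (nat_lit 4) (nat_lit 4) (nat_lit 2) (nat_lit 4) (nat_lit 344) (nat_lit 241) (nat_lit 135)))))) (XT.nd (nat_lit 312) (nat_lit 0) (nat_lit 0) (XT.nd (nat_lit 156) (nat_lit 0) (nat_lit 0) (XT.nd (nat_lit 78) (nat_lit 0) (nat_lit 0) (XT.lf (nat_lit 0) (nat_lit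 419348568) (nat_lit 76) (nat_lit 129722772127) (nat_lit 76) (nat_lit 102599576676) (nat_lit 1) (nat_lit 4) (nat_lit 2) (nat_lit 5) (nat_lit 2) (nat_lit 4) (nat_lit 345) (nat_lit 241) (nat_lit 134)) (XT.lf (nat_lit 0) (nat_lit 11287788632) (nat_lit 76) (nat_lit 129958458233) (nat_lit 76) (nat_lit 102828244674) (nat_lit 1) (nat_lit 4) (nat_lit 2) (nat_lit 5) (nat_lit 2) (nat_lit 4) (nat_lit 346) (nat_lit 241) (nat_lit 133))) (XT.nd (nat_lit 78) (nat_lit 0) (nat_lit 0) (XT.lf (nat_lit 0) (nat_lit 22694257327) (nat_lit 76) (nat_lit 130208358427) (nat_lit 76) (nat_lit 103071460956) (nat_lit 1) (nat_lit 4) (nat_lit 2) (nat_lit 5) (nat_lit 2) (nat_lit 4) (nat_lit 347) (nat_lit 241) (nat_lit 132)) (XT.lf (nat_lit 0) (nat_lit 34665912911) (nat_lit 76) (nat_lit 130473067709) (nat_lit 76) (nat_lit 103329804608) (nat_lit 1) (nat_lit 4) (nat_lit 2) (nat_lit 5) (nat_lit 2) (nat_lit 4) (nat_lit 348)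 (nat_lit 241) (nat_lit 131)))) (XT.nd (nat_lit 156) (nat_lit 0) (nat_lit 0) (XT.nd (nat_lit 78) (nat_lit 0) (nat_lit 0) (XT.lf (nat_lit 0) (nat_lit 47231259326) (nat_lit 76) (nat_lit 130753216340) (nat_lit 76) (nat_lit 103603890734) (nat_lit 1) (nat_lit 4) (nat_lit 2) (nat_lit 5) (nat_lit 2) (nat_lit 4) (nat_lit 349) (nat_lit 241) (nat_lit 130)) (XT.lf (nat_lit 0) (nat_lit 60420214064) (nat_lit 76) (nat_lit 131049471340) (nat_lit 76) (nat_lit 103894371920) (nat_lit 1) (nat_lit 4) (nat_lit 2) (nat_lit 5) (nat_lit 2) (nat_lit 4) (nat_lit 350) (nat_lit 241) (nat_lit 129))) (XT.nd (nat_lit 78) (nat_lit 0) (nat_lit 0) (XT.lf (nat_lit 0) (nat_lit 74264179397) (nat_lit 76) (nat_lit 131362538078) (nat_lit 76) (nat_lit 104201939787) (nat_lit 1) (nat_lit 4) (nat_lit 2) (nat_lit 5) (nat_lit 2) (nat_lit 4) (nat_lit 351) (nat_lit 241) (nat_lit 128)) (XT.nd (nat_lit 78) (nat_lit 0) (nat_lit 0) (XT.lf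 (nat_lit 0) (nat_lit 88796117149) (nat_lit 76) (nat_lit 131693161952) (nat_lit 76) (nat_lit 104527326641) (nat_lit 1) (nat_lit 4) (nat_lit 2) (nat_lit 5) (nat_lit 2) (nat_lit 4) (nat_lit 352) (nat_lit 241) (nat_lit 127)) (XT.lf (nat_lit 0) (nat_lit 104050627171) (nat_lit 76) (nat_lit 132042130160) (nat_lit 76) (nat_lit 104871307211) (nat_lit 1) (nat_lit 4) (nat_lit 2) (nat_lit 5) (nat_lit 2) (nat_lit 4) (nat_lit 353) (nat_lit 241) (nat_lit 126))))))) (XT.nd (nat_lit 702) (nat_lit 0) (nat_lit 0) (XT.nd (nat_lit 312) (nat_lit 0) (nat_lit 0) (XT.nd (nat_lit 156) (nat_lit 0) (nat_lit 0) (XT.nd (nat_lit 78) (nat_lit 0) (nat_lit 0) (XT.lf (nat_lit 0) (nat_lit 120064029725) (nat_lit 76) (nat_lit 132410273580) (nat_lit 76) (nat_lit 105234700500) (nat_lit 1) (nat_lit 4) (nat_lit 2) (nat_lit 5) (nat_lit 2) (nat_lit 4) (nat_lit 354) (nat_lit 241) (nat_lit 125)) (XT.lf (nat_lit 0) (nat_lit 136874451959)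 (nat_lit 76) (nat_lit 132798468743) (nat_lit 76) (nat_lit 105618371728) (nat_lit 1) (nat_lit 4) (nat_lit 2) (nat_lit 5) (nat_lit 2) (nat_lit 4) (nat_lit 355) (nat_lit 241) (nat_lit 124))) (XT.nd (nat_lit 78) (nat_lit 0) (nat_lit 0) (XT.lf (nat_lit 0) (nat_lit 154521918689) (nat_lit 76) (nat_lit 133207639924) (nat_lit 76) (nat_lit 106023234400) (nat_lit 1) (nat_lit 4) (nat_lit 2) (nat_lit 5) (nat_lit 2) (nat_lit 4) (nat_lit 356) (nat_lit 241) (nat_lit 123)) (XT.lf (nat_lit 0) (nat_lit 173048447692) (nat_lit 76) (nat_lit 133638761340) (nat_lit 76) (nat_lit 106450252474) (nat_lit 1) (nat_lit 4) (nat_lit 2) (nat_lit 5) (nat_lit 2) (nat_lit 4) (nat_lit 357) (nat_lit 241) (nat_lit 122)))) (XT.nd (nat_lit 156) (nat_lit 0) (nat_lit 0) (XT.nd (nat_lit 78) (nat_lit 0) (nat_lit 0) (XT.lf (nat_lit 0) (nat_lit 192498149753) (nat_lit 76) (nat_lit 134092859471) (nat_lit 76) (nat_lit 106900442660)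 (nat_lit 1) (nat_lit 4) (nat_lit 2) (nat_lit 5) (nat_lit 2) (nat_lit 4) (nat_lit 358) (nat_lit 241) (nat_lit 121)) (XT.lf (nat_lit 0) (nat_lit 212917333685) (nat_lit 76) (nat_lit 134571015501) (nat_lit 76) (nat_lit 107374876838) (nat_lit 1) (nat_lit 4) (nat_lit 2) (nat_lit 5) (nat_lit 2) (nat_lit 4) (nat_lit 359) (nat_lit 241) (nat_lit 120))) (XT.nd (nat_lit 78) (nat_lit 0) (nat_lit 0) (XT.lf (nat_lit 0) (nat_lit 234354616592) (nat_lit 76) (nat_lit 135074367899) (nat_lit 76) (nat_lit 107874684615) (nat_lit 1) (nat_lit 4) (nat_lit 2) (nat_lit 5) (nat_lit 2) (nat_lit 4) (nat_lit 360) (nat_lit 241) (nat_lit 119)) (XT.nd (nat_lit 78) (nat_lit 0) (nat_lit 0) (XT.lf (nat_lit 0) (nat_lit 256861039626) (nat_lit 76) (nat_lit 135604115122) (nat_lit 76) (nat_lit 108401056008) (nat_lit 1) (nat_lit 4) (nat_lit 2) (nat_lit 5) (nat_lit 2) (nat_lit 4) (nat_lit 361) (nat_lit 241) (nat_lit 118)) (XT.lf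 (nat_lit 0) (nat_lit 280490189506) (nat_lit 76) (nat_lit 136161518473) (nat_lit 76) (nat_lit 108955244283) (nat_lit 1) (nat_lit 4) (nat_lit 2) (nat_lit 5) (nat_lit 2) (nat_lit 4) (nat_lit 362) (nat_lit 241) (nat_lit 117)))))) (XT.nd (nat_lit 28314) (nat_lit 0) (nat_lit 7676) (XT.nd (nat_lit 28158) (nat_lit 0) (nat_lit 8284) (XT.nd (nat_lit 28080) (nat_lit 0) (nat_lit 8512) (XT.lf (nat_lit 0) (nat_lit 305298326115) (nat_lit 76) (nat_lit 136747905103) (nat_lit 76) (nat_lit 109538568936) (nat_lit 1) (nat_lit 4) (nat_lit 2) (nat_lit 5) (nat_lit 2) (nat_lit 4) (nat_lit 363) (nat_lit 241) (nat_lit 116)) (XT.lf (nat_lit 0) (nat_lit 2058100120) (nat_lit 228) (nat_lit 593473363) (nat_lit 228) (nat_lit 593473363) (nat_lit 113) (nat_lit 3) (nat_lit 116) (nat_lit 3) (nat_lit 116) (nat_lit 5) (nat_lit 242) (nat_lit 242) (nat_lit 236))) (XT.nd (nat_lit 78) (nat_lit 0) (nat_lit 0) (XT.lf (nat_lit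 0) (nat_lit 71579701) (nat_lit 228) (nat_lit 4801505626) (nat_lit 304) (nat_lit 1645848599) (nat_lit 110) (nat_lit 5) (nat_lit 113) (nat_lit 3) (nat_lit 114) (nat_lit 5) (nat_lit 243) (nat_lit 242) (nat_lit 235)) (XT.lf (nat_lit 0) (nat_lit 2425069676) (nat_lit 228) (nat_lit 1867209995) (nat_lit 304) (nat_lit 2262608512) (nat_lit 110) (nat_lit 5) (nat_lit 113) (nat_lit 3) (nat_lit 114) (nat_lit 5) (nat_lit 244) (nat_lit 242) (nat_lit 234)))) (XT.nd (nat_lit 156) (nat_lit 304) (nat_lit 0) (XT.nd (nat_lit 78) (nat_lit 304) (nat_lit 0) (XT.lf (nat_lit 76) (nat_lit 1167369956) (nat_lit 0) (nat_lit 3599557250) (nat_lit 304) (nat_lit 1833029629) (nat_lit 111) (nat_lit 5) (nat_lit 110) (nat_lit 5) (nat_lit 114) (nat_lit 5) (nat_lit 245) (nat_lit 242) (nat_lit 233)) (XT.lf (nat_lit 0) (nat_lit 447316434) (nat_lit 304) (nat_lit 2324750986) (nat_lit 380) (nat_lit 3881170185) (nat_lit 106) (nat_lit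 5) (nat_lit 110) (nat_lit 5) (nat_lit 111) (nat_lit 5) (nat_lit 246) (nat_lit 242) (nat_lit 232))) (XT.nd (nat_lit 78) (nat_lit 304) (nat_lit 0) (XT.lf (nat_lit 76) (nat_lit 851877729) (nat_lit 0) (nat_lit 1803496660) (nat_lit 380) (nat_lit 4059276137) (nat_lit 107) (nat_lit 5) (nat_lit 106) (nat_lit 5) (nat_lit 111) (nat_lit 5) (nat_lit 247) (nat_lit 242) (nat_lit 231)) (XT.nd (nat_lit 78) (nat_lit 304) (nat_lit 0) (XT.lf (nat_lit 76) (nat_lit 4185585124) (nat_lit 0) (nat_lit 694901239) (nat_lit 380) (nat_lit 1904015572) (nat_lit 107) (nat_lit 5) (nat_lit 106) (nat_lit 5) (nat_lit 111) (nat_lit 5) (nat_lit 248) (nat_lit 242) (nat_lit 230)) (XT.lf (nat_lit 0) (nat_lit 238645563) (nat_lit 380) (nat_lit 6108861734) (nat_lit 76) (nat_lit 516137238) (nat_lit 102) (nat_lit 5) (nat_lit 107) (nat_lit 5) (nat_lit 103) (nat_lit 5) (nat_lit 249) (nat_lit 242) (nat_lit 229))))))))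
noncomputable def xc117 : XT := (XT.nd (nat_lit 1404) (nat_lit 1824) (nat_lit 0) (XT.nd (nat_lit 702) (nat_lit 2128) (nat_lit 0) (XT.nd (nat_lit 312) (nat_lit 1216) (nat_lit 0) (XT.nd (nat_lit 156) (nat_lit 532) (nat_lit 0) (XT.nd (nat_lit 78) (nat_lit 380) (nat_lit 0) (XT.lf (nat_lit 0) (nat_lit 2356987022) (nat_lit 380) (nat_lit 2711044859) (nat_lit 76) (nat_lit 1881130012) (nat_lit 102) (nat_lit 5) (nat_lit 107) (nat_lit 5) (nat_lit 103) (nat_lit 5) (nat_lit 250) (nat_lit 242) (nat_lit 228)) (XT.lf (nat_lit 0) (nat_lit 796862212) (nat_lit 380) (nat_lit 3679117353) (nat_lit 456) (nat_lit 2568815071) (nat_lit 97) (nat_lit 5) (nat_lit 102) (nat_lit 5) (nat_lit 103) (nat_lit 5) (nat_lit 251) (nat_lit 242) (nat_lit 227))) (XT.nd (nat_lit 78) (nat_lit 532) (nat_lit 0) (XT.lf (nat_lit 0) (nat_lit 4490356671) (nat_lit 380) (nat_lit 2143065416) (nat_lit 456) (nat_lit 515710690) (nat_lit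 97) (nat_lit 5) (nat_lit 102) (nat_lit 5) (nat_lit 103) (nat_lit 5) (nat_lit 252) (nat_lit 242) (nat_lit 226)) (XT.lf (nat_lit 0) (nat_lit 1033224828) (nat_lit 456) (nat_lit 460175291) (nat_lit 532) (nat_lit 5769213027) (nat_lit 90) (nat_lit 5) (nat_lit 96) (nat_lit 5) (nat_lit 97) (nat_lit 5) (nat_lit 253) (nat_lit 242) (nat_lit 225)))) (XT.nd (nat_lit 156) (nat_lit 684) (nat_lit 0) (XT.nd (nat_lit 78) (nat_lit 532) (nat_lit 0) (XT.lf (nat_lit 0) (nat_lit 3545845152) (nat_lit 532) (nat_lit 2495859847) (nat_lit 76) (nat_lit 1342103379) (nat_lit 90) (nat_lit 5) (nat_lit 97) (nat_lit 5) (nat_lit 91) (nat_lit 5) (nat_lit 254) (nat_lit 242) (nat_lit 224)) (XT.lf (nat_lit 0) (nat_lit 1376200543) (nat_lit 532) (nat_lit 4252828179) (nat_lit 608) (nat_lit 1886080319) (nat_lit 83) (nat_lit 5) (nat_lit 90) (nat_lit 5) (nat_lit 91) (nat_lit 5) (nat_lit 255) (nat_lit 242) (nat_lit 223))) (XT.nd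 (nat_lit 78) (nat_lit 608) (nat_lit 0) (XT.lf (nat_lit 0) (nat_lit 101706690) (nat_lit 608) (nat_lit 2212569961) (nat_lit 76) (nat_lit 5341803055) (nat_lit 82) (nat_lit 5) (nat_lit 90) (nat_lit 5) (nat_lit 83) (nat_lit 5) (nat_lit 256) (nat_lit 242) (nat_lit 222)) (XT.nd (nat_lit 78) (nat_lit 0) (nat_lit 0) (XT.lf (nat_lit 0) (nat_lit 1855723547) (nat_lit 608) (nat_lit 204060404) (nat_lit 684) (nat_lit 5746444713) (nat_lit 74) (nat_lit 5) (nat_lit 82) (nat_lit 5) (nat_lit 83) (nat_lit 5) (nat_lit 257) (nat_lit 242) (nat_lit 221)) (XT.lf (nat_lit 0) (nat_lit 4093962383) (nat_lit 684) (nat_lit 1876386985) (nat_lit 76) (nat_lit 1994997274) (nat_lit 74) (nat_lit 5) (nat_lit 83) (nat_lit 5) (nat_lit 75) (nat_lit 5) (nat_lit 258) (nat_lit 242) (nat_lit 220)))))) (XT.nd (nat_lit 312) (nat_lit 1064) (nat_lit 0) (XT.nd (nat_lit 156) (nat_lit 304) (nat_lit 0) (XT.nd (nat_lit 78) (nat_lit 76)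 (nat_lit 0) (XT.lf (nat_lit 0) (nat_lit 2392179737) (nat_lit 684) (nat_lit 3791415624) (nat_lit 760) (nat_lit 1951491623) (nat_lit 65) (nat_lit 5) (nat_lit 74) (nat_lit 5) (nat_lit 75) (nat_lit 5) (nat_lit 259) (nat_lit 242) (nat_lit 219)) (XT.lf (nat_lit 0) (nat_lit 8853864) (nat_lit 760) (nat_lit 1458236684) (nat_lit 76) (nat_lit 6849168422) (nat_lit 64) (nat_lit 5) (nat_lit 74) (nat_lit 5) (nat_lit 65) (nat_lit 5) (nat_lit 260) (nat_lit 242) (nat_lit 218))) (XT.nd (nat_lit 78) (nat_lit 0) (nat_lit 0) (XT.lf (nat_lit 0) (nat_lit 1983690280) (nat_lit 380) (nat_lit 5498225365) (nat_lit 76) (nat_lit 1024177079) (nat_lit 60) (nat_lit 5) (nat_lit 65) (nat_lit 5) (nat_lit 61) (nat_lit 5) (nat_lit 261) (nat_lit 242) (nat_lit 217)) (XT.lf (nat_lit 0) (nat_lit 4027383087) (nat_lit 380) (nat_lit 1063973329) (nat_lit 76) (nat_lit 3615847049) (nat_lit 60) (nat_lit 5) (nat_lit 65) (nat_lit 5)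 (nat_lit 61) (nat_lit 5) (nat_lit 262) (nat_lit 242) (nat_lit 216)))) (XT.nd (nat_lit 156) (nat_lit 684) (nat_lit 0) (XT.nd (nat_lit 78) (nat_lit 0) (nat_lit 0) (XT.lf (nat_lit 0) (nat_lit 3628863572) (nat_lit 380) (nat_lit 2525780466) (nat_lit 456) (nat_lit 2764933703) (nat_lit 55) (nat_lit 5) (nat_lit 60) (nat_lit 5) (nat_lit 61) (nat_lit 5) (nat_lit 263) (nat_lit 242) (nat_lit 215)) (XT.lf (nat_lit 0) (nat_lit 8336220475) (nat_lit 456) (nat_lit 633133482) (nat_lit 76) (nat_lit 176083123) (nat_lit 55) (nat_lit 5) (nat_lit 61) (nat_lit 5) (nat_lit 56) (nat_lit 5) (nat_lit 264) (nat_lit 242) (nat_lit 214))) (XT.nd (nat_lit 78) (nat_lit 304) (nat_lit 0) (XT.lf (nat_lit 0) (nat_lit 1243489046) (nat_lit 380) (nat_lit 5126153329) (nat_lit 76) (nat_lit 3010263719) (nat_lit 50) (nat_lit 5) (nat_lit 55) (nat_lit 5) (nat_lit 51) (nat_lit 5) (nat_lit 265) (nat_lit 242) (nat_lit 213)) (XT.nd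 (nat_lit 78) (nat_lit 304) (nat_lit 0) (XT.lf (nat_lit 0) (nat_lit 3313799064) (nat_lit 380) (nat_lit 311212369) (nat_lit 76) (nat_lit 6003543660) (nat_lit 50) (nat_lit 5) (nat_lit 55) (nat_lit 5) (nat_lit 51) (nat_lit 5) (nat_lit 266) (nat_lit 242) (nat_lit 212)) (XT.lf (nat_lit 0) (nat_lit 4823453810) (nat_lit 304) (nat_lit 674017327) (nat_lit 380) (nat_lit 4391890248) (nat_lit 46) (nat_lit 5) (nat_lit 50) (nat_lit 5) (nat_lit 51) (nat_lit 5) (nat_lit 267) (nat_lit 242) (nat_lit 211))))))) (XT.nd (nat_lit 702) (nat_lit 760) (nat_lit 0) (XT.nd (nat_lit 312) (nat_lit 532) (nat_lit 0) (XT.nd (nat_lit 156) (nat_lit 304) (nat_lit 0) (XT.nd (nat_lit 78) (nat_lit 228) (nat_lit 0) (XT.lf (nat_lit 0) (nat_lit 7769868454) (nat_lit 380) (nat_lit 52628062) (nat_lit 76) (nat_lit 2341941223) (nat_lit 46) (nat_lit 5) (nat_lit 51) (nat_lit 5) (nat_lit 47) (nat_lit 5) (nat_lit 268) (nat_lit 242)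 (nat_lit 210)) (XT.lf (nat_lit 0) (nat_lit 5296057220) (nat_lit 228) (nat_lit 4892927081) (nat_lit 304) (nat_lit 262825656) (nat_lit 43) (nat_lit 5) (nat_lit 46) (nat_lit 5) (nat_lit 47) (nat_lit 5) (nat_lit 269) (nat_lit 242) (nat_lit 209))) (XT.nd (nat_lit 78) (nat_lit 0) (nat_lit 0) (XT.lf (nat_lit 0) (nat_lit 56766596) (nat_lit 228) (nat_lit 1797273401) (nat_lit 304) (nat_lit 8901059130) (nat_lit 39) (nat_lit 5) (nat_lit 42) (nat_lit 5) (nat_lit 43) (nat_lit 5) (nat_lit 270) (nat_lit 242) (nat_lit 208)) (XT.lf (nat_lit 0) (nat_lit 4120796335) (nat_lit 304) (nat_lit 5465041691) (nat_lit 76) (nat_lit 1485025453) (nat_lit 39) (nat_lit 5) (nat_lit 43) (nat_lit 5) (nat_lit 40) (nat_lit 5) (nat_lit 271) (nat_lit 242) (nat_lit 207)))) (XT.nd (nat_lit 156) (nat_lit 304) (nat_lit 0) (XT.nd (nat_lit 78) (nat_lit 228) (nat_lit 0) (XT.lf (nat_lit 0) (nat_lit 6474587852) (nat_lit 304) (nat_lit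 72249545) (nat_lit 76) (nat_lit 4857055841) (nat_lit 39) (nat_lit 5) (nat_lit 43) (nat_lit 5) (nat_lit 40) (nat_lit 5) (nat_lit 272) (nat_lit 242) (nat_lit 206)) (XT.lf (nat_lit 0) (nat_lit 5703491716) (nat_lit 228) (nat_lit 3278514111) (nat_lit 304) (nat_lit 2769926153) (nat_lit 36) (nat_lit 5) (nat_lit 39) (nat_lit 5) (nat_lit 40) (nat_lit 5) (nat_lit 273) (nat_lit 242) (nat_lit 205))) (XT.nd (nat_lit 78) (nat_lit 304) (nat_lit 0) (XT.lf (nat_lit 0) (nat_lit 11566528289) (nat_lit 304) (nat_lit 419788546) (nat_lit 76) (nat_lit 133616132) (nat_lit 36) (nat_lit 5) (nat_lit 40) (nat_lit 5) (nat_lit 37) (nat_lit 5) (nat_lit 274) (nat_lit 242) (nat_lit 204)) (XT.nd (nat_lit 78) (nat_lit 0) (nat_lit 0) (XT.lf (nat_lit 0) (nat_lit 1809437803) (nat_lit 304) (nat_lit 6984260624) (nat_lit 76) (nat_lit 3706770482) (nat_lit 32) (nat_lit 5) (nat_lit 36) (nat_lit 5) (nat_lit 33) (nat_lit 5) (nat_lit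 275) (nat_lit 242) (nat_lit 203)) (XT.lf (nat_lit 0) (nat_lit 4230022829) (nat_lit 304) (nat_lit 1213181064) (nat_lit 76) (nat_lit 7458591197) (nat_lit 32) (nat_lit 5) (nat_lit 36) (nat_lit 5) (nat_lit 33) (nat_lit 5) (nat_lit 276) (nat_lit 242) (nat_lit 202)))))) (XT.nd (nat_lit 312) (nat_lit 304) (nat_lit 0) (XT.nd (nat_lit 156) (nat_lit 304) (nat_lit 0) (XT.nd (nat_lit 78) (nat_lit 0) (nat_lit 0) (XT.lf (nat_lit 0) (nat_lit 4939897962) (nat_lit 152) (nat_lit 1862172010) (nat_lit 228) (nat_lit 6519716894) (nat_lit 30) (nat_lit 5) (nat_lit 32) (nat_lit 5) (nat_lit 33) (nat_lit 5) (nat_lit 277) (nat_lit 242) (nat_lit 201)) (XT.lf (nat_lit 0) (nat_lit 9507487747) (nat_lit 228) (nat_lit 2414693610) (nat_lit 76) (nat_lit 1840473630) (nat_lit 30) (nat_lit 5) (nat_lit 33) (nat_lit 5) (nat_lit 31) (nat_lit 5) (nat_lit 278) (nat_lit 242) (nat_lit 200))) (XT.nd (nat_lit 78) (nat_lit 76) (nat_lit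 0) (XT.lf (nat_lit 0) (nat_lit 3881987617) (nat_lit 228) (nat_lit 8513757227) (nat_lit 304) (nat_lit 1827552935) (nat_lit 27) (nat_lit 5) (nat_lit 30) (nat_lit 5) (nat_lit 31) (nat_lit 5) (nat_lit 279) (nat_lit 242) (nat_lit 199)) (XT.lf (nat_lit 0) (nat_lit 696664195) (nat_lit 304) (nat_lit 4202640787) (nat_lit 76) (nat_lit 9807288390) (nat_lit 26) (nat_lit 5) (nat_lit 30) (nat_lit 5) (nat_lit 27) (nat_lit 5) (nat_lit 280) (nat_lit 242) (nat_lit 198)))) (XT.nd (nat_lit 156) (nat_lit 152) (nat_lit 0) (XT.nd (nat_lit 78) (nat_lit 0) (nat_lit 0) (XT.lf (nat_lit 0) (nat_lit 2224077721) (nat_lit 152) (nat_lit 1055128749) (nat_lit 228) (nat_lit 11933767430) (nat_lit 24) (nat_lit 5) (nat_lit 26) (nat_lit 5) (nat_lit 27) (nat_lit 5) (nat_lit 281) (nat_lit 242) (nat_lit 197)) (XT.lf (nat_lit 0) (nat_lit 6069311907) (nat_lit 228) (nat_lit 6731729805) (nat_lit 76) (nat_lit 2939800179) (nat_lit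 24) (nat_lit 5) (nat_lit 27) (nat_lit 5) (nat_lit 25) (nat_lit 5) (nat_lit 282) (nat_lit 242) (nat_lit 196))) (XT.nd (nat_lit 78) (nat_lit 152) (nat_lit 0) (XT.lf (nat_lit 0) (nat_lit 8977695755) (nat_lit 228) (nat_lit 237041202) (nat_lit 76) (nat_lit 7081513609) (nat_lit 24) (nat_lit 5) (nat_lit 27) (nat_lit 5) (nat_lit 25) (nat_lit 5) (nat_lit 283) (nat_lit 242) (nat_lit 195)) (XT.nd (nat_lit 78) (nat_lit 0) (nat_lit 0) (XT.lf (nat_lit 0) (nat_lit 6742922313) (nat_lit 152) (nat_lit 5357162820) (nat_lit 228) (nat_lit 4775997074) (nat_lit 22) (nat_lit 5) (nat_lit 24) (nat_lit 5) (nat_lit 25) (nat_lit 5) (nat_lit 284) (nat_lit 242) (nat_lit 194)) (XT.lf (nat_lit 0) (nat_lit 14025729934) (nat_lit 152) (nat_lit 1321086922) (nat_lit 228) (nat_lit 2139755383) (nat_lit 22) (nat_lit 5) (nat_lit 24) (nat_lit 5) (nat_lit 25) (nat_lit 5) (nat_lit 285) (nat_lit 242) (nat_lit 193))))))))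
noncomputable def xc118 : XT := (XT.nd (nat_lit 1404) (nat_lit 304) (nat_lit 0) (XT.nd (nat_lit 702) (nat_lit 304) (nat_lit 0) (XT.nd (nat_lit 312) (nat_lit 304) (nat_lit 0) (XT.nd (nat_lit 156) (nat_lit 152) (nat_lit 0) (XT.nd (nat_lit 78) (nat_lit 0) (nat_lit 0) (XT.lf (nat_lit 0) (nat_lit 675971944) (nat_lit 228) (nat_lit 14575021186) (nat_lit 76) (nat_lit 2872784719) (nat_lit 19) (nat_lit 5) (nat_lit 22) (nat_lit 5) (nat_lit 20) (nat_lit 5) (nat_lit 286) (nat_lit 242) (nat_lit 192)) (XT.lf (nat_lit 0) (nat_lit 3607640547) (nat_lit 228) (nat_lit 7872254342) (nat_lit 76) (nat_lit 7308909056) (nat_lit 19) (nat_lit 5) (nat_lit 22) (nat_lit 5) (nat_lit 20) (nat_lit 5) (nat_lit 287) (nat_lit 242) (nat_lit 191))) (XT.nd (nat_lit 78) (nat_lit 152) (nat_lit 0) (XT.lf (nat_lit 0) (nat_lit 6653355134) (nat_lit 228) (nat_lit 885428592) (nat_lit 76) (nat_lit 11949988623) (nat_lit 19) (nat_lit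 5) (nat_lit 22) (nat_lit 5) (nat_lit 20) (nat_lit 5) (nat_lit 288) (nat_lit 242) (nat_lit 190)) (XT.lf (nat_lit 0) (nat_lit 6613773416) (nat_lit 152) (nat_lit 3309853530) (nat_lit 228) (nat_lit 10296559730) (nat_lit 17) (nat_lit 5) (nat_lit 19) (nat_lit 5) (nat_lit 20) (nat_lit 5) (nat_lit 289) (nat_lit 242) (nat_lit 189)))) (XT.nd (nat_lit 156) (nat_lit 228) (nat_lit 0) (XT.nd (nat_lit 78) (nat_lit 76) (nat_lit 0) (XT.lf (nat_lit 0) (nat_lit 13359769450) (nat_lit 228) (nat_lit 6535801588) (nat_lit 76) (nat_lit 1092540994) (nat_lit 17) (nat_lit 5) (nat_lit 20) (nat_lit 5) (nat_lit 18) (nat_lit 4) (nat_lit 290) (nat_lit 242) (nat_lit 188)) (XT.lf (nat_lit 0) (nat_lit 813293357) (nat_lit 76) (nat_lit 16192302910) (nat_lit 152) (nat_lit 4786998928) (nat_lit 16) (nat_lit 5) (nat_lit 17) (nat_lit 5) (nat_lit 18) (nat_lit 4) (nat_lit 291) (nat_lit 242) (nat_lit 187))) (XT.nd (nat_lit 78)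 (nat_lit 228) (nat_lit 0) (XT.lf (nat_lit 0) (nat_lit 8710688568) (nat_lit 76) (nat_lit 12205297945) (nat_lit 152) (nat_lit 1717255160) (nat_lit 16) (nat_lit 5) (nat_lit 17) (nat_lit 5) (nat_lit 18) (nat_lit 4) (nat_lit 292) (nat_lit 242) (nat_lit 186)) (XT.nd (nat_lit 78) (nat_lit 152) (nat_lit 0) (XT.lf (nat_lit 0) (nat_lit 1430221101) (nat_lit 152) (nat_lit 6581307647) (nat_lit 76) (nat_lit 15504641661) (nat_lit 15) (nat_lit 5) (nat_lit 17) (nat_lit 5) (nat_lit 16) (nat_lit 5) (nat_lit 293) (nat_lit 242) (nat_lit 185)) (XT.lf (nat_lit 0) (nat_lit 1091076076) (nat_lit 152) (nat_lit 3577076856) (nat_lit 228) (nat_lit 19774191000) (nat_lit 13) (nat_lit 5) (nat_lit 15) (nat_lit 5) (nat_lit 16) (nat_lit 5) (nat_lit 294) (nat_lit 242) (nat_lit 184)))))) (XT.nd (nat_lit 312) (nat_lit 228) (nat_lit 0) (XT.nd (nat_lit 156) (nat_lit 76) (nat_lit 0) (XT.nd (nat_lit 78) (nat_lit 0) (nat_lit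 0) (XT.lf (nat_lit 0) (nat_lit 8172210360) (nat_lit 228) (nat_lit 16095436402) (nat_lit 76) (nat_lit 1142011325) (nat_lit 13) (nat_lit 5) (nat_lit 16) (nat_lit 5) (nat_lit 14) (nat_lit 4) (nat_lit 295) (nat_lit 242) (nat_lit 183)) (XT.lf (nat_lit 0) (nat_lit 11885441229) (nat_lit 228) (nat_lit 8576478137) (nat_lit 76) (nat_lit 5961761396) (nat_lit 13) (nat_lit 5) (nat_lit 16) (nat_lit 5) (nat_lit 14) (nat_lit 4) (nat_lit 296) (nat_lit 242) (nat_lit 182))) (XT.nd (nat_lit 78) (nat_lit 76) (nat_lit 0) (XT.lf (nat_lit 0) (nat_lit 15760838370) (nat_lit 228) (nat_lit 720642585) (nat_lit 76) (nat_lit 11008137750) (nat_lit 13) (nat_lit 5) (nat_lit 16) (nat_lit 5) (nat_lit 14) (nat_lit 4) (nat_lit 297) (nat_lit 242) (nat_lit 181)) (XT.lf (nat_lit 0) (nat_lit 7738453461) (nat_lit 76) (nat_lit 12189994402) (nat_lit 152) (nat_lit 8675521053) (nat_lit 12) (nat_lit 5) (nat_lit 13) (nat_lit 5) (nat_lit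 14) (nat_lit 4) (nat_lit 298) (nat_lit 242) (nat_lit 180)))) (XT.nd (nat_lit 156) (nat_lit 228) (nat_lit 0) (XT.nd (nat_lit 78) (nat_lit 0) (nat_lit 0) (XT.lf (nat_lit 0) (nat_lit 16608913436) (nat_lit 76) (nat_lit 7685846339) (nat_lit 152) (nat_lit 5479796476) (nat_lit 12) (nat_lit 5) (nat_lit 13) (nat_lit 5) (nat_lit 14) (nat_lit 4) (nat_lit 299) (nat_lit 242) (nat_lit 179)) (XT.lf (nat_lit 0) (nat_lit 25888029785) (nat_lit 76) (nat_lit 2970517033) (nat_lit 152) (nat_lit 2146202169) (nat_lit 12) (nat_lit 5) (nat_lit 13) (nat_lit 5) (nat_lit 14) (nat_lit 4) (nat_lit 300) (nat_lit 242) (nat_lit 178))) (XT.nd (nat_lit 78) (nat_lit 0) (nat_lit 0) (XT.lf (nat_lit 0) (nat_lit 1375347366) (nat_lit 228) (nat_lit 28937669727) (nat_lit 76) (nat_lit 1979177357) (nat_lit 9) (nat_lit 5) (nat_lit 12) (nat_lit 5) (nat_lit 10) (nat_lit 4) (nat_lit 301) (nat_lit 242) (nat_lit 177)) (XT.nd (nat_lit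 78) (nat_lit 0) (nat_lit 0) (XT.lf (nat_lit 0) (nat_lit 5117643856) (nat_lit 228) (nat_lit 21332172560) (nat_lit 76) (nat_lit 7186626171) (nat_lit 9) (nat_lit 5) (nat_lit 12) (nat_lit 5) (nat_lit 10) (nat_lit 4) (nat_lit 302) (nat_lit 242) (nat_lit 176)) (XT.lf (nat_lit 0) (nat_lit 9028030663) (nat_lit 228) (nat_lit 13378937356) (nat_lit 76) (nat_lit 12641914318) (nat_lit 9) (nat_lit 5) (nat_lit 12) (nat_lit 5) (nat_lit 10) (nat_lit 4) (nat_lit 303) (nat_lit 242) (nat_lit 175))))))) (XT.nd (nat_lit 702) (nat_lit 76) (nat_lit 0) (XT.nd (nat_lit 312) (nat_lit 152) (nat_lit 0) (XT.nd (nat_lit 156) (nat_lit 0) (nat_lit 0) (XT.nd (nat_lit 78) (nat_lit 76) (nat_lit 0) (XT.lf (nat_lit 0) (nat_lit 13115818232) (nat_lit 228) (nat_lit 5059027838) (nat_lit 76) (nat_lit 18358030579) (nat_lit 9) (nat_lit 5) (nat_lit 12) (nat_lit 5) (nat_lit 10) (nat_lit 4) (nat_lit 304) (nat_lit 242) (nat_lit 174))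 (XT.lf (nat_lit 0) (nat_lit 3767963668) (nat_lit 76) (nat_lit 13681604196) (nat_lit 152) (nat_lit 20639449560) (nat_lit 8) (nat_lit 5) (nat_lit 9) (nat_lit 5) (nat_lit 10) (nat_lit 4) (nat_lit 305) (nat_lit 242) (nat_lit 173))) (XT.nd (nat_lit 78) (nat_lit 0) (nat_lit 0) (XT.lf (nat_lit 0) (nat_lit 13182906917) (nat_lit 76) (nat_lit 8885887729) (nat_lit 152) (nat_lit 17650755277) (nat_lit 8) (nat_lit 5) (nat_lit 9) (nat_lit 5) (nat_lit 10) (nat_lit 4) (nat_lit 306) (nat_lit 242) (nat_lit 172)) (XT.lf (nat_lit 0) (nat_lit 23040944131) (nat_lit 76) (nat_lit 3861955384) (nat_lit 152) (nat_lit 14529536714) (nat_lit 8) (nat_lit 5) (nat_lit 9) (nat_lit 5) (nat_lit 10) (nat_lit 4) (nat_lit 307) (nat_lit 242) (nat_lit 171)))) (XT.nd (nat_lit 156) (nat_lit 152) (nat_lit 0) (XT.nd (nat_lit 78) (nat_lit 0) (nat_lit 0) (XT.lf (nat_lit 0) (nat_lit 31985283807) (nat_lit 152) (nat_lit 9888099379)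 (nat_lit 0) (nat_lit 1357276880) (nat_lit 8) (nat_lit 5) (nat_lit 10) (nat_lit 4) (nat_lit 8) (nat_lit 4) (nat_lit 308) (nat_lit 242) (nat_lit 170)) (XT.lf (nat_lit 0) (nat_lit 37370346227) (nat_lit 152) (nat_lit 1048516465) (nat_lit 0) (nat_lit 6697525334) (nat_lit 8) (nat_lit 5) (nat_lit 10) (nat_lit 4) (nat_lit 8) (nat_lit 4) (nat_lit 309) (nat_lit 242) (nat_lit 169))) (XT.nd (nat_lit 78) (nat_lit 76) (nat_lit 0) (XT.lf (nat_lit 0) (nat_lit 8480012575) (nat_lit 76) (nat_lit 34662996593) (nat_lit 76) (nat_lit 3947495733) (nat_lit 7) (nat_lit 4) (nat_lit 8) (nat_lit 5) (nat_lit 8) (nat_lit 4) (nat_lit 310) (nat_lit 242) (nat_lit 168)) (XT.nd (nat_lit 78) (nat_lit 0) (nat_lit 0) (XT.lf (nat_lit 0) (nat_lit 43714628) (nat_lit 152) (nat_lit 30666533459) (nat_lit 76) (nat_lit 18452863152) (nat_lit 6) (nat_lit 5) (nat_lit 8) (nat_lit 5) (nat_lit 7) (nat_lit 4) (nat_lit 311) (nat_lit 242)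 (nat_lit 167)) (XT.lf (nat_lit 0) (nat_lit 4088490715) (nat_lit 152) (nat_lit 22413454468) (nat_lit 76) (nat_lit 24834850889) (nat_lit 6) (nat_lit 5) (nat_lit 8) (nat_lit 5) (nat_lit 7) (nat_lit 4) (nat_lit 312) (nat_lit 242) (nat_lit 166)))))) (XT.nd (nat_lit 312) (nat_lit 0) (nat_lit 0) (XT.nd (nat_lit 156) (nat_lit 76) (nat_lit 0) (XT.nd (nat_lit 78) (nat_lit 0) (nat_lit 0) (XT.lf (nat_lit 0) (nat_lit 8322807464) (nat_lit 152) (nat_lit 13769973692) (nat_lit 76) (nat_lit 31527035257) (nat_lit 6) (nat_lit 5) (nat_lit 8) (nat_lit 5) (nat_lit 7) (nat_lit 4) (nat_lit 313) (nat_lit 242) (nat_lit 165)) (XT.lf (nat_lit 0) (nat_lit 12756746582) (nat_lit 152) (nat_lit 4715511417) (nat_lit 76) (nat_lit 38545350028) (nat_lit 6) (nat_lit 5) (nat_lit 8) (nat_lit 5) (nat_lit 7) (nat_lit 4) (nat_lit 314) (nat_lit 242) (nat_lit 164))) (XT.nd (nat_lit 78) (nat_lit 0) (nat_lit 0) (XT.lf (nat_lit 0)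 (nat_lit 4929257629) (nat_lit 76) (nat_lit 12548566961) (nat_lit 152) (nat_lit 41054207372) (nat_lit 5) (nat_lit 5) (nat_lit 6) (nat_lit 5) (nat_lit 7) (nat_lit 4) (nat_lit 315) (nat_lit 242) (nat_lit 163)) (XT.lf (nat_lit 0) (nat_lit 15200119205) (nat_lit 76) (nat_lit 7303417592) (nat_lit 152) (nat_lit 38665225413) (nat_lit 5) (nat_lit 5) (nat_lit 6) (nat_lit 5) (nat_lit 7) (nat_lit 4) (nat_lit 316) (nat_lit 242) (nat_lit 162)))) (XT.nd (nat_lit 156) (nat_lit 0) (nat_lit 0) (XT.nd (nat_lit 78) (nat_lit 0) (nat_lit 0) (XT.lf (nat_lit 0) (nat_lit 25965611639) (nat_lit 76) (nat_lit 1804180909) (nat_lit 152) (nat_lit 36168086985) (nat_lit 5) (nat_lit 5) (nat_lit 6) (nat_lit 5) (nat_lit 7) (nat_lit 4) (nat_lit 317) (nat_lit 242) (nat_lit 161)) (XT.lf (nat_lit 0) (nat_lit 33350992164) (nat_lit 152) (nat_lit 29656471629) (nat_lit 0) (nat_lit 3835420194) (nat_lit 5) (nat_lit 5) (nat_lit 7)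 (nat_lit 4) (nat_lit 5) (nat_lit 4) (nat_lit 318) (nat_lit 242) (nat_lit 160))) (XT.nd (nat_lit 78) (nat_lit 0) (nat_lit 0) (XT.lf (nat_lit 0) (nat_lit 39230969425) (nat_lit 152) (nat_lit 20971999904) (nat_lit 0) (nat_lit 9689195658) (nat_lit 5) (nat_lit 5) (nat_lit 7) (nat_lit 4) (nat_lit 5) (nat_lit 4) (nat_lit 319) (nat_lit 242) (nat_lit 159)) (XT.nd (nat_lit 78) (nat_lit 0) (nat_lit 0) (XT.lf (nat_lit 0) (nat_lit 45395555959) (nat_lit 152) (nat_lit 11870007087) (nat_lit 0) (nat_lit 15828828099) (nat_lit 5) (nat_lit 5) (nat_lit 7) (nat_lit 4) (nat_lit 5) (nat_lit 4) (nat_lit 320) (nat_lit 242) (nat_lit 158)) (XT.lf (nat_lit 0) (nat_lit 51859429351) (nat_lit 152) (nat_lit 2328821765) (nat_lit 0) (nat_lit 22268935689) (nat_lit 5) (nat_lit 5) (nat_lit 7) (nat_lit 4) (nat_lit 5) (nat_lit 4) (nat_lit 321) (nat_lit 242) (nat_lit 157))))))))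
noncomputable def xc119 : XT := (XT.nd (nat_lit 1404) (nat_lit 76) (nat_lit 0) (XT.nd (nat_lit 702) (nat_lit 76) (nat_lit 0) (XT.nd (nat_lit 312) (nat_lit 76) (nat_lit 0) (XT.nd (nat_lit 156) (nat_lit 0) (nat_lit 0) (XT.nd (nat_lit 78) (nat_lit 0) (nat_lit 0) (XT.lf (nat_lit 0) (nat_lit 7928019296) (nat_lit 76) (nat_lit 50833739080) (nat_lit 76) (nat_lit 21220611320) (nat_lit 4) (nat_lit 4) (nat_lit 5) (nat_lit 5) (nat_lit 5) (nat_lit 4) (nat_lit 322) (nat_lit 242) (nat_lit 156)) (XT.lf (nat_lit 0) (nat_lit 18763648540) (nat_lit 76) (nat_lit 47276651242) (nat_lit 76) (nat_lit 17641967197) (nat_lit 4) (nat_lit 4) (nat_lit 5) (nat_lit 5) (nat_lit 5) (nat_lit 4) (nat_lit 323) (nat_lit 242) (nat_lit 155))) (XT.nd (nat_lit 78) (nat_lit 0) (nat_lit 0) (XT.lf (nat_lit 0) (nat_lit 30126863718) (nat_lit 76) (nat_lit 43547958067) (nat_lit 76) (nat_lit 13892744229) (nat_lit 4) (nat_lit 4) (nat_lit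 5) (nat_lit 5) (nat_lit 5) (nat_lit 4) (nat_lit 324) (nat_lit 242) (nat_lit 154)) (XT.lf (nat_lit 0) (nat_lit 42044720103) (nat_lit 76) (nat_lit 39638781717) (nat_lit 76) (nat_lit 9964015694) (nat_lit 4) (nat_lit 4) (nat_lit 5) (nat_lit 5) (nat_lit 5) (nat_lit 4) (nat_lit 325) (nat_lit 242) (nat_lit 153)))) (XT.nd (nat_lit 156) (nat_lit 76) (nat_lit 0) (XT.nd (nat_lit 78) (nat_lit 0) (nat_lit 0) (XT.lf (nat_lit 0) (nat_lit 54545593546) (nat_lit 76) (nat_lit 35539814627) (nat_lit 76) (nat_lit 5846427476) (nat_lit 4) (nat_lit 4) (nat_lit 5) (nat_lit 5) (nat_lit 5) (nat_lit 4) (nat_lit 326) (nat_lit 242) (nat_lit 152)) (XT.lf (nat_lit 0) (nat_lit 67659248029) (nat_lit 76) (nat_lit 31241297353) (nat_lit 76) (nat_lit 1530175794) (nat_lit 4) (nat_lit 4) (nat_lit 5) (nat_lit 5) (nat_lit 5) (nat_lit 4) (nat_lit 327) (nat_lit 242) (nat_lit 151))) (XT.nd (nat_lit 78) (nat_lit 0) (nat_lit 0)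 (XT.lf (nat_lit 0) (nat_lit 2899156920) (nat_lit 152) (nat_lit 23784739784) (nat_lit 76) (nat_lit 78468650994) (nat_lit 3) (nat_lit 5) (nat_lit 5) (nat_lit 5) (nat_lit 4) (nat_lit 4) (nat_lit 328) (nat_lit 242) (nat_lit 150)) (XT.nd (nat_lit 78) (nat_lit 0) (nat_lit 0) (XT.lf (nat_lit 0) (nat_lit 7492196737) (nat_lit 152) (nat_lit 14385093789) (nat_lit 76) (nat_lit 88232244694) (nat_lit 3) (nat_lit 5) (nat_lit 5) (nat_lit 5) (nat_lit 4) (nat_lit 4) (nat_lit 329) (nat_lit 242) (nat_lit 149)) (XT.lf (nat_lit 0) (nat_lit 12308854647) (nat_lit 152) (nat_lit 4526264723) (nat_lit 76) (nat_lit 98479561242) (nat_lit 3) (nat_lit 5) (nat_lit 5) (nat_lit 5) (nat_lit 4) (nat_lit 4) (nat_lit 330) (nat_lit 242) (nat_lit 148)))))) (XT.nd (nat_lit 312) (nat_lit 0) (nat_lit 0) (XT.nd (nat_lit 156) (nat_lit 0) (nat_lit 0) (XT.nd (nat_lit 78) (nat_lit 0) (nat_lit 0) (XT.lf (nat_lit 0) (nat_lit 6007498279)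 (nat_lit 76) (nat_lit 11446894486) (nat_lit 152) (nat_lit 103321294616) (nat_lit 2) (nat_lit 5) (nat_lit 3) (nat_lit 5) (nat_lit 4) (nat_lit 4) (nat_lit 331) (nat_lit 242) (nat_lit 147)) (XT.lf (nat_lit 0) (nat_lit 17214972032) (nat_lit 76) (nat_lit 5713259331) (nat_lit 152) (nat_lit 103577968113) (nat_lit 2) (nat_lit 5) (nat_lit 3) (nat_lit 5) (nat_lit 4) (nat_lit 4) (nat_lit 332) (nat_lit 242) (nat_lit 146))) (XT.nd (nat_lit 78) (nat_lit 0) (nat_lit 0) (XT.lf (nat_lit 0) (nat_lit 28675126412) (nat_lit 152) (nat_lit 103555056239) (nat_lit 0) (nat_lit 293092172) (nat_lit 2) (nat_lit 5) (nat_lit 4) (nat_lit 4) (nat_lit 2) (nat_lit 4) (nat_lit 333) (nat_lit 242) (nat_lit 145)) (XT.lf (nat_lit 0) (nat_lit 34797855241) (nat_lit 152) (nat_lit 97635112180) (nat_lit 0) (nat_lit 6403817656) (nat_lit 2) (nat_lit 5) (nat_lit 4) (nat_lit 4) (nat_lit 2) (nat_lit 4) (nat_lit 334) (nat_lit 242)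 (nat_lit 144)))) (XT.nd (nat_lit 156) (nat_lit 0) (nat_lit 0) (XT.nd (nat_lit 78) (nat_lit 0) (nat_lit 0) (XT.lf (nat_lit 0) (nat_lit 41221795788) (nat_lit 152) (nat_lit 91428100174) (nat_lit 0) (nat_lit 12816326444) (nat_lit 2) (nat_lit 5) (nat_lit 4) (nat_lit 4) (nat_lit 2) (nat_lit 4) (nat_lit 335) (nat_lit 242) (nat_lit 143)) (XT.lf (nat_lit 0) (nat_lit 47962243148) (nat_lit 152) (nat_lit 84919241621) (nat_lit 0) (nat_lit 19545886416) (nat_lit 2) (nat_lit 5) (nat_lit 4) (nat_lit 4) (nat_lit 2) (nat_lit 4) (nat_lit 336) (nat_lit 242) (nat_lit 142))) (XT.nd (nat_lit 78) (nat_lit 0) (nat_lit 0) (XT.lf (nat_lit 0) (nat_lit 55035246006) (nat_lit 152) (nat_lit 78093039239) (nat_lit 0) (nat_lit 26608520333) (nat_lit 2) (nat_lit 5) (nat_lit 4) (nat_lit 4) (nat_lit 2) (nat_lit 4) (nat_lit 337) (nat_lit 242) (nat_lit 141)) (XT.nd (nat_lit 78) (nat_lit 0) (nat_lit 0) (XT.lf (nat_lit 0) (nat_lit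 62457644844) (nat_lit 152) (nat_lit 70933240165) (nat_lit 0) (nat_lit 34021043990) (nat_lit 2) (nat_lit 5) (nat_lit 4) (nat_lit 4) (nat_lit 2) (nat_lit 4) (nat_lit 338) (nat_lit 242) (nat_lit 140)) (XT.lf (nat_lit 0) (nat_lit 70247112042) (nat_lit 152) (nat_lit 63422797258) (nat_lit 0) (nat_lit 41801106252) (nat_lit 2) (nat_lit 5) (nat_lit 4) (nat_lit 4) (nat_lit 2) (nat_lit 4) (nat_lit 339) (nat_lit 242) (nat_lit 139))))))) (XT.nd (nat_lit 702) (nat_lit 0) (nat_lit 0) (XT.nd (nat_lit 312) (nat_lit 76) (nat_lit 0) (XT.nd (nat_lit 156) (nat_lit 0) (nat_lit 0) (XT.nd (nat_lit 78) (nat_lit 0) (nat_lit 0) (XT.lf (nat_lit 0) (nat_lit 78422193949) (nat_lit 152) (nat_lit 55543828511) (nat_lit 0) (nat_lit 49967231078) (nat_lit 2) (nat_lit 5) (nat_lit 4) (nat_lit 4) (nat_lit 2) (nat_lit 4) (nat_lit 340) (nat_lit 242) (nat_lit 138)) (XT.lf (nat_lit 0) (nat_lit 87002355046) (nat_lit 152) (nat_lit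 47277574475) (nat_lit 0) (nat_lit 58538861622) (nat_lit 2) (nat_lit 5) (nat_lit 4) (nat_lit 4) (nat_lit 2) (nat_lit 4) (nat_lit 341) (nat_lit 242) (nat_lit 137))) (XT.nd (nat_lit 78) (nat_lit 0) (nat_lit 0) (XT.lf (nat_lit 0) (nat_lit 96008024289) (nat_lit 152) (nat_lit 38604353593) (nat_lit 0) (nat_lit 67536406528) (nat_lit 2) (nat_lit 5) (nat_lit 4) (nat_lit 4) (nat_lit 2) (nat_lit 4) (nat_lit 342) (nat_lit 242) (nat_lit 136)) (XT.lf (nat_lit 0) (nat_lit 105460643746) (nat_lit 152) (nat_lit 29503515339) (nat_lit 0) (nat_lit 76981288522) (nat_lit 2) (nat_lit 5) (nat_lit 4) (nat_lit 4) (nat_lit 2) (nat_lit 4) (nat_lit 343) (nat_lit 242) (nat_lit 135)))) (XT.nd (nat_lit 156) (nat_lit 76) (nat_lit 0) (XT.nd (nat_lit 78) (nat_lit 0) (nat_lit 0) (XT.lf (nat_lit 0) (nat_lit 115382719655) (nat_lit 152) (nat_lit 19953391050) (nat_lit 0) (nat_lit 86895995418) (nat_lit 2) (nat_lit 5) (nat_lit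 4) (nat_lit 4) (nat_lit 2) (nat_lit 4) (nat_lit 344) (nat_lit 242) (nat_lit 134)) (XT.lf (nat_lit 0) (nat_lit 125797876006) (nat_lit 152) (nat_lit 9931242336) (nat_lit 0) (nat_lit 97304133661) (nat_lit 2) (nat_lit 5) (nat_lit 4) (nat_lit 4) (nat_lit 2) (nat_lit 4) (nat_lit 345) (nat_lit 242) (nat_lit 133))) (XT.nd (nat_lit 78) (nat_lit 0) (nat_lit 0) (XT.lf (nat_lit 0) (nat_lit 606195092) (nat_lit 76) (nat_lit 136134180102) (nat_lit 76) (nat_lit 107633753846) (nat_lit 1) (nat_lit 4) (nat_lit 2) (nat_lit 5) (nat_lit 2) (nat_lit 4) (nat_lit 346) (nat_lit 242) (nat_lit 132)) (XT.nd (nat_lit 78) (nat_lit 0) (nat_lit 0) (XT.lf (nat_lit 0) (nat_lit 12010158154) (nat_lit 76) (nat_lit 136385209115) (nat_lit 76) (nat_lit 107878417228) (nat_lit 1) (nat_lit 4) (nat_lit 2) (nat_lit 5) (nat_lit 2) (nat_lit 4) (nat_lit 347) (nat_lit 242) (nat_lit 131)) (XT.lf (nat_lit 0) (nat_lit 23979427422) (nat_lit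 76) (nat_lit 136650993463) (nat_lit 76) (nat_lit 108138139071) (nat_lit 1) (nat_lit 4) (nat_lit 2) (nat_lit 5) (nat_lit 2) (nat_lit 4) (nat_lit 348) (nat_lit 242) (nat_lit 130)))))) (XT.nd (nat_lit 390) (nat_lit 0) (nat_lit 0) (XT.nd (nat_lit 156) (nat_lit 0) (nat_lit 0) (XT.nd (nat_lit 78) (nat_lit 0) (nat_lit 0) (XT.lf (nat_lit 0) (nat_lit 36542501155) (nat_lit 76) (nat_lit 136932165965) (nat_lit 76) (nat_lit 108413537760) (nat_lit 1) (nat_lit 4) (nat_lit 2) (nat_lit 5) (nat_lit 2) (nat_lit 4) (nat_lit 349) (nat_lit 242) (nat_lit 129)) (XT.lf (nat_lit 0) (nat_lit 49729291434) (nat_lit 76) (nat_lit 137229396082) (nat_lit 76) (nat_lit 108705269005) (nat_lit 1) (nat_lit 4) (nat_lit 2) (nat_lit 5) (nat_lit 2) (nat_lit 4) (nat_lit 350) (nat_lit 242) (nat_lit 128))) (XT.nd (nat_lit 78) (nat_lit 0) (nat_lit 0) (XT.lf (nat_lit 0) (nat_lit 63571195378) (nat_lit 76) (nat_lit 137543391502)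 (nat_lit 76) (nat_lit 109014027405) (nat_lit 1) (nat_lit 4) (nat_lit 2) (nat_lit 5) (nat_lit 2) (nat_lit 4) (nat_lit 351) (nat_lit 242) (nat_lit 127)) (XT.nd (nat_lit 78) (nat_lit 0) (nat_lit 0) (XT.lf (nat_lit 0) (nat_lit 78101169902) (nat_lit 76) (nat_lit 137874899834) (nat_lit 76) (nat_lit 109340548100) (nat_lit 1) (nat_lit 4) (nat_lit 2) (nat_lit 5) (nat_lit 2) (nat_lit 4) (nat_lit 352) (nat_lit 242) (nat_lit 126)) (XT.lf (nat_lit 0) (nat_lit 93353810183) (nat_lit 76) (nat_lit 138224710385) (nat_lit 76) (nat_lit 109685608519) (nat_lit 1) (nat_lit 4) (nat_lit 2) (nat_lit 5) (nat_lit 2) (nat_lit 4) (nat_lit 353) (nat_lit 242) (nat_lit 125))))) (XT.nd (nat_lit 156) (nat_lit 0) (nat_lit 0) (XT.nd (nat_lit 78) (nat_lit 0) (nat_lit 0) (XT.lf (nat_lit 0) (nat_lit 109365432030) (nat_lit 76) (nat_lit 138593656035) (nat_lit 76) (nat_lit 110050030235) (nat_lit 1) (nat_lit 4) (nat_lit 2) (nat_lit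 5) (nat_lit 2) (nat_lit 4) (nat_lit 354) (nat_lit 242) (nat_lit 124)) (XT.lf (nat_lit 0) (nat_lit 126174158355) (nat_lit 76) (nat_lit 138982615227) (nat_lit 76) (nat_lit 110434680918) (nat_lit 1) (nat_lit 4) (nat_lit 2) (nat_lit 5) (nat_lit 2) (nat_lit 4) (nat_lit 355) (nat_lit 242) (nat_lit 123))) (XT.nd (nat_lit 78) (nat_lit 0) (nat_lit 0) (XT.lf (nat_lit 0) (nat_lit 143820009932) (nat_lit 76) (nat_lit 139392514055) (nat_lit 76) (nat_lit 110840476404) (nat_lit 1) (nat_lit 4) (nat_lit 2) (nat_lit 5) (nat_lit 2) (nat_lit 4) (nat_lit 356) (nat_lit 242) (nat_lit 122)) (XT.nd (nat_lit 78) (nat_lit 0) (nat_lit 0) (XT.lf (nat_lit 0) (nat_lit 162345000695) (nat_lit 76) (nat_lit 139824328468) (nat_lit 76) (nat_lit 111268382872) (nat_lit 1) (nat_lit 4) (nat_lit 2) (nat_lit 5) (nat_lit 2) (nat_lit 4) (nat_lit 357) (nat_lit 242) (nat_lit 121)) (XT.lf (nat_lit 0) (nat_lit 181793237764) (nat_lit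 76) (nat_lit 140279086595) (nat_lit 76) (nat_lit 111719419147) (nat_lit 1) (nat_lit 4) (nat_lit 2) (nat_lit 5) (nat_lit 2) (nat_lit 4) (nat_lit 358) (nat_lit 242) (nat_lit 120))))))))
noncomputable def xc120 : XT := (XT.nd (nat_lit 29484) (nat_lit 0) (nat_lit 2660) (XT.nd (nat_lit 28782) (nat_lit 0) (nat_lit 6764) (XT.nd (nat_lit 312) (nat_lit 0) (nat_lit 0) (XT.nd (nat_lit 156) (nat_lit 0) (nat_lit 0) (XT.nd (nat_lit 78) (nat_lit 0) (nat_lit 0) (XT.lf (nat_lit 0) (nat_lit 202211026466) (nat_lit 76) (nat_lit 140757871195) (nat_lit 76) (nat_lit 112194659125) (nat_lit 1) (nat_lit 4) (nat_lit 2) (nat_lit 5) (nat_lit 2) (nat_lit 4) (nat_lit 359) (nat_lit 242) (nat_lit 119)) (XT.lf (nat_lit 0) (nat_lit 223646980584) (nat_lit 76) (nat_lit 141261822229) (nat_lit 76) (nat_lit 112695234330) (nat_lit 1) (nat_lit 4) (nat_lit 2) (nat_lit 5) (nat_lit 2) (nat_lit 4) (nat_lit 360) (nat_lit 242) (nat_lit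 118))) (XT.nd (nat_lit 78) (nat_lit 0) (nat_lit 0) (XT.lf (nat_lit 0) (nat_lit 246152138103) (nat_lit 76) (nat_lit 141792139582) (nat_lit 76) (nat_lit 113222336607) (nat_lit 1) (nat_lit 4) (nat_lit 2) (nat_lit 5) (nat_lit 2) (nat_lit 4) (nat_lit 361) (nat_lit 242) (nat_lit 117)) (XT.lf (nat_lit 0) (nat_lit 269780082732) (nat_lit 76) (nat_lit 142350085915) (nat_lit 76) (nat_lit 113777220962) (nat_lit 1) (nat_lit 4) (nat_lit 2) (nat_lit 5) (nat_lit 2) (nat_lit 4) (nat_lit 362) (nat_lit 242) (nat_lit 116)))) (XT.nd (nat_lit 28236) (nat_lit 0) (nat_lit 7980) (XT.nd (nat_lit 28158) (nat_lit 0) (nat_lit 8284) (XT.lf (nat_lit 0) (nat_lit 294587071481) (nat_lit 76) (nat_lit 142936989670) (nat_lit 76) (nat_lit 114361208549) (nat_lit 1) (nat_lit 4) (nat_lit 2) (nat_lit 5) (nat_lit 2) (nat_lit 4) (nat_lit 363) (nat_lit 242) (nat_lit 115)) (XT.lf (nat_lit 0) (nat_lit 587378053) (nat_lit 0) (nat_lit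 587378053) (nat_lit 228) (nat_lit 2100711450) (nat_lit 110) (nat_lit 5) (nat_lit 110) (nat_lit 3) (nat_lit 113) (nat_lit 3) (nat_lit 243) (nat_lit 243) (nat_lit 234))) (XT.nd (nat_lit 78) (nat_lit 304) (nat_lit 0) (XT.lf (nat_lit 0) (nat_lit 4119184386) (nat_lit 0) (nat_lit 501336589) (nat_lit 228) (nat_lit 1970907743) (nat_lit 110) (nat_lit 5) (nat_lit 110) (nat_lit 3) (nat_lit 113) (nat_lit 3) (nat_lit 244) (nat_lit 243) (nat_lit 233)) (XT.nd (nat_lit 78) (nat_lit 0) (nat_lit 0) (XT.lf (nat_lit 0) (nat_lit 227020167) (nat_lit 304) (nat_lit 6134685009) (nat_lit 380) (nat_lit 279336012) (nat_lit 106) (nat_lit 5) (nat_lit 110) (nat_lit 5) (nat_lit 111) (nat_lit 5) (nat_lit 245) (nat_lit 243) (nat_lit 232)) (XT.lf (nat_lit 0) (nat_lit 2381378911) (nat_lit 304) (nat_lit 3096353071) (nat_lit 380) (nat_lit 1218883725) (nat_lit 106) (nat_lit 5) (nat_lit 110) (nat_lit 5) (nat_lit 111) (nat_lit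 5) (nat_lit 246) (nat_lit 243) (nat_lit 231)))))) (XT.nd (nat_lit 312) (nat_lit 836) (nat_lit 0) (XT.nd (nat_lit 156) (nat_lit 380) (nat_lit 0) (XT.nd (nat_lit 78) (nat_lit 0) (nat_lit 0) (XT.lf (nat_lit 76) (nat_lit 14537208) (nat_lit 0) (nat_lit 4497713164) (nat_lit 380) (nat_lit 2249979238) (nat_lit 107) (nat_lit 5) (nat_lit 106) (nat_lit 5) (nat_lit 111) (nat_lit 5) (nat_lit 247) (nat_lit 243) (nat_lit 230)) (XT.lf (nat_lit 76) (nat_lit 3309934330) (nat_lit 0) (nat_lit 3365769636) (nat_lit 380) (nat_lit 159785360) (nat_lit 107) (nat_lit 5) (nat_lit 106) (nat_lit 5) (nat_lit 111) (nat_lit 5) (nat_lit 248) (nat_lit 243) (nat_lit 229))) (XT.nd (nat_lit 78) (nat_lit 0) (nat_lit 0) (XT.lf (nat_lit 0) (nat_lit 1846819073) (nat_lit 380) (nat_lit 253548683) (nat_lit 456) (nat_lit 4817209211) (nat_lit 101) (nat_lit 5) (nat_lit 106) (nat_lit 5) (nat_lit 107) (nat_lit 5) (nat_lit 249) (nat_lit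 243) (nat_lit 228)) (XT.lf (nat_lit 76) (nat_lit 3206379648) (nat_lit 0) (nat_lit 674951438) (nat_lit 456) (nat_lit 3126235793) (nat_lit 102) (nat_lit 5) (nat_lit 101) (nat_lit 5) (nat_lit 107) (nat_lit 5) (nat_lit 250) (nat_lit 243) (nat_lit 227)))) (XT.nd (nat_lit 156) (nat_lit 456) (nat_lit 0) (XT.nd (nat_lit 78) (nat_lit 456) (nat_lit 0) (XT.lf (nat_lit 0) (nat_lit 5922660528) (nat_lit 380) (nat_lit 347877605) (nat_lit 76) (nat_lit 836812343) (nat_lit 102) (nat_lit 5) (nat_lit 107) (nat_lit 5) (nat_lit 103) (nat_lit 5) (nat_lit 251) (nat_lit 243) (nat_lit 226)) (XT.lf (nat_lit 0) (nat_lit 781117559) (nat_lit 456) (nat_lit 3932334327) (nat_lit 76) (nat_lit 2500776730) (nat_lit 96) (nat_lit 5) (nat_lit 102) (nat_lit 5) (nat_lit 97) (nat_lit 5) (nat_lit 252) (nat_lit 243) (nat_lit 225))) (XT.nd (nat_lit 78) (nat_lit 456) (nat_lit 0) (XT.lf (nat_lit 0) (nat_lit 2706353467) (nat_lit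 456) (nat_lit 320514929) (nat_lit 76) (nat_lit 4304037699) (nat_lit 96) (nat_lit 5) (nat_lit 102) (nat_lit 5) (nat_lit 97) (nat_lit 5) (nat_lit 253) (nat_lit 243) (nat_lit 224)) (XT.nd (nat_lit 78) (nat_lit 0) (nat_lit 0) (XT.lf (nat_lit 0) (nat_lit 3507910075) (nat_lit 456) (nat_lit 1174674467) (nat_lit 532) (nat_lit 2773547718) (nat_lit 90) (nat_lit 5) (nat_lit 96) (nat_lit 5) (nat_lit 97) (nat_lit 5) (nat_lit 254) (nat_lit 243) (nat_lit 223)) (XT.lf (nat_lit 0) (nat_lit 6679059612) (nat_lit 532) (nat_lit 141194123) (nat_lit 76) (nat_lit 771724359) (nat_lit 90) (nat_lit 5) (nat_lit 97) (nat_lit 5) (nat_lit 91) (nat_lit 5) (nat_lit 255) (nat_lit 243) (nat_lit 222))))))) (XT.nd (nat_lit 702) (nat_lit 1444) (nat_lit 0) (XT.nd (nat_lit 312) (nat_lit 760) (nat_lit 0) (XT.nd (nat_lit 156) (nat_lit 684) (nat_lit 0) (XT.nd (nat_lit 78) (nat_lit 608) (nat_lit 0) (XT.lf (nat_lit 0) (nat_lit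 995217599) (nat_lit 608) (nat_lit 3867180976) (nat_lit 76) (nat_lit 2872405926) (nat_lit 82) (nat_lit 5) (nat_lit 90) (nat_lit 5) (nat_lit 83) (nat_lit 5) (nat_lit 256) (nat_lit 243) (nat_lit 221)) (XT.lf (nat_lit 0) (nat_lit 106646905) (nat_lit 608) (nat_lit 2775350431) (nat_lit 684) (nat_lit 5006702188) (nat_lit 74) (nat_lit 5) (nat_lit 82) (nat_lit 5) (nat_lit 83) (nat_lit 5) (nat_lit 257) (nat_lit 243) (nat_lit 220))) (XT.nd (nat_lit 78) (nat_lit 684) (nat_lit 0) (XT.lf (nat_lit 0) (nat_lit 4335805722) (nat_lit 608) (nat_lit 505706717) (nat_lit 684) (nat_lit 3210210788) (nat_lit 74) (nat_lit 5) (nat_lit 82) (nat_lit 5) (nat_lit 83) (nat_lit 5) (nat_lit 258) (nat_lit 243) (nat_lit 219)) (XT.lf (nat_lit 0) (nat_lit 460398939) (nat_lit 684) (nat_lit 6392296389) (nat_lit 760) (nat_lit 1372855089) (nat_lit 65) (nat_lit 5) (nat_lit 74) (nat_lit 5) (nat_lit 75) (nat_lit 5) (nat_lit 259)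 (nat_lit 243) (nat_lit 218)))) (XT.nd (nat_lit 156) (nat_lit 380) (nat_lit 0) (XT.nd (nat_lit 78) (nat_lit 304) (nat_lit 0) (XT.lf (nat_lit 0) (nat_lit 529119459) (nat_lit 760) (nat_lit 3528680484) (nat_lit 76) (nat_lit 4350612364) (nat_lit 64) (nat_lit 5) (nat_lit 74) (nat_lit 5) (nat_lit 65) (nat_lit 5) (nat_lit 260) (nat_lit 243) (nat_lit 217)) (XT.lf (nat_lit 0) (nat_lit 847776539) (nat_lit 304) (nat_lit 1567711185) (nat_lit 380) (nat_lit 6187323711) (nat_lit 60) (nat_lit 5) (nat_lit 64) (nat_lit 5) (nat_lit 65) (nat_lit 5) (nat_lit 261) (nat_lit 243) (nat_lit 216))) (XT.nd (nat_lit 78) (nat_lit 380) (nat_lit 0) (XT.lf (nat_lit 0) (nat_lit 4397985519) (nat_lit 380) (nat_lit 3334976755) (nat_lit 76) (nat_lit 1074154859) (nat_lit 60) (nat_lit 5) (nat_lit 65) (nat_lit 5) (nat_lit 61) (nat_lit 5) (nat_lit 262) (nat_lit 243) (nat_lit 215)) (XT.nd (nat_lit 78) (nat_lit 0) (nat_lit 0)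 (XT.lf (nat_lit 0) (nat_lit 1244723971) (nat_lit 380) (nat_lit 5208329257) (nat_lit 456) (nat_lit 2570176608) (nat_lit 55) (nat_lit 5) (nat_lit 60) (nat_lit 5) (nat_lit 61) (nat_lit 5) (nat_lit 263) (nat_lit 243) (nat_lit 214)) (XT.lf (nat_lit 0) (nat_lit 6094911245) (nat_lit 380) (nat_lit 2503007748) (nat_lit 456) (nat_lit 653128352) (nat_lit 55) (nat_lit 5) (nat_lit 60) (nat_lit 5) (nat_lit 61) (nat_lit 5) (nat_lit 264) (nat_lit 243) (nat_lit 213)))))) (XT.nd (nat_lit 312) (nat_lit 760) (nat_lit 0) (XT.nd (nat_lit 156) (nat_lit 304) (nat_lit 0) (XT.nd (nat_lit 78) (nat_lit 0) (nat_lit 0) (XT.lf (nat_lit 0) (nat_lit 1280612992) (nat_lit 380) (nat_lit 7841534433) (nat_lit 76) (nat_lit 369056745) (nat_lit 50) (nat_lit 5) (nat_lit 55) (nat_lit 5) (nat_lit 51) (nat_lit 5) (nat_lit 265) (nat_lit 243) (nat_lit 212)) (XT.lf (nat_lit 0) (nat_lit 3318990777) (nat_lit 380) (nat_lit 3063375166)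 (nat_lit 76) (nat_lit 3359189773) (nat_lit 50) (nat_lit 5) (nat_lit 55) (nat_lit 5) (nat_lit 51) (nat_lit 5) (nat_lit 266) (nat_lit 243) (nat_lit 211))) (XT.nd (nat_lit 78) (nat_lit 0) (nat_lit 0) (XT.lf (nat_lit 0) (nat_lit 1944103640) (nat_lit 304) (nat_lit 3483192834) (nat_lit 380) (nat_lit 4578934745) (nat_lit 46) (nat_lit 5) (nat_lit 50) (nat_lit 5) (nat_lit 51) (nat_lit 5) (nat_lit 267) (nat_lit 243) (nat_lit 210)) (XT.lf (nat_lit 0) (nat_lit 7237656234) (nat_lit 304) (nat_lit 394762737) (nat_lit 380) (nat_lit 2652348432) (nat_lit 46) (nat_lit 5) (nat_lit 50) (nat_lit 5) (nat_lit 51) (nat_lit 5) (nat_lit 268) (nat_lit 243) (nat_lit 209)))) (XT.nd (nat_lit 156) (nat_lit 456) (nat_lit 0) (XT.nd (nat_lit 78) (nat_lit 76) (nat_lit 0) (XT.lf (nat_lit 0) (nat_lit 2173551247) (nat_lit 228) (nat_lit 7794898606) (nat_lit 304) (nat_lit 607935528) (nat_lit 43) (nat_lit 5) (nat_lit 46) (nat_lit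 5) (nat_lit 47) (nat_lit 5) (nat_lit 269) (nat_lit 243) (nat_lit 208)) (XT.lf (nat_lit 0) (nat_lit 1491201552) (nat_lit 304) (nat_lit 3221442822) (nat_lit 76) (nat_lit 6168821299) (nat_lit 42) (nat_lit 5) (nat_lit 46) (nat_lit 5) (nat_lit 43) (nat_lit 5) (nat_lit 270) (nat_lit 243) (nat_lit 207))) (XT.nd (nat_lit 78) (nat_lit 228) (nat_lit 0) (XT.lf (nat_lit 0) (nat_lit 2212106942) (nat_lit 228) (nat_lit 1442847193) (nat_lit 304) (nat_lit 7547505131) (nat_lit 39) (nat_lit 5) (nat_lit 42) (nat_lit 5) (nat_lit 43) (nat_lit 5) (nat_lit 271) (nat_lit 243) (nat_lit 206)) (XT.nd (nat_lit 78) (nat_lit 228) (nat_lit 0) (XT.lf (nat_lit 0) (nat_lit 5960311150) (nat_lit 304) (nat_lit 3608807849) (nat_lit 76) (nat_lit 1968867038) (nat_lit 39) (nat_lit 5) (nat_lit 43) (nat_lit 5) (nat_lit 40) (nat_lit 5) (nat_lit 272) (nat_lit 243) (nat_lit 205)) (XT.lf (nat_lit 0) (nat_lit 2016769015) (nat_lit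 228) (nat_lit 6368726119) (nat_lit 304) (nat_lit 3504713045) (nat_lit 36) (nat_lit 5) (nat_lit 39) (nat_lit 5) (nat_lit 40) (nat_lit 5) (nat_lit 273) (nat_lit 243) (nat_lit 204))))))))
noncomputable def xc121 : XT := (XT.nd (nat_lit 1404) (nat_lit 684) (nat_lit 0) (XT.nd (nat_lit 702) (nat_lit 532) (nat_lit 0) (XT.nd (nat_lit 312) (nat_lit 456) (nat_lit 0) (XT.nd (nat_lit 156) (nat_lit 152) (nat_lit 0) (XT.nd (nat_lit 78) (nat_lit 304) (nat_lit 0) (XT.lf (nat_lit 0) (nat_lit 7984037139) (nat_lit 228) (nat_lit 2959832285) (nat_lit 304) (nat_lit 1315715441) (nat_lit 36) (nat_lit 5) (nat_lit 39) (nat_lit 5) (nat_lit 40) (nat_lit 5) (nat_lit 274) (nat_lit 243) (nat_lit 203)) (XT.lf (nat_lit 0) (nat_lit 938189486) (nat_lit 304) (nat_lit 11084257018) (nat_lit 76) (nat_lit 624998145) (nat_lit 32) (nat_lit 5) (nat_lit 36) (nat_lit 5) (nat_lit 33) (nat_lit 5) (nat_lit 275) (nat_lit 243) (nat_lit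 202))) (XT.nd (nat_lit 78) (nat_lit 152) (nat_lit 0) (XT.lf (nat_lit 0) (nat_lit 3335997544) (nat_lit 304) (nat_lit 5344719944) (nat_lit 76) (nat_lit 4369251180) (nat_lit 32) (nat_lit 5) (nat_lit 36) (nat_lit 5) (nat_lit 33) (nat_lit 5) (nat_lit 276) (nat_lit 243) (nat_lit 201)) (XT.lf (nat_lit 0) (nat_lit 640718013) (nat_lit 152) (nat_lit 5178512076) (nat_lit 228) (nat_lit 7655227266) (nat_lit 30) (nat_lit 5) (nat_lit 32) (nat_lit 5) (nat_lit 33) (nat_lit 5) (nat_lit 277) (nat_lit 243) (nat_lit 200)))) (XT.nd (nat_lit 156) (nat_lit 456) (nat_lit 0) (XT.nd (nat_lit 78) (nat_lit 0) (nat_lit 0) (XT.lf (nat_lit 0) (nat_lit 7050394801) (nat_lit 152) (nat_lit 1423447171) (nat_lit 228) (nat_lit 5444077303) (nat_lit 30) (nat_lit 5) (nat_lit 32) (nat_lit 5) (nat_lit 33) (nat_lit 5) (nat_lit 278) (nat_lit 243) (nat_lit 199)) (XT.lf (nat_lit 0) (nat_lit 11259025860) (nat_lit 228) (nat_lit 701946895)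 (nat_lit 76) (nat_lit 2422793929) (nat_lit 30) (nat_lit 5) (nat_lit 33) (nat_lit 5) (nat_lit 31) (nat_lit 5) (nat_lit 279) (nat_lit 243) (nat_lit 198))) (XT.nd (nat_lit 78) (nat_lit 228) (nat_lit 0) (XT.lf (nat_lit 0) (nat_lit 5879996113) (nat_lit 228) (nat_lit 8379094074) (nat_lit 304) (nat_lit 610134702) (nat_lit 27) (nat_lit 5) (nat_lit 30) (nat_lit 5) (nat_lit 31) (nat_lit 5) (nat_lit 280) (nat_lit 243) (nat_lit 197)) (XT.nd (nat_lit 78) (nat_lit 152) (nat_lit 0) (XT.lf (nat_lit 0) (nat_lit 1938074773) (nat_lit 304) (nat_lit 2652093854) (nat_lit 76) (nat_lit 10788650150) (nat_lit 26) (nat_lit 5) (nat_lit 30) (nat_lit 5) (nat_lit 27) (nat_lit 5) (nat_lit 281) (nat_lit 243) (nat_lit 196)) (XT.lf (nat_lit 0) (nat_lit 4067562532) (nat_lit 152) (nat_lit 551771326) (nat_lit 228) (nat_lit 11292837152) (nat_lit 24) (nat_lit 5) (nat_lit 26) (nat_lit 5) (nat_lit 27) (nat_lit 5) (nat_lit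 282) (nat_lit 243) (nat_lit 195)))))) (XT.nd (nat_lit 312) (nat_lit 380) (nat_lit 0) (XT.nd (nat_lit 156) (nat_lit 0) (nat_lit 0) (XT.nd (nat_lit 78) (nat_lit 152) (nat_lit 0) (XT.lf (nat_lit 0) (nat_lit 7501205655) (nat_lit 228) (nat_lit 5368268662) (nat_lit 76) (nat_lit 3599470897) (nat_lit 24) (nat_lit 5) (nat_lit 27) (nat_lit 5) (nat_lit 25) (nat_lit 5) (nat_lit 283) (nat_lit 243) (nat_lit 194)) (XT.lf (nat_lit 0) (nat_lit 1415504712) (nat_lit 152) (nat_lit 9107869304) (nat_lit 228) (nat_lit 6530451915) (nat_lit 22) (nat_lit 5) (nat_lit 24) (nat_lit 5) (nat_lit 25) (nat_lit 5) (nat_lit 284) (nat_lit 243) (nat_lit 193))) (XT.nd (nat_lit 78) (nat_lit 0) (nat_lit 0) (XT.lf (nat_lit 0) (nat_lit 8673047010) (nat_lit 152) (nat_lit 5080430838) (nat_lit 228) (nat_lit 3911705722) (nat_lit 22) (nat_lit 5) (nat_lit 24) (nat_lit 5) (nat_lit 25) (nat_lit 5) (nat_lit 285) (nat_lit 243) (nat_lit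 192)) (XT.lf (nat_lit 0) (nat_lit 16244138889) (nat_lit 152) (nat_lit 868484008) (nat_lit 228) (nat_lit 1196180099) (nat_lit 22) (nat_lit 5) (nat_lit 24) (nat_lit 5) (nat_lit 25) (nat_lit 5) (nat_lit 286) (nat_lit 243) (nat_lit 191)))) (XT.nd (nat_lit 156) (nat_lit 152) (nat_lit 0) (XT.nd (nat_lit 78) (nat_lit 0) (nat_lit 0) (XT.lf (nat_lit 0) (nat_lit 1710495389) (nat_lit 228) (nat_lit 13732768119) (nat_lit 76) (nat_lit 3534694570) (nat_lit 19) (nat_lit 5) (nat_lit 22) (nat_lit 5) (nat_lit 20) (nat_lit 5) (nat_lit 287) (nat_lit 243) (nat_lit 190)) (XT.lf (nat_lit 0) (nat_lit 4741093858) (nat_lit 228) (nat_lit 6769672653) (nat_lit 76) (nat_lit 8167945571) (nat_lit 19) (nat_lit 5) (nat_lit 22) (nat_lit 5) (nat_lit 20) (nat_lit 5) (nat_lit 288) (nat_lit 243) (nat_lit 189))) (XT.nd (nat_lit 78) (nat_lit 0) (nat_lit 0) (XT.lf (nat_lit 0) (nat_lit 511622134) (nat_lit 152) (nat_lit 7390075549)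 (nat_lit 228) (nat_lit 12513940500) (nat_lit 17) (nat_lit 5) (nat_lit 19) (nat_lit 5) (nat_lit 20) (nat_lit 5) (nat_lit 289) (nat_lit 243) (nat_lit 188)) (XT.nd (nat_lit 78) (nat_lit 0) (nat_lit 0) (XT.lf (nat_lit 0) (nat_lit 8346426123) (nat_lit 152) (nat_lit 2959734507) (nat_lit 228) (nat_lit 9879013911) (nat_lit 17) (nat_lit 5) (nat_lit 19) (nat_lit 5) (nat_lit 20) (nat_lit 5) (nat_lit 290) (nat_lit 243) (nat_lit 187)) (XT.lf (nat_lit 0) (nat_lit 14879569808) (nat_lit 228) (nat_lit 5491224657) (nat_lit 76) (nat_lit 1622509858) (nat_lit 17) (nat_lit 5) (nat_lit 20) (nat_lit 5) (nat_lit 18) (nat_lit 4) (nat_lit 291) (nat_lit 243) (nat_lit 186))))))) (XT.nd (nat_lit 702) (nat_lit 304) (nat_lit 0) (XT.nd (nat_lit 312) (nat_lit 76) (nat_lit 0) (XT.nd (nat_lit 156) (nat_lit 228) (nat_lit 0) (XT.nd (nat_lit 78) (nat_lit 0) (nat_lit 0) (XT.lf (nat_lit 0) (nat_lit 2203206213) (nat_lit 76)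 (nat_lit 16484984829) (nat_lit 152) (nat_lit 4150872721) (nat_lit 16) (nat_lit 5) (nat_lit 17) (nat_lit 5) (nat_lit 18) (nat_lit 4) (nat_lit 292) (nat_lit 243) (nat_lit 185)) (XT.lf (nat_lit 0) (nat_lit 10431221270) (nat_lit 76) (nat_lit 12323245483) (nat_lit 152) (nat_lit 969331106) (nat_lit 16) (nat_lit 5) (nat_lit 17) (nat_lit 5) (nat_lit 18) (nat_lit 4) (nat_lit 293) (nat_lit 243) (nat_lit 184))) (XT.nd (nat_lit 78) (nat_lit 152) (nat_lit 0) (XT.lf (nat_lit 0) (nat_lit 2270399229) (nat_lit 152) (nat_lit 5659814532) (nat_lit 76) (nat_lit 16721996801) (nat_lit 15) (nat_lit 5) (nat_lit 17) (nat_lit 5) (nat_lit 16) (nat_lit 5) (nat_lit 294) (nat_lit 243) (nat_lit 183)) (XT.lf (nat_lit 0) (nat_lit 2376018078) (nat_lit 152) (nat_lit 3276816187) (nat_lit 228) (nat_lit 19972791738) (nat_lit 13) (nat_lit 5) (nat_lit 15) (nat_lit 5) (nat_lit 16) (nat_lit 5) (nat_lit 295) (nat_lit 243) (nat_lit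 182)))) (XT.nd (nat_lit 156) (nat_lit 76) (nat_lit 0) (XT.nd (nat_lit 78) (nat_lit 0) (nat_lit 0) (XT.lf (nat_lit 0) (nat_lit 9303443743) (nat_lit 228) (nat_lit 15698548219) (nat_lit 76) (nat_lit 1640806991) (nat_lit 13) (nat_lit 5) (nat_lit 16) (nat_lit 5) (nat_lit 14) (nat_lit 4) (nat_lit 296) (nat_lit 243) (nat_lit 181)) (XT.lf (nat_lit 0) (nat_lit 13167925542) (nat_lit 228) (nat_lit 7860863946) (nat_lit 76) (nat_lit 6680511466) (nat_lit 13) (nat_lit 5) (nat_lit 16) (nat_lit 5) (nat_lit 14) (nat_lit 4) (nat_lit 297) (nat_lit 243) (nat_lit 180))) (XT.nd (nat_lit 78) (nat_lit 0) (nat_lit 0) (XT.lf (nat_lit 0) (nat_lit 344285620) (nat_lit 76) (nat_lit 16865410171) (nat_lit 152) (nat_lit 11620264756) (nat_lit 12) (nat_lit 5) (nat_lit 13) (nat_lit 5) (nat_lit 14) (nat_lit 4) (nat_lit 298) (nat_lit 243) (nat_lit 179)) (XT.nd (nat_lit 78) (nat_lit 0) (nat_lit 0) (XT.lf (nat_lit 0) (nat_lit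 9197737486) (nat_lit 76) (nat_lit 12368104137) (nat_lit 152) (nat_lit 8435231154) (nat_lit 12) (nat_lit 5) (nat_lit 13) (nat_lit 5) (nat_lit 14) (nat_lit 4) (nat_lit 299) (nat_lit 243) (nat_lit 178)) (XT.lf (nat_lit 0) (nat_lit 18460655634) (nat_lit 76) (nat_lit 7659291050) (nat_lit 152) (nat_lit 5111818727) (nat_lit 12) (nat_lit 5) (nat_lit 13) (nat_lit 5) (nat_lit 14) (nat_lit 4) (nat_lit 300) (nat_lit 243) (nat_lit 177)))))) (XT.nd (nat_lit 312) (nat_lit 76) (nat_lit 0) (XT.nd (nat_lit 156) (nat_lit 0) (nat_lit 0) (XT.nd (nat_lit 78) (nat_lit 228) (nat_lit 0) (XT.lf (nat_lit 0) (nat_lit 28155094631) (nat_lit 76) (nat_lit 2727759451) (nat_lit 152) (nat_lit 1642114589) (nat_lit 12) (nat_lit 5) (nat_lit 13) (nat_lit 5) (nat_lit 14) (nat_lit 4) (nat_lit 301) (nat_lit 243) (nat_lit 176)) (XT.lf (nat_lit 0) (nat_lit 2029234325) (nat_lit 228) (nat_lit 29383847608) (nat_lit 76) (nat_lit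 2463605698) (nat_lit 9) (nat_lit 5) (nat_lit 12) (nat_lit 5) (nat_lit 10) (nat_lit 4) (nat_lit 302) (nat_lit 243) (nat_lit 175))) (XT.nd (nat_lit 78) (nat_lit 0) (nat_lit 0) (XT.lf (nat_lit 0) (nat_lit 5930782802) (nat_lit 228) (nat_lit 21445728232) (nat_lit 76) (nat_lit 7913071264) (nat_lit 9) (nat_lit 5) (nat_lit 12) (nat_lit 5) (nat_lit 10) (nat_lit 4) (nat_lit 303) (nat_lit 243) (nat_lit 174)) (XT.lf (nat_lit 0) (nat_lit 10010152913) (nat_lit 228) (nat_lit 13140214741) (nat_lit 76) (nat_lit 13623642209) (nat_lit 9) (nat_lit 5) (nat_lit 12) (nat_lit 5) (nat_lit 10) (nat_lit 4) (nat_lit 304) (nat_lit 243) (nat_lit 173)))) (XT.nd (nat_lit 156) (nat_lit 0) (nat_lit 0) (XT.nd (nat_lit 78) (nat_lit 76) (nat_lit 0) (XT.lf (nat_lit 0) (nat_lit 14277057446) (nat_lit 228) (nat_lit 4447532104) (nat_lit 76) (nat_lit 19608915132) (nat_lit 9) (nat_lit 5) (nat_lit 12) (nat_lit 5) (nat_lit 10)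 (nat_lit 4) (nat_lit 305) (nat_lit 243) (nat_lit 172)) (XT.lf (nat_lit 0) (nat_lit 4806866282) (nat_lit 76) (nat_lit 14009838068) (nat_lit 152) (nat_lit 21151323054) (nat_lit 8) (nat_lit 5) (nat_lit 9) (nat_lit 5) (nat_lit 10) (nat_lit 4) (nat_lit 306) (nat_lit 243) (nat_lit 171))) (XT.nd (nat_lit 78) (nat_lit 0) (nat_lit 0) (XT.lf (nat_lit 0) (nat_lit 14652056483) (nat_lit 76) (nat_lit 8991280842) (nat_lit 152) (nat_lit 18037960675) (nat_lit 8) (nat_lit 5) (nat_lit 9) (nat_lit 5) (nat_lit 10) (nat_lit 4) (nat_lit 307) (nat_lit 243) (nat_lit 170)) (XT.nd (nat_lit 78) (nat_lit 0) (nat_lit 0) (XT.lf (nat_lit 0) (nat_lit 24964423928) (nat_lit 76) (nat_lit 3732290035) (nat_lit 152) (nat_lit 14784268440) (nat_lit 8) (nat_lit 5) (nat_lit 9) (nat_lit 5) (nat_lit 10) (nat_lit 4) (nat_lit 308) (nat_lit 243) (nat_lit 169)) (XT.lf (nat_lit 0) (nat_lit 34016651529) (nat_lit 152) (nat_lit 9630629118)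 (nat_lit 0) (nat_lit 1722695660) (nat_lit 8) (nat_lit 5) (nat_lit 10) (nat_lit 4) (nat_lit 8) (nat_lit 4) (nat_lit 309) (nat_lit 243) (nat_lit 168))))))))
noncomputable def xc122 : XT := (XT.nd (nat_lit 1404) (nat_lit 152) (nat_lit 0) (XT.nd (nat_lit 702) (nat_lit 76) (nat_lit 0) (XT.nd (nat_lit 312) (nat_lit 76) (nat_lit 0) (XT.nd (nat_lit 156) (nat_lit 76) (nat_lit 0) (XT.nd (nat_lit 78) (nat_lit 76) (nat_lit 0) (XT.lf (nat_lit 0) (nat_lit 39650390712) (nat_lit 152) (nat_lit 384870642) (nat_lit 0) (nat_lit 7315787254) (nat_lit 8) (nat_lit 5) (nat_lit 10) (nat_lit 4) (nat_lit 8) (nat_lit 4) (nat_lit 310) (nat_lit 243) (nat_lit 167)) (XT.lf (nat_lit 0) (nat_lit 9608535308) (nat_lit 76) (nat_lit 36094554524) (nat_lit 76) (nat_lit 3721239078) (nat_lit 7) (nat_lit 4) (nat_lit 8) (nat_lit 5) (nat_lit 8) (nat_lit 4) (nat_lit 311) (nat_lit 243) (nat_lit 166))) (XT.nd (nat_lit 78) (nat_lit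 0) (nat_lit 0) (XT.lf (nat_lit 0) (nat_lit 436445683) (nat_lit 152) (nat_lit 31515470355) (nat_lit 76) (nat_lit 19649320345) (nat_lit 6) (nat_lit 5) (nat_lit 8) (nat_lit 5) (nat_lit 7) (nat_lit 4) (nat_lit 312) (nat_lit 243) (nat_lit 165)) (XT.lf (nat_lit 0) (nat_lit 4664863178) (nat_lit 152) (nat_lit 22882327404) (nat_lit 76) (nat_lit 26337368705) (nat_lit 6) (nat_lit 5) (nat_lit 8) (nat_lit 5) (nat_lit 7) (nat_lit 4) (nat_lit 313) (nat_lit 243) (nat_lit 164)))) (XT.nd (nat_lit 156) (nat_lit 76) (nat_lit 0) (XT.nd (nat_lit 78) (nat_lit 0) (nat_lit 0) (XT.lf (nat_lit 0) (nat_lit 9093183959) (nat_lit 152) (nat_lit 13837710675) (nat_lit 76) (nat_lit 33351744422) (nat_lit 6) (nat_lit 5) (nat_lit 8) (nat_lit 5) (nat_lit 7) (nat_lit 4) (nat_lit 314) (nat_lit 243) (nat_lit 163)) (XT.lf (nat_lit 0) (nat_lit 13731951645) (nat_lit 152) (nat_lit 4360085366) (nat_lit 76) (nat_lit 40709148388)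 (nat_lit 6) (nat_lit 5) (nat_lit 8) (nat_lit 5) (nat_lit 7) (nat_lit 4) (nat_lit 315) (nat_lit 243) (nat_lit 162))) (XT.nd (nat_lit 78) (nat_lit 0) (nat_lit 0) (XT.lf (nat_lit 0) (nat_lit 5757386622) (nat_lit 76) (nat_lit 12924713240) (nat_lit 152) (nat_lit 42759600551) (nat_lit 5) (nat_lit 5) (nat_lit 6) (nat_lit 5) (nat_lit 7) (nat_lit 4) (nat_lit 316) (nat_lit 243) (nat_lit 161)) (XT.nd (nat_lit 78) (nat_lit 0) (nat_lit 0) (XT.lf (nat_lit 0) (nat_lit 16514092891) (nat_lit 76) (nat_lit 7429272215) (nat_lit 152) (nat_lit 40267708409) (nat_lit 5) (nat_lit 5) (nat_lit 6) (nat_lit 5) (nat_lit 7) (nat_lit 4) (nat_lit 317) (nat_lit 243) (nat_lit 160)) (XT.lf (nat_lit 0) (nat_lit 27791480531) (nat_lit 76) (nat_lit 1666469711) (nat_lit 152) (nat_lit 37661464406) (nat_lit 5) (nat_lit 5) (nat_lit 6) (nat_lit 5) (nat_lit 7) (nat_lit 4) (nat_lit 318) (nat_lit 243) (nat_lit 159)))))) (XT.nd (nat_lit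 312) (nat_lit 76) (nat_lit 0) (XT.nd (nat_lit 156) (nat_lit 0) (nat_lit 0) (XT.nd (nat_lit 78) (nat_lit 0) (nat_lit 0) (XT.lf (nat_lit 0) (nat_lit 35307328953) (nat_lit 152) (nat_lit 30625591688) (nat_lit 0) (nat_lit 4237310607) (nat_lit 5) (nat_lit 5) (nat_lit 7) (nat_lit 4) (nat_lit 5) (nat_lit 4) (nat_lit 319) (nat_lit 243) (nat_lit 158)) (XT.lf (nat_lit 0) (nat_lit 41467553307) (nat_lit 152) (nat_lit 21531358449) (nat_lit 0) (nat_lit 10373769158) (nat_lit 5) (nat_lit 5) (nat_lit 7) (nat_lit 4) (nat_lit 5) (nat_lit 4) (nat_lit 320) (nat_lit 243) (nat_lit 157))) (XT.nd (nat_lit 78) (nat_lit 0) (nat_lit 0) (XT.lf (nat_lit 0) (nat_lit 47927272243) (nat_lit 152) (nat_lit 11997563203) (nat_lit 0) (nat_lit 16810853996) (nat_lit 5) (nat_lit 5) (nat_lit 7) (nat_lit 4) (nat_lit 5) (nat_lit 4) (nat_lit 321) (nat_lit 243) (nat_lit 156)) (XT.lf (nat_lit 0) (nat_lit 54701866043) (nat_lit 152)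 (nat_lit 2001506436) (nat_lit 0) (nat_lit 23563891513) (nat_lit 5) (nat_lit 5) (nat_lit 7) (nat_lit 4) (nat_lit 5) (nat_lit 4) (nat_lit 322) (nat_lit 243) (nat_lit 155)))) (XT.nd (nat_lit 156) (nat_lit 0) (nat_lit 0) (XT.nd (nat_lit 78) (nat_lit 0) (nat_lit 0) (XT.lf (nat_lit 0) (nat_lit 8761019317) (nat_lit 76) (nat_lit 53183229441) (nat_lit 76) (nat_lit 22024725117) (nat_lit 4) (nat_lit 4) (nat_lit 5) (nat_lit 5) (nat_lit 5) (nat_lit 4) (nat_lit 323) (nat_lit 243) (nat_lit 154)) (XT.lf (nat_lit 0) (nat_lit 20117639592) (nat_lit 76) (nat_lit 49457439429) (nat_lit 76) (nat_lit 18279382921) (nat_lit 4) (nat_lit 4) (nat_lit 5) (nat_lit 5) (nat_lit 5) (nat_lit 4) (nat_lit 324) (nat_lit 243) (nat_lit 153))) (XT.nd (nat_lit 78) (nat_lit 0) (nat_lit 0) (XT.lf (nat_lit 0) (nat_lit 32029215118) (nat_lit 76) (nat_lit 45551027995) (nat_lit 76) (nat_lit 14354350358) (nat_lit 4) (nat_lit 4) (nat_lit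 5) (nat_lit 5) (nat_lit 5) (nat_lit 4) (nat_lit 325) (nat_lit 243) (nat_lit 152)) (XT.nd (nat_lit 78) (nat_lit 0) (nat_lit 0) (XT.lf (nat_lit 0) (nat_lit 44524106789) (nat_lit 76) (nat_lit 41454694159) (nat_lit 76) (nat_lit 10240282114) (nat_lit 4) (nat_lit 4) (nat_lit 5) (nat_lit 5) (nat_lit 5) (nat_lit 4) (nat_lit 326) (nat_lit 243) (nat_lit 151)) (XT.lf (nat_lit 0) (nat_lit 57632064347) (nat_lit 76) (nat_lit 37158684746) (nat_lit 76) (nat_lit 5927382788) (nat_lit 4) (nat_lit 4) (nat_lit 5) (nat_lit 5) (nat_lit 5) (nat_lit 4) (nat_lit 327) (nat_lit 243) (nat_lit 150))))))) (XT.nd (nat_lit 702) (nat_lit 0) (nat_lit 0) (XT.nd (nat_lit 312) (nat_lit 76) (nat_lit 0) (XT.nd (nat_lit 156) (nat_lit 0) (nat_lit 0) (XT.nd (nat_lit 78) (nat_lit 76) (nat_lit 0) (XT.lf (nat_lit 0) (nat_lit 71384297215) (nat_lit 76) (nat_lit 32652771161) (nat_lit 76) (nat_lit 1405383573) (nat_lit 4) (nat_lit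 4) (nat_lit 5) (nat_lit 5) (nat_lit 5) (nat_lit 4) (nat_lit 328) (nat_lit 243) (nat_lit 149)) (XT.lf (nat_lit 0) (nat_lit 3229693929) (nat_lit 152) (nat_lit 24641834680) (nat_lit 76) (nat_lit 82529158445) (nat_lit 3) (nat_lit 5) (nat_lit 5) (nat_lit 5) (nat_lit 4) (nat_lit 4) (nat_lit 329) (nat_lit 243) (nat_lit 148))) (XT.nd (nat_lit 78) (nat_lit 0) (nat_lit 0) (XT.lf (nat_lit 0) (nat_lit 8043548634) (nat_lit 152) (nat_lit 14788022676) (nat_lit 76) (nat_lit 92774404454) (nat_lit 3) (nat_lit 5) (nat_lit 5) (nat_lit 5) (nat_lit 4) (nat_lit 4) (nat_lit 330) (nat_lit 243) (nat_lit 147)) (XT.lf (nat_lit 0) (nat_lit 13092623151) (nat_lit 152) (nat_lit 4451315290) (nat_lit 76) (nat_lit 103527870281) (nat_lit 3) (nat_lit 5) (nat_lit 5) (nat_lit 5) (nat_lit 4) (nat_lit 4) (nat_lit 331) (nat_lit 243) (nat_lit 146)))) (XT.nd (nat_lit 156) (nat_lit 0) (nat_lit 0) (XT.nd (nat_lit 78) (nat_lit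 0) (nat_lit 0) (XT.lf (nat_lit 0) (nat_lit 6604276788) (nat_lit 76) (nat_lit 11887773566) (nat_lit 152) (nat_lit 108313993897) (nat_lit 2) (nat_lit 5) (nat_lit 3) (nat_lit 5) (nat_lit 4) (nat_lit 4) (nat_lit 332) (nat_lit 243) (nat_lit 145)) (XT.lf (nat_lit 0) (nat_lit 18358009771) (nat_lit 76) (nat_lit 5873716922) (nat_lit 152) (nat_lit 108591756567) (nat_lit 2) (nat_lit 5) (nat_lit 3) (nat_lit 5) (nat_lit 4) (nat_lit 4) (nat_lit 333) (nat_lit 243) (nat_lit 144))) (XT.nd (nat_lit 78) (nat_lit 0) (nat_lit 0) (XT.lf (nat_lit 0) (nat_lit 30260348036) (nat_lit 152) (nat_lit 108458179983) (nat_lit 0) (nat_lit 423173468) (nat_lit 2) (nat_lit 5) (nat_lit 4) (nat_lit 4) (nat_lit 2) (nat_lit 4) (nat_lit 334) (nat_lit 243) (nat_lit 143)) (XT.nd (nat_lit 78) (nat_lit 0) (nat_lit 0) (XT.lf (nat_lit 0) (nat_lit 36682000673) (nat_lit 152) (nat_lit 102255316296) (nat_lit 0) (nat_lit 6833938717)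 (nat_lit 2) (nat_lit 5) (nat_lit 4) (nat_lit 4) (nat_lit 2) (nat_lit 4) (nat_lit 335) (nat_lit 243) (nat_lit 142)) (XT.lf (nat_lit 0) (nat_lit 43420269072) (nat_lit 152) (nat_lit 95750408523) (nat_lit 0) (nat_lit 13561838175) (nat_lit 2) (nat_lit 5) (nat_lit 4) (nat_lit 4) (nat_lit 2) (nat_lit 4) (nat_lit 336) (nat_lit 243) (nat_lit 141)))))) (XT.nd (nat_lit 312) (nat_lit 0) (nat_lit 0) (XT.nd (nat_lit 156) (nat_lit 0) (nat_lit 0) (XT.nd (nat_lit 78) (nat_lit 0) (nat_lit 0) (XT.lf (nat_lit 0) (nat_lit 50491196729) (nat_lit 152) (nat_lit 88927968788) (nat_lit 0) (nat_lit 20622890650) (nat_lit 2) (nat_lit 5) (nat_lit 4) (nat_lit 4) (nat_lit 2) (nat_lit 4) (nat_lit 337) (nat_lit 243) (nat_lit 140)) (XT.lf (nat_lit 0) (nat_lit 57911619185) (nat_lit 152) (nat_lit 81771753187) (nat_lit 0) (nat_lit 28033908171) (nat_lit 2) (nat_lit 5) (nat_lit 4) (nat_lit 4) (nat_lit 2) (nat_lit 4) (nat_lit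 338) (nat_lit 243) (nat_lit 139))) (XT.nd (nat_lit 78) (nat_lit 0) (nat_lit 0) (XT.lf (nat_lit 0) (nat_lit 65699204115) (nat_lit 152) (nat_lit 74264723112) (nat_lit 0) (nat_lit 35812536019) (nat_lit 2) (nat_lit 5) (nat_lit 4) (nat_lit 4) (nat_lit 2) (nat_lit 4) (nat_lit 339) (nat_lit 243) (nat_lit 138)) (XT.lf (nat_lit 0) (nat_lit 73872493385) (nat_lit 152) (nat_lit 66389004682) (nat_lit 0) (nat_lit 43977294736) (nat_lit 2) (nat_lit 5) (nat_lit 4) (nat_lit 4) (nat_lit 2) (nat_lit 4) (nat_lit 340) (nat_lit 243) (nat_lit 137)))) (XT.nd (nat_lit 156) (nat_lit 0) (nat_lit 0) (XT.nd (nat_lit 78) (nat_lit 0) (nat_lit 0) (XT.lf (nat_lit 0) (nat_lit 82450947209) (nat_lit 152) (nat_lit 58125846185) (nat_lit 0) (nat_lit 52547624224) (nat_lit 2) (nat_lit 5) (nat_lit 4) (nat_lit 4) (nat_lit 2) (nat_lit 4) (nat_lit 341) (nat_lit 243) (nat_lit 136)) (XT.lf (nat_lit 0) (nat_lit 91454990477) (nat_lit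 152) (nat_lit 49455573436) (nat_lit 0) (nat_lit 61543930029) (nat_lit 2) (nat_lit 5) (nat_lit 4) (nat_lit 4) (nat_lit 2) (nat_lit 4) (nat_lit 342) (nat_lit 243) (nat_lit 135))) (XT.nd (nat_lit 78) (nat_lit 0) (nat_lit 0) (XT.lf (nat_lit 0) (nat_lit 100906061388) (nat_lit 152) (nat_lit 40357542927) (nat_lit 0) (nat_lit 70987631926) (nat_lit 2) (nat_lit 5) (nat_lit 4) (nat_lit 4) (nat_lit 2) (nat_lit 4) (nat_lit 343) (nat_lit 243) (nat_lit 134)) (XT.nd (nat_lit 78) (nat_lit 0) (nat_lit 0) (XT.lf (nat_lit 0) (nat_lit 110826662490) (nat_lit 152) (nat_lit 30810092682) (nat_lit 0) (nat_lit 80901214921) (nat_lit 2) (nat_lit 5) (nat_lit 4) (nat_lit 4) (nat_lit 2) (nat_lit 4) (nat_lit 344) (nat_lit 243) (nat_lit 133)) (XT.lf (nat_lit 0) (nat_lit 121240414263) (nat_lit 152) (nat_lit 20790490675) (nat_lit 0) (nat_lit 91308282783) (nat_lit 2) (nat_lit 5) (nat_lit 4) (nat_lit 4) (nat_lit 2) (nat_lit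 4) (nat_lit 345) (nat_lit 243) (nat_lit 132))))))))
noncomputable def xc123 : XT := (XT.nd (nat_lit 29640) (nat_lit 0) (nat_lit 4484) (XT.nd (nat_lit 702) (nat_lit 0) (nat_lit 0) (XT.nd (nat_lit 312) (nat_lit 0) (nat_lit 0) (XT.nd (nat_lit 156) (nat_lit 0) (nat_lit 0) (XT.nd (nat_lit 78) (nat_lit 76) (nat_lit 0) (XT.lf (nat_lit 0) (nat_lit 132172111354) (nat_lit 152) (nat_lit 10274880711) (nat_lit 0) (nat_lit 102233614243) (nat_lit 2) (nat_lit 5) (nat_lit 4) (nat_lit 4) (nat_lit 2) (nat_lit 4) (nat_lit 346) (nat_lit 243) (nat_lit 131)) (XT.lf (nat_lit 0) (nat_lit 786962075) (nat_lit 76) (nat_lit 142873106221) (nat_lit 76) (nat_lit 112928546605) (nat_lit 1) (nat_lit 4) (nat_lit 2) (nat_lit 5) (nat_lit 2) (nat_lit 4) (nat_lit 347) (nat_lit 243) (nat_lit 130))) (XT.nd (nat_lit 78) (nat_lit 0) (nat_lit 0) (XT.lf (nat_lit 0) (nat_lit 12753958661) (nat_lit 76) (nat_lit 143139914441) (nat_lit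 76) (nat_lit 113189581011) (nat_lit 1) (nat_lit 4) (nat_lit 2) (nat_lit 5) (nat_lit 2) (nat_lit 4) (nat_lit 348) (nat_lit 243) (nat_lit 129)) (XT.lf (nat_lit 0) (nat_lit 25314867935) (nat_lit 76) (nat_lit 143422062060) (nat_lit 76) (nat_lit 113466229759) (nat_lit 1) (nat_lit 4) (nat_lit 2) (nat_lit 5) (nat_lit 2) (nat_lit 4) (nat_lit 349) (nat_lit 243) (nat_lit 128)))) (XT.nd (nat_lit 156) (nat_lit 0) (nat_lit 0) (XT.nd (nat_lit 78) (nat_lit 0) (nat_lit 0) (XT.lf (nat_lit 0) (nat_lit 38499596825) (nat_lit 76) (nat_lit 143720220858) (nat_lit 76) (nat_lit 113759151537) (nat_lit 1) (nat_lit 4) (nat_lit 2) (nat_lit 5) (nat_lit 2) (nat_lit 4) (nat_lit 350) (nat_lit 243) (nat_lit 127)) (XT.lf (nat_lit 0) (nat_lit 52339537541) (nat_lit 76) (nat_lit 144035100738) (nat_lit 76) (nat_lit 114069043779) (nat_lit 1) (nat_lit 4) (nat_lit 2) (nat_lit 5) (nat_lit 2) (nat_lit 4) (nat_lit 351) (nat_lit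 243) (nat_lit 126))) (XT.nd (nat_lit 78) (nat_lit 0) (nat_lit 0) (XT.lf (nat_lit 0) (nat_lit 66867642323) (nat_lit 76) (nat_lit 144367451412) (nat_lit 76) (nat_lit 114396644322) (nat_lit 1) (nat_lit 4) (nat_lit 2) (nat_lit 5) (nat_lit 2) (nat_lit 4) (nat_lit 352) (nat_lit 243) (nat_lit 125)) (XT.nd (nat_lit 78) (nat_lit 0) (nat_lit 0) (XT.lf (nat_lit 0) (nat_lit 82118501898) (nat_lit 76) (nat_lit 144718064193) (nat_lit 76) (nat_lit 114742733168) (nat_lit 1) (nat_lit 4) (nat_lit 2) (nat_lit 5) (nat_lit 2) (nat_lit 4) (nat_lit 353) (nat_lit 243) (nat_lit 124)) (XT.lf (nat_lit 0) (nat_lit 98128427835) (nat_lit 76) (nat_lit 145087773872) (nat_lit 76) (nat_lit 115108134338) (nat_lit 1) (nat_lit 4) (nat_lit 2) (nat_lit 5) (nat_lit 2) (nat_lit 4) (nat_lit 354) (nat_lit 243) (nat_lit 123)))))) (XT.nd (nat_lit 312) (nat_lit 0) (nat_lit 0) (XT.nd (nat_lit 156) (nat_lit 0) (nat_lit 0) (XT.nd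 (nat_lit 78) (nat_lit 0) (nat_lit 0) (XT.lf (nat_lit 0) (nat_lit 114935539007) (nat_lit 76) (nat_lit 145477460712) (nat_lit 76) (nat_lit 115493717835) (nat_lit 1) (nat_lit 4) (nat_lit 2) (nat_lit 5) (nat_lit 2) (nat_lit 4) (nat_lit 355) (nat_lit 243) (nat_lit 122)) (XT.lf (nat_lit 0) (nat_lit 132579852344) (nat_lit 76) (nat_lit 145888052536) (nat_lit 76) (nat_lit 115900401715) (nat_lit 1) (nat_lit 4) (nat_lit 2) (nat_lit 5) (nat_lit 2) (nat_lit 4) (nat_lit 356) (nat_lit 243) (nat_lit 121))) (XT.nd (nat_lit 78) (nat_lit 0) (nat_lit 0) (XT.lf (nat_lit 0) (nat_lit 151103378115) (nat_lit 76) (nat_lit 146320526946) (nat_lit 76) (nat_lit 116329154273) (nat_lit 1) (nat_lit 4) (nat_lit 2) (nat_lit 5) (nat_lit 2) (nat_lit 4) (nat_lit 357) (nat_lit 243) (nat_lit 120)) (XT.lf (nat_lit 0) (nat_lit 170550219955) (nat_lit 76) (nat_lit 146775913642) (nat_lit 76) (nat_lit 116780996347) (nat_lit 1)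 (nat_lit 4) (nat_lit 2) (nat_lit 5) (nat_lit 2) (nat_lit 4) (nat_lit 358) (nat_lit 243) (nat_lit 119)))) (XT.nd (nat_lit 156) (nat_lit 0) (nat_lit 0) (XT.nd (nat_lit 78) (nat_lit 0) (nat_lit 0) (XT.lf (nat_lit 0) (nat_lit 190966679867) (nat_lit 76) (nat_lit 147255296878) (nat_lit 76) (nat_lit 117257003754) (nat_lit 1) (nat_lit 4) (nat_lit 2) (nat_lit 5) (nat_lit 2) (nat_lit 4) (nat_lit 359) (nat_lit 243) (nat_lit 118)) (XT.lf (nat_lit 0) (nat_lit 212401368471) (nat_lit 76) (nat_lit 147759818043) (nat_lit 76) (nat_lit 117758309843) (nat_lit 1) (nat_lit 4) (nat_lit 2) (nat_lit 5) (nat_lit 2) (nat_lit 4) (nat_lit 360) (nat_lit 243) (nat_lit 117))) (XT.nd (nat_lit 78) (nat_lit 0) (nat_lit 0) (XT.lf (nat_lit 0) (nat_lit 234905320738) (nat_lit 76) (nat_lit 148290678377) (nat_lit 76) (nat_lit 118286108200) (nat_lit 1) (nat_lit 4) (nat_lit 2) (nat_lit 5) (nat_lit 2) (nat_lit 4) (nat_lit 361)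 (nat_lit 243) (nat_lit 116)) (XT.nd (nat_lit 28314) (nat_lit 0) (nat_lit 7904) (XT.lf (nat_lit 0) (nat_lit 258532117508) (nat_lit 76) (nat_lit 148849141834) (nat_lit 76) (nat_lit 118841655489) (nat_lit 1) (nat_lit 4) (nat_lit 2) (nat_lit 5) (nat_lit 2) (nat_lit 4) (nat_lit 362) (nat_lit 243) (nat_lit 115)) (XT.lf (nat_lit 0) (nat_lit 90351776) (nat_lit 380) (nat_lit 1613730631) (nat_lit 380) (nat_lit 1613730631) (nat_lit 105) (nat_lit 3) (nat_lit 110) (nat_lit 3) (nat_lit 110) (nat_lit 5) (nat_lit 244) (nat_lit 244) (nat_lit 232))))))) (XT.nd (nat_lit 702) (nat_lit 2660) (nat_lit 0) (XT.nd (nat_lit 312) (nat_lit 456) (nat_lit 0) (XT.nd (nat_lit 156) (nat_lit 304) (nat_lit 0) (XT.nd (nat_lit 78) (nat_lit 0) (nat_lit 0) (XT.lf (nat_lit 0) (nat_lit 2235832045) (nat_lit 380) (nat_lit 326736195) (nat_lit 380) (nat_lit 4125476382) (nat_lit 105) (nat_lit 3) (nat_lit 110) (nat_lit 3) (nat_lit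 110) (nat_lit 5) (nat_lit 245) (nat_lit 244) (nat_lit 231)) (XT.lf (nat_lit 76) (nat_lit 2737374018) (nat_lit 0) (nat_lit 1567816313) (nat_lit 380) (nat_lit 2443020490) (nat_lit 106) (nat_lit 5) (nat_lit 105) (nat_lit 3) (nat_lit 110) (nat_lit 5) (nat_lit 246) (nat_lit 244) (nat_lit 230))) (XT.nd (nat_lit 78) (nat_lit 304) (nat_lit 0) (XT.lf (nat_lit 76) (nat_lit 5897886278) (nat_lit 0) (nat_lit 459585713) (nat_lit 380) (nat_lit 460607610) (nat_lit 106) (nat_lit 5) (nat_lit 105) (nat_lit 3) (nat_lit 110) (nat_lit 5) (nat_lit 247) (nat_lit 244) (nat_lit 229)) (XT.lf (nat_lit 0) (nat_lit 1495183872) (nat_lit 380) (nat_lit 4604091519) (nat_lit 456) (nat_lit 795199214) (nat_lit 101) (nat_lit 5) (nat_lit 106) (nat_lit 5) (nat_lit 107) (nat_lit 5) (nat_lit 248) (nat_lit 244) (nat_lit 228)))) (XT.nd (nat_lit 156) (nat_lit 456) (nat_lit 0) (XT.nd (nat_lit 78) (nat_lit 0) (nat_lit 0) (XT.lf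 (nat_lit 0) (nat_lit 3439545699) (nat_lit 380) (nat_lit 1371498458) (nat_lit 456) (nat_lit 2168530861) (nat_lit 101) (nat_lit 5) (nat_lit 106) (nat_lit 5) (nat_lit 107) (nat_lit 5) (nat_lit 249) (nat_lit 244) (nat_lit 227)) (XT.lf (nat_lit 76) (nat_lit 2015142311) (nat_lit 0) (nat_lit 3385908774) (nat_lit 456) (nat_lit 1672431873) (nat_lit 102) (nat_lit 5) (nat_lit 101) (nat_lit 5) (nat_lit 107) (nat_lit 5) (nat_lit 250) (nat_lit 244) (nat_lit 226))) (XT.nd (nat_lit 78) (nat_lit 0) (nat_lit 0) (XT.lf (nat_lit 0) (nat_lit 193319989) (nat_lit 456) (nat_lit 1632118349) (nat_lit 532) (nat_lit 5351219977) (nat_lit 95) (nat_lit 5) (nat_lit 101) (nat_lit 5) (nat_lit 102) (nat_lit 5) (nat_lit 251) (nat_lit 244) (nat_lit 225)) (XT.nd (nat_lit 78) (nat_lit 0) (nat_lit 76) (XT.lf (nat_lit 76) (nat_lit 1928249331) (nat_lit 0) (nat_lit 93631802) (nat_lit 532) (nat_lit 5265928198) (nat_lit 96) (nat_lit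 5) (nat_lit 95) (nat_lit 5) (nat_lit 102) (nat_lit 5) (nat_lit 252) (nat_lit 244) (nat_lit 224)) (XT.lf (nat_lit 0) (nat_lit 3896857657) (nat_lit 456) (nat_lit 1783478939) (nat_lit 76) (nat_lit 1726883417) (nat_lit 96) (nat_lit 5) (nat_lit 102) (nat_lit 5) (nat_lit 97) (nat_lit 5) (nat_lit 253) (nat_lit 244) (nat_lit 223)))))) (XT.nd (nat_lit 312) (nat_lit 1672) (nat_lit 0) (XT.nd (nat_lit 156) (nat_lit 532) (nat_lit 0) (XT.nd (nat_lit 78) (nat_lit 76) (nat_lit 0) (XT.lf (nat_lit 0) (nat_lit 1959973679) (nat_lit 456) (nat_lit 3842473591) (nat_lit 532) (nat_lit 1733740730) (nat_lit 90) (nat_lit 5) (nat_lit 96) (nat_lit 5) (nat_lit 97) (nat_lit 5) (nat_lit 254) (nat_lit 244) (nat_lit 222)) (XT.lf (nat_lit 0) (nat_lit 64443169) (nat_lit 532) (nat_lit 1795075831) (nat_lit 76) (nat_lit 5815525233) (nat_lit 89) (nat_lit 5) (nat_lit 96) (nat_lit 5) (nat_lit 90) (nat_lit 5) (nat_lit 255) (nat_lit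 244) (nat_lit 221))) (XT.nd (nat_lit 78) (nat_lit 0) (nat_lit 0) (XT.lf (nat_lit 0) (nat_lit 1843225505) (nat_lit 608) (nat_lit 5683415256) (nat_lit 76) (nat_lit 295705138) (nat_lit 82) (nat_lit 5) (nat_lit 90) (nat_lit 5) (nat_lit 83) (nat_lit 5) (nat_lit 256) (nat_lit 244) (nat_lit 220)) (XT.lf (nat_lit 0) (nat_lit 3686445389) (nat_lit 608) (nat_lit 1749652408) (nat_lit 76) (nat_lit 2542493678) (nat_lit 82) (nat_lit 5) (nat_lit 90) (nat_lit 5) (nat_lit 83) (nat_lit 5) (nat_lit 257) (nat_lit 244) (nat_lit 219)))) (XT.nd (nat_lit 156) (nat_lit 1064) (nat_lit 0) (XT.nd (nat_lit 78) (nat_lit 0) (nat_lit 0) (XT.lf (nat_lit 0) (nat_lit 2385594487) (nat_lit 608) (nat_lit 3191682993) (nat_lit 684) (nat_lit 2567936192) (nat_lit 74) (nat_lit 5) (nat_lit 82) (nat_lit 5) (nat_lit 83) (nat_lit 5) (nat_lit 258) (nat_lit 244) (nat_lit 218)) (XT.lf (nat_lit 0) (nat_lit 6717943853) (nat_lit 608)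 (nat_lit 795339711) (nat_lit 684) (nat_lit 809672655) (nat_lit 74) (nat_lit 5) (nat_lit 82) (nat_lit 5) (nat_lit 83) (nat_lit 5) (nat_lit 259) (nat_lit 244) (nat_lit 217))) (XT.nd (nat_lit 78) (nat_lit 304) (nat_lit 0) (XT.lf (nat_lit 0) (nat_lit 997594088) (nat_lit 760) (nat_lit 5779112317) (nat_lit 76) (nat_lit 1732648149) (nat_lit 64) (nat_lit 5) (nat_lit 74) (nat_lit 5) (nat_lit 65) (nat_lit 5) (nat_lit 260) (nat_lit 244) (nat_lit 216)) (XT.nd (nat_lit 78) (nat_lit 304) (nat_lit 0) (XT.lf (nat_lit 0) (nat_lit 2834580194) (nat_lit 760) (nat_lit 1465313638) (nat_lit 76) (nat_lit 4406464163) (nat_lit 64) (nat_lit 5) (nat_lit 74) (nat_lit 5) (nat_lit 65) (nat_lit 5) (nat_lit 261) (nat_lit 244) (nat_lit 215)) (XT.lf (nat_lit 0) (nat_lit 3093840416) (nat_lit 304) (nat_lit 1647307962) (nat_lit 380) (nat_lit 4173440561) (nat_lit 60) (nat_lit 5) (nat_lit 64) (nat_lit 5) (nat_lit 65) (nat_lit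 5) (nat_lit 262) (nat_lit 244) (nat_lit 214))))))))
noncomputable def xc124 : XT := (XT.nd (nat_lit 1404) (nat_lit 1064) (nat_lit 0) (XT.nd (nat_lit 702) (nat_lit 1140) (nat_lit 0) (XT.nd (nat_lit 312) (nat_lit 608) (nat_lit 0) (XT.nd (nat_lit 156) (nat_lit 380) (nat_lit 0) (XT.nd (nat_lit 78) (nat_lit 380) (nat_lit 0) (XT.lf (nat_lit 0) (nat_lit 6717758469) (nat_lit 380) (nat_lit 1290242709) (nat_lit 76) (nat_lit 1126745981) (nat_lit 60) (nat_lit 5) (nat_lit 65) (nat_lit 5) (nat_lit 61) (nat_lit 5) (nat_lit 263) (nat_lit 244) (nat_lit 213)) (XT.lf (nat_lit 0) (nat_lit 3482773974) (nat_lit 380) (nat_lit 5326782157) (nat_lit 456) (nat_lit 555778737) (nat_lit 55) (nat_lit 5) (nat_lit 60) (nat_lit 5) (nat_lit 61) (nat_lit 5) (nat_lit 264) (nat_lit 244) (nat_lit 212))) (XT.nd (nat_lit 78) (nat_lit 304) (nat_lit 0) (XT.lf (nat_lit 0) (nat_lit 1311707772) (nat_lit 456) (nat_lit 1159032563)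 (nat_lit 76) (nat_lit 7137938252) (nat_lit 54) (nat_lit 5) (nat_lit 60) (nat_lit 5) (nat_lit 55) (nat_lit 5) (nat_lit 265) (nat_lit 244) (nat_lit 211)) (XT.lf (nat_lit 0) (nat_lit 3262098193) (nat_lit 380) (nat_lit 6024957983) (nat_lit 76) (nat_lit 576474219) (nat_lit 50) (nat_lit 5) (nat_lit 55) (nat_lit 5) (nat_lit 51) (nat_lit 5) (nat_lit 266) (nat_lit 244) (nat_lit 210)))) (XT.nd (nat_lit 156) (nat_lit 304) (nat_lit 0) (XT.nd (nat_lit 78) (nat_lit 304) (nat_lit 0) (XT.lf (nat_lit 0) (nat_lit 5311087508) (nat_lit 380) (nat_lit 1113064714) (nat_lit 76) (nat_lit 3707115582) (nat_lit 50) (nat_lit 5) (nat_lit 55) (nat_lit 5) (nat_lit 51) (nat_lit 5) (nat_lit 267) (nat_lit 244) (nat_lit 209)) (XT.lf (nat_lit 0) (nat_lit 4110860949) (nat_lit 304) (nat_lit 3359299660) (nat_lit 380) (nat_lit 2942037360) (nat_lit 46) (nat_lit 5) (nat_lit 50) (nat_lit 5) (nat_lit 51) (nat_lit 5) (nat_lit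 268) (nat_lit 244) (nat_lit 208))) (XT.nd (nat_lit 78) (nat_lit 304) (nat_lit 0) (XT.lf (nat_lit 0) (nat_lit 9570541071) (nat_lit 304) (nat_lit 130641049) (nat_lit 380) (nat_lit 1007971451) (nat_lit 46) (nat_lit 5) (nat_lit 50) (nat_lit 5) (nat_lit 51) (nat_lit 5) (nat_lit 269) (nat_lit 244) (nat_lit 207)) (XT.nd (nat_lit 78) (nat_lit 0) (nat_lit 0) (XT.lf (nat_lit 0) (nat_lit 1056703864) (nat_lit 304) (nat_lit 6729401176) (nat_lit 76) (nat_lit 3230883431) (nat_lit 42) (nat_lit 5) (nat_lit 46) (nat_lit 5) (nat_lit 43) (nat_lit 5) (nat_lit 270) (nat_lit 244) (nat_lit 206)) (XT.lf (nat_lit 0) (nat_lit 3160624057) (nat_lit 304) (nat_lit 1398125907) (nat_lit 76) (nat_lit 6782299005) (nat_lit 42) (nat_lit 5) (nat_lit 46) (nat_lit 5) (nat_lit 43) (nat_lit 5) (nat_lit 271) (nat_lit 244) (nat_lit 205)))))) (XT.nd (nat_lit 312) (nat_lit 608) (nat_lit 0) (XT.nd (nat_lit 156) (nat_lit 304) (nat_lit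 0) (XT.nd (nat_lit 78) (nat_lit 0) (nat_lit 0) (XT.lf (nat_lit 0) (nat_lit 4275095070) (nat_lit 228) (nat_lit 1112005536) (nat_lit 304) (nat_lit 6293490860) (nat_lit 39) (nat_lit 5) (nat_lit 42) (nat_lit 5) (nat_lit 43) (nat_lit 5) (nat_lit 272) (nat_lit 244) (nat_lit 204)) (XT.lf (nat_lit 0) (nat_lit 7739936684) (nat_lit 304) (nat_lit 1857741732) (nat_lit 76) (nat_lit 2438820877) (nat_lit 39) (nat_lit 5) (nat_lit 43) (nat_lit 5) (nat_lit 40) (nat_lit 5) (nat_lit 273) (nat_lit 244) (nat_lit 203))) (XT.nd (nat_lit 78) (nat_lit 76) (nat_lit 0) (XT.lf (nat_lit 0) (nat_lit 4017960645) (nat_lit 228) (nat_lit 6227536205) (nat_lit 304) (nat_lit 2163084869) (nat_lit 36) (nat_lit 5) (nat_lit 39) (nat_lit 5) (nat_lit 40) (nat_lit 5) (nat_lit 274) (nat_lit 244) (nat_lit 202)) (XT.lf (nat_lit 0) (nat_lit 61110418) (nat_lit 304) (nat_lit 2607939289) (nat_lit 76) (nat_lit 10130953814) (nat_lit 35)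 (nat_lit 5) (nat_lit 39) (nat_lit 5) (nat_lit 36) (nat_lit 5) (nat_lit 275) (nat_lit 244) (nat_lit 201)))) (XT.nd (nat_lit 156) (nat_lit 380) (nat_lit 0) (XT.nd (nat_lit 78) (nat_lit 0) (nat_lit 0) (XT.lf (nat_lit 0) (nat_lit 2352801675) (nat_lit 304) (nat_lit 9744418716) (nat_lit 76) (nat_lit 1110669170) (nat_lit 32) (nat_lit 5) (nat_lit 36) (nat_lit 5) (nat_lit 33) (nat_lit 5) (nat_lit 276) (nat_lit 244) (nat_lit 200)) (XT.lf (nat_lit 0) (nat_lit 4805371435) (nat_lit 304) (nat_lit 3808097700) (nat_lit 76) (nat_lit 5020495756) (nat_lit 32) (nat_lit 5) (nat_lit 36) (nat_lit 5) (nat_lit 33) (nat_lit 5) (nat_lit 277) (nat_lit 244) (nat_lit 199))) (XT.nd (nat_lit 78) (nat_lit 228) (nat_lit 0) (XT.lf (nat_lit 0) (nat_lit 2447517667) (nat_lit 152) (nat_lit 4930929642) (nat_lit 228) (nat_lit 6703107261) (nat_lit 30) (nat_lit 5) (nat_lit 32) (nat_lit 5) (nat_lit 33) (nat_lit 5) (nat_lit 278)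 (nat_lit 244) (nat_lit 198)) (XT.nd (nat_lit 78) (nat_lit 228) (nat_lit 0) (XT.lf (nat_lit 0) (nat_lit 9093165735) (nat_lit 152) (nat_lit 1012230922) (nat_lit 228) (nat_lit 4444965580) (nat_lit 30) (nat_lit 5) (nat_lit 32) (nat_lit 5) (nat_lit 33) (nat_lit 5) (nat_lit 279) (nat_lit 244) (nat_lit 197)) (XT.lf (nat_lit 0) (nat_lit 956594429) (nat_lit 228) (nat_lit 12037835962) (nat_lit 304) (nat_lit 2046987800) (nat_lit 27) (nat_lit 5) (nat_lit 30) (nat_lit 5) (nat_lit 31) (nat_lit 5) (nat_lit 280) (nat_lit 244) (nat_lit 196))))))) (XT.nd (nat_lit 702) (nat_lit 456) (nat_lit 0) (XT.nd (nat_lit 312) (nat_lit 380) (nat_lit 0) (XT.nd (nat_lit 156) (nat_lit 152) (nat_lit 0) (XT.nd (nat_lit 78) (nat_lit 0) (nat_lit 0) (XT.lf (nat_lit 0) (nat_lit 528984392) (nat_lit 304) (nat_lit 7751850891) (nat_lit 76) (nat_lit 7272251663) (nat_lit 26) (nat_lit 5) (nat_lit 30) (nat_lit 5) (nat_lit 27) (nat_lit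 5) (nat_lit 281) (nat_lit 244) (nat_lit 195)) (XT.lf (nat_lit 0) (nat_lit 3129379753) (nat_lit 304) (nat_lit 1187710817) (nat_lit 76) (nat_lit 11773431719) (nat_lit 26) (nat_lit 5) (nat_lit 30) (nat_lit 5) (nat_lit 27) (nat_lit 5) (nat_lit 282) (nat_lit 244) (nat_lit 194))) (XT.nd (nat_lit 78) (nat_lit 0) (nat_lit 0) (XT.lf (nat_lit 0) (nat_lit 5842170522) (nat_lit 152) (nat_lit 74948227) (nat_lit 228) (nat_lit 10734922411) (nat_lit 24) (nat_lit 5) (nat_lit 26) (nat_lit 5) (nat_lit 27) (nat_lit 5) (nat_lit 283) (nat_lit 244) (nat_lit 193)) (XT.lf (nat_lit 0) (nat_lit 8899783535) (nat_lit 228) (nat_lit 4094688777) (nat_lit 76) (nat_lit 4244460958) (nat_lit 24) (nat_lit 5) (nat_lit 27) (nat_lit 5) (nat_lit 25) (nat_lit 5) (nat_lit 284) (nat_lit 244) (nat_lit 192)))) (XT.nd (nat_lit 156) (nat_lit 228) (nat_lit 0) (XT.nd (nat_lit 78) (nat_lit 0) (nat_lit 0) (XT.lf (nat_lit 0) (nat_lit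 3003402406) (nat_lit 152) (nat_lit 9044605509) (nat_lit 228) (nat_lit 5806411458) (nat_lit 22) (nat_lit 5) (nat_lit 24) (nat_lit 5) (nat_lit 25) (nat_lit 5) (nat_lit 285) (nat_lit 244) (nat_lit 191)) (XT.lf (nat_lit 0) (nat_lit 10551577892) (nat_lit 152) (nat_lit 4840493085) (nat_lit 228) (nat_lit 3106754768) (nat_lit 22) (nat_lit 5) (nat_lit 24) (nat_lit 5) (nat_lit 25) (nat_lit 5) (nat_lit 286) (nat_lit 244) (nat_lit 190))) (XT.nd (nat_lit 78) (nat_lit 228) (nat_lit 0) (XT.lf (nat_lit 0) (nat_lit 18432420625) (nat_lit 152) (nat_lit 441470784) (nat_lit 228) (nat_lit 303097447) (nat_lit 22) (nat_lit 5) (nat_lit 24) (nat_lit 5) (nat_lit 25) (nat_lit 5) (nat_lit 287) (nat_lit 244) (nat_lit 189)) (XT.nd (nat_lit 78) (nat_lit 0) (nat_lit 0) (XT.lf (nat_lit 0) (nat_lit 2703707096) (nat_lit 228) (nat_lit 12994459472) (nat_lit 76) (nat_lit 4181516024) (nat_lit 19) (nat_lit 5) (nat_lit 22)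 (nat_lit 5) (nat_lit 20) (nat_lit 5) (nat_lit 288) (nat_lit 244) (nat_lit 188)) (XT.lf (nat_lit 0) (nat_lit 5842612301) (nat_lit 228) (nat_lit 5751063854) (nat_lit 76) (nat_lit 9024044492) (nat_lit 19) (nat_lit 5) (nat_lit 22) (nat_lit 5) (nat_lit 20) (nat_lit 5) (nat_lit 289) (nat_lit 244) (nat_lit 187)))))) (XT.nd (nat_lit 312) (nat_lit 228) (nat_lit 0) (XT.nd (nat_lit 156) (nat_lit 76) (nat_lit 0) (XT.nd (nat_lit 78) (nat_lit 0) (nat_lit 0) (XT.lf (nat_lit 0) (nat_lit 1872407085) (nat_lit 152) (nat_lit 7268520565) (nat_lit 228) (nat_lit 12251662472) (nat_lit 17) (nat_lit 5) (nat_lit 19) (nat_lit 5) (nat_lit 20) (nat_lit 5) (nat_lit 290) (nat_lit 244) (nat_lit 186)) (XT.lf (nat_lit 0) (nat_lit 10035370138) (nat_lit 152) (nat_lit 2640046222) (nat_lit 228) (nat_lit 9527274080) (nat_lit 17) (nat_lit 5) (nat_lit 19) (nat_lit 5) (nat_lit 20) (nat_lit 5) (nat_lit 291) (nat_lit 244) (nat_lit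 185))) (XT.nd (nat_lit 78) (nat_lit 76) (nat_lit 0) (XT.lf (nat_lit 0) (nat_lit 16396166790) (nat_lit 228) (nat_lit 4521915585) (nat_lit 76) (nat_lit 2134784388) (nat_lit 17) (nat_lit 5) (nat_lit 20) (nat_lit 5) (nat_lit 18) (nat_lit 4) (nat_lit 292) (nat_lit 244) (nat_lit 184)) (XT.lf (nat_lit 0) (nat_lit 3537174404) (nat_lit 76) (nat_lit 16840360395) (nat_lit 152) (nat_lit 3564333679) (nat_lit 16) (nat_lit 5) (nat_lit 17) (nat_lit 5) (nat_lit 18) (nat_lit 4) (nat_lit 293) (nat_lit 244) (nat_lit 183)))) (XT.nd (nat_lit 156) (nat_lit 152) (nat_lit 0) (XT.nd (nat_lit 78) (nat_lit 76) (nat_lit 0) (XT.lf (nat_lit 0) (nat_lit 12118313648) (nat_lit 76) (nat_lit 12492861400) (nat_lit 152) (nat_lit 261528444) (nat_lit 16) (nat_lit 5) (nat_lit 17) (nat_lit 5) (nat_lit 18) (nat_lit 4) (nat_lit 294) (nat_lit 244) (nat_lit 182)) (XT.lf (nat_lit 0) (nat_lit 3081122885) (nat_lit 152) (nat_lit 4808511838)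 (nat_lit 76) (nat_lit 17959115288) (nat_lit 15) (nat_lit 5) (nat_lit 17) (nat_lit 5) (nat_lit 16) (nat_lit 5) (nat_lit 295) (nat_lit 244) (nat_lit 181))) (XT.nd (nat_lit 78) (nat_lit 0) (nat_lit 0) (XT.lf (nat_lit 0) (nat_lit 3610817349) (nat_lit 152) (nat_lit 3006086011) (nat_lit 228) (nat_lit 20254779341) (nat_lit 13) (nat_lit 5) (nat_lit 15) (nat_lit 5) (nat_lit 16) (nat_lit 5) (nat_lit 296) (nat_lit 244) (nat_lit 180)) (XT.nd (nat_lit 78) (nat_lit 0) (nat_lit 0) (XT.lf (nat_lit 0) (nat_lit 10424056170) (nat_lit 228) (nat_lit 15393534584) (nat_lit 76) (nat_lit 2123477817) (nat_lit 13) (nat_lit 5) (nat_lit 16) (nat_lit 5) (nat_lit 14) (nat_lit 4) (nat_lit 297) (nat_lit 244) (nat_lit 179)) (XT.lf (nat_lit 0) (nat_lit 14450550619) (nat_lit 228) (nat_lit 7215868051) (nat_lit 76) (nat_lit 7396089874) (nat_lit 13) (nat_lit 5) (nat_lit 16) (nat_lit 5) (nat_lit 14) (nat_lit 4) (nat_lit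 298) (nat_lit 244) (nat_lit 178))))))))
noncomputable def xc125 : XT := (XT.nd (nat_lit 1404) (nat_lit 304) (nat_lit 0) (XT.nd (nat_lit 702) (nat_lit 152) (nat_lit 0) (XT.nd (nat_lit 312) (nat_lit 304) (nat_lit 0) (XT.nd (nat_lit 156) (nat_lit 0) (nat_lit 0) (XT.nd (nat_lit 78) (nat_lit 0) (nat_lit 0) (XT.lf (nat_lit 0) (nat_lit 1382796427) (nat_lit 76) (nat_lit 17297833073) (nat_lit 152) (nat_lit 11559310421) (nat_lit 12) (nat_lit 5) (nat_lit 13) (nat_lit 5) (nat_lit 14) (nat_lit 4) (nat_lit 299) (nat_lit 244) (nat_lit 177)) (XT.lf (nat_lit 0) (nat_lit 10630287718) (nat_lit 76) (nat_lit 12595225910) (nat_lit 152) (nat_lit 8245595024) (nat_lit 12) (nat_lit 5) (nat_lit 13) (nat_lit 5) (nat_lit 14) (nat_lit 4) (nat_lit 300) (nat_lit 244) (nat_lit 176))) (XT.nd (nat_lit 78) (nat_lit 0) (nat_lit 0) (XT.lf (nat_lit 0) (nat_lit 20310034470) (nat_lit 76) (nat_lit 7669604713) (nat_lit 152)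 (nat_lit 4785126151) (nat_lit 12) (nat_lit 5) (nat_lit 13) (nat_lit 5) (nat_lit 14) (nat_lit 4) (nat_lit 301) (nat_lit 244) (nat_lit 175)) (XT.lf (nat_lit 0) (nat_lit 30445083701) (nat_lit 76) (nat_lit 2509241814) (nat_lit 152) (nat_lit 1169664592) (nat_lit 12) (nat_lit 5) (nat_lit 13) (nat_lit 5) (nat_lit 14) (nat_lit 4) (nat_lit 302) (nat_lit 244) (nat_lit 174)))) (XT.nd (nat_lit 156) (nat_lit 76) (nat_lit 0) (XT.nd (nat_lit 78) (nat_lit 0) (nat_lit 0) (XT.lf (nat_lit 0) (nat_lit 2661416759) (nat_lit 228) (nat_lit 29945370506) (nat_lit 76) (nat_lit 2936418159) (nat_lit 9) (nat_lit 5) (nat_lit 12) (nat_lit 5) (nat_lit 10) (nat_lit 4) (nat_lit 303) (nat_lit 244) (nat_lit 173)) (XT.lf (nat_lit 0) (nat_lit 6732770244) (nat_lit 228) (nat_lit 21653567517) (nat_lit 76) (nat_lit 8641707851) (nat_lit 9) (nat_lit 5) (nat_lit 12) (nat_lit 5) (nat_lit 10) (nat_lit 4) (nat_lit 304) (nat_lit 244)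 (nat_lit 172))) (XT.nd (nat_lit 78) (nat_lit 76) (nat_lit 0) (XT.lf (nat_lit 0) (nat_lit 10992039894) (nat_lit 228) (nat_lit 12973942500) (nat_lit 76) (nat_lit 14621951009) (nat_lit 9) (nat_lit 5) (nat_lit 12) (nat_lit 5) (nat_lit 10) (nat_lit 4) (nat_lit 305) (nat_lit 244) (nat_lit 171)) (XT.nd (nat_lit 78) (nat_lit 76) (nat_lit 0) (XT.lf (nat_lit 0) (nat_lit 15449366828) (nat_lit 228) (nat_lit 3885829683) (nat_lit 76) (nat_lit 20891386308) (nat_lit 9) (nat_lit 5) (nat_lit 12) (nat_lit 5) (nat_lit 10) (nat_lit 4) (nat_lit 306) (nat_lit 244) (nat_lit 170)) (XT.lf (nat_lit 0) (nat_lit 5818642187) (nat_lit 76) (nat_lit 14387566853) (nat_lit 152) (nat_lit 21737144098) (nat_lit 8) (nat_lit 5) (nat_lit 9) (nat_lit 5) (nat_lit 10) (nat_lit 4) (nat_lit 307) (nat_lit 244) (nat_lit 169)))))) (XT.nd (nat_lit 312) (nat_lit 76) (nat_lit 0) (XT.nd (nat_lit 156) (nat_lit 76) (nat_lit 0) (XT.nd (nat_lit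 78) (nat_lit 0) (nat_lit 0) (XT.lf (nat_lit 0) (nat_lit 16119357012) (nat_lit 76) (nat_lit 9133451438) (nat_lit 152) (nat_lit 18490577652) (nat_lit 8) (nat_lit 5) (nat_lit 9) (nat_lit 5) (nat_lit 10) (nat_lit 4) (nat_lit 308) (nat_lit 244) (nat_lit 168)) (XT.lf (nat_lit 0) (nat_lit 26912357224) (nat_lit 76) (nat_lit 3626148874) (nat_lit 152) (nat_lit 15095595142) (nat_lit 8) (nat_lit 5) (nat_lit 9) (nat_lit 5) (nat_lit 10) (nat_lit 4) (nat_lit 309) (nat_lit 244) (nat_lit 167))) (XT.nd (nat_lit 78) (nat_lit 76) (nat_lit 0) (XT.lf (nat_lit 0) (nat_lit 36109414747) (nat_lit 152) (nat_lit 9430187577) (nat_lit 0) (nat_lit 2078721541) (nat_lit 8) (nat_lit 5) (nat_lit 10) (nat_lit 4) (nat_lit 8) (nat_lit 4) (nat_lit 310) (nat_lit 244) (nat_lit 166)) (XT.lf (nat_lit 0) (nat_lit 253497418) (nat_lit 76) (nat_lit 41756637911) (nat_lit 76) (nat_lit 7689076144) (nat_lit 7) (nat_lit 4) (nat_lit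 8) (nat_lit 5) (nat_lit 8) (nat_lit 4) (nat_lit 311) (nat_lit 244) (nat_lit 165)))) (XT.nd (nat_lit 156) (nat_lit 0) (nat_lit 0) (XT.nd (nat_lit 78) (nat_lit 76) (nat_lit 0) (XT.lf (nat_lit 0) (nat_lit 10727984390) (nat_lit 76) (nat_lit 37625729508) (nat_lit 76) (nat_lit 3523054827) (nat_lit 7) (nat_lit 4) (nat_lit 8) (nat_lit 5) (nat_lit 8) (nat_lit 4) (nat_lit 312) (nat_lit 244) (nat_lit 164)) (XT.lf (nat_lit 0) (nat_lit 812504088) (nat_lit 152) (nat_lit 32470482171) (nat_lit 76) (nat_lit 20880143763) (nat_lit 6) (nat_lit 5) (nat_lit 8) (nat_lit 5) (nat_lit 7) (nat_lit 4) (nat_lit 313) (nat_lit 244) (nat_lit 163))) (XT.nd (nat_lit 78) (nat_lit 0) (nat_lit 0) (XT.lf (nat_lit 0) (nat_lit 5235474072) (nat_lit 152) (nat_lit 23435242152) (nat_lit 76) (nat_lit 27890767999) (nat_lit 6) (nat_lit 5) (nat_lit 8) (nat_lit 5) (nat_lit 7) (nat_lit 4) (nat_lit 314) (nat_lit 244) (nat_lit 162))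 (XT.nd (nat_lit 78) (nat_lit 0) (nat_lit 0) (XT.lf (nat_lit 0) (nat_lit 9869145761) (nat_lit 152) (nat_lit 13966547045) (nat_lit 76) (nat_lit 35244599127) (nat_lit 6) (nat_lit 5) (nat_lit 8) (nat_lit 5) (nat_lit 7) (nat_lit 4) (nat_lit 315) (nat_lit 244) (nat_lit 161)) (XT.lf (nat_lit 0) (nat_lit 14724551708) (nat_lit 152) (nat_lit 4041852336) (nat_lit 76) (nat_lit 42959146269) (nat_lit 6) (nat_lit 5) (nat_lit 8) (nat_lit 5) (nat_lit 7) (nat_lit 4) (nat_lit 316) (nat_lit 244) (nat_lit 160))))))) (XT.nd (nat_lit 702) (nat_lit 152) (nat_lit 0) (XT.nd (nat_lit 312) (nat_lit 76) (nat_lit 0) (XT.nd (nat_lit 156) (nat_lit 0) (nat_lit 0) (XT.nd (nat_lit 78) (nat_lit 0) (nat_lit 0) (XT.lf (nat_lit 0) (nat_lit 6572844263) (nat_lit 76) (nat_lit 13343028658) (nat_lit 152) (nat_lit 44582553650) (nat_lit 5) (nat_lit 5) (nat_lit 6) (nat_lit 5) (nat_lit 7) (nat_lit 4) (nat_lit 317) (nat_lit 244)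 (nat_lit 159)) (XT.lf (nat_lit 0) (nat_lit 17842262592) (nat_lit 76) (nat_lit 7583668927) (nat_lit 152) (nat_lit 41981068183) (nat_lit 5) (nat_lit 5) (nat_lit 6) (nat_lit 5) (nat_lit 7) (nat_lit 4) (nat_lit 318) (nat_lit 244) (nat_lit 158))) (XT.nd (nat_lit 78) (nat_lit 0) (nat_lit 0) (XT.lf (nat_lit 0) (nat_lit 29659592707) (nat_lit 76) (nat_lit 1543062816) (nat_lit 152) (nat_lit 39258798915) (nat_lit 5) (nat_lit 5) (nat_lit 6) (nat_lit 5) (nat_lit 7) (nat_lit 4) (nat_lit 319) (nat_lit 244) (nat_lit 157)) (XT.lf (nat_lit 0) (nat_lit 37334633886) (nat_lit 152) (nat_lit 31690927034) (nat_lit 0) (nat_lit 4639760629) (nat_lit 5) (nat_lit 5) (nat_lit 7) (nat_lit 4) (nat_lit 5) (nat_lit 4) (nat_lit 320) (nat_lit 244) (nat_lit 156)))) (XT.nd (nat_lit 156) (nat_lit 76) (nat_lit 0) (XT.nd (nat_lit 78) (nat_lit 0) (nat_lit 0) (XT.lf (nat_lit 0) (nat_lit 43790396196) (nat_lit 152) (nat_lit 22164169954)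 (nat_lit 0) (nat_lit 11073966656) (nat_lit 5) (nat_lit 5) (nat_lit 7) (nat_lit 4) (nat_lit 5) (nat_lit 4) (nat_lit 321) (nat_lit 244) (nat_lit 155)) (XT.lf (nat_lit 0) (nat_lit 50561221783) (nat_lit 152) (nat_lit 12174816203) (nat_lit 0) (nat_lit 17824262449) (nat_lit 5) (nat_lit 5) (nat_lit 7) (nat_lit 4) (nat_lit 5) (nat_lit 4) (nat_lit 322) (nat_lit 244) (nat_lit 154))) (XT.nd (nat_lit 78) (nat_lit 76) (nat_lit 0) (XT.lf (nat_lit 0) (nat_lit 57663231658) (nat_lit 152) (nat_lit 1699081606) (nat_lit 0) (nat_lit 24906720139) (nat_lit 5) (nat_lit 5) (nat_lit 7) (nat_lit 4) (nat_lit 5) (nat_lit 4) (nat_lit 323) (nat_lit 244) (nat_lit 153)) (XT.nd (nat_lit 78) (nat_lit 0) (nat_lit 0) (XT.lf (nat_lit 0) (nat_lit 9595078497) (nat_lit 76) (nat_lit 55668062938) (nat_lit 76) (nat_lit 22892930291) (nat_lit 4) (nat_lit 4) (nat_lit 5) (nat_lit 5) (nat_lit 5) (nat_lit 4) (nat_lit 324) (nat_lit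 244) (nat_lit 152)) (XT.lf (nat_lit 0) (nat_lit 21500672251) (nat_lit 76) (nat_lit 51764284757) (nat_lit 76) (nat_lit 18971417702) (nat_lit 4) (nat_lit 4) (nat_lit 5) (nat_lit 5) (nat_lit 5) (nat_lit 4) (nat_lit 325) (nat_lit 244) (nat_lit 151)))))) (XT.nd (nat_lit 312) (nat_lit 152) (nat_lit 0) (XT.nd (nat_lit 156) (nat_lit 0) (nat_lit 0) (XT.nd (nat_lit 78) (nat_lit 0) (nat_lit 0) (XT.lf (nat_lit 0) (nat_lit 33989866997) (nat_lit 76) (nat_lit 47670458782) (nat_lit 76) (nat_lit 14860701815) (nat_lit 4) (nat_lit 4) (nat_lit 5) (nat_lit 5) (nat_lit 5) (nat_lit 4) (nat_lit 326) (nat_lit 244) (nat_lit 150)) (XT.lf (nat_lit 0) (nat_lit 47092398913) (nat_lit 76) (nat_lit 43376837807) (nat_lit 76) (nat_lit 10550995209) (nat_lit 4) (nat_lit 4) (nat_lit 5) (nat_lit 5) (nat_lit 5) (nat_lit 4) (nat_lit 327) (nat_lit 244) (nat_lit 149))) (XT.nd (nat_lit 78) (nat_lit 0) (nat_lit 0) (XT.lf (nat_lit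 0) (nat_lit 60839464502) (nat_lit 76) (nat_lit 38873198926) (nat_lit 76) (nat_lit 6032036679) (nat_lit 4) (nat_lit 4) (nat_lit 5) (nat_lit 5) (nat_lit 5) (nat_lit 4) (nat_lit 328) (nat_lit 244) (nat_lit 148)) (XT.lf (nat_lit 0) (nat_lit 75263794874) (nat_lit 76) (nat_lit 34148819188) (nat_lit 76) (nat_lit 1293066801) (nat_lit 4) (nat_lit 4) (nat_lit 5) (nat_lit 5) (nat_lit 5) (nat_lit 4) (nat_lit 329) (nat_lit 244) (nat_lit 147)))) (XT.nd (nat_lit 156) (nat_lit 76) (nat_lit 0) (XT.nd (nat_lit 78) (nat_lit 0) (nat_lit 0) (XT.lf (nat_lit 0) (nat_lit 3559504397) (nat_lit 152) (nat_lit 25572663744) (nat_lit 76) (nat_lit 86779947344) (nat_lit 3) (nat_lit 5) (nat_lit 5) (nat_lit 5) (nat_lit 4) (nat_lit 4) (nat_lit 330) (nat_lit 244) (nat_lit 146)) (XT.lf (nat_lit 0) (nat_lit 8606036325) (nat_lit 152) (nat_lit 15240506982) (nat_lit 76) (nat_lit 97531535131) (nat_lit 3) (nat_lit 5) (nat_lit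 5) (nat_lit 5) (nat_lit 4) (nat_lit 4) (nat_lit 331) (nat_lit 244) (nat_lit 145))) (XT.nd (nat_lit 78) (nat_lit 76) (nat_lit 0) (XT.lf (nat_lit 0) (nat_lit 13899930745) (nat_lit 152) (nat_lit 4400626932) (nat_lit 76) (nat_lit 108817035656) (nat_lit 3) (nat_lit 5) (nat_lit 5) (nat_lit 5) (nat_lit 4) (nat_lit 4) (nat_lit 332) (nat_lit 244) (nat_lit 144)) (XT.nd (nat_lit 78) (nat_lit 0) (nat_lit 0) (XT.lf (nat_lit 0) (nat_lit 7203337424) (nat_lit 76) (nat_lit 12362919029) (nat_lit 152) (nat_lit 113572446019) (nat_lit 2) (nat_lit 5) (nat_lit 3) (nat_lit 5) (nat_lit 4) (nat_lit 4) (nat_lit 333) (nat_lit 244) (nat_lit 143)) (XT.lf (nat_lit 0) (nat_lit 19531954829) (nat_lit 76) (nat_lit 6053837801) (nat_lit 152) (nat_lit 113871584802) (nat_lit 2) (nat_lit 5) (nat_lit 3) (nat_lit 5) (nat_lit 4) (nat_lit 4) (nat_lit 334) (nat_lit 244) (nat_lit 142))))))))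
noncomputable def xc126 : XT := (XT.nd (nat_lit 1404) (nat_lit 0) (nat_lit 0) (XT.nd (nat_lit 702) (nat_lit 76) (nat_lit 0) (XT.nd (nat_lit 312) (nat_lit 0) (nat_lit 0) (XT.nd (nat_lit 156) (nat_lit 0) (nat_lit 0) (XT.nd (nat_lit 78) (nat_lit 0) (nat_lit 0) (XT.lf (nat_lit 0) (nat_lit 31910748932) (nat_lit 152) (nat_lit 113631992322) (nat_lit 0) (nat_lit 549027550) (nat_lit 2) (nat_lit 5) (nat_lit 4) (nat_lit 4) (nat_lit 2) (nat_lit 4) (nat_lit 335) (nat_lit 244) (nat_lit 141)) (XT.lf (nat_lit 0) (nat_lit 38646942130) (nat_lit 152) (nat_lit 107130847196) (nat_lit 0) (nat_lit 7275345565) (nat_lit 2) (nat_lit 5) (nat_lit 4) (nat_lit 4) (nat_lit 2) (nat_lit 4) (nat_lit 336) (nat_lit 244) (nat_lit 140))) (XT.nd (nat_lit 78) (nat_lit 0) (nat_lit 0) (XT.lf (nat_lit 0) (nat_lit 45715893405) (nat_lit 152) (nat_lit 100311990935) (nat_lit 0) (nat_lit 14334891905) (nat_lit 2) (nat_lit 5) (nat_lit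 4) (nat_lit 4) (nat_lit 2) (nat_lit 4) (nat_lit 337) (nat_lit 244) (nat_lit 139)) (XT.lf (nat_lit 0) (nat_lit 53134433593) (nat_lit 152) (nat_lit 93159188167) (nat_lit 0) (nat_lit 21744475012) (nat_lit 2) (nat_lit 5) (nat_lit 4) (nat_lit 4) (nat_lit 2) (nat_lit 4) (nat_lit 338) (nat_lit 244) (nat_lit 138)))) (XT.nd (nat_lit 156) (nat_lit 0) (nat_lit 0) (XT.nd (nat_lit 78) (nat_lit 0) (nat_lit 0) (XT.lf (nat_lit 0) (nat_lit 60920225886) (nat_lit 152) (nat_lit 85655408408) (nat_lit 0) (nat_lit 29521736751) (nat_lit 2) (nat_lit 5) (nat_lit 4) (nat_lit 4) (nat_lit 2) (nat_lit 4) (nat_lit 339) (nat_lit 244) (nat_lit 137)) (XT.lf (nat_lit 0) (nat_lit 69091807883) (nat_lit 152) (nat_lit 77782785517) (nat_lit 0) (nat_lit 37685194412) (nat_lit 2) (nat_lit 5) (nat_lit 4) (nat_lit 4) (nat_lit 2) (nat_lit 4) (nat_lit 340) (nat_lit 244) (nat_lit 136))) (XT.nd (nat_lit 78) (nat_lit 0) (nat_lit 0)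 (XT.lf (nat_lit 0) (nat_lit 77668635733) (nat_lit 152) (nat_lit 69522575153) (nat_lit 0) (nat_lit 46254284799) (nat_lit 2) (nat_lit 5) (nat_lit 4) (nat_lit 4) (nat_lit 2) (nat_lit 4) (nat_lit 341) (nat_lit 244) (nat_lit 135)) (XT.nd (nat_lit 78) (nat_lit 0) (nat_lit 0) (XT.lf (nat_lit 0) (nat_lit 86671130455) (nat_lit 152) (nat_lit 60855110149) (nat_lit 0) (nat_lit 55249410507) (nat_lit 2) (nat_lit 5) (nat_lit 4) (nat_lit 4) (nat_lit 2) (nat_lit 4) (nat_lit 342) (nat_lit 244) (nat_lit 134)) (XT.lf (nat_lit 0) (nat_lit 96120726558) (nat_lit 152) (nat_lit 51759753683) (nat_lit 0) (nat_lit 64691988504) (nat_lit 2) (nat_lit 5) (nat_lit 4) (nat_lit 4) (nat_lit 2) (nat_lit 4) (nat_lit 343) (nat_lit 244) (nat_lit 133)))))) (XT.nd (nat_lit 312) (nat_lit 76) (nat_lit 0) (XT.nd (nat_lit 156) (nat_lit 0) (nat_lit 0) (XT.nd (nat_lit 78) (nat_lit 0) (nat_lit 0) (XT.lf (nat_lit 0) (nat_lit 106039923083)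 (nat_lit 152) (nat_lit 42214850146) (nat_lit 0) (nat_lit 74604501116) (nat_lit 2) (nat_lit 5) (nat_lit 4) (nat_lit 4) (nat_lit 2) (nat_lit 4) (nat_lit 344) (nat_lit 244) (nat_lit 132)) (XT.lf (nat_lit 0) (nat_lit 116452337163) (nat_lit 152) (nat_lit 32197673575) (nat_lit 0) (nat_lit 85010549566) (nat_lit 2) (nat_lit 5) (nat_lit 4) (nat_lit 4) (nat_lit 2) (nat_lit 4) (nat_lit 345) (nat_lit 244) (nat_lit 131))) (XT.nd (nat_lit 78) (nat_lit 0) (nat_lit 0) (XT.lf (nat_lit 0) (nat_lit 127382760261) (nat_lit 152) (nat_lit 21684373550) (nat_lit 0) (nat_lit 95934910159) (nat_lit 2) (nat_lit 5) (nat_lit 4) (nat_lit 4) (nat_lit 2) (nat_lit 4) (nat_lit 346) (nat_lit 244) (nat_lit 130)) (XT.lf (nat_lit 0) (nat_lit 138857217193) (nat_lit 152) (nat_lit 10649918406) (nat_lit 0) (nat_lit 107403593276) (nat_lit 2) (nat_lit 5) (nat_lit 4) (nat_lit 4) (nat_lit 2) (nat_lit 4) (nat_lit 347) (nat_lit 244)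 (nat_lit 129)))) (XT.nd (nat_lit 156) (nat_lit 0) (nat_lit 0) (XT.nd (nat_lit 78) (nat_lit 0) (nat_lit 0) (XT.lf (nat_lit 0) (nat_lit 962779321) (nat_lit 76) (nat_lit 149955280456) (nat_lit 76) (nat_lit 118496157669) (nat_lit 1) (nat_lit 4) (nat_lit 2) (nat_lit 5) (nat_lit 2) (nat_lit 4) (nat_lit 348) (nat_lit 244) (nat_lit 128)) (XT.lf (nat_lit 0) (nat_lit 13521627206) (nat_lit 76) (nat_lit 150238356758) (nat_lit 76) (nat_lit 118773996951) (nat_lit 1) (nat_lit 4) (nat_lit 2) (nat_lit 5) (nat_lit 2) (nat_lit 4) (nat_lit 349) (nat_lit 244) (nat_lit 127))) (XT.nd (nat_lit 78) (nat_lit 0) (nat_lit 0) (XT.lf (nat_lit 0) (nat_lit 26704392867) (nat_lit 76) (nat_lit 150537400015) (nat_lit 76) (nat_lit 119068052570) (nat_lit 1) (nat_lit 4) (nat_lit 2) (nat_lit 5) (nat_lit 2) (nat_lit 4) (nat_lit 350) (nat_lit 244) (nat_lit 126)) (XT.nd (nat_lit 78) (nat_lit 0) (nat_lit 0) (XT.lf (nat_lit 0)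 (nat_lit 40542463842) (nat_lit 76) (nat_lit 150853122236) (nat_lit 76) (nat_lit 119379024660) (nat_lit 1) (nat_lit 4) (nat_lit 2) (nat_lit 5) (nat_lit 2) (nat_lit 4) (nat_lit 351) (nat_lit 244) (nat_lit 125)) (XT.lf (nat_lit 0) (nat_lit 55068787918) (nat_lit 76) (nat_lit 151186275141) (nat_lit 76) (nat_lit 119707653631) (nat_lit 1) (nat_lit 4) (nat_lit 2) (nat_lit 5) (nat_lit 2) (nat_lit 4) (nat_lit 352) (nat_lit 244) (nat_lit 124))))))) (XT.nd (nat_lit 702) (nat_lit 0) (nat_lit 0) (XT.nd (nat_lit 312) (nat_lit 0) (nat_lit 0) (XT.nd (nat_lit 156) (nat_lit 0) (nat_lit 0) (XT.nd (nat_lit 78) (nat_lit 0) (nat_lit 0) (XT.lf (nat_lit 0) (nat_lit 70317951583) (nat_lit 76) (nat_lit 151537651951) (nat_lit 76) (nat_lit 120054721931) (nat_lit 1) (nat_lit 4) (nat_lit 2) (nat_lit 5) (nat_lit 2) (nat_lit 4) (nat_lit 353) (nat_lit 244) (nat_lit 123)) (XT.lf (nat_lit 0) (nat_lit 86326262368) (nat_lit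 76) (nat_lit 151908089277) (nat_lit 76) (nat_lit 120421055915) (nat_lit 1) (nat_lit 4) (nat_lit 2) (nat_lit 5) (nat_lit 2) (nat_lit 4) (nat_lit 354) (nat_lit 244) (nat_lit 122))) (XT.nd (nat_lit 78) (nat_lit 0) (nat_lit 0) (XT.lf (nat_lit 0) (nat_lit 103131835299) (nat_lit 76) (nat_lit 152298469113) (nat_lit 76) (nat_lit 120807527807) (nat_lit 1) (nat_lit 4) (nat_lit 2) (nat_lit 5) (nat_lit 2) (nat_lit 4) (nat_lit 355) (nat_lit 244) (nat_lit 121)) (XT.lf (nat_lit 0) (nat_lit 120774683644) (nat_lit 76) (nat_lit 152709720935) (nat_lit 76) (nat_lit 121215057776) (nat_lit 1) (nat_lit 4) (nat_lit 2) (nat_lit 5) (nat_lit 2) (nat_lit 4) (nat_lit 356) (nat_lit 244) (nat_lit 120)))) (XT.nd (nat_lit 156) (nat_lit 0) (nat_lit 0) (XT.nd (nat_lit 78) (nat_lit 0) (nat_lit 0) (XT.lf (nat_lit 0) (nat_lit 139296814186) (nat_lit 76) (nat_lit 153142823913) (nat_lit 76) (nat_lit 121644616133) (nat_lit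 1) (nat_lit 4) (nat_lit 2) (nat_lit 5) (nat_lit 2) (nat_lit 4) (nat_lit 357) (nat_lit 244) (nat_lit 119)) (XT.lf (nat_lit 0) (nat_lit 158742327236) (nat_lit 76) (nat_lit 153598809246) (nat_lit 76) (nat_lit 122097225636) (nat_lit 1) (nat_lit 4) (nat_lit 2) (nat_lit 5) (nat_lit 2) (nat_lit 4) (nat_lit 358) (nat_lit 244) (nat_lit 118))) (XT.nd (nat_lit 78) (nat_lit 0) (nat_lit 0) (XT.lf (nat_lit 0) (nat_lit 179157521634) (nat_lit 76) (nat_lit 154078762612) (nat_lit 76) (nat_lit 122573963927) (nat_lit 1) (nat_lit 4) (nat_lit 2) (nat_lit 5) (nat_lit 2) (nat_lit 4) (nat_lit 359) (nat_lit 244) (nat_lit 117)) (XT.nd (nat_lit 78) (nat_lit 0) (nat_lit 0) (XT.lf (nat_lit 0) (nat_lit 200591004985) (nat_lit 76) (nat_lit 154583826758) (nat_lit 76) (nat_lit 123075966096) (nat_lit 1) (nat_lit 4) (nat_lit 2) (nat_lit 5) (nat_lit 2) (nat_lit 4) (nat_lit 360) (nat_lit 244) (nat_lit 116)) (XT.lf (nat_lit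 0) (nat_lit 223093809394) (nat_lit 76) (nat_lit 155115204218) (nat_lit 76) (nat_lit 123604427386) (nat_lit 1) (nat_lit 4) (nat_lit 2) (nat_lit 5) (nat_lit 2) (nat_lit 4) (nat_lit 361) (nat_lit 244) (nat_lit 115)))))) (XT.nd (nat_lit 28626) (nat_lit 0) (nat_lit 7144) (XT.nd (nat_lit 28470) (nat_lit 0) (nat_lit 7524) (XT.nd (nat_lit 28392) (nat_lit 0) (nat_lit 7904) (XT.lf (nat_lit 0) (nat_lit 246719512965) (nat_lit 76) (nat_lit 155674160175) (nat_lit 76) (nat_lit 124160606040) (nat_lit 1) (nat_lit 4) (nat_lit 2) (nat_lit 5) (nat_lit 2) (nat_lit 4) (nat_lit 362) (nat_lit 244) (nat_lit 114)) (XT.lf (nat_lit 0) (nat_lit 2113464485) (nat_lit 380) (nat_lit 629269357) (nat_lit 380) (nat_lit 629269357) (nat_lit 105) (nat_lit 3) (nat_lit 110) (nat_lit 3) (nat_lit 110) (nat_lit 5) (nat_lit 245) (nat_lit 245) (nat_lit 230))) (XT.nd (nat_lit 78) (nat_lit 380) (nat_lit 0) (XT.lf (nat_lit 76) (nat_lit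 1741519456) (nat_lit 0) (nat_lit 4478237277) (nat_lit 380) (nat_lit 588567781) (nat_lit 106) (nat_lit 5) (nat_lit 105) (nat_lit 3) (nat_lit 110) (nat_lit 5) (nat_lit 246) (nat_lit 245) (nat_lit 229)) (XT.lf (nat_lit 0) (nat_lit 1289400355) (nat_lit 380) (nat_lit 2031856361) (nat_lit 456) (nat_lit 3559135273) (nat_lit 100) (nat_lit 5) (nat_lit 105) (nat_lit 3) (nat_lit 106) (nat_lit 5) (nat_lit 247) (nat_lit 245) (nat_lit 228)))) (XT.nd (nat_lit 156) (nat_lit 380) (nat_lit 0) (XT.nd (nat_lit 78) (nat_lit 0) (nat_lit 0) (XT.lf (nat_lit 76) (nat_lit 1114615728) (nat_lit 0) (nat_lit 2027456907) (nat_lit 456) (nat_lit 3819054714) (nat_lit 101) (nat_lit 5) (nat_lit 100) (nat_lit 5) (nat_lit 106) (nat_lit 5) (nat_lit 248) (nat_lit 245) (nat_lit 227)) (XT.lf (nat_lit 76) (nat_lit 4423771383) (nat_lit 0) (nat_lit 585745856) (nat_lit 456) (nat_lit 2040824082) (nat_lit 101) (nat_lit 5) (nat_lit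 100) (nat_lit 5) (nat_lit 106) (nat_lit 5) (nat_lit 249) (nat_lit 245) (nat_lit 226))) (XT.nd (nat_lit 78) (nat_lit 456) (nat_lit 0) (XT.lf (nat_lit 76) (nat_lit 693426591) (nat_lit 0) (nat_lit 6195998001) (nat_lit 456) (nat_lit 259159521) (nat_lit 102) (nat_lit 5) (nat_lit 101) (nat_lit 5) (nat_lit 107) (nat_lit 5) (nat_lit 250) (nat_lit 245) (nat_lit 225)) (XT.nd (nat_lit 78) (nat_lit 0) (nat_lit 0) (XT.lf (nat_lit 0) (nat_lit 1510442210) (nat_lit 456) (nat_lit 3085861262) (nat_lit 532) (nat_lit 2657129816) (nat_lit 95) (nat_lit 5) (nat_lit 101) (nat_lit 5) (nat_lit 102) (nat_lit 5) (nat_lit 251) (nat_lit 245) (nat_lit 224)) (XT.lf (nat_lit 76) (nat_lit 392140488) (nat_lit 0) (nat_lit 2874387912) (nat_lit 532) (nat_lit 4101899887) (nat_lit 96) (nat_lit 5) (nat_lit 95) (nat_lit 5) (nat_lit 102) (nat_lit 5) (nat_lit 252) (nat_lit 245) (nat_lit 223))))))))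
noncomputable def xc127 : XT := (XT.nd (nat_lit 1404) (nat_lit 1748) (nat_lit 0) (XT.nd (nat_lit 702) (nat_lit 1672) (nat_lit 0) (XT.nd (nat_lit 312) (nat_lit 1368) (nat_lit 0) (XT.nd (nat_lit 156) (nat_lit 608) (nat_lit 0) (XT.nd (nat_lit 78) (nat_lit 380) (nat_lit 0) (XT.lf (nat_lit 76) (nat_lit 4084212483) (nat_lit 0) (nat_lit 982746637) (nat_lit 532) (nat_lit 2424816888) (nat_lit 96) (nat_lit 5) (nat_lit 95) (nat_lit 5) (nat_lit 102) (nat_lit 5) (nat_lit 253) (nat_lit 245) (nat_lit 222)) (XT.lf (nat_lit 0) (nat_lit 263182951) (nat_lit 456) (nat_lit 6623269896) (nat_lit 532) (nat_lit 738795700) (nat_lit 90) (nat_lit 5) (nat_lit 96) (nat_lit 5) (nat_lit 97) (nat_lit 5) (nat_lit 254) (nat_lit 245) (nat_lit 221))) (XT.nd (nat_lit 78) (nat_lit 532) (nat_lit 0) (XT.lf (nat_lit 0) (nat_lit 983988608) (nat_lit 532) (nat_lit 3631279754) (nat_lit 76) (nat_lit 3150418669) (nat_lit 89) (nat_lit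 5) (nat_lit 96) (nat_lit 5) (nat_lit 90) (nat_lit 5) (nat_lit 255) (nat_lit 245) (nat_lit 220)) (XT.lf (nat_lit 0) (nat_lit 212764260) (nat_lit 532) (nat_lit 2473605120) (nat_lit 608) (nat_lit 5230611955) (nat_lit 82) (nat_lit 5) (nat_lit 89) (nat_lit 5) (nat_lit 90) (nat_lit 5) (nat_lit 256) (nat_lit 245) (nat_lit 219)))) (XT.nd (nat_lit 156) (nat_lit 760) (nat_lit 0) (XT.nd (nat_lit 78) (nat_lit 608) (nat_lit 0) (XT.lf (nat_lit 0) (nat_lit 4308197255) (nat_lit 532) (nat_lit 145138312) (nat_lit 608) (nat_lit 3623868373) (nat_lit 82) (nat_lit 5) (nat_lit 89) (nat_lit 5) (nat_lit 90) (nat_lit 5) (nat_lit 257) (nat_lit 245) (nat_lit 218)) (XT.lf (nat_lit 0) (nat_lit 267468834) (nat_lit 608) (nat_lit 6003363115) (nat_lit 684) (nat_lit 1976817489) (nat_lit 74) (nat_lit 5) (nat_lit 82) (nat_lit 5) (nat_lit 83) (nat_lit 5) (nat_lit 258) (nat_lit 245) (nat_lit 217))) (XT.nd (nat_lit 78) (nat_lit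 760) (nat_lit 0) (XT.lf (nat_lit 0) (nat_lit 4567110253) (nat_lit 608) (nat_lit 3603026817) (nat_lit 684) (nat_lit 257239028) (nat_lit 74) (nat_lit 5) (nat_lit 82) (nat_lit 5) (nat_lit 83) (nat_lit 5) (nat_lit 259) (nat_lit 245) (nat_lit 216)) (XT.nd (nat_lit 78) (nat_lit 0) (nat_lit 0) (XT.lf (nat_lit 0) (nat_lit 387314640) (nat_lit 684) (nat_lit 1044384290) (nat_lit 760) (nat_lit 7186811829) (nat_lit 64) (nat_lit 5) (nat_lit 73) (nat_lit 5) (nat_lit 74) (nat_lit 5) (nat_lit 260) (nat_lit 245) (nat_lit 215)) (XT.lf (nat_lit 0) (nat_lit 3217954517) (nat_lit 760) (nat_lit 3934924247) (nat_lit 76) (nat_lit 1665300728) (nat_lit 64) (nat_lit 5) (nat_lit 74) (nat_lit 5) (nat_lit 65) (nat_lit 5) (nat_lit 261) (nat_lit 245) (nat_lit 214)))))) (XT.nd (nat_lit 312) (nat_lit 912) (nat_lit 0) (XT.nd (nat_lit 156) (nat_lit 456) (nat_lit 0) (XT.nd (nat_lit 78) (nat_lit 0) (nat_lit 0) (XT.lf (nat_lit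 0) (nat_lit 509286442) (nat_lit 304) (nat_lit 4542098650) (nat_lit 380) (nat_lit 3978804862) (nat_lit 60) (nat_lit 5) (nat_lit 64) (nat_lit 5) (nat_lit 65) (nat_lit 5) (nat_lit 262) (nat_lit 245) (nat_lit 213)) (XT.lf (nat_lit 0) (nat_lit 5247330669) (nat_lit 304) (nat_lit 1730771971) (nat_lit 380) (nat_lit 2274856957) (nat_lit 60) (nat_lit 5) (nat_lit 64) (nat_lit 5) (nat_lit 65) (nat_lit 5) (nat_lit 263) (nat_lit 245) (nat_lit 212))) (XT.nd (nat_lit 78) (nat_lit 76) (nat_lit 0) (XT.lf (nat_lit 0) (nat_lit 672654464) (nat_lit 380) (nat_lit 8296141273) (nat_lit 456) (nat_lit 519918029) (nat_lit 55) (nat_lit 5) (nat_lit 60) (nat_lit 5) (nat_lit 61) (nat_lit 5) (nat_lit 264) (nat_lit 245) (nat_lit 211)) (XT.lf (nat_lit 0) (nat_lit 1316579799) (nat_lit 456) (nat_lit 4125479412) (nat_lit 76) (nat_lit 4291563218) (nat_lit 54) (nat_lit 5) (nat_lit 60) (nat_lit 5) (nat_lit 55) (nat_lit 5)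 (nat_lit 265) (nat_lit 245) (nat_lit 210)))) (XT.nd (nat_lit 156) (nat_lit 608) (nat_lit 0) (XT.nd (nat_lit 78) (nat_lit 0) (nat_lit 0) (XT.lf (nat_lit 0) (nat_lit 751938144) (nat_lit 304) (nat_lit 2428970748) (nat_lit 380) (nat_lit 6811964499) (nat_lit 50) (nat_lit 5) (nat_lit 54) (nat_lit 5) (nat_lit 55) (nat_lit 5) (nat_lit 266) (nat_lit 245) (nat_lit 209)) (XT.lf (nat_lit 0) (nat_lit 5164390904) (nat_lit 380) (nat_lit 4322892349) (nat_lit 76) (nat_lit 776694426) (nat_lit 50) (nat_lit 5) (nat_lit 55) (nat_lit 5) (nat_lit 51) (nat_lit 5) (nat_lit 267) (nat_lit 245) (nat_lit 208))) (XT.nd (nat_lit 78) (nat_lit 304) (nat_lit 0) (XT.lf (nat_lit 0) (nat_lit 763640981) (nat_lit 304) (nat_lit 6481292813) (nat_lit 380) (nat_lit 3303987714) (nat_lit 46) (nat_lit 5) (nat_lit 50) (nat_lit 5) (nat_lit 51) (nat_lit 5) (nat_lit 268) (nat_lit 245) (nat_lit 207)) (XT.nd (nat_lit 78) (nat_lit 304)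 (nat_lit 0) (XT.lf (nat_lit 0) (nat_lit 6193548782) (nat_lit 304) (nat_lit 3256921953) (nat_lit 380) (nat_lit 1396763607) (nat_lit 46) (nat_lit 5) (nat_lit 50) (nat_lit 5) (nat_lit 51) (nat_lit 5) (nat_lit 269) (nat_lit 245) (nat_lit 206)) (XT.lf (nat_lit 0) (nat_lit 548626129) (nat_lit 304) (nat_lit 10477277630) (nat_lit 76) (nat_lit 136130744) (nat_lit 42) (nat_lit 5) (nat_lit 46) (nat_lit 5) (nat_lit 43) (nat_lit 5) (nat_lit 270) (nat_lit 245) (nat_lit 205))))))) (XT.nd (nat_lit 702) (nat_lit 836) (nat_lit 0) (XT.nd (nat_lit 312) (nat_lit 684) (nat_lit 0) (XT.nd (nat_lit 156) (nat_lit 0) (nat_lit 0) (XT.nd (nat_lit 78) (nat_lit 228) (nat_lit 0) (XT.lf (nat_lit 0) (nat_lit 2628455655) (nat_lit 304) (nat_lit 5175976895) (nat_lit 76) (nat_lit 3682938688) (nat_lit 42) (nat_lit 5) (nat_lit 46) (nat_lit 5) (nat_lit 43) (nat_lit 5) (nat_lit 271) (nat_lit 245) (nat_lit 204)) (XT.lf (nat_lit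 0) (nat_lit 342840194) (nat_lit 228) (nat_lit 4427754997) (nat_lit 304) (nat_lit 7060603681) (nat_lit 39) (nat_lit 5) (nat_lit 42) (nat_lit 5) (nat_lit 43) (nat_lit 5) (nat_lit 272) (nat_lit 245) (nat_lit 203))) (XT.nd (nat_lit 78) (nat_lit 0) (nat_lit 0) (XT.lf (nat_lit 0) (nat_lit 6259718560) (nat_lit 228) (nat_lit 802087430) (nat_lit 304) (nat_lit 5128447009) (nat_lit 39) (nat_lit 5) (nat_lit 42) (nat_lit 5) (nat_lit 43) (nat_lit 5) (nat_lit 273) (nat_lit 245) (nat_lit 202)) (XT.lf (nat_lit 0) (nat_lit 9470797441) (nat_lit 304) (nat_lit 198695476) (nat_lit 76) (nat_lit 2897732884) (nat_lit 39) (nat_lit 5) (nat_lit 43) (nat_lit 5) (nat_lit 40) (nat_lit 5) (nat_lit 274) (nat_lit 245) (nat_lit 201)))) (XT.nd (nat_lit 156) (nat_lit 380) (nat_lit 0) (XT.nd (nat_lit 78) (nat_lit 76) (nat_lit 0) (XT.lf (nat_lit 0) (nat_lit 5942535030) (nat_lit 228) (nat_lit 6122018484) (nat_lit 304) (nat_lit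 895398905) (nat_lit 36) (nat_lit 5) (nat_lit 39) (nat_lit 5) (nat_lit 40) (nat_lit 5) (nat_lit 275) (nat_lit 245) (nat_lit 200)) (XT.lf (nat_lit 0) (nat_lit 1332551394) (nat_lit 304) (nat_lit 1051427666) (nat_lit 76) (nat_lit 10989231854) (nat_lit 35) (nat_lit 5) (nat_lit 39) (nat_lit 5) (nat_lit 36) (nat_lit 5) (nat_lit 276) (nat_lit 245) (nat_lit 199))) (XT.nd (nat_lit 78) (nat_lit 152) (nat_lit 0) (XT.lf (nat_lit 0) (nat_lit 3710988439) (nat_lit 304) (nat_lit 8513679422) (nat_lit 76) (nat_lit 1578375978) (nat_lit 32) (nat_lit 5) (nat_lit 36) (nat_lit 5) (nat_lit 33) (nat_lit 5) (nat_lit 277) (nat_lit 245) (nat_lit 198)) (XT.nd (nat_lit 78) (nat_lit 152) (nat_lit 0) (XT.lf (nat_lit 0) (nat_lit 6227113035) (nat_lit 304) (nat_lit 2362349985) (nat_lit 76) (nat_lit 5664066591) (nat_lit 32) (nat_lit 5) (nat_lit 36) (nat_lit 5) (nat_lit 33) (nat_lit 5) (nat_lit 278) (nat_lit 245) (nat_lit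 197)) (XT.lf (nat_lit 0) (nat_lit 4179656591) (nat_lit 152) (nat_lit 4718058403) (nat_lit 228) (nat_lit 5827485873) (nat_lit 30) (nat_lit 5) (nat_lit 32) (nat_lit 5) (nat_lit 33) (nat_lit 5) (nat_lit 279) (nat_lit 245) (nat_lit 196)))))) (XT.nd (nat_lit 390) (nat_lit 380) (nat_lit 0) (XT.nd (nat_lit 156) (nat_lit 228) (nat_lit 0) (XT.nd (nat_lit 78) (nat_lit 228) (nat_lit 0) (XT.lf (nat_lit 0) (nat_lit 11080931680) (nat_lit 152) (nat_lit 625301782) (nat_lit 228) (nat_lit 3514093143) (nat_lit 30) (nat_lit 5) (nat_lit 32) (nat_lit 5) (nat_lit 33) (nat_lit 5) (nat_lit 280) (nat_lit 245) (nat_lit 195)) (XT.lf (nat_lit 0) (nat_lit 2562708669) (nat_lit 228) (nat_lit 12155675486) (nat_lit 304) (nat_lit 1018750101) (nat_lit 27) (nat_lit 5) (nat_lit 30) (nat_lit 5) (nat_lit 31) (nat_lit 5) (nat_lit 281) (nat_lit 245) (nat_lit 194))) (XT.nd (nat_lit 78) (nat_lit 152) (nat_lit 0) (XT.lf (nat_lit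 0) (nat_lit 1597720508) (nat_lit 304) (nat_lit 6618502740) (nat_lit 76) (nat_lit 8060006210) (nat_lit 26) (nat_lit 5) (nat_lit 30) (nat_lit 5) (nat_lit 27) (nat_lit 5) (nat_lit 282) (nat_lit 245) (nat_lit 193)) (XT.nd (nat_lit 78) (nat_lit 0) (nat_lit 0) (XT.lf (nat_lit 0) (nat_lit 208078397) (nat_lit 152) (nat_lit 4073673217) (nat_lit 228) (nat_lit 12561218321) (nat_lit 24) (nat_lit 5) (nat_lit 26) (nat_lit 5) (nat_lit 27) (nat_lit 5) (nat_lit 283) (nat_lit 245) (nat_lit 192)) (XT.lf (nat_lit 0) (nat_lit 7186524692) (nat_lit 228) (nat_lit 9880570446) (nat_lit 76) (nat_lit 366695985) (nat_lit 24) (nat_lit 5) (nat_lit 27) (nat_lit 5) (nat_lit 25) (nat_lit 5) (nat_lit 284) (nat_lit 245) (nat_lit 191))))) (XT.nd (nat_lit 156) (nat_lit 228) (nat_lit 0) (XT.nd (nat_lit 78) (nat_lit 152) (nat_lit 0) (XT.lf (nat_lit 0) (nat_lit 10273133345) (nat_lit 228) (nat_lit 2900789820) (nat_lit 76)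 (nat_lit 4878467694) (nat_lit 24) (nat_lit 5) (nat_lit 27) (nat_lit 5) (nat_lit 25) (nat_lit 5) (nat_lit 285) (nat_lit 245) (nat_lit 190)) (XT.lf (nat_lit 0) (nat_lit 4529647318) (nat_lit 152) (nat_lit 9026398360) (nat_lit 228) (nat_lit 5143840374) (nat_lit 22) (nat_lit 5) (nat_lit 24) (nat_lit 5) (nat_lit 25) (nat_lit 5) (nat_lit 286) (nat_lit 245) (nat_lit 189))) (XT.nd (nat_lit 78) (nat_lit 228) (nat_lit 0) (XT.lf (nat_lit 0) (nat_lit 12389704208) (nat_lit 152) (nat_lit 4634482097) (nat_lit 228) (nat_lit 2354576642) (nat_lit 22) (nat_lit 5) (nat_lit 24) (nat_lit 5) (nat_lit 25) (nat_lit 5) (nat_lit 287) (nat_lit 245) (nat_lit 188)) (XT.nd (nat_lit 78) (nat_lit 0) (nat_lit 0) (XT.lf (nat_lit 0) (nat_lit 517234166) (nat_lit 152) (nat_lit 19412849) (nat_lit 228) (nat_lit 19555500209) (nat_lit 19) (nat_lit 5) (nat_lit 21) (nat_lit 5) (nat_lit 22) (nat_lit 5) (nat_lit 288) (nat_lit 245)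 (nat_lit 187)) (XT.lf (nat_lit 0) (nat_lit 3662191260) (nat_lit 228) (nat_lit 12351713463) (nat_lit 76) (nat_lit 4816974342) (nat_lit 19) (nat_lit 5) (nat_lit 22) (nat_lit 5) (nat_lit 20) (nat_lit 5) (nat_lit 289) (nat_lit 245) (nat_lit 186))))))))
noncomputable def xc128 : XT := (XT.nd (nat_lit 1404) (nat_lit 380) (nat_lit 0) (XT.nd (nat_lit 702) (nat_lit 304) (nat_lit 0) (XT.nd (nat_lit 312) (nat_lit 304) (nat_lit 0) (XT.nd (nat_lit 156) (nat_lit 0) (nat_lit 0) (XT.nd (nat_lit 78) (nat_lit 152) (nat_lit 0) (XT.lf (nat_lit 0) (nat_lit 6918837019) (nat_lit 228) (nat_lit 4807694206) (nat_lit 76) (nat_lit 9881325305) (nat_lit 19) (nat_lit 5) (nat_lit 22) (nat_lit 5) (nat_lit 20) (nat_lit 5) (nat_lit 290) (nat_lit 245) (nat_lit 185)) (XT.lf (nat_lit 0) (nat_lit 3177096686) (nat_lit 152) (nat_lit 7186541821) (nat_lit 228) (nat_lit 12058826046) (nat_lit 17) (nat_lit 5) (nat_lit 19) (nat_lit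 5) (nat_lit 20) (nat_lit 5) (nat_lit 291) (nat_lit 245) (nat_lit 184))) (XT.nd (nat_lit 78) (nat_lit 0) (nat_lit 0) (XT.lf (nat_lit 0) (nat_lit 11690537927) (nat_lit 152) (nat_lit 2347853512) (nat_lit 228) (nat_lit 9236571546) (nat_lit 17) (nat_lit 5) (nat_lit 19) (nat_lit 5) (nat_lit 20) (nat_lit 5) (nat_lit 292) (nat_lit 245) (nat_lit 183)) (XT.lf (nat_lit 0) (nat_lit 17916762876) (nat_lit 228) (nat_lit 3619784331) (nat_lit 76) (nat_lit 2632588495) (nat_lit 17) (nat_lit 5) (nat_lit 20) (nat_lit 5) (nat_lit 18) (nat_lit 4) (nat_lit 293) (nat_lit 245) (nat_lit 182)))) (XT.nd (nat_lit 156) (nat_lit 152) (nat_lit 0) (XT.nd (nat_lit 78) (nat_lit 76) (nat_lit 0) (XT.lf (nat_lit 0) (nat_lit 4824062947) (nat_lit 76) (nat_lit 17257096170) (nat_lit 152) (nat_lit 3022293965) (nat_lit 16) (nat_lit 5) (nat_lit 17) (nat_lit 5) (nat_lit 18) (nat_lit 4) (nat_lit 294) (nat_lit 245) (nat_lit 181))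 (XT.lf (nat_lit 0) (nat_lit 398187722) (nat_lit 152) (nat_lit 12307542537) (nat_lit 76) (nat_lit 13376469367) (nat_lit 15) (nat_lit 5) (nat_lit 17) (nat_lit 5) (nat_lit 16) (nat_lit 5) (nat_lit 295) (nat_lit 245) (nat_lit 180))) (XT.nd (nat_lit 78) (nat_lit 152) (nat_lit 0) (XT.lf (nat_lit 0) (nat_lit 3867563333) (nat_lit 152) (nat_lit 4020099859) (nat_lit 76) (nat_lit 19220806786) (nat_lit 15) (nat_lit 5) (nat_lit 17) (nat_lit 5) (nat_lit 16) (nat_lit 5) (nat_lit 296) (nat_lit 245) (nat_lit 179)) (XT.nd (nat_lit 78) (nat_lit 0) (nat_lit 0) (XT.lf (nat_lit 0) (nat_lit 4803601633) (nat_lit 152) (nat_lit 2762221617) (nat_lit 228) (nat_lit 20617493833) (nat_lit 13) (nat_lit 5) (nat_lit 15) (nat_lit 5) (nat_lit 16) (nat_lit 5) (nat_lit 297) (nat_lit 245) (nat_lit 178)) (XT.lf (nat_lit 0) (nat_lit 11539762597) (nat_lit 228) (nat_lit 15174602655) (nat_lit 76) (nat_lit 2593035360) (nat_lit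 13) (nat_lit 5) (nat_lit 16) (nat_lit 5) (nat_lit 14) (nat_lit 4) (nat_lit 298) (nat_lit 245) (nat_lit 177)))))) (XT.nd (nat_lit 312) (nat_lit 228) (nat_lit 0) (XT.nd (nat_lit 156) (nat_lit 0) (nat_lit 0) (XT.nd (nat_lit 78) (nat_lit 76) (nat_lit 0) (XT.lf (nat_lit 0) (nat_lit 15739272073) (nat_lit 228) (nat_lit 6635129398) (nat_lit 76) (nat_lit 8111974036) (nat_lit 13) (nat_lit 5) (nat_lit 16) (nat_lit 5) (nat_lit 14) (nat_lit 4) (nat_lit 299) (nat_lit 245) (nat_lit 176)) (XT.lf (nat_lit 0) (nat_lit 2378282303) (nat_lit 76) (nat_lit 17790073838) (nat_lit 152) (nat_lit 11554992430) (nat_lit 12) (nat_lit 5) (nat_lit 13) (nat_lit 5) (nat_lit 14) (nat_lit 4) (nat_lit 300) (nat_lit 245) (nat_lit 175))) (XT.nd (nat_lit 78) (nat_lit 0) (nat_lit 0) (XT.lf (nat_lit 0) (nat_lit 12044036441) (nat_lit 76) (nat_lit 12870081596) (nat_lit 152) (nat_lit 8103319049) (nat_lit 12) (nat_lit 5) (nat_lit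 13) (nat_lit 5) (nat_lit 14) (nat_lit 4) (nat_lit 301) (nat_lit 245) (nat_lit 174)) (XT.lf (nat_lit 0) (nat_lit 22165759373) (nat_lit 76) (nat_lit 7715079607) (nat_lit 152) (nat_lit 4496234148) (nat_lit 12) (nat_lit 5) (nat_lit 13) (nat_lit 5) (nat_lit 14) (nat_lit 4) (nat_lit 302) (nat_lit 245) (nat_lit 173)))) (XT.nd (nat_lit 156) (nat_lit 0) (nat_lit 0) (XT.nd (nat_lit 78) (nat_lit 228) (nat_lit 0) (XT.lf (nat_lit 0) (nat_lit 32767550437) (nat_lit 76) (nat_lit 2312794056) (nat_lit 152) (nat_lit 725149431) (nat_lit 12) (nat_lit 5) (nat_lit 13) (nat_lit 5) (nat_lit 14) (nat_lit 4) (nat_lit 303) (nat_lit 245) (nat_lit 172)) (XT.lf (nat_lit 0) (nat_lit 3275866932) (nat_lit 228) (nat_lit 30619356054) (nat_lit 76) (nat_lit 3400365757) (nat_lit 9) (nat_lit 5) (nat_lit 12) (nat_lit 5) (nat_lit 10) (nat_lit 4) (nat_lit 304) (nat_lit 245) (nat_lit 171))) (XT.nd (nat_lit 78) (nat_lit 0) (nat_lit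 0) (XT.lf (nat_lit 0) (nat_lit 7527865266) (nat_lit 228) (nat_lit 21952166867) (nat_lit 76) (nat_lit 9375818663) (nat_lit 9) (nat_lit 5) (nat_lit 12) (nat_lit 5) (nat_lit 10) (nat_lit 4) (nat_lit 305) (nat_lit 245) (nat_lit 170)) (XT.nd (nat_lit 78) (nat_lit 0) (nat_lit 0) (XT.lf (nat_lit 0) (nat_lit 11978267137) (nat_lit 228) (nat_lit 12875897696) (nat_lit 76) (nat_lit 15640691816) (nat_lit 9) (nat_lit 5) (nat_lit 12) (nat_lit 5) (nat_lit 10) (nat_lit 4) (nat_lit 306) (nat_lit 245) (nat_lit 169)) (XT.lf (nat_lit 0) (nat_lit 16637668739) (nat_lit 228) (nat_lit 3368938377) (nat_lit 76) (nat_lit 22209901582) (nat_lit 9) (nat_lit 5) (nat_lit 12) (nat_lit 5) (nat_lit 10) (nat_lit 4) (nat_lit 307) (nat_lit 245) (nat_lit 168))))))) (XT.nd (nat_lit 702) (nat_lit 152) (nat_lit 0) (XT.nd (nat_lit 312) (nat_lit 152) (nat_lit 0) (XT.nd (nat_lit 156) (nat_lit 0) (nat_lit 0) (XT.nd (nat_lit 78)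 (nat_lit 0) (nat_lit 0) (XT.lf (nat_lit 0) (nat_lit 6809286396) (nat_lit 76) (nat_lit 14814189533) (nat_lit 152) (nat_lit 22396114582) (nat_lit 8) (nat_lit 5) (nat_lit 9) (nat_lit 5) (nat_lit 10) (nat_lit 4) (nat_lit 308) (nat_lit 245) (nat_lit 167)) (XT.lf (nat_lit 0) (nat_lit 17591717339) (nat_lit 76) (nat_lit 9311309093) (nat_lit 152) (nat_lit 19007595373) (nat_lit 8) (nat_lit 5) (nat_lit 9) (nat_lit 5) (nat_lit 10) (nat_lit 4) (nat_lit 309) (nat_lit 245) (nat_lit 166))) (XT.nd (nat_lit 78) (nat_lit 0) (nat_lit 0) (XT.lf (nat_lit 0) (nat_lit 28892634587) (nat_lit 76) (nat_lit 3541918302) (nat_lit 152) (nat_lit 15462269030) (nat_lit 8) (nat_lit 5) (nat_lit 9) (nat_lit 5) (nat_lit 10) (nat_lit 4) (nat_lit 310) (nat_lit 245) (nat_lit 165)) (XT.lf (nat_lit 0) (nat_lit 38270378130) (nat_lit 152) (nat_lit 9283127344) (nat_lit 0) (nat_lit 2427456800) (nat_lit 8) (nat_lit 5) (nat_lit 10)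 (nat_lit 4) (nat_lit 8) (nat_lit 4) (nat_lit 311) (nat_lit 245) (nat_lit 164)))) (XT.nd (nat_lit 156) (nat_lit 76) (nat_lit 0) (XT.nd (nat_lit 78) (nat_lit 0) (nat_lit 0) (XT.lf (nat_lit 0) (nat_lit 874764972) (nat_lit 76) (nat_lit 43583943386) (nat_lit 76) (nat_lit 7707581184) (nat_lit 7) (nat_lit 4) (nat_lit 8) (nat_lit 5) (nat_lit 8) (nat_lit 4) (nat_lit 312) (nat_lit 245) (nat_lit 163)) (XT.lf (nat_lit 0) (nat_lit 11843995688) (nat_lit 76) (nat_lit 39258895582) (nat_lit 76) (nat_lit 3350684933) (nat_lit 7) (nat_lit 4) (nat_lit 8) (nat_lit 5) (nat_lit 8) (nat_lit 4) (nat_lit 313) (nat_lit 245) (nat_lit 162))) (XT.nd (nat_lit 78) (nat_lit 0) (nat_lit 0) (XT.lf (nat_lit 0) (nat_lit 1174431897) (nat_lit 152) (nat_lit 33530957116) (nat_lit 76) (nat_lit 22149418436) (nat_lit 6) (nat_lit 5) (nat_lit 8) (nat_lit 5) (nat_lit 7) (nat_lit 4) (nat_lit 314) (nat_lit 245) (nat_lit 161)) (XT.nd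 (nat_lit 78) (nat_lit 0) (nat_lit 0) (XT.lf (nat_lit 0) (nat_lit 5803250256) (nat_lit 152) (nat_lit 24070766962) (nat_lit 76) (nat_lit 29499846860) (nat_lit 6) (nat_lit 5) (nat_lit 8) (nat_lit 5) (nat_lit 7) (nat_lit 4) (nat_lit 315) (nat_lit 245) (nat_lit 160)) (XT.lf (nat_lit 0) (nat_lit 10654033983) (nat_lit 152) (nat_lit 14154172208) (nat_lit 76) (nat_lit 37211153332) (nat_lit 6) (nat_lit 5) (nat_lit 8) (nat_lit 5) (nat_lit 7) (nat_lit 4) (nat_lit 316) (nat_lit 245) (nat_lit 159)))))) (XT.nd (nat_lit 312) (nat_lit 76) (nat_lit 0) (XT.nd (nat_lit 156) (nat_lit 0) (nat_lit 0) (XT.nd (nat_lit 78) (nat_lit 76) (nat_lit 0) (XT.lf (nat_lit 0) (nat_lit 15738332563) (nat_lit 152) (nat_lit 3757561916) (nat_lit 76) (nat_lit 45301698105) (nat_lit 6) (nat_lit 5) (nat_lit 8) (nat_lit 5) (nat_lit 7) (nat_lit 4) (nat_lit 317) (nat_lit 245) (nat_lit 158)) (XT.lf (nat_lit 0) (nat_lit 7380024625)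 (nat_lit 76) (nat_lit 13803449711) (nat_lit 152) (nat_lit 46525942622) (nat_lit 5) (nat_lit 5) (nat_lit 6) (nat_lit 5) (nat_lit 7) (nat_lit 4) (nat_lit 318) (nat_lit 245) (nat_lit 157))) (XT.nd (nat_lit 78) (nat_lit 0) (nat_lit 0) (XT.lf (nat_lit 0) (nat_lit 19190126340) (nat_lit 76) (nat_lit 7765966297) (nat_lit 152) (nat_lit 43807989486) (nat_lit 5) (nat_lit 5) (nat_lit 6) (nat_lit 5) (nat_lit 7) (nat_lit 4) (nat_lit 319) (nat_lit 245) (nat_lit 156)) (XT.lf (nat_lit 0) (nat_lit 31576620550) (nat_lit 76) (nat_lit 1432705408) (nat_lit 152) (nat_lit 40962565427) (nat_lit 5) (nat_lit 5) (nat_lit 6) (nat_lit 5) (nat_lit 7) (nat_lit 4) (nat_lit 320) (nat_lit 245) (nat_lit 155)))) (XT.nd (nat_lit 156) (nat_lit 76) (nat_lit 0) (XT.nd (nat_lit 78) (nat_lit 0) (nat_lit 0) (XT.lf (nat_lit 0) (nat_lit 39438951508) (nat_lit 152) (nat_lit 32852848226) (nat_lit 0) (nat_lit 5044614413) (nat_lit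 5) (nat_lit 5) (nat_lit 7) (nat_lit 4) (nat_lit 5) (nat_lit 4) (nat_lit 321) (nat_lit 245) (nat_lit 154)) (XT.lf (nat_lit 0) (nat_lit 46206188319) (nat_lit 152) (nat_lit 22869878300) (nat_lit 0) (nat_lit 11792299039) (nat_lit 5) (nat_lit 5) (nat_lit 7) (nat_lit 4) (nat_lit 5) (nat_lit 4) (nat_lit 322) (nat_lit 245) (nat_lit 153))) (XT.nd (nat_lit 78) (nat_lit 76) (nat_lit 0) (XT.lf (nat_lit 0) (nat_lit 53304780312) (nat_lit 152) (nat_lit 12400223536) (nat_lit 0) (nat_lit 18872269904) (nat_lit 5) (nat_lit 5) (nat_lit 7) (nat_lit 4) (nat_lit 5) (nat_lit 4) (nat_lit 323) (nat_lit 245) (nat_lit 152)) (XT.nd (nat_lit 78) (nat_lit 76) (nat_lit 0) (XT.lf (nat_lit 0) (nat_lit 60751628898) (nat_lit 152) (nat_lit 1418956183) (nat_lit 0) (nat_lit 26301384083) (nat_lit 5) (nat_lit 5) (nat_lit 7) (nat_lit 4) (nat_lit 5) (nat_lit 4) (nat_lit 324) (nat_lit 245) (nat_lit 151)) (XT.lf (nat_lit 0) (nat_lit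 10434023546) (nat_lit 76) (nat_lit 58293345472) (nat_lit 76) (nat_lit 23826210744) (nat_lit 4) (nat_lit 4) (nat_lit 5) (nat_lit 5) (nat_lit 5) (nat_lit 4) (nat_lit 325) (nat_lit 245) (nat_lit 150))))))))
noncomputable def xc129 : XT := (XT.nd (nat_lit 1404) (nat_lit 76) (nat_lit 0) (XT.nd (nat_lit 702) (nat_lit 0) (nat_lit 0) (XT.nd (nat_lit 312) (nat_lit 152) (nat_lit 0) (XT.nd (nat_lit 156) (nat_lit 0) (nat_lit 0) (XT.nd (nat_lit 78) (nat_lit 0) (nat_lit 0) (XT.lf (nat_lit 0) (nat_lit 22917792649) (nat_lit 76) (nat_lit 54201907935) (nat_lit 76) (nat_lit 19718687577) (nat_lit 4) (nat_lit 4) (nat_lit 5) (nat_lit 5) (nat_lit 5) (nat_lit 4) (nat_lit 326) (nat_lit 245) (nat_lit 149)) (XT.lf (nat_lit 0) (nat_lit 36015157285) (nat_lit 76) (nat_lit 49910561664) (nat_lit 76) (nat_lit 15412021657) (nat_lit 4) (nat_lit 4) (nat_lit 5) (nat_lit 5) (nat_lit 5) (nat_lit 4) (nat_lit 327) (nat_lit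 245) (nat_lit 148))) (XT.nd (nat_lit 78) (nat_lit 0) (nat_lit 0) (XT.lf (nat_lit 0) (nat_lit 49757301656) (nat_lit 76) (nat_lit 45409089167) (nat_lit 76) (nat_lit 10895959019) (nat_lit 4) (nat_lit 4) (nat_lit 5) (nat_lit 5) (nat_lit 5) (nat_lit 4) (nat_lit 328) (nat_lit 245) (nat_lit 147)) (XT.lf (nat_lit 0) (nat_lit 64176945154) (nat_lit 76) (nat_lit 40686772653) (nat_lit 76) (nat_lit 6159747132) (nat_lit 4) (nat_lit 4) (nat_lit 5) (nat_lit 5) (nat_lit 5) (nat_lit 4) (nat_lit 329) (nat_lit 245) (nat_lit 146)))) (XT.nd (nat_lit 156) (nat_lit 76) (nat_lit 0) (XT.nd (nat_lit 78) (nat_lit 76) (nat_lit 0) (XT.lf (nat_lit 0) (nat_lit 79308420262) (nat_lit 76) (nat_lit 35732368510) (nat_lit 76) (nat_lit 1192109301) (nat_lit 4) (nat_lit 4) (nat_lit 5) (nat_lit 5) (nat_lit 5) (nat_lit 4) (nat_lit 330) (nat_lit 245) (nat_lit 145)) (XT.lf (nat_lit 0) (nat_lit 3890156054) (nat_lit 152) (nat_lit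 26578042810) (nat_lit 76) (nat_lit 91231716572) (nat_lit 3) (nat_lit 5) (nat_lit 5) (nat_lit 5) (nat_lit 4) (nat_lit 4) (nat_lit 331) (nat_lit 245) (nat_lit 144))) (XT.nd (nat_lit 78) (nat_lit 76) (nat_lit 0) (XT.lf (nat_lit 0) (nat_lit 9181744271) (nat_lit 152) (nat_lit 15742290310) (nat_lit 76) (nat_lit 102515513660) (nat_lit 3) (nat_lit 5) (nat_lit 5) (nat_lit 5) (nat_lit 4) (nat_lit 4) (nat_lit 332) (nat_lit 245) (nat_lit 143)) (XT.nd (nat_lit 78) (nat_lit 76) (nat_lit 0) (XT.lf (nat_lit 0) (nat_lit 14733409311) (nat_lit 152) (nat_lit 4372808735) (nat_lit 76) (nat_lit 114360174841) (nat_lit 3) (nat_lit 5) (nat_lit 5) (nat_lit 5) (nat_lit 4) (nat_lit 4) (nat_lit 333) (nat_lit 245) (nat_lit 142)) (XT.lf (nat_lit 0) (nat_lit 7807356266) (nat_lit 76) (nat_lit 12872907869) (nat_lit 152) (nat_lit 119108440136) (nat_lit 2) (nat_lit 5) (nat_lit 3) (nat_lit 5) (nat_lit 4) (nat_lit 4) (nat_lit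 334) (nat_lit 245) (nat_lit 141)))))) (XT.nd (nat_lit 312) (nat_lit 0) (nat_lit 0) (XT.nd (nat_lit 156) (nat_lit 0) (nat_lit 0) (XT.nd (nat_lit 78) (nat_lit 0) (nat_lit 0) (XT.lf (nat_lit 0) (nat_lit 20740792542) (nat_lit 76) (nat_lit 6253522919) (nat_lit 152) (nat_lit 119429327676) (nat_lit 2) (nat_lit 5) (nat_lit 3) (nat_lit 5) (nat_lit 4) (nat_lit 4) (nat_lit 335) (nat_lit 245) (nat_lit 140)) (XT.lf (nat_lit 0) (nat_lit 33630897259) (nat_lit 152) (nat_lit 119087653925) (nat_lit 0) (nat_lit 671440749) (nat_lit 2) (nat_lit 5) (nat_lit 4) (nat_lit 4) (nat_lit 2) (nat_lit 4) (nat_lit 336) (nat_lit 245) (nat_lit 139))) (XT.nd (nat_lit 78) (nat_lit 0) (nat_lit 0) (XT.lf (nat_lit 0) (nat_lit 40697966265) (nat_lit 152) (nat_lit 112272210496) (nat_lit 0) (nat_lit 7729552674) (nat_lit 2) (nat_lit 5) (nat_lit 4) (nat_lit 4) (nat_lit 2) (nat_lit 4) (nat_lit 337) (nat_lit 245) (nat_lit 138))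 (XT.lf (nat_lit 0) (nat_lit 48114713817) (nat_lit 152) (nat_lit 105122658043) (nat_lit 0) (nat_lit 15137769672) (nat_lit 2) (nat_lit 5) (nat_lit 4) (nat_lit 4) (nat_lit 2) (nat_lit 4) (nat_lit 338) (nat_lit 245) (nat_lit 137)))) (XT.nd (nat_lit 156) (nat_lit 0) (nat_lit 0) (XT.nd (nat_lit 78) (nat_lit 0) (nat_lit 0) (XT.lf (nat_lit 0) (nat_lit 55898798836) (nat_lit 152) (nat_lit 97621973824) (nat_lit 0) (nat_lit 22913730355) (nat_lit 2) (nat_lit 5) (nat_lit 4) (nat_lit 4) (nat_lit 2) (nat_lit 4) (nat_lit 339) (nat_lit 245) (nat_lit 136)) (XT.lf (nat_lit 0) (nat_lit 64068754859) (nat_lit 152) (nat_lit 89752299065) (nat_lit 0) (nat_lit 31075948915) (nat_lit 2) (nat_lit 5) (nat_lit 4) (nat_lit 4) (nat_lit 2) (nat_lit 4) (nat_lit 340) (nat_lit 245) (nat_lit 135))) (XT.nd (nat_lit 78) (nat_lit 0) (nat_lit 0) (XT.lf (nat_lit 0) (nat_lit 72644034162) (nat_lit 152) (nat_lit 81494896447) (nat_lit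 0) (nat_lit 39643859205) (nat_lit 2) (nat_lit 5) (nat_lit 4) (nat_lit 4) (nat_lit 2) (nat_lit 4) (nat_lit 341) (nat_lit 245) (nat_lit 134)) (XT.nd (nat_lit 78) (nat_lit 0) (nat_lit 0) (XT.lf (nat_lit 0) (nat_lit 81645054077) (nat_lit 152) (nat_lit 72830105486) (nat_lit 0) (nat_lit 48637861012) (nat_lit 2) (nat_lit 5) (nat_lit 4) (nat_lit 4) (nat_lit 2) (nat_lit 4) (nat_lit 342) (nat_lit 245) (nat_lit 133)) (XT.lf (nat_lit 0) (nat_lit 91093245603) (nat_lit 152) (nat_lit 63737295728) (nat_lit 0) (nat_lit 58079368626) (nat_lit 2) (nat_lit 5) (nat_lit 4) (nat_lit 4) (nat_lit 2) (nat_lit 4) (nat_lit 343) (nat_lit 245) (nat_lit 132))))))) (XT.nd (nat_lit 702) (nat_lit 0) (nat_lit 0) (XT.nd (nat_lit 312) (nat_lit 76) (nat_lit 0) (XT.nd (nat_lit 156) (nat_lit 0) (nat_lit 0) (XT.nd (nat_lit 78) (nat_lit 0) (nat_lit 0) (XT.lf (nat_lit 0) (nat_lit 101011104435) (nat_lit 152) (nat_lit 54194817627)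 (nat_lit 0) (nat_lit 67990861827) (nat_lit 2) (nat_lit 5) (nat_lit 4) (nat_lit 4) (nat_lit 2) (nat_lit 4) (nat_lit 344) (nat_lit 245) (nat_lit 131)) (XT.lf (nat_lit 0) (nat_lit 111422244521) (nat_lit 152) (nat_lit 44179950995) (nat_lit 0) (nat_lit 78395939409) (nat_lit 2) (nat_lit 5) (nat_lit 4) (nat_lit 4) (nat_lit 2) (nat_lit 4) (nat_lit 345) (nat_lit 245) (nat_lit 130))) (XT.nd (nat_lit 78) (nat_lit 0) (nat_lit 0) (XT.lf (nat_lit 0) (nat_lit 122351454292) (nat_lit 152) (nat_lit 33668850913) (nat_lit 0) (nat_lit 89319375365) (nat_lit 2) (nat_lit 5) (nat_lit 4) (nat_lit 4) (nat_lit 2) (nat_lit 4) (nat_lit 346) (nat_lit 245) (nat_lit 129)) (XT.lf (nat_lit 0) (nat_lit 133824755674) (nat_lit 152) (nat_lit 22636490951) (nat_lit 0) (nat_lit 100787177877) (nat_lit 2) (nat_lit 5) (nat_lit 4) (nat_lit 4) (nat_lit 2) (nat_lit 4) (nat_lit 347) (nat_lit 245) (nat_lit 128)))) (XT.nd (nat_lit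 156) (nat_lit 0) (nat_lit 0) (XT.nd (nat_lit 78) (nat_lit 76) (nat_lit 0) (XT.lf (nat_lit 0) (nat_lit 145869466053) (nat_lit 152) (nat_lit 11056603586) (nat_lit 0) (nat_lit 112826651236) (nat_lit 2) (nat_lit 5) (nat_lit 4) (nat_lit 4) (nat_lit 2) (nat_lit 4) (nat_lit 348) (nat_lit 245) (nat_lit 127)) (XT.lf (nat_lit 0) (nat_lit 1134699822) (nat_lit 76) (nat_lit 157397279331) (nat_lit 76) (nat_lit 124349476876) (nat_lit 1) (nat_lit 4) (nat_lit 2) (nat_lit 5) (nat_lit 2) (nat_lit 4) (nat_lit 349) (nat_lit 245) (nat_lit 126))) (XT.nd (nat_lit 78) (nat_lit 0) (nat_lit 0) (XT.lf (nat_lit 0) (nat_lit 14315595742) (nat_lit 76) (nat_lit 157697164931) (nat_lit 76) (nat_lit 124644612344) (nat_lit 1) (nat_lit 4) (nat_lit 2) (nat_lit 5) (nat_lit 2) (nat_lit 4) (nat_lit 350) (nat_lit 245) (nat_lit 125)) (XT.nd (nat_lit 78) (nat_lit 0) (nat_lit 0) (XT.lf (nat_lit 0) (nat_lit 28151886011) (nat_lit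 76) (nat_lit 158013689383) (nat_lit 76) (nat_lit 124956612862) (nat_lit 1) (nat_lit 4) (nat_lit 2) (nat_lit 5) (nat_lit 2) (nat_lit 4) (nat_lit 351) (nat_lit 245) (nat_lit 124)) (XT.lf (nat_lit 0) (nat_lit 42676514177) (nat_lit 76) (nat_lit 158347606317) (nat_lit 76) (nat_lit 125286221287) (nat_lit 1) (nat_lit 4) (nat_lit 2) (nat_lit 5) (nat_lit 2) (nat_lit 4) (nat_lit 352) (nat_lit 245) (nat_lit 123)))))) (XT.nd (nat_lit 312) (nat_lit 0) (nat_lit 0) (XT.nd (nat_lit 156) (nat_lit 0) (nat_lit 0) (XT.nd (nat_lit 78) (nat_lit 0) (nat_lit 0) (XT.lf (nat_lit 0) (nat_lit 57924062689) (nat_lit 76) (nat_lit 158699710773) (nat_lit 76) (nat_lit 125634222401) (nat_lit 1) (nat_lit 4) (nat_lit 2) (nat_lit 5) (nat_lit 2) (nat_lit 4) (nat_lit 353) (nat_lit 245) (nat_lit 122)) (XT.lf (nat_lit 0) (nat_lit 73930835234) (nat_lit 76) (nat_lit 159070841096) (nat_lit 76) (nat_lit 126001444779) (nat_lit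 1) (nat_lit 4) (nat_lit 2) (nat_lit 5) (nat_lit 2) (nat_lit 4) (nat_lit 354) (nat_lit 245) (nat_lit 121))) (XT.nd (nat_lit 78) (nat_lit 0) (nat_lit 0) (XT.lf (nat_lit 0) (nat_lit 90734943173) (nat_lit 76) (nat_lit 159461880929) (nat_lit 76) (nat_lit 126388762760) (nat_lit 1) (nat_lit 4) (nat_lit 2) (nat_lit 5) (nat_lit 2) (nat_lit 4) (nat_lit 355) (nat_lit 245) (nat_lit 120)) (XT.lf (nat_lit 0) (nat_lit 108376396289) (nat_lit 76) (nat_lit 159873761320) (nat_lit 76) (nat_lit 126797098529) (nat_lit 1) (nat_lit 4) (nat_lit 2) (nat_lit 5) (nat_lit 2) (nat_lit 4) (nat_lit 356) (nat_lit 245) (nat_lit 119)))) (XT.nd (nat_lit 156) (nat_lit 0) (nat_lit 0) (XT.nd (nat_lit 78) (nat_lit 0) (nat_lit 0) (XT.lf (nat_lit 0) (nat_lit 126897198041) (nat_lit 76) (nat_lit 160307462935) (nat_lit 76) (nat_lit 127227424315) (nat_lit 1) (nat_lit 4) (nat_lit 2) (nat_lit 5) (nat_lit 2) (nat_lit 4) (nat_lit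 357) (nat_lit 245) (nat_lit 118)) (XT.lf (nat_lit 0) (nat_lit 146341445577) (nat_lit 76) (nat_lit 160764018398) (nat_lit 76) (nat_lit 127680764702) (nat_lit 1) (nat_lit 4) (nat_lit 2) (nat_lit 5) (nat_lit 2) (nat_lit 4) (nat_lit 358) (nat_lit 245) (nat_lit 117))) (XT.nd (nat_lit 78) (nat_lit 0) (nat_lit 0) (XT.lf (nat_lit 0) (nat_lit 166755434723) (nat_lit 76) (nat_lit 161244514745) (nat_lit 76) (nat_lit 128158199072) (nat_lit 1) (nat_lit 4) (nat_lit 2) (nat_lit 5) (nat_lit 2) (nat_lit 4) (nat_lit 359) (nat_lit 245) (nat_lit 116)) (XT.nd (nat_lit 78) (nat_lit 0) (nat_lit 0) (XT.lf (nat_lit 0) (nat_lit 188187770215) (nat_lit 76) (nat_lit 161750096016) (nat_lit 76) (nat_lit 128660864174) (nat_lit 1) (nat_lit 4) (nat_lit 2) (nat_lit 5) (nat_lit 2) (nat_lit 4) (nat_lit 360) (nat_lit 245) (nat_lit 115)) (XT.lf (nat_lit 0) (nat_lit 210689481425) (nat_lit 76) (nat_lit 162281965975) (nat_lit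 76) (nat_lit 129189956830) (nat_lit 1) (nat_lit 4) (nat_lit 2) (nat_lit 5) (nat_lit 2) (nat_lit 4) (nat_lit 361) (nat_lit 245) (nat_lit 114))))))))
noncomputable def xc130 : XT := (XT.nd (nat_lit 29796) (nat_lit 0) (nat_lit 2204) (XT.nd (nat_lit 29094) (nat_lit 0) (nat_lit 4788) (XT.nd (nat_lit 28704) (nat_lit 0) (nat_lit 7068) (XT.nd (nat_lit 28548) (nat_lit 0) (nat_lit 7524) (XT.nd (nat_lit 28470) (nat_lit 0) (nat_lit 7524) (XT.lf (nat_lit 0) (nat_lit 234314143854) (nat_lit 76) (nat_lit 162841390980) (nat_lit 76) (nat_lit 129746736784) (nat_lit 1) (nat_lit 4) (nat_lit 2) (nat_lit 5) (nat_lit 2) (nat_lit 4) (nat_lit 362) (nat_lit 245) (nat_lit 113)) (XT.lf (nat_lit 0) (nat_lit 300462026) (nat_lit 0) (nat_lit 300462026) (nat_lit 380) (nat_lit 2837402004) (nat_lit 100) (nat_lit 5) (nat_lit 100) (nat_lit 3) (nat_lit 105) (nat_lit 3) (nat_lit 246) (nat_lit 246) (nat_lit 228))) (XT.nd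 (nat_lit 78) (nat_lit 0) (nat_lit 0) (XT.lf (nat_lit 0) (nat_lit 2994612482) (nat_lit 380) (nat_lit 3272903548) (nat_lit 456) (nat_lit 684343476) (nat_lit 100) (nat_lit 5) (nat_lit 105) (nat_lit 3) (nat_lit 106) (nat_lit 5) (nat_lit 247) (nat_lit 246) (nat_lit 227)) (XT.lf (nat_lit 0) (nat_lit 4775612197) (nat_lit 380) (nat_lit 192884312) (nat_lit 456) (nat_lit 2067949683) (nat_lit 100) (nat_lit 5) (nat_lit 105) (nat_lit 3) (nat_lit 106) (nat_lit 5) (nat_lit 248) (nat_lit 246) (nat_lit 226)))) (XT.nd (nat_lit 156) (nat_lit 0) (nat_lit 0) (XT.nd (nat_lit 78) (nat_lit 456) (nat_lit 0) (XT.lf (nat_lit 76) (nat_lit 3079611948) (nat_lit 0) (nat_lit 3508175040) (nat_lit 456) (nat_lit 540891615) (nat_lit 101) (nat_lit 5) (nat_lit 100) (nat_lit 5) (nat_lit 106) (nat_lit 5) (nat_lit 249) (nat_lit 246) (nat_lit 225)) (XT.lf (nat_lit 0) (nat_lit 1123893558) (nat_lit 456) (nat_lit 785768088) (nat_lit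 532) (nat_lit 5320380745) (nat_lit 94) (nat_lit 5) (nat_lit 100) (nat_lit 5) (nat_lit 101) (nat_lit 5) (nat_lit 250) (nat_lit 246) (nat_lit 224))) (XT.nd (nat_lit 78) (nat_lit 0) (nat_lit 76) (XT.lf (nat_lit 76) (nat_lit 2656831321) (nat_lit 0) (nat_lit 139356384) (nat_lit 532) (nat_lit 4543172429) (nat_lit 95) (nat_lit 5) (nat_lit 94) (nat_lit 5) (nat_lit 101) (nat_lit 5) (nat_lit 251) (nat_lit 246) (nat_lit 223)) (XT.nd (nat_lit 78) (nat_lit 0) (nat_lit 0) (XT.lf (nat_lit 0) (nat_lit 4497792892) (nat_lit 456) (nat_lit 1246522124) (nat_lit 532) (nat_lit 1712973915) (nat_lit 95) (nat_lit 5) (nat_lit 101) (nat_lit 5) (nat_lit 102) (nat_lit 5) (nat_lit 252) (nat_lit 246) (nat_lit 222)) (XT.lf (nat_lit 76) (nat_lit 2373224356) (nat_lit 0) (nat_lit 3860424682) (nat_lit 532) (nat_lit 1350416101) (nat_lit 96) (nat_lit 5) (nat_lit 95) (nat_lit 5) (nat_lit 102) (nat_lit 5) (nat_lit 253) (nat_lit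 246) (nat_lit 221)))))) (XT.nd (nat_lit 312) (nat_lit 1368) (nat_lit 0) (XT.nd (nat_lit 156) (nat_lit 456) (nat_lit 0) (XT.nd (nat_lit 78) (nat_lit 0) (nat_lit 76) (XT.lf (nat_lit 0) (nat_lit 261098487) (nat_lit 532) (nat_lit 1568570676) (nat_lit 608) (nat_lit 5890975975) (nat_lit 88) (nat_lit 5) (nat_lit 95) (nat_lit 5) (nat_lit 96) (nat_lit 5) (nat_lit 254) (nat_lit 246) (nat_lit 220)) (XT.lf (nat_lit 0) (nat_lit 1864475101) (nat_lit 532) (nat_lit 5627273373) (nat_lit 76) (nat_lit 373719055) (nat_lit 89) (nat_lit 5) (nat_lit 96) (nat_lit 5) (nat_lit 90) (nat_lit 5) (nat_lit 255) (nat_lit 246) (nat_lit 219))) (XT.nd (nat_lit 78) (nat_lit 532) (nat_lit 0) (XT.lf (nat_lit 0) (nat_lit 3524028236) (nat_lit 532) (nat_lit 1821620791) (nat_lit 76) (nat_lit 2673418531) (nat_lit 89) (nat_lit 5) (nat_lit 96) (nat_lit 5) (nat_lit 90) (nat_lit 5) (nat_lit 256) (nat_lit 246) (nat_lit 218)) (XT.lf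 (nat_lit 0) (nat_lit 2182508925) (nat_lit 532) (nat_lit 3040994826) (nat_lit 608) (nat_lit 2959317461) (nat_lit 82) (nat_lit 5) (nat_lit 89) (nat_lit 5) (nat_lit 90) (nat_lit 5) (nat_lit 257) (nat_lit 246) (nat_lit 217)))) (XT.nd (nat_lit 156) (nat_lit 684) (nat_lit 0) (XT.nd (nat_lit 78) (nat_lit 684) (nat_lit 0) (XT.lf (nat_lit 0) (nat_lit 6389422786) (nat_lit 532) (nat_lit 574975656) (nat_lit 608) (nat_lit 1392847418) (nat_lit 82) (nat_lit 5) (nat_lit 89) (nat_lit 5) (nat_lit 90) (nat_lit 5) (nat_lit 258) (nat_lit 246) (nat_lit 216)) (XT.lf (nat_lit 0) (nat_lit 239373508) (nat_lit 684) (nat_lit 6299874975) (nat_lit 76) (nat_lit 2001449187) (nat_lit 73) (nat_lit 5) (nat_lit 82) (nat_lit 5) (nat_lit 74) (nat_lit 5) (nat_lit 259) (nat_lit 246) (nat_lit 215))) (XT.nd (nat_lit 78) (nat_lit 684) (nat_lit 0) (XT.lf (nat_lit 0) (nat_lit 1880065692) (nat_lit 684) (nat_lit 2099626088) (nat_lit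 76) (nat_lit 4754069132) (nat_lit 73) (nat_lit 5) (nat_lit 82) (nat_lit 5) (nat_lit 74) (nat_lit 5) (nat_lit 260) (nat_lit 246) (nat_lit 214)) (XT.nd (nat_lit 78) (nat_lit 0) (nat_lit 0) (XT.lf (nat_lit 0) (nat_lit 2324673871) (nat_lit 684) (nat_lit 1248099787) (nat_lit 760) (nat_lit 5365456004) (nat_lit 64) (nat_lit 5) (nat_lit 73) (nat_lit 5) (nat_lit 74) (nat_lit 5) (nat_lit 261) (nat_lit 246) (nat_lit 213)) (XT.lf (nat_lit 0) (nat_lit 5347542243) (nat_lit 760) (nat_lit 2196846254) (nat_lit 76) (nat_lit 1608901522) (nat_lit 64) (nat_lit 5) (nat_lit 74) (nat_lit 5) (nat_lit 65) (nat_lit 5) (nat_lit 262) (nat_lit 246) (nat_lit 212))))))) (XT.nd (nat_lit 702) (nat_lit 912) (nat_lit 0) (XT.nd (nat_lit 312) (nat_lit 912) (nat_lit 0) (XT.nd (nat_lit 156) (nat_lit 456) (nat_lit 0) (XT.nd (nat_lit 78) (nat_lit 0) (nat_lit 0) (XT.lf (nat_lit 0) (nat_lit 2438368127) (nat_lit 304) (nat_lit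 4770249878) (nat_lit 380) (nat_lit 2170834979) (nat_lit 60) (nat_lit 5) (nat_lit 64) (nat_lit 5) (nat_lit 65) (nat_lit 5) (nat_lit 263) (nat_lit 246) (nat_lit 211)) (XT.lf (nat_lit 0) (nat_lit 7322666120) (nat_lit 304) (nat_lit 1818307041) (nat_lit 380) (nat_lit 477256827) (nat_lit 60) (nat_lit 5) (nat_lit 64) (nat_lit 5) (nat_lit 65) (nat_lit 5) (nat_lit 264) (nat_lit 246) (nat_lit 210))) (XT.nd (nat_lit 78) (nat_lit 0) (nat_lit 0) (XT.lf (nat_lit 0) (nat_lit 1263434594) (nat_lit 456) (nat_lit 7303483402) (nat_lit 76) (nat_lit 1301005489) (nat_lit 54) (nat_lit 5) (nat_lit 60) (nat_lit 5) (nat_lit 55) (nat_lit 5) (nat_lit 265) (nat_lit 246) (nat_lit 209)) (XT.lf (nat_lit 0) (nat_lit 3088957237) (nat_lit 456) (nat_lit 2479509936) (nat_lit 76) (nat_lit 4560739109) (nat_lit 54) (nat_lit 5) (nat_lit 60) (nat_lit 5) (nat_lit 55) (nat_lit 5) (nat_lit 266) (nat_lit 246) (nat_lit 208)))) (XT.nd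 (nat_lit 156) (nat_lit 608) (nat_lit 0) (XT.nd (nat_lit 78) (nat_lit 0) (nat_lit 0) (XT.lf (nat_lit 0) (nat_lit 2611903603) (nat_lit 304) (nat_lit 2381787250) (nat_lit 380) (nat_lit 5410644290) (nat_lit 50) (nat_lit 5) (nat_lit 54) (nat_lit 5) (nat_lit 55) (nat_lit 5) (nat_lit 267) (nat_lit 246) (nat_lit 207)) (XT.lf (nat_lit 0) (nat_lit 7000105054) (nat_lit 380) (nat_lit 2721972536) (nat_lit 76) (nat_lit 970990821) (nat_lit 50) (nat_lit 5) (nat_lit 55) (nat_lit 5) (nat_lit 51) (nat_lit 5) (nat_lit 268) (nat_lit 246) (nat_lit 206))) (XT.nd (nat_lit 78) (nat_lit 304) (nat_lit 0) (XT.lf (nat_lit 0) (nat_lit 2589579969) (nat_lit 304) (nat_lit 6547888225) (nat_lit 380) (nat_lit 1857400794) (nat_lit 46) (nat_lit 5) (nat_lit 50) (nat_lit 5) (nat_lit 51) (nat_lit 5) (nat_lit 269) (nat_lit 246) (nat_lit 205)) (XT.nd (nat_lit 78) (nat_lit 228) (nat_lit 0) (XT.lf (nat_lit 0) (nat_lit 66242512)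 (nat_lit 380) (nat_lit 3107194900) (nat_lit 76) (nat_lit 8138487516) (nat_lit 45) (nat_lit 5) (nat_lit 50) (nat_lit 5) (nat_lit 46) (nat_lit 5) (nat_lit 270) (nat_lit 246) (nat_lit 204)) (XT.lf (nat_lit 0) (nat_lit 2022644672) (nat_lit 304) (nat_lit 9201242141) (nat_lit 76) (nat_lit 419614506) (nat_lit 42) (nat_lit 5) (nat_lit 46) (nat_lit 5) (nat_lit 43) (nat_lit 5) (nat_lit 271) (nat_lit 246) (nat_lit 203)))))) (XT.nd (nat_lit 312) (nat_lit 456) (nat_lit 0) (XT.nd (nat_lit 156) (nat_lit 228) (nat_lit 0) (XT.nd (nat_lit 78) (nat_lit 228) (nat_lit 0) (XT.lf (nat_lit 0) (nat_lit 4137580567) (nat_lit 304) (nat_lit 3720585863) (nat_lit 76) (nat_lit 4130587741) (nat_lit 42) (nat_lit 5) (nat_lit 46) (nat_lit 5) (nat_lit 43) (nat_lit 5) (nat_lit 272) (nat_lit 246) (nat_lit 202)) (XT.lf (nat_lit 0) (nat_lit 2046523857) (nat_lit 228) (nat_lit 4301030002) (nat_lit 304) (nat_lit 6004378253)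 (nat_lit 39) (nat_lit 5) (nat_lit 42) (nat_lit 5) (nat_lit 43) (nat_lit 5) (nat_lit 273) (nat_lit 246) (nat_lit 201))) (XT.nd (nat_lit 78) (nat_lit 228) (nat_lit 0) (XT.lf (nat_lit 0) (nat_lit 8178934634) (nat_lit 228) (nat_lit 510655854) (nat_lit 304) (nat_lit 4042721157) (nat_lit 39) (nat_lit 5) (nat_lit 42) (nat_lit 5) (nat_lit 43) (nat_lit 5) (nat_lit 274) (nat_lit 246) (nat_lit 200)) (XT.lf (nat_lit 0) (nat_lit 1426068017) (nat_lit 228) (nat_lit 9759458408) (nat_lit 304) (nat_lit 1944459026) (nat_lit 36) (nat_lit 5) (nat_lit 39) (nat_lit 5) (nat_lit 40) (nat_lit 5) (nat_lit 275) (nat_lit 246) (nat_lit 199)))) (XT.nd (nat_lit 156) (nat_lit 152) (nat_lit 0) (XT.nd (nat_lit 78) (nat_lit 228) (nat_lit 0) (XT.lf (nat_lit 0) (nat_lit 297908571) (nat_lit 304) (nat_lit 5747029982) (nat_lit 76) (nat_lit 7500133247) (nat_lit 35) (nat_lit 5) (nat_lit 39) (nat_lit 5) (nat_lit 36) (nat_lit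 5) (nat_lit 276) (nat_lit 246) (nat_lit 198)) (XT.lf (nat_lit 0) (nat_lit 440164788) (nat_lit 228) (nat_lit 2116349380) (nat_lit 304) (nat_lit 11424430660) (nat_lit 32) (nat_lit 5) (nat_lit 35) (nat_lit 5) (nat_lit 36) (nat_lit 5) (nat_lit 277) (nat_lit 246) (nat_lit 197))) (XT.nd (nat_lit 78) (nat_lit 152) (nat_lit 0) (XT.lf (nat_lit 0) (nat_lit 5021750269) (nat_lit 304) (nat_lit 7381122822) (nat_lit 76) (nat_lit 2031148155) (nat_lit 32) (nat_lit 5) (nat_lit 36) (nat_lit 5) (nat_lit 33) (nat_lit 5) (nat_lit 278) (nat_lit 246) (nat_lit 196)) (XT.nd (nat_lit 78) (nat_lit 152) (nat_lit 0) (XT.lf (nat_lit 0) (nat_lit 7610099551) (nat_lit 304) (nat_lit 996428846) (nat_lit 76) (nat_lit 6303320757) (nat_lit 32) (nat_lit 5) (nat_lit 36) (nat_lit 5) (nat_lit 33) (nat_lit 5) (nat_lit 279) (nat_lit 246) (nat_lit 195)) (XT.lf (nat_lit 0) (nat_lit 5848741953) (nat_lit 152) (nat_lit 4537255907)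 (nat_lit 228) (nat_lit 5020649962) (nat_lit 30) (nat_lit 5) (nat_lit 32) (nat_lit 5) (nat_lit 33) (nat_lit 5) (nat_lit 280) (nat_lit 246) (nat_lit 194))))))))
noncomputable def xc131 : XT := (XT.nd (nat_lit 1404) (nat_lit 532) (nat_lit 0) (XT.nd (nat_lit 702) (nat_lit 456) (nat_lit 0) (XT.nd (nat_lit 312) (nat_lit 380) (nat_lit 0) (XT.nd (nat_lit 156) (nat_lit 228) (nat_lit 0) (XT.nd (nat_lit 78) (nat_lit 228) (nat_lit 0) (XT.lf (nat_lit 0) (nat_lit 13025552104) (nat_lit 152) (nat_lit 259704570) (nat_lit 228) (nat_lit 2643883320) (nat_lit 30) (nat_lit 5) (nat_lit 32) (nat_lit 5) (nat_lit 33) (nat_lit 5) (nat_lit 281) (nat_lit 246) (nat_lit 193)) (XT.lf (nat_lit 0) (nat_lit 4104254096) (nat_lit 228) (nat_lit 12324409579) (nat_lit 304) (nat_lit 44211789) (nat_lit 27) (nat_lit 5) (nat_lit 30) (nat_lit 5) (nat_lit 31) (nat_lit 5) (nat_lit 282) (nat_lit 246) (nat_lit 192))) (XT.nd (nat_lit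 78) (nat_lit 152) (nat_lit 0) (XT.lf (nat_lit 0) (nat_lit 2622991474) (nat_lit 304) (nat_lit 5569889832) (nat_lit 76) (nat_lit 8847715784) (nat_lit 26) (nat_lit 5) (nat_lit 30) (nat_lit 5) (nat_lit 27) (nat_lit 5) (nat_lit 283) (nat_lit 246) (nat_lit 191)) (XT.lf (nat_lit 0) (nat_lit 1575769749) (nat_lit 152) (nat_lit 3841627117) (nat_lit 228) (nat_lit 12219572641) (nat_lit 24) (nat_lit 5) (nat_lit 26) (nat_lit 5) (nat_lit 27) (nat_lit 5) (nat_lit 284) (nat_lit 246) (nat_lit 190)))) (XT.nd (nat_lit 156) (nat_lit 380) (nat_lit 0) (XT.nd (nat_lit 78) (nat_lit 0) (nat_lit 0) (XT.lf (nat_lit 0) (nat_lit 8430003910) (nat_lit 228) (nat_lit 9042567163) (nat_lit 76) (nat_lit 786729535) (nat_lit 24) (nat_lit 5) (nat_lit 27) (nat_lit 5) (nat_lit 25) (nat_lit 5) (nat_lit 285) (nat_lit 246) (nat_lit 189)) (XT.lf (nat_lit 0) (nat_lit 11628840474) (nat_lit 228) (nat_lit 1777227592) (nat_lit 76)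 (nat_lit 5504961317) (nat_lit 24) (nat_lit 5) (nat_lit 27) (nat_lit 5) (nat_lit 25) (nat_lit 5) (nat_lit 286) (nat_lit 246) (nat_lit 188))) (XT.nd (nat_lit 78) (nat_lit 228) (nat_lit 0) (XT.lf (nat_lit 0) (nat_lit 6004270085) (nat_lit 152) (nat_lit 9051017667) (nat_lit 228) (nat_lit 4536731569) (nat_lit 22) (nat_lit 5) (nat_lit 24) (nat_lit 5) (nat_lit 25) (nat_lit 5) (nat_lit 287) (nat_lit 246) (nat_lit 187)) (XT.nd (nat_lit 78) (nat_lit 228) (nat_lit 0) (XT.lf (nat_lit 0) (nat_lit 14197894562) (nat_lit 152) (nat_lit 4459824667) (nat_lit 228) (nat_lit 1649161833) (nat_lit 22) (nat_lit 5) (nat_lit 24) (nat_lit 5) (nat_lit 25) (nat_lit 5) (nat_lit 288) (nat_lit 246) (nat_lit 186)) (XT.lf (nat_lit 0) (nat_lit 1347255227) (nat_lit 228) (nat_lit 19322417628) (nat_lit 76) (nat_lit 386347495) (nat_lit 19) (nat_lit 5) (nat_lit 22) (nat_lit 5) (nat_lit 20) (nat_lit 5) (nat_lit 289) (nat_lit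 246) (nat_lit 185)))))) (XT.nd (nat_lit 312) (nat_lit 304) (nat_lit 0) (XT.nd (nat_lit 156) (nat_lit 152) (nat_lit 0) (XT.nd (nat_lit 78) (nat_lit 0) (nat_lit 0) (XT.lf (nat_lit 0) (nat_lit 4592057112) (nat_lit 228) (nat_lit 11796991669) (nat_lit 76) (nat_lit 5444564571) (nat_lit 19) (nat_lit 5) (nat_lit 22) (nat_lit 5) (nat_lit 20) (nat_lit 5) (nat_lit 290) (nat_lit 246) (nat_lit 184)) (XT.lf (nat_lit 0) (nat_lit 7975975337) (nat_lit 228) (nat_lit 3931595615) (nat_lit 76) (nat_lit 10743716820) (nat_lit 19) (nat_lit 5) (nat_lit 22) (nat_lit 5) (nat_lit 20) (nat_lit 5) (nat_lit 291) (nat_lit 246) (nat_lit 183))) (XT.nd (nat_lit 78) (nat_lit 0) (nat_lit 0) (XT.lf (nat_lit 0) (nat_lit 4434427027) (nat_lit 152) (nat_lit 7141873654) (nat_lit 228) (nat_lit 11931228075) (nat_lit 17) (nat_lit 5) (nat_lit 19) (nat_lit 5) (nat_lit 20) (nat_lit 5) (nat_lit 292) (nat_lit 246) (nat_lit 182)) (XT.lf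 (nat_lit 0) (nat_lit 13321231973) (nat_lit 152) (nat_lit 2080488799) (nat_lit 228) (nat_lit 9002648434) (nat_lit 17) (nat_lit 5) (nat_lit 19) (nat_lit 5) (nat_lit 20) (nat_lit 5) (nat_lit 293) (nat_lit 246) (nat_lit 181)))) (XT.nd (nat_lit 156) (nat_lit 228) (nat_lit 0) (XT.nd (nat_lit 78) (nat_lit 76) (nat_lit 0) (XT.lf (nat_lit 0) (nat_lit 19448236165) (nat_lit 228) (nat_lit 2777438370) (nat_lit 76) (nat_lit 3118925300) (nat_lit 17) (nat_lit 5) (nat_lit 20) (nat_lit 5) (nat_lit 18) (nat_lit 4) (nat_lit 294) (nat_lit 246) (nat_lit 180)) (XT.lf (nat_lit 0) (nat_lit 6072095866) (nat_lit 76) (nat_lit 17734207446) (nat_lit 152) (nat_lit 2520114879) (nat_lit 16) (nat_lit 5) (nat_lit 17) (nat_lit 5) (nat_lit 18) (nat_lit 4) (nat_lit 295) (nat_lit 246) (nat_lit 179))) (XT.nd (nat_lit 78) (nat_lit 152) (nat_lit 0) (XT.lf (nat_lit 0) (nat_lit 1020367873) (nat_lit 152) (nat_lit 11943074358)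 (nat_lit 76) (nat_lit 14391707820) (nat_lit 15) (nat_lit 5) (nat_lit 17) (nat_lit 5) (nat_lit 16) (nat_lit 5) (nat_lit 296) (nat_lit 246) (nat_lit 178)) (XT.nd (nat_lit 78) (nat_lit 152) (nat_lit 0) (XT.lf (nat_lit 0) (nat_lit 4634532705) (nat_lit 152) (nat_lit 3287918847) (nat_lit 76) (nat_lit 20511766159) (nat_lit 15) (nat_lit 5) (nat_lit 17) (nat_lit 5) (nat_lit 16) (nat_lit 5) (nat_lit 297) (nat_lit 246) (nat_lit 177)) (XT.lf (nat_lit 0) (nat_lit 5961916332) (nat_lit 152) (nat_lit 2542810073) (nat_lit 228) (nat_lit 21058777165) (nat_lit 13) (nat_lit 5) (nat_lit 15) (nat_lit 5) (nat_lit 16) (nat_lit 5) (nat_lit 298) (nat_lit 246) (nat_lit 176))))))) (XT.nd (nat_lit 702) (nat_lit 228) (nat_lit 0) (XT.nd (nat_lit 312) (nat_lit 228) (nat_lit 0) (XT.nd (nat_lit 156) (nat_lit 76) (nat_lit 0) (XT.nd (nat_lit 78) (nat_lit 0) (nat_lit 0) (XT.lf (nat_lit 0) (nat_lit 12655983035) (nat_lit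 228) (nat_lit 15036635592) (nat_lit 76) (nat_lit 3052286812) (nat_lit 13) (nat_lit 5) (nat_lit 16) (nat_lit 5) (nat_lit 14) (nat_lit 4) (nat_lit 299) (nat_lit 246) (nat_lit 175)) (XT.lf (nat_lit 0) (nat_lit 17039790255) (nat_lit 228) (nat_lit 6112888539) (nat_lit 76) (nat_lit 8831477199) (nat_lit 13) (nat_lit 5) (nat_lit 16) (nat_lit 5) (nat_lit 14) (nat_lit 4) (nat_lit 300) (nat_lit 246) (nat_lit 174))) (XT.nd (nat_lit 78) (nat_lit 0) (nat_lit 0) (XT.lf (nat_lit 0) (nat_lit 3337419597) (nat_lit 76) (nat_lit 18341572188) (nat_lit 152) (nat_lit 11604593741) (nat_lit 12) (nat_lit 5) (nat_lit 13) (nat_lit 5) (nat_lit 14) (nat_lit 4) (nat_lit 301) (nat_lit 246) (nat_lit 173)) (XT.lf (nat_lit 0) (nat_lit 13446450815) (nat_lit 76) (nat_lit 13191675827) (nat_lit 152) (nat_lit 8005486610) (nat_lit 12) (nat_lit 5) (nat_lit 13) (nat_lit 5) (nat_lit 14) (nat_lit 4) (nat_lit 302) (nat_lit 246)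 (nat_lit 172)))) (XT.nd (nat_lit 156) (nat_lit 228) (nat_lit 0) (XT.nd (nat_lit 78) (nat_lit 0) (nat_lit 0) (XT.lf (nat_lit 0) (nat_lit 24036154533) (nat_lit 76) (nat_lit 7794252778) (nat_lit 152) (nat_lit 4241999769) (nat_lit 12) (nat_lit 5) (nat_lit 13) (nat_lit 5) (nat_lit 14) (nat_lit 4) (nat_lit 303) (nat_lit 246) (nat_lit 171)) (XT.lf (nat_lit 0) (nat_lit 35131744332) (nat_lit 76) (nat_lit 2136452036) (nat_lit 152) (nat_lit 305172534) (nat_lit 12) (nat_lit 5) (nat_lit 13) (nat_lit 5) (nat_lit 14) (nat_lit 4) (nat_lit 304) (nat_lit 246) (nat_lit 170))) (XT.nd (nat_lit 78) (nat_lit 0) (nat_lit 0) (XT.lf (nat_lit 0) (nat_lit 3876285526) (nat_lit 228) (nat_lit 31403581927) (nat_lit 76) (nat_lit 3858027301) (nat_lit 9) (nat_lit 5) (nat_lit 12) (nat_lit 5) (nat_lit 10) (nat_lit 4) (nat_lit 305) (nat_lit 246) (nat_lit 169)) (XT.nd (nat_lit 78) (nat_lit 0) (nat_lit 0) (XT.lf (nat_lit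 0) (nat_lit 8320092099) (nat_lit 228) (nat_lit 22338592420) (nat_lit 76) (nat_lit 10118555554) (nat_lit 9) (nat_lit 5) (nat_lit 12) (nat_lit 5) (nat_lit 10) (nat_lit 4) (nat_lit 306) (nat_lit 246) (nat_lit 168)) (XT.lf (nat_lit 0) (nat_lit 12973212464) (nat_lit 228) (nat_lit 12842375637) (nat_lit 76) (nat_lit 16683627319) (nat_lit 9) (nat_lit 5) (nat_lit 12) (nat_lit 5) (nat_lit 10) (nat_lit 4) (nat_lit 307) (nat_lit 246) (nat_lit 167)))))) (XT.nd (nat_lit 312) (nat_lit 152) (nat_lit 0) (XT.nd (nat_lit 156) (nat_lit 0) (nat_lit 0) (XT.nd (nat_lit 78) (nat_lit 76) (nat_lit 0) (XT.lf (nat_lit 0) (nat_lit 17846725481) (nat_lit 228) (nat_lit 2892321540) (nat_lit 76) (nat_lit 23568873720) (nat_lit 9) (nat_lit 5) (nat_lit 12) (nat_lit 5) (nat_lit 10) (nat_lit 4) (nat_lit 308) (nat_lit 246) (nat_lit 166)) (XT.lf (nat_lit 0) (nat_lit 7784410217) (nat_lit 76) (nat_lit 15289360994) (nat_lit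 152) (nat_lit 23127814442) (nat_lit 8) (nat_lit 5) (nat_lit 9) (nat_lit 5) (nat_lit 10) (nat_lit 4) (nat_lit 309) (nat_lit 246) (nat_lit 165))) (XT.nd (nat_lit 78) (nat_lit 0) (nat_lit 0) (XT.lf (nat_lit 0) (nat_lit 19075740826) (nat_lit 76) (nat_lit 9523981199) (nat_lit 152) (nat_lit 19588350504) (nat_lit 8) (nat_lit 5) (nat_lit 9) (nat_lit 5) (nat_lit 10) (nat_lit 4) (nat_lit 310) (nat_lit 246) (nat_lit 164)) (XT.lf (nat_lit 0) (nat_lit 30912921192) (nat_lit 76) (nat_lit 3478163409) (nat_lit 152) (nat_lit 15883359017) (nat_lit 8) (nat_lit 5) (nat_lit 9) (nat_lit 5) (nat_lit 10) (nat_lit 4) (nat_lit 311) (nat_lit 246) (nat_lit 163)))) (XT.nd (nat_lit 156) (nat_lit 76) (nat_lit 0) (XT.nd (nat_lit 78) (nat_lit 76) (nat_lit 0) (XT.lf (nat_lit 0) (nat_lit 40506339346) (nat_lit 152) (nat_lit 9186222839) (nat_lit 0) (nat_lit 2770869714) (nat_lit 8) (nat_lit 5) (nat_lit 10) (nat_lit 4) (nat_lit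 8) (nat_lit 4) (nat_lit 312) (nat_lit 246) (nat_lit 162)) (XT.lf (nat_lit 0) (nat_lit 1470514724) (nat_lit 76) (nat_lit 45526835411) (nat_lit 76) (nat_lit 7761033924) (nat_lit 7) (nat_lit 4) (nat_lit 8) (nat_lit 5) (nat_lit 8) (nat_lit 4) (nat_lit 313) (nat_lit 246) (nat_lit 161))) (XT.nd (nat_lit 78) (nat_lit 76) (nat_lit 0) (XT.lf (nat_lit 0) (nat_lit 12961920714) (nat_lit 76) (nat_lit 40996787844) (nat_lit 76) (nat_lit 3202098875) (nat_lit 7) (nat_lit 4) (nat_lit 8) (nat_lit 5) (nat_lit 8) (nat_lit 4) (nat_lit 314) (nat_lit 246) (nat_lit 160)) (XT.nd (nat_lit 78) (nat_lit 0) (nat_lit 0) (XT.lf (nat_lit 0) (nat_lit 1524584425) (nat_lit 152) (nat_lit 34696802783) (nat_lit 76) (nat_lit 23461213607) (nat_lit 6) (nat_lit 5) (nat_lit 8) (nat_lit 5) (nat_lit 7) (nat_lit 4) (nat_lit 315) (nat_lit 246) (nat_lit 159)) (XT.lf (nat_lit 0) (nat_lit 6370966039) (nat_lit 152) (nat_lit 24787922273)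 (nat_lit 76) (nat_lit 31169433726) (nat_lit 6) (nat_lit 5) (nat_lit 8) (nat_lit 5) (nat_lit 7) (nat_lit 4) (nat_lit 316) (nat_lit 246) (nat_lit 158))))))))
noncomputable def xc132 : XT := (XT.nd (nat_lit 1404) (nat_lit 152) (nat_lit 0) (XT.nd (nat_lit 702) (nat_lit 152) (nat_lit 0) (XT.nd (nat_lit 312) (nat_lit 0) (nat_lit 0) (XT.nd (nat_lit 156) (nat_lit 76) (nat_lit 0) (XT.nd (nat_lit 78) (nat_lit 0) (nat_lit 0) (XT.lf (nat_lit 0) (nat_lit 11451072130) (nat_lit 152) (nat_lit 14398658879) (nat_lit 76) (nat_lit 39257039115) (nat_lit 6) (nat_lit 5) (nat_lit 8) (nat_lit 5) (nat_lit 7) (nat_lit 4) (nat_lit 317) (nat_lit 246) (nat_lit 157)) (XT.lf (nat_lit 0) (nat_lit 16776998189) (nat_lit 152) (nat_lit 3504276260) (nat_lit 76) (nat_lit 47743285978) (nat_lit 6) (nat_lit 5) (nat_lit 8) (nat_lit 5) (nat_lit 7) (nat_lit 4) (nat_lit 318) (nat_lit 246) (nat_lit 156))) (XT.nd (nat_lit 78) (nat_lit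 0) (nat_lit 0) (XT.lf (nat_lit 0) (nat_lit 8183074065) (nat_lit 76) (nat_lit 14306111648) (nat_lit 152) (nat_lit 48593066319) (nat_lit 5) (nat_lit 5) (nat_lit 6) (nat_lit 5) (nat_lit 7) (nat_lit 4) (nat_lit 319) (nat_lit 246) (nat_lit 155)) (XT.lf (nat_lit 0) (nat_lit 20563011903) (nat_lit 76) (nat_lit 7975683137) (nat_lit 152) (nat_lit 45751557119) (nat_lit 5) (nat_lit 5) (nat_lit 6) (nat_lit 5) (nat_lit 7) (nat_lit 4) (nat_lit 320) (nat_lit 246) (nat_lit 154)))) (XT.nd (nat_lit 156) (nat_lit 0) (nat_lit 0) (XT.nd (nat_lit 78) (nat_lit 0) (nat_lit 0) (XT.lf (nat_lit 0) (nat_lit 33549146097) (nat_lit 76) (nat_lit 1334263083) (nat_lit 152) (nat_lit 42775615754) (nat_lit 5) (nat_lit 5) (nat_lit 6) (nat_lit 5) (nat_lit 7) (nat_lit 4) (nat_lit 321) (nat_lit 246) (nat_lit 153)) (XT.lf (nat_lit 0) (nat_lit 41626396524) (nat_lit 152) (nat_lit 34112157159) (nat_lit 0) (nat_lit 5453639467)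 (nat_lit 5) (nat_lit 5) (nat_lit 7) (nat_lit 4) (nat_lit 5) (nat_lit 4) (nat_lit 322) (nat_lit 246) (nat_lit 152))) (XT.nd (nat_lit 78) (nat_lit 0) (nat_lit 0) (XT.lf (nat_lit 0) (nat_lit 48721733392) (nat_lit 152) (nat_lit 23648292712) (nat_lit 0) (nat_lit 12531241928) (nat_lit 5) (nat_lit 5) (nat_lit 7) (nat_lit 4) (nat_lit 5) (nat_lit 4) (nat_lit 323) (nat_lit 246) (nat_lit 151)) (XT.nd (nat_lit 78) (nat_lit 0) (nat_lit 0) (XT.lf (nat_lit 0) (nat_lit 56165481859) (nat_lit 152) (nat_lit 12672539948) (nat_lit 0) (nat_lit 19958100482) (nat_lit 5) (nat_lit 5) (nat_lit 7) (nat_lit 4) (nat_lit 5) (nat_lit 4) (nat_lit 324) (nat_lit 246) (nat_lit 150)) (XT.lf (nat_lit 0) (nat_lit 63975365135) (nat_lit 152) (nat_lit 1158766121) (nat_lit 0) (nat_lit 27751898127) (nat_lit 5) (nat_lit 5) (nat_lit 7) (nat_lit 4) (nat_lit 5) (nat_lit 4) (nat_lit 325) (nat_lit 246) (nat_lit 149)))))) (XT.nd (nat_lit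 312) (nat_lit 76) (nat_lit 0) (XT.nd (nat_lit 156) (nat_lit 0) (nat_lit 0) (XT.nd (nat_lit 78) (nat_lit 0) (nat_lit 0) (XT.lf (nat_lit 0) (nat_lit 11281521661) (nat_lit 76) (nat_lit 61064592689) (nat_lit 76) (nat_lit 24825806033) (nat_lit 4) (nat_lit 4) (nat_lit 5) (nat_lit 5) (nat_lit 5) (nat_lit 4) (nat_lit 326) (nat_lit 246) (nat_lit 148)) (XT.lf (nat_lit 0) (nat_lit 24373965079) (nat_lit 76) (nat_lit 56775412802) (nat_lit 76) (nat_lit 20522036005) (nat_lit 4) (nat_lit 4) (nat_lit 5) (nat_lit 5) (nat_lit 5) (nat_lit 4) (nat_lit 327) (nat_lit 246) (nat_lit 147))) (XT.nd (nat_lit 78) (nat_lit 0) (nat_lit 0) (XT.lf (nat_lit 0) (nat_lit 38111422576) (nat_lit 76) (nat_lit 52276003528) (nat_lit 76) (nat_lit 16008731358) (nat_lit 4) (nat_lit 4) (nat_lit 5) (nat_lit 5) (nat_lit 5) (nat_lit 4) (nat_lit 328) (nat_lit 246) (nat_lit 146)) (XT.lf (nat_lit 0) (nat_lit 52526602383) (nat_lit 76)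 (nat_lit 47555651988) (nat_lit 76) (nat_lit 11275146130) (nat_lit 4) (nat_lit 4) (nat_lit 5) (nat_lit 5) (nat_lit 5) (nat_lit 4) (nat_lit 329) (nat_lit 246) (nat_lit 145)))) (XT.nd (nat_lit 156) (nat_lit 76) (nat_lit 0) (XT.nd (nat_lit 78) (nat_lit 0) (nat_lit 0) (XT.lf (nat_lit 0) (nat_lit 67653826358) (nat_lit 76) (nat_lit 42603119250) (nat_lit 76) (nat_lit 6310009879) (nat_lit 4) (nat_lit 4) (nat_lit 5) (nat_lit 5) (nat_lit 5) (nat_lit 4) (nat_lit 330) (nat_lit 246) (nat_lit 144)) (XT.lf (nat_lit 0) (nat_lit 83529111700) (nat_lit 76) (nat_lit 37406613568) (nat_lit 76) (nat_lit 1101500852) (nat_lit 4) (nat_lit 4) (nat_lit 5) (nat_lit 5) (nat_lit 5) (nat_lit 4) (nat_lit 331) (nat_lit 246) (nat_lit 143))) (XT.nd (nat_lit 78) (nat_lit 0) (nat_lit 0) (XT.lf (nat_lit 0) (nat_lit 4223145886) (nat_lit 152) (nat_lit 27659095406) (nat_lit 76) (nat_lit 95895589803) (nat_lit 3) (nat_lit 5)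 (nat_lit 5) (nat_lit 5) (nat_lit 4) (nat_lit 4) (nat_lit 332) (nat_lit 246) (nat_lit 142)) (XT.nd (nat_lit 78) (nat_lit 0) (nat_lit 0) (XT.lf (nat_lit 0) (nat_lit 9772719131) (nat_lit 152) (nat_lit 16293357641) (nat_lit 76) (nat_lit 107738705916) (nat_lit 3) (nat_lit 5) (nat_lit 5) (nat_lit 5) (nat_lit 4) (nat_lit 4) (nat_lit 333) (nat_lit 246) (nat_lit 141)) (XT.lf (nat_lit 0) (nat_lit 15595687059) (nat_lit 152) (nat_lit 4366642330) (nat_lit 76) (nat_lit 120170961272) (nat_lit 3) (nat_lit 5) (nat_lit 5) (nat_lit 5) (nat_lit 4) (nat_lit 4) (nat_lit 334) (nat_lit 246) (nat_lit 140))))))) (XT.nd (nat_lit 702) (nat_lit 76) (nat_lit 0) (XT.nd (nat_lit 312) (nat_lit 0) (nat_lit 0) (XT.nd (nat_lit 156) (nat_lit 0) (nat_lit 0) (XT.nd (nat_lit 78) (nat_lit 0) (nat_lit 0) (XT.lf (nat_lit 0) (nat_lit 8418905005) (nat_lit 76) (nat_lit 13418451574) (nat_lit 152) (nat_lit 124934494175) (nat_lit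 2) (nat_lit 5) (nat_lit 3) (nat_lit 5) (nat_lit 4) (nat_lit 4) (nat_lit 335) (nat_lit 246) (nat_lit 139)) (XT.lf (nat_lit 0) (nat_lit 21988480669) (nat_lit 76) (nat_lit 6472768885) (nat_lit 152) (nat_lit 125277586472) (nat_lit 2) (nat_lit 5) (nat_lit 3) (nat_lit 5) (nat_lit 4) (nat_lit 4) (nat_lit 336) (nat_lit 246) (nat_lit 138))) (XT.nd (nat_lit 78) (nat_lit 0) (nat_lit 0) (XT.lf (nat_lit 0) (nat_lit 35425467863) (nat_lit 152) (nat_lit 124837104182) (nat_lit 0) (nat_lit 791145957) (nat_lit 2) (nat_lit 5) (nat_lit 4) (nat_lit 4) (nat_lit 2) (nat_lit 4) (nat_lit 337) (nat_lit 246) (nat_lit 137)) (XT.lf (nat_lit 0) (nat_lit 42840508141) (nat_lit 152) (nat_lit 117690647269) (nat_lit 0) (nat_lit 8198061899) (nat_lit 2) (nat_lit 5) (nat_lit 4) (nat_lit 4) (nat_lit 2) (nat_lit 4) (nat_lit 338) (nat_lit 246) (nat_lit 136)))) (XT.nd (nat_lit 156) (nat_lit 0) (nat_lit 0) (XT.nd (nat_lit 78)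 (nat_lit 0) (nat_lit 0) (XT.lf (nat_lit 0) (nat_lit 50622967187) (nat_lit 152) (nat_lit 110192911183) (nat_lit 0) (nat_lit 15972783481) (nat_lit 2) (nat_lit 5) (nat_lit 4) (nat_lit 4) (nat_lit 2) (nat_lit 4) (nat_lit 339) (nat_lit 246) (nat_lit 135)) (XT.lf (nat_lit 0) (nat_lit 58791374663) (nat_lit 152) (nat_lit 102326044169) (nat_lit 0) (nat_lit 24133821945) (nat_lit 2) (nat_lit 5) (nat_lit 4) (nat_lit 4) (nat_lit 2) (nat_lit 4) (nat_lit 340) (nat_lit 246) (nat_lit 134))) (XT.nd (nat_lit 78) (nat_lit 0) (nat_lit 0) (XT.lf (nat_lit 0) (nat_lit 67365179159) (nat_lit 152) (nat_lit 94071315594) (nat_lit 0) (nat_lit 32700608334) (nat_lit 2) (nat_lit 5) (nat_lit 4) (nat_lit 4) (nat_lit 2) (nat_lit 4) (nat_lit 341) (nat_lit 246) (nat_lit 133)) (XT.nd (nat_lit 78) (nat_lit 0) (nat_lit 0) (XT.lf (nat_lit 0) (nat_lit 76364794496) (nat_lit 152) (nat_lit 85409071341) (nat_lit 0) (nat_lit 41693539759)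 (nat_lit 2) (nat_lit 5) (nat_lit 4) (nat_lit 4) (nat_lit 2) (nat_lit 4) (nat_lit 342) (nat_lit 246) (nat_lit 132)) (XT.lf (nat_lit 0) (nat_lit 85811648329) (nat_lit 152) (nat_lit 76318687020) (nat_lit 0) (nat_lit 51134027961) (nat_lit 2) (nat_lit 5) (nat_lit 4) (nat_lit 4) (nat_lit 2) (nat_lit 4) (nat_lit 343) (nat_lit 246) (nat_lit 131)))))) (XT.nd (nat_lit 312) (nat_lit 76) (nat_lit 0) (XT.nd (nat_lit 156) (nat_lit 0) (nat_lit 0) (XT.nd (nat_lit 78) (nat_lit 0) (nat_lit 0) (XT.lf (nat_lit 0) (nat_lit 95728233167) (nat_lit 152) (nat_lit 66778518857) (nat_lit 0) (nat_lit 61044550294) (nat_lit 2) (nat_lit 5) (nat_lit 4) (nat_lit 4) (nat_lit 2) (nat_lit 4) (nat_lit 344) (nat_lit 246) (nat_lit 130)) (XT.lf (nat_lit 0) (nat_lit 106138159927) (nat_lit 152) (nat_lit 56765852167) (nat_lit 0) (nat_lit 71448703240) (nat_lit 2) (nat_lit 5) (nat_lit 4) (nat_lit 4) (nat_lit 2) (nat_lit 4) (nat_lit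 345) (nat_lit 246) (nat_lit 129))) (XT.nd (nat_lit 78) (nat_lit 0) (nat_lit 0) (XT.lf (nat_lit 0) (nat_lit 117066214148) (nat_lit 152) (nat_lit 46256847267) (nat_lit 0) (nat_lit 82371258590) (nat_lit 2) (nat_lit 5) (nat_lit 4) (nat_lit 4) (nat_lit 2) (nat_lit 4) (nat_lit 346) (nat_lit 246) (nat_lit 128)) (XT.lf (nat_lit 0) (nat_lit 128538415007) (nat_lit 152) (nat_lit 35226482718) (nat_lit 0) (nat_lit 93838222429) (nat_lit 2) (nat_lit 5) (nat_lit 4) (nat_lit 4) (nat_lit 2) (nat_lit 4) (nat_lit 347) (nat_lit 246) (nat_lit 127)))) (XT.nd (nat_lit 156) (nat_lit 76) (nat_lit 0) (XT.nd (nat_lit 78) (nat_lit 0) (nat_lit 0) (XT.lf (nat_lit 0) (nat_lit 140582077268) (nat_lit 152) (nat_lit 23648495746) (nat_lit 0) (nat_lit 105876897052) (nat_lit 2) (nat_lit 5) (nat_lit 4) (nat_lit 4) (nat_lit 2) (nat_lit 4) (nat_lit 348) (nat_lit 246) (nat_lit 126)) (XT.lf (nat_lit 0) (nat_lit 153225876317)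 (nat_lit 152) (nat_lit 11495319715) (nat_lit 0) (nat_lit 118515945970) (nat_lit 2) (nat_lit 5) (nat_lit 4) (nat_lit 4) (nat_lit 2) (nat_lit 4) (nat_lit 349) (nat_lit 246) (nat_lit 125))) (XT.nd (nat_lit 78) (nat_lit 0) (nat_lit 0) (XT.lf (nat_lit 0) (nat_lit 1303708314) (nat_lit 76) (nat_lit 165216562665) (nat_lit 76) (nat_lit 130502108383) (nat_lit 1) (nat_lit 4) (nat_lit 2) (nat_lit 5) (nat_lit 2) (nat_lit 4) (nat_lit 350) (nat_lit 246) (nat_lit 124)) (XT.nd (nat_lit 78) (nat_lit 0) (nat_lit 0) (XT.lf (nat_lit 0) (nat_lit 15138302673) (nat_lit 76) (nat_lit 165533851146) (nat_lit 76) (nat_lit 130815088355) (nat_lit 1) (nat_lit 4) (nat_lit 2) (nat_lit 5) (nat_lit 2) (nat_lit 4) (nat_lit 351) (nat_lit 246) (nat_lit 123)) (XT.lf (nat_lit 0) (nat_lit 29661315686) (nat_lit 76) (nat_lit 165868495727) (nat_lit 76) (nat_lit 131145629594) (nat_lit 1) (nat_lit 4) (nat_lit 2) (nat_lit 5) (nat_lit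 2) (nat_lit 4) (nat_lit 352) (nat_lit 246) (nat_lit 122))))))))
noncomputable def xc133 : XT := (XT.nd (nat_lit 29874) (nat_lit 0) (nat_lit 3116) (XT.nd (nat_lit 702) (nat_lit 0) (nat_lit 0) (XT.nd (nat_lit 312) (nat_lit 0) (nat_lit 0) (XT.nd (nat_lit 156) (nat_lit 0) (nat_lit 0) (XT.nd (nat_lit 78) (nat_lit 0) (nat_lit 0) (XT.lf (nat_lit 0) (nat_lit 44907325958) (nat_lit 76) (nat_lit 166221293180) (nat_lit 76) (nat_lit 131494519102) (nat_lit 1) (nat_lit 4) (nat_lit 2) (nat_lit 5) (nat_lit 2) (nat_lit 4) (nat_lit 353) (nat_lit 246) (nat_lit 121)) (XT.lf (nat_lit 0) (nat_lit 60912633511) (nat_lit 76) (nat_lit 166593083500) (nat_lit 76) (nat_lit 131862587570) (nat_lit 1) (nat_lit 4) (nat_lit 2) (nat_lit 5) (nat_lit 2) (nat_lit 4) (nat_lit 354) (nat_lit 246) (nat_lit 120))) (XT.nd (nat_lit 78) (nat_lit 0) (nat_lit 0) (XT.lf (nat_lit 0) (nat_lit 77715346221) (nat_lit 76) (nat_lit 166984751902)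 (nat_lit 76) (nat_lit 132250711351) (nat_lit 1) (nat_lit 4) (nat_lit 2) (nat_lit 5) (nat_lit 2) (nat_lit 4) (nat_lit 355) (nat_lit 246) (nat_lit 119)) (XT.lf (nat_lit 0) (nat_lit 95355470547) (nat_lit 76) (nat_lit 167397230929) (nat_lit 76) (nat_lit 132659814548) (nat_lit 1) (nat_lit 4) (nat_lit 2) (nat_lit 5) (nat_lit 2) (nat_lit 4) (nat_lit 356) (nat_lit 246) (nat_lit 118)))) (XT.nd (nat_lit 156) (nat_lit 0) (nat_lit 0) (XT.nd (nat_lit 78) (nat_lit 0) (nat_lit 0) (XT.lf (nat_lit 0) (nat_lit 113875006785) (nat_lit 76) (nat_lit 167831502674) (nat_lit 76) (nat_lit 133090871217) (nat_lit 1) (nat_lit 4) (nat_lit 2) (nat_lit 5) (nat_lit 2) (nat_lit 4) (nat_lit 357) (nat_lit 246) (nat_lit 117)) (XT.lf (nat_lit 0) (nat_lit 133318049068) (nat_lit 76) (nat_lit 168288601118) (nat_lit 76) (nat_lit 133544907684) (nat_lit 1) (nat_lit 4) (nat_lit 2) (nat_lit 5) (nat_lit 2) (nat_lit 4) (nat_lit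 358) (nat_lit 246) (nat_lit 116))) (XT.nd (nat_lit 78) (nat_lit 0) (nat_lit 0) (XT.lf (nat_lit 0) (nat_lit 153730890355) (nat_lit 76) (nat_lit 168769614590) (nat_lit 76) (nat_lit 134023004988) (nat_lit 1) (nat_lit 4) (nat_lit 2) (nat_lit 5) (nat_lit 2) (nat_lit 4) (nat_lit 359) (nat_lit 246) (nat_lit 115)) (XT.nd (nat_lit 78) (nat_lit 0) (nat_lit 0) (XT.lf (nat_lit 0) (nat_lit 175162132649) (nat_lit 76) (nat_lit 169275688361) (nat_lit 76) (nat_lit 134526301456) (nat_lit 1) (nat_lit 4) (nat_lit 2) (nat_lit 5) (nat_lit 2) (nat_lit 4) (nat_lit 360) (nat_lit 246) (nat_lit 114)) (XT.lf (nat_lit 0) (nat_lit 197662802717) (nat_lit 76) (nat_lit 169808027368) (nat_lit 76) (nat_lit 135055995412) (nat_lit 1) (nat_lit 4) (nat_lit 2) (nat_lit 5) (nat_lit 2) (nat_lit 4) (nat_lit 361) (nat_lit 246) (nat_lit 113)))))) (XT.nd (nat_lit 28782) (nat_lit 0) (nat_lit 6612) (XT.nd (nat_lit 28626) (nat_lit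 0) (nat_lit 7068) (XT.nd (nat_lit 28548) (nat_lit 0) (nat_lit 7524) (XT.lf (nat_lit 0) (nat_lit 221286473582) (nat_lit 76) (nat_lit 170367899085) (nat_lit 76) (nat_lit 135613348032) (nat_lit 1) (nat_lit 4) (nat_lit 2) (nat_lit 5) (nat_lit 2) (nat_lit 4) (nat_lit 362) (nat_lit 246) (nat_lit 112)) (XT.lf (nat_lit 0) (nat_lit 1177650996) (nat_lit 0) (nat_lit 1177650996) (nat_lit 380) (nat_lit 1160284628) (nat_lit 100) (nat_lit 5) (nat_lit 100) (nat_lit 3) (nat_lit 105) (nat_lit 3) (nat_lit 247) (nat_lit 247) (nat_lit 226))) (XT.nd (nat_lit 78) (nat_lit 456) (nat_lit 0) (XT.lf (nat_lit 0) (nat_lit 5517293631) (nat_lit 0) (nat_lit 899901192) (nat_lit 380) (nat_lit 702540497) (nat_lit 100) (nat_lit 5) (nat_lit 100) (nat_lit 3) (nat_lit 105) (nat_lit 3) (nat_lit 248) (nat_lit 247) (nat_lit 225)) (XT.lf (nat_lit 0) (nat_lit 896956785) (nat_lit 456) (nat_lit 5621866250) (nat_lit 532) (nat_lit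 696975813) (nat_lit 94) (nat_lit 5) (nat_lit 100) (nat_lit 5) (nat_lit 101) (nat_lit 5) (nat_lit 249) (nat_lit 247) (nat_lit 224)))) (XT.nd (nat_lit 156) (nat_lit 456) (nat_lit 0) (XT.nd (nat_lit 78) (nat_lit 0) (nat_lit 0) (XT.lf (nat_lit 0) (nat_lit 2496121092) (nat_lit 456) (nat_lit 2396296518) (nat_lit 532) (nat_lit 2426958465) (nat_lit 94) (nat_lit 5) (nat_lit 100) (nat_lit 5) (nat_lit 101) (nat_lit 5) (nat_lit 250) (nat_lit 247) (nat_lit 223)) (XT.lf (nat_lit 76) (nat_lit 964239866) (nat_lit 0) (nat_lit 3131740745) (nat_lit 532) (nat_lit 3336544686) (nat_lit 95) (nat_lit 5) (nat_lit 94) (nat_lit 5) (nat_lit 101) (nat_lit 5) (nat_lit 251) (nat_lit 247) (nat_lit 222))) (XT.nd (nat_lit 78) (nat_lit 456) (nat_lit 0) (XT.lf (nat_lit 76) (nat_lit 4519745699) (nat_lit 0) (nat_lit 1205965428) (nat_lit 532) (nat_lit 1828536460) (nat_lit 95) (nat_lit 5) (nat_lit 94) (nat_lit 5) (nat_lit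 101) (nat_lit 5) (nat_lit 252) (nat_lit 247) (nat_lit 221)) (XT.nd (nat_lit 78) (nat_lit 532) (nat_lit 0) (XT.lf (nat_lit 76) (nat_lit 515948520) (nat_lit 0) (nat_lit 6855903769) (nat_lit 532) (nat_lit 313847504) (nat_lit 96) (nat_lit 5) (nat_lit 95) (nat_lit 5) (nat_lit 102) (nat_lit 5) (nat_lit 253) (nat_lit 247) (nat_lit 220)) (XT.lf (nat_lit 0) (nat_lit 1223318760) (nat_lit 532) (nat_lit 3573416351) (nat_lit 608) (nat_lit 3026966637) (nat_lit 88) (nat_lit 5) (nat_lit 95) (nat_lit 5) (nat_lit 96) (nat_lit 5) (nat_lit 254) (nat_lit 247) (nat_lit 219))))))) (XT.nd (nat_lit 702) (nat_lit 1672) (nat_lit 0) (XT.nd (nat_lit 312) (nat_lit 1368) (nat_lit 0) (XT.nd (nat_lit 156) (nat_lit 456) (nat_lit 0) (XT.nd (nat_lit 78) (nat_lit 0) (nat_lit 0) (XT.lf (nat_lit 76) (nat_lit 144116761) (nat_lit 0) (nat_lit 2604546554) (nat_lit 608) (nat_lit 5223926769) (nat_lit 89) (nat_lit 5) (nat_lit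 88) (nat_lit 5) (nat_lit 96) (nat_lit 5) (nat_lit 255) (nat_lit 247) (nat_lit 218)) (XT.lf (nat_lit 76) (nat_lit 4114438199) (nat_lit 0) (nat_lit 218907170) (nat_lit 608) (nat_lit 3796744815) (nat_lit 89) (nat_lit 5) (nat_lit 88) (nat_lit 5) (nat_lit 96) (nat_lit 5) (nat_lit 256) (nat_lit 247) (nat_lit 217))) (XT.nd (nat_lit 78) (nat_lit 532) (nat_lit 0) (XT.lf (nat_lit 0) (nat_lit 5959495133) (nat_lit 532) (nat_lit 106603916) (nat_lit 76) (nat_lit 2231560141) (nat_lit 89) (nat_lit 5) (nat_lit 96) (nat_lit 5) (nat_lit 90) (nat_lit 5) (nat_lit 257) (nat_lit 247) (nat_lit 216)) (XT.lf (nat_lit 0) (nat_lit 4068601675) (nat_lit 532) (nat_lit 3595502119) (nat_lit 608) (nat_lit 809936311) (nat_lit 82) (nat_lit 5) (nat_lit 89) (nat_lit 5) (nat_lit 90) (nat_lit 5) (nat_lit 258) (nat_lit 247) (nat_lit 215)))) (XT.nd (nat_lit 156) (nat_lit 684) (nat_lit 0) (XT.nd (nat_lit 78) (nat_lit 608) (nat_lit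 0) (XT.lf (nat_lit 0) (nat_lit 702240512) (nat_lit 608) (nat_lit 272884048) (nat_lit 76) (nat_lit 7687110442) (nat_lit 81) (nat_lit 5) (nat_lit 89) (nat_lit 5) (nat_lit 82) (nat_lit 5) (nat_lit 259) (nat_lit 247) (nat_lit 214)) (XT.lf (nat_lit 0) (nat_lit 2290886711) (nat_lit 684) (nat_lit 4758262995) (nat_lit 76) (nat_lit 1808873475) (nat_lit 73) (nat_lit 5) (nat_lit 82) (nat_lit 5) (nat_lit 74) (nat_lit 5) (nat_lit 260) (nat_lit 247) (nat_lit 213))) (XT.nd (nat_lit 78) (nat_lit 684) (nat_lit 0) (XT.lf (nat_lit 0) (nat_lit 3916492337) (nat_lit 684) (nat_lit 436411461) (nat_lit 76) (nat_lit 4713060045) (nat_lit 73) (nat_lit 5) (nat_lit 82) (nat_lit 5) (nat_lit 74) (nat_lit 5) (nat_lit 261) (nat_lit 247) (nat_lit 212)) (XT.nd (nat_lit 78) (nat_lit 0) (nat_lit 0) (XT.lf (nat_lit 0) (nat_lit 4180584208) (nat_lit 684) (nat_lit 1447916370) (nat_lit 760) (nat_lit 3655772871) (nat_lit 64)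 (nat_lit 5) (nat_lit 73) (nat_lit 5) (nat_lit 74) (nat_lit 5) (nat_lit 262) (nat_lit 247) (nat_lit 211)) (XT.lf (nat_lit 0) (nat_lit 7400579219) (nat_lit 760) (nat_lit 551745977) (nat_lit 76) (nat_lit 1562667012) (nat_lit 64) (nat_lit 5) (nat_lit 74) (nat_lit 5) (nat_lit 65) (nat_lit 5) (nat_lit 263) (nat_lit 247) (nat_lit 210)))))) (XT.nd (nat_lit 312) (nat_lit 912) (nat_lit 0) (XT.nd (nat_lit 156) (nat_lit 380) (nat_lit 0) (XT.nd (nat_lit 78) (nat_lit 76) (nat_lit 0) (XT.lf (nat_lit 0) (nat_lit 4286923598) (nat_lit 304) (nat_lit 5009711393) (nat_lit 380) (nat_lit 459050083) (nat_lit 60) (nat_lit 5) (nat_lit 64) (nat_lit 5) (nat_lit 65) (nat_lit 5) (nat_lit 264) (nat_lit 247) (nat_lit 209)) (XT.lf (nat_lit 0) (nat_lit 1193076265) (nat_lit 380) (nat_lit 696844633) (nat_lit 76) (nat_lit 8119934088) (nat_lit 59) (nat_lit 5) (nat_lit 64) (nat_lit 5) (nat_lit 60) (nat_lit 5) (nat_lit 265)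 (nat_lit 247) (nat_lit 208))) (XT.nd (nat_lit 78) (nat_lit 0) (nat_lit 0) (XT.lf (nat_lit 0) (nat_lit 2951890560) (nat_lit 456) (nat_lit 5904616194) (nat_lit 76) (nat_lit 1418053601) (nat_lit 54) (nat_lit 5) (nat_lit 60) (nat_lit 5) (nat_lit 55) (nat_lit 5) (nat_lit 266) (nat_lit 247) (nat_lit 207)) (XT.lf (nat_lit 0) (nat_lit 4791294847) (nat_lit 456) (nat_lit 923446025) (nat_lit 76) (nat_lit 4838297815) (nat_lit 54) (nat_lit 5) (nat_lit 60) (nat_lit 5) (nat_lit 55) (nat_lit 5) (nat_lit 267) (nat_lit 247) (nat_lit 206)))) (XT.nd (nat_lit 156) (nat_lit 608) (nat_lit 0) (XT.nd (nat_lit 78) (nat_lit 0) (nat_lit 0) (XT.lf (nat_lit 0) (nat_lit 4395440781) (nat_lit 304) (nat_lit 2347922385) (nat_lit 380) (nat_lit 4101205136) (nat_lit 50) (nat_lit 5) (nat_lit 54) (nat_lit 5) (nat_lit 55) (nat_lit 5) (nat_lit 268) (nat_lit 247) (nat_lit 205)) (XT.lf (nat_lit 0) (nat_lit 8780944415) (nat_lit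 380) (nat_lit 1209940161) (nat_lit 76) (nat_lit 1160548683) (nat_lit 50) (nat_lit 5) (nat_lit 55) (nat_lit 5) (nat_lit 51) (nat_lit 5) (nat_lit 269) (nat_lit 247) (nat_lit 204))) (XT.nd (nat_lit 78) (nat_lit 304) (nat_lit 0) (XT.lf (nat_lit 0) (nat_lit 4340607211) (nat_lit 304) (nat_lit 6641750455) (nat_lit 380) (nat_lit 488333141) (nat_lit 46) (nat_lit 5) (nat_lit 50) (nat_lit 5) (nat_lit 51) (nat_lit 5) (nat_lit 270) (nat_lit 247) (nat_lit 203)) (XT.nd (nat_lit 78) (nat_lit 228) (nat_lit 0) (XT.lf (nat_lit 0) (nat_lit 1417313262) (nat_lit 380) (nat_lit 1669559475) (nat_lit 76) (nat_lit 8719159984) (nat_lit 45) (nat_lit 5) (nat_lit 50) (nat_lit 5) (nat_lit 46) (nat_lit 5) (nat_lit 271) (nat_lit 247) (nat_lit 202)) (XT.lf (nat_lit 0) (nat_lit 3435874171) (nat_lit 304) (nat_lit 8028742460) (nat_lit 76) (nat_lit 691549630) (nat_lit 42) (nat_lit 5) (nat_lit 46) (nat_lit 5) (nat_lit 43)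 (nat_lit 5) (nat_lit 272) (nat_lit 247) (nat_lit 201))))))))
noncomputable def xc134 : XT := (XT.nd (nat_lit 1404) (nat_lit 760) (nat_lit 0) (XT.nd (nat_lit 702) (nat_lit 836) (nat_lit 0) (XT.nd (nat_lit 312) (nat_lit 456) (nat_lit 0) (XT.nd (nat_lit 156) (nat_lit 228) (nat_lit 0) (XT.nd (nat_lit 78) (nat_lit 228) (nat_lit 0) (XT.lf (nat_lit 0) (nat_lit 5594076040) (nat_lit 304) (nat_lit 2351794406) (nat_lit 76) (nat_lit 4576121318) (nat_lit 42) (nat_lit 5) (nat_lit 46) (nat_lit 5) (nat_lit 43) (nat_lit 5) (nat_lit 273) (nat_lit 247) (nat_lit 200)) (XT.lf (nat_lit 0) (nat_lit 3678593046) (nat_lit 228) (nat_lit 4200332981) (nat_lit 304) (nat_lit 5026360782) (nat_lit 39) (nat_lit 5) (nat_lit 42) (nat_lit 5) (nat_lit 43) (nat_lit 5) (nat_lit 274) (nat_lit 247) (nat_lit 199))) (XT.nd (nat_lit 78) (nat_lit 228) (nat_lit 0) (XT.lf (nat_lit 0) (nat_lit 10044779457) (nat_lit 228) (nat_lit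 235475769) (nat_lit 304) (nat_lit 3027489231) (nat_lit 39) (nat_lit 5) (nat_lit 42) (nat_lit 5) (nat_lit 43) (nat_lit 5) (nat_lit 275) (nat_lit 247) (nat_lit 198)) (XT.lf (nat_lit 0) (nat_lit 2986347859) (nat_lit 228) (nat_lit 9887302158) (nat_lit 304) (nat_lit 853179477) (nat_lit 36) (nat_lit 5) (nat_lit 39) (nat_lit 5) (nat_lit 40) (nat_lit 5) (nat_lit 276) (nat_lit 247) (nat_lit 197)))) (XT.nd (nat_lit 156) (nat_lit 152) (nat_lit 0) (XT.nd (nat_lit 78) (nat_lit 228) (nat_lit 0) (XT.lf (nat_lit 0) (nat_lit 1408483046) (nat_lit 304) (nat_lit 4577166418) (nat_lit 76) (nat_lit 8178977810) (nat_lit 35) (nat_lit 5) (nat_lit 39) (nat_lit 5) (nat_lit 36) (nat_lit 5) (nat_lit 277) (nat_lit 247) (nat_lit 196)) (XT.lf (nat_lit 0) (nat_lit 1895884621) (nat_lit 228) (nat_lit 1854343364) (nat_lit 304) (nat_lit 10873694284) (nat_lit 32) (nat_lit 5) (nat_lit 35) (nat_lit 5) (nat_lit 36) (nat_lit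 5) (nat_lit 278) (nat_lit 247) (nat_lit 195))) (XT.nd (nat_lit 78) (nat_lit 152) (nat_lit 0) (XT.lf (nat_lit 0) (nat_lit 6293438606) (nat_lit 304) (nat_lit 6336808830) (nat_lit 76) (nat_lit 2471801598) (nat_lit 32) (nat_lit 5) (nat_lit 36) (nat_lit 5) (nat_lit 33) (nat_lit 5) (nat_lit 279) (nat_lit 247) (nat_lit 194)) (XT.nd (nat_lit 78) (nat_lit 0) (nat_lit 0) (XT.lf (nat_lit 0) (nat_lit 309729792) (nat_lit 152) (nat_lit 8657711271) (nat_lit 228) (nat_lit 6636541358) (nat_lit 30) (nat_lit 5) (nat_lit 32) (nat_lit 5) (nat_lit 33) (nat_lit 5) (nat_lit 280) (nat_lit 247) (nat_lit 193)) (XT.lf (nat_lit 0) (nat_lit 7465535089) (nat_lit 152) (nat_lit 4386154606) (nat_lit 228) (nat_lit 4275573431) (nat_lit 30) (nat_lit 5) (nat_lit 32) (nat_lit 5) (nat_lit 33) (nat_lit 5) (nat_lit 281) (nat_lit 247) (nat_lit 192)))))) (XT.nd (nat_lit 312) (nat_lit 380) (nat_lit 0) (XT.nd (nat_lit 156) (nat_lit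 152) (nat_lit 0) (XT.nd (nat_lit 78) (nat_lit 304) (nat_lit 0) (XT.lf (nat_lit 0) (nat_lit 14852207790) (nat_lit 228) (nat_lit 1741488835) (nat_lit 76) (nat_lit 84482630) (nat_lit 30) (nat_lit 5) (nat_lit 33) (nat_lit 5) (nat_lit 31) (nat_lit 5) (nat_lit 282) (nat_lit 247) (nat_lit 191)) (XT.lf (nat_lit 0) (nat_lit 855430037) (nat_lit 304) (nat_lit 11672481895) (nat_lit 76) (nat_lit 4721554171) (nat_lit 26) (nat_lit 5) (nat_lit 30) (nat_lit 5) (nat_lit 27) (nat_lit 5) (nat_lit 283) (nat_lit 247) (nat_lit 190))) (XT.nd (nat_lit 78) (nat_lit 152) (nat_lit 0) (XT.lf (nat_lit 0) (nat_lit 3611633057) (nat_lit 304) (nat_lit 4597102649) (nat_lit 76) (nat_lit 9639044216) (nat_lit 26) (nat_lit 5) (nat_lit 30) (nat_lit 5) (nat_lit 27) (nat_lit 5) (nat_lit 284) (nat_lit 247) (nat_lit 189)) (XT.lf (nat_lit 0) (nat_lit 2885657949) (nat_lit 152) (nat_lit 3638488734) (nat_lit 228) (nat_lit 11950998805)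 (nat_lit 24) (nat_lit 5) (nat_lit 26) (nat_lit 5) (nat_lit 27) (nat_lit 5) (nat_lit 285) (nat_lit 247) (nat_lit 188)))) (XT.nd (nat_lit 156) (nat_lit 380) (nat_lit 0) (XT.nd (nat_lit 78) (nat_lit 0) (nat_lit 0) (XT.lf (nat_lit 0) (nat_lit 9653456926) (nat_lit 228) (nat_lit 8286503408) (nat_lit 76) (nat_lit 1190418620) (nat_lit 24) (nat_lit 5) (nat_lit 27) (nat_lit 5) (nat_lit 25) (nat_lit 5) (nat_lit 286) (nat_lit 247) (nat_lit 187)) (XT.lf (nat_lit 0) (nat_lit 12974047088) (nat_lit 228) (nat_lit 715429817) (nat_lit 76) (nat_lit 6127211867) (nat_lit 24) (nat_lit 5) (nat_lit 27) (nat_lit 5) (nat_lit 25) (nat_lit 5) (nat_lit 287) (nat_lit 247) (nat_lit 186))) (XT.nd (nat_lit 78) (nat_lit 228) (nat_lit 0) (XT.lf (nat_lit 0) (nat_lit 7436583726) (nat_lit 152) (nat_lit 9116538517) (nat_lit 228) (nat_lit 3979621823) (nat_lit 22) (nat_lit 5) (nat_lit 24) (nat_lit 5) (nat_lit 25) (nat_lit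 5) (nat_lit 288) (nat_lit 247) (nat_lit 185)) (XT.nd (nat_lit 78) (nat_lit 228) (nat_lit 0) (XT.lf (nat_lit 0) (nat_lit 15985979897) (nat_lit 152) (nat_lit 4314215869) (nat_lit 228) (nat_lit 985004378) (nat_lit 22) (nat_lit 5) (nat_lit 24) (nat_lit 5) (nat_lit 25) (nat_lit 5) (nat_lit 289) (nat_lit 247) (nat_lit 184)) (XT.lf (nat_lit 0) (nat_lit 2125814454) (nat_lit 228) (nat_lit 19172055207) (nat_lit 76) (nat_lit 773990119) (nat_lit 19) (nat_lit 5) (nat_lit 22) (nat_lit 5) (nat_lit 20) (nat_lit 5) (nat_lit 290) (nat_lit 247) (nat_lit 183))))))) (XT.nd (nat_lit 702) (nat_lit 304) (nat_lit 0) (XT.nd (nat_lit 312) (nat_lit 304) (nat_lit 0) (XT.nd (nat_lit 156) (nat_lit 152) (nat_lit 0) (XT.nd (nat_lit 78) (nat_lit 0) (nat_lit 0) (XT.lf (nat_lit 0) (nat_lit 5498989935) (nat_lit 228) (nat_lit 11323523822) (nat_lit 76) (nat_lit 6067578752) (nat_lit 19) (nat_lit 5) (nat_lit 22) (nat_lit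 5) (nat_lit 20) (nat_lit 5) (nat_lit 291) (nat_lit 247) (nat_lit 182)) (XT.lf (nat_lit 0) (nat_lit 9019850263) (nat_lit 228) (nat_lit 3115492128) (nat_lit 76) (nat_lit 11614984520) (nat_lit 19) (nat_lit 5) (nat_lit 22) (nat_lit 5) (nat_lit 20) (nat_lit 5) (nat_lit 292) (nat_lit 247) (nat_lit 181))) (XT.nd (nat_lit 78) (nat_lit 0) (nat_lit 0) (XT.lf (nat_lit 0) (nat_lit 5652498044) (nat_lit 152) (nat_lit 7132531729) (nat_lit 228) (nat_lit 11865168822) (nat_lit 17) (nat_lit 5) (nat_lit 19) (nat_lit 5) (nat_lit 20) (nat_lit 5) (nat_lit 293) (nat_lit 247) (nat_lit 180)) (XT.lf (nat_lit 0) (nat_lit 14936198015) (nat_lit 152) (nat_lit 1835526945) (nat_lit 228) (nat_lit 8821713564) (nat_lit 17) (nat_lit 5) (nat_lit 19) (nat_lit 5) (nat_lit 20) (nat_lit 5) (nat_lit 294) (nat_lit 247) (nat_lit 179)))) (XT.nd (nat_lit 156) (nat_lit 228) (nat_lit 0) (XT.nd (nat_lit 78) (nat_lit 76) (nat_lit 0)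 (XT.lf (nat_lit 0) (nat_lit 20997187787) (nat_lit 228) (nat_lit 1988115116) (nat_lit 76) (nat_lit 3596601615) (nat_lit 17) (nat_lit 5) (nat_lit 20) (nat_lit 5) (nat_lit 18) (nat_lit 4) (nat_lit 295) (nat_lit 247) (nat_lit 178)) (XT.lf (nat_lit 0) (nat_lit 7288924942) (nat_lit 76) (nat_lit 18271037063) (nat_lit 152) (nat_lit 2053563902) (nat_lit 16) (nat_lit 5) (nat_lit 17) (nat_lit 5) (nat_lit 18) (nat_lit 4) (nat_lit 296) (nat_lit 247) (nat_lit 177))) (XT.nd (nat_lit 78) (nat_lit 152) (nat_lit 0) (XT.lf (nat_lit 0) (nat_lit 1617663605) (nat_lit 152) (nat_lit 11651479500) (nat_lit 76) (nat_lit 15425501813) (nat_lit 15) (nat_lit 5) (nat_lit 17) (nat_lit 5) (nat_lit 16) (nat_lit 5) (nat_lit 297) (nat_lit 247) (nat_lit 176)) (XT.nd (nat_lit 78) (nat_lit 152) (nat_lit 0) (XT.lf (nat_lit 0) (nat_lit 5386523472) (nat_lit 152) (nat_lit 2605887574) (nat_lit 76) (nat_lit 21836600755) (nat_lit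 15) (nat_lit 5) (nat_lit 17) (nat_lit 5) (nat_lit 16) (nat_lit 5) (nat_lit 298) (nat_lit 247) (nat_lit 175)) (XT.lf (nat_lit 0) (nat_lit 7092787312) (nat_lit 152) (nat_lit 2345667016) (nat_lit 228) (nat_lit 21576939278) (nat_lit 13) (nat_lit 5) (nat_lit 15) (nat_lit 5) (nat_lit 16) (nat_lit 5) (nat_lit 299) (nat_lit 247) (nat_lit 174)))))) (XT.nd (nat_lit 312) (nat_lit 228) (nat_lit 0) (XT.nd (nat_lit 156) (nat_lit 76) (nat_lit 0) (XT.nd (nat_lit 78) (nat_lit 0) (nat_lit 0) (XT.lf (nat_lit 0) (nat_lit 13777881785) (nat_lit 228) (nat_lit 14975136581) (nat_lit 76) (nat_lit 3503857783) (nat_lit 13) (nat_lit 5) (nat_lit 16) (nat_lit 5) (nat_lit 14) (nat_lit 4) (nat_lit 300) (nat_lit 247) (nat_lit 173)) (XT.lf (nat_lit 0) (nat_lit 18357588910) (nat_lit 228) (nat_lit 5643932213) (nat_lit 76) (nat_lit 9557771659) (nat_lit 13) (nat_lit 5) (nat_lit 16) (nat_lit 5) (nat_lit 14) (nat_lit 4) (nat_lit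 301) (nat_lit 247) (nat_lit 172))) (XT.nd (nat_lit 78) (nat_lit 0) (nat_lit 0) (XT.lf (nat_lit 0) (nat_lit 4266397769) (nat_lit 76) (nat_lit 18952069988) (nat_lit 152) (nat_lit 11705777341) (nat_lit 12) (nat_lit 5) (nat_lit 13) (nat_lit 5) (nat_lit 14) (nat_lit 4) (nat_lit 302) (nat_lit 247) (nat_lit 171)) (XT.lf (nat_lit 0) (nat_lit 14844589729) (nat_lit 76) (nat_lit 13559277895) (nat_lit 152) (nat_lit 7949526572) (nat_lit 12) (nat_lit 5) (nat_lit 13) (nat_lit 5) (nat_lit 14) (nat_lit 4) (nat_lit 303) (nat_lit 247) (nat_lit 170)))) (XT.nd (nat_lit 156) (nat_lit 152) (nat_lit 0) (XT.nd (nat_lit 78) (nat_lit 76) (nat_lit 0) (XT.lf (nat_lit 0) (nat_lit 25929215949) (nat_lit 76) (nat_lit 7905887586) (nat_lit 152) (nat_lit 4019590835) (nat_lit 12) (nat_lit 5) (nat_lit 13) (nat_lit 5) (nat_lit 14) (nat_lit 4) (nat_lit 304) (nat_lit 247) (nat_lit 169)) (XT.lf (nat_lit 0) (nat_lit 90397897)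 (nat_lit 152) (nat_lit 1886509778) (nat_lit 76) (nat_lit 37454739566) (nat_lit 11) (nat_lit 5) (nat_lit 13) (nat_lit 5) (nat_lit 12) (nat_lit 5) (nat_lit 305) (nat_lit 247) (nat_lit 168))) (XT.nd (nat_lit 78) (nat_lit 0) (nat_lit 0) (XT.lf (nat_lit 0) (nat_lit 4466131773) (nat_lit 228) (nat_lit 32296444080) (nat_lit 76) (nat_lit 4311829578) (nat_lit 9) (nat_lit 5) (nat_lit 12) (nat_lit 5) (nat_lit 10) (nat_lit 4) (nat_lit 306) (nat_lit 247) (nat_lit 167)) (XT.nd (nat_lit 78) (nat_lit 0) (nat_lit 0) (XT.lf (nat_lit 0) (nat_lit 9113270009) (nat_lit 228) (nat_lit 22810458285) (nat_lit 76) (nat_lit 10872960391) (nat_lit 9) (nat_lit 5) (nat_lit 12) (nat_lit 5) (nat_lit 10) (nat_lit 4) (nat_lit 307) (nat_lit 247) (nat_lit 166)) (XT.lf (nat_lit 0) (nat_lit 13981085759) (nat_lit 228) (nat_lit 12870147986) (nat_lit 76) (nat_lit 17754453504) (nat_lit 9) (nat_lit 5) (nat_lit 12) (nat_lit 5) (nat_lit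 10) (nat_lit 4) (nat_lit 308) (nat_lit 247) (nat_lit 165))))))))
noncomputable def xc135 : XT := (XT.nd (nat_lit 1404) (nat_lit 228) (nat_lit 0) (XT.nd (nat_lit 702) (nat_lit 76) (nat_lit 0) (XT.nd (nat_lit 312) (nat_lit 152) (nat_lit 0) (XT.nd (nat_lit 156) (nat_lit 0) (nat_lit 0) (XT.nd (nat_lit 78) (nat_lit 76) (nat_lit 0) (XT.lf (nat_lit 0) (nat_lit 19081169062) (nat_lit 228) (nat_lit 2451845776) (nat_lit 76) (nat_lit 24972693424) (nat_lit 9) (nat_lit 5) (nat_lit 12) (nat_lit 5) (nat_lit 10) (nat_lit 4) (nat_lit 309) (nat_lit 247) (nat_lit 164)) (XT.lf (nat_lit 0) (nat_lit 8749285605) (nat_lit 76) (nat_lit 15812978235) (nat_lit 152) (nat_lit 23932181700) (nat_lit 8) (nat_lit 5) (nat_lit 9) (nat_lit 5) (nat_lit 10) (nat_lit 4) (nat_lit 310) (nat_lit 247) (nat_lit 163))) (XT.nd (nat_lit 78) (nat_lit 0) (nat_lit 0) (XT.lf (nat_lit 0) (nat_lit 20577770607) (nat_lit 76) (nat_lit 9770798537)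 (nat_lit 152) (nat_lit 20232507587) (nat_lit 8) (nat_lit 5) (nat_lit 9) (nat_lit 5) (nat_lit 10) (nat_lit 4) (nat_lit 311) (nat_lit 247) (nat_lit 162)) (XT.lf (nat_lit 0) (nat_lit 32980703194) (nat_lit 76) (nat_lit 3433612796) (nat_lit 152) (nat_lit 16358231309) (nat_lit 8) (nat_lit 5) (nat_lit 9) (nat_lit 5) (nat_lit 10) (nat_lit 4) (nat_lit 312) (nat_lit 247) (nat_lit 161)))) (XT.nd (nat_lit 156) (nat_lit 76) (nat_lit 0) (XT.nd (nat_lit 78) (nat_lit 76) (nat_lit 0) (XT.lf (nat_lit 0) (nat_lit 42824120992) (nat_lit 152) (nat_lit 9136635230) (nat_lit 0) (nat_lit 3110810093) (nat_lit 8) (nat_lit 5) (nat_lit 10) (nat_lit 4) (nat_lit 8) (nat_lit 4) (nat_lit 313) (nat_lit 247) (nat_lit 160)) (XT.lf (nat_lit 0) (nat_lit 2044731167) (nat_lit 76) (nat_lit 47588841450) (nat_lit 76) (nat_lit 7848018664) (nat_lit 7) (nat_lit 4) (nat_lit 8) (nat_lit 5) (nat_lit 8) (nat_lit 4) (nat_lit 314) (nat_lit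 247) (nat_lit 159))) (XT.nd (nat_lit 78) (nat_lit 76) (nat_lit 0) (XT.lf (nat_lit 0) (nat_lit 14086865042) (nat_lit 76) (nat_lit 42842497968) (nat_lit 76) (nat_lit 3075473384) (nat_lit 7) (nat_lit 4) (nat_lit 8) (nat_lit 5) (nat_lit 8) (nat_lit 4) (nat_lit 315) (nat_lit 247) (nat_lit 158)) (XT.nd (nat_lit 78) (nat_lit 0) (nat_lit 0) (XT.lf (nat_lit 0) (nat_lit 1865150094) (nat_lit 152) (nat_lit 35968420982) (nat_lit 76) (nat_lit 24819602404) (nat_lit 6) (nat_lit 5) (nat_lit 8) (nat_lit 5) (nat_lit 7) (nat_lit 4) (nat_lit 316) (nat_lit 247) (nat_lit 157)) (XT.lf (nat_lit 0) (nat_lit 6941263338) (nat_lit 152) (nat_lit 25586154634) (nat_lit 76) (nat_lit 32904408381) (nat_lit 6) (nat_lit 5) (nat_lit 8) (nat_lit 5) (nat_lit 7) (nat_lit 4) (nat_lit 317) (nat_lit 247) (nat_lit 156)))))) (XT.nd (nat_lit 312) (nat_lit 0) (nat_lit 0) (XT.nd (nat_lit 156) (nat_lit 76) (nat_lit 0) (XT.nd (nat_lit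 78) (nat_lit 0) (nat_lit 0) (XT.lf (nat_lit 0) (nat_lit 12263386687) (nat_lit 152) (nat_lit 14698435868) (nat_lit 76) (nat_lit 41387989136) (nat_lit 6) (nat_lit 5) (nat_lit 8) (nat_lit 5) (nat_lit 7) (nat_lit 4) (nat_lit 318) (nat_lit 247) (nat_lit 155)) (XT.lf (nat_lit 0) (nat_lit 17844191861) (nat_lit 152) (nat_lit 3279341544) (nat_lit 76) (nat_lit 50290543673) (nat_lit 6) (nat_lit 5) (nat_lit 8) (nat_lit 5) (nat_lit 7) (nat_lit 4) (nat_lit 319) (nat_lit 247) (nat_lit 154))) (XT.nd (nat_lit 78) (nat_lit 0) (nat_lit 0) (XT.lf (nat_lit 0) (nat_lit 8985922288) (nat_lit 76) (nat_lit 14851339635) (nat_lit 152) (nat_lit 50787641690) (nat_lit 5) (nat_lit 5) (nat_lit 6) (nat_lit 5) (nat_lit 7) (nat_lit 4) (nat_lit 320) (nat_lit 247) (nat_lit 153)) (XT.lf (nat_lit 0) (nat_lit 21966109660) (nat_lit 76) (nat_lit 8212488632) (nat_lit 152) (nat_lit 47815251218) (nat_lit 5) (nat_lit 5) (nat_lit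 6) (nat_lit 5) (nat_lit 7) (nat_lit 4) (nat_lit 321) (nat_lit 247) (nat_lit 152)))) (XT.nd (nat_lit 156) (nat_lit 0) (nat_lit 0) (XT.nd (nat_lit 78) (nat_lit 0) (nat_lit 0) (XT.lf (nat_lit 0) (nat_lit 35583695937) (nat_lit 76) (nat_lit 1246710845) (nat_lit 152) (nat_lit 44701173916) (nat_lit 5) (nat_lit 5) (nat_lit 6) (nat_lit 5) (nat_lit 7) (nat_lit 4) (nat_lit 322) (nat_lit 247) (nat_lit 151)) (XT.lf (nat_lit 0) (nat_lit 43903178881) (nat_lit 152) (nat_lit 35470070252) (nat_lit 0) (nat_lit 5868538523) (nat_lit 5) (nat_lit 5) (nat_lit 7) (nat_lit 4) (nat_lit 5) (nat_lit 4) (nat_lit 323) (nat_lit 247) (nat_lit 150))) (XT.nd (nat_lit 78) (nat_lit 0) (nat_lit 0) (XT.lf (nat_lit 0) (nat_lit 51343974853) (nat_lit 152) (nat_lit 24499569476) (nat_lit 0) (nat_lit 13293248865) (nat_lit 5) (nat_lit 5) (nat_lit 7) (nat_lit 4) (nat_lit 5) (nat_lit 4) (nat_lit 324) (nat_lit 247) (nat_lit 149))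 (XT.nd (nat_lit 78) (nat_lit 0) (nat_lit 0) (XT.lf (nat_lit 0) (nat_lit 59151046229) (nat_lit 152) (nat_lit 12990797544) (nat_lit 0) (nat_lit 21085000592) (nat_lit 5) (nat_lit 5) (nat_lit 7) (nat_lit 4) (nat_lit 5) (nat_lit 4) (nat_lit 325) (nat_lit 247) (nat_lit 148)) (XT.lf (nat_lit 0) (nat_lit 67342981275) (nat_lit 152) (nat_lit 916352617) (nat_lit 0) (nat_lit 29262345497) (nat_lit 5) (nat_lit 5) (nat_lit 7) (nat_lit 4) (nat_lit 5) (nat_lit 4) (nat_lit 326) (nat_lit 247) (nat_lit 147))))))) (XT.nd (nat_lit 702) (nat_lit 76) (nat_lit 0) (XT.nd (nat_lit 312) (nat_lit 76) (nat_lit 0) (XT.nd (nat_lit 156) (nat_lit 0) (nat_lit 0) (XT.nd (nat_lit 78) (nat_lit 0) (nat_lit 0) (XT.lf (nat_lit 0) (nat_lit 12141105170) (nat_lit 76) (nat_lit 63987736104) (nat_lit 76) (nat_lit 25893204953) (nat_lit 4) (nat_lit 4) (nat_lit 5) (nat_lit 5) (nat_lit 5) (nat_lit 4) (nat_lit 327) (nat_lit 247) (nat_lit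 146)) (XT.lf (nat_lit 0) (nat_lit 25874098977) (nat_lit 76) (nat_lit 59490291804) (nat_lit 76) (nat_lit 21382526965) (nat_lit 4) (nat_lit 4) (nat_lit 5) (nat_lit 5) (nat_lit 5) (nat_lit 4) (nat_lit 328) (nat_lit 247) (nat_lit 145))) (XT.nd (nat_lit 78) (nat_lit 0) (nat_lit 0) (XT.lf (nat_lit 0) (nat_lit 40285027651) (nat_lit 76) (nat_lit 54771811668) (nat_lit 76) (nat_lit 16651443317) (nat_lit 4) (nat_lit 4) (nat_lit 5) (nat_lit 5) (nat_lit 5) (nat_lit 4) (nat_lit 329) (nat_lit 247) (nat_lit 144)) (XT.lf (nat_lit 0) (nat_lit 55408202928) (nat_lit 76) (nat_lit 49821061220) (nat_lit 76) (nat_lit 11688689523) (nat_lit 4) (nat_lit 4) (nat_lit 5) (nat_lit 5) (nat_lit 5) (nat_lit 4) (nat_lit 330) (nat_lit 247) (nat_lit 143)))) (XT.nd (nat_lit 156) (nat_lit 76) (nat_lit 0) (XT.nd (nat_lit 78) (nat_lit 0) (nat_lit 0) (XT.lf (nat_lit 0) (nat_lit 71279632367) (nat_lit 76) (nat_lit 44626252957)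 (nat_lit 76) (nat_lit 6482449503) (nat_lit 4) (nat_lit 4) (nat_lit 5) (nat_lit 5) (nat_lit 5) (nat_lit 4) (nat_lit 331) (nat_lit 247) (nat_lit 142)) (XT.lf (nat_lit 0) (nat_lit 87937105086) (nat_lit 76) (nat_lit 39175018290) (nat_lit 76) (nat_lit 1020327447) (nat_lit 4) (nat_lit 4) (nat_lit 5) (nat_lit 5) (nat_lit 5) (nat_lit 4) (nat_lit 332) (nat_lit 247) (nat_lit 141))) (XT.nd (nat_lit 78) (nat_lit 0) (nat_lit 0) (XT.lf (nat_lit 0) (nat_lit 4559910462) (nat_lit 152) (nat_lit 28817243334) (nat_lit 76) (nat_lit 100783146982) (nat_lit 3) (nat_lit 5) (nat_lit 5) (nat_lit 5) (nat_lit 4) (nat_lit 4) (nat_lit 333) (nat_lit 247) (nat_lit 140)) (XT.nd (nat_lit 78) (nat_lit 0) (nat_lit 0) (XT.lf (nat_lit 0) (nat_lit 10380981071) (nat_lit 152) (nat_lit 16893923769) (nat_lit 76) (nat_lit 113214000916) (nat_lit 3) (nat_lit 5) (nat_lit 5) (nat_lit 5) (nat_lit 4) (nat_lit 4) (nat_lit 334) (nat_lit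 247) (nat_lit 139)) (XT.lf (nat_lit 0) (nat_lit 16489400920) (nat_lit 152) (nat_lit 4381068013) (nat_lit 76) (nat_lit 126263661434) (nat_lit 3) (nat_lit 5) (nat_lit 5) (nat_lit 5) (nat_lit 4) (nat_lit 4) (nat_lit 335) (nat_lit 247) (nat_lit 138)))))) (XT.nd (nat_lit 312) (nat_lit 0) (nat_lit 0) (XT.nd (nat_lit 156) (nat_lit 0) (nat_lit 0) (XT.nd (nat_lit 78) (nat_lit 0) (nat_lit 0) (XT.lf (nat_lit 0) (nat_lit 9040467875) (nat_lit 76) (nat_lit 14000393030) (nat_lit 152) (nat_lit 131063878323) (nat_lit 2) (nat_lit 5) (nat_lit 3) (nat_lit 5) (nat_lit 4) (nat_lit 4) (nat_lit 336) (nat_lit 247) (nat_lit 137)) (XT.lf (nat_lit 0) (nat_lit 23278969103) (nat_lit 76) (nat_lit 6711663403) (nat_lit 152) (nat_lit 131429712881) (nat_lit 2) (nat_lit 5) (nat_lit 3) (nat_lit 5) (nat_lit 4) (nat_lit 4) (nat_lit 337) (nat_lit 247) (nat_lit 136))) (XT.nd (nat_lit 78) (nat_lit 0) (nat_lit 0) (XT.lf (nat_lit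 0) (nat_lit 37299258935) (nat_lit 152) (nat_lit 130893079629) (nat_lit 0) (nat_lit 908828581) (nat_lit 2) (nat_lit 5) (nat_lit 4) (nat_lit 4) (nat_lit 2) (nat_lit 4) (nat_lit 338) (nat_lit 247) (nat_lit 135)) (XT.lf (nat_lit 0) (nat_lit 45080169433) (nat_lit 152) (nat_lit 123398151287) (nat_lit 0) (nat_lit 8682370066) (nat_lit 2) (nat_lit 5) (nat_lit 4) (nat_lit 4) (nat_lit 2) (nat_lit 4) (nat_lit 339) (nat_lit 247) (nat_lit 134)))) (XT.nd (nat_lit 156) (nat_lit 0) (nat_lit 0) (XT.nd (nat_lit 78) (nat_lit 0) (nat_lit 0) (XT.lf (nat_lit 0) (nat_lit 53247102103) (nat_lit 152) (nat_lit 115533958317) (nat_lit 0) (nat_lit 16842284629) (nat_lit 2) (nat_lit 5) (nat_lit 4) (nat_lit 4) (nat_lit 2) (nat_lit 4) (nat_lit 340) (nat_lit 247) (nat_lit 133)) (XT.lf (nat_lit 0) (nat_lit 61819502022) (nat_lit 152) (nat_lit 107281776450) (nat_lit 0) (nat_lit 25408000635) (nat_lit 2) (nat_lit 5) (nat_lit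 4) (nat_lit 4) (nat_lit 2) (nat_lit 4) (nat_lit 341) (nat_lit 247) (nat_lit 132))) (XT.nd (nat_lit 78) (nat_lit 0) (nat_lit 0) (XT.lf (nat_lit 0) (nat_lit 70817779665) (nat_lit 152) (nat_lit 98621957633) (nat_lit 0) (nat_lit 34399912649) (nat_lit 2) (nat_lit 5) (nat_lit 4) (nat_lit 4) (nat_lit 2) (nat_lit 4) (nat_lit 342) (nat_lit 247) (nat_lit 131)) (XT.nd (nat_lit 78) (nat_lit 0) (nat_lit 0) (XT.lf (nat_lit 0) (nat_lit 80263359505) (nat_lit 152) (nat_lit 89533883250) (nat_lit 0) (nat_lit 43839429984) (nat_lit 2) (nat_lit 5) (nat_lit 4) (nat_lit 4) (nat_lit 2) (nat_lit 4) (nat_lit 343) (nat_lit 247) (nat_lit 130)) (XT.lf (nat_lit 0) (nat_lit 90178731016) (nat_lit 152) (nat_lit 79995915030) (nat_lit 0) (nat_lit 53749027680) (nat_lit 2) (nat_lit 5) (nat_lit 4) (nat_lit 4) (nat_lit 2) (nat_lit 4) (nat_lit 344) (nat_lit 247) (nat_lit 129))))))))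
noncomputable def xc136 : XT := (XT.nd (nat_lit 29952) (nat_lit 0) (nat_lit 4408) (XT.nd (nat_lit 702) (nat_lit 0) (nat_lit 0) (XT.nd (nat_lit 312) (nat_lit 76) (nat_lit 0) (XT.nd (nat_lit 156) (nat_lit 0) (nat_lit 0) (XT.nd (nat_lit 78) (nat_lit 0) (nat_lit 0) (XT.lf (nat_lit 0) (nat_lit 100587502226) (nat_lit 152) (nat_lit 69985343523) (nat_lit 0) (nat_lit 64152300019) (nat_lit 2) (nat_lit 5) (nat_lit 4) (nat_lit 4) (nat_lit 2) (nat_lit 4) (nat_lit 345) (nat_lit 247) (nat_lit 128)) (XT.lf (nat_lit 0) (nat_lit 111514455924) (nat_lit 152) (nat_lit 59478334035) (nat_lit 0) (nat_lit 75074016697) (nat_lit 2) (nat_lit 5) (nat_lit 4) (nat_lit 4) (nat_lit 2) (nat_lit 4) (nat_lit 346) (nat_lit 247) (nat_lit 127))) (XT.nd (nat_lit 78) (nat_lit 0) (nat_lit 0) (XT.lf (nat_lit 0) (nat_lit 122985608665) (nat_lit 152) (nat_lit 48449869878) (nat_lit 0) (nat_lit 86540181801) (nat_lit 2) (nat_lit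 5) (nat_lit 4) (nat_lit 4) (nat_lit 2) (nat_lit 4) (nat_lit 347) (nat_lit 247) (nat_lit 126)) (XT.lf (nat_lit 0) (nat_lit 135028272719) (nat_lit 152) (nat_lit 36873692804) (nat_lit 0) (nat_lit 98578095723) (nat_lit 2) (nat_lit 5) (nat_lit 4) (nat_lit 4) (nat_lit 2) (nat_lit 4) (nat_lit 348) (nat_lit 247) (nat_lit 125)))) (XT.nd (nat_lit 156) (nat_lit 76) (nat_lit 0) (XT.nd (nat_lit 78) (nat_lit 0) (nat_lit 0) (XT.lf (nat_lit 0) (nat_lit 147671121095) (nat_lit 152) (nat_lit 24722240486) (nat_lit 0) (nat_lit 111216420165) (nat_lit 2) (nat_lit 5) (nat_lit 4) (nat_lit 4) (nat_lit 2) (nat_lit 4) (nat_lit 349) (nat_lit 247) (nat_lit 124)) (XT.lf (nat_lit 0) (nat_lit 160944255813) (nat_lit 152) (nat_lit 11966580894) (nat_lit 0) (nat_lit 124485246373) (nat_lit 2) (nat_lit 5) (nat_lit 4) (nat_lit 4) (nat_lit 2) (nat_lit 4) (nat_lit 350) (nat_lit 247) (nat_lit 123))) (XT.nd (nat_lit 78) (nat_lit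 0) (nat_lit 0) (XT.lf (nat_lit 0) (nat_lit 1470729104) (nat_lit 76) (nat_lit 173431512673) (nat_lit 76) (nat_lit 136968399891) (nat_lit 1) (nat_lit 4) (nat_lit 2) (nat_lit 5) (nat_lit 2) (nat_lit 4) (nat_lit 351) (nat_lit 247) (nat_lit 122)) (XT.nd (nat_lit 78) (nat_lit 0) (nat_lit 0) (XT.lf (nat_lit 0) (nat_lit 15992203878) (nat_lit 76) (nat_lit 173766850250) (nat_lit 76) (nat_lit 137299829524) (nat_lit 1) (nat_lit 4) (nat_lit 2) (nat_lit 5) (nat_lit 2) (nat_lit 4) (nat_lit 352) (nat_lit 247) (nat_lit 121)) (XT.lf (nat_lit 0) (nat_lit 31236749158) (nat_lit 76) (nat_lit 174120307701) (nat_lit 76) (nat_lit 137649565122) (nat_lit 1) (nat_lit 4) (nat_lit 2) (nat_lit 5) (nat_lit 2) (nat_lit 4) (nat_lit 353) (nat_lit 247) (nat_lit 120)))))) (XT.nd (nat_lit 312) (nat_lit 0) (nat_lit 0) (XT.nd (nat_lit 156) (nat_lit 0) (nat_lit 0) (XT.nd (nat_lit 78) (nat_lit 0) (nat_lit 0) (XT.lf (nat_lit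 0) (nat_lit 47240661481) (nat_lit 76) (nat_lit 174492726589) (nat_lit 76) (nat_lit 138018439390) (nat_lit 1) (nat_lit 4) (nat_lit 2) (nat_lit 5) (nat_lit 2) (nat_lit 4) (nat_lit 354) (nat_lit 247) (nat_lit 119)) (XT.lf (nat_lit 0) (nat_lit 64042045401) (nat_lit 76) (nat_lit 174884993628) (nat_lit 76) (nat_lit 138407330598) (nat_lit 1) (nat_lit 4) (nat_lit 2) (nat_lit 5) (nat_lit 2) (nat_lit 4) (nat_lit 355) (nat_lit 247) (nat_lit 118))) (XT.nd (nat_lit 78) (nat_lit 0) (nat_lit 0) (XT.lf (nat_lit 0) (nat_lit 81680904213) (nat_lit 76) (nat_lit 175298042785) (nat_lit 76) (nat_lit 138817164680) (nat_lit 1) (nat_lit 4) (nat_lit 2) (nat_lit 5) (nat_lit 2) (nat_lit 4) (nat_lit 356) (nat_lit 247) (nat_lit 117)) (XT.lf (nat_lit 0) (nat_lit 100199235199) (nat_lit 76) (nat_lit 175732857512) (nat_lit 76) (nat_lit 139248917429) (nat_lit 1) (nat_lit 4) (nat_lit 2) (nat_lit 5) (nat_lit 2) (nat_lit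 4) (nat_lit 357) (nat_lit 247) (nat_lit 116)))) (XT.nd (nat_lit 156) (nat_lit 0) (nat_lit 0) (XT.nd (nat_lit 78) (nat_lit 0) (nat_lit 0) (XT.lf (nat_lit 0) (nat_lit 119641129624) (nat_lit 76) (nat_lit 176190473081) (nat_lit 76) (nat_lit 139703616830) (nat_lit 1) (nat_lit 4) (nat_lit 2) (nat_lit 5) (nat_lit 2) (nat_lit 4) (nat_lit 358) (nat_lit 247) (nat_lit 115)) (XT.lf (nat_lit 0) (nat_lit 140052877712) (nat_lit 76) (nat_lit 176671979053) (nat_lit 76) (nat_lit 140182345499) (nat_lit 1) (nat_lit 4) (nat_lit 2) (nat_lit 5) (nat_lit 2) (nat_lit 4) (nat_lit 359) (nat_lit 247) (nat_lit 114))) (XT.nd (nat_lit 78) (nat_lit 0) (nat_lit 0) (XT.lf (nat_lit 0) (nat_lit 161483078864) (nat_lit 76) (nat_lit 177178521871) (nat_lit 76) (nat_lit 140686243266) (nat_lit 1) (nat_lit 4) (nat_lit 2) (nat_lit 5) (nat_lit 2) (nat_lit 4) (nat_lit 360) (nat_lit 247) (nat_lit 113)) (XT.nd (nat_lit 78) (nat_lit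 0) (nat_lit 0) (XT.lf (nat_lit 0) (nat_lit 183982757368) (nat_lit 76) (nat_lit 177711307590) (nat_lit 76) (nat_lit 141216509889) (nat_lit 1) (nat_lit 4) (nat_lit 2) (nat_lit 5) (nat_lit 2) (nat_lit 4) (nat_lit 361) (nat_lit 247) (nat_lit 112)) (XT.lf (nat_lit 0) (nat_lit 207605483887) (nat_lit 76) (nat_lit 178271604747) (nat_lit 76) (nat_lit 141774407906) (nat_lit 1) (nat_lit 4) (nat_lit 2) (nat_lit 5) (nat_lit 2) (nat_lit 4) (nat_lit 362) (nat_lit 247) (nat_lit 111))))))) (XT.nd (nat_lit 702) (nat_lit 2128) (nat_lit 0) (XT.nd (nat_lit 312) (nat_lit 456) (nat_lit 0) (XT.nd (nat_lit 156) (nat_lit 0) (nat_lit 0) (XT.nd (nat_lit 78) (nat_lit 0) (nat_lit 0) (XT.lf (nat_lit 0) (nat_lit 417763262) (nat_lit 532) (nat_lit 1593705118) (nat_lit 532) (nat_lit 1593705118) (nat_lit 93) (nat_lit 3) (nat_lit 100) (nat_lit 3) (nat_lit 100) (nat_lit 5) (nat_lit 248) (nat_lit 248) (nat_lit 224)) (XT.lf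 (nat_lit 0) (nat_lit 2327978541) (nat_lit 532) (nat_lit 67034854) (nat_lit 532) (nat_lit 4915296915) (nat_lit 93) (nat_lit 3) (nat_lit 100) (nat_lit 3) (nat_lit 100) (nat_lit 5) (nat_lit 249) (nat_lit 248) (nat_lit 223))) (XT.nd (nat_lit 78) (nat_lit 0) (nat_lit 76) (XT.lf (nat_lit 76) (nat_lit 3264163736) (nat_lit 0) (nat_lit 587653699) (nat_lit 532) (nat_lit 3566046122) (nat_lit 94) (nat_lit 5) (nat_lit 93) (nat_lit 3) (nat_lit 100) (nat_lit 5) (nat_lit 250) (nat_lit 248) (nat_lit 222)) (XT.lf (nat_lit 0) (nat_lit 5383629899) (nat_lit 456) (nat_lit 841411666) (nat_lit 532) (nat_lit 1309573326) (nat_lit 94) (nat_lit 5) (nat_lit 100) (nat_lit 5) (nat_lit 101) (nat_lit 5) (nat_lit 251) (nat_lit 248) (nat_lit 221)))) (XT.nd (nat_lit 156) (nat_lit 0) (nat_lit 76) (XT.nd (nat_lit 78) (nat_lit 532) (nat_lit 0) (XT.lf (nat_lit 76) (nat_lit 2660140253) (nat_lit 0) (nat_lit 4297509901) (nat_lit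 532) (nat_lit 701662787) (nat_lit 95) (nat_lit 5) (nat_lit 94) (nat_lit 5) (nat_lit 101) (nat_lit 5) (nat_lit 252) (nat_lit 248) (nat_lit 220)) (XT.lf (nat_lit 0) (nat_lit 724379859) (nat_lit 532) (nat_lit 1490741944) (nat_lit 608) (nat_lit 5578312442) (nat_lit 87) (nat_lit 5) (nat_lit 94) (nat_lit 5) (nat_lit 95) (nat_lit 5) (nat_lit 253) (nat_lit 248) (nat_lit 219))) (XT.nd (nat_lit 78) (nat_lit 0) (nat_lit 0) (XT.lf (nat_lit 0) (nat_lit 2153267292) (nat_lit 532) (nat_lit 5736590460) (nat_lit 608) (nat_lit 46409475) (nat_lit 88) (nat_lit 5) (nat_lit 95) (nat_lit 5) (nat_lit 96) (nat_lit 5) (nat_lit 254) (nat_lit 248) (nat_lit 218)) (XT.nd (nat_lit 78) (nat_lit 0) (nat_lit 0) (XT.lf (nat_lit 0) (nat_lit 3639017877) (nat_lit 532) (nat_lit 2050655420) (nat_lit 608) (nat_lit 2397618484) (nat_lit 88) (nat_lit 5) (nat_lit 95) (nat_lit 5) (nat_lit 96) (nat_lit 5) (nat_lit 255) (nat_lit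 248) (nat_lit 217)) (XT.lf (nat_lit 76) (nat_lit 1825311901) (nat_lit 0) (nat_lit 3329332797) (nat_lit 608) (nat_lit 3093749009) (nat_lit 89) (nat_lit 5) (nat_lit 88) (nat_lit 5) (nat_lit 96) (nat_lit 5) (nat_lit 256) (nat_lit 248) (nat_lit 216)))))) (XT.nd (nat_lit 312) (nat_lit 1064) (nat_lit 0) (XT.nd (nat_lit 156) (nat_lit 684) (nat_lit 0) (XT.nd (nat_lit 78) (nat_lit 456) (nat_lit 0) (XT.lf (nat_lit 76) (nat_lit 5914435634) (nat_lit 0) (nat_lit 796099115) (nat_lit 608) (nat_lit 1709082914) (nat_lit 89) (nat_lit 5) (nat_lit 88) (nat_lit 5) (nat_lit 96) (nat_lit 5) (nat_lit 257) (nat_lit 248) (nat_lit 215)) (XT.lf (nat_lit 0) (nat_lit 1576714652) (nat_lit 532) (nat_lit 6754592566) (nat_lit 608) (nat_lit 269018374) (nat_lit 82) (nat_lit 5) (nat_lit 89) (nat_lit 5) (nat_lit 90) (nat_lit 5) (nat_lit 258) (nat_lit 248) (nat_lit 214))) (XT.nd (nat_lit 78) (nat_lit 608) (nat_lit 0) (XT.lf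 (nat_lit 0) (nat_lit 1193854134) (nat_lit 608) (nat_lit 2926245455) (nat_lit 76) (nat_lit 4669720852) (nat_lit 81) (nat_lit 5) (nat_lit 89) (nat_lit 5) (nat_lit 82) (nat_lit 5) (nat_lit 259) (nat_lit 248) (nat_lit 213)) (XT.lf (nat_lit 0) (nat_lit 1362988514) (nat_lit 608) (nat_lit 1316661323) (nat_lit 684) (nat_lit 6311218102) (nat_lit 73) (nat_lit 5) (nat_lit 81) (nat_lit 5) (nat_lit 82) (nat_lit 5) (nat_lit 260) (nat_lit 248) (nat_lit 212)))) (XT.nd (nat_lit 156) (nat_lit 380) (nat_lit 0) (XT.nd (nat_lit 78) (nat_lit 684) (nat_lit 0) (XT.lf (nat_lit 0) (nat_lit 4255358056) (nat_lit 684) (nat_lit 3312180018) (nat_lit 76) (nat_lit 1633876631) (nat_lit 73) (nat_lit 5) (nat_lit 82) (nat_lit 5) (nat_lit 74) (nat_lit 5) (nat_lit 261) (nat_lit 248) (nat_lit 211)) (XT.lf (nat_lit 0) (nat_lit 1183451643) (nat_lit 684) (nat_lit 4709177554) (nat_lit 760) (nat_lit 3530937907) (nat_lit 64) (nat_lit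 5) (nat_lit 73) (nat_lit 5) (nat_lit 74) (nat_lit 5) (nat_lit 262) (nat_lit 248) (nat_lit 210))) (XT.nd (nat_lit 78) (nat_lit 380) (nat_lit 0) (XT.lf (nat_lit 0) (nat_lit 5967551417) (nat_lit 684) (nat_lit 1644948556) (nat_lit 760) (nat_lit 2044497176) (nat_lit 64) (nat_lit 5) (nat_lit 73) (nat_lit 5) (nat_lit 74) (nat_lit 5) (nat_lit 263) (nat_lit 248) (nat_lit 209)) (XT.nd (nat_lit 78) (nat_lit 76) (nat_lit 0) (XT.lf (nat_lit 0) (nat_lit 1045927601) (nat_lit 304) (nat_lit 8360656575) (nat_lit 380) (nat_lit 496300504) (nat_lit 60) (nat_lit 5) (nat_lit 64) (nat_lit 5) (nat_lit 65) (nat_lit 5) (nat_lit 264) (nat_lit 248) (nat_lit 208)) (XT.lf (nat_lit 0) (nat_lit 1131669244) (nat_lit 380) (nat_lit 4110223142) (nat_lit 76) (nat_lit 4916545883) (nat_lit 59) (nat_lit 5) (nat_lit 64) (nat_lit 5) (nat_lit 60) (nat_lit 5) (nat_lit 265) (nat_lit 248) (nat_lit 207))))))))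
noncomputable def xc137 : XT := (XT.nd (nat_lit 1404) (nat_lit 1292) (nat_lit 0) (XT.nd (nat_lit 702) (nat_lit 912) (nat_lit 0) (XT.nd (nat_lit 312) (nat_lit 608) (nat_lit 0) (XT.nd (nat_lit 156) (nat_lit 304) (nat_lit 0) (XT.nd (nat_lit 78) (nat_lit 0) (nat_lit 0) (XT.lf (nat_lit 0) (nat_lit 842370436) (nat_lit 380) (nat_lit 1945649252) (nat_lit 456) (nat_lit 7640330147) (nat_lit 54) (nat_lit 5) (nat_lit 59) (nat_lit 5) (nat_lit 60) (nat_lit 5) (nat_lit 266) (nat_lit 248) (nat_lit 206)) (XT.lf (nat_lit 0) (nat_lit 4573665801) (nat_lit 456) (nat_lit 4599809473) (nat_lit 76) (nat_lit 1536119853) (nat_lit 54) (nat_lit 5) (nat_lit 60) (nat_lit 5) (nat_lit 55) (nat_lit 5) (nat_lit 267) (nat_lit 248) (nat_lit 205))) (XT.nd (nat_lit 78) (nat_lit 0) (nat_lit 0) (XT.lf (nat_lit 0) (nat_lit 572552185) (nat_lit 304) (nat_lit 5871228179) (nat_lit 380) (nat_lit 4561517352) (nat_lit 50) (nat_lit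 5) (nat_lit 54) (nat_lit 5) (nat_lit 55) (nat_lit 5) (nat_lit 268) (nat_lit 248) (nat_lit 204)) (XT.lf (nat_lit 0) (nat_lit 6114479938) (nat_lit 304) (nat_lit 2326584510) (nat_lit 380) (nat_lit 2873184786) (nat_lit 50) (nat_lit 5) (nat_lit 54) (nat_lit 5) (nat_lit 55) (nat_lit 5) (nat_lit 269) (nat_lit 248) (nat_lit 203)))) (XT.nd (nat_lit 156) (nat_lit 228) (nat_lit 0) (XT.nd (nat_lit 78) (nat_lit 76) (nat_lit 0) (XT.lf (nat_lit 0) (nat_lit 231888100) (nat_lit 304) (nat_lit 10289532674) (nat_lit 380) (nat_lit 1118207144) (nat_lit 46) (nat_lit 5) (nat_lit 50) (nat_lit 5) (nat_lit 51) (nat_lit 5) (nat_lit 270) (nat_lit 248) (nat_lit 202)) (XT.lf (nat_lit 0) (nat_lit 787241039) (nat_lit 380) (nat_lit 5961444059) (nat_lit 76) (nat_lit 5227856282) (nat_lit 45) (nat_lit 5) (nat_lit 50) (nat_lit 5) (nat_lit 46) (nat_lit 5) (nat_lit 271) (nat_lit 248) (nat_lit 201))) (XT.nd (nat_lit 78) (nat_lit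 228) (nat_lit 0) (XT.lf (nat_lit 0) (nat_lit 2710635728) (nat_lit 380) (nat_lit 308143871) (nat_lit 76) (nat_lit 9312712624) (nat_lit 45) (nat_lit 5) (nat_lit 50) (nat_lit 5) (nat_lit 46) (nat_lit 5) (nat_lit 272) (nat_lit 248) (nat_lit 200)) (XT.nd (nat_lit 78) (nat_lit 0) (nat_lit 0) (XT.lf (nat_lit 0) (nat_lit 4797778779) (nat_lit 304) (nat_lit 6949397917) (nat_lit 76) (nat_lit 953750150) (nat_lit 42) (nat_lit 5) (nat_lit 46) (nat_lit 5) (nat_lit 43) (nat_lit 5) (nat_lit 273) (nat_lit 248) (nat_lit 199)) (XT.lf (nat_lit 0) (nat_lit 7007218793) (nat_lit 304) (nat_lit 1059115872) (nat_lit 76) (nat_lit 5021711229) (nat_lit 42) (nat_lit 5) (nat_lit 46) (nat_lit 5) (nat_lit 43) (nat_lit 5) (nat_lit 274) (nat_lit 248) (nat_lit 198)))))) (XT.nd (nat_lit 312) (nat_lit 380) (nat_lit 0) (XT.nd (nat_lit 156) (nat_lit 304) (nat_lit 0) (XT.nd (nat_lit 78) (nat_lit 0) (nat_lit 0) (XT.lf (nat_lit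 0) (nat_lit 5250044690) (nat_lit 228) (nat_lit 4123956413) (nat_lit 304) (nat_lit 4118280741) (nat_lit 39) (nat_lit 5) (nat_lit 42) (nat_lit 5) (nat_lit 43) (nat_lit 5) (nat_lit 275) (nat_lit 248) (nat_lit 197)) (XT.lf (nat_lit 0) (nat_lit 11843360277) (nat_lit 304) (nat_lit 2049567377) (nat_lit 76) (nat_lit 24689539) (nat_lit 39) (nat_lit 5) (nat_lit 43) (nat_lit 5) (nat_lit 40) (nat_lit 5) (nat_lit 276) (nat_lit 248) (nat_lit 196))) (XT.nd (nat_lit 78) (nat_lit 0) (nat_lit 0) (XT.lf (nat_lit 0) (nat_lit 176337827) (nat_lit 304) (nat_lit 9875695298) (nat_lit 76) (nat_lit 4306886583) (nat_lit 35) (nat_lit 5) (nat_lit 39) (nat_lit 5) (nat_lit 36) (nat_lit 5) (nat_lit 277) (nat_lit 248) (nat_lit 195)) (XT.lf (nat_lit 0) (nat_lit 2472720392) (nat_lit 304) (nat_lit 3484287720) (nat_lit 76) (nat_lit 8863516632) (nat_lit 35) (nat_lit 5) (nat_lit 39) (nat_lit 5) (nat_lit 36) (nat_lit 5) (nat_lit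 278) (nat_lit 248) (nat_lit 194)))) (XT.nd (nat_lit 156) (nat_lit 152) (nat_lit 0) (XT.nd (nat_lit 78) (nat_lit 0) (nat_lit 0) (XT.lf (nat_lit 0) (nat_lit 3291097532) (nat_lit 228) (nat_lit 1613433788) (nat_lit 304) (nat_lit 10399730100) (nat_lit 32) (nat_lit 5) (nat_lit 35) (nat_lit 5) (nat_lit 36) (nat_lit 5) (nat_lit 279) (nat_lit 248) (nat_lit 193)) (XT.lf (nat_lit 0) (nat_lit 7533825569) (nat_lit 304) (nat_lit 5371680898) (nat_lit 76) (nat_lit 2902961777) (nat_lit 32) (nat_lit 5) (nat_lit 36) (nat_lit 5) (nat_lit 33) (nat_lit 5) (nat_lit 280) (nat_lit 248) (nat_lit 192))) (XT.nd (nat_lit 78) (nat_lit 0) (nat_lit 0) (XT.lf (nat_lit 0) (nat_lit 1586507746) (nat_lit 152) (nat_lit 8730631029) (nat_lit 228) (nat_lit 6019693160) (nat_lit 30) (nat_lit 5) (nat_lit 32) (nat_lit 5) (nat_lit 33) (nat_lit 5) (nat_lit 281) (nat_lit 248) (nat_lit 191)) (XT.nd (nat_lit 78) (nat_lit 0) (nat_lit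 0) (XT.lf (nat_lit 0) (nat_lit 9040041810) (nat_lit 152) (nat_lit 4262637760) (nat_lit 228) (nat_lit 3585851849) (nat_lit 30) (nat_lit 5) (nat_lit 32) (nat_lit 5) (nat_lit 33) (nat_lit 5) (nat_lit 282) (nat_lit 248) (nat_lit 190)) (XT.lf (nat_lit 0) (nat_lit 16417444696) (nat_lit 228) (nat_lit 646684822) (nat_lit 76) (nat_lit 404756332) (nat_lit 30) (nat_lit 5) (nat_lit 33) (nat_lit 5) (nat_lit 31) (nat_lit 5) (nat_lit 283) (nat_lit 248) (nat_lit 189))))))) (XT.nd (nat_lit 702) (nat_lit 456) (nat_lit 0) (XT.nd (nat_lit 312) (nat_lit 380) (nat_lit 0) (XT.nd (nat_lit 156) (nat_lit 152) (nat_lit 0) (XT.nd (nat_lit 78) (nat_lit 0) (nat_lit 0) (XT.lf (nat_lit 0) (nat_lit 1714860595) (nat_lit 304) (nat_lit 11064409157) (nat_lit 76) (nat_lit 5289958206) (nat_lit 26) (nat_lit 5) (nat_lit 30) (nat_lit 5) (nat_lit 27) (nat_lit 5) (nat_lit 284) (nat_lit 248) (nat_lit 188)) (XT.lf (nat_lit 0)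 (nat_lit 4569985240) (nat_lit 304) (nat_lit 3692008417) (nat_lit 76) (nat_lit 10437497691) (nat_lit 26) (nat_lit 5) (nat_lit 30) (nat_lit 5) (nat_lit 27) (nat_lit 5) (nat_lit 285) (nat_lit 248) (nat_lit 187))) (XT.nd (nat_lit 78) (nat_lit 0) (nat_lit 0) (XT.lf (nat_lit 0) (nat_lit 4146584575) (nat_lit 152) (nat_lit 3461937218) (nat_lit 228) (nat_lit 11750768729) (nat_lit 24) (nat_lit 5) (nat_lit 26) (nat_lit 5) (nat_lit 27) (nat_lit 5) (nat_lit 286) (nat_lit 248) (nat_lit 186)) (XT.lf (nat_lit 0) (nat_lit 10863524620) (nat_lit 228) (nat_lit 7604962716) (nat_lit 76) (nat_lit 1580418108) (nat_lit 24) (nat_lit 5) (nat_lit 27) (nat_lit 5) (nat_lit 25) (nat_lit 5) (nat_lit 287) (nat_lit 248) (nat_lit 185)))) (XT.nd (nat_lit 156) (nat_lit 228) (nat_lit 0) (XT.nd (nat_lit 78) (nat_lit 0) (nat_lit 0) (XT.lf (nat_lit 0) (nat_lit 302151190) (nat_lit 152) (nat_lit 14018072676) (nat_lit 228) (nat_lit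 6450880178) (nat_lit 22) (nat_lit 5) (nat_lit 24) (nat_lit 5) (nat_lit 25) (nat_lit 5) (nat_lit 288) (nat_lit 248) (nat_lit 184)) (XT.lf (nat_lit 0) (nat_lit 8835261109) (nat_lit 152) (nat_lit 9221317794) (nat_lit 228) (nat_lit 3467540488) (nat_lit 22) (nat_lit 5) (nat_lit 24) (nat_lit 5) (nat_lit 25) (nat_lit 5) (nat_lit 289) (nat_lit 248) (nat_lit 183))) (XT.nd (nat_lit 78) (nat_lit 228) (nat_lit 0) (XT.lf (nat_lit 0) (nat_lit 17763229555) (nat_lit 152) (nat_lit 4195595568) (nat_lit 228) (nat_lit 357052286) (nat_lit 22) (nat_lit 5) (nat_lit 24) (nat_lit 5) (nat_lit 25) (nat_lit 5) (nat_lit 290) (nat_lit 248) (nat_lit 182)) (XT.nd (nat_lit 78) (nat_lit 0) (nat_lit 0) (XT.lf (nat_lit 0) (nat_lit 2877181337) (nat_lit 228) (nat_lit 19117974700) (nat_lit 76) (nat_lit 1146771484) (nat_lit 19) (nat_lit 5) (nat_lit 22) (nat_lit 5) (nat_lit 20) (nat_lit 5) (nat_lit 291) (nat_lit 248) (nat_lit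 181)) (XT.lf (nat_lit 0) (nat_lit 6388297680) (nat_lit 228) (nat_lit 10925239759) (nat_lit 76) (nat_lit 6689130889) (nat_lit 19) (nat_lit 5) (nat_lit 22) (nat_lit 5) (nat_lit 20) (nat_lit 5) (nat_lit 292) (nat_lit 248) (nat_lit 180)))))) (XT.nd (nat_lit 312) (nat_lit 304) (nat_lit 0) (XT.nd (nat_lit 156) (nat_lit 0) (nat_lit 0) (XT.nd (nat_lit 78) (nat_lit 152) (nat_lit 0) (XT.lf (nat_lit 0) (nat_lit 10055945869) (nat_lit 228) (nat_lit 2352733159) (nat_lit 76) (nat_lit 12498755840) (nat_lit 19) (nat_lit 5) (nat_lit 22) (nat_lit 5) (nat_lit 20) (nat_lit 5) (nat_lit 293) (nat_lit 248) (nat_lit 179)) (XT.lf (nat_lit 0) (nat_lit 6838841464) (nat_lit 152) (nat_lit 7156790417) (nat_lit 228) (nat_lit 11857410795) (nat_lit 17) (nat_lit 5) (nat_lit 19) (nat_lit 5) (nat_lit 20) (nat_lit 5) (nat_lit 294) (nat_lit 248) (nat_lit 178))) (XT.nd (nat_lit 78) (nat_lit 0) (nat_lit 0) (XT.lf (nat_lit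 0) (nat_lit 16543692219) (nat_lit 152) (nat_lit 1610762437) (nat_lit 228) (nat_lit 8690402606) (nat_lit 17) (nat_lit 5) (nat_lit 19) (nat_lit 5) (nat_lit 20) (nat_lit 5) (nat_lit 295) (nat_lit 248) (nat_lit 177)) (XT.lf (nat_lit 0) (nat_lit 22569985783) (nat_lit 228) (nat_lit 1245620488) (nat_lit 76) (nat_lit 4068250335) (nat_lit 17) (nat_lit 5) (nat_lit 20) (nat_lit 5) (nat_lit 18) (nat_lit 4) (nat_lit 296) (nat_lit 248) (nat_lit 176)))) (XT.nd (nat_lit 156) (nat_lit 152) (nat_lit 0) (XT.nd (nat_lit 78) (nat_lit 76) (nat_lit 0) (XT.lf (nat_lit 0) (nat_lit 8481692534) (nat_lit 76) (nat_lit 18867236757) (nat_lit 152) (nat_lit 1618775684) (nat_lit 16) (nat_lit 5) (nat_lit 17) (nat_lit 5) (nat_lit 18) (nat_lit 4) (nat_lit 297) (nat_lit 248) (nat_lit 175)) (XT.lf (nat_lit 0) (nat_lit 2194036435) (nat_lit 152) (nat_lit 11427932317) (nat_lit 76) (nat_lit 16481773369) (nat_lit 15) (nat_lit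 5) (nat_lit 17) (nat_lit 5) (nat_lit 16) (nat_lit 5) (nat_lit 298) (nat_lit 248) (nat_lit 174))) (XT.nd (nat_lit 78) (nat_lit 152) (nat_lit 0) (XT.lf (nat_lit 0) (nat_lit 6127744549) (nat_lit 152) (nat_lit 1968447517) (nat_lit 76) (nat_lit 23199855998) (nat_lit 15) (nat_lit 5) (nat_lit 17) (nat_lit 5) (nat_lit 16) (nat_lit 5) (nat_lit 299) (nat_lit 248) (nat_lit 173)) (XT.nd (nat_lit 78) (nat_lit 0) (nat_lit 0) (XT.lf (nat_lit 0) (nat_lit 8202778300) (nat_lit 152) (nat_lit 2168815618) (nat_lit 228) (nat_lit 22170727971) (nat_lit 13) (nat_lit 5) (nat_lit 15) (nat_lit 5) (nat_lit 16) (nat_lit 5) (nat_lit 300) (nat_lit 248) (nat_lit 172)) (XT.lf (nat_lit 0) (nat_lit 14910403628) (nat_lit 228) (nat_lit 14986178408) (nat_lit 76) (nat_lit 3950213148) (nat_lit 13) (nat_lit 5) (nat_lit 16) (nat_lit 5) (nat_lit 14) (nat_lit 4) (nat_lit 301) (nat_lit 248) (nat_lit 171))))))))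
noncomputable def xc138 : XT := (XT.nd (nat_lit 1404) (nat_lit 304) (nat_lit 0) (XT.nd (nat_lit 702) (nat_lit 228) (nat_lit 0) (XT.nd (nat_lit 312) (nat_lit 228) (nat_lit 0) (XT.nd (nat_lit 156) (nat_lit 0) (nat_lit 0) (XT.nd (nat_lit 78) (nat_lit 76) (nat_lit 0) (XT.lf (nat_lit 0) (nat_lit 19697970978) (nat_lit 228) (nat_lit 5223543108) (nat_lit 76) (nat_lit 10293910219) (nat_lit 13) (nat_lit 5) (nat_lit 16) (nat_lit 5) (nat_lit 14) (nat_lit 4) (nat_lit 302) (nat_lit 248) (nat_lit 170)) (XT.lf (nat_lit 0) (nat_lit 5170971346) (nat_lit 76) (nat_lit 19621595656) (nat_lit 152) (nat_lit 11856557286) (nat_lit 12) (nat_lit 5) (nat_lit 13) (nat_lit 5) (nat_lit 14) (nat_lit 4) (nat_lit 303) (nat_lit 248) (nat_lit 169))) (XT.nd (nat_lit 78) (nat_lit 0) (nat_lit 0) (XT.lf (nat_lit 0) (nat_lit 16245156062) (nat_lit 76) (nat_lit 13972405760) (nat_lit 152) (nat_lit 7933184880) (nat_lit 12) (nat_lit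 5) (nat_lit 13) (nat_lit 5) (nat_lit 14) (nat_lit 4) (nat_lit 304) (nat_lit 248) (nat_lit 168)) (XT.lf (nat_lit 0) (nat_lit 27852664219) (nat_lit 76) (nat_lit 8048957175) (nat_lit 152) (nat_lit 3826457976) (nat_lit 12) (nat_lit 5) (nat_lit 13) (nat_lit 5) (nat_lit 14) (nat_lit 4) (nat_lit 305) (nat_lit 248) (nat_lit 167)))) (XT.nd (nat_lit 156) (nat_lit 0) (nat_lit 0) (XT.nd (nat_lit 78) (nat_lit 152) (nat_lit 0) (XT.lf (nat_lit 0) (nat_lit 458249547) (nat_lit 152) (nat_lit 1371136227) (nat_lit 76) (nat_lit 39555122516) (nat_lit 11) (nat_lit 5) (nat_lit 13) (nat_lit 5) (nat_lit 12) (nat_lit 5) (nat_lit 306) (nat_lit 248) (nat_lit 166)) (XT.lf (nat_lit 0) (nat_lit 5048651034) (nat_lit 228) (nat_lit 33296919851) (nat_lit 76) (nat_lit 4764065876) (nat_lit 9) (nat_lit 5) (nat_lit 12) (nat_lit 5) (nat_lit 10) (nat_lit 4) (nat_lit 307) (nat_lit 248) (nat_lit 165))) (XT.nd (nat_lit 78) (nat_lit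 0) (nat_lit 0) (XT.lf (nat_lit 0) (nat_lit 9911040816) (nat_lit 228) (nat_lit 23365889358) (nat_lit 76) (nat_lit 11641984428) (nat_lit 9) (nat_lit 5) (nat_lit 12) (nat_lit 5) (nat_lit 10) (nat_lit 4) (nat_lit 308) (nat_lit 248) (nat_lit 164)) (XT.nd (nat_lit 78) (nat_lit 0) (nat_lit 0) (XT.lf (nat_lit 0) (nat_lit 15005956529) (nat_lit 228) (nat_lit 12956425060) (nat_lit 76) (nat_lit 18856820006) (nat_lit 9) (nat_lit 5) (nat_lit 12) (nat_lit 5) (nat_lit 10) (nat_lit 4) (nat_lit 309) (nat_lit 248) (nat_lit 163)) (XT.lf (nat_lit 0) (nat_lit 20345528926) (nat_lit 228) (nat_lit 2043742517) (nat_lit 76) (nat_lit 26425750787) (nat_lit 9) (nat_lit 5) (nat_lit 12) (nat_lit 5) (nat_lit 10) (nat_lit 4) (nat_lit 310) (nat_lit 248) (nat_lit 162)))))) (XT.nd (nat_lit 312) (nat_lit 152) (nat_lit 0) (XT.nd (nat_lit 156) (nat_lit 0) (nat_lit 0) (XT.nd (nat_lit 78) (nat_lit 0) (nat_lit 0) (XT.lf (nat_lit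 0) (nat_lit 9708885827) (nat_lit 76) (nat_lit 16385168364) (nat_lit 152) (nat_lit 24809495126) (nat_lit 8) (nat_lit 5) (nat_lit 9) (nat_lit 5) (nat_lit 10) (nat_lit 4) (nat_lit 311) (nat_lit 248) (nat_lit 161)) (XT.lf (nat_lit 0) (nat_lit 22103931463) (nat_lit 76) (nat_lit 10051282480) (nat_lit 152) (nat_lit 20940041863) (nat_lit 8) (nat_lit 5) (nat_lit 9) (nat_lit 5) (nat_lit 10) (nat_lit 4) (nat_lit 312) (nat_lit 248) (nat_lit 160))) (XT.nd (nat_lit 78) (nat_lit 0) (nat_lit 0) (XT.lf (nat_lit 0) (nat_lit 35103331046) (nat_lit 76) (nat_lit 3407144880) (nat_lit 152) (nat_lit 16886532300) (nat_lit 8) (nat_lit 5) (nat_lit 9) (nat_lit 5) (nat_lit 10) (nat_lit 4) (nat_lit 313) (nat_lit 248) (nat_lit 159)) (XT.lf (nat_lit 0) (nat_lit 45230601127) (nat_lit 152) (nat_lit 9131880823) (nat_lit 0) (nat_lit 3449023517) (nat_lit 8) (nat_lit 5) (nat_lit 10) (nat_lit 4) (nat_lit 8) (nat_lit 4) (nat_lit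 314) (nat_lit 248) (nat_lit 158)))) (XT.nd (nat_lit 156) (nat_lit 76) (nat_lit 0) (XT.nd (nat_lit 78) (nat_lit 0) (nat_lit 0) (XT.lf (nat_lit 0) (nat_lit 2601108955) (nat_lit 76) (nat_lit 49773874696) (nat_lit 76) (nat_lit 7967342993) (nat_lit 7) (nat_lit 4) (nat_lit 8) (nat_lit 5) (nat_lit 8) (nat_lit 4) (nat_lit 315) (nat_lit 248) (nat_lit 157)) (XT.lf (nat_lit 0) (nat_lit 15223723751) (nat_lit 76) (nat_lit 44799471603) (nat_lit 76) (nat_lit 2969174097) (nat_lit 7) (nat_lit 4) (nat_lit 8) (nat_lit 5) (nat_lit 8) (nat_lit 4) (nat_lit 316) (nat_lit 248) (nat_lit 156))) (XT.nd (nat_lit 78) (nat_lit 0) (nat_lit 0) (XT.lf (nat_lit 0) (nat_lit 2198168549) (nat_lit 152) (nat_lit 37346686077) (nat_lit 76) (nat_lit 26228680589) (nat_lit 6) (nat_lit 5) (nat_lit 8) (nat_lit 5) (nat_lit 7) (nat_lit 4) (nat_lit 317) (nat_lit 248) (nat_lit 155)) (XT.nd (nat_lit 78) (nat_lit 0) (nat_lit 0) (XT.lf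 (nat_lit 0) (nat_lit 7516670268) (nat_lit 152) (nat_lit 26465313838) (nat_lit 76) (nat_lit 34709722195) (nat_lit 6) (nat_lit 5) (nat_lit 8) (nat_lit 5) (nat_lit 7) (nat_lit 4) (nat_lit 318) (nat_lit 248) (nat_lit 154)) (XT.lf (nat_lit 0) (nat_lit 13094026271) (nat_lit 152) (nat_lit 15052263825) (nat_lit 76) (nat_lit 43609858493) (nat_lit 6) (nat_lit 5) (nat_lit 8) (nat_lit 5) (nat_lit 7) (nat_lit 4) (nat_lit 319) (nat_lit 248) (nat_lit 153))))))) (XT.nd (nat_lit 702) (nat_lit 152) (nat_lit 0) (XT.nd (nat_lit 312) (nat_lit 76) (nat_lit 0) (XT.nd (nat_lit 156) (nat_lit 0) (nat_lit 0) (XT.nd (nat_lit 78) (nat_lit 76) (nat_lit 0) (XT.lf (nat_lit 0) (nat_lit 18943515978) (nat_lit 152) (nat_lit 3080362111) (nat_lit 76) (nat_lit 52950280285) (nat_lit 6) (nat_lit 5) (nat_lit 8) (nat_lit 5) (nat_lit 7) (nat_lit 4) (nat_lit 320) (nat_lit 248) (nat_lit 152)) (XT.lf (nat_lit 0) (nat_lit 9792310937)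 (nat_lit 76) (nat_lit 15439641224) (nat_lit 152) (nat_lit 53113801149) (nat_lit 5) (nat_lit 5) (nat_lit 6) (nat_lit 5) (nat_lit 7) (nat_lit 4) (nat_lit 321) (nat_lit 248) (nat_lit 151))) (XT.nd (nat_lit 78) (nat_lit 0) (nat_lit 0) (XT.lf (nat_lit 0) (nat_lit 23404503271) (nat_lit 76) (nat_lit 8476193642) (nat_lit 152) (nat_lit 50002944612) (nat_lit 5) (nat_lit 5) (nat_lit 6) (nat_lit 5) (nat_lit 7) (nat_lit 4) (nat_lit 322) (nat_lit 248) (nat_lit 150)) (XT.lf (nat_lit 0) (nat_lit 37686774190) (nat_lit 76) (nat_lit 1169123129) (nat_lit 152) (nat_lit 46742833405) (nat_lit 5) (nat_lit 5) (nat_lit 6) (nat_lit 5) (nat_lit 7) (nat_lit 4) (nat_lit 323) (nat_lit 248) (nat_lit 149)))) (XT.nd (nat_lit 156) (nat_lit 76) (nat_lit 0) (XT.nd (nat_lit 78) (nat_lit 0) (nat_lit 0) (XT.lf (nat_lit 0) (nat_lit 46275628103) (nat_lit 152) (nat_lit 36928204364) (nat_lit 0) (nat_lit 6290960536) (nat_lit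 5) (nat_lit 5) (nat_lit 7) (nat_lit 4) (nat_lit 5) (nat_lit 4) (nat_lit 324) (nat_lit 248) (nat_lit 148)) (XT.lf (nat_lit 0) (nat_lit 54080021479) (nat_lit 152) (nat_lit 25424196140) (nat_lit 0) (nat_lit 14080763771) (nat_lit 5) (nat_lit 5) (nat_lit 7) (nat_lit 4) (nat_lit 5) (nat_lit 4) (nat_lit 325) (nat_lit 248) (nat_lit 147))) (XT.nd (nat_lit 78) (nat_lit 76) (nat_lit 0) (XT.lf (nat_lit 0) (nat_lit 62269406049) (nat_lit 152) (nat_lit 13354288078) (nat_lit 0) (nat_lit 22256252968) (nat_lit 5) (nat_lit 5) (nat_lit 7) (nat_lit 4) (nat_lit 5) (nat_lit 4) (nat_lit 326) (nat_lit 248) (nat_lit 146)) (XT.nd (nat_lit 78) (nat_lit 76) (nat_lit 0) (XT.lf (nat_lit 0) (nat_lit 70863280346) (nat_lit 152) (nat_lit 689742302) (nat_lit 0) (nat_lit 30836893577) (nat_lit 5) (nat_lit 5) (nat_lit 7) (nat_lit 4) (nat_lit 5) (nat_lit 4) (nat_lit 327) (nat_lit 248) (nat_lit 145)) (XT.lf (nat_lit 0) (nat_lit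 13016194376) (nat_lit 76) (nat_lit 67069130873) (nat_lit 76) (nat_lit 27030140591) (nat_lit 4) (nat_lit 4) (nat_lit 5) (nat_lit 5) (nat_lit 5) (nat_lit 4) (nat_lit 328) (nat_lit 248) (nat_lit 144)))))) (XT.nd (nat_lit 312) (nat_lit 152) (nat_lit 0) (XT.nd (nat_lit 156) (nat_lit 0) (nat_lit 0) (XT.nd (nat_lit 78) (nat_lit 0) (nat_lit 0) (XT.lf (nat_lit 0) (nat_lit 27423074352) (nat_lit 76) (nat_lit 62352433027) (nat_lit 76) (nat_lit 22301439400) (nat_lit 4) (nat_lit 4) (nat_lit 5) (nat_lit 5) (nat_lit 5) (nat_lit 4) (nat_lit 329) (nat_lit 248) (nat_lit 143)) (XT.lf (nat_lit 0) (nat_lit 42542393725) (nat_lit 76) (nat_lit 57403379997) (nat_lit 76) (nat_lit 17340954612) (nat_lit 4) (nat_lit 4) (nat_lit 5) (nat_lit 5) (nat_lit 5) (nat_lit 4) (nat_lit 330) (nat_lit 248) (nat_lit 142))) (XT.nd (nat_lit 78) (nat_lit 0) (nat_lit 0) (XT.lf (nat_lit 0) (nat_lit 58410150876) (nat_lit 76) (nat_lit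 52210188324) (nat_lit 76) (nat_lit 12136875551) (nat_lit 4) (nat_lit 4) (nat_lit 5) (nat_lit 5) (nat_lit 5) (nat_lit 4) (nat_lit 331) (nat_lit 248) (nat_lit 141)) (XT.lf (nat_lit 0) (nat_lit 75064126177) (nat_lit 76) (nat_lit 46760493265) (nat_lit 76) (nat_lit 6676811552) (nat_lit 4) (nat_lit 4) (nat_lit 5) (nat_lit 5) (nat_lit 5) (nat_lit 4) (nat_lit 332) (nat_lit 248) (nat_lit 140)))) (XT.nd (nat_lit 156) (nat_lit 76) (nat_lit 0) (XT.nd (nat_lit 78) (nat_lit 76) (nat_lit 0) (XT.lf (nat_lit 0) (nat_lit 92543971952) (nat_lit 76) (nat_lit 41041319357) (nat_lit 76) (nat_lit 947762461) (nat_lit 4) (nat_lit 4) (nat_lit 5) (nat_lit 5) (nat_lit 5) (nat_lit 4) (nat_lit 333) (nat_lit 248) (nat_lit 139)) (XT.lf (nat_lit 0) (nat_lit 4901835493) (nat_lit 152) (nat_lit 30054199068) (nat_lit 76) (nat_lit 105906456430) (nat_lit 3) (nat_lit 5) (nat_lit 5) (nat_lit 5) (nat_lit 4) (nat_lit 4) (nat_lit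 334) (nat_lit 248) (nat_lit 138))) (XT.nd (nat_lit 78) (nat_lit 76) (nat_lit 0) (XT.lf (nat_lit 0) (nat_lit 11008534418) (nat_lit 152) (nat_lit 17544423354) (nat_lit 76) (nat_lit 118954845817) (nat_lit 3) (nat_lit 5) (nat_lit 5) (nat_lit 5) (nat_lit 4) (nat_lit 4) (nat_lit 335) (nat_lit 248) (nat_lit 137)) (XT.nd (nat_lit 78) (nat_lit 76) (nat_lit 0) (XT.lf (nat_lit 0) (nat_lit 17417208388) (nat_lit 152) (nat_lit 4415172269) (nat_lit 76) (nat_lit 132653172941) (nat_lit 3) (nat_lit 5) (nat_lit 5) (nat_lit 5) (nat_lit 4) (nat_lit 4) (nat_lit 336) (nat_lit 248) (nat_lit 136)) (XT.lf (nat_lit 0) (nat_lit 9674457363) (nat_lit 76) (nat_lit 14619704180) (nat_lit 152) (nat_lit 137510640892) (nat_lit 2) (nat_lit 5) (nat_lit 3) (nat_lit 5) (nat_lit 4) (nat_lit 4) (nat_lit 337) (nat_lit 248) (nat_lit 135))))))))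
noncomputable def xc139 : XT := (XT.nd (nat_lit 1404) (nat_lit 0) (nat_lit 0) (XT.nd (nat_lit 702) (nat_lit 76) (nat_lit 0) (XT.nd (nat_lit 312) (nat_lit 0) (nat_lit 0) (XT.nd (nat_lit 156) (nat_lit 0) (nat_lit 0) (XT.nd (nat_lit 78) (nat_lit 0) (nat_lit 0) (XT.lf (nat_lit 0) (nat_lit 24616218600) (nat_lit 76) (nat_lit 6970381333) (nat_lit 152) (nat_lit 137899835337) (nat_lit 2) (nat_lit 5) (nat_lit 3) (nat_lit 5) (nat_lit 4) (nat_lit 4) (nat_lit 338) (nat_lit 248) (nat_lit 134)) (XT.lf (nat_lit 0) (nat_lit 39257208439) (nat_lit 152) (nat_lit 137269135186) (nat_lit 0) (nat_lit 1025131983) (nat_lit 2) (nat_lit 5) (nat_lit 4) (nat_lit 4) (nat_lit 2) (nat_lit 4) (nat_lit 339) (nat_lit 248) (nat_lit 133))) (XT.nd (nat_lit 78) (nat_lit 0) (nat_lit 0) (XT.lf (nat_lit 0) (nat_lit 47422736531) (nat_lit 152) (nat_lit 129407488924) (nat_lit 0) (nat_lit 9183976163) (nat_lit 2) (nat_lit 5) (nat_lit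 4) (nat_lit 4) (nat_lit 2) (nat_lit 4) (nat_lit 340) (nat_lit 248) (nat_lit 132)) (XT.lf (nat_lit 0) (nat_lit 55993798756) (nat_lit 152) (nat_lit 121157732492) (nat_lit 0) (nat_lit 17748672759) (nat_lit 2) (nat_lit 5) (nat_lit 4) (nat_lit 4) (nat_lit 2) (nat_lit 4) (nat_lit 341) (nat_lit 248) (nat_lit 131)))) (XT.nd (nat_lit 156) (nat_lit 0) (nat_lit 0) (XT.nd (nat_lit 78) (nat_lit 0) (nat_lit 0) (XT.lf (nat_lit 0) (nat_lit 64990802407) (nat_lit 152) (nat_lit 112500223614) (nat_lit 0) (nat_lit 26739613904) (nat_lit 2) (nat_lit 5) (nat_lit 4) (nat_lit 4) (nat_lit 2) (nat_lit 4) (nat_lit 342) (nat_lit 248) (nat_lit 130)) (XT.lf (nat_lit 0) (nat_lit 74435168919) (nat_lit 152) (nat_lit 103414349174) (nat_lit 0) (nat_lit 36178206602) (nat_lit 2) (nat_lit 5) (nat_lit 4) (nat_lit 4) (nat_lit 2) (nat_lit 4) (nat_lit 343) (nat_lit 248) (nat_lit 129))) (XT.nd (nat_lit 78) (nat_lit 0) (nat_lit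 0) (XT.lf (nat_lit 0) (nat_lit 84349384881) (nat_lit 152) (nat_lit 93878476136) (nat_lit 0) (nat_lit 46086923693) (nat_lit 2) (nat_lit 5) (nat_lit 4) (nat_lit 4) (nat_lit 2) (nat_lit 4) (nat_lit 344) (nat_lit 248) (nat_lit 128)) (XT.nd (nat_lit 78) (nat_lit 0) (nat_lit 0) (XT.lf (nat_lit 0) (nat_lit 94757055567) (nat_lit 152) (nat_lit 83869900041) (nat_lit 0) (nat_lit 56489357360) (nat_lit 2) (nat_lit 5) (nat_lit 4) (nat_lit 4) (nat_lit 2) (nat_lit 4) (nat_lit 345) (nat_lit 248) (nat_lit 127)) (XT.lf (nat_lit 0) (nat_lit 105682961147) (nat_lit 152) (nat_lit 73364790946) (nat_lit 0) (nat_lit 67410275302) (nat_lit 2) (nat_lit 5) (nat_lit 4) (nat_lit 4) (nat_lit 2) (nat_lit 4) (nat_lit 346) (nat_lit 248) (nat_lit 126)))))) (XT.nd (nat_lit 312) (nat_lit 76) (nat_lit 0) (XT.nd (nat_lit 156) (nat_lit 0) (nat_lit 0) (XT.nd (nat_lit 78) (nat_lit 0) (nat_lit 0) (XT.lf (nat_lit 0) (nat_lit 117153115682)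 (nat_lit 152) (nat_lit 62338136687) (nat_lit 0) (nat_lit 78875679705) (nat_lit 2) (nat_lit 5) (nat_lit 4) (nat_lit 4) (nat_lit 2) (nat_lit 4) (nat_lit 347) (nat_lit 248) (nat_lit 125)) (XT.lf (nat_lit 0) (nat_lit 129194829062) (nat_lit 152) (nat_lit 50763683325) (nat_lit 0) (nat_lit 90912869151) (nat_lit 2) (nat_lit 5) (nat_lit 4) (nat_lit 4) (nat_lit 2) (nat_lit 4) (nat_lit 348) (nat_lit 248) (nat_lit 124))) (XT.nd (nat_lit 78) (nat_lit 0) (nat_lit 0) (XT.lf (nat_lit 0) (nat_lit 141836772035) (nat_lit 152) (nat_lit 38613872637) (nat_lit 0) (nat_lit 103550503614) (nat_lit 2) (nat_lit 5) (nat_lit 4) (nat_lit 4) (nat_lit 2) (nat_lit 4) (nat_lit 349) (nat_lit 248) (nat_lit 123)) (XT.lf (nat_lit 0) (nat_lit 155109044464) (nat_lit 152) (nat_lit 25859776503) (nat_lit 0) (nat_lit 116818672701) (nat_lit 2) (nat_lit 5) (nat_lit 4) (nat_lit 4) (nat_lit 2) (nat_lit 4) (nat_lit 350) (nat_lit 248)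 (nat_lit 122)))) (XT.nd (nat_lit 156) (nat_lit 0) (nat_lit 0) (XT.nd (nat_lit 78) (nat_lit 76) (nat_lit 0) (XT.lf (nat_lit 0) (nat_lit 169043246998) (nat_lit 152) (nat_lit 12471028027) (nat_lit 0) (nat_lit 130748967290) (nat_lit 2) (nat_lit 5) (nat_lit 4) (nat_lit 4) (nat_lit 2) (nat_lit 4) (nat_lit 351) (nat_lit 248) (nat_lit 121)) (XT.lf (nat_lit 0) (nat_lit 1636633247) (nat_lit 76) (nat_lit 182061475494) (nat_lit 76) (nat_lit 143763473935) (nat_lit 1) (nat_lit 4) (nat_lit 2) (nat_lit 5) (nat_lit 2) (nat_lit 4) (nat_lit 352) (nat_lit 248) (nat_lit 120))) (XT.nd (nat_lit 78) (nat_lit 0) (nat_lit 0) (XT.lf (nat_lit 0) (nat_lit 16879783297) (nat_lit 76) (nat_lit 182415561513) (nat_lit 76) (nat_lit 144114015333) (nat_lit 1) (nat_lit 4) (nat_lit 2) (nat_lit 5) (nat_lit 2) (nat_lit 4) (nat_lit 353) (nat_lit 248) (nat_lit 119)) (XT.nd (nat_lit 78) (nat_lit 0) (nat_lit 0) (XT.lf (nat_lit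 0) (nat_lit 32882366831) (nat_lit 76) (nat_lit 182788579039) (nat_lit 76) (nat_lit 144483657028) (nat_lit 1) (nat_lit 4) (nat_lit 2) (nat_lit 5) (nat_lit 2) (nat_lit 4) (nat_lit 354) (nat_lit 248) (nat_lit 118)) (XT.lf (nat_lit 0) (nat_lit 49682485236) (nat_lit 76) (nat_lit 183181416207) (nat_lit 76) (nat_lit 144873279121) (nat_lit 1) (nat_lit 4) (nat_lit 2) (nat_lit 5) (nat_lit 2) (nat_lit 4) (nat_lit 355) (nat_lit 248) (nat_lit 117))))))) (XT.nd (nat_lit 29328) (nat_lit 0) (nat_lit 6004) (XT.nd (nat_lit 312) (nat_lit 0) (nat_lit 0) (XT.nd (nat_lit 156) (nat_lit 0) (nat_lit 0) (XT.nd (nat_lit 78) (nat_lit 0) (nat_lit 0) (XT.lf (nat_lit 0) (nat_lit 67320138796) (nat_lit 76) (nat_lit 183595008346) (nat_lit 76) (nat_lit 145283809282) (nat_lit 1) (nat_lit 4) (nat_lit 2) (nat_lit 5) (nat_lit 2) (nat_lit 4) (nat_lit 356) (nat_lit 248) (nat_lit 116)) (XT.lf (nat_lit 0) (nat_lit 85837321923)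 (nat_lit 76) (nat_lit 184030340197) (nat_lit 76) (nat_lit 145716224965) (nat_lit 1) (nat_lit 4) (nat_lit 2) (nat_lit 5) (nat_lit 2) (nat_lit 4) (nat_lit 357) (nat_lit 248) (nat_lit 115))) (XT.nd (nat_lit 78) (nat_lit 0) (nat_lit 0) (XT.lf (nat_lit 0) (nat_lit 105278123149) (nat_lit 76) (nat_lit 184488448266) (nat_lit 76) (nat_lit 146171555731) (nat_lit 1) (nat_lit 4) (nat_lit 2) (nat_lit 5) (nat_lit 2) (nat_lit 4) (nat_lit 358) (nat_lit 248) (nat_lit 114)) (XT.lf (nat_lit 0) (nat_lit 125688830095) (nat_lit 76) (nat_lit 184970423286) (nat_lit 76) (nat_lit 146650885700) (nat_lit 1) (nat_lit 4) (nat_lit 2) (nat_lit 5) (nat_lit 2) (nat_lit 4) (nat_lit 359) (nat_lit 248) (nat_lit 113)))) (XT.nd (nat_lit 156) (nat_lit 0) (nat_lit 0) (XT.nd (nat_lit 78) (nat_lit 0) (nat_lit 0) (XT.lf (nat_lit 0) (nat_lit 147118039684) (nat_lit 76) (nat_lit 185477412816) (nat_lit 76) (nat_lit 147155356134)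 (nat_lit 1) (nat_lit 4) (nat_lit 2) (nat_lit 5) (nat_lit 2) (nat_lit 4) (nat_lit 360) (nat_lit 248) (nat_lit 112)) (XT.lf (nat_lit 0) (nat_lit 169616773842) (nat_lit 76) (nat_lit 186010623975) (nat_lit 76) (nat_lit 147686168154) (nat_lit 1) (nat_lit 4) (nat_lit 2) (nat_lit 5) (nat_lit 2) (nat_lit 4) (nat_lit 361) (nat_lit 248) (nat_lit 111))) (XT.nd (nat_lit 28704) (nat_lit 0) (nat_lit 6992) (XT.lf (nat_lit 0) (nat_lit 193238600984) (nat_lit 76) (nat_lit 186571326313) (nat_lit 76) (nat_lit 148244585597) (nat_lit 1) (nat_lit 4) (nat_lit 2) (nat_lit 5) (nat_lit 2) (nat_lit 4) (nat_lit 362) (nat_lit 248) (nat_lit 110)) (XT.nd (nat_lit 78) (nat_lit 0) (nat_lit 0) (XT.lf (nat_lit 0) (nat_lit 1887240043) (nat_lit 532) (nat_lit 909575202) (nat_lit 532) (nat_lit 909575202) (nat_lit 93) (nat_lit 3) (nat_lit 100) (nat_lit 3) (nat_lit 100) (nat_lit 5) (nat_lit 249) (nat_lit 249) (nat_lit 222))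 (XT.lf (nat_lit 76) (nat_lit 1430277250) (nat_lit 0) (nat_lit 3795647268) (nat_lit 532) (nat_lit 2298229104) (nat_lit 94) (nat_lit 5) (nat_lit 93) (nat_lit 3) (nat_lit 100) (nat_lit 5) (nat_lit 250) (nat_lit 249) (nat_lit 221)))))) (XT.nd (nat_lit 312) (nat_lit 532) (nat_lit 0) (XT.nd (nat_lit 156) (nat_lit 0) (nat_lit 0) (XT.nd (nat_lit 78) (nat_lit 456) (nat_lit 0) (XT.lf (nat_lit 76) (nat_lit 4858792061) (nat_lit 0) (nat_lit 1835789881) (nat_lit 532) (nat_lit 949671014) (nat_lit 94) (nat_lit 5) (nat_lit 93) (nat_lit 3) (nat_lit 100) (nat_lit 5) (nat_lit 251) (nat_lit 249) (nat_lit 220)) (XT.lf (nat_lit 0) (nat_lit 382161970) (nat_lit 532) (nat_lit 7123747602) (nat_lit 608) (nat_lit 267898810) (nat_lit 87) (nat_lit 5) (nat_lit 94) (nat_lit 5) (nat_lit 95) (nat_lit 5) (nat_lit 252) (nat_lit 249) (nat_lit 219))) (XT.nd (nat_lit 78) (nat_lit 0) (nat_lit 0) (XT.lf (nat_lit 0) (nat_lit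 1746731998) (nat_lit 532) (nat_lit 3651429577) (nat_lit 608) (nat_lit 2511335459) (nat_lit 87) (nat_lit 5) (nat_lit 94) (nat_lit 5) (nat_lit 95) (nat_lit 5) (nat_lit 253) (nat_lit 249) (nat_lit 218)) (XT.lf (nat_lit 0) (nat_lit 3103358333) (nat_lit 532) (nat_lit 54613253) (nat_lit 608) (nat_lit 4898128003) (nat_lit 87) (nat_lit 5) (nat_lit 94) (nat_lit 5) (nat_lit 95) (nat_lit 5) (nat_lit 254) (nat_lit 249) (nat_lit 217)))) (XT.nd (nat_lit 156) (nat_lit 532) (nat_lit 0) (XT.nd (nat_lit 78) (nat_lit 0) (nat_lit 76) (XT.lf (nat_lit 76) (nat_lit 3796786083) (nat_lit 0) (nat_lit 717763424) (nat_lit 608) (nat_lit 3696451668) (nat_lit 88) (nat_lit 5) (nat_lit 87) (nat_lit 5) (nat_lit 95) (nat_lit 5) (nat_lit 255) (nat_lit 249) (nat_lit 216)) (XT.lf (nat_lit 0) (nat_lit 5956599773) (nat_lit 532) (nat_lit 609939439) (nat_lit 608) (nat_lit 1809384682) (nat_lit 88) (nat_lit 5) (nat_lit 95) (nat_lit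 5) (nat_lit 96) (nat_lit 5) (nat_lit 256) (nat_lit 249) (nat_lit 215))) (XT.nd (nat_lit 78) (nat_lit 608) (nat_lit 0) (XT.lf (nat_lit 76) (nat_lit 3434935139) (nat_lit 0) (nat_lit 4035081899) (nat_lit 608) (nat_lit 1079389657) (nat_lit 89) (nat_lit 5) (nat_lit 88) (nat_lit 5) (nat_lit 96) (nat_lit 5) (nat_lit 257) (nat_lit 249) (nat_lit 214)) (XT.nd (nat_lit 78) (nat_lit 0) (nat_lit 76) (XT.lf (nat_lit 0) (nat_lit 262541007) (nat_lit 608) (nat_lit 1082519149) (nat_lit 684) (nat_lit 7389225048) (nat_lit 80) (nat_lit 5) (nat_lit 88) (nat_lit 5) (nat_lit 89) (nat_lit 5) (nat_lit 258) (nat_lit 249) (nat_lit 213)) (XT.lf (nat_lit 0) (nat_lit 1647588718) (nat_lit 608) (nat_lit 5764488728) (nat_lit 76) (nat_lit 1515070123) (nat_lit 81) (nat_lit 5) (nat_lit 89) (nat_lit 5) (nat_lit 82) (nat_lit 5) (nat_lit 259) (nat_lit 249) (nat_lit 212))))))))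
noncomputable def xc140 : XT := (XT.nd (nat_lit 1404) (nat_lit 1672) (nat_lit 0) (XT.nd (nat_lit 702) (nat_lit 1140) (nat_lit 0) (XT.nd (nat_lit 312) (nat_lit 760) (nat_lit 0) (XT.nd (nat_lit 156) (nat_lit 684) (nat_lit 0) (XT.nd (nat_lit 78) (nat_lit 608) (nat_lit 0) (XT.lf (nat_lit 0) (nat_lit 3083087059) (nat_lit 608) (nat_lit 1543136183) (nat_lit 76) (nat_lit 4504597926) (nat_lit 81) (nat_lit 5) (nat_lit 89) (nat_lit 5) (nat_lit 82) (nat_lit 5) (nat_lit 260) (nat_lit 249) (nat_lit 211)) (XT.lf (nat_lit 0) (nat_lit 2935891395) (nat_lit 608) (nat_lit 1643653609) (nat_lit 684) (nat_lit 4765891381) (nat_lit 73) (nat_lit 5) (nat_lit 81) (nat_lit 5) (nat_lit 82) (nat_lit 5) (nat_lit 261) (nat_lit 249) (nat_lit 210))) (XT.nd (nat_lit 78) (nat_lit 684) (nat_lit 0) (XT.lf (nat_lit 0) (nat_lit 6146064289) (nat_lit 684) (nat_lit 1950354891) (nat_lit 76) (nat_lit 1474808088) (nat_lit 73) (nat_lit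 5) (nat_lit 82) (nat_lit 5) (nat_lit 74) (nat_lit 5) (nat_lit 262) (nat_lit 249) (nat_lit 209)) (XT.lf (nat_lit 0) (nat_lit 2745422319) (nat_lit 684) (nat_lit 5063337733) (nat_lit 760) (nat_lit 1998852099) (nat_lit 64) (nat_lit 5) (nat_lit 73) (nat_lit 5) (nat_lit 74) (nat_lit 5) (nat_lit 263) (nat_lit 249) (nat_lit 208)))) (XT.nd (nat_lit 156) (nat_lit 380) (nat_lit 0) (XT.nd (nat_lit 78) (nat_lit 380) (nat_lit 0) (XT.lf (nat_lit 0) (nat_lit 7697165267) (nat_lit 684) (nat_lit 1840244842) (nat_lit 760) (nat_lit 519452793) (nat_lit 64) (nat_lit 5) (nat_lit 73) (nat_lit 5) (nat_lit 74) (nat_lit 5) (nat_lit 264) (nat_lit 249) (nat_lit 207)) (XT.lf (nat_lit 0) (nat_lit 1017701267) (nat_lit 380) (nat_lit 7744572672) (nat_lit 76) (nat_lit 1554821465) (nat_lit 59) (nat_lit 5) (nat_lit 64) (nat_lit 5) (nat_lit 60) (nat_lit 5) (nat_lit 265) (nat_lit 249) (nat_lit 206))) (XT.nd (nat_lit 78)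 (nat_lit 380) (nat_lit 0) (XT.lf (nat_lit 0) (nat_lit 2637907798) (nat_lit 380) (nat_lit 2842309359) (nat_lit 76) (nat_lit 5108676061) (nat_lit 59) (nat_lit 5) (nat_lit 64) (nat_lit 5) (nat_lit 60) (nat_lit 5) (nat_lit 266) (nat_lit 249) (nat_lit 205)) (XT.nd (nat_lit 78) (nat_lit 0) (nat_lit 0) (XT.lf (nat_lit 0) (nat_lit 2334148979) (nat_lit 380) (nat_lit 1996528845) (nat_lit 456) (nat_lit 6544179777) (nat_lit 54) (nat_lit 5) (nat_lit 59) (nat_lit 5) (nat_lit 60) (nat_lit 5) (nat_lit 267) (nat_lit 249) (nat_lit 204)) (XT.lf (nat_lit 0) (nat_lit 6139474454) (nat_lit 456) (nat_lit 3378518740) (nat_lit 76) (nat_lit 1655704596) (nat_lit 54) (nat_lit 5) (nat_lit 60) (nat_lit 5) (nat_lit 55) (nat_lit 5) (nat_lit 268) (nat_lit 249) (nat_lit 203)))))) (XT.nd (nat_lit 312) (nat_lit 456) (nat_lit 0) (XT.nd (nat_lit 156) (nat_lit 380) (nat_lit 0) (XT.nd (nat_lit 78) (nat_lit 0) (nat_lit 0)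 (XT.lf (nat_lit 0) (nat_lit 2029053240) (nat_lit 304) (nat_lit 6032661976) (nat_lit 380) (nat_lit 3424754547) (nat_lit 50) (nat_lit 5) (nat_lit 54) (nat_lit 5) (nat_lit 55) (nat_lit 5) (nat_lit 269) (nat_lit 249) (nat_lit 202)) (XT.lf (nat_lit 0) (nat_lit 7780083407) (nat_lit 304) (nat_lit 2317077914) (nat_lit 380) (nat_lit 1716997671) (nat_lit 50) (nat_lit 5) (nat_lit 54) (nat_lit 5) (nat_lit 55) (nat_lit 5) (nat_lit 270) (nat_lit 249) (nat_lit 201))) (XT.nd (nat_lit 78) (nat_lit 0) (nat_lit 0) (XT.lf (nat_lit 0) (nat_lit 85918393) (nat_lit 380) (nat_lit 10514901966) (nat_lit 76) (nat_lit 1556863383) (nat_lit 45) (nat_lit 5) (nat_lit 50) (nat_lit 5) (nat_lit 46) (nat_lit 5) (nat_lit 271) (nat_lit 249) (nat_lit 200)) (XT.lf (nat_lit 0) (nat_lit 1990847665) (nat_lit 380) (nat_lit 4883427140) (nat_lit 76) (nat_lit 5639339231) (nat_lit 45) (nat_lit 5) (nat_lit 50) (nat_lit 5) (nat_lit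 46) (nat_lit 5) (nat_lit 272) (nat_lit 249) (nat_lit 199)))) (XT.nd (nat_lit 156) (nat_lit 228) (nat_lit 0) (XT.nd (nat_lit 78) (nat_lit 0) (nat_lit 0) (XT.lf (nat_lit 0) (nat_lit 1019645012) (nat_lit 228) (nat_lit 2951246375) (nat_lit 304) (nat_lit 8917565744) (nat_lit 42) (nat_lit 5) (nat_lit 45) (nat_lit 5) (nat_lit 46) (nat_lit 5) (nat_lit 273) (nat_lit 249) (nat_lit 198)) (XT.lf (nat_lit 0) (nat_lit 6117133386) (nat_lit 304) (nat_lit 5953755190) (nat_lit 76) (nat_lit 1207898462) (nat_lit 42) (nat_lit 5) (nat_lit 46) (nat_lit 5) (nat_lit 43) (nat_lit 5) (nat_lit 274) (nat_lit 249) (nat_lit 197))) (XT.nd (nat_lit 78) (nat_lit 0) (nat_lit 0) (XT.lf (nat_lit 0) (nat_lit 172607737) (nat_lit 228) (nat_lit 8215729426) (nat_lit 304) (nat_lit 5299513281) (nat_lit 39) (nat_lit 5) (nat_lit 42) (nat_lit 5) (nat_lit 43) (nat_lit 5) (nat_lit 275) (nat_lit 249) (nat_lit 196)) (XT.nd (nat_lit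 78) (nat_lit 0) (nat_lit 0) (XT.lf (nat_lit 0) (nat_lit 6771070273) (nat_lit 228) (nat_lit 4070387143) (nat_lit 304) (nat_lit 3272586542) (nat_lit 39) (nat_lit 5) (nat_lit 42) (nat_lit 5) (nat_lit 43) (nat_lit 5) (nat_lit 276) (nat_lit 249) (nat_lit 195)) (XT.lf (nat_lit 0) (nat_lit 13390587292) (nat_lit 304) (nat_lit 906979428) (nat_lit 76) (nat_lit 265402988) (nat_lit 39) (nat_lit 5) (nat_lit 43) (nat_lit 5) (nat_lit 40) (nat_lit 5) (nat_lit 277) (nat_lit 249) (nat_lit 194))))))) (XT.nd (nat_lit 702) (nat_lit 684) (nat_lit 0) (XT.nd (nat_lit 312) (nat_lit 456) (nat_lit 0) (XT.nd (nat_lit 156) (nat_lit 228) (nat_lit 0) (XT.nd (nat_lit 78) (nat_lit 0) (nat_lit 0) (XT.lf (nat_lit 0) (nat_lit 1131643474) (nat_lit 304) (nat_lit 9110682902) (nat_lit 76) (nat_lit 4784697514) (nat_lit 35) (nat_lit 5) (nat_lit 39) (nat_lit 5) (nat_lit 36) (nat_lit 5) (nat_lit 278) (nat_lit 249) (nat_lit 193))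 (XT.lf (nat_lit 0) (nat_lit 3497774274) (nat_lit 304) (nat_lit 2459647668) (nat_lit 76) (nat_lit 9556660657) (nat_lit 35) (nat_lit 5) (nat_lit 39) (nat_lit 5) (nat_lit 36) (nat_lit 5) (nat_lit 279) (nat_lit 249) (nat_lit 192))) (XT.nd (nat_lit 78) (nat_lit 0) (nat_lit 0) (XT.lf (nat_lit 0) (nat_lit 4635170486) (nat_lit 228) (nat_lit 1391496186) (nat_lit 304) (nat_lit 9996679057) (nat_lit 32) (nat_lit 5) (nat_lit 35) (nat_lit 5) (nat_lit 36) (nat_lit 5) (nat_lit 280) (nat_lit 249) (nat_lit 191)) (XT.lf (nat_lit 0) (nat_lit 8750167670) (nat_lit 304) (nat_lit 4477481837) (nat_lit 76) (nat_lit 3327085013) (nat_lit 32) (nat_lit 5) (nat_lit 36) (nat_lit 5) (nat_lit 33) (nat_lit 5) (nat_lit 281) (nat_lit 249) (nat_lit 190)))) (XT.nd (nat_lit 156) (nat_lit 304) (nat_lit 0) (XT.nd (nat_lit 78) (nat_lit 0) (nat_lit 0) (XT.lf (nat_lit 0) (nat_lit 2809861673) (nat_lit 152) (nat_lit 8840662983)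 (nat_lit 228) (nat_lit 5460201386) (nat_lit 30) (nat_lit 5) (nat_lit 32) (nat_lit 5) (nat_lit 33) (nat_lit 5) (nat_lit 282) (nat_lit 249) (nat_lit 189)) (XT.lf (nat_lit 0) (nat_lit 10581594891) (nat_lit 152) (nat_lit 4164817650) (nat_lit 228) (nat_lit 2945643078) (nat_lit 30) (nat_lit 5) (nat_lit 32) (nat_lit 5) (nat_lit 33) (nat_lit 5) (nat_lit 283) (nat_lit 249) (nat_lit 188))) (XT.nd (nat_lit 78) (nat_lit 76) (nat_lit 0) (XT.lf (nat_lit 0) (nat_lit 405973213) (nat_lit 228) (nat_lit 17584828597) (nat_lit 304) (nat_lit 312025592) (nat_lit 27) (nat_lit 5) (nat_lit 30) (nat_lit 5) (nat_lit 31) (nat_lit 5) (nat_lit 284) (nat_lit 249) (nat_lit 187)) (XT.nd (nat_lit 78) (nat_lit 0) (nat_lit 0) (XT.lf (nat_lit 0) (nat_lit 2541337463) (nat_lit 304) (nat_lit 10536725459) (nat_lit 76) (nat_lit 5855885891) (nat_lit 26) (nat_lit 5) (nat_lit 30) (nat_lit 5) (nat_lit 27) (nat_lit 5) (nat_lit 285)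 (nat_lit 249) (nat_lit 186)) (XT.lf (nat_lit 0) (nat_lit 5503945300) (nat_lit 304) (nat_lit 2847176308) (nat_lit 76) (nat_lit 11246448551) (nat_lit 26) (nat_lit 5) (nat_lit 30) (nat_lit 5) (nat_lit 27) (nat_lit 5) (nat_lit 286) (nat_lit 249) (nat_lit 185)))))) (XT.nd (nat_lit 312) (nat_lit 380) (nat_lit 0) (XT.nd (nat_lit 156) (nat_lit 152) (nat_lit 0) (XT.nd (nat_lit 78) (nat_lit 0) (nat_lit 0) (XT.lf (nat_lit 0) (nat_lit 5366742584) (nat_lit 152) (nat_lit 3309885822) (nat_lit 228) (nat_lit 11614697173) (nat_lit 24) (nat_lit 5) (nat_lit 26) (nat_lit 5) (nat_lit 27) (nat_lit 5) (nat_lit 287) (nat_lit 249) (nat_lit 184)) (XT.lf (nat_lit 0) (nat_lit 12066469421) (nat_lit 228) (nat_lit 6991228210) (nat_lit 76) (nat_lit 1959192805) (nat_lit 24) (nat_lit 5) (nat_lit 27) (nat_lit 5) (nat_lit 25) (nat_lit 5) (nat_lit 288) (nat_lit 249) (nat_lit 183))) (XT.nd (nat_lit 78) (nat_lit 0) (nat_lit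 0) (XT.lf (nat_lit 0) (nat_lit 1295209413) (nat_lit 152) (nat_lit 14384645216) (nat_lit 228) (nat_lit 6096221876) (nat_lit 22) (nat_lit 5) (nat_lit 24) (nat_lit 5) (nat_lit 25) (nat_lit 5) (nat_lit 289) (nat_lit 249) (nat_lit 182)) (XT.lf (nat_lit 0) (nat_lit 10208405749) (nat_lit 152) (nat_lit 9363973118) (nat_lit 228) (nat_lit 2995962930) (nat_lit 22) (nat_lit 5) (nat_lit 24) (nat_lit 5) (nat_lit 25) (nat_lit 5) (nat_lit 290) (nat_lit 249) (nat_lit 181)))) (XT.nd (nat_lit 156) (nat_lit 152) (nat_lit 0) (XT.nd (nat_lit 78) (nat_lit 152) (nat_lit 0) (XT.lf (nat_lit 0) (nat_lit 231677261) (nat_lit 228) (nat_lit 3866526361) (nat_lit 76) (nat_lit 19302820285) (nat_lit 21) (nat_lit 5) (nat_lit 24) (nat_lit 5) (nat_lit 22) (nat_lit 5) (nat_lit 291) (nat_lit 249) (nat_lit 180)) (XT.lf (nat_lit 0) (nat_lit 3606143496) (nat_lit 228) (nat_lit 19155339860) (nat_lit 76) (nat_lit 1507132153) (nat_lit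 19) (nat_lit 5) (nat_lit 22) (nat_lit 5) (nat_lit 20) (nat_lit 5) (nat_lit 292) (nat_lit 249) (nat_lit 179))) (XT.nd (nat_lit 78) (nat_lit 152) (nat_lit 0) (XT.lf (nat_lit 0) (nat_lit 7264953604) (nat_lit 228) (nat_lit 10596707865) (nat_lit 76) (nat_lit 7312179904) (nat_lit 19) (nat_lit 5) (nat_lit 22) (nat_lit 5) (nat_lit 20) (nat_lit 5) (nat_lit 293) (nat_lit 249) (nat_lit 178)) (XT.nd (nat_lit 78) (nat_lit 152) (nat_lit 0) (XT.lf (nat_lit 0) (nat_lit 11089448915) (nat_lit 228) (nat_lit 1637232787) (nat_lit 76) (nat_lit 13398543605) (nat_lit 19) (nat_lit 5) (nat_lit 22) (nat_lit 5) (nat_lit 20) (nat_lit 5) (nat_lit 294) (nat_lit 249) (nat_lit 177)) (XT.lf (nat_lit 0) (nat_lit 8000482874) (nat_lit 152) (nat_lit 7213162456) (nat_lit 228) (nat_lit 11905141681) (nat_lit 17) (nat_lit 5) (nat_lit 19) (nat_lit 5) (nat_lit 20) (nat_lit 5) (nat_lit 295) (nat_lit 249) (nat_lit 176))))))))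
noncomputable def xc141 : XT := (XT.nd (nat_lit 1404) (nat_lit 304) (nat_lit 0) (XT.nd (nat_lit 702) (nat_lit 304) (nat_lit 0) (XT.nd (nat_lit 312) (nat_lit 228) (nat_lit 0) (XT.nd (nat_lit 156) (nat_lit 152) (nat_lit 0) (XT.nd (nat_lit 78) (nat_lit 0) (nat_lit 0) (XT.lf (nat_lit 0) (nat_lit 18151542864) (nat_lit 152) (nat_lit 1404188671) (nat_lit 228) (nat_lit 8605742114) (nat_lit 17) (nat_lit 5) (nat_lit 19) (nat_lit 5) (nat_lit 20) (nat_lit 5) (nat_lit 296) (nat_lit 249) (nat_lit 175)) (XT.lf (nat_lit 0) (nat_lit 24172805804) (nat_lit 228) (nat_lit 544273047) (nat_lit 76) (nat_lit 4536350961) (nat_lit 17) (nat_lit 5) (nat_lit 20) (nat_lit 5) (nat_lit 18) (nat_lit 4) (nat_lit 297) (nat_lit 249) (nat_lit 174))) (XT.nd (nat_lit 78) (nat_lit 76) (nat_lit 0) (XT.lf (nat_lit 0) (nat_lit 9657089038) (nat_lit 76) (nat_lit 19522750832) (nat_lit 152) (nat_lit 1212216588) (nat_lit 16) (nat_lit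 5) (nat_lit 17) (nat_lit 5) (nat_lit 18) (nat_lit 4) (nat_lit 298) (nat_lit 249) (nat_lit 173)) (XT.lf (nat_lit 0) (nat_lit 2753161974) (nat_lit 152) (nat_lit 11268153280) (nat_lit 76) (nat_lit 17564362233) (nat_lit 15) (nat_lit 5) (nat_lit 17) (nat_lit 5) (nat_lit 16) (nat_lit 5) (nat_lit 299) (nat_lit 249) (nat_lit 172)))) (XT.nd (nat_lit 156) (nat_lit 76) (nat_lit 0) (XT.nd (nat_lit 78) (nat_lit 152) (nat_lit 0) (XT.lf (nat_lit 0) (nat_lit 6862154365) (nat_lit 152) (nat_lit 1370512128) (nat_lit 76) (nat_lit 24606039460) (nat_lit 15) (nat_lit 5) (nat_lit 17) (nat_lit 5) (nat_lit 16) (nat_lit 5) (nat_lit 300) (nat_lit 249) (nat_lit 171)) (XT.lf (nat_lit 0) (nat_lit 9298043403) (nat_lit 152) (nat_lit 2010467512) (nat_lit 228) (nat_lit 22839302219) (nat_lit 13) (nat_lit 5) (nat_lit 15) (nat_lit 5) (nat_lit 16) (nat_lit 5) (nat_lit 301) (nat_lit 249) (nat_lit 170))) (XT.nd (nat_lit 78)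 (nat_lit 76) (nat_lit 0) (XT.lf (nat_lit 0) (nat_lit 16058307259) (nat_lit 228) (nat_lit 15066358075) (nat_lit 76) (nat_lit 4393676164) (nat_lit 13) (nat_lit 5) (nat_lit 16) (nat_lit 5) (nat_lit 14) (nat_lit 4) (nat_lit 302) (nat_lit 249) (nat_lit 169)) (XT.nd (nat_lit 78) (nat_lit 76) (nat_lit 0) (XT.lf (nat_lit 0) (nat_lit 21066091860) (nat_lit 228) (nat_lit 4847454307) (nat_lit 76) (nat_lit 11042846072) (nat_lit 13) (nat_lit 5) (nat_lit 16) (nat_lit 5) (nat_lit 14) (nat_lit 4) (nat_lit 303) (nat_lit 249) (nat_lit 168)) (XT.lf (nat_lit 0) (nat_lit 6056507386) (nat_lit 76) (nat_lit 20350450649) (nat_lit 152) (nat_lit 12055272749) (nat_lit 12) (nat_lit 5) (nat_lit 13) (nat_lit 5) (nat_lit 14) (nat_lit 4) (nat_lit 304) (nat_lit 249) (nat_lit 167)))))) (XT.nd (nat_lit 312) (nat_lit 76) (nat_lit 0) (XT.nd (nat_lit 156) (nat_lit 228) (nat_lit 0) (XT.nd (nat_lit 78) (nat_lit 0) (nat_lit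 0) (XT.lf (nat_lit 0) (nat_lit 17654544791) (nat_lit 76) (nat_lit 14430811962) (nat_lit 152) (nat_lit 7954498980) (nat_lit 12) (nat_lit 5) (nat_lit 13) (nat_lit 5) (nat_lit 14) (nat_lit 4) (nat_lit 305) (nat_lit 249) (nat_lit 166)) (XT.lf (nat_lit 0) (nat_lit 29813993550) (nat_lit 76) (nat_lit 8222629714) (nat_lit 152) (nat_lit 3660309309) (nat_lit 12) (nat_lit 5) (nat_lit 13) (nat_lit 5) (nat_lit 14) (nat_lit 4) (nat_lit 306) (nat_lit 249) (nat_lit 165))) (XT.nd (nat_lit 78) (nat_lit 152) (nat_lit 0) (XT.lf (nat_lit 0) (nat_lit 810714637) (nat_lit 152) (nat_lit 886678036) (nat_lit 76) (nat_lit 41739360250) (nat_lit 11) (nat_lit 5) (nat_lit 13) (nat_lit 5) (nat_lit 12) (nat_lit 5) (nat_lit 307) (nat_lit 249) (nat_lit 164)) (XT.lf (nat_lit 0) (nat_lit 5626900068) (nat_lit 228) (nat_lit 34404535518) (nat_lit 76) (nat_lit 5216912996) (nat_lit 9) (nat_lit 5) (nat_lit 12) (nat_lit 5) (nat_lit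 10) (nat_lit 4) (nat_lit 308) (nat_lit 249) (nat_lit 163)))) (XT.nd (nat_lit 156) (nat_lit 76) (nat_lit 0) (XT.nd (nat_lit 78) (nat_lit 0) (nat_lit 0) (XT.lf (nat_lit 0) (nat_lit 10716894268) (nat_lit 228) (nat_lit 24003488278) (nat_lit 76) (nat_lit 12428506342) (nat_lit 9) (nat_lit 5) (nat_lit 12) (nat_lit 5) (nat_lit 10) (nat_lit 4) (nat_lit 309) (nat_lit 249) (nat_lit 162)) (XT.lf (nat_lit 0) (nat_lit 16051779510) (nat_lit 228) (nat_lit 13098821981) (nat_lit 76) (nat_lit 19994349284) (nat_lit 9) (nat_lit 5) (nat_lit 12) (nat_lit 5) (nat_lit 10) (nat_lit 4) (nat_lit 310) (nat_lit 249) (nat_lit 161))) (XT.nd (nat_lit 78) (nat_lit 76) (nat_lit 0) (XT.lf (nat_lit 0) (nat_lit 21644257900) (nat_lit 228) (nat_lit 1664573137) (nat_lit 76) (nat_lit 27932455734) (nat_lit 9) (nat_lit 5) (nat_lit 12) (nat_lit 5) (nat_lit 10) (nat_lit 4) (nat_lit 311) (nat_lit 249) (nat_lit 160)) (XT.nd (nat_lit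 78) (nat_lit 0) (nat_lit 0) (XT.lf (nat_lit 0) (nat_lit 10667922810) (nat_lit 76) (nat_lit 17006278226) (nat_lit 152) (nat_lit 25760359307) (nat_lit 8) (nat_lit 5) (nat_lit 9) (nat_lit 5) (nat_lit 10) (nat_lit 4) (nat_lit 312) (nat_lit 249) (nat_lit 159)) (XT.lf (nat_lit 0) (nat_lit 23660168695) (nat_lit 76) (nat_lit 10365133694) (nat_lit 152) (nat_lit 21711224361) (nat_lit 8) (nat_lit 5) (nat_lit 9) (nat_lit 5) (nat_lit 10) (nat_lit 4) (nat_lit 313) (nat_lit 249) (nat_lit 158))))))) (XT.nd (nat_lit 702) (nat_lit 76) (nat_lit 0) (XT.nd (nat_lit 312) (nat_lit 152) (nat_lit 0) (XT.nd (nat_lit 156) (nat_lit 76) (nat_lit 0) (XT.nd (nat_lit 78) (nat_lit 0) (nat_lit 0) (XT.lf (nat_lit 0) (nat_lit 37288060130) (nat_lit 76) (nat_lit 3397775543) (nat_lit 152) (nat_lit 17468173586) (nat_lit 8) (nat_lit 5) (nat_lit 9) (nat_lit 5) (nat_lit 10) (nat_lit 4) (nat_lit 314) (nat_lit 249) (nat_lit 157))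 (XT.lf (nat_lit 0) (nat_lit 47732742599) (nat_lit 152) (nat_lit 9169802603) (nat_lit 0) (nat_lit 3787164415) (nat_lit 8) (nat_lit 5) (nat_lit 10) (nat_lit 4) (nat_lit 8) (nat_lit 4) (nat_lit 315) (nat_lit 249) (nat_lit 156))) (XT.nd (nat_lit 78) (nat_lit 0) (nat_lit 0) (XT.lf (nat_lit 0) (nat_lit 3143083886) (nat_lit 76) (nat_lit 52086233894) (nat_lit 76) (nat_lit 8118021612) (nat_lit 7) (nat_lit 4) (nat_lit 8) (nat_lit 5) (nat_lit 8) (nat_lit 4) (nat_lit 316) (nat_lit 249) (nat_lit 155)) (XT.lf (nat_lit 0) (nat_lit 16377214208) (nat_lit 76) (nat_lit 46871507529) (nat_lit 76) (nat_lit 2881738963) (nat_lit 7) (nat_lit 4) (nat_lit 8) (nat_lit 5) (nat_lit 8) (nat_lit 4) (nat_lit 317) (nat_lit 249) (nat_lit 154)))) (XT.nd (nat_lit 156) (nat_lit 76) (nat_lit 0) (XT.nd (nat_lit 78) (nat_lit 0) (nat_lit 0) (XT.lf (nat_lit 0) (nat_lit 2525547226) (nat_lit 152) (nat_lit 38832926544) (nat_lit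 76) (nat_lit 27692584519) (nat_lit 6) (nat_lit 5) (nat_lit 8) (nat_lit 5) (nat_lit 7) (nat_lit 4) (nat_lit 318) (nat_lit 249) (nat_lit 153)) (XT.lf (nat_lit 0) (nat_lit 8099618304) (nat_lit 152) (nat_lit 27425633019) (nat_lit 76) (nat_lit 36590417734) (nat_lit 6) (nat_lit 5) (nat_lit 8) (nat_lit 5) (nat_lit 7) (nat_lit 4) (nat_lit 319) (nat_lit 249) (nat_lit 152))) (XT.nd (nat_lit 78) (nat_lit 76) (nat_lit 0) (XT.lf (nat_lit 0) (nat_lit 13945979511) (nat_lit 152) (nat_lit 15459213673) (nat_lit 76) (nat_lit 45928646112) (nat_lit 6) (nat_lit 5) (nat_lit 8) (nat_lit 5) (nat_lit 7) (nat_lit 4) (nat_lit 320) (nat_lit 249) (nat_lit 151)) (XT.nd (nat_lit 78) (nat_lit 76) (nat_lit 0) (XT.lf (nat_lit 0) (nat_lit 20078550755) (nat_lit 152) (nat_lit 2905177032) (nat_lit 76) (nat_lit 55729503532) (nat_lit 6) (nat_lit 5) (nat_lit 8) (nat_lit 5) (nat_lit 7) (nat_lit 4) (nat_lit 321) (nat_lit 249)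 (nat_lit 150)) (XT.lf (nat_lit 0) (nat_lit 10605819940) (nat_lit 76) (nat_lit 16071700027) (nat_lit 152) (nat_lit 55576092000) (nat_lit 5) (nat_lit 5) (nat_lit 6) (nat_lit 5) (nat_lit 7) (nat_lit 4) (nat_lit 322) (nat_lit 249) (nat_lit 149)))))) (XT.nd (nat_lit 312) (nat_lit 76) (nat_lit 0) (XT.nd (nat_lit 156) (nat_lit 0) (nat_lit 0) (XT.nd (nat_lit 78) (nat_lit 0) (nat_lit 0) (XT.lf (nat_lit 0) (nat_lit 24883198392) (nat_lit 76) (nat_lit 8766743078) (nat_lit 152) (nat_lit 52318902121) (nat_lit 5) (nat_lit 5) (nat_lit 6) (nat_lit 5) (nat_lit 7) (nat_lit 4) (nat_lit 323) (nat_lit 249) (nat_lit 148)) (XT.lf (nat_lit 0) (nat_lit 39864893811) (nat_lit 76) (nat_lit 1100664765) (nat_lit 152) (nat_lit 48904556294) (nat_lit 5) (nat_lit 5) (nat_lit 6) (nat_lit 5) (nat_lit 7) (nat_lit 4) (nat_lit 324) (nat_lit 249) (nat_lit 147))) (XT.nd (nat_lit 78) (nat_lit 0) (nat_lit 0) (XT.lf (nat_lit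 0) (nat_lit 48750217016) (nat_lit 152) (nat_lit 38488565239) (nat_lit 0) (nat_lit 6722510908) (nat_lit 5) (nat_lit 5) (nat_lit 7) (nat_lit 4) (nat_lit 5) (nat_lit 4) (nat_lit 325) (nat_lit 249) (nat_lit 146)) (XT.lf (nat_lit 0) (nat_lit 56937172561) (nat_lit 152) (nat_lit 26422978001) (nat_lit 0) (nat_lit 14896232765) (nat_lit 5) (nat_lit 5) (nat_lit 7) (nat_lit 4) (nat_lit 5) (nat_lit 4) (nat_lit 326) (nat_lit 249) (nat_lit 145)))) (XT.nd (nat_lit 156) (nat_lit 76) (nat_lit 0) (XT.nd (nat_lit 78) (nat_lit 0) (nat_lit 0) (XT.lf (nat_lit 0) (nat_lit 65528733501) (nat_lit 152) (nat_lit 13762547295) (nat_lit 0) (nat_lit 23475190193) (nat_lit 5) (nat_lit 5) (nat_lit 7) (nat_lit 4) (nat_lit 5) (nat_lit 4) (nat_lit 327) (nat_lit 249) (nat_lit 144)) (XT.lf (nat_lit 0) (nat_lit 74545355935) (nat_lit 152) (nat_lit 477129239) (nat_lit 0) (nat_lit 32479809281) (nat_lit 5) (nat_lit 5) (nat_lit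 7) (nat_lit 4) (nat_lit 5) (nat_lit 4) (nat_lit 328) (nat_lit 249) (nat_lit 143))) (XT.nd (nat_lit 78) (nat_lit 0) (nat_lit 0) (XT.lf (nat_lit 0) (nat_lit 13910118786) (nat_lit 76) (nat_lit 70315565162) (nat_lit 76) (nat_lit 28238586750) (nat_lit 4) (nat_lit 4) (nat_lit 5) (nat_lit 5) (nat_lit 5) (nat_lit 4) (nat_lit 329) (nat_lit 249) (nat_lit 142)) (XT.nd (nat_lit 78) (nat_lit 0) (nat_lit 0) (XT.lf (nat_lit 0) (nat_lit 29025765870) (nat_lit 76) (nat_lit 65368128721) (nat_lit 76) (nat_lit 23280262922) (nat_lit 4) (nat_lit 4) (nat_lit 5) (nat_lit 5) (nat_lit 5) (nat_lit 4) (nat_lit 330) (nat_lit 249) (nat_lit 141)) (XT.lf (nat_lit 0) (nat_lit 44890025603) (nat_lit 76) (nat_lit 60176476657) (nat_lit 76) (nat_lit 18078241917) (nat_lit 4) (nat_lit 4) (nat_lit 5) (nat_lit 5) (nat_lit 5) (nat_lit 4) (nat_lit 331) (nat_lit 249) (nat_lit 140))))))))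
noncomputable def xc142 : XT := (XT.nd (nat_lit 1404) (nat_lit 76) (nat_lit 0) (XT.nd (nat_lit 702) (nat_lit 0) (nat_lit 0) (XT.nd (nat_lit 312) (nat_lit 76) (nat_lit 0) (XT.nd (nat_lit 156) (nat_lit 76) (nat_lit 0) (XT.nd (nat_lit 78) (nat_lit 0) (nat_lit 0) (XT.lf (nat_lit 0) (nat_lit 61540670030) (nat_lit 76) (nat_lit 54728247893) (nat_lit 76) (nat_lit 12620137970) (nat_lit 4) (nat_lit 4) (nat_lit 5) (nat_lit 5) (nat_lit 5) (nat_lit 4) (nat_lit 332) (nat_lit 249) (nat_lit 139)) (XT.lf (nat_lit 0) (nat_lit 79017343544) (nat_lit 76) (nat_lit 49010470455) (nat_lit 76) (nat_lit 6892955597) (nat_lit 4) (nat_lit 4) (nat_lit 5) (nat_lit 5) (nat_lit 5) (nat_lit 4) (nat_lit 333) (nat_lit 249) (nat_lit 138))) (XT.nd (nat_lit 78) (nat_lit 76) (nat_lit 0) (XT.lf (nat_lit 0) (nat_lit 97361657271) (nat_lit 76) (nat_lit 43009530588) (nat_lit 76) (nat_lit 883058649) (nat_lit 4) (nat_lit 4) (nat_lit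 5) (nat_lit 5) (nat_lit 5) (nat_lit 4) (nat_lit 334) (nat_lit 249) (nat_lit 137)) (XT.lf (nat_lit 0) (nat_lit 5250264690) (nat_lit 152) (nat_lit 31371959876) (nat_lit 76) (nat_lit 111278107686) (nat_lit 3) (nat_lit 5) (nat_lit 5) (nat_lit 5) (nat_lit 4) (nat_lit 4) (nat_lit 335) (nat_lit 249) (nat_lit 136)))) (XT.nd (nat_lit 156) (nat_lit 76) (nat_lit 0) (XT.nd (nat_lit 78) (nat_lit 0) (nat_lit 0) (XT.lf (nat_lit 0) (nat_lit 11657377731) (nat_lit 152) (nat_lit 18245502479) (nat_lit 76) (nat_lit 124975281855) (nat_lit 3) (nat_lit 5) (nat_lit 5) (nat_lit 5) (nat_lit 4) (nat_lit 4) (nat_lit 336) (nat_lit 249) (nat_lit 135)) (XT.lf (nat_lit 0) (nat_lit 18381798895) (nat_lit 152) (nat_lit 4468176555) (nat_lit 76) (nat_lit 139355063728) (nat_lit 3) (nat_lit 5) (nat_lit 5) (nat_lit 5) (nat_lit 4) (nat_lit 4) (nat_lit 337) (nat_lit 249) (nat_lit 134))) (XT.nd (nat_lit 78) (nat_lit 0) (nat_lit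 0) (XT.lf (nat_lit 0) (nat_lit 10323228844) (nat_lit 76) (nat_lit 15277484399) (nat_lit 152) (nat_lit 144289636568) (nat_lit 2) (nat_lit 5) (nat_lit 3) (nat_lit 5) (nat_lit 4) (nat_lit 4) (nat_lit 338) (nat_lit 249) (nat_lit 133)) (XT.nd (nat_lit 78) (nat_lit 0) (nat_lit 0) (XT.lf (nat_lit 0) (nat_lit 26004218685) (nat_lit 76) (nat_lit 7249181362) (nat_lit 152) (nat_lit 144702887705) (nat_lit 2) (nat_lit 5) (nat_lit 3) (nat_lit 5) (nat_lit 4) (nat_lit 4) (nat_lit 339) (nat_lit 249) (nat_lit 132)) (XT.lf (nat_lit 0) (nat_lit 41304410409) (nat_lit 152) (nat_lit 143979668204) (nat_lit 0) (nat_lit 1140662481) (nat_lit 2) (nat_lit 5) (nat_lit 4) (nat_lit 4) (nat_lit 2) (nat_lit 4) (nat_lit 340) (nat_lit 249) (nat_lit 131)))))) (XT.nd (nat_lit 312) (nat_lit 0) (nat_lit 0) (XT.nd (nat_lit 156) (nat_lit 0) (nat_lit 0) (XT.nd (nat_lit 78) (nat_lit 0) (nat_lit 0) (XT.lf (nat_lit 0) (nat_lit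 49874198641) (nat_lit 152) (nat_lit 135732221712) (nat_lit 0) (nat_lit 9704388208) (nat_lit 2) (nat_lit 5) (nat_lit 4) (nat_lit 4) (nat_lit 2) (nat_lit 4) (nat_lit 341) (nat_lit 249) (nat_lit 130)) (XT.lf (nat_lit 0) (nat_lit 58869988965) (nat_lit 152) (nat_lit 127076912776) (nat_lit 0) (nat_lit 18694404717) (nat_lit 2) (nat_lit 5) (nat_lit 4) (nat_lit 4) (nat_lit 2) (nat_lit 4) (nat_lit 342) (nat_lit 249) (nat_lit 129))) (XT.nd (nat_lit 78) (nat_lit 0) (nat_lit 0) (XT.lf (nat_lit 0) (nat_lit 68313199928) (nat_lit 152) (nat_lit 117993133518) (nat_lit 0) (nat_lit 28132116810) (nat_lit 2) (nat_lit 5) (nat_lit 4) (nat_lit 4) (nat_lit 2) (nat_lit 4) (nat_lit 343) (nat_lit 249) (nat_lit 128)) (XT.lf (nat_lit 0) (nat_lit 78226315366) (nat_lit 152) (nat_lit 108459255892) (nat_lit 0) (nat_lit 38039995228) (nat_lit 2) (nat_lit 5) (nat_lit 4) (nat_lit 4) (nat_lit 2) (nat_lit 4) (nat_lit 344)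 (nat_lit 249) (nat_lit 127)))) (XT.nd (nat_lit 156) (nat_lit 0) (nat_lit 0) (XT.nd (nat_lit 78) (nat_lit 0) (nat_lit 0) (XT.lf (nat_lit 0) (nat_lit 88632937935) (nat_lit 152) (nat_lit 98452580190) (nat_lit 0) (nat_lit 48441630159) (nat_lit 2) (nat_lit 5) (nat_lit 4) (nat_lit 4) (nat_lit 2) (nat_lit 4) (nat_lit 345) (nat_lit 249) (nat_lit 126)) (XT.lf (nat_lit 0) (nat_lit 99557845308) (nat_lit 152) (nat_lit 87949280993) (nat_lit 0) (nat_lit 59361787401) (nat_lit 2) (nat_lit 5) (nat_lit 4) (nat_lit 4) (nat_lit 2) (nat_lit 4) (nat_lit 346) (nat_lit 249) (nat_lit 125))) (XT.nd (nat_lit 78) (nat_lit 0) (nat_lit 0) (XT.lf (nat_lit 0) (nat_lit 111027049169) (nat_lit 152) (nat_lit 76924350446) (nat_lit 0) (nat_lit 70826467327) (nat_lit 2) (nat_lit 5) (nat_lit 4) (nat_lit 4) (nat_lit 2) (nat_lit 4) (nat_lit 347) (nat_lit 249) (nat_lit 124)) (XT.nd (nat_lit 78) (nat_lit 0) (nat_lit 0) (XT.lf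 (nat_lit 0) (nat_lit 123067857146) (nat_lit 152) (nat_lit 65351538714) (nat_lit 0) (nat_lit 82862966795) (nat_lit 2) (nat_lit 5) (nat_lit 4) (nat_lit 4) (nat_lit 2) (nat_lit 4) (nat_lit 348) (nat_lit 249) (nat_lit 123)) (XT.lf (nat_lit 0) (nat_lit 135708937829) (nat_lit 152) (nat_lit 53203291484) (nat_lit 0) (nat_lit 95499944136) (nat_lit 2) (nat_lit 5) (nat_lit 4) (nat_lit 4) (nat_lit 2) (nat_lit 4) (nat_lit 349) (nat_lit 249) (nat_lit 122))))))) (XT.nd (nat_lit 702) (nat_lit 0) (nat_lit 0) (XT.nd (nat_lit 312) (nat_lit 0) (nat_lit 0) (XT.nd (nat_lit 156) (nat_lit 76) (nat_lit 0) (XT.nd (nat_lit 78) (nat_lit 0) (nat_lit 0) (XT.lf (nat_lit 0) (nat_lit 148980389031) (nat_lit 152) (nat_lit 40450684357) (nat_lit 0) (nat_lit 108767487393) (nat_lit 2) (nat_lit 5) (nat_lit 4) (nat_lit 4) (nat_lit 2) (nat_lit 4) (nat_lit 350) (nat_lit 249) (nat_lit 121)) (XT.lf (nat_lit 0) (nat_lit 162913809443)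 (nat_lit 152) (nat_lit 27063353984) (nat_lit 0) (nat_lit 122697185954) (nat_lit 2) (nat_lit 5) (nat_lit 4) (nat_lit 4) (nat_lit 2) (nat_lit 4) (nat_lit 351) (nat_lit 249) (nat_lit 120))) (XT.nd (nat_lit 78) (nat_lit 76) (nat_lit 0) (XT.lf (nat_lit 0) (nat_lit 177542373878) (nat_lit 152) (nat_lit 13009425768) (nat_lit 0) (nat_lit 137322205767) (nat_lit 2) (nat_lit 5) (nat_lit 4) (nat_lit 4) (nat_lit 2) (nat_lit 4) (nat_lit 352) (nat_lit 249) (nat_lit 119)) (XT.lf (nat_lit 0) (nat_lit 1802245124) (nat_lit 76) (nat_lit 191126805222) (nat_lit 76) (nat_lit 150903261281) (nat_lit 1) (nat_lit 4) (nat_lit 2) (nat_lit 5) (nat_lit 2) (nat_lit 4) (nat_lit 353) (nat_lit 249) (nat_lit 118)))) (XT.nd (nat_lit 156) (nat_lit 0) (nat_lit 0) (XT.nd (nat_lit 78) (nat_lit 0) (nat_lit 0) (XT.lf (nat_lit 0) (nat_lit 17803563143) (nat_lit 76) (nat_lit 191500392877) (nat_lit 76) (nat_lit 151273633861) (nat_lit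 1) (nat_lit 4) (nat_lit 2) (nat_lit 5) (nat_lit 2) (nat_lit 4) (nat_lit 354) (nat_lit 249) (nat_lit 117)) (XT.lf (nat_lit 0) (nat_lit 34602476297) (nat_lit 76) (nat_lit 191893773027) (nat_lit 76) (nat_lit 151663952034) (nat_lit 1) (nat_lit 4) (nat_lit 2) (nat_lit 5) (nat_lit 2) (nat_lit 4) (nat_lit 355) (nat_lit 249) (nat_lit 116))) (XT.nd (nat_lit 78) (nat_lit 0) (nat_lit 0) (XT.lf (nat_lit 0) (nat_lit 52238981998) (nat_lit 76) (nat_lit 192307882291) (nat_lit 76) (nat_lit 152075145128) (nat_lit 1) (nat_lit 4) (nat_lit 2) (nat_lit 5) (nat_lit 2) (nat_lit 4) (nat_lit 356) (nat_lit 249) (nat_lit 115)) (XT.nd (nat_lit 78) (nat_lit 0) (nat_lit 0) (XT.lf (nat_lit 0) (nat_lit 70755071926) (nat_lit 76) (nat_lit 192743706642) (nat_lit 76) (nat_lit 152508192176) (nat_lit 1) (nat_lit 4) (nat_lit 2) (nat_lit 5) (nat_lit 2) (nat_lit 4) (nat_lit 357) (nat_lit 249) (nat_lit 114)) (XT.lf (nat_lit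 0) (nat_lit 90194832010) (nat_lit 76) (nat_lit 193202283758) (nat_lit 76) (nat_lit 152964124242) (nat_lit 1) (nat_lit 4) (nat_lit 2) (nat_lit 5) (nat_lit 2) (nat_lit 4) (nat_lit 358) (nat_lit 249) (nat_lit 113)))))) (XT.nd (nat_lit 29094) (nat_lit 0) (nat_lit 6460) (XT.nd (nat_lit 156) (nat_lit 0) (nat_lit 0) (XT.nd (nat_lit 78) (nat_lit 0) (nat_lit 0) (XT.lf (nat_lit 0) (nat_lit 110604547393) (nat_lit 76) (nat_lit 193684705490) (nat_lit 76) (nat_lit 153444026878) (nat_lit 1) (nat_lit 4) (nat_lit 2) (nat_lit 5) (nat_lit 2) (nat_lit 4) (nat_lit 359) (nat_lit 249) (nat_lit 112)) (XT.lf (nat_lit 0) (nat_lit 132032812635) (nat_lit 76) (nat_lit 194192120461) (nat_lit 76) (nat_lit 153949042709) (nat_lit 1) (nat_lit 4) (nat_lit 2) (nat_lit 5) (nat_lit 2) (nat_lit 4) (nat_lit 360) (nat_lit 249) (nat_lit 111))) (XT.nd (nat_lit 28860) (nat_lit 0) (nat_lit 6992) (XT.lf (nat_lit 0) (nat_lit 154530647415)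 (nat_lit 76) (nat_lit 194725736800) (nat_lit 76) (nat_lit 154480374154) (nat_lit 1) (nat_lit 4) (nat_lit 2) (nat_lit 5) (nat_lit 2) (nat_lit 4) (nat_lit 361) (nat_lit 249) (nat_lit 110)) (XT.lf (nat_lit 0) (nat_lit 3295514623) (nat_lit 532) (nat_lit 262251084) (nat_lit 532) (nat_lit 262251084) (nat_lit 93) (nat_lit 3) (nat_lit 100) (nat_lit 3) (nat_lit 100) (nat_lit 5) (nat_lit 250) (nat_lit 250) (nat_lit 220)))) (XT.nd (nat_lit 156) (nat_lit 0) (nat_lit 0) (XT.nd (nat_lit 78) (nat_lit 0) (nat_lit 0) (XT.lf (nat_lit 0) (nat_lit 240504802) (nat_lit 532) (nat_lit 4901569381) (nat_lit 608) (nat_lit 2620470520) (nat_lit 86) (nat_lit 5) (nat_lit 93) (nat_lit 3) (nat_lit 94) (nat_lit 5) (nat_lit 251) (nat_lit 250) (nat_lit 219)) (XT.lf (nat_lit 0) (nat_lit 1488484221) (nat_lit 532) (nat_lit 1519332302) (nat_lit 608) (nat_lit 4886379504) (nat_lit 86) (nat_lit 5) (nat_lit 93) (nat_lit 3) (nat_lit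 94) (nat_lit 5) (nat_lit 252) (nat_lit 250) (nat_lit 218))) (XT.nd (nat_lit 78) (nat_lit 0) (nat_lit 76) (XT.lf (nat_lit 76) (nat_lit 2054744260) (nat_lit 0) (nat_lit 700217648) (nat_lit 608) (nat_lit 5279983905) (nat_lit 87) (nat_lit 5) (nat_lit 86) (nat_lit 5) (nat_lit 94) (nat_lit 5) (nat_lit 253) (nat_lit 250) (nat_lit 217)) (XT.nd (nat_lit 78) (nat_lit 0) (nat_lit 0) (XT.lf (nat_lit 0) (nat_lit 4065268104) (nat_lit 532) (nat_lit 2395271733) (nat_lit 608) (nat_lit 1723473601) (nat_lit 87) (nat_lit 5) (nat_lit 94) (nat_lit 5) (nat_lit 95) (nat_lit 5) (nat_lit 254) (nat_lit 250) (nat_lit 216)) (XT.lf (nat_lit 76) (nat_lit 1356284046) (nat_lit 0) (nat_lit 4048369509) (nat_lit 608) (nat_lit 2937993723) (nat_lit 88) (nat_lit 5) (nat_lit 87) (nat_lit 5) (nat_lit 95) (nat_lit 5) (nat_lit 255) (nat_lit 250) (nat_lit 215))))))))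
noncomputable def xc143 : XT := (XT.nd (nat_lit 1404) (nat_lit 1824) (nat_lit 0) (XT.nd (nat_lit 702) (nat_lit 1444) (nat_lit 0) (XT.nd (nat_lit 312) (nat_lit 1216) (nat_lit 0) (XT.nd (nat_lit 156) (nat_lit 532) (nat_lit 0) (XT.nd (nat_lit 78) (nat_lit 0) (nat_lit 76) (XT.lf (nat_lit 76) (nat_lit 5334743493) (nat_lit 0) (nat_lit 1450345115) (nat_lit 608) (nat_lit 1725697354) (nat_lit 88) (nat_lit 5) (nat_lit 87) (nat_lit 5) (nat_lit 95) (nat_lit 5) (nat_lit 256) (nat_lit 250) (nat_lit 214)) (XT.lf (nat_lit 76) (nat_lit 784442766) (nat_lit 0) (nat_lit 7419314619) (nat_lit 608) (nat_lit 485377570) (nat_lit 89) (nat_lit 5) (nat_lit 88) (nat_lit 5) (nat_lit 96) (nat_lit 5) (nat_lit 257) (nat_lit 250) (nat_lit 213))) (XT.nd (nat_lit 78) (nat_lit 0) (nat_lit 0) (XT.lf (nat_lit 0) (nat_lit 807336071) (nat_lit 608) (nat_lit 3904972386) (nat_lit 684) (nat_lit 4162868338) (nat_lit 80) (nat_lit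 5) (nat_lit 88) (nat_lit 5) (nat_lit 89) (nat_lit 5) (nat_lit 258) (nat_lit 250) (nat_lit 212)) (XT.lf (nat_lit 76) (nat_lit 249952885) (nat_lit 0) (nat_lit 1843351582) (nat_lit 684) (nat_lit 6979799893) (nat_lit 81) (nat_lit 5) (nat_lit 80) (nat_lit 5) (nat_lit 89) (nat_lit 5) (nat_lit 259) (nat_lit 250) (nat_lit 211)))) (XT.nd (nat_lit 156) (nat_lit 1292) (nat_lit 0) (XT.nd (nat_lit 78) (nat_lit 0) (nat_lit 0) (XT.lf (nat_lit 0) (nat_lit 3472387409) (nat_lit 608) (nat_lit 4596121218) (nat_lit 76) (nat_lit 1211196039) (nat_lit 81) (nat_lit 5) (nat_lit 89) (nat_lit 5) (nat_lit 82) (nat_lit 5) (nat_lit 260) (nat_lit 250) (nat_lit 210)) (XT.lf (nat_lit 0) (nat_lit 4896688323) (nat_lit 608) (nat_lit 233062567) (nat_lit 76) (nat_lit 4368277736) (nat_lit 81) (nat_lit 5) (nat_lit 89) (nat_lit 5) (nat_lit 82) (nat_lit 5) (nat_lit 261) (nat_lit 250) (nat_lit 209))) (XT.nd (nat_lit 78) (nat_lit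 684) (nat_lit 0) (XT.lf (nat_lit 0) (nat_lit 4447541706) (nat_lit 608) (nat_lit 1962715400) (nat_lit 684) (nat_lit 3316306017) (nat_lit 73) (nat_lit 5) (nat_lit 81) (nat_lit 5) (nat_lit 82) (nat_lit 5) (nat_lit 262) (nat_lit 250) (nat_lit 208)) (XT.nd (nat_lit 78) (nat_lit 684) (nat_lit 0) (XT.lf (nat_lit 0) (nat_lit 7975307033) (nat_lit 684) (nat_lit 662444856) (nat_lit 76) (nat_lit 1330169921) (nat_lit 73) (nat_lit 5) (nat_lit 82) (nat_lit 5) (nat_lit 74) (nat_lit 5) (nat_lit 263) (nat_lit 250) (nat_lit 207)) (XT.lf (nat_lit 0) (nat_lit 4245775606) (nat_lit 684) (nat_lit 5424170199) (nat_lit 760) (nat_lit 549014474) (nat_lit 64) (nat_lit 5) (nat_lit 73) (nat_lit 5) (nat_lit 74) (nat_lit 5) (nat_lit 264) (nat_lit 250) (nat_lit 206)))))) (XT.nd (nat_lit 312) (nat_lit 684) (nat_lit 0) (XT.nd (nat_lit 156) (nat_lit 380) (nat_lit 0) (XT.nd (nat_lit 78) (nat_lit 304) (nat_lit 0) (XT.lf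 (nat_lit 0) (nat_lit 900772142) (nat_lit 760) (nat_lit 1118768576) (nat_lit 76) (nat_lit 8464169872) (nat_lit 63) (nat_lit 5) (nat_lit 73) (nat_lit 5) (nat_lit 64) (nat_lit 5) (nat_lit 265) (nat_lit 250) (nat_lit 205)) (XT.lf (nat_lit 0) (nat_lit 2449210228) (nat_lit 380) (nat_lit 6728539458) (nat_lit 76) (nat_lit 1581422427) (nat_lit 59) (nat_lit 5) (nat_lit 64) (nat_lit 5) (nat_lit 60) (nat_lit 5) (nat_lit 266) (nat_lit 250) (nat_lit 204))) (XT.nd (nat_lit 78) (nat_lit 380) (nat_lit 0) (XT.lf (nat_lit 0) (nat_lit 4084683090) (nat_lit 380) (nat_lit 1647984972) (nat_lit 76) (nat_lit 5315404997) (nat_lit 59) (nat_lit 5) (nat_lit 64) (nat_lit 5) (nat_lit 60) (nat_lit 5) (nat_lit 267) (nat_lit 250) (nat_lit 203)) (XT.lf (nat_lit 0) (nat_lit 3765740802) (nat_lit 380) (nat_lit 2054266517) (nat_lit 456) (nat_lit 5530647835) (nat_lit 54) (nat_lit 5) (nat_lit 59) (nat_lit 5) (nat_lit 60) (nat_lit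 5) (nat_lit 268) (nat_lit 250) (nat_lit 202)))) (XT.nd (nat_lit 156) (nat_lit 380) (nat_lit 0) (XT.nd (nat_lit 78) (nat_lit 304) (nat_lit 0) (XT.lf (nat_lit 0) (nat_lit 7659260297) (nat_lit 456) (nat_lit 2231089840) (nat_lit 76) (nat_lit 1777291414) (nat_lit 54) (nat_lit 5) (nat_lit 60) (nat_lit 5) (nat_lit 55) (nat_lit 5) (nat_lit 269) (nat_lit 250) (nat_lit 201)) (XT.lf (nat_lit 0) (nat_lit 3425629209) (nat_lit 304) (nat_lit 6214451435) (nat_lit 380) (nat_lit 2358043364) (nat_lit 50) (nat_lit 5) (nat_lit 54) (nat_lit 5) (nat_lit 55) (nat_lit 5) (nat_lit 270) (nat_lit 250) (nat_lit 200))) (XT.nd (nat_lit 78) (nat_lit 380) (nat_lit 0) (XT.lf (nat_lit 0) (nat_lit 9402538346) (nat_lit 304) (nat_lit 2318795010) (nat_lit 380) (nat_lit 623848593) (nat_lit 50) (nat_lit 5) (nat_lit 54) (nat_lit 5) (nat_lit 55) (nat_lit 5) (nat_lit 271) (nat_lit 250) (nat_lit 199)) (XT.nd (nat_lit 78) (nat_lit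 0) (nat_lit 0) (XT.lf (nat_lit 0) (nat_lit 1199018669) (nat_lit 380) (nat_lit 9730085996) (nat_lit 76) (nat_lit 1777649537) (nat_lit 45) (nat_lit 5) (nat_lit 50) (nat_lit 5) (nat_lit 46) (nat_lit 5) (nat_lit 272) (nat_lit 250) (nat_lit 198)) (XT.lf (nat_lit 0) (nat_lit 3146394197) (nat_lit 380) (nat_lit 3879445099) (nat_lit 76) (nat_lit 6057442368) (nat_lit 45) (nat_lit 5) (nat_lit 50) (nat_lit 5) (nat_lit 46) (nat_lit 5) (nat_lit 273) (nat_lit 250) (nat_lit 197))))))) (XT.nd (nat_lit 702) (nat_lit 836) (nat_lit 0) (XT.nd (nat_lit 312) (nat_lit 532) (nat_lit 0) (XT.nd (nat_lit 156) (nat_lit 228) (nat_lit 0) (XT.nd (nat_lit 78) (nat_lit 0) (nat_lit 0) (XT.lf (nat_lit 0) (nat_lit 2298649154) (nat_lit 228) (nat_lit 2895677901) (nat_lit 304) (nat_lit 8284248503) (nat_lit 42) (nat_lit 5) (nat_lit 45) (nat_lit 5) (nat_lit 46) (nat_lit 5) (nat_lit 274) (nat_lit 250) (nat_lit 196)) (XT.lf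 (nat_lit 0) (nat_lit 7402097237) (nat_lit 304) (nat_lit 5033200207) (nat_lit 76) (nat_lit 1455559421) (nat_lit 42) (nat_lit 5) (nat_lit 46) (nat_lit 5) (nat_lit 43) (nat_lit 5) (nat_lit 275) (nat_lit 250) (nat_lit 195))) (XT.nd (nat_lit 78) (nat_lit 0) (nat_lit 0) (XT.lf (nat_lit 0) (nat_lit 1379831790) (nat_lit 228) (nat_lit 8379118669) (nat_lit 304) (nat_lit 4562957292) (nat_lit 39) (nat_lit 5) (nat_lit 42) (nat_lit 5) (nat_lit 43) (nat_lit 5) (nat_lit 276) (nat_lit 250) (nat_lit 194)) (XT.lf (nat_lit 0) (nat_lit 8251141564) (nat_lit 228) (nat_lit 4038290092) (nat_lit 304) (nat_lit 2482376200) (nat_lit 39) (nat_lit 5) (nat_lit 42) (nat_lit 5) (nat_lit 43) (nat_lit 5) (nat_lit 277) (nat_lit 250) (nat_lit 193)))) (XT.nd (nat_lit 156) (nat_lit 228) (nat_lit 0) (XT.nd (nat_lit 78) (nat_lit 76) (nat_lit 0) (XT.lf (nat_lit 0) (nat_lit 182835325) (nat_lit 228) (nat_lit 14746402570) (nat_lit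 304) (nat_lit 315906871) (nat_lit 36) (nat_lit 5) (nat_lit 39) (nat_lit 5) (nat_lit 40) (nat_lit 5) (nat_lit 278) (nat_lit 250) (nat_lit 192)) (XT.lf (nat_lit 0) (nat_lit 2046718851) (nat_lit 304) (nat_lit 8424450915) (nat_lit 76) (nat_lit 5261997335) (nat_lit 35) (nat_lit 5) (nat_lit 39) (nat_lit 5) (nat_lit 36) (nat_lit 5) (nat_lit 279) (nat_lit 250) (nat_lit 191))) (XT.nd (nat_lit 78) (nat_lit 228) (nat_lit 0) (XT.lf (nat_lit 0) (nat_lit 4490275562) (nat_lit 304) (nat_lit 1495233735) (nat_lit 76) (nat_lit 10261222209) (nat_lit 35) (nat_lit 5) (nat_lit 39) (nat_lit 5) (nat_lit 36) (nat_lit 5) (nat_lit 280) (nat_lit 250) (nat_lit 190)) (XT.nd (nat_lit 78) (nat_lit 0) (nat_lit 0) (XT.lf (nat_lit 0) (nat_lit 5936786676) (nat_lit 228) (nat_lit 1186595448) (nat_lit 304) (nat_lit 9659290743) (nat_lit 32) (nat_lit 5) (nat_lit 35) (nat_lit 5) (nat_lit 36) (nat_lit 5) (nat_lit 281) (nat_lit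 250) (nat_lit 189)) (XT.lf (nat_lit 0) (nat_lit 9949264102) (nat_lit 304) (nat_lit 3646677375) (nat_lit 76) (nat_lit 3746477945) (nat_lit 32) (nat_lit 5) (nat_lit 36) (nat_lit 5) (nat_lit 33) (nat_lit 5) (nat_lit 282) (nat_lit 250) (nat_lit 188)))))) (XT.nd (nat_lit 390) (nat_lit 380) (nat_lit 0) (XT.nd (nat_lit 156) (nat_lit 304) (nat_lit 0) (XT.nd (nat_lit 78) (nat_lit 0) (nat_lit 0) (XT.lf (nat_lit 0) (nat_lit 3988022366) (nat_lit 152) (nat_lit 8986551373) (nat_lit 228) (nat_lit 4952733966) (nat_lit 30) (nat_lit 5) (nat_lit 32) (nat_lit 5) (nat_lit 33) (nat_lit 5) (nat_lit 283) (nat_lit 250) (nat_lit 187)) (XT.lf (nat_lit 0) (nat_lit 12098929501) (nat_lit 152) (nat_lit 4091015905) (nat_lit 228) (nat_lit 2349613338) (nat_lit 30) (nat_lit 5) (nat_lit 32) (nat_lit 5) (nat_lit 33) (nat_lit 5) (nat_lit 284) (nat_lit 250) (nat_lit 186))) (XT.nd (nat_lit 78) (nat_lit 0) (nat_lit 0) (XT.lf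 (nat_lit 0) (nat_lit 388320031) (nat_lit 304) (nat_lit 17757149196) (nat_lit 76) (nat_lit 1035859549) (nat_lit 26) (nat_lit 5) (nat_lit 30) (nat_lit 5) (nat_lit 27) (nat_lit 5) (nat_lit 285) (nat_lit 250) (nat_lit 185)) (XT.nd (nat_lit 78) (nat_lit 0) (nat_lit 0) (XT.lf (nat_lit 0) (nat_lit 3340271763) (nat_lit 304) (nat_lit 10083149798) (nat_lit 76) (nat_lit 6422085877) (nat_lit 26) (nat_lit 5) (nat_lit 30) (nat_lit 5) (nat_lit 27) (nat_lit 5) (nat_lit 286) (nat_lit 250) (nat_lit 184)) (XT.lf (nat_lit 0) (nat_lit 6419016305) (nat_lit 304) (nat_lit 2055809473) (nat_lit 76) (nat_lit 12069157352) (nat_lit 26) (nat_lit 5) (nat_lit 30) (nat_lit 5) (nat_lit 27) (nat_lit 5) (nat_lit 287) (nat_lit 250) (nat_lit 183))))) (XT.nd (nat_lit 156) (nat_lit 228) (nat_lit 0) (XT.nd (nat_lit 78) (nat_lit 0) (nat_lit 0) (XT.lf (nat_lit 0) (nat_lit 6553745272) (nat_lit 152) (nat_lit 3180461059) (nat_lit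 228) (nat_lit 11539096438) (nat_lit 24) (nat_lit 5) (nat_lit 26) (nat_lit 5) (nat_lit 27) (nat_lit 5) (nat_lit 288) (nat_lit 250) (nat_lit 182)) (XT.lf (nat_lit 0) (nat_lit 13268222433) (nat_lit 228) (nat_lit 6439218063) (nat_lit 76) (nat_lit 2329037972) (nat_lit 24) (nat_lit 5) (nat_lit 27) (nat_lit 5) (nat_lit 25) (nat_lit 5) (nat_lit 289) (nat_lit 250) (nat_lit 181))) (XT.nd (nat_lit 78) (nat_lit 76) (nat_lit 0) (XT.lf (nat_lit 0) (nat_lit 2246999965) (nat_lit 152) (nat_lit 14800629318) (nat_lit 228) (nat_lit 5786790512) (nat_lit 22) (nat_lit 5) (nat_lit 24) (nat_lit 5) (nat_lit 25) (nat_lit 5) (nat_lit 290) (nat_lit 250) (nat_lit 180)) (XT.nd (nat_lit 78) (nat_lit 76) (nat_lit 0) (XT.lf (nat_lit 0) (nat_lit 11563616589) (nat_lit 152) (nat_lit 9543364004) (nat_lit 228) (nat_lit 2560768259) (nat_lit 22) (nat_lit 5) (nat_lit 24) (nat_lit 5) (nat_lit 25) (nat_lit 5) (nat_lit 291) (nat_lit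 250) (nat_lit 179)) (XT.lf (nat_lit 0) (nat_lit 782565309) (nat_lit 228) (nat_lit 3236360098) (nat_lit 76) (nat_lit 20524086168) (nat_lit 21) (nat_lit 5) (nat_lit 24) (nat_lit 5) (nat_lit 22) (nat_lit 5) (nat_lit 292) (nat_lit 250) (nat_lit 178))))))))
noncomputable def xc144 : XT := (XT.nd (nat_lit 1404) (nat_lit 304) (nat_lit 0) (XT.nd (nat_lit 702) (nat_lit 456) (nat_lit 0) (XT.nd (nat_lit 312) (nat_lit 152) (nat_lit 0) (XT.nd (nat_lit 156) (nat_lit 152) (nat_lit 0) (XT.nd (nat_lit 78) (nat_lit 0) (nat_lit 0) (XT.lf (nat_lit 0) (nat_lit 4317156424) (nat_lit 228) (nat_lit 19279969823) (nat_lit 76) (nat_lit 1857338733) (nat_lit 19) (nat_lit 5) (nat_lit 22) (nat_lit 5) (nat_lit 20) (nat_lit 5) (nat_lit 293) (nat_lit 250) (nat_lit 177)) (XT.lf (nat_lit 0) (nat_lit 8133635335) (nat_lit 228) (nat_lit 10333079421) (nat_lit 76) (nat_lit 7939550778) (nat_lit 19) (nat_lit 5) (nat_lit 22)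 (nat_lit 5) (nat_lit 20) (nat_lit 5) (nat_lit 294) (nat_lit 250) (nat_lit 176))) (XT.nd (nat_lit 78) (nat_lit 152) (nat_lit 0) (XT.lf (nat_lit 0) (nat_lit 12125287124) (nat_lit 228) (nat_lit 963414581) (nat_lit 76) (nat_lit 14317767812) (nat_lit 19) (nat_lit 5) (nat_lit 22) (nat_lit 5) (nat_lit 20) (nat_lit 5) (nat_lit 295) (nat_lit 250) (nat_lit 175)) (XT.lf (nat_lit 0) (nat_lit 9143998479) (nat_lit 152) (nat_lit 7300380686) (nat_lit 228) (nat_lit 12005941029) (nat_lit 17) (nat_lit 5) (nat_lit 19) (nat_lit 5) (nat_lit 20) (nat_lit 5) (nat_lit 296) (nat_lit 250) (nat_lit 174)))) (XT.nd (nat_lit 156) (nat_lit 76) (nat_lit 0) (XT.nd (nat_lit 78) (nat_lit 76) (nat_lit 0) (XT.lf (nat_lit 0) (nat_lit 19767207113) (nat_lit 152) (nat_lit 1213979160) (nat_lit 228) (nat_lit 8565117090) (nat_lit 17) (nat_lit 5) (nat_lit 19) (nat_lit 5) (nat_lit 20) (nat_lit 5) (nat_lit 297) (nat_lit 250) (nat_lit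 173)) (XT.lf (nat_lit 0) (nat_lit 125152490) (nat_lit 76) (nat_lit 25688470471) (nat_lit 152) (nat_lit 4880049917) (nat_lit 16) (nat_lit 5) (nat_lit 17) (nat_lit 5) (nat_lit 18) (nat_lit 4) (nat_lit 298) (nat_lit 250) (nat_lit 172))) (XT.nd (nat_lit 78) (nat_lit 76) (nat_lit 0) (XT.lf (nat_lit 0) (nat_lit 10821405510) (nat_lit 76) (nat_lit 20237801966) (nat_lit 152) (nat_lit 830652469) (nat_lit 16) (nat_lit 5) (nat_lit 17) (nat_lit 5) (nat_lit 18) (nat_lit 4) (nat_lit 299) (nat_lit 250) (nat_lit 171)) (XT.nd (nat_lit 78) (nat_lit 0) (nat_lit 0) (XT.lf (nat_lit 0) (nat_lit 3298460634) (nat_lit 152) (nat_lit 11168363073) (nat_lit 76) (nat_lit 18677047642) (nat_lit 15) (nat_lit 5) (nat_lit 17) (nat_lit 5) (nat_lit 16) (nat_lit 5) (nat_lit 300) (nat_lit 250) (nat_lit 170)) (XT.lf (nat_lit 0) (nat_lit 7593491189) (nat_lit 152) (nat_lit 807420714) (nat_lit 76) (nat_lit 26059643621) (nat_lit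 15) (nat_lit 5) (nat_lit 17) (nat_lit 5) (nat_lit 16) (nat_lit 5) (nat_lit 301) (nat_lit 250) (nat_lit 169)))))) (XT.nd (nat_lit 312) (nat_lit 228) (nat_lit 0) (XT.nd (nat_lit 156) (nat_lit 76) (nat_lit 0) (XT.nd (nat_lit 78) (nat_lit 0) (nat_lit 0) (XT.lf (nat_lit 0) (nat_lit 10384375223) (nat_lit 152) (nat_lit 1869005502) (nat_lit 228) (nat_lit 23582208689) (nat_lit 13) (nat_lit 5) (nat_lit 15) (nat_lit 5) (nat_lit 16) (nat_lit 5) (nat_lit 302) (nat_lit 250) (nat_lit 168)) (XT.lf (nat_lit 0) (nat_lit 17226196273) (nat_lit 228) (nat_lit 15212756021) (nat_lit 76) (nat_lit 4836446013) (nat_lit 13) (nat_lit 5) (nat_lit 16) (nat_lit 5) (nat_lit 14) (nat_lit 4) (nat_lit 303) (nat_lit 250) (nat_lit 167))) (XT.nd (nat_lit 78) (nat_lit 76) (nat_lit 0) (XT.lf (nat_lit 0) (nat_lit 22466990406) (nat_lit 228) (nat_lit 4511808015) (nat_lit 76) (nat_lit 11807451270) (nat_lit 13) (nat_lit 5) (nat_lit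 16) (nat_lit 5) (nat_lit 14) (nat_lit 4) (nat_lit 304) (nat_lit 250) (nat_lit 166)) (XT.lf (nat_lit 0) (nat_lit 6928028876) (nat_lit 76) (nat_lit 21139197861) (nat_lit 152) (nat_lit 12300564821) (nat_lit 12) (nat_lit 5) (nat_lit 13) (nat_lit 5) (nat_lit 14) (nat_lit 4) (nat_lit 305) (nat_lit 250) (nat_lit 165)))) (XT.nd (nat_lit 156) (nat_lit 228) (nat_lit 0) (XT.nd (nat_lit 78) (nat_lit 0) (nat_lit 0) (XT.lf (nat_lit 0) (nat_lit 19078887384) (nat_lit 76) (nat_lit 14934471303) (nat_lit 152) (nat_lit 8011774818) (nat_lit 12) (nat_lit 5) (nat_lit 13) (nat_lit 5) (nat_lit 14) (nat_lit 4) (nat_lit 306) (nat_lit 250) (nat_lit 164)) (XT.lf (nat_lit 0) (nat_lit 31820517373) (nat_lit 76) (nat_lit 8426255240) (nat_lit 152) (nat_lit 3519087526) (nat_lit 12) (nat_lit 5) (nat_lit 13) (nat_lit 5) (nat_lit 14) (nat_lit 4) (nat_lit 307) (nat_lit 250) (nat_lit 163))) (XT.nd (nat_lit 78) (nat_lit 152)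 (nat_lit 0) (XT.lf (nat_lit 0) (nat_lit 1150164303) (nat_lit 152) (nat_lit 429411028) (nat_lit 76) (nat_lit 44013613167) (nat_lit 11) (nat_lit 5) (nat_lit 13) (nat_lit 5) (nat_lit 12) (nat_lit 5) (nat_lit 308) (nat_lit 250) (nat_lit 162)) (XT.nd (nat_lit 78) (nat_lit 0) (nat_lit 0) (XT.lf (nat_lit 0) (nat_lit 6203770225) (nat_lit 228) (nat_lit 35619337963) (nat_lit 76) (nat_lit 5672446924) (nat_lit 9) (nat_lit 5) (nat_lit 12) (nat_lit 5) (nat_lit 10) (nat_lit 4) (nat_lit 309) (nat_lit 250) (nat_lit 161)) (XT.lf (nat_lit 0) (nat_lit 11534191509) (nat_lit 228) (nat_lit 24722306186) (nat_lit 76) (nat_lit 13235349066) (nat_lit 9) (nat_lit 5) (nat_lit 12) (nat_lit 5) (nat_lit 10) (nat_lit 4) (nat_lit 310) (nat_lit 250) (nat_lit 160))))))) (XT.nd (nat_lit 702) (nat_lit 76) (nat_lit 0) (XT.nd (nat_lit 312) (nat_lit 152) (nat_lit 0) (XT.nd (nat_lit 156) (nat_lit 76) (nat_lit 0) (XT.nd (nat_lit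 78) (nat_lit 0) (nat_lit 0) (XT.lf (nat_lit 0) (nat_lit 17122418512) (nat_lit 228) (nat_lit 13295328313) (nat_lit 76) (nat_lit 21170654755) (nat_lit 9) (nat_lit 5) (nat_lit 12) (nat_lit 5) (nat_lit 10) (nat_lit 4) (nat_lit 311) (nat_lit 250) (nat_lit 159)) (XT.lf (nat_lit 0) (nat_lit 22981756535) (nat_lit 228) (nat_lit 1311197253) (nat_lit 76) (nat_lit 29497257575) (nat_lit 9) (nat_lit 5) (nat_lit 12) (nat_lit 5) (nat_lit 10) (nat_lit 4) (nat_lit 312) (nat_lit 250) (nat_lit 158))) (XT.nd (nat_lit 78) (nat_lit 0) (nat_lit 0) (XT.lf (nat_lit 0) (nat_lit 11630881482) (nat_lit 76) (nat_lit 17676865556) (nat_lit 152) (nat_lit 26785691944) (nat_lit 8) (nat_lit 5) (nat_lit 9) (nat_lit 5) (nat_lit 10) (nat_lit 4) (nat_lit 313) (nat_lit 250) (nat_lit 157)) (XT.lf (nat_lit 0) (nat_lit 25252284303) (nat_lit 76) (nat_lit 10712222206) (nat_lit 152) (nat_lit 22546609075) (nat_lit 8) (nat_lit 5)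 (nat_lit 9) (nat_lit 5) (nat_lit 10) (nat_lit 4) (nat_lit 314) (nat_lit 250) (nat_lit 156)))) (XT.nd (nat_lit 156) (nat_lit 152) (nat_lit 0) (XT.nd (nat_lit 78) (nat_lit 0) (nat_lit 0) (XT.lf (nat_lit 0) (nat_lit 39542089015) (nat_lit 76) (nat_lit 3404647013) (nat_lit 152) (nat_lit 18103318928) (nat_lit 8) (nat_lit 5) (nat_lit 9) (nat_lit 5) (nat_lit 10) (nat_lit 4) (nat_lit 315) (nat_lit 250) (nat_lit 155)) (XT.lf (nat_lit 0) (nat_lit 50337621375) (nat_lit 152) (nat_lit 9248544650) (nat_lit 0) (nat_lit 4126808098) (nat_lit 8) (nat_lit 5) (nat_lit 10) (nat_lit 4) (nat_lit 8) (nat_lit 4) (nat_lit 316) (nat_lit 250) (nat_lit 154))) (XT.nd (nat_lit 78) (nat_lit 76) (nat_lit 0) (XT.lf (nat_lit 0) (nat_lit 3673861194) (nat_lit 76) (nat_lit 54530604966) (nat_lit 76) (nat_lit 8299261895) (nat_lit 7) (nat_lit 4) (nat_lit 8) (nat_lit 5) (nat_lit 8) (nat_lit 4) (nat_lit 317) (nat_lit 250) (nat_lit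 153)) (XT.nd (nat_lit 78) (nat_lit 76) (nat_lit 0) (XT.lf (nat_lit 0) (nat_lit 17551906456) (nat_lit 76) (nat_lit 49062758503) (nat_lit 76) (nat_lit 2811863247) (nat_lit 7) (nat_lit 4) (nat_lit 8) (nat_lit 5) (nat_lit 8) (nat_lit 4) (nat_lit 318) (nat_lit 250) (nat_lit 152)) (XT.lf (nat_lit 0) (nat_lit 2849076515) (nat_lit 152) (nat_lit 40428909528) (nat_lit 76) (nat_lit 29215508439) (nat_lit 6) (nat_lit 5) (nat_lit 8) (nat_lit 5) (nat_lit 7) (nat_lit 4) (nat_lit 319) (nat_lit 250) (nat_lit 151)))))) (XT.nd (nat_lit 312) (nat_lit 0) (nat_lit 0) (XT.nd (nat_lit 156) (nat_lit 76) (nat_lit 0) (XT.nd (nat_lit 78) (nat_lit 0) (nat_lit 0) (XT.lf (nat_lit 0) (nat_lit 8692458198) (nat_lit 152) (nat_lit 28467711485) (nat_lit 76) (nat_lit 38551647853) (nat_lit 6) (nat_lit 5) (nat_lit 8) (nat_lit 5) (nat_lit 7) (nat_lit 4) (nat_lit 320) (nat_lit 250) (nat_lit 150)) (XT.lf (nat_lit 0) (nat_lit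 14822191800) (nat_lit 152) (nat_lit 15918647514) (nat_lit 76) (nat_lit 48350515782) (nat_lit 6) (nat_lit 5) (nat_lit 8) (nat_lit 5) (nat_lit 7) (nat_lit 4) (nat_lit 321) (nat_lit 250) (nat_lit 149))) (XT.nd (nat_lit 78) (nat_lit 76) (nat_lit 0) (XT.lf (nat_lit 0) (nat_lit 21252871924) (nat_lit 152) (nat_lit 2751838891) (nat_lit 76) (nat_lit 58635442865) (nat_lit 6) (nat_lit 5) (nat_lit 8) (nat_lit 5) (nat_lit 7) (nat_lit 4) (nat_lit 322) (nat_lit 250) (nat_lit 148)) (XT.lf (nat_lit 0) (nat_lit 11429891849) (nat_lit 76) (nat_lit 16748370508) (nat_lit 152) (nat_lit 58179477818) (nat_lit 5) (nat_lit 5) (nat_lit 6) (nat_lit 5) (nat_lit 7) (nat_lit 4) (nat_lit 323) (nat_lit 250) (nat_lit 147)))) (XT.nd (nat_lit 156) (nat_lit 0) (nat_lit 0) (XT.nd (nat_lit 78) (nat_lit 0) (nat_lit 0) (XT.lf (nat_lit 0) (nat_lit 26407149657) (nat_lit 76) (nat_lit 9084209260) (nat_lit 152) (nat_lit 54767781721)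 (nat_lit 5) (nat_lit 5) (nat_lit 6) (nat_lit 5) (nat_lit 7) (nat_lit 4) (nat_lit 324) (nat_lit 250) (nat_lit 146)) (XT.lf (nat_lit 0) (nat_lit 42124606449) (nat_lit 76) (nat_lit 1040582792) (nat_lit 152) (nat_lit 51190674102) (nat_lit 5) (nat_lit 5) (nat_lit 6) (nat_lit 5) (nat_lit 7) (nat_lit 4) (nat_lit 325) (nat_lit 250) (nat_lit 145))) (XT.nd (nat_lit 78) (nat_lit 0) (nat_lit 0) (XT.lf (nat_lit 0) (nat_lit 51333585017) (nat_lit 152) (nat_lit 40153538314) (nat_lit 0) (nat_lit 7164761030) (nat_lit 5) (nat_lit 5) (nat_lit 7) (nat_lit 4) (nat_lit 5) (nat_lit 4) (nat_lit 326) (nat_lit 250) (nat_lit 144)) (XT.nd (nat_lit 78) (nat_lit 0) (nat_lit 0) (XT.lf (nat_lit 0) (nat_lit 59922942760) (nat_lit 152) (nat_lit 27497026723) (nat_lit 0) (nat_lit 15742115428) (nat_lit 5) (nat_lit 5) (nat_lit 7) (nat_lit 4) (nat_lit 5) (nat_lit 4) (nat_lit 327) (nat_lit 250) (nat_lit 143)) (XT.lf (nat_lit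 0) (nat_lit 68937466911) (nat_lit 152) (nat_lit 14215341157) (nat_lit 0) (nat_lit 24745207822) (nat_lit 5) (nat_lit 5) (nat_lit 7) (nat_lit 4) (nat_lit 5) (nat_lit 4) (nat_lit 328) (nat_lit 250) (nat_lit 142))))))))
noncomputable def xc145 : XT := (XT.nd (nat_lit 1404) (nat_lit 76) (nat_lit 0) (XT.nd (nat_lit 702) (nat_lit 76) (nat_lit 0) (XT.nd (nat_lit 312) (nat_lit 76) (nat_lit 0) (XT.nd (nat_lit 156) (nat_lit 0) (nat_lit 0) (XT.nd (nat_lit 78) (nat_lit 76) (nat_lit 0) (XT.lf (nat_lit 0) (nat_lit 78398620622) (nat_lit 152) (nat_lit 276858556) (nat_lit 0) (nat_lit 34195474145) (nat_lit 5) (nat_lit 5) (nat_lit 7) (nat_lit 4) (nat_lit 5) (nat_lit 4) (nat_lit 329) (nat_lit 250) (nat_lit 141)) (XT.lf (nat_lit 0) (nat_lit 14826136916) (nat_lit 76) (nat_lit 73734271080) (nat_lit 76) (nat_lit 29520755662) (nat_lit 4) (nat_lit 4) (nat_lit 5) (nat_lit 5) (nat_lit 5) (nat_lit 4) (nat_lit 330)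 (nat_lit 250) (nat_lit 140))) (XT.nd (nat_lit 78) (nat_lit 0) (nat_lit 0) (XT.lf (nat_lit 0) (nat_lit 30687065775) (nat_lit 76) (nat_lit 68544085310) (nat_lit 76) (nat_lit 24320694710) (nat_lit 4) (nat_lit 4) (nat_lit 5) (nat_lit 5) (nat_lit 5) (nat_lit 4) (nat_lit 331) (nat_lit 250) (nat_lit 139)) (XT.lf (nat_lit 0) (nat_lit 47334537941) (nat_lit 76) (nat_lit 63097253016) (nat_lit 76) (nat_lit 18864457481) (nat_lit 4) (nat_lit 4) (nat_lit 5) (nat_lit 5) (nat_lit 5) (nat_lit 4) (nat_lit 332) (nat_lit 250) (nat_lit 138)))) (XT.nd (nat_lit 156) (nat_lit 76) (nat_lit 0) (XT.nd (nat_lit 78) (nat_lit 0) (nat_lit 0) (XT.lf (nat_lit 0) (nat_lit 64808190254) (nat_lit 76) (nat_lit 57380805550) (nat_lit 76) (nat_lit 13139052934) (nat_lit 4) (nat_lit 4) (nat_lit 5) (nat_lit 5) (nat_lit 5) (nat_lit 4) (nat_lit 333) (nat_lit 250) (nat_lit 137)) (XT.lf (nat_lit 0) (nat_lit 83149626647) (nat_lit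 76) (nat_lit 51381132323) (nat_lit 76) (nat_lit 7130849153) (nat_lit 4) (nat_lit 4) (nat_lit 5) (nat_lit 5) (nat_lit 5) (nat_lit 4) (nat_lit 334) (nat_lit 250) (nat_lit 136))) (XT.nd (nat_lit 78) (nat_lit 76) (nat_lit 0) (XT.lf (nat_lit 0) (nat_lit 102402517207) (nat_lit 76) (nat_lit 45083948399) (nat_lit 76) (nat_lit 825540892) (nat_lit 4) (nat_lit 4) (nat_lit 5) (nat_lit 5) (nat_lit 5) (nat_lit 4) (nat_lit 335) (nat_lit 250) (nat_lit 135)) (XT.nd (nat_lit 78) (nat_lit 0) (nat_lit 0) (XT.lf (nat_lit 0) (nat_lit 5606508013) (nat_lit 152) (nat_lit 32772803543) (nat_lit 76) (nat_lit 116911245210) (nat_lit 3) (nat_lit 5) (nat_lit 5) (nat_lit 5) (nat_lit 4) (nat_lit 4) (nat_lit 336) (nat_lit 250) (nat_lit 134)) (XT.lf (nat_lit 0) (nat_lit 12329513368) (nat_lit 152) (nat_lit 18998011577) (nat_lit 76) (nat_lit 131289981320) (nat_lit 3) (nat_lit 5) (nat_lit 5) (nat_lit 5) (nat_lit 4) (nat_lit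 4) (nat_lit 337) (nat_lit 250) (nat_lit 133)))))) (XT.nd (nat_lit 312) (nat_lit 0) (nat_lit 0) (XT.nd (nat_lit 156) (nat_lit 0) (nat_lit 0) (XT.nd (nat_lit 78) (nat_lit 76) (nat_lit 0) (XT.lf (nat_lit 0) (nat_lit 19385904793) (nat_lit 152) (nat_lit 4539427263) (nat_lit 76) (nat_lit 146385612506) (nat_lit 3) (nat_lit 5) (nat_lit 5) (nat_lit 5) (nat_lit 4) (nat_lit 4) (nat_lit 338) (nat_lit 250) (nat_lit 132)) (XT.lf (nat_lit 0) (nat_lit 10989094242) (nat_lit 76) (nat_lit 15974959535) (nat_lit 152) (nat_lit 151416557064) (nat_lit 2) (nat_lit 5) (nat_lit 3) (nat_lit 5) (nat_lit 4) (nat_lit 4) (nat_lit 339) (nat_lit 250) (nat_lit 131))) (XT.nd (nat_lit 78) (nat_lit 0) (nat_lit 0) (XT.lf (nat_lit 0) (nat_lit 27447004816) (nat_lit 76) (nat_lit 7548403207) (nat_lit 152) (nat_lit 151854640345) (nat_lit 2) (nat_lit 5) (nat_lit 3) (nat_lit 5) (nat_lit 4) (nat_lit 4) (nat_lit 340) (nat_lit 250)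 (nat_lit 130)) (XT.lf (nat_lit 0) (nat_lit 43446131200) (nat_lit 152) (nat_lit 151039945273) (nat_lit 0) (nat_lit 1255993926) (nat_lit 2) (nat_lit 5) (nat_lit 4) (nat_lit 4) (nat_lit 2) (nat_lit 4) (nat_lit 341) (nat_lit 250) (nat_lit 129)))) (XT.nd (nat_lit 156) (nat_lit 0) (nat_lit 0) (XT.nd (nat_lit 78) (nat_lit 0) (nat_lit 0) (XT.lf (nat_lit 0) (nat_lit 52440765974) (nat_lit 152) (nat_lit 142386731520) (nat_lit 0) (nat_lit 10245129829) (nat_lit 2) (nat_lit 5) (nat_lit 4) (nat_lit 4) (nat_lit 2) (nat_lit 4) (nat_lit 342) (nat_lit 250) (nat_lit 128)) (XT.lf (nat_lit 0) (nat_lit 61882876413) (nat_lit 152) (nat_lit 133304947675) (nat_lit 0) (nat_lit 19682003249) (nat_lit 2) (nat_lit 5) (nat_lit 4) (nat_lit 4) (nat_lit 2) (nat_lit 4) (nat_lit 343) (nat_lit 250) (nat_lit 127))) (XT.nd (nat_lit 78) (nat_lit 0) (nat_lit 0) (XT.lf (nat_lit 0) (nat_lit 71794943734) (nat_lit 152) (nat_lit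 123772970441) (nat_lit 0) (nat_lit 29589082932) (nat_lit 2) (nat_lit 5) (nat_lit 4) (nat_lit 4) (nat_lit 2) (nat_lit 4) (nat_lit 344) (nat_lit 250) (nat_lit 126)) (XT.nd (nat_lit 78) (nat_lit 0) (nat_lit 0) (XT.lf (nat_lit 0) (nat_lit 82200568096) (nat_lit 152) (nat_lit 113768104637) (nat_lit 0) (nat_lit 39989957162) (nat_lit 2) (nat_lit 5) (nat_lit 4) (nat_lit 4) (nat_lit 2) (nat_lit 4) (nat_lit 345) (nat_lit 250) (nat_lit 125)) (XT.lf (nat_lit 0) (nat_lit 93124524795) (nat_lit 152) (nat_lit 103266529152) (nat_lit 0) (nat_lit 50909389927) (nat_lit 2) (nat_lit 5) (nat_lit 4) (nat_lit 4) (nat_lit 2) (nat_lit 4) (nat_lit 346) (nat_lit 250) (nat_lit 124))))))) (XT.nd (nat_lit 702) (nat_lit 0) (nat_lit 0) (XT.nd (nat_lit 312) (nat_lit 76) (nat_lit 0) (XT.nd (nat_lit 156) (nat_lit 0) (nat_lit 0) (XT.nd (nat_lit 78) (nat_lit 0) (nat_lit 0) (XT.lf (nat_lit 0) (nat_lit 104592823253) (nat_lit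 152) (nat_lit 92243240235) (nat_lit 0) (nat_lit 62373379875) (nat_lit 2) (nat_lit 5) (nat_lit 4) (nat_lit 4) (nat_lit 2) (nat_lit 4) (nat_lit 347) (nat_lit 250) (nat_lit 123)) (XT.lf (nat_lit 0) (nat_lit 116632768941) (nat_lit 152) (nat_lit 80671991961) (nat_lit 0) (nat_lit 74409222221) (nat_lit 2) (nat_lit 5) (nat_lit 4) (nat_lit 4) (nat_lit 2) (nat_lit 4) (nat_lit 348) (nat_lit 250) (nat_lit 122))) (XT.nd (nat_lit 78) (nat_lit 0) (nat_lit 0) (XT.lf (nat_lit 0) (nat_lit 129273028397) (nat_lit 152) (nat_lit 68525233738) (nat_lit 0) (nat_lit 87045573733) (nat_lit 2) (nat_lit 5) (nat_lit 4) (nat_lit 4) (nat_lit 2) (nat_lit 4) (nat_lit 349) (nat_lit 250) (nat_lit 121)) (XT.lf (nat_lit 0) (nat_lit 142543697477) (nat_lit 152) (nat_lit 55774044714) (nat_lit 0) (nat_lit 100312520961) (nat_lit 2) (nat_lit 5) (nat_lit 4) (nat_lit 4) (nat_lit 2) (nat_lit 4) (nat_lit 350) (nat_lit 250) (nat_lit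 120)))) (XT.nd (nat_lit 156) (nat_lit 76) (nat_lit 0) (XT.nd (nat_lit 78) (nat_lit 0) (nat_lit 0) (XT.lf (nat_lit 0) (nat_lit 156476373012) (nat_lit 152) (nat_lit 42388064914) (nat_lit 0) (nat_lit 114241651875) (nat_lit 2) (nat_lit 5) (nat_lit 4) (nat_lit 4) (nat_lit 2) (nat_lit 4) (nat_lit 351) (nat_lit 250) (nat_lit 119)) (XT.lf (nat_lit 0) (nat_lit 171104228039) (nat_lit 152) (nat_lit 28335422958) (nat_lit 0) (nat_lit 128866131072) (nat_lit 2) (nat_lit 5) (nat_lit 4) (nat_lit 4) (nat_lit 2) (nat_lit 4) (nat_lit 352) (nat_lit 250) (nat_lit 118))) (XT.nd (nat_lit 78) (nat_lit 76) (nat_lit 0) (XT.lf (nat_lit 0) (nat_lit 186462090785) (nat_lit 152) (nat_lit 13582660175) (nat_lit 0) (nat_lit 144220778742) (nat_lit 2) (nat_lit 5) (nat_lit 4) (nat_lit 4) (nat_lit 2) (nat_lit 4) (nat_lit 353) (nat_lit 250) (nat_lit 117)) (XT.nd (nat_lit 78) (nat_lit 0) (nat_lit 0) (XT.lf (nat_lit 0) (nat_lit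 1968348505) (nat_lit 76) (nat_lit 200648910520) (nat_lit 76) (nat_lit 158404536499) (nat_lit 1) (nat_lit 4) (nat_lit 2) (nat_lit 5) (nat_lit 2) (nat_lit 4) (nat_lit 354) (nat_lit 250) (nat_lit 116)) (XT.lf (nat_lit 0) (nat_lit 18766113800) (nat_lit 76) (nat_lit 201042807794) (nat_lit 76) (nat_lit 158795517605) (nat_lit 1) (nat_lit 4) (nat_lit 2) (nat_lit 5) (nat_lit 2) (nat_lit 4) (nat_lit 355) (nat_lit 250) (nat_lit 115)))))) (XT.nd (nat_lit 312) (nat_lit 0) (nat_lit 0) (XT.nd (nat_lit 156) (nat_lit 0) (nat_lit 0) (XT.nd (nat_lit 78) (nat_lit 0) (nat_lit 0) (XT.lf (nat_lit 0) (nat_lit 36401526302) (nat_lit 76) (nat_lit 201457409558) (nat_lit 76) (nat_lit 159207342065) (nat_lit 1) (nat_lit 4) (nat_lit 2) (nat_lit 5) (nat_lit 2) (nat_lit 4) (nat_lit 356) (nat_lit 250) (nat_lit 114)) (XT.lf (nat_lit 0) (nat_lit 54916575088) (nat_lit 76) (nat_lit 201893702956) (nat_lit 76) (nat_lit 159640990413)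 (nat_lit 1) (nat_lit 4) (nat_lit 2) (nat_lit 5) (nat_lit 2) (nat_lit 4) (nat_lit 357) (nat_lit 250) (nat_lit 113))) (XT.nd (nat_lit 78) (nat_lit 0) (nat_lit 0) (XT.lf (nat_lit 0) (nat_lit 74355343609) (nat_lit 76) (nat_lit 202352726785) (nat_lit 76) (nat_lit 160097495146) (nat_lit 1) (nat_lit 4) (nat_lit 2) (nat_lit 5) (nat_lit 2) (nat_lit 4) (nat_lit 358) (nat_lit 250) (nat_lit 112)) (XT.lf (nat_lit 0) (nat_lit 94764114645) (nat_lit 76) (nat_lit 202835573957) (nat_lit 76) (nat_lit 160577943178) (nat_lit 1) (nat_lit 4) (nat_lit 2) (nat_lit 5) (nat_lit 2) (nat_lit 4) (nat_lit 359) (nat_lit 250) (nat_lit 111)))) (XT.nd (nat_lit 29016) (nat_lit 0) (nat_lit 6460) (XT.nd (nat_lit 78) (nat_lit 0) (nat_lit 0) (XT.lf (nat_lit 0) (nat_lit 116191480510) (nat_lit 76) (nat_lit 203343394108) (nat_lit 76) (nat_lit 161083478435) (nat_lit 1) (nat_lit 4) (nat_lit 2) (nat_lit 5) (nat_lit 2) (nat_lit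 4) (nat_lit 360) (nat_lit 250) (nat_lit 110)) (XT.lf (nat_lit 0) (nat_lit 138688458740) (nat_lit 76) (nat_lit 203877396334) (nat_lit 76) (nat_lit 161615304572) (nat_lit 1) (nat_lit 4) (nat_lit 2) (nat_lit 5) (nat_lit 2) (nat_lit 4) (nat_lit 361) (nat_lit 250) (nat_lit 109))) (XT.nd (nat_lit 78) (nat_lit 0) (nat_lit 0) (XT.lf (nat_lit 0) (nat_lit 347334977) (nat_lit 0) (nat_lit 347334977) (nat_lit 532) (nat_lit 3250208162) (nat_lit 86) (nat_lit 5) (nat_lit 86) (nat_lit 3) (nat_lit 93) (nat_lit 3) (nat_lit 251) (nat_lit 251) (nat_lit 218)) (XT.nd (nat_lit 78) (nat_lit 0) (nat_lit 0) (XT.lf (nat_lit 0) (nat_lit 2589409673) (nat_lit 532) (nat_lit 3822997125) (nat_lit 608) (nat_lit 1611552762) (nat_lit 86) (nat_lit 5) (nat_lit 93) (nat_lit 3) (nat_lit 94) (nat_lit 5) (nat_lit 252) (nat_lit 251) (nat_lit 217)) (XT.lf (nat_lit 0) (nat_lit 3788508081) (nat_lit 532) (nat_lit 334679179) (nat_lit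 608) (nat_lit 4045040114) (nat_lit 86) (nat_lit 5) (nat_lit 93) (nat_lit 3) (nat_lit 94) (nat_lit 5) (nat_lit 253) (nat_lit 251) (nat_lit 216))))))))
noncomputable def xc146 : XT := (XT.nd (nat_lit 1404) (nat_lit 1976) (nat_lit 0) (XT.nd (nat_lit 702) (nat_lit 1748) (nat_lit 0) (XT.nd (nat_lit 312) (nat_lit 456) (nat_lit 0) (XT.nd (nat_lit 156) (nat_lit 532) (nat_lit 0) (XT.nd (nat_lit 78) (nat_lit 0) (nat_lit 76) (XT.lf (nat_lit 76) (nat_lit 3397768635) (nat_lit 0) (nat_lit 1633924441) (nat_lit 608) (nat_lit 3289099949) (nat_lit 87) (nat_lit 5) (nat_lit 86) (nat_lit 5) (nat_lit 94) (nat_lit 5) (nat_lit 254) (nat_lit 251) (nat_lit 215)) (XT.lf (nat_lit 0) (nat_lit 6292295233) (nat_lit 532) (nat_lit 1210065413) (nat_lit 608) (nat_lit 981140587) (nat_lit 87) (nat_lit 5) (nat_lit 94) (nat_lit 5) (nat_lit 95) (nat_lit 5) (nat_lit 255) (nat_lit 251) (nat_lit 214))) (XT.nd (nat_lit 78) (nat_lit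 608) (nat_lit 0) (XT.lf (nat_lit 76) (nat_lit 2708020253) (nat_lit 0) (nat_lit 4914305623) (nat_lit 608) (nat_lit 1031963030) (nat_lit 88) (nat_lit 5) (nat_lit 87) (nat_lit 5) (nat_lit 95) (nat_lit 5) (nat_lit 256) (nat_lit 251) (nat_lit 213)) (XT.lf (nat_lit 0) (nat_lit 138606607) (nat_lit 608) (nat_lit 2013829954) (nat_lit 684) (nat_lit 6683309553) (nat_lit 79) (nat_lit 5) (nat_lit 87) (nat_lit 5) (nat_lit 88) (nat_lit 5) (nat_lit 257) (nat_lit 251) (nat_lit 212)))) (XT.nd (nat_lit 156) (nat_lit 532) (nat_lit 0) (XT.nd (nat_lit 78) (nat_lit 0) (nat_lit 0) (XT.lf (nat_lit 0) (nat_lit 1320399365) (nat_lit 608) (nat_lit 6913371849) (nat_lit 684) (nat_lit 792518357) (nat_lit 80) (nat_lit 5) (nat_lit 88) (nat_lit 5) (nat_lit 89) (nat_lit 5) (nat_lit 258) (nat_lit 251) (nat_lit 211)) (XT.lf (nat_lit 0) (nat_lit 2575068537) (nat_lit 608) (nat_lit 2787270587) (nat_lit 684) (nat_lit 3863548910)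 (nat_lit 80) (nat_lit 5) (nat_lit 88) (nat_lit 5) (nat_lit 89) (nat_lit 5) (nat_lit 259) (nat_lit 251) (nat_lit 210))) (XT.nd (nat_lit 78) (nat_lit 532) (nat_lit 0) (XT.lf (nat_lit 76) (nat_lit 1554224328) (nat_lit 0) (nat_lit 2309023725) (nat_lit 684) (nat_lit 5573886350) (nat_lit 81) (nat_lit 5) (nat_lit 80) (nat_lit 5) (nat_lit 89) (nat_lit 5) (nat_lit 260) (nat_lit 251) (nat_lit 209)) (XT.nd (nat_lit 78) (nat_lit 608) (nat_lit 0) (XT.lf (nat_lit 0) (nat_lit 5226432409) (nat_lit 608) (nat_lit 3504755445) (nat_lit 76) (nat_lit 927422426) (nat_lit 81) (nat_lit 5) (nat_lit 89) (nat_lit 5) (nat_lit 82) (nat_lit 5) (nat_lit 261) (nat_lit 251) (nat_lit 208)) (XT.lf (nat_lit 0) (nat_lit 1047055509) (nat_lit 608) (nat_lit 5615981966) (nat_lit 684) (nat_lit 3228046999) (nat_lit 73) (nat_lit 5) (nat_lit 81) (nat_lit 5) (nat_lit 82) (nat_lit 5) (nat_lit 262) (nat_lit 251) (nat_lit 207))))))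 (XT.nd (nat_lit 312) (nat_lit 684) (nat_lit 0) (XT.nd (nat_lit 156) (nat_lit 380) (nat_lit 0) (XT.nd (nat_lit 78) (nat_lit 684) (nat_lit 0) (XT.lf (nat_lit 0) (nat_lit 5907883183) (nat_lit 608) (nat_lit 2275707506) (nat_lit 684) (nat_lit 1951164462) (nat_lit 73) (nat_lit 5) (nat_lit 81) (nat_lit 5) (nat_lit 82) (nat_lit 5) (nat_lit 263) (nat_lit 251) (nat_lit 206)) (XT.lf (nat_lit 0) (nat_lit 579607807) (nat_lit 684) (nat_lit 9183957896) (nat_lit 760) (nat_lit 628044110) (nat_lit 64) (nat_lit 5) (nat_lit 73) (nat_lit 5) (nat_lit 74) (nat_lit 5) (nat_lit 264) (nat_lit 251) (nat_lit 205))) (XT.nd (nat_lit 78) (nat_lit 304) (nat_lit 0) (XT.lf (nat_lit 0) (nat_lit 802690580) (nat_lit 760) (nat_lit 4976750030) (nat_lit 76) (nat_lit 4878135564) (nat_lit 63) (nat_lit 5) (nat_lit 73) (nat_lit 5) (nat_lit 64) (nat_lit 5) (nat_lit 265) (nat_lit 251) (nat_lit 204)) (XT.lf (nat_lit 0) (nat_lit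 51802069) (nat_lit 304) (nat_lit 2190727257) (nat_lit 380) (nat_lit 8696010039) (nat_lit 59) (nat_lit 5) (nat_lit 63) (nat_lit 5) (nat_lit 64) (nat_lit 5) (nat_lit 266) (nat_lit 251) (nat_lit 203)))) (XT.nd (nat_lit 156) (nat_lit 684) (nat_lit 0) (XT.nd (nat_lit 78) (nat_lit 0) (nat_lit 0) (XT.lf (nat_lit 0) (nat_lit 3823937312) (nat_lit 380) (nat_lit 5792166569) (nat_lit 76) (nat_lit 1614107960) (nat_lit 59) (nat_lit 5) (nat_lit 64) (nat_lit 5) (nat_lit 60) (nat_lit 5) (nat_lit 267) (nat_lit 251) (nat_lit 202)) (XT.lf (nat_lit 0) (nat_lit 5481552076) (nat_lit 380) (nat_lit 518193876) (nat_lit 76) (nat_lit 5536998496) (nat_lit 59) (nat_lit 5) (nat_lit 64) (nat_lit 5) (nat_lit 60) (nat_lit 5) (nat_lit 268) (nat_lit 251) (nat_lit 201))) (XT.nd (nat_lit 78) (nat_lit 304) (nat_lit 0) (XT.lf (nat_lit 0) (nat_lit 5146666730) (nat_lit 380) (nat_lit 2118804087) (nat_lit 456) (nat_lit 4591088679)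 (nat_lit 54) (nat_lit 5) (nat_lit 59) (nat_lit 5) (nat_lit 60) (nat_lit 5) (nat_lit 269) (nat_lit 251) (nat_lit 200)) (XT.nd (nat_lit 78) (nat_lit 304) (nat_lit 0) (XT.lf (nat_lit 0) (nat_lit 9142279658) (nat_lit 456) (nat_lit 1148671692) (nat_lit 76) (nat_lit 1901350168) (nat_lit 54) (nat_lit 5) (nat_lit 60) (nat_lit 5) (nat_lit 55) (nat_lit 5) (nat_lit 270) (nat_lit 251) (nat_lit 199)) (XT.lf (nat_lit 0) (nat_lit 4771625687) (nat_lit 304) (nat_lit 6416472292) (nat_lit 380) (nat_lit 1353089379) (nat_lit 50) (nat_lit 5) (nat_lit 54) (nat_lit 5) (nat_lit 55) (nat_lit 5) (nat_lit 271) (nat_lit 251) (nat_lit 198))))))) (XT.nd (nat_lit 702) (nat_lit 836) (nat_lit 0) (XT.nd (nat_lit 312) (nat_lit 532) (nat_lit 0) (XT.nd (nat_lit 156) (nat_lit 228) (nat_lit 0) (XT.nd (nat_lit 78) (nat_lit 304) (nat_lit 0) (XT.lf (nat_lit 0) (nat_lit 401084137) (nat_lit 380) (nat_lit 1923332628) (nat_lit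 76) (nat_lit 10583564779) (nat_lit 49) (nat_lit 5) (nat_lit 54) (nat_lit 5) (nat_lit 50) (nat_lit 5) (nat_lit 272) (nat_lit 251) (nat_lit 197)) (XT.lf (nat_lit 0) (nat_lit 2264687840) (nat_lit 380) (nat_lit 9027872773) (nat_lit 76) (nat_lit 1996185515) (nat_lit 45) (nat_lit 5) (nat_lit 50) (nat_lit 5) (nat_lit 46) (nat_lit 5) (nat_lit 273) (nat_lit 251) (nat_lit 196))) (XT.nd (nat_lit 78) (nat_lit 228) (nat_lit 0) (XT.lf (nat_lit 0) (nat_lit 4261540799) (nat_lit 380) (nat_lit 2941305427) (nat_lit 76) (nat_lit 6483794011) (nat_lit 45) (nat_lit 5) (nat_lit 50) (nat_lit 5) (nat_lit 46) (nat_lit 5) (nat_lit 274) (nat_lit 251) (nat_lit 195)) (XT.lf (nat_lit 0) (nat_lit 3527433668) (nat_lit 228) (nat_lit 2856216180) (nat_lit 304) (nat_lit 7719598772) (nat_lit 42) (nat_lit 5) (nat_lit 45) (nat_lit 5) (nat_lit 46) (nat_lit 5) (nat_lit 275) (nat_lit 251) (nat_lit 194)))) (XT.nd (nat_lit 156)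 (nat_lit 304) (nat_lit 0) (XT.nd (nat_lit 78) (nat_lit 228) (nat_lit 0) (XT.lf (nat_lit 0) (nat_lit 8660281176) (nat_lit 304) (nat_lit 4179878139) (nat_lit 76) (nat_lit 1698193208) (nat_lit 42) (nat_lit 5) (nat_lit 46) (nat_lit 5) (nat_lit 43) (nat_lit 5) (nat_lit 276) (nat_lit 251) (nat_lit 193)) (XT.lf (nat_lit 0) (nat_lit 2535983166) (nat_lit 228) (nat_lit 8573678023) (nat_lit 304) (nat_lit 3882686424) (nat_lit 39) (nat_lit 5) (nat_lit 42) (nat_lit 5) (nat_lit 43) (nat_lit 5) (nat_lit 277) (nat_lit 251) (nat_lit 192))) (XT.nd (nat_lit 78) (nat_lit 304) (nat_lit 0) (XT.lf (nat_lit 0) (nat_lit 9699088915) (nat_lit 228) (nat_lit 4026493569) (nat_lit 304) (nat_lit 1741334312) (nat_lit 39) (nat_lit 5) (nat_lit 42) (nat_lit 5) (nat_lit 43) (nat_lit 5) (nat_lit 278) (nat_lit 251) (nat_lit 191)) (XT.nd (nat_lit 78) (nat_lit 0) (nat_lit 0) (XT.lf (nat_lit 0) (nat_lit 496526900) (nat_lit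 304) (nat_lit 14722849796) (nat_lit 76) (nat_lit 745229025) (nat_lit 35) (nat_lit 5) (nat_lit 39) (nat_lit 5) (nat_lit 36) (nat_lit 5) (nat_lit 279) (nat_lit 251) (nat_lit 190)) (XT.lf (nat_lit 0) (nat_lit 2927733435) (nat_lit 304) (nat_lit 7810057922) (nat_lit 76) (nat_lit 5741029125) (nat_lit 35) (nat_lit 5) (nat_lit 39) (nat_lit 5) (nat_lit 36) (nat_lit 5) (nat_lit 280) (nat_lit 251) (nat_lit 189)))))) (XT.nd (nat_lit 312) (nat_lit 456) (nat_lit 0) (XT.nd (nat_lit 156) (nat_lit 152) (nat_lit 0) (XT.nd (nat_lit 78) (nat_lit 228) (nat_lit 0) (XT.lf (nat_lit 0) (nat_lit 5456388046) (nat_lit 304) (nat_lit 583694908) (nat_lit 76) (nat_lit 10979932770) (nat_lit 35) (nat_lit 5) (nat_lit 39) (nat_lit 5) (nat_lit 36) (nat_lit 5) (nat_lit 281) (nat_lit 251) (nat_lit 188)) (XT.lf (nat_lit 0) (nat_lit 7204018451) (nat_lit 228) (nat_lit 996967807) (nat_lit 304) (nat_lit 9382870004) (nat_lit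 32) (nat_lit 5) (nat_lit 35) (nat_lit 5) (nat_lit 36) (nat_lit 5) (nat_lit 282) (nat_lit 251) (nat_lit 187))) (XT.nd (nat_lit 78) (nat_lit 152) (nat_lit 0) (XT.lf (nat_lit 0) (nat_lit 11137510118) (nat_lit 304) (nat_lit 2872386705) (nat_lit 76) (nat_lit 4163315387) (nat_lit 32) (nat_lit 5) (nat_lit 36) (nat_lit 5) (nat_lit 33) (nat_lit 5) (nat_lit 283) (nat_lit 251) (nat_lit 186)) (XT.lf (nat_lit 0) (nat_lit 5128618595) (nat_lit 152) (nat_lit 9167266915) (nat_lit 228) (nat_lit 4492454574) (nat_lit 30) (nat_lit 5) (nat_lit 32) (nat_lit 5) (nat_lit 33) (nat_lit 5) (nat_lit 284) (nat_lit 251) (nat_lit 185)))) (XT.nd (nat_lit 156) (nat_lit 152) (nat_lit 0) (XT.nd (nat_lit 78) (nat_lit 304) (nat_lit 0) (XT.lf (nat_lit 0) (nat_lit 13600252272) (nat_lit 152) (nat_lit 4039745722) (nat_lit 228) (nat_lit 1792888205) (nat_lit 30) (nat_lit 5) (nat_lit 32) (nat_lit 5) (nat_lit 33) (nat_lit 5) (nat_lit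 285) (nat_lit 251) (nat_lit 184)) (XT.lf (nat_lit 0) (nat_lit 1047609773) (nat_lit 304) (nat_lit 17711281005) (nat_lit 76) (nat_lit 1348038899) (nat_lit 26) (nat_lit 5) (nat_lit 30) (nat_lit 5) (nat_lit 27) (nat_lit 5) (nat_lit 286) (nat_lit 251) (nat_lit 183))) (XT.nd (nat_lit 78) (nat_lit 152) (nat_lit 0) (XT.lf (nat_lit 0) (nat_lit 4116688913) (nat_lit 304) (nat_lit 9698044764) (nat_lit 76) (nat_lit 6991177193) (nat_lit 26) (nat_lit 5) (nat_lit 30) (nat_lit 5) (nat_lit 27) (nat_lit 5) (nat_lit 287) (nat_lit 251) (nat_lit 182)) (XT.nd (nat_lit 78) (nat_lit 152) (nat_lit 0) (XT.lf (nat_lit 0) (nat_lit 7320351465) (nat_lit 304) (nat_lit 1311683256) (nat_lit 76) (nat_lit 12908793335) (nat_lit 26) (nat_lit 5) (nat_lit 30) (nat_lit 5) (nat_lit 27) (nat_lit 5) (nat_lit 288) (nat_lit 251) (nat_lit 181)) (XT.lf (nat_lit 0) (nat_lit 7714689280) (nat_lit 152) (nat_lit 3071983836) (nat_lit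 228) (nat_lit 11520735528) (nat_lit 24) (nat_lit 5) (nat_lit 26) (nat_lit 5) (nat_lit 27) (nat_lit 5) (nat_lit 289) (nat_lit 251) (nat_lit 180))))))))
noncomputable def xc147 : XT := (XT.nd (nat_lit 1404) (nat_lit 532) (nat_lit 0) (XT.nd (nat_lit 702) (nat_lit 380) (nat_lit 0) (XT.nd (nat_lit 312) (nat_lit 304) (nat_lit 0) (XT.nd (nat_lit 156) (nat_lit 76) (nat_lit 0) (XT.nd (nat_lit 78) (nat_lit 152) (nat_lit 0) (XT.lf (nat_lit 0) (nat_lit 14474426790) (nat_lit 228) (nat_lit 5943426987) (nat_lit 76) (nat_lit 2692098057) (nat_lit 24) (nat_lit 5) (nat_lit 27) (nat_lit 5) (nat_lit 25) (nat_lit 5) (nat_lit 290) (nat_lit 251) (nat_lit 179)) (XT.lf (nat_lit 0) (nat_lit 3163912394) (nat_lit 152) (nat_lit 15265605766) (nat_lit 228) (nat_lit 5518994020) (nat_lit 22) (nat_lit 5) (nat_lit 24) (nat_lit 5) (nat_lit 25) (nat_lit 5) (nat_lit 291) (nat_lit 251) (nat_lit 178))) (XT.nd (nat_lit 78)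 (nat_lit 76) (nat_lit 0) (XT.lf (nat_lit 0) (nat_lit 12908047353) (nat_lit 152) (nat_lit 9758575044) (nat_lit 228) (nat_lit 2158200942) (nat_lit 22) (nat_lit 5) (nat_lit 24) (nat_lit 5) (nat_lit 25) (nat_lit 5) (nat_lit 292) (nat_lit 251) (nat_lit 177)) (XT.lf (nat_lit 0) (nat_lit 1310858368) (nat_lit 228) (nat_lit 2651246056) (nat_lit 76) (nat_lit 21782603283) (nat_lit 21) (nat_lit 5) (nat_lit 24) (nat_lit 5) (nat_lit 22) (nat_lit 5) (nat_lit 293) (nat_lit 251) (nat_lit 176)))) (XT.nd (nat_lit 156) (nat_lit 152) (nat_lit 0) (XT.nd (nat_lit 78) (nat_lit 0) (nat_lit 0) (XT.lf (nat_lit 0) (nat_lit 5014380008) (nat_lit 228) (nat_lit 19488288468) (nat_lit 76) (nat_lit 2199502697) (nat_lit 19) (nat_lit 5) (nat_lit 22) (nat_lit 5) (nat_lit 20) (nat_lit 5) (nat_lit 294) (nat_lit 251) (nat_lit 175)) (XT.lf (nat_lit 0) (nat_lit 8998760685) (nat_lit 228) (nat_lit 10130038300) (nat_lit 76) (nat_lit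 8573954057) (nat_lit 19) (nat_lit 5) (nat_lit 22) (nat_lit 5) (nat_lit 20) (nat_lit 5) (nat_lit 295) (nat_lit 251) (nat_lit 174))) (XT.nd (nat_lit 78) (nat_lit 152) (nat_lit 0) (XT.lf (nat_lit 0) (nat_lit 13168164416) (nat_lit 228) (nat_lit 326161413) (nat_lit 76) (nat_lit 15259775955) (nat_lit 19) (nat_lit 5) (nat_lit 22) (nat_lit 5) (nat_lit 20) (nat_lit 5) (nat_lit 296) (nat_lit 251) (nat_lit 173)) (XT.nd (nat_lit 78) (nat_lit 0) (nat_lit 0) (XT.lf (nat_lit 0) (nat_lit 10275567075) (nat_lit 152) (nat_lit 7417381677) (nat_lit 228) (nat_lit 12157750339) (nat_lit 17) (nat_lit 5) (nat_lit 19) (nat_lit 5) (nat_lit 20) (nat_lit 5) (nat_lit 297) (nat_lit 251) (nat_lit 172)) (XT.lf (nat_lit 0) (nat_lit 21397823347) (nat_lit 152) (nat_lit 1038470457) (nat_lit 228) (nat_lit 8566241762) (nat_lit 17) (nat_lit 5) (nat_lit 19) (nat_lit 5) (nat_lit 20) (nat_lit 5) (nat_lit 298) (nat_lit 251) (nat_lit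 171)))))) (XT.nd (nat_lit 312) (nat_lit 228) (nat_lit 0) (XT.nd (nat_lit 156) (nat_lit 76) (nat_lit 0) (XT.nd (nat_lit 78) (nat_lit 0) (nat_lit 0) (XT.lf (nat_lit 0) (nat_lit 780421562) (nat_lit 76) (nat_lit 26724240274) (nat_lit 152) (nat_lit 4702933414) (nat_lit 16) (nat_lit 5) (nat_lit 17) (nat_lit 5) (nat_lit 18) (nat_lit 4) (nat_lit 299) (nat_lit 251) (nat_lit 170)) (XT.lf (nat_lit 0) (nat_lit 11980581927) (nat_lit 76) (nat_lit 21012878998) (nat_lit 152) (nat_lit 471119380) (nat_lit 16) (nat_lit 5) (nat_lit 17) (nat_lit 5) (nat_lit 18) (nat_lit 4) (nat_lit 300) (nat_lit 251) (nat_lit 169))) (XT.nd (nat_lit 78) (nat_lit 0) (nat_lit 0) (XT.lf (nat_lit 0) (nat_lit 3833125670) (nat_lit 152) (nat_lit 11125241207) (nat_lit 76) (nat_lit 19823568774) (nat_lit 15) (nat_lit 5) (nat_lit 17) (nat_lit 5) (nat_lit 16) (nat_lit 5) (nat_lit 301) (nat_lit 251) (nat_lit 168)) (XT.lf (nat_lit 0)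 (nat_lit 8325300991) (nat_lit 152) (nat_lit 274896493) (nat_lit 76) (nat_lit 27565167469) (nat_lit 15) (nat_lit 5) (nat_lit 17) (nat_lit 5) (nat_lit 16) (nat_lit 5) (nat_lit 302) (nat_lit 251) (nat_lit 167)))) (XT.nd (nat_lit 156) (nat_lit 76) (nat_lit 0) (XT.nd (nat_lit 78) (nat_lit 0) (nat_lit 0) (XT.lf (nat_lit 0) (nat_lit 11467248994) (nat_lit 152) (nat_lit 1742967899) (nat_lit 228) (nat_lit 24399361173) (nat_lit 13) (nat_lit 5) (nat_lit 15) (nat_lit 5) (nat_lit 16) (nat_lit 5) (nat_lit 303) (nat_lit 251) (nat_lit 166)) (XT.lf (nat_lit 0) (nat_lit 18418547947) (nat_lit 228) (nat_lit 15422899529) (nat_lit 76) (nat_lit 5280613928) (nat_lit 13) (nat_lit 5) (nat_lit 16) (nat_lit 5) (nat_lit 14) (nat_lit 4) (nat_lit 304) (nat_lit 251) (nat_lit 165))) (XT.nd (nat_lit 78) (nat_lit 76) (nat_lit 0) (XT.lf (nat_lit 0) (nat_lit 23905617889) (nat_lit 228) (nat_lit 4213118137) (nat_lit 76)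 (nat_lit 12590533943) (nat_lit 13) (nat_lit 5) (nat_lit 16) (nat_lit 5) (nat_lit 14) (nat_lit 4) (nat_lit 305) (nat_lit 251) (nat_lit 164)) (XT.nd (nat_lit 78) (nat_lit 0) (nat_lit 0) (XT.lf (nat_lit 0) (nat_lit 7790254465) (nat_lit 76) (nat_lit 21988651795) (nat_lit 152) (nat_lit 12591355814) (nat_lit 12) (nat_lit 5) (nat_lit 13) (nat_lit 5) (nat_lit 14) (nat_lit 4) (nat_lit 306) (nat_lit 251) (nat_lit 163)) (XT.lf (nat_lit 0) (nat_lit 20524092844) (nat_lit 76) (nat_lit 15483570145) (nat_lit 152) (nat_lit 8103566181) (nat_lit 12) (nat_lit 5) (nat_lit 13) (nat_lit 5) (nat_lit 14) (nat_lit 4) (nat_lit 307) (nat_lit 251) (nat_lit 162))))))) (XT.nd (nat_lit 702) (nat_lit 228) (nat_lit 0) (XT.nd (nat_lit 312) (nat_lit 76) (nat_lit 0) (XT.nd (nat_lit 156) (nat_lit 0) (nat_lit 0) (XT.nd (nat_lit 78) (nat_lit 228) (nat_lit 0) (XT.lf (nat_lit 0) (nat_lit 33879410948) (nat_lit 76) (nat_lit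 8659353980) (nat_lit 152) (nat_lit 3400949161) (nat_lit 12) (nat_lit 5) (nat_lit 13) (nat_lit 5) (nat_lit 14) (nat_lit 4) (nat_lit 308) (nat_lit 251) (nat_lit 161)) (XT.lf (nat_lit 0) (nat_lit 4220307) (nat_lit 152) (nat_lit 1474641851) (nat_lit 228) (nat_lit 46380012338) (nat_lit 9) (nat_lit 5) (nat_lit 11) (nat_lit 5) (nat_lit 12) (nat_lit 5) (nat_lit 309) (nat_lit 251) (nat_lit 160))) (XT.nd (nat_lit 78) (nat_lit 0) (nat_lit 0) (XT.lf (nat_lit 0) (nat_lit 6782008763) (nat_lit 228) (nat_lit 36941870093) (nat_lit 76) (nat_lit 6132657277) (nat_lit 9) (nat_lit 5) (nat_lit 12) (nat_lit 5) (nat_lit 10) (nat_lit 4) (nat_lit 310) (nat_lit 251) (nat_lit 159)) (XT.lf (nat_lit 0) (nat_lit 12366186824) (nat_lit 228) (nat_lit 25521816955) (nat_lit 76) (nat_lit 14065295574) (nat_lit 9) (nat_lit 5) (nat_lit 12) (nat_lit 5) (nat_lit 10) (nat_lit 4) (nat_lit 311) (nat_lit 251) (nat_lit 158)))) (XT.nd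 (nat_lit 156) (nat_lit 76) (nat_lit 0) (XT.nd (nat_lit 78) (nat_lit 0) (nat_lit 0) (XT.lf (nat_lit 0) (nat_lit 18221668713) (nat_lit 228) (nat_lit 13544280880) (nat_lit 76) (nat_lit 22389358021) (nat_lit 9) (nat_lit 5) (nat_lit 12) (nat_lit 5) (nat_lit 10) (nat_lit 4) (nat_lit 312) (nat_lit 251) (nat_lit 157)) (XT.lf (nat_lit 0) (nat_lit 24362396052) (nat_lit 228) (nat_lit 980743927) (nat_lit 76) (nat_lit 31124663814) (nat_lit 9) (nat_lit 5) (nat_lit 12) (nat_lit 5) (nat_lit 10) (nat_lit 4) (nat_lit 313) (nat_lit 251) (nat_lit 156))) (XT.nd (nat_lit 78) (nat_lit 0) (nat_lit 0) (XT.lf (nat_lit 0) (nat_lit 12602051436) (nat_lit 76) (nat_lit 18397691527) (nat_lit 152) (nat_lit 27886713204) (nat_lit 8) (nat_lit 5) (nat_lit 9) (nat_lit 5) (nat_lit 10) (nat_lit 4) (nat_lit 314) (nat_lit 251) (nat_lit 155)) (XT.nd (nat_lit 78) (nat_lit 0) (nat_lit 0) (XT.lf (nat_lit 0) (nat_lit 26885970784)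 (nat_lit 76) (nat_lit 11092578738) (nat_lit 152) (nat_lit 23447022065) (nat_lit 8) (nat_lit 5) (nat_lit 9) (nat_lit 5) (nat_lit 10) (nat_lit 4) (nat_lit 315) (nat_lit 251) (nat_lit 154)) (XT.lf (nat_lit 0) (nat_lit 41872595624) (nat_lit 76) (nat_lit 3427017860) (nat_lit 152) (nat_lit 18792373004) (nat_lit 8) (nat_lit 5) (nat_lit 9) (nat_lit 5) (nat_lit 10) (nat_lit 4) (nat_lit 316) (nat_lit 251) (nat_lit 153)))))) (XT.nd (nat_lit 312) (nat_lit 76) (nat_lit 0) (XT.nd (nat_lit 156) (nat_lit 76) (nat_lit 0) (XT.nd (nat_lit 78) (nat_lit 76) (nat_lit 0) (XT.lf (nat_lit 0) (nat_lit 53052454051) (nat_lit 152) (nat_lit 9366529177) (nat_lit 0) (nat_lit 4469461847) (nat_lit 8) (nat_lit 5) (nat_lit 10) (nat_lit 4) (nat_lit 8) (nat_lit 4) (nat_lit 317) (nat_lit 251) (nat_lit 152)) (XT.lf (nat_lit 0) (nat_lit 4196441432) (nat_lit 76) (nat_lit 57112064355) (nat_lit 76) (nat_lit 8510451023) (nat_lit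 7) (nat_lit 4) (nat_lit 8) (nat_lit 5) (nat_lit 8) (nat_lit 4) (nat_lit 318) (nat_lit 251) (nat_lit 151))) (XT.nd (nat_lit 78) (nat_lit 76) (nat_lit 0) (XT.lf (nat_lit 0) (nat_lit 18752251472) (nat_lit 76) (nat_lit 51377733704) (nat_lit 76) (nat_lit 2758385964) (nat_lit 7) (nat_lit 4) (nat_lit 8) (nat_lit 5) (nat_lit 8) (nat_lit 4) (nat_lit 319) (nat_lit 251) (nat_lit 150)) (XT.lf (nat_lit 0) (nat_lit 3170443653) (nat_lit 152) (nat_lit 42136828162) (nat_lit 76) (nat_lit 30801721225) (nat_lit 6) (nat_lit 5) (nat_lit 8) (nat_lit 5) (nat_lit 7) (nat_lit 4) (nat_lit 320) (nat_lit 251) (nat_lit 149)))) (XT.nd (nat_lit 156) (nat_lit 76) (nat_lit 0) (XT.nd (nat_lit 78) (nat_lit 0) (nat_lit 0) (XT.lf (nat_lit 0) (nat_lit 9297474739) (nat_lit 152) (nat_lit 29592500067) (nat_lit 76) (nat_lit 40598694402) (nat_lit 6) (nat_lit 5) (nat_lit 8) (nat_lit 5) (nat_lit 7) (nat_lit 4) (nat_lit 321) (nat_lit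 251) (nat_lit 148)) (XT.lf (nat_lit 0) (nat_lit 15725581038) (nat_lit 152) (nat_lit 16430201802) (nat_lit 76) (nat_lit 50881816959) (nat_lit 6) (nat_lit 5) (nat_lit 8) (nat_lit 5) (nat_lit 7) (nat_lit 4) (nat_lit 322) (nat_lit 251) (nat_lit 147))) (XT.nd (nat_lit 78) (nat_lit 76) (nat_lit 0) (XT.lf (nat_lit 0) (nat_lit 22470067566) (nat_lit 152) (nat_lit 2618594561) (nat_lit 76) (nat_lit 61675572520) (nat_lit 6) (nat_lit 5) (nat_lit 8) (nat_lit 5) (nat_lit 7) (nat_lit 4) (nat_lit 323) (nat_lit 251) (nat_lit 146)) (XT.nd (nat_lit 78) (nat_lit 0) (nat_lit 0) (XT.lf (nat_lit 0) (nat_lit 12267854389) (nat_lit 76) (nat_lit 17470673822) (nat_lit 152) (nat_lit 60929341703) (nat_lit 5) (nat_lit 5) (nat_lit 6) (nat_lit 5) (nat_lit 7) (nat_lit 4) (nat_lit 324) (nat_lit 251) (nat_lit 145)) (XT.lf (nat_lit 0) (nat_lit 27981286138) (nat_lit 76) (nat_lit 9428786189) (nat_lit 152) (nat_lit 57354637468)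 (nat_lit 5) (nat_lit 5) (nat_lit 6) (nat_lit 5) (nat_lit 7) (nat_lit 4) (nat_lit 325) (nat_lit 251) (nat_lit 144))))))))
noncomputable def xc148 : XT := (XT.nd (nat_lit 1404) (nat_lit 76) (nat_lit 0) (XT.nd (nat_lit 702) (nat_lit 152) (nat_lit 0) (XT.nd (nat_lit 312) (nat_lit 76) (nat_lit 0) (XT.nd (nat_lit 156) (nat_lit 0) (nat_lit 0) (XT.nd (nat_lit 78) (nat_lit 0) (nat_lit 0) (XT.lf (nat_lit 0) (nat_lit 44472531055) (nat_lit 76) (nat_lit 988199042) (nat_lit 152) (nat_lit 53605890342) (nat_lit 5) (nat_lit 5) (nat_lit 6) (nat_lit 5) (nat_lit 7) (nat_lit 4) (nat_lit 326) (nat_lit 251) (nat_lit 143)) (XT.lf (nat_lit 0) (nat_lit 54032561002) (nat_lit 152) (nat_lit 41925881727) (nat_lit 0) (nat_lit 7619257201) (nat_lit 5) (nat_lit 5) (nat_lit 7) (nat_lit 4) (nat_lit 5) (nat_lit 4) (nat_lit 327) (nat_lit 251) (nat_lit 142))) (XT.nd (nat_lit 78) (nat_lit 0) (nat_lit 0) (XT.lf (nat_lit 0)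 (nat_lit 63045086788) (nat_lit 152) (nat_lit 28647750914) (nat_lit 0) (nat_lit 16620895599) (nat_lit 5) (nat_lit 5) (nat_lit 7) (nat_lit 4) (nat_lit 5) (nat_lit 4) (nat_lit 328) (nat_lit 251) (nat_lit 141)) (XT.lf (nat_lit 0) (nat_lit 72504337295) (nat_lit 152) (nat_lit 14712653791) (nat_lit 0) (nat_lit 26069777165) (nat_lit 5) (nat_lit 5) (nat_lit 7) (nat_lit 4) (nat_lit 5) (nat_lit 4) (nat_lit 329) (nat_lit 251) (nat_lit 140)))) (XT.nd (nat_lit 156) (nat_lit 0) (nat_lit 0) (XT.nd (nat_lit 78) (nat_lit 76) (nat_lit 0) (XT.lf (nat_lit 0) (nat_lit 82432834547) (nat_lit 152) (nat_lit 87411556) (nat_lit 0) (nat_lit 35988399234) (nat_lit 5) (nat_lit 5) (nat_lit 7) (nat_lit 4) (nat_lit 5) (nat_lit 4) (nat_lit 330) (nat_lit 251) (nat_lit 139)) (XT.lf (nat_lit 0) (nat_lit 15767454820) (nat_lit 76) (nat_lit 77332937160) (nat_lit 76) (nat_lit 30879096913) (nat_lit 4) (nat_lit 4) (nat_lit 5)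 (nat_lit 5) (nat_lit 5) (nat_lit 4) (nat_lit 331) (nat_lit 251) (nat_lit 138))) (XT.nd (nat_lit 78) (nat_lit 0) (nat_lit 0) (XT.lf (nat_lit 0) (nat_lit 32411905786) (nat_lit 76) (nat_lit 71887434839) (nat_lit 76) (nat_lit 25424637510) (nat_lit 4) (nat_lit 4) (nat_lit 5) (nat_lit 5) (nat_lit 5) (nat_lit 4) (nat_lit 332) (nat_lit 251) (nat_lit 137)) (XT.nd (nat_lit 78) (nat_lit 0) (nat_lit 0) (XT.lf (nat_lit 0) (nat_lit 49882680764) (nat_lit 76) (nat_lit 66172254013) (nat_lit 76) (nat_lit 19700926131) (nat_lit 4) (nat_lit 4) (nat_lit 5) (nat_lit 5) (nat_lit 5) (nat_lit 4) (nat_lit 333) (nat_lit 251) (nat_lit 136)) (XT.lf (nat_lit 0) (nat_lit 68221376839) (nat_lit 76) (nat_lit 60173787110) (nat_lit 76) (nat_lit 13694334891) (nat_lit 4) (nat_lit 4) (nat_lit 5) (nat_lit 5) (nat_lit 5) (nat_lit 4) (nat_lit 334) (nat_lit 251) (nat_lit 135)))))) (XT.nd (nat_lit 312) (nat_lit 76) (nat_lit 0)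 (XT.nd (nat_lit 156) (nat_lit 76) (nat_lit 0) (XT.nd (nat_lit 78) (nat_lit 0) (nat_lit 0) (XT.lf (nat_lit 0) (nat_lit 87471657572) (nat_lit 76) (nat_lit 53877752065) (nat_lit 76) (nat_lit 7390562383) (nat_lit 4) (nat_lit 4) (nat_lit 5) (nat_lit 5) (nat_lit 5) (nat_lit 4) (nat_lit 335) (nat_lit 251) (nat_lit 134)) (XT.lf (nat_lit 0) (nat_lit 107679356965) (nat_lit 76) (nat_lit 47269158319) (nat_lit 76) (nat_lit 774599624) (nat_lit 4) (nat_lit 4) (nat_lit 5) (nat_lit 5) (nat_lit 5) (nat_lit 4) (nat_lit 336) (nat_lit 251) (nat_lit 133))) (XT.nd (nat_lit 78) (nat_lit 0) (nat_lit 0) (XT.lf (nat_lit 0) (nat_lit 5971849366) (nat_lit 152) (nat_lit 34259285600) (nat_lit 76) (nat_lit 122819603063) (nat_lit 3) (nat_lit 5) (nat_lit 5) (nat_lit 5) (nat_lit 4) (nat_lit 4) (nat_lit 337) (nat_lit 251) (nat_lit 132)) (XT.lf (nat_lit 0) (nat_lit 13026956611) (nat_lit 152) (nat_lit 19802999661) (nat_lit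 76) (nat_lit 137914285711) (nat_lit 3) (nat_lit 5) (nat_lit 5) (nat_lit 5) (nat_lit 4) (nat_lit 4) (nat_lit 338) (nat_lit 251) (nat_lit 131)))) (XT.nd (nat_lit 156) (nat_lit 0) (nat_lit 0) (XT.nd (nat_lit 78) (nat_lit 76) (nat_lit 0) (XT.lf (nat_lit 0) (nat_lit 20432312008) (nat_lit 152) (nat_lit 4628386726) (nat_lit 76) (nat_lit 153761850584) (nat_lit 3) (nat_lit 5) (nat_lit 5) (nat_lit 5) (nat_lit 4) (nat_lit 4) (nat_lit 339) (nat_lit 251) (nat_lit 130)) (XT.lf (nat_lit 0) (nat_lit 11674334856) (nat_lit 76) (nat_lit 16713481585) (nat_lit 152) (nat_lit 158907964207) (nat_lit 2) (nat_lit 5) (nat_lit 3) (nat_lit 5) (nat_lit 4) (nat_lit 4) (nat_lit 340) (nat_lit 251) (nat_lit 129))) (XT.nd (nat_lit 78) (nat_lit 0) (nat_lit 0) (XT.lf (nat_lit 0) (nat_lit 28948674963) (nat_lit 76) (nat_lit 7868465342) (nat_lit 152) (nat_lit 159371733590) (nat_lit 2) (nat_lit 5) (nat_lit 3) (nat_lit 5)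 (nat_lit 4) (nat_lit 4) (nat_lit 341) (nat_lit 251) (nat_lit 128)) (XT.nd (nat_lit 78) (nat_lit 0) (nat_lit 0) (XT.lf (nat_lit 0) (nat_lit 45687825761) (nat_lit 152) (nat_lit 158466131797) (nat_lit 0) (nat_lit 1371671918) (nat_lit 2) (nat_lit 5) (nat_lit 4) (nat_lit 4) (nat_lit 2) (nat_lit 4) (nat_lit 342) (nat_lit 251) (nat_lit 127)) (XT.lf (nat_lit 0) (nat_lit 55128888083) (nat_lit 152) (nat_lit 149386248344) (nat_lit 0) (nat_lit 10807746602) (nat_lit 2) (nat_lit 5) (nat_lit 4) (nat_lit 4) (nat_lit 2) (nat_lit 4) (nat_lit 343) (nat_lit 251) (nat_lit 126))))))) (XT.nd (nat_lit 702) (nat_lit 76) (nat_lit 0) (XT.nd (nat_lit 312) (nat_lit 0) (nat_lit 0) (XT.nd (nat_lit 156) (nat_lit 0) (nat_lit 0) (XT.nd (nat_lit 78) (nat_lit 0) (nat_lit 0) (XT.lf (nat_lit 0) (nat_lit 65039957196) (nat_lit 152) (nat_lit 139856081008) (nat_lit 0) (nat_lit 20714065584) (nat_lit 2) (nat_lit 5) (nat_lit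 4) (nat_lit 4) (nat_lit 2) (nat_lit 4) (nat_lit 344) (nat_lit 251) (nat_lit 125)) (XT.lf (nat_lit 0) (nat_lit 75444630884) (nat_lit 152) (nat_lit 129852938916) (nat_lit 0) (nat_lit 31114215338) (nat_lit 2) (nat_lit 5) (nat_lit 4) (nat_lit 4) (nat_lit 2) (nat_lit 4) (nat_lit 345) (nat_lit 251) (nat_lit 124))) (XT.nd (nat_lit 78) (nat_lit 0) (nat_lit 0) (XT.lf (nat_lit 0) (nat_lit 86367682180) (nat_lit 152) (nat_lit 119353005061) (nat_lit 0) (nat_lit 42032958125) (nat_lit 2) (nat_lit 5) (nat_lit 4) (nat_lit 4) (nat_lit 2) (nat_lit 4) (nat_lit 346) (nat_lit 251) (nat_lit 123)) (XT.lf (nat_lit 0) (nat_lit 97835118349) (nat_lit 152) (nat_lit 108331279603) (nat_lit 0) (nat_lit 53496290952) (nat_lit 2) (nat_lit 5) (nat_lit 4) (nat_lit 4) (nat_lit 2) (nat_lit 4) (nat_lit 347) (nat_lit 251) (nat_lit 122)))) (XT.nd (nat_lit 156) (nat_lit 0) (nat_lit 0) (XT.nd (nat_lit 78) (nat_lit 0) (nat_lit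 0) (XT.lf (nat_lit 0) (nat_lit 109874242810) (nat_lit 152) (nat_lit 96761520336) (nat_lit 0) (nat_lit 65531507467) (nat_lit 2) (nat_lit 5) (nat_lit 4) (nat_lit 4) (nat_lit 2) (nat_lit 4) (nat_lit 348) (nat_lit 251) (nat_lit 121)) (XT.lf (nat_lit 0) (nat_lit 122513720145) (nat_lit 152) (nat_lit 84616180215) (nat_lit 0) (nat_lit 78167262950) (nat_lit 2) (nat_lit 5) (nat_lit 4) (nat_lit 4) (nat_lit 2) (nat_lit 4) (nat_lit 349) (nat_lit 251) (nat_lit 120))) (XT.nd (nat_lit 78) (nat_lit 0) (nat_lit 0) (XT.lf (nat_lit 0) (nat_lit 135783644347) (nat_lit 152) (nat_lit 71866341764) (nat_lit 0) (nat_lit 91433642531) (nat_lit 2) (nat_lit 5) (nat_lit 4) (nat_lit 4) (nat_lit 2) (nat_lit 4) (nat_lit 350) (nat_lit 251) (nat_lit 119)) (XT.nd (nat_lit 78) (nat_lit 0) (nat_lit 0) (XT.lf (nat_lit 0) (nat_lit 149715610475) (nat_lit 152) (nat_lit 58481648225) (nat_lit 0) (nat_lit 105362232830) (nat_lit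 2) (nat_lit 5) (nat_lit 4) (nat_lit 4) (nat_lit 2) (nat_lit 4) (nat_lit 351) (nat_lit 251) (nat_lit 118)) (XT.lf (nat_lit 0) (nat_lit 164342789876) (nat_lit 152) (nat_lit 44430231279) (nat_lit 0) (nat_lit 119986197155) (nat_lit 2) (nat_lit 5) (nat_lit 4) (nat_lit 4) (nat_lit 2) (nat_lit 4) (nat_lit 352) (nat_lit 251) (nat_lit 117)))))) (XT.nd (nat_lit 312) (nat_lit 0) (nat_lit 0) (XT.nd (nat_lit 156) (nat_lit 76) (nat_lit 0) (XT.nd (nat_lit 78) (nat_lit 0) (nat_lit 0) (XT.lf (nat_lit 0) (nat_lit 179700009168) (nat_lit 152) (nat_lit 29678635172) (nat_lit 0) (nat_lit 135340354470) (nat_lit 2) (nat_lit 5) (nat_lit 4) (nat_lit 4) (nat_lit 2) (nat_lit 4) (nat_lit 353) (nat_lit 251) (nat_lit 116)) (XT.lf (nat_lit 0) (nat_lit 195823833159) (nat_lit 152) (nat_lit 14191737056) (nat_lit 0) (nat_lit 151461262292) (nat_lit 2) (nat_lit 5) (nat_lit 4) (nat_lit 4) (nat_lit 2) (nat_lit 4) (nat_lit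 354) (nat_lit 251) (nat_lit 115))) (XT.nd (nat_lit 78) (nat_lit 0) (nat_lit 0) (XT.lf (nat_lit 0) (nat_lit 2135692120) (nat_lit 76) (nat_lit 210650303924) (nat_lit 76) (nat_lit 166284955754) (nat_lit 1) (nat_lit 4) (nat_lit 2) (nat_lit 5) (nat_lit 2) (nat_lit 4) (nat_lit 355) (nat_lit 251) (nat_lit 114)) (XT.lf (nat_lit 0) (nat_lit 19770063480) (nat_lit 76) (nat_lit 211065374735) (nat_lit 76) (nat_lit 166697381514) (nat_lit 1) (nat_lit 4) (nat_lit 2) (nat_lit 5) (nat_lit 2) (nat_lit 4) (nat_lit 356) (nat_lit 251) (nat_lit 113)))) (XT.nd (nat_lit 156) (nat_lit 0) (nat_lit 0) (XT.nd (nat_lit 78) (nat_lit 0) (nat_lit 0) (XT.lf (nat_lit 0) (nat_lit 38284120703) (nat_lit 76) (nat_lit 211502114846) (nat_lit 76) (nat_lit 167131602529) (nat_lit 1) (nat_lit 4) (nat_lit 2) (nat_lit 5) (nat_lit 2) (nat_lit 4) (nat_lit 357) (nat_lit 251) (nat_lit 112)) (XT.lf (nat_lit 0) (nat_lit 57721944877)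 (nat_lit 76) (nat_lit 211961564115) (nat_lit 76) (nat_lit 167588652658) (nat_lit 1) (nat_lit 4) (nat_lit 2) (nat_lit 5) (nat_lit 2) (nat_lit 4) (nat_lit 358) (nat_lit 251) (nat_lit 111))) (XT.nd (nat_lit 78) (nat_lit 0) (nat_lit 0) (XT.lf (nat_lit 0) (nat_lit 78129816536) (nat_lit 76) (nat_lit 212444816467) (nat_lit 76) (nat_lit 168069620117) (nat_lit 1) (nat_lit 4) (nat_lit 2) (nat_lit 5) (nat_lit 2) (nat_lit 4) (nat_lit 359) (nat_lit 251) (nat_lit 110)) (XT.nd (nat_lit 78) (nat_lit 0) (nat_lit 0) (XT.lf (nat_lit 0) (nat_lit 99556325851) (nat_lit 76) (nat_lit 212953022505) (nat_lit 76) (nat_lit 168575650065) (nat_lit 1) (nat_lit 4) (nat_lit 2) (nat_lit 5) (nat_lit 2) (nat_lit 4) (nat_lit 360) (nat_lit 251) (nat_lit 109)) (XT.lf (nat_lit 0) (nat_lit 122052488320) (nat_lit 76) (nat_lit 213487392243) (nat_lit 76) (nat_lit 169107947335) (nat_lit 1) (nat_lit 4) (nat_lit 2) (nat_lit 5)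 (nat_lit 2) (nat_lit 4) (nat_lit 361) (nat_lit 251) (nat_lit 108))))))))
noncomputable def xc149 : XT := (XT.nd (nat_lit 1404) (nat_lit 2128) (nat_lit 0) (XT.nd (nat_lit 702) (nat_lit 1900) (nat_lit 0) (XT.nd (nat_lit 312) (nat_lit 532) (nat_lit 0) (XT.nd (nat_lit 156) (nat_lit 0) (nat_lit 0) (XT.nd (nat_lit 78) (nat_lit 0) (nat_lit 0) (XT.lf (nat_lit 0) (nat_lit 925479293) (nat_lit 0) (nat_lit 925479293) (nat_lit 532) (nat_lit 2230386444) (nat_lit 86) (nat_lit 5) (nat_lit 86) (nat_lit 3) (nat_lit 93) (nat_lit 3) (nat_lit 252) (nat_lit 252) (nat_lit 216)) (XT.lf (nat_lit 0) (nat_lit 4838498871) (nat_lit 532) (nat_lit 2813556755) (nat_lit 608) (nat_lit 658170052) (nat_lit 86) (nat_lit 5) (nat_lit 93) (nat_lit 3) (nat_lit 94) (nat_lit 5) (nat_lit 253) (nat_lit 252) (nat_lit 215))) (XT.nd (nat_lit 78) (nat_lit 0) (nat_lit 0) (XT.lf (nat_lit 76) (nat_lit 818193423) (nat_lit 0) (nat_lit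 5191198843) (nat_lit 608) (nat_lit 2457148847) (nat_lit 87) (nat_lit 5) (nat_lit 86) (nat_lit 5) (nat_lit 94) (nat_lit 5) (nat_lit 254) (nat_lit 252) (nat_lit 214)) (XT.lf (nat_lit 76) (nat_lit 4692634083) (nat_lit 0) (nat_lit 2530764347) (nat_lit 608) (nat_lit 1408309458) (nat_lit 87) (nat_lit 5) (nat_lit 86) (nat_lit 5) (nat_lit 94) (nat_lit 5) (nat_lit 255) (nat_lit 252) (nat_lit 213)))) (XT.nd (nat_lit 156) (nat_lit 0) (nat_lit 0) (XT.nd (nat_lit 78) (nat_lit 608) (nat_lit 0) (XT.lf (nat_lit 0) (nat_lit 8442523350) (nat_lit 532) (nat_lit 86922510) (nat_lit 608) (nat_lit 278717622) (nat_lit 87) (nat_lit 5) (nat_lit 94) (nat_lit 5) (nat_lit 95) (nat_lit 5) (nat_lit 256) (nat_lit 252) (nat_lit 212)) (XT.lf (nat_lit 0) (nat_lit 753590096) (nat_lit 608) (nat_lit 4995498451) (nat_lit 684) (nat_lit 3241623863) (nat_lit 79) (nat_lit 5) (nat_lit 87) (nat_lit 5) (nat_lit 88) (nat_lit 5)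 (nat_lit 257) (nat_lit 252) (nat_lit 211))) (XT.nd (nat_lit 78) (nat_lit 0) (nat_lit 76) (XT.lf (nat_lit 0) (nat_lit 1862175560) (nat_lit 608) (nat_lit 941982207) (nat_lit 684) (nat_lit 6380864403) (nat_lit 79) (nat_lit 5) (nat_lit 87) (nat_lit 5) (nat_lit 88) (nat_lit 5) (nat_lit 258) (nat_lit 252) (nat_lit 210)) (XT.nd (nat_lit 78) (nat_lit 0) (nat_lit 0) (XT.lf (nat_lit 0) (nat_lit 3031529487) (nat_lit 608) (nat_lit 6008611472) (nat_lit 684) (nat_lit 348846327) (nat_lit 80) (nat_lit 5) (nat_lit 88) (nat_lit 5) (nat_lit 89) (nat_lit 5) (nat_lit 259) (nat_lit 252) (nat_lit 209)) (XT.lf (nat_lit 0) (nat_lit 4270593539) (nat_lit 608) (nat_lit 1735749383) (nat_lit 684) (nat_lit 3596442596) (nat_lit 80) (nat_lit 5) (nat_lit 88) (nat_lit 5) (nat_lit 89) (nat_lit 5) (nat_lit 260) (nat_lit 252) (nat_lit 208)))))) (XT.nd (nat_lit 312) (nat_lit 1444) (nat_lit 0) (XT.nd (nat_lit 156) (nat_lit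 532) (nat_lit 0) (XT.nd (nat_lit 78) (nat_lit 0) (nat_lit 76) (XT.lf (nat_lit 76) (nat_lit 2803612460) (nat_lit 0) (nat_lit 2763254561) (nat_lit 684) (nat_lit 4260831428) (nat_lit 81) (nat_lit 5) (nat_lit 80) (nat_lit 5) (nat_lit 89) (nat_lit 5) (nat_lit 261) (nat_lit 252) (nat_lit 207)) (XT.lf (nat_lit 0) (nat_lit 6921246663) (nat_lit 608) (nat_lit 2481651417) (nat_lit 76) (nat_lit 661472990) (nat_lit 81) (nat_lit 5) (nat_lit 89) (nat_lit 5) (nat_lit 82) (nat_lit 5) (nat_lit 262) (nat_lit 252) (nat_lit 206))) (XT.nd (nat_lit 78) (nat_lit 0) (nat_lit 0) (XT.lf (nat_lit 0) (nat_lit 2278421990) (nat_lit 608) (nat_lit 6101406147) (nat_lit 684) (nat_lit 1931395201) (nat_lit 73) (nat_lit 5) (nat_lit 81) (nat_lit 5) (nat_lit 82) (nat_lit 5) (nat_lit 263) (nat_lit 252) (nat_lit 205)) (XT.lf (nat_lit 0) (nat_lit 7326147538) (nat_lit 608) (nat_lit 2584373912) (nat_lit 684) (nat_lit 660099687)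 (nat_lit 73) (nat_lit 5) (nat_lit 81) (nat_lit 5) (nat_lit 82) (nat_lit 5) (nat_lit 264) (nat_lit 252) (nat_lit 204)))) (XT.nd (nat_lit 156) (nat_lit 684) (nat_lit 0) (XT.nd (nat_lit 78) (nat_lit 0) (nat_lit 0) (XT.lf (nat_lit 0) (nat_lit 657569886) (nat_lit 760) (nat_lit 9067455216) (nat_lit 76) (nat_lit 1117363677) (nat_lit 63) (nat_lit 5) (nat_lit 73) (nat_lit 5) (nat_lit 64) (nat_lit 5) (nat_lit 265) (nat_lit 252) (nat_lit 203)) (XT.lf (nat_lit 0) (nat_lit 2077024919) (nat_lit 760) (nat_lit 4059062689) (nat_lit 76) (nat_lit 4988351835) (nat_lit 63) (nat_lit 5) (nat_lit 73) (nat_lit 5) (nat_lit 64) (nat_lit 5) (nat_lit 266) (nat_lit 252) (nat_lit 202))) (XT.nd (nat_lit 78) (nat_lit 380) (nat_lit 0) (XT.lf (nat_lit 0) (nat_lit 1202102099) (nat_lit 304) (nat_lit 2345901053) (nat_lit 380) (nat_lit 7873695292) (nat_lit 59) (nat_lit 5) (nat_lit 63) (nat_lit 5) (nat_lit 64) (nat_lit 5)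 (nat_lit 267) (nat_lit 252) (nat_lit 201)) (XT.nd (nat_lit 78) (nat_lit 380) (nat_lit 0) (XT.lf (nat_lit 0) (nat_lit 5150976875) (nat_lit 380) (nat_lit 4927307903) (nat_lit 76) (nat_lit 1652740263) (nat_lit 59) (nat_lit 5) (nat_lit 64) (nat_lit 5) (nat_lit 60) (nat_lit 5) (nat_lit 268) (nat_lit 252) (nat_lit 200)) (XT.lf (nat_lit 0) (nat_lit 573752468) (nat_lit 380) (nat_lit 6272590044) (nat_lit 456) (nat_lit 5208984221) (nat_lit 54) (nat_lit 5) (nat_lit 59) (nat_lit 5) (nat_lit 60) (nat_lit 5) (nat_lit 269) (nat_lit 252) (nat_lit 199))))))) (XT.nd (nat_lit 702) (nat_lit 988) (nat_lit 0) (XT.nd (nat_lit 312) (nat_lit 760) (nat_lit 0) (XT.nd (nat_lit 156) (nat_lit 380) (nat_lit 0) (XT.nd (nat_lit 78) (nat_lit 0) (nat_lit 0) (XT.lf (nat_lit 0) (nat_lit 6485758694) (nat_lit 380) (nat_lit 2190117756) (nat_lit 456) (nat_lit 3717612230) (nat_lit 54) (nat_lit 5) (nat_lit 59) (nat_lit 5) (nat_lit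 60) (nat_lit 5) (nat_lit 270) (nat_lit 252) (nat_lit 198)) (XT.lf (nat_lit 0) (nat_lit 10597177174) (nat_lit 456) (nat_lit 123136895) (nat_lit 76) (nat_lit 2028339838) (nat_lit 54) (nat_lit 5) (nat_lit 60) (nat_lit 5) (nat_lit 55) (nat_lit 5) (nat_lit 271) (nat_lit 252) (nat_lit 197))) (XT.nd (nat_lit 78) (nat_lit 76) (nat_lit 0) (XT.lf (nat_lit 0) (nat_lit 6075708121) (nat_lit 304) (nat_lit 6638700248) (nat_lit 380) (nat_lit 402280216) (nat_lit 50) (nat_lit 5) (nat_lit 54) (nat_lit 5) (nat_lit 55) (nat_lit 5) (nat_lit 272) (nat_lit 252) (nat_lit 196)) (XT.lf (nat_lit 0) (nat_lit 1360058758) (nat_lit 380) (nat_lit 970777146) (nat_lit 76) (nat_lit 11172684532) (nat_lit 49) (nat_lit 5) (nat_lit 54) (nat_lit 5) (nat_lit 50) (nat_lit 5) (nat_lit 273) (nat_lit 252) (nat_lit 195)))) (XT.nd (nat_lit 156) (nat_lit 456) (nat_lit 0) (XT.nd (nat_lit 78) (nat_lit 0) (nat_lit 0) (XT.lf (nat_lit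 0) (nat_lit 3290138319) (nat_lit 380) (nat_lit 8401064577) (nat_lit 76) (nat_lit 2213594338) (nat_lit 45) (nat_lit 5) (nat_lit 50) (nat_lit 5) (nat_lit 46) (nat_lit 5) (nat_lit 274) (nat_lit 252) (nat_lit 194)) (XT.lf (nat_lit 0) (nat_lit 5343395065) (nat_lit 380) (nat_lit 2061511809) (nat_lit 76) (nat_lit 6919983281) (nat_lit 45) (nat_lit 5) (nat_lit 50) (nat_lit 5) (nat_lit 46) (nat_lit 5) (nat_lit 275) (nat_lit 252) (nat_lit 193))) (XT.nd (nat_lit 78) (nat_lit 228) (nat_lit 0) (XT.lf (nat_lit 0) (nat_lit 4714102002) (nat_lit 228) (nat_lit 2831910784) (nat_lit 304) (nat_lit 7217721879) (nat_lit 42) (nat_lit 5) (nat_lit 45) (nat_lit 5) (nat_lit 46) (nat_lit 5) (nat_lit 276) (nat_lit 252) (nat_lit 192)) (XT.nd (nat_lit 78) (nat_lit 228) (nat_lit 0) (XT.lf (nat_lit 0) (nat_lit 9898809136) (nat_lit 304) (nat_lit 3386620727) (nat_lit 76) (nat_lit 1937167100) (nat_lit 42) (nat_lit 5) (nat_lit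 46) (nat_lit 5) (nat_lit 43) (nat_lit 5) (nat_lit 277) (nat_lit 252) (nat_lit 191)) (XT.lf (nat_lit 0) (nat_lit 3648868299) (nat_lit 228) (nat_lit 8798827612) (nat_lit 304) (nat_lit 3252858175) (nat_lit 39) (nat_lit 5) (nat_lit 42) (nat_lit 5) (nat_lit 43) (nat_lit 5) (nat_lit 278) (nat_lit 252) (nat_lit 190)))))) (XT.nd (nat_lit 312) (nat_lit 456) (nat_lit 0) (XT.nd (nat_lit 156) (nat_lit 228) (nat_lit 0) (XT.nd (nat_lit 78) (nat_lit 304) (nat_lit 0) (XT.lf (nat_lit 0) (nat_lit 11123172861) (nat_lit 228) (nat_lit 4033976045) (nat_lit 304) (nat_lit 1043674771) (nat_lit 39) (nat_lit 5) (nat_lit 42) (nat_lit 5) (nat_lit 43) (nat_lit 5) (nat_lit 279) (nat_lit 252) (nat_lit 189)) (XT.lf (nat_lit 0) (nat_lit 1262951952) (nat_lit 304) (nat_lit 14472691772) (nat_lit 76) (nat_lit 988139927) (nat_lit 35) (nat_lit 5) (nat_lit 39) (nat_lit 5) (nat_lit 36) (nat_lit 5) (nat_lit 280) (nat_lit 252)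 (nat_lit 188))) (XT.nd (nat_lit 78) (nat_lit 228) (nat_lit 0) (XT.lf (nat_lit 0) (nat_lit 3780404589) (nat_lit 304) (nat_lit 7261226995) (nat_lit 76) (nat_lit 6223937201) (nat_lit 35) (nat_lit 5) (nat_lit 39) (nat_lit 5) (nat_lit 36) (nat_lit 5) (nat_lit 281) (nat_lit 252) (nat_lit 187)) (XT.lf (nat_lit 0) (nat_lit 291039053) (nat_lit 228) (nat_lit 6115364218) (nat_lit 304) (nat_lit 11428964404) (nat_lit 32) (nat_lit 5) (nat_lit 35) (nat_lit 5) (nat_lit 36) (nat_lit 5) (nat_lit 282) (nat_lit 252) (nat_lit 186)))) (XT.nd (nat_lit 156) (nat_lit 456) (nat_lit 0) (XT.nd (nat_lit 78) (nat_lit 0) (nat_lit 0) (XT.lf (nat_lit 0) (nat_lit 8444393923) (nat_lit 228) (nat_lit 821004485) (nat_lit 304) (nat_lit 9163228674) (nat_lit 32) (nat_lit 5) (nat_lit 35) (nat_lit 5) (nat_lit 36) (nat_lit 5) (nat_lit 283) (nat_lit 252) (nat_lit 185)) (XT.lf (nat_lit 0) (nat_lit 12320945996) (nat_lit 304) (nat_lit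 2148319384) (nat_lit 76) (nat_lit 4579656706) (nat_lit 32) (nat_lit 5) (nat_lit 36) (nat_lit 5) (nat_lit 33) (nat_lit 5) (nat_lit 284) (nat_lit 252) (nat_lit 184))) (XT.nd (nat_lit 78) (nat_lit 304) (nat_lit 0) (XT.lf (nat_lit 0) (nat_lit 6238741235) (nat_lit 152) (nat_lit 9381991234) (nat_lit 228) (nat_lit 4074976541) (nat_lit 30) (nat_lit 5) (nat_lit 32) (nat_lit 5) (nat_lit 33) (nat_lit 5) (nat_lit 285) (nat_lit 252) (nat_lit 183)) (XT.nd (nat_lit 78) (nat_lit 304) (nat_lit 0) (XT.lf (nat_lit 0) (nat_lit 15093304610) (nat_lit 152) (nat_lit 4009695840) (nat_lit 228) (nat_lit 1271008080) (nat_lit 30) (nat_lit 5) (nat_lit 32) (nat_lit 5) (nat_lit 33) (nat_lit 5) (nat_lit 286) (nat_lit 252) (nat_lit 182)) (XT.lf (nat_lit 0) (nat_lit 1680374606) (nat_lit 304) (nat_lit 17749928365) (nat_lit 76) (nat_lit 1651618960) (nat_lit 26) (nat_lit 5) (nat_lit 30) (nat_lit 5) (nat_lit 27) (nat_lit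 5) (nat_lit 287) (nat_lit 252) (nat_lit 181))))))))
noncomputable def xc150 : XT := (XT.nd (nat_lit 1404) (nat_lit 532) (nat_lit 0) (XT.nd (nat_lit 702) (nat_lit 456) (nat_lit 0) (XT.nd (nat_lit 312) (nat_lit 380) (nat_lit 0) (XT.nd (nat_lit 156) (nat_lit 152) (nat_lit 0) (XT.nd (nat_lit 78) (nat_lit 0) (nat_lit 0) (XT.lf (nat_lit 0) (nat_lit 4875270354) (nat_lit 304) (nat_lit 9376359678) (nat_lit 76) (nat_lit 7565667591) (nat_lit 26) (nat_lit 5) (nat_lit 30) (nat_lit 5) (nat_lit 27) (nat_lit 5) (nat_lit 288) (nat_lit 252) (nat_lit 180)) (XT.lf (nat_lit 0) (nat_lit 8212794748) (nat_lit 304) (nat_lit 609089016) (nat_lit 76) (nat_lit 13768453515) (nat_lit 26) (nat_lit 5) (nat_lit 30) (nat_lit 5) (nat_lit 27) (nat_lit 5) (nat_lit 289) (nat_lit 252) (nat_lit 179))) (XT.nd (nat_lit 78) (nat_lit 0) (nat_lit 0) (XT.lf (nat_lit 0) (nat_lit 8856212173) (nat_lit 152) (nat_lit 2982952393) (nat_lit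 228) (nat_lit 11556803387) (nat_lit 24) (nat_lit 5) (nat_lit 26) (nat_lit 5) (nat_lit 27) (nat_lit 5) (nat_lit 290) (nat_lit 252) (nat_lit 178)) (XT.lf (nat_lit 0) (nat_lit 15690477594) (nat_lit 228) (nat_lit 5498873186) (nat_lit 76) (nat_lit 3050383855) (nat_lit 24) (nat_lit 5) (nat_lit 27) (nat_lit 5) (nat_lit 25) (nat_lit 5) (nat_lit 291) (nat_lit 252) (nat_lit 177)))) (XT.nd (nat_lit 156) (nat_lit 228) (nat_lit 0) (XT.nd (nat_lit 78) (nat_lit 0) (nat_lit 0) (XT.lf (nat_lit 0) (nat_lit 4051869856) (nat_lit 152) (nat_lit 15779403044) (nat_lit 228) (nat_lit 5289604931) (nat_lit 22) (nat_lit 5) (nat_lit 24) (nat_lit 5) (nat_lit 25) (nat_lit 5) (nat_lit 292) (nat_lit 252) (nat_lit 176)) (XT.lf (nat_lit 0) (nat_lit 14248460999) (nat_lit 152) (nat_lit 10008900929) (nat_lit 228) (nat_lit 1784835950) (nat_lit 22) (nat_lit 5) (nat_lit 24) (nat_lit 5) (nat_lit 25) (nat_lit 5) (nat_lit 293)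 (nat_lit 252) (nat_lit 175))) (XT.nd (nat_lit 78) (nat_lit 152) (nat_lit 0) (XT.lf (nat_lit 0) (nat_lit 1820088174) (nat_lit 228) (nat_lit 2106318975) (nat_lit 76) (nat_lit 23082448011) (nat_lit 21) (nat_lit 5) (nat_lit 24) (nat_lit 5) (nat_lit 22) (nat_lit 5) (nat_lit 294) (nat_lit 252) (nat_lit 174)) (XT.nd (nat_lit 78) (nat_lit 0) (nat_lit 0) (XT.lf (nat_lit 0) (nat_lit 5701711945) (nat_lit 228) (nat_lit 19777278995) (nat_lit 76) (nat_lit 2535597584) (nat_lit 19) (nat_lit 5) (nat_lit 22) (nat_lit 5) (nat_lit 20) (nat_lit 5) (nat_lit 295) (nat_lit 252) (nat_lit 173)) (XT.lf (nat_lit 0) (nat_lit 9864520563) (nat_lit 228) (nat_lit 9983755552) (nat_lit 76) (nat_lit 9218003905) (nat_lit 19) (nat_lit 5) (nat_lit 22) (nat_lit 5) (nat_lit 20) (nat_lit 5) (nat_lit 296) (nat_lit 252) (nat_lit 172)))))) (XT.nd (nat_lit 312) (nat_lit 228) (nat_lit 0) (XT.nd (nat_lit 156) (nat_lit 76) (nat_lit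 0) (XT.nd (nat_lit 78) (nat_lit 0) (nat_lit 0) (XT.lf (nat_lit 0) (nat_lit 288462806) (nat_lit 152) (nat_lit 13938634348) (nat_lit 228) (nat_lit 15943902941) (nat_lit 17) (nat_lit 5) (nat_lit 19) (nat_lit 5) (nat_lit 20) (nat_lit 5) (nat_lit 297) (nat_lit 252) (nat_lit 171)) (XT.lf (nat_lit 0) (nat_lit 11401017694) (nat_lit 152) (nat_lit 7563291085) (nat_lit 228) (nat_lit 12358846253) (nat_lit 17) (nat_lit 5) (nat_lit 19) (nat_lit 5) (nat_lit 20) (nat_lit 5) (nat_lit 298) (nat_lit 252) (nat_lit 170))) (XT.nd (nat_lit 78) (nat_lit 76) (nat_lit 0) (XT.lf (nat_lit 0) (nat_lit 23050259529) (nat_lit 152) (nat_lit 876146669) (nat_lit 228) (nat_lit 8607133276) (nat_lit 17) (nat_lit 5) (nat_lit 19) (nat_lit 5) (nat_lit 20) (nat_lit 5) (nat_lit 299) (nat_lit 252) (nat_lit 169)) (XT.lf (nat_lit 0) (nat_lit 1408115155) (nat_lit 76) (nat_lit 27834916033) (nat_lit 152) (nat_lit 4556112739) (nat_lit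 16) (nat_lit 5) (nat_lit 17) (nat_lit 5) (nat_lit 18) (nat_lit 4) (nat_lit 300) (nat_lit 252) (nat_lit 168)))) (XT.nd (nat_lit 156) (nat_lit 152) (nat_lit 0) (XT.nd (nat_lit 78) (nat_lit 76) (nat_lit 0) (XT.lf (nat_lit 0) (nat_lit 13140251514) (nat_lit 76) (nat_lit 21848726515) (nat_lit 152) (nat_lit 130896924) (nat_lit 16) (nat_lit 5) (nat_lit 17) (nat_lit 5) (nat_lit 18) (nat_lit 4) (nat_lit 301) (nat_lit 252) (nat_lit 167)) (XT.lf (nat_lit 0) (nat_lit 4360148852) (nat_lit 152) (nat_lit 11135888737) (nat_lit 76) (nat_lit 21007644039) (nat_lit 15) (nat_lit 5) (nat_lit 17) (nat_lit 5) (nat_lit 16) (nat_lit 5) (nat_lit 302) (nat_lit 252) (nat_lit 166))) (XT.nd (nat_lit 78) (nat_lit 0) (nat_lit 0) (XT.lf (nat_lit 0) (nat_lit 238629192) (nat_lit 152) (nat_lit 8826059565) (nat_lit 228) (nat_lit 28892233583) (nat_lit 13) (nat_lit 5) (nat_lit 15) (nat_lit 5) (nat_lit 16) (nat_lit 5) (nat_lit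 303) (nat_lit 252) (nat_lit 165)) (XT.nd (nat_lit 78) (nat_lit 0) (nat_lit 0) (XT.lf (nat_lit 0) (nat_lit 12551863154) (nat_lit 152) (nat_lit 1631034318) (nat_lit 228) (nat_lit 25291022701) (nat_lit 13) (nat_lit 5) (nat_lit 15) (nat_lit 5) (nat_lit 16) (nat_lit 5) (nat_lit 304) (nat_lit 252) (nat_lit 164)) (XT.lf (nat_lit 0) (nat_lit 19639740070) (nat_lit 228) (nat_lit 15694729954) (nat_lit 76) (nat_lit 5728178061) (nat_lit 13) (nat_lit 5) (nat_lit 16) (nat_lit 5) (nat_lit 14) (nat_lit 4) (nat_lit 305) (nat_lit 252) (nat_lit 163))))))) (XT.nd (nat_lit 702) (nat_lit 228) (nat_lit 0) (XT.nd (nat_lit 312) (nat_lit 228) (nat_lit 0) (XT.nd (nat_lit 156) (nat_lit 0) (nat_lit 0) (XT.nd (nat_lit 78) (nat_lit 76) (nat_lit 0) (XT.lf (nat_lit 0) (nat_lit 25386865189) (nat_lit 228) (nat_lit 3948236376) (nat_lit 76) (nat_lit 13394854390) (nat_lit 13) (nat_lit 5) (nat_lit 16) (nat_lit 5) (nat_lit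 14) (nat_lit 4) (nat_lit 306) (nat_lit 252) (nat_lit 162)) (XT.lf (nat_lit 0) (nat_lit 8647634894) (nat_lit 76) (nat_lit 22899870363) (nat_lit 152) (nat_lit 12926830863) (nat_lit 12) (nat_lit 5) (nat_lit 13) (nat_lit 5) (nat_lit 14) (nat_lit 4) (nat_lit 307) (nat_lit 252) (nat_lit 161))) (XT.nd (nat_lit 78) (nat_lit 0) (nat_lit 0) (XT.lf (nat_lit 0) (nat_lit 21995885777) (nat_lit 76) (nat_lit 16078497203) (nat_lit 152) (nat_lit 8228656164) (nat_lit 12) (nat_lit 5) (nat_lit 13) (nat_lit 5) (nat_lit 14) (nat_lit 4) (nat_lit 308) (nat_lit 252) (nat_lit 160)) (XT.lf (nat_lit 0) (nat_lit 35997751296) (nat_lit 76) (nat_lit 8921606013) (nat_lit 152) (nat_lit 3304245833) (nat_lit 12) (nat_lit 5) (nat_lit 13) (nat_lit 5) (nat_lit 14) (nat_lit 4) (nat_lit 309) (nat_lit 252) (nat_lit 159)))) (XT.nd (nat_lit 156) (nat_lit 0) (nat_lit 0) (XT.nd (nat_lit 78) (nat_lit 0) (nat_lit 0) (XT.lf (nat_lit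 0) (nat_lit 430744310) (nat_lit 152) (nat_lit 1374634130) (nat_lit 228) (nat_lit 48433435662) (nat_lit 9) (nat_lit 5) (nat_lit 11) (nat_lit 5) (nat_lit 12) (nat_lit 5) (nat_lit 310) (nat_lit 252) (nat_lit 158)) (XT.lf (nat_lit 0) (nat_lit 7364238476) (nat_lit 228) (nat_lit 38373149750) (nat_lit 76) (nat_lit 6599460669) (nat_lit 9) (nat_lit 5) (nat_lit 12) (nat_lit 5) (nat_lit 10) (nat_lit 4) (nat_lit 311) (nat_lit 252) (nat_lit 157))) (XT.nd (nat_lit 78) (nat_lit 0) (nat_lit 0) (XT.lf (nat_lit 0) (nat_lit 13216047856) (nat_lit 228) (nat_lit 26401894614) (nat_lit 76) (nat_lit 14921103713) (nat_lit 9) (nat_lit 5) (nat_lit 12) (nat_lit 5) (nat_lit 10) (nat_lit 4) (nat_lit 312) (nat_lit 252) (nat_lit 156)) (XT.nd (nat_lit 78) (nat_lit 0) (nat_lit 0) (XT.lf (nat_lit 0) (nat_lit 19353277568) (nat_lit 228) (nat_lit 13844339507) (nat_lit 76) (nat_lit 23654105313) (nat_lit 9) (nat_lit 5) (nat_lit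 12) (nat_lit 5) (nat_lit 10) (nat_lit 4) (nat_lit 313) (nat_lit 252) (nat_lit 155)) (XT.lf (nat_lit 0) (nat_lit 25790540065) (nat_lit 228) (nat_lit 670585487) (nat_lit 76) (nat_lit 32819258329) (nat_lit 9) (nat_lit 5) (nat_lit 12) (nat_lit 5) (nat_lit 10) (nat_lit 4) (nat_lit 314) (nat_lit 252) (nat_lit 154)))))) (XT.nd (nat_lit 312) (nat_lit 152) (nat_lit 0) (XT.nd (nat_lit 156) (nat_lit 0) (nat_lit 0) (XT.nd (nat_lit 78) (nat_lit 0) (nat_lit 0) (XT.lf (nat_lit 0) (nat_lit 13585556166) (nat_lit 76) (nat_lit 19169714600) (nat_lit 152) (nat_lit 29064936994) (nat_lit 8) (nat_lit 5) (nat_lit 9) (nat_lit 5) (nat_lit 10) (nat_lit 4) (nat_lit 315) (nat_lit 252) (nat_lit 153)) (XT.lf (nat_lit 0) (nat_lit 28566842807) (nat_lit 76) (nat_lit 11506387195) (nat_lit 152) (nat_lit 24413552340) (nat_lit 8) (nat_lit 5) (nat_lit 9) (nat_lit 5) (nat_lit 10) (nat_lit 4) (nat_lit 316) (nat_lit 252) (nat_lit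 152))) (XT.nd (nat_lit 78) (nat_lit 0) (nat_lit 0) (XT.lf (nat_lit 0) (nat_lit 44286771581) (nat_lit 76) (nat_lit 3464254011) (nat_lit 152) (nat_lit 19535971818) (nat_lit 8) (nat_lit 5) (nat_lit 9) (nat_lit 5) (nat_lit 10) (nat_lit 4) (nat_lit 317) (nat_lit 252) (nat_lit 151)) (XT.lf (nat_lit 0) (nat_lit 55884624696) (nat_lit 152) (nat_lit 9522435948) (nat_lit 0) (nat_lit 4816575162) (nat_lit 8) (nat_lit 5) (nat_lit 10) (nat_lit 4) (nat_lit 8) (nat_lit 4) (nat_lit 318) (nat_lit 252) (nat_lit 150)))) (XT.nd (nat_lit 156) (nat_lit 76) (nat_lit 0) (XT.nd (nat_lit 78) (nat_lit 0) (nat_lit 0) (XT.lf (nat_lit 0) (nat_lit 4713644164) (nat_lit 76) (nat_lit 59836084026) (nat_lit 76) (nat_lit 8751144579) (nat_lit 7) (nat_lit 4) (nat_lit 8) (nat_lit 5) (nat_lit 8) (nat_lit 4) (nat_lit 319) (nat_lit 252) (nat_lit 149)) (XT.lf (nat_lit 0) (nat_lit 19982607532) (nat_lit 76) (nat_lit 53821302727)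 (nat_lit 76) (nat_lit 2720277649) (nat_lit 7) (nat_lit 4) (nat_lit 8) (nat_lit 5) (nat_lit 8) (nat_lit 4) (nat_lit 320) (nat_lit 252) (nat_lit 148))) (XT.nd (nat_lit 78) (nat_lit 0) (nat_lit 0) (XT.lf (nat_lit 0) (nat_lit 3491245485) (nat_lit 152) (nat_lit 43959291481) (nat_lit 76) (nat_lit 32455582674) (nat_lit 6) (nat_lit 5) (nat_lit 8) (nat_lit 5) (nat_lit 7) (nat_lit 4) (nat_lit 321) (nat_lit 252) (nat_lit 147)) (XT.nd (nat_lit 78) (nat_lit 0) (nat_lit 0) (XT.lf (nat_lit 0) (nat_lit 9916900522) (nat_lit 152) (nat_lit 30801288795) (nat_lit 76) (nat_lit 42736986634) (nat_lit 6) (nat_lit 5) (nat_lit 8) (nat_lit 5) (nat_lit 7) (nat_lit 4) (nat_lit 322) (nat_lit 252) (nat_lit 146)) (XT.lf (nat_lit 0) (nat_lit 16659052515) (nat_lit 152) (nat_lit 16993772583) (nat_lit 76) (nat_lit 53529105437) (nat_lit 6) (nat_lit 5) (nat_lit 8) (nat_lit 5) (nat_lit 7) (nat_lit 4) (nat_lit 323) (nat_lit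 252) (nat_lit 145))))))))
noncomputable def xc151 : XT := (XT.nd (nat_lit 1404) (nat_lit 76) (nat_lit 0) (XT.nd (nat_lit 702) (nat_lit 152) (nat_lit 0) (XT.nd (nat_lit 312) (nat_lit 76) (nat_lit 0) (XT.nd (nat_lit 156) (nat_lit 0) (nat_lit 0) (XT.nd (nat_lit 78) (nat_lit 76) (nat_lit 0) (XT.lf (nat_lit 0) (nat_lit 23733754206) (nat_lit 152) (nat_lit 2503867804) (nat_lit 76) (nat_lit 64857634603) (nat_lit 6) (nat_lit 5) (nat_lit 8) (nat_lit 5) (nat_lit 7) (nat_lit 4) (nat_lit 324) (nat_lit 252) (nat_lit 144)) (XT.lf (nat_lit 0) (nat_lit 13122941392) (nat_lit 76) (nat_lit 18239794623) (nat_lit 152) (nat_lit 63831491322) (nat_lit 5) (nat_lit 5) (nat_lit 6) (nat_lit 5) (nat_lit 7) (nat_lit 4) (nat_lit 325) (nat_lit 252) (nat_lit 143))) (XT.nd (nat_lit 78) (nat_lit 0) (nat_lit 0) (XT.lf (nat_lit 0) (nat_lit 29610535476) (nat_lit 76) (nat_lit 9800784651) (nat_lit 152) (nat_lit 60084924136)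 (nat_lit 5) (nat_lit 5) (nat_lit 6) (nat_lit 5) (nat_lit 7) (nat_lit 4) (nat_lit 326) (nat_lit 252) (nat_lit 142)) (XT.lf (nat_lit 0) (nat_lit 46915381448) (nat_lit 76) (nat_lit 942903425) (nat_lit 152) (nat_lit 56155284663) (nat_lit 5) (nat_lit 5) (nat_lit 6) (nat_lit 5) (nat_lit 7) (nat_lit 4) (nat_lit 327) (nat_lit 252) (nat_lit 141)))) (XT.nd (nat_lit 156) (nat_lit 76) (nat_lit 0) (XT.nd (nat_lit 78) (nat_lit 0) (nat_lit 0) (XT.lf (nat_lit 0) (nat_lit 56854186091) (nat_lit 152) (nat_lit 43808721389) (nat_lit 0) (nat_lit 8087529013) (nat_lit 5) (nat_lit 5) (nat_lit 7) (nat_lit 4) (nat_lit 5) (nat_lit 4) (nat_lit 328) (nat_lit 252) (nat_lit 140)) (XT.lf (nat_lit 0) (nat_lit 66311624022) (nat_lit 152) (nat_lit 29876848532) (nat_lit 0) (nat_lit 17535091762) (nat_lit 5) (nat_lit 5) (nat_lit 7) (nat_lit 4) (nat_lit 5) (nat_lit 4) (nat_lit 329) (nat_lit 252) (nat_lit 139))) (XT.nd (nat_lit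 78) (nat_lit 76) (nat_lit 0) (XT.lf (nat_lit 0) (nat_lit 76238395011) (nat_lit 152) (nat_lit 15254677025) (nat_lit 0) (nat_lit 27452457816) (nat_lit 5) (nat_lit 5) (nat_lit 7) (nat_lit 4) (nat_lit 5) (nat_lit 4) (nat_lit 330) (nat_lit 252) (nat_lit 138)) (XT.nd (nat_lit 78) (nat_lit 0) (nat_lit 0) (XT.lf (nat_lit 0) (nat_lit 95669856) (nat_lit 76) (nat_lit 86563958046) (nat_lit 76) (nat_lit 37769063770) (nat_lit 4) (nat_lit 4) (nat_lit 5) (nat_lit 5) (nat_lit 5) (nat_lit 4) (nat_lit 331) (nat_lit 252) (nat_lit 137)) (XT.lf (nat_lit 0) (nat_lit 16737243487) (nat_lit 76) (nat_lit 81119722364) (nat_lit 76) (nat_lit 32316297535) (nat_lit 4) (nat_lit 4) (nat_lit 5) (nat_lit 5) (nat_lit 5) (nat_lit 4) (nat_lit 332) (nat_lit 252) (nat_lit 136)))))) (XT.nd (nat_lit 312) (nat_lit 152) (nat_lit 0) (XT.nd (nat_lit 156) (nat_lit 0) (nat_lit 0) (XT.nd (nat_lit 78) (nat_lit 0) (nat_lit 0) (XT.lf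 (nat_lit 0) (nat_lit 34205278147) (nat_lit 76) (nat_lit 75405747862) (nat_lit 76) (nat_lit 26594198696) (nat_lit 4) (nat_lit 4) (nat_lit 5) (nat_lit 5) (nat_lit 5) (nat_lit 4) (nat_lit 333) (nat_lit 252) (nat_lit 135)) (XT.lf (nat_lit 0) (nat_lit 52541364395) (nat_lit 76) (nat_lit 69408429839) (nat_lit 76) (nat_lit 20589143209) (nat_lit 4) (nat_lit 4) (nat_lit 5) (nat_lit 5) (nat_lit 5) (nat_lit 4) (nat_lit 334) (nat_lit 252) (nat_lit 134))) (XT.nd (nat_lit 78) (nat_lit 0) (nat_lit 0) (XT.lf (nat_lit 0) (nat_lit 71789159578) (nat_lit 76) (nat_lit 63113488966) (nat_lit 76) (nat_lit 14286833323) (nat_lit 4) (nat_lit 4) (nat_lit 5) (nat_lit 5) (nat_lit 5) (nat_lit 4) (nat_lit 335) (nat_lit 252) (nat_lit 133)) (XT.lf (nat_lit 0) (nat_lit 91994491781) (nat_lit 76) (nat_lit 56505937288) (nat_lit 76) (nat_lit 7672263538) (nat_lit 4) (nat_lit 4) (nat_lit 5) (nat_lit 5) (nat_lit 5) (nat_lit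 4) (nat_lit 336) (nat_lit 252) (nat_lit 132)))) (XT.nd (nat_lit 156) (nat_lit 76) (nat_lit 0) (XT.nd (nat_lit 78) (nat_lit 76) (nat_lit 0) (XT.lf (nat_lit 0) (nat_lit 113205468938) (nat_lit 76) (nat_lit 49570042539) (nat_lit 76) (nat_lit 729684878) (nat_lit 4) (nat_lit 4) (nat_lit 5) (nat_lit 5) (nat_lit 5) (nat_lit 4) (nat_lit 337) (nat_lit 252) (nat_lit 131)) (XT.lf (nat_lit 0) (nat_lit 6347553810) (nat_lit 152) (nat_lit 35834237980) (nat_lit 76) (nat_lit 129017540669) (nat_lit 3) (nat_lit 5) (nat_lit 5) (nat_lit 5) (nat_lit 4) (nat_lit 4) (nat_lit 338) (nat_lit 252) (nat_lit 130))) (XT.nd (nat_lit 78) (nat_lit 76) (nat_lit 0) (XT.lf (nat_lit 0) (nat_lit 13751744418) (nat_lit 152) (nat_lit 20661709739) (nat_lit 76) (nat_lit 144864245190) (nat_lit 3) (nat_lit 5) (nat_lit 5) (nat_lit 5) (nat_lit 4) (nat_lit 4) (nat_lit 339) (nat_lit 252) (nat_lit 129)) (XT.nd (nat_lit 78) (nat_lit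 76) (nat_lit 0) (XT.lf (nat_lit 0) (nat_lit 21523870443) (nat_lit 152) (nat_lit 4734625201) (nat_lit 76) (nat_lit 161501605202) (nat_lit 3) (nat_lit 5) (nat_lit 5) (nat_lit 5) (nat_lit 4) (nat_lit 4) (nat_lit 340) (nat_lit 252) (nat_lit 128)) (XT.lf (nat_lit 0) (nat_lit 12381213415) (nat_lit 76) (nat_lit 17494528973) (nat_lit 152) (nat_lit 166781325492) (nat_lit 2) (nat_lit 5) (nat_lit 3) (nat_lit 5) (nat_lit 4) (nat_lit 4) (nat_lit 341) (nat_lit 252) (nat_lit 127))))))) (XT.nd (nat_lit 702) (nat_lit 76) (nat_lit 0) (XT.nd (nat_lit 312) (nat_lit 0) (nat_lit 0) (XT.nd (nat_lit 156) (nat_lit 0) (nat_lit 0) (XT.nd (nat_lit 78) (nat_lit 0) (nat_lit 0) (XT.lf (nat_lit 0) (nat_lit 30513405678) (nat_lit 76) (nat_lit 8209863189) (nat_lit 152) (nat_lit 167271713675) (nat_lit 2) (nat_lit 5) (nat_lit 3) (nat_lit 5) (nat_lit 4) (nat_lit 4) (nat_lit 342) (nat_lit 252) (nat_lit 126)) (XT.lf (nat_lit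 0) (nat_lit 48035154010) (nat_lit 152) (nat_lit 166275324337) (nat_lit 0) (nat_lit 1488217687) (nat_lit 2) (nat_lit 5) (nat_lit 4) (nat_lit 4) (nat_lit 2) (nat_lit 4) (nat_lit 343) (nat_lit 252) (nat_lit 125))) (XT.nd (nat_lit 78) (nat_lit 0) (nat_lit 0) (XT.lf (nat_lit 0) (nat_lit 57945272450) (nat_lit 152) (nat_lit 156746880713) (nat_lit 0) (nat_lit 11393812192) (nat_lit 2) (nat_lit 5) (nat_lit 4) (nat_lit 4) (nat_lit 2) (nat_lit 4) (nat_lit 344) (nat_lit 252) (nat_lit 124)) (XT.lf (nat_lit 0) (nat_lit 68349040736) (nat_lit 152) (nat_lit 146745380251) (nat_lit 0) (nat_lit 21793271968) (nat_lit 2) (nat_lit 5) (nat_lit 4) (nat_lit 4) (nat_lit 2) (nat_lit 4) (nat_lit 345) (nat_lit 252) (nat_lit 123)))) (XT.nd (nat_lit 156) (nat_lit 0) (nat_lit 0) (XT.nd (nat_lit 78) (nat_lit 0) (nat_lit 0) (XT.lf (nat_lit 0) (nat_lit 79271229743) (nat_lit 152) (nat_lit 136247009855) (nat_lit 0) (nat_lit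 32711357633) (nat_lit 2) (nat_lit 5) (nat_lit 4) (nat_lit 4) (nat_lit 2) (nat_lit 4) (nat_lit 346) (nat_lit 252) (nat_lit 122)) (XT.lf (nat_lit 0) (nat_lit 90737844684) (nat_lit 152) (nat_lit 125226773403) (nat_lit 0) (nat_lit 44174064629) (nat_lit 2) (nat_lit 5) (nat_lit 4) (nat_lit 4) (nat_lit 2) (nat_lit 4) (nat_lit 347) (nat_lit 252) (nat_lit 121))) (XT.nd (nat_lit 78) (nat_lit 0) (nat_lit 0) (XT.lf (nat_lit 0) (nat_lit 102776187023) (nat_lit 152) (nat_lit 113658432239) (nat_lit 0) (nat_lit 56208685117) (nat_lit 2) (nat_lit 5) (nat_lit 4) (nat_lit 4) (nat_lit 2) (nat_lit 4) (nat_lit 348) (nat_lit 252) (nat_lit 120)) (XT.nd (nat_lit 78) (nat_lit 0) (nat_lit 0) (XT.lf (nat_lit 0) (nat_lit 115414919480) (nat_lit 152) (nat_lit 101514442692) (nat_lit 0) (nat_lit 68843872953) (nat_lit 2) (nat_lit 5) (nat_lit 4) (nat_lit 4) (nat_lit 2) (nat_lit 4) (nat_lit 349) (nat_lit 252) (nat_lit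 119)) (XT.lf (nat_lit 0) (nat_lit 128684134276) (nat_lit 152) (nat_lit 88765890501) (nat_lit 0) (nat_lit 82109711918) (nat_lit 2) (nat_lit 5) (nat_lit 4) (nat_lit 4) (nat_lit 2) (nat_lit 4) (nat_lit 350) (nat_lit 252) (nat_lit 118)))))) (XT.nd (nat_lit 390) (nat_lit 76) (nat_lit 0) (XT.nd (nat_lit 156) (nat_lit 0) (nat_lit 0) (XT.nd (nat_lit 78) (nat_lit 0) (nat_lit 0) (XT.lf (nat_lit 0) (nat_lit 142615424778) (nat_lit 152) (nat_lit 75382421972) (nat_lit 0) (nat_lit 96037787344) (nat_lit 2) (nat_lit 5) (nat_lit 4) (nat_lit 4) (nat_lit 2) (nat_lit 4) (nat_lit 351) (nat_lit 252) (nat_lit 117)) (XT.lf (nat_lit 0) (nat_lit 157241960726) (nat_lit 152) (nat_lit 61332171702) (nat_lit 0) (nat_lit 110661261315) (nat_lit 2) (nat_lit 5) (nat_lit 4) (nat_lit 4) (nat_lit 2) (nat_lit 4) (nat_lit 352) (nat_lit 252) (nat_lit 116))) (XT.nd (nat_lit 78) (nat_lit 0) (nat_lit 0) (XT.lf (nat_lit 0) (nat_lit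 172598567205) (nat_lit 152) (nat_lit 46581686715) (nat_lit 0) (nat_lit 126014951626) (nat_lit 2) (nat_lit 5) (nat_lit 4) (nat_lit 4) (nat_lit 2) (nat_lit 4) (nat_lit 353) (nat_lit 252) (nat_lit 115)) (XT.nd (nat_lit 78) (nat_lit 0) (nat_lit 0) (XT.lf (nat_lit 0) (nat_lit 188721807565) (nat_lit 152) (nat_lit 31095846809) (nat_lit 0) (nat_lit 142135414683) (nat_lit 2) (nat_lit 5) (nat_lit 4) (nat_lit 4) (nat_lit 2) (nat_lit 4) (nat_lit 354) (nat_lit 252) (nat_lit 114)) (XT.lf (nat_lit 0) (nat_lit 205650070472) (nat_lit 152) (nat_lit 14837780936) (nat_lit 0) (nat_lit 159061032539) (nat_lit 2) (nat_lit 5) (nat_lit 4) (nat_lit 4) (nat_lit 2) (nat_lit 4) (nat_lit 355) (nat_lit 252) (nat_lit 113))))) (XT.nd (nat_lit 156) (nat_lit 0) (nat_lit 0) (XT.nd (nat_lit 78) (nat_lit 0) (nat_lit 0) (XT.lf (nat_lit 0) (nat_lit 2304994813) (nat_lit 76) (nat_lit 221154653932) (nat_lit 76) (nat_lit 174563096902)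 (nat_lit 1) (nat_lit 4) (nat_lit 2) (nat_lit 5) (nat_lit 2) (nat_lit 4) (nat_lit 356) (nat_lit 252) (nat_lit 112)) (XT.lf (nat_lit 0) (nat_lit 20818107689) (nat_lit 76) (nat_lit 221591819482) (nat_lit 76) (nat_lit 174997863314) (nat_lit 1) (nat_lit 4) (nat_lit 2) (nat_lit 5) (nat_lit 2) (nat_lit 4) (nat_lit 357) (nat_lit 252) (nat_lit 111))) (XT.nd (nat_lit 78) (nat_lit 0) (nat_lit 0) (XT.lf (nat_lit 0) (nat_lit 40255032486) (nat_lit 76) (nat_lit 222051673932) (nat_lit 76) (nat_lit 175455432869) (nat_lit 1) (nat_lit 4) (nat_lit 2) (nat_lit 5) (nat_lit 2) (nat_lit 4) (nat_lit 358) (nat_lit 252) (nat_lit 110)) (XT.nd (nat_lit 78) (nat_lit 0) (nat_lit 0) (XT.lf (nat_lit 0) (nat_lit 60662047595) (nat_lit 76) (nat_lit 222535312171) (nat_lit 76) (nat_lit 175936895018) (nat_lit 1) (nat_lit 4) (nat_lit 2) (nat_lit 5) (nat_lit 2) (nat_lit 4) (nat_lit 359) (nat_lit 252) (nat_lit 109)) (XT.lf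 (nat_lit 0) (nat_lit 82087741148) (nat_lit 76) (nat_lit 223043885720) (nat_lit 76) (nat_lit 176443396101) (nat_lit 1) (nat_lit 4) (nat_lit 2) (nat_lit 5) (nat_lit 2) (nat_lit 4) (nat_lit 360) (nat_lit 252) (nat_lit 108))))))))
noncomputable def xc152 : XT := (XT.nd (nat_lit 30420) (nat_lit 0) (nat_lit 2204) (XT.nd (nat_lit 29718) (nat_lit 0) (nat_lit 4408) (XT.nd (nat_lit 29328) (nat_lit 0) (nat_lit 5852) (XT.nd (nat_lit 29172) (nat_lit 0) (nat_lit 6460) (XT.nd (nat_lit 29094) (nat_lit 0) (nat_lit 6460) (XT.lf (nat_lit 0) (nat_lit 104583126700) (nat_lit 76) (nat_lit 223578605468) (nat_lit 76) (nat_lit 176976142071) (nat_lit 1) (nat_lit 4) (nat_lit 2) (nat_lit 5) (nat_lit 2) (nat_lit 4) (nat_lit 361) (nat_lit 252) (nat_lit 107)) (XT.lf (nat_lit 0) (nat_lit 1480395042) (nat_lit 0) (nat_lit 1480395042) (nat_lit 532) (nat_lit 1269495674) (nat_lit 86) (nat_lit 5) (nat_lit 86) (nat_lit 3)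 (nat_lit 93) (nat_lit 3) (nat_lit 253) (nat_lit 253) (nat_lit 214))) (XT.nd (nat_lit 78) (nat_lit 0) (nat_lit 0) (XT.lf (nat_lit 0) (nat_lit 6752047613) (nat_lit 0) (nat_lit 254912760) (nat_lit 532) (nat_lit 1614331008) (nat_lit 86) (nat_lit 5) (nat_lit 86) (nat_lit 3) (nat_lit 93) (nat_lit 3) (nat_lit 254) (nat_lit 253) (nat_lit 213)) (XT.lf (nat_lit 76) (nat_lit 1930509778) (nat_lit 0) (nat_lit 6227086102) (nat_lit 608) (nat_lit 632153443) (nat_lit 87) (nat_lit 5) (nat_lit 86) (nat_lit 5) (nat_lit 94) (nat_lit 5) (nat_lit 255) (nat_lit 253) (nat_lit 212)))) (XT.nd (nat_lit 156) (nat_lit 0) (nat_lit 76) (XT.nd (nat_lit 78) (nat_lit 0) (nat_lit 0) (XT.lf (nat_lit 0) (nat_lit 364326729) (nat_lit 608) (nat_lit 3026165134) (nat_lit 684) (nat_lit 5577156325) (nat_lit 78) (nat_lit 5) (nat_lit 86) (nat_lit 5) (nat_lit 87) (nat_lit 5) (nat_lit 256) (nat_lit 253) (nat_lit 211)) (XT.lf (nat_lit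 76) (nat_lit 986108819) (nat_lit 0) (nat_lit 363067870) (nat_lit 684) (nat_lit 7806974807) (nat_lit 79) (nat_lit 5) (nat_lit 78) (nat_lit 5) (nat_lit 87) (nat_lit 5) (nat_lit 257) (nat_lit 253) (nat_lit 210))) (XT.nd (nat_lit 78) (nat_lit 0) (nat_lit 0) (XT.lf (nat_lit 0) (nat_lit 2426163528) (nat_lit 608) (nat_lit 4128569331) (nat_lit 684) (nat_lit 2797409220) (nat_lit 79) (nat_lit 5) (nat_lit 87) (nat_lit 5) (nat_lit 88) (nat_lit 5) (nat_lit 258) (nat_lit 253) (nat_lit 209)) (XT.nd (nat_lit 78) (nat_lit 0) (nat_lit 0) (XT.lf (nat_lit 76) (nat_lit 76907875) (nat_lit 0) (nat_lit 3436619045) (nat_lit 684) (nat_lit 6046775890) (nat_lit 80) (nat_lit 5) (nat_lit 79) (nat_lit 5) (nat_lit 88) (nat_lit 5) (nat_lit 259) (nat_lit 253) (nat_lit 208)) (XT.lf (nat_lit 76) (nat_lit 4601971870) (nat_lit 0) (nat_lit 74460026) (nat_lit 684) (nat_lit 5101568612) (nat_lit 80) (nat_lit 5) (nat_lit 79)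 (nat_lit 5) (nat_lit 88) (nat_lit 5) (nat_lit 260) (nat_lit 253) (nat_lit 207)))))) (XT.nd (nat_lit 312) (nat_lit 1064) (nat_lit 0) (XT.nd (nat_lit 156) (nat_lit 532) (nat_lit 0) (XT.nd (nat_lit 78) (nat_lit 0) (nat_lit 0) (XT.lf (nat_lit 0) (nat_lit 5905231221) (nat_lit 608) (nat_lit 742369293) (nat_lit 684) (nat_lit 3358773788) (nat_lit 80) (nat_lit 5) (nat_lit 88) (nat_lit 5) (nat_lit 89) (nat_lit 5) (nat_lit 261) (nat_lit 253) (nat_lit 206)) (XT.lf (nat_lit 76) (nat_lit 4006538584) (nat_lit 0) (nat_lit 3208700419) (nat_lit 684) (nat_lit 3030109516) (nat_lit 81) (nat_lit 5) (nat_lit 80) (nat_lit 5) (nat_lit 89) (nat_lit 5) (nat_lit 262) (nat_lit 253) (nat_lit 205))) (XT.nd (nat_lit 78) (nat_lit 608) (nat_lit 0) (XT.lf (nat_lit 0) (nat_lit 8567529072) (nat_lit 608) (nat_lit 1518802651) (nat_lit 76) (nat_lit 411262686) (nat_lit 81) (nat_lit 5) (nat_lit 89) (nat_lit 5) (nat_lit 82)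 (nat_lit 5) (nat_lit 263) (nat_lit 253) (nat_lit 204)) (XT.lf (nat_lit 0) (nat_lit 3461743276) (nat_lit 608) (nat_lit 6592077435) (nat_lit 684) (nat_lit 705466867) (nat_lit 73) (nat_lit 5) (nat_lit 81) (nat_lit 5) (nat_lit 82) (nat_lit 5) (nat_lit 264) (nat_lit 253) (nat_lit 203)))) (XT.nd (nat_lit 156) (nat_lit 304) (nat_lit 0) (XT.nd (nat_lit 78) (nat_lit 684) (nat_lit 0) (XT.lf (nat_lit 0) (nat_lit 548288430) (nat_lit 684) (nat_lit 2332781487) (nat_lit 76) (nat_lit 8153357323) (nat_lit 72) (nat_lit 5) (nat_lit 81) (nat_lit 5) (nat_lit 73) (nat_lit 5) (nat_lit 265) (nat_lit 253) (nat_lit 202)) (XT.lf (nat_lit 0) (nat_lit 1865876771) (nat_lit 760) (nat_lit 8409851936) (nat_lit 76) (nat_lit 1045907569) (nat_lit 63) (nat_lit 5) (nat_lit 73) (nat_lit 5) (nat_lit 64) (nat_lit 5) (nat_lit 266) (nat_lit 253) (nat_lit 201))) (XT.nd (nat_lit 78) (nat_lit 304) (nat_lit 0) (XT.lf (nat_lit 0)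 (nat_lit 3300331776) (nat_lit 760) (nat_lit 3203943403) (nat_lit 76) (nat_lit 5116508197) (nat_lit 63) (nat_lit 5) (nat_lit 73) (nat_lit 5) (nat_lit 64) (nat_lit 5) (nat_lit 267) (nat_lit 253) (nat_lit 200)) (XT.nd (nat_lit 78) (nat_lit 0) (nat_lit 0) (XT.lf (nat_lit 0) (nat_lit 2303213940) (nat_lit 304) (nat_lit 2504590603) (nat_lit 380) (nat_lit 7127139467) (nat_lit 59) (nat_lit 5) (nat_lit 63) (nat_lit 5) (nat_lit 64) (nat_lit 5) (nat_lit 268) (nat_lit 253) (nat_lit 199)) (XT.lf (nat_lit 0) (nat_lit 6438768527) (nat_lit 380) (nat_lit 4126537702) (nat_lit 76) (nat_lit 1697215738) (nat_lit 59) (nat_lit 5) (nat_lit 64) (nat_lit 5) (nat_lit 60) (nat_lit 5) (nat_lit 269) (nat_lit 253) (nat_lit 198))))))) (XT.nd (nat_lit 702) (nat_lit 912) (nat_lit 0) (XT.nd (nat_lit 312) (nat_lit 532) (nat_lit 0) (XT.nd (nat_lit 156) (nat_lit 380) (nat_lit 0) (XT.nd (nat_lit 78) (nat_lit 0) (nat_lit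 0) (XT.lf (nat_lit 0) (nat_lit 1632686404) (nat_lit 380) (nat_lit 6553241894) (nat_lit 456) (nat_lit 4418927830) (nat_lit 54) (nat_lit 5) (nat_lit 59) (nat_lit 5) (nat_lit 60) (nat_lit 5) (nat_lit 270) (nat_lit 253) (nat_lit 197)) (XT.lf (nat_lit 0) (nat_lit 7791233593) (nat_lit 380) (nat_lit 2268216356) (nat_lit 456) (nat_lit 2903011316) (nat_lit 54) (nat_lit 5) (nat_lit 59) (nat_lit 5) (nat_lit 60) (nat_lit 5) (nat_lit 271) (nat_lit 253) (nat_lit 196))) (XT.nd (nat_lit 78) (nat_lit 76) (nat_lit 0) (XT.lf (nat_lit 0) (nat_lit 881194224) (nat_lit 304) (nat_lit 11164618797) (nat_lit 380) (nat_lit 1291274859) (nat_lit 50) (nat_lit 5) (nat_lit 54) (nat_lit 5) (nat_lit 55) (nat_lit 5) (nat_lit 272) (nat_lit 253) (nat_lit 195)) (XT.lf (nat_lit 0) (nat_lit 485334943) (nat_lit 380) (nat_lit 6387651765) (nat_lit 76) (nat_lit 6852380153) (nat_lit 49) (nat_lit 5) (nat_lit 54) (nat_lit 5) (nat_lit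 50) (nat_lit 5) (nat_lit 273) (nat_lit 253) (nat_lit 194)))) (XT.nd (nat_lit 156) (nat_lit 228) (nat_lit 0) (XT.nd (nat_lit 78) (nat_lit 304) (nat_lit 0) (XT.lf (nat_lit 0) (nat_lit 2279690190) (nat_lit 380) (nat_lit 68094132) (nat_lit 76) (nat_lit 11785687479) (nat_lit 49) (nat_lit 5) (nat_lit 54) (nat_lit 5) (nat_lit 50) (nat_lit 5) (nat_lit 274) (nat_lit 253) (nat_lit 193)) (XT.lf (nat_lit 0) (nat_lit 4282052118) (nat_lit 380) (nat_lit 7843156959) (nat_lit 76) (nat_lit 2430940311) (nat_lit 45) (nat_lit 5) (nat_lit 50) (nat_lit 5) (nat_lit 46) (nat_lit 5) (nat_lit 275) (nat_lit 253) (nat_lit 192))) (XT.nd (nat_lit 78) (nat_lit 228) (nat_lit 0) (XT.lf (nat_lit 0) (nat_lit 6398571373) (nat_lit 380) (nat_lit 1233196116) (nat_lit 76) (nat_lit 7367569356) (nat_lit 45) (nat_lit 5) (nat_lit 50) (nat_lit 5) (nat_lit 46) (nat_lit 5) (nat_lit 276) (nat_lit 253) (nat_lit 191)) (XT.nd (nat_lit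 78) (nat_lit 0) (nat_lit 0) (XT.lf (nat_lit 0) (nat_lit 5866175945) (nat_lit 228) (nat_lit 2821926998) (nat_lit 304) (nat_lit 6773295654) (nat_lit 42) (nat_lit 5) (nat_lit 45) (nat_lit 5) (nat_lit 46) (nat_lit 5) (nat_lit 277) (nat_lit 253) (nat_lit 190)) (XT.lf (nat_lit 0) (nat_lit 11124374447) (nat_lit 304) (nat_lit 2646880273) (nat_lit 76) (nat_lit 2173766254) (nat_lit 42) (nat_lit 5) (nat_lit 46) (nat_lit 5) (nat_lit 43) (nat_lit 5) (nat_lit 278) (nat_lit 253) (nat_lit 189)))))) (XT.nd (nat_lit 312) (nat_lit 380) (nat_lit 0) (XT.nd (nat_lit 156) (nat_lit 304) (nat_lit 0) (XT.nd (nat_lit 78) (nat_lit 0) (nat_lit 0) (XT.lf (nat_lit 0) (nat_lit 4725720762) (nat_lit 228) (nat_lit 9054157371) (nat_lit 304) (nat_lit 2668142744) (nat_lit 39) (nat_lit 5) (nat_lit 42) (nat_lit 5) (nat_lit 43) (nat_lit 5) (nat_lit 279) (nat_lit 253) (nat_lit 188)) (XT.lf (nat_lit 0) (nat_lit 12531149644)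 (nat_lit 228) (nat_lit 4059854256) (nat_lit 304) (nat_lit 384088662) (nat_lit 39) (nat_lit 5) (nat_lit 42) (nat_lit 5) (nat_lit 43) (nat_lit 5) (nat_lit 280) (nat_lit 253) (nat_lit 187))) (XT.nd (nat_lit 78) (nat_lit 0) (nat_lit 0) (XT.lf (nat_lit 0) (nat_lit 1998751437) (nat_lit 304) (nat_lit 14301722721) (nat_lit 76) (nat_lit 1224077037) (nat_lit 35) (nat_lit 5) (nat_lit 39) (nat_lit 5) (nat_lit 36) (nat_lit 5) (nat_lit 281) (nat_lit 253) (nat_lit 186)) (XT.lf (nat_lit 0) (nat_lit 4610045664) (nat_lit 304) (nat_lit 6772284878) (nat_lit 76) (nat_lit 6712781789) (nat_lit 35) (nat_lit 5) (nat_lit 39) (nat_lit 5) (nat_lit 36) (nat_lit 5) (nat_lit 282) (nat_lit 253) (nat_lit 185)))) (XT.nd (nat_lit 156) (nat_lit 152) (nat_lit 0) (XT.nd (nat_lit 78) (nat_lit 0) (nat_lit 0) (XT.lf (nat_lit 0) (nat_lit 1143852482) (nat_lit 228) (nat_lit 6206073655) (nat_lit 304) (nat_lit 11344427071) (nat_lit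 32) (nat_lit 5) (nat_lit 35) (nat_lit 5) (nat_lit 36) (nat_lit 5) (nat_lit 283) (nat_lit 253) (nat_lit 184)) (XT.lf (nat_lit 0) (nat_lit 9664957881) (nat_lit 228) (nat_lit 657236830) (nat_lit 304) (nat_lit 8996641962) (nat_lit 32) (nat_lit 5) (nat_lit 35) (nat_lit 5) (nat_lit 36) (nat_lit 5) (nat_lit 284) (nat_lit 253) (nat_lit 183))) (XT.nd (nat_lit 78) (nat_lit 152) (nat_lit 0) (XT.lf (nat_lit 0) (nat_lit 13505302023) (nat_lit 304) (nat_lit 1468717977) (nat_lit 76) (nat_lit 4997460902) (nat_lit 32) (nat_lit 5) (nat_lit 36) (nat_lit 5) (nat_lit 33) (nat_lit 5) (nat_lit 285) (nat_lit 253) (nat_lit 182)) (XT.nd (nat_lit 78) (nat_lit 0) (nat_lit 0) (XT.lf (nat_lit 0) (nat_lit 7325001844) (nat_lit 152) (nat_lit 9630103017) (nat_lit 228) (nat_lit 3696321049) (nat_lit 30) (nat_lit 5) (nat_lit 32) (nat_lit 5) (nat_lit 33) (nat_lit 5) (nat_lit 286) (nat_lit 253) (nat_lit 181)) (XT.lf (nat_lit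 0) (nat_lit 16585420838) (nat_lit 152) (nat_lit 3999716081) (nat_lit 228) (nat_lit 779887704) (nat_lit 30) (nat_lit 5) (nat_lit 32) (nat_lit 5) (nat_lit 33) (nat_lit 5) (nat_lit 287) (nat_lit 253) (nat_lit 180))))))))
noncomputable def xc153 : XT := (XT.nd (nat_lit 1404) (nat_lit 532) (nat_lit 0) (XT.nd (nat_lit 702) (nat_lit 456) (nat_lit 0) (XT.nd (nat_lit 312) (nat_lit 380) (nat_lit 0) (XT.nd (nat_lit 156) (nat_lit 152) (nat_lit 0) (XT.nd (nat_lit 78) (nat_lit 0) (nat_lit 0) (XT.lf (nat_lit 0) (nat_lit 2290819045) (nat_lit 304) (nat_lit 17869246379) (nat_lit 76) (nat_lit 1948420421) (nat_lit 26) (nat_lit 5) (nat_lit 30) (nat_lit 5) (nat_lit 27) (nat_lit 5) (nat_lit 288) (nat_lit 253) (nat_lit 179)) (XT.lf (nat_lit 0) (nat_lit 5620391690) (nat_lit 304) (nat_lit 9113579182) (nat_lit 76) (nat_lit 8147970508) (nat_lit 26) (nat_lit 5) (nat_lit 30) (nat_lit 5) (nat_lit 27) (nat_lit 5)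 (nat_lit 289) (nat_lit 253) (nat_lit 178))) (XT.nd (nat_lit 78) (nat_lit 0) (nat_lit 0) (XT.lf (nat_lit 0) (nat_lit 59108841) (nat_lit 152) (nat_lit 9042732134) (nat_lit 228) (nat_lit 14592994524) (nat_lit 24) (nat_lit 5) (nat_lit 26) (nat_lit 5) (nat_lit 27) (nat_lit 5) (nat_lit 290) (nat_lit 253) (nat_lit 177)) (XT.lf (nat_lit 0) (nat_lit 9984545167) (nat_lit 152) (nat_lit 2912026873) (nat_lit 228) (nat_lit 11644875831) (nat_lit 24) (nat_lit 5) (nat_lit 26) (nat_lit 5) (nat_lit 27) (nat_lit 5) (nat_lit 291) (nat_lit 253) (nat_lit 176)))) (XT.nd (nat_lit 156) (nat_lit 228) (nat_lit 0) (XT.nd (nat_lit 78) (nat_lit 152) (nat_lit 0) (XT.lf (nat_lit 0) (nat_lit 16921558812) (nat_lit 228) (nat_lit 5101050268) (nat_lit 76) (nat_lit 3405788214) (nat_lit 24) (nat_lit 5) (nat_lit 27) (nat_lit 5) (nat_lit 25) (nat_lit 5) (nat_lit 292) (nat_lit 253) (nat_lit 175)) (XT.lf (nat_lit 0) (nat_lit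 4916378852) (nat_lit 152) (nat_lit 16342084751) (nat_lit 228) (nat_lit 5095727997) (nat_lit 22) (nat_lit 5) (nat_lit 24) (nat_lit 5) (nat_lit 25) (nat_lit 5) (nat_lit 293) (nat_lit 253) (nat_lit 174))) (XT.nd (nat_lit 78) (nat_lit 228) (nat_lit 0) (XT.lf (nat_lit 0) (nat_lit 15591279766) (nat_lit 152) (nat_lit 10293833171) (nat_lit 228) (nat_lit 1437547100) (nat_lit 22) (nat_lit 5) (nat_lit 24) (nat_lit 5) (nat_lit 25) (nat_lit 5) (nat_lit 294) (nat_lit 253) (nat_lit 173)) (XT.nd (nat_lit 78) (nat_lit 152) (nat_lit 0) (XT.lf (nat_lit 0) (nat_lit 2313529669) (nat_lit 228) (nat_lit 1597132081) (nat_lit 76) (nat_lit 24427694732) (nat_lit 21) (nat_lit 5) (nat_lit 24) (nat_lit 5) (nat_lit 22) (nat_lit 5) (nat_lit 295) (nat_lit 253) (nat_lit 172)) (XT.lf (nat_lit 0) (nat_lit 6382818346) (nat_lit 228) (nat_lit 20144443265) (nat_lit 76) (nat_lit 2867474744) (nat_lit 19) (nat_lit 5) (nat_lit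 22) (nat_lit 5) (nat_lit 20) (nat_lit 5) (nat_lit 296) (nat_lit 253) (nat_lit 171)))))) (XT.nd (nat_lit 312) (nat_lit 304) (nat_lit 0) (XT.nd (nat_lit 156) (nat_lit 0) (nat_lit 0) (XT.nd (nat_lit 78) (nat_lit 152) (nat_lit 0) (XT.lf (nat_lit 0) (nat_lit 10734909262) (nat_lit 228) (nat_lit 9890848397) (nat_lit 76) (nat_lit 9874234844) (nat_lit 19) (nat_lit 5) (nat_lit 22) (nat_lit 5) (nat_lit 20) (nat_lit 5) (nat_lit 297) (nat_lit 253) (nat_lit 170)) (XT.lf (nat_lit 0) (nat_lit 885430960) (nat_lit 152) (nat_lit 14421318754) (nat_lit 228) (nat_lit 16353677513) (nat_lit 17) (nat_lit 5) (nat_lit 19) (nat_lit 5) (nat_lit 20) (nat_lit 5) (nat_lit 298) (nat_lit 253) (nat_lit 169))) (XT.nd (nat_lit 78) (nat_lit 0) (nat_lit 0) (XT.lf (nat_lit 0) (nat_lit 12525873354) (nat_lit 152) (nat_lit 7737410581) (nat_lit 228) (nat_lit 12607816590) (nat_lit 17) (nat_lit 5) (nat_lit 19) (nat_lit 5) (nat_lit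 20) (nat_lit 5) (nat_lit 299) (nat_lit 253) (nat_lit 168)) (XT.lf (nat_lit 0) (nat_lit 24731158006) (nat_lit 152) (nat_lit 725625376) (nat_lit 228) (nat_lit 8686088058) (nat_lit 17) (nat_lit 5) (nat_lit 19) (nat_lit 5) (nat_lit 20) (nat_lit 5) (nat_lit 300) (nat_lit 253) (nat_lit 167)))) (XT.nd (nat_lit 156) (nat_lit 152) (nat_lit 0) (XT.nd (nat_lit 78) (nat_lit 76) (nat_lit 0) (XT.lf (nat_lit 0) (nat_lit 2012464237) (nat_lit 76) (nat_lit 29022093803) (nat_lit 152) (nat_lit 4437462734) (nat_lit 16) (nat_lit 5) (nat_lit 17) (nat_lit 5) (nat_lit 18) (nat_lit 4) (nat_lit 301) (nat_lit 253) (nat_lit 166)) (XT.lf (nat_lit 0) (nat_lit 186354269) (nat_lit 152) (nat_lit 22556825874) (nat_lit 76) (nat_lit 14116271272) (nat_lit 15) (nat_lit 5) (nat_lit 17) (nat_lit 5) (nat_lit 16) (nat_lit 5) (nat_lit 302) (nat_lit 253) (nat_lit 165))) (XT.nd (nat_lit 78) (nat_lit 152) (nat_lit 0) (XT.lf (nat_lit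 0) (nat_lit 4882343957) (nat_lit 152) (nat_lit 11197794712) (nat_lit 76) (nat_lit 22232989348) (nat_lit 15) (nat_lit 5) (nat_lit 17) (nat_lit 5) (nat_lit 16) (nat_lit 5) (nat_lit 303) (nat_lit 253) (nat_lit 164)) (XT.nd (nat_lit 78) (nat_lit 0) (nat_lit 0) (XT.lf (nat_lit 0) (nat_lit 737467042) (nat_lit 152) (nat_lit 9077760662) (nat_lit 228) (nat_lit 30024172375) (nat_lit 13) (nat_lit 5) (nat_lit 15) (nat_lit 5) (nat_lit 16) (nat_lit 5) (nat_lit 304) (nat_lit 253) (nat_lit 163)) (XT.lf (nat_lit 0) (nat_lit 13643176684) (nat_lit 152) (nat_lit 1532012814) (nat_lit 228) (nat_lit 26257790134) (nat_lit 13) (nat_lit 5) (nat_lit 15) (nat_lit 5) (nat_lit 16) (nat_lit 5) (nat_lit 305) (nat_lit 253) (nat_lit 162))))))) (XT.nd (nat_lit 702) (nat_lit 228) (nat_lit 0) (XT.nd (nat_lit 312) (nat_lit 228) (nat_lit 0) (XT.nd (nat_lit 156) (nat_lit 76) (nat_lit 0) (XT.nd (nat_lit 78) (nat_lit 0) (nat_lit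 0) (XT.lf (nat_lit 0) (nat_lit 20894076032) (nat_lit 228) (nat_lit 16026573434) (nat_lit 76) (nat_lit 6181057202) (nat_lit 13) (nat_lit 5) (nat_lit 16) (nat_lit 5) (nat_lit 14) (nat_lit 4) (nat_lit 306) (nat_lit 253) (nat_lit 161)) (XT.lf (nat_lit 0) (nat_lit 26915588408) (nat_lit 228) (nat_lit 3714321511) (nat_lit 76) (nat_lit 14223140193) (nat_lit 13) (nat_lit 5) (nat_lit 16) (nat_lit 5) (nat_lit 14) (nat_lit 4) (nat_lit 307) (nat_lit 253) (nat_lit 160))) (XT.nd (nat_lit 78) (nat_lit 0) (nat_lit 0) (XT.lf (nat_lit 0) (nat_lit 9504386440) (nat_lit 76) (nat_lit 23874148215) (nat_lit 152) (nat_lit 13306421620) (nat_lit 12) (nat_lit 5) (nat_lit 13) (nat_lit 5) (nat_lit 14) (nat_lit 4) (nat_lit 308) (nat_lit 253) (nat_lit 159)) (XT.lf (nat_lit 0) (nat_lit 23499841781) (nat_lit 76) (nat_lit 16719835715) (nat_lit 152) (nat_lit 8386040605) (nat_lit 12) (nat_lit 5) (nat_lit 13) (nat_lit 5)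 (nat_lit 14) (nat_lit 4) (nat_lit 309) (nat_lit 253) (nat_lit 158)))) (XT.nd (nat_lit 156) (nat_lit 0) (nat_lit 0) (XT.nd (nat_lit 78) (nat_lit 228) (nat_lit 0) (XT.lf (nat_lit 0) (nat_lit 38182554780) (nat_lit 76) (nat_lit 9212842172) (nat_lit 152) (nat_lit 3227507298) (nat_lit 12) (nat_lit 5) (nat_lit 13) (nat_lit 5) (nat_lit 14) (nat_lit 4) (nat_lit 310) (nat_lit 253) (nat_lit 157)) (XT.lf (nat_lit 0) (nat_lit 838959972) (nat_lit 152) (nat_lit 1285778705) (nat_lit 228) (nat_lit 50614221012) (nat_lit 9) (nat_lit 5) (nat_lit 11) (nat_lit 5) (nat_lit 12) (nat_lit 5) (nat_lit 311) (nat_lit 253) (nat_lit 156))) (XT.nd (nat_lit 78) (nat_lit 0) (nat_lit 0) (XT.lf (nat_lit 0) (nat_lit 7952975820) (nat_lit 228) (nat_lit 39914651819) (nat_lit 76) (nat_lit 7074713093) (nat_lit 9) (nat_lit 5) (nat_lit 12) (nat_lit 5) (nat_lit 10) (nat_lit 4) (nat_lit 312) (nat_lit 253) (nat_lit 155)) (XT.nd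 (nat_lit 78) (nat_lit 0) (nat_lit 0) (XT.lf (nat_lit 0) (nat_lit 14086874458) (nat_lit 228) (nat_lit 27362793709) (nat_lit 76) (nat_lit 15805520223) (nat_lit 9) (nat_lit 5) (nat_lit 12) (nat_lit 5) (nat_lit 10) (nat_lit 4) (nat_lit 313) (nat_lit 253) (nat_lit 154)) (XT.lf (nat_lit 0) (nat_lit 20520964503) (nat_lit 228) (nat_lit 14194465400) (nat_lit 76) (nat_lit 24968583268) (nat_lit 9) (nat_lit 5) (nat_lit 12) (nat_lit 5) (nat_lit 10) (nat_lit 4) (nat_lit 314) (nat_lit 253) (nat_lit 153)))))) (XT.nd (nat_lit 312) (nat_lit 152) (nat_lit 0) (XT.nd (nat_lit 156) (nat_lit 0) (nat_lit 0) (XT.nd (nat_lit 78) (nat_lit 76) (nat_lit 0) (XT.lf (nat_lit 0) (nat_lit 27270565217) (nat_lit 228) (nat_lit 378313731) (nat_lit 76) (nat_lit 34585719045) (nat_lit 9) (nat_lit 5) (nat_lit 12) (nat_lit 5) (nat_lit 10) (nat_lit 4) (nat_lit 315) (nat_lit 253) (nat_lit 152)) (XT.lf (nat_lit 0) (nat_lit 14585380149)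 (nat_lit 76) (nat_lit 19994085587) (nat_lit 152) (nat_lit 30322164007) (nat_lit 8) (nat_lit 5) (nat_lit 9) (nat_lit 5) (nat_lit 10) (nat_lit 4) (nat_lit 316) (nat_lit 253) (nat_lit 151))) (XT.nd (nat_lit 78) (nat_lit 0) (nat_lit 0) (XT.lf (nat_lit 0) (nat_lit 30300467019) (nat_lit 76) (nat_lit 11953978229) (nat_lit 152) (nat_lit 25447544398) (nat_lit 8) (nat_lit 5) (nat_lit 9) (nat_lit 5) (nat_lit 10) (nat_lit 4) (nat_lit 317) (nat_lit 253) (nat_lit 150)) (XT.lf (nat_lit 0) (nat_lit 46791854990) (nat_lit 76) (nat_lit 3515820687) (nat_lit 152) (nat_lit 20334974638) (nat_lit 8) (nat_lit 5) (nat_lit 9) (nat_lit 5) (nat_lit 10) (nat_lit 4) (nat_lit 318) (nat_lit 253) (nat_lit 149)))) (XT.nd (nat_lit 156) (nat_lit 76) (nat_lit 0) (XT.nd (nat_lit 78) (nat_lit 76) (nat_lit 0) (XT.lf (nat_lit 0) (nat_lit 58841711208) (nat_lit 152) (nat_lit 9715183879) (nat_lit 0) (nat_lit 5169549246) (nat_lit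 8) (nat_lit 5) (nat_lit 10) (nat_lit 4) (nat_lit 8) (nat_lit 4) (nat_lit 319) (nat_lit 253) (nat_lit 148)) (XT.lf (nat_lit 0) (nat_lit 5228129693) (nat_lit 76) (nat_lit 62708538072) (nat_lit 76) (nat_lit 9021056462) (nat_lit 7) (nat_lit 4) (nat_lit 8) (nat_lit 5) (nat_lit 8) (nat_lit 4) (nat_lit 320) (nat_lit 253) (nat_lit 147))) (XT.nd (nat_lit 78) (nat_lit 76) (nat_lit 0) (XT.lf (nat_lit 0) (nat_lit 21247264880) (nat_lit 76) (nat_lit 56398701048) (nat_lit 76) (nat_lit 2696629296) (nat_lit 7) (nat_lit 4) (nat_lit 8) (nat_lit 5) (nat_lit 8) (nat_lit 4) (nat_lit 321) (nat_lit 253) (nat_lit 146)) (XT.nd (nat_lit 78) (nat_lit 0) (nat_lit 0) (XT.lf (nat_lit 0) (nat_lit 3813000184) (nat_lit 152) (nat_lit 45899316746) (nat_lit 76) (nat_lit 34181559437) (nat_lit 6) (nat_lit 5) (nat_lit 8) (nat_lit 5) (nat_lit 7) (nat_lit 4) (nat_lit 322) (nat_lit 253) (nat_lit 145)) (XT.lf (nat_lit 0) (nat_lit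 10552928810) (nat_lit 152) (nat_lit 32095696750) (nat_lit 76) (nat_lit 44972119423) (nat_lit 6) (nat_lit 5) (nat_lit 8) (nat_lit 5) (nat_lit 7) (nat_lit 4) (nat_lit 323) (nat_lit 253) (nat_lit 144))))))))
noncomputable def xc154 : XT := (XT.nd (nat_lit 1404) (nat_lit 152) (nat_lit 0) (XT.nd (nat_lit 702) (nat_lit 76) (nat_lit 0) (XT.nd (nat_lit 312) (nat_lit 76) (nat_lit 0) (XT.nd (nat_lit 156) (nat_lit 76) (nat_lit 0) (XT.nd (nat_lit 78) (nat_lit 0) (nat_lit 0) (XT.lf (nat_lit 0) (nat_lit 17625513010) (nat_lit 152) (nat_lit 17609502655) (nat_lit 76) (nat_lit 56299164001) (nat_lit 6) (nat_lit 5) (nat_lit 8) (nat_lit 5) (nat_lit 7) (nat_lit 4) (nat_lit 324) (nat_lit 253) (nat_lit 143)) (XT.lf (nat_lit 0) (nat_lit 25047592268) (nat_lit 152) (nat_lit 2406243521) (nat_lit 76) (nat_lit 68189662327) (nat_lit 6) (nat_lit 5) (nat_lit 8) (nat_lit 5) (nat_lit 7) (nat_lit 4) (nat_lit 325) (nat_lit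 253) (nat_lit 142))) (XT.nd (nat_lit 78) (nat_lit 0) (nat_lit 0) (XT.lf (nat_lit 0) (nat_lit 13998312301) (nat_lit 76) (nat_lit 19057078786) (nat_lit 152) (nat_lit 66892165693) (nat_lit 5) (nat_lit 5) (nat_lit 6) (nat_lit 5) (nat_lit 7) (nat_lit 4) (nat_lit 326) (nat_lit 253) (nat_lit 141)) (XT.lf (nat_lit 0) (nat_lit 31299846860) (nat_lit 76) (nat_lit 10200628104) (nat_lit 152) (nat_lit 62964503490) (nat_lit 5) (nat_lit 5) (nat_lit 6) (nat_lit 5) (nat_lit 7) (nat_lit 4) (nat_lit 327) (nat_lit 253) (nat_lit 140)))) (XT.nd (nat_lit 156) (nat_lit 76) (nat_lit 0) (XT.nd (nat_lit 78) (nat_lit 0) (nat_lit 0) (XT.lf (nat_lit 0) (nat_lit 49459993006) (nat_lit 76) (nat_lit 904147854) (nat_lit 152) (nat_lit 58844318560) (nat_lit 5) (nat_lit 5) (nat_lit 6) (nat_lit 5) (nat_lit 7) (nat_lit 4) (nat_lit 328) (nat_lit 253) (nat_lit 139)) (XT.lf (nat_lit 0) (nat_lit 59805736246) (nat_lit 152) (nat_lit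 45805548004) (nat_lit 0) (nat_lit 8571097256) (nat_lit 5) (nat_lit 5) (nat_lit 7) (nat_lit 4) (nat_lit 5) (nat_lit 4) (nat_lit 329) (nat_lit 253) (nat_lit 138))) (XT.nd (nat_lit 78) (nat_lit 76) (nat_lit 0) (XT.lf (nat_lit 0) (nat_lit 69730863176) (nat_lit 152) (nat_lit 31186301001) (nat_lit 0) (nat_lit 18487267105) (nat_lit 5) (nat_lit 5) (nat_lit 7) (nat_lit 4) (nat_lit 5) (nat_lit 4) (nat_lit 330) (nat_lit 253) (nat_lit 137)) (XT.nd (nat_lit 78) (nat_lit 76) (nat_lit 0) (XT.lf (nat_lit 0) (nat_lit 80149036622) (nat_lit 152) (nat_lit 15841801393) (nat_lit 0) (nat_lit 28896909997) (nat_lit 5) (nat_lit 5) (nat_lit 7) (nat_lit 4) (nat_lit 5) (nat_lit 4) (nat_lit 331) (nat_lit 253) (nat_lit 136)) (XT.lf (nat_lit 0) (nat_lit 273230421) (nat_lit 76) (nat_lit 90816097230) (nat_lit 76) (nat_lit 39555846269) (nat_lit 4) (nat_lit 4) (nat_lit 5) (nat_lit 5) (nat_lit 5) (nat_lit 4) (nat_lit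 332) (nat_lit 253) (nat_lit 135)))))) (XT.nd (nat_lit 312) (nat_lit 76) (nat_lit 0) (XT.nd (nat_lit 156) (nat_lit 0) (nat_lit 0) (XT.nd (nat_lit 78) (nat_lit 0) (nat_lit 0) (XT.lf (nat_lit 0) (nat_lit 17738655254) (nat_lit 76) (nat_lit 85103271608) (nat_lit 76) (nat_lit 33835283183) (nat_lit 4) (nat_lit 4) (nat_lit 5) (nat_lit 5) (nat_lit 5) (nat_lit 4) (nat_lit 333) (nat_lit 253) (nat_lit 134)) (XT.lf (nat_lit 0) (nat_lit 36072255952) (nat_lit 76) (nat_lit 79107047756) (nat_lit 76) (nat_lit 27831690318) (nat_lit 4) (nat_lit 4) (nat_lit 5) (nat_lit 5) (nat_lit 5) (nat_lit 4) (nat_lit 334) (nat_lit 253) (nat_lit 133))) (XT.nd (nat_lit 78) (nat_lit 0) (nat_lit 0) (XT.lf (nat_lit 0) (nat_lit 55317683945) (nat_lit 76) (nat_lit 72813148950) (nat_lit 76) (nat_lit 21530773406) (nat_lit 4) (nat_lit 4) (nat_lit 5) (nat_lit 5) (nat_lit 5) (nat_lit 4) (nat_lit 335) (nat_lit 253) (nat_lit 132))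 (XT.lf (nat_lit 0) (nat_lit 75520761682) (nat_lit 76) (nat_lit 66206589718) (nat_lit 76) (nat_lit 14917530261) (nat_lit 4) (nat_lit 4) (nat_lit 5) (nat_lit 5) (nat_lit 5) (nat_lit 4) (nat_lit 336) (nat_lit 253) (nat_lit 131)))) (XT.nd (nat_lit 156) (nat_lit 76) (nat_lit 0) (XT.nd (nat_lit 78) (nat_lit 0) (nat_lit 0) (XT.lf (nat_lit 0) (nat_lit 96729591727) (nat_lit 76) (nat_lit 59271640156) (nat_lit 76) (nat_lit 7976215069) (nat_lit 4) (nat_lit 4) (nat_lit 5) (nat_lit 5) (nat_lit 5) (nat_lit 4) (nat_lit 337) (nat_lit 253) (nat_lit 130)) (XT.lf (nat_lit 0) (nat_lit 118994671296) (nat_lit 76) (nat_lit 51991788480) (nat_lit 76) (nat_lit 690300888) (nat_lit 4) (nat_lit 4) (nat_lit 5) (nat_lit 5) (nat_lit 5) (nat_lit 4) (nat_lit 338) (nat_lit 253) (nat_lit 129))) (XT.nd (nat_lit 78) (nat_lit 0) (nat_lit 0) (XT.lf (nat_lit 0) (nat_lit 6734874335) (nat_lit 152) (nat_lit 37500769017) (nat_lit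 76) (nat_lit 135520079791) (nat_lit 3) (nat_lit 5) (nat_lit 5) (nat_lit 5) (nat_lit 4) (nat_lit 4) (nat_lit 339) (nat_lit 253) (nat_lit 128)) (XT.nd (nat_lit 78) (nat_lit 0) (nat_lit 0) (XT.lf (nat_lit 0) (nat_lit 14505943862) (nat_lit 152) (nat_lit 21575575358) (nat_lit 76) (nat_lit 152156659439) (nat_lit 3) (nat_lit 5) (nat_lit 5) (nat_lit 5) (nat_lit 4) (nat_lit 4) (nat_lit 340) (nat_lit 253) (nat_lit 127)) (XT.lf (nat_lit 0) (nat_lit 22663504179) (nat_lit 152) (nat_lit 4857813729) (nat_lit 76) (nat_lit 169623544500) (nat_lit 3) (nat_lit 5) (nat_lit 5) (nat_lit 5) (nat_lit 4) (nat_lit 4) (nat_lit 341) (nat_lit 253) (nat_lit 126))))))) (XT.nd (nat_lit 702) (nat_lit 76) (nat_lit 0) (XT.nd (nat_lit 312) (nat_lit 0) (nat_lit 0) (XT.nd (nat_lit 156) (nat_lit 0) (nat_lit 0) (XT.nd (nat_lit 78) (nat_lit 0) (nat_lit 0) (XT.lf (nat_lit 0) (nat_lit 13111985483) (nat_lit 76) (nat_lit 18319707403)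 (nat_lit 152) (nat_lit 175055052152) (nat_lit 2) (nat_lit 5) (nat_lit 3) (nat_lit 5) (nat_lit 4) (nat_lit 4) (nat_lit 342) (nat_lit 253) (nat_lit 125)) (XT.lf (nat_lit 0) (nat_lit 32145467769) (nat_lit 76) (nat_lit 8573167760) (nat_lit 152) (nat_lit 175573071154) (nat_lit 2) (nat_lit 5) (nat_lit 3) (nat_lit 5) (nat_lit 4) (nat_lit 4) (nat_lit 343) (nat_lit 253) (nat_lit 124))) (XT.nd (nat_lit 78) (nat_lit 0) (nat_lit 0) (XT.lf (nat_lit 0) (nat_lit 50493997391) (nat_lit 152) (nat_lit 174485585746) (nat_lit 0) (nat_lit 1606131676) (nat_lit 2) (nat_lit 5) (nat_lit 4) (nat_lit 4) (nat_lit 2) (nat_lit 4) (nat_lit 344) (nat_lit 253) (nat_lit 123)) (XT.lf (nat_lit 0) (nat_lit 60896903387) (nat_lit 152) (nat_lit 164485648742) (nat_lit 0) (nat_lit 12004934330) (nat_lit 2) (nat_lit 5) (nat_lit 4) (nat_lit 4) (nat_lit 2) (nat_lit 4) (nat_lit 345) (nat_lit 253) (nat_lit 122)))) (XT.nd (nat_lit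 156) (nat_lit 0) (nat_lit 0) (XT.nd (nat_lit 78) (nat_lit 0) (nat_lit 0) (XT.lf (nat_lit 0) (nat_lit 71818271167) (nat_lit 152) (nat_lit 153988767353) (nat_lit 0) (nat_lit 22922394165) (nat_lit 2) (nat_lit 5) (nat_lit 4) (nat_lit 4) (nat_lit 2) (nat_lit 4) (nat_lit 346) (nat_lit 253) (nat_lit 121)) (XT.lf (nat_lit 0) (nat_lit 83284103986) (nat_lit 152) (nat_lit 142969949003) (nat_lit 0) (nat_lit 34384505132) (nat_lit 2) (nat_lit 5) (nat_lit 4) (nat_lit 4) (nat_lit 2) (nat_lit 4) (nat_lit 347) (nat_lit 253) (nat_lit 120))) (XT.nd (nat_lit 78) (nat_lit 0) (nat_lit 0) (XT.lf (nat_lit 0) (nat_lit 95321701448) (nat_lit 152) (nat_lit 131402958412) (nat_lit 0) (nat_lit 46418557973) (nat_lit 2) (nat_lit 5) (nat_lit 4) (nat_lit 4) (nat_lit 2) (nat_lit 4) (nat_lit 348) (nat_lit 253) (nat_lit 119)) (XT.nd (nat_lit 78) (nat_lit 0) (nat_lit 0) (XT.lf (nat_lit 0) (nat_lit 107959724498) (nat_lit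 152) (nat_lit 119260255126) (nat_lit 0) (nat_lit 59053205193) (nat_lit 2) (nat_lit 5) (nat_lit 4) (nat_lit 4) (nat_lit 2) (nat_lit 4) (nat_lit 349) (nat_lit 253) (nat_lit 118)) (XT.lf (nat_lit 0) (nat_lit 121228263667) (nat_lit 152) (nat_lit 106512927945) (nat_lit 0) (nat_lit 72318529287) (nat_lit 2) (nat_lit 5) (nat_lit 4) (nat_lit 4) (nat_lit 2) (nat_lit 4) (nat_lit 350) (nat_lit 253) (nat_lit 117)))))) (XT.nd (nat_lit 312) (nat_lit 76) (nat_lit 0) (XT.nd (nat_lit 156) (nat_lit 0) (nat_lit 0) (XT.nd (nat_lit 78) (nat_lit 0) (nat_lit 0) (XT.lf (nat_lit 0) (nat_lit 135158910716) (nat_lit 152) (nat_lit 93130626092) (nat_lit 0) (nat_lit 86246114358) (nat_lit 2) (nat_lit 5) (nat_lit 4) (nat_lit 4) (nat_lit 2) (nat_lit 4) (nat_lit 351) (nat_lit 253) (nat_lit 116)) (XT.lf (nat_lit 0) (nat_lit 149784833852) (nat_lit 152) (nat_lit 79081486943) (nat_lit 0) (nat_lit 100869121325) (nat_lit 2)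 (nat_lit 5) (nat_lit 4) (nat_lit 4) (nat_lit 2) (nat_lit 4) (nat_lit 352) (nat_lit 253) (nat_lit 115))) (XT.nd (nat_lit 78) (nat_lit 0) (nat_lit 0) (XT.lf (nat_lit 0) (nat_lit 165140856700) (nat_lit 152) (nat_lit 64332060166) (nat_lit 0) (nat_lit 116222366870) (nat_lit 2) (nat_lit 5) (nat_lit 4) (nat_lit 4) (nat_lit 2) (nat_lit 4) (nat_lit 353) (nat_lit 253) (nat_lit 114)) (XT.lf (nat_lit 0) (nat_lit 181263541221) (nat_lit 152) (nat_lit 48847228078) (nat_lit 0) (nat_lit 132342406340) (nat_lit 2) (nat_lit 5) (nat_lit 4) (nat_lit 4) (nat_lit 2) (nat_lit 4) (nat_lit 354) (nat_lit 253) (nat_lit 113)))) (XT.nd (nat_lit 156) (nat_lit 76) (nat_lit 0) (XT.nd (nat_lit 78) (nat_lit 0) (nat_lit 0) (XT.lf (nat_lit 0) (nat_lit 198191274758) (nat_lit 152) (nat_lit 32590122032) (nat_lit 0) (nat_lit 149267620781) (nat_lit 2) (nat_lit 5) (nat_lit 4) (nat_lit 4) (nat_lit 2) (nat_lit 4) (nat_lit 355)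 (nat_lit 253) (nat_lit 112)) (XT.lf (nat_lit 0) (nat_lit 215964361439) (nat_lit 152) (nat_lit 15522034633) (nat_lit 0) (nat_lit 167038308323) (nat_lit 2) (nat_lit 5) (nat_lit 4) (nat_lit 4) (nat_lit 2) (nat_lit 4) (nat_lit 356) (nat_lit 253) (nat_lit 111))) (XT.nd (nat_lit 78) (nat_lit 0) (nat_lit 0) (XT.lf (nat_lit 0) (nat_lit 2476950300) (nat_lit 76) (nat_lit 232186839971) (nat_lit 76) (nat_lit 183258501961) (nat_lit 1) (nat_lit 4) (nat_lit 2) (nat_lit 5) (nat_lit 2) (nat_lit 4) (nat_lit 357) (nat_lit 253) (nat_lit 110)) (XT.nd (nat_lit 78) (nat_lit 0) (nat_lit 0) (XT.lf (nat_lit 0) (nat_lit 21913018547) (nat_lit 76) (nat_lit 232647080307) (nat_lit 76) (nat_lit 183716566207) (nat_lit 1) (nat_lit 4) (nat_lit 2) (nat_lit 5) (nat_lit 2) (nat_lit 4) (nat_lit 358) (nat_lit 253) (nat_lit 109)) (XT.lf (nat_lit 0) (nat_lit 42319217894) (nat_lit 76) (nat_lit 233131086058) (nat_lit 76) (nat_lit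 184198499491) (nat_lit 1) (nat_lit 4) (nat_lit 2) (nat_lit 5) (nat_lit 2) (nat_lit 4) (nat_lit 359) (nat_lit 253) (nat_lit 108))))))))
noncomputable def xc155 : XT := (XT.nd (nat_lit 30576) (nat_lit 0) (nat_lit 2204) (XT.nd (nat_lit 29874) (nat_lit 0) (nat_lit 4408) (XT.nd (nat_lit 29484) (nat_lit 0) (nat_lit 5852) (XT.nd (nat_lit 29328) (nat_lit 0) (nat_lit 5776) (XT.nd (nat_lit 29250) (nat_lit 0) (nat_lit 6460) (XT.lf (nat_lit 0) (nat_lit 63744134531) (nat_lit 76) (nat_lit 233640009617) (nat_lit 76) (nat_lit 184705449273) (nat_lit 1) (nat_lit 4) (nat_lit 2) (nat_lit 5) (nat_lit 2) (nat_lit 4) (nat_lit 360) (nat_lit 253) (nat_lit 107)) (XT.lf (nat_lit 0) (nat_lit 2015767886) (nat_lit 0) (nat_lit 2015767886) (nat_lit 532) (nat_lit 360262891) (nat_lit 86) (nat_lit 5) (nat_lit 86) (nat_lit 3) (nat_lit 93) (nat_lit 3) (nat_lit 254) (nat_lit 254) (nat_lit 212))) (XT.nd (nat_lit 78) (nat_lit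 0) (nat_lit 76) (XT.lf (nat_lit 0) (nat_lit 152680453) (nat_lit 684) (nat_lit 991160022) (nat_lit 684) (nat_lit 7813151617) (nat_lit 77) (nat_lit 3) (nat_lit 86) (nat_lit 3) (nat_lit 86) (nat_lit 5) (nat_lit 255) (nat_lit 254) (nat_lit 211)) (XT.lf (nat_lit 0) (nat_lit 1067695984) (nat_lit 608) (nat_lit 6156814237) (nat_lit 684) (nat_lit 1913054779) (nat_lit 78) (nat_lit 5) (nat_lit 86) (nat_lit 5) (nat_lit 87) (nat_lit 5) (nat_lit 256) (nat_lit 254) (nat_lit 210)))) (XT.nd (nat_lit 156) (nat_lit 0) (nat_lit 76) (XT.nd (nat_lit 78) (nat_lit 0) (nat_lit 0) (XT.lf (nat_lit 0) (nat_lit 2011316970) (nat_lit 608) (nat_lit 2191736138) (nat_lit 684) (nat_lit 5125177540) (nat_lit 78) (nat_lit 5) (nat_lit 86) (nat_lit 5) (nat_lit 87) (nat_lit 5) (nat_lit 257) (nat_lit 254) (nat_lit 209)) (XT.lf (nat_lit 76) (nat_lit 2005252525) (nat_lit 0) (nat_lit 977738134) (nat_lit 684) (nat_lit 6546592317)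 (nat_lit 79) (nat_lit 5) (nat_lit 78) (nat_lit 5) (nat_lit 87) (nat_lit 5) (nat_lit 258) (nat_lit 254) (nat_lit 208))) (XT.nd (nat_lit 78) (nat_lit 0) (nat_lit 0) (XT.lf (nat_lit 0) (nat_lit 4030368690) (nat_lit 608) (nat_lit 3322114311) (nat_lit 684) (nat_lit 2387351486) (nat_lit 79) (nat_lit 5) (nat_lit 87) (nat_lit 5) (nat_lit 88) (nat_lit 5) (nat_lit 259) (nat_lit 254) (nat_lit 207)) (XT.nd (nat_lit 78) (nat_lit 0) (nat_lit 0) (XT.lf (nat_lit 76) (nat_lit 1077299924) (nat_lit 0) (nat_lit 4039745072) (nat_lit 684) (nat_lit 4844385777) (nat_lit 80) (nat_lit 5) (nat_lit 79) (nat_lit 5) (nat_lit 88) (nat_lit 5) (nat_lit 260) (nat_lit 254) (nat_lit 206)) (XT.lf (nat_lit 76) (nat_lit 5781162516) (nat_lit 0) (nat_lit 488940241) (nat_lit 684) (nat_lit 3923571892) (nat_lit 80) (nat_lit 5) (nat_lit 79) (nat_lit 5) (nat_lit 88) (nat_lit 5) (nat_lit 261) (nat_lit 254) (nat_lit 205)))))) (XT.nd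 (nat_lit 312) (nat_lit 988) (nat_lit 0) (XT.nd (nat_lit 156) (nat_lit 608) (nat_lit 0) (XT.nd (nat_lit 78) (nat_lit 0) (nat_lit 0) (XT.lf (nat_lit 76) (nat_lit 206877428) (nat_lit 0) (nat_lit 7285832142) (nat_lit 684) (nat_lit 2944388397) (nat_lit 81) (nat_lit 5) (nat_lit 80) (nat_lit 5) (nat_lit 89) (nat_lit 5) (nat_lit 262) (nat_lit 254) (nat_lit 204)) (XT.lf (nat_lit 76) (nat_lit 5170807011) (nat_lit 0) (nat_lit 3647850297) (nat_lit 684) (nat_lit 1872078953) (nat_lit 81) (nat_lit 5) (nat_lit 80) (nat_lit 5) (nat_lit 89) (nat_lit 5) (nat_lit 263) (nat_lit 254) (nat_lit 203))) (XT.nd (nat_lit 78) (nat_lit 684) (nat_lit 0) (XT.lf (nat_lit 0) (nat_lit 10175243463) (nat_lit 608) (nat_lit 608864019) (nat_lit 76) (nat_lit 174878925) (nat_lit 81) (nat_lit 5) (nat_lit 89) (nat_lit 5) (nat_lit 82) (nat_lit 5) (nat_lit 264) (nat_lit 254) (nat_lit 202)) (XT.lf (nat_lit 0) (nat_lit 444119933)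 (nat_lit 684) (nat_lit 6638385549) (nat_lit 76) (nat_lit 4153166614) (nat_lit 72) (nat_lit 5) (nat_lit 81) (nat_lit 5) (nat_lit 73) (nat_lit 5) (nat_lit 265) (nat_lit 254) (nat_lit 201)))) (XT.nd (nat_lit 156) (nat_lit 304) (nat_lit 0) (XT.nd (nat_lit 78) (nat_lit 684) (nat_lit 0) (XT.lf (nat_lit 0) (nat_lit 1681561740) (nat_lit 684) (nat_lit 1485162524) (nat_lit 76) (nat_lit 8360226135) (nat_lit 72) (nat_lit 5) (nat_lit 81) (nat_lit 5) (nat_lit 73) (nat_lit 5) (nat_lit 266) (nat_lit 254) (nat_lit 200)) (XT.lf (nat_lit 0) (nat_lit 3025318811) (nat_lit 760) (nat_lit 7822656513) (nat_lit 76) (nat_lit 982716061) (nat_lit 63) (nat_lit 5) (nat_lit 73) (nat_lit 5) (nat_lit 64) (nat_lit 5) (nat_lit 267) (nat_lit 254) (nat_lit 199))) (XT.nd (nat_lit 78) (nat_lit 304) (nat_lit 0) (XT.lf (nat_lit 0) (nat_lit 4480727604) (nat_lit 760) (nat_lit 2404437698) (nat_lit 76) (nat_lit 5262346096) (nat_lit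 63) (nat_lit 5) (nat_lit 73) (nat_lit 5) (nat_lit 64) (nat_lit 5) (nat_lit 268) (nat_lit 254) (nat_lit 198)) (XT.nd (nat_lit 78) (nat_lit 0) (nat_lit 0) (XT.lf (nat_lit 0) (nat_lit 3362598434) (nat_lit 304) (nat_lit 2667366163) (nat_lit 380) (nat_lit 6449264613) (nat_lit 59) (nat_lit 5) (nat_lit 63) (nat_lit 5) (nat_lit 64) (nat_lit 5) (nat_lit 269) (nat_lit 254) (nat_lit 197)) (XT.lf (nat_lit 0) (nat_lit 7695167551) (nat_lit 380) (nat_lit 3383081733) (nat_lit 76) (nat_lit 1747462885) (nat_lit 59) (nat_lit 5) (nat_lit 64) (nat_lit 5) (nat_lit 60) (nat_lit 5) (nat_lit 270) (nat_lit 254) (nat_lit 196))))))) (XT.nd (nat_lit 702) (nat_lit 912) (nat_lit 0) (XT.nd (nat_lit 312) (nat_lit 532) (nat_lit 0) (XT.nd (nat_lit 156) (nat_lit 380) (nat_lit 0) (XT.nd (nat_lit 78) (nat_lit 0) (nat_lit 0) (XT.lf (nat_lit 0) (nat_lit 2648784500) (nat_lit 380) (nat_lit 6850992285) (nat_lit 456) (nat_lit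 3687034673) (nat_lit 54) (nat_lit 5) (nat_lit 59) (nat_lit 5) (nat_lit 60) (nat_lit 5) (nat_lit 271) (nat_lit 254) (nat_lit 195)) (XT.lf (nat_lit 0) (nat_lit 9070760774) (nat_lit 380) (nat_lit 2353139837) (nat_lit 456) (nat_lit 2140695645) (nat_lit 54) (nat_lit 5) (nat_lit 59) (nat_lit 5) (nat_lit 60) (nat_lit 5) (nat_lit 272) (nat_lit 254) (nat_lit 194))) (XT.nd (nat_lit 78) (nat_lit 76) (nat_lit 0) (XT.lf (nat_lit 0) (nat_lit 1845673890) (nat_lit 304) (nat_lit 11637679100) (nat_lit 380) (nat_lit 476051424) (nat_lit 50) (nat_lit 5) (nat_lit 54) (nat_lit 5) (nat_lit 55) (nat_lit 5) (nat_lit 273) (nat_lit 254) (nat_lit 193)) (XT.lf (nat_lit 0) (nat_lit 1320676446) (nat_lit 380) (nat_lit 5801108762) (nat_lit 76) (nat_lit 7246778894) (nat_lit 49) (nat_lit 5) (nat_lit 54) (nat_lit 5) (nat_lit 50) (nat_lit 5) (nat_lit 274) (nat_lit 254) (nat_lit 192)))) (XT.nd (nat_lit 156) (nat_lit 228)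 (nat_lit 0) (XT.nd (nat_lit 78) (nat_lit 0) (nat_lit 0) (XT.lf (nat_lit 0) (nat_lit 817450975) (nat_lit 304) (nat_lit 2361438572) (nat_lit 380) (nat_lit 11619597609) (nat_lit 45) (nat_lit 5) (nat_lit 49) (nat_lit 5) (nat_lit 50) (nat_lit 5) (nat_lit 275) (nat_lit 254) (nat_lit 191)) (XT.lf (nat_lit 0) (nat_lit 5246637157) (nat_lit 380) (nat_lit 7348275489) (nat_lit 76) (nat_lit 2649236765) (nat_lit 45) (nat_lit 5) (nat_lit 50) (nat_lit 5) (nat_lit 46) (nat_lit 5) (nat_lit 276) (nat_lit 254) (nat_lit 190))) (XT.nd (nat_lit 78) (nat_lit 228) (nat_lit 0) (XT.lf (nat_lit 0) (nat_lit 7433245116) (nat_lit 380) (nat_lit 450056572) (nat_lit 76) (nat_lit 7828090146) (nat_lit 45) (nat_lit 5) (nat_lit 50) (nat_lit 5) (nat_lit 46) (nat_lit 5) (nat_lit 277) (nat_lit 254) (nat_lit 189)) (XT.nd (nat_lit 78) (nat_lit 0) (nat_lit 0) (XT.lf (nat_lit 0) (nat_lit 6990658296) (nat_lit 228) (nat_lit 2825536433)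 (nat_lit 304) (nat_lit 6381518424) (nat_lit 42) (nat_lit 5) (nat_lit 45) (nat_lit 5) (nat_lit 46) (nat_lit 5) (nat_lit 278) (nat_lit 254) (nat_lit 188)) (XT.lf (nat_lit 0) (nat_lit 12343291450) (nat_lit 304) (nat_lit 1954669646) (nat_lit 76) (nat_lit 2409203592) (nat_lit 42) (nat_lit 5) (nat_lit 46) (nat_lit 5) (nat_lit 43) (nat_lit 5) (nat_lit 279) (nat_lit 254) (nat_lit 187)))))) (XT.nd (nat_lit 312) (nat_lit 380) (nat_lit 0) (XT.nd (nat_lit 156) (nat_lit 228) (nat_lit 0) (XT.nd (nat_lit 78) (nat_lit 76) (nat_lit 0) (XT.lf (nat_lit 0) (nat_lit 5773262172) (nat_lit 228) (nat_lit 9339417058) (nat_lit 304) (nat_lit 2123673836) (nat_lit 39) (nat_lit 5) (nat_lit 42) (nat_lit 5) (nat_lit 43) (nat_lit 5) (nat_lit 280) (nat_lit 254) (nat_lit 186)) (XT.lf (nat_lit 0) (nat_lit 234547924) (nat_lit 304) (nat_lit 3864852402) (nat_lit 76) (nat_lit 13691811183) (nat_lit 38) (nat_lit 5) (nat_lit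 42) (nat_lit 5) (nat_lit 39) (nat_lit 5) (nat_lit 281) (nat_lit 254) (nat_lit 185))) (XT.nd (nat_lit 78) (nat_lit 0) (nat_lit 0) (XT.lf (nat_lit 0) (nat_lit 2708804100) (nat_lit 304) (nat_lit 14205376983) (nat_lit 76) (nat_lit 1454469201) (nat_lit 35) (nat_lit 5) (nat_lit 39) (nat_lit 5) (nat_lit 36) (nat_lit 5) (nat_lit 282) (nat_lit 254) (nat_lit 184)) (XT.lf (nat_lit 0) (nat_lit 5421609939) (nat_lit 304) (nat_lit 6338106862) (nat_lit 76) (nat_lit 7209552604) (nat_lit 35) (nat_lit 5) (nat_lit 39) (nat_lit 5) (nat_lit 36) (nat_lit 5) (nat_lit 283) (nat_lit 254) (nat_lit 183)))) (XT.nd (nat_lit 156) (nat_lit 152) (nat_lit 0) (XT.nd (nat_lit 78) (nat_lit 0) (nat_lit 0) (XT.lf (nat_lit 0) (nat_lit 1961372975) (nat_lit 228) (nat_lit 6321312691) (nat_lit 304) (nat_lit 11316650191) (nat_lit 32) (nat_lit 5) (nat_lit 35) (nat_lit 5) (nat_lit 36) (nat_lit 5) (nat_lit 284) (nat_lit 254) (nat_lit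 182)) (XT.lf (nat_lit 0) (nat_lit 10872327556) (nat_lit 228) (nat_lit 504322816) (nat_lit 304) (nat_lit 8879809076) (nat_lit 32) (nat_lit 5) (nat_lit 35) (nat_lit 5) (nat_lit 36) (nat_lit 5) (nat_lit 285) (nat_lit 254) (nat_lit 181))) (XT.nd (nat_lit 78) (nat_lit 152) (nat_lit 0) (XT.lf (nat_lit 0) (nat_lit 14696039893) (nat_lit 304) (nat_lit 828305917) (nat_lit 76) (nat_lit 5418600487) (nat_lit 32) (nat_lit 5) (nat_lit 36) (nat_lit 5) (nat_lit 33) (nat_lit 5) (nat_lit 286) (nat_lit 254) (nat_lit 180)) (XT.nd (nat_lit 78) (nat_lit 0) (nat_lit 0) (XT.lf (nat_lit 0) (nat_lit 8393586219) (nat_lit 152) (nat_lit 9911165738) (nat_lit 228) (nat_lit 3352879216) (nat_lit 30) (nat_lit 5) (nat_lit 32) (nat_lit 5) (nat_lit 33) (nat_lit 5) (nat_lit 287) (nat_lit 254) (nat_lit 179)) (XT.lf (nat_lit 0) (nat_lit 18083581673) (nat_lit 152) (nat_lit 4008804333) (nat_lit 228) (nat_lit 315779340) (nat_lit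 30) (nat_lit 5) (nat_lit 32) (nat_lit 5) (nat_lit 33) (nat_lit 5) (nat_lit 288) (nat_lit 254) (nat_lit 178))))))))
noncomputable def xc156 : XT := (XT.nd (nat_lit 1404) (nat_lit 532) (nat_lit 0) (XT.nd (nat_lit 702) (nat_lit 456) (nat_lit 0) (XT.nd (nat_lit 312) (nat_lit 380) (nat_lit 0) (XT.nd (nat_lit 156) (nat_lit 152) (nat_lit 0) (XT.nd (nat_lit 78) (nat_lit 0) (nat_lit 0) (XT.lf (nat_lit 0) (nat_lit 2882843634) (nat_lit 304) (nat_lit 18065948242) (nat_lit 76) (nat_lit 2240145762) (nat_lit 26) (nat_lit 5) (nat_lit 30) (nat_lit 5) (nat_lit 27) (nat_lit 5) (nat_lit 289) (nat_lit 254) (nat_lit 177)) (XT.lf (nat_lit 0) (nat_lit 6356157595) (nat_lit 304) (nat_lit 8905676754) (nat_lit 76) (nat_lit 8740420767) (nat_lit 26) (nat_lit 5) (nat_lit 30) (nat_lit 5) (nat_lit 27) (nat_lit 5) (nat_lit 290) (nat_lit 254) (nat_lit 176))) (XT.nd (nat_lit 78) (nat_lit 0) (nat_lit 0) (XT.lf (nat_lit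 0) (nat_lit 714942745) (nat_lit 152) (nat_lit 9285275276) (nat_lit 228) (nat_lit 14856198798) (nat_lit 24) (nat_lit 5) (nat_lit 26) (nat_lit 5) (nat_lit 27) (nat_lit 5) (nat_lit 291) (nat_lit 254) (nat_lit 175)) (XT.lf (nat_lit 0) (nat_lit 11105561436) (nat_lit 152) (nat_lit 2858015393) (nat_lit 228) (nat_lit 11782885858) (nat_lit 24) (nat_lit 5) (nat_lit 26) (nat_lit 5) (nat_lit 27) (nat_lit 5) (nat_lit 292) (nat_lit 254) (nat_lit 174)))) (XT.nd (nat_lit 156) (nat_lit 228) (nat_lit 0) (XT.nd (nat_lit 78) (nat_lit 152) (nat_lit 0) (XT.lf (nat_lit 0) (nat_lit 18172677421) (nat_lit 228) (nat_lit 4745883664) (nat_lit 76) (nat_lit 3760100450) (nat_lit 24) (nat_lit 5) (nat_lit 27) (nat_lit 5) (nat_lit 25) (nat_lit 5) (nat_lit 293) (nat_lit 254) (nat_lit 173)) (XT.lf (nat_lit 0) (nat_lit 5762574668) (nat_lit 152) (nat_lit 16953938699) (nat_lit 228) (nat_lit 4934770923) (nat_lit 22) (nat_lit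 5) (nat_lit 24) (nat_lit 5) (nat_lit 25) (nat_lit 5) (nat_lit 294) (nat_lit 254) (nat_lit 172))) (XT.nd (nat_lit 78) (nat_lit 228) (nat_lit 0) (XT.lf (nat_lit 0) (nat_lit 16942631253) (nat_lit 152) (nat_lit 10613048363) (nat_lit 228) (nat_lit 1113478290) (nat_lit 22) (nat_lit 5) (nat_lit 24) (nat_lit 5) (nat_lit 25) (nat_lit 5) (nat_lit 295) (nat_lit 254) (nat_lit 171)) (XT.nd (nat_lit 78) (nat_lit 152) (nat_lit 0) (XT.lf (nat_lit 0) (nat_lit 2794228453) (nat_lit 228) (nat_lit 1119616492) (nat_lit 76) (nat_lit 25822434861) (nat_lit 21) (nat_lit 5) (nat_lit 24) (nat_lit 5) (nat_lit 22) (nat_lit 5) (nat_lit 296) (nat_lit 254) (nat_lit 170)) (XT.lf (nat_lit 0) (nat_lit 7061161806) (nat_lit 228) (nat_lit 20587765493) (nat_lit 76) (nat_lit 3196877761) (nat_lit 19) (nat_lit 5) (nat_lit 22) (nat_lit 5) (nat_lit 20) (nat_lit 5) (nat_lit 297) (nat_lit 254) (nat_lit 169)))))) (XT.nd (nat_lit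 312) (nat_lit 304) (nat_lit 0) (XT.nd (nat_lit 156) (nat_lit 0) (nat_lit 0) (XT.nd (nat_lit 78) (nat_lit 152) (nat_lit 0) (XT.lf (nat_lit 0) (nat_lit 11613752385) (nat_lit 228) (nat_lit 9848343259) (nat_lit 76) (nat_lit 10545117329) (nat_lit 19) (nat_lit 5) (nat_lit 22) (nat_lit 5) (nat_lit 20) (nat_lit 5) (nat_lit 298) (nat_lit 254) (nat_lit 168)) (XT.lf (nat_lit 0) (nat_lit 1458088009) (nat_lit 152) (nat_lit 14948056065) (nat_lit 228) (nat_lit 16819959508) (nat_lit 17) (nat_lit 5) (nat_lit 19) (nat_lit 5) (nat_lit 20) (nat_lit 5) (nat_lit 299) (nat_lit 254) (nat_lit 167))) (XT.nd (nat_lit 78) (nat_lit 0) (nat_lit 0) (XT.lf (nat_lit 0) (nat_lit 13655391308) (nat_lit 152) (nat_lit 7939206227) (nat_lit 228) (nat_lit 12903538961) (nat_lit 17) (nat_lit 5) (nat_lit 19) (nat_lit 5) (nat_lit 20) (nat_lit 5) (nat_lit 300) (nat_lit 254) (nat_lit 166)) (XT.lf (nat_lit 0) (nat_lit 26446977132)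 (nat_lit 152) (nat_lit 585644852) (nat_lit 228) (nat_lit 8801660596) (nat_lit 17) (nat_lit 5) (nat_lit 19) (nat_lit 5) (nat_lit 20) (nat_lit 5) (nat_lit 301) (nat_lit 254) (nat_lit 165)))) (XT.nd (nat_lit 156) (nat_lit 152) (nat_lit 0) (XT.nd (nat_lit 78) (nat_lit 76) (nat_lit 0) (XT.lf (nat_lit 0) (nat_lit 2597389784) (nat_lit 76) (nat_lit 30287649259) (nat_lit 152) (nat_lit 4345090390) (nat_lit 16) (nat_lit 5) (nat_lit 17) (nat_lit 5) (nat_lit 18) (nat_lit 4) (nat_lit 302) (nat_lit 254) (nat_lit 164)) (XT.lf (nat_lit 0) (nat_lit 485374519) (nat_lit 152) (nat_lit 23213344823) (nat_lit 76) (nat_lit 14988716366) (nat_lit 15) (nat_lit 5) (nat_lit 17) (nat_lit 5) (nat_lit 16) (nat_lit 5) (nat_lit 303) (nat_lit 254) (nat_lit 163))) (XT.nd (nat_lit 78) (nat_lit 152) (nat_lit 0) (XT.lf (nat_lit 0) (nat_lit 5402368332) (nat_lit 152) (nat_lit 11308806023) (nat_lit 76) (nat_lit 23503335511)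 (nat_lit 15) (nat_lit 5) (nat_lit 17) (nat_lit 5) (nat_lit 16) (nat_lit 5) (nat_lit 304) (nat_lit 254) (nat_lit 162)) (XT.nd (nat_lit 78) (nat_lit 0) (nat_lit 0) (XT.lf (nat_lit 0) (nat_lit 1215978844) (nat_lit 152) (nat_lit 9359674199) (nat_lit 228) (nat_lit 31241777469) (nat_lit 13) (nat_lit 5) (nat_lit 15) (nat_lit 5) (nat_lit 16) (nat_lit 5) (nat_lit 305) (nat_lit 254) (nat_lit 161)) (XT.lf (nat_lit 0) (nat_lit 14745943565) (nat_lit 152) (nat_lit 1444828220) (nat_lit 228) (nat_lit 27300581045) (nat_lit 13) (nat_lit 5) (nat_lit 15) (nat_lit 5) (nat_lit 16) (nat_lit 5) (nat_lit 306) (nat_lit 254) (nat_lit 160))))))) (XT.nd (nat_lit 702) (nat_lit 228) (nat_lit 0) (XT.nd (nat_lit 312) (nat_lit 228) (nat_lit 0) (XT.nd (nat_lit 156) (nat_lit 76) (nat_lit 0) (XT.nd (nat_lit 78) (nat_lit 0) (nat_lit 0) (XT.lf (nat_lit 0) (nat_lit 22185808366) (nat_lit 228) (nat_lit 16417114789) (nat_lit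 76) (nat_lit 6641103476) (nat_lit 13) (nat_lit 5) (nat_lit 16) (nat_lit 5) (nat_lit 14) (nat_lit 4) (nat_lit 307) (nat_lit 254) (nat_lit 159)) (XT.lf (nat_lit 0) (nat_lit 28496633098) (nat_lit 228) (nat_lit 3508811571) (nat_lit 76) (nat_lit 15078100453) (nat_lit 13) (nat_lit 5) (nat_lit 16) (nat_lit 5) (nat_lit 14) (nat_lit 4) (nat_lit 308) (nat_lit 254) (nat_lit 158))) (XT.nd (nat_lit 78) (nat_lit 0) (nat_lit 0) (XT.lf (nat_lit 0) (nat_lit 10364521681) (nat_lit 76) (nat_lit 24913011485) (nat_lit 152) (nat_lit 13729791875) (nat_lit 12) (nat_lit 5) (nat_lit 13) (nat_lit 5) (nat_lit 14) (nat_lit 4) (nat_lit 309) (nat_lit 254) (nat_lit 157)) (XT.lf (nat_lit 0) (nat_lit 25041420460) (nat_lit 76) (nat_lit 17408356889) (nat_lit 152) (nat_lit 8574913276) (nat_lit 12) (nat_lit 5) (nat_lit 13) (nat_lit 5) (nat_lit 14) (nat_lit 4) (nat_lit 310) (nat_lit 254) (nat_lit 156)))) (XT.nd (nat_lit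 156) (nat_lit 0) (nat_lit 0) (XT.nd (nat_lit 78) (nat_lit 228) (nat_lit 0) (XT.lf (nat_lit 0) (nat_lit 40440812605) (nat_lit 76) (nat_lit 9533036080) (nat_lit 152) (nat_lit 3169426131) (nat_lit 12) (nat_lit 5) (nat_lit 13) (nat_lit 5) (nat_lit 14) (nat_lit 4) (nat_lit 311) (nat_lit 254) (nat_lit 155)) (XT.lf (nat_lit 0) (nat_lit 1231636720) (nat_lit 152) (nat_lit 1207131465) (nat_lit 228) (nat_lit 52926440967) (nat_lit 9) (nat_lit 5) (nat_lit 11) (nat_lit 5) (nat_lit 12) (nat_lit 5) (nat_lit 312) (nat_lit 254) (nat_lit 154))) (XT.nd (nat_lit 78) (nat_lit 0) (nat_lit 0) (XT.lf (nat_lit 0) (nat_lit 8550647668) (nat_lit 228) (nat_lit 41568293328) (nat_lit 76) (nat_lit 7560221438) (nat_lit 9) (nat_lit 5) (nat_lit 12) (nat_lit 5) (nat_lit 10) (nat_lit 4) (nat_lit 313) (nat_lit 254) (nat_lit 153)) (XT.nd (nat_lit 78) (nat_lit 0) (nat_lit 0) (XT.lf (nat_lit 0) (nat_lit 14981716331) (nat_lit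 228) (nat_lit 28405132364) (nat_lit 76) (nat_lit 16721294034) (nat_lit 9) (nat_lit 5) (nat_lit 12) (nat_lit 5) (nat_lit 10) (nat_lit 4) (nat_lit 314) (nat_lit 254) (nat_lit 152)) (XT.lf (nat_lit 0) (nat_lit 21728439537) (nat_lit 228) (nat_lit 14593901974) (nat_lit 76) (nat_lit 26336534146) (nat_lit 9) (nat_lit 5) (nat_lit 12) (nat_lit 5) (nat_lit 10) (nat_lit 4) (nat_lit 315) (nat_lit 254) (nat_lit 151)))))) (XT.nd (nat_lit 312) (nat_lit 152) (nat_lit 0) (XT.nd (nat_lit 156) (nat_lit 0) (nat_lit 0) (XT.nd (nat_lit 78) (nat_lit 76) (nat_lit 0) (XT.lf (nat_lit 0) (nat_lit 28806880915) (nat_lit 228) (nat_lit 101718279) (nat_lit 76) (nat_lit 36428835202) (nat_lit 9) (nat_lit 5) (nat_lit 12) (nat_lit 5) (nat_lit 10) (nat_lit 4) (nat_lit 316) (nat_lit 254) (nat_lit 150)) (XT.lf (nat_lit 0) (nat_lit 15605393987) (nat_lit 76) (nat_lit 20872143842) (nat_lit 152) (nat_lit 31660476437) (nat_lit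 8) (nat_lit 5) (nat_lit 9) (nat_lit 5) (nat_lit 10) (nat_lit 4) (nat_lit 317) (nat_lit 254) (nat_lit 149))) (XT.nd (nat_lit 78) (nat_lit 0) (nat_lit 0) (XT.lf (nat_lit 0) (nat_lit 32092390208) (nat_lit 76) (nat_lit 12435823784) (nat_lit 152) (nat_lit 26550592313) (nat_lit 8) (nat_lit 5) (nat_lit 9) (nat_lit 5) (nat_lit 10) (nat_lit 4) (nat_lit 318) (nat_lit 254) (nat_lit 148)) (XT.lf (nat_lit 0) (nat_lit 49395161871) (nat_lit 76) (nat_lit 3581275191) (nat_lit 152) (nat_lit 21190457365) (nat_lit 8) (nat_lit 5) (nat_lit 9) (nat_lit 5) (nat_lit 10) (nat_lit 4) (nat_lit 319) (nat_lit 254) (nat_lit 147)))) (XT.nd (nat_lit 156) (nat_lit 76) (nat_lit 0) (XT.nd (nat_lit 78) (nat_lit 76) (nat_lit 0) (XT.lf (nat_lit 0) (nat_lit 61931511305) (nat_lit 152) (nat_lit 9943914623) (nat_lit 0) (nat_lit 5529745824) (nat_lit 8) (nat_lit 5) (nat_lit 10) (nat_lit 4) (nat_lit 8) (nat_lit 4) (nat_lit 320)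 (nat_lit 254) (nat_lit 146)) (XT.lf (nat_lit 0) (nat_lit 5742419008) (nat_lit 76) (nat_lit 65735710867) (nat_lit 76) (nat_lit 9320050013) (nat_lit 7) (nat_lit 4) (nat_lit 8) (nat_lit 5) (nat_lit 8) (nat_lit 4) (nat_lit 321) (nat_lit 254) (nat_lit 145))) (XT.nd (nat_lit 78) (nat_lit 76) (nat_lit 0) (XT.lf (nat_lit 0) (nat_lit 22550468915) (nat_lit 76) (nat_lit 59115536949) (nat_lit 76) (nat_lit 2686642407) (nat_lit 7) (nat_lit 4) (nat_lit 8) (nat_lit 5) (nat_lit 8) (nat_lit 4) (nat_lit 322) (nat_lit 254) (nat_lit 144)) (XT.nd (nat_lit 78) (nat_lit 0) (nat_lit 0) (XT.lf (nat_lit 0) (nat_lit 4137158062) (nat_lit 152) (nat_lit 47960324027) (nat_lit 76) (nat_lit 35984240702) (nat_lit 6) (nat_lit 5) (nat_lit 8) (nat_lit 5) (nat_lit 7) (nat_lit 4) (nat_lit 323) (nat_lit 254) (nat_lit 143)) (XT.lf (nat_lit 0) (nat_lit 11207725602) (nat_lit 152) (nat_lit 33477663915) (nat_lit 76) (nat_lit 47309871387)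 (nat_lit 6) (nat_lit 5) (nat_lit 8) (nat_lit 5) (nat_lit 7) (nat_lit 4) (nat_lit 324) (nat_lit 254) (nat_lit 142))))))))
noncomputable def xc157 : XT := (XT.nd (nat_lit 1404) (nat_lit 152) (nat_lit 0) (XT.nd (nat_lit 702) (nat_lit 76) (nat_lit 0) (XT.nd (nat_lit 312) (nat_lit 76) (nat_lit 0) (XT.nd (nat_lit 156) (nat_lit 76) (nat_lit 0) (XT.nd (nat_lit 78) (nat_lit 0) (nat_lit 0) (XT.lf (nat_lit 0) (nat_lit 18627884232) (nat_lit 152) (nat_lit 18277770479) (nat_lit 76) (nat_lit 59199023147) (nat_lit 6) (nat_lit 5) (nat_lit 8) (nat_lit 5) (nat_lit 7) (nat_lit 4) (nat_lit 325) (nat_lit 254) (nat_lit 141)) (XT.lf (nat_lit 0) (nat_lit 26415300998) (nat_lit 152) (nat_lit 2324453499) (nat_lit 76) (nat_lit 71680003486) (nat_lit 6) (nat_lit 5) (nat_lit 8) (nat_lit 5) (nat_lit 7) (nat_lit 4) (nat_lit 326) (nat_lit 254) (nat_lit 140))) (XT.nd (nat_lit 78) (nat_lit 0) (nat_lit 0) (XT.lf (nat_lit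 0) (nat_lit 14897070402) (nat_lit 76) (nat_lit 19924031982) (nat_lit 152) (nat_lit 70118043641) (nat_lit 5) (nat_lit 5) (nat_lit 6) (nat_lit 5) (nat_lit 7) (nat_lit 4) (nat_lit 327) (nat_lit 254) (nat_lit 139)) (XT.lf (nat_lit 0) (nat_lit 33054212998) (nat_lit 76) (nat_lit 10628849277) (nat_lit 152) (nat_lit 65999652153) (nat_lit 5) (nat_lit 5) (nat_lit 6) (nat_lit 5) (nat_lit 7) (nat_lit 4) (nat_lit 328) (nat_lit 254) (nat_lit 138)))) (XT.nd (nat_lit 156) (nat_lit 76) (nat_lit 0) (XT.nd (nat_lit 78) (nat_lit 0) (nat_lit 0) (XT.lf (nat_lit 0) (nat_lit 52113348652) (nat_lit 76) (nat_lit 871440740) (nat_lit 152) (nat_lit 61678842573) (nat_lit 5) (nat_lit 5) (nat_lit 6) (nat_lit 5) (nat_lit 7) (nat_lit 4) (nat_lit 329) (nat_lit 254) (nat_lit 137)) (XT.lf (nat_lit 0) (nat_lit 62894744919) (nat_lit 152) (nat_lit 47920215921) (nat_lit 0) (nat_lit 9071481410) (nat_lit 5) (nat_lit 5) (nat_lit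 7) (nat_lit 4) (nat_lit 5) (nat_lit 4) (nat_lit 330) (nat_lit 254) (nat_lit 136))) (XT.nd (nat_lit 78) (nat_lit 76) (nat_lit 0) (XT.lf (nat_lit 0) (nat_lit 73311427154) (nat_lit 152) (nat_lit 32578368924) (nat_lit 0) (nat_lit 19480039309) (nat_lit 5) (nat_lit 5) (nat_lit 7) (nat_lit 4) (nat_lit 5) (nat_lit 4) (nat_lit 331) (nat_lit 254) (nat_lit 135)) (XT.nd (nat_lit 78) (nat_lit 76) (nat_lit 0) (XT.lf (nat_lit 0) (nat_lit 84246032090) (nat_lit 152) (nat_lit 16474608485) (nat_lit 0) (nat_lit 30406906781) (nat_lit 5) (nat_lit 5) (nat_lit 7) (nat_lit 4) (nat_lit 5) (nat_lit 4) (nat_lit 332) (nat_lit 254) (nat_lit 134)) (XT.lf (nat_lit 0) (nat_lit 443605839) (nat_lit 76) (nat_lit 95287914592) (nat_lit 76) (nat_lit 41441420270) (nat_lit 4) (nat_lit 4) (nat_lit 5) (nat_lit 5) (nat_lit 5) (nat_lit 4) (nat_lit 333) (nat_lit 254) (nat_lit 133)))))) (XT.nd (nat_lit 312) (nat_lit 76) (nat_lit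 0) (XT.nd (nat_lit 156) (nat_lit 0) (nat_lit 0) (XT.nd (nat_lit 78) (nat_lit 0) (nat_lit 0) (XT.lf (nat_lit 0) (nat_lit 18774839347) (nat_lit 76) (nat_lit 89292732808) (nat_lit 76) (nat_lit 35439220378) (nat_lit 4) (nat_lit 4) (nat_lit 5) (nat_lit 5) (nat_lit 5) (nat_lit 4) (nat_lit 334) (nat_lit 254) (nat_lit 132)) (XT.lf (nat_lit 0) (nat_lit 38018012874) (nat_lit 76) (nat_lit 82999826448) (nat_lit 76) (nat_lit 29139630107) (nat_lit 4) (nat_lit 4) (nat_lit 5) (nat_lit 5) (nat_lit 5) (nat_lit 4) (nat_lit 335) (nat_lit 254) (nat_lit 131))) (XT.nd (nat_lit 78) (nat_lit 0) (nat_lit 0) (XT.lf (nat_lit 0) (nat_lit 58218943500) (nat_lit 76) (nat_lit 76394212402) (nat_lit 76) (nat_lit 22527650430) (nat_lit 4) (nat_lit 4) (nat_lit 5) (nat_lit 5) (nat_lit 5) (nat_lit 4) (nat_lit 336) (nat_lit 254) (nat_lit 130)) (XT.lf (nat_lit 0) (nat_lit 79425728677) (nat_lit 76) (nat_lit 69460163017) (nat_lit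 76) (nat_lit 15587538541) (nat_lit 4) (nat_lit 4) (nat_lit 5) (nat_lit 5) (nat_lit 5) (nat_lit 4) (nat_lit 337) (nat_lit 254) (nat_lit 129)))) (XT.nd (nat_lit 156) (nat_lit 76) (nat_lit 0) (XT.nd (nat_lit 78) (nat_lit 0) (nat_lit 0) (XT.lf (nat_lit 0) (nat_lit 101688860753) (nat_lit 76) (nat_lit 62181168653) (nat_lit 76) (nat_lit 8302770362) (nat_lit 4) (nat_lit 4) (nat_lit 5) (nat_lit 5) (nat_lit 5) (nat_lit 4) (nat_lit 338) (nat_lit 254) (nat_lit 128)) (XT.lf (nat_lit 0) (nat_lit 125061347184) (nat_lit 76) (nat_lit 54539898369) (nat_lit 76) (nat_lit 656001208) (nat_lit 4) (nat_lit 4) (nat_lit 5) (nat_lit 5) (nat_lit 5) (nat_lit 4) (nat_lit 339) (nat_lit 254) (nat_lit 127))) (XT.nd (nat_lit 78) (nat_lit 0) (nat_lit 0) (XT.lf (nat_lit 0) (nat_lit 7135058265) (nat_lit 152) (nat_lit 39262264737) (nat_lit 76) (nat_lit 142342942818) (nat_lit 3) (nat_lit 5) (nat_lit 5) (nat_lit 5) (nat_lit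 4) (nat_lit 4) (nat_lit 340) (nat_lit 254) (nat_lit 126)) (XT.nd (nat_lit 78) (nat_lit 0) (nat_lit 0) (XT.lf (nat_lit 0) (nat_lit 15291660306) (nat_lit 152) (nat_lit 22546218190) (nat_lit 76) (nat_lit 159809120065) (nat_lit 3) (nat_lit 5) (nat_lit 5) (nat_lit 5) (nat_lit 4) (nat_lit 4) (nat_lit 341) (nat_lit 254) (nat_lit 125)) (XT.lf (nat_lit 0) (nat_lit 23854221531) (nat_lit 152) (nat_lit 4997717811) (nat_lit 76) (nat_lit 178147224253) (nat_lit 3) (nat_lit 5) (nat_lit 5) (nat_lit 5) (nat_lit 4) (nat_lit 4) (nat_lit 342) (nat_lit 254) (nat_lit 124))))))) (XT.nd (nat_lit 702) (nat_lit 76) (nat_lit 0) (XT.nd (nat_lit 312) (nat_lit 0) (nat_lit 0) (XT.nd (nat_lit 156) (nat_lit 0) (nat_lit 0) (XT.nd (nat_lit 78) (nat_lit 0) (nat_lit 0) (XT.lf (nat_lit 0) (nat_lit 13868910287) (nat_lit 76) (nat_lit 19190751260) (nat_lit 152) (nat_lit 183748539803) (nat_lit 2) (nat_lit 5) (nat_lit 3) (nat_lit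 5) (nat_lit 4) (nat_lit 4) (nat_lit 343) (nat_lit 254) (nat_lit 123)) (XT.lf (nat_lit 0) (nat_lit 33849241663) (nat_lit 76) (nat_lit 8959024706) (nat_lit 152) (nat_lit 184295281896) (nat_lit 2) (nat_lit 5) (nat_lit 3) (nat_lit 5) (nat_lit 4) (nat_lit 4) (nat_lit 344) (nat_lit 254) (nat_lit 122))) (XT.nd (nat_lit 78) (nat_lit 0) (nat_lit 0) (XT.lf (nat_lit 0) (nat_lit 53070475655) (nat_lit 152) (nat_lit 183115983122) (nat_lit 0) (nat_lit 1725896858) (nat_lit 2) (nat_lit 5) (nat_lit 4) (nat_lit 4) (nat_lit 2) (nat_lit 4) (nat_lit 345) (nat_lit 254) (nat_lit 121)) (XT.lf (nat_lit 0) (nat_lit 63991061313) (nat_lit 152) (nat_lit 172620519835) (nat_lit 0) (nat_lit 12642760664) (nat_lit 2) (nat_lit 5) (nat_lit 4) (nat_lit 4) (nat_lit 2) (nat_lit 4) (nat_lit 346) (nat_lit 254) (nat_lit 120)))) (XT.nd (nat_lit 156) (nat_lit 0) (nat_lit 0) (XT.nd (nat_lit 78) (nat_lit 0) (nat_lit 0) (XT.lf (nat_lit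 0) (nat_lit 75456149255) (nat_lit 152) (nat_lit 161603052059) (nat_lit 0) (nat_lit 24104303985) (nat_lit 2) (nat_lit 5) (nat_lit 4) (nat_lit 4) (nat_lit 2) (nat_lit 4) (nat_lit 347) (nat_lit 254) (nat_lit 119)) (XT.lf (nat_lit 0) (nat_lit 87493037309) (nat_lit 152) (nat_lit 150037347729) (nat_lit 0) (nat_lit 36137816210) (nat_lit 2) (nat_lit 5) (nat_lit 4) (nat_lit 4) (nat_lit 2) (nat_lit 4) (nat_lit 348) (nat_lit 254) (nat_lit 118))) (XT.nd (nat_lit 78) (nat_lit 0) (nat_lit 0) (XT.lf (nat_lit 0) (nat_lit 100130384734) (nat_lit 152) (nat_lit 137895869452) (nat_lit 0) (nat_lit 48771948558) (nat_lit 2) (nat_lit 5) (nat_lit 4) (nat_lit 4) (nat_lit 2) (nat_lit 4) (nat_lit 349) (nat_lit 254) (nat_lit 117)) (XT.nd (nat_lit 78) (nat_lit 0) (nat_lit 0) (XT.lf (nat_lit 0) (nat_lit 113398280450) (nat_lit 152) (nat_lit 125149708948) (nat_lit 0) (nat_lit 62036782297) (nat_lit 2) (nat_lit 5) (nat_lit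 4) (nat_lit 4) (nat_lit 2) (nat_lit 4) (nat_lit 350) (nat_lit 254) (nat_lit 116)) (XT.lf (nat_lit 0) (nat_lit 127328314686) (nat_lit 152) (nat_lit 111768518215) (nat_lit 0) (nat_lit 75963900365) (nat_lit 2) (nat_lit 5) (nat_lit 4) (nat_lit 4) (nat_lit 2) (nat_lit 4) (nat_lit 351) (nat_lit 254) (nat_lit 115)))))) (XT.nd (nat_lit 312) (nat_lit 76) (nat_lit 0) (XT.nd (nat_lit 156) (nat_lit 0) (nat_lit 0) (XT.nd (nat_lit 78) (nat_lit 0) (nat_lit 0) (XT.lf (nat_lit 0) (nat_lit 141953654190) (nat_lit 152) (nat_lit 97720437275) (nat_lit 0) (nat_lit 90586462565) (nat_lit 2) (nat_lit 5) (nat_lit 4) (nat_lit 4) (nat_lit 2) (nat_lit 4) (nat_lit 352) (nat_lit 254) (nat_lit 114)) (XT.lf (nat_lit 0) (nat_lit 157309121200) (nat_lit 152) (nat_lit 82972018317) (nat_lit 0) (nat_lit 105939284524) (nat_lit 2) (nat_lit 5) (nat_lit 4) (nat_lit 4) (nat_lit 2) (nat_lit 4) (nat_lit 353) (nat_lit 254) (nat_lit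 113))) (XT.nd (nat_lit 78) (nat_lit 0) (nat_lit 0) (XT.lf (nat_lit 0) (nat_lit 173431276350) (nat_lit 152) (nat_lit 67488146057) (nat_lit 0) (nat_lit 122058920578) (nat_lit 2) (nat_lit 5) (nat_lit 4) (nat_lit 4) (nat_lit 2) (nat_lit 4) (nat_lit 354) (nat_lit 254) (nat_lit 112)) (XT.lf (nat_lit 0) (nat_lit 190358505724) (nat_lit 152) (nat_lit 51231954132) (nat_lit 0) (nat_lit 138983750813) (nat_lit 2) (nat_lit 5) (nat_lit 4) (nat_lit 4) (nat_lit 2) (nat_lit 4) (nat_lit 355) (nat_lit 254) (nat_lit 111)))) (XT.nd (nat_lit 156) (nat_lit 76) (nat_lit 0) (XT.nd (nat_lit 78) (nat_lit 0) (nat_lit 0) (XT.lf (nat_lit 0) (nat_lit 208131112250) (nat_lit 152) (nat_lit 34164737325) (nat_lit 0) (nat_lit 156754072445) (nat_lit 2) (nat_lit 5) (nat_lit 4) (nat_lit 4) (nat_lit 2) (nat_lit 4) (nat_lit 356) (nat_lit 254) (nat_lit 110)) (XT.lf (nat_lit 0) (nat_lit 226791411658) (nat_lit 152) (nat_lit 16245859404)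 (nat_lit 0) (nat_lit 175412195763) (nat_lit 2) (nat_lit 5) (nat_lit 4) (nat_lit 4) (nat_lit 2) (nat_lit 4) (nat_lit 357) (nat_lit 254) (nat_lit 109))) (XT.nd (nat_lit 78) (nat_lit 0) (nat_lit 0) (XT.lf (nat_lit 0) (nat_lit 2652231600) (nat_lit 76) (nat_lit 243773010399) (nat_lit 76) (nat_lit 192391722037) (nat_lit 1) (nat_lit 4) (nat_lit 2) (nat_lit 5) (nat_lit 2) (nat_lit 4) (nat_lit 358) (nat_lit 254) (nat_lit 108)) (XT.nd (nat_lit 78) (nat_lit 0) (nat_lit 0) (XT.lf (nat_lit 0) (nat_lit 23057654031) (nat_lit 76) (nat_lit 244257366160) (nat_lit 76) (nat_lit 192874104021) (nat_lit 1) (nat_lit 4) (nat_lit 2) (nat_lit 5) (nat_lit 2) (nat_lit 4) (nat_lit 359) (nat_lit 254) (nat_lit 107)) (XT.lf (nat_lit 0) (nat_lit 44481830748) (nat_lit 76) (nat_lit 244766623063) (nat_lit 76) (nat_lit 193381481135) (nat_lit 1) (nat_lit 4) (nat_lit 2) (nat_lit 5) (nat_lit 2) (nat_lit 4) (nat_lit 360) (nat_lit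 254) (nat_lit 106))))))))
noncomputable def xc158 : XT := (XT.nd (nat_lit 1404) (nat_lit 2128) (nat_lit 0) (XT.nd (nat_lit 702) (nat_lit 1748) (nat_lit 0) (XT.nd (nat_lit 312) (nat_lit 0) (nat_lit 76) (XT.nd (nat_lit 156) (nat_lit 0) (nat_lit 76) (XT.nd (nat_lit 78) (nat_lit 0) (nat_lit 0) (XT.lf (nat_lit 0) (nat_lit 487867303) (nat_lit 684) (nat_lit 2038887562) (nat_lit 684) (nat_lit 2038887562) (nat_lit 77) (nat_lit 3) (nat_lit 86) (nat_lit 3) (nat_lit 86) (nat_lit 5) (nat_lit 255) (nat_lit 255) (nat_lit 210)) (XT.lf (nat_lit 0) (nat_lit 1787049990) (nat_lit 684) (nat_lit 183501250) (nat_lit 684) (nat_lit 7346592426) (nat_lit 77) (nat_lit 3) (nat_lit 86) (nat_lit 3) (nat_lit 86) (nat_lit 5) (nat_lit 256) (nat_lit 255) (nat_lit 209))) (XT.nd (nat_lit 78) (nat_lit 0) (nat_lit 0) (XT.lf (nat_lit 0) (nat_lit 2672294025) (nat_lit 608) (nat_lit 5525857565) (nat_lit 684) (nat_lit 1312672659)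 (nat_lit 78) (nat_lit 5) (nat_lit 86) (nat_lit 5) (nat_lit 87) (nat_lit 5) (nat_lit 257) (nat_lit 255) (nat_lit 208)) (XT.lf (nat_lit 0) (nat_lit 3589228763) (nat_lit 608) (nat_lit 1407230199) (nat_lit 684) (nat_lit 4718546075) (nat_lit 78) (nat_lit 5) (nat_lit 86) (nat_lit 5) (nat_lit 87) (nat_lit 5) (nat_lit 258) (nat_lit 255) (nat_lit 207)))) (XT.nd (nat_lit 156) (nat_lit 0) (nat_lit 76) (XT.nd (nat_lit 78) (nat_lit 0) (nat_lit 76) (XT.lf (nat_lit 76) (nat_lit 2985187046) (nat_lit 0) (nat_lit 1567683426) (nat_lit 684) (nat_lit 5376660046) (nat_lit 79) (nat_lit 5) (nat_lit 78) (nat_lit 5) (nat_lit 87) (nat_lit 5) (nat_lit 259) (nat_lit 255) (nat_lit 206)) (XT.lf (nat_lit 0) (nat_lit 5576918404) (nat_lit 608) (nat_lit 2569504847) (nat_lit 684) (nat_lit 2007917976) (nat_lit 79) (nat_lit 5) (nat_lit 87) (nat_lit 5) (nat_lit 88) (nat_lit 5) (nat_lit 260) (nat_lit 255) (nat_lit 205)))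 (XT.nd (nat_lit 78) (nat_lit 0) (nat_lit 0) (XT.lf (nat_lit 76) (nat_lit 2035062114) (nat_lit 0) (nat_lit 4632929671) (nat_lit 684) (nat_lit 3721771589) (nat_lit 80) (nat_lit 5) (nat_lit 79) (nat_lit 5) (nat_lit 88) (nat_lit 5) (nat_lit 261) (nat_lit 255) (nat_lit 204)) (XT.nd (nat_lit 78) (nat_lit 0) (nat_lit 76) (XT.lf (nat_lit 76) (nat_lit 6931075112) (nat_lit 0) (nat_lit 885956154) (nat_lit 684) (nat_lit 2819909080) (nat_lit 80) (nat_lit 5) (nat_lit 79) (nat_lit 5) (nat_lit 88) (nat_lit 5) (nat_lit 262) (nat_lit 255) (nat_lit 203)) (XT.lf (nat_lit 76) (nat_lit 1135260821) (nat_lit 0) (nat_lit 7915566469) (nat_lit 684) (nat_lit 1844430637) (nat_lit 81) (nat_lit 5) (nat_lit 80) (nat_lit 5) (nat_lit 89) (nat_lit 5) (nat_lit 263) (nat_lit 255) (nat_lit 202)))))) (XT.nd (nat_lit 312) (nat_lit 1292) (nat_lit 0) (XT.nd (nat_lit 156) (nat_lit 0) (nat_lit 76) (XT.nd (nat_lit 78) (nat_lit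 684) (nat_lit 0) (XT.lf (nat_lit 76) (nat_lit 6303670716) (nat_lit 0) (nat_lit 4083045403) (nat_lit 684) (nat_lit 777895110) (nat_lit 81) (nat_lit 5) (nat_lit 80) (nat_lit 5) (nat_lit 89) (nat_lit 5) (nat_lit 264) (nat_lit 255) (nat_lit 201)) (XT.lf (nat_lit 76) (nat_lit 257596408) (nat_lit 0) (nat_lit 41844147) (nat_lit 760) (nat_lit 11149430738) (nat_lit 72) (nat_lit 5) (nat_lit 71) (nat_lit 5) (nat_lit 81) (nat_lit 5) (nat_lit 265) (nat_lit 255) (nat_lit 200))) (XT.nd (nat_lit 78) (nat_lit 0) (nat_lit 0) (XT.lf (nat_lit 0) (nat_lit 1519524871) (nat_lit 684) (nat_lit 6051963838) (nat_lit 76) (nat_lit 4169587750) (nat_lit 72) (nat_lit 5) (nat_lit 81) (nat_lit 5) (nat_lit 73) (nat_lit 5) (nat_lit 266) (nat_lit 255) (nat_lit 199)) (XT.lf (nat_lit 0) (nat_lit 2768686437) (nat_lit 684) (nat_lit 684810185) (nat_lit 76) (nat_lit 8596106780) (nat_lit 72) (nat_lit 5) (nat_lit 81) (nat_lit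 5) (nat_lit 73) (nat_lit 5) (nat_lit 267) (nat_lit 255) (nat_lit 198)))) (XT.nd (nat_lit 156) (nat_lit 684) (nat_lit 0) (XT.nd (nat_lit 78) (nat_lit 0) (nat_lit 0) (XT.lf (nat_lit 0) (nat_lit 4143612598) (nat_lit 760) (nat_lit 7299786600) (nat_lit 76) (nat_lit 927101854) (nat_lit 63) (nat_lit 5) (nat_lit 73) (nat_lit 5) (nat_lit 64) (nat_lit 5) (nat_lit 268) (nat_lit 255) (nat_lit 197)) (XT.lf (nat_lit 0) (nat_lit 5625742886) (nat_lit 760) (nat_lit 1654180784) (nat_lit 76) (nat_lit 5425701487) (nat_lit 63) (nat_lit 5) (nat_lit 73) (nat_lit 5) (nat_lit 64) (nat_lit 5) (nat_lit 269) (nat_lit 255) (nat_lit 196))) (XT.nd (nat_lit 78) (nat_lit 380) (nat_lit 0) (XT.lf (nat_lit 0) (nat_lit 4387167173) (nat_lit 304) (nat_lit 2834789826) (nat_lit 380) (nat_lit 5833649089) (nat_lit 59) (nat_lit 5) (nat_lit 63) (nat_lit 5) (nat_lit 64) (nat_lit 5) (nat_lit 270) (nat_lit 255) (nat_lit 195)) (XT.nd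 (nat_lit 78) (nat_lit 380) (nat_lit 0) (XT.lf (nat_lit 0) (nat_lit 8927509237) (nat_lit 380) (nat_lit 2690754773) (nat_lit 76) (nat_lit 1803440437) (nat_lit 59) (nat_lit 5) (nat_lit 64) (nat_lit 5) (nat_lit 60) (nat_lit 5) (nat_lit 271) (nat_lit 255) (nat_lit 194)) (XT.lf (nat_lit 0) (nat_lit 3628809915) (nat_lit 380) (nat_lit 7166411103) (nat_lit 456) (nat_lit 3007132848) (nat_lit 54) (nat_lit 5) (nat_lit 59) (nat_lit 5) (nat_lit 60) (nat_lit 5) (nat_lit 272) (nat_lit 255) (nat_lit 193))))))) (XT.nd (nat_lit 702) (nat_lit 988) (nat_lit 0) (XT.nd (nat_lit 312) (nat_lit 456) (nat_lit 0) (XT.nd (nat_lit 156) (nat_lit 304) (nat_lit 0) (XT.nd (nat_lit 78) (nat_lit 380) (nat_lit 0) (XT.lf (nat_lit 0) (nat_lit 10331523756) (nat_lit 380) (nat_lit 2444957975) (nat_lit 456) (nat_lit 1424631800) (nat_lit 54) (nat_lit 5) (nat_lit 59) (nat_lit 5) (nat_lit 60) (nat_lit 5) (nat_lit 273) (nat_lit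 255) (nat_lit 192)) (XT.lf (nat_lit 0) (nat_lit 288596601) (nat_lit 380) (nat_lit 11848826651) (nat_lit 76) (nat_lit 2479321490) (nat_lit 49) (nat_lit 5) (nat_lit 54) (nat_lit 5) (nat_lit 50) (nat_lit 5) (nat_lit 274) (nat_lit 255) (nat_lit 191))) (XT.nd (nat_lit 78) (nat_lit 304) (nat_lit 0) (XT.lf (nat_lit 0) (nat_lit 2122378982) (nat_lit 380) (nat_lit 5269462983) (nat_lit 76) (nat_lit 7656083584) (nat_lit 49) (nat_lit 5) (nat_lit 54) (nat_lit 5) (nat_lit 50) (nat_lit 5) (nat_lit 275) (nat_lit 255) (nat_lit 190)) (XT.lf (nat_lit 0) (nat_lit 1666771496) (nat_lit 304) (nat_lit 2384321537) (nat_lit 380) (nat_lit 11449480937) (nat_lit 45) (nat_lit 5) (nat_lit 49) (nat_lit 5) (nat_lit 50) (nat_lit 5) (nat_lit 276) (nat_lit 255) (nat_lit 189)))) (XT.nd (nat_lit 156) (nat_lit 228) (nat_lit 0) (XT.nd (nat_lit 78) (nat_lit 228) (nat_lit 0) (XT.lf (nat_lit 0) (nat_lit 6189678704) (nat_lit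 380) (nat_lit 6911118454) (nat_lit 76) (nat_lit 2869453197) (nat_lit 45) (nat_lit 5) (nat_lit 50) (nat_lit 5) (nat_lit 46) (nat_lit 5) (nat_lit 277) (nat_lit 255) (nat_lit 188)) (XT.lf (nat_lit 0) (nat_lit 303409512) (nat_lit 228) (nat_lit 8154529875) (nat_lit 304) (nat_lit 8004398017) (nat_lit 42) (nat_lit 5) (nat_lit 45) (nat_lit 5) (nat_lit 46) (nat_lit 5) (nat_lit 278) (nat_lit 255) (nat_lit 187))) (XT.nd (nat_lit 78) (nat_lit 228) (nat_lit 0) (XT.lf (nat_lit 0) (nat_lit 8094090126) (nat_lit 228) (nat_lit 2842108569) (nat_lit 304) (nat_lit 6038061908) (nat_lit 42) (nat_lit 5) (nat_lit 45) (nat_lit 5) (nat_lit 46) (nat_lit 5) (nat_lit 279) (nat_lit 255) (nat_lit 186)) (XT.nd (nat_lit 78) (nat_lit 228) (nat_lit 0) (XT.lf (nat_lit 0) (nat_lit 13561542898) (nat_lit 304) (nat_lit 1304507763) (nat_lit 76) (nat_lit 2644628873) (nat_lit 42) (nat_lit 5) (nat_lit 46) (nat_lit 5) (nat_lit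 43) (nat_lit 5) (nat_lit 280) (nat_lit 255) (nat_lit 185)) (XT.lf (nat_lit 0) (nat_lit 6797757817) (nat_lit 228) (nat_lit 9654507473) (nat_lit 304) (nat_lit 1615003972) (nat_lit 39) (nat_lit 5) (nat_lit 42) (nat_lit 5) (nat_lit 43) (nat_lit 5) (nat_lit 281) (nat_lit 255) (nat_lit 184)))))) (XT.nd (nat_lit 312) (nat_lit 456) (nat_lit 0) (XT.nd (nat_lit 156) (nat_lit 228) (nat_lit 0) (XT.nd (nat_lit 78) (nat_lit 228) (nat_lit 0) (XT.lf (nat_lit 0) (nat_lit 813108084) (nat_lit 304) (nat_lit 3337014635) (nat_lit 76) (nat_lit 14500762283) (nat_lit 38) (nat_lit 5) (nat_lit 42) (nat_lit 5) (nat_lit 39) (nat_lit 5) (nat_lit 282) (nat_lit 255) (nat_lit 183)) (XT.lf (nat_lit 0) (nat_lit 3397636678) (nat_lit 304) (nat_lit 14179653203) (nat_lit 76) (nat_lit 1680651447) (nat_lit 35) (nat_lit 5) (nat_lit 39) (nat_lit 5) (nat_lit 36) (nat_lit 5) (nat_lit 283) (nat_lit 255) (nat_lit 182))) (XT.nd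 (nat_lit 78) (nat_lit 228) (nat_lit 0) (XT.lf (nat_lit 0) (nat_lit 6219730791) (nat_lit 304) (nat_lit 5954066844) (nat_lit 76) (nat_lit 7716181459) (nat_lit 35) (nat_lit 5) (nat_lit 39) (nat_lit 5) (nat_lit 36) (nat_lit 5) (nat_lit 284) (nat_lit 255) (nat_lit 181)) (XT.lf (nat_lit 0) (nat_lit 2749081414) (nat_lit 228) (nat_lit 6460448940) (nat_lit 304) (nat_lit 11342801762) (nat_lit 32) (nat_lit 5) (nat_lit 35) (nat_lit 5) (nat_lit 36) (nat_lit 5) (nat_lit 285) (nat_lit 255) (nat_lit 180)))) (XT.nd (nat_lit 156) (nat_lit 456) (nat_lit 0) (XT.nd (nat_lit 78) (nat_lit 0) (nat_lit 0) (XT.lf (nat_lit 0) (nat_lit 12072743734) (nat_lit 228) (nat_lit 361034781) (nat_lit 304) (nat_lit 8809817684) (nat_lit 32) (nat_lit 5) (nat_lit 35) (nat_lit 5) (nat_lit 36) (nat_lit 5) (nat_lit 286) (nat_lit 255) (nat_lit 179)) (XT.lf (nat_lit 0) (nat_lit 15898390884) (nat_lit 304) (nat_lit 222240070) (nat_lit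 76) (nat_lit 5844874312) (nat_lit 32) (nat_lit 5) (nat_lit 36) (nat_lit 5) (nat_lit 33) (nat_lit 5) (nat_lit 287) (nat_lit 255) (nat_lit 178))) (XT.nd (nat_lit 78) (nat_lit 304) (nat_lit 0) (XT.lf (nat_lit 0) (nat_lit 9450303429) (nat_lit 152) (nat_lit 10224916832) (nat_lit 228) (nat_lit 3041377702) (nat_lit 30) (nat_lit 5) (nat_lit 32) (nat_lit 5) (nat_lit 33) (nat_lit 5) (nat_lit 288) (nat_lit 255) (nat_lit 177)) (XT.nd (nat_lit 78) (nat_lit 228) (nat_lit 0) (XT.lf (nat_lit 0) (nat_lit 120767593) (nat_lit 228) (nat_lit 3913281991) (nat_lit 76) (nat_lit 19471650666) (nat_lit 29) (nat_lit 5) (nat_lit 32) (nat_lit 5) (nat_lit 30) (nat_lit 5) (nat_lit 289) (nat_lit 255) (nat_lit 176)) (XT.lf (nat_lit 0) (nat_lit 3460077550) (nat_lit 304) (nat_lit 18337263380) (nat_lit 76) (nat_lit 2528392797) (nat_lit 26) (nat_lit 5) (nat_lit 30) (nat_lit 5) (nat_lit 27) (nat_lit 5) (nat_lit 290) (nat_lit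 255) (nat_lit 175))))))))
noncomputable def xc159 : XT := (XT.nd (nat_lit 1404) (nat_lit 532) (nat_lit 0) (XT.nd (nat_lit 702) (nat_lit 456) (nat_lit 0) (XT.nd (nat_lit 312) (nat_lit 380) (nat_lit 0) (XT.nd (nat_lit 156) (nat_lit 0) (nat_lit 0) (XT.nd (nat_lit 78) (nat_lit 152) (nat_lit 0) (XT.lf (nat_lit 0) (nat_lit 7086433793) (nat_lit 304) (nat_lit 8749072712) (nat_lit 76) (nat_lit 9345289183) (nat_lit 26) (nat_lit 5) (nat_lit 30) (nat_lit 5) (nat_lit 27) (nat_lit 5) (nat_lit 291) (nat_lit 255) (nat_lit 174)) (XT.lf (nat_lit 0) (nat_lit 1342869893) (nat_lit 152) (nat_lit 9559431588) (nat_lit 228) (nat_lit 15175928962) (nat_lit 24) (nat_lit 5) (nat_lit 26) (nat_lit 5) (nat_lit 27) (nat_lit 5) (nat_lit 292) (nat_lit 255) (nat_lit 173))) (XT.nd (nat_lit 78) (nat_lit 0) (nat_lit 0) (XT.lf (nat_lit 0) (nat_lit 12224820471) (nat_lit 152) (nat_lit 2819861447) (nat_lit 228) (nat_lit 11969097031)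 (nat_lit 24) (nat_lit 5) (nat_lit 26) (nat_lit 5) (nat_lit 27) (nat_lit 5) (nat_lit 293) (nat_lit 255) (nat_lit 172)) (XT.lf (nat_lit 0) (nat_lit 19448695119) (nat_lit 228) (nat_lit 4429691119) (nat_lit 76) (nat_lit 4115019601) (nat_lit 24) (nat_lit 5) (nat_lit 27) (nat_lit 5) (nat_lit 25) (nat_lit 5) (nat_lit 294) (nat_lit 255) (nat_lit 171)))) (XT.nd (nat_lit 156) (nat_lit 228) (nat_lit 0) (XT.nd (nat_lit 78) (nat_lit 0) (nat_lit 0) (XT.lf (nat_lit 0) (nat_lit 6595262924) (nat_lit 152) (nat_lit 17615467571) (nat_lit 228) (nat_lit 4804417883) (nat_lit 22) (nat_lit 5) (nat_lit 24) (nat_lit 5) (nat_lit 25) (nat_lit 5) (nat_lit 295) (nat_lit 255) (nat_lit 170)) (XT.lf (nat_lit 0) (nat_lit 18308390933) (nat_lit 152) (nat_lit 10966397864) (nat_lit 228) (nat_lit 810017360) (nat_lit 22) (nat_lit 5) (nat_lit 24) (nat_lit 5) (nat_lit 25) (nat_lit 5) (nat_lit 296) (nat_lit 255) (nat_lit 169)))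 (XT.nd (nat_lit 78) (nat_lit 152) (nat_lit 0) (XT.lf (nat_lit 0) (nat_lit 3265025863) (nat_lit 228) (nat_lit 670044306) (nat_lit 76) (nat_lit 27270795056) (nat_lit 21) (nat_lit 5) (nat_lit 24) (nat_lit 5) (nat_lit 22) (nat_lit 5) (nat_lit 297) (nat_lit 255) (nat_lit 168)) (XT.nd (nat_lit 78) (nat_lit 0) (nat_lit 0) (XT.lf (nat_lit 0) (nat_lit 7740027192) (nat_lit 228) (nat_lit 21105679903) (nat_lit 76) (nat_lit 3525455690) (nat_lit 19) (nat_lit 5) (nat_lit 22) (nat_lit 5) (nat_lit 20) (nat_lit 5) (nat_lit 298) (nat_lit 255) (nat_lit 167)) (XT.lf (nat_lit 0) (nat_lit 12504732667) (nat_lit 228) (nat_lit 9853642455) (nat_lit 76) (nat_lit 11233072282) (nat_lit 19) (nat_lit 5) (nat_lit 22) (nat_lit 5) (nat_lit 20) (nat_lit 5) (nat_lit 299) (nat_lit 255) (nat_lit 166)))))) (XT.nd (nat_lit 312) (nat_lit 228) (nat_lit 0) (XT.nd (nat_lit 156) (nat_lit 76) (nat_lit 0) (XT.nd (nat_lit 78) (nat_lit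 0) (nat_lit 0) (XT.lf (nat_lit 0) (nat_lit 2010253635) (nat_lit 152) (nat_lit 15519197076) (nat_lit 228) (nat_lit 17342225618) (nat_lit 17) (nat_lit 5) (nat_lit 19) (nat_lit 5) (nat_lit 20) (nat_lit 5) (nat_lit 300) (nat_lit 255) (nat_lit 165)) (XT.lf (nat_lit 0) (nat_lit 14794600136) (nat_lit 152) (nat_lit 8168298165) (nat_lit 228) (nat_lit 13245161752) (nat_lit 17) (nat_lit 5) (nat_lit 19) (nat_lit 5) (nat_lit 20) (nat_lit 5) (nat_lit 301) (nat_lit 255) (nat_lit 164))) (XT.nd (nat_lit 78) (nat_lit 76) (nat_lit 0) (XT.lf (nat_lit 0) (nat_lit 28204030047) (nat_lit 152) (nat_lit 455052453) (nat_lit 228) (nat_lit 8952644428) (nat_lit 17) (nat_lit 5) (nat_lit 19) (nat_lit 5) (nat_lit 20) (nat_lit 5) (nat_lit 302) (nat_lit 255) (nat_lit 163)) (XT.lf (nat_lit 0) (nat_lit 3166535768) (nat_lit 76) (nat_lit 31633733096) (nat_lit 152) (nat_lit 4277314995) (nat_lit 16) (nat_lit 5) (nat_lit 17)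 (nat_lit 5) (nat_lit 18) (nat_lit 4) (nat_lit 303) (nat_lit 255) (nat_lit 162)))) (XT.nd (nat_lit 156) (nat_lit 152) (nat_lit 0) (XT.nd (nat_lit 78) (nat_lit 0) (nat_lit 0) (XT.lf (nat_lit 0) (nat_lit 772411984) (nat_lit 152) (nat_lit 23946508803) (nat_lit 76) (nat_lit 15889291894) (nat_lit 15) (nat_lit 5) (nat_lit 17) (nat_lit 5) (nat_lit 16) (nat_lit 5) (nat_lit 304) (nat_lit 255) (nat_lit 161)) (XT.lf (nat_lit 0) (nat_lit 5922742692) (nat_lit 152) (nat_lit 11467100361) (nat_lit 76) (nat_lit 24822444868) (nat_lit 15) (nat_lit 5) (nat_lit 17) (nat_lit 5) (nat_lit 16) (nat_lit 5) (nat_lit 305) (nat_lit 255) (nat_lit 160))) (XT.nd (nat_lit 78) (nat_lit 0) (nat_lit 0) (XT.lf (nat_lit 0) (nat_lit 1677356878) (nat_lit 152) (nat_lit 9671671972) (nat_lit 228) (nat_lit 32546629585) (nat_lit 13) (nat_lit 5) (nat_lit 15) (nat_lit 5) (nat_lit 16) (nat_lit 5) (nat_lit 306) (nat_lit 255) (nat_lit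 159)) (XT.nd (nat_lit 78) (nat_lit 0) (nat_lit 0) (XT.lf (nat_lit 0) (nat_lit 15864744641) (nat_lit 152) (nat_lit 1368511596) (nat_lit 228) (nat_lit 28420622710) (nat_lit 13) (nat_lit 5) (nat_lit 15) (nat_lit 5) (nat_lit 16) (nat_lit 5) (nat_lit 307) (nat_lit 255) (nat_lit 158)) (XT.lf (nat_lit 0) (nat_lit 23519160946) (nat_lit 228) (nat_lit 16865374322) (nat_lit 76) (nat_lit 7110114126) (nat_lit 13) (nat_lit 5) (nat_lit 16) (nat_lit 5) (nat_lit 14) (nat_lit 4) (nat_lit 308) (nat_lit 255) (nat_lit 157))))))) (XT.nd (nat_lit 702) (nat_lit 152) (nat_lit 0) (XT.nd (nat_lit 312) (nat_lit 304) (nat_lit 0) (XT.nd (nat_lit 156) (nat_lit 0) (nat_lit 0) (XT.nd (nat_lit 78) (nat_lit 76) (nat_lit 0) (XT.lf (nat_lit 0) (nat_lit 30134857288) (nat_lit 228) (nat_lit 3329398619) (nat_lit 76) (nat_lit 15962439263) (nat_lit 13) (nat_lit 5) (nat_lit 16) (nat_lit 5) (nat_lit 14) (nat_lit 4) (nat_lit 309)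 (nat_lit 255) (nat_lit 156)) (XT.lf (nat_lit 0) (nat_lit 11231877851) (nat_lit 76) (nat_lit 26018213858) (nat_lit 152) (nat_lit 14196824936) (nat_lit 12) (nat_lit 5) (nat_lit 13) (nat_lit 5) (nat_lit 14) (nat_lit 4) (nat_lit 310) (nat_lit 255) (nat_lit 155))) (XT.nd (nat_lit 78) (nat_lit 0) (nat_lit 0) (XT.lf (nat_lit 0) (nat_lit 26625996327) (nat_lit 76) (nat_lit 18145014542) (nat_lit 152) (nat_lit 8794652719) (nat_lit 12) (nat_lit 5) (nat_lit 13) (nat_lit 5) (nat_lit 14) (nat_lit 4) (nat_lit 311) (nat_lit 255) (nat_lit 154)) (XT.lf (nat_lit 0) (nat_lit 42779524514) (nat_lit 76) (nat_lit 9882297226) (nat_lit 152) (nat_lit 3128843894) (nat_lit 12) (nat_lit 5) (nat_lit 13) (nat_lit 5) (nat_lit 14) (nat_lit 4) (nat_lit 312) (nat_lit 255) (nat_lit 153)))) (XT.nd (nat_lit 156) (nat_lit 76) (nat_lit 0) (XT.nd (nat_lit 78) (nat_lit 0) (nat_lit 0) (XT.lf (nat_lit 0) (nat_lit 1611339871) (nat_lit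 152) (nat_lit 1137840715) (nat_lit 228) (nat_lit 55374585151) (nat_lit 9) (nat_lit 5) (nat_lit 11) (nat_lit 5) (nat_lit 12) (nat_lit 5) (nat_lit 313) (nat_lit 255) (nat_lit 152)) (XT.lf (nat_lit 0) (nat_lit 9159606860) (nat_lit 228) (nat_lit 43336421299) (nat_lit 76) (nat_lit 8057754224) (nat_lit 9) (nat_lit 5) (nat_lit 12) (nat_lit 5) (nat_lit 10) (nat_lit 4) (nat_lit 314) (nat_lit 255) (nat_lit 151))) (XT.nd (nat_lit 78) (nat_lit 76) (nat_lit 0) (XT.lf (nat_lit 0) (nat_lit 15903589584) (nat_lit 228) (nat_lit 29529877843) (nat_lit 76) (nat_lit 17671188940) (nat_lit 9) (nat_lit 5) (nat_lit 12) (nat_lit 5) (nat_lit 10) (nat_lit 4) (nat_lit 315) (nat_lit 255) (nat_lit 150)) (XT.nd (nat_lit 78) (nat_lit 76) (nat_lit 0) (XT.lf (nat_lit 0) (nat_lit 22979420978) (nat_lit 228) (nat_lit 15042157893) (nat_lit 76) (nat_lit 27761770571) (nat_lit 9) (nat_lit 5) (nat_lit 12) (nat_lit 5) (nat_lit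 10) (nat_lit 4) (nat_lit 316) (nat_lit 255) (nat_lit 149)) (XT.lf (nat_lit 0) (nat_lit 166564215) (nat_lit 76) (nat_lit 30239984578) (nat_lit 152) (nat_lit 38189560631) (nat_lit 8) (nat_lit 5) (nat_lit 9) (nat_lit 5) (nat_lit 10) (nat_lit 4) (nat_lit 317) (nat_lit 255) (nat_lit 148)))))) (XT.nd (nat_lit 390) (nat_lit 76) (nat_lit 0) (XT.nd (nat_lit 156) (nat_lit 76) (nat_lit 0) (XT.nd (nat_lit 78) (nat_lit 0) (nat_lit 0) (XT.lf (nat_lit 0) (nat_lit 16649377817) (nat_lit 76) (nat_lit 21805414504) (nat_lit 152) (nat_lit 33082234254) (nat_lit 8) (nat_lit 5) (nat_lit 9) (nat_lit 5) (nat_lit 10) (nat_lit 4) (nat_lit 318) (nat_lit 255) (nat_lit 147)) (XT.lf (nat_lit 0) (nat_lit 33948166034) (nat_lit 76) (nat_lit 12952532563) (nat_lit 152) (nat_lit 27724535257) (nat_lit 8) (nat_lit 5) (nat_lit 9) (nat_lit 5) (nat_lit 10) (nat_lit 4) (nat_lit 319) (nat_lit 255) (nat_lit 146))) (XT.nd (nat_lit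 78) (nat_lit 76) (nat_lit 0) (XT.lf (nat_lit 0) (nat_lit 52104116456) (nat_lit 76) (nat_lit 3660260465) (nat_lit 152) (nat_lit 22103707213) (nat_lit 8) (nat_lit 5) (nat_lit 9) (nat_lit 5) (nat_lit 10) (nat_lit 4) (nat_lit 320) (nat_lit 255) (nat_lit 145)) (XT.nd (nat_lit 78) (nat_lit 76) (nat_lit 0) (XT.lf (nat_lit 0) (nat_lit 65162068310) (nat_lit 152) (nat_lit 10207977973) (nat_lit 0) (nat_lit 5898495353) (nat_lit 8) (nat_lit 5) (nat_lit 10) (nat_lit 4) (nat_lit 8) (nat_lit 4) (nat_lit 321) (nat_lit 255) (nat_lit 144)) (XT.lf (nat_lit 0) (nat_lit 6258912140) (nat_lit 76) (nat_lit 68924306742) (nat_lit 76) (nat_lit 9648130272) (nat_lit 7) (nat_lit 4) (nat_lit 8) (nat_lit 5) (nat_lit 8) (nat_lit 4) (nat_lit 322) (nat_lit 255) (nat_lit 143))))) (XT.nd (nat_lit 156) (nat_lit 0) (nat_lit 0) (XT.nd (nat_lit 78) (nat_lit 76) (nat_lit 0) (XT.lf (nat_lit 0) (nat_lit 23896442057) (nat_lit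 76) (nat_lit 61977799827) (nat_lit 76) (nat_lit 2689620012) (nat_lit 7) (nat_lit 4) (nat_lit 8) (nat_lit 5) (nat_lit 8) (nat_lit 4) (nat_lit 323) (nat_lit 255) (nat_lit 142)) (XT.lf (nat_lit 0) (nat_lit 4465111537) (nat_lit 152) (nat_lit 50146132920) (nat_lit 76) (nat_lit 37868353683) (nat_lit 6) (nat_lit 5) (nat_lit 8) (nat_lit 5) (nat_lit 7) (nat_lit 4) (nat_lit 324) (nat_lit 255) (nat_lit 141))) (XT.nd (nat_lit 78) (nat_lit 0) (nat_lit 0) (XT.lf (nat_lit 0) (nat_lit 11883440999) (nat_lit 152) (nat_lit 34949444912) (nat_lit 76) (nat_lit 49756223000) (nat_lit 6) (nat_lit 5) (nat_lit 8) (nat_lit 5) (nat_lit 7) (nat_lit 4) (nat_lit 325) (nat_lit 255) (nat_lit 140)) (XT.nd (nat_lit 78) (nat_lit 0) (nat_lit 0) (XT.lf (nat_lit 0) (nat_lit 19669115698) (nat_lit 152) (nat_lit 18999180720) (nat_lit 76) (nat_lit 62235981965) (nat_lit 6) (nat_lit 5) (nat_lit 8) (nat_lit 5) (nat_lit 7) (nat_lit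 4) (nat_lit 326) (nat_lit 255) (nat_lit 139)) (XT.lf (nat_lit 0) (nat_lit 27840672956) (nat_lit 152) (nat_lit 2257363522) (nat_lit 76) (nat_lit 75337344290) (nat_lit 6) (nat_lit 5) (nat_lit 8) (nat_lit 5) (nat_lit 7) (nat_lit 4) (nat_lit 327) (nat_lit 255) (nat_lit 138))))))))
noncomputable def xc160 : XT := (XT.nd (nat_lit 1404) (nat_lit 76) (nat_lit 0) (XT.nd (nat_lit 702) (nat_lit 152) (nat_lit 0) (XT.nd (nat_lit 312) (nat_lit 76) (nat_lit 0) (XT.nd (nat_lit 156) (nat_lit 0) (nat_lit 0) (XT.nd (nat_lit 78) (nat_lit 0) (nat_lit 0) (XT.lf (nat_lit 0) (nat_lit 15822279917) (nat_lit 76) (nat_lit 20842319075) (nat_lit 152) (nat_lit 73516253908) (nat_lit 5) (nat_lit 5) (nat_lit 6) (nat_lit 5) (nat_lit 7) (nat_lit 4) (nat_lit 328) (nat_lit 255) (nat_lit 137)) (XT.lf (nat_lit 0) (nat_lit 34878691263) (nat_lit 76) (nat_lit 11086087450) (nat_lit 152) (nat_lit 69197071033) (nat_lit 5) (nat_lit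 5) (nat_lit 6) (nat_lit 5) (nat_lit 7) (nat_lit 4) (nat_lit 329) (nat_lit 255) (nat_lit 136))) (XT.nd (nat_lit 78) (nat_lit 0) (nat_lit 0) (XT.lf (nat_lit 0) (nat_lit 54882604289) (nat_lit 76) (nat_lit 844342024) (nat_lit 152) (nat_lit 64665104960) (nat_lit 5) (nat_lit 5) (nat_lit 6) (nat_lit 5) (nat_lit 7) (nat_lit 4) (nat_lit 330) (nat_lit 255) (nat_lit 135)) (XT.lf (nat_lit 0) (nat_lit 66129025803) (nat_lit 152) (nat_lit 50156943739) (nat_lit 0) (nat_lit 9590206765) (nat_lit 5) (nat_lit 5) (nat_lit 7) (nat_lit 4) (nat_lit 5) (nat_lit 4) (nat_lit 331) (nat_lit 255) (nat_lit 134)))) (XT.nd (nat_lit 156) (nat_lit 76) (nat_lit 0) (XT.nd (nat_lit 78) (nat_lit 0) (nat_lit 0) (XT.lf (nat_lit 0) (nat_lit 77062278167) (nat_lit 152) (nat_lit 34055589296) (nat_lit 0) (nat_lit 20516090116) (nat_lit 5) (nat_lit 5) (nat_lit 7) (nat_lit 4) (nat_lit 5) (nat_lit 4) (nat_lit 332) (nat_lit 255) (nat_lit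 133)) (XT.lf (nat_lit 0) (nat_lit 88539552414) (nat_lit 152) (nat_lit 17153864553) (nat_lit 0) (nat_lit 31986346256) (nat_lit 5) (nat_lit 5) (nat_lit 7) (nat_lit 4) (nat_lit 5) (nat_lit 4) (nat_lit 333) (nat_lit 255) (nat_lit 132))) (XT.nd (nat_lit 78) (nat_lit 0) (nat_lit 0) (XT.lf (nat_lit 0) (nat_lit 607930256) (nat_lit 76) (nat_lit 99989736626) (nat_lit 76) (nat_lit 43429846555) (nat_lit 4) (nat_lit 4) (nat_lit 5) (nat_lit 5) (nat_lit 5) (nat_lit 4) (nat_lit 334) (nat_lit 255) (nat_lit 131)) (XT.nd (nat_lit 78) (nat_lit 0) (nat_lit 0) (XT.lf (nat_lit 0) (nat_lit 19848956672) (nat_lit 76) (nat_lit 93697775452) (nat_lit 76) (nat_lit 37131519752) (nat_lit 4) (nat_lit 4) (nat_lit 5) (nat_lit 5) (nat_lit 5) (nat_lit 4) (nat_lit 335) (nat_lit 255) (nat_lit 130)) (XT.lf (nat_lit 0) (nat_lit 40047842429) (nat_lit 76) (nat_lit 87093061583) (nat_lit 76) (nat_lit 30520743378) (nat_lit 4)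 (nat_lit 4) (nat_lit 5) (nat_lit 5) (nat_lit 5) (nat_lit 4) (nat_lit 336) (nat_lit 255) (nat_lit 129)))))) (XT.nd (nat_lit 312) (nat_lit 152) (nat_lit 0) (XT.nd (nat_lit 156) (nat_lit 0) (nat_lit 0) (XT.nd (nat_lit 78) (nat_lit 0) (nat_lit 0) (XT.lf (nat_lit 0) (nat_lit 61252680114) (nat_lit 76) (nat_lit 80159869511) (nat_lit 76) (nat_lit 23581777491) (nat_lit 4) (nat_lit 4) (nat_lit 5) (nat_lit 5) (nat_lit 5) (nat_lit 4) (nat_lit 337) (nat_lit 255) (nat_lit 128)) (XT.lf (nat_lit 0) (nat_lit 83513957434) (nat_lit 76) (nat_lit 72881691634) (nat_lit 76) (nat_lit 16298100743) (nat_lit 4) (nat_lit 4) (nat_lit 5) (nat_lit 5) (nat_lit 5) (nat_lit 4) (nat_lit 338) (nat_lit 255) (nat_lit 127))) (XT.nd (nat_lit 78) (nat_lit 0) (nat_lit 0) (XT.lf (nat_lit 0) (nat_lit 106884677432) (nat_lit 76) (nat_lit 65241198957) (nat_lit 76) (nat_lit 8652371047) (nat_lit 4) (nat_lit 4) (nat_lit 5) (nat_lit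 5) (nat_lit 5) (nat_lit 4) (nat_lit 339) (nat_lit 255) (nat_lit 126)) (XT.lf (nat_lit 0) (nat_lit 131420484678) (nat_lit 76) (nat_lit 57220199833) (nat_lit 76) (nat_lit 626384284) (nat_lit 4) (nat_lit 4) (nat_lit 5) (nat_lit 5) (nat_lit 5) (nat_lit 4) (nat_lit 340) (nat_lit 255) (nat_lit 125)))) (XT.nd (nat_lit 156) (nat_lit 76) (nat_lit 0) (XT.nd (nat_lit 78) (nat_lit 0) (nat_lit 0) (XT.lf (nat_lit 0) (nat_lit 7549353322) (nat_lit 152) (nat_lit 41122391369) (nat_lit 76) (nat_lit 149502592488) (nat_lit 3) (nat_lit 5) (nat_lit 5) (nat_lit 5) (nat_lit 4) (nat_lit 4) (nat_lit 341) (nat_lit 255) (nat_lit 124)) (XT.lf (nat_lit 0) (nat_lit 16111045363) (nat_lit 152) (nat_lit 23575446619) (nat_lit 76) (nat_lit 167840054667) (nat_lit 3) (nat_lit 5) (nat_lit 5) (nat_lit 5) (nat_lit 4) (nat_lit 4) (nat_lit 342) (nat_lit 255) (nat_lit 123))) (XT.nd (nat_lit 78) (nat_lit 76) (nat_lit 0) (XT.lf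 (nat_lit 0) (nat_lit 25099125028) (nat_lit 152) (nat_lit 5154191815) (nat_lit 76) (nat_lit 187093136512) (nat_lit 3) (nat_lit 5) (nat_lit 5) (nat_lit 5) (nat_lit 4) (nat_lit 4) (nat_lit 343) (nat_lit 255) (nat_lit 122)) (XT.nd (nat_lit 78) (nat_lit 0) (nat_lit 0) (XT.lf (nat_lit 0) (nat_lit 14654261045) (nat_lit 76) (nat_lit 20109525545) (nat_lit 152) (nat_lit 192882211731) (nat_lit 2) (nat_lit 5) (nat_lit 3) (nat_lit 5) (nat_lit 4) (nat_lit 4) (nat_lit 344) (nat_lit 255) (nat_lit 121)) (XT.lf (nat_lit 0) (nat_lit 35629232549) (nat_lit 76) (nat_lit 9368153772) (nat_lit 152) (nat_lit 193458850693) (nat_lit 2) (nat_lit 5) (nat_lit 3) (nat_lit 5) (nat_lit 4) (nat_lit 4) (nat_lit 345) (nat_lit 255) (nat_lit 120))))))) (XT.nd (nat_lit 702) (nat_lit 76) (nat_lit 0) (XT.nd (nat_lit 312) (nat_lit 0) (nat_lit 0) (XT.nd (nat_lit 156) (nat_lit 0) (nat_lit 0) (XT.nd (nat_lit 78) (nat_lit 0) (nat_lit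 0) (XT.lf (nat_lit 0) (nat_lit 55770963967) (nat_lit 152) (nat_lit 192186628617) (nat_lit 0) (nat_lit 1847981813) (nat_lit 2) (nat_lit 5) (nat_lit 4) (nat_lit 4) (nat_lit 2) (nat_lit 4) (nat_lit 346) (nat_lit 255) (nat_lit 119)) (XT.lf (nat_lit 0) (nat_lit 67235342502) (nat_lit 152) (nat_lit 181170447102) (nat_lit 0) (nat_lit 13308984518) (nat_lit 2) (nat_lit 5) (nat_lit 4) (nat_lit 4) (nat_lit 2) (nat_lit 4) (nat_lit 347) (nat_lit 255) (nat_lit 118))) (XT.nd (nat_lit 78) (nat_lit 0) (nat_lit 0) (XT.lf (nat_lit 0) (nat_lit 79271554931) (nat_lit 152) (nat_lit 169605967781) (nat_lit 0) (nat_lit 25341981871) (nat_lit 2) (nat_lit 5) (nat_lit 4) (nat_lit 4) (nat_lit 2) (nat_lit 4) (nat_lit 348) (nat_lit 255) (nat_lit 117)) (XT.lf (nat_lit 0) (nat_lit 91908258902) (nat_lit 152) (nat_lit 157465656181) (nat_lit 0) (nat_lit 37975623864) (nat_lit 2) (nat_lit 5) (nat_lit 4) (nat_lit 4) (nat_lit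 2) (nat_lit 4) (nat_lit 349) (nat_lit 255) (nat_lit 116)))) (XT.nd (nat_lit 156) (nat_lit 0) (nat_lit 0) (XT.nd (nat_lit 78) (nat_lit 0) (nat_lit 0) (XT.lf (nat_lit 0) (nat_lit 105175541805) (nat_lit 152) (nat_lit 144720606797) (nat_lit 0) (nat_lit 51239990599) (nat_lit 2) (nat_lit 5) (nat_lit 4) (nat_lit 4) (nat_lit 2) (nat_lit 4) (nat_lit 350) (nat_lit 255) (nat_lit 115)) (XT.lf (nat_lit 0) (nat_lit 119104992410) (nat_lit 152) (nat_lit 131340474274) (nat_lit 0) (nat_lit 65166663901) (nat_lit 2) (nat_lit 5) (nat_lit 4) (nat_lit 4) (nat_lit 2) (nat_lit 4) (nat_lit 351) (nat_lit 255) (nat_lit 114))) (XT.nd (nat_lit 78) (nat_lit 0) (nat_lit 0) (XT.lf (nat_lit 0) (nat_lit 133729776076) (nat_lit 152) (nat_lit 117293401153) (nat_lit 0) (nat_lit 79788802515) (nat_lit 2) (nat_lit 5) (nat_lit 4) (nat_lit 4) (nat_lit 2) (nat_lit 4) (nat_lit 352) (nat_lit 255) (nat_lit 113)) (XT.nd (nat_lit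 78) (nat_lit 0) (nat_lit 0) (XT.lf (nat_lit 0) (nat_lit 149084713714) (nat_lit 152) (nat_lit 102545942022) (nat_lit 0) (nat_lit 95141221058) (nat_lit 2) (nat_lit 5) (nat_lit 4) (nat_lit 4) (nat_lit 2) (nat_lit 4) (nat_lit 353) (nat_lit 255) (nat_lit 112)) (XT.lf (nat_lit 0) (nat_lit 165206364702) (nat_lit 152) (nat_lit 87062983883) (nat_lit 0) (nat_lit 111260472907) (nat_lit 2) (nat_lit 5) (nat_lit 4) (nat_lit 4) (nat_lit 2) (nat_lit 4) (nat_lit 354) (nat_lit 255) (nat_lit 111)))))) (XT.nd (nat_lit 312) (nat_lit 76) (nat_lit 0) (XT.nd (nat_lit 156) (nat_lit 0) (nat_lit 0) (XT.nd (nat_lit 78) (nat_lit 0) (nat_lit 0) (XT.lf (nat_lit 0) (nat_lit 182133113922) (nat_lit 152) (nat_lit 70807662550) (nat_lit 0) (nat_lit 128184937232) (nat_lit 2) (nat_lit 5) (nat_lit 4) (nat_lit 4) (nat_lit 2) (nat_lit 4) (nat_lit 355) (nat_lit 255) (nat_lit 110)) (XT.lf (nat_lit 0) (nat_lit 199905263158) (nat_lit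 152) (nat_lit 53741274878) (nat_lit 0) (nat_lit 145954910378) (nat_lit 2) (nat_lit 5) (nat_lit 4) (nat_lit 4) (nat_lit 2) (nat_lit 4) (nat_lit 356) (nat_lit 255) (nat_lit 109))) (XT.nd (nat_lit 78) (nat_lit 0) (nat_lit 0) (XT.lf (nat_lit 0) (nat_lit 218565127051) (nat_lit 152) (nat_lit 35823186609) (nat_lit 0) (nat_lit 164612701805) (nat_lit 2) (nat_lit 5) (nat_lit 4) (nat_lit 4) (nat_lit 2) (nat_lit 4) (nat_lit 357) (nat_lit 255) (nat_lit 108)) (XT.lf (nat_lit 0) (nat_lit 238157133849) (nat_lit 152) (nat_lit 17010735629) (nat_lit 0) (nat_lit 184202734825) (nat_lit 2) (nat_lit 5) (nat_lit 4) (nat_lit 4) (nat_lit 2) (nat_lit 4) (nat_lit 358) (nat_lit 255) (nat_lit 107)))) (XT.nd (nat_lit 29484) (nat_lit 0) (nat_lit 5776) (XT.nd (nat_lit 78) (nat_lit 0) (nat_lit 0) (XT.lf (nat_lit 0) (nat_lit 2831495138) (nat_lit 76) (nat_lit 255940643621) (nat_lit 76) (nat_lit 201984364809) (nat_lit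 1) (nat_lit 4) (nat_lit 2) (nat_lit 5) (nat_lit 2) (nat_lit 4) (nat_lit 359) (nat_lit 255) (nat_lit 106)) (XT.lf (nat_lit 0) (nat_lit 24254967169) (nat_lit 76) (nat_lit 256450217994) (nat_lit 76) (nat_lit 202492148907) (nat_lit 1) (nat_lit 4) (nat_lit 2) (nat_lit 5) (nat_lit 2) (nat_lit 4) (nat_lit 360) (nat_lit 255) (nat_lit 105))) (XT.nd (nat_lit 78) (nat_lit 0) (nat_lit 0) (XT.lf (nat_lit 0) (nat_lit 1286896628) (nat_lit 684) (nat_lit 1732633477) (nat_lit 684) (nat_lit 1732633477) (nat_lit 77) (nat_lit 3) (nat_lit 86) (nat_lit 3) (nat_lit 86) (nat_lit 5) (nat_lit 256) (nat_lit 256) (nat_lit 208)) (XT.nd (nat_lit 78) (nat_lit 0) (nat_lit 76) (XT.lf (nat_lit 76) (nat_lit 604182171) (nat_lit 0) (nat_lit 2757150359) (nat_lit 684) (nat_lit 6341651970) (nat_lit 78) (nat_lit 5) (nat_lit 77) (nat_lit 3) (nat_lit 86) (nat_lit 5) (nat_lit 257) (nat_lit 256) (nat_lit 207)) (XT.lf (nat_lit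 0) (nat_lit 4212904864) (nat_lit 608) (nat_lit 4950633542) (nat_lit 684) (nat_lit 746982157) (nat_lit 78) (nat_lit 5) (nat_lit 86) (nat_lit 5) (nat_lit 87) (nat_lit 5) (nat_lit 258) (nat_lit 256) (nat_lit 206))))))))
noncomputable def xc161 : XT := (XT.nd (nat_lit 1404) (nat_lit 1900) (nat_lit 0) (XT.nd (nat_lit 702) (nat_lit 1672) (nat_lit 0) (XT.nd (nat_lit 312) (nat_lit 532) (nat_lit 0) (XT.nd (nat_lit 156) (nat_lit 0) (nat_lit 76) (XT.nd (nat_lit 78) (nat_lit 0) (nat_lit 0) (XT.lf (nat_lit 0) (nat_lit 5108686523) (nat_lit 608) (nat_lit 666623231) (nat_lit 684) (nat_lit 4353212298) (nat_lit 78) (nat_lit 5) (nat_lit 86) (nat_lit 5) (nat_lit 87) (nat_lit 5) (nat_lit 259) (nat_lit 256) (nat_lit 205)) (XT.lf (nat_lit 76) (nat_lit 3932334739) (nat_lit 0) (nat_lit 2136823503) (nat_lit 684) (nat_lit 4287432380) (nat_lit 79) (nat_lit 5) (nat_lit 78) (nat_lit 5) (nat_lit 87) (nat_lit 5)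 (nat_lit 260) (nat_lit 256) (nat_lit 204))) (XT.nd (nat_lit 78) (nat_lit 0) (nat_lit 0) (XT.lf (nat_lit 0) (nat_lit 7075747345) (nat_lit 608) (nat_lit 1864678338) (nat_lit 684) (nat_lit 1655886588) (nat_lit 79) (nat_lit 5) (nat_lit 87) (nat_lit 5) (nat_lit 88) (nat_lit 5) (nat_lit 261) (nat_lit 256) (nat_lit 203)) (XT.lf (nat_lit 76) (nat_lit 2956676619) (nat_lit 0) (nat_lit 5219403680) (nat_lit 684) (nat_lit 2669915972) (nat_lit 80) (nat_lit 5) (nat_lit 79) (nat_lit 5) (nat_lit 88) (nat_lit 5) (nat_lit 262) (nat_lit 256) (nat_lit 202)))) (XT.nd (nat_lit 156) (nat_lit 608) (nat_lit 0) (XT.nd (nat_lit 78) (nat_lit 0) (nat_lit 76) (XT.lf (nat_lit 76) (nat_lit 8058449248) (nat_lit 0) (nat_lit 1268184938) (nat_lit 684) (nat_lit 1781910061) (nat_lit 80) (nat_lit 5) (nat_lit 79) (nat_lit 5) (nat_lit 88) (nat_lit 5) (nat_lit 263) (nat_lit 256) (nat_lit 201)) (XT.lf (nat_lit 76) (nat_lit 2024712771)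 (nat_lit 0) (nat_lit 8552109165) (nat_lit 684) (nat_lit 805425702) (nat_lit 81) (nat_lit 5) (nat_lit 80) (nat_lit 5) (nat_lit 89) (nat_lit 5) (nat_lit 264) (nat_lit 256) (nat_lit 200))) (XT.nd (nat_lit 78) (nat_lit 0) (nat_lit 0) (XT.lf (nat_lit 0) (nat_lit 252228848) (nat_lit 684) (nat_lit 4259996609) (nat_lit 760) (nat_lit 7155390841) (nat_lit 71) (nat_lit 5) (nat_lit 80) (nat_lit 5) (nat_lit 81) (nat_lit 5) (nat_lit 265) (nat_lit 256) (nat_lit 199)) (XT.nd (nat_lit 78) (nat_lit 0) (nat_lit 76) (XT.lf (nat_lit 76) (nat_lit 1088307707) (nat_lit 0) (nat_lit 232089078) (nat_lit 760) (nat_lit 10647076678) (nat_lit 72) (nat_lit 5) (nat_lit 71) (nat_lit 5) (nat_lit 81) (nat_lit 5) (nat_lit 266) (nat_lit 256) (nat_lit 198)) (XT.lf (nat_lit 0) (nat_lit 2550783601) (nat_lit 684) (nat_lit 5521599683) (nat_lit 76) (nat_lit 4204609365) (nat_lit 72) (nat_lit 5) (nat_lit 81) (nat_lit 5) (nat_lit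 73) (nat_lit 5) (nat_lit 267) (nat_lit 256) (nat_lit 197)))))) (XT.nd (nat_lit 312) (nat_lit 760) (nat_lit 0) (XT.nd (nat_lit 156) (nat_lit 304) (nat_lit 0) (XT.nd (nat_lit 78) (nat_lit 0) (nat_lit 0) (XT.lf (nat_lit 0) (nat_lit 76701712) (nat_lit 684) (nat_lit 3741409419) (nat_lit 760) (nat_lit 8785210056) (nat_lit 63) (nat_lit 5) (nat_lit 72) (nat_lit 5) (nat_lit 73) (nat_lit 5) (nat_lit 268) (nat_lit 256) (nat_lit 196)) (XT.lf (nat_lit 0) (nat_lit 5227915991) (nat_lit 760) (nat_lit 6835748503) (nat_lit 76) (nat_lit 878445600) (nat_lit 63) (nat_lit 5) (nat_lit 73) (nat_lit 5) (nat_lit 64) (nat_lit 5) (nat_lit 269) (nat_lit 256) (nat_lit 195))) (XT.nd (nat_lit 78) (nat_lit 304) (nat_lit 0) (XT.lf (nat_lit 0) (nat_lit 6742385043) (nat_lit 760) (nat_lit 947339893) (nat_lit 76) (nat_lit 5606499564) (nat_lit 63) (nat_lit 5) (nat_lit 73) (nat_lit 5) (nat_lit 64) (nat_lit 5) (nat_lit 270)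 (nat_lit 256) (nat_lit 194)) (XT.lf (nat_lit 0) (nat_lit 5383340787) (nat_lit 304) (nat_lit 3007418529) (nat_lit 380) (nat_lit 5274466459) (nat_lit 59) (nat_lit 5) (nat_lit 63) (nat_lit 5) (nat_lit 64) (nat_lit 5) (nat_lit 271) (nat_lit 256) (nat_lit 193)))) (XT.nd (nat_lit 156) (nat_lit 380) (nat_lit 0) (XT.nd (nat_lit 78) (nat_lit 380) (nat_lit 0) (XT.lf (nat_lit 0) (nat_lit 10142667745) (nat_lit 380) (nat_lit 2043903807) (nat_lit 76) (nat_lit 1865135732) (nat_lit 59) (nat_lit 5) (nat_lit 64) (nat_lit 5) (nat_lit 60) (nat_lit 5) (nat_lit 272) (nat_lit 256) (nat_lit 192)) (XT.lf (nat_lit 0) (nat_lit 4579036072) (nat_lit 380) (nat_lit 7500123226) (nat_lit 456) (nat_lit 2373586036) (nat_lit 54) (nat_lit 5) (nat_lit 59) (nat_lit 5) (nat_lit 60) (nat_lit 5) (nat_lit 273) (nat_lit 256) (nat_lit 191))) (XT.nd (nat_lit 78) (nat_lit 380) (nat_lit 0) (XT.lf (nat_lit 0) (nat_lit 11580276764)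 (nat_lit 380) (nat_lit 2543769272) (nat_lit 456) (nat_lit 749288671) (nat_lit 54) (nat_lit 5) (nat_lit 59) (nat_lit 5) (nat_lit 60) (nat_lit 5) (nat_lit 274) (nat_lit 256) (nat_lit 190)) (XT.nd (nat_lit 78) (nat_lit 0) (nat_lit 0) (XT.lf (nat_lit 0) (nat_lit 1003663301) (nat_lit 380) (nat_lit 11658695396) (nat_lit 76) (nat_lit 2648016845) (nat_lit 49) (nat_lit 5) (nat_lit 54) (nat_lit 5) (nat_lit 50) (nat_lit 5) (nat_lit 275) (nat_lit 256) (nat_lit 189)) (XT.lf (nat_lit 0) (nat_lit 2895771139) (nat_lit 380) (nat_lit 4787628905) (nat_lit 76) (nat_lit 8081487078) (nat_lit 49) (nat_lit 5) (nat_lit 54) (nat_lit 5) (nat_lit 50) (nat_lit 5) (nat_lit 276) (nat_lit 256) (nat_lit 188))))))) (XT.nd (nat_lit 702) (nat_lit 836) (nat_lit 0) (XT.nd (nat_lit 312) (nat_lit 532) (nat_lit 0) (XT.nd (nat_lit 156) (nat_lit 228) (nat_lit 0) (XT.nd (nat_lit 78) (nat_lit 0) (nat_lit 0) (XT.lf (nat_lit 0)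 (nat_lit 2483396213) (nat_lit 304) (nat_lit 2417198418) (nat_lit 380) (nat_lit 11340688270) (nat_lit 45) (nat_lit 5) (nat_lit 49) (nat_lit 5) (nat_lit 50) (nat_lit 5) (nat_lit 277) (nat_lit 256) (nat_lit 187)) (XT.lf (nat_lit 0) (nat_lit 7116586395) (nat_lit 380) (nat_lit 6526904935) (nat_lit 76) (nat_lit 3092521859) (nat_lit 45) (nat_lit 5) (nat_lit 50) (nat_lit 5) (nat_lit 46) (nat_lit 5) (nat_lit 278) (nat_lit 256) (nat_lit 186))) (XT.nd (nat_lit 78) (nat_lit 0) (nat_lit 0) (XT.lf (nat_lit 0) (nat_lit 1036578954) (nat_lit 228) (nat_lit 8443490002) (nat_lit 304) (nat_lit 7773634644) (nat_lit 42) (nat_lit 5) (nat_lit 45) (nat_lit 5) (nat_lit 46) (nat_lit 5) (nat_lit 279) (nat_lit 256) (nat_lit 185)) (XT.lf (nat_lit 0) (nat_lit 9182603173) (nat_lit 228) (nat_lit 2871103172) (nat_lit 304) (nat_lit 5739028552) (nat_lit 42) (nat_lit 5) (nat_lit 45) (nat_lit 5) (nat_lit 46) (nat_lit 5)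 (nat_lit 280) (nat_lit 256) (nat_lit 184)))) (XT.nd (nat_lit 156) (nat_lit 304) (nat_lit 0) (XT.nd (nat_lit 78) (nat_lit 228) (nat_lit 0) (XT.lf (nat_lit 0) (nat_lit 14784823559) (nat_lit 304) (nat_lit 691370009) (nat_lit 76) (nat_lit 2881137053) (nat_lit 42) (nat_lit 5) (nat_lit 46) (nat_lit 5) (nat_lit 43) (nat_lit 5) (nat_lit 281) (nat_lit 256) (nat_lit 183)) (XT.lf (nat_lit 0) (nat_lit 7805067510) (nat_lit 228) (nat_lit 9999472812) (nat_lit 304) (nat_lit 1138063871) (nat_lit 39) (nat_lit 5) (nat_lit 42) (nat_lit 5) (nat_lit 43) (nat_lit 5) (nat_lit 282) (nat_lit 256) (nat_lit 182))) (XT.nd (nat_lit 78) (nat_lit 228) (nat_lit 0) (XT.lf (nat_lit 0) (nat_lit 1367897515) (nat_lit 304) (nat_lit 2849824200) (nat_lit 76) (nat_lit 15338599074) (nat_lit 38) (nat_lit 5) (nat_lit 42) (nat_lit 5) (nat_lit 39) (nat_lit 5) (nat_lit 283) (nat_lit 256) (nat_lit 181)) (XT.nd (nat_lit 78) (nat_lit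 0) (nat_lit 0) (XT.lf (nat_lit 0) (nat_lit 4069461708) (nat_lit 304) (nat_lit 14221068853) (nat_lit 76) (nat_lit 1903875663) (nat_lit 35) (nat_lit 5) (nat_lit 39) (nat_lit 5) (nat_lit 36) (nat_lit 5) (nat_lit 284) (nat_lit 256) (nat_lit 180)) (XT.lf (nat_lit 0) (nat_lit 7008758469) (nat_lit 304) (nat_lit 5615992081) (nat_lit 76) (nat_lit 8234554002) (nat_lit 35) (nat_lit 5) (nat_lit 39) (nat_lit 5) (nat_lit 36) (nat_lit 5) (nat_lit 285) (nat_lit 256) (nat_lit 179)))))) (XT.nd (nat_lit 312) (nat_lit 456) (nat_lit 0) (XT.nd (nat_lit 156) (nat_lit 152) (nat_lit 0) (XT.nd (nat_lit 78) (nat_lit 0) (nat_lit 0) (XT.lf (nat_lit 0) (nat_lit 3512059105) (nat_lit 228) (nat_lit 6622991219) (nat_lit 304) (nat_lit 11420435331) (nat_lit 32) (nat_lit 5) (nat_lit 35) (nat_lit 5) (nat_lit 36) (nat_lit 5) (nat_lit 286) (nat_lit 256) (nat_lit 178)) (XT.lf (nat_lit 0) (nat_lit 13272117701) (nat_lit 228)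 (nat_lit 226248264) (nat_lit 304) (nat_lit 8784111883) (nat_lit 32) (nat_lit 5) (nat_lit 35) (nat_lit 5) (nat_lit 36) (nat_lit 5) (nat_lit 287) (nat_lit 256) (nat_lit 177))) (XT.nd (nat_lit 78) (nat_lit 0) (nat_lit 0) (XT.lf (nat_lit 0) (nat_lit 365635013) (nat_lit 152) (nat_lit 16757464725) (nat_lit 228) (nat_lit 5918093008) (nat_lit 30) (nat_lit 5) (nat_lit 32) (nat_lit 5) (nat_lit 33) (nat_lit 5) (nat_lit 288) (nat_lit 256) (nat_lit 176)) (XT.lf (nat_lit 0) (nat_lit 10500630753) (nat_lit 152) (nat_lit 10571258191) (nat_lit 228) (nat_lit 2758847517) (nat_lit 30) (nat_lit 5) (nat_lit 32) (nat_lit 5) (nat_lit 33) (nat_lit 5) (nat_lit 289) (nat_lit 256) (nat_lit 175)))) (XT.nd (nat_lit 156) (nat_lit 152) (nat_lit 0) (XT.nd (nat_lit 78) (nat_lit 228) (nat_lit 0) (XT.lf (nat_lit 0) (nat_lit 527462340) (nat_lit 228) (nat_lit 3544452525) (nat_lit 76) (nat_lit 20588088810) (nat_lit 29) (nat_lit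 5) (nat_lit 32) (nat_lit 5) (nat_lit 30) (nat_lit 5) (nat_lit 290) (nat_lit 256) (nat_lit 174)) (XT.lf (nat_lit 0) (nat_lit 4025908397) (nat_lit 304) (nat_lit 18680899997) (nat_lit 76) (nat_lit 2814667082) (nat_lit 26) (nat_lit 5) (nat_lit 30) (nat_lit 5) (nat_lit 27) (nat_lit 5) (nat_lit 291) (nat_lit 256) (nat_lit 173))) (XT.nd (nat_lit 78) (nat_lit 152) (nat_lit 0) (XT.lf (nat_lit 0) (nat_lit 7814876406) (nat_lit 304) (nat_lit 8640596298) (nat_lit 76) (nat_lit 9964796161) (nat_lit 26) (nat_lit 5) (nat_lit 30) (nat_lit 5) (nat_lit 27) (nat_lit 5) (nat_lit 292) (nat_lit 256) (nat_lit 172)) (XT.nd (nat_lit 78) (nat_lit 0) (nat_lit 0) (XT.lf (nat_lit 0) (nat_lit 1947138114) (nat_lit 152) (nat_lit 9864970104) (nat_lit 228) (nat_lit 15550979581) (nat_lit 24) (nat_lit 5) (nat_lit 26) (nat_lit 5) (nat_lit 27) (nat_lit 5) (nat_lit 293) (nat_lit 256) (nat_lit 171)) (XT.lf (nat_lit 0) (nat_lit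 13347608853) (nat_lit 152) (nat_lit 2796632555) (nat_lit 228) (nat_lit 12202079665) (nat_lit 24) (nat_lit 5) (nat_lit 26) (nat_lit 5) (nat_lit 27) (nat_lit 5) (nat_lit 294) (nat_lit 256) (nat_lit 170))))))))
noncomputable def xc162 : XT := (XT.nd (nat_lit 1404) (nat_lit 532) (nat_lit 0) (XT.nd (nat_lit 702) (nat_lit 380) (nat_lit 0) (XT.nd (nat_lit 312) (nat_lit 304) (nat_lit 0) (XT.nd (nat_lit 156) (nat_lit 76) (nat_lit 0) (XT.nd (nat_lit 78) (nat_lit 152) (nat_lit 0) (XT.lf (nat_lit 0) (nat_lit 20754357836) (nat_lit 228) (nat_lit 4149146897) (nat_lit 76) (nat_lit 4472166615) (nat_lit 24) (nat_lit 5) (nat_lit 27) (nat_lit 5) (nat_lit 25) (nat_lit 5) (nat_lit 295) (nat_lit 256) (nat_lit 169)) (XT.lf (nat_lit 0) (nat_lit 7418957610) (nat_lit 152) (nat_lit 18327381028) (nat_lit 228) (nat_lit 4702605593) (nat_lit 22) (nat_lit 5) (nat_lit 24) (nat_lit 5) (nat_lit 25) (nat_lit 5) (nat_lit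 296) (nat_lit 256) (nat_lit 168))) (XT.nd (nat_lit 78) (nat_lit 76) (nat_lit 0) (XT.lf (nat_lit 0) (nat_lit 19694221470) (nat_lit 152) (nat_lit 11353898784) (nat_lit 228) (nat_lit 524772338) (nat_lit 22) (nat_lit 5) (nat_lit 24) (nat_lit 5) (nat_lit 25) (nat_lit 5) (nat_lit 297) (nat_lit 256) (nat_lit 167)) (XT.lf (nat_lit 0) (nat_lit 3728581906) (nat_lit 228) (nat_lit 244995039) (nat_lit 76) (nat_lit 28776954719) (nat_lit 21) (nat_lit 5) (nat_lit 24) (nat_lit 5) (nat_lit 22) (nat_lit 5) (nat_lit 298) (nat_lit 256) (nat_lit 166)))) (XT.nd (nat_lit 156) (nat_lit 152) (nat_lit 0) (XT.nd (nat_lit 78) (nat_lit 0) (nat_lit 0) (XT.lf (nat_lit 0) (nat_lit 8422545373) (nat_lit 228) (nat_lit 21697042025) (nat_lit 76) (nat_lit 3854775224) (nat_lit 19) (nat_lit 5) (nat_lit 22) (nat_lit 5) (nat_lit 20) (nat_lit 5) (nat_lit 299) (nat_lit 256) (nat_lit 165)) (XT.lf (nat_lit 0) (nat_lit 13411413892)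 (nat_lit 228) (nat_lit 9904494223) (nat_lit 76) (nat_lit 11940484705) (nat_lit 19) (nat_lit 5) (nat_lit 22) (nat_lit 5) (nat_lit 20) (nat_lit 5) (nat_lit 300) (nat_lit 256) (nat_lit 164))) (XT.nd (nat_lit 78) (nat_lit 0) (nat_lit 0) (XT.lf (nat_lit 0) (nat_lit 2545470375) (nat_lit 152) (nat_lit 16135282287) (nat_lit 228) (nat_lit 17920237701) (nat_lit 17) (nat_lit 5) (nat_lit 19) (nat_lit 5) (nat_lit 20) (nat_lit 5) (nat_lit 301) (nat_lit 256) (nat_lit 163)) (XT.nd (nat_lit 78) (nat_lit 0) (nat_lit 0) (XT.lf (nat_lit 0) (nat_lit 15948334008) (nat_lit 152) (nat_lit 8424451509) (nat_lit 228) (nat_lit 13632087270) (nat_lit 17) (nat_lit 5) (nat_lit 19) (nat_lit 5) (nat_lit 20) (nat_lit 5) (nat_lit 302) (nat_lit 256) (nat_lit 162)) (XT.lf (nat_lit 0) (nat_lit 30008520946) (nat_lit 152) (nat_lit 332794062) (nat_lit 228) (nat_lit 9138055155) (nat_lit 17) (nat_lit 5) (nat_lit 19) (nat_lit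 5) (nat_lit 20) (nat_lit 5) (nat_lit 303) (nat_lit 256) (nat_lit 161)))))) (XT.nd (nat_lit 312) (nat_lit 76) (nat_lit 0) (XT.nd (nat_lit 156) (nat_lit 152) (nat_lit 0) (XT.nd (nat_lit 78) (nat_lit 76) (nat_lit 0) (XT.lf (nat_lit 0) (nat_lit 3723299286) (nat_lit 76) (nat_lit 33062767936) (nat_lit 152) (nat_lit 4232650211) (nat_lit 16) (nat_lit 5) (nat_lit 17) (nat_lit 5) (nat_lit 18) (nat_lit 4) (nat_lit 304) (nat_lit 256) (nat_lit 160)) (XT.lf (nat_lit 0) (nat_lit 1049371577) (nat_lit 152) (nat_lit 24756076183) (nat_lit 76) (nat_lit 16820844662) (nat_lit 15) (nat_lit 5) (nat_lit 17) (nat_lit 5) (nat_lit 16) (nat_lit 5) (nat_lit 305) (nat_lit 256) (nat_lit 159))) (XT.nd (nat_lit 78) (nat_lit 152) (nat_lit 0) (XT.lf (nat_lit 0) (nat_lit 6445869343) (nat_lit 152) (nat_lit 11671161989) (nat_lit 76) (nat_lit 26194127276) (nat_lit 15) (nat_lit 5) (nat_lit 17) (nat_lit 5) (nat_lit 16) (nat_lit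 5) (nat_lit 306) (nat_lit 256) (nat_lit 158)) (XT.lf (nat_lit 0) (nat_lit 2124561768) (nat_lit 152) (nat_lit 10013771727) (nat_lit 228) (nat_lit 33940639742) (nat_lit 13) (nat_lit 5) (nat_lit 15) (nat_lit 5) (nat_lit 16) (nat_lit 5) (nat_lit 307) (nat_lit 256) (nat_lit 157)))) (XT.nd (nat_lit 156) (nat_lit 76) (nat_lit 0) (XT.nd (nat_lit 78) (nat_lit 0) (nat_lit 0) (XT.lf (nat_lit 0) (nat_lit 17004017155) (nat_lit 152) (nat_lit 1302190658) (nat_lit 228) (nat_lit 29619443062) (nat_lit 13) (nat_lit 5) (nat_lit 15) (nat_lit 5) (nat_lit 16) (nat_lit 5) (nat_lit 308) (nat_lit 256) (nat_lit 156)) (XT.lf (nat_lit 0) (nat_lit 24898349979) (nat_lit 228) (nat_lit 17370687296) (nat_lit 76) (nat_lit 7589842487) (nat_lit 13) (nat_lit 5) (nat_lit 16) (nat_lit 5) (nat_lit 14) (nat_lit 4) (nat_lit 309) (nat_lit 256) (nat_lit 155))) (XT.nd (nat_lit 78) (nat_lit 76) (nat_lit 0) (XT.lf (nat_lit 0) (nat_lit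 31835153472) (nat_lit 228) (nat_lit 3174005939) (nat_lit 76) (nat_lit 16878868517) (nat_lit 13) (nat_lit 5) (nat_lit 16) (nat_lit 5) (nat_lit 14) (nat_lit 4) (nat_lit 310) (nat_lit 256) (nat_lit 154)) (XT.nd (nat_lit 78) (nat_lit 0) (nat_lit 0) (XT.lf (nat_lit 0) (nat_lit 12110143023) (nat_lit 76) (nat_lit 27191733892) (nat_lit 152) (nat_lit 14707612639) (nat_lit 12) (nat_lit 5) (nat_lit 13) (nat_lit 5) (nat_lit 14) (nat_lit 4) (nat_lit 311) (nat_lit 256) (nat_lit 153)) (XT.lf (nat_lit 0) (nat_lit 28258887838) (nat_lit 76) (nat_lit 18930940833) (nat_lit 152) (nat_lit 9044810552) (nat_lit 12) (nat_lit 5) (nat_lit 13) (nat_lit 5) (nat_lit 14) (nat_lit 4) (nat_lit 312) (nat_lit 256) (nat_lit 152))))))) (XT.nd (nat_lit 702) (nat_lit 228) (nat_lit 0) (XT.nd (nat_lit 312) (nat_lit 76) (nat_lit 0) (XT.nd (nat_lit 156) (nat_lit 0) (nat_lit 0) (XT.nd (nat_lit 78) (nat_lit 228) (nat_lit 0) (XT.lf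 (nat_lit 0) (nat_lit 45205730926) (nat_lit 76) (nat_lit 10260865004) (nat_lit 152) (nat_lit 3104738657) (nat_lit 12) (nat_lit 5) (nat_lit 13) (nat_lit 5) (nat_lit 14) (nat_lit 4) (nat_lit 313) (nat_lit 256) (nat_lit 151)) (XT.lf (nat_lit 0) (nat_lit 1980452275) (nat_lit 152) (nat_lit 1077138806) (nat_lit 228) (nat_lit 57963561243) (nat_lit 9) (nat_lit 5) (nat_lit 11) (nat_lit 5) (nat_lit 12) (nat_lit 5) (nat_lit 314) (nat_lit 256) (nat_lit 150))) (XT.nd (nat_lit 78) (nat_lit 0) (nat_lit 0) (XT.lf (nat_lit 0) (nat_lit 9782146667) (nat_lit 228) (nat_lit 45221803184) (nat_lit 76) (nat_lit 8569051653) (nat_lit 9) (nat_lit 5) (nat_lit 12) (nat_lit 5) (nat_lit 10) (nat_lit 4) (nat_lit 315) (nat_lit 256) (nat_lit 149)) (XT.lf (nat_lit 0) (nat_lit 16855492362) (nat_lit 228) (nat_lit 30738334421) (nat_lit 76) (nat_lit 18657995737) (nat_lit 9) (nat_lit 5) (nat_lit 12) (nat_lit 5) (nat_lit 10)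 (nat_lit 4) (nat_lit 316) (nat_lit 256) (nat_lit 148)))) (XT.nd (nat_lit 156) (nat_lit 0) (nat_lit 0) (XT.nd (nat_lit 78) (nat_lit 76) (nat_lit 0) (XT.lf (nat_lit 0) (nat_lit 24277652312) (nat_lit 228) (nat_lit 15538992156) (nat_lit 76) (nat_lit 29248189910) (nat_lit 9) (nat_lit 5) (nat_lit 12) (nat_lit 5) (nat_lit 10) (nat_lit 4) (nat_lit 317) (nat_lit 256) (nat_lit 147)) (XT.lf (nat_lit 0) (nat_lit 426048742) (nat_lit 76) (nat_lit 31646901397) (nat_lit 152) (nat_lit 39945451991) (nat_lit 8) (nat_lit 5) (nat_lit 9) (nat_lit 5) (nat_lit 10) (nat_lit 4) (nat_lit 318) (nat_lit 256) (nat_lit 146))) (XT.nd (nat_lit 78) (nat_lit 0) (nat_lit 0) (XT.lf (nat_lit 0) (nat_lit 17721043200) (nat_lit 76) (nat_lit 22795606744) (nat_lit 152) (nat_lit 34590072947) (nat_lit 8) (nat_lit 5) (nat_lit 9) (nat_lit 5) (nat_lit 10) (nat_lit 4) (nat_lit 319) (nat_lit 256) (nat_lit 145)) (XT.nd (nat_lit 78)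 (nat_lit 0) (nat_lit 0) (XT.lf (nat_lit 0) (nat_lit 35873380518) (nat_lit 76) (nat_lit 13504846348) (nat_lit 152) (nat_lit 28971454382) (nat_lit 8) (nat_lit 5) (nat_lit 9) (nat_lit 5) (nat_lit 10) (nat_lit 4) (nat_lit 320) (nat_lit 256) (nat_lit 144)) (XT.lf (nat_lit 0) (nat_lit 54926280547) (nat_lit 76) (nat_lit 3752499351) (nat_lit 152) (nat_lit 23076218633) (nat_lit 8) (nat_lit 5) (nat_lit 9) (nat_lit 5) (nat_lit 10) (nat_lit 4) (nat_lit 321) (nat_lit 256) (nat_lit 143)))))) (XT.nd (nat_lit 312) (nat_lit 76) (nat_lit 0) (XT.nd (nat_lit 156) (nat_lit 76) (nat_lit 0) (XT.nd (nat_lit 78) (nat_lit 76) (nat_lit 0) (XT.lf (nat_lit 0) (nat_lit 68541696840) (nat_lit 152) (nat_lit 10506918930) (nat_lit 0) (nat_lit 6277104689) (nat_lit 8) (nat_lit 5) (nat_lit 10) (nat_lit 4) (nat_lit 8) (nat_lit 4) (nat_lit 322) (nat_lit 256) (nat_lit 142)) (XT.lf (nat_lit 0) (nat_lit 6779905077) (nat_lit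 76) (nat_lit 72281461156) (nat_lit 76) (nat_lit 10005437247) (nat_lit 7) (nat_lit 4) (nat_lit 8) (nat_lit 5) (nat_lit 8) (nat_lit 4) (nat_lit 323) (nat_lit 256) (nat_lit 141))) (XT.nd (nat_lit 78) (nat_lit 76) (nat_lit 0) (XT.lf (nat_lit 0) (nat_lit 25289404474) (nat_lit 76) (nat_lit 64991869891) (nat_lit 76) (nat_lit 2704958594) (nat_lit 7) (nat_lit 4) (nat_lit 8) (nat_lit 5) (nat_lit 8) (nat_lit 4) (nat_lit 324) (nat_lit 256) (nat_lit 140)) (XT.lf (nat_lit 0) (nat_lit 4798204368) (nat_lit 152) (nat_lit 52460961282) (nat_lit 76) (nat_lit 39838779027) (nat_lit 6) (nat_lit 5) (nat_lit 8) (nat_lit 5) (nat_lit 7) (nat_lit 4) (nat_lit 325) (nat_lit 256) (nat_lit 139)))) (XT.nd (nat_lit 156) (nat_lit 76) (nat_lit 0) (XT.nd (nat_lit 78) (nat_lit 0) (nat_lit 0) (XT.lf (nat_lit 0) (nat_lit 12582219957) (nat_lit 152) (nat_lit 36513604507) (nat_lit 76) (nat_lit 52317374779) (nat_lit 6) (nat_lit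 5) (nat_lit 8) (nat_lit 5) (nat_lit 7) (nat_lit 4) (nat_lit 326) (nat_lit 256) (nat_lit 138)) (XT.lf (nat_lit 0) (nat_lit 20752197110) (nat_lit 152) (nat_lit 19774556278) (nat_lit 76) (nat_lit 65417629281) (nat_lit 6) (nat_lit 5) (nat_lit 8) (nat_lit 5) (nat_lit 7) (nat_lit 4) (nat_lit 327) (nat_lit 256) (nat_lit 137))) (XT.nd (nat_lit 78) (nat_lit 76) (nat_lit 0) (XT.lf (nat_lit 0) (nat_lit 29327588153) (nat_lit 152) (nat_lit 2203961720) (nat_lit 76) (nat_lit 79170733617) (nat_lit 6) (nat_lit 5) (nat_lit 8) (nat_lit 5) (nat_lit 7) (nat_lit 4) (nat_lit 328) (nat_lit 256) (nat_lit 136)) (XT.nd (nat_lit 78) (nat_lit 0) (nat_lit 0) (XT.lf (nat_lit 0) (nat_lit 16776982118) (nat_lit 76) (nat_lit 21813764275) (nat_lit 152) (nat_lit 77094386862) (nat_lit 5) (nat_lit 5) (nat_lit 6) (nat_lit 5) (nat_lit 7) (nat_lit 4) (nat_lit 329) (nat_lit 256) (nat_lit 135)) (XT.lf (nat_lit 0) (nat_lit 36778424116)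 (nat_lit 76) (nat_lit 11573086343) (nat_lit 152) (nat_lit 72563896259) (nat_lit 5) (nat_lit 5) (nat_lit 6) (nat_lit 5) (nat_lit 7) (nat_lit 4) (nat_lit 330) (nat_lit 256) (nat_lit 134))))))))
noncomputable def xc163 : XT := (XT.nd (nat_lit 1404) (nat_lit 76) (nat_lit 0) (XT.nd (nat_lit 702) (nat_lit 152) (nat_lit 0) (XT.nd (nat_lit 312) (nat_lit 76) (nat_lit 0) (XT.nd (nat_lit 156) (nat_lit 0) (nat_lit 0) (XT.nd (nat_lit 78) (nat_lit 0) (nat_lit 0) (XT.lf (nat_lit 0) (nat_lit 57775113827) (nat_lit 76) (nat_lit 822458668) (nat_lit 152) (nat_lit 67809761803) (nat_lit 5) (nat_lit 5) (nat_lit 6) (nat_lit 5) (nat_lit 7) (nat_lit 4) (nat_lit 331) (nat_lit 256) (nat_lit 133)) (XT.lf (nat_lit 0) (nat_lit 69516695812) (nat_lit 152) (nat_lit 52520316570) (nat_lit 0) (nat_lit 10128811238) (nat_lit 5) (nat_lit 5) (nat_lit 7) (nat_lit 4) (nat_lit 5) (nat_lit 4) (nat_lit 332) (nat_lit 256) (nat_lit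 132))) (XT.nd (nat_lit 78) (nat_lit 0) (nat_lit 0) (XT.lf (nat_lit 0) (nat_lit 80992743236) (nat_lit 152) (nat_lit 35620774136) (nat_lit 0) (nat_lit 21598174751) (nat_lit 5) (nat_lit 5) (nat_lit 7) (nat_lit 4) (nat_lit 5) (nat_lit 4) (nat_lit 333) (nat_lit 256) (nat_lit 131)) (XT.lf (nat_lit 0) (nat_lit 93040197807) (nat_lit 152) (nat_lit 17880515281) (nat_lit 0) (nat_lit 33639263691) (nat_lit 5) (nat_lit 5) (nat_lit 7) (nat_lit 4) (nat_lit 5) (nat_lit 4) (nat_lit 334) (nat_lit 256) (nat_lit 130)))) (XT.nd (nat_lit 156) (nat_lit 0) (nat_lit 0) (XT.nd (nat_lit 78) (nat_lit 0) (nat_lit 0) (XT.lf (nat_lit 0) (nat_lit 767255680) (nat_lit 76) (nat_lit 104932467270) (nat_lit 76) (nat_lit 45525470649) (nat_lit 4) (nat_lit 4) (nat_lit 5) (nat_lit 5) (nat_lit 5) (nat_lit 4) (nat_lit 335) (nat_lit 256) (nat_lit 129)) (XT.lf (nat_lit 0) (nat_lit 20964193945) (nat_lit 76) (nat_lit 98328610714)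 (nat_lit 76) (nat_lit 38915840278) (nat_lit 4) (nat_lit 4) (nat_lit 5) (nat_lit 5) (nat_lit 5) (nat_lit 4) (nat_lit 336) (nat_lit 256) (nat_lit 128))) (XT.nd (nat_lit 78) (nat_lit 0) (nat_lit 0) (XT.lf (nat_lit 0) (nat_lit 42167176874) (nat_lit 76) (nat_lit 91396235128) (nat_lit 76) (nat_lit 31977965822) (nat_lit 4) (nat_lit 4) (nat_lit 5) (nat_lit 5) (nat_lit 5) (nat_lit 4) (nat_lit 337) (nat_lit 256) (nat_lit 127)) (XT.nd (nat_lit 78) (nat_lit 0) (nat_lit 0) (XT.lf (nat_lit 0) (nat_lit 64426687761) (nat_lit 76) (nat_lit 84118834858) (nat_lit 76) (nat_lit 24695328533) (nat_lit 4) (nat_lit 4) (nat_lit 5) (nat_lit 5) (nat_lit 5) (nat_lit 4) (nat_lit 338) (nat_lit 256) (nat_lit 126)) (XT.lf (nat_lit 0) (nat_lit 87795725441) (nat_lit 76) (nat_lit 76479082760) (nat_lit 76) (nat_lit 17050588797) (nat_lit 4) (nat_lit 4) (nat_lit 5) (nat_lit 5) (nat_lit 5) (nat_lit 4) (nat_lit 339) (nat_lit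 256) (nat_lit 125)))))) (XT.nd (nat_lit 312) (nat_lit 76) (nat_lit 0) (XT.nd (nat_lit 156) (nat_lit 76) (nat_lit 0) (XT.nd (nat_lit 78) (nat_lit 0) (nat_lit 0) (XT.lf (nat_lit 0) (nat_lit 112329930479) (nat_lit 76) (nat_lit 68458788948) (nat_lit 76) (nat_lit 9025544853) (nat_lit 4) (nat_lit 4) (nat_lit 5) (nat_lit 5) (nat_lit 5) (nat_lit 4) (nat_lit 340) (nat_lit 256) (nat_lit 124)) (XT.lf (nat_lit 0) (nat_lit 138087717651) (nat_lit 76) (nat_lit 60038857484) (nat_lit 76) (nat_lit 601089454) (nat_lit 4) (nat_lit 4) (nat_lit 5) (nat_lit 5) (nat_lit 5) (nat_lit 4) (nat_lit 341) (nat_lit 256) (nat_lit 123))) (XT.nd (nat_lit 78) (nat_lit 0) (nat_lit 0) (XT.lf (nat_lit 0) (nat_lit 7979013408) (nat_lit 152) (nat_lit 43085099051) (nat_lit 76) (nat_lit 157016273158) (nat_lit 3) (nat_lit 5) (nat_lit 5) (nat_lit 5) (nat_lit 4) (nat_lit 4) (nat_lit 342) (nat_lit 256) (nat_lit 122)) (XT.lf (nat_lit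 0) (nat_lit 16966304698) (nat_lit 152) (nat_lit 24665255249) (nat_lit 76) (nat_lit 176268772683) (nat_lit 3) (nat_lit 5) (nat_lit 5) (nat_lit 5) (nat_lit 4) (nat_lit 4) (nat_lit 343) (nat_lit 256) (nat_lit 121)))) (XT.nd (nat_lit 156) (nat_lit 0) (nat_lit 0) (XT.nd (nat_lit 78) (nat_lit 76) (nat_lit 0) (XT.lf (nat_lit 0) (nat_lit 26401421343) (nat_lit 152) (nat_lit 5327174071) (nat_lit 76) (nat_lit 196482760273) (nat_lit 3) (nat_lit 5) (nat_lit 5) (nat_lit 5) (nat_lit 4) (nat_lit 4) (nat_lit 344) (nat_lit 256) (nat_lit 120)) (XT.lf (nat_lit 0) (nat_lit 15470334862) (nat_lit 76) (nat_lit 21078028328) (nat_lit 152) (nat_lit 202477564891) (nat_lit 2) (nat_lit 5) (nat_lit 3) (nat_lit 5) (nat_lit 4) (nat_lit 4) (nat_lit 345) (nat_lit 256) (nat_lit 119))) (XT.nd (nat_lit 78) (nat_lit 0) (nat_lit 0) (XT.lf (nat_lit 0) (nat_lit 37490085381) (nat_lit 76) (nat_lit 9801348609) (nat_lit 152) (nat_lit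 203085357584) (nat_lit 2) (nat_lit 5) (nat_lit 3) (nat_lit 5) (nat_lit 4) (nat_lit 4) (nat_lit 346) (nat_lit 256) (nat_lit 118)) (XT.nd (nat_lit 78) (nat_lit 0) (nat_lit 0) (XT.lf (nat_lit 0) (nat_lit 58602110379) (nat_lit 152) (nat_lit 201718723167) (nat_lit 0) (nat_lit 1972843590) (nat_lit 2) (nat_lit 5) (nat_lit 4) (nat_lit 4) (nat_lit 2) (nat_lit 4) (nat_lit 347) (nat_lit 256) (nat_lit 117)) (XT.lf (nat_lit 0) (nat_lit 70637679354) (nat_lit 152) (nat_lit 190155410523) (nat_lit 0) (nat_lit 14005350588) (nat_lit 2) (nat_lit 5) (nat_lit 4) (nat_lit 4) (nat_lit 2) (nat_lit 4) (nat_lit 348) (nat_lit 256) (nat_lit 116))))))) (XT.nd (nat_lit 702) (nat_lit 76) (nat_lit 0) (XT.nd (nat_lit 312) (nat_lit 0) (nat_lit 0) (XT.nd (nat_lit 156) (nat_lit 0) (nat_lit 0) (XT.nd (nat_lit 78) (nat_lit 0) (nat_lit 0) (XT.lf (nat_lit 0) (nat_lit 83273770512) (nat_lit 152) (nat_lit 178016210043) (nat_lit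 0) (nat_lit 26638525578) (nat_lit 2) (nat_lit 5) (nat_lit 4) (nat_lit 4) (nat_lit 2) (nat_lit 4) (nat_lit 349) (nat_lit 256) (nat_lit 115)) (XT.lf (nat_lit 0) (nat_lit 96540469785) (nat_lit 152) (nat_lit 165272218868) (nat_lit 0) (nat_lit 39902447547) (nat_lit 2) (nat_lit 5) (nat_lit 4) (nat_lit 4) (nat_lit 2) (nat_lit 4) (nat_lit 350) (nat_lit 256) (nat_lit 114))) (XT.nd (nat_lit 78) (nat_lit 0) (nat_lit 0) (XT.lf (nat_lit 0) (nat_lit 110469364551) (nat_lit 152) (nat_lit 151893094164) (nat_lit 0) (nat_lit 53828697262) (nat_lit 2) (nat_lit 5) (nat_lit 4) (nat_lit 4) (nat_lit 2) (nat_lit 4) (nat_lit 351) (nat_lit 256) (nat_lit 113)) (XT.lf (nat_lit 0) (nat_lit 125093618846) (nat_lit 152) (nat_lit 137846980870) (nat_lit 0) (nat_lit 68450432460) (nat_lit 2) (nat_lit 5) (nat_lit 4) (nat_lit 4) (nat_lit 2) (nat_lit 4) (nat_lit 352) (nat_lit 256) (nat_lit 112)))) (XT.nd (nat_lit 156) (nat_lit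 0) (nat_lit 0) (XT.nd (nat_lit 78) (nat_lit 0) (nat_lit 0) (XT.lf (nat_lit 0) (nat_lit 140448052322) (nat_lit 152) (nat_lit 123100435861) (nat_lit 0) (nat_lit 83802466798) (nat_lit 2) (nat_lit 5) (nat_lit 4) (nat_lit 4) (nat_lit 2) (nat_lit 4) (nat_lit 353) (nat_lit 256) (nat_lit 111)) (XT.lf (nat_lit 0) (nat_lit 156569223155) (nat_lit 152) (nat_lit 107618348314) (nat_lit 0) (nat_lit 99921352736) (nat_lit 2) (nat_lit 5) (nat_lit 4) (nat_lit 4) (nat_lit 2) (nat_lit 4) (nat_lit 354) (nat_lit 256) (nat_lit 110))) (XT.nd (nat_lit 78) (nat_lit 0) (nat_lit 0) (XT.lf (nat_lit 0) (nat_lit 173495515085) (nat_lit 152) (nat_lit 91363856116) (nat_lit 0) (nat_lit 116845468576) (nat_lit 2) (nat_lit 5) (nat_lit 4) (nat_lit 4) (nat_lit 2) (nat_lit 4) (nat_lit 355) (nat_lit 256) (nat_lit 109)) (XT.nd (nat_lit 78) (nat_lit 0) (nat_lit 0) (XT.lf (nat_lit 0) (nat_lit 191267228806) (nat_lit 152) (nat_lit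 74298258096) (nat_lit 0) (nat_lit 134615109831) (nat_lit 2) (nat_lit 5) (nat_lit 4) (nat_lit 4) (nat_lit 2) (nat_lit 4) (nat_lit 356) (nat_lit 256) (nat_lit 108)) (XT.lf (nat_lit 0) (nat_lit 209926677923) (nat_lit 152) (nat_lit 56380921877) (nat_lit 0) (nat_lit 153272585171) (nat_lit 2) (nat_lit 5) (nat_lit 4) (nat_lit 4) (nat_lit 2) (nat_lit 4) (nat_lit 357) (nat_lit 256) (nat_lit 107)))))) (XT.nd (nat_lit 29718) (nat_lit 0) (nat_lit 5776) (XT.nd (nat_lit 156) (nat_lit 76) (nat_lit 0) (XT.nd (nat_lit 78) (nat_lit 0) (nat_lit 0) (XT.lf (nat_lit 0) (nat_lit 229518289697) (nat_lit 152) (nat_lit 37569187135) (nat_lit 0) (nat_lit 172862317155) (nat_lit 2) (nat_lit 5) (nat_lit 4) (nat_lit 4) (nat_lit 2) (nat_lit 4) (nat_lit 358) (nat_lit 256) (nat_lit 106)) (XT.lf (nat_lit 0) (nat_lit 250088710820) (nat_lit 152) (nat_lit 17818264025) (nat_lit 0) (nat_lit 193430948004) (nat_lit 2) (nat_lit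 5) (nat_lit 4) (nat_lit 4) (nat_lit 2) (nat_lit 4) (nat_lit 359) (nat_lit 256) (nat_lit 105))) (XT.nd (nat_lit 29484) (nat_lit 0) (nat_lit 5776) (XT.lf (nat_lit 0) (nat_lit 3015384597) (nat_lit 76) (nat_lit 268718612494) (nat_lit 76) (nat_lit 212059144655) (nat_lit 1) (nat_lit 4) (nat_lit 2) (nat_lit 5) (nat_lit 2) (nat_lit 4) (nat_lit 360) (nat_lit 256) (nat_lit 104)) (XT.lf (nat_lit 0) (nat_lit 2053859109) (nat_lit 684) (nat_lit 1449017112) (nat_lit 684) (nat_lit 1449017112) (nat_lit 77) (nat_lit 3) (nat_lit 86) (nat_lit 3) (nat_lit 86) (nat_lit 5) (nat_lit 257) (nat_lit 257) (nat_lit 206)))) (XT.nd (nat_lit 156) (nat_lit 0) (nat_lit 76) (XT.nd (nat_lit 78) (nat_lit 0) (nat_lit 76) (XT.lf (nat_lit 76) (nat_lit 1362943873) (nat_lit 0) (nat_lit 3516149365) (nat_lit 684) (nat_lit 5236322362) (nat_lit 78) (nat_lit 5) (nat_lit 77) (nat_lit 3) (nat_lit 86) (nat_lit 5) (nat_lit 258) (nat_lit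 257) (nat_lit 205)) (XT.lf (nat_lit 0) (nat_lit 5699737080) (nat_lit 608) (nat_lit 4425814288) (nat_lit 684) (nat_lit 211701664) (nat_lit 78) (nat_lit 5) (nat_lit 86) (nat_lit 5) (nat_lit 87) (nat_lit 5) (nat_lit 259) (nat_lit 257) (nat_lit 204))) (XT.nd (nat_lit 78) (nat_lit 0) (nat_lit 0) (XT.lf (nat_lit 76) (nat_lit 36795610) (nat_lit 0) (nat_lit 6543315885) (nat_lit 684) (nat_lit 3989290259) (nat_lit 79) (nat_lit 5) (nat_lit 78) (nat_lit 5) (nat_lit 87) (nat_lit 5) (nat_lit 260) (nat_lit 257) (nat_lit 203)) (XT.nd (nat_lit 78) (nat_lit 0) (nat_lit 76) (XT.lf (nat_lit 76) (nat_lit 4852659722) (nat_lit 0) (nat_lit 2688794751) (nat_lit 684) (nat_lit 3270002939) (nat_lit 79) (nat_lit 5) (nat_lit 78) (nat_lit 5) (nat_lit 87) (nat_lit 5) (nat_lit 261) (nat_lit 257) (nat_lit 202)) (XT.lf (nat_lit 0) (nat_lit 8536095274) (nat_lit 608) (nat_lit 1202083003) (nat_lit 684) (nat_lit 1328316031)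 (nat_lit 79) (nat_lit 5) (nat_lit 87) (nat_lit 5) (nat_lit 88) (nat_lit 5) (nat_lit 262) (nat_lit 257) (nat_lit 201))))))))
noncomputable def xc164 : XT := (XT.nd (nat_lit 1404) (nat_lit 1520) (nat_lit 0) (XT.nd (nat_lit 702) (nat_lit 1596) (nat_lit 0) (XT.nd (nat_lit 312) (nat_lit 608) (nat_lit 0) (XT.nd (nat_lit 156) (nat_lit 608) (nat_lit 0) (XT.nd (nat_lit 78) (nat_lit 0) (nat_lit 0) (XT.lf (nat_lit 76) (nat_lit 3848148908) (nat_lit 0) (nat_lit 5802212888) (nat_lit 684) (nat_lit 1680559892) (nat_lit 80) (nat_lit 5) (nat_lit 79) (nat_lit 5) (nat_lit 88) (nat_lit 5) (nat_lit 263) (nat_lit 257) (nat_lit 200)) (XT.lf (nat_lit 76) (nat_lit 9169598814) (nat_lit 0) (nat_lit 1638107542) (nat_lit 684) (nat_lit 801622823) (nat_lit 80) (nat_lit 5) (nat_lit 79) (nat_lit 5) (nat_lit 88) (nat_lit 5) (nat_lit 264) (nat_lit 257) (nat_lit 199))) (XT.nd (nat_lit 78) (nat_lit 0) (nat_lit 0) (XT.lf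 (nat_lit 0) (nat_lit 174586158) (nat_lit 684) (nat_lit 9020552147) (nat_lit 760) (nat_lit 2703678937) (nat_lit 71) (nat_lit 5) (nat_lit 80) (nat_lit 5) (nat_lit 81) (nat_lit 5) (nat_lit 265) (nat_lit 257) (nat_lit 198)) (XT.lf (nat_lit 0) (nat_lit 1210759872) (nat_lit 684) (nat_lit 3719038569) (nat_lit 760) (nat_lit 7270529183) (nat_lit 71) (nat_lit 5) (nat_lit 80) (nat_lit 5) (nat_lit 81) (nat_lit 5) (nat_lit 266) (nat_lit 257) (nat_lit 197)))) (XT.nd (nat_lit 156) (nat_lit 608) (nat_lit 0) (XT.nd (nat_lit 78) (nat_lit 0) (nat_lit 76) (XT.lf (nat_lit 76) (nat_lit 1884520351) (nat_lit 0) (nat_lit 414353599) (nat_lit 760) (nat_lit 10218137454) (nat_lit 72) (nat_lit 5) (nat_lit 71) (nat_lit 5) (nat_lit 81) (nat_lit 5) (nat_lit 267) (nat_lit 257) (nat_lit 196)) (XT.lf (nat_lit 0) (nat_lit 3544792157) (nat_lit 684) (nat_lit 5042158263) (nat_lit 76) (nat_lit 4257508520) (nat_lit 72) (nat_lit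 5) (nat_lit 81) (nat_lit 5) (nat_lit 73) (nat_lit 5) (nat_lit 268) (nat_lit 257) (nat_lit 195))) (XT.nd (nat_lit 78) (nat_lit 0) (nat_lit 0) (XT.lf (nat_lit 0) (nat_lit 823872373) (nat_lit 684) (nat_lit 4021958796) (nat_lit 760) (nat_lit 8342901190) (nat_lit 63) (nat_lit 5) (nat_lit 72) (nat_lit 5) (nat_lit 73) (nat_lit 5) (nat_lit 269) (nat_lit 257) (nat_lit 194)) (XT.nd (nat_lit 78) (nat_lit 0) (nat_lit 0) (XT.lf (nat_lit 0) (nat_lit 6284887993) (nat_lit 760) (nat_lit 6425583613) (nat_lit 76) (nat_lit 836189788) (nat_lit 63) (nat_lit 5) (nat_lit 73) (nat_lit 5) (nat_lit 64) (nat_lit 5) (nat_lit 270) (nat_lit 257) (nat_lit 193)) (XT.lf (nat_lit 0) (nat_lit 7837195916) (nat_lit 760) (nat_lit 278561825) (nat_lit 76) (nat_lit 5804750168) (nat_lit 63) (nat_lit 5) (nat_lit 73) (nat_lit 5) (nat_lit 64) (nat_lit 5) (nat_lit 271) (nat_lit 257) (nat_lit 192)))))) (XT.nd (nat_lit 312) (nat_lit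 912) (nat_lit 0) (XT.nd (nat_lit 156) (nat_lit 380) (nat_lit 0) (XT.nd (nat_lit 78) (nat_lit 0) (nat_lit 0) (XT.lf (nat_lit 0) (nat_lit 6357102161) (nat_lit 304) (nat_lit 3185806881) (nat_lit 380) (nat_lit 4766430069) (nat_lit 59) (nat_lit 5) (nat_lit 63) (nat_lit 5) (nat_lit 64) (nat_lit 5) (nat_lit 272) (nat_lit 257) (nat_lit 191)) (XT.lf (nat_lit 0) (nat_lit 11347110018) (nat_lit 380) (nat_lit 1437356409) (nat_lit 76) (nat_lit 1932563287) (nat_lit 59) (nat_lit 5) (nat_lit 64) (nat_lit 5) (nat_lit 60) (nat_lit 5) (nat_lit 273) (nat_lit 257) (nat_lit 190))) (XT.nd (nat_lit 78) (nat_lit 0) (nat_lit 0) (XT.lf (nat_lit 0) (nat_lit 5505299133) (nat_lit 380) (nat_lit 7852808813) (nat_lit 456) (nat_lit 1781241796) (nat_lit 54) (nat_lit 5) (nat_lit 59) (nat_lit 5) (nat_lit 60) (nat_lit 5) (nat_lit 274) (nat_lit 257) (nat_lit 189)) (XT.lf (nat_lit 0) (nat_lit 12823396561) (nat_lit 380) (nat_lit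 2649700046) (nat_lit 456) (nat_lit 109587827) (nat_lit 54) (nat_lit 5) (nat_lit 59) (nat_lit 5) (nat_lit 60) (nat_lit 5) (nat_lit 275) (nat_lit 257) (nat_lit 188)))) (XT.nd (nat_lit 156) (nat_lit 532) (nat_lit 0) (XT.nd (nat_lit 78) (nat_lit 0) (nat_lit 0) (XT.lf (nat_lit 0) (nat_lit 1689344760) (nat_lit 380) (nat_lit 11531813760) (nat_lit 76) (nat_lit 2820988464) (nat_lit 49) (nat_lit 5) (nat_lit 54) (nat_lit 5) (nat_lit 50) (nat_lit 5) (nat_lit 276) (nat_lit 257) (nat_lit 187)) (XT.lf (nat_lit 0) (nat_lit 3645796167) (nat_lit 380) (nat_lit 4350994726) (nat_lit 76) (nat_lit 8524200266) (nat_lit 49) (nat_lit 5) (nat_lit 54) (nat_lit 5) (nat_lit 50) (nat_lit 5) (nat_lit 277) (nat_lit 257) (nat_lit 186))) (XT.nd (nat_lit 78) (nat_lit 228) (nat_lit 0) (XT.lf (nat_lit 0) (nat_lit 3272678170) (nat_lit 304) (nat_lit 2459746142) (nat_lit 380) (nat_lit 11289793691) (nat_lit 45) (nat_lit 5)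 (nat_lit 49) (nat_lit 5) (nat_lit 50) (nat_lit 5) (nat_lit 278) (nat_lit 257) (nat_lit 185)) (XT.nd (nat_lit 78) (nat_lit 228) (nat_lit 0) (XT.lf (nat_lit 0) (nat_lit 8032437261) (nat_lit 380) (nat_lit 6191327786) (nat_lit 76) (nat_lit 3319343873) (nat_lit 45) (nat_lit 5) (nat_lit 50) (nat_lit 5) (nat_lit 46) (nat_lit 5) (nat_lit 279) (nat_lit 257) (nat_lit 184)) (XT.lf (nat_lit 0) (nat_lit 1739654130) (nat_lit 228) (nat_lit 8757939906) (nat_lit 304) (nat_lit 7589995946) (nat_lit 42) (nat_lit 5) (nat_lit 45) (nat_lit 5) (nat_lit 46) (nat_lit 5) (nat_lit 280) (nat_lit 257) (nat_lit 183))))))) (XT.nd (nat_lit 702) (nat_lit 608) (nat_lit 0) (XT.nd (nat_lit 312) (nat_lit 608) (nat_lit 0) (XT.nd (nat_lit 156) (nat_lit 304) (nat_lit 0) (XT.nd (nat_lit 78) (nat_lit 0) (nat_lit 0) (XT.lf (nat_lit 0) (nat_lit 10261967835) (nat_lit 228) (nat_lit 2912063477) (nat_lit 304) (nat_lit 5480912903)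 (nat_lit 42) (nat_lit 5) (nat_lit 45) (nat_lit 5) (nat_lit 46) (nat_lit 5) (nat_lit 281) (nat_lit 257) (nat_lit 182)) (XT.lf (nat_lit 0) (nat_lit 16018580397) (nat_lit 304) (nat_lit 110643141) (nat_lit 76) (nat_lit 3119775979) (nat_lit 42) (nat_lit 5) (nat_lit 46) (nat_lit 5) (nat_lit 43) (nat_lit 5) (nat_lit 282) (nat_lit 257) (nat_lit 181))) (XT.nd (nat_lit 78) (nat_lit 76) (nat_lit 0) (XT.lf (nat_lit 0) (nat_lit 8800692135) (nat_lit 228) (nat_lit 10374494041) (nat_lit 304) (nat_lit 689125523) (nat_lit 39) (nat_lit 5) (nat_lit 42) (nat_lit 5) (nat_lit 43) (nat_lit 5) (nat_lit 283) (nat_lit 257) (nat_lit 180)) (XT.lf (nat_lit 0) (nat_lit 1902627108) (nat_lit 304) (nat_lit 2399080791) (nat_lit 76) (nat_lit 16207840753) (nat_lit 38) (nat_lit 5) (nat_lit 42) (nat_lit 5) (nat_lit 39) (nat_lit 5) (nat_lit 284) (nat_lit 257) (nat_lit 179)))) (XT.nd (nat_lit 156) (nat_lit 380) (nat_lit 0)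 (XT.nd (nat_lit 78) (nat_lit 0) (nat_lit 0) (XT.lf (nat_lit 0) (nat_lit 4728212068) (nat_lit 304) (nat_lit 14326619339) (nat_lit 76) (nat_lit 2125320369) (nat_lit 35) (nat_lit 5) (nat_lit 39) (nat_lit 5) (nat_lit 36) (nat_lit 5) (nat_lit 285) (nat_lit 257) (nat_lit 178)) (XT.lf (nat_lit 0) (nat_lit 7792793797) (nat_lit 304) (nat_lit 5320122202) (nat_lit 76) (nat_lit 8766520677) (nat_lit 35) (nat_lit 5) (nat_lit 39) (nat_lit 5) (nat_lit 36) (nat_lit 5) (nat_lit 286) (nat_lit 257) (nat_lit 177))) (XT.nd (nat_lit 78) (nat_lit 152) (nat_lit 0) (XT.lf (nat_lit 0) (nat_lit 4255030422) (nat_lit 228) (nat_lit 6808580536) (nat_lit 304) (nat_lit 11547460254) (nat_lit 32) (nat_lit 5) (nat_lit 35) (nat_lit 5) (nat_lit 36) (nat_lit 5) (nat_lit 287) (nat_lit 257) (nat_lit 176)) (XT.nd (nat_lit 78) (nat_lit 152) (nat_lit 0) (XT.lf (nat_lit 0) (nat_lit 14476074408) (nat_lit 228) (nat_lit 98931875)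 (nat_lit 304) (nat_lit 8800463341) (nat_lit 32) (nat_lit 5) (nat_lit 35) (nat_lit 5) (nat_lit 36) (nat_lit 5) (nat_lit 288) (nat_lit 257) (nat_lit 175)) (XT.lf (nat_lit 0) (nat_lit 934214051) (nat_lit 152) (nat_lit 17438286073) (nat_lit 228) (nat_lit 5800093782) (nat_lit 30) (nat_lit 5) (nat_lit 32) (nat_lit 5) (nat_lit 33) (nat_lit 5) (nat_lit 289) (nat_lit 257) (nat_lit 174)))))) (XT.nd (nat_lit 312) (nat_lit 304) (nat_lit 0) (XT.nd (nat_lit 156) (nat_lit 228) (nat_lit 0) (XT.nd (nat_lit 78) (nat_lit 76) (nat_lit 0) (XT.lf (nat_lit 0) (nat_lit 11549754946) (nat_lit 152) (nat_lit 10950247873) (nat_lit 228) (nat_lit 2502595725) (nat_lit 30) (nat_lit 5) (nat_lit 32) (nat_lit 5) (nat_lit 33) (nat_lit 5) (nat_lit 290) (nat_lit 257) (nat_lit 173)) (XT.lf (nat_lit 0) (nat_lit 917242593) (nat_lit 228) (nat_lit 3209662847) (nat_lit 76) (nat_lit 21747067502) (nat_lit 29) (nat_lit 5) (nat_lit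 32) (nat_lit 5) (nat_lit 30) (nat_lit 5) (nat_lit 291) (nat_lit 257) (nat_lit 172))) (XT.nd (nat_lit 78) (nat_lit 0) (nat_lit 0) (XT.lf (nat_lit 0) (nat_lit 4583509458) (nat_lit 304) (nat_lit 19095011616) (nat_lit 76) (nat_lit 3100393312) (nat_lit 26) (nat_lit 5) (nat_lit 30) (nat_lit 5) (nat_lit 27) (nat_lit 5) (nat_lit 292) (nat_lit 257) (nat_lit 171)) (XT.lf (nat_lit 0) (nat_lit 8544958932) (nat_lit 304) (nat_lit 8577451465) (nat_lit 76) (nat_lit 10601124422) (nat_lit 26) (nat_lit 5) (nat_lit 30) (nat_lit 5) (nat_lit 27) (nat_lit 5) (nat_lit 293) (nat_lit 257) (nat_lit 170)))) (XT.nd (nat_lit 156) (nat_lit 152) (nat_lit 0) (XT.nd (nat_lit 78) (nat_lit 0) (nat_lit 0) (XT.lf (nat_lit 0) (nat_lit 2531682981) (nat_lit 152) (nat_lit 10201816739) (nat_lit 228) (nat_lit 15980459782) (nat_lit 24) (nat_lit 5) (nat_lit 26) (nat_lit 5) (nat_lit 27) (nat_lit 5) (nat_lit 294) (nat_lit 257) (nat_lit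 169)) (XT.lf (nat_lit 0) (nat_lit 14478977829) (nat_lit 152) (nat_lit 2787510019) (nat_lit 228) (nat_lit 12480689573) (nat_lit 24) (nat_lit 5) (nat_lit 26) (nat_lit 5) (nat_lit 27) (nat_lit 5) (nat_lit 295) (nat_lit 257) (nat_lit 168))) (XT.nd (nat_lit 78) (nat_lit 152) (nat_lit 0) (XT.lf (nat_lit 0) (nat_lit 22094323312) (nat_lit 228) (nat_lit 3901249341) (nat_lit 76) (nat_lit 4833095612) (nat_lit 24) (nat_lit 5) (nat_lit 27) (nat_lit 5) (nat_lit 25) (nat_lit 5) (nat_lit 296) (nat_lit 257) (nat_lit 167)) (XT.nd (nat_lit 78) (nat_lit 0) (nat_lit 0) (XT.lf (nat_lit 0) (nat_lit 8237915958) (nat_lit 152) (nat_lit 19090589153) (nat_lit 228) (nat_lit 4627501691) (nat_lit 22) (nat_lit 5) (nat_lit 24) (nat_lit 5) (nat_lit 25) (nat_lit 5) (nat_lit 297) (nat_lit 257) (nat_lit 166)) (XT.lf (nat_lit 0) (nat_lit 21105609178) (nat_lit 152) (nat_lit 11775726175) (nat_lit 228) (nat_lit 255549830)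 (nat_lit 22) (nat_lit 5) (nat_lit 24) (nat_lit 5) (nat_lit 25) (nat_lit 5) (nat_lit 298) (nat_lit 257) (nat_lit 165))))))))
noncomputable def xc165 : XT := (XT.nd (nat_lit 1404) (nat_lit 304) (nat_lit 0) (XT.nd (nat_lit 702) (nat_lit 456) (nat_lit 0) (XT.nd (nat_lit 312) (nat_lit 152) (nat_lit 0) (XT.nd (nat_lit 156) (nat_lit 152) (nat_lit 0) (XT.nd (nat_lit 78) (nat_lit 0) (nat_lit 0) (XT.lf (nat_lit 0) (nat_lit 163921430) (nat_lit 152) (nat_lit 4026034105) (nat_lit 228) (nat_lit 30183800761) (nat_lit 19) (nat_lit 5) (nat_lit 21) (nat_lit 5) (nat_lit 22) (nat_lit 5) (nat_lit 299) (nat_lit 257) (nat_lit 164)) (XT.lf (nat_lit 0) (nat_lit 9111715110) (nat_lit 228) (nat_lit 22361103312) (nat_lit 76) (nat_lit 4186331898) (nat_lit 19) (nat_lit 5) (nat_lit 22) (nat_lit 5) (nat_lit 20) (nat_lit 5) (nat_lit 300) (nat_lit 257) (nat_lit 163))) (XT.nd (nat_lit 78) (nat_lit 152) (nat_lit 0) (XT.lf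 (nat_lit 0) (nat_lit 14337263128) (nat_lit 228) (nat_lit 9998965778) (nat_lit 76) (nat_lit 12669716476) (nat_lit 19) (nat_lit 5) (nat_lit 22) (nat_lit 5) (nat_lit 20) (nat_lit 5) (nat_lit 301) (nat_lit 257) (nat_lit 162)) (XT.lf (nat_lit 0) (nat_lit 3067033290) (nat_lit 152) (nat_lit 16797035388) (nat_lit 228) (nat_lit 18554028092) (nat_lit 17) (nat_lit 5) (nat_lit 19) (nat_lit 5) (nat_lit 20) (nat_lit 5) (nat_lit 302) (nat_lit 257) (nat_lit 161)))) (XT.nd (nat_lit 156) (nat_lit 152) (nat_lit 0) (XT.nd (nat_lit 78) (nat_lit 0) (nat_lit 0) (XT.lf (nat_lit 0) (nat_lit 17121264419) (nat_lit 152) (nat_lit 8707568358) (nat_lit 228) (nat_lit 14063956877) (nat_lit 17) (nat_lit 5) (nat_lit 19) (nat_lit 5) (nat_lit 20) (nat_lit 5) (nat_lit 303) (nat_lit 257) (nat_lit 160)) (XT.lf (nat_lit 0) (nat_lit 31866579098) (nat_lit 152) (nat_lit 217904501) (nat_lit 228) (nat_lit 9357115288) (nat_lit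 17) (nat_lit 5) (nat_lit 19) (nat_lit 5) (nat_lit 20) (nat_lit 5) (nat_lit 304) (nat_lit 257) (nat_lit 159))) (XT.nd (nat_lit 78) (nat_lit 76) (nat_lit 0) (XT.lf (nat_lit 0) (nat_lit 4270858109) (nat_lit 76) (nat_lit 34577446637) (nat_lit 152) (nat_lit 4209787906) (nat_lit 16) (nat_lit 5) (nat_lit 17) (nat_lit 5) (nat_lit 18) (nat_lit 4) (nat_lit 305) (nat_lit 257) (nat_lit 158)) (XT.nd (nat_lit 78) (nat_lit 0) (nat_lit 0) (XT.lf (nat_lit 0) (nat_lit 1318020648) (nat_lit 152) (nat_lit 25642172001) (nat_lit 76) (nat_lit 17786229909) (nat_lit 15) (nat_lit 5) (nat_lit 17) (nat_lit 5) (nat_lit 16) (nat_lit 5) (nat_lit 306) (nat_lit 257) (nat_lit 157)) (XT.lf (nat_lit 0) (nat_lit 6974048994) (nat_lit 152) (nat_lit 11919760097) (nat_lit 76) (nat_lit 27622255557) (nat_lit 15) (nat_lit 5) (nat_lit 17) (nat_lit 5) (nat_lit 16) (nat_lit 5) (nat_lit 307) (nat_lit 257) (nat_lit 156)))))) (XT.nd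 (nat_lit 312) (nat_lit 304) (nat_lit 0) (XT.nd (nat_lit 156) (nat_lit 0) (nat_lit 0) (XT.nd (nat_lit 78) (nat_lit 0) (nat_lit 0) (XT.lf (nat_lit 0) (nat_lit 2560347267) (nat_lit 152) (nat_lit 10386130297) (nat_lit 228) (nat_lit 35426042412) (nat_lit 13) (nat_lit 5) (nat_lit 15) (nat_lit 5) (nat_lit 16) (nat_lit 5) (nat_lit 308) (nat_lit 257) (nat_lit 155)) (XT.lf (nat_lit 0) (nat_lit 18168082213) (nat_lit 152) (nat_lit 1245081128) (nat_lit 228) (nat_lit 30898863485) (nat_lit 13) (nat_lit 5) (nat_lit 15) (nat_lit 5) (nat_lit 16) (nat_lit 5) (nat_lit 309) (nat_lit 257) (nat_lit 154))) (XT.nd (nat_lit 78) (nat_lit 0) (nat_lit 0) (XT.lf (nat_lit 0) (nat_lit 26327603973) (nat_lit 228) (nat_lit 17932685840) (nat_lit 76) (nat_lit 8082008221) (nat_lit 13) (nat_lit 5) (nat_lit 16) (nat_lit 5) (nat_lit 14) (nat_lit 4) (nat_lit 310) (nat_lit 257) (nat_lit 153)) (XT.lf (nat_lit 0) (nat_lit 33602469712)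 (nat_lit 228) (nat_lit 3040767359) (nat_lit 76) (nat_lit 17830120142) (nat_lit 13) (nat_lit 5) (nat_lit 16) (nat_lit 5) (nat_lit 14) (nat_lit 4) (nat_lit 311) (nat_lit 257) (nat_lit 152)))) (XT.nd (nat_lit 156) (nat_lit 228) (nat_lit 0) (XT.nd (nat_lit 78) (nat_lit 0) (nat_lit 0) (XT.lf (nat_lit 0) (nat_lit 13002880360) (nat_lit 76) (nat_lit 28435773504) (nat_lit 152) (nat_lit 15262445840) (nat_lit 12) (nat_lit 5) (nat_lit 13) (nat_lit 5) (nat_lit 14) (nat_lit 4) (nat_lit 312) (nat_lit 257) (nat_lit 151)) (XT.lf (nat_lit 0) (nat_lit 29945384787) (nat_lit 76) (nat_lit 19767443034) (nat_lit 152) (nat_lit 9325101144) (nat_lit 12) (nat_lit 5) (nat_lit 13) (nat_lit 5) (nat_lit 14) (nat_lit 4) (nat_lit 313) (nat_lit 257) (nat_lit 150))) (XT.nd (nat_lit 78) (nat_lit 228) (nat_lit 0) (XT.lf (nat_lit 0) (nat_lit 47726543717) (nat_lit 76) (nat_lit 10669103645) (nat_lit 152) (nat_lit 3096213747)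 (nat_lit 12) (nat_lit 5) (nat_lit 13) (nat_lit 5) (nat_lit 14) (nat_lit 4) (nat_lit 314) (nat_lit 257) (nat_lit 149)) (XT.nd (nat_lit 78) (nat_lit 0) (nat_lit 0) (XT.lf (nat_lit 0) (nat_lit 2341194082) (nat_lit 152) (nat_lit 1024334572) (nat_lit 228) (nat_lit 60698697886) (nat_lit 9) (nat_lit 5) (nat_lit 11) (nat_lit 5) (nat_lit 12) (nat_lit 5) (nat_lit 315) (nat_lit 257) (nat_lit 148)) (XT.lf (nat_lit 0) (nat_lit 10420514285) (nat_lit 228) (nat_lit 47227619711) (nat_lit 76) (nat_lit 9095835046) (nat_lit 9) (nat_lit 5) (nat_lit 12) (nat_lit 5) (nat_lit 10) (nat_lit 4) (nat_lit 316) (nat_lit 257) (nat_lit 147))))))) (XT.nd (nat_lit 702) (nat_lit 152) (nat_lit 0) (XT.nd (nat_lit 312) (nat_lit 76) (nat_lit 0) (XT.nd (nat_lit 156) (nat_lit 76) (nat_lit 0) (XT.nd (nat_lit 78) (nat_lit 0) (nat_lit 0) (XT.lf (nat_lit 0) (nat_lit 17840419632) (nat_lit 228) (nat_lit 32032133397) (nat_lit 76)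 (nat_lit 19684543915) (nat_lit 9) (nat_lit 5) (nat_lit 12) (nat_lit 5) (nat_lit 10) (nat_lit 4) (nat_lit 317) (nat_lit 257) (nat_lit 146)) (XT.lf (nat_lit 0) (nat_lit 25626918405) (nat_lit 228) (nat_lit 16084401054) (nat_lit 76) (nat_lit 30799788349) (nat_lit 9) (nat_lit 5) (nat_lit 12) (nat_lit 5) (nat_lit 10) (nat_lit 4) (nat_lit 318) (nat_lit 257) (nat_lit 145))) (XT.nd (nat_lit 78) (nat_lit 0) (nat_lit 0) (XT.lf (nat_lit 0) (nat_lit 675157361) (nat_lit 76) (nat_lit 33133933623) (nat_lit 152) (nat_lit 41803416952) (nat_lit 8) (nat_lit 5) (nat_lit 9) (nat_lit 5) (nat_lit 10) (nat_lit 4) (nat_lit 319) (nat_lit 257) (nat_lit 144)) (XT.lf (nat_lit 0) (nat_lit 18824053628) (nat_lit 76) (nat_lit 23844612944) (nat_lit 152) (nat_lit 36186902653) (nat_lit 8) (nat_lit 5) (nat_lit 9) (nat_lit 5) (nat_lit 10) (nat_lit 4) (nat_lit 320) (nat_lit 257) (nat_lit 143)))) (XT.nd (nat_lit 156) (nat_lit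 76) (nat_lit 0) (XT.nd (nat_lit 78) (nat_lit 0) (nat_lit 0) (XT.lf (nat_lit 0) (nat_lit 37873676466) (nat_lit 76) (nat_lit 14093637107) (nat_lit 152) (nat_lit 30293670966) (nat_lit 8) (nat_lit 5) (nat_lit 9) (nat_lit 5) (nat_lit 10) (nat_lit 4) (nat_lit 321) (nat_lit 257) (nat_lit 142)) (XT.lf (nat_lit 0) (nat_lit 57869382120) (nat_lit 76) (nat_lit 3857789501) (nat_lit 152) (nat_lit 24109690389) (nat_lit 8) (nat_lit 5) (nat_lit 9) (nat_lit 5) (nat_lit 10) (nat_lit 4) (nat_lit 322) (nat_lit 257) (nat_lit 141))) (XT.nd (nat_lit 78) (nat_lit 76) (nat_lit 0) (XT.lf (nat_lit 0) (nat_lit 72079008544) (nat_lit 152) (nat_lit 10840466289) (nat_lit 0) (nat_lit 6666864294) (nat_lit 8) (nat_lit 5) (nat_lit 10) (nat_lit 4) (nat_lit 8) (nat_lit 4) (nat_lit 323) (nat_lit 257) (nat_lit 140)) (XT.nd (nat_lit 78) (nat_lit 0) (nat_lit 0) (XT.lf (nat_lit 0) (nat_lit 7307605392) (nat_lit 76) (nat_lit 75814753331)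 (nat_lit 76) (nat_lit 10392240140) (nat_lit 7) (nat_lit 4) (nat_lit 8) (nat_lit 5) (nat_lit 8) (nat_lit 4) (nat_lit 324) (nat_lit 257) (nat_lit 139)) (XT.lf (nat_lit 0) (nat_lit 26733593804) (nat_lit 76) (nat_lit 68164529212) (nat_lit 76) (nat_lit 2732140839) (nat_lit 7) (nat_lit 4) (nat_lit 8) (nat_lit 5) (nat_lit 8) (nat_lit 4) (nat_lit 325) (nat_lit 257) (nat_lit 138)))))) (XT.nd (nat_lit 312) (nat_lit 76) (nat_lit 0) (XT.nd (nat_lit 156) (nat_lit 0) (nat_lit 0) (XT.nd (nat_lit 78) (nat_lit 0) (nat_lit 0) (XT.lf (nat_lit 0) (nat_lit 5137740213) (nat_lit 152) (nat_lit 54909425869) (nat_lit 76) (nat_lit 41900566197) (nat_lit 6) (nat_lit 5) (nat_lit 8) (nat_lit 5) (nat_lit 7) (nat_lit 4) (nat_lit 326) (nat_lit 257) (nat_lit 137)) (XT.lf (nat_lit 0) (nat_lit 13306212504) (nat_lit 152) (nat_lit 38173014753) (nat_lit 76) (nat_lit 54999765630) (nat_lit 6) (nat_lit 5) (nat_lit 8) (nat_lit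 5) (nat_lit 7) (nat_lit 4) (nat_lit 327) (nat_lit 257) (nat_lit 136))) (XT.nd (nat_lit 78) (nat_lit 0) (nat_lit 0) (XT.lf (nat_lit 0) (nat_lit 21880170346) (nat_lit 152) (nat_lit 20604931732) (nat_lit 76) (nat_lit 68751865138) (nat_lit 6) (nat_lit 5) (nat_lit 8) (nat_lit 5) (nat_lit 7) (nat_lit 4) (nat_lit 328) (nat_lit 257) (nat_lit 135)) (XT.lf (nat_lit 0) (nat_lit 30880027924) (nat_lit 152) (nat_lit 2163348034) (nat_lit 76) (nat_lit 83189607814) (nat_lit 6) (nat_lit 5) (nat_lit 8) (nat_lit 5) (nat_lit 7) (nat_lit 4) (nat_lit 329) (nat_lit 257) (nat_lit 134)))) (XT.nd (nat_lit 156) (nat_lit 0) (nat_lit 0) (XT.nd (nat_lit 78) (nat_lit 0) (nat_lit 0) (XT.lf (nat_lit 0) (nat_lit 17764210548) (nat_lit 76) (nat_lit 22840352032) (nat_lit 152) (nat_lit 80860507800) (nat_lit 5) (nat_lit 5) (nat_lit 6) (nat_lit 5) (nat_lit 7) (nat_lit 4) (nat_lit 330) (nat_lit 257) (nat_lit 133)) (XT.lf (nat_lit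 0) (nat_lit 38758658964) (nat_lit 76) (nat_lit 12090692606) (nat_lit 152) (nat_lit 76107711639) (nat_lit 5) (nat_lit 5) (nat_lit 6) (nat_lit 5) (nat_lit 7) (nat_lit 4) (nat_lit 331) (nat_lit 257) (nat_lit 132))) (XT.nd (nat_lit 78) (nat_lit 0) (nat_lit 0) (XT.lf (nat_lit 0) (nat_lit 60798453940) (nat_lit 76) (nat_lit 805440597) (nat_lit 152) (nat_lit 71119888528) (nat_lit 5) (nat_lit 5) (nat_lit 6) (nat_lit 5) (nat_lit 7) (nat_lit 4) (nat_lit 332) (nat_lit 257) (nat_lit 131)) (XT.nd (nat_lit 78) (nat_lit 0) (nat_lit 0) (XT.lf (nat_lit 0) (nat_lit 73066198374) (nat_lit 152) (nat_lit 55015289898) (nat_lit 0) (nat_lit 10688851923) (nat_lit 5) (nat_lit 5) (nat_lit 7) (nat_lit 4) (nat_lit 5) (nat_lit 4) (nat_lit 333) (nat_lit 257) (nat_lit 130)) (XT.lf (nat_lit 0) (nat_lit 85112540181) (nat_lit 152) (nat_lit 37277010462) (nat_lit 0) (nat_lit 22729131224) (nat_lit 5) (nat_lit 5) (nat_lit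 7) (nat_lit 4) (nat_lit 5) (nat_lit 4) (nat_lit 334) (nat_lit 257) (nat_lit 129))))))))
noncomputable def xc166 : XT := (XT.nd (nat_lit 1404) (nat_lit 0) (nat_lit 0) (XT.nd (nat_lit 702) (nat_lit 76) (nat_lit 0) (XT.nd (nat_lit 312) (nat_lit 76) (nat_lit 0) (XT.nd (nat_lit 156) (nat_lit 0) (nat_lit 0) (XT.nd (nat_lit 78) (nat_lit 76) (nat_lit 0) (XT.lf (nat_lit 0) (nat_lit 97759026538) (nat_lit 152) (nat_lit 18655681634) (nat_lit 0) (nat_lit 35369843767) (nat_lit 5) (nat_lit 5) (nat_lit 7) (nat_lit 4) (nat_lit 5) (nat_lit 4) (nat_lit 335) (nat_lit 257) (nat_lit 128)) (XT.lf (nat_lit 0) (nat_lit 922560787) (nat_lit 76) (nat_lit 110127611099) (nat_lit 76) (nat_lit 47732929457) (nat_lit 4) (nat_lit 4) (nat_lit 5) (nat_lit 5) (nat_lit 5) (nat_lit 4) (nat_lit 336) (nat_lit 257) (nat_lit 127))) (XT.nd (nat_lit 78) (nat_lit 0) (nat_lit 0) (XT.lf (nat_lit 0) (nat_lit 22123777283) (nat_lit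 76) (nat_lit 103196013121) (nat_lit 76) (nat_lit 40796094459) (nat_lit 4) (nat_lit 4) (nat_lit 5) (nat_lit 5) (nat_lit 5) (nat_lit 4) (nat_lit 337) (nat_lit 257) (nat_lit 126)) (XT.lf (nat_lit 0) (nat_lit 44381605852) (nat_lit 76) (nat_lit 95919353430) (nat_lit 76) (nat_lit 33514447130) (nat_lit 4) (nat_lit 4) (nat_lit 5) (nat_lit 5) (nat_lit 5) (nat_lit 4) (nat_lit 338) (nat_lit 257) (nat_lit 125)))) (XT.nd (nat_lit 156) (nat_lit 76) (nat_lit 0) (XT.nd (nat_lit 78) (nat_lit 0) (nat_lit 0) (XT.lf (nat_lit 0) (nat_lit 67749041325) (nat_lit 76) (nat_lit 88280306644) (nat_lit 76) (nat_lit 25870650213) (nat_lit 4) (nat_lit 4) (nat_lit 5) (nat_lit 5) (nat_lit 5) (nat_lit 4) (nat_lit 339) (nat_lit 257) (nat_lit 124)) (XT.lf (nat_lit 0) (nat_lit 92281720451) (nat_lit 76) (nat_lit 80260684558) (nat_lit 76) (nat_lit 17846504192) (nat_lit 4) (nat_lit 4) (nat_lit 5) (nat_lit 5) (nat_lit 5) (nat_lit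 4) (nat_lit 340) (nat_lit 257) (nat_lit 123))) (XT.nd (nat_lit 78) (nat_lit 76) (nat_lit 0) (XT.lf (nat_lit 0) (nat_lit 118038054373) (nat_lit 76) (nat_lit 71841392833) (nat_lit 76) (nat_lit 9422903958) (nat_lit 4) (nat_lit 4) (nat_lit 5) (nat_lit 5) (nat_lit 5) (nat_lit 4) (nat_lit 341) (nat_lit 257) (nat_lit 122)) (XT.nd (nat_lit 78) (nat_lit 76) (nat_lit 0) (XT.lf (nat_lit 0) (nat_lit 145079367695) (nat_lit 76) (nat_lit 63002385537) (nat_lit 76) (nat_lit 579793320) (nat_lit 4) (nat_lit 4) (nat_lit 5) (nat_lit 5) (nat_lit 5) (nat_lit 4) (nat_lit 342) (nat_lit 257) (nat_lit 121)) (XT.lf (nat_lit 0) (nat_lit 8425304142) (nat_lit 152) (nat_lit 45154626669) (nat_lit 76) (nat_lit 164902053751) (nat_lit 3) (nat_lit 5) (nat_lit 5) (nat_lit 5) (nat_lit 4) (nat_lit 4) (nat_lit 343) (nat_lit 257) (nat_lit 120)))))) (XT.nd (nat_lit 312) (nat_lit 0) (nat_lit 0) (XT.nd (nat_lit 156) (nat_lit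 76) (nat_lit 0) (XT.nd (nat_lit 78) (nat_lit 0) (nat_lit 0) (XT.lf (nat_lit 0) (nat_lit 17859705708) (nat_lit 152) (nat_lit 25817825312) (nat_lit 76) (nat_lit 185115513160) (nat_lit 3) (nat_lit 5) (nat_lit 5) (nat_lit 5) (nat_lit 4) (nat_lit 4) (nat_lit 344) (nat_lit 257) (nat_lit 119)) (XT.lf (nat_lit 0) (nat_lit 27764431243) (nat_lit 152) (nat_lit 5516682585) (nat_lit 76) (nat_lit 206338614327) (nat_lit 3) (nat_lit 5) (nat_lit 5) (nat_lit 5) (nat_lit 4) (nat_lit 4) (nat_lit 345) (nat_lit 257) (nat_lit 118))) (XT.nd (nat_lit 78) (nat_lit 0) (nat_lit 0) (XT.lf (nat_lit 0) (nat_lit 16319462276) (nat_lit 76) (nat_lit 22098393695) (nat_lit 152) (nat_lit 212557218712) (nat_lit 2) (nat_lit 5) (nat_lit 3) (nat_lit 5) (nat_lit 4) (nat_lit 4) (nat_lit 346) (nat_lit 257) (nat_lit 117)) (XT.lf (nat_lit 0) (nat_lit 39436599813) (nat_lit 76) (nat_lit 10259476944) (nat_lit 152) (nat_lit 213197506965)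 (nat_lit 2) (nat_lit 5) (nat_lit 3) (nat_lit 5) (nat_lit 4) (nat_lit 4) (nat_lit 347) (nat_lit 257) (nat_lit 116)))) (XT.nd (nat_lit 156) (nat_lit 0) (nat_lit 0) (XT.nd (nat_lit 78) (nat_lit 0) (nat_lit 0) (XT.lf (nat_lit 0) (nat_lit 61570853733) (nat_lit 152) (nat_lit 211734603198) (nat_lit 0) (nat_lit 2100930383) (nat_lit 2) (nat_lit 5) (nat_lit 4) (nat_lit 4) (nat_lit 2) (nat_lit 4) (nat_lit 348) (nat_lit 257) (nat_lit 115)) (XT.lf (nat_lit 0) (nat_lit 74206361260) (nat_lit 152) (nat_lit 199596460927) (nat_lit 0) (nat_lit 14733660607) (nat_lit 2) (nat_lit 5) (nat_lit 4) (nat_lit 4) (nat_lit 2) (nat_lit 4) (nat_lit 349) (nat_lit 257) (nat_lit 114))) (XT.nd (nat_lit 78) (nat_lit 0) (nat_lit 0) (XT.lf (nat_lit 0) (nat_lit 87472504693) (nat_lit 152) (nat_lit 186853477572) (nat_lit 0) (nat_lit 27997158989) (nat_lit 2) (nat_lit 5) (nat_lit 4) (nat_lit 4) (nat_lit 2) (nat_lit 4) (nat_lit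 350) (nat_lit 257) (nat_lit 113)) (XT.nd (nat_lit 78) (nat_lit 0) (nat_lit 0) (XT.lf (nat_lit 0) (nat_lit 101400870089) (nat_lit 152) (nat_lit 173475312695) (nat_lit 0) (nat_lit 41923005288) (nat_lit 2) (nat_lit 5) (nat_lit 4) (nat_lit 4) (nat_lit 2) (nat_lit 4) (nat_lit 351) (nat_lit 257) (nat_lit 112)) (XT.lf (nat_lit 0) (nat_lit 116024620221) (nat_lit 152) (nat_lit 159430113522) (nat_lit 0) (nat_lit 56544356281) (nat_lit 2) (nat_lit 5) (nat_lit 4) (nat_lit 4) (nat_lit 2) (nat_lit 4) (nat_lit 352) (nat_lit 257) (nat_lit 111))))))) (XT.nd (nat_lit 30264) (nat_lit 0) (nat_lit 5168) (XT.nd (nat_lit 312) (nat_lit 0) (nat_lit 0) (XT.nd (nat_lit 156) (nat_lit 0) (nat_lit 0) (XT.nd (nat_lit 78) (nat_lit 0) (nat_lit 0) (XT.lf (nat_lit 0) (nat_lit 131378573543) (nat_lit 152) (nat_lit 144684439105) (nat_lit 0) (nat_lit 71896024709) (nat_lit 2) (nat_lit 5) (nat_lit 4) (nat_lit 4) (nat_lit 2)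 (nat_lit 4) (nat_lit 353) (nat_lit 257) (nat_lit 110)) (XT.lf (nat_lit 0) (nat_lit 147499287085) (nat_lit 152) (nat_lit 129203180693) (nat_lit 0) (nat_lit 88014562161) (nat_lit 2) (nat_lit 5) (nat_lit 4) (nat_lit 4) (nat_lit 2) (nat_lit 4) (nat_lit 354) (nat_lit 257) (nat_lit 109))) (XT.nd (nat_lit 78) (nat_lit 0) (nat_lit 0) (XT.lf (nat_lit 0) (nat_lit 164425143501) (nat_lit 152) (nat_lit 112949478147) (nat_lit 0) (nat_lit 104938346110) (nat_lit 2) (nat_lit 5) (nat_lit 4) (nat_lit 4) (nat_lit 2) (nat_lit 4) (nat_lit 355) (nat_lit 257) (nat_lit 108)) (XT.lf (nat_lit 0) (nat_lit 182196442446) (nat_lit 152) (nat_lit 95884632177) (nat_lit 0) (nat_lit 122707671278) (nat_lit 2) (nat_lit 5) (nat_lit 4) (nat_lit 4) (nat_lit 2) (nat_lit 4) (nat_lit 356) (nat_lit 257) (nat_lit 107)))) (XT.nd (nat_lit 156) (nat_lit 0) (nat_lit 0) (XT.nd (nat_lit 78) (nat_lit 0) (nat_lit 0) (XT.lf (nat_lit 0)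 (nat_lit 200855496539) (nat_lit 152) (nat_lit 77968012196) (nat_lit 0) (nat_lit 141364845583) (nat_lit 2) (nat_lit 5) (nat_lit 4) (nat_lit 4) (nat_lit 2) (nat_lit 4) (nat_lit 357) (nat_lit 257) (nat_lit 106)) (XT.lf (nat_lit 0) (nat_lit 220446732099) (nat_lit 152) (nat_lit 59156959586) (nat_lit 0) (nat_lit 160954290868) (nat_lit 2) (nat_lit 5) (nat_lit 4) (nat_lit 4) (nat_lit 2) (nat_lit 4) (nat_lit 358) (nat_lit 257) (nat_lit 105))) (XT.nd (nat_lit 29640) (nat_lit 0) (nat_lit 5700) (XT.lf (nat_lit 0) (nat_lit 241016794923) (nat_lit 152) (nat_lit 39406686125) (nat_lit 0) (nat_lit 181522648669) (nat_lit 2) (nat_lit 5) (nat_lit 4) (nat_lit 4) (nat_lit 2) (nat_lit 4) (nat_lit 359) (nat_lit 257) (nat_lit 104)) (XT.nd (nat_lit 78) (nat_lit 0) (nat_lit 0) (XT.lf (nat_lit 0) (nat_lit 2793846985) (nat_lit 684) (nat_lit 1185642082) (nat_lit 684) (nat_lit 1185642082) (nat_lit 77) (nat_lit 3)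 (nat_lit 86) (nat_lit 3) (nat_lit 86) (nat_lit 5) (nat_lit 258) (nat_lit 258) (nat_lit 204)) (XT.lf (nat_lit 76) (nat_lit 2091909745) (nat_lit 0) (nat_lit 4255350473) (nat_lit 684) (nat_lit 4207968679) (nat_lit 78) (nat_lit 5) (nat_lit 77) (nat_lit 3) (nat_lit 86) (nat_lit 5) (nat_lit 259) (nat_lit 258) (nat_lit 203)))))) (XT.nd (nat_lit 312) (nat_lit 532) (nat_lit 0) (XT.nd (nat_lit 156) (nat_lit 0) (nat_lit 76) (XT.nd (nat_lit 78) (nat_lit 0) (nat_lit 76) (XT.lf (nat_lit 76) (nat_lit 6840126338) (nat_lit 0) (nat_lit 306928819) (nat_lit 684) (nat_lit 3644423140) (nat_lit 78) (nat_lit 5) (nat_lit 77) (nat_lit 3) (nat_lit 86) (nat_lit 5) (nat_lit 260) (nat_lit 258) (nat_lit 202)) (XT.lf (nat_lit 76) (nat_lit 727881339) (nat_lit 0) (nat_lit 7294415082) (nat_lit 684) (nat_lit 3015610906) (nat_lit 79) (nat_lit 5) (nat_lit 78) (nat_lit 5) (nat_lit 87) (nat_lit 5) (nat_lit 261) (nat_lit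 258) (nat_lit 201))) (XT.nd (nat_lit 78) (nat_lit 0) (nat_lit 76) (XT.lf (nat_lit 76) (nat_lit 5751717420) (nat_lit 0) (nat_lit 3226980587) (nat_lit 684) (nat_lit 2316223213) (nat_lit 79) (nat_lit 5) (nat_lit 78) (nat_lit 5) (nat_lit 87) (nat_lit 5) (nat_lit 262) (nat_lit 258) (nat_lit 200)) (XT.lf (nat_lit 0) (nat_lit 9966583088) (nat_lit 608) (nat_lit 576627741) (nat_lit 684) (nat_lit 1022518783) (nat_lit 79) (nat_lit 5) (nat_lit 87) (nat_lit 5) (nat_lit 88) (nat_lit 5) (nat_lit 263) (nat_lit 258) (nat_lit 199)))) (XT.nd (nat_lit 156) (nat_lit 0) (nat_lit 76) (XT.nd (nat_lit 78) (nat_lit 684) (nat_lit 0) (XT.lf (nat_lit 76) (nat_lit 4715058356) (nat_lit 0) (nat_lit 6384241016) (nat_lit 684) (nat_lit 746128133) (nat_lit 80) (nat_lit 5) (nat_lit 79) (nat_lit 5) (nat_lit 88) (nat_lit 5) (nat_lit 264) (nat_lit 258) (nat_lit 198)) (XT.lf (nat_lit 0) (nat_lit 124152658) (nat_lit 684) (nat_lit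 1871774325) (nat_lit 760) (nat_lit 10144206370) (nat_lit 70) (nat_lit 5) (nat_lit 79) (nat_lit 5) (nat_lit 80) (nat_lit 5) (nat_lit 265) (nat_lit 258) (nat_lit 197))) (XT.nd (nat_lit 78) (nat_lit 0) (nat_lit 0) (XT.lf (nat_lit 0) (nat_lit 1084191258) (nat_lit 684) (nat_lit 8753524641) (nat_lit 760) (nat_lit 2607785550) (nat_lit 71) (nat_lit 5) (nat_lit 80) (nat_lit 5) (nat_lit 81) (nat_lit 5) (nat_lit 266) (nat_lit 258) (nat_lit 196)) (XT.nd (nat_lit 78) (nat_lit 0) (nat_lit 0) (XT.lf (nat_lit 0) (nat_lit 2129274810) (nat_lit 684) (nat_lit 3221128484) (nat_lit 760) (nat_lit 7413981991) (nat_lit 71) (nat_lit 5) (nat_lit 80) (nat_lit 5) (nat_lit 81) (nat_lit 5) (nat_lit 267) (nat_lit 258) (nat_lit 195)) (XT.lf (nat_lit 76) (nat_lit 2651578350) (nat_lit 0) (nat_lit 589864990) (nat_lit 760) (nat_lit 9857123185) (nat_lit 72) (nat_lit 5) (nat_lit 71) (nat_lit 5) (nat_lit 81) (nat_lit 5)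 (nat_lit 268) (nat_lit 258) (nat_lit 194))))))))
noncomputable def xc167 : XT := (XT.nd (nat_lit 1404) (nat_lit 1368) (nat_lit 0) (XT.nd (nat_lit 702) (nat_lit 1064) (nat_lit 0) (XT.nd (nat_lit 312) (nat_lit 760) (nat_lit 0) (XT.nd (nat_lit 156) (nat_lit 304) (nat_lit 0) (XT.nd (nat_lit 78) (nat_lit 684) (nat_lit 0) (XT.lf (nat_lit 0) (nat_lit 4507945030) (nat_lit 684) (nat_lit 4608985992) (nat_lit 76) (nat_lit 4327679807) (nat_lit 72) (nat_lit 5) (nat_lit 81) (nat_lit 5) (nat_lit 73) (nat_lit 5) (nat_lit 269) (nat_lit 258) (nat_lit 193)) (XT.lf (nat_lit 0) (nat_lit 1539293270) (nat_lit 684) (nat_lit 4307844859) (nat_lit 760) (nat_lit 7960436845) (nat_lit 63) (nat_lit 5) (nat_lit 72) (nat_lit 5) (nat_lit 73) (nat_lit 5) (nat_lit 270) (nat_lit 258) (nat_lit 192))) (XT.nd (nat_lit 78) (nat_lit 304) (nat_lit 0) (XT.lf (nat_lit 0) (nat_lit 7320743461) (nat_lit 760) (nat_lit 6064819878)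 (nat_lit 76) (nat_lit 799833207) (nat_lit 63) (nat_lit 5) (nat_lit 73) (nat_lit 5) (nat_lit 64) (nat_lit 5) (nat_lit 271) (nat_lit 258) (nat_lit 191)) (XT.lf (nat_lit 0) (nat_lit 368881269) (nat_lit 304) (nat_lit 8553182350) (nat_lit 380) (nat_lit 5657421802) (nat_lit 59) (nat_lit 5) (nat_lit 63) (nat_lit 5) (nat_lit 64) (nat_lit 5) (nat_lit 272) (nat_lit 258) (nat_lit 190)))) (XT.nd (nat_lit 156) (nat_lit 760) (nat_lit 0) (XT.nd (nat_lit 78) (nat_lit 0) (nat_lit 0) (XT.lf (nat_lit 0) (nat_lit 7314045101) (nat_lit 304) (nat_lit 3370509855) (nat_lit 380) (nat_lit 4304742763) (nat_lit 59) (nat_lit 5) (nat_lit 63) (nat_lit 5) (nat_lit 64) (nat_lit 5) (nat_lit 273) (nat_lit 258) (nat_lit 189)) (XT.lf (nat_lit 0) (nat_lit 12546945234) (nat_lit 380) (nat_lit 866373808) (nat_lit 76) (nat_lit 2005763578) (nat_lit 59) (nat_lit 5) (nat_lit 64) (nat_lit 5) (nat_lit 60) (nat_lit 5) (nat_lit 274)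 (nat_lit 258) (nat_lit 188))) (XT.nd (nat_lit 78) (nat_lit 380) (nat_lit 0) (XT.lf (nat_lit 0) (nat_lit 6413045955) (nat_lit 380) (nat_lit 8225203836) (nat_lit 456) (nat_lit 1225384573) (nat_lit 54) (nat_lit 5) (nat_lit 59) (nat_lit 5) (nat_lit 60) (nat_lit 5) (nat_lit 275) (nat_lit 258) (nat_lit 187)) (XT.nd (nat_lit 78) (nat_lit 304) (nat_lit 0) (XT.lf (nat_lit 0) (nat_lit 483166000) (nat_lit 456) (nat_lit 2271555048) (nat_lit 76) (nat_lit 13575581420) (nat_lit 53) (nat_lit 5) (nat_lit 59) (nat_lit 5) (nat_lit 54) (nat_lit 5) (nat_lit 276) (nat_lit 258) (nat_lit 186)) (XT.lf (nat_lit 0) (nat_lit 2350227684) (nat_lit 380) (nat_lit 11464580043) (nat_lit 76) (nat_lit 2998836777) (nat_lit 49) (nat_lit 5) (nat_lit 54) (nat_lit 5) (nat_lit 50) (nat_lit 5) (nat_lit 277) (nat_lit 258) (nat_lit 185)))))) (XT.nd (nat_lit 312) (nat_lit 532) (nat_lit 0) (XT.nd (nat_lit 156) (nat_lit 228) (nat_lit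 0) (XT.nd (nat_lit 78) (nat_lit 304) (nat_lit 0) (XT.lf (nat_lit 0) (nat_lit 4377053296) (nat_lit 380) (nat_lit 3955378362) (nat_lit 76) (nat_lit 8985456841) (nat_lit 49) (nat_lit 5) (nat_lit 54) (nat_lit 5) (nat_lit 50) (nat_lit 5) (nat_lit 278) (nat_lit 258) (nat_lit 184)) (XT.lf (nat_lit 0) (nat_lit 4039588403) (nat_lit 304) (nat_lit 2511701979) (nat_lit 380) (nat_lit 11293803563) (nat_lit 45) (nat_lit 5) (nat_lit 49) (nat_lit 5) (nat_lit 50) (nat_lit 5) (nat_lit 279) (nat_lit 258) (nat_lit 183))) (XT.nd (nat_lit 78) (nat_lit 228) (nat_lit 0) (XT.lf (nat_lit 0) (nat_lit 8942015175) (nat_lit 380) (nat_lit 5900511049) (nat_lit 76) (nat_lit 3550794895) (nat_lit 45) (nat_lit 5) (nat_lit 50) (nat_lit 5) (nat_lit 46) (nat_lit 5) (nat_lit 280) (nat_lit 258) (nat_lit 182)) (XT.lf (nat_lit 0) (nat_lit 2417336364) (nat_lit 228) (nat_lit 9098127518) (nat_lit 304) (nat_lit 7450384242) (nat_lit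 42) (nat_lit 5) (nat_lit 45) (nat_lit 5) (nat_lit 46) (nat_lit 5) (nat_lit 281) (nat_lit 258) (nat_lit 181)))) (XT.nd (nat_lit 156) (nat_lit 304) (nat_lit 0) (XT.nd (nat_lit 78) (nat_lit 228) (nat_lit 0) (XT.lf (nat_lit 0) (nat_lit 11337637205) (nat_lit 228) (nat_lit 2964610094) (nat_lit 304) (nat_lit 5260566643) (nat_lit 42) (nat_lit 5) (nat_lit 45) (nat_lit 5) (nat_lit 46) (nat_lit 5) (nat_lit 282) (nat_lit 258) (nat_lit 180)) (XT.lf (nat_lit 0) (nat_lit 456527467) (nat_lit 228) (nat_lit 16818649903) (nat_lit 304) (nat_lit 2912153712) (nat_lit 39) (nat_lit 5) (nat_lit 42) (nat_lit 5) (nat_lit 43) (nat_lit 5) (nat_lit 283) (nat_lit 258) (nat_lit 179))) (XT.nd (nat_lit 78) (nat_lit 304) (nat_lit 0) (XT.lf (nat_lit 0) (nat_lit 9789816310) (nat_lit 228) (nat_lit 10779883222) (nat_lit 304) (nat_lit 264768609) (nat_lit 39) (nat_lit 5) (nat_lit 42) (nat_lit 5) (nat_lit 43) (nat_lit 5) (nat_lit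 284) (nat_lit 258) (nat_lit 178)) (XT.nd (nat_lit 78) (nat_lit 228) (nat_lit 0) (XT.lf (nat_lit 0) (nat_lit 2420737799) (nat_lit 304) (nat_lit 1980953543) (nat_lit 76) (nat_lit 17111032541) (nat_lit 38) (nat_lit 5) (nat_lit 42) (nat_lit 5) (nat_lit 39) (nat_lit 5) (nat_lit 285) (nat_lit 258) (nat_lit 177)) (XT.lf (nat_lit 0) (nat_lit 5377572580) (nat_lit 304) (nat_lit 14493741274) (nat_lit 76) (nat_lit 2346099697) (nat_lit 35) (nat_lit 5) (nat_lit 39) (nat_lit 5) (nat_lit 36) (nat_lit 5) (nat_lit 286) (nat_lit 258) (nat_lit 176))))))) (XT.nd (nat_lit 702) (nat_lit 532) (nat_lit 0) (XT.nd (nat_lit 312) (nat_lit 456) (nat_lit 0) (XT.nd (nat_lit 156) (nat_lit 152) (nat_lit 0) (XT.nd (nat_lit 78) (nat_lit 228) (nat_lit 0) (XT.lf (nat_lit 0) (nat_lit 8575719115) (nat_lit 304) (nat_lit 5063072091) (nat_lit 76) (nat_lit 9313907005) (nat_lit 35) (nat_lit 5) (nat_lit 39) (nat_lit 5) (nat_lit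 36) (nat_lit 5) (nat_lit 287) (nat_lit 258) (nat_lit 175)) (XT.lf (nat_lit 0) (nat_lit 4982401773) (nat_lit 228) (nat_lit 7016982132) (nat_lit 304) (nat_lit 11722115042) (nat_lit 32) (nat_lit 5) (nat_lit 35) (nat_lit 5) (nat_lit 36) (nat_lit 5) (nat_lit 288) (nat_lit 258) (nat_lit 174))) (XT.nd (nat_lit 78) (nat_lit 152) (nat_lit 0) (XT.lf (nat_lit 0) (nat_lit 15668471636) (nat_lit 304) (nat_lit 8835424725) (nat_lit 76) (nat_lit 21162223) (nat_lit 32) (nat_lit 5) (nat_lit 36) (nat_lit 5) (nat_lit 33) (nat_lit 5) (nat_lit 289) (nat_lit 258) (nat_lit 173)) (XT.lf (nat_lit 0) (nat_lit 1480060616) (nat_lit 152) (nat_lit 18167749684) (nat_lit 228) (nat_lit 5714675454) (nat_lit 30) (nat_lit 5) (nat_lit 32) (nat_lit 5) (nat_lit 33) (nat_lit 5) (nat_lit 290) (nat_lit 258) (nat_lit 172)))) (XT.nd (nat_lit 156) (nat_lit 380) (nat_lit 0) (XT.nd (nat_lit 78) (nat_lit 76) (nat_lit 0) (XT.lf (nat_lit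 0) (nat_lit 12602610181) (nat_lit 152) (nat_lit 11362092940) (nat_lit 228) (nat_lit 2270179781) (nat_lit 30) (nat_lit 5) (nat_lit 32) (nat_lit 5) (nat_lit 33) (nat_lit 5) (nat_lit 291) (nat_lit 258) (nat_lit 171)) (XT.lf (nat_lit 0) (nat_lit 1292725707) (nat_lit 228) (nat_lit 2905735736) (nat_lit 76) (nat_lit 22951948542) (nat_lit 29) (nat_lit 5) (nat_lit 32) (nat_lit 5) (nat_lit 30) (nat_lit 5) (nat_lit 292) (nat_lit 258) (nat_lit 170))) (XT.nd (nat_lit 78) (nat_lit 152) (nat_lit 0) (XT.lf (nat_lit 0) (nat_lit 5135864651) (nat_lit 304) (nat_lit 19578167294) (nat_lit 76) (nat_lit 3386925790) (nat_lit 26) (nat_lit 5) (nat_lit 30) (nat_lit 5) (nat_lit 27) (nat_lit 5) (nat_lit 293) (nat_lit 258) (nat_lit 169)) (XT.nd (nat_lit 78) (nat_lit 152) (nat_lit 0) (XT.lf (nat_lit 0) (nat_lit 9279997088) (nat_lit 304) (nat_lit 8557186035) (nat_lit 76) (nat_lit 11256430941) (nat_lit 26) (nat_lit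 5) (nat_lit 30) (nat_lit 5) (nat_lit 27) (nat_lit 5) (nat_lit 294) (nat_lit 258) (nat_lit 168)) (XT.lf (nat_lit 0) (nat_lit 3100160971) (nat_lit 152) (nat_lit 10570046468) (nat_lit 228) (nat_lit 16463774128) (nat_lit 24) (nat_lit 5) (nat_lit 26) (nat_lit 5) (nat_lit 27) (nat_lit 5) (nat_lit 295) (nat_lit 258) (nat_lit 167)))))) (XT.nd (nat_lit 390) (nat_lit 152) (nat_lit 0) (XT.nd (nat_lit 156) (nat_lit 380) (nat_lit 0) (XT.nd (nat_lit 78) (nat_lit 0) (nat_lit 0) (XT.lf (nat_lit 0) (nat_lit 15623777998) (nat_lit 152) (nat_lit 2791779704) (nat_lit 228) (nat_lit 12804049154) (nat_lit 24) (nat_lit 5) (nat_lit 26) (nat_lit 5) (nat_lit 27) (nat_lit 5) (nat_lit 296) (nat_lit 258) (nat_lit 166)) (XT.lf (nat_lit 0) (nat_lit 23473186946) (nat_lit 228) (nat_lit 3683291490) (nat_lit 76) (nat_lit 5199304285) (nat_lit 24) (nat_lit 5) (nat_lit 27) (nat_lit 5) (nat_lit 25) (nat_lit 5) (nat_lit 297)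 (nat_lit 258) (nat_lit 165))) (XT.nd (nat_lit 78) (nat_lit 228) (nat_lit 0) (XT.lf (nat_lit 0) (nat_lit 9056170456) (nat_lit 152) (nat_lit 19906197135) (nat_lit 228) (nat_lit 4577485228) (nat_lit 22) (nat_lit 5) (nat_lit 24) (nat_lit 5) (nat_lit 25) (nat_lit 5) (nat_lit 298) (nat_lit 258) (nat_lit 164)) (XT.nd (nat_lit 78) (nat_lit 228) (nat_lit 0) (XT.lf (nat_lit 0) (nat_lit 22547897923) (nat_lit 152) (nat_lit 12232206316) (nat_lit 228) (nat_lit 335371) (nat_lit 22) (nat_lit 5) (nat_lit 24) (nat_lit 5) (nat_lit 25) (nat_lit 5) (nat_lit 299) (nat_lit 258) (nat_lit 163)) (XT.lf (nat_lit 0) (nat_lit 561842577) (nat_lit 152) (nat_lit 4090756896) (nat_lit 228) (nat_lit 31426684178) (nat_lit 19) (nat_lit 5) (nat_lit 21) (nat_lit 5) (nat_lit 22) (nat_lit 5) (nat_lit 300) (nat_lit 258) (nat_lit 162))))) (XT.nd (nat_lit 156) (nat_lit 152) (nat_lit 0) (XT.nd (nat_lit 78) (nat_lit 0) (nat_lit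 0) (XT.lf (nat_lit 0) (nat_lit 9810423286) (nat_lit 228) (nat_lit 23097488805) (nat_lit 76) (nat_lit 4521560432) (nat_lit 19) (nat_lit 5) (nat_lit 22) (nat_lit 5) (nat_lit 20) (nat_lit 5) (nat_lit 301) (nat_lit 258) (nat_lit 161)) (XT.lf (nat_lit 0) (nat_lit 15285671447) (nat_lit 228) (nat_lit 10135419140) (nat_lit 76) (nat_lit 13423118432) (nat_lit 19) (nat_lit 5) (nat_lit 22) (nat_lit 5) (nat_lit 20) (nat_lit 5) (nat_lit 302) (nat_lit 258) (nat_lit 160))) (XT.nd (nat_lit 78) (nat_lit 0) (nat_lit 0) (XT.lf (nat_lit 0) (nat_lit 3578017060) (nat_lit 152) (nat_lit 17505357894) (nat_lit 228) (nat_lit 19243886871) (nat_lit 17) (nat_lit 5) (nat_lit 19) (nat_lit 5) (nat_lit 20) (nat_lit 5) (nat_lit 303) (nat_lit 258) (nat_lit 159)) (XT.nd (nat_lit 78) (nat_lit 0) (nat_lit 0) (XT.lf (nat_lit 0) (nat_lit 18317929645) (nat_lit 152) (nat_lit 9017680810) (nat_lit 228) (nat_lit 14540637935) (nat_lit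 17) (nat_lit 5) (nat_lit 19) (nat_lit 5) (nat_lit 20) (nat_lit 5) (nat_lit 304) (nat_lit 258) (nat_lit 158)) (XT.lf (nat_lit 0) (nat_lit 33784290915) (nat_lit 152) (nat_lit 109498807) (nat_lit 228) (nat_lit 9609240780) (nat_lit 17) (nat_lit 5) (nat_lit 19) (nat_lit 5) (nat_lit 20) (nat_lit 5) (nat_lit 305) (nat_lit 258) (nat_lit 157))))))))
noncomputable def xc168 : XT := (XT.nd (nat_lit 1404) (nat_lit 304) (nat_lit 0) (XT.nd (nat_lit 702) (nat_lit 304) (nat_lit 0) (XT.nd (nat_lit 312) (nat_lit 76) (nat_lit 0) (XT.nd (nat_lit 156) (nat_lit 152) (nat_lit 0) (XT.nd (nat_lit 78) (nat_lit 76) (nat_lit 0) (XT.lf (nat_lit 0) (nat_lit 4812195898) (nat_lit 76) (nat_lit 36180731943) (nat_lit 152) (nat_lit 4207583590) (nat_lit 16) (nat_lit 5) (nat_lit 17) (nat_lit 5) (nat_lit 18) (nat_lit 4) (nat_lit 306) (nat_lit 258) (nat_lit 156)) (XT.lf (nat_lit 0) (nat_lit 1580003760) (nat_lit 152) (nat_lit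 26605271086) (nat_lit 76) (nat_lit 18788324183) (nat_lit 15) (nat_lit 5) (nat_lit 17) (nat_lit 5) (nat_lit 16) (nat_lit 5) (nat_lit 307) (nat_lit 258) (nat_lit 155))) (XT.nd (nat_lit 78) (nat_lit 152) (nat_lit 0) (XT.lf (nat_lit 0) (nat_lit 7509496281) (nat_lit 152) (nat_lit 12211929516) (nat_lit 76) (nat_lit 29110780506) (nat_lit 15) (nat_lit 5) (nat_lit 17) (nat_lit 5) (nat_lit 16) (nat_lit 5) (nat_lit 308) (nat_lit 258) (nat_lit 154)) (XT.lf (nat_lit 0) (nat_lit 2987282917) (nat_lit 152) (nat_lit 10789037704) (nat_lit 228) (nat_lit 37005390503) (nat_lit 13) (nat_lit 5) (nat_lit 15) (nat_lit 5) (nat_lit 16) (nat_lit 5) (nat_lit 309) (nat_lit 258) (nat_lit 153)))) (XT.nd (nat_lit 156) (nat_lit 76) (nat_lit 0) (XT.nd (nat_lit 78) (nat_lit 0) (nat_lit 0) (XT.lf (nat_lit 0) (nat_lit 19361170406) (nat_lit 152) (nat_lit 1196478891) (nat_lit 228) (nat_lit 32260993298) (nat_lit 13) (nat_lit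 5) (nat_lit 15) (nat_lit 5) (nat_lit 16) (nat_lit 5) (nat_lit 310) (nat_lit 258) (nat_lit 152)) (XT.lf (nat_lit 0) (nat_lit 27811182806) (nat_lit 228) (nat_lit 18551283106) (nat_lit 76) (nat_lit 8588306917) (nat_lit 13) (nat_lit 5) (nat_lit 16) (nat_lit 5) (nat_lit 14) (nat_lit 4) (nat_lit 311) (nat_lit 258) (nat_lit 151))) (XT.nd (nat_lit 78) (nat_lit 76) (nat_lit 0) (XT.lf (nat_lit 0) (nat_lit 35441829992) (nat_lit 228) (nat_lit 2928008559) (nat_lit 76) (nat_lit 18818957850) (nat_lit 13) (nat_lit 5) (nat_lit 16) (nat_lit 5) (nat_lit 14) (nat_lit 4) (nat_lit 312) (nat_lit 258) (nat_lit 150)) (XT.nd (nat_lit 78) (nat_lit 0) (nat_lit 0) (XT.lf (nat_lit 0) (nat_lit 13913550623) (nat_lit 76) (nat_lit 29752757569) (nat_lit 152) (nat_lit 15861806289) (nat_lit 12) (nat_lit 5) (nat_lit 13) (nat_lit 5) (nat_lit 14) (nat_lit 4) (nat_lit 313) (nat_lit 258) (nat_lit 149)) (XT.lf (nat_lit 0) (nat_lit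 31690774260) (nat_lit 76) (nat_lit 20656001271) (nat_lit 152) (nat_lit 9635392541) (nat_lit 12) (nat_lit 5) (nat_lit 13) (nat_lit 5) (nat_lit 14) (nat_lit 4) (nat_lit 314) (nat_lit 258) (nat_lit 148)))))) (XT.nd (nat_lit 312) (nat_lit 76) (nat_lit 0) (XT.nd (nat_lit 156) (nat_lit 0) (nat_lit 0) (XT.nd (nat_lit 78) (nat_lit 228) (nat_lit 0) (XT.lf (nat_lit 0) (nat_lit 50349175887) (nat_lit 76) (nat_lit 11107497956) (nat_lit 152) (nat_lit 3102487615) (nat_lit 12) (nat_lit 5) (nat_lit 13) (nat_lit 5) (nat_lit 14) (nat_lit 4) (nat_lit 315) (nat_lit 258) (nat_lit 147)) (XT.lf (nat_lit 0) (nat_lit 2695640810) (nat_lit 152) (nat_lit 978806471) (nat_lit 228) (nat_lit 63585749406) (nat_lit 9) (nat_lit 5) (nat_lit 11) (nat_lit 5) (nat_lit 12) (nat_lit 5) (nat_lit 316) (nat_lit 258) (nat_lit 146))) (XT.nd (nat_lit 78) (nat_lit 0) (nat_lit 0) (XT.lf (nat_lit 0) (nat_lit 11076923477) (nat_lit 228)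 (nat_lit 49357459987) (nat_lit 76) (nat_lit 9639815741) (nat_lit 9) (nat_lit 5) (nat_lit 12) (nat_lit 5) (nat_lit 10) (nat_lit 4) (nat_lit 317) (nat_lit 258) (nat_lit 145)) (XT.lf (nat_lit 0) (nat_lit 18861377260) (nat_lit 228) (nat_lit 33413225105) (nat_lit 76) (nat_lit 20753712961) (nat_lit 9) (nat_lit 5) (nat_lit 12) (nat_lit 5) (nat_lit 10) (nat_lit 4) (nat_lit 318) (nat_lit 258) (nat_lit 144)))) (XT.nd (nat_lit 156) (nat_lit 0) (nat_lit 0) (XT.nd (nat_lit 78) (nat_lit 76) (nat_lit 0) (XT.lf (nat_lit 0) (nat_lit 27031061131) (nat_lit 228) (nat_lit 16678606857) (nat_lit 76) (nat_lit 32420674767) (nat_lit 9) (nat_lit 5) (nat_lit 12) (nat_lit 5) (nat_lit 10) (nat_lit 4) (nat_lit 319) (nat_lit 258) (nat_lit 143)) (XT.lf (nat_lit 0) (nat_lit 915542152) (nat_lit 76) (nat_lit 34704178746) (nat_lit 152) (nat_lit 43767231665) (nat_lit 8) (nat_lit 5) (nat_lit 9) (nat_lit 5) (nat_lit 10)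 (nat_lit 4) (nat_lit 320) (nat_lit 258) (nat_lit 142))) (XT.nd (nat_lit 78) (nat_lit 0) (nat_lit 0) (XT.lf (nat_lit 0) (nat_lit 19962043855) (nat_lit 76) (nat_lit 24954508774) (nat_lit 152) (nat_lit 37875908609) (nat_lit 8) (nat_lit 5) (nat_lit 9) (nat_lit 5) (nat_lit 10) (nat_lit 4) (nat_lit 321) (nat_lit 258) (nat_lit 141)) (XT.nd (nat_lit 78) (nat_lit 0) (nat_lit 0) (XT.lf (nat_lit 0) (nat_lit 39954776999) (nat_lit 76) (nat_lit 14719904850) (nat_lit 152) (nat_lit 31693745776) (nat_lit 8) (nat_lit 5) (nat_lit 9) (nat_lit 5) (nat_lit 10) (nat_lit 4) (nat_lit 322) (nat_lit 258) (nat_lit 140)) (XT.lf (nat_lit 0) (nat_lit 60941343330) (nat_lit 76) (nat_lit 3975998870) (nat_lit 152) (nat_lit 25206023728) (nat_lit 8) (nat_lit 5) (nat_lit 9) (nat_lit 5) (nat_lit 10) (nat_lit 4) (nat_lit 323) (nat_lit 258) (nat_lit 139))))))) (XT.nd (nat_lit 702) (nat_lit 76) (nat_lit 0) (XT.nd (nat_lit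 312) (nat_lit 76) (nat_lit 0) (XT.nd (nat_lit 156) (nat_lit 76) (nat_lit 0) (XT.nd (nat_lit 78) (nat_lit 76) (nat_lit 0) (XT.lf (nat_lit 0) (nat_lit 75782937984) (nat_lit 152) (nat_lit 11208522631) (nat_lit 0) (nat_lit 7069055011) (nat_lit 8) (nat_lit 5) (nat_lit 10) (nat_lit 4) (nat_lit 8) (nat_lit 4) (nat_lit 324) (nat_lit 258) (nat_lit 138)) (XT.lf (nat_lit 0) (nat_lit 7844146715) (nat_lit 76) (nat_lit 79532220355) (nat_lit 76) (nat_lit 10808932447) (nat_lit 7) (nat_lit 4) (nat_lit 8) (nat_lit 5) (nat_lit 8) (nat_lit 4) (nat_lit 325) (nat_lit 258) (nat_lit 137))) (XT.nd (nat_lit 78) (nat_lit 76) (nat_lit 0) (XT.lf (nat_lit 0) (nat_lit 28233284021) (nat_lit 76) (nat_lit 71502974108) (nat_lit 76) (nat_lit 2770729119) (nat_lit 7) (nat_lit 4) (nat_lit 8) (nat_lit 5) (nat_lit 8) (nat_lit 4) (nat_lit 326) (nat_lit 258) (nat_lit 136)) (XT.lf (nat_lit 0) (nat_lit 5484990605) (nat_lit 152)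 (nat_lit 57496544802) (nat_lit 76) (nat_lit 44058948899) (nat_lit 6) (nat_lit 5) (nat_lit 8) (nat_lit 5) (nat_lit 7) (nat_lit 4) (nat_lit 327) (nat_lit 258) (nat_lit 135)))) (XT.nd (nat_lit 156) (nat_lit 76) (nat_lit 0) (XT.nd (nat_lit 78) (nat_lit 0) (nat_lit 0) (XT.lf (nat_lit 0) (nat_lit 14057583492) (nat_lit 152) (nat_lit 39930853719) (nat_lit 76) (nat_lit 57810091428) (nat_lit 6) (nat_lit 5) (nat_lit 8) (nat_lit 5) (nat_lit 7) (nat_lit 4) (nat_lit 328) (nat_lit 258) (nat_lit 134)) (XT.lf (nat_lit 0) (nat_lit 23056141113) (nat_lit 152) (nat_lit 21491548059) (nat_lit 76) (nat_lit 72246922697) (nat_lit 6) (nat_lit 5) (nat_lit 8) (nat_lit 5) (nat_lit 7) (nat_lit 4) (nat_lit 329) (nat_lit 258) (nat_lit 133))) (XT.nd (nat_lit 78) (nat_lit 76) (nat_lit 0) (XT.lf (nat_lit 0) (nat_lit 32502088605) (nat_lit 152) (nat_lit 2134724713) (nat_lit 76) (nat_lit 87403816112) (nat_lit 6) (nat_lit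 5) (nat_lit 8) (nat_lit 5) (nat_lit 7) (nat_lit 4) (nat_lit 330) (nat_lit 258) (nat_lit 132)) (XT.nd (nat_lit 78) (nat_lit 0) (nat_lit 0) (XT.lf (nat_lit 0) (nat_lit 18787005496) (nat_lit 76) (nat_lit 23924228630) (nat_lit 152) (nat_lit 84823171825) (nat_lit 5) (nat_lit 5) (nat_lit 6) (nat_lit 5) (nat_lit 7) (nat_lit 4) (nat_lit 331) (nat_lit 258) (nat_lit 131)) (XT.lf (nat_lit 0) (nat_lit 40824767551) (nat_lit 76) (nat_lit 12639854851) (nat_lit 152) (nat_lit 79836562587) (nat_lit 5) (nat_lit 5) (nat_lit 6) (nat_lit 5) (nat_lit 7) (nat_lit 4) (nat_lit 332) (nat_lit 258) (nat_lit 130)))))) (XT.nd (nat_lit 312) (nat_lit 76) (nat_lit 0) (XT.nd (nat_lit 156) (nat_lit 0) (nat_lit 0) (XT.nd (nat_lit 78) (nat_lit 0) (nat_lit 0) (XT.lf (nat_lit 0) (nat_lit 63960448674) (nat_lit 76) (nat_lit 792977023) (nat_lit 152) (nat_lit 74602992828) (nat_lit 5) (nat_lit 5) (nat_lit 6) (nat_lit 5) (nat_lit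 7) (nat_lit 4) (nat_lit 333) (nat_lit 258) (nat_lit 129)) (XT.lf (nat_lit 0) (nat_lit 76786327134) (nat_lit 152) (nat_lit 57647194982) (nat_lit 0) (nat_lit 11271911410) (nat_lit 5) (nat_lit 5) (nat_lit 7) (nat_lit 4) (nat_lit 5) (nat_lit 4) (nat_lit 334) (nat_lit 258) (nat_lit 128))) (XT.nd (nat_lit 78) (nat_lit 0) (nat_lit 0) (XT.lf (nat_lit 0) (nat_lit 89431804181) (nat_lit 152) (nat_lit 39027661547) (nat_lit 0) (nat_lit 23911889587) (nat_lit 5) (nat_lit 5) (nat_lit 7) (nat_lit 4) (nat_lit 5) (nat_lit 4) (nat_lit 335) (nat_lit 258) (nat_lit 127)) (XT.lf (nat_lit 0) (nat_lit 102707584524) (nat_lit 152) (nat_lit 19480656727) (nat_lit 0) (nat_lit 37182432909) (nat_lit 5) (nat_lit 5) (nat_lit 7) (nat_lit 4) (nat_lit 5) (nat_lit 4) (nat_lit 336) (nat_lit 258) (nat_lit 126)))) (XT.nd (nat_lit 156) (nat_lit 0) (nat_lit 0) (XT.nd (nat_lit 78) (nat_lit 0) (nat_lit 0) (XT.lf (nat_lit 0) (nat_lit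 1074758961) (nat_lit 76) (nat_lit 115587298199) (nat_lit 76) (nat_lit 50057158946) (nat_lit 4) (nat_lit 4) (nat_lit 5) (nat_lit 5) (nat_lit 5) (nat_lit 4) (nat_lit 337) (nat_lit 258) (nat_lit 125)) (XT.lf (nat_lit 0) (nat_lit 23330985323) (nat_lit 76) (nat_lit 108311343820) (nat_lit 76) (nat_lit 42776454436) (nat_lit 4) (nat_lit 4) (nat_lit 5) (nat_lit 5) (nat_lit 5) (nat_lit 4) (nat_lit 338) (nat_lit 258) (nat_lit 124))) (XT.nd (nat_lit 78) (nat_lit 0) (nat_lit 0) (XT.lf (nat_lit 0) (nat_lit 46696894883) (nat_lit 76) (nat_lit 100672968761) (nat_lit 76) (nat_lit 35133555442) (nat_lit 4) (nat_lit 4) (nat_lit 5) (nat_lit 5) (nat_lit 5) (nat_lit 4) (nat_lit 339) (nat_lit 258) (nat_lit 123)) (XT.nd (nat_lit 78) (nat_lit 0) (nat_lit 0) (XT.lf (nat_lit 0) (nat_lit 71228120761) (nat_lit 76) (nat_lit 92653986414) (nat_lit 76) (nat_lit 27110264586) (nat_lit 4) (nat_lit 4) (nat_lit 5) (nat_lit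 5) (nat_lit 5) (nat_lit 4) (nat_lit 340) (nat_lit 258) (nat_lit 122)) (XT.lf (nat_lit 0) (nat_lit 96983070636) (nat_lit 76) (nat_lit 84235303965) (nat_lit 76) (nat_lit 18687478795) (nat_lit 4) (nat_lit 4) (nat_lit 5) (nat_lit 5) (nat_lit 5) (nat_lit 4) (nat_lit 341) (nat_lit 258) (nat_lit 121))))))))
noncomputable def xc169 : XT := (XT.nd (nat_lit 31044) (nat_lit 0) (nat_lit 3952) (XT.nd (nat_lit 702) (nat_lit 0) (nat_lit 0) (XT.nd (nat_lit 312) (nat_lit 76) (nat_lit 0) (XT.nd (nat_lit 156) (nat_lit 76) (nat_lit 0) (XT.nd (nat_lit 78) (nat_lit 0) (nat_lit 0) (XT.lf (nat_lit 0) (nat_lit 124023065818) (nat_lit 76) (nat_lit 75396876931) (nat_lit 76) (nat_lit 9845143816) (nat_lit 4) (nat_lit 4) (nat_lit 5) (nat_lit 5) (nat_lit 5) (nat_lit 4) (nat_lit 342) (nat_lit 258) (nat_lit 120)) (XT.lf (nat_lit 0) (nat_lit 152412487247) (nat_lit 76) (nat_lit 66117661439) (nat_lit 76) (nat_lit 562206472)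 (nat_lit 4) (nat_lit 4) (nat_lit 5) (nat_lit 5) (nat_lit 5) (nat_lit 4) (nat_lit 343) (nat_lit 258) (nat_lit 119))) (XT.nd (nat_lit 78) (nat_lit 0) (nat_lit 0) (XT.lf (nat_lit 0) (nat_lit 8889508183) (nat_lit 152) (nat_lit 47335507812) (nat_lit 76) (nat_lit 173178872480) (nat_lit 3) (nat_lit 5) (nat_lit 5) (nat_lit 5) (nat_lit 4) (nat_lit 4) (nat_lit 344) (nat_lit 258) (nat_lit 118)) (XT.lf (nat_lit 0) (nat_lit 18793585120) (nat_lit 152) (nat_lit 27035525920) (nat_lit 76) (nat_lit 194401494571) (nat_lit 3) (nat_lit 5) (nat_lit 5) (nat_lit 5) (nat_lit 4) (nat_lit 4) (nat_lit 345) (nat_lit 258) (nat_lit 117)))) (XT.nd (nat_lit 156) (nat_lit 0) (nat_lit 0) (XT.nd (nat_lit 78) (nat_lit 76) (nat_lit 0) (XT.lf (nat_lit 0) (nat_lit 29191599593) (nat_lit 152) (nat_lit 5722811326) (nat_lit 76) (nat_lit 216684312428) (nat_lit 3) (nat_lit 5) (nat_lit 5) (nat_lit 5) (nat_lit 4) (nat_lit 4) (nat_lit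 346) (nat_lit 258) (nat_lit 116)) (XT.lf (nat_lit 0) (nat_lit 17204016497) (nat_lit 76) (nat_lit 23172895194) (nat_lit 152) (nat_lit 223144966793) (nat_lit 2) (nat_lit 5) (nat_lit 3) (nat_lit 5) (nat_lit 4) (nat_lit 4) (nat_lit 347) (nat_lit 258) (nat_lit 115))) (XT.nd (nat_lit 78) (nat_lit 0) (nat_lit 0) (XT.lf (nat_lit 0) (nat_lit 41473745144) (nat_lit 76) (nat_lit 10743481091) (nat_lit 152) (nat_lit 223819179593) (nat_lit 2) (nat_lit 5) (nat_lit 3) (nat_lit 5) (nat_lit 4) (nat_lit 4) (nat_lit 348) (nat_lit 258) (nat_lit 114)) (XT.nd (nat_lit 78) (nat_lit 0) (nat_lit 0) (XT.lf (nat_lit 0) (nat_lit 64684442075) (nat_lit 152) (nat_lit 222257790385) (nat_lit 0) (nat_lit 2232684034) (nat_lit 2) (nat_lit 5) (nat_lit 4) (nat_lit 4) (nat_lit 2) (nat_lit 4) (nat_lit 349) (nat_lit 258) (nat_lit 113)) (XT.lf (nat_lit 0) (nat_lit 77950056138) (nat_lit 152) (nat_lit 209515766857) (nat_lit 0)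 (nat_lit 15495779001) (nat_lit 2) (nat_lit 5) (nat_lit 4) (nat_lit 4) (nat_lit 2) (nat_lit 4) (nat_lit 350) (nat_lit 258) (nat_lit 112)))))) (XT.nd (nat_lit 312) (nat_lit 0) (nat_lit 0) (XT.nd (nat_lit 156) (nat_lit 0) (nat_lit 0) (XT.nd (nat_lit 78) (nat_lit 0) (nat_lit 0) (XT.lf (nat_lit 0) (nat_lit 91877917371) (nat_lit 152) (nat_lit 196138516101) (nat_lit 0) (nat_lit 29421241095) (nat_lit 2) (nat_lit 5) (nat_lit 4) (nat_lit 4) (nat_lit 2) (nat_lit 4) (nat_lit 351) (nat_lit 258) (nat_lit 111)) (XT.lf (nat_lit 0) (nat_lit 106501187348) (nat_lit 152) (nat_lit 182094187520) (nat_lit 0) (nat_lit 44042226178) (nat_lit 2) (nat_lit 5) (nat_lit 4) (nat_lit 4) (nat_lit 2) (nat_lit 4) (nat_lit 352) (nat_lit 258) (nat_lit 110))) (XT.nd (nat_lit 78) (nat_lit 0) (nat_lit 0) (XT.lf (nat_lit 0) (nat_lit 121854683380) (nat_lit 152) (nat_lit 167349342238) (nat_lit 0) (nat_lit 59393546119) (nat_lit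 2) (nat_lit 5) (nat_lit 4) (nat_lit 4) (nat_lit 2) (nat_lit 4) (nat_lit 353) (nat_lit 258) (nat_lit 109)) (XT.lf (nat_lit 0) (nat_lit 137974961408) (nat_lit 152) (nat_lit 151868873478) (nat_lit 0) (nat_lit 75511751681) (nat_lit 2) (nat_lit 5) (nat_lit 4) (nat_lit 4) (nat_lit 2) (nat_lit 4) (nat_lit 354) (nat_lit 258) (nat_lit 108)))) (XT.nd (nat_lit 156) (nat_lit 0) (nat_lit 0) (XT.nd (nat_lit 78) (nat_lit 0) (nat_lit 0) (XT.lf (nat_lit 0) (nat_lit 154900403047) (nat_lit 152) (nat_lit 135615922982) (nat_lit 0) (nat_lit 92435219543) (nat_lit 2) (nat_lit 5) (nat_lit 4) (nat_lit 4) (nat_lit 2) (nat_lit 4) (nat_lit 355) (nat_lit 258) (nat_lit 107)) (XT.lf (nat_lit 0) (nat_lit 172671306969) (nat_lit 152) (nat_lit 118551793250) (nat_lit 0) (nat_lit 110204243676) (nat_lit 2) (nat_lit 5) (nat_lit 4) (nat_lit 4) (nat_lit 2) (nat_lit 4) (nat_lit 356) (nat_lit 258) (nat_lit 106))) (XT.nd (nat_lit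 78) (nat_lit 0) (nat_lit 0) (XT.lf (nat_lit 0) (nat_lit 191329984848) (nat_lit 152) (nat_lit 100635855401) (nat_lit 0) (nat_lit 128861131281) (nat_lit 2) (nat_lit 5) (nat_lit 4) (nat_lit 4) (nat_lit 2) (nat_lit 4) (nat_lit 357) (nat_lit 258) (nat_lit 105)) (XT.nd (nat_lit 78) (nat_lit 0) (nat_lit 0) (XT.lf (nat_lit 0) (nat_lit 210920862108) (nat_lit 152) (nat_lit 81825452439) (nat_lit 0) (nat_lit 148450303518) (nat_lit 2) (nat_lit 5) (nat_lit 4) (nat_lit 4) (nat_lit 2) (nat_lit 4) (nat_lit 358) (nat_lit 258) (nat_lit 104)) (XT.lf (nat_lit 0) (nat_lit 231490583696) (nat_lit 152) (nat_lit 62075797692) (nat_lit 0) (nat_lit 169018401274) (nat_lit 2) (nat_lit 5) (nat_lit 4) (nat_lit 4) (nat_lit 2) (nat_lit 4) (nat_lit 359) (nat_lit 258) (nat_lit 103))))))) (XT.nd (nat_lit 702) (nat_lit 1216) (nat_lit 0) (XT.nd (nat_lit 312) (nat_lit 532) (nat_lit 0) (XT.nd (nat_lit 156) (nat_lit 0) (nat_lit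 0) (XT.nd (nat_lit 78) (nat_lit 0) (nat_lit 0) (XT.lf (nat_lit 0) (nat_lit 3511584614) (nat_lit 684) (nat_lit 940320208) (nat_lit 684) (nat_lit 940320208) (nat_lit 77) (nat_lit 3) (nat_lit 86) (nat_lit 3) (nat_lit 86) (nat_lit 5) (nat_lit 259) (nat_lit 259) (nat_lit 202)) (XT.lf (nat_lit 76) (nat_lit 2795887254) (nat_lit 0) (nat_lit 4979132636) (nat_lit 684) (nat_lit 3248145072) (nat_lit 78) (nat_lit 5) (nat_lit 77) (nat_lit 3) (nat_lit 86) (nat_lit 5) (nat_lit 260) (nat_lit 259) (nat_lit 201))) (XT.nd (nat_lit 78) (nat_lit 0) (nat_lit 76) (XT.lf (nat_lit 76) (nat_lit 7752972675) (nat_lit 0) (nat_lit 808955869) (nat_lit 684) (nat_lit 2712147114) (nat_lit 78) (nat_lit 5) (nat_lit 77) (nat_lit 3) (nat_lit 86) (nat_lit 5) (nat_lit 261) (nat_lit 259) (nat_lit 200)) (XT.lf (nat_lit 76) (nat_lit 1389441799) (nat_lit 0) (nat_lit 8043655930) (nat_lit 684) (nat_lit 2102315382) (nat_lit 79)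 (nat_lit 5) (nat_lit 78) (nat_lit 5) (nat_lit 87) (nat_lit 5) (nat_lit 262) (nat_lit 259) (nat_lit 199)))) (XT.nd (nat_lit 156) (nat_lit 608) (nat_lit 0) (XT.nd (nat_lit 78) (nat_lit 0) (nat_lit 76) (XT.lf (nat_lit 76) (nat_lit 6634699856) (nat_lit 0) (nat_lit 3754539229) (nat_lit 684) (nat_lit 1418628593) (nat_lit 79) (nat_lit 5) (nat_lit 78) (nat_lit 5) (nat_lit 87) (nat_lit 5) (nat_lit 263) (nat_lit 259) (nat_lit 198)) (XT.lf (nat_lit 76) (nat_lit 16904518) (nat_lit 0) (nat_lit 11358641764) (nat_lit 684) (nat_lit 719395924) (nat_lit 80) (nat_lit 5) (nat_lit 79) (nat_lit 5) (nat_lit 88) (nat_lit 5) (nat_lit 264) (nat_lit 259) (nat_lit 197))) (XT.nd (nat_lit 78) (nat_lit 0) (nat_lit 0) (XT.lf (nat_lit 0) (nat_lit 135846771) (nat_lit 684) (nat_lit 6830083426) (nat_lit 760) (nat_lit 5424457071) (nat_lit 70) (nat_lit 5) (nat_lit 79) (nat_lit 5) (nat_lit 80) (nat_lit 5) (nat_lit 265)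 (nat_lit 259) (nat_lit 196)) (XT.nd (nat_lit 78) (nat_lit 0) (nat_lit 76) (XT.lf (nat_lit 0) (nat_lit 981985542) (nat_lit 684) (nat_lit 1351484402) (nat_lit 760) (nat_lit 10368028942) (nat_lit 70) (nat_lit 5) (nat_lit 79) (nat_lit 5) (nat_lit 80) (nat_lit 5) (nat_lit 266) (nat_lit 259) (nat_lit 195)) (XT.lf (nat_lit 0) (nat_lit 1955521720) (nat_lit 684) (nat_lit 8539903717) (nat_lit 760) (nat_lit 2528580874) (nat_lit 71) (nat_lit 5) (nat_lit 80) (nat_lit 5) (nat_lit 81) (nat_lit 5) (nat_lit 267) (nat_lit 259) (nat_lit 194)))))) (XT.nd (nat_lit 312) (nat_lit 684) (nat_lit 0) (XT.nd (nat_lit 156) (nat_lit 608) (nat_lit 0) (XT.nd (nat_lit 78) (nat_lit 0) (nat_lit 0) (XT.lf (nat_lit 0) (nat_lit 3013948932) (nat_lit 684) (nat_lit 2761901903) (nat_lit 760) (nat_lit 7585067802) (nat_lit 71) (nat_lit 5) (nat_lit 80) (nat_lit 5) (nat_lit 81) (nat_lit 5) (nat_lit 268) (nat_lit 259) (nat_lit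 193)) (XT.lf (nat_lit 76) (nat_lit 3394435708) (nat_lit 0) (nat_lit 759760699) (nat_lit 760) (nat_lit 9559121166) (nat_lit 72) (nat_lit 5) (nat_lit 71) (nat_lit 5) (nat_lit 81) (nat_lit 5) (nat_lit 269) (nat_lit 259) (nat_lit 192))) (XT.nd (nat_lit 78) (nat_lit 684) (nat_lit 0) (XT.lf (nat_lit 0) (nat_lit 5446188781) (nat_lit 684) (nat_lit 4217865963) (nat_lit 76) (nat_lit 4414626937) (nat_lit 72) (nat_lit 5) (nat_lit 81) (nat_lit 5) (nat_lit 73) (nat_lit 5) (nat_lit 270) (nat_lit 259) (nat_lit 191)) (XT.lf (nat_lit 0) (nat_lit 2227801950) (nat_lit 684) (nat_lit 4600142429) (nat_lit 760) (nat_lit 7633189386) (nat_lit 63) (nat_lit 5) (nat_lit 72) (nat_lit 5) (nat_lit 73) (nat_lit 5) (nat_lit 271) (nat_lit 259) (nat_lit 190)))) (XT.nd (nat_lit 156) (nat_lit 380) (nat_lit 0) (XT.nd (nat_lit 78) (nat_lit 304) (nat_lit 0) (XT.lf (nat_lit 0) (nat_lit 8341303145) (nat_lit 760) (nat_lit 5749427842)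 (nat_lit 76) (nat_lit 768925937) (nat_lit 63) (nat_lit 5) (nat_lit 73) (nat_lit 5) (nat_lit 64) (nat_lit 5) (nat_lit 272) (nat_lit 259) (nat_lit 189)) (XT.lf (nat_lit 0) (nat_lit 995980410) (nat_lit 304) (nat_lit 9005043973) (nat_lit 380) (nat_lit 5273617835) (nat_lit 59) (nat_lit 5) (nat_lit 63) (nat_lit 5) (nat_lit 64) (nat_lit 5) (nat_lit 273) (nat_lit 259) (nat_lit 188))) (XT.nd (nat_lit 78) (nat_lit 380) (nat_lit 0) (XT.lf (nat_lit 0) (nat_lit 8259418859) (nat_lit 304) (nat_lit 3562085353) (nat_lit 380) (nat_lit 3885051275) (nat_lit 59) (nat_lit 5) (nat_lit 63) (nat_lit 5) (nat_lit 64) (nat_lit 5) (nat_lit 274) (nat_lit 259) (nat_lit 187)) (XT.nd (nat_lit 78) (nat_lit 380) (nat_lit 0) (XT.lf (nat_lit 0) (nat_lit 13747970241) (nat_lit 380) (nat_lit 326608217) (nat_lit 76) (nat_lit 2084801984) (nat_lit 59) (nat_lit 5) (nat_lit 64) (nat_lit 5) (nat_lit 60) (nat_lit 5) (nat_lit 275)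 (nat_lit 259) (nat_lit 186)) (XT.lf (nat_lit 0) (nat_lit 7307377949) (nat_lit 380) (nat_lit 8618100837) (nat_lit 456) (nat_lit 701692975) (nat_lit 54) (nat_lit 5) (nat_lit 59) (nat_lit 5) (nat_lit 60) (nat_lit 5) (nat_lit 276) (nat_lit 259) (nat_lit 185))))))))
noncomputable def xc170 : XT := (XT.nd (nat_lit 1404) (nat_lit 988) (nat_lit 0) (XT.nd (nat_lit 702) (nat_lit 912) (nat_lit 0) (XT.nd (nat_lit 312) (nat_lit 532) (nat_lit 0) (XT.nd (nat_lit 156) (nat_lit 304) (nat_lit 0) (XT.nd (nat_lit 78) (nat_lit 304) (nat_lit 0) (XT.lf (nat_lit 0) (nat_lit 1046598993) (nat_lit 456) (nat_lit 1819236476) (nat_lit 76) (nat_lit 14252314536) (nat_lit 53) (nat_lit 5) (nat_lit 59) (nat_lit 5) (nat_lit 54) (nat_lit 5) (nat_lit 277) (nat_lit 259) (nat_lit 184)) (XT.lf (nat_lit 0) (nat_lit 2990565088) (nat_lit 380) (nat_lit 11453841331) (nat_lit 76) (nat_lit 3182156294) (nat_lit 49) (nat_lit 5) (nat_lit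 54) (nat_lit 5) (nat_lit 50) (nat_lit 5) (nat_lit 278) (nat_lit 259) (nat_lit 183))) (XT.nd (nat_lit 78) (nat_lit 304) (nat_lit 0) (XT.lf (nat_lit 0) (nat_lit 5093835503) (nat_lit 380) (nat_lit 3596987553) (nat_lit 76) (nat_lit 9466517948) (nat_lit 49) (nat_lit 5) (nat_lit 54) (nat_lit 5) (nat_lit 50) (nat_lit 5) (nat_lit 279) (nat_lit 259) (nat_lit 182)) (XT.lf (nat_lit 0) (nat_lit 4788757232) (nat_lit 304) (nat_lit 2572859441) (nat_lit 380) (nat_lit 11350122030) (nat_lit 45) (nat_lit 5) (nat_lit 49) (nat_lit 5) (nat_lit 50) (nat_lit 5) (nat_lit 280) (nat_lit 259) (nat_lit 181)))) (XT.nd (nat_lit 156) (nat_lit 304) (nat_lit 0) (XT.nd (nat_lit 78) (nat_lit 228) (nat_lit 0) (XT.lf (nat_lit 0) (nat_lit 9849847046) (nat_lit 380) (nat_lit 5650971408) (nat_lit 76) (nat_lit 3787730403) (nat_lit 45) (nat_lit 5) (nat_lit 50) (nat_lit 5) (nat_lit 46) (nat_lit 5) (nat_lit 281) (nat_lit 259)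 (nat_lit 180)) (XT.lf (nat_lit 0) (nat_lit 3073985066) (nat_lit 228) (nat_lit 9464408602) (nat_lit 304) (nat_lit 7352054020) (nat_lit 42) (nat_lit 5) (nat_lit 45) (nat_lit 5) (nat_lit 46) (nat_lit 5) (nat_lit 282) (nat_lit 259) (nat_lit 179))) (XT.nd (nat_lit 78) (nat_lit 304) (nat_lit 0) (XT.lf (nat_lit 0) (nat_lit 12414787526) (nat_lit 228) (nat_lit 3028435559) (nat_lit 304) (nat_lit 5075166942) (nat_lit 42) (nat_lit 5) (nat_lit 45) (nat_lit 5) (nat_lit 46) (nat_lit 5) (nat_lit 283) (nat_lit 259) (nat_lit 178)) (XT.nd (nat_lit 78) (nat_lit 76) (nat_lit 0) (XT.lf (nat_lit 0) (nat_lit 1002296287) (nat_lit 228) (nat_lit 17551643807) (nat_lit 304) (nat_lit 2620796455) (nat_lit 39) (nat_lit 5) (nat_lit 42) (nat_lit 5) (nat_lit 43) (nat_lit 5) (nat_lit 284) (nat_lit 259) (nat_lit 177)) (XT.lf (nat_lit 0) (nat_lit 133728384) (nat_lit 304) (nat_lit 11080085586) (nat_lit 76) (nat_lit 10641354411)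 (nat_lit 38) (nat_lit 5) (nat_lit 42) (nat_lit 5) (nat_lit 39) (nat_lit 5) (nat_lit 285) (nat_lit 259) (nat_lit 176)))))) (XT.nd (nat_lit 312) (nat_lit 456) (nat_lit 0) (XT.nd (nat_lit 156) (nat_lit 228) (nat_lit 0) (XT.nd (nat_lit 78) (nat_lit 228) (nat_lit 0) (XT.lf (nat_lit 0) (nat_lit 2925429416) (nat_lit 304) (nat_lit 1591945632) (nat_lit 76) (nat_lit 18050756278) (nat_lit 38) (nat_lit 5) (nat_lit 42) (nat_lit 5) (nat_lit 39) (nat_lit 5) (nat_lit 286) (nat_lit 259) (nat_lit 175)) (XT.lf (nat_lit 0) (nat_lit 6021008950) (nat_lit 304) (nat_lit 14720279556) (nat_lit 76) (nat_lit 2567271629) (nat_lit 35) (nat_lit 5) (nat_lit 39) (nat_lit 5) (nat_lit 36) (nat_lit 5) (nat_lit 287) (nat_lit 259) (nat_lit 174))) (XT.nd (nat_lit 78) (nat_lit 228) (nat_lit 0) (XT.lf (nat_lit 0) (nat_lit 9361226728) (nat_lit 304) (nat_lit 4841798285) (nat_lit 76) (nat_lit 9878523257) (nat_lit 35) (nat_lit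 5) (nat_lit 39) (nat_lit 5) (nat_lit 36) (nat_lit 5) (nat_lit 288) (nat_lit 259) (nat_lit 173)) (XT.lf (nat_lit 0) (nat_lit 5698297218) (nat_lit 228) (nat_lit 7248078466) (nat_lit 304) (nat_lit 11942943493) (nat_lit 32) (nat_lit 5) (nat_lit 35) (nat_lit 5) (nat_lit 36) (nat_lit 5) (nat_lit 289) (nat_lit 259) (nat_lit 172)))) (XT.nd (nat_lit 156) (nat_lit 304) (nat_lit 0) (XT.nd (nat_lit 78) (nat_lit 152) (nat_lit 0) (XT.lf (nat_lit 0) (nat_lit 16784173561) (nat_lit 304) (nat_lit 8817043202) (nat_lit 76) (nat_lit 132620273) (nat_lit 32) (nat_lit 5) (nat_lit 36) (nat_lit 5) (nat_lit 33) (nat_lit 5) (nat_lit 290) (nat_lit 259) (nat_lit 171)) (XT.lf (nat_lit 0) (nat_lit 2006794588) (nat_lit 152) (nat_lit 18946930190) (nat_lit 228) (nat_lit 5659889484) (nat_lit 30) (nat_lit 5) (nat_lit 32) (nat_lit 5) (nat_lit 33) (nat_lit 5) (nat_lit 291) (nat_lit 259) (nat_lit 170))) (XT.nd (nat_lit 78)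 (nat_lit 304) (nat_lit 0) (XT.lf (nat_lit 0) (nat_lit 13663913015) (nat_lit 152) (nat_lit 11807143323) (nat_lit 228) (nat_lit 2059384253) (nat_lit 30) (nat_lit 5) (nat_lit 32) (nat_lit 5) (nat_lit 33) (nat_lit 5) (nat_lit 292) (nat_lit 259) (nat_lit 169)) (XT.nd (nat_lit 78) (nat_lit 228) (nat_lit 0) (XT.lf (nat_lit 0) (nat_lit 1656337943) (nat_lit 228) (nat_lit 2629788733) (nat_lit 76) (nat_lit 24206147026) (nat_lit 29) (nat_lit 5) (nat_lit 32) (nat_lit 5) (nat_lit 30) (nat_lit 5) (nat_lit 293) (nat_lit 259) (nat_lit 168)) (XT.lf (nat_lit 0) (nat_lit 5685791417) (nat_lit 304) (nat_lit 20129325180) (nat_lit 76) (nat_lit 3675558077) (nat_lit 26) (nat_lit 5) (nat_lit 30) (nat_lit 5) (nat_lit 27) (nat_lit 5) (nat_lit 294) (nat_lit 259) (nat_lit 167))))))) (XT.nd (nat_lit 702) (nat_lit 456) (nat_lit 0) (XT.nd (nat_lit 312) (nat_lit 380) (nat_lit 0) (XT.nd (nat_lit 156) (nat_lit 0) (nat_lit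 0) (XT.nd (nat_lit 78) (nat_lit 152) (nat_lit 0) (XT.lf (nat_lit 0) (nat_lit 10023171736) (nat_lit 304) (nat_lit 8577663928) (nat_lit 76) (nat_lit 11932858200) (nat_lit 26) (nat_lit 5) (nat_lit 30) (nat_lit 5) (nat_lit 27) (nat_lit 5) (nat_lit 295) (nat_lit 259) (nat_lit 166)) (XT.lf (nat_lit 0) (nat_lit 3655979761) (nat_lit 152) (nat_lit 10969876585) (nat_lit 228) (nat_lit 17000605789) (nat_lit 24) (nat_lit 5) (nat_lit 26) (nat_lit 5) (nat_lit 27) (nat_lit 5) (nat_lit 296) (nat_lit 259) (nat_lit 165))) (XT.nd (nat_lit 78) (nat_lit 0) (nat_lit 0) (XT.lf (nat_lit 0) (nat_lit 16786691413) (nat_lit 152) (nat_lit 2808823731) (nat_lit 228) (nat_lit 13171530616) (nat_lit 24) (nat_lit 5) (nat_lit 26) (nat_lit 5) (nat_lit 27) (nat_lit 5) (nat_lit 297) (nat_lit 259) (nat_lit 164)) (XT.lf (nat_lit 0) (nat_lit 24895506128) (nat_lit 228) (nat_lit 3492834461) (nat_lit 76) (nat_lit 5572243551) (nat_lit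 24) (nat_lit 5) (nat_lit 27) (nat_lit 5) (nat_lit 25) (nat_lit 5) (nat_lit 298) (nat_lit 259) (nat_lit 163)))) (XT.nd (nat_lit 156) (nat_lit 152) (nat_lit 0) (XT.nd (nat_lit 78) (nat_lit 76) (nat_lit 0) (XT.lf (nat_lit 0) (nat_lit 9877558299) (nat_lit 152) (nat_lit 20775501119) (nat_lit 228) (nat_lit 4551129061) (nat_lit 22) (nat_lit 5) (nat_lit 24) (nat_lit 5) (nat_lit 25) (nat_lit 5) (nat_lit 299) (nat_lit 259) (nat_lit 162)) (XT.lf (nat_lit 0) (nat_lit 234955759) (nat_lit 228) (nat_lit 12484876189) (nat_lit 76) (nat_lit 23787385894) (nat_lit 21) (nat_lit 5) (nat_lit 24) (nat_lit 5) (nat_lit 22) (nat_lit 5) (nat_lit 300) (nat_lit 259) (nat_lit 161))) (XT.nd (nat_lit 78) (nat_lit 0) (nat_lit 0) (XT.lf (nat_lit 0) (nat_lit 943426838) (nat_lit 152) (nat_lit 4171413639) (nat_lit 228) (nat_lit 32756470430) (nat_lit 19) (nat_lit 5) (nat_lit 21) (nat_lit 5) (nat_lit 22) (nat_lit 5) (nat_lit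 301) (nat_lit 259) (nat_lit 160)) (XT.nd (nat_lit 78) (nat_lit 0) (nat_lit 0) (XT.lf (nat_lit 0) (nat_lit 10521463652) (nat_lit 228) (nat_lit 23906177601) (nat_lit 76) (nat_lit 4861844294) (nat_lit 19) (nat_lit 5) (nat_lit 22) (nat_lit 5) (nat_lit 20) (nat_lit 5) (nat_lit 302) (nat_lit 259) (nat_lit 159)) (XT.lf (nat_lit 0) (nat_lit 16259973307) (nat_lit 228) (nat_lit 10312489484) (nat_lit 76) (nat_lit 14203041821) (nat_lit 19) (nat_lit 5) (nat_lit 22) (nat_lit 5) (nat_lit 20) (nat_lit 5) (nat_lit 303) (nat_lit 259) (nat_lit 158)))))) (XT.nd (nat_lit 312) (nat_lit 228) (nat_lit 0) (XT.nd (nat_lit 156) (nat_lit 76) (nat_lit 0) (XT.nd (nat_lit 78) (nat_lit 0) (nat_lit 0) (XT.lf (nat_lit 0) (nat_lit 4081300775) (nat_lit 152) (nat_lit 18261324870) (nat_lit 228) (nat_lit 19990350943) (nat_lit 17) (nat_lit 5) (nat_lit 19) (nat_lit 5) (nat_lit 20) (nat_lit 5) (nat_lit 304) (nat_lit 259) (nat_lit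 157)) (XT.lf (nat_lit 0) (nat_lit 19542762186) (nat_lit 152) (nat_lit 9354944927) (nat_lit 228) (nat_lit 15062212430) (nat_lit 17) (nat_lit 5) (nat_lit 19) (nat_lit 5) (nat_lit 20) (nat_lit 5) (nat_lit 305) (nat_lit 259) (nat_lit 156))) (XT.nd (nat_lit 78) (nat_lit 76) (nat_lit 0) (XT.lf (nat_lit 0) (nat_lit 35767730279) (nat_lit 152) (nat_lit 6764297) (nat_lit 228) (nat_lit 9894029102) (nat_lit 17) (nat_lit 5) (nat_lit 19) (nat_lit 5) (nat_lit 20) (nat_lit 5) (nat_lit 306) (nat_lit 259) (nat_lit 155)) (XT.lf (nat_lit 0) (nat_lit 5350125315) (nat_lit 76) (nat_lit 37875857406) (nat_lit 152) (nat_lit 4225043305) (nat_lit 16) (nat_lit 5) (nat_lit 17) (nat_lit 5) (nat_lit 18) (nat_lit 4) (nat_lit 307) (nat_lit 259) (nat_lit 154)))) (XT.nd (nat_lit 156) (nat_lit 152) (nat_lit 0) (XT.nd (nat_lit 78) (nat_lit 0) (nat_lit 0) (XT.lf (nat_lit 0) (nat_lit 1836856175) (nat_lit 152) (nat_lit 27646183606)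 (nat_lit 76) (nat_lit 19830037697) (nat_lit 15) (nat_lit 5) (nat_lit 17) (nat_lit 5) (nat_lit 16) (nat_lit 5) (nat_lit 308) (nat_lit 259) (nat_lit 153)) (XT.lf (nat_lit 0) (nat_lit 8054354168) (nat_lit 152) (nat_lit 12546953578) (nat_lit 76) (nat_lit 30663745536) (nat_lit 15) (nat_lit 5) (nat_lit 17) (nat_lit 5) (nat_lit 16) (nat_lit 5) (nat_lit 309) (nat_lit 259) (nat_lit 152))) (XT.nd (nat_lit 78) (nat_lit 0) (nat_lit 0) (XT.lf (nat_lit 0) (nat_lit 3407774760) (nat_lit 152) (nat_lit 11222912167) (nat_lit 228) (nat_lit 38681552065) (nat_lit 13) (nat_lit 5) (nat_lit 15) (nat_lit 5) (nat_lit 16) (nat_lit 5) (nat_lit 310) (nat_lit 259) (nat_lit 151)) (XT.nd (nat_lit 78) (nat_lit 0) (nat_lit 0) (XT.lf (nat_lit 0) (nat_lit 20587445781) (nat_lit 152) (nat_lit 1155752910) (nat_lit 228) (nat_lit 33708225855) (nat_lit 13) (nat_lit 5) (nat_lit 15) (nat_lit 5) (nat_lit 16) (nat_lit 5) (nat_lit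 311) (nat_lit 259) (nat_lit 150)) (XT.lf (nat_lit 0) (nat_lit 29353396037) (nat_lit 228) (nat_lit 19226659483) (nat_lit 76) (nat_lit 9110419121) (nat_lit 13) (nat_lit 5) (nat_lit 16) (nat_lit 5) (nat_lit 14) (nat_lit 4) (nat_lit 312) (nat_lit 259) (nat_lit 149))))))))
noncomputable def xc171 : XT := (XT.nd (nat_lit 1404) (nat_lit 304) (nat_lit 0) (XT.nd (nat_lit 702) (nat_lit 152) (nat_lit 0) (XT.nd (nat_lit 312) (nat_lit 304) (nat_lit 0) (XT.nd (nat_lit 156) (nat_lit 0) (nat_lit 0) (XT.nd (nat_lit 78) (nat_lit 76) (nat_lit 0) (XT.lf (nat_lit 0) (nat_lit 37358353959) (nat_lit 228) (nat_lit 2834230151) (nat_lit 76) (nat_lit 19848188463) (nat_lit 13) (nat_lit 5) (nat_lit 16) (nat_lit 5) (nat_lit 14) (nat_lit 4) (nat_lit 313) (nat_lit 259) (nat_lit 148)) (XT.lf (nat_lit 0) (nat_lit 14845533139) (nat_lit 76) (nat_lit 31145334577) (nat_lit 152) (nat_lit 16506359784) (nat_lit 12) (nat_lit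 5) (nat_lit 13) (nat_lit 5) (nat_lit 14) (nat_lit 4) (nat_lit 314) (nat_lit 259) (nat_lit 147))) (XT.nd (nat_lit 78) (nat_lit 0) (nat_lit 0) (XT.lf (nat_lit 0) (nat_lit 33500365339) (nat_lit 76) (nat_lit 21598267172) (nat_lit 152) (nat_lit 9975698531) (nat_lit 12) (nat_lit 5) (nat_lit 13) (nat_lit 5) (nat_lit 14) (nat_lit 4) (nat_lit 315) (nat_lit 259) (nat_lit 146)) (XT.lf (nat_lit 0) (nat_lit 53080970269) (nat_lit 76) (nat_lit 11576649842) (nat_lit 152) (nat_lit 3122884722) (nat_lit 12) (nat_lit 5) (nat_lit 13) (nat_lit 5) (nat_lit 14) (nat_lit 4) (nat_lit 316) (nat_lit 259) (nat_lit 145)))) (XT.nd (nat_lit 156) (nat_lit 76) (nat_lit 0) (XT.nd (nat_lit 78) (nat_lit 0) (nat_lit 0) (XT.lf (nat_lit 0) (nat_lit 3045739878) (nat_lit 152) (nat_lit 939996383) (nat_lit 228) (nat_lit 66630902297) (nat_lit 9) (nat_lit 5) (nat_lit 11) (nat_lit 5) (nat_lit 12) (nat_lit 5) (nat_lit 317) (nat_lit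 259) (nat_lit 144)) (XT.lf (nat_lit 0) (nat_lit 11753566456) (nat_lit 228) (nat_lit 51615318737) (nat_lit 76) (nat_lit 10202703529) (nat_lit 9) (nat_lit 5) (nat_lit 12) (nat_lit 5) (nat_lit 10) (nat_lit 4) (nat_lit 318) (nat_lit 259) (nat_lit 143))) (XT.nd (nat_lit 78) (nat_lit 76) (nat_lit 0) (XT.lf (nat_lit 0) (nat_lit 19921395461) (nat_lit 228) (nat_lit 34883872790) (nat_lit 76) (nat_lit 21868443372) (nat_lit 9) (nat_lit 5) (nat_lit 12) (nat_lit 5) (nat_lit 10) (nat_lit 4) (nat_lit 319) (nat_lit 259) (nat_lit 142)) (XT.nd (nat_lit 78) (nat_lit 76) (nat_lit 0) (XT.lf (nat_lit 0) (nat_lit 28493994510) (nat_lit 228) (nat_lit 17322048085) (nat_lit 76) (nat_lit 34115084469) (nat_lit 9) (nat_lit 5) (nat_lit 12) (nat_lit 5) (nat_lit 10) (nat_lit 4) (nat_lit 320) (nat_lit 259) (nat_lit 141)) (XT.lf (nat_lit 0) (nat_lit 1148735969) (nat_lit 76) (nat_lit 36360973571) (nat_lit 152) (nat_lit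 45840984509) (nat_lit 8) (nat_lit 5) (nat_lit 9) (nat_lit 5) (nat_lit 10) (nat_lit 4) (nat_lit 321) (nat_lit 259) (nat_lit 140)))))) (XT.nd (nat_lit 312) (nat_lit 152) (nat_lit 0) (XT.nd (nat_lit 156) (nat_lit 0) (nat_lit 0) (XT.nd (nat_lit 78) (nat_lit 0) (nat_lit 0) (XT.lf (nat_lit 0) (nat_lit 21138638152) (nat_lit 76) (nat_lit 26127554106) (nat_lit 152) (nat_lit 39660552860) (nat_lit 8) (nat_lit 5) (nat_lit 9) (nat_lit 5) (nat_lit 10) (nat_lit 4) (nat_lit 322) (nat_lit 259) (nat_lit 139)) (XT.lf (nat_lit 0) (nat_lit 42122508330) (nat_lit 76) (nat_lit 15384776181) (nat_lit 152) (nat_lit 33174479560) (nat_lit 8) (nat_lit 5) (nat_lit 9) (nat_lit 5) (nat_lit 10) (nat_lit 4) (nat_lit 323) (nat_lit 259) (nat_lit 138))) (XT.nd (nat_lit 78) (nat_lit 0) (nat_lit 0) (XT.lf (nat_lit 0) (nat_lit 64150308097) (nat_lit 76) (nat_lit 4107061755) (nat_lit 152) (nat_lit 26367321577) (nat_lit 8) (nat_lit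 5) (nat_lit 9) (nat_lit 5) (nat_lit 10) (nat_lit 4) (nat_lit 324) (nat_lit 259) (nat_lit 137)) (XT.lf (nat_lit 0) (nat_lit 79662768796) (nat_lit 152) (nat_lit 11611155591) (nat_lit 0) (nat_lit 7484954475) (nat_lit 8) (nat_lit 5) (nat_lit 10) (nat_lit 4) (nat_lit 8) (nat_lit 4) (nat_lit 325) (nat_lit 259) (nat_lit 136)))) (XT.nd (nat_lit 156) (nat_lit 76) (nat_lit 0) (XT.nd (nat_lit 78) (nat_lit 0) (nat_lit 0) (XT.lf (nat_lit 0) (nat_lit 8391602172) (nat_lit 76) (nat_lit 83442372741) (nat_lit 76) (nat_lit 11256027867) (nat_lit 7) (nat_lit 4) (nat_lit 8) (nat_lit 5) (nat_lit 8) (nat_lit 4) (nat_lit 326) (nat_lit 259) (nat_lit 135)) (XT.lf (nat_lit 0) (nat_lit 29792803576) (nat_lit 76) (nat_lit 75014828878) (nat_lit 76) (nat_lit 2820359668) (nat_lit 7) (nat_lit 4) (nat_lit 8) (nat_lit 5) (nat_lit 8) (nat_lit 4) (nat_lit 327) (nat_lit 259) (nat_lit 134))) (XT.nd (nat_lit 78) (nat_lit 0)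 (nat_lit 0) (XT.lf (nat_lit 0) (nat_lit 5841202385) (nat_lit 152) (nat_lit 60227741783) (nat_lit 76) (nat_lit 46319360646) (nat_lit 6) (nat_lit 5) (nat_lit 8) (nat_lit 5) (nat_lit 7) (nat_lit 4) (nat_lit 328) (nat_lit 259) (nat_lit 133)) (XT.nd (nat_lit 78) (nat_lit 0) (nat_lit 0) (XT.lf (nat_lit 0) (nat_lit 14838521952) (nat_lit 152) (nat_lit 41790605682) (nat_lit 76) (nat_lit 60755323906) (nat_lit 6) (nat_lit 5) (nat_lit 8) (nat_lit 5) (nat_lit 7) (nat_lit 4) (nat_lit 329) (nat_lit 259) (nat_lit 132)) (XT.lf (nat_lit 0) (nat_lit 24283290346) (nat_lit 152) (nat_lit 22435848583) (nat_lit 76) (nat_lit 75911390647) (nat_lit 6) (nat_lit 5) (nat_lit 8) (nat_lit 5) (nat_lit 7) (nat_lit 4) (nat_lit 330) (nat_lit 259) (nat_lit 131))))))) (XT.nd (nat_lit 702) (nat_lit 152) (nat_lit 0) (XT.nd (nat_lit 312) (nat_lit 76) (nat_lit 0) (XT.nd (nat_lit 156) (nat_lit 0) (nat_lit 0) (XT.nd (nat_lit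 78) (nat_lit 76) (nat_lit 0) (XT.lf (nat_lit 0) (nat_lit 34197995109) (nat_lit 152) (nat_lit 2117387731) (nat_lit 76) (nat_lit 91823646742) (nat_lit 6) (nat_lit 5) (nat_lit 8) (nat_lit 5) (nat_lit 7) (nat_lit 4) (nat_lit 331) (nat_lit 259) (nat_lit 130)) (XT.lf (nat_lit 0) (nat_lit 19848427808) (nat_lit 76) (nat_lit 25067704457) (nat_lit 152) (nat_lit 88991440290) (nat_lit 5) (nat_lit 5) (nat_lit 6) (nat_lit 5) (nat_lit 7) (nat_lit 4) (nat_lit 332) (nat_lit 259) (nat_lit 129))) (XT.nd (nat_lit 78) (nat_lit 0) (nat_lit 0) (XT.lf (nat_lit 0) (nat_lit 42982265011) (nat_lit 76) (nat_lit 13221623208) (nat_lit 152) (nat_lit 83758971548) (nat_lit 5) (nat_lit 5) (nat_lit 6) (nat_lit 5) (nat_lit 7) (nat_lit 4) (nat_lit 333) (nat_lit 259) (nat_lit 128)) (XT.lf (nat_lit 0) (nat_lit 67269194043) (nat_lit 76) (nat_lit 784793126) (nat_lit 152) (nat_lit 78267028975) (nat_lit 5) (nat_lit 5) (nat_lit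 6) (nat_lit 5) (nat_lit 7) (nat_lit 4) (nat_lit 334) (nat_lit 259) (nat_lit 127)))) (XT.nd (nat_lit 156) (nat_lit 76) (nat_lit 0) (XT.nd (nat_lit 78) (nat_lit 0) (nat_lit 0) (XT.lf (nat_lit 0) (nat_lit 80686250149) (nat_lit 152) (nat_lit 60421745743) (nat_lit 0) (nat_lit 11879603934) (nat_lit 5) (nat_lit 5) (nat_lit 7) (nat_lit 4) (nat_lit 5) (nat_lit 4) (nat_lit 335) (nat_lit 259) (nat_lit 126)) (XT.lf (nat_lit 0) (nat_lit 93961115018) (nat_lit 152) (nat_lit 40876369396) (nat_lit 0) (nat_lit 25149481164) (nat_lit 5) (nat_lit 5) (nat_lit 7) (nat_lit 4) (nat_lit 5) (nat_lit 4) (nat_lit 336) (nat_lit 259) (nat_lit 125))) (XT.nd (nat_lit 78) (nat_lit 76) (nat_lit 0) (XT.lf (nat_lit 0) (nat_lit 107897935776) (nat_lit 152) (nat_lit 20356903632) (nat_lit 0) (nat_lit 39081551791) (nat_lit 5) (nat_lit 5) (nat_lit 7) (nat_lit 4) (nat_lit 5) (nat_lit 4) (nat_lit 337) (nat_lit 259) (nat_lit 124))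 (XT.nd (nat_lit 78) (nat_lit 0) (nat_lit 0) (XT.lf (nat_lit 0) (nat_lit 1224705648) (nat_lit 76) (nat_lit 121324310769) (nat_lit 76) (nat_lit 52503402850) (nat_lit 4) (nat_lit 4) (nat_lit 5) (nat_lit 5) (nat_lit 5) (nat_lit 4) (nat_lit 338) (nat_lit 259) (nat_lit 123)) (XT.lf (nat_lit 0) (nat_lit 24589161959) (nat_lit 76) (nat_lit 113686575449) (nat_lit 76) (nat_lit 44861359020) (nat_lit 4) (nat_lit 4) (nat_lit 5) (nat_lit 5) (nat_lit 5) (nat_lit 4) (nat_lit 339) (nat_lit 259) (nat_lit 122)))))) (XT.nd (nat_lit 312) (nat_lit 152) (nat_lit 0) (XT.nd (nat_lit 156) (nat_lit 0) (nat_lit 0) (XT.nd (nat_lit 78) (nat_lit 0) (nat_lit 0) (XT.lf (nat_lit 0) (nat_lit 49119003790) (nat_lit 76) (nat_lit 105668202378) (nat_lit 76) (nat_lit 36838882607) (nat_lit 4) (nat_lit 4) (nat_lit 5) (nat_lit 5) (nat_lit 5) (nat_lit 4) (nat_lit 340) (nat_lit 259) (nat_lit 121)) (XT.lf (nat_lit 0) (nat_lit 74872635525)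 (nat_lit 76) (nat_lit 97250100191) (nat_lit 76) (nat_lit 28416872476) (nat_lit 4) (nat_lit 4) (nat_lit 5) (nat_lit 5) (nat_lit 5) (nat_lit 4) (nat_lit 341) (nat_lit 259) (nat_lit 120))) (XT.nd (nat_lit 78) (nat_lit 0) (nat_lit 0) (XT.lf (nat_lit 0) (nat_lit 101911375335) (nat_lit 76) (nat_lit 88412225788) (nat_lit 76) (nat_lit 19575276220) (nat_lit 4) (nat_lit 4) (nat_lit 5) (nat_lit 5) (nat_lit 5) (nat_lit 4) (nat_lit 342) (nat_lit 259) (nat_lit 119)) (XT.lf (nat_lit 0) (nat_lit 130299601173) (nat_lit 76) (nat_lit 79133536611) (nat_lit 76) (nat_lit 10293042422) (nat_lit 4) (nat_lit 4) (nat_lit 5) (nat_lit 5) (nat_lit 5) (nat_lit 4) (nat_lit 343) (nat_lit 259) (nat_lit 118)))) (XT.nd (nat_lit 156) (nat_lit 76) (nat_lit 0) (XT.nd (nat_lit 78) (nat_lit 76) (nat_lit 0) (XT.lf (nat_lit 0) (nat_lit 160104904052) (nat_lit 76) (nat_lit 69391940542) (nat_lit 76) (nat_lit 548070524) (nat_lit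 4) (nat_lit 4) (nat_lit 5) (nat_lit 5) (nat_lit 5) (nat_lit 4) (nat_lit 344) (nat_lit 259) (nat_lit 117)) (XT.lf (nat_lit 0) (nat_lit 9372930379) (nat_lit 152) (nat_lit 49632577815) (nat_lit 76) (nat_lit 181866583488) (nat_lit 3) (nat_lit 5) (nat_lit 5) (nat_lit 5) (nat_lit 4) (nat_lit 4) (nat_lit 345) (nat_lit 259) (nat_lit 116))) (XT.nd (nat_lit 78) (nat_lit 76) (nat_lit 0) (XT.lf (nat_lit 0) (nat_lit 19770356555) (nat_lit 152) (nat_lit 28320916133) (nat_lit 76) (nat_lit 204148966808) (nat_lit 3) (nat_lit 5) (nat_lit 5) (nat_lit 5) (nat_lit 4) (nat_lit 4) (nat_lit 346) (nat_lit 259) (nat_lit 115)) (XT.nd (nat_lit 78) (nat_lit 76) (nat_lit 0) (XT.lf (nat_lit 0) (nat_lit 30686505457) (nat_lit 152) (nat_lit 5945727051) (nat_lit 76) (nat_lit 227544620915) (nat_lit 3) (nat_lit 5) (nat_lit 5) (nat_lit 5) (nat_lit 4) (nat_lit 4) (nat_lit 347) (nat_lit 259) (nat_lit 114)) (XT.lf (nat_lit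 0) (nat_lit 18126422408) (nat_lit 76) (nat_lit 24303949763) (nat_lit 152) (nat_lit 234265831590) (nat_lit 2) (nat_lit 5) (nat_lit 3) (nat_lit 5) (nat_lit 4) (nat_lit 4) (nat_lit 348) (nat_lit 259) (nat_lit 113))))))))
noncomputable def xc172 : XT := (XT.nd (nat_lit 31122) (nat_lit 0) (nat_lit 3040) (XT.nd (nat_lit 702) (nat_lit 0) (nat_lit 0) (XT.nd (nat_lit 312) (nat_lit 0) (nat_lit 0) (XT.nd (nat_lit 156) (nat_lit 0) (nat_lit 0) (XT.nd (nat_lit 78) (nat_lit 0) (nat_lit 0) (XT.lf (nat_lit 0) (nat_lit 43606675340) (nat_lit 76) (nat_lit 11254378773) (nat_lit 152) (nat_lit 234975487580) (nat_lit 2) (nat_lit 5) (nat_lit 3) (nat_lit 5) (nat_lit 4) (nat_lit 4) (nat_lit 349) (nat_lit 259) (nat_lit 112)) (XT.lf (nat_lit 0) (nat_lit 67950451621) (nat_lit 152) (nat_lit 233313044555) (nat_lit 0) (nat_lit 2368542393) (nat_lit 2) (nat_lit 5) (nat_lit 4) (nat_lit 4) (nat_lit 2) (nat_lit 4) (nat_lit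 350) (nat_lit 259) (nat_lit 111))) (XT.nd (nat_lit 78) (nat_lit 0) (nat_lit 0) (XT.lf (nat_lit 0) (nat_lit 81877832699) (nat_lit 152) (nat_lit 219936664390) (nat_lit 0) (nat_lit 16293638576) (nat_lit 2) (nat_lit 5) (nat_lit 4) (nat_lit 4) (nat_lit 2) (nat_lit 4) (nat_lit 351) (nat_lit 259) (nat_lit 110)) (XT.lf (nat_lit 0) (nat_lit 96500645387) (nat_lit 152) (nat_lit 205893164945) (nat_lit 0) (nat_lit 30914275174) (nat_lit 2) (nat_lit 5) (nat_lit 4) (nat_lit 4) (nat_lit 2) (nat_lit 4) (nat_lit 352) (nat_lit 259) (nat_lit 109)))) (XT.nd (nat_lit 156) (nat_lit 0) (nat_lit 0) (XT.nd (nat_lit 78) (nat_lit 0) (nat_lit 0) (XT.lf (nat_lit 0) (nat_lit 111853705904) (nat_lit 152) (nat_lit 191149109314) (nat_lit 0) (nat_lit 46265263224) (nat_lit 2) (nat_lit 5) (nat_lit 4) (nat_lit 4) (nat_lit 2) (nat_lit 4) (nat_lit 353) (nat_lit 259) (nat_lit 108)) (XT.lf (nat_lit 0) (nat_lit 127973569156)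 (nat_lit 152) (nat_lit 175669392605) (nat_lit 0) (nat_lit 62383152699) (nat_lit 2) (nat_lit 5) (nat_lit 4) (nat_lit 4) (nat_lit 2) (nat_lit 4) (nat_lit 354) (nat_lit 259) (nat_lit 107))) (XT.nd (nat_lit 78) (nat_lit 0) (nat_lit 0) (XT.lf (nat_lit 0) (nat_lit 144898615771) (nat_lit 152) (nat_lit 159417158347) (nat_lit 0) (nat_lit 79306319526) (nat_lit 2) (nat_lit 5) (nat_lit 4) (nat_lit 4) (nat_lit 2) (nat_lit 4) (nat_lit 355) (nat_lit 259) (nat_lit 106)) (XT.nd (nat_lit 78) (nat_lit 0) (nat_lit 0) (XT.lf (nat_lit 0) (nat_lit 162669143479) (nat_lit 152) (nat_lit 142353710746) (nat_lit 0) (nat_lit 97075056959) (nat_lit 2) (nat_lit 5) (nat_lit 4) (nat_lit 4) (nat_lit 2) (nat_lit 4) (nat_lit 356) (nat_lit 259) (nat_lit 105)) (XT.lf (nat_lit 0) (nat_lit 181327463059) (nat_lit 152) (nat_lit 124438422546) (nat_lit 0) (nat_lit 115731671516) (nat_lit 2) (nat_lit 5) (nat_lit 4) (nat_lit 4) (nat_lit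 2) (nat_lit 4) (nat_lit 357) (nat_lit 259) (nat_lit 104)))))) (XT.nd (nat_lit 30030) (nat_lit 0) (nat_lit 5168) (XT.nd (nat_lit 29874) (nat_lit 0) (nat_lit 5700) (XT.nd (nat_lit 78) (nat_lit 0) (nat_lit 0) (XT.lf (nat_lit 0) (nat_lit 200917999083) (nat_lit 152) (nat_lit 105628638297) (nat_lit 0) (nat_lit 135320583707) (nat_lit 2) (nat_lit 5) (nat_lit 4) (nat_lit 4) (nat_lit 2) (nat_lit 4) (nat_lit 358) (nat_lit 259) (nat_lit 103)) (XT.lf (nat_lit 0) (nat_lit 221487395683) (nat_lit 152) (nat_lit 85879572801) (nat_lit 0) (nat_lit 155888433801) (nat_lit 2) (nat_lit 5) (nat_lit 4) (nat_lit 4) (nat_lit 2) (nat_lit 4) (nat_lit 359) (nat_lit 259) (nat_lit 102))) (XT.nd (nat_lit 78) (nat_lit 0) (nat_lit 0) (XT.lf (nat_lit 0) (nat_lit 4211467953) (nat_lit 684) (nat_lit 711051431) (nat_lit 684) (nat_lit 711051431) (nat_lit 77) (nat_lit 3) (nat_lit 86) (nat_lit 3) (nat_lit 86) (nat_lit 5) (nat_lit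 260) (nat_lit 260) (nat_lit 200)) (XT.lf (nat_lit 76) (nat_lit 3479338779) (nat_lit 0) (nat_lit 5691594609) (nat_lit 684) (nat_lit 2349126437) (nat_lit 78) (nat_lit 5) (nat_lit 77) (nat_lit 3) (nat_lit 86) (nat_lit 5) (nat_lit 261) (nat_lit 260) (nat_lit 199)))) (XT.nd (nat_lit 156) (nat_lit 532) (nat_lit 0) (XT.nd (nat_lit 78) (nat_lit 0) (nat_lit 76) (XT.lf (nat_lit 76) (nat_lit 8658390035) (nat_lit 0) (nat_lit 1290837321) (nat_lit 684) (nat_lit 1836872672) (nat_lit 78) (nat_lit 5) (nat_lit 77) (nat_lit 3) (nat_lit 86) (nat_lit 5) (nat_lit 262) (nat_lit 260) (nat_lit 198)) (XT.lf (nat_lit 76) (nat_lit 2025958236) (nat_lit 0) (nat_lit 8794609786) (nat_lit 684) (nat_lit 1242282789) (nat_lit 79) (nat_lit 5) (nat_lit 78) (nat_lit 5) (nat_lit 87) (nat_lit 5) (nat_lit 263) (nat_lit 260) (nat_lit 197))) (XT.nd (nat_lit 78) (nat_lit 608) (nat_lit 0) (XT.lf (nat_lit 76) (nat_lit 7506477084)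 (nat_lit 0) (nat_lit 4274429104) (nat_lit 684) (nat_lit 570371107) (nat_lit 79) (nat_lit 5) (nat_lit 78) (nat_lit 5) (nat_lit 87) (nat_lit 5) (nat_lit 264) (nat_lit 260) (nat_lit 196)) (XT.nd (nat_lit 78) (nat_lit 0) (nat_lit 0) (XT.lf (nat_lit 0) (nat_lit 120435951) (nat_lit 684) (nat_lit 12056267557) (nat_lit 760) (nat_lit 477934341) (nat_lit 70) (nat_lit 5) (nat_lit 79) (nat_lit 5) (nat_lit 80) (nat_lit 5) (nat_lit 265) (nat_lit 260) (nat_lit 195)) (XT.lf (nat_lit 0) (nat_lit 953710778) (nat_lit 684) (nat_lit 6586941274) (nat_lit 760) (nat_lit 5425786832) (nat_lit 70) (nat_lit 5) (nat_lit 79) (nat_lit 5) (nat_lit 80) (nat_lit 5) (nat_lit 266) (nat_lit 260) (nat_lit 194))))))) (XT.nd (nat_lit 702) (nat_lit 1292) (nat_lit 0) (XT.nd (nat_lit 312) (nat_lit 836) (nat_lit 0) (XT.nd (nat_lit 156) (nat_lit 0) (nat_lit 76) (XT.nd (nat_lit 78) (nat_lit 0) (nat_lit 76) (XT.lf (nat_lit 0) (nat_lit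 1803534027) (nat_lit 684) (nat_lit 862252599) (nat_lit 760) (nat_lit 10629389349) (nat_lit 70) (nat_lit 5) (nat_lit 79) (nat_lit 5) (nat_lit 80) (nat_lit 5) (nat_lit 267) (nat_lit 260) (nat_lit 193)) (XT.lf (nat_lit 0) (nat_lit 2794450550) (nat_lit 684) (nat_lit 8376153183) (nat_lit 760) (nat_lit 2464902024) (nat_lit 71) (nat_lit 5) (nat_lit 80) (nat_lit 5) (nat_lit 81) (nat_lit 5) (nat_lit 268) (nat_lit 260) (nat_lit 192))) (XT.nd (nat_lit 78) (nat_lit 0) (nat_lit 0) (XT.lf (nat_lit 0) (nat_lit 3870506134) (nat_lit 684) (nat_lit 2337382027) (nat_lit 760) (nat_lit 7783266054) (nat_lit 71) (nat_lit 5) (nat_lit 80) (nat_lit 5) (nat_lit 81) (nat_lit 5) (nat_lit 269) (nat_lit 260) (nat_lit 191)) (XT.lf (nat_lit 76) (nat_lit 4117698030) (nat_lit 0) (nat_lit 925097904) (nat_lit 760) (nat_lit 9319745543) (nat_lit 72) (nat_lit 5) (nat_lit 71) (nat_lit 5) (nat_lit 81) (nat_lit 5) (nat_lit 270)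 (nat_lit 260) (nat_lit 190)))) (XT.nd (nat_lit 156) (nat_lit 304) (nat_lit 0) (XT.nd (nat_lit 78) (nat_lit 684) (nat_lit 0) (XT.lf (nat_lit 0) (nat_lit 6365071009) (nat_lit 684) (nat_lit 3864977557) (nat_lit 76) (nat_lit 4517955235) (nat_lit 72) (nat_lit 5) (nat_lit 81) (nat_lit 5) (nat_lit 73) (nat_lit 5) (nat_lit 271) (nat_lit 260) (nat_lit 189)) (XT.lf (nat_lit 0) (nat_lit 2893880498) (nat_lit 684) (nat_lit 4899904949) (nat_lit 760) (nat_lit 7357008219) (nat_lit 63) (nat_lit 5) (nat_lit 72) (nat_lit 5) (nat_lit 73) (nat_lit 5) (nat_lit 272) (nat_lit 260) (nat_lit 188))) (XT.nd (nat_lit 78) (nat_lit 304) (nat_lit 0) (XT.lf (nat_lit 0) (nat_lit 9352039513) (nat_lit 760) (nat_lit 5475780839) (nat_lit 76) (nat_lit 743064815) (nat_lit 63) (nat_lit 5) (nat_lit 73) (nat_lit 5) (nat_lit 64) (nat_lit 5) (nat_lit 273) (nat_lit 260) (nat_lit 187)) (XT.nd (nat_lit 78) (nat_lit 0) (nat_lit 0)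 (XT.lf (nat_lit 0) (nat_lit 1597847529) (nat_lit 304) (nat_lit 9477248557) (nat_lit 380) (nat_lit 4932604797) (nat_lit 59) (nat_lit 5) (nat_lit 63) (nat_lit 5) (nat_lit 64) (nat_lit 5) (nat_lit 274) (nat_lit 260) (nat_lit 186)) (XT.lf (nat_lit 0) (nat_lit 9198168944) (nat_lit 304) (nat_lit 3761096655) (nat_lit 380) (nat_lit 3503404858) (nat_lit 59) (nat_lit 5) (nat_lit 63) (nat_lit 5) (nat_lit 64) (nat_lit 5) (nat_lit 275) (nat_lit 260) (nat_lit 185)))))) (XT.nd (nat_lit 312) (nat_lit 532) (nat_lit 0) (XT.nd (nat_lit 156) (nat_lit 380) (nat_lit 0) (XT.nd (nat_lit 78) (nat_lit 0) (nat_lit 0) (XT.lf (nat_lit 0) (nat_lit 192083888) (nat_lit 380) (nat_lit 14766626460) (nat_lit 456) (nat_lit 1980682993) (nat_lit 54) (nat_lit 5) (nat_lit 59) (nat_lit 5) (nat_lit 60) (nat_lit 5) (nat_lit 276) (nat_lit 260) (nat_lit 184)) (XT.lf (nat_lit 0) (nat_lit 8193091243) (nat_lit 380) (nat_lit 9032349923)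 (nat_lit 456) (nat_lit 206200909) (nat_lit 54) (nat_lit 5) (nat_lit 59) (nat_lit 5) (nat_lit 60) (nat_lit 5) (nat_lit 277) (nat_lit 260) (nat_lit 183))) (XT.nd (nat_lit 78) (nat_lit 304) (nat_lit 0) (XT.lf (nat_lit 0) (nat_lit 1588066986) (nat_lit 456) (nat_lit 1396913651) (nat_lit 76) (nat_lit 14963074521) (nat_lit 53) (nat_lit 5) (nat_lit 59) (nat_lit 5) (nat_lit 54) (nat_lit 5) (nat_lit 278) (nat_lit 260) (nat_lit 182)) (XT.lf (nat_lit 0) (nat_lit 3614311954) (nat_lit 380) (nat_lit 11496857467) (nat_lit 76) (nat_lit 3371538646) (nat_lit 49) (nat_lit 5) (nat_lit 54) (nat_lit 5) (nat_lit 50) (nat_lit 5) (nat_lit 279) (nat_lit 260) (nat_lit 181)))) (XT.nd (nat_lit 156) (nat_lit 228) (nat_lit 0) (XT.nd (nat_lit 78) (nat_lit 304) (nat_lit 0) (XT.lf (nat_lit 0) (nat_lit 5800164051) (nat_lit 380) (nat_lit 3272383663) (nat_lit 76) (nat_lit 9968676738) (nat_lit 49) (nat_lit 5) (nat_lit 54)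 (nat_lit 5) (nat_lit 50) (nat_lit 5) (nat_lit 280) (nat_lit 260) (nat_lit 180)) (XT.lf (nat_lit 0) (nat_lit 5524512019) (nat_lit 304) (nat_lit 2643064646) (nat_lit 380) (nat_lit 11456520003) (nat_lit 45) (nat_lit 5) (nat_lit 49) (nat_lit 5) (nat_lit 50) (nat_lit 5) (nat_lit 281) (nat_lit 260) (nat_lit 179))) (XT.nd (nat_lit 78) (nat_lit 228) (nat_lit 0) (XT.lf (nat_lit 0) (nat_lit 10760236099) (nat_lit 380) (nat_lit 5439583295) (nat_lit 76) (nat_lit 4030990630) (nat_lit 45) (nat_lit 5) (nat_lit 50) (nat_lit 5) (nat_lit 46) (nat_lit 5) (nat_lit 282) (nat_lit 260) (nat_lit 178)) (XT.nd (nat_lit 78) (nat_lit 0) (nat_lit 0) (XT.lf (nat_lit 0) (nat_lit 3713654282) (nat_lit 228) (nat_lit 9857243280) (nat_lit 304) (nat_lit 7292582405) (nat_lit 42) (nat_lit 5) (nat_lit 45) (nat_lit 5) (nat_lit 46) (nat_lit 5) (nat_lit 283) (nat_lit 260) (nat_lit 177)) (XT.lf (nat_lit 0) (nat_lit 13498355438)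 (nat_lit 228) (nat_lit 3103299478) (nat_lit 304) (nat_lit 4922187845) (nat_lit 42) (nat_lit 5) (nat_lit 45) (nat_lit 5) (nat_lit 46) (nat_lit 5) (nat_lit 284) (nat_lit 260) (nat_lit 176))))))))
noncomputable def xc173 : XT := (XT.nd (nat_lit 1404) (nat_lit 760) (nat_lit 0) (XT.nd (nat_lit 702) (nat_lit 836) (nat_lit 0) (XT.nd (nat_lit 312) (nat_lit 380) (nat_lit 0) (XT.nd (nat_lit 156) (nat_lit 228) (nat_lit 0) (XT.nd (nat_lit 78) (nat_lit 76) (nat_lit 0) (XT.lf (nat_lit 0) (nat_lit 1526735315) (nat_lit 228) (nat_lit 18331322513) (nat_lit 304) (nat_lit 2355496193) (nat_lit 39) (nat_lit 5) (nat_lit 42) (nat_lit 5) (nat_lit 43) (nat_lit 5) (nat_lit 285) (nat_lit 260) (nat_lit 175)) (XT.lf (nat_lit 0) (nat_lit 505800257) (nat_lit 304) (nat_lit 11169275018) (nat_lit 76) (nat_lit 11253586045) (nat_lit 38) (nat_lit 5) (nat_lit 42) (nat_lit 5) (nat_lit 39) (nat_lit 5) (nat_lit 286) (nat_lit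 260) (nat_lit 174))) (XT.nd (nat_lit 78) (nat_lit 228) (nat_lit 0) (XT.lf (nat_lit 0) (nat_lit 3419687033) (nat_lit 304) (nat_lit 1228862107) (nat_lit 76) (nat_lit 19029640676) (nat_lit 38) (nat_lit 5) (nat_lit 42) (nat_lit 5) (nat_lit 39) (nat_lit 5) (nat_lit 287) (nat_lit 260) (nat_lit 173)) (XT.lf (nat_lit 0) (nat_lit 6661794310) (nat_lit 304) (nat_lit 15004457905) (nat_lit 76) (nat_lit 2789845593) (nat_lit 35) (nat_lit 5) (nat_lit 39) (nat_lit 5) (nat_lit 36) (nat_lit 5) (nat_lit 288) (nat_lit 260) (nat_lit 172)))) (XT.nd (nat_lit 156) (nat_lit 152) (nat_lit 0) (XT.nd (nat_lit 78) (nat_lit 228) (nat_lit 0) (XT.lf (nat_lit 0) (nat_lit 10152845124) (nat_lit 304) (nat_lit 4653568552) (nat_lit 76) (nat_lit 10462173594) (nat_lit 35) (nat_lit 5) (nat_lit 39) (nat_lit 5) (nat_lit 36) (nat_lit 5) (nat_lit 289) (nat_lit 260) (nat_lit 171)) (XT.lf (nat_lit 0) (nat_lit 6406591087) (nat_lit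 228) (nat_lit 7501863095) (nat_lit 304) (nat_lit 12208773387) (nat_lit 32) (nat_lit 5) (nat_lit 35) (nat_lit 5) (nat_lit 36) (nat_lit 5) (nat_lit 290) (nat_lit 260) (nat_lit 170))) (XT.nd (nat_lit 78) (nat_lit 152) (nat_lit 0) (XT.lf (nat_lit 0) (nat_lit 17924768491) (nat_lit 304) (nat_lit 8840523244) (nat_lit 76) (nat_lit 239387285) (nat_lit 32) (nat_lit 5) (nat_lit 36) (nat_lit 5) (nat_lit 33) (nat_lit 5) (nat_lit 291) (nat_lit 260) (nat_lit 169)) (XT.nd (nat_lit 78) (nat_lit 0) (nat_lit 0) (XT.lf (nat_lit 0) (nat_lit 2517774627) (nat_lit 152) (nat_lit 19777082162) (nat_lit 228) (nat_lit 5634022513) (nat_lit 30) (nat_lit 5) (nat_lit 32) (nat_lit 5) (nat_lit 33) (nat_lit 5) (nat_lit 292) (nat_lit 260) (nat_lit 168)) (XT.lf (nat_lit 0) (nat_lit 14738194674) (nat_lit 152) (nat_lit 12285886644) (nat_lit 228) (nat_lit 1868199708) (nat_lit 30) (nat_lit 5) (nat_lit 32) (nat_lit 5) (nat_lit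 33) (nat_lit 5) (nat_lit 293) (nat_lit 260) (nat_lit 167)))))) (XT.nd (nat_lit 312) (nat_lit 380) (nat_lit 0) (XT.nd (nat_lit 156) (nat_lit 152) (nat_lit 0) (XT.nd (nat_lit 78) (nat_lit 228) (nat_lit 0) (XT.lf (nat_lit 0) (nat_lit 2010334840) (nat_lit 228) (nat_lit 2379206705) (nat_lit 76) (nat_lit 25513144678) (nat_lit 29) (nat_lit 5) (nat_lit 32) (nat_lit 5) (nat_lit 30) (nat_lit 5) (nat_lit 294) (nat_lit 260) (nat_lit 166)) (XT.lf (nat_lit 0) (nat_lit 6235961743) (nat_lit 304) (nat_lit 20747809145) (nat_lit 76) (nat_lit 3967531897) (nat_lit 26) (nat_lit 5) (nat_lit 30) (nat_lit 5) (nat_lit 27) (nat_lit 5) (nat_lit 295) (nat_lit 260) (nat_lit 165))) (XT.nd (nat_lit 78) (nat_lit 152) (nat_lit 0) (XT.lf (nat_lit 0) (nat_lit 10777550090) (nat_lit 304) (nat_lit 8637040178) (nat_lit 76) (nat_lit 12632544839) (nat_lit 26) (nat_lit 5) (nat_lit 30) (nat_lit 5) (nat_lit 27) (nat_lit 5) (nat_lit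 296) (nat_lit 260) (nat_lit 164)) (XT.lf (nat_lit 0) (nat_lit 4202325906) (nat_lit 152) (nat_lit 11401660930) (nat_lit 228) (nat_lit 17590901796) (nat_lit 24) (nat_lit 5) (nat_lit 26) (nat_lit 5) (nat_lit 27) (nat_lit 5) (nat_lit 297) (nat_lit 260) (nat_lit 163)))) (XT.nd (nat_lit 156) (nat_lit 380) (nat_lit 0) (XT.nd (nat_lit 78) (nat_lit 0) (nat_lit 0) (XT.lf (nat_lit 0) (nat_lit 17972261371) (nat_lit 152) (nat_lit 2838113027) (nat_lit 228) (nat_lit 13582741164) (nat_lit 24) (nat_lit 5) (nat_lit 26) (nat_lit 5) (nat_lit 27) (nat_lit 5) (nat_lit 298) (nat_lit 260) (nat_lit 162)) (XT.lf (nat_lit 0) (nat_lit 26365823235) (nat_lit 228) (nat_lit 3327683346) (nat_lit 76) (nat_lit 5953326524) (nat_lit 24) (nat_lit 5) (nat_lit 27) (nat_lit 5) (nat_lit 25) (nat_lit 5) (nat_lit 299) (nat_lit 260) (nat_lit 161))) (XT.nd (nat_lit 78) (nat_lit 228) (nat_lit 0) (XT.lf (nat_lit 0) (nat_lit 10705748522)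 (nat_lit 152) (nat_lit 21699985133) (nat_lit 228) (nat_lit 4547183991) (nat_lit 22) (nat_lit 5) (nat_lit 24) (nat_lit 5) (nat_lit 25) (nat_lit 5) (nat_lit 300) (nat_lit 260) (nat_lit 160)) (XT.nd (nat_lit 78) (nat_lit 152) (nat_lit 0) (XT.lf (nat_lit 0) (nat_lit 460124527) (nat_lit 228) (nat_lit 12783236021) (nat_lit 76) (nat_lit 25078112496) (nat_lit 21) (nat_lit 5) (nat_lit 24) (nat_lit 5) (nat_lit 22) (nat_lit 5) (nat_lit 301) (nat_lit 260) (nat_lit 159)) (XT.lf (nat_lit 0) (nat_lit 1311225965) (nat_lit 152) (nat_lit 4267620510) (nat_lit 228) (nat_lit 34175202835) (nat_lit 19) (nat_lit 5) (nat_lit 21) (nat_lit 5) (nat_lit 22) (nat_lit 5) (nat_lit 302) (nat_lit 260) (nat_lit 158))))))) (XT.nd (nat_lit 702) (nat_lit 304) (nat_lit 0) (XT.nd (nat_lit 312) (nat_lit 304) (nat_lit 0) (XT.nd (nat_lit 156) (nat_lit 152) (nat_lit 0) (XT.nd (nat_lit 78) (nat_lit 0) (nat_lit 0) (XT.lf (nat_lit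 0) (nat_lit 11247554252) (nat_lit 228) (nat_lit 24787485896) (nat_lit 76) (nat_lit 5208524573) (nat_lit 19) (nat_lit 5) (nat_lit 22) (nat_lit 5) (nat_lit 20) (nat_lit 5) (nat_lit 303) (nat_lit 260) (nat_lit 157)) (XT.lf (nat_lit 0) (nat_lit 17263464750) (nat_lit 228) (nat_lit 10529065782) (nat_lit 76) (nat_lit 15011849211) (nat_lit 19) (nat_lit 5) (nat_lit 22) (nat_lit 5) (nat_lit 20) (nat_lit 5) (nat_lit 304) (nat_lit 260) (nat_lit 156))) (XT.nd (nat_lit 78) (nat_lit 0) (nat_lit 0) (XT.lf (nat_lit 0) (nat_lit 4579590631) (nat_lit 152) (nat_lit 19066181662) (nat_lit 228) (nat_lit 20794194774) (nat_lit 17) (nat_lit 5) (nat_lit 19) (nat_lit 5) (nat_lit 20) (nat_lit 5) (nat_lit 305) (nat_lit 260) (nat_lit 155)) (XT.lf (nat_lit 0) (nat_lit 20800114408) (nat_lit 152) (nat_lit 9719635554) (nat_lit 228) (nat_lit 15628967131) (nat_lit 17) (nat_lit 5) (nat_lit 19) (nat_lit 5) (nat_lit 20) (nat_lit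 5) (nat_lit 306) (nat_lit 260) (nat_lit 154)))) (XT.nd (nat_lit 156) (nat_lit 228) (nat_lit 0) (XT.nd (nat_lit 78) (nat_lit 76) (nat_lit 0) (XT.lf (nat_lit 0) (nat_lit 37733362220) (nat_lit 228) (nat_lit 10121623572) (nat_lit 76) (nat_lit 88132588) (nat_lit 17) (nat_lit 5) (nat_lit 20) (nat_lit 5) (nat_lit 18) (nat_lit 4) (nat_lit 307) (nat_lit 260) (nat_lit 153)) (XT.lf (nat_lit 0) (nat_lit 5887309243) (nat_lit 76) (nat_lit 39666329520) (nat_lit 152) (nat_lit 4261311828) (nat_lit 16) (nat_lit 5) (nat_lit 17) (nat_lit 5) (nat_lit 18) (nat_lit 4) (nat_lit 308) (nat_lit 260) (nat_lit 152))) (XT.nd (nat_lit 78) (nat_lit 152) (nat_lit 0) (XT.lf (nat_lit 0) (nat_lit 2090016196) (nat_lit 152) (nat_lit 28766042868) (nat_lit 76) (nat_lit 20914326254) (nat_lit 15) (nat_lit 5) (nat_lit 17) (nat_lit 5) (nat_lit 16) (nat_lit 5) (nat_lit 309) (nat_lit 260) (nat_lit 151)) (XT.nd (nat_lit 78) (nat_lit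 152) (nat_lit 0) (XT.lf (nat_lit 0) (nat_lit 8610707317) (nat_lit 152) (nat_lit 12924348954) (nat_lit 76) (nat_lit 32285301071) (nat_lit 15) (nat_lit 5) (nat_lit 17) (nat_lit 5) (nat_lit 16) (nat_lit 5) (nat_lit 310) (nat_lit 260) (nat_lit 150)) (XT.lf (nat_lit 0) (nat_lit 3824084312) (nat_lit 152) (nat_lit 11688295941) (nat_lit 228) (nat_lit 40457708614) (nat_lit 13) (nat_lit 5) (nat_lit 15) (nat_lit 5) (nat_lit 16) (nat_lit 5) (nat_lit 311) (nat_lit 260) (nat_lit 149)))))) (XT.nd (nat_lit 312) (nat_lit 228) (nat_lit 0) (XT.nd (nat_lit 156) (nat_lit 76) (nat_lit 0) (XT.nd (nat_lit 78) (nat_lit 0) (nat_lit 0) (XT.lf (nat_lit 0) (nat_lit 21851028369) (nat_lit 152) (nat_lit 1122338809) (nat_lit 228) (nat_lit 35243236143) (nat_lit 13) (nat_lit 5) (nat_lit 15) (nat_lit 5) (nat_lit 16) (nat_lit 5) (nat_lit 312) (nat_lit 260) (nat_lit 148)) (XT.lf (nat_lit 0) (nat_lit 30958620569) (nat_lit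 228) (nat_lit 19959250708) (nat_lit 76) (nat_lit 9650018859) (nat_lit 13) (nat_lit 5) (nat_lit 16) (nat_lit 5) (nat_lit 14) (nat_lit 4) (nat_lit 313) (nat_lit 260) (nat_lit 147))) (XT.nd (nat_lit 78) (nat_lit 76) (nat_lit 0) (XT.lf (nat_lit 0) (nat_lit 39357276162) (nat_lit 228) (nat_lit 2758092373) (nat_lit 76) (nat_lit 20920672917) (nat_lit 13) (nat_lit 5) (nat_lit 16) (nat_lit 5) (nat_lit 14) (nat_lit 4) (nat_lit 314) (nat_lit 260) (nat_lit 146)) (XT.lf (nat_lit 0) (nat_lit 15802145382) (nat_lit 76) (nat_lit 32616378294) (nat_lit 152) (nat_lit 17196950500) (nat_lit 12) (nat_lit 5) (nat_lit 13) (nat_lit 5) (nat_lit 14) (nat_lit 4) (nat_lit 315) (nat_lit 260) (nat_lit 145)))) (XT.nd (nat_lit 156) (nat_lit 228) (nat_lit 0) (XT.nd (nat_lit 78) (nat_lit 0) (nat_lit 0) (XT.lf (nat_lit 0) (nat_lit 35379512736) (nat_lit 76) (nat_lit 22596063377) (nat_lit 152) (nat_lit 10346171769) (nat_lit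 12) (nat_lit 5) (nat_lit 13) (nat_lit 5) (nat_lit 14) (nat_lit 4) (nat_lit 316) (nat_lit 260) (nat_lit 144)) (XT.lf (nat_lit 0) (nat_lit 55929427477) (nat_lit 76) (nat_lit 12077275520) (nat_lit 152) (nat_lit 3156827350) (nat_lit 12) (nat_lit 5) (nat_lit 13) (nat_lit 5) (nat_lit 14) (nat_lit 4) (nat_lit 317) (nat_lit 260) (nat_lit 143))) (XT.nd (nat_lit 78) (nat_lit 0) (nat_lit 0) (XT.lf (nat_lit 0) (nat_lit 3393325764) (nat_lit 152) (nat_lit 907403992) (nat_lit 228) (nat_lit 69840783394) (nat_lit 9) (nat_lit 5) (nat_lit 11) (nat_lit 5) (nat_lit 12) (nat_lit 5) (nat_lit 318) (nat_lit 260) (nat_lit 142)) (XT.nd (nat_lit 78) (nat_lit 0) (nat_lit 0) (XT.lf (nat_lit 0) (nat_lit 12452625102) (nat_lit 228) (nat_lit 54005595559) (nat_lit 76) (nat_lit 10786214670) (nat_lit 9) (nat_lit 5) (nat_lit 12) (nat_lit 5) (nat_lit 10) (nat_lit 4) (nat_lit 319) (nat_lit 260) (nat_lit 141)) (XT.lf (nat_lit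 0) (nat_lit 21023541732) (nat_lit 228) (nat_lit 36446648225) (nat_lit 76) (nat_lit 23031747411) (nat_lit 9) (nat_lit 5) (nat_lit 12) (nat_lit 5) (nat_lit 10) (nat_lit 4) (nat_lit 320) (nat_lit 260) (nat_lit 140))))))))
noncomputable def xc174 : XT := (XT.nd (nat_lit 1404) (nat_lit 228) (nat_lit 0) (XT.nd (nat_lit 702) (nat_lit 76) (nat_lit 0) (XT.nd (nat_lit 312) (nat_lit 152) (nat_lit 0) (XT.nd (nat_lit 156) (nat_lit 0) (nat_lit 0) (XT.nd (nat_lit 78) (nat_lit 76) (nat_lit 0) (XT.lf (nat_lit 0) (nat_lit 30019719471) (nat_lit 228) (nat_lit 18015371247) (nat_lit 76) (nat_lit 35887392856) (nat_lit 9) (nat_lit 5) (nat_lit 12) (nat_lit 5) (nat_lit 10) (nat_lit 4) (nat_lit 321) (nat_lit 260) (nat_lit 139)) (XT.lf (nat_lit 0) (nat_lit 1376165248) (nat_lit 76) (nat_lit 38107898338) (nat_lit 152) (nat_lit 48029080230) (nat_lit 8) (nat_lit 5) (nat_lit 9) (nat_lit 5) (nat_lit 10) (nat_lit 4)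 (nat_lit 322) (nat_lit 260) (nat_lit 138))) (XT.nd (nat_lit 78) (nat_lit 0) (nat_lit 0) (XT.lf (nat_lit 0) (nat_lit 22357467660) (nat_lit 76) (nat_lit 27366194753) (nat_lit 152) (nat_lit 41544577165) (nat_lit 8) (nat_lit 5) (nat_lit 9) (nat_lit 5) (nat_lit 10) (nat_lit 4) (nat_lit 323) (nat_lit 260) (nat_lit 137)) (XT.lf (nat_lit 0) (nat_lit 44382821937) (nat_lit 76) (nat_lit 16089503506) (nat_lit 152) (nat_lit 34738914645) (nat_lit 8) (nat_lit 5) (nat_lit 9) (nat_lit 5) (nat_lit 10) (nat_lit 4) (nat_lit 324) (nat_lit 260) (nat_lit 136)))) (XT.nd (nat_lit 156) (nat_lit 152) (nat_lit 0) (XT.nd (nat_lit 78) (nat_lit 0) (nat_lit 0) (XT.lf (nat_lit 0) (nat_lit 67504669398) (nat_lit 76) (nat_lit 4250975334) (nat_lit 152) (nat_lit 27595888710) (nat_lit 8) (nat_lit 5) (nat_lit 9) (nat_lit 5) (nat_lit 10) (nat_lit 4) (nat_lit 325) (nat_lit 260) (nat_lit 135)) (XT.lf (nat_lit 0) (nat_lit 83728160217)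 (nat_lit 152) (nat_lit 12048590312) (nat_lit 0) (nat_lit 7915843209) (nat_lit 8) (nat_lit 5) (nat_lit 10) (nat_lit 4) (nat_lit 8) (nat_lit 4) (nat_lit 326) (nat_lit 260) (nat_lit 134))) (XT.nd (nat_lit 78) (nat_lit 76) (nat_lit 0) (XT.lf (nat_lit 0) (nat_lit 8951996902) (nat_lit 76) (nat_lit 87554211439) (nat_lit 76) (nat_lit 11734156968) (nat_lit 7) (nat_lit 4) (nat_lit 8) (nat_lit 5) (nat_lit 8) (nat_lit 4) (nat_lit 327) (nat_lit 260) (nat_lit 133)) (XT.nd (nat_lit 78) (nat_lit 76) (nat_lit 0) (XT.lf (nat_lit 0) (nat_lit 31416552918) (nat_lit 76) (nat_lit 78708160857) (nat_lit 76) (nat_lit 2880737373) (nat_lit 7) (nat_lit 4) (nat_lit 8) (nat_lit 5) (nat_lit 8) (nat_lit 4) (nat_lit 328) (nat_lit 260) (nat_lit 132)) (XT.lf (nat_lit 0) (nat_lit 6207604681) (nat_lit 152) (nat_lit 63108851993) (nat_lit 76) (nat_lit 48687450494) (nat_lit 6) (nat_lit 5) (nat_lit 8) (nat_lit 5) (nat_lit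 7) (nat_lit 4) (nat_lit 329) (nat_lit 260) (nat_lit 131)))))) (XT.nd (nat_lit 312) (nat_lit 0) (nat_lit 0) (XT.nd (nat_lit 156) (nat_lit 76) (nat_lit 0) (XT.nd (nat_lit 78) (nat_lit 0) (nat_lit 0) (XT.lf (nat_lit 0) (nat_lit 15651250123) (nat_lit 152) (nat_lit 43756062749) (nat_lit 76) (nat_lit 63842729926) (nat_lit 6) (nat_lit 5) (nat_lit 8) (nat_lit 5) (nat_lit 7) (nat_lit 4) (nat_lit 330) (nat_lit 260) (nat_lit 130)) (XT.lf (nat_lit 0) (nat_lit 25564885409) (nat_lit 152) (nat_lit 23439476043) (nat_lit 76) (nat_lit 79754236203) (nat_lit 6) (nat_lit 5) (nat_lit 8) (nat_lit 5) (nat_lit 7) (nat_lit 4) (nat_lit 331) (nat_lit 260) (nat_lit 129))) (XT.nd (nat_lit 78) (nat_lit 76) (nat_lit 0) (XT.lf (nat_lit 0) (nat_lit 35972114432) (nat_lit 152) (nat_lit 2110719051) (nat_lit 76) (nat_lit 96459853863) (nat_lit 6) (nat_lit 5) (nat_lit 8) (nat_lit 5) (nat_lit 7) (nat_lit 4) (nat_lit 332)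 (nat_lit 260) (nat_lit 128)) (XT.lf (nat_lit 0) (nat_lit 20951572134) (nat_lit 76) (nat_lit 26273256932) (nat_lit 152) (nat_lit 93374898810) (nat_lit 5) (nat_lit 5) (nat_lit 6) (nat_lit 5) (nat_lit 7) (nat_lit 4) (nat_lit 333) (nat_lit 260) (nat_lit 127)))) (XT.nd (nat_lit 156) (nat_lit 0) (nat_lit 0) (XT.nd (nat_lit 78) (nat_lit 0) (nat_lit 0) (XT.lf (nat_lit 0) (nat_lit 45236828677) (nat_lit 76) (nat_lit 13837149371) (nat_lit 152) (nat_lit 87883954893) (nat_lit 5) (nat_lit 5) (nat_lit 6) (nat_lit 5) (nat_lit 7) (nat_lit 4) (nat_lit 334) (nat_lit 260) (nat_lit 126)) (XT.lf (nat_lit 0) (nat_lit 70733082712) (nat_lit 76) (nat_lit 780647070) (nat_lit 152) (nat_lit 82120413536) (nat_lit 5) (nat_lit 5) (nat_lit 6) (nat_lit 5) (nat_lit 7) (nat_lit 4) (nat_lit 335) (nat_lit 260) (nat_lit 125))) (XT.nd (nat_lit 78) (nat_lit 0) (nat_lit 0) (XT.lf (nat_lit 0) (nat_lit 84775534683) (nat_lit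 152) (nat_lit 63345047098) (nat_lit 0) (nat_lit 12513581368) (nat_lit 5) (nat_lit 5) (nat_lit 7) (nat_lit 4) (nat_lit 5) (nat_lit 4) (nat_lit 336) (nat_lit 260) (nat_lit 124)) (XT.nd (nat_lit 78) (nat_lit 0) (nat_lit 0) (XT.lf (nat_lit 0) (nat_lit 98711525079) (nat_lit 152) (nat_lit 42827058408) (nat_lit 0) (nat_lit 26445047829) (nat_lit 5) (nat_lit 5) (nat_lit 7) (nat_lit 4) (nat_lit 5) (nat_lit 4) (nat_lit 337) (nat_lit 260) (nat_lit 123)) (XT.lf (nat_lit 0) (nat_lit 113342693812) (nat_lit 152) (nat_lit 21286054092) (nat_lit 0) (nat_lit 41071908054) (nat_lit 5) (nat_lit 5) (nat_lit 7) (nat_lit 4) (nat_lit 5) (nat_lit 4) (nat_lit 338) (nat_lit 260) (nat_lit 122))))))) (XT.nd (nat_lit 702) (nat_lit 76) (nat_lit 0) (XT.nd (nat_lit 312) (nat_lit 76) (nat_lit 0) (XT.nd (nat_lit 156) (nat_lit 0) (nat_lit 0) (XT.nd (nat_lit 78) (nat_lit 0) (nat_lit 0) (XT.lf (nat_lit 0) (nat_lit 1373205093)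 (nat_lit 76) (nat_lit 127352111486) (nat_lit 76) (nat_lit 55077222385) (nat_lit 4) (nat_lit 4) (nat_lit 5) (nat_lit 5) (nat_lit 5) (nat_lit 4) (nat_lit 339) (nat_lit 260) (nat_lit 121)) (XT.lf (nat_lit 0) (nat_lit 25901728783) (nat_lit 76) (nat_lit 119334318677) (nat_lit 76) (nat_lit 47055521631) (nat_lit 4) (nat_lit 4) (nat_lit 5) (nat_lit 5) (nat_lit 5) (nat_lit 4) (nat_lit 340) (nat_lit 260) (nat_lit 120))) (XT.nd (nat_lit 78) (nat_lit 0) (nat_lit 0) (XT.lf (nat_lit 0) (nat_lit 51654105147) (nat_lit 76) (nat_lit 110916769121) (nat_lit 76) (nat_lit 38634250223) (nat_lit 4) (nat_lit 4) (nat_lit 5) (nat_lit 5) (nat_lit 5) (nat_lit 4) (nat_lit 341) (nat_lit 260) (nat_lit 119)) (XT.lf (nat_lit 0) (nat_lit 78691649365) (nat_lit 76) (nat_lit 102079421033) (nat_lit 76) (nat_lit 29793357514) (nat_lit 4) (nat_lit 4) (nat_lit 5) (nat_lit 5) (nat_lit 5) (nat_lit 4) (nat_lit 342) (nat_lit 260)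 (nat_lit 118)))) (XT.nd (nat_lit 156) (nat_lit 76) (nat_lit 0) (XT.nd (nat_lit 78) (nat_lit 0) (nat_lit 0) (XT.lf (nat_lit 0) (nat_lit 107078736544) (nat_lit 76) (nat_lit 92801233109) (nat_lit 76) (nat_lit 20511793760) (nat_lit 4) (nat_lit 4) (nat_lit 5) (nat_lit 5) (nat_lit 5) (nat_lit 4) (nat_lit 343) (nat_lit 260) (nat_lit 117)) (XT.lf (nat_lit 0) (nat_lit 136882954986) (nat_lit 76) (nat_lit 83060114424) (nat_lit 76) (nat_lit 10767459999) (nat_lit 4) (nat_lit 4) (nat_lit 5) (nat_lit 5) (nat_lit 5) (nat_lit 4) (nat_lit 344) (nat_lit 260) (nat_lit 116))) (XT.nd (nat_lit 78) (nat_lit 76) (nat_lit 0) (XT.lf (nat_lit 0) (nat_lit 168175267116) (nat_lit 76) (nat_lit 72832871838) (nat_lit 76) (nat_lit 537155437) (nat_lit 4) (nat_lit 4) (nat_lit 5) (nat_lit 5) (nat_lit 5) (nat_lit 4) (nat_lit 345) (nat_lit 260) (nat_lit 115)) (XT.nd (nat_lit 78) (nat_lit 0) (nat_lit 0) (XT.lf (nat_lit 0)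 (nat_lit 9876902783) (nat_lit 152) (nat_lit 52050981864) (nat_lit 76) (nat_lit 190986005528) (nat_lit 3) (nat_lit 5) (nat_lit 5) (nat_lit 5) (nat_lit 4) (nat_lit 4) (nat_lit 346) (nat_lit 260) (nat_lit 114)) (XT.lf (nat_lit 0) (nat_lit 20792518082) (nat_lit 152) (nat_lit 29676747805) (nat_lit 76) (nat_lit 214381265497) (nat_lit 3) (nat_lit 5) (nat_lit 5) (nat_lit 5) (nat_lit 4) (nat_lit 4) (nat_lit 347) (nat_lit 260) (nat_lit 113)))))) (XT.nd (nat_lit 312) (nat_lit 0) (nat_lit 0) (XT.nd (nat_lit 156) (nat_lit 0) (nat_lit 0) (XT.nd (nat_lit 78) (nat_lit 76) (nat_lit 0) (XT.lf (nat_lit 0) (nat_lit 32252872349) (nat_lit 152) (nat_lit 6185666608) (nat_lit 76) (nat_lit 238945518959) (nat_lit 3) (nat_lit 5) (nat_lit 5) (nat_lit 5) (nat_lit 4) (nat_lit 4) (nat_lit 348) (nat_lit 260) (nat_lit 112)) (XT.lf (nat_lit 0) (nat_lit 19089165375) (nat_lit 76) (nat_lit 25494122134) (nat_lit 152) (nat_lit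 245946122224) (nat_lit 2) (nat_lit 5) (nat_lit 3) (nat_lit 5) (nat_lit 4) (nat_lit 4) (nat_lit 349) (nat_lit 260) (nat_lit 111))) (XT.nd (nat_lit 78) (nat_lit 0) (nat_lit 0) (XT.lf (nat_lit 0) (nat_lit 45840744199) (nat_lit 76) (nat_lit 11793264268) (nat_lit 152) (nat_lit 246692832488) (nat_lit 2) (nat_lit 5) (nat_lit 3) (nat_lit 5) (nat_lit 4) (nat_lit 4) (nat_lit 350) (nat_lit 260) (nat_lit 110)) (XT.lf (nat_lit 0) (nat_lit 71376806350) (nat_lit 152) (nat_lit 244926419821) (nat_lit 0) (nat_lit 2508941536) (nat_lit 2) (nat_lit 5) (nat_lit 4) (nat_lit 4) (nat_lit 2) (nat_lit 4) (nat_lit 351) (nat_lit 260) (nat_lit 109)))) (XT.nd (nat_lit 156) (nat_lit 0) (nat_lit 0) (XT.nd (nat_lit 78) (nat_lit 0) (nat_lit 0) (XT.lf (nat_lit 0) (nat_lit 85999183522) (nat_lit 152) (nat_lit 230883710028) (nat_lit 0) (nat_lit 17129246242) (nat_lit 2) (nat_lit 5) (nat_lit 4) (nat_lit 4) (nat_lit 2) (nat_lit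 4) (nat_lit 352) (nat_lit 260) (nat_lit 108)) (XT.lf (nat_lit 0) (nat_lit 101351829264) (nat_lit 152) (nat_lit 216140406447) (nat_lit 0) (nat_lit 32479918206) (nat_lit 2) (nat_lit 5) (nat_lit 4) (nat_lit 4) (nat_lit 2) (nat_lit 4) (nat_lit 353) (nat_lit 260) (nat_lit 107))) (XT.nd (nat_lit 78) (nat_lit 0) (nat_lit 0) (XT.lf (nat_lit 0) (nat_lit 117471297492) (nat_lit 152) (nat_lit 200661405976) (nat_lit 0) (nat_lit 48597506646) (nat_lit 2) (nat_lit 5) (nat_lit 4) (nat_lit 4) (nat_lit 2) (nat_lit 4) (nat_lit 354) (nat_lit 260) (nat_lit 106)) (XT.nd (nat_lit 78) (nat_lit 0) (nat_lit 0) (XT.lf (nat_lit 0) (nat_lit 134395967893) (nat_lit 152) (nat_lit 184409853850) (nat_lit 0) (nat_lit 65520386772) (nat_lit 2) (nat_lit 5) (nat_lit 4) (nat_lit 4) (nat_lit 2) (nat_lit 4) (nat_lit 355) (nat_lit 260) (nat_lit 105)) (XT.lf (nat_lit 0) (nat_lit 152166137302) (nat_lit 152) (nat_lit 167347055898)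 (nat_lit 0) (nat_lit 83288851158) (nat_lit 2) (nat_lit 5) (nat_lit 4) (nat_lit 4) (nat_lit 2) (nat_lit 4) (nat_lit 356) (nat_lit 260) (nat_lit 104))))))))
noncomputable def xc175 : XT := (XT.nd (nat_lit 31278) (nat_lit 0) (nat_lit 2052) (XT.nd (nat_lit 30576) (nat_lit 0) (nat_lit 4332) (XT.nd (nat_lit 30186) (nat_lit 0) (nat_lit 5092) (XT.nd (nat_lit 30030) (nat_lit 0) (nat_lit 5700) (XT.nd (nat_lit 78) (nat_lit 0) (nat_lit 0) (XT.lf (nat_lit 0) (nat_lit 170824115645) (nat_lit 152) (nat_lit 149432386410) (nat_lit 0) (nat_lit 101945205669) (nat_lit 2) (nat_lit 5) (nat_lit 4) (nat_lit 4) (nat_lit 2) (nat_lit 4) (nat_lit 357) (nat_lit 260) (nat_lit 103)) (XT.lf (nat_lit 0) (nat_lit 190414326681) (nat_lit 152) (nat_lit 130623191413) (nat_lit 0) (nat_lit 121533870199) (nat_lit 2) (nat_lit 5) (nat_lit 4) (nat_lit 4) (nat_lit 2) (nat_lit 4) (nat_lit 358) (nat_lit 260) (nat_lit 102))) (XT.nd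 (nat_lit 78) (nat_lit 0) (nat_lit 0) (XT.lf (nat_lit 0) (nat_lit 4897600632) (nat_lit 684) (nat_lit 496005556) (nat_lit 684) (nat_lit 496005556) (nat_lit 77) (nat_lit 3) (nat_lit 86) (nat_lit 3) (nat_lit 86) (nat_lit 5) (nat_lit 261) (nat_lit 261) (nat_lit 198)) (XT.lf (nat_lit 76) (nat_lit 4146418791) (nat_lit 0) (nat_lit 6396587348) (nat_lit 684) (nat_lit 1503838189) (nat_lit 78) (nat_lit 5) (nat_lit 77) (nat_lit 3) (nat_lit 86) (nat_lit 5) (nat_lit 262) (nat_lit 261) (nat_lit 197)))) (XT.nd (nat_lit 156) (nat_lit 608) (nat_lit 0) (XT.nd (nat_lit 78) (nat_lit 0) (nat_lit 76) (XT.lf (nat_lit 76) (nat_lit 9560941034) (nat_lit 0) (nat_lit 1755772529) (nat_lit 684) (nat_lit 1011816715) (nat_lit 78) (nat_lit 5) (nat_lit 77) (nat_lit 3) (nat_lit 86) (nat_lit 5) (nat_lit 263) (nat_lit 261) (nat_lit 196)) (XT.lf (nat_lit 76) (nat_lit 2641582086) (nat_lit 0) (nat_lit 9550685908) (nat_lit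 684) (nat_lit 428978912) (nat_lit 79) (nat_lit 5) (nat_lit 78) (nat_lit 5) (nat_lit 87) (nat_lit 5) (nat_lit 264) (nat_lit 261) (nat_lit 195))) (XT.nd (nat_lit 78) (nat_lit 0) (nat_lit 76) (XT.lf (nat_lit 0) (nat_lit 227325377) (nat_lit 684) (nat_lit 4558256871) (nat_lit 760) (nat_lit 8140459923) (nat_lit 69) (nat_lit 5) (nat_lit 78) (nat_lit 5) (nat_lit 79) (nat_lit 5) (nat_lit 265) (nat_lit 261) (nat_lit 194)) (XT.nd (nat_lit 78) (nat_lit 0) (nat_lit 0) (XT.lf (nat_lit 0) (nat_lit 898906956) (nat_lit 684) (nat_lit 12102274913) (nat_lit 760) (nat_lit 244790018) (nat_lit 70) (nat_lit 5) (nat_lit 79) (nat_lit 5) (nat_lit 80) (nat_lit 5) (nat_lit 266) (nat_lit 261) (nat_lit 193)) (XT.lf (nat_lit 0) (nat_lit 1737062229) (nat_lit 684) (nat_lit 6385996888) (nat_lit 760) (nat_lit 5452275183) (nat_lit 70) (nat_lit 5) (nat_lit 79) (nat_lit 5) (nat_lit 80) (nat_lit 5) (nat_lit 267) (nat_lit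 261) (nat_lit 192)))))) (XT.nd (nat_lit 312) (nat_lit 836) (nat_lit 0) (XT.nd (nat_lit 156) (nat_lit 0) (nat_lit 76) (XT.nd (nat_lit 78) (nat_lit 0) (nat_lit 76) (XT.lf (nat_lit 0) (nat_lit 2594344930) (nat_lit 684) (nat_lit 400325753) (nat_lit 760) (nat_lit 10927715015) (nat_lit 70) (nat_lit 5) (nat_lit 79) (nat_lit 5) (nat_lit 80) (nat_lit 5) (nat_lit 268) (nat_lit 261) (nat_lit 191)) (XT.lf (nat_lit 0) (nat_lit 3606420464) (nat_lit 684) (nat_lit 8259137060) (nat_lit 760) (nat_lit 2415713661) (nat_lit 71) (nat_lit 5) (nat_lit 80) (nat_lit 5) (nat_lit 81) (nat_lit 5) (nat_lit 269) (nat_lit 261) (nat_lit 190))) (XT.nd (nat_lit 78) (nat_lit 0) (nat_lit 0) (XT.lf (nat_lit 0) (nat_lit 4704267047) (nat_lit 684) (nat_lit 1943942765) (nat_lit 760) (nat_lit 8008207010) (nat_lit 71) (nat_lit 5) (nat_lit 80) (nat_lit 5) (nat_lit 81) (nat_lit 5) (nat_lit 270) (nat_lit 261) (nat_lit 189)) (XT.lf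 (nat_lit 76) (nat_lit 4825660515) (nat_lit 0) (nat_lit 1086862250) (nat_lit 760) (nat_lit 9135091839) (nat_lit 72) (nat_lit 5) (nat_lit 71) (nat_lit 5) (nat_lit 81) (nat_lit 5) (nat_lit 271) (nat_lit 261) (nat_lit 188)))) (XT.nd (nat_lit 156) (nat_lit 304) (nat_lit 0) (XT.nd (nat_lit 78) (nat_lit 684) (nat_lit 0) (XT.lf (nat_lit 0) (nat_lit 7269785138) (nat_lit 684) (nat_lit 3546859810) (nat_lit 76) (nat_lit 4637364972) (nat_lit 72) (nat_lit 5) (nat_lit 81) (nat_lit 5) (nat_lit 73) (nat_lit 5) (nat_lit 272) (nat_lit 261) (nat_lit 187)) (XT.lf (nat_lit 0) (nat_lit 3541693299) (nat_lit 684) (nat_lit 5208170400) (nat_lit 760) (nat_lit 7128177780) (nat_lit 63) (nat_lit 5) (nat_lit 72) (nat_lit 5) (nat_lit 73) (nat_lit 5) (nat_lit 273) (nat_lit 261) (nat_lit 186))) (XT.nd (nat_lit 78) (nat_lit 304) (nat_lit 0) (XT.lf (nat_lit 0) (nat_lit 10358118778) (nat_lit 760) (nat_lit 5240618956) (nat_lit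 76) (nat_lit 721889330) (nat_lit 63) (nat_lit 5) (nat_lit 73) (nat_lit 5) (nat_lit 64) (nat_lit 5) (nat_lit 274) (nat_lit 261) (nat_lit 185)) (XT.nd (nat_lit 78) (nat_lit 0) (nat_lit 0) (XT.lf (nat_lit 0) (nat_lit 2178481945) (nat_lit 304) (nat_lit 9971022446) (nat_lit 380) (nat_lit 4630759817) (nat_lit 59) (nat_lit 5) (nat_lit 63) (nat_lit 5) (nat_lit 64) (nat_lit 5) (nat_lit 275) (nat_lit 261) (nat_lit 184)) (XT.lf (nat_lit 0) (nat_lit 10134974571) (nat_lit 304) (nat_lit 3968114784) (nat_lit 380) (nat_lit 3156217749) (nat_lit 59) (nat_lit 5) (nat_lit 63) (nat_lit 5) (nat_lit 64) (nat_lit 5) (nat_lit 276) (nat_lit 261) (nat_lit 183))))))) (XT.nd (nat_lit 702) (nat_lit 988) (nat_lit 0) (XT.nd (nat_lit 312) (nat_lit 532) (nat_lit 0) (XT.nd (nat_lit 156) (nat_lit 304) (nat_lit 0) (XT.nd (nat_lit 78) (nat_lit 76) (nat_lit 0) (XT.lf (nat_lit 0) (nat_lit 697254173) (nat_lit 380) (nat_lit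 15489094968) (nat_lit 456) (nat_lit 1574405987) (nat_lit 54) (nat_lit 5) (nat_lit 59) (nat_lit 5) (nat_lit 60) (nat_lit 5) (nat_lit 277) (nat_lit 261) (nat_lit 182)) (XT.lf (nat_lit 0) (nat_lit 256264503) (nat_lit 456) (nat_lit 9208255510) (nat_lit 76) (nat_lit 8814109045) (nat_lit 53) (nat_lit 5) (nat_lit 59) (nat_lit 5) (nat_lit 54) (nat_lit 5) (nat_lit 278) (nat_lit 261) (nat_lit 181))) (XT.nd (nat_lit 78) (nat_lit 304) (nat_lit 0) (XT.lf (nat_lit 0) (nat_lit 2111132960) (nat_lit 456) (nat_lit 1001195028) (nat_lit 76) (nat_lit 15709545035) (nat_lit 53) (nat_lit 5) (nat_lit 59) (nat_lit 5) (nat_lit 54) (nat_lit 5) (nat_lit 279) (nat_lit 261) (nat_lit 180)) (XT.lf (nat_lit 0) (nat_lit 4225157812) (nat_lit 380) (nat_lit 11591268657) (nat_lit 76) (nat_lit 3567575476) (nat_lit 49) (nat_lit 5) (nat_lit 54) (nat_lit 5) (nat_lit 50) (nat_lit 5) (nat_lit 280) (nat_lit 261) (nat_lit 179))))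 (XT.nd (nat_lit 156) (nat_lit 228) (nat_lit 0) (XT.nd (nat_lit 78) (nat_lit 304) (nat_lit 0) (XT.lf (nat_lit 0) (nat_lit 6499820120) (nat_lit 380) (nat_lit 2978448862) (nat_lit 76) (nat_lit 10493262859) (nat_lit 49) (nat_lit 5) (nat_lit 54) (nat_lit 5) (nat_lit 50) (nat_lit 5) (nat_lit 281) (nat_lit 261) (nat_lit 178)) (XT.lf (nat_lit 0) (nat_lit 6250911701) (nat_lit 304) (nat_lit 2722213102) (nat_lit 380) (nat_lit 11611107338) (nat_lit 45) (nat_lit 5) (nat_lit 49) (nat_lit 5) (nat_lit 50) (nat_lit 5) (nat_lit 282) (nat_lit 261) (nat_lit 177))) (XT.nd (nat_lit 78) (nat_lit 228) (nat_lit 0) (XT.lf (nat_lit 0) (nat_lit 11677292530) (nat_lit 380) (nat_lit 5263547328) (nat_lit 76) (nat_lit 4281405203) (nat_lit 45) (nat_lit 5) (nat_lit 50) (nat_lit 5) (nat_lit 46) (nat_lit 5) (nat_lit 283) (nat_lit 261) (nat_lit 176)) (XT.nd (nat_lit 78) (nat_lit 0) (nat_lit 0) (XT.lf (nat_lit 0) (nat_lit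 4340126078) (nat_lit 228) (nat_lit 10277193197) (nat_lit 304) (nat_lit 7269842530) (nat_lit 42) (nat_lit 5) (nat_lit 45) (nat_lit 5) (nat_lit 46) (nat_lit 5) (nat_lit 284) (nat_lit 261) (nat_lit 175)) (XT.lf (nat_lit 0) (nat_lit 14593072335) (nat_lit 228) (nat_lit 3189024217) (nat_lit 304) (nat_lit 4799374385) (nat_lit 42) (nat_lit 5) (nat_lit 45) (nat_lit 5) (nat_lit 46) (nat_lit 5) (nat_lit 285) (nat_lit 261) (nat_lit 174)))))) (XT.nd (nat_lit 390) (nat_lit 456) (nat_lit 0) (XT.nd (nat_lit 156) (nat_lit 228) (nat_lit 0) (XT.nd (nat_lit 78) (nat_lit 76) (nat_lit 0) (XT.lf (nat_lit 0) (nat_lit 2033298126) (nat_lit 228) (nat_lit 19159087292) (nat_lit 304) (nat_lit 2113778863) (nat_lit 39) (nat_lit 5) (nat_lit 42) (nat_lit 5) (nat_lit 43) (nat_lit 5) (nat_lit 286) (nat_lit 261) (nat_lit 173)) (XT.lf (nat_lit 0) (nat_lit 862505647) (nat_lit 304) (nat_lit 11306138001) (nat_lit 76) (nat_lit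 11888976380) (nat_lit 38) (nat_lit 5) (nat_lit 42) (nat_lit 5) (nat_lit 39) (nat_lit 5) (nat_lit 287) (nat_lit 261) (nat_lit 172))) (XT.nd (nat_lit 78) (nat_lit 228) (nat_lit 0) (XT.lf (nat_lit 0) (nat_lit 3906305077) (nat_lit 304) (nat_lit 888780671) (nat_lit 76) (nat_lit 20050371312) (nat_lit 38) (nat_lit 5) (nat_lit 42) (nat_lit 5) (nat_lit 39) (nat_lit 5) (nat_lit 288) (nat_lit 261) (nat_lit 171)) (XT.nd (nat_lit 78) (nat_lit 0) (nat_lit 0) (XT.lf (nat_lit 0) (nat_lit 7303033605) (nat_lit 304) (nat_lit 15344852564) (nat_lit 76) (nat_lit 3014789467) (nat_lit 35) (nat_lit 5) (nat_lit 39) (nat_lit 5) (nat_lit 36) (nat_lit 5) (nat_lit 289) (nat_lit 261) (nat_lit 170)) (XT.lf (nat_lit 0) (nat_lit 10953963170) (nat_lit 304) (nat_lit 4495934375) (nat_lit 76) (nat_lit 11066664745) (nat_lit 35) (nat_lit 5) (nat_lit 39) (nat_lit 5) (nat_lit 36) (nat_lit 5) (nat_lit 290) (nat_lit 261) (nat_lit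 169))))) (XT.nd (nat_lit 156) (nat_lit 228) (nat_lit 0) (XT.nd (nat_lit 78) (nat_lit 0) (nat_lit 0) (XT.lf (nat_lit 0) (nat_lit 7110937881) (nat_lit 228) (nat_lit 7778435347) (nat_lit 304) (nat_lit 12518697516) (nat_lit 32) (nat_lit 5) (nat_lit 35) (nat_lit 5) (nat_lit 36) (nat_lit 5) (nat_lit 291) (nat_lit 261) (nat_lit 168)) (XT.lf (nat_lit 0) (nat_lit 19094373130) (nat_lit 304) (nat_lit 8903980593) (nat_lit 76) (nat_lit 342182953) (nat_lit 32) (nat_lit 5) (nat_lit 36) (nat_lit 5) (nat_lit 33) (nat_lit 5) (nat_lit 292) (nat_lit 261) (nat_lit 167))) (XT.nd (nat_lit 78) (nat_lit 76) (nat_lit 0) (XT.lf (nat_lit 0) (nat_lit 3016126224) (nat_lit 152) (nat_lit 20659637370) (nat_lit 228) (nat_lit 5635577203) (nat_lit 30) (nat_lit 5) (nat_lit 32) (nat_lit 5) (nat_lit 33) (nat_lit 5) (nat_lit 293) (nat_lit 261) (nat_lit 166)) (XT.nd (nat_lit 78) (nat_lit 76) (nat_lit 0) (XT.lf (nat_lit 0)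 (nat_lit 15829830947) (nat_lit 152) (nat_lit 12798943928) (nat_lit 228) (nat_lit 1694803565) (nat_lit 30) (nat_lit 5) (nat_lit 32) (nat_lit 5) (nat_lit 33) (nat_lit 5) (nat_lit 294) (nat_lit 261) (nat_lit 165)) (XT.lf (nat_lit 0) (nat_lit 2356819836) (nat_lit 228) (nat_lit 2151616959) (nat_lit 76) (nat_lit 26876502865) (nat_lit 29) (nat_lit 5) (nat_lit 32) (nat_lit 5) (nat_lit 30) (nat_lit 5) (nat_lit 295) (nat_lit 261) (nat_lit 164))))))))
noncomputable def xc176 : XT := (XT.nd (nat_lit 1404) (nat_lit 532) (nat_lit 0) (XT.nd (nat_lit 702) (nat_lit 456) (nat_lit 0) (XT.nd (nat_lit 312) (nat_lit 380) (nat_lit 0) (XT.nd (nat_lit 156) (nat_lit 152) (nat_lit 0) (XT.nd (nat_lit 78) (nat_lit 0) (nat_lit 0) (XT.lf (nat_lit 0) (nat_lit 6788921513) (nat_lit 304) (nat_lit 21433288224) (nat_lit 76) (nat_lit 4264045377) (nat_lit 26) (nat_lit 5) (nat_lit 30) (nat_lit 5) (nat_lit 27) (nat_lit 5)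 (nat_lit 296) (nat_lit 261) (nat_lit 163)) (XT.lf (nat_lit 0) (nat_lit 11546105387) (nat_lit 304) (nat_lit 8733738494) (nat_lit 76) (nat_lit 13357635782) (nat_lit 26) (nat_lit 5) (nat_lit 30) (nat_lit 5) (nat_lit 27) (nat_lit 5) (nat_lit 297) (nat_lit 261) (nat_lit 162))) (XT.nd (nat_lit 78) (nat_lit 0) (nat_lit 0) (XT.lf (nat_lit 0) (nat_lit 4742190189) (nat_lit 152) (nat_lit 11865885034) (nat_lit 228) (nat_lit 18234860236) (nat_lit 24) (nat_lit 5) (nat_lit 26) (nat_lit 5) (nat_lit 27) (nat_lit 5) (nat_lit 298) (nat_lit 261) (nat_lit 161)) (XT.lf (nat_lit 0) (nat_lit 19184920143) (nat_lit 152) (nat_lit 2879200638) (nat_lit 228) (nat_lit 14037509984) (nat_lit 24) (nat_lit 5) (nat_lit 26) (nat_lit 5) (nat_lit 27) (nat_lit 5) (nat_lit 299) (nat_lit 261) (nat_lit 160)))) (XT.nd (nat_lit 156) (nat_lit 228) (nat_lit 0) (XT.nd (nat_lit 78) (nat_lit 152) (nat_lit 0) (XT.lf (nat_lit 0) (nat_lit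 27888687458) (nat_lit 228) (nat_lit 3185865392) (nat_lit 76) (nat_lit 6343936882) (nat_lit 24) (nat_lit 5) (nat_lit 27) (nat_lit 5) (nat_lit 25) (nat_lit 5) (nat_lit 300) (nat_lit 261) (nat_lit 159)) (XT.lf (nat_lit 0) (nat_lit 11544267066) (nat_lit 152) (nat_lit 22681319046) (nat_lit 228) (nat_lit 4564564486) (nat_lit 22) (nat_lit 5) (nat_lit 24) (nat_lit 5) (nat_lit 25) (nat_lit 5) (nat_lit 301) (nat_lit 261) (nat_lit 158))) (XT.nd (nat_lit 78) (nat_lit 152) (nat_lit 0) (XT.lf (nat_lit 0) (nat_lit 676709872) (nat_lit 228) (nat_lit 13126811448) (nat_lit 76) (nat_lit 26423952187) (nat_lit 21) (nat_lit 5) (nat_lit 24) (nat_lit 5) (nat_lit 22) (nat_lit 5) (nat_lit 302) (nat_lit 261) (nat_lit 157)) (XT.nd (nat_lit 78) (nat_lit 0) (nat_lit 0) (XT.lf (nat_lit 0) (nat_lit 1667606115) (nat_lit 152) (nat_lit 4379084247) (nat_lit 228) (nat_lit 35685240875) (nat_lit 19) (nat_lit 5) (nat_lit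 21) (nat_lit 5) (nat_lit 22) (nat_lit 5) (nat_lit 303) (nat_lit 261) (nat_lit 156)) (XT.lf (nat_lit 0) (nat_lit 11991353658) (nat_lit 228) (nat_lit 25742052405) (nat_lit 76) (nat_lit 5562908229) (nat_lit 19) (nat_lit 5) (nat_lit 22) (nat_lit 5) (nat_lit 20) (nat_lit 5) (nat_lit 304) (nat_lit 261) (nat_lit 155)))))) (XT.nd (nat_lit 312) (nat_lit 304) (nat_lit 0) (XT.nd (nat_lit 156) (nat_lit 0) (nat_lit 0) (XT.nd (nat_lit 78) (nat_lit 152) (nat_lit 0) (XT.lf (nat_lit 0) (nat_lit 18299420552) (nat_lit 228) (nat_lit 10784273560) (nat_lit 76) (nat_lit 15851924936) (nat_lit 19) (nat_lit 5) (nat_lit 22) (nat_lit 5) (nat_lit 20) (nat_lit 5) (nat_lit 305) (nat_lit 261) (nat_lit 154)) (XT.lf (nat_lit 0) (nat_lit 5075440746) (nat_lit 152) (nat_lit 19921341584) (nat_lit 228) (nat_lit 21656422683) (nat_lit 17) (nat_lit 5) (nat_lit 19) (nat_lit 5) (nat_lit 20) (nat_lit 5) (nat_lit 306) (nat_lit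 261) (nat_lit 153))) (XT.nd (nat_lit 78) (nat_lit 0) (nat_lit 0) (XT.lf (nat_lit 0) (nat_lit 22094282589) (nat_lit 152) (nat_lit 10112141940) (nat_lit 228) (nat_lit 16241385174) (nat_lit 17) (nat_lit 5) (nat_lit 19) (nat_lit 5) (nat_lit 20) (nat_lit 5) (nat_lit 307) (nat_lit 261) (nat_lit 152)) (XT.lf (nat_lit 0) (nat_lit 39774455551) (nat_lit 228) (nat_lit 10379089234) (nat_lit 76) (nat_lit 178714070) (nat_lit 17) (nat_lit 5) (nat_lit 20) (nat_lit 5) (nat_lit 18) (nat_lit 4) (nat_lit 308) (nat_lit 261) (nat_lit 151)))) (XT.nd (nat_lit 156) (nat_lit 152) (nat_lit 0) (XT.nd (nat_lit 78) (nat_lit 76) (nat_lit 0) (XT.lf (nat_lit 0) (nat_lit 6426280294) (nat_lit 76) (nat_lit 41555931023) (nat_lit 152) (nat_lit 4315662098) (nat_lit 16) (nat_lit 5) (nat_lit 17) (nat_lit 5) (nat_lit 18) (nat_lit 4) (nat_lit 309) (nat_lit 261) (nat_lit 150)) (XT.lf (nat_lit 0) (nat_lit 2340836472) (nat_lit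 152) (nat_lit 29966295199) (nat_lit 76) (nat_lit 22044202812) (nat_lit 15) (nat_lit 5) (nat_lit 17) (nat_lit 5) (nat_lit 16) (nat_lit 5) (nat_lit 310) (nat_lit 261) (nat_lit 149))) (XT.nd (nat_lit 78) (nat_lit 152) (nat_lit 0) (XT.lf (nat_lit 0) (nat_lit 9180594556) (nat_lit 152) (nat_lit 13343852295) (nat_lit 76) (nat_lit 33979718740) (nat_lit 15) (nat_lit 5) (nat_lit 17) (nat_lit 5) (nat_lit 16) (nat_lit 5) (nat_lit 311) (nat_lit 261) (nat_lit 148)) (XT.nd (nat_lit 78) (nat_lit 0) (nat_lit 0) (XT.lf (nat_lit 0) (nat_lit 4238345956) (nat_lit 152) (nat_lit 12185851932) (nat_lit 228) (nat_lit 42337354993) (nat_lit 13) (nat_lit 5) (nat_lit 15) (nat_lit 5) (nat_lit 16) (nat_lit 5) (nat_lit 312) (nat_lit 261) (nat_lit 147)) (XT.lf (nat_lit 0) (nat_lit 23156015433) (nat_lit 152) (nat_lit 1095733076) (nat_lit 228) (nat_lit 36868979806) (nat_lit 13) (nat_lit 5) (nat_lit 15) (nat_lit 5) (nat_lit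 16) (nat_lit 5) (nat_lit 313) (nat_lit 261) (nat_lit 146))))))) (XT.nd (nat_lit 702) (nat_lit 228) (nat_lit 0) (XT.nd (nat_lit 312) (nat_lit 228) (nat_lit 0) (XT.nd (nat_lit 156) (nat_lit 76) (nat_lit 0) (XT.nd (nat_lit 78) (nat_lit 0) (nat_lit 0) (XT.lf (nat_lit 0) (nat_lit 32631317793) (nat_lit 228) (nat_lit 20749737734) (nat_lit 76) (nat_lit 10208781736) (nat_lit 13) (nat_lit 5) (nat_lit 16) (nat_lit 5) (nat_lit 14) (nat_lit 4) (nat_lit 314) (nat_lit 261) (nat_lit 145)) (XT.lf (nat_lit 0) (nat_lit 41443964918) (nat_lit 228) (nat_lit 2698401269) (nat_lit 76) (nat_lit 22039336977) (nat_lit 13) (nat_lit 5) (nat_lit 16) (nat_lit 5) (nat_lit 14) (nat_lit 4) (nat_lit 315) (nat_lit 261) (nat_lit 144))) (XT.nd (nat_lit 78) (nat_lit 0) (nat_lit 0) (XT.lf (nat_lit 0) (nat_lit 16786661347) (nat_lit 76) (nat_lit 34168990395) (nat_lit 152) (nat_lit 17934596416) (nat_lit 12) (nat_lit 5) (nat_lit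 13) (nat_lit 5) (nat_lit 14) (nat_lit 4) (nat_lit 316) (nat_lit 261) (nat_lit 143)) (XT.lf (nat_lit 0) (nat_lit 37333639512) (nat_lit 76) (nat_lit 23651383866) (nat_lit 152) (nat_lit 10747097873) (nat_lit 12) (nat_lit 5) (nat_lit 13) (nat_lit 5) (nat_lit 14) (nat_lit 4) (nat_lit 317) (nat_lit 261) (nat_lit 142)))) (XT.nd (nat_lit 156) (nat_lit 0) (nat_lit 0) (XT.nd (nat_lit 78) (nat_lit 228) (nat_lit 0) (XT.lf (nat_lit 0) (nat_lit 58902233269) (nat_lit 76) (nat_lit 12610203411) (nat_lit 152) (nat_lit 3203828256) (nat_lit 12) (nat_lit 5) (nat_lit 13) (nat_lit 5) (nat_lit 14) (nat_lit 4) (nat_lit 318) (nat_lit 261) (nat_lit 141)) (XT.lf (nat_lit 0) (nat_lit 3740133904) (nat_lit 152) (nat_lit 880581710) (nat_lit 228) (nat_lit 73222469714) (nat_lit 9) (nat_lit 5) (nat_lit 11) (nat_lit 5) (nat_lit 12) (nat_lit 5) (nat_lit 319) (nat_lit 261) (nat_lit 140))) (XT.nd (nat_lit 78) (nat_lit 0)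 (nat_lit 0) (XT.lf (nat_lit 0) (nat_lit 13176281593) (nat_lit 228) (nat_lit 56533096095) (nat_lit 76) (nat_lit 11392079566) (nat_lit 9) (nat_lit 5) (nat_lit 12) (nat_lit 5) (nat_lit 10) (nat_lit 4) (nat_lit 320) (nat_lit 261) (nat_lit 139)) (XT.nd (nat_lit 78) (nat_lit 0) (nat_lit 0) (XT.lf (nat_lit 0) (nat_lit 22170933329) (nat_lit 228) (nat_lit 38104428977) (nat_lit 76) (nat_lit 24246719699) (nat_lit 9) (nat_lit 5) (nat_lit 12) (nat_lit 5) (nat_lit 10) (nat_lit 4) (nat_lit 321) (nat_lit 261) (nat_lit 138)) (XT.lf (nat_lit 0) (nat_lit 31612338312) (nat_lit 228) (nat_lit 18759423943) (nat_lit 76) (nat_lit 37742129086) (nat_lit 9) (nat_lit 5) (nat_lit 12) (nat_lit 5) (nat_lit 10) (nat_lit 4) (nat_lit 322) (nat_lit 261) (nat_lit 137)))))) (XT.nd (nat_lit 312) (nat_lit 152) (nat_lit 0) (XT.nd (nat_lit 156) (nat_lit 0) (nat_lit 0) (XT.nd (nat_lit 78) (nat_lit 0) (nat_lit 0) (XT.lf (nat_lit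 0) (nat_lit 1599161702) (nat_lit 76) (nat_lit 39948781771) (nat_lit 152) (nat_lit 50336245349) (nat_lit 8) (nat_lit 5) (nat_lit 9) (nat_lit 5) (nat_lit 10) (nat_lit 4) (nat_lit 323) (nat_lit 261) (nat_lit 136)) (XT.lf (nat_lit 0) (nat_lit 23622186940) (nat_lit 76) (nat_lit 28673064982) (nat_lit 152) (nat_lit 43532007078) (nat_lit 8) (nat_lit 5) (nat_lit 9) (nat_lit 5) (nat_lit 10) (nat_lit 4) (nat_lit 324) (nat_lit 261) (nat_lit 135))) (XT.nd (nat_lit 78) (nat_lit 0) (nat_lit 0) (XT.lf (nat_lit 0) (nat_lit 46741816269) (nat_lit 76) (nat_lit 16835464864) (nat_lit 152) (nat_lit 36390337572) (nat_lit 8) (nat_lit 5) (nat_lit 9) (nat_lit 5) (nat_lit 10) (nat_lit 4) (nat_lit 325) (nat_lit 261) (nat_lit 134)) (XT.lf (nat_lit 0) (nat_lit 71013096425) (nat_lit 76) (nat_lit 4407796655) (nat_lit 152) (nat_lit 28894232855) (nat_lit 8) (nat_lit 5) (nat_lit 9) (nat_lit 5) (nat_lit 10) (nat_lit 4)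 (nat_lit 326) (nat_lit 261) (nat_lit 133)))) (XT.nd (nat_lit 156) (nat_lit 76) (nat_lit 0) (XT.nd (nat_lit 78) (nat_lit 76) (nat_lit 0) (XT.lf (nat_lit 0) (nat_lit 87989174106) (nat_lit 152) (nat_lit 12521202994) (nat_lit 0) (nat_lit 8363010436) (nat_lit 8) (nat_lit 5) (nat_lit 10) (nat_lit 4) (nat_lit 8) (nat_lit 4) (nat_lit 327) (nat_lit 261) (nat_lit 132)) (XT.lf (nat_lit 0) (nat_lit 9527319761) (nat_lit 76) (nat_lit 91877246330) (nat_lit 76) (nat_lit 12244064552) (nat_lit 7) (nat_lit 4) (nat_lit 8) (nat_lit 5) (nat_lit 8) (nat_lit 4) (nat_lit 328) (nat_lit 261) (nat_lit 131))) (XT.nd (nat_lit 78) (nat_lit 76) (nat_lit 0) (XT.lf (nat_lit 0) (nat_lit 33109021529) (nat_lit 76) (nat_lit 82591496822) (nat_lit 76) (nat_lit 2951631133) (nat_lit 7) (nat_lit 4) (nat_lit 8) (nat_lit 5) (nat_lit 8) (nat_lit 4) (nat_lit 329) (nat_lit 261) (nat_lit 130)) (XT.nd (nat_lit 78) (nat_lit 0) (nat_lit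 0) (XT.lf (nat_lit 0) (nat_lit 6585415461) (nat_lit 152) (nat_lit 66146129624) (nat_lit 76) (nat_lit 51169099043) (nat_lit 6) (nat_lit 5) (nat_lit 8) (nat_lit 5) (nat_lit 7) (nat_lit 4) (nat_lit 330) (nat_lit 261) (nat_lit 129)) (XT.lf (nat_lit 0) (nat_lit 16498032197) (nat_lit 152) (nat_lit 45831327820) (nat_lit 76) (nat_lit 67079891207) (nat_lit 6) (nat_lit 5) (nat_lit 8) (nat_lit 5) (nat_lit 7) (nat_lit 4) (nat_lit 331) (nat_lit 261) (nat_lit 128))))))))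
noncomputable def xc177 : XT := (XT.nd (nat_lit 1404) (nat_lit 76) (nat_lit 0) (XT.nd (nat_lit 702) (nat_lit 76) (nat_lit 0) (XT.nd (nat_lit 312) (nat_lit 76) (nat_lit 0) (XT.nd (nat_lit 156) (nat_lit 76) (nat_lit 0) (XT.nd (nat_lit 78) (nat_lit 0) (nat_lit 0) (XT.lf (nat_lit 0) (nat_lit 26904291172) (nat_lit 152) (nat_lit 24504270735) (nat_lit 76) (nat_lit 83784828760) (nat_lit 6) (nat_lit 5) (nat_lit 8) (nat_lit 5) (nat_lit 7) (nat_lit 4) (nat_lit 332) (nat_lit 261) (nat_lit 127)) (XT.lf (nat_lit 0) (nat_lit 37828969194) (nat_lit 152) (nat_lit 2114179660) (nat_lit 76) (nat_lit 101323685363) (nat_lit 6) (nat_lit 5) (nat_lit 8) (nat_lit 5) (nat_lit 7) (nat_lit 4) (nat_lit 333) (nat_lit 261) (nat_lit 126))) (XT.nd (nat_lit 78) (nat_lit 0) (nat_lit 0) (XT.lf (nat_lit 0) (nat_lit 22099579708) (nat_lit 76) (nat_lit 27543534066) (nat_lit 152) (nat_lit 97983676863) (nat_lit 5) (nat_lit 5)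 (nat_lit 6) (nat_lit 5) (nat_lit 7) (nat_lit 4) (nat_lit 334) (nat_lit 261) (nat_lit 125)) (XT.lf (nat_lit 0) (nat_lit 47594316746) (nat_lit 76) (nat_lit 14487687113) (nat_lit 152) (nat_lit 92221041316) (nat_lit 5) (nat_lit 5) (nat_lit 6) (nat_lit 5) (nat_lit 7) (nat_lit 4) (nat_lit 335) (nat_lit 261) (nat_lit 124)))) (XT.nd (nat_lit 156) (nat_lit 76) (nat_lit 0) (XT.nd (nat_lit 78) (nat_lit 0) (nat_lit 0) (XT.lf (nat_lit 0) (nat_lit 74360828882) (nat_lit 76) (nat_lit 780327303) (nat_lit 152) (nat_lit 86172042478) (nat_lit 5) (nat_lit 5) (nat_lit 6) (nat_lit 5) (nat_lit 7) (nat_lit 4) (nat_lit 336) (nat_lit 261) (nat_lit 123)) (XT.lf (nat_lit 0) (nat_lit 89064172665) (nat_lit 152) (nat_lit 66423604731) (nat_lit 0) (nat_lit 13175539109) (nat_lit 5) (nat_lit 5) (nat_lit 7) (nat_lit 4) (nat_lit 5) (nat_lit 4) (nat_lit 337) (nat_lit 261) (nat_lit 122))) (XT.nd (nat_lit 78) (nat_lit 76)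 (nat_lit 0) (XT.lf (nat_lit 0) (nat_lit 103694588236) (nat_lit 152) (nat_lit 44883940164) (nat_lit 0) (nat_lit 27801851338) (nat_lit 5) (nat_lit 5) (nat_lit 7) (nat_lit 4) (nat_lit 5) (nat_lit 4) (nat_lit 338) (nat_lit 261) (nat_lit 121)) (XT.nd (nat_lit 78) (nat_lit 76) (nat_lit 0) (XT.lf (nat_lit 0) (nat_lit 119055054125) (nat_lit 152) (nat_lit 22269908069) (nat_lit 0) (nat_lit 43158409282) (nat_lit 5) (nat_lit 5) (nat_lit 7) (nat_lit 4) (nat_lit 5) (nat_lit 4) (nat_lit 339) (nat_lit 261) (nat_lit 120)) (XT.lf (nat_lit 0) (nat_lit 1521016515) (nat_lit 76) (nat_lit 133684873685) (nat_lit 76) (nat_lit 57784506990) (nat_lit 4) (nat_lit 4) (nat_lit 5) (nat_lit 5) (nat_lit 5) (nat_lit 4) (nat_lit 340) (nat_lit 261) (nat_lit 119)))))) (XT.nd (nat_lit 312) (nat_lit 76) (nat_lit 0) (XT.nd (nat_lit 156) (nat_lit 0) (nat_lit 0) (XT.nd (nat_lit 78) (nat_lit 0) (nat_lit 0) (XT.lf (nat_lit 0)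 (nat_lit 27272197287) (nat_lit 76) (nat_lit 125267850444) (nat_lit 76) (nat_lit 49363939128) (nat_lit 4) (nat_lit 4) (nat_lit 5) (nat_lit 5) (nat_lit 5) (nat_lit 4) (nat_lit 341) (nat_lit 261) (nat_lit 118)) (XT.lf (nat_lit 0) (nat_lit 54308602846) (nat_lit 76) (nat_lit 116431003609) (nat_lit 76) (nat_lit 40523716463) (nat_lit 4) (nat_lit 4) (nat_lit 5) (nat_lit 5) (nat_lit 5) (nat_lit 4) (nat_lit 342) (nat_lit 261) (nat_lit 117))) (XT.nd (nat_lit 78) (nat_lit 0) (nat_lit 0) (XT.lf (nat_lit 0) (nat_lit 82694605588) (nat_lit 76) (nat_lit 107153293068) (nat_lit 76) (nat_lit 31242790846) (nat_lit 4) (nat_lit 4) (nat_lit 5) (nat_lit 5) (nat_lit 5) (nat_lit 4) (nat_lit 343) (nat_lit 261) (nat_lit 116)) (XT.lf (nat_lit 0) (nat_lit 112497791233) (nat_lit 76) (nat_lit 97412629033) (nat_lit 76) (nat_lit 21499064834) (nat_lit 4) (nat_lit 4) (nat_lit 5) (nat_lit 5) (nat_lit 5) (nat_lit 4) (nat_lit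 344) (nat_lit 261) (nat_lit 115)))) (XT.nd (nat_lit 156) (nat_lit 76) (nat_lit 0) (XT.nd (nat_lit 78) (nat_lit 0) (nat_lit 0) (XT.lf (nat_lit 0) (nat_lit 143789119746) (nat_lit 76) (nat_lit 87185819449) (nat_lit 76) (nat_lit 11269339081) (nat_lit 4) (nat_lit 4) (nat_lit 5) (nat_lit 5) (nat_lit 5) (nat_lit 4) (nat_lit 345) (nat_lit 261) (nat_lit 114)) (XT.lf (nat_lit 0) (nat_lit 176643094292) (nat_lit 76) (nat_lit 76448514767) (nat_lit 76) (nat_lit 529257096) (nat_lit 4) (nat_lit 4) (nat_lit 5) (nat_lit 5) (nat_lit 5) (nat_lit 4) (nat_lit 346) (nat_lit 261) (nat_lit 113))) (XT.nd (nat_lit 78) (nat_lit 0) (nat_lit 0) (XT.lf (nat_lit 0) (nat_lit 10402789540) (nat_lit 152) (nat_lit 54596184163) (nat_lit 76) (nat_lit 200558972802) (nat_lit 3) (nat_lit 5) (nat_lit 5) (nat_lit 5) (nat_lit 4) (nat_lit 4) (nat_lit 347) (nat_lit 261) (nat_lit 112)) (XT.nd (nat_lit 78) (nat_lit 0) (nat_lit 0)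 (XT.lf (nat_lit 0) (nat_lit 21862659813) (nat_lit 152) (nat_lit 31105969200) (nat_lit 76) (nat_lit 225122868770) (nat_lit 3) (nat_lit 5) (nat_lit 5) (nat_lit 5) (nat_lit 4) (nat_lit 4) (nat_lit 348) (nat_lit 261) (nat_lit 111)) (XT.lf (nat_lit 0) (nat_lit 33894578659) (nat_lit 152) (nat_lit 6442934705) (nat_lit 76) (nat_lit 250914261571) (nat_lit 3) (nat_lit 5) (nat_lit 5) (nat_lit 5) (nat_lit 4) (nat_lit 4) (nat_lit 349) (nat_lit 261) (nat_lit 110))))))) (XT.nd (nat_lit 30654) (nat_lit 0) (nat_lit 5092) (XT.nd (nat_lit 312) (nat_lit 0) (nat_lit 0) (XT.nd (nat_lit 156) (nat_lit 0) (nat_lit 0) (XT.nd (nat_lit 78) (nat_lit 0) (nat_lit 0) (XT.lf (nat_lit 0) (nat_lit 20094799922) (nat_lit 76) (nat_lit 26746129723) (nat_lit 152) (nat_lit 258213495505) (nat_lit 2) (nat_lit 5) (nat_lit 3) (nat_lit 5) (nat_lit 4) (nat_lit 4) (nat_lit 350) (nat_lit 261) (nat_lit 109)) (XT.lf (nat_lit 0) (nat_lit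 48181520722) (nat_lit 76) (nat_lit 12361309845) (nat_lit 152) (nat_lit 258998966655) (nat_lit 2) (nat_lit 5) (nat_lit 3) (nat_lit 5) (nat_lit 4) (nat_lit 4) (nat_lit 351) (nat_lit 261) (nat_lit 108))) (XT.nd (nat_lit 78) (nat_lit 0) (nat_lit 0) (XT.lf (nat_lit 0) (nat_lit 74971798275) (nat_lit 152) (nat_lit 257125324067) (nat_lit 0) (nat_lit 2654317886) (nat_lit 2) (nat_lit 5) (nat_lit 4) (nat_lit 4) (nat_lit 2) (nat_lit 4) (nat_lit 352) (nat_lit 261) (nat_lit 107)) (XT.lf (nat_lit 0) (nat_lit 90324048992) (nat_lit 152) (nat_lit 242382736725) (nat_lit 0) (nat_lit 18004688815) (nat_lit 2) (nat_lit 5) (nat_lit 4) (nat_lit 4) (nat_lit 2) (nat_lit 4) (nat_lit 353) (nat_lit 261) (nat_lit 106)))) (XT.nd (nat_lit 156) (nat_lit 0) (nat_lit 0) (XT.nd (nat_lit 78) (nat_lit 0) (nat_lit 0) (XT.lf (nat_lit 0) (nat_lit 106443141006) (nat_lit 152) (nat_lit 226904418384) (nat_lit 0) (nat_lit 34121990555)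 (nat_lit 2) (nat_lit 5) (nat_lit 4) (nat_lit 4) (nat_lit 2) (nat_lit 4) (nat_lit 354) (nat_lit 261) (nat_lit 105)) (XT.lf (nat_lit 0) (nat_lit 123367453108) (nat_lit 152) (nat_lit 210653515907) (nat_lit 0) (nat_lit 51044597634) (nat_lit 2) (nat_lit 5) (nat_lit 4) (nat_lit 4) (nat_lit 2) (nat_lit 4) (nat_lit 355) (nat_lit 261) (nat_lit 104))) (XT.nd (nat_lit 78) (nat_lit 0) (nat_lit 0) (XT.lf (nat_lit 0) (nat_lit 141137281280) (nat_lit 152) (nat_lit 193591336669) (nat_lit 0) (nat_lit 68812801974) (nat_lit 2) (nat_lit 5) (nat_lit 4) (nat_lit 4) (nat_lit 2) (nat_lit 4) (nat_lit 356) (nat_lit 261) (nat_lit 103)) (XT.nd (nat_lit 78) (nat_lit 0) (nat_lit 0) (XT.lf (nat_lit 0) (nat_lit 159794934636) (nat_lit 152) (nat_lit 175677256432) (nat_lit 0) (nat_lit 87468908823) (nat_lit 2) (nat_lit 5) (nat_lit 4) (nat_lit 4) (nat_lit 2) (nat_lit 4) (nat_lit 357) (nat_lit 261) (nat_lit 102)) (XT.lf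 (nat_lit 0) (nat_lit 179384836160) (nat_lit 152) (nat_lit 156868622626) (nat_lit 0) (nat_lit 107057337483) (nat_lit 2) (nat_lit 5) (nat_lit 4) (nat_lit 4) (nat_lit 2) (nat_lit 4) (nat_lit 358) (nat_lit 261) (nat_lit 101)))))) (XT.nd (nat_lit 312) (nat_lit 0) (nat_lit 0) (XT.nd (nat_lit 156) (nat_lit 608) (nat_lit 0) (XT.nd (nat_lit 78) (nat_lit 0) (nat_lit 0) (XT.lf (nat_lit 0) (nat_lit 5573826952) (nat_lit 684) (nat_lit 293505655) (nat_lit 684) (nat_lit 293505655) (nat_lit 77) (nat_lit 3) (nat_lit 86) (nat_lit 3) (nat_lit 86) (nat_lit 5) (nat_lit 262) (nat_lit 262) (nat_lit 196)) (XT.lf (nat_lit 76) (nat_lit 4801007823) (nat_lit 0) (nat_lit 7097743707) (nat_lit 684) (nat_lit 705792393) (nat_lit 78) (nat_lit 5) (nat_lit 77) (nat_lit 3) (nat_lit 86) (nat_lit 5) (nat_lit 263) (nat_lit 262) (nat_lit 195))) (XT.nd (nat_lit 78) (nat_lit 608) (nat_lit 0) (XT.lf (nat_lit 76) (nat_lit 10464957698)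 (nat_lit 0) (nat_lit 2206729719) (nat_lit 684) (nat_lit 230752593) (nat_lit 78) (nat_lit 5) (nat_lit 77) (nat_lit 3) (nat_lit 86) (nat_lit 5) (nat_lit 264) (nat_lit 262) (nat_lit 194)) (XT.lf (nat_lit 0) (nat_lit 332604675) (nat_lit 684) (nat_lit 9976917520) (nat_lit 760) (nat_lit 2901932482) (nat_lit 69) (nat_lit 5) (nat_lit 78) (nat_lit 5) (nat_lit 79) (nat_lit 5) (nat_lit 265) (nat_lit 262) (nat_lit 193)))) (XT.nd (nat_lit 156) (nat_lit 0) (nat_lit 76) (XT.nd (nat_lit 78) (nat_lit 0) (nat_lit 76) (XT.lf (nat_lit 0) (nat_lit 970706912) (nat_lit 684) (nat_lit 4315028667) (nat_lit 760) (nat_lit 8247364704) (nat_lit 69) (nat_lit 5) (nat_lit 78) (nat_lit 5) (nat_lit 79) (nat_lit 5) (nat_lit 266) (nat_lit 262) (nat_lit 192)) (XT.lf (nat_lit 0) (nat_lit 1644486505) (nat_lit 684) (nat_lit 12202349182) (nat_lit 760) (nat_lit 23885719) (nat_lit 70) (nat_lit 5) (nat_lit 79) (nat_lit 5) (nat_lit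 80) (nat_lit 5) (nat_lit 267) (nat_lit 262) (nat_lit 191))) (XT.nd (nat_lit 78) (nat_lit 0) (nat_lit 0) (XT.lf (nat_lit 0) (nat_lit 2491186008) (nat_lit 684) (nat_lit 6224306755) (nat_lit 760) (nat_lit 5502847227) (nat_lit 70) (nat_lit 5) (nat_lit 79) (nat_lit 5) (nat_lit 80) (nat_lit 5) (nat_lit 268) (nat_lit 262) (nat_lit 190)) (XT.nd (nat_lit 78) (nat_lit 0) (nat_lit 76) (XT.lf (nat_lit 76) (nat_lit 38991626) (nat_lit 0) (nat_lit 3321175193) (nat_lit 760) (nat_lit 11224249608) (nat_lit 71) (nat_lit 5) (nat_lit 70) (nat_lit 5) (nat_lit 80) (nat_lit 5) (nat_lit 269) (nat_lit 262) (nat_lit 189)) (XT.lf (nat_lit 0) (nat_lit 4396489683) (nat_lit 684) (nat_lit 8186085948) (nat_lit 760) (nat_lit 2380097109) (nat_lit 71) (nat_lit 5) (nat_lit 80) (nat_lit 5) (nat_lit 81) (nat_lit 5) (nat_lit 270) (nat_lit 262) (nat_lit 188))))))))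
noncomputable def xc178 : XT := (XT.nd (nat_lit 1404) (nat_lit 1444) (nat_lit 0) (XT.nd (nat_lit 702) (nat_lit 1140) (nat_lit 0) (XT.nd (nat_lit 312) (nat_lit 760) (nat_lit 0) (XT.nd (nat_lit 156) (nat_lit 608) (nat_lit 0) (XT.nd (nat_lit 78) (nat_lit 0) (nat_lit 0) (XT.lf (nat_lit 0) (nat_lit 5520192967) (nat_lit 684) (nat_lit 1578275174) (nat_lit 760) (nat_lit 8259662851) (nat_lit 71) (nat_lit 5) (nat_lit 80) (nat_lit 5) (nat_lit 81) (nat_lit 5) (nat_lit 271) (nat_lit 262) (nat_lit 187)) (XT.lf (nat_lit 76) (nat_lit 5522342709) (nat_lit 0) (nat_lit 1245975839) (nat_lit 760) (nat_lit 9001695882) (nat_lit 72) (nat_lit 5) (nat_lit 71) (nat_lit 5) (nat_lit 81) (nat_lit 5) (nat_lit 272) (nat_lit 262) (nat_lit 186))) (XT.nd (nat_lit 78) (nat_lit 684) (nat_lit 0) (XT.lf (nat_lit 0) (nat_lit 8165211428) (nat_lit 684) (nat_lit 3260378198) (nat_lit 76) (nat_lit 4772645442) (nat_lit 72) (nat_lit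 5) (nat_lit 81) (nat_lit 5) (nat_lit 73) (nat_lit 5) (nat_lit 273) (nat_lit 262) (nat_lit 185)) (XT.lf (nat_lit 0) (nat_lit 4175121525) (nat_lit 684) (nat_lit 5525966859) (nat_lit 760) (nat_lit 6943379550) (nat_lit 63) (nat_lit 5) (nat_lit 72) (nat_lit 5) (nat_lit 73) (nat_lit 5) (nat_lit 274) (nat_lit 262) (nat_lit 184)))) (XT.nd (nat_lit 156) (nat_lit 456) (nat_lit 0) (XT.nd (nat_lit 78) (nat_lit 304) (nat_lit 0) (XT.lf (nat_lit 0) (nat_lit 11364439492) (nat_lit 760) (nat_lit 5041016411) (nat_lit 76) (nat_lit 705077924) (nat_lit 63) (nat_lit 5) (nat_lit 73) (nat_lit 5) (nat_lit 64) (nat_lit 5) (nat_lit 275) (nat_lit 262) (nat_lit 183)) (XT.lf (nat_lit 0) (nat_lit 2741593833) (nat_lit 304) (nat_lit 10487633850) (nat_lit 380) (nat_lit 4364814616) (nat_lit 59) (nat_lit 5) (nat_lit 63) (nat_lit 5) (nat_lit 64) (nat_lit 5) (nat_lit 276) (nat_lit 262) (nat_lit 182))) (XT.nd (nat_lit 78)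 (nat_lit 456) (nat_lit 0) (XT.lf (nat_lit 0) (nat_lit 11074283100) (nat_lit 304) (nat_lit 4183720792) (nat_lit 380) (nat_lit 2840235120) (nat_lit 59) (nat_lit 5) (nat_lit 63) (nat_lit 5) (nat_lit 64) (nat_lit 5) (nat_lit 277) (nat_lit 262) (nat_lit 181)) (XT.nd (nat_lit 78) (nat_lit 76) (nat_lit 0) (XT.lf (nat_lit 0) (nat_lit 1181609936) (nat_lit 380) (nat_lit 16249161675) (nat_lit 456) (nat_lit 1194794171) (nat_lit 54) (nat_lit 5) (nat_lit 59) (nat_lit 5) (nat_lit 60) (nat_lit 5) (nat_lit 278) (nat_lit 262) (nat_lit 180)) (XT.lf (nat_lit 0) (nat_lit 691613561) (nat_lit 456) (nat_lit 9225273708) (nat_lit 76) (nat_lit 9253211438) (nat_lit 53) (nat_lit 5) (nat_lit 59) (nat_lit 5) (nat_lit 54) (nat_lit 5) (nat_lit 279) (nat_lit 262) (nat_lit 179)))))) (XT.nd (nat_lit 312) (nat_lit 532) (nat_lit 0) (XT.nd (nat_lit 156) (nat_lit 304) (nat_lit 0) (XT.nd (nat_lit 78) (nat_lit 304) (nat_lit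 0) (XT.lf (nat_lit 0) (nat_lit 2619104687) (nat_lit 456) (nat_lit 628974229) (nat_lit 76) (nat_lit 16493495564) (nat_lit 53) (nat_lit 5) (nat_lit 59) (nat_lit 5) (nat_lit 54) (nat_lit 5) (nat_lit 280) (nat_lit 262) (nat_lit 178)) (XT.lf (nat_lit 0) (nat_lit 4826556528) (nat_lit 380) (nat_lit 11735066390) (nat_lit 76) (nat_lit 3770861187) (nat_lit 49) (nat_lit 5) (nat_lit 54) (nat_lit 5) (nat_lit 50) (nat_lit 5) (nat_lit 281) (nat_lit 262) (nat_lit 177))) (XT.nd (nat_lit 78) (nat_lit 304) (nat_lit 0) (XT.lf (nat_lit 0) (nat_lit 7196373817) (nat_lit 380) (nat_lit 2712356353) (nat_lit 76) (nat_lit 11041646895) (nat_lit 49) (nat_lit 5) (nat_lit 54) (nat_lit 5) (nat_lit 50) (nat_lit 5) (nat_lit 282) (nat_lit 262) (nat_lit 176)) (XT.lf (nat_lit 0) (nat_lit 6971778448) (nat_lit 304) (nat_lit 2810246862) (nat_lit 380) (nat_lit 11812307907) (nat_lit 45) (nat_lit 5) (nat_lit 49) (nat_lit 5)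 (nat_lit 50) (nat_lit 5) (nat_lit 283) (nat_lit 262) (nat_lit 175)))) (XT.nd (nat_lit 156) (nat_lit 304) (nat_lit 0) (XT.nd (nat_lit 78) (nat_lit 228) (nat_lit 0) (XT.lf (nat_lit 0) (nat_lit 12604961806) (nat_lit 380) (nat_lit 5120361762) (nat_lit 76) (nat_lit 4539797496) (nat_lit 45) (nat_lit 5) (nat_lit 50) (nat_lit 5) (nat_lit 46) (nat_lit 5) (nat_lit 284) (nat_lit 262) (nat_lit 174)) (XT.lf (nat_lit 0) (nat_lit 4956941073) (nat_lit 228) (nat_lit 10724919300) (nat_lit 304) (nat_lit 7281979560) (nat_lit 42) (nat_lit 5) (nat_lit 45) (nat_lit 5) (nat_lit 46) (nat_lit 5) (nat_lit 285) (nat_lit 262) (nat_lit 173))) (XT.nd (nat_lit 78) (nat_lit 304) (nat_lit 0) (XT.lf (nat_lit 0) (nat_lit 15703496134) (nat_lit 228) (nat_lit 3285491088) (nat_lit 304) (nat_lit 4704719202) (nat_lit 42) (nat_lit 5) (nat_lit 45) (nat_lit 5) (nat_lit 46) (nat_lit 5) (nat_lit 286) (nat_lit 262) (nat_lit 172))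 (XT.nd (nat_lit 78) (nat_lit 76) (nat_lit 0) (XT.lf (nat_lit 0) (nat_lit 2525190737) (nat_lit 228) (nat_lit 20036496218) (nat_lit 304) (nat_lit 1893397838) (nat_lit 39) (nat_lit 5) (nat_lit 42) (nat_lit 5) (nat_lit 43) (nat_lit 5) (nat_lit 287) (nat_lit 262) (nat_lit 171)) (XT.lf (nat_lit 0) (nat_lit 1206234446) (nat_lit 304) (nat_lit 11489040577) (nat_lit 76) (nat_lit 12549376249) (nat_lit 38) (nat_lit 5) (nat_lit 42) (nat_lit 5) (nat_lit 39) (nat_lit 5) (nat_lit 288) (nat_lit 262) (nat_lit 170))))))) (XT.nd (nat_lit 702) (nat_lit 532) (nat_lit 0) (XT.nd (nat_lit 312) (nat_lit 456) (nat_lit 0) (XT.nd (nat_lit 156) (nat_lit 228) (nat_lit 0) (XT.nd (nat_lit 78) (nat_lit 228) (nat_lit 0) (XT.lf (nat_lit 0) (nat_lit 4387909395) (nat_lit 304) (nat_lit 569025110) (nat_lit 76) (nat_lit 21115700402) (nat_lit 38) (nat_lit 5) (nat_lit 42) (nat_lit 5) (nat_lit 39) (nat_lit 5) (nat_lit 289) (nat_lit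 262) (nat_lit 169)) (XT.lf (nat_lit 0) (nat_lit 7947686039) (nat_lit 304) (nat_lit 15740368902) (nat_lit 76) (nat_lit 3243036056) (nat_lit 35) (nat_lit 5) (nat_lit 39) (nat_lit 5) (nat_lit 36) (nat_lit 5) (nat_lit 290) (nat_lit 262) (nat_lit 168))) (XT.nd (nat_lit 78) (nat_lit 228) (nat_lit 0) (XT.lf (nat_lit 0) (nat_lit 11767852522) (nat_lit 304) (nat_lit 4366706055) (nat_lit 76) (nat_lit 11693814282) (nat_lit 35) (nat_lit 5) (nat_lit 39) (nat_lit 5) (nat_lit 36) (nat_lit 5) (nat_lit 291) (nat_lit 262) (nat_lit 167)) (XT.lf (nat_lit 0) (nat_lit 7814799733) (nat_lit 228) (nat_lit 8077995752) (nat_lit 304) (nat_lit 12872056846) (nat_lit 32) (nat_lit 5) (nat_lit 35) (nat_lit 5) (nat_lit 36) (nat_lit 5) (nat_lit 292) (nat_lit 262) (nat_lit 166)))) (XT.nd (nat_lit 156) (nat_lit 304) (nat_lit 0) (XT.nd (nat_lit 78) (nat_lit 152) (nat_lit 0) (XT.lf (nat_lit 0) (nat_lit 20297043002) (nat_lit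 304) (nat_lit 9005806548) (nat_lit 76) (nat_lit 441674234) (nat_lit 32) (nat_lit 5) (nat_lit 36) (nat_lit 5) (nat_lit 33) (nat_lit 5) (nat_lit 293) (nat_lit 262) (nat_lit 165)) (XT.lf (nat_lit 0) (nat_lit 3504767333) (nat_lit 152) (nat_lit 21596203003) (nat_lit 228) (nat_lit 5663254988) (nat_lit 30) (nat_lit 5) (nat_lit 32) (nat_lit 5) (nat_lit 33) (nat_lit 5) (nat_lit 294) (nat_lit 262) (nat_lit 164))) (XT.nd (nat_lit 78) (nat_lit 304) (nat_lit 0) (XT.lf (nat_lit 0) (nat_lit 16943069921) (nat_lit 152) (nat_lit 13347066138) (nat_lit 228) (nat_lit 1537542719) (nat_lit 30) (nat_lit 5) (nat_lit 32) (nat_lit 5) (nat_lit 33) (nat_lit 5) (nat_lit 295) (nat_lit 262) (nat_lit 163)) (XT.nd (nat_lit 78) (nat_lit 228) (nat_lit 0) (XT.lf (nat_lit 0) (nat_lit 2697761285) (nat_lit 228) (nat_lit 1944866667) (nat_lit 76) (nat_lit 28299875359) (nat_lit 29) (nat_lit 5) (nat_lit 32) (nat_lit 5) (nat_lit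 30) (nat_lit 5) (nat_lit 296) (nat_lit 262) (nat_lit 162)) (XT.lf (nat_lit 0) (nat_lit 7347108344) (nat_lit 304) (nat_lit 22185758642) (nat_lit 76) (nat_lit 4566260694) (nat_lit 26) (nat_lit 5) (nat_lit 30) (nat_lit 5) (nat_lit 27) (nat_lit 5) (nat_lit 297) (nat_lit 262) (nat_lit 161)))))) (XT.nd (nat_lit 312) (nat_lit 380) (nat_lit 0) (XT.nd (nat_lit 156) (nat_lit 0) (nat_lit 0) (XT.nd (nat_lit 78) (nat_lit 152) (nat_lit 0) (XT.lf (nat_lit 0) (nat_lit 12331735186) (nat_lit 304) (nat_lit 8866431139) (nat_lit 76) (nat_lit 14110291902) (nat_lit 26) (nat_lit 5) (nat_lit 30) (nat_lit 5) (nat_lit 27) (nat_lit 5) (nat_lit 298) (nat_lit 262) (nat_lit 160)) (XT.lf (nat_lit 0) (nat_lit 5278390845) (nat_lit 152) (nat_lit 12363162105) (nat_lit 228) (nat_lit 18932919212) (nat_lit 24) (nat_lit 5) (nat_lit 26) (nat_lit 5) (nat_lit 27) (nat_lit 5) (nat_lit 299) (nat_lit 262) (nat_lit 159))) (XT.nd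 (nat_lit 78) (nat_lit 0) (nat_lit 0) (XT.lf (nat_lit 0) (nat_lit 20429014861) (nat_lit 152) (nat_lit 2931715735) (nat_lit 228) (nat_lit 14535876877) (nat_lit 24) (nat_lit 5) (nat_lit 26) (nat_lit 5) (nat_lit 27) (nat_lit 5) (nat_lit 300) (nat_lit 262) (nat_lit 158)) (XT.lf (nat_lit 0) (nat_lit 29468675628) (nat_lit 228) (nat_lit 3065610253) (nat_lit 76) (nat_lit 6745436703) (nat_lit 24) (nat_lit 5) (nat_lit 27) (nat_lit 5) (nat_lit 25) (nat_lit 5) (nat_lit 301) (nat_lit 262) (nat_lit 157)))) (XT.nd (nat_lit 156) (nat_lit 152) (nat_lit 0) (XT.nd (nat_lit 78) (nat_lit 76) (nat_lit 0) (XT.lf (nat_lit 0) (nat_lit 12396519983) (nat_lit 152) (nat_lit 23721357476) (nat_lit 228) (nat_lit 4602335834) (nat_lit 22) (nat_lit 5) (nat_lit 24) (nat_lit 5) (nat_lit 25) (nat_lit 5) (nat_lit 302) (nat_lit 262) (nat_lit 156)) (XT.lf (nat_lit 0) (nat_lit 886127334) (nat_lit 228) (nat_lit 13515046465)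 (nat_lit 76) (nat_lit 27828536704) (nat_lit 21) (nat_lit 5) (nat_lit 24) (nat_lit 5) (nat_lit 22) (nat_lit 5) (nat_lit 303) (nat_lit 262) (nat_lit 155))) (XT.nd (nat_lit 78) (nat_lit 0) (nat_lit 0) (XT.lf (nat_lit 0) (nat_lit 2014767693) (nat_lit 152) (nat_lit 4505596474) (nat_lit 228) (nat_lit 37289256115) (nat_lit 19) (nat_lit 5) (nat_lit 21) (nat_lit 5) (nat_lit 22) (nat_lit 5) (nat_lit 304) (nat_lit 262) (nat_lit 154)) (XT.nd (nat_lit 78) (nat_lit 0) (nat_lit 0) (XT.lf (nat_lit 0) (nat_lit 12755476164) (nat_lit 228) (nat_lit 26770825967) (nat_lit 76) (nat_lit 5926275797) (nat_lit 19) (nat_lit 5) (nat_lit 22) (nat_lit 5) (nat_lit 20) (nat_lit 5) (nat_lit 305) (nat_lit 262) (nat_lit 153)) (XT.lf (nat_lit 0) (nat_lit 19371110460) (nat_lit 228) (nat_lit 11077459564) (nat_lit 76) (nat_lit 16725685142) (nat_lit 19) (nat_lit 5) (nat_lit 22) (nat_lit 5) (nat_lit 20) (nat_lit 5) (nat_lit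 306) (nat_lit 262) (nat_lit 152))))))))
noncomputable def xc179 : XT := (XT.nd (nat_lit 1404) (nat_lit 304) (nat_lit 0) (XT.nd (nat_lit 702) (nat_lit 380) (nat_lit 0) (XT.nd (nat_lit 312) (nat_lit 228) (nat_lit 0) (XT.nd (nat_lit 156) (nat_lit 76) (nat_lit 0) (XT.nd (nat_lit 78) (nat_lit 0) (nat_lit 0) (XT.lf (nat_lit 0) (nat_lit 5571272269) (nat_lit 152) (nat_lit 20828384480) (nat_lit 228) (nat_lit 22578262567) (nat_lit 17) (nat_lit 5) (nat_lit 19) (nat_lit 5) (nat_lit 20) (nat_lit 5) (nat_lit 307) (nat_lit 262) (nat_lit 151)) (XT.lf (nat_lit 0) (nat_lit 23429529562) (nat_lit 152) (nat_lit 10532964100) (nat_lit 228) (nat_lit 16900138956) (nat_lit 17) (nat_lit 5) (nat_lit 19) (nat_lit 5) (nat_lit 20) (nat_lit 5) (nat_lit 308) (nat_lit 262) (nat_lit 150))) (XT.nd (nat_lit 78) (nat_lit 76) (nat_lit 0) (XT.lf (nat_lit 0) (nat_lit 41903246555) (nat_lit 228) (nat_lit 10672542094) (nat_lit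 76) (nat_lit 265812906) (nat_lit 17) (nat_lit 5) (nat_lit 20) (nat_lit 5) (nat_lit 18) (nat_lit 4) (nat_lit 309) (nat_lit 262) (nat_lit 149)) (XT.lf (nat_lit 0) (nat_lit 6969458789) (nat_lit 76) (nat_lit 43548725332) (nat_lit 152) (nat_lit 4387485727) (nat_lit 16) (nat_lit 5) (nat_lit 17) (nat_lit 5) (nat_lit 18) (nat_lit 4) (nat_lit 310) (nat_lit 262) (nat_lit 148)))) (XT.nd (nat_lit 156) (nat_lit 152) (nat_lit 0) (XT.nd (nat_lit 78) (nat_lit 0) (nat_lit 0) (XT.lf (nat_lit 0) (nat_lit 2590594365) (nat_lit 152) (nat_lit 31248691762) (nat_lit 76) (nat_lit 23222748777) (nat_lit 15) (nat_lit 5) (nat_lit 17) (nat_lit 5) (nat_lit 16) (nat_lit 5) (nat_lit 311) (nat_lit 262) (nat_lit 147)) (XT.lf (nat_lit 0) (nat_lit 9766020540) (nat_lit 152) (nat_lit 13805408532) (nat_lit 76) (nat_lit 35751405462) (nat_lit 15) (nat_lit 5) (nat_lit 17) (nat_lit 5) (nat_lit 16) (nat_lit 5) (nat_lit 312) (nat_lit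 262) (nat_lit 146))) (XT.nd (nat_lit 78) (nat_lit 0) (nat_lit 0) (XT.lf (nat_lit 0) (nat_lit 4652582916) (nat_lit 152) (nat_lit 12716361030) (nat_lit 228) (nat_lit 44324300700) (nat_lit 13) (nat_lit 5) (nat_lit 15) (nat_lit 5) (nat_lit 16) (nat_lit 5) (nat_lit 313) (nat_lit 262) (nat_lit 145)) (XT.nd (nat_lit 78) (nat_lit 0) (nat_lit 0) (XT.lf (nat_lit 0) (nat_lit 24506501598) (nat_lit 152) (nat_lit 1075487827) (nat_lit 228) (nat_lit 38588693517) (nat_lit 13) (nat_lit 5) (nat_lit 15) (nat_lit 5) (nat_lit 16) (nat_lit 5) (nat_lit 314) (nat_lit 262) (nat_lit 144)) (XT.lf (nat_lit 0) (nat_lit 34376050300) (nat_lit 228) (nat_lit 21599038218) (nat_lit 76) (nat_lit 10788392645) (nat_lit 13) (nat_lit 5) (nat_lit 16) (nat_lit 5) (nat_lit 14) (nat_lit 4) (nat_lit 315) (nat_lit 262) (nat_lit 143)))))) (XT.nd (nat_lit 312) (nat_lit 304) (nat_lit 0) (XT.nd (nat_lit 156) (nat_lit 0) (nat_lit 0)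 (XT.nd (nat_lit 78) (nat_lit 76) (nat_lit 0) (XT.lf (nat_lit 0) (nat_lit 43623940895) (nat_lit 228) (nat_lit 2654096186) (nat_lit 76) (nat_lit 23207181751) (nat_lit 13) (nat_lit 5) (nat_lit 16) (nat_lit 5) (nat_lit 14) (nat_lit 4) (nat_lit 316) (nat_lit 262) (nat_lit 142)) (XT.lf (nat_lit 0) (nat_lit 17802328832) (nat_lit 76) (nat_lit 35806504029) (nat_lit 152) (nat_lit 18720485775) (nat_lit 12) (nat_lit 5) (nat_lit 13) (nat_lit 5) (nat_lit 14) (nat_lit 4) (nat_lit 317) (nat_lit 262) (nat_lit 141))) (XT.nd (nat_lit 78) (nat_lit 0) (nat_lit 0) (XT.lf (nat_lit 0) (nat_lit 39368259028) (nat_lit 76) (nat_lit 24766395073) (nat_lit 152) (nat_lit 11178890422) (nat_lit 12) (nat_lit 5) (nat_lit 13) (nat_lit 5) (nat_lit 14) (nat_lit 4) (nat_lit 318) (nat_lit 262) (nat_lit 140)) (XT.lf (nat_lit 0) (nat_lit 62007285447) (nat_lit 76) (nat_lit 13176372642) (nat_lit 152) (nat_lit 3263484103) (nat_lit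 12) (nat_lit 5) (nat_lit 13) (nat_lit 5) (nat_lit 14) (nat_lit 4) (nat_lit 319) (nat_lit 262) (nat_lit 139)))) (XT.nd (nat_lit 156) (nat_lit 76) (nat_lit 0) (XT.nd (nat_lit 78) (nat_lit 0) (nat_lit 0) (XT.lf (nat_lit 0) (nat_lit 4087813480) (nat_lit 152) (nat_lit 859130087) (nat_lit 228) (nat_lit 76783499911) (nat_lit 9) (nat_lit 5) (nat_lit 11) (nat_lit 5) (nat_lit 12) (nat_lit 5) (nat_lit 320) (nat_lit 262) (nat_lit 138)) (XT.lf (nat_lit 0) (nat_lit 13926728539) (nat_lit 228) (nat_lit 59203035033) (nat_lit 76) (nat_lit 12022050132) (nat_lit 9) (nat_lit 5) (nat_lit 12) (nat_lit 5) (nat_lit 10) (nat_lit 4) (nat_lit 321) (nat_lit 262) (nat_lit 137))) (XT.nd (nat_lit 78) (nat_lit 76) (nat_lit 0) (XT.lf (nat_lit 0) (nat_lit 23366749392) (nat_lit 228) (nat_lit 39860397220) (nat_lit 76) (nat_lit 25516547672) (nat_lit 9) (nat_lit 5) (nat_lit 12) (nat_lit 5) (nat_lit 10) (nat_lit 4) (nat_lit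 322) (nat_lit 262) (nat_lit 136)) (XT.nd (nat_lit 78) (nat_lit 76) (nat_lit 0) (XT.lf (nat_lit 0) (nat_lit 33276068939) (nat_lit 228) (nat_lit 19555249230) (nat_lit 76) (nat_lit 39683989815) (nat_lit 9) (nat_lit 5) (nat_lit 12) (nat_lit 5) (nat_lit 10) (nat_lit 4) (nat_lit 323) (nat_lit 262) (nat_lit 135)) (XT.lf (nat_lit 0) (nat_lit 1818973021) (nat_lit 76) (nat_lit 41887707042) (nat_lit 152) (nat_lit 52767534811) (nat_lit 8) (nat_lit 5) (nat_lit 9) (nat_lit 5) (nat_lit 10) (nat_lit 4) (nat_lit 324) (nat_lit 262) (nat_lit 134))))))) (XT.nd (nat_lit 702) (nat_lit 152) (nat_lit 0) (XT.nd (nat_lit 312) (nat_lit 152) (nat_lit 0) (XT.nd (nat_lit 156) (nat_lit 0) (nat_lit 0) (XT.nd (nat_lit 78) (nat_lit 0) (nat_lit 0) (XT.lf (nat_lit 0) (nat_lit 24936489843) (nat_lit 76) (nat_lit 30050990785) (nat_lit 152) (nat_lit 45627157141) (nat_lit 8) (nat_lit 5) (nat_lit 9) (nat_lit 5) (nat_lit 10)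 (nat_lit 4) (nat_lit 325) (nat_lit 262) (nat_lit 133)) (XT.lf (nat_lit 0) (nat_lit 49205758088) (nat_lit 76) (nat_lit 17624164349) (nat_lit 152) (nat_lit 38132282744) (nat_lit 8) (nat_lit 5) (nat_lit 9) (nat_lit 5) (nat_lit 10) (nat_lit 4) (nat_lit 326) (nat_lit 262) (nat_lit 132))) (XT.nd (nat_lit 78) (nat_lit 0) (nat_lit 0) (XT.lf (nat_lit 0) (nat_lit 74684561728) (nat_lit 76) (nat_lit 4577640052) (nat_lit 152) (nat_lit 30265066682) (nat_lit 8) (nat_lit 5) (nat_lit 9) (nat_lit 5) (nat_lit 10) (nat_lit 4) (nat_lit 327) (nat_lit 262) (nat_lit 131)) (XT.lf (nat_lit 0) (nat_lit 92456302543) (nat_lit 152) (nat_lit 13029515449) (nat_lit 0) (nat_lit 8827759657) (nat_lit 8) (nat_lit 5) (nat_lit 10) (nat_lit 4) (nat_lit 8) (nat_lit 4) (nat_lit 328) (nat_lit 262) (nat_lit 130)))) (XT.nd (nat_lit 156) (nat_lit 76) (nat_lit 0) (XT.nd (nat_lit 78) (nat_lit 0) (nat_lit 0) (XT.lf (nat_lit 0) (nat_lit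 10119534287) (nat_lit 76) (nat_lit 96421516191) (nat_lit 76) (nat_lit 12786607675) (nat_lit 7) (nat_lit 4) (nat_lit 8) (nat_lit 5) (nat_lit 8) (nat_lit 4) (nat_lit 329) (nat_lit 262) (nat_lit 129)) (XT.lf (nat_lit 0) (nat_lit 34874804547) (nat_lit 76) (nat_lit 86673840754) (nat_lit 76) (nat_lit 3032869733) (nat_lit 7) (nat_lit 4) (nat_lit 8) (nat_lit 5) (nat_lit 8) (nat_lit 4) (nat_lit 330) (nat_lit 262) (nat_lit 128))) (XT.nd (nat_lit 78) (nat_lit 0) (nat_lit 0) (XT.lf (nat_lit 0) (nat_lit 6975847727) (nat_lit 152) (nat_lit 69346256994) (nat_lit 76) (nat_lit 53770434742) (nat_lit 6) (nat_lit 5) (nat_lit 8) (nat_lit 5) (nat_lit 7) (nat_lit 4) (nat_lit 331) (nat_lit 262) (nat_lit 127)) (XT.nd (nat_lit 78) (nat_lit 0) (nat_lit 0) (XT.lf (nat_lit 0) (nat_lit 17381182848) (nat_lit 152) (nat_lit 48020818868) (nat_lit 76) (nat_lit 70474724574) (nat_lit 6) (nat_lit 5) (nat_lit 8) (nat_lit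 5) (nat_lit 7) (nat_lit 4) (nat_lit 332) (nat_lit 262) (nat_lit 126)) (XT.lf (nat_lit 0) (nat_lit 28304981008) (nat_lit 152) (nat_lit 25632269659) (nat_lit 76) (nat_lit 88012964300) (nat_lit 6) (nat_lit 5) (nat_lit 8) (nat_lit 5) (nat_lit 7) (nat_lit 4) (nat_lit 333) (nat_lit 262) (nat_lit 125)))))) (XT.nd (nat_lit 312) (nat_lit 76) (nat_lit 0) (XT.nd (nat_lit 156) (nat_lit 0) (nat_lit 0) (XT.nd (nat_lit 78) (nat_lit 76) (nat_lit 0) (XT.lf (nat_lit 0) (nat_lit 39773251251) (nat_lit 152) (nat_lit 2127303298) (nat_lit 76) (nat_lit 106426911632) (nat_lit 6) (nat_lit 5) (nat_lit 8) (nat_lit 5) (nat_lit 7) (nat_lit 4) (nat_lit 334) (nat_lit 262) (nat_lit 124)) (XT.lf (nat_lit 0) (nat_lit 23295650727) (nat_lit 76) (nat_lit 28881358649) (nat_lit 152) (nat_lit 102828468971) (nat_lit 5) (nat_lit 5) (nat_lit 6) (nat_lit 5) (nat_lit 7) (nat_lit 4) (nat_lit 335) (nat_lit 262) (nat_lit 123))) (XT.nd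 (nat_lit 78) (nat_lit 0) (nat_lit 0) (XT.lf (nat_lit 0) (nat_lit 50060786901) (nat_lit 76) (nat_lit 15174593260) (nat_lit 152) (nat_lit 96780291729) (nat_lit 5) (nat_lit 5) (nat_lit 6) (nat_lit 5) (nat_lit 7) (nat_lit 4) (nat_lit 336) (nat_lit 262) (nat_lit 122)) (XT.lf (nat_lit 0) (nat_lit 78161493485) (nat_lit 76) (nat_lit 783650136) (nat_lit 152) (nat_lit 90431309695) (nat_lit 5) (nat_lit 5) (nat_lit 6) (nat_lit 5) (nat_lit 7) (nat_lit 4) (nat_lit 337) (nat_lit 262) (nat_lit 121)))) (XT.nd (nat_lit 156) (nat_lit 76) (nat_lit 0) (XT.nd (nat_lit 78) (nat_lit 0) (nat_lit 0) (XT.lf (nat_lit 0) (nat_lit 93562606920) (nat_lit 152) (nat_lit 69664336240) (nat_lit 0) (nat_lit 13867221890) (nat_lit 5) (nat_lit 5) (nat_lit 7) (nat_lit 4) (nat_lit 5) (nat_lit 4) (nat_lit 338) (nat_lit 262) (nat_lit 120)) (XT.lf (nat_lit 0) (nat_lit 108922389668) (nat_lit 152) (nat_lit 47051519337) (nat_lit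 0) (nat_lit 29223282786) (nat_lit 5) (nat_lit 5) (nat_lit 7) (nat_lit 4) (nat_lit 5) (nat_lit 4) (nat_lit 339) (nat_lit 262) (nat_lit 119))) (XT.nd (nat_lit 78) (nat_lit 76) (nat_lit 0) (XT.lf (nat_lit 0) (nat_lit 125048827803) (nat_lit 152) (nat_lit 23310434105) (nat_lit 0) (nat_lit 45346176300) (nat_lit 5) (nat_lit 5) (nat_lit 7) (nat_lit 4) (nat_lit 5) (nat_lit 4) (nat_lit 340) (nat_lit 262) (nat_lit 118)) (XT.nd (nat_lit 78) (nat_lit 0) (nat_lit 0) (XT.lf (nat_lit 0) (nat_lit 1668859783) (nat_lit 76) (nat_lit 140337513401) (nat_lit 76) (nat_lit 60631486068) (nat_lit 4) (nat_lit 4) (nat_lit 5) (nat_lit 5) (nat_lit 5) (nat_lit 4) (nat_lit 341) (nat_lit 262) (nat_lit 117)) (XT.lf (nat_lit 0) (nat_lit 28704180905) (nat_lit 76) (nat_lit 131501143949) (nat_lit 76) (nat_lit 51791901540) (nat_lit 4) (nat_lit 4) (nat_lit 5) (nat_lit 5) (nat_lit 5) (nat_lit 4) (nat_lit 342) (nat_lit 262)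 (nat_lit 116))))))))
noncomputable def xc180 : XT := (XT.nd (nat_lit 31434) (nat_lit 0) (nat_lit 3572) (XT.nd (nat_lit 702) (nat_lit 0) (nat_lit 0) (XT.nd (nat_lit 312) (nat_lit 152) (nat_lit 0) (XT.nd (nat_lit 156) (nat_lit 0) (nat_lit 0) (XT.nd (nat_lit 78) (nat_lit 0) (nat_lit 0) (XT.lf (nat_lit 0) (nat_lit 57089150850) (nat_lit 76) (nat_lit 122223888058) (nat_lit 76) (nat_lit 42511583673) (nat_lit 4) (nat_lit 4) (nat_lit 5) (nat_lit 5) (nat_lit 5) (nat_lit 4) (nat_lit 343) (nat_lit 262) (nat_lit 115)) (XT.lf (nat_lit 0) (nat_lit 86891352878) (nat_lit 76) (nat_lit 112483657025) (nat_lit 76) (nat_lit 32768436470) (nat_lit 4) (nat_lit 4) (nat_lit 5) (nat_lit 5) (nat_lit 5) (nat_lit 4) (nat_lit 344) (nat_lit 262) (nat_lit 114))) (XT.nd (nat_lit 78) (nat_lit 0) (nat_lit 0) (XT.lf (nat_lit 0) (nat_lit 118181744614) (nat_lit 76) (nat_lit 102257259822) (nat_lit 76) (nat_lit 22539261964)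 (nat_lit 4) (nat_lit 4) (nat_lit 5) (nat_lit 5) (nat_lit 5) (nat_lit 4) (nat_lit 345) (nat_lit 262) (nat_lit 113)) (XT.lf (nat_lit 0) (nat_lit 151034826991) (nat_lit 76) (nat_lit 91520347885) (nat_lit 76) (nat_lit 11799704976) (nat_lit 4) (nat_lit 4) (nat_lit 5) (nat_lit 5) (nat_lit 5) (nat_lit 4) (nat_lit 346) (nat_lit 262) (nat_lit 112)))) (XT.nd (nat_lit 156) (nat_lit 76) (nat_lit 0) (XT.nd (nat_lit 78) (nat_lit 76) (nat_lit 0) (XT.lf (nat_lit 0) (nat_lit 185528821632) (nat_lit 76) (nat_lit 80247357138) (nat_lit 76) (nat_lit 524195133) (nat_lit 4) (nat_lit 4) (nat_lit 5) (nat_lit 5) (nat_lit 5) (nat_lit 4) (nat_lit 347) (nat_lit 262) (nat_lit 111)) (XT.lf (nat_lit 0) (nat_lit 10951991710) (nat_lit 152) (nat_lit 57273978137) (nat_lit 76) (nat_lit 210608388107) (nat_lit 3) (nat_lit 5) (nat_lit 5) (nat_lit 5) (nat_lit 4) (nat_lit 4) (nat_lit 348) (nat_lit 262) (nat_lit 110))) (XT.nd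 (nat_lit 78) (nat_lit 76) (nat_lit 0) (XT.lf (nat_lit 0) (nat_lit 22983471558) (nat_lit 152) (nat_lit 32611729342) (nat_lit 76) (nat_lit 236399456651) (nat_lit 3) (nat_lit 5) (nat_lit 5) (nat_lit 5) (nat_lit 4) (nat_lit 4) (nat_lit 349) (nat_lit 262) (nat_lit 109)) (XT.nd (nat_lit 78) (nat_lit 76) (nat_lit 0) (XT.lf (nat_lit 0) (nat_lit 35615668310) (nat_lit 152) (nat_lit 6717902090) (nat_lit 76) (nat_lit 263479445548) (nat_lit 3) (nat_lit 5) (nat_lit 5) (nat_lit 5) (nat_lit 4) (nat_lit 4) (nat_lit 350) (nat_lit 262) (nat_lit 108)) (XT.lf (nat_lit 0) (nat_lit 21145958311) (nat_lit 76) (nat_lit 28062847984) (nat_lit 152) (nat_lit 271097020321) (nat_lit 2) (nat_lit 5) (nat_lit 3) (nat_lit 5) (nat_lit 4) (nat_lit 4) (nat_lit 351) (nat_lit 262) (nat_lit 107)))))) (XT.nd (nat_lit 312) (nat_lit 0) (nat_lit 0) (XT.nd (nat_lit 156) (nat_lit 0) (nat_lit 0) (XT.nd (nat_lit 78) (nat_lit 0) (nat_lit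 0) (XT.lf (nat_lit 0) (nat_lit 50634804751) (nat_lit 76) (nat_lit 12959767504) (nat_lit 152) (nat_lit 271923057883) (nat_lit 2) (nat_lit 5) (nat_lit 3) (nat_lit 5) (nat_lit 4) (nat_lit 4) (nat_lit 352) (nat_lit 262) (nat_lit 106)) (XT.lf (nat_lit 0) (nat_lit 78744108468) (nat_lit 152) (nat_lit 269938581886) (nat_lit 0) (nat_lit 2805110219) (nat_lit 2) (nat_lit 5) (nat_lit 4) (nat_lit 4) (nat_lit 2) (nat_lit 4) (nat_lit 353) (nat_lit 262) (nat_lit 105))) (XT.nd (nat_lit 78) (nat_lit 0) (nat_lit 0) (XT.lf (nat_lit 0) (nat_lit 94862842183) (nat_lit 152) (nat_lit 254460913194) (nat_lit 0) (nat_lit 18922138911) (nat_lit 2) (nat_lit 5) (nat_lit 4) (nat_lit 4) (nat_lit 2) (nat_lit 4) (nat_lit 354) (nat_lit 262) (nat_lit 104)) (XT.lf (nat_lit 0) (nat_lit 111786813048) (nat_lit 152) (nat_lit 238210629430) (nat_lit 0) (nat_lit 35844485945) (nat_lit 2) (nat_lit 5) (nat_lit 4) (nat_lit 4) (nat_lit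 2) (nat_lit 4) (nat_lit 355) (nat_lit 262) (nat_lit 103)))) (XT.nd (nat_lit 156) (nat_lit 0) (nat_lit 0) (XT.nd (nat_lit 78) (nat_lit 0) (nat_lit 0) (XT.lf (nat_lit 0) (nat_lit 129556316233) (nat_lit 152) (nat_lit 221149039443) (nat_lit 0) (nat_lit 53612442623) (nat_lit 2) (nat_lit 5) (nat_lit 4) (nat_lit 4) (nat_lit 2) (nat_lit 4) (nat_lit 356) (nat_lit 262) (nat_lit 102)) (XT.lf (nat_lit 0) (nat_lit 148213660076) (nat_lit 152) (nat_lit 203235520397) (nat_lit 0) (nat_lit 72268313603) (nat_lit 2) (nat_lit 5) (nat_lit 4) (nat_lit 4) (nat_lit 2) (nat_lit 4) (nat_lit 357) (nat_lit 262) (nat_lit 101))) (XT.nd (nat_lit 30108) (nat_lit 0) (nat_lit 5016) (XT.lf (nat_lit 0) (nat_lit 167803266827) (nat_lit 152) (nat_lit 184427421059) (nat_lit 0) (nat_lit 91856517627) (nat_lit 2) (nat_lit 5) (nat_lit 4) (nat_lit 4) (nat_lit 2) (nat_lit 4) (nat_lit 358) (nat_lit 262) (nat_lit 100)) (XT.nd (nat_lit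 78) (nat_lit 684) (nat_lit 0) (XT.lf (nat_lit 0) (nat_lit 6243762097) (nat_lit 684) (nat_lit 102012976) (nat_lit 684) (nat_lit 102012976) (nat_lit 77) (nat_lit 3) (nat_lit 86) (nat_lit 3) (nat_lit 86) (nat_lit 5) (nat_lit 263) (nat_lit 263) (nat_lit 194)) (XT.lf (nat_lit 0) (nat_lit 49338958) (nat_lit 684) (nat_lit 7748331178) (nat_lit 760) (nat_lit 5396569022) (nat_lit 68) (nat_lit 5) (nat_lit 77) (nat_lit 3) (nat_lit 78) (nat_lit 5) (nat_lit 264) (nat_lit 263) (nat_lit 193))))))) (XT.nd (nat_lit 702) (nat_lit 1444) (nat_lit 0) (XT.nd (nat_lit 312) (nat_lit 0) (nat_lit 152) (XT.nd (nat_lit 156) (nat_lit 0) (nat_lit 76) (XT.nd (nat_lit 78) (nat_lit 0) (nat_lit 76) (XT.lf (nat_lit 0) (nat_lit 495656689) (nat_lit 684) (nat_lit 2142419921) (nat_lit 760) (nat_lit 10870521702) (nat_lit 68) (nat_lit 5) (nat_lit 77) (nat_lit 3) (nat_lit 78) (nat_lit 5) (nat_lit 265) (nat_lit 263) (nat_lit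 192)) (XT.lf (nat_lit 0) (nat_lit 1046392305) (nat_lit 684) (nat_lit 10027057637) (nat_lit 760) (nat_lit 2761202235) (nat_lit 69) (nat_lit 5) (nat_lit 78) (nat_lit 5) (nat_lit 79) (nat_lit 5) (nat_lit 266) (nat_lit 263) (nat_lit 191))) (XT.nd (nat_lit 78) (nat_lit 0) (nat_lit 0) (XT.lf (nat_lit 0) (nat_lit 1683201682) (nat_lit 684) (nat_lit 4103441282) (nat_lit 760) (nat_lit 8387516871) (nat_lit 69) (nat_lit 5) (nat_lit 78) (nat_lit 5) (nat_lit 79) (nat_lit 5) (nat_lit 267) (nat_lit 263) (nat_lit 190)) (XT.lf (nat_lit 76) (nat_lit 2172661835) (nat_lit 0) (nat_lit 192551133) (nat_lit 760) (nat_lit 12164836078) (nat_lit 70) (nat_lit 5) (nat_lit 69) (nat_lit 5) (nat_lit 79) (nat_lit 5) (nat_lit 268) (nat_lit 263) (nat_lit 189)))) (XT.nd (nat_lit 156) (nat_lit 0) (nat_lit 76) (XT.nd (nat_lit 78) (nat_lit 0) (nat_lit 0) (XT.lf (nat_lit 0) (nat_lit 3220979475) (nat_lit 684) (nat_lit 6099250004)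 (nat_lit 760) (nat_lit 5576591208) (nat_lit 70) (nat_lit 5) (nat_lit 79) (nat_lit 5) (nat_lit 80) (nat_lit 5) (nat_lit 269) (nat_lit 263) (nat_lit 188)) (XT.lf (nat_lit 76) (nat_lit 470176649) (nat_lit 0) (nat_lit 3641113571) (nat_lit 760) (nat_lit 11171120233) (nat_lit 71) (nat_lit 5) (nat_lit 70) (nat_lit 5) (nat_lit 80) (nat_lit 5) (nat_lit 270) (nat_lit 263) (nat_lit 187))) (XT.nd (nat_lit 78) (nat_lit 0) (nat_lit 0) (XT.lf (nat_lit 0) (nat_lit 5169373756) (nat_lit 684) (nat_lit 8154566694) (nat_lit 760) (nat_lit 2357240527) (nat_lit 71) (nat_lit 5) (nat_lit 80) (nat_lit 5) (nat_lit 81) (nat_lit 5) (nat_lit 271) (nat_lit 263) (nat_lit 186)) (XT.nd (nat_lit 78) (nat_lit 0) (nat_lit 0) (XT.lf (nat_lit 0) (nat_lit 6322926033) (nat_lit 684) (nat_lit 1237356979) (nat_lit 760) (nat_lit 8537539863) (nat_lit 71) (nat_lit 5) (nat_lit 80) (nat_lit 5) (nat_lit 81) (nat_lit 5) (nat_lit 272)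 (nat_lit 263) (nat_lit 185)) (XT.lf (nat_lit 76) (nat_lit 6211520316) (nat_lit 0) (nat_lit 1403304542) (nat_lit 760) (nat_lit 8916496732) (nat_lit 72) (nat_lit 5) (nat_lit 71) (nat_lit 5) (nat_lit 81) (nat_lit 5) (nat_lit 273) (nat_lit 263) (nat_lit 184)))))) (XT.nd (nat_lit 312) (nat_lit 760) (nat_lit 0) (XT.nd (nat_lit 156) (nat_lit 304) (nat_lit 0) (XT.nd (nat_lit 78) (nat_lit 684) (nat_lit 0) (XT.lf (nat_lit 0) (nat_lit 9055954570) (nat_lit 684) (nat_lit 3002694520) (nat_lit 76) (nat_lit 4923669752) (nat_lit 72) (nat_lit 5) (nat_lit 81) (nat_lit 5) (nat_lit 73) (nat_lit 5) (nat_lit 274) (nat_lit 263) (nat_lit 183)) (XT.lf (nat_lit 0) (nat_lit 4797794663) (nat_lit 684) (nat_lit 5854317755) (nat_lit 760) (nat_lit 6799657716) (nat_lit 63) (nat_lit 5) (nat_lit 72) (nat_lit 5) (nat_lit 73) (nat_lit 5) (nat_lit 275) (nat_lit 263) (nat_lit 182))) (XT.nd (nat_lit 78) (nat_lit 304) (nat_lit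 0) (XT.lf (nat_lit 0) (nat_lit 12375668066) (nat_lit 760) (nat_lit 4874352046) (nat_lit 76) (nat_lit 692344633) (nat_lit 63) (nat_lit 5) (nat_lit 73) (nat_lit 5) (nat_lit 64) (nat_lit 5) (nat_lit 276) (nat_lit 263) (nat_lit 181)) (XT.lf (nat_lit 0) (nat_lit 3290635239) (nat_lit 304) (nat_lit 11028396751) (nat_lit 380) (nat_lit 4131823426) (nat_lit 59) (nat_lit 5) (nat_lit 63) (nat_lit 5) (nat_lit 64) (nat_lit 5) (nat_lit 277) (nat_lit 263) (nat_lit 180)))) (XT.nd (nat_lit 156) (nat_lit 380) (nat_lit 0) (XT.nd (nat_lit 78) (nat_lit 380) (nat_lit 0) (XT.lf (nat_lit 0) (nat_lit 12020341746) (nat_lit 304) (nat_lit 4408507982) (nat_lit 380) (nat_lit 2552502190) (nat_lit 59) (nat_lit 5) (nat_lit 63) (nat_lit 5) (nat_lit 64) (nat_lit 5) (nat_lit 278) (nat_lit 263) (nat_lit 179)) (XT.lf (nat_lit 0) (nat_lit 1648393883) (nat_lit 380) (nat_lit 17048569382) (nat_lit 456) (nat_lit 838813141) (nat_lit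 54) (nat_lit 5) (nat_lit 59) (nat_lit 5) (nat_lit 60) (nat_lit 5) (nat_lit 279) (nat_lit 263) (nat_lit 178))) (XT.nd (nat_lit 78) (nat_lit 304) (nat_lit 0) (XT.lf (nat_lit 0) (nat_lit 1109446695) (nat_lit 456) (nat_lit 9284365441) (nat_lit 76) (nat_lit 9714417988) (nat_lit 53) (nat_lit 5) (nat_lit 59) (nat_lit 5) (nat_lit 54) (nat_lit 5) (nat_lit 280) (nat_lit 263) (nat_lit 177)) (XT.nd (nat_lit 78) (nat_lit 304) (nat_lit 0) (XT.lf (nat_lit 0) (nat_lit 3115062261) (nat_lit 456) (nat_lit 277402033) (nat_lit 76) (nat_lit 17316785559) (nat_lit 53) (nat_lit 5) (nat_lit 59) (nat_lit 5) (nat_lit 54) (nat_lit 5) (nat_lit 281) (nat_lit 263) (nat_lit 176)) (XT.lf (nat_lit 0) (nat_lit 5421753583) (nat_lit 380) (nat_lit 11926567375) (nat_lit 76) (nat_lit 3981995573) (nat_lit 49) (nat_lit 5) (nat_lit 54) (nat_lit 5) (nat_lit 50) (nat_lit 5) (nat_lit 282) (nat_lit 263) (nat_lit 175))))))))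
noncomputable def xc181 : XT := (XT.nd (nat_lit 1404) (nat_lit 912) (nat_lit 0) (XT.nd (nat_lit 702) (nat_lit 836) (nat_lit 0) (XT.nd (nat_lit 312) (nat_lit 532) (nat_lit 0) (XT.nd (nat_lit 156) (nat_lit 228) (nat_lit 0) (XT.nd (nat_lit 78) (nat_lit 304) (nat_lit 0) (XT.lf (nat_lit 0) (nat_lit 7893210822) (nat_lit 380) (nat_lit 2471543376) (nat_lit 76) (nat_lit 11615244788) (nat_lit 49) (nat_lit 5) (nat_lit 54) (nat_lit 5) (nat_lit 50) (nat_lit 5) (nat_lit 283) (nat_lit 263) (nat_lit 174)) (XT.lf (nat_lit 0) (nat_lit 7690726701) (nat_lit 304) (nat_lit 2907152043) (nat_lit 380) (nat_lit 12058837317) (nat_lit 45) (nat_lit 5) (nat_lit 49) (nat_lit 5) (nat_lit 50) (nat_lit 5) (nat_lit 284) (nat_lit 263) (nat_lit 173))) (XT.nd (nat_lit 78) (nat_lit 228) (nat_lit 0) (XT.lf (nat_lit 0) (nat_lit 13547050848) (nat_lit 380) (nat_lit 5007796692) (nat_lit 76) (nat_lit 4806988761) (nat_lit 45)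 (nat_lit 5) (nat_lit 50) (nat_lit 5) (nat_lit 46) (nat_lit 5) (nat_lit 285) (nat_lit 263) (nat_lit 172)) (XT.lf (nat_lit 0) (nat_lit 5567426395) (nat_lit 228) (nat_lit 11201180179) (nat_lit 304) (nat_lit 7327389107) (nat_lit 42) (nat_lit 5) (nat_lit 45) (nat_lit 5) (nat_lit 46) (nat_lit 5) (nat_lit 286) (nat_lit 263) (nat_lit 171)))) (XT.nd (nat_lit 156) (nat_lit 304) (nat_lit 0) (XT.nd (nat_lit 78) (nat_lit 228) (nat_lit 0) (XT.lf (nat_lit 0) (nat_lit 16834040720) (nat_lit 228) (nat_lit 3392636989) (nat_lit 304) (nat_lit 4636441419) (nat_lit 42) (nat_lit 5) (nat_lit 45) (nat_lit 5) (nat_lit 46) (nat_lit 5) (nat_lit 287) (nat_lit 263) (nat_lit 170)) (XT.lf (nat_lit 0) (nat_lit 3005398305) (nat_lit 228) (nat_lit 20965263942) (nat_lit 304) (nat_lit 1692312657) (nat_lit 39) (nat_lit 5) (nat_lit 42) (nat_lit 5) (nat_lit 43) (nat_lit 5) (nat_lit 288) (nat_lit 263) (nat_lit 169))) (XT.nd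 (nat_lit 78) (nat_lit 228) (nat_lit 0) (XT.lf (nat_lit 0) (nat_lit 1539202420) (nat_lit 304) (nat_lit 11716640610) (nat_lit 76) (nat_lit 13236664608) (nat_lit 38) (nat_lit 5) (nat_lit 42) (nat_lit 5) (nat_lit 39) (nat_lit 5) (nat_lit 289) (nat_lit 263) (nat_lit 168)) (XT.nd (nat_lit 78) (nat_lit 228) (nat_lit 0) (XT.lf (nat_lit 0) (nat_lit 4866977485) (nat_lit 304) (nat_lit 267141132) (nat_lit 76) (nat_lit 22228456419) (nat_lit 38) (nat_lit 5) (nat_lit 42) (nat_lit 5) (nat_lit 39) (nat_lit 5) (nat_lit 290) (nat_lit 263) (nat_lit 167)) (XT.lf (nat_lit 0) (nat_lit 8598585763) (nat_lit 304) (nat_lit 16190220644) (nat_lit 76) (nat_lit 3475489097) (nat_lit 35) (nat_lit 5) (nat_lit 39) (nat_lit 5) (nat_lit 36) (nat_lit 5) (nat_lit 291) (nat_lit 263) (nat_lit 166)))))) (XT.nd (nat_lit 312) (nat_lit 456) (nat_lit 0) (XT.nd (nat_lit 156) (nat_lit 152) (nat_lit 0) (XT.nd (nat_lit 78) (nat_lit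 228) (nat_lit 0) (XT.lf (nat_lit 0) (nat_lit 12597688408) (nat_lit 304) (nat_lit 4263930211) (nat_lit 76) (nat_lit 12345458556) (nat_lit 35) (nat_lit 5) (nat_lit 39) (nat_lit 5) (nat_lit 36) (nat_lit 5) (nat_lit 292) (nat_lit 263) (nat_lit 165)) (XT.lf (nat_lit 0) (nat_lit 8521471654) (nat_lit 228) (nat_lit 8400842150) (nat_lit 304) (nat_lit 13268425632) (nat_lit 32) (nat_lit 5) (nat_lit 35) (nat_lit 5) (nat_lit 36) (nat_lit 5) (nat_lit 293) (nat_lit 263) (nat_lit 164))) (XT.nd (nat_lit 78) (nat_lit 152) (nat_lit 0) (XT.lf (nat_lit 0) (nat_lit 21536794214) (nat_lit 304) (nat_lit 9144647375) (nat_lit 76) (nat_lit 538480970) (nat_lit 32) (nat_lit 5) (nat_lit 36) (nat_lit 5) (nat_lit 33) (nat_lit 5) (nat_lit 294) (nat_lit 263) (nat_lit 163)) (XT.lf (nat_lit 0) (nat_lit 3986431821) (nat_lit 152) (nat_lit 22588560785) (nat_lit 228) (nat_lit 5715940572) (nat_lit 30) (nat_lit 5) (nat_lit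 32) (nat_lit 5) (nat_lit 33) (nat_lit 5) (nat_lit 295) (nat_lit 263) (nat_lit 162)))) (XT.nd (nat_lit 156) (nat_lit 380) (nat_lit 0) (XT.nd (nat_lit 78) (nat_lit 76) (nat_lit 0) (XT.lf (nat_lit 0) (nat_lit 18082057819) (nat_lit 152) (nat_lit 13931131475) (nat_lit 228) (nat_lit 1394917792) (nat_lit 30) (nat_lit 5) (nat_lit 32) (nat_lit 5) (nat_lit 33) (nat_lit 5) (nat_lit 296) (nat_lit 263) (nat_lit 161)) (XT.lf (nat_lit 0) (nat_lit 3035008041) (nat_lit 228) (nat_lit 1757002391) (nat_lit 76) (nat_lit 29787020918) (nat_lit 29) (nat_lit 5) (nat_lit 32) (nat_lit 5) (nat_lit 30) (nat_lit 5) (nat_lit 297) (nat_lit 263) (nat_lit 160))) (XT.nd (nat_lit 78) (nat_lit 152) (nat_lit 0) (XT.lf (nat_lit 0) (nat_lit 7912868075) (nat_lit 304) (nat_lit 23005528213) (nat_lit 76) (nat_lit 4875311187) (nat_lit 26) (nat_lit 5) (nat_lit 30) (nat_lit 5) (nat_lit 27) (nat_lit 5) (nat_lit 298) (nat_lit 263)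 (nat_lit 159)) (XT.nd (nat_lit 78) (nat_lit 152) (nat_lit 0) (XT.lf (nat_lit 0) (nat_lit 13137278434) (nat_lit 304) (nat_lit 9034020923) (nat_lit 76) (nat_lit 14892699315) (nat_lit 26) (nat_lit 5) (nat_lit 30) (nat_lit 5) (nat_lit 27) (nat_lit 5) (nat_lit 299) (nat_lit 263) (nat_lit 158)) (XT.lf (nat_lit 0) (nat_lit 5813594873) (nat_lit 152) (nat_lit 12894229796) (nat_lit 228) (nat_lit 19685747452) (nat_lit 24) (nat_lit 5) (nat_lit 26) (nat_lit 5) (nat_lit 27) (nat_lit 5) (nat_lit 300) (nat_lit 263) (nat_lit 157))))))) (XT.nd (nat_lit 702) (nat_lit 380) (nat_lit 0) (XT.nd (nat_lit 312) (nat_lit 304) (nat_lit 0) (XT.nd (nat_lit 156) (nat_lit 228) (nat_lit 0) (XT.nd (nat_lit 78) (nat_lit 0) (nat_lit 0) (XT.lf (nat_lit 0) (nat_lit 21708831781) (nat_lit 152) (nat_lit 2995358271) (nat_lit 228) (nat_lit 15078082416) (nat_lit 24) (nat_lit 5) (nat_lit 26) (nat_lit 5) (nat_lit 27) (nat_lit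 5) (nat_lit 301) (nat_lit 263) (nat_lit 156)) (XT.lf (nat_lit 0) (nat_lit 31110412174) (nat_lit 228) (nat_lit 2965332119) (nat_lit 76) (nat_lit 7159173824) (nat_lit 24) (nat_lit 5) (nat_lit 27) (nat_lit 5) (nat_lit 25) (nat_lit 5) (nat_lit 302) (nat_lit 263) (nat_lit 155))) (XT.nd (nat_lit 78) (nat_lit 76) (nat_lit 0) (XT.lf (nat_lit 0) (nat_lit 13265814974) (nat_lit 152) (nat_lit 24822139615) (nat_lit 228) (nat_lit 4659702626) (nat_lit 22) (nat_lit 5) (nat_lit 24) (nat_lit 5) (nat_lit 25) (nat_lit 5) (nat_lit 303) (nat_lit 263) (nat_lit 154)) (XT.lf (nat_lit 0) (nat_lit 1089691721) (nat_lit 228) (nat_lit 13947619147) (nat_lit 76) (nat_lit 29295597923) (nat_lit 21) (nat_lit 5) (nat_lit 24) (nat_lit 5) (nat_lit 22) (nat_lit 5) (nat_lit 304) (nat_lit 263) (nat_lit 153)))) (XT.nd (nat_lit 156) (nat_lit 152) (nat_lit 0) (XT.nd (nat_lit 78) (nat_lit 0) (nat_lit 0) (XT.lf (nat_lit 0) (nat_lit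 2354763467) (nat_lit 152) (nat_lit 4647028693) (nat_lit 228) (nat_lit 38990229756) (nat_lit 19) (nat_lit 5) (nat_lit 21) (nat_lit 5) (nat_lit 22) (nat_lit 5) (nat_lit 305) (nat_lit 263) (nat_lit 152)) (XT.lf (nat_lit 0) (nat_lit 13542506049) (nat_lit 228) (nat_lit 27875055195) (nat_lit 76) (nat_lit 6299888595) (nat_lit 19) (nat_lit 5) (nat_lit 22) (nat_lit 5) (nat_lit 20) (nat_lit 5) (nat_lit 306) (nat_lit 263) (nat_lit 151))) (XT.nd (nat_lit 78) (nat_lit 152) (nat_lit 0) (XT.lf (nat_lit 0) (nat_lit 20481814627) (nat_lit 228) (nat_lit 11408178190) (nat_lit 76) (nat_lit 17635587502) (nat_lit 19) (nat_lit 5) (nat_lit 22) (nat_lit 5) (nat_lit 20) (nat_lit 5) (nat_lit 307) (nat_lit 263) (nat_lit 150)) (XT.nd (nat_lit 78) (nat_lit 0) (nat_lit 0) (XT.lf (nat_lit 0) (nat_lit 6069390972) (nat_lit 152) (nat_lit 21789056146) (nat_lit 228) (nat_lit 23561160955) (nat_lit 17) (nat_lit 5) (nat_lit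 19) (nat_lit 5) (nat_lit 20) (nat_lit 5) (nat_lit 308) (nat_lit 263) (nat_lit 149)) (XT.lf (nat_lit 0) (nat_lit 24810106125) (nat_lit 152) (nat_lit 10982709869) (nat_lit 228) (nat_lit 17606084247) (nat_lit 17) (nat_lit 5) (nat_lit 19) (nat_lit 5) (nat_lit 20) (nat_lit 5) (nat_lit 309) (nat_lit 263) (nat_lit 148)))))) (XT.nd (nat_lit 312) (nat_lit 228) (nat_lit 0) (XT.nd (nat_lit 156) (nat_lit 76) (nat_lit 0) (XT.nd (nat_lit 78) (nat_lit 76) (nat_lit 0) (XT.lf (nat_lit 0) (nat_lit 44125454893) (nat_lit 228) (nat_lit 11001632597) (nat_lit 76) (nat_lit 349999816) (nat_lit 17) (nat_lit 5) (nat_lit 20) (nat_lit 5) (nat_lit 18) (nat_lit 4) (nat_lit 310) (nat_lit 263) (nat_lit 147)) (XT.lf (nat_lit 0) (nat_lit 7519169352) (nat_lit 76) (nat_lit 45649062059) (nat_lit 152) (nat_lit 4476284526) (nat_lit 16) (nat_lit 5) (nat_lit 17) (nat_lit 5) (nat_lit 18) (nat_lit 4) (nat_lit 311) (nat_lit 263)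 (nat_lit 146))) (XT.nd (nat_lit 78) (nat_lit 0) (nat_lit 0) (XT.lf (nat_lit 0) (nat_lit 2840501471) (nat_lit 152) (nat_lit 32615282181) (nat_lit 76) (nat_lit 24453125059) (nat_lit 15) (nat_lit 5) (nat_lit 17) (nat_lit 5) (nat_lit 16) (nat_lit 5) (nat_lit 312) (nat_lit 263) (nat_lit 145)) (XT.lf (nat_lit 0) (nat_lit 10368966698) (nat_lit 152) (nat_lit 14309160701) (nat_lit 76) (nat_lit 37604917490) (nat_lit 15) (nat_lit 5) (nat_lit 17) (nat_lit 5) (nat_lit 16) (nat_lit 5) (nat_lit 313) (nat_lit 263) (nat_lit 144)))) (XT.nd (nat_lit 156) (nat_lit 76) (nat_lit 0) (XT.nd (nat_lit 78) (nat_lit 0) (nat_lit 0) (XT.lf (nat_lit 0) (nat_lit 5068721959) (nat_lit 152) (nat_lit 13280720127) (nat_lit 228) (nat_lit 46422672612) (nat_lit 13) (nat_lit 5) (nat_lit 15) (nat_lit 5) (nat_lit 16) (nat_lit 5) (nat_lit 314) (nat_lit 263) (nat_lit 143)) (XT.lf (nat_lit 0) (nat_lit 25906598009) (nat_lit 152)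 (nat_lit 1061206071) (nat_lit 228) (nat_lit 40405896648) (nat_lit 13) (nat_lit 5) (nat_lit 15) (nat_lit 5) (nat_lit 16) (nat_lit 5) (nat_lit 315) (nat_lit 263) (nat_lit 142))) (XT.nd (nat_lit 78) (nat_lit 76) (nat_lit 0) (XT.lf (nat_lit 0) (nat_lit 36197498273) (nat_lit 228) (nat_lit 22508299513) (nat_lit 76) (nat_lit 11390553159) (nat_lit 13) (nat_lit 5) (nat_lit 16) (nat_lit 5) (nat_lit 14) (nat_lit 4) (nat_lit 316) (nat_lit 263) (nat_lit 141)) (XT.nd (nat_lit 78) (nat_lit 76) (nat_lit 0) (XT.lf (nat_lit 0) (nat_lit 45902895519) (nat_lit 228) (nat_lit 2624238505) (nat_lit 76) (nat_lit 24427294060) (nat_lit 13) (nat_lit 5) (nat_lit 16) (nat_lit 5) (nat_lit 14) (nat_lit 4) (nat_lit 317) (nat_lit 263) (nat_lit 140)) (XT.lf (nat_lit 0) (nat_lit 18852385788) (nat_lit 76) (nat_lit 37532488292) (nat_lit 152) (nat_lit 19555974498) (nat_lit 12) (nat_lit 5) (nat_lit 13) (nat_lit 5) (nat_lit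 14) (nat_lit 4) (nat_lit 318) (nat_lit 263) (nat_lit 139))))))))
noncomputable def xc182 : XT := (XT.nd (nat_lit 1404) (nat_lit 228) (nat_lit 0) (XT.nd (nat_lit 702) (nat_lit 228) (nat_lit 0) (XT.nd (nat_lit 312) (nat_lit 76) (nat_lit 0) (XT.nd (nat_lit 156) (nat_lit 228) (nat_lit 0) (XT.nd (nat_lit 78) (nat_lit 0) (nat_lit 0) (XT.lf (nat_lit 0) (nat_lit 41488996279) (nat_lit 76) (nat_lit 25943437742) (nat_lit 152) (nat_lit 11642086786) (nat_lit 12) (nat_lit 5) (nat_lit 13) (nat_lit 5) (nat_lit 14) (nat_lit 4) (nat_lit 319) (nat_lit 263) (nat_lit 138)) (XT.lf (nat_lit 0) (nat_lit 65252720481) (nat_lit 76) (nat_lit 13776832146) (nat_lit 152) (nat_lit 3335469586) (nat_lit 12) (nat_lit 5) (nat_lit 13) (nat_lit 5) (nat_lit 14) (nat_lit 4) (nat_lit 320) (nat_lit 263) (nat_lit 137))) (XT.nd (nat_lit 78) (nat_lit 0) (nat_lit 0) (XT.lf (nat_lit 0) (nat_lit 4437939194) (nat_lit 152) (nat_lit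 842693659) (nat_lit 228) (nat_lit 80531887343) (nat_lit 9) (nat_lit 5) (nat_lit 11) (nat_lit 5) (nat_lit 12) (nat_lit 5) (nat_lit 321) (nat_lit 263) (nat_lit 136)) (XT.lf (nat_lit 0) (nat_lit 14706178678) (nat_lit 228) (nat_lit 62021040875) (nat_lit 76) (nat_lit 12677906913) (nat_lit 9) (nat_lit 5) (nat_lit 12) (nat_lit 5) (nat_lit 10) (nat_lit 4) (nat_lit 322) (nat_lit 263) (nat_lit 135)))) (XT.nd (nat_lit 156) (nat_lit 76) (nat_lit 0) (XT.nd (nat_lit 78) (nat_lit 0) (nat_lit 0) (XT.lf (nat_lit 0) (nat_lit 24614242778) (nat_lit 228) (nat_lit 41718040023) (nat_lit 76) (nat_lit 26844521983) (nat_lit 9) (nat_lit 5) (nat_lit 12) (nat_lit 5) (nat_lit 10) (nat_lit 4) (nat_lit 323) (nat_lit 263) (nat_lit 134)) (XT.lf (nat_lit 0) (nat_lit 35015258972) (nat_lit 228) (nat_lit 20404081161) (nat_lit 76) (nat_lit 41717853046) (nat_lit 9) (nat_lit 5) (nat_lit 12) (nat_lit 5) (nat_lit 10) (nat_lit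 4) (nat_lit 324) (nat_lit 263) (nat_lit 133))) (XT.nd (nat_lit 78) (nat_lit 0) (nat_lit 0) (XT.lf (nat_lit 0) (nat_lit 2036772678) (nat_lit 76) (nat_lit 43929018637) (nat_lit 152) (nat_lit 55328339846) (nat_lit 8) (nat_lit 5) (nat_lit 9) (nat_lit 5) (nat_lit 10) (nat_lit 4) (nat_lit 325) (nat_lit 263) (nat_lit 132)) (XT.nd (nat_lit 78) (nat_lit 0) (nat_lit 0) (XT.lf (nat_lit 0) (nat_lit 26304124818) (nat_lit 76) (nat_lit 31502993889) (nat_lit 152) (nat_lit 47834637183) (nat_lit 8) (nat_lit 5) (nat_lit 9) (nat_lit 5) (nat_lit 10) (nat_lit 4) (nat_lit 326) (nat_lit 263) (nat_lit 131)) (XT.lf (nat_lit 0) (nat_lit 51781103595) (nat_lit 76) (nat_lit 18457233104) (nat_lit 152) (nat_lit 39968537058) (nat_lit 8) (nat_lit 5) (nat_lit 9) (nat_lit 5) (nat_lit 10) (nat_lit 4) (nat_lit 327) (nat_lit 263) (nat_lit 130)))))) (XT.nd (nat_lit 312) (nat_lit 152) (nat_lit 0) (XT.nd (nat_lit 156) (nat_lit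 76) (nat_lit 0) (XT.nd (nat_lit 78) (nat_lit 0) (nat_lit 0) (XT.lf (nat_lit 0) (nat_lit 78528368483) (nat_lit 76) (nat_lit 4760674947) (nat_lit 152) (nat_lit 31711310661) (nat_lit 8) (nat_lit 5) (nat_lit 9) (nat_lit 5) (nat_lit 10) (nat_lit 4) (nat_lit 328) (nat_lit 263) (nat_lit 129)) (XT.lf (nat_lit 0) (nat_lit 97140496111) (nat_lit 152) (nat_lit 13574190592) (nat_lit 0) (nat_lit 9311414034) (nat_lit 8) (nat_lit 5) (nat_lit 10) (nat_lit 4) (nat_lit 8) (nat_lit 4) (nat_lit 329) (nat_lit 263) (nat_lit 128))) (XT.nd (nat_lit 78) (nat_lit 0) (nat_lit 0) (XT.lf (nat_lit 0) (nat_lit 10730589041) (nat_lit 76) (nat_lit 101197610183) (nat_lit 76) (nat_lit 13362754291) (nat_lit 7) (nat_lit 4) (nat_lit 8) (nat_lit 5) (nat_lit 8) (nat_lit 4) (nat_lit 330) (nat_lit 263) (nat_lit 127)) (XT.lf (nat_lit 0) (nat_lit 36718619097) (nat_lit 76) (nat_lit 90964692965) (nat_lit 76) (nat_lit 3124338202)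 (nat_lit 7) (nat_lit 4) (nat_lit 8) (nat_lit 5) (nat_lit 8) (nat_lit 4) (nat_lit 331) (nat_lit 263) (nat_lit 126)))) (XT.nd (nat_lit 156) (nat_lit 76) (nat_lit 0) (XT.nd (nat_lit 78) (nat_lit 0) (nat_lit 0) (XT.lf (nat_lit 0) (nat_lit 7380115390) (nat_lit 152) (nat_lit 72716355231) (nat_lit 76) (nat_lit 56497850580) (nat_lit 6) (nat_lit 5) (nat_lit 8) (nat_lit 5) (nat_lit 7) (nat_lit 4) (nat_lit 332) (nat_lit 263) (nat_lit 125)) (XT.lf (nat_lit 0) (nat_lit 18303075587) (nat_lit 152) (nat_lit 50329274465) (nat_lit 76) (nat_lit 74035502804) (nat_lit 6) (nat_lit 5) (nat_lit 8) (nat_lit 5) (nat_lit 7) (nat_lit 4) (nat_lit 333) (nat_lit 263) (nat_lit 124))) (XT.nd (nat_lit 78) (nat_lit 76) (nat_lit 0) (XT.lf (nat_lit 0) (nat_lit 29770547770) (nat_lit 152) (nat_lit 26825706622) (nat_lit 76) (nat_lit 92448890611) (nat_lit 6) (nat_lit 5) (nat_lit 8) (nat_lit 5) (nat_lit 7) (nat_lit 4) (nat_lit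 334) (nat_lit 263) (nat_lit 123)) (XT.nd (nat_lit 78) (nat_lit 76) (nat_lit 0) (XT.lf (nat_lit 0) (nat_lit 41809835444) (nat_lit 152) (nat_lit 2149690825) (nat_lit 76) (nat_lit 111781855401) (nat_lit 6) (nat_lit 5) (nat_lit 8) (nat_lit 5) (nat_lit 7) (nat_lit 4) (nat_lit 335) (nat_lit 263) (nat_lit 122)) (XT.lf (nat_lit 0) (nat_lit 24543056423) (nat_lit 76) (nat_lit 30289733049) (nat_lit 152) (nat_lit 107920557512) (nat_lit 5) (nat_lit 5) (nat_lit 6) (nat_lit 5) (nat_lit 7) (nat_lit 4) (nat_lit 336) (nat_lit 263) (nat_lit 121))))))) (XT.nd (nat_lit 702) (nat_lit 152) (nat_lit 0) (XT.nd (nat_lit 312) (nat_lit 76) (nat_lit 0) (XT.nd (nat_lit 156) (nat_lit 0) (nat_lit 0) (XT.nd (nat_lit 78) (nat_lit 0) (nat_lit 0) (XT.lf (nat_lit 0) (nat_lit 52642514970) (nat_lit 76) (nat_lit 15899329082) (nat_lit 152) (nat_lit 101572320690) (nat_lit 5) (nat_lit 5) (nat_lit 6) (nat_lit 5) (nat_lit 7)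 (nat_lit 4) (nat_lit 337) (nat_lit 263) (nat_lit 120)) (XT.lf (nat_lit 0) (nat_lit 82144509801) (nat_lit 76) (nat_lit 790457556) (nat_lit 152) (nat_lit 94908126965) (nat_lit 5) (nat_lit 5) (nat_lit 6) (nat_lit 5) (nat_lit 7) (nat_lit 4) (nat_lit 338) (nat_lit 263) (nat_lit 119))) (XT.nd (nat_lit 78) (nat_lit 0) (nat_lit 0) (XT.lf (nat_lit 0) (nat_lit 98281758238) (nat_lit 152) (nat_lit 73074583685) (nat_lit 0) (nat_lit 14590429538) (nat_lit 5) (nat_lit 5) (nat_lit 7) (nat_lit 4) (nat_lit 5) (nat_lit 4) (nat_lit 339) (nat_lit 263) (nat_lit 118)) (XT.lf (nat_lit 0) (nat_lit 114407576744) (nat_lit 152) (nat_lit 49334600668) (nat_lit 0) (nat_lit 30712872215) (nat_lit 5) (nat_lit 5) (nat_lit 7) (nat_lit 4) (nat_lit 5) (nat_lit 4) (nat_lit 340) (nat_lit 263) (nat_lit 117)))) (XT.nd (nat_lit 156) (nat_lit 0) (nat_lit 0) (XT.nd (nat_lit 78) (nat_lit 76) (nat_lit 0) (XT.lf (nat_lit 0) (nat_lit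 131338476424) (nat_lit 152) (nat_lit 24409770443) (nat_lit 0) (nat_lit 47640556819) (nat_lit 5) (nat_lit 5) (nat_lit 7) (nat_lit 4) (nat_lit 5) (nat_lit 4) (nat_lit 341) (nat_lit 263) (nat_lit 116)) (XT.lf (nat_lit 0) (nat_lit 1817420633) (nat_lit 76) (nat_lit 147325723340) (nat_lit 76) (nat_lit 63624741758) (nat_lit 4) (nat_lit 4) (nat_lit 5) (nat_lit 5) (nat_lit 5) (nat_lit 4) (nat_lit 342) (nat_lit 263) (nat_lit 115))) (XT.nd (nat_lit 78) (nat_lit 0) (nat_lit 0) (XT.lf (nat_lit 0) (nat_lit 30201406961) (nat_lit 76) (nat_lit 138048900450) (nat_lit 76) (nat_lit 54345002700) (nat_lit 4) (nat_lit 4) (nat_lit 5) (nat_lit 5) (nat_lit 5) (nat_lit 4) (nat_lit 343) (nat_lit 263) (nat_lit 114)) (XT.nd (nat_lit 78) (nat_lit 0) (nat_lit 0) (XT.lf (nat_lit 0) (nat_lit 60002672212) (nat_lit 76) (nat_lit 128309081798) (nat_lit 76) (nat_lit 44602406744) (nat_lit 4) (nat_lit 4) (nat_lit 5) (nat_lit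 5) (nat_lit 5) (nat_lit 4) (nat_lit 344) (nat_lit 263) (nat_lit 113)) (XT.lf (nat_lit 0) (nat_lit 91292171779) (nat_lit 76) (nat_lit 118083077340) (nat_lit 76) (nat_lit 34373757235) (nat_lit 4) (nat_lit 4) (nat_lit 5) (nat_lit 5) (nat_lit 5) (nat_lit 4) (nat_lit 345) (nat_lit 263) (nat_lit 112)))))) (XT.nd (nat_lit 312) (nat_lit 76) (nat_lit 0) (XT.nd (nat_lit 156) (nat_lit 76) (nat_lit 0) (XT.nd (nat_lit 78) (nat_lit 0) (nat_lit 0) (XT.lf (nat_lit 0) (nat_lit 124144404471) (nat_lit 76) (nat_lit 107346539445) (nat_lit 76) (nat_lit 23634700244) (nat_lit 4) (nat_lit 4) (nat_lit 5) (nat_lit 5) (nat_lit 5) (nat_lit 4) (nat_lit 346) (nat_lit 263) (nat_lit 111)) (XT.lf (nat_lit 0) (nat_lit 158637589888) (nat_lit 76) (nat_lit 96073904929) (nat_lit 76) (nat_lit 12359666589) (nat_lit 4) (nat_lit 4) (nat_lit 5) (nat_lit 5) (nat_lit 5) (nat_lit 4) (nat_lit 347) (nat_lit 263) (nat_lit 110))) (XT.nd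 (nat_lit 78) (nat_lit 76) (nat_lit 0) (XT.lf (nat_lit 0) (nat_lit 194853854664) (nat_lit 76) (nat_lit 84238334185) (nat_lit 76) (nat_lit 521810950) (nat_lit 4) (nat_lit 4) (nat_lit 5) (nat_lit 5) (nat_lit 5) (nat_lit 4) (nat_lit 348) (nat_lit 263) (nat_lit 109)) (XT.lf (nat_lit 0) (nat_lit 11525952014) (nat_lit 152) (nat_lit 60090497694) (nat_lit 76) (nat_lit 221158278411) (nat_lit 3) (nat_lit 5) (nat_lit 5) (nat_lit 5) (nat_lit 4) (nat_lit 4) (nat_lit 349) (nat_lit 263) (nat_lit 108)))) (XT.nd (nat_lit 156) (nat_lit 76) (nat_lit 0) (XT.nd (nat_lit 78) (nat_lit 0) (nat_lit 0) (XT.lf (nat_lit 0) (nat_lit 24157750583) (nat_lit 152) (nat_lit 34197383094) (nat_lit 76) (nat_lit 248237973196) (nat_lit 3) (nat_lit 5) (nat_lit 5) (nat_lit 5) (nat_lit 4) (nat_lit 4) (nat_lit 350) (nat_lit 263) (nat_lit 107)) (XT.lf (nat_lit 0) (nat_lit 37420361675) (nat_lit 152) (nat_lit 7011004133) (nat_lit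 76) (nat_lit 276671078504) (nat_lit 3) (nat_lit 5) (nat_lit 5) (nat_lit 5) (nat_lit 4) (nat_lit 4) (nat_lit 351) (nat_lit 263) (nat_lit 106))) (XT.nd (nat_lit 78) (nat_lit 0) (nat_lit 0) (XT.lf (nat_lit 0) (nat_lit 22245359077) (nat_lit 76) (nat_lit 29447316256) (nat_lit 152) (nat_lit 284627245523) (nat_lit 2) (nat_lit 5) (nat_lit 3) (nat_lit 5) (nat_lit 4) (nat_lit 4) (nat_lit 352) (nat_lit 263) (nat_lit 105)) (XT.nd (nat_lit 78) (nat_lit 0) (nat_lit 0) (XT.lf (nat_lit 0) (nat_lit 53206642942) (nat_lit 76) (nat_lit 13589970996) (nat_lit 152) (nat_lit 285495757622) (nat_lit 2) (nat_lit 5) (nat_lit 3) (nat_lit 5) (nat_lit 4) (nat_lit 4) (nat_lit 353) (nat_lit 263) (nat_lit 104)) (XT.lf (nat_lit 0) (nat_lit 82702828883) (nat_lit 152) (nat_lit 283396501107) (nat_lit 0) (nat_lit 2961761593) (nat_lit 2) (nat_lit 5) (nat_lit 4) (nat_lit 4) (nat_lit 2) (nat_lit 4) (nat_lit 354) (nat_lit 263)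 (nat_lit 103))))))))
noncomputable def xc183 : XT := (XT.nd (nat_lit 31590) (nat_lit 0) (nat_lit 2128) (XT.nd (nat_lit 30888) (nat_lit 0) (nat_lit 4332) (XT.nd (nat_lit 30498) (nat_lit 0) (nat_lit 5016) (XT.nd (nat_lit 156) (nat_lit 0) (nat_lit 0) (XT.nd (nat_lit 78) (nat_lit 0) (nat_lit 0) (XT.lf (nat_lit 0) (nat_lit 99626474761) (nat_lit 152) (nat_lit 267146806594) (nat_lit 0) (nat_lit 19883860964) (nat_lit 2) (nat_lit 5) (nat_lit 4) (nat_lit 4) (nat_lit 2) (nat_lit 4) (nat_lit 355) (nat_lit 263) (nat_lit 102)) (XT.lf (nat_lit 0) (nat_lit 117395668433) (nat_lit 152) (nat_lit 250085777797) (nat_lit 0) (nat_lit 37651581773) (nat_lit 2) (nat_lit 5) (nat_lit 4) (nat_lit 4) (nat_lit 2) (nat_lit 4) (nat_lit 356) (nat_lit 263) (nat_lit 101))) (XT.nd (nat_lit 30264) (nat_lit 0) (nat_lit 5016) (XT.lf (nat_lit 0) (nat_lit 136052717504) (nat_lit 152) (nat_lit 232172793219) (nat_lit 0) (nat_lit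 56307228116) (nat_lit 2) (nat_lit 5) (nat_lit 4) (nat_lit 4) (nat_lit 2) (nat_lit 4) (nat_lit 357) (nat_lit 263) (nat_lit 100)) (XT.lf (nat_lit 0) (nat_lit 78598297) (nat_lit 0) (nat_lit 78598297) (nat_lit 684) (nat_lit 6593598114) (nat_lit 68) (nat_lit 5) (nat_lit 68) (nat_lit 3) (nat_lit 77) (nat_lit 3) (nat_lit 264) (nat_lit 264) (nat_lit 192)))) (XT.nd (nat_lit 156) (nat_lit 0) (nat_lit 76) (XT.nd (nat_lit 78) (nat_lit 0) (nat_lit 0) (XT.lf (nat_lit 0) (nat_lit 747226966) (nat_lit 684) (nat_lit 7742268044) (nat_lit 760) (nat_lit 5327167688) (nat_lit 68) (nat_lit 5) (nat_lit 77) (nat_lit 3) (nat_lit 78) (nat_lit 5) (nat_lit 265) (nat_lit 264) (nat_lit 191)) (XT.lf (nat_lit 0) (nat_lit 1182745296) (nat_lit 684) (nat_lit 1874798353) (nat_lit 760) (nat_lit 11090971801) (nat_lit 68) (nat_lit 5) (nat_lit 77) (nat_lit 3) (nat_lit 78) (nat_lit 5) (nat_lit 266) (nat_lit 264) (nat_lit 190)))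 (XT.nd (nat_lit 78) (nat_lit 0) (nat_lit 0) (XT.lf (nat_lit 0) (nat_lit 1731054229) (nat_lit 684) (nat_lit 10121421168) (nat_lit 760) (nat_lit 2640008948) (nat_lit 69) (nat_lit 5) (nat_lit 78) (nat_lit 5) (nat_lit 79) (nat_lit 5) (nat_lit 267) (nat_lit 264) (nat_lit 189)) (XT.nd (nat_lit 78) (nat_lit 0) (nat_lit 0) (XT.lf (nat_lit 0) (nat_lit 2369592537) (nat_lit 684) (nat_lit 3921004441) (nat_lit 760) (nat_lit 8559984717) (nat_lit 69) (nat_lit 5) (nat_lit 78) (nat_lit 5) (nat_lit 79) (nat_lit 5) (nat_lit 268) (nat_lit 264) (nat_lit 188)) (XT.lf (nat_lit 76) (nat_lit 2662652075) (nat_lit 0) (nat_lit 400328710) (nat_lit 760) (nat_lit 12162524312) (nat_lit 70) (nat_lit 5) (nat_lit 69) (nat_lit 5) (nat_lit 79) (nat_lit 5) (nat_lit 269) (nat_lit 264) (nat_lit 187)))))) (XT.nd (nat_lit 312) (nat_lit 836) (nat_lit 0) (XT.nd (nat_lit 156) (nat_lit 0) (nat_lit 76) (XT.nd (nat_lit 78) (nat_lit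 0) (nat_lit 0) (XT.lf (nat_lit 0) (nat_lit 3930993679) (nat_lit 684) (nat_lit 6008500860) (nat_lit 760) (nat_lit 5672746500) (nat_lit 70) (nat_lit 5) (nat_lit 79) (nat_lit 5) (nat_lit 80) (nat_lit 5) (nat_lit 270) (nat_lit 264) (nat_lit 186)) (XT.lf (nat_lit 76) (nat_lit 883014680) (nat_lit 0) (nat_lit 3962742600) (nat_lit 760) (nat_lit 11172450073) (nat_lit 71) (nat_lit 5) (nat_lit 70) (nat_lit 5) (nat_lit 80) (nat_lit 5) (nat_lit 271) (nat_lit 264) (nat_lit 185))) (XT.nd (nat_lit 78) (nat_lit 0) (nat_lit 0) (XT.lf (nat_lit 0) (nat_lit 5929483793) (nat_lit 684) (nat_lit 8162455073) (nat_lit 760) (nat_lit 2346430047) (nat_lit 71) (nat_lit 5) (nat_lit 80) (nat_lit 5) (nat_lit 81) (nat_lit 5) (nat_lit 272) (nat_lit 264) (nat_lit 184)) (XT.lf (nat_lit 0) (nat_lit 7116826001) (nat_lit 684) (nat_lit 918424870) (nat_lit 760) (nat_lit 8841871612) (nat_lit 71) (nat_lit 5) (nat_lit 80) (nat_lit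 5) (nat_lit 81) (nat_lit 5) (nat_lit 273) (nat_lit 264) (nat_lit 183)))) (XT.nd (nat_lit 156) (nat_lit 912) (nat_lit 0) (XT.nd (nat_lit 78) (nat_lit 0) (nat_lit 76) (XT.lf (nat_lit 76) (nat_lit 6896754355) (nat_lit 0) (nat_lit 1559664700) (nat_lit 760) (nat_lit 8876803251) (nat_lit 72) (nat_lit 5) (nat_lit 71) (nat_lit 5) (nat_lit 81) (nat_lit 5) (nat_lit 274) (nat_lit 264) (nat_lit 182)) (XT.lf (nat_lit 0) (nat_lit 9946378212) (nat_lit 684) (nat_lit 2771239597) (nat_lit 76) (nat_lit 5090390235) (nat_lit 72) (nat_lit 5) (nat_lit 81) (nat_lit 5) (nat_lit 73) (nat_lit 5) (nat_lit 275) (nat_lit 264) (nat_lit 181))) (XT.nd (nat_lit 78) (nat_lit 304) (nat_lit 0) (XT.lf (nat_lit 0) (nat_lit 5413119373) (nat_lit 684) (nat_lit 6194246842) (nat_lit 760) (nat_lit 6694388165) (nat_lit 63) (nat_lit 5) (nat_lit 72) (nat_lit 5) (nat_lit 73) (nat_lit 5) (nat_lit 276) (nat_lit 264) (nat_lit 180))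 (XT.nd (nat_lit 78) (nat_lit 304) (nat_lit 0) (XT.lf (nat_lit 0) (nat_lit 13396271513) (nat_lit 760) (nat_lit 4738282632) (nat_lit 76) (nat_lit 683436072) (nat_lit 63) (nat_lit 5) (nat_lit 73) (nat_lit 5) (nat_lit 64) (nat_lit 5) (nat_lit 277) (nat_lit 264) (nat_lit 179)) (XT.lf (nat_lit 0) (nat_lit 3828828421) (nat_lit 304) (nat_lit 11594674828) (nat_lit 380) (nat_lit 3929133944) (nat_lit 59) (nat_lit 5) (nat_lit 63) (nat_lit 5) (nat_lit 64) (nat_lit 5) (nat_lit 278) (nat_lit 264) (nat_lit 178))))))) (XT.nd (nat_lit 702) (nat_lit 912) (nat_lit 0) (XT.nd (nat_lit 312) (nat_lit 532) (nat_lit 0) (XT.nd (nat_lit 156) (nat_lit 380) (nat_lit 0) (XT.nd (nat_lit 78) (nat_lit 380) (nat_lit 0) (XT.lf (nat_lit 0) (nat_lit 12977226852) (nat_lit 304) (nat_lit 4643084085) (nat_lit 380) (nat_lit 2290336201) (nat_lit 59) (nat_lit 5) (nat_lit 63) (nat_lit 5) (nat_lit 64) (nat_lit 5) (nat_lit 279)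 (nat_lit 264) (nat_lit 177)) (XT.lf (nat_lit 0) (nat_lit 2100612624) (nat_lit 380) (nat_lit 17889160775) (nat_lit 456) (nat_lit 503682833) (nat_lit 54) (nat_lit 5) (nat_lit 59) (nat_lit 5) (nat_lit 60) (nat_lit 5) (nat_lit 280) (nat_lit 264) (nat_lit 176))) (XT.nd (nat_lit 78) (nat_lit 304) (nat_lit 0) (XT.lf (nat_lit 0) (nat_lit 1512540305) (nat_lit 456) (nat_lit 9383801896) (nat_lit 76) (nat_lit 10198820046) (nat_lit 53) (nat_lit 5) (nat_lit 59) (nat_lit 5) (nat_lit 54) (nat_lit 5) (nat_lit 281) (nat_lit 264) (nat_lit 175)) (XT.lf (nat_lit 0) (nat_lit 57995331) (nat_lit 304) (nat_lit 3544793394) (nat_lit 380) (nat_lit 18124278937) (nat_lit 49) (nat_lit 5) (nat_lit 53) (nat_lit 5) (nat_lit 54) (nat_lit 5) (nat_lit 282) (nat_lit 264) (nat_lit 174)))) (XT.nd (nat_lit 156) (nat_lit 532) (nat_lit 0) (XT.nd (nat_lit 78) (nat_lit 0) (nat_lit 0) (XT.lf (nat_lit 0) (nat_lit 6013811085) (nat_lit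 380) (nat_lit 12164390224) (nat_lit 76) (nat_lit 4201586351) (nat_lit 49) (nat_lit 5) (nat_lit 54) (nat_lit 5) (nat_lit 50) (nat_lit 5) (nat_lit 283) (nat_lit 264) (nat_lit 173)) (XT.lf (nat_lit 0) (nat_lit 8593556908) (nat_lit 380) (nat_lit 2253686717) (nat_lit 76) (nat_lit 12215522264) (nat_lit 49) (nat_lit 5) (nat_lit 54) (nat_lit 5) (nat_lit 50) (nat_lit 5) (nat_lit 284) (nat_lit 264) (nat_lit 172))) (XT.nd (nat_lit 78) (nat_lit 228) (nat_lit 0) (XT.lf (nat_lit 0) (nat_lit 8411189867) (nat_lit 304) (nat_lit 3012956665) (nat_lit 380) (nat_lit 12349683052) (nat_lit 45) (nat_lit 5) (nat_lit 49) (nat_lit 5) (nat_lit 50) (nat_lit 5) (nat_lit 285) (nat_lit 264) (nat_lit 171)) (XT.nd (nat_lit 78) (nat_lit 228) (nat_lit 0) (XT.lf (nat_lit 0) (nat_lit 14507252327) (nat_lit 380) (nat_lit 4923870737) (nat_lit 76) (nat_lit 5083802045) (nat_lit 45) (nat_lit 5) (nat_lit 50) (nat_lit 5) (nat_lit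 46) (nat_lit 5) (nat_lit 286) (nat_lit 264) (nat_lit 170)) (XT.lf (nat_lit 0) (nat_lit 6174721314) (nat_lit 228) (nat_lit 11706830946) (nat_lit 304) (nat_lit 7404697854) (nat_lit 42) (nat_lit 5) (nat_lit 45) (nat_lit 5) (nat_lit 46) (nat_lit 5) (nat_lit 287) (nat_lit 264) (nat_lit 169)))))) (XT.nd (nat_lit 390) (nat_lit 380) (nat_lit 0) (XT.nd (nat_lit 156) (nat_lit 304) (nat_lit 0) (XT.nd (nat_lit 78) (nat_lit 228) (nat_lit 0) (XT.lf (nat_lit 0) (nat_lit 17989003327) (nat_lit 228) (nat_lit 3510451466) (nat_lit 304) (nat_lit 4592967578) (nat_lit 42) (nat_lit 5) (nat_lit 45) (nat_lit 5) (nat_lit 46) (nat_lit 5) (nat_lit 288) (nat_lit 264) (nat_lit 168)) (XT.lf (nat_lit 0) (nat_lit 3476709519) (nat_lit 228) (nat_lit 21947262207) (nat_lit 304) (nat_lit 1508669720) (nat_lit 39) (nat_lit 5) (nat_lit 42) (nat_lit 5) (nat_lit 43) (nat_lit 5) (nat_lit 289) (nat_lit 264) (nat_lit 167))) (XT.nd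 (nat_lit 78) (nat_lit 228) (nat_lit 0) (XT.lf (nat_lit 0) (nat_lit 1863469798) (nat_lit 304) (nat_lit 11987867657) (nat_lit 76) (nat_lit 13952755931) (nat_lit 38) (nat_lit 5) (nat_lit 42) (nat_lit 5) (nat_lit 39) (nat_lit 5) (nat_lit 290) (nat_lit 264) (nat_lit 166)) (XT.nd (nat_lit 78) (nat_lit 0) (nat_lit 0) (XT.lf (nat_lit 0) (nat_lit 19757984) (nat_lit 228) (nat_lit 5326407574) (nat_lit 304) (nat_lit 23372104106) (nat_lit 35) (nat_lit 5) (nat_lit 38) (nat_lit 5) (nat_lit 39) (nat_lit 5) (nat_lit 291) (nat_lit 264) (nat_lit 165)) (XT.lf (nat_lit 0) (nat_lit 9258461012) (nat_lit 304) (nat_lit 16693911537) (nat_lit 76) (nat_lit 3713028847) (nat_lit 35) (nat_lit 5) (nat_lit 39) (nat_lit 5) (nat_lit 36) (nat_lit 5) (nat_lit 292) (nat_lit 264) (nat_lit 164))))) (XT.nd (nat_lit 156) (nat_lit 152) (nat_lit 0) (XT.nd (nat_lit 78) (nat_lit 228) (nat_lit 0) (XT.lf (nat_lit 0) (nat_lit 13446568982)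 (nat_lit 304) (nat_lit 4185869447) (nat_lit 76) (nat_lit 13023460337) (nat_lit 35) (nat_lit 5) (nat_lit 39) (nat_lit 5) (nat_lit 36) (nat_lit 5) (nat_lit 293) (nat_lit 264) (nat_lit 163)) (XT.lf (nat_lit 0) (nat_lit 9234104814) (nat_lit 228) (nat_lit 8747366443) (nat_lit 304) (nat_lit 13707598337) (nat_lit 32) (nat_lit 5) (nat_lit 35) (nat_lit 5) (nat_lit 36) (nat_lit 5) (nat_lit 294) (nat_lit 264) (nat_lit 162))) (XT.nd (nat_lit 78) (nat_lit 152) (nat_lit 0) (XT.lf (nat_lit 0) (nat_lit 22817624003) (nat_lit 304) (nat_lit 9319385866) (nat_lit 76) (nat_lit 633181005) (nat_lit 32) (nat_lit 5) (nat_lit 36) (nat_lit 5) (nat_lit 33) (nat_lit 5) (nat_lit 295) (nat_lit 264) (nat_lit 161)) (XT.nd (nat_lit 78) (nat_lit 0) (nat_lit 0) (XT.lf (nat_lit 0) (nat_lit 4463690937) (nat_lit 152) (nat_lit 23638666948) (nat_lit 228) (nat_lit 5792688017) (nat_lit 30) (nat_lit 5) (nat_lit 32) (nat_lit 5)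 (nat_lit 33) (nat_lit 5) (nat_lit 296) (nat_lit 264) (nat_lit 160)) (XT.lf (nat_lit 0) (nat_lit 19250863114) (nat_lit 152) (nat_lit 14552143405) (nat_lit 228) (nat_lit 1265568840) (nat_lit 30) (nat_lit 5) (nat_lit 32) (nat_lit 5) (nat_lit 33) (nat_lit 5) (nat_lit 297) (nat_lit 264) (nat_lit 159))))))))
noncomputable def xc184 : XT := (XT.nd (nat_lit 1404) (nat_lit 532) (nat_lit 0) (XT.nd (nat_lit 702) (nat_lit 456) (nat_lit 0) (XT.nd (nat_lit 312) (nat_lit 380) (nat_lit 0) (XT.nd (nat_lit 156) (nat_lit 152) (nat_lit 0) (XT.nd (nat_lit 78) (nat_lit 228) (nat_lit 0) (XT.lf (nat_lit 0) (nat_lit 3370303741) (nat_lit 228) (nat_lit 1586251504) (nat_lit 76) (nat_lit 31341815765) (nat_lit 29) (nat_lit 5) (nat_lit 32) (nat_lit 5) (nat_lit 30) (nat_lit 5) (nat_lit 298) (nat_lit 264) (nat_lit 158)) (XT.lf (nat_lit 0) (nat_lit 8488470039) (nat_lit 304) (nat_lit 23893202935) (nat_lit 76) (nat_lit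 5192308001) (nat_lit 26) (nat_lit 5) (nat_lit 30) (nat_lit 5) (nat_lit 27) (nat_lit 5) (nat_lit 299) (nat_lit 264) (nat_lit 157))) (XT.nd (nat_lit 78) (nat_lit 152) (nat_lit 0) (XT.lf (nat_lit 0) (nat_lit 13965531461) (nat_lit 304) (nat_lit 9235625124) (nat_lit 76) (nat_lit 15707078333) (nat_lit 26) (nat_lit 5) (nat_lit 30) (nat_lit 5) (nat_lit 27) (nat_lit 5) (nat_lit 300) (nat_lit 264) (nat_lit 156)) (XT.lf (nat_lit 0) (nat_lit 6350337642) (nat_lit 152) (nat_lit 13459947713) (nat_lit 228) (nat_lit 20494236439) (nat_lit 24) (nat_lit 5) (nat_lit 26) (nat_lit 5) (nat_lit 27) (nat_lit 5) (nat_lit 301) (nat_lit 264) (nat_lit 155)))) (XT.nd (nat_lit 156) (nat_lit 380) (nat_lit 0) (XT.nd (nat_lit 78) (nat_lit 0) (nat_lit 0) (XT.lf (nat_lit 0) (nat_lit 23028619109) (nat_lit 152) (nat_lit 3069894210) (nat_lit 228) (nat_lit 15664559503) (nat_lit 24) (nat_lit 5) (nat_lit 26) (nat_lit 5) (nat_lit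 27) (nat_lit 5) (nat_lit 302) (nat_lit 264) (nat_lit 154)) (XT.lf (nat_lit 0) (nat_lit 32818588351) (nat_lit 228) (nat_lit 2883613557) (nat_lit 76) (nat_lit 7586488783) (nat_lit 24) (nat_lit 5) (nat_lit 27) (nat_lit 5) (nat_lit 25) (nat_lit 5) (nat_lit 303) (nat_lit 264) (nat_lit 153))) (XT.nd (nat_lit 78) (nat_lit 228) (nat_lit 0) (XT.lf (nat_lit 0) (nat_lit 14155381452) (nat_lit 152) (nat_lit 25985889920) (nat_lit 228) (nat_lit 4735998414) (nat_lit 22) (nat_lit 5) (nat_lit 24) (nat_lit 5) (nat_lit 25) (nat_lit 5) (nat_lit 304) (nat_lit 264) (nat_lit 152)) (XT.nd (nat_lit 78) (nat_lit 152) (nat_lit 0) (XT.lf (nat_lit 0) (nat_lit 1288628027) (nat_lit 228) (nat_lit 14424429001) (nat_lit 76) (nat_lit 30828980435) (nat_lit 21) (nat_lit 5) (nat_lit 24) (nat_lit 5) (nat_lit 22) (nat_lit 5) (nat_lit 305) (nat_lit 264) (nat_lit 151)) (XT.lf (nat_lit 0) (nat_lit 2689515145) (nat_lit 152) (nat_lit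 4803327877) (nat_lit 228) (nat_lit 40791451752) (nat_lit 19) (nat_lit 5) (nat_lit 21) (nat_lit 5) (nat_lit 22) (nat_lit 5) (nat_lit 306) (nat_lit 264) (nat_lit 150)))))) (XT.nd (nat_lit 312) (nat_lit 304) (nat_lit 0) (XT.nd (nat_lit 156) (nat_lit 152) (nat_lit 0) (XT.nd (nat_lit 78) (nat_lit 0) (nat_lit 0) (XT.lf (nat_lit 0) (nat_lit 14355011012) (nat_lit 228) (nat_lit 29056279999) (nat_lit 76) (nat_lit 6684995504) (nat_lit 19) (nat_lit 5) (nat_lit 22) (nat_lit 5) (nat_lit 20) (nat_lit 5) (nat_lit 307) (nat_lit 264) (nat_lit 149)) (XT.lf (nat_lit 0) (nat_lit 21634838368) (nat_lit 228) (nat_lit 11776179523) (nat_lit 76) (nat_lit 18584140667) (nat_lit 19) (nat_lit 5) (nat_lit 22) (nat_lit 5) (nat_lit 20) (nat_lit 5) (nat_lit 308) (nat_lit 264) (nat_lit 148))) (XT.nd (nat_lit 78) (nat_lit 0) (nat_lit 0) (XT.lf (nat_lit 0) (nat_lit 6572003459) (nat_lit 152) (nat_lit 22805268538) (nat_lit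 228) (nat_lit 24606779330) (nat_lit 17) (nat_lit 5) (nat_lit 19) (nat_lit 5) (nat_lit 20) (nat_lit 5) (nat_lit 309) (nat_lit 264) (nat_lit 147)) (XT.lf (nat_lit 0) (nat_lit 26240271372) (nat_lit 152) (nat_lit 11462092586) (nat_lit 228) (nat_lit 18360255437) (nat_lit 17) (nat_lit 5) (nat_lit 19) (nat_lit 5) (nat_lit 20) (nat_lit 5) (nat_lit 310) (nat_lit 264) (nat_lit 146)))) (XT.nd (nat_lit 156) (nat_lit 228) (nat_lit 0) (XT.nd (nat_lit 78) (nat_lit 76) (nat_lit 0) (XT.lf (nat_lit 0) (nat_lit 46446962115) (nat_lit 228) (nat_lit 11366193501) (nat_lit 76) (nat_lit 431804809) (nat_lit 17) (nat_lit 5) (nat_lit 20) (nat_lit 5) (nat_lit 18) (nat_lit 4) (nat_lit 311) (nat_lit 264) (nat_lit 145)) (XT.lf (nat_lit 0) (nat_lit 8077656276) (nat_lit 76) (nat_lit 47861583607) (nat_lit 152) (nat_lit 4581662935) (nat_lit 16) (nat_lit 5) (nat_lit 17) (nat_lit 5) (nat_lit 18) (nat_lit 4) (nat_lit 312)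 (nat_lit 264) (nat_lit 144))) (XT.nd (nat_lit 78) (nat_lit 152) (nat_lit 0) (XT.lf (nat_lit 0) (nat_lit 3091712383) (nat_lit 152) (nat_lit 34068409855) (nat_lit 76) (nat_lit 25738582983) (nat_lit 15) (nat_lit 5) (nat_lit 17) (nat_lit 5) (nat_lit 16) (nat_lit 5) (nat_lit 313) (nat_lit 264) (nat_lit 143)) (XT.nd (nat_lit 78) (nat_lit 152) (nat_lit 0) (XT.lf (nat_lit 0) (nat_lit 10991401546) (nat_lit 152) (nat_lit 14855441179) (nat_lit 76) (nat_lit 39544974480) (nat_lit 15) (nat_lit 5) (nat_lit 17) (nat_lit 5) (nat_lit 16) (nat_lit 5) (nat_lit 314) (nat_lit 264) (nat_lit 142)) (XT.lf (nat_lit 0) (nat_lit 5488606944) (nat_lit 152) (nat_lit 13879940754) (nat_lit 228) (nat_lit 48636919057) (nat_lit 13) (nat_lit 5) (nat_lit 15) (nat_lit 5) (nat_lit 16) (nat_lit 5) (nat_lit 315) (nat_lit 264) (nat_lit 141))))))) (XT.nd (nat_lit 702) (nat_lit 228) (nat_lit 0) (XT.nd (nat_lit 312) (nat_lit 228)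 (nat_lit 0) (XT.nd (nat_lit 156) (nat_lit 76) (nat_lit 0) (XT.nd (nat_lit 78) (nat_lit 0) (nat_lit 0) (XT.lf (nat_lit 0) (nat_lit 27360450659) (nat_lit 152) (nat_lit 1052537442) (nat_lit 228) (nat_lit 42324394160) (nat_lit 13) (nat_lit 5) (nat_lit 15) (nat_lit 5) (nat_lit 16) (nat_lit 5) (nat_lit 316) (nat_lit 264) (nat_lit 140)) (XT.lf (nat_lit 0) (nat_lit 38100475643) (nat_lit 228) (nat_lit 23478893070) (nat_lit 76) (nat_lit 12016988646) (nat_lit 13) (nat_lit 5) (nat_lit 16) (nat_lit 5) (nat_lit 14) (nat_lit 4) (nat_lit 317) (nat_lit 264) (nat_lit 139))) (XT.nd (nat_lit 78) (nat_lit 76) (nat_lit 0) (XT.lf (nat_lit 0) (nat_lit 48286709300) (nat_lit 228) (nat_lit 2608001460) (nat_lit 76) (nat_lit 25702856695) (nat_lit 13) (nat_lit 5) (nat_lit 16) (nat_lit 5) (nat_lit 14) (nat_lit 4) (nat_lit 318) (nat_lit 264) (nat_lit 138)) (XT.lf (nat_lit 0) (nat_lit 19940075840) (nat_lit 76) (nat_lit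 39350753578) (nat_lit 152) (nat_lit 20442584501) (nat_lit 12) (nat_lit 5) (nat_lit 13) (nat_lit 5) (nat_lit 14) (nat_lit 4) (nat_lit 319) (nat_lit 264) (nat_lit 137)))) (XT.nd (nat_lit 156) (nat_lit 228) (nat_lit 0) (XT.nd (nat_lit 78) (nat_lit 0) (nat_lit 0) (XT.lf (nat_lit 0) (nat_lit 43701608723) (nat_lit 76) (nat_lit 27185029507) (nat_lit 152) (nat_lit 12137344723) (nat_lit 12) (nat_lit 5) (nat_lit 13) (nat_lit 5) (nat_lit 14) (nat_lit 4) (nat_lit 320) (nat_lit 264) (nat_lit 136)) (XT.lf (nat_lit 0) (nat_lit 68646939963) (nat_lit 76) (nat_lit 14412740304) (nat_lit 152) (nat_lit 3419532207) (nat_lit 12) (nat_lit 5) (nat_lit 13) (nat_lit 5) (nat_lit 14) (nat_lit 4) (nat_lit 321) (nat_lit 264) (nat_lit 135))) (XT.nd (nat_lit 78) (nat_lit 0) (nat_lit 0) (XT.lf (nat_lit 0) (nat_lit 4792022131) (nat_lit 152) (nat_lit 830957201) (nat_lit 228) (nat_lit 84476134714) (nat_lit 9) (nat_lit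 5) (nat_lit 11) (nat_lit 5) (nat_lit 12) (nat_lit 5) (nat_lit 322) (nat_lit 264) (nat_lit 134)) (XT.nd (nat_lit 78) (nat_lit 0) (nat_lit 0) (XT.lf (nat_lit 0) (nat_lit 15516874198) (nat_lit 228) (nat_lit 64993162387) (nat_lit 76) (nat_lit 13361466000) (nat_lit 9) (nat_lit 5) (nat_lit 12) (nat_lit 5) (nat_lit 10) (nat_lit 4) (nat_lit 323) (nat_lit 264) (nat_lit 133)) (XT.lf (nat_lit 0) (nat_lit 25916751666) (nat_lit 228) (nat_lit 43681151042) (nat_lit 76) (nat_lit 28234046884) (nat_lit 9) (nat_lit 5) (nat_lit 12) (nat_lit 5) (nat_lit 10) (nat_lit 4) (nat_lit 324) (nat_lit 264) (nat_lit 132)))))) (XT.nd (nat_lit 312) (nat_lit 152) (nat_lit 0) (XT.nd (nat_lit 156) (nat_lit 0) (nat_lit 0) (XT.nd (nat_lit 78) (nat_lit 76) (nat_lit 0) (XT.lf (nat_lit 0) (nat_lit 36834399777) (nat_lit 228) (nat_lit 21307341427) (nat_lit 76) (nat_lit 43848792176) (nat_lit 9) (nat_lit 5) (nat_lit 12) (nat_lit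 5) (nat_lit 10) (nat_lit 4) (nat_lit 325) (nat_lit 264) (nat_lit 131)) (XT.lf (nat_lit 0) (nat_lit 2253668914) (nat_lit 76) (nat_lit 46077330106) (nat_lit 152) (nat_lit 58024397014) (nat_lit 8) (nat_lit 5) (nat_lit 9) (nat_lit 5) (nat_lit 10) (nat_lit 4) (nat_lit 326) (nat_lit 264) (nat_lit 130))) (XT.nd (nat_lit 78) (nat_lit 0) (nat_lit 0) (XT.lf (nat_lit 0) (nat_lit 27728909727) (nat_lit 76) (nat_lit 33032296476) (nat_lit 152) (nat_lit 50159359686) (nat_lit 8) (nat_lit 5) (nat_lit 9) (nat_lit 5) (nat_lit 10) (nat_lit 4) (nat_lit 327) (nat_lit 264) (nat_lit 129)) (XT.lf (nat_lit 0) (nat_lit 54474519411) (nat_lit 76) (nat_lit 19336430847) (nat_lit 152) (nat_lit 41903145477) (nat_lit 8) (nat_lit 5) (nat_lit 9) (nat_lit 5) (nat_lit 10) (nat_lit 4) (nat_lit 328) (nat_lit 264) (nat_lit 128)))) (XT.nd (nat_lit 156) (nat_lit 152) (nat_lit 0) (XT.nd (nat_lit 78) (nat_lit 0) (nat_lit 0) (XT.lf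 (nat_lit 0) (nat_lit 82554177990) (nat_lit 76) (nat_lit 4957124017) (nat_lit 152) (nat_lit 33236096732) (nat_lit 8) (nat_lit 5) (nat_lit 9) (nat_lit 5) (nat_lit 10) (nat_lit 4) (nat_lit 329) (nat_lit 264) (nat_lit 127)) (XT.lf (nat_lit 0) (nat_lit 102053192972) (nat_lit 152) (nat_lit 14156028802) (nat_lit 0) (nat_lit 9815321601) (nat_lit 8) (nat_lit 5) (nat_lit 10) (nat_lit 4) (nat_lit 8) (nat_lit 4) (nat_lit 330) (nat_lit 264) (nat_lit 126))) (XT.nd (nat_lit 78) (nat_lit 76) (nat_lit 0) (XT.lf (nat_lit 0) (nat_lit 11362427372) (nat_lit 76) (nat_lit 106216690857) (nat_lit 76) (nat_lit 13973582465) (nat_lit 7) (nat_lit 4) (nat_lit 8) (nat_lit 5) (nat_lit 8) (nat_lit 4) (nat_lit 331) (nat_lit 264) (nat_lit 125)) (XT.nd (nat_lit 78) (nat_lit 76) (nat_lit 0) (XT.lf (nat_lit 0) (nat_lit 38645320413) (nat_lit 76) (nat_lit 95474070627) (nat_lit 76) (nat_lit 3225974598) (nat_lit 7) (nat_lit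 4) (nat_lit 8) (nat_lit 5) (nat_lit 8) (nat_lit 4) (nat_lit 332) (nat_lit 264) (nat_lit 124)) (XT.lf (nat_lit 0) (nat_lit 7799438871) (nat_lit 152) (nat_lit 76263996473) (nat_lit 76) (nat_lit 59358021206) (nat_lit 6) (nat_lit 5) (nat_lit 8) (nat_lit 5) (nat_lit 7) (nat_lit 4) (nat_lit 333) (nat_lit 264) (nat_lit 123))))))))
noncomputable def xc185 : XT := (XT.nd (nat_lit 1404) (nat_lit 76) (nat_lit 0) (XT.nd (nat_lit 702) (nat_lit 152) (nat_lit 0) (XT.nd (nat_lit 312) (nat_lit 0) (nat_lit 0) (XT.nd (nat_lit 156) (nat_lit 76) (nat_lit 0) (XT.nd (nat_lit 78) (nat_lit 0) (nat_lit 0) (XT.lf (nat_lit 0) (nat_lit 19266150996) (nat_lit 152) (nat_lit 52761760551) (nat_lit 76) (nat_lit 77770876131) (nat_lit 6) (nat_lit 5) (nat_lit 8) (nat_lit 5) (nat_lit 7) (nat_lit 4) (nat_lit 334) (nat_lit 264) (nat_lit 122)) (XT.lf (nat_lit 0) (nat_lit 31304714806) (nat_lit 152) (nat_lit 28087013250) (nat_lit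 76) (nat_lit 97103333415) (nat_lit 6) (nat_lit 5) (nat_lit 8) (nat_lit 5) (nat_lit 7) (nat_lit 4) (nat_lit 335) (nat_lit 264) (nat_lit 121))) (XT.nd (nat_lit 78) (nat_lit 76) (nat_lit 0) (XT.lf (nat_lit 0) (nat_lit 43943793547) (nat_lit 152) (nat_lit 2181005173) (nat_lit 76) (nat_lit 117401422718) (nat_lit 6) (nat_lit 5) (nat_lit 8) (nat_lit 5) (nat_lit 7) (nat_lit 4) (nat_lit 336) (nat_lit 264) (nat_lit 120)) (XT.lf (nat_lit 0) (nat_lit 25845150885) (nat_lit 76) (nat_lit 31771844615) (nat_lit 152) (nat_lit 113271837173) (nat_lit 5) (nat_lit 5) (nat_lit 6) (nat_lit 5) (nat_lit 7) (nat_lit 4) (nat_lit 337) (nat_lit 264) (nat_lit 119)))) (XT.nd (nat_lit 156) (nat_lit 0) (nat_lit 0) (XT.nd (nat_lit 78) (nat_lit 0) (nat_lit 0) (XT.lf (nat_lit 0) (nat_lit 55346013710) (nat_lit 76) (nat_lit 16663462120) (nat_lit 152) (nat_lit 106608319377) (nat_lit 5) (nat_lit 5) (nat_lit 6) (nat_lit 5)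 (nat_lit 7) (nat_lit 4) (nat_lit 338) (nat_lit 264) (nat_lit 118)) (XT.lf (nat_lit 0) (nat_lit 86319709569) (nat_lit 76) (nat_lit 800615276) (nat_lit 152) (nat_lit 99612945363) (nat_lit 5) (nat_lit 5) (nat_lit 6) (nat_lit 5) (nat_lit 7) (nat_lit 4) (nat_lit 339) (nat_lit 264) (nat_lit 117))) (XT.nd (nat_lit 78) (nat_lit 0) (nat_lit 0) (XT.lf (nat_lit 0) (nat_lit 103233053381) (nat_lit 152) (nat_lit 76662127502) (nat_lit 0) (nat_lit 15347022720) (nat_lit 5) (nat_lit 5) (nat_lit 7) (nat_lit 4) (nat_lit 5) (nat_lit 4) (nat_lit 340) (nat_lit 264) (nat_lit 116)) (XT.nd (nat_lit 78) (nat_lit 0) (nat_lit 0) (XT.lf (nat_lit 0) (nat_lit 120163391039) (nat_lit 152) (nat_lit 51738297018) (nat_lit 0) (nat_lit 32274298401) (nat_lit 5) (nat_lit 5) (nat_lit 7) (nat_lit 4) (nat_lit 5) (nat_lit 4) (nat_lit 341) (nat_lit 264) (nat_lit 115)) (XT.lf (nat_lit 0) (nat_lit 137939148301) (nat_lit 152) (nat_lit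 25570226886) (nat_lit 0) (nat_lit 50047139494) (nat_lit 5) (nat_lit 5) (nat_lit 7) (nat_lit 4) (nat_lit 5) (nat_lit 4) (nat_lit 342) (nat_lit 264) (nat_lit 114)))))) (XT.nd (nat_lit 312) (nat_lit 76) (nat_lit 0) (XT.nd (nat_lit 156) (nat_lit 0) (nat_lit 0) (XT.nd (nat_lit 78) (nat_lit 0) (nat_lit 0) (XT.lf (nat_lit 0) (nat_lit 1967355485) (nat_lit 76) (nat_lit 154666008844) (nat_lit 76) (nat_lit 66771222734) (nat_lit 4) (nat_lit 4) (nat_lit 5) (nat_lit 5) (nat_lit 5) (nat_lit 4) (nat_lit 343) (nat_lit 264) (nat_lit 113)) (XT.lf (nat_lit 0) (nat_lit 31767728566) (nat_lit 76) (nat_lit 144926582936) (nat_lit 76) (nat_lit 57029151775) (nat_lit 4) (nat_lit 4) (nat_lit 5) (nat_lit 5) (nat_lit 5) (nat_lit 4) (nat_lit 344) (nat_lit 264) (nat_lit 112))) (XT.nd (nat_lit 78) (nat_lit 0) (nat_lit 0) (XT.lf (nat_lit 0) (nat_lit 63056378449) (nat_lit 76) (nat_lit 134700952520) (nat_lit 76) (nat_lit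 46801002263) (nat_lit 4) (nat_lit 4) (nat_lit 5) (nat_lit 5) (nat_lit 5) (nat_lit 4) (nat_lit 345) (nat_lit 264) (nat_lit 111)) (XT.lf (nat_lit 0) (nat_lit 95907801916) (nat_lit 76) (nat_lit 123964770856) (nat_lit 76) (nat_lit 36062421460) (nat_lit 4) (nat_lit 4) (nat_lit 5) (nat_lit 5) (nat_lit 5) (nat_lit 4) (nat_lit 346) (nat_lit 264) (nat_lit 110)))) (XT.nd (nat_lit 156) (nat_lit 76) (nat_lit 0) (XT.nd (nat_lit 78) (nat_lit 0) (nat_lit 0) (XT.lf (nat_lit 0) (nat_lit 130400216645) (nat_lit 76) (nat_lit 112692475608) (nat_lit 76) (nat_lit 24787841317) (nat_lit 4) (nat_lit 4) (nat_lit 5) (nat_lit 5) (nat_lit 5) (nat_lit 4) (nat_lit 347) (nat_lit 264) (nat_lit 109)) (XT.lf (nat_lit 0) (nat_lit 166615747431) (nat_lit 76) (nat_lit 100857227975) (nat_lit 76) (nat_lit 12950417595) (nat_lit 4) (nat_lit 4) (nat_lit 5) (nat_lit 5) (nat_lit 5) (nat_lit 4) (nat_lit 348) (nat_lit 264) (nat_lit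 108))) (XT.nd (nat_lit 78) (nat_lit 76) (nat_lit 0) (XT.lf (nat_lit 0) (nat_lit 204640621729) (nat_lit 76) (nat_lit 88430848799) (nat_lit 76) (nat_lit 521965952) (nat_lit 4) (nat_lit 4) (nat_lit 5) (nat_lit 5) (nat_lit 5) (nat_lit 4) (nat_lit 349) (nat_lit 264) (nat_lit 107)) (XT.nd (nat_lit 78) (nat_lit 0) (nat_lit 0) (XT.lf (nat_lit 0) (nat_lit 12126159564) (nat_lit 152) (nat_lit 63052229517) (nat_lit 76) (nat_lit 232233853010) (nat_lit 3) (nat_lit 5) (nat_lit 5) (nat_lit 5) (nat_lit 4) (nat_lit 4) (nat_lit 350) (nat_lit 264) (nat_lit 106)) (XT.lf (nat_lit 0) (nat_lit 25388409492) (nat_lit 152) (nat_lit 35866496953) (nat_lit 76) (nat_lit 260666691550) (nat_lit 3) (nat_lit 5) (nat_lit 5) (nat_lit 5) (nat_lit 4) (nat_lit 4) (nat_lit 351) (nat_lit 264) (nat_lit 105))))))) (XT.nd (nat_lit 30966) (nat_lit 0) (nat_lit 5092) (XT.nd (nat_lit 312) (nat_lit 0) (nat_lit 0) (XT.nd (nat_lit 156)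 (nat_lit 0) (nat_lit 0) (XT.nd (nat_lit 78) (nat_lit 76) (nat_lit 0) (XT.lf (nat_lit 0) (nat_lit 39313066787) (nat_lit 152) (nat_lit 7322739772) (nat_lit 76) (nat_lit 290520651185) (nat_lit 3) (nat_lit 5) (nat_lit 5) (nat_lit 5) (nat_lit 4) (nat_lit 4) (nat_lit 352) (nat_lit 264) (nat_lit 104)) (XT.lf (nat_lit 0) (nat_lit 23395815558) (nat_lit 76) (nat_lit 30902744085) (nat_lit 152) (nat_lit 298836271461) (nat_lit 2) (nat_lit 5) (nat_lit 3) (nat_lit 5) (nat_lit 4) (nat_lit 4) (nat_lit 353) (nat_lit 264) (nat_lit 103))) (XT.nd (nat_lit 78) (nat_lit 0) (nat_lit 0) (XT.lf (nat_lit 0) (nat_lit 55903345114) (nat_lit 76) (nat_lit 14253338132) (nat_lit 152) (nat_lit 299749272799) (nat_lit 2) (nat_lit 5) (nat_lit 3) (nat_lit 5) (nat_lit 4) (nat_lit 4) (nat_lit 354) (nat_lit 264) (nat_lit 102)) (XT.lf (nat_lit 0) (nat_lit 86857485060) (nat_lit 152) (nat_lit 297530943057) (nat_lit 0) (nat_lit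 3124721203) (nat_lit 2) (nat_lit 5) (nat_lit 4) (nat_lit 4) (nat_lit 2) (nat_lit 4) (nat_lit 355) (nat_lit 264) (nat_lit 101)))) (XT.nd (nat_lit 30420) (nat_lit 0) (nat_lit 5016) (XT.nd (nat_lit 78) (nat_lit 0) (nat_lit 0) (XT.lf (nat_lit 0) (nat_lit 104626383958) (nat_lit 152) (nat_lit 280470448728) (nat_lit 0) (nat_lit 20892217375) (nat_lit 2) (nat_lit 5) (nat_lit 4) (nat_lit 4) (nat_lit 2) (nat_lit 4) (nat_lit 356) (nat_lit 264) (nat_lit 100)) (XT.lf (nat_lit 0) (nat_lit 123283152292) (nat_lit 152) (nat_lit 262557973167) (nat_lit 0) (nat_lit 39547649778) (nat_lit 2) (nat_lit 5) (nat_lit 4) (nat_lit 4) (nat_lit 2) (nat_lit 4) (nat_lit 357) (nat_lit 264) (nat_lit 99))) (XT.nd (nat_lit 78) (nat_lit 0) (nat_lit 0) (XT.lf (nat_lit 0) (nat_lit 249407380) (nat_lit 0) (nat_lit 249407380) (nat_lit 684) (nat_lit 6571633020) (nat_lit 68) (nat_lit 5) (nat_lit 68) (nat_lit 3) (nat_lit 77) (nat_lit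 3) (nat_lit 265) (nat_lit 265) (nat_lit 190)) (XT.nd (nat_lit 78) (nat_lit 0) (nat_lit 0) (XT.lf (nat_lit 0) (nat_lit 1415355716) (nat_lit 684) (nat_lit 7772483766) (nat_lit 760) (nat_lit 5285834657) (nat_lit 68) (nat_lit 5) (nat_lit 77) (nat_lit 3) (nat_lit 78) (nat_lit 5) (nat_lit 266) (nat_lit 265) (nat_lit 189)) (XT.lf (nat_lit 0) (nat_lit 1842613419) (nat_lit 684) (nat_lit 1628635718) (nat_lit 760) (nat_lit 11352480948) (nat_lit 68) (nat_lit 5) (nat_lit 77) (nat_lit 3) (nat_lit 78) (nat_lit 5) (nat_lit 267) (nat_lit 265) (nat_lit 188)))))) (XT.nd (nat_lit 312) (nat_lit 0) (nat_lit 76) (XT.nd (nat_lit 156) (nat_lit 0) (nat_lit 0) (XT.nd (nat_lit 78) (nat_lit 0) (nat_lit 0) (XT.lf (nat_lit 0) (nat_lit 2391160056) (nat_lit 684) (nat_lit 10258340888) (nat_lit 760) (nat_lit 2536858921) (nat_lit 69) (nat_lit 5) (nat_lit 78) (nat_lit 5) (nat_lit 79) (nat_lit 5) (nat_lit 268) (nat_lit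 265) (nat_lit 187)) (XT.lf (nat_lit 0) (nat_lit 3034313226) (nat_lit 684) (nat_lit 3765481960) (nat_lit 760) (nat_lit 8764031120) (nat_lit 69) (nat_lit 5) (nat_lit 78) (nat_lit 5) (nat_lit 79) (nat_lit 5) (nat_lit 269) (nat_lit 265) (nat_lit 186))) (XT.nd (nat_lit 78) (nat_lit 0) (nat_lit 76) (XT.lf (nat_lit 76) (nat_lit 3141686855) (nat_lit 0) (nat_lit 600073054) (nat_lit 760) (nat_lit 12216860442) (nat_lit 70) (nat_lit 5) (nat_lit 69) (nat_lit 5) (nat_lit 79) (nat_lit 5) (nat_lit 270) (nat_lit 265) (nat_lit 185)) (XT.lf (nat_lit 0) (nat_lit 4625471010) (nat_lit 684) (nat_lit 5950003776) (nat_lit 760) (nat_lit 5790692879) (nat_lit 70) (nat_lit 5) (nat_lit 79) (nat_lit 5) (nat_lit 80) (nat_lit 5) (nat_lit 271) (nat_lit 265) (nat_lit 184)))) (XT.nd (nat_lit 156) (nat_lit 0) (nat_lit 76) (XT.nd (nat_lit 78) (nat_lit 0) (nat_lit 76) (XT.lf (nat_lit 76) (nat_lit 1280298474) (nat_lit 0)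 (nat_lit 4287476872) (nat_lit 760) (nat_lit 11225652012) (nat_lit 71) (nat_lit 5) (nat_lit 70) (nat_lit 5) (nat_lit 80) (nat_lit 5) (nat_lit 272) (nat_lit 265) (nat_lit 183)) (XT.lf (nat_lit 0) (nat_lit 6680961475) (nat_lit 684) (nat_lit 8207911200) (nat_lit 760) (nat_lit 2347041794) (nat_lit 71) (nat_lit 5) (nat_lit 80) (nat_lit 5) (nat_lit 81) (nat_lit 5) (nat_lit 273) (nat_lit 265) (nat_lit 182))) (XT.nd (nat_lit 78) (nat_lit 0) (nat_lit 0) (XT.lf (nat_lit 0) (nat_lit 7906003960) (nat_lit 684) (nat_lit 618949326) (nat_lit 760) (nat_lit 9172813045) (nat_lit 71) (nat_lit 5) (nat_lit 80) (nat_lit 5) (nat_lit 81) (nat_lit 5) (nat_lit 274) (nat_lit 265) (nat_lit 181)) (XT.nd (nat_lit 78) (nat_lit 0) (nat_lit 76) (XT.lf (nat_lit 76) (nat_lit 7581417944) (nat_lit 0) (nat_lit 1715829278) (nat_lit 760) (nat_lit 8880263987) (nat_lit 72) (nat_lit 5) (nat_lit 71) (nat_lit 5) (nat_lit 81) (nat_lit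 5) (nat_lit 275) (nat_lit 265) (nat_lit 180)) (XT.lf (nat_lit 0) (nat_lit 10840636727) (nat_lit 684) (nat_lit 2563688517) (nat_lit 76) (nat_lit 5272834459) (nat_lit 72) (nat_lit 5) (nat_lit 81) (nat_lit 5) (nat_lit 73) (nat_lit 5) (nat_lit 276) (nat_lit 265) (nat_lit 179))))))))
noncomputable def xc186 : XT := (XT.nd (nat_lit 1404) (nat_lit 1368) (nat_lit 0) (XT.nd (nat_lit 702) (nat_lit 1064) (nat_lit 0) (XT.nd (nat_lit 312) (nat_lit 760) (nat_lit 0) (XT.nd (nat_lit 156) (nat_lit 304) (nat_lit 0) (XT.nd (nat_lit 78) (nat_lit 0) (nat_lit 0) (XT.lf (nat_lit 0) (nat_lit 6024305933) (nat_lit 684) (nat_lit 6546782948) (nat_lit 760) (nat_lit 6625250488) (nat_lit 63) (nat_lit 5) (nat_lit 72) (nat_lit 5) (nat_lit 73) (nat_lit 5) (nat_lit 277) (nat_lit 265) (nat_lit 178)) (XT.lf (nat_lit 0) (nat_lit 14430547714) (nat_lit 760) (nat_lit 4630718744) (nat_lit 76) (nat_lit 678128699) (nat_lit 63)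 (nat_lit 5) (nat_lit 73) (nat_lit 5) (nat_lit 64) (nat_lit 5) (nat_lit 278) (nat_lit 265) (nat_lit 177))) (XT.nd (nat_lit 78) (nat_lit 0) (nat_lit 0) (XT.lf (nat_lit 0) (nat_lit 4359191764) (nat_lit 304) (nat_lit 12187885430) (nat_lit 380) (nat_lit 3754361024) (nat_lit 59) (nat_lit 5) (nat_lit 63) (nat_lit 5) (nat_lit 64) (nat_lit 5) (nat_lit 279) (nat_lit 265) (nat_lit 176)) (XT.lf (nat_lit 0) (nat_lit 13948870977) (nat_lit 304) (nat_lit 4888073395) (nat_lit 380) (nat_lit 2051300995) (nat_lit 59) (nat_lit 5) (nat_lit 63) (nat_lit 5) (nat_lit 64) (nat_lit 5) (nat_lit 280) (nat_lit 265) (nat_lit 175)))) (XT.nd (nat_lit 156) (nat_lit 304) (nat_lit 0) (XT.nd (nat_lit 78) (nat_lit 76) (nat_lit 0) (XT.lf (nat_lit 0) (nat_lit 2541061893) (nat_lit 380) (nat_lit 18772882236) (nat_lit 456) (nat_lit 186852494) (nat_lit 54) (nat_lit 5) (nat_lit 59) (nat_lit 5) (nat_lit 60) (nat_lit 5) (nat_lit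 281) (nat_lit 265) (nat_lit 174)) (XT.lf (nat_lit 0) (nat_lit 1903470065) (nat_lit 456) (nat_lit 9522124130) (nat_lit 76) (nat_lit 10707564821) (nat_lit 53) (nat_lit 5) (nat_lit 59) (nat_lit 5) (nat_lit 54) (nat_lit 5) (nat_lit 282) (nat_lit 265) (nat_lit 173))) (XT.nd (nat_lit 78) (nat_lit 0) (nat_lit 0) (XT.lf (nat_lit 0) (nat_lit 386426379) (nat_lit 304) (nat_lit 3701872565) (nat_lit 380) (nat_lit 18708904793) (nat_lit 49) (nat_lit 5) (nat_lit 53) (nat_lit 5) (nat_lit 54) (nat_lit 5) (nat_lit 283) (nat_lit 265) (nat_lit 172)) (XT.nd (nat_lit 78) (nat_lit 0) (nat_lit 0) (XT.lf (nat_lit 0) (nat_lit 6605630730) (nat_lit 380) (nat_lit 12447434661) (nat_lit 76) (nat_lit 4430251608) (nat_lit 49) (nat_lit 5) (nat_lit 54) (nat_lit 5) (nat_lit 50) (nat_lit 5) (nat_lit 284) (nat_lit 265) (nat_lit 171)) (XT.lf (nat_lit 0) (nat_lit 9300500554) (nat_lit 380) (nat_lit 2056680506) (nat_lit 76)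 (nat_lit 12843999273) (nat_lit 49) (nat_lit 5) (nat_lit 54) (nat_lit 5) (nat_lit 50) (nat_lit 5) (nat_lit 285) (nat_lit 265) (nat_lit 170)))))) (XT.nd (nat_lit 312) (nat_lit 532) (nat_lit 0) (XT.nd (nat_lit 156) (nat_lit 228) (nat_lit 0) (XT.nd (nat_lit 78) (nat_lit 0) (nat_lit 0) (XT.lf (nat_lit 0) (nat_lit 9136444898) (nat_lit 304) (nat_lit 3127728779) (nat_lit 380) (nat_lit 12684086813) (nat_lit 45) (nat_lit 5) (nat_lit 49) (nat_lit 5) (nat_lit 50) (nat_lit 5) (nat_lit 286) (nat_lit 265) (nat_lit 169)) (XT.lf (nat_lit 0) (nat_lit 15489167266) (nat_lit 380) (nat_lit 4866829998) (nat_lit 76) (nat_lit 5371065930) (nat_lit 45) (nat_lit 5) (nat_lit 50) (nat_lit 5) (nat_lit 46) (nat_lit 5) (nat_lit 287) (nat_lit 265) (nat_lit 168))) (XT.nd (nat_lit 78) (nat_lit 0) (nat_lit 0) (XT.lf (nat_lit 0) (nat_lit 6781800781) (nat_lit 228) (nat_lit 12242822615) (nat_lit 304) (nat_lit 7512746164)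 (nat_lit 42) (nat_lit 5) (nat_lit 45) (nat_lit 5) (nat_lit 46) (nat_lit 5) (nat_lit 288) (nat_lit 265) (nat_lit 167)) (XT.lf (nat_lit 0) (nat_lit 19172590066) (nat_lit 228) (nat_lit 3638974155) (nat_lit 304) (nat_lit 4572914449) (nat_lit 42) (nat_lit 5) (nat_lit 45) (nat_lit 5) (nat_lit 46) (nat_lit 5) (nat_lit 289) (nat_lit 265) (nat_lit 166)))) (XT.nd (nat_lit 156) (nat_lit 228) (nat_lit 0) (XT.nd (nat_lit 78) (nat_lit 76) (nat_lit 0) (XT.lf (nat_lit 0) (nat_lit 3941738916) (nat_lit 228) (nat_lit 22984521071) (nat_lit 304) (nat_lit 1340784776) (nat_lit 39) (nat_lit 5) (nat_lit 42) (nat_lit 5) (nat_lit 43) (nat_lit 5) (nat_lit 290) (nat_lit 265) (nat_lit 165)) (XT.lf (nat_lit 0) (nat_lit 2180958261) (nat_lit 304) (nat_lit 12301905045) (nat_lit 76) (nat_lit 14699607416) (nat_lit 38) (nat_lit 5) (nat_lit 42) (nat_lit 5) (nat_lit 39) (nat_lit 5) (nat_lit 291) (nat_lit 265) (nat_lit 164)))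 (XT.nd (nat_lit 78) (nat_lit 0) (nat_lit 0) (XT.lf (nat_lit 0) (nat_lit 301499362) (nat_lit 228) (nat_lit 5529991129) (nat_lit 304) (nat_lit 24311209362) (nat_lit 35) (nat_lit 5) (nat_lit 38) (nat_lit 5) (nat_lit 39) (nat_lit 5) (nat_lit 292) (nat_lit 265) (nat_lit 163)) (XT.nd (nat_lit 78) (nat_lit 0) (nat_lit 0) (XT.lf (nat_lit 0) (nat_lit 9929951828) (nat_lit 304) (nat_lit 17251219232) (nat_lit 76) (nat_lit 3956517292) (nat_lit 35) (nat_lit 5) (nat_lit 39) (nat_lit 5) (nat_lit 36) (nat_lit 5) (nat_lit 293) (nat_lit 265) (nat_lit 162)) (XT.lf (nat_lit 0) (nat_lit 14317533398) (nat_lit 304) (nat_lit 4130983984) (nat_lit 76) (nat_lit 13729716214) (nat_lit 35) (nat_lit 5) (nat_lit 39) (nat_lit 5) (nat_lit 36) (nat_lit 5) (nat_lit 294) (nat_lit 265) (nat_lit 161))))))) (XT.nd (nat_lit 702) (nat_lit 532) (nat_lit 0) (XT.nd (nat_lit 312) (nat_lit 456) (nat_lit 0) (XT.nd (nat_lit 156) (nat_lit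 152) (nat_lit 0) (XT.nd (nat_lit 78) (nat_lit 0) (nat_lit 0) (XT.lf (nat_lit 0) (nat_lit 9955728039) (nat_lit 228) (nat_lit 9118051941) (nat_lit 304) (nat_lit 14189578184) (nat_lit 32) (nat_lit 5) (nat_lit 35) (nat_lit 5) (nat_lit 36) (nat_lit 5) (nat_lit 295) (nat_lit 265) (nat_lit 160)) (XT.lf (nat_lit 0) (nat_lit 24143530218) (nat_lit 304) (nat_lit 9529124885) (nat_lit 76) (nat_lit 726314872) (nat_lit 32) (nat_lit 5) (nat_lit 36) (nat_lit 5) (nat_lit 33) (nat_lit 5) (nat_lit 296) (nat_lit 265) (nat_lit 159))) (XT.nd (nat_lit 78) (nat_lit 0) (nat_lit 0) (XT.lf (nat_lit 0) (nat_lit 4938973013) (nat_lit 152) (nat_lit 24748653016) (nat_lit 228) (nat_lit 5892708283) (nat_lit 30) (nat_lit 5) (nat_lit 32) (nat_lit 5) (nat_lit 33) (nat_lit 5) (nat_lit 297) (nat_lit 265) (nat_lit 158)) (XT.lf (nat_lit 0) (nat_lit 20453499154) (nat_lit 152) (nat_lit 15211229357) (nat_lit 228) (nat_lit 1148262392)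 (nat_lit 30) (nat_lit 5) (nat_lit 32) (nat_lit 5) (nat_lit 33) (nat_lit 5) (nat_lit 298) (nat_lit 265) (nat_lit 157)))) (XT.nd (nat_lit 156) (nat_lit 152) (nat_lit 0) (XT.nd (nat_lit 78) (nat_lit 228) (nat_lit 0) (XT.lf (nat_lit 0) (nat_lit 3705299924) (nat_lit 228) (nat_lit 1431005343) (nat_lit 76) (nat_lit 32968266011) (nat_lit 29) (nat_lit 5) (nat_lit 32) (nat_lit 5) (nat_lit 30) (nat_lit 5) (nat_lit 299) (nat_lit 265) (nat_lit 156)) (XT.lf (nat_lit 0) (nat_lit 9076121261) (nat_lit 304) (nat_lit 24849675610) (nat_lit 76) (nat_lit 5518346308) (nat_lit 26) (nat_lit 5) (nat_lit 30) (nat_lit 5) (nat_lit 27) (nat_lit 5) (nat_lit 300) (nat_lit 265) (nat_lit 155))) (XT.nd (nat_lit 78) (nat_lit 152) (nat_lit 0) (XT.lf (nat_lit 0) (nat_lit 14819263005) (nat_lit 304) (nat_lit 9470561168) (nat_lit 76) (nat_lit 16555692161) (nat_lit 26) (nat_lit 5) (nat_lit 30) (nat_lit 5) (nat_lit 27) (nat_lit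 5) (nat_lit 301) (nat_lit 265) (nat_lit 154)) (XT.nd (nat_lit 78) (nat_lit 0) (nat_lit 0) (XT.lf (nat_lit 0) (nat_lit 6891040943) (nat_lit 152) (nat_lit 14061295599) (nat_lit 228) (nat_lit 21359493943) (nat_lit 24) (nat_lit 5) (nat_lit 26) (nat_lit 5) (nat_lit 27) (nat_lit 5) (nat_lit 302) (nat_lit 265) (nat_lit 153)) (XT.lf (nat_lit 0) (nat_lit 24392608558) (nat_lit 152) (nat_lit 3155151303) (nat_lit 228) (nat_lit 16295926223) (nat_lit 24) (nat_lit 5) (nat_lit 26) (nat_lit 5) (nat_lit 27) (nat_lit 5) (nat_lit 303) (nat_lit 265) (nat_lit 152)))))) (XT.nd (nat_lit 312) (nat_lit 152) (nat_lit 0) (XT.nd (nat_lit 156) (nat_lit 228) (nat_lit 0) (XT.nd (nat_lit 78) (nat_lit 152) (nat_lit 0) (XT.lf (nat_lit 0) (nat_lit 34597980869) (nat_lit 228) (nat_lit 2819190908) (nat_lit 76) (nat_lit 8028721401) (nat_lit 24) (nat_lit 5) (nat_lit 27) (nat_lit 5) (nat_lit 25) (nat_lit 5) (nat_lit 304) (nat_lit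 265) (nat_lit 151)) (XT.lf (nat_lit 0) (nat_lit 15068389282) (nat_lit 152) (nat_lit 27215019631) (nat_lit 228) (nat_lit 4830676482) (nat_lit 22) (nat_lit 5) (nat_lit 24) (nat_lit 5) (nat_lit 25) (nat_lit 5) (nat_lit 305) (nat_lit 265) (nat_lit 150))) (XT.nd (nat_lit 78) (nat_lit 152) (nat_lit 0) (XT.lf (nat_lit 0) (nat_lit 1484081396) (nat_lit 228) (nat_lit 14945585958) (nat_lit 76) (nat_lit 32432654051) (nat_lit 21) (nat_lit 5) (nat_lit 24) (nat_lit 5) (nat_lit 22) (nat_lit 5) (nat_lit 306) (nat_lit 265) (nat_lit 149)) (XT.lf (nat_lit 0) (nat_lit 3020828549) (nat_lit 152) (nat_lit 4974512638) (nat_lit 228) (nat_lit 42696521399) (nat_lit 19) (nat_lit 5) (nat_lit 21) (nat_lit 5) (nat_lit 22) (nat_lit 5) (nat_lit 307) (nat_lit 265) (nat_lit 148)))) (XT.nd (nat_lit 156) (nat_lit 152) (nat_lit 0) (XT.nd (nat_lit 78) (nat_lit 0) (nat_lit 0) (XT.lf (nat_lit 0) (nat_lit 15195554906) (nat_lit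 228) (nat_lit 30316324879) (nat_lit 76) (nat_lit 7082839365) (nat_lit 19) (nat_lit 5) (nat_lit 22) (nat_lit 5) (nat_lit 20) (nat_lit 5) (nat_lit 308) (nat_lit 265) (nat_lit 147)) (XT.lf (nat_lit 0) (nat_lit 22833526328) (nat_lit 228) (nat_lit 12181398860) (nat_lit 76) (nat_lit 19573913496) (nat_lit 19) (nat_lit 5) (nat_lit 22) (nat_lit 5) (nat_lit 20) (nat_lit 5) (nat_lit 309) (nat_lit 265) (nat_lit 146))) (XT.nd (nat_lit 78) (nat_lit 0) (nat_lit 0) (XT.lf (nat_lit 0) (nat_lit 7081232147) (nat_lit 152) (nat_lit 23879100748) (nat_lit 228) (nat_lit 25716991608) (nat_lit 17) (nat_lit 5) (nat_lit 19) (nat_lit 5) (nat_lit 20) (nat_lit 5) (nat_lit 310) (nat_lit 265) (nat_lit 145)) (XT.nd (nat_lit 78) (nat_lit 0) (nat_lit 0) (XT.lf (nat_lit 0) (nat_lit 27724312098) (nat_lit 152) (nat_lit 11971929390) (nat_lit 228) (nat_lit 19163861839) (nat_lit 17) (nat_lit 5) (nat_lit 19) (nat_lit 5) (nat_lit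 20) (nat_lit 5) (nat_lit 311) (nat_lit 265) (nat_lit 144)) (XT.lf (nat_lit 0) (nat_lit 48873831288) (nat_lit 228) (nat_lit 11766230408) (nat_lit 76) (nat_lit 511721582) (nat_lit 17) (nat_lit 5) (nat_lit 20) (nat_lit 5) (nat_lit 18) (nat_lit 4) (nat_lit 312) (nat_lit 265) (nat_lit 143))))))))
noncomputable def xc187 : XT := (XT.nd (nat_lit 1404) (nat_lit 304) (nat_lit 0) (XT.nd (nat_lit 702) (nat_lit 304) (nat_lit 0) (XT.nd (nat_lit 312) (nat_lit 76) (nat_lit 0) (XT.nd (nat_lit 156) (nat_lit 152) (nat_lit 0) (XT.nd (nat_lit 78) (nat_lit 76) (nat_lit 0) (XT.lf (nat_lit 0) (nat_lit 8647097780) (nat_lit 76) (nat_lit 50191232806) (nat_lit 152) (nat_lit 4703321305) (nat_lit 16) (nat_lit 5) (nat_lit 17) (nat_lit 5) (nat_lit 18) (nat_lit 4) (nat_lit 313) (nat_lit 265) (nat_lit 142)) (XT.lf (nat_lit 0) (nat_lit 3345332777) (nat_lit 152) (nat_lit 35610708865) (nat_lit 76) (nat_lit 27082475099)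 (nat_lit 15) (nat_lit 5) (nat_lit 17) (nat_lit 5) (nat_lit 16) (nat_lit 5) (nat_lit 314) (nat_lit 265) (nat_lit 141))) (XT.nd (nat_lit 78) (nat_lit 152) (nat_lit 0) (XT.lf (nat_lit 0) (nat_lit 11635290457) (nat_lit 152) (nat_lit 15444764207) (nat_lit 76) (nat_lit 41576473649) (nat_lit 15) (nat_lit 5) (nat_lit 17) (nat_lit 5) (nat_lit 16) (nat_lit 5) (nat_lit 315) (nat_lit 265) (nat_lit 140)) (XT.lf (nat_lit 0) (nat_lit 5914011338) (nat_lit 152) (nat_lit 14515148333) (nat_lit 228) (nat_lit 50971815181) (nat_lit 13) (nat_lit 5) (nat_lit 15) (nat_lit 5) (nat_lit 16) (nat_lit 5) (nat_lit 316) (nat_lit 265) (nat_lit 139)))) (XT.nd (nat_lit 156) (nat_lit 76) (nat_lit 0) (XT.nd (nat_lit 78) (nat_lit 0) (nat_lit 0) (XT.lf (nat_lit 0) (nat_lit 28872257998) (nat_lit 152) (nat_lit 1049174353) (nat_lit 228) (nat_lit 44348280698) (nat_lit 13) (nat_lit 5) (nat_lit 15) (nat_lit 5) (nat_lit 16) (nat_lit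 5) (nat_lit 317) (nat_lit 265) (nat_lit 138)) (XT.lf (nat_lit 0) (nat_lit 40089946097) (nat_lit 228) (nat_lit 24512410132) (nat_lit 76) (nat_lit 12669455157) (nat_lit 13) (nat_lit 5) (nat_lit 16) (nat_lit 5) (nat_lit 14) (nat_lit 4) (nat_lit 318) (nat_lit 265) (nat_lit 137))) (XT.nd (nat_lit 78) (nat_lit 76) (nat_lit 0) (XT.lf (nat_lit 0) (nat_lit 50781470168) (nat_lit 228) (nat_lit 2604660969) (nat_lit 76) (nat_lit 27037158653) (nat_lit 13) (nat_lit 5) (nat_lit 16) (nat_lit 5) (nat_lit 14) (nat_lit 4) (nat_lit 319) (nat_lit 265) (nat_lit 136)) (XT.nd (nat_lit 78) (nat_lit 0) (nat_lit 0) (XT.lf (nat_lit 0) (nat_lit 21068663089) (nat_lit 76) (nat_lit 41265357807) (nat_lit 152) (nat_lit 21382002868) (nat_lit 12) (nat_lit 5) (nat_lit 13) (nat_lit 5) (nat_lit 14) (nat_lit 4) (nat_lit 320) (nat_lit 265) (nat_lit 135)) (XT.lf (nat_lit 0) (nat_lit 46012006738) (nat_lit 76) (nat_lit 28493868173)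 (nat_lit 152) (nat_lit 12665439713) (nat_lit 12) (nat_lit 5) (nat_lit 13) (nat_lit 5) (nat_lit 14) (nat_lit 4) (nat_lit 321) (nat_lit 265) (nat_lit 134)))))) (XT.nd (nat_lit 312) (nat_lit 76) (nat_lit 0) (XT.nd (nat_lit 156) (nat_lit 0) (nat_lit 0) (XT.nd (nat_lit 78) (nat_lit 228) (nat_lit 0) (XT.lf (nat_lit 0) (nat_lit 72198637036) (nat_lit 76) (nat_lit 15085365119) (nat_lit 152) (nat_lit 3515487630) (nat_lit 12) (nat_lit 5) (nat_lit 13) (nat_lit 5) (nat_lit 14) (nat_lit 4) (nat_lit 322) (nat_lit 265) (nat_lit 133)) (XT.lf (nat_lit 0) (nat_lit 5151519815) (nat_lit 152) (nat_lit 823642348) (nat_lit 228) (nat_lit 88625250297) (nat_lit 9) (nat_lit 5) (nat_lit 11) (nat_lit 5) (nat_lit 12) (nat_lit 5) (nat_lit 323) (nat_lit 265) (nat_lit 132))) (XT.nd (nat_lit 78) (nat_lit 0) (nat_lit 0) (XT.lf (nat_lit 0) (nat_lit 16361095764) (nat_lit 228) (nat_lit 68125876714) (nat_lit 76) (nat_lit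 14074585777) (nat_lit 9) (nat_lit 5) (nat_lit 12) (nat_lit 5) (nat_lit 10) (nat_lit 4) (nat_lit 324) (nat_lit 265) (nat_lit 131)) (XT.lf (nat_lit 0) (nat_lit 27277711017) (nat_lit 228) (nat_lit 45753833554) (nat_lit 76) (nat_lit 29688650634) (nat_lit 9) (nat_lit 5) (nat_lit 12) (nat_lit 5) (nat_lit 10) (nat_lit 4) (nat_lit 325) (nat_lit 265) (nat_lit 130)))) (XT.nd (nat_lit 156) (nat_lit 0) (nat_lit 0) (XT.nd (nat_lit 78) (nat_lit 76) (nat_lit 0) (XT.lf (nat_lit 0) (nat_lit 38738140497) (nat_lit 228) (nat_lit 22266637031) (nat_lit 76) (nat_lit 46082090267) (nat_lit 9) (nat_lit 5) (nat_lit 12) (nat_lit 5) (nat_lit 10) (nat_lit 4) (nat_lit 326) (nat_lit 265) (nat_lit 129)) (XT.lf (nat_lit 0) (nat_lit 2470712997) (nat_lit 76) (nat_lit 48337532699) (nat_lit 152) (nat_lit 60861798431) (nat_lit 8) (nat_lit 5) (nat_lit 9) (nat_lit 5) (nat_lit 10) (nat_lit 4) (nat_lit 327) (nat_lit 265) (nat_lit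 128))) (XT.nd (nat_lit 78) (nat_lit 0) (nat_lit 0) (XT.lf (nat_lit 0) (nat_lit 29214746296) (nat_lit 76) (nat_lit 34642326622) (nat_lit 152) (nat_lit 52606548209) (nat_lit 8) (nat_lit 5) (nat_lit 9) (nat_lit 5) (nat_lit 10) (nat_lit 4) (nat_lit 328) (nat_lit 265) (nat_lit 127)) (XT.nd (nat_lit 78) (nat_lit 0) (nat_lit 0) (XT.lf (nat_lit 0) (nat_lit 57292903556) (nat_lit 76) (nat_lit 20263647935) (nat_lit 152) (nat_lit 43940417549) (nat_lit 8) (nat_lit 5) (nat_lit 9) (nat_lit 5) (nat_lit 10) (nat_lit 4) (nat_lit 329) (nat_lit 265) (nat_lit 126)) (XT.lf (nat_lit 0) (nat_lit 86772037532) (nat_lit 76) (nat_lit 5167261689) (nat_lit 152) (nat_lit 34842772806) (nat_lit 8) (nat_lit 5) (nat_lit 9) (nat_lit 5) (nat_lit 10) (nat_lit 4) (nat_lit 330) (nat_lit 265) (nat_lit 125))))))) (XT.nd (nat_lit 702) (nat_lit 76) (nat_lit 0) (XT.nd (nat_lit 312) (nat_lit 76) (nat_lit 0) (XT.nd (nat_lit 156)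 (nat_lit 76) (nat_lit 0) (XT.nd (nat_lit 78) (nat_lit 76) (nat_lit 0) (XT.lf (nat_lit 0) (nat_lit 107206348816) (nat_lit 152) (nat_lit 14775965099) (nat_lit 0) (nat_lit 10340860348) (nat_lit 8) (nat_lit 5) (nat_lit 10) (nat_lit 4) (nat_lit 8) (nat_lit 4) (nat_lit 331) (nat_lit 265) (nat_lit 124)) (XT.lf (nat_lit 0) (nat_lit 12016996703) (nat_lit 76) (nat_lit 111490518746) (nat_lit 76) (nat_lit 14620280146) (nat_lit 7) (nat_lit 4) (nat_lit 8) (nat_lit 5) (nat_lit 8) (nat_lit 4) (nat_lit 332) (nat_lit 265) (nat_lit 123))) (XT.nd (nat_lit 78) (nat_lit 76) (nat_lit 0) (XT.lf (nat_lit 0) (nat_lit 40659917827) (nat_lit 76) (nat_lit 100212529727) (nat_lit 76) (nat_lit 3337767192) (nat_lit 7) (nat_lit 4) (nat_lit 8) (nat_lit 5) (nat_lit 8) (nat_lit 4) (nat_lit 333) (nat_lit 265) (nat_lit 122)) (XT.lf (nat_lit 0) (nat_lit 8235050462) (nat_lit 152) (nat_lit 79997217594) (nat_lit 76) (nat_lit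 62357920539) (nat_lit 6) (nat_lit 5) (nat_lit 8) (nat_lit 5) (nat_lit 7) (nat_lit 4) (nat_lit 334) (nat_lit 265) (nat_lit 121)))) (XT.nd (nat_lit 156) (nat_lit 76) (nat_lit 0) (XT.nd (nat_lit 78) (nat_lit 0) (nat_lit 0) (XT.lf (nat_lit 0) (nat_lit 20272924877) (nat_lit 152) (nat_lit 55323678386) (nat_lit 76) (nat_lit 81689894484) (nat_lit 6) (nat_lit 5) (nat_lit 8) (nat_lit 5) (nat_lit 7) (nat_lit 4) (nat_lit 335) (nat_lit 265) (nat_lit 120)) (XT.lf (nat_lit 0) (nat_lit 32911347052) (nat_lit 152) (nat_lit 29418820872) (nat_lit 76) (nat_lit 101987523463) (nat_lit 6) (nat_lit 5) (nat_lit 8) (nat_lit 5) (nat_lit 7) (nat_lit 4) (nat_lit 336) (nat_lit 265) (nat_lit 119))) (XT.nd (nat_lit 78) (nat_lit 76) (nat_lit 0) (XT.lf (nat_lit 0) (nat_lit 46180408468) (nat_lit 152) (nat_lit 2220966822) (nat_lit 76) (nat_lit 123299135165) (nat_lit 6) (nat_lit 5) (nat_lit 8) (nat_lit 5) (nat_lit 7) (nat_lit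 4) (nat_lit 337) (nat_lit 265) (nat_lit 118)) (XT.nd (nat_lit 78) (nat_lit 0) (nat_lit 0) (XT.lf (nat_lit 0) (nat_lit 27205382708) (nat_lit 76) (nat_lit 33331071687) (nat_lit 152) (nat_lit 118894841081) (nat_lit 5) (nat_lit 5) (nat_lit 6) (nat_lit 5) (nat_lit 7) (nat_lit 4) (nat_lit 338) (nat_lit 265) (nat_lit 117)) (XT.lf (nat_lit 0) (nat_lit 58178051803) (nat_lit 76) (nat_lit 17468668409) (nat_lit 152) (nat_lit 111900080155) (nat_lit 5) (nat_lit 5) (nat_lit 6) (nat_lit 5) (nat_lit 7) (nat_lit 4) (nat_lit 339) (nat_lit 265) (nat_lit 116)))))) (XT.nd (nat_lit 312) (nat_lit 76) (nat_lit 0) (XT.nd (nat_lit 156) (nat_lit 0) (nat_lit 0) (XT.nd (nat_lit 78) (nat_lit 0) (nat_lit 0) (XT.lf (nat_lit 0) (nat_lit 90697349721) (nat_lit 76) (nat_lit 814010976) (nat_lit 152) (nat_lit 104556778164) (nat_lit 5) (nat_lit 5) (nat_lit 6) (nat_lit 5) (nat_lit 7) (nat_lit 4) (nat_lit 340) (nat_lit 265)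 (nat_lit 115)) (XT.lf (nat_lit 0) (nat_lit 108428454105) (nat_lit 152) (nat_lit 80435201798) (nat_lit 0) (nat_lit 16138928689) (nat_lit 5) (nat_lit 5) (nat_lit 7) (nat_lit 4) (nat_lit 5) (nat_lit 4) (nat_lit 341) (nat_lit 265) (nat_lit 114))) (XT.nd (nat_lit 78) (nat_lit 0) (nat_lit 0) (XT.lf (nat_lit 0) (nat_lit 126203701596) (nat_lit 152) (nat_lit 54268038460) (nat_lit 0) (nat_lit 33911398877) (nat_lit 5) (nat_lit 5) (nat_lit 7) (nat_lit 4) (nat_lit 5) (nat_lit 4) (nat_lit 342) (nat_lit 265) (nat_lit 113)) (XT.lf (nat_lit 0) (nat_lit 144866716197) (nat_lit 152) (nat_lit 26794287365) (nat_lit 0) (nat_lit 52571768427) (nat_lit 5) (nat_lit 5) (nat_lit 7) (nat_lit 4) (nat_lit 5) (nat_lit 4) (nat_lit 343) (nat_lit 265) (nat_lit 112)))) (XT.nd (nat_lit 156) (nat_lit 0) (nat_lit 0) (XT.nd (nat_lit 78) (nat_lit 0) (nat_lit 0) (XT.lf (nat_lit 0) (nat_lit 2119295884) (nat_lit 76) (nat_lit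 162375725918) (nat_lit 76) (nat_lit 70078259052) (nat_lit 4) (nat_lit 4) (nat_lit 5) (nat_lit 5) (nat_lit 5) (nat_lit 4) (nat_lit 344) (nat_lit 265) (nat_lit 111)) (XT.lf (nat_lit 0) (nat_lit 33407136543) (nat_lit 76) (nat_lit 152150451733) (nat_lit 76) (nat_lit 59850585728) (nat_lit 4) (nat_lit 4) (nat_lit 5) (nat_lit 5) (nat_lit 5) (nat_lit 4) (nat_lit 345) (nat_lit 265) (nat_lit 110))) (XT.nd (nat_lit 78) (nat_lit 0) (nat_lit 0) (XT.lf (nat_lit 0) (nat_lit 66257789322) (nat_lit 76) (nat_lit 141414609337) (nat_lit 76) (nat_lit 49112458437) (nat_lit 4) (nat_lit 4) (nat_lit 5) (nat_lit 5) (nat_lit 5) (nat_lit 4) (nat_lit 346) (nat_lit 265) (nat_lit 109)) (XT.nd (nat_lit 78) (nat_lit 0) (nat_lit 0) (XT.lf (nat_lit 0) (nat_lit 100749470061) (nat_lit 76) (nat_lit 130142637199) (nat_lit 76) (nat_lit 37838310210) (nat_lit 4) (nat_lit 4) (nat_lit 5) (nat_lit 5) (nat_lit 5) (nat_lit 4) (nat_lit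 347) (nat_lit 265) (nat_lit 108)) (XT.lf (nat_lit 0) (nat_lit 136964301809) (nat_lit 76) (nat_lit 118307697293) (nat_lit 76) (nat_lit 26001297837) (nat_lit 4) (nat_lit 4) (nat_lit 5) (nat_lit 5) (nat_lit 5) (nat_lit 4) (nat_lit 348) (nat_lit 265) (nat_lit 107))))))))
noncomputable def xc188 : XT := (XT.nd (nat_lit 31902) (nat_lit 0) (nat_lit 2508) (XT.nd (nat_lit 31200) (nat_lit 0) (nat_lit 5016) (XT.nd (nat_lit 312) (nat_lit 76) (nat_lit 0) (XT.nd (nat_lit 156) (nat_lit 76) (nat_lit 0) (XT.nd (nat_lit 78) (nat_lit 0) (nat_lit 0) (XT.lf (nat_lit 0) (nat_lit 174988510357) (nat_lit 76) (nat_lit 105881611188) (nat_lit 76) (nat_lit 13573237955) (nat_lit 4) (nat_lit 4) (nat_lit 5) (nat_lit 5) (nat_lit 5) (nat_lit 4) (nat_lit 349) (nat_lit 265) (nat_lit 106)) (XT.lf (nat_lit 0) (nat_lit 214912629534) (nat_lit 76) (nat_lit 92834792967) (nat_lit 76) (nat_lit 524539945) (nat_lit 4) (nat_lit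 4) (nat_lit 5) (nat_lit 5) (nat_lit 5) (nat_lit 4) (nat_lit 350) (nat_lit 265) (nat_lit 105))) (XT.nd (nat_lit 78) (nat_lit 0) (nat_lit 0) (XT.lf (nat_lit 0) (nat_lit 12754154571) (nat_lit 152) (nat_lit 66166026425) (nat_lit 76) (nat_lit 243861564416) (nat_lit 3) (nat_lit 5) (nat_lit 5) (nat_lit 5) (nat_lit 4) (nat_lit 4) (nat_lit 351) (nat_lit 265) (nat_lit 104)) (XT.lf (nat_lit 0) (nat_lit 26678484280) (nat_lit 152) (nat_lit 37622855545) (nat_lit 76) (nat_lit 273715282085) (nat_lit 3) (nat_lit 5) (nat_lit 5) (nat_lit 5) (nat_lit 4) (nat_lit 4) (nat_lit 352) (nat_lit 265) (nat_lit 103)))) (XT.nd (nat_lit 234) (nat_lit 0) (nat_lit 0) (XT.nd (nat_lit 78) (nat_lit 76) (nat_lit 0) (XT.lf (nat_lit 0) (nat_lit 41298390901) (nat_lit 152) (nat_lit 7653670803) (nat_lit 76) (nat_lit 305061213228) (nat_lit 3) (nat_lit 5) (nat_lit 5) (nat_lit 5) (nat_lit 4) (nat_lit 4) (nat_lit 353) (nat_lit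 265) (nat_lit 102)) (XT.lf (nat_lit 0) (nat_lit 24600244455) (nat_lit 76) (nat_lit 32432518038) (nat_lit 152) (nat_lit 313757825316) (nat_lit 2) (nat_lit 5) (nat_lit 3) (nat_lit 5) (nat_lit 4) (nat_lit 4) (nat_lit 354) (nat_lit 265) (nat_lit 101))) (XT.nd (nat_lit 30498) (nat_lit 0) (nat_lit 5016) (XT.lf (nat_lit 0) (nat_lit 91218059750) (nat_lit 152) (nat_lit 312375396690) (nat_lit 0) (nat_lit 3294446180) (nat_lit 2) (nat_lit 5) (nat_lit 4) (nat_lit 4) (nat_lit 2) (nat_lit 4) (nat_lit 356) (nat_lit 265) (nat_lit 99)) (XT.nd (nat_lit 78) (nat_lit 0) (nat_lit 0) (XT.lf (nat_lit 0) (nat_lit 413242075) (nat_lit 0) (nat_lit 413242075) (nat_lit 684) (nat_lit 6581262291) (nat_lit 68) (nat_lit 5) (nat_lit 68) (nat_lit 3) (nat_lit 77) (nat_lit 3) (nat_lit 266) (nat_lit 266) (nat_lit 188)) (XT.lf (nat_lit 0) (nat_lit 2058248129) (nat_lit 684) (nat_lit 7837391237) (nat_lit 760) (nat_lit 5271041205)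 (nat_lit 68) (nat_lit 5) (nat_lit 77) (nat_lit 3) (nat_lit 78) (nat_lit 5) (nat_lit 267) (nat_lit 266) (nat_lit 187)))))) (XT.nd (nat_lit 312) (nat_lit 0) (nat_lit 152) (XT.nd (nat_lit 156) (nat_lit 0) (nat_lit 76) (XT.nd (nat_lit 78) (nat_lit 0) (nat_lit 76) (XT.lf (nat_lit 0) (nat_lit 2479624687) (nat_lit 684) (nat_lit 1401765869) (nat_lit 760) (nat_lit 11654309582) (nat_lit 68) (nat_lit 5) (nat_lit 77) (nat_lit 3) (nat_lit 78) (nat_lit 5) (nat_lit 268) (nat_lit 266) (nat_lit 186)) (XT.lf (nat_lit 0) (nat_lit 3030947641) (nat_lit 684) (nat_lit 10436426786) (nat_lit 760) (nat_lit 2450413455) (nat_lit 69) (nat_lit 5) (nat_lit 78) (nat_lit 5) (nat_lit 79) (nat_lit 5) (nat_lit 269) (nat_lit 266) (nat_lit 185))) (XT.nd (nat_lit 78) (nat_lit 0) (nat_lit 0) (XT.lf (nat_lit 0) (nat_lit 3681485633) (nat_lit 684) (nat_lit 3634869252) (nat_lit 760) (nat_lit 8999100854) (nat_lit 69) (nat_lit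 5) (nat_lit 78) (nat_lit 5) (nat_lit 79) (nat_lit 5) (nat_lit 270) (nat_lit 266) (nat_lit 184)) (XT.lf (nat_lit 76) (nat_lit 3612514668) (nat_lit 0) (nat_lit 793095219) (nat_lit 760) (nat_lit 12325399531) (nat_lit 70) (nat_lit 5) (nat_lit 69) (nat_lit 5) (nat_lit 79) (nat_lit 5) (nat_lit 271) (nat_lit 266) (nat_lit 183)))) (XT.nd (nat_lit 156) (nat_lit 0) (nat_lit 76) (XT.nd (nat_lit 78) (nat_lit 0) (nat_lit 0) (XT.lf (nat_lit 0) (nat_lit 5308379614) (nat_lit 684) (nat_lit 5921951016) (nat_lit 760) (nat_lit 5929940950) (nat_lit 70) (nat_lit 5) (nat_lit 79) (nat_lit 5) (nat_lit 80) (nat_lit 5) (nat_lit 272) (nat_lit 266) (nat_lit 182)) (XT.lf (nat_lit 76) (nat_lit 1664615494) (nat_lit 0) (nat_lit 4616678057) (nat_lit 760) (nat_lit 11328503261) (nat_lit 71) (nat_lit 5) (nat_lit 70) (nat_lit 5) (nat_lit 80) (nat_lit 5) (nat_lit 273) (nat_lit 266) (nat_lit 181))) (XT.nd (nat_lit 78) (nat_lit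 0) (nat_lit 0) (XT.lf (nat_lit 0) (nat_lit 7427711129) (nat_lit 684) (nat_lit 8289357438) (nat_lit 760) (nat_lit 2358534695) (nat_lit 71) (nat_lit 5) (nat_lit 80) (nat_lit 5) (nat_lit 81) (nat_lit 5) (nat_lit 274) (nat_lit 266) (nat_lit 180)) (XT.nd (nat_lit 78) (nat_lit 0) (nat_lit 0) (XT.lf (nat_lit 0) (nat_lit 8694353282) (nat_lit 684) (nat_lit 336611724) (nat_lit 760) (nat_lit 9530635422) (nat_lit 71) (nat_lit 5) (nat_lit 80) (nat_lit 5) (nat_lit 81) (nat_lit 5) (nat_lit 275) (nat_lit 266) (nat_lit 179)) (XT.lf (nat_lit 76) (nat_lit 8268720924) (nat_lit 0) (nat_lit 1872533524) (nat_lit 760) (nat_lit 8924840065) (nat_lit 72) (nat_lit 5) (nat_lit 71) (nat_lit 5) (nat_lit 81) (nat_lit 5) (nat_lit 276) (nat_lit 266) (nat_lit 178))))))) (XT.nd (nat_lit 702) (nat_lit 1064) (nat_lit 0) (XT.nd (nat_lit 312) (nat_lit 760) (nat_lit 0) (XT.nd (nat_lit 156) (nat_lit 304) (nat_lit 0) (XT.nd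 (nat_lit 78) (nat_lit 684) (nat_lit 0) (XT.lf (nat_lit 0) (nat_lit 11742704485) (nat_lit 684) (nat_lit 2377938195) (nat_lit 76) (nat_lit 5471101772) (nat_lit 72) (nat_lit 5) (nat_lit 81) (nat_lit 5) (nat_lit 73) (nat_lit 5) (nat_lit 277) (nat_lit 266) (nat_lit 177)) (XT.lf (nat_lit 0) (nat_lit 6634392515) (nat_lit 684) (nat_lit 6912964512) (nat_lit 760) (nat_lit 6590202731) (nat_lit 63) (nat_lit 5) (nat_lit 72) (nat_lit 5) (nat_lit 73) (nat_lit 5) (nat_lit 278) (nat_lit 266) (nat_lit 176))) (XT.nd (nat_lit 78) (nat_lit 304) (nat_lit 0) (XT.lf (nat_lit 0) (nat_lit 15482653444) (nat_lit 760) (nat_lit 4549802963) (nat_lit 76) (nat_lit 676226356) (nat_lit 63) (nat_lit 5) (nat_lit 73) (nat_lit 5) (nat_lit 64) (nat_lit 5) (nat_lit 279) (nat_lit 266) (nat_lit 175)) (XT.lf (nat_lit 0) (nat_lit 4884563527) (nat_lit 304) (nat_lit 12809503611) (nat_lit 380) (nat_lit 3605362869) (nat_lit 59) (nat_lit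 5) (nat_lit 63) (nat_lit 5) (nat_lit 64) (nat_lit 5) (nat_lit 280) (nat_lit 266) (nat_lit 174)))) (XT.nd (nat_lit 156) (nat_lit 304) (nat_lit 0) (XT.nd (nat_lit 78) (nat_lit 456) (nat_lit 0) (XT.lf (nat_lit 0) (nat_lit 14939088026) (nat_lit 304) (nat_lit 5144118883) (nat_lit 380) (nat_lit 1833183943) (nat_lit 59) (nat_lit 5) (nat_lit 63) (nat_lit 5) (nat_lit 64) (nat_lit 5) (nat_lit 281) (nat_lit 266) (nat_lit 173)) (XT.lf (nat_lit 0) (nat_lit 110372677) (nat_lit 456) (nat_lit 19589546063) (nat_lit 76) (nat_lit 2860107687) (nat_lit 53) (nat_lit 5) (nat_lit 59) (nat_lit 5) (nat_lit 54) (nat_lit 5) (nat_lit 282) (nat_lit 266) (nat_lit 172))) (XT.nd (nat_lit 78) (nat_lit 304) (nat_lit 0) (XT.lf (nat_lit 0) (nat_lit 2284632452) (nat_lit 456) (nat_lit 9698123434) (nat_lit 76) (nat_lit 11241858049) (nat_lit 53) (nat_lit 5) (nat_lit 59) (nat_lit 5) (nat_lit 54) (nat_lit 5) (nat_lit 283) (nat_lit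 266) (nat_lit 171)) (XT.nd (nat_lit 78) (nat_lit 0) (nat_lit 0) (XT.lf (nat_lit 0) (nat_lit 701014168) (nat_lit 304) (nat_lit 3868680026) (nat_lit 380) (nat_lit 19352660154) (nat_lit 49) (nat_lit 5) (nat_lit 53) (nat_lit 5) (nat_lit 54) (nat_lit 5) (nat_lit 284) (nat_lit 266) (nat_lit 170)) (XT.lf (nat_lit 0) (nat_lit 7199974934) (nat_lit 380) (nat_lit 12774863016) (nat_lit 76) (nat_lit 4668622184) (nat_lit 49) (nat_lit 5) (nat_lit 54) (nat_lit 5) (nat_lit 50) (nat_lit 5) (nat_lit 285) (nat_lit 266) (nat_lit 169)))))) (XT.nd (nat_lit 312) (nat_lit 532) (nat_lit 0) (XT.nd (nat_lit 156) (nat_lit 228) (nat_lit 0) (XT.nd (nat_lit 78) (nat_lit 304) (nat_lit 0) (XT.lf (nat_lit 0) (nat_lit 10017013836) (nat_lit 380) (nat_lit 1878616076) (nat_lit 76) (nat_lit 13502254470) (nat_lit 49) (nat_lit 5) (nat_lit 54) (nat_lit 5) (nat_lit 50) (nat_lit 5) (nat_lit 286) (nat_lit 266) (nat_lit 168)) (XT.lf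 (nat_lit 0) (nat_lit 9869634978) (nat_lit 304) (nat_lit 3251574883) (nat_lit 380) (nat_lit 13061528894) (nat_lit 45) (nat_lit 5) (nat_lit 49) (nat_lit 5) (nat_lit 50) (nat_lit 5) (nat_lit 287) (nat_lit 266) (nat_lit 167))) (XT.nd (nat_lit 78) (nat_lit 228) (nat_lit 0) (XT.lf (nat_lit 0) (nat_lit 16496326149) (nat_lit 380) (nat_lit 4835129070) (nat_lit 76) (nat_lit 5669618123) (nat_lit 45) (nat_lit 5) (nat_lit 50) (nat_lit 5) (nat_lit 46) (nat_lit 5) (nat_lit 288) (nat_lit 266) (nat_lit 166)) (XT.lf (nat_lit 0) (nat_lit 7391497079) (nat_lit 228) (nat_lit 12810201951) (nat_lit 304) (nat_lit 7650572512) (nat_lit 42) (nat_lit 5) (nat_lit 45) (nat_lit 5) (nat_lit 46) (nat_lit 5) (nat_lit 289) (nat_lit 266) (nat_lit 165)))) (XT.nd (nat_lit 156) (nat_lit 304) (nat_lit 0) (XT.nd (nat_lit 78) (nat_lit 228) (nat_lit 0) (XT.lf (nat_lit 0) (nat_lit 20388939816) (nat_lit 228) (nat_lit 3778292582)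 (nat_lit 304) (nat_lit 4575073543) (nat_lit 42) (nat_lit 5) (nat_lit 45) (nat_lit 5) (nat_lit 46) (nat_lit 5) (nat_lit 290) (nat_lit 266) (nat_lit 164)) (XT.lf (nat_lit 0) (nat_lit 4402947333) (nat_lit 228) (nat_lit 24079230801) (nat_lit 304) (nat_lit 1187127025) (nat_lit 39) (nat_lit 5) (nat_lit 42) (nat_lit 5) (nat_lit 43) (nat_lit 5) (nat_lit 291) (nat_lit 266) (nat_lit 163))) (XT.nd (nat_lit 78) (nat_lit 228) (nat_lit 0) (XT.lf (nat_lit 0) (nat_lit 2493466466) (nat_lit 304) (nat_lit 12658173998) (nat_lit 76) (nat_lit 15479226054) (nat_lit 38) (nat_lit 5) (nat_lit 42) (nat_lit 5) (nat_lit 39) (nat_lit 5) (nat_lit 292) (nat_lit 266) (nat_lit 162)) (XT.nd (nat_lit 78) (nat_lit 0) (nat_lit 0) (XT.lf (nat_lit 0) (nat_lit 571226011) (nat_lit 228) (nat_lit 5749586538) (nat_lit 304) (nat_lit 25318606610) (nat_lit 35) (nat_lit 5) (nat_lit 38) (nat_lit 5) (nat_lit 39) (nat_lit 5) (nat_lit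 293) (nat_lit 266) (nat_lit 161)) (XT.lf (nat_lit 0) (nat_lit 10615626531) (nat_lit 304) (nat_lit 17862181209) (nat_lit 76) (nat_lit 4206803023) (nat_lit 35) (nat_lit 5) (nat_lit 39) (nat_lit 5) (nat_lit 36) (nat_lit 5) (nat_lit 294) (nat_lit 266) (nat_lit 160))))))))
noncomputable def xc189 : XT := (XT.nd (nat_lit 1404) (nat_lit 684) (nat_lit 0) (XT.nd (nat_lit 702) (nat_lit 532) (nat_lit 0) (XT.nd (nat_lit 312) (nat_lit 456) (nat_lit 0) (XT.nd (nat_lit 156) (nat_lit 152) (nat_lit 0) (XT.nd (nat_lit 78) (nat_lit 228) (nat_lit 0) (XT.lf (nat_lit 0) (nat_lit 15213578745) (nat_lit 304) (nat_lit 4097915102) (nat_lit 76) (nat_lit 14466163802) (nat_lit 35) (nat_lit 5) (nat_lit 39) (nat_lit 5) (nat_lit 36) (nat_lit 5) (nat_lit 295) (nat_lit 266) (nat_lit 159)) (XT.lf (nat_lit 0) (nat_lit 10689267714) (nat_lit 228) (nat_lit 9513471250) (nat_lit 304) (nat_lit 14714567234) (nat_lit 32) (nat_lit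 5) (nat_lit 35) (nat_lit 5) (nat_lit 36) (nat_lit 5) (nat_lit 296) (nat_lit 266) (nat_lit 158))) (XT.nd (nat_lit 78) (nat_lit 152) (nat_lit 0) (XT.lf (nat_lit 0) (nat_lit 25518529871) (nat_lit 304) (nat_lit 9773172717) (nat_lit 76) (nat_lit 818390086) (nat_lit 32) (nat_lit 5) (nat_lit 36) (nat_lit 5) (nat_lit 33) (nat_lit 5) (nat_lit 297) (nat_lit 266) (nat_lit 157)) (XT.lf (nat_lit 0) (nat_lit 5414581553) (nat_lit 152) (nat_lit 25920827363) (nat_lit 228) (nat_lit 6015358087) (nat_lit 30) (nat_lit 5) (nat_lit 32) (nat_lit 5) (nat_lit 33) (nat_lit 5) (nat_lit 298) (nat_lit 266) (nat_lit 156)))) (XT.nd (nat_lit 156) (nat_lit 380) (nat_lit 0) (XT.nd (nat_lit 78) (nat_lit 76) (nat_lit 0) (XT.lf (nat_lit 0) (nat_lit 21693945435) (nat_lit 152) (nat_lit 15909640059) (nat_lit 228) (nat_lit 1041879693) (nat_lit 30) (nat_lit 5) (nat_lit 32) (nat_lit 5) (nat_lit 33) (nat_lit 5) (nat_lit 299)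 (nat_lit 266) (nat_lit 155)) (XT.lf (nat_lit 0) (nat_lit 4041568091) (nat_lit 228) (nat_lit 1289803922) (nat_lit 76) (nat_lit 34670520089) (nat_lit 29) (nat_lit 5) (nat_lit 32) (nat_lit 5) (nat_lit 30) (nat_lit 5) (nat_lit 300) (nat_lit 266) (nat_lit 154))) (XT.nd (nat_lit 78) (nat_lit 152) (nat_lit 0) (XT.lf (nat_lit 0) (nat_lit 9677979677) (nat_lit 304) (nat_lit 25876116332) (nat_lit 76) (nat_lit 5854511159) (nat_lit 26) (nat_lit 5) (nat_lit 30) (nat_lit 5) (nat_lit 27) (nat_lit 5) (nat_lit 301) (nat_lit 266) (nat_lit 153)) (XT.nd (nat_lit 78) (nat_lit 152) (nat_lit 0) (XT.lf (nat_lit 0) (nat_lit 15701228397) (nat_lit 304) (nat_lit 9738333932) (nat_lit 76) (nat_lit 17440855373) (nat_lit 26) (nat_lit 5) (nat_lit 30) (nat_lit 5) (nat_lit 27) (nat_lit 5) (nat_lit 302) (nat_lit 266) (nat_lit 152)) (XT.lf (nat_lit 0) (nat_lit 7438029650) (nat_lit 152) (nat_lit 14699372171) (nat_lit 228)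 (nat_lit 22282838874) (nat_lit 24) (nat_lit 5) (nat_lit 26) (nat_lit 5) (nat_lit 27) (nat_lit 5) (nat_lit 303) (nat_lit 266) (nat_lit 151)))))) (XT.nd (nat_lit 312) (nat_lit 304) (nat_lit 0) (XT.nd (nat_lit 156) (nat_lit 228) (nat_lit 0) (XT.nd (nat_lit 78) (nat_lit 0) (nat_lit 0) (XT.lf (nat_lit 0) (nat_lit 25805035805) (nat_lit 152) (nat_lit 3251015336) (nat_lit 228) (nat_lit 16972979899) (nat_lit 24) (nat_lit 5) (nat_lit 26) (nat_lit 5) (nat_lit 27) (nat_lit 5) (nat_lit 304) (nat_lit 266) (nat_lit 150)) (XT.lf (nat_lit 0) (nat_lit 36453470027) (nat_lit 228) (nat_lit 2770941087) (nat_lit 76) (nat_lit 8487217044) (nat_lit 24) (nat_lit 5) (nat_lit 27) (nat_lit 5) (nat_lit 25) (nat_lit 5) (nat_lit 305) (nat_lit 266) (nat_lit 149))) (XT.nd (nat_lit 78) (nat_lit 76) (nat_lit 0) (XT.lf (nat_lit 0) (nat_lit 16007966348) (nat_lit 152) (nat_lit 28512129084) (nat_lit 228) (nat_lit 4943301596)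 (nat_lit 22) (nat_lit 5) (nat_lit 24) (nat_lit 5) (nat_lit 25) (nat_lit 5) (nat_lit 306) (nat_lit 266) (nat_lit 148)) (XT.lf (nat_lit 0) (nat_lit 1677126252) (nat_lit 228) (nat_lit 15511400863) (nat_lit 76) (nat_lit 34110726296) (nat_lit 21) (nat_lit 5) (nat_lit 24) (nat_lit 5) (nat_lit 22) (nat_lit 5) (nat_lit 307) (nat_lit 266) (nat_lit 147)))) (XT.nd (nat_lit 156) (nat_lit 152) (nat_lit 0) (XT.nd (nat_lit 78) (nat_lit 0) (nat_lit 0) (XT.lf (nat_lit 0) (nat_lit 3350407524) (nat_lit 152) (nat_lit 5160669896) (nat_lit 228) (nat_lit 44709349338) (nat_lit 19) (nat_lit 5) (nat_lit 21) (nat_lit 5) (nat_lit 22) (nat_lit 5) (nat_lit 308) (nat_lit 266) (nat_lit 146)) (XT.lf (nat_lit 0) (nat_lit 16066709833) (nat_lit 228) (nat_lit 31657293848) (nat_lit 76) (nat_lit 7494663043) (nat_lit 19) (nat_lit 5) (nat_lit 22) (nat_lit 5) (nat_lit 20) (nat_lit 5) (nat_lit 309) (nat_lit 266) (nat_lit 145)))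 (XT.nd (nat_lit 78) (nat_lit 152) (nat_lit 0) (XT.lf (nat_lit 0) (nat_lit 24081276151) (nat_lit 228) (nat_lit 12623947589) (nat_lit 76) (nat_lit 20607544132) (nat_lit 19) (nat_lit 5) (nat_lit 22) (nat_lit 5) (nat_lit 20) (nat_lit 5) (nat_lit 310) (nat_lit 266) (nat_lit 144)) (XT.nd (nat_lit 78) (nat_lit 0) (nat_lit 0) (XT.lf (nat_lit 0) (nat_lit 7599129143) (nat_lit 152) (nat_lit 25012800715) (nat_lit 228) (nat_lit 26893882742) (nat_lit 17) (nat_lit 5) (nat_lit 19) (nat_lit 5) (nat_lit 20) (nat_lit 5) (nat_lit 311) (nat_lit 266) (nat_lit 143)) (XT.lf (nat_lit 0) (nat_lit 29266561406) (nat_lit 152) (nat_lit 12513140078) (nat_lit 228) (nat_lit 20018284982) (nat_lit 17) (nat_lit 5) (nat_lit 19) (nat_lit 5) (nat_lit 20) (nat_lit 5) (nat_lit 312) (nat_lit 266) (nat_lit 142))))))) (XT.nd (nat_lit 702) (nat_lit 304) (nat_lit 0) (XT.nd (nat_lit 312) (nat_lit 228) (nat_lit 0) (XT.nd (nat_lit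 156) (nat_lit 76) (nat_lit 0) (XT.nd (nat_lit 78) (nat_lit 76) (nat_lit 0) (XT.lf (nat_lit 0) (nat_lit 51412326541) (nat_lit 228) (nat_lit 12201913568) (nat_lit 76) (nat_lit 590211546) (nat_lit 17) (nat_lit 5) (nat_lit 20) (nat_lit 5) (nat_lit 18) (nat_lit 4) (nat_lit 313) (nat_lit 266) (nat_lit 141)) (XT.lf (nat_lit 0) (nat_lit 9229619282) (nat_lit 76) (nat_lit 52643261582) (nat_lit 152) (nat_lit 4841049931) (nat_lit 16) (nat_lit 5) (nat_lit 17) (nat_lit 5) (nat_lit 18) (nat_lit 4) (nat_lit 314) (nat_lit 266) (nat_lit 140))) (XT.nd (nat_lit 78) (nat_lit 0) (nat_lit 0) (XT.lf (nat_lit 0) (nat_lit 3602426876) (nat_lit 152) (nat_lit 37245102373) (nat_lit 76) (nat_lit 28488265945) (nat_lit 15) (nat_lit 5) (nat_lit 17) (nat_lit 5) (nat_lit 16) (nat_lit 5) (nat_lit 315) (nat_lit 266) (nat_lit 139)) (XT.lf (nat_lit 0) (nat_lit 12302604941) (nat_lit 152) (nat_lit 16077819622) (nat_lit 76)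 (nat_lit 43704504084) (nat_lit 15) (nat_lit 5) (nat_lit 17) (nat_lit 5) (nat_lit 16) (nat_lit 5) (nat_lit 316) (nat_lit 266) (nat_lit 138)))) (XT.nd (nat_lit 156) (nat_lit 76) (nat_lit 0) (XT.nd (nat_lit 78) (nat_lit 0) (nat_lit 0) (XT.lf (nat_lit 0) (nat_lit 6346649816) (nat_lit 152) (nat_lit 15187581977) (nat_lit 228) (nat_lit 53432469588) (nat_lit 13) (nat_lit 5) (nat_lit 15) (nat_lit 5) (nat_lit 16) (nat_lit 5) (nat_lit 317) (nat_lit 266) (nat_lit 137)) (XT.lf (nat_lit 0) (nat_lit 30446287956) (nat_lit 152) (nat_lit 1050848526) (nat_lit 228) (nat_lit 46481945826) (nat_lit 13) (nat_lit 5) (nat_lit 15) (nat_lit 5) (nat_lit 16) (nat_lit 5) (nat_lit 318) (nat_lit 266) (nat_lit 136))) (XT.nd (nat_lit 78) (nat_lit 76) (nat_lit 0) (XT.lf (nat_lit 0) (nat_lit 42171039023) (nat_lit 228) (nat_lit 25610658673) (nat_lit 76) (nat_lit 13349746127) (nat_lit 13) (nat_lit 5) (nat_lit 16) (nat_lit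 5) (nat_lit 14) (nat_lit 4) (nat_lit 319) (nat_lit 266) (nat_lit 135)) (XT.nd (nat_lit 78) (nat_lit 76) (nat_lit 0) (XT.lf (nat_lit 0) (nat_lit 53393491887) (nat_lit 228) (nat_lit 2613587384) (nat_lit 76) (nat_lit 28433605359) (nat_lit 13) (nat_lit 5) (nat_lit 16) (nat_lit 5) (nat_lit 14) (nat_lit 4) (nat_lit 320) (nat_lit 266) (nat_lit 134)) (XT.lf (nat_lit 0) (nat_lit 22241446318) (nat_lit 76) (nat_lit 43280613498) (nat_lit 152) (nat_lit 22376081824) (nat_lit 12) (nat_lit 5) (nat_lit 13) (nat_lit 5) (nat_lit 14) (nat_lit 4) (nat_lit 321) (nat_lit 266) (nat_lit 133)))))) (XT.nd (nat_lit 312) (nat_lit 76) (nat_lit 0) (XT.nd (nat_lit 156) (nat_lit 228) (nat_lit 0) (XT.nd (nat_lit 78) (nat_lit 0) (nat_lit 0) (XT.lf (nat_lit 0) (nat_lit 48426273813) (nat_lit 76) (nat_lit 29872835677) (nat_lit 152) (nat_lit 13227262949) (nat_lit 12) (nat_lit 5) (nat_lit 13) (nat_lit 5) (nat_lit 14) (nat_lit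 4) (nat_lit 322) (nat_lit 266) (nat_lit 132)) (XT.lf (nat_lit 0) (nat_lit 75916822924) (nat_lit 76) (nat_lit 15796084895) (nat_lit 152) (nat_lit 3623215583) (nat_lit 12) (nat_lit 5) (nat_lit 13) (nat_lit 5) (nat_lit 14) (nat_lit 4) (nat_lit 323) (nat_lit 266) (nat_lit 131))) (XT.nd (nat_lit 78) (nat_lit 0) (nat_lit 0) (XT.lf (nat_lit 0) (nat_lit 5517845537) (nat_lit 152) (nat_lit 820504545) (nat_lit 228) (nat_lit 92988765735) (nat_lit 9) (nat_lit 5) (nat_lit 11) (nat_lit 5) (nat_lit 12) (nat_lit 5) (nat_lit 324) (nat_lit 266) (nat_lit 130)) (XT.lf (nat_lit 0) (nat_lit 17241171284) (nat_lit 228) (nat_lit 71426099083) (nat_lit 76) (nat_lit 14819173548) (nat_lit 9) (nat_lit 5) (nat_lit 12) (nat_lit 5) (nat_lit 10) (nat_lit 4) (nat_lit 325) (nat_lit 266) (nat_lit 129)))) (XT.nd (nat_lit 156) (nat_lit 76) (nat_lit 0) (XT.nd (nat_lit 78) (nat_lit 0) (nat_lit 0) (XT.lf (nat_lit 0) (nat_lit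 28700663930) (nat_lit 228) (nat_lit 47940504787) (nat_lit 76) (nat_lit 31211996007) (nat_lit 9) (nat_lit 5) (nat_lit 12) (nat_lit 5) (nat_lit 10) (nat_lit 4) (nat_lit 326) (nat_lit 266) (nat_lit 128)) (XT.lf (nat_lit 0) (nat_lit 40731302154) (nat_lit 228) (nat_lit 23283758935) (nat_lit 76) (nat_lit 48423254629) (nat_lit 9) (nat_lit 5) (nat_lit 12) (nat_lit 5) (nat_lit 10) (nat_lit 4) (nat_lit 327) (nat_lit 266) (nat_lit 127))) (XT.nd (nat_lit 78) (nat_lit 0) (nat_lit 0) (XT.lf (nat_lit 0) (nat_lit 2688906821) (nat_lit 76) (nat_lit 50714804879) (nat_lit 152) (nat_lit 63847003151) (nat_lit 8) (nat_lit 5) (nat_lit 9) (nat_lit 5) (nat_lit 10) (nat_lit 4) (nat_lit 328) (nat_lit 266) (nat_lit 126)) (XT.nd (nat_lit 78) (nat_lit 0) (nat_lit 0) (XT.lf (nat_lit 0) (nat_lit 30765634253) (nat_lit 76) (nat_lit 36336724424) (nat_lit 152) (nat_lit 55181746857) (nat_lit 8) (nat_lit 5) (nat_lit 9)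 (nat_lit 5) (nat_lit 10) (nat_lit 4) (nat_lit 329) (nat_lit 266) (nat_lit 125)) (XT.lf (nat_lit 0) (nat_lit 60243406488) (nat_lit 76) (nat_lit 21240907923) (nat_lit 152) (nat_lit 46084934843) (nat_lit 8) (nat_lit 5) (nat_lit 9) (nat_lit 5) (nat_lit 10) (nat_lit 4) (nat_lit 330) (nat_lit 266) (nat_lit 124))))))))
noncomputable def xc190 : XT := (XT.nd (nat_lit 1404) (nat_lit 152) (nat_lit 0) (XT.nd (nat_lit 702) (nat_lit 76) (nat_lit 0) (XT.nd (nat_lit 312) (nat_lit 152) (nat_lit 0) (XT.nd (nat_lit 156) (nat_lit 76) (nat_lit 0) (XT.nd (nat_lit 78) (nat_lit 0) (nat_lit 0) (XT.lf (nat_lit 0) (nat_lit 91192408698) (nat_lit 76) (nat_lit 5391412956) (nat_lit 152) (nat_lit 36534908033) (nat_lit 8) (nat_lit 5) (nat_lit 9) (nat_lit 5) (nat_lit 10) (nat_lit 4) (nat_lit 331) (nat_lit 266) (nat_lit 123)) (XT.lf (nat_lit 0) (nat_lit 112612467795) (nat_lit 152) (nat_lit 15435067080) (nat_lit 0)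 (nat_lit 10889443199) (nat_lit 8) (nat_lit 5) (nat_lit 10) (nat_lit 4) (nat_lit 8) (nat_lit 4) (nat_lit 332) (nat_lit 266) (nat_lit 122))) (XT.nd (nat_lit 78) (nat_lit 0) (nat_lit 0) (XT.lf (nat_lit 0) (nat_lit 12696257389) (nat_lit 76) (nat_lit 117031478558) (nat_lit 76) (nat_lit 15304145453) (nat_lit 7) (nat_lit 4) (nat_lit 8) (nat_lit 5) (nat_lit 8) (nat_lit 4) (nat_lit 333) (nat_lit 266) (nat_lit 121)) (XT.lf (nat_lit 0) (nat_lit 42767590719) (nat_lit 76) (nat_lit 105191188475) (nat_lit 76) (nat_lit 3459752028) (nat_lit 7) (nat_lit 4) (nat_lit 8) (nat_lit 5) (nat_lit 8) (nat_lit 4) (nat_lit 334) (nat_lit 266) (nat_lit 120)))) (XT.nd (nat_lit 156) (nat_lit 76) (nat_lit 0) (XT.nd (nat_lit 78) (nat_lit 0) (nat_lit 0) (XT.lf (nat_lit 0) (nat_lit 8688199491) (nat_lit 152) (nat_lit 83924535433) (nat_lit 76) (nat_lit 65504839944) (nat_lit 6) (nat_lit 5) (nat_lit 8) (nat_lit 5) (nat_lit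 7) (nat_lit 4) (nat_lit 335) (nat_lit 266) (nat_lit 119)) (XT.lf (nat_lit 0) (nat_lit 21325996365) (nat_lit 152) (nat_lit 58020773695) (nat_lit 76) (nat_lit 85802030520) (nat_lit 6) (nat_lit 5) (nat_lit 8) (nat_lit 5) (nat_lit 7) (nat_lit 4) (nat_lit 336) (nat_lit 266) (nat_lit 118))) (XT.nd (nat_lit 78) (nat_lit 76) (nat_lit 0) (XT.lf (nat_lit 0) (nat_lit 34594462256) (nat_lit 152) (nat_lit 30823963239) (nat_lit 76) (nat_lit 107113224695) (nat_lit 6) (nat_lit 5) (nat_lit 8) (nat_lit 5) (nat_lit 7) (nat_lit 4) (nat_lit 337) (nat_lit 266) (nat_lit 117)) (XT.nd (nat_lit 78) (nat_lit 76) (nat_lit 0) (XT.lf (nat_lit 0) (nat_lit 48525188750) (nat_lit 152) (nat_lit 2269349757) (nat_lit 76) (nat_lit 129489163408) (nat_lit 6) (nat_lit 5) (nat_lit 8) (nat_lit 5) (nat_lit 7) (nat_lit 4) (nat_lit 338) (nat_lit 266) (nat_lit 116)) (XT.lf (nat_lit 0) (nat_lit 28627306517) (nat_lit 76) (nat_lit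 34970990208) (nat_lit 152) (nat_lit 124802768668) (nat_lit 5) (nat_lit 5) (nat_lit 6) (nat_lit 5) (nat_lit 7) (nat_lit 4) (nat_lit 339) (nat_lit 266) (nat_lit 115)))))) (XT.nd (nat_lit 312) (nat_lit 76) (nat_lit 0) (XT.nd (nat_lit 156) (nat_lit 0) (nat_lit 0) (XT.nd (nat_lit 78) (nat_lit 0) (nat_lit 0) (XT.lf (nat_lit 0) (nat_lit 61145673131) (nat_lit 76) (nat_lit 18316735102) (nat_lit 152) (nat_lit 117460022765) (nat_lit 5) (nat_lit 5) (nat_lit 6) (nat_lit 5) (nat_lit 7) (nat_lit 4) (nat_lit 340) (nat_lit 266) (nat_lit 114)) (XT.lf (nat_lit 0) (nat_lit 95288139814) (nat_lit 76) (nat_lit 830552737) (nat_lit 152) (nat_lit 109751225265) (nat_lit 5) (nat_lit 5) (nat_lit 6) (nat_lit 5) (nat_lit 7) (nat_lit 4) (nat_lit 341) (nat_lit 266) (nat_lit 113))) (XT.nd (nat_lit 78) (nat_lit 0) (nat_lit 0) (XT.lf (nat_lit 0) (nat_lit 113880487291) (nat_lit 152) (nat_lit 84402511022) (nat_lit 0) (nat_lit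 16968147082) (nat_lit 5) (nat_lit 5) (nat_lit 7) (nat_lit 4) (nat_lit 5) (nat_lit 4) (nat_lit 342) (nat_lit 266) (nat_lit 112)) (XT.lf (nat_lit 0) (nat_lit 132543039515) (nat_lit 152) (nat_lit 56929582416) (nat_lit 0) (nat_lit 35628180210) (nat_lit 5) (nat_lit 5) (nat_lit 7) (nat_lit 4) (nat_lit 5) (nat_lit 4) (nat_lit 343) (nat_lit 266) (nat_lit 111)))) (XT.nd (nat_lit 156) (nat_lit 0) (nat_lit 0) (XT.nd (nat_lit 78) (nat_lit 76) (nat_lit 0) (XT.lf (nat_lit 0) (nat_lit 152137816615) (nat_lit 152) (nat_lit 28084613193) (nat_lit 0) (nat_lit 55220558171) (nat_lit 5) (nat_lit 5) (nat_lit 7) (nat_lit 4) (nat_lit 5) (nat_lit 4) (nat_lit 344) (nat_lit 266) (nat_lit 110)) (XT.lf (nat_lit 0) (nat_lit 2273852629) (nat_lit 76) (nat_lit 170473121404) (nat_lit 76) (nat_lit 73553578066) (nat_lit 4) (nat_lit 4) (nat_lit 5) (nat_lit 5) (nat_lit 5) (nat_lit 4) (nat_lit 345) (nat_lit 266) (nat_lit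 109))) (XT.nd (nat_lit 78) (nat_lit 0) (nat_lit 0) (XT.lf (nat_lit 0) (nat_lit 35123771419) (nat_lit 76) (nat_lit 159737602120) (nat_lit 76) (nat_lit 62815882691) (nat_lit 4) (nat_lit 4) (nat_lit 5) (nat_lit 5) (nat_lit 5) (nat_lit 4) (nat_lit 346) (nat_lit 266) (nat_lit 108)) (XT.nd (nat_lit 78) (nat_lit 0) (nat_lit 0) (XT.lf (nat_lit 0) (nat_lit 69614753120) (nat_lit 76) (nat_lit 148465937708) (nat_lit 76) (nat_lit 51542145813) (nat_lit 4) (nat_lit 4) (nat_lit 5) (nat_lit 5) (nat_lit 5) (nat_lit 4) (nat_lit 347) (nat_lit 266) (nat_lit 107)) (XT.lf (nat_lit 0) (nat_lit 105828919118) (nat_lit 76) (nat_lit 136631290874) (nat_lit 76) (nat_lit 39705525200) (nat_lit 4) (nat_lit 4) (nat_lit 5) (nat_lit 5) (nat_lit 5) (nat_lit 4) (nat_lit 348) (nat_lit 266) (nat_lit 106))))))) (XT.nd (nat_lit 31278) (nat_lit 0) (nat_lit 5016) (XT.nd (nat_lit 312) (nat_lit 76) (nat_lit 0) (XT.nd (nat_lit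 156) (nat_lit 76) (nat_lit 0) (XT.nd (nat_lit 78) (nat_lit 0) (nat_lit 0) (XT.lf (nat_lit 0) (nat_lit 143852493618) (nat_lit 76) (nat_lit 124205483885) (nat_lit 76) (nat_lit 27277838424) (nat_lit 4) (nat_lit 4) (nat_lit 5) (nat_lit 5) (nat_lit 5) (nat_lit 4) (nat_lit 349) (nat_lit 266) (nat_lit 105)) (XT.lf (nat_lit 0) (nat_lit 183776008939) (nat_lit 76) (nat_lit 111158931489) (nat_lit 76) (nat_lit 14229495753) (nat_lit 4) (nat_lit 4) (nat_lit 5) (nat_lit 5) (nat_lit 5) (nat_lit 4) (nat_lit 350) (nat_lit 266) (nat_lit 104))) (XT.nd (nat_lit 78) (nat_lit 76) (nat_lit 0) (XT.lf (nat_lit 0) (nat_lit 225694521072) (nat_lit 76) (nat_lit 97460570463) (nat_lit 76) (nat_lit 529429704) (nat_lit 4) (nat_lit 4) (nat_lit 5) (nat_lit 5) (nat_lit 5) (nat_lit 4) (nat_lit 351) (nat_lit 266) (nat_lit 103)) (XT.lf (nat_lit 0) (nat_lit 13411533074) (nat_lit 152) (nat_lit 69439121788) (nat_lit 76) (nat_lit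 256069172121) (nat_lit 3) (nat_lit 5) (nat_lit 5) (nat_lit 5) (nat_lit 4) (nat_lit 4) (nat_lit 352) (nat_lit 266) (nat_lit 102)))) (XT.nd (nat_lit 234) (nat_lit 76) (nat_lit 0) (XT.nd (nat_lit 78) (nat_lit 0) (nat_lit 0) (XT.lf (nat_lit 0) (nat_lit 28031142565) (nat_lit 152) (nat_lit 39470468839) (nat_lit 76) (nat_lit 287414883793) (nat_lit 3) (nat_lit 5) (nat_lit 5) (nat_lit 5) (nat_lit 4) (nat_lit 4) (nat_lit 353) (nat_lit 266) (nat_lit 101)) (XT.lf (nat_lit 0) (nat_lit 43381152418) (nat_lit 152) (nat_lit 8004421502) (nat_lit 76) (nat_lit 320327452560) (nat_lit 3) (nat_lit 5) (nat_lit 5) (nat_lit 5) (nat_lit 4) (nat_lit 4) (nat_lit 354) (nat_lit 266) (nat_lit 100))) (XT.nd (nat_lit 30576) (nat_lit 0) (nat_lit 5016) (XT.lf (nat_lit 0) (nat_lit 61697997818) (nat_lit 76) (nat_lit 15685670687) (nat_lit 152) (nat_lit 330435812437) (nat_lit 2) (nat_lit 5) (nat_lit 3) (nat_lit 5) (nat_lit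 4) (nat_lit 4) (nat_lit 356) (nat_lit 266) (nat_lit 98)) (XT.nd (nat_lit 78) (nat_lit 0) (nat_lit 0) (XT.lf (nat_lit 0) (nat_lit 571196084) (nat_lit 0) (nat_lit 571196084) (nat_lit 684) (nat_lit 6621026194) (nat_lit 68) (nat_lit 5) (nat_lit 68) (nat_lit 3) (nat_lit 77) (nat_lit 3) (nat_lit 267) (nat_lit 267) (nat_lit 186)) (XT.lf (nat_lit 0) (nat_lit 2680094437) (nat_lit 684) (nat_lit 7935640194) (nat_lit 760) (nat_lit 5281454777) (nat_lit 68) (nat_lit 5) (nat_lit 77) (nat_lit 3) (nat_lit 78) (nat_lit 5) (nat_lit 268) (nat_lit 267) (nat_lit 185)))))) (XT.nd (nat_lit 312) (nat_lit 0) (nat_lit 152) (XT.nd (nat_lit 156) (nat_lit 0) (nat_lit 76) (XT.nd (nat_lit 78) (nat_lit 0) (nat_lit 76) (XT.lf (nat_lit 0) (nat_lit 3097828686) (nat_lit 684) (nat_lit 1192215491) (nat_lit 760) (nat_lit 11995940786) (nat_lit 68) (nat_lit 5) (nat_lit 77) (nat_lit 3) (nat_lit 78) (nat_lit 5) (nat_lit 269)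 (nat_lit 267) (nat_lit 184)) (XT.lf (nat_lit 0) (nat_lit 3654358590) (nat_lit 684) (nat_lit 10654546406) (nat_lit 760) (nat_lit 2379475251) (nat_lit 69) (nat_lit 5) (nat_lit 78) (nat_lit 5) (nat_lit 79) (nat_lit 5) (nat_lit 270) (nat_lit 267) (nat_lit 183))) (XT.nd (nat_lit 78) (nat_lit 0) (nat_lit 0) (XT.lf (nat_lit 0) (nat_lit 4314953788) (nat_lit 684) (nat_lit 3527372981) (nat_lit 760) (nat_lit 9264809347) (nat_lit 69) (nat_lit 5) (nat_lit 78) (nat_lit 5) (nat_lit 79) (nat_lit 5) (nat_lit 271) (nat_lit 267) (nat_lit 182)) (XT.lf (nat_lit 76) (nat_lit 4077714978) (nat_lit 0) (nat_lit 980612576) (nat_lit 760) (nat_lit 12486065034) (nat_lit 70) (nat_lit 5) (nat_lit 69) (nat_lit 5) (nat_lit 79) (nat_lit 5) (nat_lit 272) (nat_lit 267) (nat_lit 181)))) (XT.nd (nat_lit 156) (nat_lit 0) (nat_lit 76) (XT.nd (nat_lit 78) (nat_lit 0) (nat_lit 0) (XT.lf (nat_lit 0) (nat_lit 5983444901) (nat_lit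 684) (nat_lit 5922762445) (nat_lit 760) (nat_lit 6090123646) (nat_lit 70) (nat_lit 5) (nat_lit 79) (nat_lit 5) (nat_lit 80) (nat_lit 5) (nat_lit 273) (nat_lit 267) (nat_lit 180)) (XT.lf (nat_lit 76) (nat_lit 2038369711) (nat_lit 0) (nat_lit 4951663742) (nat_lit 760) (nat_lit 11479117675) (nat_lit 71) (nat_lit 5) (nat_lit 70) (nat_lit 5) (nat_lit 80) (nat_lit 5) (nat_lit 274) (nat_lit 267) (nat_lit 179))) (XT.nd (nat_lit 78) (nat_lit 0) (nat_lit 0) (XT.lf (nat_lit 0) (nat_lit 8173429185) (nat_lit 684) (nat_lit 8405458579) (nat_lit 760) (nat_lit 2380444025) (nat_lit 71) (nat_lit 5) (nat_lit 80) (nat_lit 5) (nat_lit 81) (nat_lit 5) (nat_lit 275) (nat_lit 267) (nat_lit 178)) (XT.nd (nat_lit 78) (nat_lit 0) (nat_lit 0) (XT.lf (nat_lit 0) (nat_lit 9485578088) (nat_lit 684) (nat_lit 69283519) (nat_lit 760) (nat_lit 9915722045) (nat_lit 71) (nat_lit 5) (nat_lit 80) (nat_lit 5) (nat_lit 81)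 (nat_lit 5) (nat_lit 276) (nat_lit 267) (nat_lit 177)) (XT.lf (nat_lit 76) (nat_lit 8961732556) (nat_lit 0) (nat_lit 2030480185) (nat_lit 760) (nat_lit 9008780825) (nat_lit 72) (nat_lit 5) (nat_lit 71) (nat_lit 5) (nat_lit 81) (nat_lit 5) (nat_lit 277) (nat_lit 267) (nat_lit 176))))))))
noncomputable def xc191 : XT := (XT.nd (nat_lit 1404) (nat_lit 1368) (nat_lit 0) (XT.nd (nat_lit 702) (nat_lit 1064) (nat_lit 0) (XT.nd (nat_lit 312) (nat_lit 760) (nat_lit 0) (XT.nd (nat_lit 156) (nat_lit 304) (nat_lit 0) (XT.nd (nat_lit 78) (nat_lit 684) (nat_lit 0) (XT.lf (nat_lit 0) (nat_lit 12656402904) (nat_lit 684) (nat_lit 2212087033) (nat_lit 76) (nat_lit 5685360343) (nat_lit 72) (nat_lit 5) (nat_lit 81) (nat_lit 5) (nat_lit 73) (nat_lit 5) (nat_lit 278) (nat_lit 267) (nat_lit 175)) (XT.lf (nat_lit 0) (nat_lit 7246267501) (nat_lit 684) (nat_lit 7293843954) (nat_lit 760) (nat_lit 6587458644)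 (nat_lit 63) (nat_lit 5) (nat_lit 72) (nat_lit 5) (nat_lit 73) (nat_lit 5) (nat_lit 279) (nat_lit 267) (nat_lit 174))) (XT.nd (nat_lit 78) (nat_lit 304) (nat_lit 0) (XT.lf (nat_lit 0) (nat_lit 16556630420) (nat_lit 760) (nat_lit 4493890192) (nat_lit 76) (nat_lit 677558057) (nat_lit 63) (nat_lit 5) (nat_lit 73) (nat_lit 5) (nat_lit 64) (nat_lit 5) (nat_lit 280) (nat_lit 267) (nat_lit 173)) (XT.lf (nat_lit 0) (nat_lit 5407623608) (nat_lit 304) (nat_lit 13461066238) (nat_lit 380) (nat_lit 3480219487) (nat_lit 59) (nat_lit 5) (nat_lit 63) (nat_lit 5) (nat_lit 64) (nat_lit 5) (nat_lit 281) (nat_lit 267) (nat_lit 172)))) (XT.nd (nat_lit 156) (nat_lit 304) (nat_lit 0) (XT.nd (nat_lit 78) (nat_lit 456) (nat_lit 0) (XT.lf (nat_lit 0) (nat_lit 15951596622) (nat_lit 304) (nat_lit 5411884300) (nat_lit 380) (nat_lit 1633975021) (nat_lit 59) (nat_lit 5) (nat_lit 63) (nat_lit 5) (nat_lit 64) (nat_lit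 5) (nat_lit 282) (nat_lit 267) (nat_lit 171)) (XT.lf (nat_lit 0) (nat_lit 388261676) (nat_lit 456) (nat_lit 20283207268) (nat_lit 76) (nat_lit 3002079725) (nat_lit 53) (nat_lit 5) (nat_lit 59) (nat_lit 5) (nat_lit 54) (nat_lit 5) (nat_lit 283) (nat_lit 267) (nat_lit 170))) (XT.nd (nat_lit 78) (nat_lit 304) (nat_lit 0) (XT.lf (nat_lit 0) (nat_lit 2658264422) (nat_lit 456) (nat_lit 9910823798) (nat_lit 76) (nat_lit 11802966812) (nat_lit 53) (nat_lit 5) (nat_lit 59) (nat_lit 5) (nat_lit 54) (nat_lit 5) (nat_lit 284) (nat_lit 267) (nat_lit 169)) (XT.nd (nat_lit 78) (nat_lit 0) (nat_lit 0) (XT.lf (nat_lit 0) (nat_lit 1003880268) (nat_lit 304) (nat_lit 4045527935) (nat_lit 380) (nat_lit 20055721844) (nat_lit 49) (nat_lit 5) (nat_lit 53) (nat_lit 5) (nat_lit 54) (nat_lit 5) (nat_lit 285) (nat_lit 267) (nat_lit 168)) (XT.lf (nat_lit 0) (nat_lit 7799486304) (nat_lit 380) (nat_lit 13146083829)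 (nat_lit 76) (nat_lit 4917343992) (nat_lit 49) (nat_lit 5) (nat_lit 54) (nat_lit 5) (nat_lit 50) (nat_lit 5) (nat_lit 286) (nat_lit 267) (nat_lit 167)))))) (XT.nd (nat_lit 312) (nat_lit 532) (nat_lit 0) (XT.nd (nat_lit 156) (nat_lit 228) (nat_lit 0) (XT.nd (nat_lit 78) (nat_lit 304) (nat_lit 0) (XT.lf (nat_lit 0) (nat_lit 10745971789) (nat_lit 380) (nat_lit 1717763701) (nat_lit 76) (nat_lit 14191929764) (nat_lit 49) (nat_lit 5) (nat_lit 54) (nat_lit 5) (nat_lit 50) (nat_lit 5) (nat_lit 287) (nat_lit 267) (nat_lit 166)) (XT.lf (nat_lit 0) (nat_lit 10613790500) (nat_lit 304) (nat_lit 3384638584) (nat_lit 380) (nat_lit 13481714400) (nat_lit 45) (nat_lit 5) (nat_lit 49) (nat_lit 5) (nat_lit 50) (nat_lit 5) (nat_lit 288) (nat_lit 267) (nat_lit 165))) (XT.nd (nat_lit 78) (nat_lit 228) (nat_lit 0) (XT.lf (nat_lit 0) (nat_lit 17532208688) (nat_lit 380) (nat_lit 4827413934) (nat_lit 76) (nat_lit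 5980308912) (nat_lit 45) (nat_lit 5) (nat_lit 50) (nat_lit 5) (nat_lit 46) (nat_lit 5) (nat_lit 289) (nat_lit 267) (nat_lit 164)) (XT.lf (nat_lit 0) (nat_lit 8006519788) (nat_lit 228) (nat_lit 13410111782) (nat_lit 304) (nat_lit 7817399587) (nat_lit 42) (nat_lit 5) (nat_lit 45) (nat_lit 5) (nat_lit 46) (nat_lit 5) (nat_lit 290) (nat_lit 267) (nat_lit 163)))) (XT.nd (nat_lit 156) (nat_lit 304) (nat_lit 0) (XT.nd (nat_lit 78) (nat_lit 228) (nat_lit 0) (XT.lf (nat_lit 0) (nat_lit 21642146668) (nat_lit 228) (nat_lit 3928540290) (nat_lit 304) (nat_lit 4598397172) (nat_lit 42) (nat_lit 5) (nat_lit 45) (nat_lit 5) (nat_lit 46) (nat_lit 5) (nat_lit 291) (nat_lit 267) (nat_lit 162)) (XT.lf (nat_lit 0) (nat_lit 4862660659) (nat_lit 228) (nat_lit 25233744429) (nat_lit 304) (nat_lit 1046304701) (nat_lit 39) (nat_lit 5) (nat_lit 42) (nat_lit 5) (nat_lit 43) (nat_lit 5) (nat_lit 292) (nat_lit 267)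 (nat_lit 161))) (XT.nd (nat_lit 78) (nat_lit 228) (nat_lit 0) (XT.lf (nat_lit 0) (nat_lit 2802684273) (nat_lit 304) (nat_lit 13056319615) (nat_lit 76) (nat_lit 16293675580) (nat_lit 38) (nat_lit 5) (nat_lit 42) (nat_lit 5) (nat_lit 39) (nat_lit 5) (nat_lit 293) (nat_lit 267) (nat_lit 160)) (XT.nd (nat_lit 78) (nat_lit 0) (nat_lit 0) (XT.lf (nat_lit 0) (nat_lit 830763894) (nat_lit 228) (nat_lit 5985452126) (nat_lit 304) (nat_lit 26395726763) (nat_lit 35) (nat_lit 5) (nat_lit 38) (nat_lit 5) (nat_lit 39) (nat_lit 5) (nat_lit 294) (nat_lit 267) (nat_lit 159)) (XT.lf (nat_lit 0) (nat_lit 11317997074) (nat_lit 304) (nat_lit 18527082573) (nat_lit 76) (nat_lit 4464725819) (nat_lit 35) (nat_lit 5) (nat_lit 39) (nat_lit 5) (nat_lit 36) (nat_lit 5) (nat_lit 295) (nat_lit 267) (nat_lit 158))))))) (XT.nd (nat_lit 702) (nat_lit 532) (nat_lit 0) (XT.nd (nat_lit 312) (nat_lit 456) (nat_lit 0) (XT.nd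 (nat_lit 156) (nat_lit 152) (nat_lit 0) (XT.nd (nat_lit 78) (nat_lit 228) (nat_lit 0) (XT.lf (nat_lit 0) (nat_lit 16137675984) (nat_lit 304) (nat_lit 4085470194) (nat_lit 76) (nat_lit 15234788797) (nat_lit 35) (nat_lit 5) (nat_lit 39) (nat_lit 5) (nat_lit 36) (nat_lit 5) (nat_lit 296) (nat_lit 267) (nat_lit 157)) (XT.lf (nat_lit 0) (nat_lit 11437566268) (nat_lit 228) (nat_lit 9934284688) (nat_lit 304) (nat_lit 15282957856) (nat_lit 32) (nat_lit 5) (nat_lit 35) (nat_lit 5) (nat_lit 36) (nat_lit 5) (nat_lit 297) (nat_lit 267) (nat_lit 156))) (XT.nd (nat_lit 78) (nat_lit 152) (nat_lit 0) (XT.lf (nat_lit 0) (nat_lit 26946676902) (nat_lit 304) (nat_lit 10051030072) (nat_lit 76) (nat_lit 909885075) (nat_lit 32) (nat_lit 5) (nat_lit 36) (nat_lit 5) (nat_lit 33) (nat_lit 5) (nat_lit 298) (nat_lit 267) (nat_lit 155)) (XT.lf (nat_lit 0) (nat_lit 5892711891) (nat_lit 152) (nat_lit 27157677526)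 (nat_lit 228) (nat_lit 6160129974) (nat_lit 30) (nat_lit 5) (nat_lit 32) (nat_lit 5) (nat_lit 33) (nat_lit 5) (nat_lit 299) (nat_lit 267) (nat_lit 154)))) (XT.nd (nat_lit 156) (nat_lit 380) (nat_lit 0) (XT.nd (nat_lit 78) (nat_lit 76) (nat_lit 0) (XT.lf (nat_lit 0) (nat_lit 22976167717) (nat_lit 152) (nat_lit 16648749486) (nat_lit 228) (nat_lit 945406041) (nat_lit 30) (nat_lit 5) (nat_lit 32) (nat_lit 5) (nat_lit 33) (nat_lit 5) (nat_lit 300) (nat_lit 267) (nat_lit 153)) (XT.lf (nat_lit 0) (nat_lit 4380610824) (nat_lit 228) (nat_lit 1161322066) (nat_lit 76) (nat_lit 36452881266) (nat_lit 29) (nat_lit 5) (nat_lit 32) (nat_lit 5) (nat_lit 30) (nat_lit 5) (nat_lit 301) (nat_lit 267) (nat_lit 152))) (XT.nd (nat_lit 78) (nat_lit 152) (nat_lit 0) (XT.lf (nat_lit 0) (nat_lit 10296166510) (nat_lit 304) (nat_lit 26973964725) (nat_lit 76) (nat_lit 6201883006) (nat_lit 26) (nat_lit 5) (nat_lit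 30) (nat_lit 5) (nat_lit 27) (nat_lit 5) (nat_lit 302) (nat_lit 267) (nat_lit 151)) (XT.nd (nat_lit 78) (nat_lit 152) (nat_lit 0) (XT.lf (nat_lit 0) (nat_lit 16614183006) (nat_lit 304) (nat_lit 10038624512) (nat_lit 76) (nat_lit 18364942228) (nat_lit 26) (nat_lit 5) (nat_lit 30) (nat_lit 5) (nat_lit 27) (nat_lit 5) (nat_lit 303) (nat_lit 267) (nat_lit 150)) (XT.lf (nat_lit 0) (nat_lit 7993547151) (nat_lit 152) (nat_lit 15375394560) (nat_lit 228) (nat_lit 23265797355) (nat_lit 24) (nat_lit 5) (nat_lit 26) (nat_lit 5) (nat_lit 27) (nat_lit 5) (nat_lit 304) (nat_lit 267) (nat_lit 149)))))) (XT.nd (nat_lit 390) (nat_lit 152) (nat_lit 0) (XT.nd (nat_lit 156) (nat_lit 380) (nat_lit 0) (XT.nd (nat_lit 78) (nat_lit 0) (nat_lit 0) (XT.lf (nat_lit 0) (nat_lit 27270159994) (nat_lit 152) (nat_lit 3357426846) (nat_lit 228) (nat_lit 17696692264) (nat_lit 24) (nat_lit 5) (nat_lit 26) (nat_lit 5)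 (nat_lit 27) (nat_lit 5) (nat_lit 305) (nat_lit 267) (nat_lit 148)) (XT.lf (nat_lit 0) (nat_lit 38390057463) (nat_lit 228) (nat_lit 2737869669) (nat_lit 76) (nat_lit 8963332611) (nat_lit 24) (nat_lit 5) (nat_lit 27) (nat_lit 5) (nat_lit 25) (nat_lit 5) (nat_lit 306) (nat_lit 267) (nat_lit 147))) (XT.nd (nat_lit 78) (nat_lit 228) (nat_lit 0) (XT.lf (nat_lit 0) (nat_lit 16977215099) (nat_lit 152) (nat_lit 29880010796) (nat_lit 228) (nat_lit 5073542675) (nat_lit 22) (nat_lit 5) (nat_lit 24) (nat_lit 5) (nat_lit 25) (nat_lit 5) (nat_lit 307) (nat_lit 267) (nat_lit 146)) (XT.nd (nat_lit 78) (nat_lit 152) (nat_lit 0) (XT.lf (nat_lit 0) (nat_lit 1868774662) (nat_lit 228) (nat_lit 16122377353) (nat_lit 76) (nat_lit 35867454938) (nat_lit 21) (nat_lit 5) (nat_lit 24) (nat_lit 5) (nat_lit 22) (nat_lit 5) (nat_lit 308) (nat_lit 267) (nat_lit 145)) (XT.lf (nat_lit 0) (nat_lit 3679866719) (nat_lit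 152) (nat_lit 5361952031) (nat_lit 228) (nat_lit 46834160903) (nat_lit 19) (nat_lit 5) (nat_lit 21) (nat_lit 5) (nat_lit 22) (nat_lit 5) (nat_lit 309) (nat_lit 267) (nat_lit 144))))) (XT.nd (nat_lit 156) (nat_lit 152) (nat_lit 0) (XT.nd (nat_lit 78) (nat_lit 0) (nat_lit 0) (XT.lf (nat_lit 0) (nat_lit 16971067712) (nat_lit 228) (nat_lit 33081566908) (nat_lit 76) (nat_lit 7921715207) (nat_lit 19) (nat_lit 5) (nat_lit 22) (nat_lit 5) (nat_lit 20) (nat_lit 5) (nat_lit 310) (nat_lit 267) (nat_lit 143)) (XT.lf (nat_lit 0) (nat_lit 25381551756) (nat_lit 228) (nat_lit 13104105319) (nat_lit 76) (nat_lit 21687748969) (nat_lit 19) (nat_lit 5) (nat_lit 22) (nat_lit 5) (nat_lit 20) (nat_lit 5) (nat_lit 311) (nat_lit 267) (nat_lit 142))) (XT.nd (nat_lit 78) (nat_lit 0) (nat_lit 0) (XT.lf (nat_lit 0) (nat_lit 8127689126) (nat_lit 152) (nat_lit 26208787625) (nat_lit 228) (nat_lit 28139748355) (nat_lit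 17) (nat_lit 5) (nat_lit 19) (nat_lit 5) (nat_lit 20) (nat_lit 5) (nat_lit 312) (nat_lit 267) (nat_lit 141)) (XT.nd (nat_lit 78) (nat_lit 0) (nat_lit 0) (XT.lf (nat_lit 0) (nat_lit 30871416644) (nat_lit 152) (nat_lit 13086746486) (nat_lit 228) (nat_lit 20925076828) (nat_lit 17) (nat_lit 5) (nat_lit 19) (nat_lit 5) (nat_lit 20) (nat_lit 5) (nat_lit 313) (nat_lit 267) (nat_lit 140)) (XT.lf (nat_lit 0) (nat_lit 54068932609) (nat_lit 228) (nat_lit 12673570824) (nat_lit 76) (nat_lit 667707506) (nat_lit 17) (nat_lit 5) (nat_lit 20) (nat_lit 5) (nat_lit 18) (nat_lit 4) (nat_lit 314) (nat_lit 267) (nat_lit 139))))))))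
noncomputable def xc192 : XT := (XT.nd (nat_lit 1404) (nat_lit 304) (nat_lit 0) (XT.nd (nat_lit 702) (nat_lit 304) (nat_lit 0) (XT.nd (nat_lit 312) (nat_lit 76) (nat_lit 0) (XT.nd (nat_lit 156) (nat_lit 152) (nat_lit 0) (XT.nd (nat_lit 78) (nat_lit 76) (nat_lit 0) (XT.lf (nat_lit 0) (nat_lit 9827305791) (nat_lit 76) (nat_lit 55223240658) (nat_lit 152) (nat_lit 4994723798) (nat_lit 16) (nat_lit 5) (nat_lit 17) (nat_lit 5) (nat_lit 18) (nat_lit 4) (nat_lit 315) (nat_lit 267) (nat_lit 138)) (XT.lf (nat_lit 0) (nat_lit 3864024374) (nat_lit 152) (nat_lit 38974802449) (nat_lit 76) (nat_lit 29959542816) (nat_lit 15) (nat_lit 5) (nat_lit 17) (nat_lit 5) (nat_lit 16) (nat_lit 5) (nat_lit 316) (nat_lit 267) (nat_lit 137))) (XT.nd (nat_lit 78) (nat_lit 152) (nat_lit 0) (XT.lf (nat_lit 0) (nat_lit 12995331525) (nat_lit 152) (nat_lit 16755467706) (nat_lit 76) (nat_lit 45934361264) (nat_lit 15)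 (nat_lit 5) (nat_lit 17) (nat_lit 5) (nat_lit 16) (nat_lit 5) (nat_lit 317) (nat_lit 267) (nat_lit 136)) (XT.lf (nat_lit 0) (nat_lit 6788189029) (nat_lit 152) (nat_lit 15898594842) (nat_lit 228) (nat_lit 56024332203) (nat_lit 13) (nat_lit 5) (nat_lit 15) (nat_lit 5) (nat_lit 16) (nat_lit 5) (nat_lit 318) (nat_lit 267) (nat_lit 135)))) (XT.nd (nat_lit 156) (nat_lit 76) (nat_lit 0) (XT.nd (nat_lit 78) (nat_lit 0) (nat_lit 0) (XT.lf (nat_lit 0) (nat_lit 32086894471) (nat_lit 152) (nat_lit 1057327872) (nat_lit 228) (nat_lit 48730080390) (nat_lit 13) (nat_lit 5) (nat_lit 15) (nat_lit 5) (nat_lit 16) (nat_lit 5) (nat_lit 319) (nat_lit 267) (nat_lit 134)) (XT.lf (nat_lit 0) (nat_lit 44349065460) (nat_lit 228) (nat_lit 26775661480) (nat_lit 76) (nat_lit 14059698932) (nat_lit 13) (nat_lit 5) (nat_lit 16) (nat_lit 5) (nat_lit 14) (nat_lit 4) (nat_lit 320) (nat_lit 267) (nat_lit 133))) (XT.nd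 (nat_lit 78) (nat_lit 76) (nat_lit 0) (XT.lf (nat_lit 0) (nat_lit 56129332658) (nat_lit 228) (nat_lit 2634238061) (nat_lit 76) (nat_lit 29895728959) (nat_lit 13) (nat_lit 5) (nat_lit 16) (nat_lit 5) (nat_lit 14) (nat_lit 4) (nat_lit 321) (nat_lit 267) (nat_lit 132)) (XT.nd (nat_lit 78) (nat_lit 0) (nat_lit 0) (XT.lf (nat_lit 0) (nat_lit 23461772670) (nat_lit 76) (nat_lit 45401095693) (nat_lit 152) (nat_lit 23426839487) (nat_lit 12) (nat_lit 5) (nat_lit 13) (nat_lit 5) (nat_lit 14) (nat_lit 4) (nat_lit 322) (nat_lit 267) (nat_lit 131)) (XT.lf (nat_lit 0) (nat_lit 50950686585) (nat_lit 76) (nat_lit 31325002718) (nat_lit 152) (nat_lit 13823819974) (nat_lit 12) (nat_lit 5) (nat_lit 13) (nat_lit 5) (nat_lit 14) (nat_lit 4) (nat_lit 323) (nat_lit 267) (nat_lit 130)))))) (XT.nd (nat_lit 312) (nat_lit 76) (nat_lit 0) (XT.nd (nat_lit 156) (nat_lit 0) (nat_lit 0) (XT.nd (nat_lit 78) (nat_lit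 228) (nat_lit 0) (XT.lf (nat_lit 0) (nat_lit 79810853672) (nat_lit 76) (nat_lit 16546389385) (nat_lit 152) (nat_lit 3742656246) (nat_lit 12) (nat_lit 5) (nat_lit 13) (nat_lit 5) (nat_lit 14) (nat_lit 4) (nat_lit 324) (nat_lit 267) (nat_lit 129)) (XT.lf (nat_lit 0) (nat_lit 5892377025) (nat_lit 152) (nat_lit 821330297) (nat_lit 228) (nat_lit 97576755425) (nat_lit 9) (nat_lit 5) (nat_lit 11) (nat_lit 5) (nat_lit 12) (nat_lit 5) (nat_lit 325) (nat_lit 267) (nat_lit 128))) (XT.nd (nat_lit 78) (nat_lit 0) (nat_lit 0) (XT.lf (nat_lit 0) (nat_lit 18159484479) (nat_lit 228) (nat_lit 74901194090) (nat_lit 76) (nat_lit 15597192074) (nat_lit 9) (nat_lit 5) (nat_lit 12) (nat_lit 5) (nat_lit 10) (nat_lit 4) (nat_lit 326) (nat_lit 267) (nat_lit 127)) (XT.lf (nat_lit 0) (nat_lit 30189272967) (nat_lit 228) (nat_lit 50245901506) (nat_lit 76) (nat_lit 32807890901) (nat_lit 9) (nat_lit 5) (nat_lit 12)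 (nat_lit 5) (nat_lit 10) (nat_lit 4) (nat_lit 327) (nat_lit 267) (nat_lit 126)))) (XT.nd (nat_lit 156) (nat_lit 0) (nat_lit 0) (XT.nd (nat_lit 78) (nat_lit 76) (nat_lit 0) (XT.lf (nat_lit 0) (nat_lit 42818891870) (nat_lit 228) (nat_lit 24360681624) (nat_lit 76) (nat_lit 50878031735) (nat_lit 9) (nat_lit 5) (nat_lit 12) (nat_lit 5) (nat_lit 10) (nat_lit 4) (nat_lit 328) (nat_lit 267) (nat_lit 125)) (XT.lf (nat_lit 0) (nat_lit 2909209916) (nat_lit 76) (nat_lit 53214622715) (nat_lit 152) (nat_lit 66986849725) (nat_lit 8) (nat_lit 5) (nat_lit 9) (nat_lit 5) (nat_lit 10) (nat_lit 4) (nat_lit 329) (nat_lit 267) (nat_lit 124))) (XT.nd (nat_lit 78) (nat_lit 0) (nat_lit 0) (XT.lf (nat_lit 0) (nat_lit 32385685255) (nat_lit 76) (nat_lit 38119348828) (nat_lit 152) (nat_lit 57890830787) (nat_lit 8) (nat_lit 5) (nat_lit 9) (nat_lit 5) (nat_lit 10) (nat_lit 4) (nat_lit 330) (nat_lit 267) (nat_lit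 123)) (XT.nd (nat_lit 78) (nat_lit 0) (nat_lit 0) (XT.lf (nat_lit 0) (nat_lit 63333452326) (nat_lit 76) (nat_lit 22270370636) (nat_lit 152) (nat_lit 48341559287) (nat_lit 8) (nat_lit 5) (nat_lit 9) (nat_lit 5) (nat_lit 10) (nat_lit 4) (nat_lit 331) (nat_lit 267) (nat_lit 122)) (XT.lf (nat_lit 0) (nat_lit 95826196289) (nat_lit 76) (nat_lit 5629952477) (nat_lit 152) (nat_lit 38316298865) (nat_lit 8) (nat_lit 5) (nat_lit 9) (nat_lit 5) (nat_lit 10) (nat_lit 4) (nat_lit 332) (nat_lit 267) (nat_lit 121))))))) (XT.nd (nat_lit 702) (nat_lit 76) (nat_lit 0) (XT.nd (nat_lit 312) (nat_lit 76) (nat_lit 0) (XT.nd (nat_lit 156) (nat_lit 76) (nat_lit 0) (XT.nd (nat_lit 78) (nat_lit 76) (nat_lit 0) (XT.lf (nat_lit 0) (nat_lit 118284634529) (nat_lit 152) (nat_lit 16134533564) (nat_lit 0) (nat_lit 11462522918) (nat_lit 8) (nat_lit 5) (nat_lit 10) (nat_lit 4) (nat_lit 8) (nat_lit 4) (nat_lit 333) (nat_lit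 267) (nat_lit 120)) (XT.lf (nat_lit 0) (nat_lit 13402191212) (nat_lit 76) (nat_lit 122852607021) (nat_lit 76) (nat_lit 16026587465) (nat_lit 7) (nat_lit 4) (nat_lit 8) (nat_lit 5) (nat_lit 8) (nat_lit 4) (nat_lit 334) (nat_lit 267) (nat_lit 119))) (XT.nd (nat_lit 78) (nat_lit 76) (nat_lit 0) (XT.lf (nat_lit 0) (nat_lit 44973704496) (nat_lit 76) (nat_lit 110421752217) (nat_lit 76) (nat_lit 3592010809) (nat_lit 7) (nat_lit 4) (nat_lit 8) (nat_lit 5) (nat_lit 8) (nat_lit 4) (nat_lit 335) (nat_lit 267) (nat_lit 118)) (XT.lf (nat_lit 0) (nat_lit 9160157317) (nat_lit 152) (nat_lit 88054963528) (nat_lit 76) (nat_lit 68806407000) (nat_lit 6) (nat_lit 5) (nat_lit 8) (nat_lit 5) (nat_lit 7) (nat_lit 4) (nat_lit 336) (nat_lit 267) (nat_lit 117)))) (XT.nd (nat_lit 156) (nat_lit 76) (nat_lit 0) (XT.nd (nat_lit 78) (nat_lit 0) (nat_lit 0) (XT.lf (nat_lit 0) (nat_lit 22428056041) (nat_lit 152) (nat_lit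 60859146973) (nat_lit 76) (nat_lit 90117203531) (nat_lit 6) (nat_lit 5) (nat_lit 8) (nat_lit 5) (nat_lit 7) (nat_lit 4) (nat_lit 337) (nat_lit 267) (nat_lit 116)) (XT.lf (nat_lit 0) (nat_lit 36358242376) (nat_lit 152) (nat_lit 32305480062) (nat_lit 76) (nat_lit 112492763534) (nat_lit 6) (nat_lit 5) (nat_lit 8) (nat_lit 5) (nat_lit 7) (nat_lit 4) (nat_lit 338) (nat_lit 267) (nat_lit 115))) (XT.nd (nat_lit 78) (nat_lit 76) (nat_lit 0) (XT.lf (nat_lit 0) (nat_lit 50983883433) (nat_lit 152) (nat_lit 2325977874) (nat_lit 76) (nat_lit 135986362154) (nat_lit 6) (nat_lit 5) (nat_lit 8) (nat_lit 5) (nat_lit 7) (nat_lit 4) (nat_lit 339) (nat_lit 267) (nat_lit 114)) (XT.nd (nat_lit 78) (nat_lit 0) (nat_lit 0) (XT.lf (nat_lit 0) (nat_lit 30114594450) (nat_lit 76) (nat_lit 36695380930) (nat_lit 152) (nat_lit 131009515295) (nat_lit 5) (nat_lit 5) (nat_lit 6) (nat_lit 5) (nat_lit 7) (nat_lit 4) (nat_lit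 340) (nat_lit 267) (nat_lit 113)) (XT.lf (nat_lit 0) (nat_lit 64256216413) (nat_lit 76) (nat_lit 19209563488) (nat_lit 152) (nat_lit 123301222183) (nat_lit 5) (nat_lit 5) (nat_lit 6) (nat_lit 5) (nat_lit 7) (nat_lit 4) (nat_lit 341) (nat_lit 267) (nat_lit 112)))))) (XT.nd (nat_lit 312) (nat_lit 76) (nat_lit 0) (XT.nd (nat_lit 156) (nat_lit 0) (nat_lit 0) (XT.nd (nat_lit 78) (nat_lit 0) (nat_lit 0) (XT.lf (nat_lit 0) (nat_lit 100103270258) (nat_lit 76) (nat_lit 850167640) (nat_lit 152) (nat_lit 115208499175) (nat_lit 5) (nat_lit 5) (nat_lit 6) (nat_lit 5) (nat_lit 7) (nat_lit 4) (nat_lit 342) (nat_lit 267) (nat_lit 111)) (XT.lf (nat_lit 0) (nat_lit 119602276265) (nat_lit 152) (nat_lit 88573248034) (nat_lit 0) (nat_lit 17836755759) (nat_lit 5) (nat_lit 5) (nat_lit 7) (nat_lit 4) (nat_lit 5) (nat_lit 4) (nat_lit 343) (nat_lit 267) (nat_lit 110))) (XT.nd (nat_lit 78) (nat_lit 0) (nat_lit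 0) (XT.lf (nat_lit 0) (nat_lit 139196633975) (nat_lit 152) (nat_lit 59729024832) (nat_lit 0) (nat_lit 37428828575) (nat_lit 5) (nat_lit 5) (nat_lit 7) (nat_lit 4) (nat_lit 5) (nat_lit 4) (nat_lit 344) (nat_lit 267) (nat_lit 109)) (XT.lf (nat_lit 0) (nat_lit 159769890764) (nat_lit 152) (nat_lit 29444046991) (nat_lit 0) (nat_lit 57999909274) (nat_lit 5) (nat_lit 5) (nat_lit 7) (nat_lit 4) (nat_lit 5) (nat_lit 4) (nat_lit 345) (nat_lit 267) (nat_lit 108)))) (XT.nd (nat_lit 156) (nat_lit 0) (nat_lit 0) (XT.nd (nat_lit 78) (nat_lit 0) (nat_lit 0) (XT.lf (nat_lit 0) (nat_lit 2431619593) (nat_lit 76) (nat_lit 178977375380) (nat_lit 76) (nat_lit 77205321423) (nat_lit 4) (nat_lit 4) (nat_lit 5) (nat_lit 5) (nat_lit 5) (nat_lit 4) (nat_lit 346) (nat_lit 267) (nat_lit 107)) (XT.lf (nat_lit 0) (nat_lit 36921935543) (nat_lit 76) (nat_lit 167706004040) (nat_lit 76) (nat_lit 65931976306) (nat_lit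 4) (nat_lit 4) (nat_lit 5) (nat_lit 5) (nat_lit 5) (nat_lit 4) (nat_lit 347) (nat_lit 267) (nat_lit 106))) (XT.nd (nat_lit 78) (nat_lit 0) (nat_lit 0) (XT.lf (nat_lit 0) (nat_lit 73135467494) (nat_lit 76) (nat_lit 155871636322) (nat_lit 76) (nat_lit 54095728799) (nat_lit 4) (nat_lit 4) (nat_lit 5) (nat_lit 5) (nat_lit 5) (nat_lit 4) (nat_lit 348) (nat_lit 267) (nat_lit 105)) (XT.nd (nat_lit 78) (nat_lit 0) (nat_lit 0) (XT.lf (nat_lit 0) (nat_lit 111158438138) (nat_lit 76) (nat_lit 143446095158) (nat_lit 76) (nat_lit 41668397361) (nat_lit 4) (nat_lit 4) (nat_lit 5) (nat_lit 5) (nat_lit 5) (nat_lit 4) (nat_lit 349) (nat_lit 267) (nat_lit 104)) (XT.lf (nat_lit 0) (nat_lit 151081378360) (nat_lit 76) (nat_lit 130399795928) (nat_lit 76) (nat_lit 28620393107) (nat_lit 4) (nat_lit 4) (nat_lit 5) (nat_lit 5) (nat_lit 5) (nat_lit 4) (nat_lit 350) (nat_lit 267) (nat_lit 103))))))))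
noncomputable def xc193 : XT := (XT.nd (nat_lit 32136) (nat_lit 0) (nat_lit 2280) (XT.nd (nat_lit 31434) (nat_lit 0) (nat_lit 4636) (XT.nd (nat_lit 31044) (nat_lit 0) (nat_lit 5016) (XT.nd (nat_lit 156) (nat_lit 152) (nat_lit 0) (XT.nd (nat_lit 78) (nat_lit 0) (nat_lit 0) (XT.lf (nat_lit 0) (nat_lit 192999342779) (nat_lit 76) (nat_lit 116701676014) (nat_lit 76) (nat_lit 14920649361) (nat_lit 4) (nat_lit 4) (nat_lit 5) (nat_lit 5) (nat_lit 5) (nat_lit 4) (nat_lit 351) (nat_lit 267) (nat_lit 102)) (XT.lf (nat_lit 0) (nat_lit 237012136071) (nat_lit 76) (nat_lit 102319120845) (nat_lit 76) (nat_lit 536547686) (nat_lit 4) (nat_lit 4) (nat_lit 5) (nat_lit 5) (nat_lit 5) (nat_lit 4) (nat_lit 352) (nat_lit 267) (nat_lit 101))) (XT.nd (nat_lit 234) (nat_lit 76) (nat_lit 0) (XT.lf (nat_lit 0) (nat_lit 14099951700) (nat_lit 152) (nat_lit 72879145037) (nat_lit 76) (nat_lit 268885809397) (nat_lit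 3) (nat_lit 5) (nat_lit 5) (nat_lit 5) (nat_lit 4) (nat_lit 4) (nat_lit 353) (nat_lit 267) (nat_lit 100)) (XT.lf (nat_lit 0) (nat_lit 27183255064) (nat_lit 76) (nat_lit 35729580086) (nat_lit 152) (nat_lit 345882039722) (nat_lit 2) (nat_lit 5) (nat_lit 3) (nat_lit 5) (nat_lit 4) (nat_lit 4) (nat_lit 356) (nat_lit 267) (nat_lit 97)))) (XT.nd (nat_lit 156) (nat_lit 0) (nat_lit 0) (XT.nd (nat_lit 78) (nat_lit 0) (nat_lit 0) (XT.lf (nat_lit 0) (nat_lit 724283693) (nat_lit 0) (nat_lit 724283693) (nat_lit 684) (nat_lit 6689674591) (nat_lit 68) (nat_lit 5) (nat_lit 68) (nat_lit 3) (nat_lit 77) (nat_lit 3) (nat_lit 268) (nat_lit 268) (nat_lit 184)) (XT.lf (nat_lit 0) (nat_lit 3284787506) (nat_lit 684) (nat_lit 8066099660) (nat_lit 760) (nat_lit 5315923444) (nat_lit 68) (nat_lit 5) (nat_lit 77) (nat_lit 3) (nat_lit 78) (nat_lit 5) (nat_lit 269) (nat_lit 268) (nat_lit 183))) (XT.nd (nat_lit 78)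 (nat_lit 0) (nat_lit 76) (XT.lf (nat_lit 0) (nat_lit 3700994736) (nat_lit 684) (nat_lit 998185747) (nat_lit 760) (nat_lit 12377067281) (nat_lit 68) (nat_lit 5) (nat_lit 77) (nat_lit 3) (nat_lit 78) (nat_lit 5) (nat_lit 270) (nat_lit 268) (nat_lit 182)) (XT.nd (nat_lit 78) (nat_lit 0) (nat_lit 0) (XT.lf (nat_lit 0) (nat_lit 4265070685) (nat_lit 684) (nat_lit 10911807314) (nat_lit 760) (nat_lit 2322976109) (nat_lit 69) (nat_lit 5) (nat_lit 78) (nat_lit 5) (nat_lit 79) (nat_lit 5) (nat_lit 271) (nat_lit 268) (nat_lit 181)) (XT.lf (nat_lit 0) (nat_lit 4938314968) (nat_lit 684) (nat_lit 3441392666) (nat_lit 760) (nat_lit 9560932763) (nat_lit 69) (nat_lit 5) (nat_lit 78) (nat_lit 5) (nat_lit 79) (nat_lit 5) (nat_lit 272) (nat_lit 268) (nat_lit 180)))))) (XT.nd (nat_lit 312) (nat_lit 456) (nat_lit 0) (XT.nd (nat_lit 156) (nat_lit 0) (nat_lit 76) (XT.nd (nat_lit 78) (nat_lit 0) (nat_lit 76)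 (XT.lf (nat_lit 76) (nat_lit 4539718256) (nat_lit 0) (nat_lit 1163758937) (nat_lit 760) (nat_lit 12697121597) (nat_lit 70) (nat_lit 5) (nat_lit 69) (nat_lit 5) (nat_lit 79) (nat_lit 5) (nat_lit 273) (nat_lit 268) (nat_lit 179)) (XT.lf (nat_lit 0) (nat_lit 6654178423) (nat_lit 684) (nat_lit 5951067350) (nat_lit 760) (nat_lit 6270988693) (nat_lit 70) (nat_lit 5) (nat_lit 79) (nat_lit 5) (nat_lit 80) (nat_lit 5) (nat_lit 274) (nat_lit 268) (nat_lit 178))) (XT.nd (nat_lit 78) (nat_lit 0) (nat_lit 76) (XT.lf (nat_lit 76) (nat_lit 2403801523) (nat_lit 0) (nat_lit 5293715666) (nat_lit 760) (nat_lit 11675920951) (nat_lit 71) (nat_lit 5) (nat_lit 70) (nat_lit 5) (nat_lit 80) (nat_lit 5) (nat_lit 275) (nat_lit 268) (nat_lit 177)) (XT.lf (nat_lit 0) (nat_lit 8921631255) (nat_lit 684) (nat_lit 8555104087) (nat_lit 760) (nat_lit 2412375609) (nat_lit 71) (nat_lit 5) (nat_lit 80) (nat_lit 5) (nat_lit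 81) (nat_lit 5) (nat_lit 276) (nat_lit 268) (nat_lit 176)))) (XT.nd (nat_lit 156) (nat_lit 608) (nat_lit 0) (XT.nd (nat_lit 78) (nat_lit 0) (nat_lit 0) (XT.lf (nat_lit 76) (nat_lit 191109399) (nat_lit 0) (nat_lit 10095093833) (nat_lit 760) (nat_lit 10140439056) (nat_lit 72) (nat_lit 5) (nat_lit 71) (nat_lit 5) (nat_lit 81) (nat_lit 5) (nat_lit 277) (nat_lit 268) (nat_lit 175)) (XT.lf (nat_lit 76) (nat_lit 9663402481) (nat_lit 0) (nat_lit 2190344316) (nat_lit 760) (nat_lit 9130601958) (nat_lit 72) (nat_lit 5) (nat_lit 71) (nat_lit 5) (nat_lit 81) (nat_lit 5) (nat_lit 278) (nat_lit 268) (nat_lit 174))) (XT.nd (nat_lit 78) (nat_lit 684) (nat_lit 0) (XT.lf (nat_lit 0) (nat_lit 13585425494) (nat_lit 684) (nat_lit 2064416490) (nat_lit 76) (nat_lit 5915844672) (nat_lit 72) (nat_lit 5) (nat_lit 81) (nat_lit 5) (nat_lit 73) (nat_lit 5) (nat_lit 279) (nat_lit 268) (nat_lit 173)) (XT.nd (nat_lit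 78) (nat_lit 0) (nat_lit 0) (XT.lf (nat_lit 0) (nat_lit 7862690046) (nat_lit 684) (nat_lit 7690491904) (nat_lit 760) (nat_lit 6615467202) (nat_lit 63) (nat_lit 5) (nat_lit 72) (nat_lit 5) (nat_lit 73) (nat_lit 5) (nat_lit 280) (nat_lit 268) (nat_lit 172)) (XT.lf (nat_lit 0) (nat_lit 17656429563) (nat_lit 760) (nat_lit 4461529900) (nat_lit 76) (nat_lit 681975990) (nat_lit 63) (nat_lit 5) (nat_lit 73) (nat_lit 5) (nat_lit 64) (nat_lit 5) (nat_lit 281) (nat_lit 268) (nat_lit 171))))))) (XT.nd (nat_lit 702) (nat_lit 988) (nat_lit 0) (XT.nd (nat_lit 312) (nat_lit 608) (nat_lit 0) (XT.nd (nat_lit 156) (nat_lit 456) (nat_lit 0) (XT.nd (nat_lit 78) (nat_lit 0) (nat_lit 0) (XT.lf (nat_lit 0) (nat_lit 5930913545) (nat_lit 304) (nat_lit 14144176191) (nat_lit 380) (nat_lit 3377213205) (nat_lit 59) (nat_lit 5) (nat_lit 63) (nat_lit 5) (nat_lit 64) (nat_lit 5) (nat_lit 282) (nat_lit 268) (nat_lit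 170)) (XT.lf (nat_lit 0) (nat_lit 16990041935) (nat_lit 304) (nat_lit 5692056269) (nat_lit 380) (nat_lit 1451847814) (nat_lit 59) (nat_lit 5) (nat_lit 63) (nat_lit 5) (nat_lit 64) (nat_lit 5) (nat_lit 283) (nat_lit 268) (nat_lit 169))) (XT.nd (nat_lit 78) (nat_lit 0) (nat_lit 0) (XT.lf (nat_lit 0) (nat_lit 654722710) (nat_lit 456) (nat_lit 21038124005) (nat_lit 76) (nat_lit 3151246436) (nat_lit 53) (nat_lit 5) (nat_lit 59) (nat_lit 5) (nat_lit 54) (nat_lit 5) (nat_lit 284) (nat_lit 268) (nat_lit 168)) (XT.lf (nat_lit 0) (nat_lit 3026461406) (nat_lit 456) (nat_lit 10159466296) (nat_lit 76) (nat_lit 12392222509) (nat_lit 53) (nat_lit 5) (nat_lit 59) (nat_lit 5) (nat_lit 54) (nat_lit 5) (nat_lit 285) (nat_lit 268) (nat_lit 167)))) (XT.nd (nat_lit 156) (nat_lit 304) (nat_lit 0) (XT.nd (nat_lit 78) (nat_lit 0) (nat_lit 0) (XT.lf (nat_lit 0) (nat_lit 1296990736) (nat_lit 304) (nat_lit 4232760257)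 (nat_lit 380) (nat_lit 20818533951) (nat_lit 49) (nat_lit 5) (nat_lit 53) (nat_lit 5) (nat_lit 54) (nat_lit 5) (nat_lit 286) (nat_lit 268) (nat_lit 166)) (XT.lf (nat_lit 0) (nat_lit 8406705629) (nat_lit 380) (nat_lit 13560737374) (nat_lit 76) (nat_lit 5177080306) (nat_lit 49) (nat_lit 5) (nat_lit 54) (nat_lit 5) (nat_lit 50) (nat_lit 5) (nat_lit 287) (nat_lit 268) (nat_lit 165))) (XT.nd (nat_lit 78) (nat_lit 304) (nat_lit 0) (XT.lf (nat_lit 0) (nat_lit 11490170388) (nat_lit 380) (nat_lit 1572556031) (nat_lit 76) (nat_lit 14914734933) (nat_lit 49) (nat_lit 5) (nat_lit 54) (nat_lit 5) (nat_lit 50) (nat_lit 5) (nat_lit 288) (nat_lit 268) (nat_lit 164)) (XT.nd (nat_lit 78) (nat_lit 0) (nat_lit 0) (XT.lf (nat_lit 0) (nat_lit 11371848527) (nat_lit 304) (nat_lit 3527099499) (nat_lit 380) (nat_lit 13944561174) (nat_lit 45) (nat_lit 5) (nat_lit 49) (nat_lit 5) (nat_lit 50) (nat_lit 5) (nat_lit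 289) (nat_lit 268) (nat_lit 163)) (XT.lf (nat_lit 0) (nat_lit 18600262416) (nat_lit 380) (nat_lit 4842506545) (nat_lit 76) (nat_lit 6304004524) (nat_lit 45) (nat_lit 5) (nat_lit 50) (nat_lit 5) (nat_lit 46) (nat_lit 5) (nat_lit 290) (nat_lit 268) (nat_lit 162)))))) (XT.nd (nat_lit 312) (nat_lit 456) (nat_lit 0) (XT.nd (nat_lit 156) (nat_lit 304) (nat_lit 0) (XT.nd (nat_lit 78) (nat_lit 0) (nat_lit 0) (XT.lf (nat_lit 0) (nat_lit 8629474216) (nat_lit 228) (nat_lit 14043791731) (nat_lit 304) (nat_lit 8012621901) (nat_lit 42) (nat_lit 5) (nat_lit 45) (nat_lit 5) (nat_lit 46) (nat_lit 5) (nat_lit 291) (nat_lit 268) (nat_lit 161)) (XT.lf (nat_lit 0) (nat_lit 22936281086) (nat_lit 228) (nat_lit 4089895267) (nat_lit 304) (nat_lit 4641985921) (nat_lit 42) (nat_lit 5) (nat_lit 45) (nat_lit 5) (nat_lit 46) (nat_lit 5) (nat_lit 292) (nat_lit 268) (nat_lit 160))) (XT.nd (nat_lit 78) (nat_lit 76)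 (nat_lit 0) (XT.lf (nat_lit 0) (nat_lit 5323087080) (nat_lit 228) (nat_lit 26450580936) (nat_lit 304) (nat_lit 917051977) (nat_lit 39) (nat_lit 5) (nat_lit 42) (nat_lit 5) (nat_lit 43) (nat_lit 5) (nat_lit 293) (nat_lit 268) (nat_lit 159)) (XT.lf (nat_lit 0) (nat_lit 3110205773) (nat_lit 304) (nat_lit 13496198558) (nat_lit 76) (nat_lit 17145083372) (nat_lit 38) (nat_lit 5) (nat_lit 42) (nat_lit 5) (nat_lit 39) (nat_lit 5) (nat_lit 294) (nat_lit 268) (nat_lit 158)))) (XT.nd (nat_lit 156) (nat_lit 228) (nat_lit 0) (XT.nd (nat_lit 78) (nat_lit 0) (nat_lit 0) (XT.lf (nat_lit 0) (nat_lit 1081804657) (nat_lit 228) (nat_lit 6237909549) (nat_lit 304) (nat_lit 27544256705) (nat_lit 35) (nat_lit 5) (nat_lit 38) (nat_lit 5) (nat_lit 39) (nat_lit 5) (nat_lit 295) (nat_lit 268) (nat_lit 157)) (XT.lf (nat_lit 0) (nat_lit 12039533405) (nat_lit 304) (nat_lit 19246445594) (nat_lit 76) (nat_lit 4731120972)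 (nat_lit 35) (nat_lit 5) (nat_lit 39) (nat_lit 5) (nat_lit 36) (nat_lit 5) (nat_lit 296) (nat_lit 268) (nat_lit 156))) (XT.nd (nat_lit 78) (nat_lit 228) (nat_lit 0) (XT.lf (nat_lit 0) (nat_lit 17092785000) (nat_lit 304) (nat_lit 4092609315) (nat_lit 76) (nat_lit 16037631915) (nat_lit 35) (nat_lit 5) (nat_lit 39) (nat_lit 5) (nat_lit 36) (nat_lit 5) (nat_lit 297) (nat_lit 268) (nat_lit 155)) (XT.nd (nat_lit 78) (nat_lit 0) (nat_lit 0) (XT.lf (nat_lit 0) (nat_lit 12203399383) (nat_lit 228) (nat_lit 10381239172) (nat_lit 304) (nat_lit 15895325485) (nat_lit 32) (nat_lit 5) (nat_lit 35) (nat_lit 5) (nat_lit 36) (nat_lit 5) (nat_lit 298) (nat_lit 268) (nat_lit 154)) (XT.lf (nat_lit 0) (nat_lit 28432079262) (nat_lit 304) (nat_lit 10362378599) (nat_lit 76) (nat_lit 1001252783) (nat_lit 32) (nat_lit 5) (nat_lit 36) (nat_lit 5) (nat_lit 33) (nat_lit 5) (nat_lit 299) (nat_lit 268) (nat_lit 153))))))))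
noncomputable def xc194 : XT := (XT.nd (nat_lit 1404) (nat_lit 608) (nat_lit 0) (XT.nd (nat_lit 702) (nat_lit 532) (nat_lit 0) (XT.nd (nat_lit 312) (nat_lit 304) (nat_lit 0) (XT.nd (nat_lit 156) (nat_lit 304) (nat_lit 0) (XT.nd (nat_lit 78) (nat_lit 0) (nat_lit 0) (XT.lf (nat_lit 0) (nat_lit 6375466542) (nat_lit 152) (nat_lit 28461873234) (nat_lit 228) (nat_lit 6326643486) (nat_lit 30) (nat_lit 5) (nat_lit 32) (nat_lit 5) (nat_lit 33) (nat_lit 5) (nat_lit 300) (nat_lit 268) (nat_lit 152)) (XT.lf (nat_lit 0) (nat_lit 24304137109) (nat_lit 152) (nat_lit 17430055371) (nat_lit 228) (nat_lit 857921118) (nat_lit 30) (nat_lit 5) (nat_lit 32) (nat_lit 5) (nat_lit 33) (nat_lit 5) (nat_lit 301) (nat_lit 268) (nat_lit 151))) (XT.nd (nat_lit 78) (nat_lit 228) (nat_lit 0) (XT.lf (nat_lit 0) (nat_lit 4723872047) (nat_lit 228) (nat_lit 1044356829) (nat_lit 76) (nat_lit 38319820270) (nat_lit 29) (nat_lit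 5) (nat_lit 32) (nat_lit 5) (nat_lit 30) (nat_lit 5) (nat_lit 302) (nat_lit 268) (nat_lit 150)) (XT.lf (nat_lit 0) (nat_lit 10932777873) (nat_lit 304) (nat_lit 28144923802) (nat_lit 76) (nat_lit 6561542953) (nat_lit 26) (nat_lit 5) (nat_lit 30) (nat_lit 5) (nat_lit 27) (nat_lit 5) (nat_lit 303) (nat_lit 268) (nat_lit 149)))) (XT.nd (nat_lit 156) (nat_lit 152) (nat_lit 0) (XT.nd (nat_lit 78) (nat_lit 152) (nat_lit 0) (XT.lf (nat_lit 0) (nat_lit 17560895050) (nat_lit 304) (nat_lit 10371280348) (nat_lit 76) (nat_lit 19330394859) (nat_lit 26) (nat_lit 5) (nat_lit 30) (nat_lit 5) (nat_lit 27) (nat_lit 5) (nat_lit 304) (nat_lit 268) (nat_lit 148)) (XT.lf (nat_lit 0) (nat_lit 8559769650) (nat_lit 152) (nat_lit 16090698328) (nat_lit 228) (nat_lit 24310099956) (nat_lit 24) (nat_lit 5) (nat_lit 26) (nat_lit 5) (nat_lit 27) (nat_lit 5) (nat_lit 305) (nat_lit 268) (nat_lit 147))) (XT.nd (nat_lit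 78) (nat_lit 152) (nat_lit 0) (XT.lf (nat_lit 0) (nat_lit 28792282414) (nat_lit 152) (nat_lit 3474378227) (nat_lit 228) (nat_lit 18468205670) (nat_lit 24) (nat_lit 5) (nat_lit 26) (nat_lit 5) (nat_lit 27) (nat_lit 5) (nat_lit 306) (nat_lit 268) (nat_lit 146)) (XT.nd (nat_lit 78) (nat_lit 152) (nat_lit 0) (XT.lf (nat_lit 0) (nat_lit 40412883634) (nat_lit 228) (nat_lit 2719100138) (nat_lit 76) (nat_lit 9458442294) (nat_lit 24) (nat_lit 5) (nat_lit 27) (nat_lit 5) (nat_lit 25) (nat_lit 5) (nat_lit 307) (nat_lit 268) (nat_lit 145)) (XT.lf (nat_lit 0) (nat_lit 17979228174) (nat_lit 152) (nat_lit 31321653293) (nat_lit 228) (nat_lit 5221166294) (nat_lit 22) (nat_lit 5) (nat_lit 24) (nat_lit 5) (nat_lit 25) (nat_lit 5) (nat_lit 308) (nat_lit 268) (nat_lit 144)))))) (XT.nd (nat_lit 312) (nat_lit 304) (nat_lit 0) (XT.nd (nat_lit 156) (nat_lit 0) (nat_lit 0) (XT.nd (nat_lit 78) (nat_lit 152)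 (nat_lit 0) (XT.lf (nat_lit 0) (nat_lit 2059984005) (nat_lit 228) (nat_lit 16779205016) (nat_lit 76) (nat_lit 37707260636) (nat_lit 21) (nat_lit 5) (nat_lit 24) (nat_lit 5) (nat_lit 22) (nat_lit 5) (nat_lit 309) (nat_lit 268) (nat_lit 143)) (XT.lf (nat_lit 0) (nat_lit 4010743337) (nat_lit 152) (nat_lit 5578574476) (nat_lit 228) (nat_lit 49075500783) (nat_lit 19) (nat_lit 5) (nat_lit 21) (nat_lit 5) (nat_lit 22) (nat_lit 5) (nat_lit 310) (nat_lit 268) (nat_lit 142))) (XT.nd (nat_lit 78) (nat_lit 0) (nat_lit 0) (XT.lf (nat_lit 0) (nat_lit 17911251381) (nat_lit 228) (nat_lit 34591797968) (nat_lit 76) (nat_lit 8365255853) (nat_lit 19) (nat_lit 5) (nat_lit 22) (nat_lit 5) (nat_lit 20) (nat_lit 5) (nat_lit 311) (nat_lit 268) (nat_lit 141)) (XT.lf (nat_lit 0) (nat_lit 26737896280) (nat_lit 228) (nat_lit 13622313170) (nat_lit 76) (nat_lit 22817331547) (nat_lit 19) (nat_lit 5) (nat_lit 22)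 (nat_lit 5) (nat_lit 20) (nat_lit 5) (nat_lit 312) (nat_lit 268) (nat_lit 140)))) (XT.nd (nat_lit 156) (nat_lit 152) (nat_lit 0) (XT.nd (nat_lit 78) (nat_lit 0) (nat_lit 0) (XT.lf (nat_lit 0) (nat_lit 8668861362) (nat_lit 152) (nat_lit 27469655010) (nat_lit 228) (nat_lit 29457095389) (nat_lit 17) (nat_lit 5) (nat_lit 19) (nat_lit 5) (nat_lit 20) (nat_lit 5) (nat_lit 313) (nat_lit 268) (nat_lit 139)) (XT.lf (nat_lit 0) (nat_lit 32543356790) (nat_lit 152) (nat_lit 13693872385) (nat_lit 228) (nat_lit 21885958875) (nat_lit 17) (nat_lit 5) (nat_lit 19) (nat_lit 5) (nat_lit 20) (nat_lit 5) (nat_lit 314) (nat_lit 268) (nat_lit 138))) (XT.nd (nat_lit 78) (nat_lit 152) (nat_lit 0) (XT.lf (nat_lit 0) (nat_lit 56850374469) (nat_lit 228) (nat_lit 13181681635) (nat_lit 76) (nat_lit 744617038) (nat_lit 17) (nat_lit 5) (nat_lit 20) (nat_lit 5) (nat_lit 18) (nat_lit 4) (nat_lit 315) (nat_lit 268)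 (nat_lit 137)) (XT.nd (nat_lit 78) (nat_lit 76) (nat_lit 0) (XT.lf (nat_lit 0) (nat_lit 10442213525) (nat_lit 76) (nat_lit 57937070262) (nat_lit 152) (nat_lit 5164297965) (nat_lit 16) (nat_lit 5) (nat_lit 17) (nat_lit 5) (nat_lit 18) (nat_lit 4) (nat_lit 316) (nat_lit 268) (nat_lit 136)) (XT.lf (nat_lit 0) (nat_lit 4131126866) (nat_lit 152) (nat_lit 40803311240) (nat_lit 76) (nat_lit 31500026600) (nat_lit 15) (nat_lit 5) (nat_lit 17) (nat_lit 5) (nat_lit 16) (nat_lit 5) (nat_lit 317) (nat_lit 268) (nat_lit 135))))))) (XT.nd (nat_lit 702) (nat_lit 152) (nat_lit 0) (XT.nd (nat_lit 312) (nat_lit 304) (nat_lit 0) (XT.nd (nat_lit 156) (nat_lit 0) (nat_lit 0) (XT.nd (nat_lit 78) (nat_lit 152) (nat_lit 0) (XT.lf (nat_lit 0) (nat_lit 13715480267) (nat_lit 152) (nat_lit 17478735061) (nat_lit 76) (nat_lit 48271561845) (nat_lit 15) (nat_lit 5) (nat_lit 17) (nat_lit 5) (nat_lit 16) (nat_lit 5)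 (nat_lit 318) (nat_lit 268) (nat_lit 134)) (XT.lf (nat_lit 0) (nat_lit 7240257639) (nat_lit 152) (nat_lit 16649654985) (nat_lit 228) (nat_lit 58753203359) (nat_lit 13) (nat_lit 5) (nat_lit 15) (nat_lit 5) (nat_lit 16) (nat_lit 5) (nat_lit 319) (nat_lit 268) (nat_lit 133))) (XT.nd (nat_lit 78) (nat_lit 0) (nat_lit 0) (XT.lf (nat_lit 0) (nat_lit 33798533631) (nat_lit 152) (nat_lit 1068413695) (nat_lit 228) (nat_lit 51097683976) (nat_lit 13) (nat_lit 5) (nat_lit 15) (nat_lit 5) (nat_lit 16) (nat_lit 5) (nat_lit 320) (nat_lit 268) (nat_lit 132)) (XT.lf (nat_lit 0) (nat_lit 46629534141) (nat_lit 228) (nat_lit 28009655323) (nat_lit 76) (nat_lit 14801201338) (nat_lit 13) (nat_lit 5) (nat_lit 16) (nat_lit 5) (nat_lit 14) (nat_lit 4) (nat_lit 321) (nat_lit 268) (nat_lit 131)))) (XT.nd (nat_lit 156) (nat_lit 228) (nat_lit 0) (XT.nd (nat_lit 78) (nat_lit 76) (nat_lit 0) (XT.lf (nat_lit 0) (nat_lit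 58995813964) (nat_lit 228) (nat_lit 2666150697) (nat_lit 76) (nat_lit 31427198701) (nat_lit 13) (nat_lit 5) (nat_lit 16) (nat_lit 5) (nat_lit 14) (nat_lit 4) (nat_lit 322) (nat_lit 268) (nat_lit 130)) (XT.lf (nat_lit 0) (nat_lit 24733050906) (nat_lit 76) (nat_lit 47631650722) (nat_lit 152) (nat_lit 24536461345) (nat_lit 12) (nat_lit 5) (nat_lit 13) (nat_lit 5) (nat_lit 14) (nat_lit 4) (nat_lit 323) (nat_lit 268) (nat_lit 129))) (XT.nd (nat_lit 78) (nat_lit 228) (nat_lit 0) (XT.lf (nat_lit 0) (nat_lit 53591734821) (nat_lit 76) (nat_lit 32853634039) (nat_lit 152) (nat_lit 14456229910) (nat_lit 12) (nat_lit 5) (nat_lit 13) (nat_lit 5) (nat_lit 14) (nat_lit 4) (nat_lit 324) (nat_lit 268) (nat_lit 128)) (XT.nd (nat_lit 78) (nat_lit 228) (nat_lit 0) (XT.lf (nat_lit 0) (nat_lit 83890457219) (nat_lit 76) (nat_lit 17337881412) (nat_lit 152) (nat_lit 3873807093) (nat_lit 12) (nat_lit 5) (nat_lit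 13) (nat_lit 5) (nat_lit 14) (nat_lit 4) (nat_lit 325) (nat_lit 268) (nat_lit 127)) (XT.lf (nat_lit 0) (nat_lit 6276464549) (nat_lit 152) (nat_lit 825934703) (nat_lit 228) (nat_lit 102399857508) (nat_lit 9) (nat_lit 5) (nat_lit 11) (nat_lit 5) (nat_lit 12) (nat_lit 5) (nat_lit 326) (nat_lit 268) (nat_lit 126)))))) (XT.nd (nat_lit 312) (nat_lit 76) (nat_lit 0) (XT.nd (nat_lit 156) (nat_lit 76) (nat_lit 0) (XT.nd (nat_lit 78) (nat_lit 0) (nat_lit 0) (XT.lf (nat_lit 0) (nat_lit 19118483312) (nat_lit 228) (nat_lit 78558988536) (nat_lit 76) (nat_lit 16410666052) (nat_lit 9) (nat_lit 5) (nat_lit 12) (nat_lit 5) (nat_lit 10) (nat_lit 4) (nat_lit 327) (nat_lit 268) (nat_lit 125)) (XT.lf (nat_lit 0) (nat_lit 31747331481) (nat_lit 228) (nat_lit 52675086811) (nat_lit 76) (nat_lit 34480299136) (nat_lit 9) (nat_lit 5) (nat_lit 12) (nat_lit 5) (nat_lit 10) (nat_lit 4) (nat_lit 328) (nat_lit 268)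 (nat_lit 124))) (XT.nd (nat_lit 78) (nat_lit 76) (nat_lit 0) (XT.lf (nat_lit 0) (nat_lit 45006117288) (nat_lit 228) (nat_lit 25499563543) (nat_lit 76) (nat_lit 53452422550) (nat_lit 9) (nat_lit 5) (nat_lit 12) (nat_lit 5) (nat_lit 10) (nat_lit 4) (nat_lit 329) (nat_lit 268) (nat_lit 123)) (XT.lf (nat_lit 0) (nat_lit 3132545926) (nat_lit 76) (nat_lit 55842771167) (nat_lit 152) (nat_lit 70288569913) (nat_lit 8) (nat_lit 5) (nat_lit 9) (nat_lit 5) (nat_lit 10) (nat_lit 4) (nat_lit 330) (nat_lit 268) (nat_lit 122)))) (XT.nd (nat_lit 156) (nat_lit 76) (nat_lit 0) (XT.nd (nat_lit 78) (nat_lit 0) (nat_lit 0) (XT.lf (nat_lit 0) (nat_lit 34079136674) (nat_lit 76) (nat_lit 39994285143) (nat_lit 152) (nat_lit 60740017756) (nat_lit 8) (nat_lit 5) (nat_lit 9) (nat_lit 5) (nat_lit 10) (nat_lit 4) (nat_lit 331) (nat_lit 268) (nat_lit 121)) (XT.lf (nat_lit 0) (nat_lit 66570760329) (nat_lit 76) (nat_lit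 23354335714) (nat_lit 152) (nat_lit 50715442423) (nat_lit 8) (nat_lit 5) (nat_lit 9) (nat_lit 5) (nat_lit 10) (nat_lit 4) (nat_lit 332) (nat_lit 268) (nat_lit 120))) (XT.nd (nat_lit 78) (nat_lit 76) (nat_lit 0) (XT.lf (nat_lit 0) (nat_lit 100684777901) (nat_lit 76) (nat_lit 5883303954) (nat_lit 152) (nat_lit 40190975877) (nat_lit 8) (nat_lit 5) (nat_lit 9) (nat_lit 5) (nat_lit 10) (nat_lit 4) (nat_lit 333) (nat_lit 268) (nat_lit 119)) (XT.nd (nat_lit 78) (nat_lit 76) (nat_lit 0) (XT.lf (nat_lit 0) (nat_lit 124236547294) (nat_lit 152) (nat_lit 16875693920) (nat_lit 0) (nat_lit 12061596963) (nat_lit 8) (nat_lit 5) (nat_lit 10) (nat_lit 4) (nat_lit 8) (nat_lit 4) (nat_lit 334) (nat_lit 268) (nat_lit 118)) (XT.lf (nat_lit 0) (nat_lit 14136809573) (nat_lit 76) (nat_lit 128967622438) (nat_lit 76) (nat_lit 16789127485) (nat_lit 7) (nat_lit 4) (nat_lit 8) (nat_lit 5) (nat_lit 8) (nat_lit 4)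 (nat_lit 335) (nat_lit 268) (nat_lit 117))))))))
noncomputable def xc195 : XT := (XT.nd (nat_lit 32292) (nat_lit 0) (nat_lit 3724) (XT.nd (nat_lit 702) (nat_lit 76) (nat_lit 0) (XT.nd (nat_lit 312) (nat_lit 76) (nat_lit 0) (XT.nd (nat_lit 156) (nat_lit 0) (nat_lit 0) (XT.nd (nat_lit 78) (nat_lit 76) (nat_lit 0) (XT.lf (nat_lit 0) (nat_lit 47283826674) (nat_lit 76) (nat_lit 115916539891) (nat_lit 76) (nat_lit 3734669109) (nat_lit 7) (nat_lit 4) (nat_lit 8) (nat_lit 5) (nat_lit 8) (nat_lit 4) (nat_lit 336) (nat_lit 268) (nat_lit 116)) (XT.lf (nat_lit 0) (nat_lit 9652222191) (nat_lit 152) (nat_lit 92398030365) (nat_lit 76) (nat_lit 72270604954) (nat_lit 6) (nat_lit 5) (nat_lit 8) (nat_lit 5) (nat_lit 7) (nat_lit 4) (nat_lit 337) (nat_lit 268) (nat_lit 115))) (XT.nd (nat_lit 78) (nat_lit 0) (nat_lit 0) (XT.lf (nat_lit 0) (nat_lit 23581894089) (nat_lit 152) (nat_lit 63845264951) (nat_lit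 76) (nat_lit 94645804283) (nat_lit 6) (nat_lit 5) (nat_lit 8) (nat_lit 5) (nat_lit 7) (nat_lit 4) (nat_lit 338) (nat_lit 268) (nat_lit 114)) (XT.lf (nat_lit 0) (nat_lit 38207045205) (nat_lit 152) (nat_lit 33866621331) (nat_lit 76) (nat_lit 118139059402) (nat_lit 6) (nat_lit 5) (nat_lit 8) (nat_lit 5) (nat_lit 7) (nat_lit 4) (nat_lit 339) (nat_lit 268) (nat_lit 113)))) (XT.nd (nat_lit 156) (nat_lit 0) (nat_lit 0) (XT.nd (nat_lit 78) (nat_lit 76) (nat_lit 0) (XT.lf (nat_lit 0) (nat_lit 53562497328) (nat_lit 152) (nat_lit 2390721783) (nat_lit 76) (nat_lit 142806306634) (nat_lit 6) (nat_lit 5) (nat_lit 8) (nat_lit 5) (nat_lit 7) (nat_lit 4) (nat_lit 340) (nat_lit 268) (nat_lit 112)) (XT.lf (nat_lit 0) (nat_lit 31671047625) (nat_lit 76) (nat_lit 38508237244) (nat_lit 152) (nat_lit 137529703706) (nat_lit 5) (nat_lit 5) (nat_lit 6) (nat_lit 5) (nat_lit 7) (nat_lit 4) (nat_lit 341) (nat_lit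 268) (nat_lit 111))) (XT.nd (nat_lit 78) (nat_lit 0) (nat_lit 0) (XT.lf (nat_lit 0) (nat_lit 67517335284) (nat_lit 76) (nat_lit 20149172392) (nat_lit 152) (nat_lit 129437438194) (nat_lit 5) (nat_lit 5) (nat_lit 6) (nat_lit 5) (nat_lit 7) (nat_lit 4) (nat_lit 342) (nat_lit 268) (nat_lit 110)) (XT.nd (nat_lit 78) (nat_lit 0) (nat_lit 0) (XT.lf (nat_lit 0) (nat_lit 105154441438) (nat_lit 76) (nat_lit 872800528) (nat_lit 152) (nat_lit 120941452611) (nat_lit 5) (nat_lit 5) (nat_lit 6) (nat_lit 5) (nat_lit 7) (nat_lit 4) (nat_lit 343) (nat_lit 268) (nat_lit 109)) (XT.lf (nat_lit 0) (nat_lit 125607573396) (nat_lit 152) (nat_lit 92957113573) (nat_lit 0) (nat_lit 18746916742) (nat_lit 5) (nat_lit 5) (nat_lit 7) (nat_lit 4) (nat_lit 5) (nat_lit 4) (nat_lit 344) (nat_lit 268) (nat_lit 108)))))) (XT.nd (nat_lit 312) (nat_lit 0) (nat_lit 0) (XT.nd (nat_lit 156) (nat_lit 76) (nat_lit 0) (XT.nd (nat_lit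 78) (nat_lit 0) (nat_lit 0) (XT.lf (nat_lit 0) (nat_lit 146180449787) (nat_lit 152) (nat_lit 62672812396) (nat_lit 0) (nat_lit 39317720666) (nat_lit 5) (nat_lit 5) (nat_lit 7) (nat_lit 4) (nat_lit 5) (nat_lit 4) (nat_lit 345) (nat_lit 268) (nat_lit 107)) (XT.lf (nat_lit 0) (nat_lit 167781227315) (nat_lit 152) (nat_lit 30875617266) (nat_lit 0) (nat_lit 60916524416) (nat_lit 5) (nat_lit 5) (nat_lit 7) (nat_lit 4) (nat_lit 5) (nat_lit 4) (nat_lit 346) (nat_lit 268) (nat_lit 106))) (XT.nd (nat_lit 78) (nat_lit 0) (nat_lit 0) (XT.lf (nat_lit 0) (nat_lit 2593177290) (nat_lit 76) (nat_lit 187908645876) (nat_lit 76) (nat_lit 81042063189) (nat_lit 4) (nat_lit 4) (nat_lit 5) (nat_lit 5) (nat_lit 5) (nat_lit 4) (nat_lit 347) (nat_lit 268) (nat_lit 105)) (XT.lf (nat_lit 0) (nat_lit 38806105386) (nat_lit 76) (nat_lit 176074543983) (nat_lit 76) (nat_lit 69206171021) (nat_lit 4) (nat_lit 4) (nat_lit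 5) (nat_lit 5) (nat_lit 5) (nat_lit 4) (nat_lit 348) (nat_lit 268) (nat_lit 104)))) (XT.nd (nat_lit 156) (nat_lit 0) (nat_lit 0) (XT.nd (nat_lit 78) (nat_lit 0) (nat_lit 0) (XT.lf (nat_lit 0) (nat_lit 76828500930) (nat_lit 76) (nat_lit 163649255986) (nat_lit 76) (nat_lit 56779178001) (nat_lit 4) (nat_lit 4) (nat_lit 5) (nat_lit 5) (nat_lit 5) (nat_lit 4) (nat_lit 349) (nat_lit 268) (nat_lit 103)) (XT.lf (nat_lit 0) (nat_lit 116750893438) (nat_lit 76) (nat_lit 150603197867) (nat_lit 76) (nat_lit 43731496050) (nat_lit 4) (nat_lit 4) (nat_lit 5) (nat_lit 5) (nat_lit 5) (nat_lit 4) (nat_lit 350) (nat_lit 268) (nat_lit 102))) (XT.nd (nat_lit 78) (nat_lit 0) (nat_lit 0) (XT.lf (nat_lit 0) (nat_lit 158668336223) (nat_lit 76) (nat_lit 136905307582) (nat_lit 76) (nat_lit 30032059259) (nat_lit 4) (nat_lit 4) (nat_lit 5) (nat_lit 5) (nat_lit 5) (nat_lit 4) (nat_lit 351) (nat_lit 268) (nat_lit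 101)) (XT.nd (nat_lit 78) (nat_lit 0) (nat_lit 0) (XT.lf (nat_lit 0) (nat_lit 202680632722) (nat_lit 76) (nat_lit 122522971108) (nat_lit 76) (nat_lit 15648249921) (nat_lit 4) (nat_lit 4) (nat_lit 5) (nat_lit 5) (nat_lit 5) (nat_lit 4) (nat_lit 352) (nat_lit 268) (nat_lit 100)) (XT.lf (nat_lit 0) (nat_lit 248892574117) (nat_lit 76) (nat_lit 107421944785) (nat_lit 76) (nat_lit 545820872) (nat_lit 4) (nat_lit 4) (nat_lit 5) (nat_lit 5) (nat_lit 5) (nat_lit 4) (nat_lit 353) (nat_lit 268) (nat_lit 99))))))) (XT.nd (nat_lit 702) (nat_lit 1140) (nat_lit 0) (XT.nd (nat_lit 312) (nat_lit 0) (nat_lit 76) (XT.nd (nat_lit 156) (nat_lit 0) (nat_lit 0) (XT.nd (nat_lit 78) (nat_lit 0) (nat_lit 0) (XT.lf (nat_lit 0) (nat_lit 873448268) (nat_lit 0) (nat_lit 873448268) (nat_lit 684) (nat_lit 6786151144) (nat_lit 68) (nat_lit 5) (nat_lit 68) (nat_lit 3) (nat_lit 77) (nat_lit 3) (nat_lit 269) (nat_lit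 269) (nat_lit 182)) (XT.lf (nat_lit 0) (nat_lit 3875955087) (nat_lit 684) (nat_lit 8227842245) (nat_lit 760) (nat_lit 5373461955) (nat_lit 68) (nat_lit 5) (nat_lit 77) (nat_lit 3) (nat_lit 78) (nat_lit 5) (nat_lit 270) (nat_lit 269) (nat_lit 181))) (XT.nd (nat_lit 78) (nat_lit 0) (nat_lit 76) (XT.lf (nat_lit 0) (nat_lit 4292642764) (nat_lit 684) (nat_lit 818035608) (nat_lit 760) (nat_lit 12797580016) (nat_lit 68) (nat_lit 5) (nat_lit 77) (nat_lit 3) (nat_lit 78) (nat_lit 5) (nat_lit 271) (nat_lit 269) (nat_lit 180)) (XT.lf (nat_lit 0) (nat_lit 4866527544) (nat_lit 684) (nat_lit 11207541523) (nat_lit 760) (nat_lit 2279965817) (nat_lit 69) (nat_lit 5) (nat_lit 78) (nat_lit 5) (nat_lit 79) (nat_lit 5) (nat_lit 272) (nat_lit 269) (nat_lit 179)))) (XT.nd (nat_lit 156) (nat_lit 0) (nat_lit 76) (XT.nd (nat_lit 78) (nat_lit 0) (nat_lit 0) (XT.lf (nat_lit 0) (nat_lit 5554948168) (nat_lit 684)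 (nat_lit 3375504055) (nat_lit 760) (nat_lit 9887399308) (nat_lit 69) (nat_lit 5) (nat_lit 78) (nat_lit 5) (nat_lit 79) (nat_lit 5) (nat_lit 273) (nat_lit 269) (nat_lit 178)) (XT.lf (nat_lit 76) (nat_lit 5000824377) (nat_lit 0) (nat_lit 1343593808) (nat_lit 760) (nat_lit 12957150748) (nat_lit 70) (nat_lit 5) (nat_lit 69) (nat_lit 5) (nat_lit 79) (nat_lit 5) (nat_lit 274) (nat_lit 269) (nat_lit 177))) (XT.nd (nat_lit 78) (nat_lit 0) (nat_lit 0) (XT.lf (nat_lit 0) (nat_lit 7323904375) (nat_lit 684) (nat_lit 6005688094) (nat_lit 760) (nat_lit 6472391973) (nat_lit 70) (nat_lit 5) (nat_lit 79) (nat_lit 5) (nat_lit 80) (nat_lit 5) (nat_lit 275) (nat_lit 269) (nat_lit 176)) (XT.nd (nat_lit 78) (nat_lit 0) (nat_lit 76) (XT.lf (nat_lit 76) (nat_lit 2763005954) (nat_lit 0) (nat_lit 5644087379) (nat_lit 760) (nat_lit 11917628466) (nat_lit 71) (nat_lit 5) (nat_lit 70) (nat_lit 5) (nat_lit 80) (nat_lit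 5) (nat_lit 276) (nat_lit 269) (nat_lit 175)) (XT.lf (nat_lit 0) (nat_lit 9675677091) (nat_lit 684) (nat_lit 8737392244) (nat_lit 760) (nat_lit 2454000633) (nat_lit 71) (nat_lit 5) (nat_lit 80) (nat_lit 5) (nat_lit 81) (nat_lit 5) (nat_lit 277) (nat_lit 269) (nat_lit 174)))))) (XT.nd (nat_lit 312) (nat_lit 760) (nat_lit 0) (XT.nd (nat_lit 156) (nat_lit 608) (nat_lit 0) (XT.nd (nat_lit 78) (nat_lit 0) (nat_lit 0) (XT.lf (nat_lit 76) (nat_lit 442172772) (nat_lit 0) (nat_lit 10655410546) (nat_lit 760) (nat_lit 10334491573) (nat_lit 72) (nat_lit 5) (nat_lit 71) (nat_lit 5) (nat_lit 81) (nat_lit 5) (nat_lit 278) (nat_lit 269) (nat_lit 173)) (XT.lf (nat_lit 76) (nat_lit 10376580131) (nat_lit 0) (nat_lit 2352777742) (nat_lit 760) (nat_lit 9289065926) (nat_lit 72) (nat_lit 5) (nat_lit 71) (nat_lit 5) (nat_lit 81) (nat_lit 5) (nat_lit 279) (nat_lit 269) (nat_lit 172))) (XT.nd (nat_lit 78) (nat_lit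 684) (nat_lit 0) (XT.lf (nat_lit 0) (nat_lit 14533361117) (nat_lit 684) (nat_lit 1933374372) (nat_lit 76) (nat_lit 6162853514) (nat_lit 72) (nat_lit 5) (nat_lit 81) (nat_lit 5) (nat_lit 73) (nat_lit 5) (nat_lit 280) (nat_lit 269) (nat_lit 171)) (XT.lf (nat_lit 0) (nat_lit 8486309057) (nat_lit 684) (nat_lit 8104001308) (nat_lit 760) (nat_lit 6672894190) (nat_lit 63) (nat_lit 5) (nat_lit 72) (nat_lit 5) (nat_lit 73) (nat_lit 5) (nat_lit 281) (nat_lit 269) (nat_lit 170)))) (XT.nd (nat_lit 156) (nat_lit 456) (nat_lit 0) (XT.nd (nat_lit 78) (nat_lit 304) (nat_lit 0) (XT.lf (nat_lit 0) (nat_lit 18785933692) (nat_lit 760) (nat_lit 4451450112) (nat_lit 76) (nat_lit 689353729) (nat_lit 63) (nat_lit 5) (nat_lit 73) (nat_lit 5) (nat_lit 64) (nat_lit 5) (nat_lit 282) (nat_lit 269) (nat_lit 169)) (XT.lf (nat_lit 0) (nat_lit 6456854920) (nat_lit 304) (nat_lit 14860506670) (nat_lit 380) (nat_lit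 3294811048) (nat_lit 59) (nat_lit 5) (nat_lit 63) (nat_lit 5) (nat_lit 64) (nat_lit 5) (nat_lit 283) (nat_lit 269) (nat_lit 168))) (XT.nd (nat_lit 78) (nat_lit 456) (nat_lit 0) (XT.lf (nat_lit 0) (nat_lit 18058016125) (nat_lit 304) (nat_lit 5985346387) (nat_lit 380) (nat_lit 1285142283) (nat_lit 59) (nat_lit 5) (nat_lit 63) (nat_lit 5) (nat_lit 64) (nat_lit 5) (nat_lit 284) (nat_lit 269) (nat_lit 167)) (XT.nd (nat_lit 78) (nat_lit 0) (nat_lit 0) (XT.lf (nat_lit 0) (nat_lit 911538619) (nat_lit 456) (nat_lit 21854888594) (nat_lit 76) (nat_lit 3307958621) (nat_lit 53) (nat_lit 5) (nat_lit 59) (nat_lit 5) (nat_lit 54) (nat_lit 5) (nat_lit 285) (nat_lit 269) (nat_lit 166)) (XT.lf (nat_lit 0) (nat_lit 3391193784) (nat_lit 456) (nat_lit 10443495219) (nat_lit 76) (nat_lit 13011023981) (nat_lit 53) (nat_lit 5) (nat_lit 59) (nat_lit 5) (nat_lit 54) (nat_lit 5) (nat_lit 286) (nat_lit 269) (nat_lit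 165))))))))
noncomputable def xc196 : XT := (XT.nd (nat_lit 1404) (nat_lit 988) (nat_lit 0) (XT.nd (nat_lit 702) (nat_lit 912) (nat_lit 0) (XT.nd (nat_lit 312) (nat_lit 532) (nat_lit 0) (XT.nd (nat_lit 156) (nat_lit 304) (nat_lit 0) (XT.nd (nat_lit 78) (nat_lit 0) (nat_lit 0) (XT.lf (nat_lit 0) (nat_lit 1582172658) (nat_lit 304) (nat_lit 4430752851) (nat_lit 380) (nat_lit 21641797170) (nat_lit 49) (nat_lit 5) (nat_lit 53) (nat_lit 5) (nat_lit 54) (nat_lit 5) (nat_lit 287) (nat_lit 269) (nat_lit 164)) (XT.lf (nat_lit 0) (nat_lit 9024088539) (nat_lit 380) (nat_lit 14018682953) (nat_lit 76) (nat_lit 5448514017) (nat_lit 49) (nat_lit 5) (nat_lit 54) (nat_lit 5) (nat_lit 50) (nat_lit 5) (nat_lit 288) (nat_lit 269) (nat_lit 163))) (XT.nd (nat_lit 78) (nat_lit 304) (nat_lit 0) (XT.lf (nat_lit 0) (nat_lit 12252343315) (nat_lit 380) (nat_lit 1441573081) (nat_lit 76) (nat_lit 15672452342) (nat_lit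 49) (nat_lit 5) (nat_lit 54) (nat_lit 5) (nat_lit 50) (nat_lit 5) (nat_lit 289) (nat_lit 269) (nat_lit 162)) (XT.lf (nat_lit 0) (nat_lit 12146670887) (nat_lit 304) (nat_lit 3679172375) (nat_lit 380) (nat_lit 14450189281) (nat_lit 45) (nat_lit 5) (nat_lit 49) (nat_lit 5) (nat_lit 50) (nat_lit 5) (nat_lit 290) (nat_lit 269) (nat_lit 161)))) (XT.nd (nat_lit 156) (nat_lit 304) (nat_lit 0) (XT.nd (nat_lit 78) (nat_lit 228) (nat_lit 0) (XT.lf (nat_lit 0) (nat_lit 19703920247) (nat_lit 380) (nat_lit 4879390978) (nat_lit 76) (nat_lit 6641590389) (nat_lit 45) (nat_lit 5) (nat_lit 50) (nat_lit 5) (nat_lit 46) (nat_lit 5) (nat_lit 291) (nat_lit 269) (nat_lit 160)) (XT.lf (nat_lit 0) (nat_lit 9262878484) (nat_lit 228) (nat_lit 14712579378) (nat_lit 304) (nat_lit 8235794797) (nat_lit 42) (nat_lit 5) (nat_lit 45) (nat_lit 5) (nat_lit 46) (nat_lit 5) (nat_lit 292) (nat_lit 269) (nat_lit 159))) (XT.nd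 (nat_lit 78) (nat_lit 304) (nat_lit 0) (XT.lf (nat_lit 0) (nat_lit 24275409957) (nat_lit 228) (nat_lit 4262578659) (nat_lit 304) (nat_lit 4705077407) (nat_lit 42) (nat_lit 5) (nat_lit 45) (nat_lit 5) (nat_lit 46) (nat_lit 5) (nat_lit 293) (nat_lit 269) (nat_lit 158)) (XT.nd (nat_lit 78) (nat_lit 76) (nat_lit 0) (XT.lf (nat_lit 0) (nat_lit 5786332942) (nat_lit 228) (nat_lit 27732429063) (nat_lit 304) (nat_lit 798217085) (nat_lit 39) (nat_lit 5) (nat_lit 42) (nat_lit 5) (nat_lit 43) (nat_lit 5) (nat_lit 294) (nat_lit 269) (nat_lit 157)) (XT.lf (nat_lit 0) (nat_lit 3417541264) (nat_lit 304) (nat_lit 13977868317) (nat_lit 76) (nat_lit 18035647303) (nat_lit 38) (nat_lit 5) (nat_lit 42) (nat_lit 5) (nat_lit 39) (nat_lit 5) (nat_lit 295) (nat_lit 269) (nat_lit 156)))))) (XT.nd (nat_lit 312) (nat_lit 456) (nat_lit 0) (XT.nd (nat_lit 156) (nat_lit 228) (nat_lit 0) (XT.nd (nat_lit 78) (nat_lit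 0) (nat_lit 0) (XT.lf (nat_lit 0) (nat_lit 1325919895) (nat_lit 228) (nat_lit 6507342275) (nat_lit 304) (nat_lit 28766134940) (nat_lit 35) (nat_lit 5) (nat_lit 38) (nat_lit 5) (nat_lit 39) (nat_lit 5) (nat_lit 296) (nat_lit 269) (nat_lit 155)) (XT.lf (nat_lit 0) (nat_lit 12782676949) (nat_lit 304) (nat_lit 20021020837) (nat_lit 76) (nat_lit 5006823381) (nat_lit 35) (nat_lit 5) (nat_lit 39) (nat_lit 5) (nat_lit 36) (nat_lit 5) (nat_lit 297) (nat_lit 269) (nat_lit 154))) (XT.nd (nat_lit 78) (nat_lit 228) (nat_lit 0) (XT.lf (nat_lit 0) (nat_lit 18081868891) (nat_lit 304) (nat_lit 4118433080) (nat_lit 76) (nat_lit 16876795758) (nat_lit 35) (nat_lit 5) (nat_lit 39) (nat_lit 5) (nat_lit 36) (nat_lit 5) (nat_lit 298) (nat_lit 269) (nat_lit 153)) (XT.lf (nat_lit 0) (nat_lit 12989492075) (nat_lit 228) (nat_lit 10855167570) (nat_lit 304) (nat_lit 16552422586) (nat_lit 32) (nat_lit 5) (nat_lit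 35) (nat_lit 5) (nat_lit 36) (nat_lit 5) (nat_lit 299) (nat_lit 269) (nat_lit 152)))) (XT.nd (nat_lit 156) (nat_lit 304) (nat_lit 0) (XT.nd (nat_lit 78) (nat_lit 152) (nat_lit 0) (XT.lf (nat_lit 0) (nat_lit 29978915438) (nat_lit 304) (nat_lit 10707070794) (nat_lit 76) (nat_lit 1092923998) (nat_lit 32) (nat_lit 5) (nat_lit 36) (nat_lit 5) (nat_lit 33) (nat_lit 5) (nat_lit 300) (nat_lit 269) (nat_lit 151)) (XT.lf (nat_lit 0) (nat_lit 6864869400) (nat_lit 152) (nat_lit 29836270145) (nat_lit 228) (nat_lit 6514637350) (nat_lit 30) (nat_lit 5) (nat_lit 32) (nat_lit 5) (nat_lit 33) (nat_lit 5) (nat_lit 301) (nat_lit 269) (nat_lit 150))) (XT.nd (nat_lit 78) (nat_lit 304) (nat_lit 0) (XT.lf (nat_lit 0) (nat_lit 25681848279) (nat_lit 152) (nat_lit 18255180282) (nat_lit 228) (nat_lit 778590212) (nat_lit 30) (nat_lit 5) (nat_lit 32) (nat_lit 5) (nat_lit 33) (nat_lit 5) (nat_lit 302) (nat_lit 269)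 (nat_lit 149)) (XT.nd (nat_lit 78) (nat_lit 228) (nat_lit 0) (XT.lf (nat_lit 0) (nat_lit 5072746541) (nat_lit 228) (nat_lit 937816085) (nat_lit 76) (nat_lit 40275988101) (nat_lit 29) (nat_lit 5) (nat_lit 32) (nat_lit 5) (nat_lit 30) (nat_lit 5) (nat_lit 303) (nat_lit 269) (nat_lit 148)) (XT.lf (nat_lit 0) (nat_lit 11589895712) (nat_lit 304) (nat_lit 29390955336) (nat_lit 76) (nat_lit 6934577738) (nat_lit 26) (nat_lit 5) (nat_lit 30) (nat_lit 5) (nat_lit 27) (nat_lit 5) (nat_lit 304) (nat_lit 269) (nat_lit 147))))))) (XT.nd (nat_lit 702) (nat_lit 456) (nat_lit 0) (XT.nd (nat_lit 312) (nat_lit 380) (nat_lit 0) (XT.nd (nat_lit 156) (nat_lit 0) (nat_lit 0) (XT.nd (nat_lit 78) (nat_lit 152) (nat_lit 0) (XT.lf (nat_lit 0) (nat_lit 18544157846) (nat_lit 304) (nat_lit 10736306597) (nat_lit 76) (nat_lit 20339731400) (nat_lit 26) (nat_lit 5) (nat_lit 30) (nat_lit 5) (nat_lit 27) (nat_lit 5)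 (nat_lit 305) (nat_lit 269) (nat_lit 146)) (XT.lf (nat_lit 0) (nat_lit 9138819485) (nat_lit 152) (nat_lit 16846738043) (nat_lit 228) (nat_lit 25417679995) (nat_lit 24) (nat_lit 5) (nat_lit 26) (nat_lit 5) (nat_lit 27) (nat_lit 5) (nat_lit 306) (nat_lit 269) (nat_lit 145))) (XT.nd (nat_lit 78) (nat_lit 0) (nat_lit 0) (XT.lf (nat_lit 0) (nat_lit 30375764490) (nat_lit 152) (nat_lit 3601911232) (nat_lit 228) (nat_lit 19288830279) (nat_lit 24) (nat_lit 5) (nat_lit 26) (nat_lit 5) (nat_lit 27) (nat_lit 5) (nat_lit 307) (nat_lit 269) (nat_lit 144)) (XT.lf (nat_lit 0) (nat_lit 42527245092) (nat_lit 228) (nat_lit 2713864202) (nat_lit 76) (nat_lit 9973943141) (nat_lit 24) (nat_lit 5) (nat_lit 27) (nat_lit 5) (nat_lit 25) (nat_lit 5) (nat_lit 308) (nat_lit 269) (nat_lit 143)))) (XT.nd (nat_lit 156) (nat_lit 152) (nat_lit 0) (XT.nd (nat_lit 78) (nat_lit 76) (nat_lit 0) (XT.lf (nat_lit 0) (nat_lit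 19017103252) (nat_lit 152) (nat_lit 32840245669) (nat_lit 228) (nat_lit 5386030945) (nat_lit 22) (nat_lit 5) (nat_lit 24) (nat_lit 5) (nat_lit 25) (nat_lit 5) (nat_lit 309) (nat_lit 269) (nat_lit 142)) (XT.lf (nat_lit 0) (nat_lit 2251664030) (nat_lit 228) (nat_lit 17482753742) (nat_lit 76) (nat_lit 39634739723) (nat_lit 21) (nat_lit 5) (nat_lit 24) (nat_lit 5) (nat_lit 22) (nat_lit 5) (nat_lit 310) (nat_lit 269) (nat_lit 141))) (XT.nd (nat_lit 78) (nat_lit 0) (nat_lit 0) (XT.lf (nat_lit 0) (nat_lit 4344507971) (nat_lit 152) (nat_lit 5810813716) (nat_lit 228) (nat_lit 51438238938) (nat_lit 19) (nat_lit 5) (nat_lit 21) (nat_lit 5) (nat_lit 22) (nat_lit 5) (nat_lit 311) (nat_lit 269) (nat_lit 140)) (XT.nd (nat_lit 78) (nat_lit 0) (nat_lit 0) (XT.lf (nat_lit 0) (nat_lit 18889925318) (nat_lit 228) (nat_lit 36190914138) (nat_lit 76) (nat_lit 8826561625) (nat_lit 19) (nat_lit 5) (nat_lit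 22) (nat_lit 5) (nat_lit 20) (nat_lit 5) (nat_lit 312) (nat_lit 269) (nat_lit 139)) (XT.lf (nat_lit 0) (nat_lit 28153944778) (nat_lit 228) (nat_lit 14179168135) (nat_lit 76) (nat_lit 23999191438) (nat_lit 19) (nat_lit 5) (nat_lit 22) (nat_lit 5) (nat_lit 20) (nat_lit 5) (nat_lit 313) (nat_lit 269) (nat_lit 138)))))) (XT.nd (nat_lit 312) (nat_lit 228) (nat_lit 0) (XT.nd (nat_lit 156) (nat_lit 76) (nat_lit 0) (XT.nd (nat_lit 78) (nat_lit 0) (nat_lit 0) (XT.lf (nat_lit 0) (nat_lit 9224560919) (nat_lit 152) (nat_lit 28798174498) (nat_lit 228) (nat_lit 30848643688) (nat_lit 17) (nat_lit 5) (nat_lit 19) (nat_lit 5) (nat_lit 20) (nat_lit 5) (nat_lit 314) (nat_lit 269) (nat_lit 137)) (XT.lf (nat_lit 0) (nat_lit 34286959381) (nat_lit 152) (nat_lit 14335743850) (nat_lit 228) (nat_lit 22902822084) (nat_lit 17) (nat_lit 5) (nat_lit 19) (nat_lit 5) (nat_lit 20) (nat_lit 5) (nat_lit 315) (nat_lit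 269) (nat_lit 136))) (XT.nd (nat_lit 78) (nat_lit 76) (nat_lit 0) (XT.lf (nat_lit 0) (nat_lit 59763637165) (nat_lit 228) (nat_lit 13726872084) (nat_lit 76) (nat_lit 821325583) (nat_lit 17) (nat_lit 5) (nat_lit 20) (nat_lit 5) (nat_lit 18) (nat_lit 4) (nat_lit 316) (nat_lit 269) (nat_lit 135)) (XT.lf (nat_lit 0) (nat_lit 11076380840) (nat_lit 76) (nat_lit 60790991867) (nat_lit 152) (nat_lit 5349803546) (nat_lit 16) (nat_lit 5) (nat_lit 17) (nat_lit 5) (nat_lit 18) (nat_lit 4) (nat_lit 317) (nat_lit 269) (nat_lit 134)))) (XT.nd (nat_lit 156) (nat_lit 152) (nat_lit 0) (XT.nd (nat_lit 78) (nat_lit 0) (nat_lit 0) (XT.lf (nat_lit 0) (nat_lit 4404713843) (nat_lit 152) (nat_lit 42734423441) (nat_lit 76) (nat_lit 33113582709) (nat_lit 15) (nat_lit 5) (nat_lit 17) (nat_lit 5) (nat_lit 16) (nat_lit 5) (nat_lit 318) (nat_lit 269) (nat_lit 133)) (XT.lf (nat_lit 0) (nat_lit 14465092979) (nat_lit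 152) (nat_lit 18248811470) (nat_lit 76) (nat_lit 50721858774) (nat_lit 15) (nat_lit 5) (nat_lit 17) (nat_lit 5) (nat_lit 16) (nat_lit 5) (nat_lit 319) (nat_lit 269) (nat_lit 132))) (XT.nd (nat_lit 78) (nat_lit 0) (nat_lit 0) (XT.lf (nat_lit 0) (nat_lit 7704455699) (nat_lit 152) (nat_lit 17442346714) (nat_lit 228) (nat_lit 61625244066) (nat_lit 13) (nat_lit 5) (nat_lit 15) (nat_lit 5) (nat_lit 16) (nat_lit 5) (nat_lit 320) (nat_lit 269) (nat_lit 131)) (XT.nd (nat_lit 78) (nat_lit 0) (nat_lit 0) (XT.lf (nat_lit 0) (nat_lit 35585779529) (nat_lit 152) (nat_lit 1083938170) (nat_lit 228) (nat_lit 53590073451) (nat_lit 13) (nat_lit 5) (nat_lit 15) (nat_lit 5) (nat_lit 16) (nat_lit 5) (nat_lit 321) (nat_lit 269) (nat_lit 130)) (XT.lf (nat_lit 0) (nat_lit 49018167679) (nat_lit 228) (nat_lit 29315091168) (nat_lit 76) (nat_lit 15576197875) (nat_lit 13) (nat_lit 5) (nat_lit 16) (nat_lit 5) (nat_lit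 14) (nat_lit 4) (nat_lit 322) (nat_lit 269) (nat_lit 129))))))))
noncomputable def xc197 : XT := (XT.nd (nat_lit 1404) (nat_lit 152) (nat_lit 0) (XT.nd (nat_lit 702) (nat_lit 152) (nat_lit 0) (XT.nd (nat_lit 312) (nat_lit 304) (nat_lit 0) (XT.nd (nat_lit 156) (nat_lit 0) (nat_lit 0) (XT.nd (nat_lit 78) (nat_lit 76) (nat_lit 0) (XT.lf (nat_lit 0) (nat_lit 62000039740) (nat_lit 228) (nat_lit 2708937354) (nat_lit 76) (nat_lit 33031831465) (nat_lit 13) (nat_lit 5) (nat_lit 16) (nat_lit 5) (nat_lit 14) (nat_lit 4) (nat_lit 323) (nat_lit 269) (nat_lit 128)) (XT.lf (nat_lit 0) (nat_lit 26058764314) (nat_lit 76) (nat_lit 49977405816) (nat_lit 152) (nat_lit 25707302447) (nat_lit 12) (nat_lit 5) (nat_lit 13) (nat_lit 5) (nat_lit 14) (nat_lit 4) (nat_lit 324) (nat_lit 269) (nat_lit 127))) (XT.nd (nat_lit 78) (nat_lit 0) (nat_lit 0) (XT.lf (nat_lit 0) (nat_lit 56356141432) (nat_lit 76) (nat_lit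 34462194368) (nat_lit 152) (nat_lit 15125725248) (nat_lit 12) (nat_lit 5) (nat_lit 13) (nat_lit 5) (nat_lit 14) (nat_lit 4) (nat_lit 325) (nat_lit 269) (nat_lit 126)) (XT.lf (nat_lit 0) (nat_lit 88165760908) (nat_lit 76) (nat_lit 18172278936) (nat_lit 152) (nat_lit 4016720155) (nat_lit 12) (nat_lit 5) (nat_lit 13) (nat_lit 5) (nat_lit 14) (nat_lit 4) (nat_lit 326) (nat_lit 269) (nat_lit 125)))) (XT.nd (nat_lit 156) (nat_lit 76) (nat_lit 0) (XT.nd (nat_lit 78) (nat_lit 0) (nat_lit 0) (XT.lf (nat_lit 0) (nat_lit 6671438499) (nat_lit 152) (nat_lit 834159231) (nat_lit 228) (nat_lit 107469296471) (nat_lit 9) (nat_lit 5) (nat_lit 11) (nat_lit 5) (nat_lit 12) (nat_lit 5) (nat_lit 327) (nat_lit 269) (nat_lit 124)) (XT.lf (nat_lit 0) (nat_lit 20120688302) (nat_lit 228) (nat_lit 82407785801) (nat_lit 76) (nat_lit 17261688584) (nat_lit 9) (nat_lit 5) (nat_lit 12) (nat_lit 5) (nat_lit 10) (nat_lit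 4) (nat_lit 328) (nat_lit 269) (nat_lit 123))) (XT.nd (nat_lit 78) (nat_lit 76) (nat_lit 0) (XT.lf (nat_lit 0) (nat_lit 33378775030) (nat_lit 228) (nat_lit 55233458140) (nat_lit 76) (nat_lit 36233351453) (nat_lit 9) (nat_lit 5) (nat_lit 12) (nat_lit 5) (nat_lit 10) (nat_lit 4) (nat_lit 329) (nat_lit 269) (nat_lit 122)) (XT.nd (nat_lit 78) (nat_lit 76) (nat_lit 0) (XT.lf (nat_lit 0) (nat_lit 47298401225) (nat_lit 228) (nat_lit 26702748376) (nat_lit 76) (nat_lit 56152698307) (nat_lit 9) (nat_lit 5) (nat_lit 12) (nat_lit 5) (nat_lit 10) (nat_lit 4) (nat_lit 330) (nat_lit 269) (nat_lit 121)) (XT.lf (nat_lit 0) (nat_lit 3359808609) (nat_lit 76) (nat_lit 58605356272) (nat_lit 152) (nat_lit 73759803580) (nat_lit 8) (nat_lit 5) (nat_lit 9) (nat_lit 5) (nat_lit 10) (nat_lit 4) (nat_lit 331) (nat_lit 269) (nat_lit 120)))))) (XT.nd (nat_lit 312) (nat_lit 152) (nat_lit 0) (XT.nd (nat_lit 156)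 (nat_lit 0) (nat_lit 0) (XT.nd (nat_lit 78) (nat_lit 0) (nat_lit 0) (XT.lf (nat_lit 0) (nat_lit 35850365305) (nat_lit 76) (nat_lit 41965853253) (nat_lit 152) (nat_lit 63735880712) (nat_lit 8) (nat_lit 5) (nat_lit 9) (nat_lit 5) (nat_lit 10) (nat_lit 4) (nat_lit 332) (nat_lit 269) (nat_lit 119)) (XT.lf (nat_lit 0) (nat_lit 69963366724) (nat_lit 76) (nat_lit 24495246645) (nat_lit 152) (nat_lit 53212035562) (nat_lit 8) (nat_lit 5) (nat_lit 9) (nat_lit 5) (nat_lit 10) (nat_lit 4) (nat_lit 333) (nat_lit 269) (nat_lit 118))) (XT.nd (nat_lit 78) (nat_lit 0) (nat_lit 0) (XT.lf (nat_lit 0) (nat_lit 105780034299) (nat_lit 76) (nat_lit 6151939767) (nat_lit 152) (nat_lit 42163211354) (nat_lit 8) (nat_lit 5) (nat_lit 9) (nat_lit 5) (nat_lit 10) (nat_lit 4) (nat_lit 334) (nat_lit 269) (nat_lit 117)) (XT.lf (nat_lit 0) (nat_lit 130482552472) (nat_lit 152) (nat_lit 17660008029) (nat_lit 0) (nat_lit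 12688212321) (nat_lit 8) (nat_lit 5) (nat_lit 10) (nat_lit 4) (nat_lit 8) (nat_lit 4) (nat_lit 335) (nat_lit 269) (nat_lit 116)))) (XT.nd (nat_lit 156) (nat_lit 76) (nat_lit 0) (XT.nd (nat_lit 78) (nat_lit 0) (nat_lit 0) (XT.lf (nat_lit 0) (nat_lit 14902161436) (nat_lit 76) (nat_lit 135390956000) (nat_lit 76) (nat_lit 17593400773) (nat_lit 7) (nat_lit 4) (nat_lit 8) (nat_lit 5) (nat_lit 8) (nat_lit 4) (nat_lit 336) (nat_lit 269) (nat_lit 115)) (XT.lf (nat_lit 0) (nat_lit 49703743136) (nat_lit 76) (nat_lit 121688512067) (nat_lit 76) (nat_lit 3887894863) (nat_lit 7) (nat_lit 4) (nat_lit 8) (nat_lit 5) (nat_lit 8) (nat_lit 4) (nat_lit 337) (nat_lit 269) (nat_lit 114))) (XT.nd (nat_lit 78) (nat_lit 0) (nat_lit 0) (XT.lf (nat_lit 0) (nat_lit 10165724010) (nat_lit 152) (nat_lit 96963799150) (nat_lit 76) (nat_lit 75905792893) (nat_lit 6) (nat_lit 5) (nat_lit 8) (nat_lit 5) (nat_lit 7) (nat_lit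 4) (nat_lit 338) (nat_lit 269) (nat_lit 113)) (XT.nd (nat_lit 78) (nat_lit 0) (nat_lit 0) (XT.lf (nat_lit 0) (nat_lit 24790408517) (nat_lit 152) (nat_lit 66985973214) (nat_lit 76) (nat_lit 99398720869) (nat_lit 6) (nat_lit 5) (nat_lit 8) (nat_lit 5) (nat_lit 7) (nat_lit 4) (nat_lit 339) (nat_lit 269) (nat_lit 112)) (XT.lf (nat_lit 0) (nat_lit 40145416250) (nat_lit 152) (nat_lit 35510852412) (nat_lit 76) (nat_lit 124065656536) (nat_lit 6) (nat_lit 5) (nat_lit 8) (nat_lit 5) (nat_lit 7) (nat_lit 4) (nat_lit 340) (nat_lit 269) (nat_lit 111))))))) (XT.nd (nat_lit 702) (nat_lit 0) (nat_lit 0) (XT.nd (nat_lit 312) (nat_lit 76) (nat_lit 0) (XT.nd (nat_lit 156) (nat_lit 0) (nat_lit 0) (XT.nd (nat_lit 78) (nat_lit 76) (nat_lit 0) (XT.lf (nat_lit 0) (nat_lit 56267306751) (nat_lit 152) (nat_lit 2463495981) (nat_lit 76) (nat_lit 149965330694) (nat_lit 6) (nat_lit 5) (nat_lit 8) (nat_lit 5) (nat_lit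 7) (nat_lit 4) (nat_lit 341) (nat_lit 269) (nat_lit 110)) (XT.lf (nat_lit 0) (nat_lit 33300607673) (nat_lit 76) (nat_lit 40413773611) (nat_lit 152) (nat_lit 144378717369) (nat_lit 5) (nat_lit 5) (nat_lit 6) (nat_lit 5) (nat_lit 7) (nat_lit 4) (nat_lit 342) (nat_lit 269) (nat_lit 109))) (XT.nd (nat_lit 78) (nat_lit 0) (nat_lit 0) (XT.lf (nat_lit 0) (nat_lit 70937018873) (nat_lit 76) (nat_lit 21137701970) (nat_lit 152) (nat_lit 135883146749) (nat_lit 5) (nat_lit 5) (nat_lit 6) (nat_lit 5) (nat_lit 7) (nat_lit 4) (nat_lit 343) (nat_lit 269) (nat_lit 108)) (XT.lf (nat_lit 0) (nat_lit 110453893820) (nat_lit 76) (nat_lit 898412895) (nat_lit 152) (nat_lit 126963607761) (nat_lit 5) (nat_lit 5) (nat_lit 6) (nat_lit 5) (nat_lit 7) (nat_lit 4) (nat_lit 344) (nat_lit 269) (nat_lit 107)))) (XT.nd (nat_lit 156) (nat_lit 76) (nat_lit 0) (XT.nd (nat_lit 78) (nat_lit 0) (nat_lit 0) (XT.lf (nat_lit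 0) (nat_lit 131910794078) (nat_lit 152) (nat_lit 97564337178) (nat_lit 0) (nat_lit 19700882257) (nat_lit 5) (nat_lit 5) (nat_lit 7) (nat_lit 4) (nat_lit 5) (nat_lit 4) (nat_lit 345) (nat_lit 269) (nat_lit 106)) (XT.lf (nat_lit 0) (nat_lit 153511226574) (nat_lit 152) (nat_lit 65767755803) (nat_lit 0) (nat_lit 41299434964) (nat_lit 5) (nat_lit 5) (nat_lit 7) (nat_lit 4) (nat_lit 5) (nat_lit 4) (nat_lit 346) (nat_lit 269) (nat_lit 105))) (XT.nd (nat_lit 78) (nat_lit 76) (nat_lit 0) (XT.lf (nat_lit 0) (nat_lit 176191007059) (nat_lit 152) (nat_lit 32382543641) (nat_lit 0) (nat_lit 63977425175) (nat_lit 5) (nat_lit 5) (nat_lit 7) (nat_lit 4) (nat_lit 5) (nat_lit 4) (nat_lit 347) (nat_lit 269) (nat_lit 104)) (XT.nd (nat_lit 78) (nat_lit 0) (nat_lit 0) (XT.lf (nat_lit 0) (nat_lit 2759096217) (nat_lit 76) (nat_lit 197288116019) (nat_lit 76) (nat_lit 85072829111) (nat_lit 4) (nat_lit 4) (nat_lit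 5) (nat_lit 5) (nat_lit 5) (nat_lit 4) (nat_lit 348) (nat_lit 269) (nat_lit 103)) (XT.lf (nat_lit 0) (nat_lit 40780944047) (nat_lit 76) (nat_lit 184863069133) (nat_lit 76) (nat_lit 72646158393) (nat_lit 4) (nat_lit 4) (nat_lit 5) (nat_lit 5) (nat_lit 5) (nat_lit 4) (nat_lit 349) (nat_lit 269) (nat_lit 102)))))) (XT.nd (nat_lit 31278) (nat_lit 0) (nat_lit 4864) (XT.nd (nat_lit 156) (nat_lit 0) (nat_lit 0) (XT.nd (nat_lit 78) (nat_lit 0) (nat_lit 0) (XT.lf (nat_lit 0) (nat_lit 80702814922) (nat_lit 76) (nat_lit 171817240643) (nat_lit 76) (nat_lit 59598783397) (nat_lit 4) (nat_lit 4) (nat_lit 5) (nat_lit 5) (nat_lit 5) (nat_lit 4) (nat_lit 350) (nat_lit 269) (nat_lit 101)) (XT.lf (nat_lit 0) (nat_lit 122619760914) (nat_lit 76) (nat_lit 158119569053) (nat_lit 76) (nat_lit 45899638944) (nat_lit 4) (nat_lit 4) (nat_lit 5) (nat_lit 5) (nat_lit 5) (nat_lit 4) (nat_lit 351) (nat_lit 269) (nat_lit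 100))) (XT.nd (nat_lit 78) (nat_lit 0) (nat_lit 0) (XT.lf (nat_lit 0) (nat_lit 166631584277) (nat_lit 76) (nat_lit 143737440860) (nat_lit 76) (nat_lit 31516108024) (nat_lit 4) (nat_lit 4) (nat_lit 5) (nat_lit 5) (nat_lit 5) (nat_lit 4) (nat_lit 352) (nat_lit 269) (nat_lit 99)) (XT.lf (nat_lit 0) (nat_lit 212843075066) (nat_lit 76) (nat_lit 128636612900) (nat_lit 76) (nat_lit 16413944133) (nat_lit 4) (nat_lit 4) (nat_lit 5) (nat_lit 5) (nat_lit 5) (nat_lit 4) (nat_lit 353) (nat_lit 269) (nat_lit 98)))) (XT.nd (nat_lit 156) (nat_lit 0) (nat_lit 0) (XT.nd (nat_lit 78) (nat_lit 0) (nat_lit 0) (XT.lf (nat_lit 0) (nat_lit 1019570014) (nat_lit 0) (nat_lit 1019570014) (nat_lit 684) (nat_lit 6909579176) (nat_lit 68) (nat_lit 5) (nat_lit 68) (nat_lit 3) (nat_lit 77) (nat_lit 3) (nat_lit 270) (nat_lit 270) (nat_lit 180)) (XT.lf (nat_lit 0) (nat_lit 4456989309) (nat_lit 684) (nat_lit 8420130141)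 (nat_lit 760) (nat_lit 5453239215) (nat_lit 68) (nat_lit 5) (nat_lit 77) (nat_lit 3) (nat_lit 78) (nat_lit 5) (nat_lit 271) (nat_lit 270) (nat_lit 179))) (XT.nd (nat_lit 78) (nat_lit 0) (nat_lit 76) (XT.lf (nat_lit 0) (nat_lit 4876071538) (nat_lit 684) (nat_lit 650266706) (nat_lit 760) (nat_lit 13257558218) (nat_lit 68) (nat_lit 5) (nat_lit 77) (nat_lit 3) (nat_lit 78) (nat_lit 5) (nat_lit 272) (nat_lit 270) (nat_lit 178)) (XT.nd (nat_lit 78) (nat_lit 0) (nat_lit 0) (XT.lf (nat_lit 0) (nat_lit 5461965780) (nat_lit 684) (nat_lit 11541291700) (nat_lit 760) (nat_lit 2249602115) (nat_lit 69) (nat_lit 5) (nat_lit 78) (nat_lit 5) (nat_lit 79) (nat_lit 5) (nat_lit 273) (nat_lit 270) (nat_lit 177)) (XT.lf (nat_lit 0) (nat_lit 6168040204) (nat_lit 684) (nat_lit 3328444115) (nat_lit 760) (nat_lit 10244281662) (nat_lit 69) (nat_lit 5) (nat_lit 78) (nat_lit 5) (nat_lit 79) (nat_lit 5) (nat_lit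 274) (nat_lit 270) (nat_lit 176))))))))
noncomputable def xc198 : XT := (XT.nd (nat_lit 1404) (nat_lit 1748) (nat_lit 0) (XT.nd (nat_lit 702) (nat_lit 1368) (nat_lit 0) (XT.nd (nat_lit 312) (nat_lit 456) (nat_lit 0) (XT.nd (nat_lit 156) (nat_lit 0) (nat_lit 76) (XT.nd (nat_lit 78) (nat_lit 0) (nat_lit 76) (XT.lf (nat_lit 76) (nat_lit 5463219526) (nat_lit 0) (nat_lit 1521110844) (nat_lit 760) (nat_lit 13265029212) (nat_lit 70) (nat_lit 5) (nat_lit 69) (nat_lit 5) (nat_lit 79) (nat_lit 5) (nat_lit 275) (nat_lit 270) (nat_lit 175)) (XT.lf (nat_lit 0) (nat_lit 7995783975) (nat_lit 684) (nat_lit 6085625448) (nat_lit 760) (nat_lit 6694291704) (nat_lit 70) (nat_lit 5) (nat_lit 79) (nat_lit 5) (nat_lit 80) (nat_lit 5) (nat_lit 276) (nat_lit 270) (nat_lit 174))) (XT.nd (nat_lit 78) (nat_lit 0) (nat_lit 76) (XT.lf (nat_lit 76) (nat_lit 3117949318) (nat_lit 0) (nat_lit 6004011412) (nat_lit 760)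 (nat_lit 12203225506) (nat_lit 71) (nat_lit 5) (nat_lit 70) (nat_lit 5) (nat_lit 80) (nat_lit 5) (nat_lit 277) (nat_lit 270) (nat_lit 173)) (XT.lf (nat_lit 0) (nat_lit 10438793620) (nat_lit 684) (nat_lit 8951616007) (nat_lit 760) (nat_lit 2505050999) (nat_lit 71) (nat_lit 5) (nat_lit 80) (nat_lit 5) (nat_lit 81) (nat_lit 5) (nat_lit 278) (nat_lit 270) (nat_lit 172)))) (XT.nd (nat_lit 156) (nat_lit 608) (nat_lit 0) (XT.nd (nat_lit 78) (nat_lit 0) (nat_lit 0) (XT.lf (nat_lit 76) (nat_lit 683336197) (nat_lit 0) (nat_lit 11238577464) (nat_lit 760) (nat_lit 10567343647) (nat_lit 72) (nat_lit 5) (nat_lit 71) (nat_lit 5) (nat_lit 81) (nat_lit 5) (nat_lit 279) (nat_lit 270) (nat_lit 171)) (XT.lf (nat_lit 76) (nat_lit 11104032744) (nat_lit 0) (nat_lit 2518413192) (nat_lit 760) (nat_lit 9483164456) (nat_lit 72) (nat_lit 5) (nat_lit 71) (nat_lit 5) (nat_lit 81) (nat_lit 5) (nat_lit 280) (nat_lit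 270) (nat_lit 170))) (XT.nd (nat_lit 78) (nat_lit 684) (nat_lit 0) (XT.lf (nat_lit 0) (nat_lit 15503715657) (nat_lit 684) (nat_lit 1817559696) (nat_lit 76) (nat_lit 6426748215) (nat_lit 72) (nat_lit 5) (nat_lit 81) (nat_lit 5) (nat_lit 73) (nat_lit 5) (nat_lit 281) (nat_lit 270) (nat_lit 169)) (XT.nd (nat_lit 78) (nat_lit 0) (nat_lit 0) (XT.lf (nat_lit 0) (nat_lit 9119680753) (nat_lit 684) (nat_lit 8535491449) (nat_lit 760) (nat_lit 6758605682) (nat_lit 63) (nat_lit 5) (nat_lit 72) (nat_lit 5) (nat_lit 73) (nat_lit 5) (nat_lit 282) (nat_lit 270) (nat_lit 168)) (XT.lf (nat_lit 0) (nat_lit 19948978812) (nat_lit 760) (nat_lit 4462542996) (nat_lit 76) (nat_lit 699584625) (nat_lit 63) (nat_lit 5) (nat_lit 73) (nat_lit 5) (nat_lit 64) (nat_lit 5) (nat_lit 283) (nat_lit 270) (nat_lit 167)))))) (XT.nd (nat_lit 312) (nat_lit 608) (nat_lit 0) (XT.nd (nat_lit 156) (nat_lit 456) (nat_lit 0) (XT.nd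 (nat_lit 78) (nat_lit 0) (nat_lit 0) (XT.lf (nat_lit 0) (nat_lit 6987766326) (nat_lit 304) (nat_lit 15611805627) (nat_lit 380) (nat_lit 3231648818) (nat_lit 59) (nat_lit 5) (nat_lit 63) (nat_lit 5) (nat_lit 64) (nat_lit 5) (nat_lit 284) (nat_lit 270) (nat_lit 166)) (XT.lf (nat_lit 0) (nat_lit 19159077560) (nat_lit 304) (nat_lit 6292493347) (nat_lit 380) (nat_lit 1132349128) (nat_lit 59) (nat_lit 5) (nat_lit 63) (nat_lit 5) (nat_lit 64) (nat_lit 5) (nat_lit 285) (nat_lit 270) (nat_lit 165))) (XT.nd (nat_lit 78) (nat_lit 0) (nat_lit 0) (XT.lf (nat_lit 0) (nat_lit 1160362511) (nat_lit 456) (nat_lit 22734352651) (nat_lit 76) (nat_lit 3472585453) (nat_lit 53) (nat_lit 5) (nat_lit 59) (nat_lit 5) (nat_lit 54) (nat_lit 5) (nat_lit 286) (nat_lit 270) (nat_lit 164)) (XT.lf (nat_lit 0) (nat_lit 3754322007) (nat_lit 456) (nat_lit 10762545815) (nat_lit 76) (nat_lit 13660840800) (nat_lit 53) (nat_lit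 5) (nat_lit 59) (nat_lit 5) (nat_lit 54) (nat_lit 5) (nat_lit 287) (nat_lit 270) (nat_lit 163)))) (XT.nd (nat_lit 156) (nat_lit 304) (nat_lit 0) (XT.nd (nat_lit 78) (nat_lit 0) (nat_lit 0) (XT.lf (nat_lit 0) (nat_lit 1861129260) (nat_lit 304) (nat_lit 4639913696) (nat_lit 380) (nat_lit 22526459838) (nat_lit 49) (nat_lit 5) (nat_lit 53) (nat_lit 5) (nat_lit 54) (nat_lit 5) (nat_lit 288) (nat_lit 270) (nat_lit 162)) (XT.lf (nat_lit 0) (nat_lit 9654020973) (nat_lit 380) (nat_lit 14519987813) (nat_lit 76) (nat_lit 5732349873) (nat_lit 49) (nat_lit 5) (nat_lit 54) (nat_lit 5) (nat_lit 50) (nat_lit 5) (nat_lit 289) (nat_lit 270) (nat_lit 161))) (XT.nd (nat_lit 78) (nat_lit 304) (nat_lit 0) (XT.lf (nat_lit 0) (nat_lit 13035177630) (nat_lit 380) (nat_lit 1323528604) (nat_lit 76) (nat_lit 16466941773) (nat_lit 49) (nat_lit 5) (nat_lit 54) (nat_lit 5) (nat_lit 50) (nat_lit 5) (nat_lit 290) (nat_lit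 270) (nat_lit 160)) (XT.nd (nat_lit 78) (nat_lit 0) (nat_lit 0) (XT.lf (nat_lit 0) (nat_lit 12941061060) (nat_lit 304) (nat_lit 3841106414) (nat_lit 380) (nat_lit 14998911941) (nat_lit 45) (nat_lit 5) (nat_lit 49) (nat_lit 5) (nat_lit 50) (nat_lit 5) (nat_lit 291) (nat_lit 270) (nat_lit 159)) (XT.lf (nat_lit 0) (nat_lit 20846617131) (nat_lit 380) (nat_lit 4937200986) (nat_lit 76) (nat_lit 6993974342) (nat_lit 45) (nat_lit 5) (nat_lit 50) (nat_lit 5) (nat_lit 46) (nat_lit 5) (nat_lit 292) (nat_lit 270) (nat_lit 158))))))) (XT.nd (nat_lit 702) (nat_lit 760) (nat_lit 0) (XT.nd (nat_lit 312) (nat_lit 456) (nat_lit 0) (XT.nd (nat_lit 156) (nat_lit 304) (nat_lit 0) (XT.nd (nat_lit 78) (nat_lit 0) (nat_lit 0) (XT.lf (nat_lit 0) (nat_lit 9909179376) (nat_lit 228) (nat_lit 15417911802) (nat_lit 304) (nat_lit 8486624718) (nat_lit 42) (nat_lit 5) (nat_lit 45) (nat_lit 5) (nat_lit 46) (nat_lit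 5) (nat_lit 293) (nat_lit 270) (nat_lit 157)) (XT.lf (nat_lit 0) (nat_lit 25663615663) (nat_lit 228) (nat_lit 4446853740) (nat_lit 304) (nat_lit 4787036213) (nat_lit 42) (nat_lit 5) (nat_lit 45) (nat_lit 5) (nat_lit 46) (nat_lit 5) (nat_lit 294) (nat_lit 270) (nat_lit 156))) (XT.nd (nat_lit 78) (nat_lit 76) (nat_lit 0) (XT.lf (nat_lit 0) (nat_lit 6254417397) (nat_lit 228) (nat_lit 29082151722) (nat_lit 304) (nat_lit 688751530) (nat_lit 39) (nat_lit 5) (nat_lit 42) (nat_lit 5) (nat_lit 43) (nat_lit 5) (nat_lit 295) (nat_lit 270) (nat_lit 155)) (XT.lf (nat_lit 0) (nat_lit 3726128262) (nat_lit 304) (nat_lit 14501577906) (nat_lit 76) (nat_lit 18967642604) (nat_lit 38) (nat_lit 5) (nat_lit 42) (nat_lit 5) (nat_lit 39) (nat_lit 5) (nat_lit 296) (nat_lit 270) (nat_lit 154)))) (XT.nd (nat_lit 156) (nat_lit 228) (nat_lit 0) (XT.nd (nat_lit 78) (nat_lit 0) (nat_lit 0) (XT.lf (nat_lit 0) (nat_lit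 1564574172) (nat_lit 228) (nat_lit 6794194422) (nat_lit 304) (nat_lit 30063548626) (nat_lit 35) (nat_lit 5) (nat_lit 38) (nat_lit 5) (nat_lit 39) (nat_lit 5) (nat_lit 297) (nat_lit 270) (nat_lit 153)) (XT.lf (nat_lit 0) (nat_lit 13549853312) (nat_lit 304) (nat_lit 20851779782) (nat_lit 76) (nat_lit 5292671452) (nat_lit 35) (nat_lit 5) (nat_lit 39) (nat_lit 5) (nat_lit 36) (nat_lit 5) (nat_lit 298) (nat_lit 270) (nat_lit 152))) (XT.nd (nat_lit 78) (nat_lit 228) (nat_lit 0) (XT.lf (nat_lit 0) (nat_lit 19107907588) (nat_lit 304) (nat_lit 4162171784) (nat_lit 76) (nat_lit 17754451643) (nat_lit 35) (nat_lit 5) (nat_lit 39) (nat_lit 5) (nat_lit 36) (nat_lit 5) (nat_lit 299) (nat_lit 270) (nat_lit 151)) (XT.nd (nat_lit 78) (nat_lit 0) (nat_lit 0) (XT.lf (nat_lit 0) (nat_lit 13798533774) (nat_lit 228) (nat_lit 11356988479) (nat_lit 304) (nat_lit 17255173717) (nat_lit 32) (nat_lit 5) (nat_lit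 35) (nat_lit 5) (nat_lit 36) (nat_lit 5) (nat_lit 300) (nat_lit 270) (nat_lit 150)) (XT.lf (nat_lit 0) (nat_lit 31591450518) (nat_lit 304) (nat_lit 11085121172) (nat_lit 76) (nat_lit 1185310403) (nat_lit 32) (nat_lit 5) (nat_lit 36) (nat_lit 5) (nat_lit 33) (nat_lit 5) (nat_lit 301) (nat_lit 270) (nat_lit 149)))))) (XT.nd (nat_lit 312) (nat_lit 304) (nat_lit 0) (XT.nd (nat_lit 156) (nat_lit 304) (nat_lit 0) (XT.nd (nat_lit 78) (nat_lit 0) (nat_lit 0) (XT.lf (nat_lit 0) (nat_lit 7362878884) (nat_lit 152) (nat_lit 31283914264) (nat_lit 228) (nat_lit 6723962587) (nat_lit 30) (nat_lit 5) (nat_lit 32) (nat_lit 5) (nat_lit 33) (nat_lit 5) (nat_lit 302) (nat_lit 270) (nat_lit 148)) (XT.lf (nat_lit 0) (nat_lit 27113336897) (nat_lit 152) (nat_lit 19125873212) (nat_lit 228) (nat_lit 706656265) (nat_lit 30) (nat_lit 5) (nat_lit 32) (nat_lit 5) (nat_lit 33) (nat_lit 5) (nat_lit 303) (nat_lit 270)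 (nat_lit 147))) (XT.nd (nat_lit 78) (nat_lit 228) (nat_lit 0) (XT.lf (nat_lit 0) (nat_lit 5428588758) (nat_lit 228) (nat_lit 840708173) (nat_lit 76) (nat_lit 42326229064) (nat_lit 29) (nat_lit 5) (nat_lit 32) (nat_lit 5) (nat_lit 30) (nat_lit 5) (nat_lit 304) (nat_lit 270) (nat_lit 146)) (XT.lf (nat_lit 0) (nat_lit 12269598159) (nat_lit 304) (nat_lit 30714276656) (nat_lit 76) (nat_lit 7322084528) (nat_lit 26) (nat_lit 5) (nat_lit 30) (nat_lit 5) (nat_lit 27) (nat_lit 5) (nat_lit 305) (nat_lit 270) (nat_lit 145)))) (XT.nd (nat_lit 156) (nat_lit 152) (nat_lit 0) (XT.nd (nat_lit 78) (nat_lit 152) (nat_lit 0) (XT.lf (nat_lit 0) (nat_lit 19566801605) (nat_lit 304) (nat_lit 11133858645) (nat_lit 76) (nat_lit 21395554068) (nat_lit 26) (nat_lit 5) (nat_lit 30) (nat_lit 5) (nat_lit 27) (nat_lit 5) (nat_lit 306) (nat_lit 270) (nat_lit 144)) (XT.lf (nat_lit 0) (nat_lit 9732777560) (nat_lit 152)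 (nat_lit 17645088368) (nat_lit 228) (nat_lit 26590672876) (nat_lit 24) (nat_lit 5) (nat_lit 26) (nat_lit 5) (nat_lit 27) (nat_lit 5) (nat_lit 307) (nat_lit 270) (nat_lit 143))) (XT.nd (nat_lit 78) (nat_lit 152) (nat_lit 0) (XT.lf (nat_lit 0) (nat_lit 32025045190) (nat_lit 152) (nat_lit 3740114816) (nat_lit 228) (nat_lit 20160042155) (nat_lit 24) (nat_lit 5) (nat_lit 26) (nat_lit 5) (nat_lit 27) (nat_lit 5) (nat_lit 308) (nat_lit 270) (nat_lit 142)) (XT.nd (nat_lit 78) (nat_lit 152) (nat_lit 0) (XT.lf (nat_lit 0) (nat_lit 44738611680) (nat_lit 228) (nat_lit 2721493065) (nat_lit 76) (nat_lit 10511260463) (nat_lit 24) (nat_lit 5) (nat_lit 27) (nat_lit 5) (nat_lit 25) (nat_lit 5) (nat_lit 309) (nat_lit 270) (nat_lit 141)) (XT.lf (nat_lit 0) (nat_lit 20093957208) (nat_lit 152) (nat_lit 34439182861) (nat_lit 228) (nat_lit 5568082003) (nat_lit 22) (nat_lit 5) (nat_lit 24) (nat_lit 5) (nat_lit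 25) (nat_lit 5) (nat_lit 310) (nat_lit 270) (nat_lit 140))))))))
noncomputable def xc199 : XT := (XT.nd (nat_lit 1404) (nat_lit 304) (nat_lit 0) (XT.nd (nat_lit 702) (nat_lit 456) (nat_lit 0) (XT.nd (nat_lit 312) (nat_lit 304) (nat_lit 0) (XT.nd (nat_lit 156) (nat_lit 0) (nat_lit 0) (XT.nd (nat_lit 78) (nat_lit 152) (nat_lit 0) (XT.lf (nat_lit 0) (nat_lit 2444683354) (nat_lit 228) (nat_lit 18234069186) (nat_lit 76) (nat_lit 41654677212) (nat_lit 21) (nat_lit 5) (nat_lit 24) (nat_lit 5) (nat_lit 22) (nat_lit 5) (nat_lit 311) (nat_lit 270) (nat_lit 139)) (XT.lf (nat_lit 0) (nat_lit 4682574609) (nat_lit 152) (nat_lit 6059005663) (nat_lit 228) (nat_lit 53927577747) (nat_lit 19) (nat_lit 5) (nat_lit 21) (nat_lit 5) (nat_lit 22) (nat_lit 5) (nat_lit 312) (nat_lit 270) (nat_lit 138))) (XT.nd (nat_lit 78) (nat_lit 0) (nat_lit 0) (XT.lf (nat_lit 0) (nat_lit 19909806044) (nat_lit 228) (nat_lit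 37882116327) (nat_lit 76) (nat_lit 9306930959) (nat_lit 19) (nat_lit 5) (nat_lit 22) (nat_lit 5) (nat_lit 20) (nat_lit 5) (nat_lit 313) (nat_lit 270) (nat_lit 137)) (XT.lf (nat_lit 0) (nat_lit 29633436741) (nat_lit 228) (nat_lit 14775418429) (nat_lit 76) (nat_lit 25236333155) (nat_lit 19) (nat_lit 5) (nat_lit 22) (nat_lit 5) (nat_lit 20) (nat_lit 5) (nat_lit 314) (nat_lit 270) (nat_lit 136)))) (XT.nd (nat_lit 156) (nat_lit 152) (nat_lit 0) (XT.nd (nat_lit 78) (nat_lit 0) (nat_lit 0) (XT.lf (nat_lit 0) (nat_lit 9796679204) (nat_lit 152) (nat_lit 30197300219) (nat_lit 228) (nat_lit 32317328506) (nat_lit 17) (nat_lit 5) (nat_lit 19) (nat_lit 5) (nat_lit 20) (nat_lit 5) (nat_lit 315) (nat_lit 270) (nat_lit 135)) (XT.lf (nat_lit 0) (nat_lit 36106917102) (nat_lit 152) (nat_lit 15013690087) (nat_lit 228) (nat_lit 23977727602) (nat_lit 17) (nat_lit 5) (nat_lit 19) (nat_lit 5) (nat_lit 20)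 (nat_lit 5) (nat_lit 316) (nat_lit 270) (nat_lit 134))) (XT.nd (nat_lit 78) (nat_lit 152) (nat_lit 0) (XT.lf (nat_lit 0) (nat_lit 62815985892) (nat_lit 228) (nat_lit 14309910806) (nat_lit 76) (nat_lit 898199293) (nat_lit 17) (nat_lit 5) (nat_lit 20) (nat_lit 5) (nat_lit 18) (nat_lit 4) (nat_lit 317) (nat_lit 270) (nat_lit 133)) (XT.nd (nat_lit 78) (nat_lit 76) (nat_lit 0) (XT.lf (nat_lit 0) (nat_lit 11731838556) (nat_lit 76) (nat_lit 63791600954) (nat_lit 152) (nat_lit 5551344229) (nat_lit 16) (nat_lit 5) (nat_lit 17) (nat_lit 5) (nat_lit 18) (nat_lit 4) (nat_lit 318) (nat_lit 270) (nat_lit 132)) (XT.lf (nat_lit 0) (nat_lit 4685748296) (nat_lit 152) (nat_lit 44772229999) (nat_lit 76) (nat_lit 34804232165) (nat_lit 15) (nat_lit 5) (nat_lit 17) (nat_lit 5) (nat_lit 16) (nat_lit 5) (nat_lit 319) (nat_lit 270) (nat_lit 131)))))) (XT.nd (nat_lit 312) (nat_lit 304) (nat_lit 0) (XT.nd (nat_lit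 156) (nat_lit 0) (nat_lit 0) (XT.nd (nat_lit 78) (nat_lit 152) (nat_lit 0) (XT.lf (nat_lit 0) (nat_lit 15246251210) (nat_lit 152) (nat_lit 19067047649) (nat_lit 76) (nat_lit 53291256779) (nat_lit 15) (nat_lit 5) (nat_lit 17) (nat_lit 5) (nat_lit 16) (nat_lit 5) (nat_lit 320) (nat_lit 270) (nat_lit 130)) (XT.lf (nat_lit 0) (nat_lit 8182363452) (nat_lit 152) (nat_lit 18278372422) (nat_lit 228) (nat_lit 64646987485) (nat_lit 13) (nat_lit 5) (nat_lit 15) (nat_lit 5) (nat_lit 16) (nat_lit 5) (nat_lit 321) (nat_lit 270) (nat_lit 129))) (XT.nd (nat_lit 78) (nat_lit 0) (nat_lit 0) (XT.lf (nat_lit 0) (nat_lit 37453339904) (nat_lit 152) (nat_lit 1103762099) (nat_lit 228) (nat_lit 56212892567) (nat_lit 13) (nat_lit 5) (nat_lit 15) (nat_lit 5) (nat_lit 16) (nat_lit 5) (nat_lit 322) (nat_lit 270) (nat_lit 128)) (XT.lf (nat_lit 0) (nat_lit 51520918995) (nat_lit 228) (nat_lit 30694635367) (nat_lit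 76) (nat_lit 16386696178) (nat_lit 13) (nat_lit 5) (nat_lit 16) (nat_lit 5) (nat_lit 14) (nat_lit 4) (nat_lit 323) (nat_lit 270) (nat_lit 127)))) (XT.nd (nat_lit 156) (nat_lit 228) (nat_lit 0) (XT.nd (nat_lit 78) (nat_lit 76) (nat_lit 0) (XT.lf (nat_lit 0) (nat_lit 65149415948) (nat_lit 228) (nat_lit 2762279118) (nat_lit 76) (nat_lit 34713602475) (nat_lit 13) (nat_lit 5) (nat_lit 16) (nat_lit 5) (nat_lit 14) (nat_lit 4) (nat_lit 324) (nat_lit 270) (nat_lit 126)) (XT.lf (nat_lit 0) (nat_lit 27442483358) (nat_lit 76) (nat_lit 52443779560) (nat_lit 152) (nat_lit 26941890277) (nat_lit 12) (nat_lit 5) (nat_lit 13) (nat_lit 5) (nat_lit 14) (nat_lit 4) (nat_lit 325) (nat_lit 270) (nat_lit 125))) (XT.nd (nat_lit 78) (nat_lit 228) (nat_lit 0) (XT.lf (nat_lit 0) (nat_lit 59250882626) (nat_lit 76) (nat_lit 36154354994) (nat_lit 152) (nat_lit 15833652184) (nat_lit 12) (nat_lit 5) (nat_lit 13)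 (nat_lit 5) (nat_lit 14) (nat_lit 4) (nat_lit 326) (nat_lit 270) (nat_lit 124)) (XT.nd (nat_lit 78) (nat_lit 228) (nat_lit 0) (XT.lf (nat_lit 0) (nat_lit 92647319546) (nat_lit 76) (nat_lit 19051417557) (nat_lit 152) (nat_lit 4171499662) (nat_lit 12) (nat_lit 5) (nat_lit 13) (nat_lit 5) (nat_lit 14) (nat_lit 4) (nat_lit 327) (nat_lit 270) (nat_lit 123)) (XT.lf (nat_lit 0) (nat_lit 7078616523) (nat_lit 152) (nat_lit 845869726) (nat_lit 228) (nat_lit 112796907406) (nat_lit 9) (nat_lit 5) (nat_lit 11) (nat_lit 5) (nat_lit 12) (nat_lit 5) (nat_lit 328) (nat_lit 270) (nat_lit 122))))))) (XT.nd (nat_lit 702) (nat_lit 152) (nat_lit 0) (XT.nd (nat_lit 312) (nat_lit 76) (nat_lit 0) (XT.nd (nat_lit 156) (nat_lit 76) (nat_lit 0) (XT.nd (nat_lit 78) (nat_lit 0) (nat_lit 0) (XT.lf (nat_lit 0) (nat_lit 21168700790) (nat_lit 228) (nat_lit 86456381748) (nat_lit 76) (nat_lit 18152427642) (nat_lit 9)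 (nat_lit 5) (nat_lit 12) (nat_lit 5) (nat_lit 10) (nat_lit 4) (nat_lit 329) (nat_lit 270) (nat_lit 121)) (XT.lf (nat_lit 0) (nat_lit 35087692898) (nat_lit 228) (nat_lit 57926756434) (nat_lit 76) (nat_lit 38071356768) (nat_lit 9) (nat_lit 5) (nat_lit 12) (nat_lit 5) (nat_lit 10) (nat_lit 4) (nat_lit 330) (nat_lit 270) (nat_lit 120))) (XT.nd (nat_lit 78) (nat_lit 76) (nat_lit 0) (XT.lf (nat_lit 0) (nat_lit 49701396635) (nat_lit 228) (nat_lit 27972767116) (nat_lit 76) (nat_lit 58985416787) (nat_lit 9) (nat_lit 5) (nat_lit 12) (nat_lit 5) (nat_lit 10) (nat_lit 4) (nat_lit 331) (nat_lit 270) (nat_lit 119)) (XT.lf (nat_lit 0) (nat_lit 3591867418) (nat_lit 76) (nat_lit 61508818231) (nat_lit 152) (nat_lit 77408614777) (nat_lit 8) (nat_lit 5) (nat_lit 9) (nat_lit 5) (nat_lit 10) (nat_lit 4) (nat_lit 332) (nat_lit 270) (nat_lit 118)))) (XT.nd (nat_lit 156) (nat_lit 76) (nat_lit 0) (XT.nd (nat_lit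 78) (nat_lit 0) (nat_lit 0) (XT.lf (nat_lit 0) (nat_lit 37703901073) (nat_lit 76) (nat_lit 44038616531) (nat_lit 152) (nat_lit 66885361431) (nat_lit 8) (nat_lit 5) (nat_lit 9) (nat_lit 5) (nat_lit 10) (nat_lit 4) (nat_lit 333) (nat_lit 270) (nat_lit 117)) (XT.lf (nat_lit 0) (nat_lit 73519646968) (nat_lit 76) (nat_lit 25695695278) (nat_lit 152) (nat_lit 55837100848) (nat_lit 8) (nat_lit 5) (nat_lit 9) (nat_lit 5) (nat_lit 10) (nat_lit 4) (nat_lit 334) (nat_lit 270) (nat_lit 116))) (XT.nd (nat_lit 78) (nat_lit 76) (nat_lit 0) (XT.lf (nat_lit 0) (nat_lit 111124380687) (nat_lit 76) (nat_lit 6436380851) (nat_lit 152) (nat_lit 44237527643) (nat_lit 8) (nat_lit 5) (nat_lit 9) (nat_lit 5) (nat_lit 10) (nat_lit 4) (nat_lit 335) (nat_lit 270) (nat_lit 115)) (XT.nd (nat_lit 78) (nat_lit 76) (nat_lit 0) (XT.lf (nat_lit 0) (nat_lit 137037680379) (nat_lit 152) (nat_lit 18489066854) (nat_lit 0) (nat_lit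 13343970338) (nat_lit 8) (nat_lit 5) (nat_lit 10) (nat_lit 4) (nat_lit 8) (nat_lit 4) (nat_lit 336) (nat_lit 270) (nat_lit 114)) (XT.lf (nat_lit 0) (nat_lit 15700341058) (nat_lit 76) (nat_lit 142137784925) (nat_lit 76) (nat_lit 18441158716) (nat_lit 7) (nat_lit 4) (nat_lit 8) (nat_lit 5) (nat_lit 8) (nat_lit 4) (nat_lit 337) (nat_lit 270) (nat_lit 113)))))) (XT.nd (nat_lit 312) (nat_lit 76) (nat_lit 0) (XT.nd (nat_lit 156) (nat_lit 0) (nat_lit 0) (XT.nd (nat_lit 78) (nat_lit 76) (nat_lit 0) (XT.lf (nat_lit 0) (nat_lit 52239474626) (nat_lit 76) (nat_lit 127751300646) (nat_lit 76) (nat_lit 4051897134) (nat_lit 7) (nat_lit 4) (nat_lit 8) (nat_lit 5) (nat_lit 8) (nat_lit 4) (nat_lit 338) (nat_lit 270) (nat_lit 112)) (XT.lf (nat_lit 0) (nat_lit 10702028995) (nat_lit 152) (nat_lit 101762889122) (nat_lit 76) (nat_lit 79720726702) (nat_lit 6) (nat_lit 5) (nat_lit 8) (nat_lit 5) (nat_lit 7)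 (nat_lit 4) (nat_lit 339) (nat_lit 270) (nat_lit 111))) (XT.nd (nat_lit 78) (nat_lit 0) (nat_lit 0) (XT.lf (nat_lit 0) (nat_lit 26056613500) (nat_lit 152) (nat_lit 70288509984) (nat_lit 76) (nat_lit 104387365641) (nat_lit 6) (nat_lit 5) (nat_lit 8) (nat_lit 5) (nat_lit 7) (nat_lit 4) (nat_lit 340) (nat_lit 270) (nat_lit 110)) (XT.lf (nat_lit 0) (nat_lit 42178100926) (nat_lit 152) (nat_lit 37241859899) (nat_lit 76) (nat_lit 130286757199) (nat_lit 6) (nat_lit 5) (nat_lit 8) (nat_lit 5) (nat_lit 7) (nat_lit 4) (nat_lit 341) (nat_lit 270) (nat_lit 109)))) (XT.nd (nat_lit 156) (nat_lit 0) (nat_lit 0) (XT.nd (nat_lit 78) (nat_lit 76) (nat_lit 0) (XT.lf (nat_lit 0) (nat_lit 59104875768) (nat_lit 152) (nat_lit 2544256366) (nat_lit 76) (nat_lit 157480566596) (nat_lit 6) (nat_lit 5) (nat_lit 8) (nat_lit 5) (nat_lit 7) (nat_lit 4) (nat_lit 342) (nat_lit 270) (nat_lit 108)) (XT.lf (nat_lit 0)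 (nat_lit 35007368367) (nat_lit 76) (nat_lit 42416434632) (nat_lit 152) (nat_lit 151572735757) (nat_lit 5) (nat_lit 5) (nat_lit 6) (nat_lit 5) (nat_lit 7) (nat_lit 4) (nat_lit 343) (nat_lit 270) (nat_lit 107))) (XT.nd (nat_lit 78) (nat_lit 0) (nat_lit 0) (XT.lf (nat_lit 0) (nat_lit 74523612970) (nat_lit 76) (nat_lit 22177417868) (nat_lit 152) (nat_lit 142653573152) (nat_lit 5) (nat_lit 5) (nat_lit 6) (nat_lit 5) (nat_lit 7) (nat_lit 4) (nat_lit 344) (nat_lit 270) (nat_lit 106)) (XT.nd (nat_lit 78) (nat_lit 0) (nat_lit 0) (XT.lf (nat_lit 0) (nat_lit 116014439132) (nat_lit 76) (nat_lit 926981921) (nat_lit 152) (nat_lit 133289187260) (nat_lit 5) (nat_lit 5) (nat_lit 6) (nat_lit 5) (nat_lit 7) (nat_lit 4) (nat_lit 345) (nat_lit 270) (nat_lit 105)) (XT.lf (nat_lit 0) (nat_lit 138527052161) (nat_lit 152) (nat_lit 102405699548) (nat_lit 0) (nat_lit 20701000907) (nat_lit 5) (nat_lit 5) (nat_lit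 7) (nat_lit 4) (nat_lit 5) (nat_lit 4) (nat_lit 346) (nat_lit 270) (nat_lit 104))))))))
noncomputable def xc200 : XT := (XT.nd (nat_lit 32526) (nat_lit 0) (nat_lit 2356) (XT.nd (nat_lit 31824) (nat_lit 0) (nat_lit 4940) (XT.nd (nat_lit 312) (nat_lit 0) (nat_lit 0) (XT.nd (nat_lit 156) (nat_lit 76) (nat_lit 0) (XT.nd (nat_lit 78) (nat_lit 0) (nat_lit 0) (XT.lf (nat_lit 0) (nat_lit 161206519691) (nat_lit 152) (nat_lit 69021044079) (nat_lit 0) (nat_lit 43378763415) (nat_lit 5) (nat_lit 5) (nat_lit 7) (nat_lit 4) (nat_lit 5) (nat_lit 4) (nat_lit 347) (nat_lit 270) (nat_lit 103)) (XT.lf (nat_lit 0) (nat_lit 185019349592) (nat_lit 152) (nat_lit 33968242715) (nat_lit 0) (nat_lit 67189969484) (nat_lit 5) (nat_lit 5) (nat_lit 7) (nat_lit 4) (nat_lit 5) (nat_lit 4) (nat_lit 348) (nat_lit 270) (nat_lit 102))) (XT.nd (nat_lit 78) (nat_lit 0) (nat_lit 0) (XT.lf (nat_lit 0) (nat_lit 2929939973)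 (nat_lit 76) (nat_lit 207138043678) (nat_lit 76) (nat_lit 89307117063) (nat_lit 4) (nat_lit 4) (nat_lit 5) (nat_lit 5) (nat_lit 5) (nat_lit 4) (nat_lit 349) (nat_lit 270) (nat_lit 101)) (XT.lf (nat_lit 0) (nat_lit 42851314054) (nat_lit 76) (nat_lit 194092433883) (nat_lit 76) (nat_lit 76260034405) (nat_lit 4) (nat_lit 4) (nat_lit 5) (nat_lit 5) (nat_lit 5) (nat_lit 4) (nat_lit 350) (nat_lit 270) (nat_lit 100)))) (XT.nd (nat_lit 31278) (nat_lit 0) (nat_lit 4864) (XT.nd (nat_lit 78) (nat_lit 0) (nat_lit 0) (XT.lf (nat_lit 0) (nat_lit 84767786910) (nat_lit 76) (nat_lit 180394970574) (nat_lit 76) (nat_lit 62561168369) (nat_lit 4) (nat_lit 4) (nat_lit 5) (nat_lit 5) (nat_lit 5) (nat_lit 4) (nat_lit 351) (nat_lit 270) (nat_lit 99)) (XT.lf (nat_lit 0) (nat_lit 128779159667) (nat_lit 76) (nat_lit 166013040743) (nat_lit 76) (nat_lit 48177902607) (nat_lit 4) (nat_lit 4) (nat_lit 5) (nat_lit 5)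 (nat_lit 5) (nat_lit 4) (nat_lit 352) (nat_lit 270) (nat_lit 98))) (XT.nd (nat_lit 78) (nat_lit 0) (nat_lit 0) (XT.lf (nat_lit 0) (nat_lit 1163473080) (nat_lit 0) (nat_lit 1163473080) (nat_lit 684) (nat_lit 7059249041) (nat_lit 68) (nat_lit 5) (nat_lit 68) (nat_lit 3) (nat_lit 77) (nat_lit 3) (nat_lit 271) (nat_lit 271) (nat_lit 178)) (XT.nd (nat_lit 78) (nat_lit 0) (nat_lit 0) (XT.lf (nat_lit 0) (nat_lit 5031073666) (nat_lit 684) (nat_lit 8642402665) (nat_lit 760) (nat_lit 5554567082) (nat_lit 68) (nat_lit 5) (nat_lit 77) (nat_lit 3) (nat_lit 78) (nat_lit 5) (nat_lit 272) (nat_lit 271) (nat_lit 177)) (XT.lf (nat_lit 0) (nat_lit 5454384535) (nat_lit 684) (nat_lit 493509582) (nat_lit 760) (nat_lit 13757260802) (nat_lit 68) (nat_lit 5) (nat_lit 77) (nat_lit 3) (nat_lit 78) (nat_lit 5) (nat_lit 273) (nat_lit 271) (nat_lit 176)))))) (XT.nd (nat_lit 312) (nat_lit 0) (nat_lit 76) (XT.nd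 (nat_lit 156) (nat_lit 0) (nat_lit 0) (XT.nd (nat_lit 78) (nat_lit 0) (nat_lit 0) (XT.lf (nat_lit 0) (nat_lit 6054439905) (nat_lit 684) (nat_lit 11912799006) (nat_lit 760) (nat_lit 2231141638) (nat_lit 69) (nat_lit 5) (nat_lit 78) (nat_lit 5) (nat_lit 79) (nat_lit 5) (nat_lit 274) (nat_lit 271) (nat_lit 175)) (XT.lf (nat_lit 0) (nat_lit 6780609677) (nat_lit 684) (nat_lit 3299097485) (nat_lit 760) (nat_lit 10631790428) (nat_lit 69) (nat_lit 5) (nat_lit 78) (nat_lit 5) (nat_lit 79) (nat_lit 5) (nat_lit 275) (nat_lit 271) (nat_lit 174))) (XT.nd (nat_lit 78) (nat_lit 0) (nat_lit 76) (XT.lf (nat_lit 76) (nat_lit 5928991777) (nat_lit 0) (nat_lit 1697245611) (nat_lit 760) (nat_lit 13619909631) (nat_lit 70) (nat_lit 5) (nat_lit 69) (nat_lit 5) (nat_lit 79) (nat_lit 5) (nat_lit 276) (nat_lit 271) (nat_lit 173)) (XT.lf (nat_lit 0) (nat_lit 8672837919) (nat_lit 684) (nat_lit 6190045451) (nat_lit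 760) (nat_lit 6936743370) (nat_lit 70) (nat_lit 5) (nat_lit 79) (nat_lit 5) (nat_lit 80) (nat_lit 5) (nat_lit 277) (nat_lit 271) (nat_lit 172)))) (XT.nd (nat_lit 156) (nat_lit 0) (nat_lit 76) (XT.nd (nat_lit 78) (nat_lit 0) (nat_lit 76) (XT.lf (nat_lit 76) (nat_lit 3470484485) (nat_lit 0) (nat_lit 6374706009) (nat_lit 760) (nat_lit 12531949699) (nat_lit 71) (nat_lit 5) (nat_lit 70) (nat_lit 5) (nat_lit 80) (nat_lit 5) (nat_lit 278) (nat_lit 271) (nat_lit 171)) (XT.lf (nat_lit 0) (nat_lit 11214096271) (nat_lit 684) (nat_lit 9197250459) (nat_lit 760) (nat_lit 2565315189) (nat_lit 71) (nat_lit 5) (nat_lit 80) (nat_lit 5) (nat_lit 81) (nat_lit 5) (nat_lit 279) (nat_lit 271) (nat_lit 170))) (XT.nd (nat_lit 78) (nat_lit 0) (nat_lit 0) (XT.lf (nat_lit 76) (nat_lit 916192156) (nat_lit 0) (nat_lit 11846217349) (nat_lit 760) (nat_lit 10838230100) (nat_lit 72) (nat_lit 5) (nat_lit 71) (nat_lit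 5) (nat_lit 81) (nat_lit 5) (nat_lit 280) (nat_lit 271) (nat_lit 169)) (XT.nd (nat_lit 78) (nat_lit 0) (nat_lit 76) (XT.lf (nat_lit 76) (nat_lit 11848462142) (nat_lit 0) (nat_lit 2687868149) (nat_lit 760) (nat_lit 9712102936) (nat_lit 72) (nat_lit 5) (nat_lit 71) (nat_lit 5) (nat_lit 81) (nat_lit 5) (nat_lit 281) (nat_lit 271) (nat_lit 168)) (XT.lf (nat_lit 0) (nat_lit 16499932264) (nat_lit 684) (nat_lit 1715708978) (nat_lit 76) (nat_lit 6707951409) (nat_lit 72) (nat_lit 5) (nat_lit 81) (nat_lit 5) (nat_lit 73) (nat_lit 5) (nat_lit 282) (nat_lit 271) (nat_lit 167))))))) (XT.nd (nat_lit 702) (nat_lit 1064) (nat_lit 0) (XT.nd (nat_lit 312) (nat_lit 760) (nat_lit 0) (XT.nd (nat_lit 156) (nat_lit 304) (nat_lit 0) (XT.nd (nat_lit 78) (nat_lit 0) (nat_lit 0) (XT.lf (nat_lit 0) (nat_lit 9765284966) (nat_lit 684) (nat_lit 8986111896) (nat_lit 760) (nat_lit 6871653229) (nat_lit 63) (nat_lit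 5) (nat_lit 72) (nat_lit 5) (nat_lit 73) (nat_lit 5) (nat_lit 283) (nat_lit 271) (nat_lit 166)) (XT.lf (nat_lit 0) (nat_lit 21149374180) (nat_lit 760) (nat_lit 4493851895) (nat_lit 76) (nat_lit 712580373) (nat_lit 63) (nat_lit 5) (nat_lit 73) (nat_lit 5) (nat_lit 64) (nat_lit 5) (nat_lit 284) (nat_lit 271) (nat_lit 165))) (XT.nd (nat_lit 78) (nat_lit 0) (nat_lit 0) (XT.lf (nat_lit 0) (nat_lit 7525879050) (nat_lit 304) (nat_lit 16399900329) (nat_lit 380) (nat_lit 3186516717) (nat_lit 59) (nat_lit 5) (nat_lit 63) (nat_lit 5) (nat_lit 64) (nat_lit 5) (nat_lit 285) (nat_lit 271) (nat_lit 164)) (XT.lf (nat_lit 0) (nat_lit 20296768970) (nat_lit 304) (nat_lit 6614265082) (nat_lit 380) (nat_lit 992095592) (nat_lit 59) (nat_lit 5) (nat_lit 63) (nat_lit 5) (nat_lit 64) (nat_lit 5) (nat_lit 286) (nat_lit 271) (nat_lit 163)))) (XT.nd (nat_lit 156) (nat_lit 304) (nat_lit 0) (XT.nd (nat_lit 78)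 (nat_lit 0) (nat_lit 0) (XT.lf (nat_lit 0) (nat_lit 1402731620) (nat_lit 456) (nat_lit 23677618698) (nat_lit 76) (nat_lit 3645515317) (nat_lit 53) (nat_lit 5) (nat_lit 59) (nat_lit 5) (nat_lit 54) (nat_lit 5) (nat_lit 287) (nat_lit 271) (nat_lit 162)) (XT.lf (nat_lit 0) (nat_lit 4117610473) (nat_lit 456) (nat_lit 11116433501) (nat_lit 76) (nat_lit 14343216736) (nat_lit 53) (nat_lit 5) (nat_lit 59) (nat_lit 5) (nat_lit 54) (nat_lit 5) (nat_lit 288) (nat_lit 271) (nat_lit 161))) (XT.nd (nat_lit 78) (nat_lit 0) (nat_lit 0) (XT.lf (nat_lit 0) (nat_lit 2135453721) (nat_lit 304) (nat_lit 4860683261) (nat_lit 380) (nat_lit 23473710547) (nat_lit 49) (nat_lit 5) (nat_lit 53) (nat_lit 5) (nat_lit 54) (nat_lit 5) (nat_lit 289) (nat_lit 271) (nat_lit 160)) (XT.nd (nat_lit 78) (nat_lit 0) (nat_lit 0) (XT.lf (nat_lit 0) (nat_lit 10298833593) (nat_lit 380) (nat_lit 15064917554) (nat_lit 76) (nat_lit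 6029316713) (nat_lit 49) (nat_lit 5) (nat_lit 54) (nat_lit 5) (nat_lit 50) (nat_lit 5) (nat_lit 290) (nat_lit 271) (nat_lit 159)) (XT.lf (nat_lit 0) (nat_lit 13841328484) (nat_lit 380) (nat_lit 1217257750) (nat_lit 76) (nat_lit 17300145383) (nat_lit 49) (nat_lit 5) (nat_lit 54) (nat_lit 5) (nat_lit 50) (nat_lit 5) (nat_lit 291) (nat_lit 271) (nat_lit 158)))))) (XT.nd (nat_lit 312) (nat_lit 532) (nat_lit 0) (XT.nd (nat_lit 156) (nat_lit 228) (nat_lit 0) (XT.nd (nat_lit 78) (nat_lit 0) (nat_lit 0) (XT.lf (nat_lit 0) (nat_lit 13757779990) (nat_lit 304) (nat_lit 4013184792) (nat_lit 380) (nat_lit 15591227784) (nat_lit 45) (nat_lit 5) (nat_lit 49) (nat_lit 5) (nat_lit 50) (nat_lit 5) (nat_lit 292) (nat_lit 271) (nat_lit 157)) (XT.lf (nat_lit 0) (nat_lit 22031805921) (nat_lit 380) (nat_lit 5015208844) (nat_lit 76) (nat_lit 7362089779) (nat_lit 45) (nat_lit 5) (nat_lit 50) (nat_lit 5) (nat_lit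 46) (nat_lit 5) (nat_lit 293) (nat_lit 271) (nat_lit 156))) (XT.nd (nat_lit 78) (nat_lit 0) (nat_lit 0) (XT.lf (nat_lit 0) (nat_lit 10570767114) (nat_lit 228) (nat_lit 16161327533) (nat_lit 304) (nat_lit 8764960654) (nat_lit 42) (nat_lit 5) (nat_lit 45) (nat_lit 5) (nat_lit 46) (nat_lit 5) (nat_lit 294) (nat_lit 271) (nat_lit 155)) (XT.lf (nat_lit 0) (nat_lit 27105014321) (nat_lit 228) (nat_lit 4643025132) (nat_lit 304) (nat_lit 4887344880) (nat_lit 42) (nat_lit 5) (nat_lit 45) (nat_lit 5) (nat_lit 46) (nat_lit 5) (nat_lit 295) (nat_lit 271) (nat_lit 154)))) (XT.nd (nat_lit 156) (nat_lit 228) (nat_lit 0) (XT.nd (nat_lit 78) (nat_lit 76) (nat_lit 0) (XT.lf (nat_lit 0) (nat_lit 6729285938) (nat_lit 228) (nat_lit 30502791015) (nat_lit 304) (nat_lit 587700300) (nat_lit 39) (nat_lit 5) (nat_lit 42) (nat_lit 5) (nat_lit 43) (nat_lit 5) (nat_lit 296) (nat_lit 271) (nat_lit 153)) (XT.lf (nat_lit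 0) (nat_lit 4037341645) (nat_lit 304) (nat_lit 15067759905) (nat_lit 76) (nat_lit 19943428757) (nat_lit 38) (nat_lit 5) (nat_lit 42) (nat_lit 5) (nat_lit 39) (nat_lit 5) (nat_lit 297) (nat_lit 271) (nat_lit 152))) (XT.nd (nat_lit 78) (nat_lit 0) (nat_lit 0) (XT.lf (nat_lit 0) (nat_lit 1799136923) (nat_lit 228) (nat_lit 7098969932) (nat_lit 304) (nat_lit 31438931898) (nat_lit 35) (nat_lit 5) (nat_lit 38) (nat_lit 5) (nat_lit 39) (nat_lit 5) (nat_lit 298) (nat_lit 271) (nat_lit 151)) (XT.nd (nat_lit 78) (nat_lit 0) (nat_lit 0) (XT.lf (nat_lit 0) (nat_lit 14343484313) (nat_lit 304) (nat_lit 21739908819) (nat_lit 76) (nat_lit 5589510832) (nat_lit 35) (nat_lit 5) (nat_lit 39) (nat_lit 5) (nat_lit 36) (nat_lit 5) (nat_lit 299) (nat_lit 271) (nat_lit 150)) (XT.lf (nat_lit 0) (nat_lit 20173910907) (nat_lit 304) (nat_lit 4223175658) (nat_lit 76) (nat_lit 18672846423) (nat_lit 35) (nat_lit 5)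 (nat_lit 39) (nat_lit 5) (nat_lit 36) (nat_lit 5) (nat_lit 300) (nat_lit 271) (nat_lit 149))))))))
noncomputable def xc201 : XT := (XT.nd (nat_lit 1404) (nat_lit 684) (nat_lit 0) (XT.nd (nat_lit 702) (nat_lit 532) (nat_lit 0) (XT.nd (nat_lit 312) (nat_lit 456) (nat_lit 0) (XT.nd (nat_lit 156) (nat_lit 152) (nat_lit 0) (XT.nd (nat_lit 78) (nat_lit 0) (nat_lit 0) (XT.lf (nat_lit 0) (nat_lit 14633192522) (nat_lit 228) (nat_lit 11887706411) (nat_lit 304) (nat_lit 18004671633) (nat_lit 32) (nat_lit 5) (nat_lit 35) (nat_lit 5) (nat_lit 36) (nat_lit 5) (nat_lit 301) (nat_lit 271) (nat_lit 148)) (XT.lf (nat_lit 0) (nat_lit 33274051896) (nat_lit 304) (nat_lit 11496698626) (nat_lit 76) (nat_lit 1278807402) (nat_lit 32) (nat_lit 5) (nat_lit 36) (nat_lit 5) (nat_lit 33) (nat_lit 5) (nat_lit 302) (nat_lit 271) (nat_lit 147))) (XT.nd (nat_lit 78) (nat_lit 0) (nat_lit 0) (XT.lf (nat_lit 0) (nat_lit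 7871400165) (nat_lit 152) (nat_lit 32808047039) (nat_lit 228) (nat_lit 6954576472) (nat_lit 30) (nat_lit 5) (nat_lit 32) (nat_lit 5) (nat_lit 33) (nat_lit 5) (nat_lit 303) (nat_lit 271) (nat_lit 146)) (XT.lf (nat_lit 0) (nat_lit 28602696443) (nat_lit 152) (nat_lit 20044011694) (nat_lit 228) (nat_lit 641432655) (nat_lit 30) (nat_lit 5) (nat_lit 32) (nat_lit 5) (nat_lit 33) (nat_lit 5) (nat_lit 304) (nat_lit 271) (nat_lit 145)))) (XT.nd (nat_lit 156) (nat_lit 152) (nat_lit 0) (XT.nd (nat_lit 78) (nat_lit 228) (nat_lit 0) (XT.lf (nat_lit 0) (nat_lit 5792721044) (nat_lit 228) (nat_lit 752132500) (nat_lit 76) (nat_lit 44475594084) (nat_lit 29) (nat_lit 5) (nat_lit 32) (nat_lit 5) (nat_lit 30) (nat_lit 5) (nat_lit 305) (nat_lit 271) (nat_lit 144)) (XT.lf (nat_lit 0) (nat_lit 12973969368) (nat_lit 304) (nat_lit 32117358792) (nat_lit 76) (nat_lit 7725175514) (nat_lit 26) (nat_lit 5) (nat_lit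 30) (nat_lit 5) (nat_lit 27) (nat_lit 5) (nat_lit 306) (nat_lit 271) (nat_lit 143))) (XT.nd (nat_lit 78) (nat_lit 152) (nat_lit 0) (XT.lf (nat_lit 0) (nat_lit 20631704830) (nat_lit 304) (nat_lit 11564235675) (nat_lit 76) (nat_lit 22500557257) (nat_lit 26) (nat_lit 5) (nat_lit 30) (nat_lit 5) (nat_lit 27) (nat_lit 5) (nat_lit 307) (nat_lit 271) (nat_lit 142)) (XT.nd (nat_lit 78) (nat_lit 0) (nat_lit 0) (XT.lf (nat_lit 0) (nat_lit 10343694986) (nat_lit 152) (nat_lit 18487445665) (nat_lit 228) (nat_lit 27831416389) (nat_lit 24) (nat_lit 5) (nat_lit 26) (nat_lit 5) (nat_lit 27) (nat_lit 5) (nat_lit 308) (nat_lit 271) (nat_lit 141)) (XT.lf (nat_lit 0) (nat_lit 33744657972) (nat_lit 152) (nat_lit 3889123297) (nat_lit 228) (nat_lit 21083482234) (nat_lit 24) (nat_lit 5) (nat_lit 26) (nat_lit 5) (nat_lit 27) (nat_lit 5) (nat_lit 309) (nat_lit 271) (nat_lit 140)))))) (XT.nd (nat_lit 312) (nat_lit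 152) (nat_lit 0) (XT.nd (nat_lit 156) (nat_lit 228) (nat_lit 0) (XT.nd (nat_lit 78) (nat_lit 152) (nat_lit 0) (XT.lf (nat_lit 0) (nat_lit 47052643699) (nat_lit 228) (nat_lit 2741409581) (nat_lit 76) (nat_lit 11071853114) (nat_lit 24) (nat_lit 5) (nat_lit 27) (nat_lit 5) (nat_lit 25) (nat_lit 5) (nat_lit 310) (nat_lit 271) (nat_lit 139)) (XT.lf (nat_lit 0) (nat_lit 21212939688) (nat_lit 152) (nat_lit 36122071626) (nat_lit 228) (nat_lit 5767347338) (nat_lit 22) (nat_lit 5) (nat_lit 24) (nat_lit 5) (nat_lit 25) (nat_lit 5) (nat_lit 311) (nat_lit 271) (nat_lit 138))) (XT.nd (nat_lit 78) (nat_lit 152) (nat_lit 0) (XT.lf (nat_lit 0) (nat_lit 2639875456) (nat_lit 228) (nat_lit 19034369249) (nat_lit 76) (nat_lit 43772060055) (nat_lit 21) (nat_lit 5) (nat_lit 24) (nat_lit 5) (nat_lit 22) (nat_lit 5) (nat_lit 312) (nat_lit 271) (nat_lit 137)) (XT.lf (nat_lit 0) (nat_lit 5026309907) (nat_lit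 152) (nat_lit 6323544392) (nat_lit 228) (nat_lit 56549060364) (nat_lit 19) (nat_lit 5) (nat_lit 21) (nat_lit 5) (nat_lit 22) (nat_lit 5) (nat_lit 313) (nat_lit 271) (nat_lit 136)))) (XT.nd (nat_lit 156) (nat_lit 152) (nat_lit 0) (XT.nd (nat_lit 78) (nat_lit 0) (nat_lit 0) (XT.lf (nat_lit 0) (nat_lit 20973672275) (nat_lit 228) (nat_lit 39668881084) (nat_lit 76) (nat_lit 9807689073) (nat_lit 19) (nat_lit 5) (nat_lit 22) (nat_lit 5) (nat_lit 20) (nat_lit 5) (nat_lit 314) (nat_lit 271) (nat_lit 135)) (XT.lf (nat_lit 0) (nat_lit 31180228510) (nat_lit 228) (nat_lit 15411959770) (nat_lit 76) (nat_lit 26531875114) (nat_lit 19) (nat_lit 5) (nat_lit 22) (nat_lit 5) (nat_lit 20) (nat_lit 5) (nat_lit 315) (nat_lit 271) (nat_lit 134))) (XT.nd (nat_lit 78) (nat_lit 0) (nat_lit 0) (XT.lf (nat_lit 0) (nat_lit 10387093881) (nat_lit 152) (nat_lit 31670173844) (nat_lit 228) (nat_lit 33866303897) (nat_lit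 17) (nat_lit 5) (nat_lit 19) (nat_lit 5) (nat_lit 20) (nat_lit 5) (nat_lit 316) (nat_lit 271) (nat_lit 133)) (XT.nd (nat_lit 78) (nat_lit 0) (nat_lit 0) (XT.lf (nat_lit 0) (nat_lit 38008054115) (nat_lit 152) (nat_lit 15729144699) (nat_lit 228) (nat_lit 25112908235) (nat_lit 17) (nat_lit 5) (nat_lit 19) (nat_lit 5) (nat_lit 20) (nat_lit 5) (nat_lit 317) (nat_lit 271) (nat_lit 132)) (XT.lf (nat_lit 0) (nat_lit 66014986428) (nat_lit 228) (nat_lit 14931705773) (nat_lit 76) (nat_lit 975587654) (nat_lit 17) (nat_lit 5) (nat_lit 20) (nat_lit 5) (nat_lit 18) (nat_lit 4) (nat_lit 318) (nat_lit 271) (nat_lit 131))))))) (XT.nd (nat_lit 702) (nat_lit 304) (nat_lit 0) (XT.nd (nat_lit 312) (nat_lit 76) (nat_lit 0) (XT.nd (nat_lit 156) (nat_lit 152) (nat_lit 0) (XT.nd (nat_lit 78) (nat_lit 76) (nat_lit 0) (XT.lf (nat_lit 0) (nat_lit 12410619758) (nat_lit 76) (nat_lit 66945860814) (nat_lit 152) (nat_lit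 5769093305) (nat_lit 16) (nat_lit 5) (nat_lit 17) (nat_lit 5) (nat_lit 18) (nat_lit 4) (nat_lit 319) (nat_lit 271) (nat_lit 130)) (XT.lf (nat_lit 0) (nat_lit 4975181979) (nat_lit 152) (nat_lit 46921123028) (nat_lit 76) (nat_lit 36576162885) (nat_lit 15) (nat_lit 5) (nat_lit 17) (nat_lit 5) (nat_lit 16) (nat_lit 5) (nat_lit 320) (nat_lit 271) (nat_lit 129))) (XT.nd (nat_lit 78) (nat_lit 152) (nat_lit 0) (XT.lf (nat_lit 0) (nat_lit 16061084026) (nat_lit 152) (nat_lit 19934953869) (nat_lit 76) (nat_lit 55986028296) (nat_lit 15) (nat_lit 5) (nat_lit 17) (nat_lit 5) (nat_lit 16) (nat_lit 5) (nat_lit 321) (nat_lit 271) (nat_lit 128)) (XT.lf (nat_lit 0) (nat_lit 8675549624) (nat_lit 152) (nat_lit 19159554872) (nat_lit 228) (nat_lit 67825351567) (nat_lit 13) (nat_lit 5) (nat_lit 15) (nat_lit 5) (nat_lit 16) (nat_lit 5) (nat_lit 322) (nat_lit 271) (nat_lit 127)))) (XT.nd (nat_lit 156) (nat_lit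 76) (nat_lit 0) (XT.nd (nat_lit 78) (nat_lit 0) (nat_lit 0) (XT.lf (nat_lit 0) (nat_lit 39406071660) (nat_lit 152) (nat_lit 1127772899) (nat_lit 228) (nat_lit 58972122631) (nat_lit 13) (nat_lit 5) (nat_lit 15) (nat_lit 5) (nat_lit 16) (nat_lit 5) (nat_lit 323) (nat_lit 271) (nat_lit 126)) (XT.lf (nat_lit 0) (nat_lit 54143988011) (nat_lit 228) (nat_lit 32151171798) (nat_lit 76) (nat_lit 17234773308) (nat_lit 13) (nat_lit 5) (nat_lit 16) (nat_lit 5) (nat_lit 14) (nat_lit 4) (nat_lit 324) (nat_lit 271) (nat_lit 125))) (XT.nd (nat_lit 78) (nat_lit 76) (nat_lit 0) (XT.lf (nat_lit 0) (nat_lit 68451670618) (nat_lit 228) (nat_lit 2825921324) (nat_lit 76) (nat_lit 36476656238) (nat_lit 13) (nat_lit 5) (nat_lit 16) (nat_lit 5) (nat_lit 14) (nat_lit 4) (nat_lit 325) (nat_lit 271) (nat_lit 124)) (XT.nd (nat_lit 78) (nat_lit 0) (nat_lit 0) (XT.lf (nat_lit 0) (nat_lit 28887878119) (nat_lit 76) (nat_lit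 55036493213) (nat_lit 152) (nat_lit 28242928290) (nat_lit 12) (nat_lit 5) (nat_lit 13) (nat_lit 5) (nat_lit 14) (nat_lit 4) (nat_lit 326) (nat_lit 271) (nat_lit 123)) (XT.lf (nat_lit 0) (nat_lit 62283208274) (nat_lit 76) (nat_lit 37934001005) (nat_lit 152) (nat_lit 16581471459) (nat_lit 12) (nat_lit 5) (nat_lit 13) (nat_lit 5) (nat_lit 14) (nat_lit 4) (nat_lit 327) (nat_lit 271) (nat_lit 122)))))) (XT.nd (nat_lit 312) (nat_lit 76) (nat_lit 0) (XT.nd (nat_lit 156) (nat_lit 0) (nat_lit 0) (XT.nd (nat_lit 78) (nat_lit 228) (nat_lit 0) (XT.lf (nat_lit 0) (nat_lit 97346144111) (nat_lit 76) (nat_lit 19977253446) (nat_lit 152) (nat_lit 4338300041) (nat_lit 12) (nat_lit 5) (nat_lit 13) (nat_lit 5) (nat_lit 14) (nat_lit 4) (nat_lit 328) (nat_lit 271) (nat_lit 121)) (XT.lf (nat_lit 0) (nat_lit 7499310250) (nat_lit 152) (nat_lit 860954625) (nat_lit 228) (nat_lit 118395161948) (nat_lit 9) (nat_lit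 5) (nat_lit 11) (nat_lit 5) (nat_lit 12) (nat_lit 5) (nat_lit 329) (nat_lit 271) (nat_lit 120))) (XT.nd (nat_lit 78) (nat_lit 0) (nat_lit 0) (XT.lf (nat_lit 0) (nat_lit 22265211178) (nat_lit 228) (nat_lit 90714082156) (nat_lit 76) (nat_lit 19085132588) (nat_lit 9) (nat_lit 5) (nat_lit 12) (nat_lit 5) (nat_lit 10) (nat_lit 4) (nat_lit 330) (nat_lit 271) (nat_lit 119)) (XT.lf (nat_lit 0) (nat_lit 36878339780) (nat_lit 228) (nat_lit 60761076466) (nat_lit 76) (nat_lit 39998813715) (nat_lit 9) (nat_lit 5) (nat_lit 12) (nat_lit 5) (nat_lit 10) (nat_lit 4) (nat_lit 331) (nat_lit 271) (nat_lit 118)))) (XT.nd (nat_lit 156) (nat_lit 0) (nat_lit 0) (XT.nd (nat_lit 78) (nat_lit 76) (nat_lit 0) (XT.lf (nat_lit 0) (nat_lit 52221001931) (nat_lit 228) (nat_lit 29312340910) (nat_lit 76) (nat_lit 61957439158) (nat_lit 9) (nat_lit 5) (nat_lit 12) (nat_lit 5) (nat_lit 10) (nat_lit 4) (nat_lit 332) (nat_lit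 271) (nat_lit 117)) (XT.lf (nat_lit 0) (nat_lit 3829572696) (nat_lit 76) (nat_lit 64559945443) (nat_lit 152) (nat_lit 81243509023) (nat_lit 8) (nat_lit 5) (nat_lit 9) (nat_lit 5) (nat_lit 10) (nat_lit 4) (nat_lit 333) (nat_lit 271) (nat_lit 116))) (XT.nd (nat_lit 78) (nat_lit 0) (nat_lit 0) (XT.lf (nat_lit 0) (nat_lit 39644440801) (nat_lit 76) (nat_lit 46217391453) (nat_lit 152) (nat_lit 70195785224) (nat_lit 8) (nat_lit 5) (nat_lit 9) (nat_lit 5) (nat_lit 10) (nat_lit 4) (nat_lit 334) (nat_lit 271) (nat_lit 115)) (XT.nd (nat_lit 78) (nat_lit 0) (nat_lit 0) (XT.lf (nat_lit 0) (nat_lit 77248338529) (nat_lit 76) (nat_lit 26958426799) (nat_lit 152) (nat_lit 58596723244) (nat_lit 8) (nat_lit 5) (nat_lit 9) (nat_lit 5) (nat_lit 10) (nat_lit 4) (nat_lit 335) (nat_lit 271) (nat_lit 114)) (XT.lf (nat_lit 0) (nat_lit 116730798972) (nat_lit 76) (nat_lit 6737196805) (nat_lit 152) (nat_lit 46418706268)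 (nat_lit 8) (nat_lit 5) (nat_lit 9) (nat_lit 5) (nat_lit 10) (nat_lit 4) (nat_lit 336) (nat_lit 271) (nat_lit 113))))))))
noncomputable def xc202 : XT := (XT.nd (nat_lit 32604) (nat_lit 0) (nat_lit 3420) (XT.nd (nat_lit 702) (nat_lit 76) (nat_lit 0) (XT.nd (nat_lit 312) (nat_lit 76) (nat_lit 0) (XT.nd (nat_lit 156) (nat_lit 76) (nat_lit 0) (XT.nd (nat_lit 78) (nat_lit 76) (nat_lit 0) (XT.lf (nat_lit 0) (nat_lit 143917682569) (nat_lit 152) (nat_lit 19364593598) (nat_lit 0) (nat_lit 14030531577) (nat_lit 8) (nat_lit 5) (nat_lit 10) (nat_lit 4) (nat_lit 8) (nat_lit 4) (nat_lit 337) (nat_lit 271) (nat_lit 112)) (XT.lf (nat_lit 0) (nat_lit 16533495571) (nat_lit 76) (nat_lit 149224067482) (nat_lit 76) (nat_lit 19334271439) (nat_lit 7) (nat_lit 4) (nat_lit 8) (nat_lit 5) (nat_lit 8) (nat_lit 4) (nat_lit 338) (nat_lit 271) (nat_lit 111))) (XT.nd (nat_lit 78) (nat_lit 76) (nat_lit 0) (XT.lf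 (nat_lit 0) (nat_lit 54897293558) (nat_lit 76) (nat_lit 134119240260) (nat_lit 76) (nat_lit 4226925122) (nat_lit 7) (nat_lit 4) (nat_lit 8) (nat_lit 5) (nat_lit 8) (nat_lit 4) (nat_lit 339) (nat_lit 271) (nat_lit 110)) (XT.lf (nat_lit 0) (nat_lit 11262544309) (nat_lit 152) (nat_lit 106806498444) (nat_lit 76) (nat_lit 83724580873) (nat_lit 6) (nat_lit 5) (nat_lit 8) (nat_lit 5) (nat_lit 7) (nat_lit 4) (nat_lit 340) (nat_lit 271) (nat_lit 109)))) (XT.nd (nat_lit 156) (nat_lit 76) (nat_lit 0) (XT.nd (nat_lit 78) (nat_lit 0) (nat_lit 0) (XT.lf (nat_lit 0) (nat_lit 27383647854) (nat_lit 152) (nat_lit 73760521069) (nat_lit 76) (nat_lit 109623703290) (nat_lit 6) (nat_lit 5) (nat_lit 8) (nat_lit 5) (nat_lit 7) (nat_lit 4) (nat_lit 341) (nat_lit 271) (nat_lit 108)) (XT.lf (nat_lit 0) (nat_lit 44310057096) (nat_lit 152) (nat_lit 39063558214) (nat_lit 76) (nat_lit 136817256362) (nat_lit 6) (nat_lit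 5) (nat_lit 8) (nat_lit 5) (nat_lit 7) (nat_lit 4) (nat_lit 342) (nat_lit 271) (nat_lit 107))) (XT.nd (nat_lit 78) (nat_lit 76) (nat_lit 0) (XT.lf (nat_lit 0) (nat_lit 62082073008) (nat_lit 152) (nat_lit 2632998061) (nat_lit 76) (nat_lit 165369986643) (nat_lit 6) (nat_lit 5) (nat_lit 8) (nat_lit 5) (nat_lit 7) (nat_lit 4) (nat_lit 343) (nat_lit 271) (nat_lit 106)) (XT.nd (nat_lit 78) (nat_lit 0) (nat_lit 0) (XT.lf (nat_lit 0) (nat_lit 36795587407) (nat_lit 76) (nat_lit 44520904745) (nat_lit 152) (nat_lit 159128771656) (nat_lit 5) (nat_lit 5) (nat_lit 6) (nat_lit 5) (nat_lit 7) (nat_lit 4) (nat_lit 344) (nat_lit 271) (nat_lit 105)) (XT.lf (nat_lit 0) (nat_lit 78285841829) (nat_lit 76) (nat_lit 23270715792) (nat_lit 152) (nat_lit 149764727153) (nat_lit 5) (nat_lit 5) (nat_lit 6) (nat_lit 5) (nat_lit 7) (nat_lit 4) (nat_lit 345) (nat_lit 271) (nat_lit 104)))))) (XT.nd (nat_lit 312) (nat_lit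 76) (nat_lit 0) (XT.nd (nat_lit 156) (nat_lit 0) (nat_lit 0) (XT.nd (nat_lit 78) (nat_lit 0) (nat_lit 0) (XT.lf (nat_lit 0) (nat_lit 121849492718) (nat_lit 76) (nat_lit 958499616) (nat_lit 152) (nat_lit 139933146950) (nat_lit 5) (nat_lit 5) (nat_lit 6) (nat_lit 5) (nat_lit 7) (nat_lit 4) (nat_lit 346) (nat_lit 271) (nat_lit 103)) (XT.lf (nat_lit 0) (nat_lit 145472196949) (nat_lit 152) (nat_lit 107492556417) (nat_lit 0) (nat_lit 21749724003) (nat_lit 5) (nat_lit 5) (nat_lit 7) (nat_lit 4) (nat_lit 5) (nat_lit 4) (nat_lit 347) (nat_lit 271) (nat_lit 102))) (XT.nd (nat_lit 78) (nat_lit 0) (nat_lit 0) (XT.lf (nat_lit 0) (nat_lit 169284742990) (nat_lit 152) (nat_lit 72440259990) (nat_lit 0) (nat_lit 45560723538) (nat_lit 5) (nat_lit 5) (nat_lit 7) (nat_lit 4) (nat_lit 5) (nat_lit 4) (nat_lit 348) (nat_lit 271) (nat_lit 101)) (XT.lf (nat_lit 0) (nat_lit 194287362133) (nat_lit 152) (nat_lit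 35636334571) (nat_lit 0) (nat_lit 70561869817) (nat_lit 5) (nat_lit 5) (nat_lit 7) (nat_lit 4) (nat_lit 5) (nat_lit 4) (nat_lit 349) (nat_lit 271) (nat_lit 100)))) (XT.nd (nat_lit 156) (nat_lit 0) (nat_lit 0) (XT.nd (nat_lit 78) (nat_lit 0) (nat_lit 0) (XT.lf (nat_lit 0) (nat_lit 3106268214) (nat_lit 76) (nat_lit 217481813760) (nat_lit 76) (nat_lit 93754918718) (nat_lit 4) (nat_lit 4) (nat_lit 5) (nat_lit 5) (nat_lit 5) (nat_lit 4) (nat_lit 350) (nat_lit 271) (nat_lit 99)) (XT.lf (nat_lit 0) (nat_lit 45022290464) (nat_lit 76) (nat_lit 203784548813) (nat_lit 76) (nat_lit 80056317841) (nat_lit 4) (nat_lit 4) (nat_lit 5) (nat_lit 5) (nat_lit 5) (nat_lit 4) (nat_lit 351) (nat_lit 271) (nat_lit 98))) (XT.nd (nat_lit 31278) (nat_lit 0) (nat_lit 4864) (XT.lf (nat_lit 0) (nat_lit 89033234072) (nat_lit 76) (nat_lit 189402807899) (nat_lit 76) (nat_lit 65673304612) (nat_lit 4) (nat_lit 4) (nat_lit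 5) (nat_lit 5) (nat_lit 5) (nat_lit 4) (nat_lit 352) (nat_lit 271) (nat_lit 97)) (XT.nd (nat_lit 78) (nat_lit 0) (nat_lit 0) (XT.lf (nat_lit 0) (nat_lit 1305932055) (nat_lit 0) (nat_lit 1305932055) (nat_lit 684) (nat_lit 7234606873) (nat_lit 68) (nat_lit 5) (nat_lit 68) (nat_lit 3) (nat_lit 77) (nat_lit 3) (nat_lit 272) (nat_lit 272) (nat_lit 176)) (XT.lf (nat_lit 0) (nat_lit 5601207750) (nat_lit 684) (nat_lit 8894265217) (nat_lit 760) (nat_lit 5676890363) (nat_lit 68) (nat_lit 5) (nat_lit 77) (nat_lit 3) (nat_lit 78) (nat_lit 5) (nat_lit 273) (nat_lit 272) (nat_lit 175))))))) (XT.nd (nat_lit 702) (nat_lit 1444) (nat_lit 0) (XT.nd (nat_lit 312) (nat_lit 0) (nat_lit 152) (XT.nd (nat_lit 156) (nat_lit 0) (nat_lit 76) (XT.nd (nat_lit 78) (nat_lit 0) (nat_lit 76) (XT.lf (nat_lit 0) (nat_lit 6030513667) (nat_lit 684) (nat_lit 346511174) (nat_lit 760) (nat_lit 14297119011) (nat_lit 68) (nat_lit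 5) (nat_lit 77) (nat_lit 3) (nat_lit 78) (nat_lit 5) (nat_lit 274) (nat_lit 272) (nat_lit 174)) (XT.lf (nat_lit 0) (nat_lit 6646845198) (nat_lit 684) (nat_lit 12321992446) (nat_lit 760) (nat_lit 2223931751) (nat_lit 69) (nat_lit 5) (nat_lit 78) (nat_lit 5) (nat_lit 79) (nat_lit 5) (nat_lit 275) (nat_lit 272) (nat_lit 173))) (XT.nd (nat_lit 78) (nat_lit 0) (nat_lit 0) (XT.lf (nat_lit 0) (nat_lit 7395529016) (nat_lit 684) (nat_lit 3286484253) (nat_lit 760) (nat_lit 11050268550) (nat_lit 69) (nat_lit 5) (nat_lit 78) (nat_lit 5) (nat_lit 79) (nat_lit 5) (nat_lit 276) (nat_lit 272) (nat_lit 172)) (XT.lf (nat_lit 76) (nat_lit 6400145470) (nat_lit 0) (nat_lit 1872882699) (nat_lit 760) (nat_lit 14021203488) (nat_lit 70) (nat_lit 5) (nat_lit 69) (nat_lit 5) (nat_lit 79) (nat_lit 5) (nat_lit 277) (nat_lit 272) (nat_lit 171)))) (XT.nd (nat_lit 156) (nat_lit 0) (nat_lit 76) (XT.nd (nat_lit 78)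 (nat_lit 0) (nat_lit 0) (XT.lf (nat_lit 0) (nat_lit 9357967112) (nat_lit 684) (nat_lit 6318267659) (nat_lit 760) (nat_lit 7199895352) (nat_lit 70) (nat_lit 5) (nat_lit 79) (nat_lit 5) (nat_lit 80) (nat_lit 5) (nat_lit 278) (nat_lit 272) (nat_lit 170)) (XT.lf (nat_lit 76) (nat_lit 3822364901) (nat_lit 0) (nat_lit 6757381469) (nat_lit 760) (nat_lit 12903275454) (nat_lit 71) (nat_lit 5) (nat_lit 70) (nat_lit 5) (nat_lit 80) (nat_lit 5) (nat_lit 279) (nat_lit 272) (nat_lit 169))) (XT.nd (nat_lit 78) (nat_lit 0) (nat_lit 0) (XT.lf (nat_lit 0) (nat_lit 12004608767) (nat_lit 684) (nat_lit 9473941691) (nat_lit 760) (nat_lit 2634634591) (nat_lit 71) (nat_lit 5) (nat_lit 80) (nat_lit 5) (nat_lit 81) (nat_lit 5) (nat_lit 280) (nat_lit 272) (nat_lit 168)) (XT.nd (nat_lit 78) (nat_lit 0) (nat_lit 0) (XT.lf (nat_lit 76) (nat_lit 1142218679) (nat_lit 0) (nat_lit 12479989452) (nat_lit 760) (nat_lit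 11146598993) (nat_lit 72) (nat_lit 5) (nat_lit 71) (nat_lit 5) (nat_lit 81) (nat_lit 5) (nat_lit 281) (nat_lit 272) (nat_lit 167)) (XT.lf (nat_lit 76) (nat_lit 12612520406) (nat_lit 0) (nat_lit 2861748447) (nat_lit 760) (nat_lit 9975286548) (nat_lit 72) (nat_lit 5) (nat_lit 71) (nat_lit 5) (nat_lit 81) (nat_lit 5) (nat_lit 282) (nat_lit 272) (nat_lit 166)))))) (XT.nd (nat_lit 312) (nat_lit 760) (nat_lit 0) (XT.nd (nat_lit 156) (nat_lit 304) (nat_lit 0) (XT.nd (nat_lit 78) (nat_lit 684) (nat_lit 0) (XT.lf (nat_lit 0) (nat_lit 17525410351) (nat_lit 684) (nat_lit 1626683812) (nat_lit 76) (nat_lit 7006946062) (nat_lit 72) (nat_lit 5) (nat_lit 81) (nat_lit 5) (nat_lit 73) (nat_lit 5) (nat_lit 283) (nat_lit 272) (nat_lit 165)) (XT.lf (nat_lit 0) (nat_lit 10425540303) (nat_lit 684) (nat_lit 9457046402) (nat_lit 760) (nat_lit 7011260620) (nat_lit 63) (nat_lit 5) (nat_lit 72) (nat_lit 5) (nat_lit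 73) (nat_lit 5) (nat_lit 284) (nat_lit 272) (nat_lit 164))) (XT.nd (nat_lit 78) (nat_lit 304) (nat_lit 0) (XT.lf (nat_lit 0) (nat_lit 22390921281) (nat_lit 760) (nat_lit 4544559681) (nat_lit 76) (nat_lit 728269725) (nat_lit 63) (nat_lit 5) (nat_lit 73) (nat_lit 5) (nat_lit 64) (nat_lit 5) (nat_lit 285) (nat_lit 272) (nat_lit 163)) (XT.lf (nat_lit 0) (nat_lit 8073351604) (nat_lit 304) (nat_lit 17226702075) (nat_lit 380) (nat_lit 3158346369) (nat_lit 59) (nat_lit 5) (nat_lit 63) (nat_lit 5) (nat_lit 64) (nat_lit 5) (nat_lit 286) (nat_lit 272) (nat_lit 162)))) (XT.nd (nat_lit 156) (nat_lit 304) (nat_lit 0) (XT.nd (nat_lit 78) (nat_lit 456) (nat_lit 0) (XT.lf (nat_lit 0) (nat_lit 21474634658) (nat_lit 304) (nat_lit 6951460936) (nat_lit 380) (nat_lit 863132579) (nat_lit 59) (nat_lit 5) (nat_lit 63) (nat_lit 5) (nat_lit 64) (nat_lit 5) (nat_lit 287) (nat_lit 272) (nat_lit 161)) (XT.lf (nat_lit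 0) (nat_lit 1640079979) (nat_lit 456) (nat_lit 24686033342) (nat_lit 76) (nat_lit 3827156697) (nat_lit 53) (nat_lit 5) (nat_lit 59) (nat_lit 5) (nat_lit 54) (nat_lit 5) (nat_lit 288) (nat_lit 272) (nat_lit 160))) (XT.nd (nat_lit 78) (nat_lit 304) (nat_lit 0) (XT.lf (nat_lit 0) (nat_lit 4482740309) (nat_lit 456) (nat_lit 11505144423) (nat_lit 76) (nat_lit 15059773396) (nat_lit 53) (nat_lit 5) (nat_lit 59) (nat_lit 5) (nat_lit 54) (nat_lit 5) (nat_lit 289) (nat_lit 272) (nat_lit 159)) (XT.nd (nat_lit 78) (nat_lit 0) (nat_lit 0) (XT.lf (nat_lit 0) (nat_lit 2406641826) (nat_lit 304) (nat_lit 5093535002) (nat_lit 380) (nat_lit 24484972236) (nat_lit 49) (nat_lit 5) (nat_lit 53) (nat_lit 5) (nat_lit 54) (nat_lit 5) (nat_lit 290) (nat_lit 272) (nat_lit 158)) (XT.lf (nat_lit 0) (nat_lit 10960815247) (nat_lit 380) (nat_lit 15653927923) (nat_lit 76) (nat_lit 6340169712) (nat_lit 49) (nat_lit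 5) (nat_lit 54) (nat_lit 5) (nat_lit 50) (nat_lit 5) (nat_lit 291) (nat_lit 272) (nat_lit 157))))))))
noncomputable def xc203 : XT := (XT.nd (nat_lit 1404) (nat_lit 912) (nat_lit 0) (XT.nd (nat_lit 702) (nat_lit 836) (nat_lit 0) (XT.nd (nat_lit 312) (nat_lit 532) (nat_lit 0) (XT.nd (nat_lit 156) (nat_lit 228) (nat_lit 0) (XT.nd (nat_lit 78) (nat_lit 304) (nat_lit 0) (XT.lf (nat_lit 0) (nat_lit 14673432979) (nat_lit 380) (nat_lit 1121705866) (nat_lit 76) (nat_lit 18174092807) (nat_lit 49) (nat_lit 5) (nat_lit 54) (nat_lit 5) (nat_lit 50) (nat_lit 5) (nat_lit 292) (nat_lit 272) (nat_lit 156)) (XT.lf (nat_lit 0) (nat_lit 14599560941) (nat_lit 304) (nat_lit 4195724355) (nat_lit 380) (nat_lit 16227814340) (nat_lit 45) (nat_lit 5) (nat_lit 49) (nat_lit 5) (nat_lit 50) (nat_lit 5) (nat_lit 293) (nat_lit 272) (nat_lit 155))) (XT.nd (nat_lit 78) (nat_lit 228) (nat_lit 0) (XT.lf (nat_lit 0)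 (nat_lit 23262972573) (nat_lit 380) (nat_lit 5112815371) (nat_lit 76) (nat_lit 7746898776) (nat_lit 45) (nat_lit 5) (nat_lit 50) (nat_lit 5) (nat_lit 46) (nat_lit 5) (nat_lit 294) (nat_lit 272) (nat_lit 154)) (XT.lf (nat_lit 0) (nat_lit 11249989161) (nat_lit 228) (nat_lit 16944468868) (nat_lit 304) (nat_lit 9070786646) (nat_lit 42) (nat_lit 5) (nat_lit 45) (nat_lit 5) (nat_lit 46) (nat_lit 5) (nat_lit 295) (nat_lit 272) (nat_lit 153)))) (XT.nd (nat_lit 156) (nat_lit 304) (nat_lit 0) (XT.nd (nat_lit 78) (nat_lit 228) (nat_lit 0) (XT.lf (nat_lit 0) (nat_lit 28603773314) (nat_lit 228) (nat_lit 4851438254) (nat_lit 304) (nat_lit 5005595895) (nat_lit 42) (nat_lit 5) (nat_lit 45) (nat_lit 5) (nat_lit 46) (nat_lit 5) (nat_lit 296) (nat_lit 272) (nat_lit 152)) (XT.lf (nat_lit 0) (nat_lit 7212822953) (nat_lit 228) (nat_lit 31997573837) (nat_lit 304) (nat_lit 494192973) (nat_lit 39) (nat_lit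 5) (nat_lit 42) (nat_lit 5) (nat_lit 43) (nat_lit 5) (nat_lit 297) (nat_lit 272) (nat_lit 151))) (XT.nd (nat_lit 78) (nat_lit 228) (nat_lit 0) (XT.lf (nat_lit 0) (nat_lit 4352503032) (nat_lit 304) (nat_lit 15677023733) (nat_lit 76) (nat_lit 20965456452) (nat_lit 38) (nat_lit 5) (nat_lit 42) (nat_lit 5) (nat_lit 39) (nat_lit 5) (nat_lit 298) (nat_lit 272) (nat_lit 150)) (XT.nd (nat_lit 78) (nat_lit 0) (nat_lit 0) (XT.lf (nat_lit 0) (nat_lit 2030893354) (nat_lit 228) (nat_lit 7422232070) (nat_lit 304) (nat_lit 32894965423) (nat_lit 35) (nat_lit 5) (nat_lit 38) (nat_lit 5) (nat_lit 39) (nat_lit 5) (nat_lit 299) (nat_lit 272) (nat_lit 149)) (XT.lf (nat_lit 0) (nat_lit 15165999423) (nat_lit 304) (nat_lit 22686804531) (nat_lit 76) (nat_lit 5898197990) (nat_lit 35) (nat_lit 5) (nat_lit 39) (nat_lit 5) (nat_lit 36) (nat_lit 5) (nat_lit 300) (nat_lit 272) (nat_lit 148)))))) (XT.nd (nat_lit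 312) (nat_lit 456) (nat_lit 0) (XT.nd (nat_lit 156) (nat_lit 152) (nat_lit 0) (XT.nd (nat_lit 78) (nat_lit 228) (nat_lit 0) (XT.lf (nat_lit 0) (nat_lit 21282931113) (nat_lit 304) (nat_lit 4300906127) (nat_lit 76) (nat_lit 19634309331) (nat_lit 35) (nat_lit 5) (nat_lit 39) (nat_lit 5) (nat_lit 36) (nat_lit 5) (nat_lit 301) (nat_lit 272) (nat_lit 147)) (XT.lf (nat_lit 0) (nat_lit 15496128392) (nat_lit 228) (nat_lit 12448412374) (nat_lit 304) (nat_lit 18802174358) (nat_lit 32) (nat_lit 5) (nat_lit 35) (nat_lit 5) (nat_lit 36) (nat_lit 5) (nat_lit 302) (nat_lit 272) (nat_lit 146))) (XT.nd (nat_lit 78) (nat_lit 152) (nat_lit 0) (XT.lf (nat_lit 0) (nat_lit 35031204696) (nat_lit 304) (nat_lit 11942119857) (nat_lit 76) (nat_lit 1373796732) (nat_lit 32) (nat_lit 5) (nat_lit 36) (nat_lit 5) (nat_lit 33) (nat_lit 5) (nat_lit 303) (nat_lit 272) (nat_lit 145)) (XT.lf (nat_lit 0) (nat_lit 8392296555)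 (nat_lit 152) (nat_lit 34412111126) (nat_lit 228) (nat_lit 7206537272) (nat_lit 30) (nat_lit 5) (nat_lit 32) (nat_lit 5) (nat_lit 33) (nat_lit 5) (nat_lit 304) (nat_lit 272) (nat_lit 144)))) (XT.nd (nat_lit 156) (nat_lit 380) (nat_lit 0) (XT.nd (nat_lit 78) (nat_lit 76) (nat_lit 0) (XT.lf (nat_lit 0) (nat_lit 30154094487) (nat_lit 152) (nat_lit 21011604407) (nat_lit 228) (nat_lit 582296647) (nat_lit 30) (nat_lit 5) (nat_lit 32) (nat_lit 5) (nat_lit 33) (nat_lit 5) (nat_lit 305) (nat_lit 272) (nat_lit 143)) (XT.lf (nat_lit 0) (nat_lit 6166441312) (nat_lit 228) (nat_lit 671271025) (nat_lit 76) (nat_lit 46729354347) (nat_lit 29) (nat_lit 5) (nat_lit 32) (nat_lit 5) (nat_lit 30) (nat_lit 5) (nat_lit 306) (nat_lit 272) (nat_lit 142))) (XT.nd (nat_lit 78) (nat_lit 152) (nat_lit 0) (XT.lf (nat_lit 0) (nat_lit 13705108927) (nat_lit 304) (nat_lit 33602925873) (nat_lit 76) (nat_lit 8144982372)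 (nat_lit 26) (nat_lit 5) (nat_lit 30) (nat_lit 5) (nat_lit 27) (nat_lit 5) (nat_lit 307) (nat_lit 272) (nat_lit 141)) (XT.nd (nat_lit 78) (nat_lit 152) (nat_lit 0) (XT.lf (nat_lit 0) (nat_lit 21741805395) (nat_lit 304) (nat_lit 12027875212) (nat_lit 76) (nat_lit 23657535674) (nat_lit 26) (nat_lit 5) (nat_lit 30) (nat_lit 5) (nat_lit 27) (nat_lit 5) (nat_lit 308) (nat_lit 272) (nat_lit 140)) (XT.lf (nat_lit 0) (nat_lit 10973604043) (nat_lit 152) (nat_lit 19375630082) (nat_lit 228) (nat_lit 29142451942) (nat_lit 24) (nat_lit 5) (nat_lit 26) (nat_lit 5) (nat_lit 27) (nat_lit 5) (nat_lit 309) (nat_lit 272) (nat_lit 139))))))) (XT.nd (nat_lit 702) (nat_lit 380) (nat_lit 0) (XT.nd (nat_lit 312) (nat_lit 304) (nat_lit 0) (XT.nd (nat_lit 156) (nat_lit 228) (nat_lit 0) (XT.nd (nat_lit 78) (nat_lit 0) (nat_lit 0) (XT.lf (nat_lit 0) (nat_lit 35539247354) (nat_lit 152) (nat_lit 4049114828) (nat_lit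 228) (nat_lit 22060956092) (nat_lit 24) (nat_lit 5) (nat_lit 26) (nat_lit 5) (nat_lit 27) (nat_lit 5) (nat_lit 310) (nat_lit 272) (nat_lit 138)) (XT.lf (nat_lit 0) (nat_lit 49475209159) (nat_lit 228) (nat_lit 2773121205) (nat_lit 76) (nat_lit 11657218675) (nat_lit 24) (nat_lit 5) (nat_lit 27) (nat_lit 5) (nat_lit 25) (nat_lit 5) (nat_lit 311) (nat_lit 272) (nat_lit 137))) (XT.nd (nat_lit 78) (nat_lit 76) (nat_lit 0) (XT.lf (nat_lit 0) (nat_lit 22377246191) (nat_lit 152) (nat_lit 37892737223) (nat_lit 228) (nat_lit 5983933511) (nat_lit 22) (nat_lit 5) (nat_lit 24) (nat_lit 5) (nat_lit 25) (nat_lit 5) (nat_lit 312) (nat_lit 272) (nat_lit 136)) (XT.lf (nat_lit 0) (nat_lit 2838044226) (nat_lit 228) (nat_lit 19885041548) (nat_lit 76) (nat_lit 45992090707) (nat_lit 21) (nat_lit 5) (nat_lit 24) (nat_lit 5) (nat_lit 22) (nat_lit 5) (nat_lit 313) (nat_lit 272) (nat_lit 135)))) (XT.nd (nat_lit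 156) (nat_lit 152) (nat_lit 0) (XT.nd (nat_lit 78) (nat_lit 0) (nat_lit 0) (XT.lf (nat_lit 0) (nat_lit 5377041789) (nat_lit 152) (nat_lit 6604881199) (nat_lit 228) (nat_lit 59308580258) (nat_lit 19) (nat_lit 5) (nat_lit 21) (nat_lit 5) (nat_lit 22) (nat_lit 5) (nat_lit 314) (nat_lit 272) (nat_lit 134)) (XT.lf (nat_lit 0) (nat_lit 22084374871) (nat_lit 228) (nat_lit 41554963633) (nat_lit 76) (nat_lit 10330192861) (nat_lit 19) (nat_lit 5) (nat_lit 22) (nat_lit 5) (nat_lit 20) (nat_lit 5) (nat_lit 315) (nat_lit 272) (nat_lit 133))) (XT.nd (nat_lit 78) (nat_lit 152) (nat_lit 0) (XT.lf (nat_lit 0) (nat_lit 32798305633) (nat_lit 228) (nat_lit 16089832516) (nat_lit 76) (nat_lit 27889058712) (nat_lit 19) (nat_lit 5) (nat_lit 22) (nat_lit 5) (nat_lit 20) (nat_lit 5) (nat_lit 316) (nat_lit 272) (nat_lit 132)) (XT.nd (nat_lit 78) (nat_lit 0) (nat_lit 0) (XT.lf (nat_lit 0) (nat_lit 10997678249)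 (nat_lit 152) (nat_lit 33220130258) (nat_lit 228) (nat_lit 35498946952) (nat_lit 17) (nat_lit 5) (nat_lit 19) (nat_lit 5) (nat_lit 20) (nat_lit 5) (nat_lit 317) (nat_lit 272) (nat_lit 131)) (XT.lf (nat_lit 0) (nat_lit 39995342226) (nat_lit 152) (nat_lit 16483647383) (nat_lit 228) (nat_lit 26310770656) (nat_lit 17) (nat_lit 5) (nat_lit 19) (nat_lit 5) (nat_lit 20) (nat_lit 5) (nat_lit 318) (nat_lit 272) (nat_lit 130)))))) (XT.nd (nat_lit 312) (nat_lit 228) (nat_lit 0) (XT.nd (nat_lit 156) (nat_lit 76) (nat_lit 0) (XT.nd (nat_lit 78) (nat_lit 76) (nat_lit 0) (XT.lf (nat_lit 0) (nat_lit 69368525991) (nat_lit 228) (nat_lit 15593301879) (nat_lit 76) (nat_lit 1053825899) (nat_lit 17) (nat_lit 5) (nat_lit 20) (nat_lit 5) (nat_lit 18) (nat_lit 4) (nat_lit 319) (nat_lit 272) (nat_lit 129)) (XT.lf (nat_lit 0) (nat_lit 13114769135) (nat_lit 76) (nat_lit 70261117403) (nat_lit 152) (nat_lit 6003291158)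 (nat_lit 16) (nat_lit 5) (nat_lit 17) (nat_lit 5) (nat_lit 18) (nat_lit 4) (nat_lit 320) (nat_lit 272) (nat_lit 128))) (XT.nd (nat_lit 78) (nat_lit 0) (nat_lit 0) (XT.lf (nat_lit 0) (nat_lit 5273960369) (nat_lit 152) (nat_lit 49185801882) (nat_lit 76) (nat_lit 38433741198) (nat_lit 15) (nat_lit 5) (nat_lit 17) (nat_lit 5) (nat_lit 16) (nat_lit 5) (nat_lit 321) (nat_lit 272) (nat_lit 127)) (XT.lf (nat_lit 0) (nat_lit 16911775647) (nat_lit 152) (nat_lit 20854199374) (nat_lit 76) (nat_lit 58812729872) (nat_lit 15) (nat_lit 5) (nat_lit 17) (nat_lit 5) (nat_lit 16) (nat_lit 5) (nat_lit 322) (nat_lit 272) (nat_lit 126)))) (XT.nd (nat_lit 156) (nat_lit 76) (nat_lit 0) (XT.nd (nat_lit 78) (nat_lit 0) (nat_lit 0) (XT.lf (nat_lit 0) (nat_lit 9185579258) (nat_lit 152) (nat_lit 20087839944) (nat_lit 228) (nat_lit 71167652894) (nat_lit 13) (nat_lit 5) (nat_lit 15) (nat_lit 5) (nat_lit 16) (nat_lit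 5) (nat_lit 323) (nat_lit 272) (nat_lit 125)) (XT.lf (nat_lit 0) (nat_lit 41448996341) (nat_lit 152) (nat_lit 1155882809) (nat_lit 228) (nat_lit 61874094238) (nat_lit 13) (nat_lit 5) (nat_lit 15) (nat_lit 5) (nat_lit 16) (nat_lit 5) (nat_lit 324) (nat_lit 272) (nat_lit 124))) (XT.nd (nat_lit 78) (nat_lit 76) (nat_lit 0) (XT.lf (nat_lit 0) (nat_lit 56893838720) (nat_lit 228) (nat_lit 33687804911) (nat_lit 76) (nat_lit 18122582105) (nat_lit 13) (nat_lit 5) (nat_lit 16) (nat_lit 5) (nat_lit 14) (nat_lit 4) (nat_lit 325) (nat_lit 272) (nat_lit 123)) (XT.nd (nat_lit 78) (nat_lit 76) (nat_lit 0) (XT.lf (nat_lit 0) (nat_lit 71914874443) (nat_lit 228) (nat_lit 2899669317) (nat_lit 76) (nat_lit 38325317748) (nat_lit 13) (nat_lit 5) (nat_lit 16) (nat_lit 5) (nat_lit 14) (nat_lit 4) (nat_lit 326) (nat_lit 272) (nat_lit 122)) (XT.lf (nat_lit 0) (nat_lit 30398730613) (nat_lit 76) (nat_lit 57761582884)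 (nat_lit 152) (nat_lit 29613300100) (nat_lit 12) (nat_lit 5) (nat_lit 13) (nat_lit 5) (nat_lit 14) (nat_lit 4) (nat_lit 327) (nat_lit 272) (nat_lit 121))))))))
noncomputable def xc204 : XT := (XT.nd (nat_lit 1404) (nat_lit 76) (nat_lit 0) (XT.nd (nat_lit 702) (nat_lit 228) (nat_lit 0) (XT.nd (nat_lit 312) (nat_lit 76) (nat_lit 0) (XT.nd (nat_lit 156) (nat_lit 228) (nat_lit 0) (XT.nd (nat_lit 78) (nat_lit 0) (nat_lit 0) (XT.lf (nat_lit 0) (nat_lit 65460662581) (nat_lit 76) (nat_lit 39805239161) (nat_lit 152) (nat_lit 17370759695) (nat_lit 12) (nat_lit 5) (nat_lit 13) (nat_lit 5) (nat_lit 14) (nat_lit 4) (nat_lit 328) (nat_lit 272) (nat_lit 120)) (XT.lf (nat_lit 0) (nat_lit 102273731215) (nat_lit 76) (nat_lit 20951866695) (nat_lit 152) (nat_lit 4517324246) (nat_lit 12) (nat_lit 5) (nat_lit 13) (nat_lit 5) (nat_lit 14) (nat_lit 4) (nat_lit 329) (nat_lit 272) (nat_lit 119))) (XT.nd (nat_lit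 78) (nat_lit 0) (nat_lit 0) (XT.lf (nat_lit 0) (nat_lit 7934831681) (nat_lit 152) (nat_lit 879323366) (nat_lit 228) (nat_lit 124277195937) (nat_lit 9) (nat_lit 5) (nat_lit 11) (nat_lit 5) (nat_lit 12) (nat_lit 5) (nat_lit 330) (nat_lit 272) (nat_lit 118)) (XT.lf (nat_lit 0) (nat_lit 23413007201) (nat_lit 228) (nat_lit 95190721702) (nat_lit 76) (nat_lit 20062140750) (nat_lit 9) (nat_lit 5) (nat_lit 12) (nat_lit 5) (nat_lit 10) (nat_lit 4) (nat_lit 331) (nat_lit 272) (nat_lit 117)))) (XT.nd (nat_lit 156) (nat_lit 76) (nat_lit 0) (XT.nd (nat_lit 78) (nat_lit 0) (nat_lit 0) (XT.lf (nat_lit 0) (nat_lit 38755147687) (nat_lit 228) (nat_lit 63742878326) (nat_lit 76) (nat_lit 42020422527) (nat_lit 9) (nat_lit 5) (nat_lit 12) (nat_lit 5) (nat_lit 10) (nat_lit 4) (nat_lit 332) (nat_lit 272) (nat_lit 116)) (XT.lf (nat_lit 0) (nat_lit 54863376711) (nat_lit 228) (nat_lit 30724384657) (nat_lit 76)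 (nat_lit 65075947426) (nat_lit 9) (nat_lit 5) (nat_lit 12) (nat_lit 5) (nat_lit 10) (nat_lit 4) (nat_lit 333) (nat_lit 272) (nat_lit 115))) (XT.nd (nat_lit 78) (nat_lit 0) (nat_lit 0) (XT.lf (nat_lit 0) (nat_lit 4073760544) (nat_lit 76) (nat_lit 67765889473) (nat_lit 152) (nat_lit 85273451829) (nat_lit 8) (nat_lit 5) (nat_lit 9) (nat_lit 5) (nat_lit 10) (nat_lit 4) (nat_lit 334) (nat_lit 272) (nat_lit 114)) (XT.nd (nat_lit 78) (nat_lit 0) (nat_lit 0) (XT.lf (nat_lit 0) (nat_lit 41676862091) (nat_lit 76) (nat_lit 48507257937) (nat_lit 152) (nat_lit 73674876728) (nat_lit 8) (nat_lit 5) (nat_lit 9) (nat_lit 5) (nat_lit 10) (nat_lit 4) (nat_lit 335) (nat_lit 272) (nat_lit 113)) (XT.lf (nat_lit 0) (nat_lit 81158564266) (nat_lit 76) (nat_lit 28286345198) (nat_lit 152) (nat_lit 61497323446) (nat_lit 8) (nat_lit 5) (nat_lit 9) (nat_lit 5) (nat_lit 10) (nat_lit 4) (nat_lit 336) (nat_lit 272)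 (nat_lit 112)))))) (XT.nd (nat_lit 312) (nat_lit 152) (nat_lit 0) (XT.nd (nat_lit 156) (nat_lit 76) (nat_lit 0) (XT.nd (nat_lit 78) (nat_lit 0) (nat_lit 0) (XT.lf (nat_lit 0) (nat_lit 122612871121) (nat_lit 76) (nat_lit 7055006225) (nat_lit 152) (nat_lit 48711797810) (nat_lit 8) (nat_lit 5) (nat_lit 9) (nat_lit 5) (nat_lit 10) (nat_lit 4) (nat_lit 337) (nat_lit 272) (nat_lit 111)) (XT.lf (nat_lit 0) (nat_lit 151139070707) (nat_lit 152) (nat_lit 20288445410) (nat_lit 0) (nat_lit 14749620716) (nat_lit 8) (nat_lit 5) (nat_lit 10) (nat_lit 4) (nat_lit 8) (nat_lit 4) (nat_lit 338) (nat_lit 272) (nat_lit 110))) (XT.nd (nat_lit 78) (nat_lit 0) (nat_lit 0) (XT.lf (nat_lit 0) (nat_lit 17403832445) (nat_lit 76) (nat_lit 156666579982) (nat_lit 76) (nat_lit 20274730851) (nat_lit 7) (nat_lit 4) (nat_lit 8) (nat_lit 5) (nat_lit 8) (nat_lit 4) (nat_lit 339) (nat_lit 272) (nat_lit 109)) (XT.lf (nat_lit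 0) (nat_lit 57683741184) (nat_lit 76) (nat_lit 140807401440) (nat_lit 76) (nat_lit 4413267415) (nat_lit 7) (nat_lit 4) (nat_lit 8) (nat_lit 5) (nat_lit 8) (nat_lit 4) (nat_lit 340) (nat_lit 272) (nat_lit 108)))) (XT.nd (nat_lit 156) (nat_lit 76) (nat_lit 0) (XT.nd (nat_lit 78) (nat_lit 0) (nat_lit 0) (XT.lf (nat_lit 0) (nat_lit 11848722648) (nat_lit 152) (nat_lit 112106428686) (nat_lit 76) (nat_lit 87926971219) (nat_lit 6) (nat_lit 5) (nat_lit 8) (nat_lit 5) (nat_lit 7) (nat_lit 4) (nat_lit 341) (nat_lit 272) (nat_lit 107)) (XT.lf (nat_lit 0) (nat_lit 28774783698) (nat_lit 152) (nat_lit 77410075999) (nat_lit 76) (nat_lit 115120280171) (nat_lit 6) (nat_lit 5) (nat_lit 8) (nat_lit 5) (nat_lit 7) (nat_lit 4) (nat_lit 342) (nat_lit 272) (nat_lit 106))) (XT.nd (nat_lit 78) (nat_lit 76) (nat_lit 0) (XT.lf (nat_lit 0) (nat_lit 46546467999) (nat_lit 152) (nat_lit 40980096960) (nat_lit 76)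 (nat_lit 143672777958) (nat_lit 6) (nat_lit 5) (nat_lit 8) (nat_lit 5) (nat_lit 7) (nat_lit 4) (nat_lit 343) (nat_lit 272) (nat_lit 105)) (XT.nd (nat_lit 78) (nat_lit 76) (nat_lit 0) (XT.lf (nat_lit 0) (nat_lit 65206089085) (nat_lit 152) (nat_lit 2729753521) (nat_lit 76) (nat_lit 173652446715) (nat_lit 6) (nat_lit 5) (nat_lit 8) (nat_lit 5) (nat_lit 7) (nat_lit 4) (nat_lit 344) (nat_lit 272) (nat_lit 104)) (XT.lf (nat_lit 0) (nat_lit 38669698406) (nat_lit 76) (nat_lit 46732118583) (nat_lit 152) (nat_lit 167064710566) (nat_lit 5) (nat_lit 5) (nat_lit 6) (nat_lit 5) (nat_lit 7) (nat_lit 4) (nat_lit 345) (nat_lit 272) (nat_lit 103))))))) (XT.nd (nat_lit 32058) (nat_lit 0) (nat_lit 4940) (XT.nd (nat_lit 312) (nat_lit 76) (nat_lit 0) (XT.nd (nat_lit 156) (nat_lit 0) (nat_lit 0) (XT.nd (nat_lit 78) (nat_lit 0) (nat_lit 0) (XT.lf (nat_lit 0) (nat_lit 82232830710) (nat_lit 76) (nat_lit 24420126438)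 (nat_lit 152) (nat_lit 157233440013) (nat_lit 5) (nat_lit 5) (nat_lit 6) (nat_lit 5) (nat_lit 7) (nat_lit 4) (nat_lit 346) (nat_lit 272) (nat_lit 102)) (XT.lf (nat_lit 0) (nat_lit 127973107154) (nat_lit 76) (nat_lit 992972080) (nat_lit 152) (nat_lit 146911210490) (nat_lit 5) (nat_lit 5) (nat_lit 6) (nat_lit 5) (nat_lit 7) (nat_lit 4) (nat_lit 347) (nat_lit 272) (nat_lit 101))) (XT.nd (nat_lit 78) (nat_lit 0) (nat_lit 0) (XT.lf (nat_lit 0) (nat_lit 152762851857) (nat_lit 152) (nat_lit 112836863959) (nat_lit 0) (nat_lit 22849612063) (nat_lit 5) (nat_lit 5) (nat_lit 7) (nat_lit 4) (nat_lit 5) (nat_lit 4) (nat_lit 348) (nat_lit 272) (nat_lit 100)) (XT.lf (nat_lit 0) (nat_lit 177765213531) (nat_lit 152) (nat_lit 76033396533) (nat_lit 0) (nat_lit 47850571010) (nat_lit 5) (nat_lit 5) (nat_lit 7) (nat_lit 4) (nat_lit 5) (nat_lit 4) (nat_lit 349) (nat_lit 272) (nat_lit 99)))) (XT.nd (nat_lit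 31512) (nat_lit 0) (nat_lit 4864) (XT.nd (nat_lit 78) (nat_lit 76) (nat_lit 0) (XT.lf (nat_lit 0) (nat_lit 204017190612) (nat_lit 152) (nat_lit 37390649913) (nat_lit 0) (nat_lit 74101212161) (nat_lit 5) (nat_lit 5) (nat_lit 7) (nat_lit 4) (nat_lit 5) (nat_lit 4) (nat_lit 350) (nat_lit 272) (nat_lit 98)) (XT.lf (nat_lit 0) (nat_lit 3288639441) (nat_lit 76) (nat_lit 228343993244) (nat_lit 76) (nat_lit 98426742478) (nat_lit 4) (nat_lit 4) (nat_lit 5) (nat_lit 5) (nat_lit 5) (nat_lit 4) (nat_lit 351) (nat_lit 272) (nat_lit 97))) (XT.nd (nat_lit 78) (nat_lit 0) (nat_lit 0) (XT.lf (nat_lit 0) (nat_lit 1447677927) (nat_lit 0) (nat_lit 1447677927) (nat_lit 684) (nat_lit 7435244591) (nat_lit 68) (nat_lit 5) (nat_lit 68) (nat_lit 3) (nat_lit 77) (nat_lit 3) (nat_lit 273) (nat_lit 273) (nat_lit 174)) (XT.nd (nat_lit 78) (nat_lit 0) (nat_lit 0) (XT.lf (nat_lit 0) (nat_lit 6170229951) (nat_lit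 684) (nat_lit 9175479539) (nat_lit 760) (nat_lit 5819777899) (nat_lit 68) (nat_lit 5) (nat_lit 77) (nat_lit 3) (nat_lit 78) (nat_lit 5) (nat_lit 274) (nat_lit 273) (nat_lit 173)) (XT.lf (nat_lit 0) (nat_lit 6607241079) (nat_lit 684) (nat_lit 208123457) (nat_lit 760) (nat_lit 14877730216) (nat_lit 68) (nat_lit 5) (nat_lit 77) (nat_lit 3) (nat_lit 78) (nat_lit 5) (nat_lit 275) (nat_lit 273) (nat_lit 172)))))) (XT.nd (nat_lit 312) (nat_lit 0) (nat_lit 76) (XT.nd (nat_lit 156) (nat_lit 0) (nat_lit 0) (XT.nd (nat_lit 78) (nat_lit 0) (nat_lit 0) (XT.lf (nat_lit 0) (nat_lit 7241938748) (nat_lit 684) (nat_lit 12768979587) (nat_lit 760) (nat_lit 2227403197) (nat_lit 69) (nat_lit 5) (nat_lit 78) (nat_lit 5) (nat_lit 79) (nat_lit 5) (nat_lit 276) (nat_lit 273) (nat_lit 171)) (XT.lf (nat_lit 0) (nat_lit 8015544791) (nat_lit 684) (nat_lit 3289748960) (nat_lit 760) (nat_lit 11500186605) (nat_lit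 69) (nat_lit 5) (nat_lit 78) (nat_lit 5) (nat_lit 79) (nat_lit 5) (nat_lit 277) (nat_lit 273) (nat_lit 170))) (XT.nd (nat_lit 78) (nat_lit 0) (nat_lit 76) (XT.lf (nat_lit 76) (nat_lit 6878614516) (nat_lit 0) (nat_lit 2048862260) (nat_lit 760) (nat_lit 14468566043) (nat_lit 70) (nat_lit 5) (nat_lit 69) (nat_lit 5) (nat_lit 79) (nat_lit 5) (nat_lit 278) (nat_lit 273) (nat_lit 169)) (XT.lf (nat_lit 0) (nat_lit 10053971859) (nat_lit 684) (nat_lit 6469754681) (nat_lit 760) (nat_lit 7483985188) (nat_lit 70) (nat_lit 5) (nat_lit 79) (nat_lit 5) (nat_lit 80) (nat_lit 5) (nat_lit 279) (nat_lit 273) (nat_lit 168)))) (XT.nd (nat_lit 156) (nat_lit 0) (nat_lit 76) (XT.nd (nat_lit 78) (nat_lit 0) (nat_lit 76) (XT.lf (nat_lit 76) (nat_lit 4175257470) (nat_lit 0) (nat_lit 7153246152) (nat_lit 760) (nat_lit 13316900243) (nat_lit 71) (nat_lit 5) (nat_lit 70) (nat_lit 5) (nat_lit 80) (nat_lit 5) (nat_lit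 280) (nat_lit 273) (nat_lit 167)) (XT.lf (nat_lit 0) (nat_lit 12813281548) (nat_lit 684) (nat_lit 9781497016) (nat_lit 760) (nat_lit 2712900237) (nat_lit 71) (nat_lit 5) (nat_lit 80) (nat_lit 5) (nat_lit 81) (nat_lit 5) (nat_lit 281) (nat_lit 273) (nat_lit 166))) (XT.nd (nat_lit 78) (nat_lit 0) (nat_lit 0) (XT.lf (nat_lit 76) (nat_lit 1362791667) (nat_lit 0) (nat_lit 13141595487) (nat_lit 760) (nat_lit 11492098909) (nat_lit 72) (nat_lit 5) (nat_lit 71) (nat_lit 5) (nat_lit 81) (nat_lit 5) (nat_lit 282) (nat_lit 273) (nat_lit 165)) (XT.nd (nat_lit 78) (nat_lit 0) (nat_lit 76) (XT.lf (nat_lit 76) (nat_lit 13398824574) (nat_lit 0) (nat_lit 3040651643) (nat_lit 760) (nat_lit 10272307986) (nat_lit 72) (nat_lit 5) (nat_lit 71) (nat_lit 5) (nat_lit 81) (nat_lit 5) (nat_lit 283) (nat_lit 273) (nat_lit 164)) (XT.lf (nat_lit 0) (nat_lit 18583523475) (nat_lit 684) (nat_lit 1549459622) (nat_lit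 76) (nat_lit 7324274845) (nat_lit 72) (nat_lit 5) (nat_lit 81) (nat_lit 5) (nat_lit 73) (nat_lit 5) (nat_lit 284) (nat_lit 273) (nat_lit 163))))))))
noncomputable def xc205 : XT := (XT.nd (nat_lit 1404) (nat_lit 1368) (nat_lit 0) (XT.nd (nat_lit 702) (nat_lit 1064) (nat_lit 0) (XT.nd (nat_lit 312) (nat_lit 760) (nat_lit 0) (XT.nd (nat_lit 156) (nat_lit 304) (nat_lit 0) (XT.nd (nat_lit 78) (nat_lit 0) (nat_lit 0) (XT.lf (nat_lit 0) (nat_lit 11102818306) (nat_lit 684) (nat_lit 9949516781) (nat_lit 760) (nat_lit 7176812067) (nat_lit 63) (nat_lit 5) (nat_lit 72) (nat_lit 5) (nat_lit 73) (nat_lit 5) (nat_lit 285) (nat_lit 273) (nat_lit 162)) (XT.lf (nat_lit 0) (nat_lit 23677431873) (nat_lit 760) (nat_lit 4613978316) (nat_lit 76) (nat_lit 746597345) (nat_lit 63) (nat_lit 5) (nat_lit 73) (nat_lit 5) (nat_lit 64) (nat_lit 5) (nat_lit 286) (nat_lit 273) (nat_lit 161))) (XT.nd (nat_lit 78) (nat_lit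 0) (nat_lit 0) (XT.lf (nat_lit 0) (nat_lit 8632283222) (nat_lit 304) (nat_lit 18094211084) (nat_lit 380) (nat_lit 3146199123) (nat_lit 59) (nat_lit 5) (nat_lit 63) (nat_lit 5) (nat_lit 64) (nat_lit 5) (nat_lit 287) (nat_lit 273) (nat_lit 160)) (XT.lf (nat_lit 0) (nat_lit 22696236903) (nat_lit 304) (nat_lit 7304913892) (nat_lit 380) (nat_lit 744322955) (nat_lit 59) (nat_lit 5) (nat_lit 63) (nat_lit 5) (nat_lit 64) (nat_lit 5) (nat_lit 288) (nat_lit 273) (nat_lit 159)))) (XT.nd (nat_lit 156) (nat_lit 304) (nat_lit 0) (XT.nd (nat_lit 78) (nat_lit 0) (nat_lit 0) (XT.lf (nat_lit 0) (nat_lit 1873749989) (nat_lit 456) (nat_lit 25761181911) (nat_lit 76) (nat_lit 4017939126) (nat_lit 53) (nat_lit 5) (nat_lit 59) (nat_lit 5) (nat_lit 54) (nat_lit 5) (nat_lit 289) (nat_lit 273) (nat_lit 158)) (XT.lf (nat_lit 0) (nat_lit 4851321144) (nat_lit 456) (nat_lit 11928827265) (nat_lit 76) (nat_lit 15812214060)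 (nat_lit 53) (nat_lit 5) (nat_lit 59) (nat_lit 5) (nat_lit 54) (nat_lit 5) (nat_lit 290) (nat_lit 273) (nat_lit 157))) (XT.nd (nat_lit 78) (nat_lit 0) (nat_lit 0) (XT.lf (nat_lit 0) (nat_lit 2676103548) (nat_lit 304) (nat_lit 5338975995) (nat_lit 380) (nat_lit 25561897638) (nat_lit 49) (nat_lit 5) (nat_lit 53) (nat_lit 5) (nat_lit 54) (nat_lit 5) (nat_lit 291) (nat_lit 273) (nat_lit 156)) (XT.nd (nat_lit 78) (nat_lit 0) (nat_lit 0) (XT.lf (nat_lit 0) (nat_lit 11642225600) (nat_lit 380) (nat_lit 16287657871) (nat_lit 76) (nat_lit 6665692631) (nat_lit 49) (nat_lit 5) (nat_lit 54) (nat_lit 5) (nat_lit 50) (nat_lit 5) (nat_lit 292) (nat_lit 273) (nat_lit 155)) (XT.lf (nat_lit 0) (nat_lit 15534123286) (nat_lit 380) (nat_lit 1035918352) (nat_lit 76) (nat_lit 19090906431) (nat_lit 49) (nat_lit 5) (nat_lit 54) (nat_lit 5) (nat_lit 50) (nat_lit 5) (nat_lit 293) (nat_lit 273) (nat_lit 154))))))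 (XT.nd (nat_lit 312) (nat_lit 532) (nat_lit 0) (XT.nd (nat_lit 156) (nat_lit 228) (nat_lit 0) (XT.nd (nat_lit 78) (nat_lit 0) (nat_lit 0) (XT.lf (nat_lit 0) (nat_lit 15469123525) (nat_lit 304) (nat_lit 4389075493) (nat_lit 380) (nat_lit 16909522668) (nat_lit 45) (nat_lit 5) (nat_lit 49) (nat_lit 5) (nat_lit 50) (nat_lit 5) (nat_lit 294) (nat_lit 273) (nat_lit 153)) (XT.lf (nat_lit 0) (nat_lit 24543650777) (nat_lit 380) (nat_lit 5229541023) (nat_lit 76) (nat_lit 8149395196) (nat_lit 45) (nat_lit 5) (nat_lit 50) (nat_lit 5) (nat_lit 46) (nat_lit 5) (nat_lit 295) (nat_lit 273) (nat_lit 152))) (XT.nd (nat_lit 78) (nat_lit 0) (nat_lit 0) (XT.lf (nat_lit 0) (nat_lit 11949163168) (nat_lit 228) (nat_lit 17769084563) (nat_lit 304) (nat_lit 9404215284) (nat_lit 42) (nat_lit 5) (nat_lit 45) (nat_lit 5) (nat_lit 46) (nat_lit 5) (nat_lit 296) (nat_lit 273) (nat_lit 151)) (XT.lf (nat_lit 0) (nat_lit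 30164128217) (nat_lit 228) (nat_lit 5072478978) (nat_lit 304) (nat_lit 5141484552) (nat_lit 42) (nat_lit 5) (nat_lit 45) (nat_lit 5) (nat_lit 46) (nat_lit 5) (nat_lit 297) (nat_lit 273) (nat_lit 150)))) (XT.nd (nat_lit 156) (nat_lit 228) (nat_lit 0) (XT.nd (nat_lit 78) (nat_lit 76) (nat_lit 0) (XT.lf (nat_lit 0) (nat_lit 7706863391) (nat_lit 228) (nat_lit 33569918081) (nat_lit 304) (nat_lit 407435645) (nat_lit 39) (nat_lit 5) (nat_lit 42) (nat_lit 5) (nat_lit 43) (nat_lit 5) (nat_lit 298) (nat_lit 273) (nat_lit 149)) (XT.lf (nat_lit 0) (nat_lit 4672889457) (nat_lit 304) (nat_lit 16330150050) (nat_lit 76) (nat_lit 22036274633) (nat_lit 38) (nat_lit 5) (nat_lit 42) (nat_lit 5) (nat_lit 39) (nat_lit 5) (nat_lit 299) (nat_lit 273) (nat_lit 148))) (XT.nd (nat_lit 78) (nat_lit 0) (nat_lit 0) (XT.lf (nat_lit 0) (nat_lit 2261054425) (nat_lit 228) (nat_lit 7764603212) (nat_lit 304) (nat_lit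 34434577123) (nat_lit 35) (nat_lit 5) (nat_lit 38) (nat_lit 5) (nat_lit 39) (nat_lit 5) (nat_lit 300) (nat_lit 273) (nat_lit 147)) (XT.nd (nat_lit 78) (nat_lit 0) (nat_lit 0) (XT.lf (nat_lit 0) (nat_lit 16019846691) (nat_lit 304) (nat_lit 23694070173) (nat_lit 76) (nat_lit 6219603687) (nat_lit 35) (nat_lit 5) (nat_lit 39) (nat_lit 5) (nat_lit 36) (nat_lit 5) (nat_lit 301) (nat_lit 273) (nat_lit 146)) (XT.lf (nat_lit 0) (nat_lit 22438075094) (nat_lit 304) (nat_lit 4394928019) (nat_lit 76) (nat_lit 20641258891) (nat_lit 35) (nat_lit 5) (nat_lit 39) (nat_lit 5) (nat_lit 36) (nat_lit 5) (nat_lit 302) (nat_lit 273) (nat_lit 145))))))) (XT.nd (nat_lit 702) (nat_lit 532) (nat_lit 0) (XT.nd (nat_lit 312) (nat_lit 456) (nat_lit 0) (XT.nd (nat_lit 156) (nat_lit 152) (nat_lit 0) (XT.nd (nat_lit 78) (nat_lit 0) (nat_lit 0) (XT.lf (nat_lit 0) (nat_lit 16390006235) (nat_lit 228) (nat_lit 13040284823)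 (nat_lit 304) (nat_lit 19649103160) (nat_lit 32) (nat_lit 5) (nat_lit 35) (nat_lit 5) (nat_lit 36) (nat_lit 5) (nat_lit 303) (nat_lit 273) (nat_lit 144)) (XT.lf (nat_lit 0) (nat_lit 36867527022) (nat_lit 304) (nat_lit 12421843809) (nat_lit 76) (nat_lit 1470648890) (nat_lit 32) (nat_lit 5) (nat_lit 36) (nat_lit 5) (nat_lit 33) (nat_lit 5) (nat_lit 304) (nat_lit 273) (nat_lit 143))) (XT.nd (nat_lit 78) (nat_lit 0) (nat_lit 0) (XT.lf (nat_lit 0) (nat_lit 8927400166) (nat_lit 152) (nat_lit 36099756805) (nat_lit 228) (nat_lit 7479999716) (nat_lit 30) (nat_lit 5) (nat_lit 32) (nat_lit 5) (nat_lit 33) (nat_lit 5) (nat_lit 305) (nat_lit 273) (nat_lit 142)) (XT.lf (nat_lit 0) (nat_lit 31771788528) (nat_lit 152) (nat_lit 22030794267) (nat_lit 228) (nat_lit 528683460) (nat_lit 30) (nat_lit 5) (nat_lit 32) (nat_lit 5) (nat_lit 33) (nat_lit 5) (nat_lit 306) (nat_lit 273) (nat_lit 141)))) (XT.nd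 (nat_lit 156) (nat_lit 152) (nat_lit 0) (XT.nd (nat_lit 78) (nat_lit 228) (nat_lit 0) (XT.lf (nat_lit 0) (nat_lit 6551030240) (nat_lit 228) (nat_lit 597380516) (nat_lit 76) (nat_lit 49093015316) (nat_lit 29) (nat_lit 5) (nat_lit 32) (nat_lit 5) (nat_lit 30) (nat_lit 5) (nat_lit 307) (nat_lit 273) (nat_lit 140)) (XT.lf (nat_lit 0) (nat_lit 14465140873) (nat_lit 304) (nat_lit 35173955741) (nat_lit 76) (nat_lit 8582660589) (nat_lit 26) (nat_lit 5) (nat_lit 30) (nat_lit 5) (nat_lit 27) (nat_lit 5) (nat_lit 308) (nat_lit 273) (nat_lit 139))) (XT.nd (nat_lit 78) (nat_lit 152) (nat_lit 0) (XT.lf (nat_lit 0) (nat_lit 22900111379) (nat_lit 304) (nat_lit 12525348568) (nat_lit 76) (nat_lit 24869392552) (nat_lit 26) (nat_lit 5) (nat_lit 30) (nat_lit 5) (nat_lit 27) (nat_lit 5) (nat_lit 309) (nat_lit 273) (nat_lit 138)) (XT.nd (nat_lit 78) (nat_lit 0) (nat_lit 0) (XT.lf (nat_lit 0) (nat_lit 11624528515)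 (nat_lit 152) (nat_lit 20311588125) (nat_lit 228) (nat_lit 30526526679) (nat_lit 24) (nat_lit 5) (nat_lit 26) (nat_lit 5) (nat_lit 27) (nat_lit 5) (nat_lit 310) (nat_lit 273) (nat_lit 137)) (XT.lf (nat_lit 0) (nat_lit 37413585217) (nat_lit 152) (nat_lit 4220310130) (nat_lit 228) (nat_lit 23094434506) (nat_lit 24) (nat_lit 5) (nat_lit 26) (nat_lit 5) (nat_lit 27) (nat_lit 5) (nat_lit 311) (nat_lit 273) (nat_lit 136)))))) (XT.nd (nat_lit 312) (nat_lit 152) (nat_lit 0) (XT.nd (nat_lit 156) (nat_lit 228) (nat_lit 0) (XT.nd (nat_lit 78) (nat_lit 152) (nat_lit 0) (XT.lf (nat_lit 0) (nat_lit 52012401158) (nat_lit 228) (nat_lit 2816213678) (nat_lit 76) (nat_lit 12268898571) (nat_lit 24) (nat_lit 5) (nat_lit 27) (nat_lit 5) (nat_lit 25) (nat_lit 5) (nat_lit 312) (nat_lit 273) (nat_lit 135)) (XT.lf (nat_lit 0) (nat_lit 23590130740) (nat_lit 152) (nat_lit 39755230788) (nat_lit 228) (nat_lit 6218022528)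 (nat_lit 22) (nat_lit 5) (nat_lit 24) (nat_lit 5) (nat_lit 25) (nat_lit 5) (nat_lit 313) (nat_lit 273) (nat_lit 134))) (XT.nd (nat_lit 78) (nat_lit 152) (nat_lit 0) (XT.lf (nat_lit 0) (nat_lit 3039969110) (nat_lit 228) (nat_lit 20787641776) (nat_lit 76) (nat_lit 48320201046) (nat_lit 21) (nat_lit 5) (nat_lit 24) (nat_lit 5) (nat_lit 22) (nat_lit 5) (nat_lit 314) (nat_lit 273) (nat_lit 133)) (XT.lf (nat_lit 0) (nat_lit 5736067472) (nat_lit 152) (nat_lit 6903523979) (nat_lit 228) (nat_lit 62212391924) (nat_lit 19) (nat_lit 5) (nat_lit 21) (nat_lit 5) (nat_lit 22) (nat_lit 5) (nat_lit 315) (nat_lit 273) (nat_lit 132)))) (XT.nd (nat_lit 156) (nat_lit 152) (nat_lit 0) (XT.nd (nat_lit 78) (nat_lit 0) (nat_lit 0) (XT.lf (nat_lit 0) (nat_lit 23244846660) (nat_lit 228) (nat_lit 43544402060) (nat_lit 76) (nat_lit 10875835687) (nat_lit 19) (nat_lit 5) (nat_lit 22) (nat_lit 5) (nat_lit 20) (nat_lit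 5) (nat_lit 316) (nat_lit 273) (nat_lit 131)) (XT.lf (nat_lit 0) (nat_lit 34491795244) (nat_lit 228) (nat_lit 16810219613) (nat_lit 76) (nat_lit 29311257536) (nat_lit 19) (nat_lit 5) (nat_lit 22) (nat_lit 5) (nat_lit 20) (nat_lit 5) (nat_lit 317) (nat_lit 273) (nat_lit 130))) (XT.nd (nat_lit 78) (nat_lit 0) (nat_lit 0) (XT.lf (nat_lit 0) (nat_lit 11630310166) (nat_lit 152) (nat_lit 34850703865) (nat_lit 228) (nat_lit 37218862879) (nat_lit 17) (nat_lit 5) (nat_lit 19) (nat_lit 5) (nat_lit 20) (nat_lit 5) (nat_lit 318) (nat_lit 273) (nat_lit 129)) (XT.nd (nat_lit 78) (nat_lit 0) (nat_lit 0) (XT.lf (nat_lit 0) (nat_lit 42073916960) (nat_lit 152) (nat_lit 17278846033) (nat_lit 228) (nat_lit 27573898313) (nat_lit 17) (nat_lit 5) (nat_lit 19) (nat_lit 5) (nat_lit 20) (nat_lit 5) (nat_lit 319) (nat_lit 273) (nat_lit 128)) (XT.lf (nat_lit 0) (nat_lit 72884834596) (nat_lit 228) (nat_lit 16295879280)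 (nat_lit 76) (nat_lit 1133237250) (nat_lit 17) (nat_lit 5) (nat_lit 20) (nat_lit 5) (nat_lit 18) (nat_lit 4) (nat_lit 320) (nat_lit 273) (nat_lit 127))))))))
noncomputable def xc206 : XT := (XT.nd (nat_lit 1404) (nat_lit 228) (nat_lit 0) (XT.nd (nat_lit 702) (nat_lit 304) (nat_lit 0) (XT.nd (nat_lit 312) (nat_lit 76) (nat_lit 0) (XT.nd (nat_lit 156) (nat_lit 152) (nat_lit 0) (XT.nd (nat_lit 78) (nat_lit 76) (nat_lit 0) (XT.lf (nat_lit 0) (nat_lit 13846351936) (nat_lit 76) (nat_lit 73745115268) (nat_lit 152) (nat_lit 6254243188) (nat_lit 16) (nat_lit 5) (nat_lit 17) (nat_lit 5) (nat_lit 18) (nat_lit 4) (nat_lit 321) (nat_lit 273) (nat_lit 126)) (XT.lf (nat_lit 0) (nat_lit 5583027358) (nat_lit 152) (nat_lit 51571280368) (nat_lit 76) (nat_lit 40381523650) (nat_lit 15) (nat_lit 5) (nat_lit 17) (nat_lit 5) (nat_lit 16) (nat_lit 5) (nat_lit 322) (nat_lit 273) (nat_lit 125))) (XT.nd (nat_lit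 78) (nat_lit 152) (nat_lit 0) (XT.lf (nat_lit 0) (nat_lit 17800572973) (nat_lit 152) (nat_lit 21826612574) (nat_lit 76) (nat_lit 61778219120) (nat_lit 15) (nat_lit 5) (nat_lit 17) (nat_lit 5) (nat_lit 16) (nat_lit 5) (nat_lit 323) (nat_lit 273) (nat_lit 124)) (XT.lf (nat_lit 0) (nat_lit 9714021171) (nat_lit 152) (nat_lit 21065299813) (nat_lit 228) (nat_lit 74681621705) (nat_lit 13) (nat_lit 5) (nat_lit 15) (nat_lit 5) (nat_lit 16) (nat_lit 5) (nat_lit 324) (nat_lit 273) (nat_lit 123)))) (XT.nd (nat_lit 156) (nat_lit 76) (nat_lit 0) (XT.nd (nat_lit 78) (nat_lit 0) (nat_lit 0) (XT.lf (nat_lit 0) (nat_lit 43587315635) (nat_lit 152) (nat_lit 1188027303) (nat_lit 228) (nat_lit 64925500061) (nat_lit 13) (nat_lit 5) (nat_lit 15) (nat_lit 5) (nat_lit 16) (nat_lit 5) (nat_lit 325) (nat_lit 273) (nat_lit 122)) (XT.lf (nat_lit 0) (nat_lit 59777216649) (nat_lit 228) (nat_lit 35307863659) (nat_lit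 76) (nat_lit 19052357589) (nat_lit 13) (nat_lit 5) (nat_lit 16) (nat_lit 5) (nat_lit 14) (nat_lit 4) (nat_lit 326) (nat_lit 273) (nat_lit 121))) (XT.nd (nat_lit 78) (nat_lit 76) (nat_lit 0) (XT.lf (nat_lit 0) (nat_lit 75547461968) (nat_lit 228) (nat_lit 2983384690) (nat_lit 76) (nat_lit 40264103995) (nat_lit 13) (nat_lit 5) (nat_lit 16) (nat_lit 5) (nat_lit 14) (nat_lit 4) (nat_lit 327) (nat_lit 273) (nat_lit 120)) (XT.nd (nat_lit 78) (nat_lit 0) (nat_lit 0) (XT.lf (nat_lit 0) (nat_lit 31978947041) (nat_lit 76) (nat_lit 60625412605) (nat_lit 152) (nat_lit 31056074308) (nat_lit 12) (nat_lit 5) (nat_lit 13) (nat_lit 5) (nat_lit 14) (nat_lit 4) (nat_lit 328) (nat_lit 273) (nat_lit 119)) (XT.lf (nat_lit 0) (nat_lit 68791105137) (nat_lit 76) (nat_lit 41772406430) (nat_lit 152) (nat_lit 18203211206) (nat_lit 12) (nat_lit 5) (nat_lit 13) (nat_lit 5) (nat_lit 14) (nat_lit 4) (nat_lit 329)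 (nat_lit 273) (nat_lit 118)))))) (XT.nd (nat_lit 312) (nat_lit 76) (nat_lit 0) (XT.nd (nat_lit 156) (nat_lit 0) (nat_lit 0) (XT.nd (nat_lit 78) (nat_lit 228) (nat_lit 0) (XT.lf (nat_lit 0) (nat_lit 107442093420) (nat_lit 76) (nat_lit 21977465088) (nat_lit 152) (nat_lit 4708822388) (nat_lit 12) (nat_lit 5) (nat_lit 13) (nat_lit 5) (nat_lit 14) (nat_lit 4) (nat_lit 330) (nat_lit 273) (nat_lit 117)) (XT.lf (nat_lit 0) (nat_lit 8386499269) (nat_lit 152) (nat_lit 900904963) (nat_lit 228) (nat_lit 130456838857) (nat_lit 9) (nat_lit 5) (nat_lit 11) (nat_lit 5) (nat_lit 12) (nat_lit 5) (nat_lit 331) (nat_lit 273) (nat_lit 116))) (XT.nd (nat_lit 78) (nat_lit 0) (nat_lit 0) (XT.lf (nat_lit 0) (nat_lit 24614982245) (nat_lit 228) (nat_lit 99896684488) (nat_lit 76) (nat_lit 21085884098) (nat_lit 9) (nat_lit 5) (nat_lit 12) (nat_lit 5) (nat_lit 10) (nat_lit 4) (nat_lit 332) (nat_lit 273) (nat_lit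 115)) (XT.lf (nat_lit 0) (nat_lit 40722738104) (nat_lit 228) (nat_lit 66879000053) (nat_lit 76) (nat_lit 44141097282) (nat_lit 9) (nat_lit 5) (nat_lit 12) (nat_lit 5) (nat_lit 10) (nat_lit 4) (nat_lit 333) (nat_lit 273) (nat_lit 114)))) (XT.nd (nat_lit 156) (nat_lit 0) (nat_lit 0) (XT.nd (nat_lit 78) (nat_lit 76) (nat_lit 0) (XT.lf (nat_lit 0) (nat_lit 57634957958) (nat_lit 228) (nat_lit 32212011328) (nat_lit 76) (nat_lit 68348462539) (nat_lit 9) (nat_lit 5) (nat_lit 12) (nat_lit 5) (nat_lit 10) (nat_lit 4) (nat_lit 334) (nat_lit 273) (nat_lit 113)) (XT.lf (nat_lit 0) (nat_lit 4325257381) (nat_lit 76) (nat_lit 71134181005) (nat_lit 152) (nat_lit 89507888460) (nat_lit 8) (nat_lit 5) (nat_lit 9) (nat_lit 5) (nat_lit 10) (nat_lit 4) (nat_lit 335) (nat_lit 273) (nat_lit 112))) (XT.nd (nat_lit 78) (nat_lit 0) (nat_lit 0) (XT.lf (nat_lit 0) (nat_lit 43806237396) (nat_lit 76) (nat_lit 50913570414)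 (nat_lit 152) (nat_lit 77330776793) (nat_lit 8) (nat_lit 5) (nat_lit 9) (nat_lit 5) (nat_lit 10) (nat_lit 4) (nat_lit 336) (nat_lit 273) (nat_lit 111)) (XT.nd (nat_lit 78) (nat_lit 0) (nat_lit 0) (XT.lf (nat_lit 0) (nat_lit 85259856480) (nat_lit 76) (nat_lit 29682519201) (nat_lit 152) (nat_lit 64545671741) (nat_lit 8) (nat_lit 5) (nat_lit 9) (nat_lit 5) (nat_lit 10) (nat_lit 4) (nat_lit 337) (nat_lit 273) (nat_lit 110)) (XT.lf (nat_lit 0) (nat_lit 128784813725) (nat_lit 76) (nat_lit 7390477244) (nat_lit 152) (nat_lit 51122132579) (nat_lit 8) (nat_lit 5) (nat_lit 9) (nat_lit 5) (nat_lit 10) (nat_lit 4) (nat_lit 338) (nat_lit 273) (nat_lit 109))))))) (XT.nd (nat_lit 702) (nat_lit 0) (nat_lit 0) (XT.nd (nat_lit 312) (nat_lit 76) (nat_lit 0) (XT.nd (nat_lit 156) (nat_lit 76) (nat_lit 0) (XT.nd (nat_lit 78) (nat_lit 76) (nat_lit 0) (XT.lf (nat_lit 0) (nat_lit 158719157132) (nat_lit 152)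 (nat_lit 21262615647) (nat_lit 0) (nat_lit 15503031511) (nat_lit 8) (nat_lit 5) (nat_lit 10) (nat_lit 4) (nat_lit 8) (nat_lit 4) (nat_lit 339) (nat_lit 273) (nat_lit 108)) (XT.lf (nat_lit 0) (nat_lit 18313626875) (nat_lit 76) (nat_lit 164482955807) (nat_lit 76) (nat_lit 21264654096) (nat_lit 7) (nat_lit 4) (nat_lit 8) (nat_lit 5) (nat_lit 8) (nat_lit 4) (nat_lit 340) (nat_lit 273) (nat_lit 107))) (XT.nd (nat_lit 78) (nat_lit 76) (nat_lit 0) (XT.lf (nat_lit 0) (nat_lit 60605645203) (nat_lit 76) (nat_lit 147831625632) (nat_lit 76) (nat_lit 4611251455) (nat_lit 7) (nat_lit 4) (nat_lit 8) (nat_lit 5) (nat_lit 8) (nat_lit 4) (nat_lit 341) (nat_lit 273) (nat_lit 106)) (XT.lf (nat_lit 0) (nat_lit 12462066828) (nat_lit 152) (nat_lit 117675110955) (nat_lit 76) (nat_lit 92337978558) (nat_lit 6) (nat_lit 5) (nat_lit 8) (nat_lit 5) (nat_lit 7) (nat_lit 4) (nat_lit 342) (nat_lit 273) (nat_lit 105))))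 (XT.nd (nat_lit 156) (nat_lit 76) (nat_lit 0) (XT.nd (nat_lit 78) (nat_lit 0) (nat_lit 0) (XT.lf (nat_lit 0) (nat_lit 30233435310) (nat_lit 152) (nat_lit 81245685356) (nat_lit 76) (nat_lit 120890254921) (nat_lit 6) (nat_lit 5) (nat_lit 8) (nat_lit 5) (nat_lit 7) (nat_lit 4) (nat_lit 343) (nat_lit 273) (nat_lit 104)) (XT.lf (nat_lit 0) (nat_lit 48892755616) (nat_lit 152) (nat_lit 42995869005) (nat_lit 76) (nat_lit 150869712799) (nat_lit 6) (nat_lit 5) (nat_lit 8) (nat_lit 5) (nat_lit 7) (nat_lit 4) (nat_lit 344) (nat_lit 273) (nat_lit 103))) (XT.nd (nat_lit 78) (nat_lit 76) (nat_lit 0) (XT.lf (nat_lit 0) (nat_lit 68484454698) (nat_lit 152) (nat_lit 2834590909) (nat_lit 76) (nat_lit 182347731855) (nat_lit 6) (nat_lit 5) (nat_lit 8) (nat_lit 5) (nat_lit 7) (nat_lit 4) (nat_lit 345) (nat_lit 273) (nat_lit 102)) (XT.nd (nat_lit 78) (nat_lit 0) (nat_lit 0) (XT.lf (nat_lit 0) (nat_lit 40634323127)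 (nat_lit 76) (nat_lit 49055271995) (nat_lit 152) (nat_lit 175399352286) (nat_lit 5) (nat_lit 5) (nat_lit 6) (nat_lit 5) (nat_lit 7) (nat_lit 4) (nat_lit 346) (nat_lit 273) (nat_lit 101)) (XT.lf (nat_lit 0) (nat_lit 86374129198) (nat_lit 76) (nat_lit 25628320839) (nat_lit 152) (nat_lit 165077403626) (nat_lit 5) (nat_lit 5) (nat_lit 6) (nat_lit 5) (nat_lit 7) (nat_lit 4) (nat_lit 347) (nat_lit 273) (nat_lit 100)))))) (XT.nd (nat_lit 31746) (nat_lit 0) (nat_lit 4788) (XT.nd (nat_lit 156) (nat_lit 0) (nat_lit 0) (XT.nd (nat_lit 78) (nat_lit 0) (nat_lit 0) (XT.lf (nat_lit 0) (nat_lit 134400007228) (nat_lit 76) (nat_lit 1030418855) (nat_lit 152) (nat_lit 154239905883) (nat_lit 5) (nat_lit 5) (nat_lit 6) (nat_lit 5) (nat_lit 7) (nat_lit 4) (nat_lit 348) (nat_lit 273) (nat_lit 99)) (XT.lf (nat_lit 0) (nat_lit 160416454823) (nat_lit 152) (nat_lit 118451205770) (nat_lit 0) (nat_lit 24003341518)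 (nat_lit 5) (nat_lit 5) (nat_lit 7) (nat_lit 4) (nat_lit 5) (nat_lit 4) (nat_lit 349) (nat_lit 273) (nat_lit 98))) (XT.nd (nat_lit 78) (nat_lit 0) (nat_lit 0) (XT.lf (nat_lit 0) (nat_lit 186668198373) (nat_lit 152) (nat_lit 79808874562) (nat_lit 0) (nat_lit 50253812753) (nat_lit 5) (nat_lit 5) (nat_lit 7) (nat_lit 4) (nat_lit 5) (nat_lit 4) (nat_lit 350) (nat_lit 273) (nat_lit 97)) (XT.lf (nat_lit 0) (nat_lit 214232073157) (nat_lit 152) (nat_lit 39235237840) (nat_lit 0) (nat_lit 77816475809) (nat_lit 5) (nat_lit 5) (nat_lit 7) (nat_lit 4) (nat_lit 5) (nat_lit 4) (nat_lit 351) (nat_lit 273) (nat_lit 96)))) (XT.nd (nat_lit 156) (nat_lit 0) (nat_lit 0) (XT.nd (nat_lit 78) (nat_lit 0) (nat_lit 0) (XT.lf (nat_lit 0) (nat_lit 1589403565) (nat_lit 0) (nat_lit 1589403565) (nat_lit 684) (nat_lit 7660891060) (nat_lit 68) (nat_lit 5) (nat_lit 68) (nat_lit 3) (nat_lit 77) (nat_lit 3) (nat_lit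 274) (nat_lit 274) (nat_lit 172)) (XT.lf (nat_lit 0) (nat_lit 6740838333) (nat_lit 684) (nat_lit 9485955158) (nat_lit 760) (nat_lit 5982914655) (nat_lit 68) (nat_lit 5) (nat_lit 77) (nat_lit 3) (nat_lit 78) (nat_lit 5) (nat_lit 275) (nat_lit 274) (nat_lit 171))) (XT.nd (nat_lit 78) (nat_lit 0) (nat_lit 76) (XT.lf (nat_lit 0) (nat_lit 7187219212) (nat_lit 684) (nat_lit 77293099) (nat_lit 760) (nat_lit 15499852785) (nat_lit 68) (nat_lit 5) (nat_lit 77) (nat_lit 3) (nat_lit 78) (nat_lit 5) (nat_lit 276) (nat_lit 274) (nat_lit 170)) (XT.nd (nat_lit 78) (nat_lit 0) (nat_lit 0) (XT.lf (nat_lit 0) (nat_lit 7842358852) (nat_lit 684) (nat_lit 13254038560) (nat_lit 760) (nat_lit 2241063477) (nat_lit 69) (nat_lit 5) (nat_lit 78) (nat_lit 5) (nat_lit 79) (nat_lit 5) (nat_lit 277) (nat_lit 274) (nat_lit 169)) (XT.lf (nat_lit 0) (nat_lit 8643296475) (nat_lit 684) (nat_lit 3308150688) (nat_lit 760)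 (nat_lit 11982138907) (nat_lit 69) (nat_lit 5) (nat_lit 78) (nat_lit 5) (nat_lit 79) (nat_lit 5) (nat_lit 278) (nat_lit 274) (nat_lit 168))))))))
noncomputable def xc207 : XT := (XT.nd (nat_lit 1404) (nat_lit 1824) (nat_lit 0) (XT.nd (nat_lit 702) (nat_lit 1368) (nat_lit 0) (XT.nd (nat_lit 312) (nat_lit 456) (nat_lit 0) (XT.nd (nat_lit 156) (nat_lit 0) (nat_lit 76) (XT.nd (nat_lit 78) (nat_lit 0) (nat_lit 76) (XT.lf (nat_lit 76) (nat_lit 7366274740) (nat_lit 0) (nat_lit 2225986031) (nat_lit 760) (nat_lit 14961883126) (nat_lit 70) (nat_lit 5) (nat_lit 69) (nat_lit 5) (nat_lit 79) (nat_lit 5) (nat_lit 279) (nat_lit 274) (nat_lit 167)) (XT.lf (nat_lit 0) (nat_lit 10763569674) (nat_lit 684) (nat_lit 6644102858) (nat_lit 760) (nat_lit 7789336437) (nat_lit 70) (nat_lit 5) (nat_lit 79) (nat_lit 5) (nat_lit 80) (nat_lit 5) (nat_lit 280) (nat_lit 274) (nat_lit 166))) (XT.nd (nat_lit 78) (nat_lit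 0) (nat_lit 76) (XT.lf (nat_lit 76) (nat_lit 4530754424) (nat_lit 0) (nat_lit 7563512187) (nat_lit 760) (nat_lit 13772732571) (nat_lit 71) (nat_lit 5) (nat_lit 70) (nat_lit 5) (nat_lit 80) (nat_lit 5) (nat_lit 281) (nat_lit 274) (nat_lit 165)) (XT.lf (nat_lit 0) (nat_lit 13643008974) (nat_lit 684) (nat_lit 10119876392) (nat_lit 760) (nat_lit 2800049935) (nat_lit 71) (nat_lit 5) (nat_lit 80) (nat_lit 5) (nat_lit 81) (nat_lit 5) (nat_lit 282) (nat_lit 274) (nat_lit 164)))) (XT.nd (nat_lit 156) (nat_lit 608) (nat_lit 0) (XT.nd (nat_lit 78) (nat_lit 0) (nat_lit 0) (XT.lf (nat_lit 76) (nat_lit 1579196152) (nat_lit 0) (nat_lit 13832785523) (nat_lit 760) (nat_lit 11874567769) (nat_lit 72) (nat_lit 5) (nat_lit 71) (nat_lit 5) (nat_lit 81) (nat_lit 5) (nat_lit 283) (nat_lit 274) (nat_lit 163)) (XT.lf (nat_lit 76) (nat_lit 14209970471) (nat_lit 0) (nat_lit 3225170188) (nat_lit 760) (nat_lit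 10602936638) (nat_lit 72) (nat_lit 5) (nat_lit 71) (nat_lit 5) (nat_lit 81) (nat_lit 5) (nat_lit 284) (nat_lit 274) (nat_lit 162))) (XT.nd (nat_lit 78) (nat_lit 684) (nat_lit 0) (XT.lf (nat_lit 0) (nat_lit 19677636253) (nat_lit 684) (nat_lit 1483115478) (nat_lit 76) (nat_lit 7660539817) (nat_lit 72) (nat_lit 5) (nat_lit 81) (nat_lit 5) (nat_lit 73) (nat_lit 5) (nat_lit 285) (nat_lit 274) (nat_lit 161)) (XT.nd (nat_lit 78) (nat_lit 0) (nat_lit 0) (XT.lf (nat_lit 0) (nat_lit 11799456715) (nat_lit 684) (nat_lit 10464786779) (nat_lit 760) (nat_lit 7367841709) (nat_lit 63) (nat_lit 5) (nat_lit 72) (nat_lit 5) (nat_lit 73) (nat_lit 5) (nat_lit 286) (nat_lit 274) (nat_lit 160)) (XT.lf (nat_lit 0) (nat_lit 25012745215) (nat_lit 760) (nat_lit 4701539499) (nat_lit 76) (nat_lit 767522799) (nat_lit 63) (nat_lit 5) (nat_lit 73) (nat_lit 5) (nat_lit 64) (nat_lit 5) (nat_lit 287) (nat_lit 274) (nat_lit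 159)))))) (XT.nd (nat_lit 312) (nat_lit 608) (nat_lit 0) (XT.nd (nat_lit 156) (nat_lit 456) (nat_lit 0) (XT.nd (nat_lit 78) (nat_lit 0) (nat_lit 0) (XT.lf (nat_lit 0) (nat_lit 9204726443) (nat_lit 304) (nat_lit 19004521553) (nat_lit 380) (nat_lit 3149255505) (nat_lit 59) (nat_lit 5) (nat_lit 63) (nat_lit 5) (nat_lit 64) (nat_lit 5) (nat_lit 288) (nat_lit 274) (nat_lit 158)) (XT.lf (nat_lit 0) (nat_lit 23965171662) (nat_lit 304) (nat_lit 7675492839) (nat_lit 380) (nat_lit 634630937) (nat_lit 59) (nat_lit 5) (nat_lit 63) (nat_lit 5) (nat_lit 64) (nat_lit 5) (nat_lit 289) (nat_lit 274) (nat_lit 157))) (XT.nd (nat_lit 78) (nat_lit 0) (nat_lit 0) (XT.lf (nat_lit 0) (nat_lit 2105003031) (nat_lit 456) (nat_lit 26904884455) (nat_lit 76) (nat_lit 4218314173) (nat_lit 53) (nat_lit 5) (nat_lit 59) (nat_lit 5) (nat_lit 54) (nat_lit 5) (nat_lit 290) (nat_lit 274) (nat_lit 156)) (XT.lf (nat_lit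 0) (nat_lit 5224902004) (nat_lit 456) (nat_lit 12387786198) (nat_lit 76) (nat_lit 16602327706) (nat_lit 53) (nat_lit 5) (nat_lit 59) (nat_lit 5) (nat_lit 54) (nat_lit 5) (nat_lit 291) (nat_lit 274) (nat_lit 155)))) (XT.nd (nat_lit 156) (nat_lit 304) (nat_lit 0) (XT.nd (nat_lit 78) (nat_lit 0) (nat_lit 0) (XT.lf (nat_lit 0) (nat_lit 2945173697) (nat_lit 304) (nat_lit 5597547692) (nat_lit 380) (nat_lit 26706366026) (nat_lit 49) (nat_lit 5) (nat_lit 53) (nat_lit 5) (nat_lit 54) (nat_lit 5) (nat_lit 292) (nat_lit 274) (nat_lit 154)) (XT.lf (nat_lit 0) (nat_lit 12345307030) (nat_lit 380) (nat_lit 16966923805) (nat_lit 76) (nat_lit 7006700104) (nat_lit 49) (nat_lit 5) (nat_lit 54) (nat_lit 5) (nat_lit 50) (nat_lit 5) (nat_lit 293) (nat_lit 274) (nat_lit 153))) (XT.nd (nat_lit 78) (nat_lit 304) (nat_lit 0) (XT.lf (nat_lit 0) (nat_lit 16426039118) (nat_lit 380) (nat_lit 959031451) (nat_lit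 76) (nat_lit 20052806841) (nat_lit 49) (nat_lit 5) (nat_lit 54) (nat_lit 5) (nat_lit 50) (nat_lit 5) (nat_lit 294) (nat_lit 274) (nat_lit 152)) (XT.nd (nat_lit 78) (nat_lit 0) (nat_lit 0) (XT.lf (nat_lit 0) (nat_lit 16369186991) (nat_lit 304) (nat_lit 4593622165) (nat_lit 380) (nat_lit 17637373051) (nat_lit 45) (nat_lit 5) (nat_lit 49) (nat_lit 5) (nat_lit 50) (nat_lit 5) (nat_lit 295) (nat_lit 274) (nat_lit 151)) (XT.lf (nat_lit 0) (nat_lit 25877436105) (nat_lit 380) (nat_lit 5365017970) (nat_lit 76) (nat_lit 8570607796) (nat_lit 45) (nat_lit 5) (nat_lit 50) (nat_lit 5) (nat_lit 46) (nat_lit 5) (nat_lit 296) (nat_lit 274) (nat_lit 150))))))) (XT.nd (nat_lit 702) (nat_lit 836) (nat_lit 0) (XT.nd (nat_lit 312) (nat_lit 456) (nat_lit 0) (XT.nd (nat_lit 156) (nat_lit 304) (nat_lit 0) (XT.nd (nat_lit 78) (nat_lit 0) (nat_lit 0) (XT.lf (nat_lit 0) (nat_lit 12670589172) (nat_lit 228) (nat_lit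 18637032897) (nat_lit 304) (nat_lit 9765482107) (nat_lit 42) (nat_lit 5) (nat_lit 45) (nat_lit 5) (nat_lit 46) (nat_lit 5) (nat_lit 297) (nat_lit 274) (nat_lit 149)) (XT.lf (nat_lit 0) (nat_lit 31790399243) (nat_lit 228) (nat_lit 5306573504) (nat_lit 304) (nat_lit 5294802646) (nat_lit 42) (nat_lit 5) (nat_lit 45) (nat_lit 5) (nat_lit 46) (nat_lit 5) (nat_lit 298) (nat_lit 274) (nat_lit 148))) (XT.nd (nat_lit 78) (nat_lit 76) (nat_lit 0) (XT.lf (nat_lit 0) (nat_lit 8213203649) (nat_lit 228) (nat_lit 35223439429) (nat_lit 304) (nat_lit 326703594) (nat_lit 39) (nat_lit 5) (nat_lit 42) (nat_lit 5) (nat_lit 43) (nat_lit 5) (nat_lit 299) (nat_lit 274) (nat_lit 147)) (XT.lf (nat_lit 0) (nat_lit 4999741434) (nat_lit 304) (nat_lit 17028086243) (nat_lit 76) (nat_lit 23158537669) (nat_lit 38) (nat_lit 5) (nat_lit 42) (nat_lit 5) (nat_lit 39) (nat_lit 5) (nat_lit 300) (nat_lit 274) (nat_lit 146))))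 (XT.nd (nat_lit 156) (nat_lit 228) (nat_lit 0) (XT.nd (nat_lit 78) (nat_lit 0) (nat_lit 0) (XT.lf (nat_lit 0) (nat_lit 2490766015) (nat_lit 228) (nat_lit 8126764927) (nat_lit 304) (nat_lit 36060944009) (nat_lit 35) (nat_lit 5) (nat_lit 38) (nat_lit 5) (nat_lit 39) (nat_lit 5) (nat_lit 301) (nat_lit 274) (nat_lit 145)) (XT.lf (nat_lit 0) (nat_lit 16907503239) (nat_lit 304) (nat_lit 24763513287) (nat_lit 76) (nat_lit 6554616340) (nat_lit 35) (nat_lit 5) (nat_lit 39) (nat_lit 5) (nat_lit 36) (nat_lit 5) (nat_lit 302) (nat_lit 274) (nat_lit 144))) (XT.nd (nat_lit 78) (nat_lit 228) (nat_lit 0) (XT.lf (nat_lit 0) (nat_lit 23642516196) (nat_lit 304) (nat_lit 4504902617) (nat_lit 76) (nat_lit 21696209901) (nat_lit 35) (nat_lit 5) (nat_lit 39) (nat_lit 5) (nat_lit 36) (nat_lit 5) (nat_lit 303) (nat_lit 274) (nat_lit 143)) (XT.nd (nat_lit 78) (nat_lit 0) (nat_lit 0) (XT.lf (nat_lit 0) (nat_lit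 17317507838) (nat_lit 228) (nat_lit 13664590973) (nat_lit 304) (nat_lit 20547041388) (nat_lit 32) (nat_lit 5) (nat_lit 35) (nat_lit 5) (nat_lit 36) (nat_lit 5) (nat_lit 304) (nat_lit 274) (nat_lit 142)) (XT.lf (nat_lit 0) (nat_lit 38787785088) (nat_lit 304) (nat_lit 12936467028) (nat_lit 76) (nat_lit 1569725391) (nat_lit 32) (nat_lit 5) (nat_lit 36) (nat_lit 5) (nat_lit 33) (nat_lit 5) (nat_lit 305) (nat_lit 274) (nat_lit 141)))))) (XT.nd (nat_lit 390) (nat_lit 380) (nat_lit 0) (XT.nd (nat_lit 156) (nat_lit 304) (nat_lit 0) (XT.nd (nat_lit 78) (nat_lit 0) (nat_lit 0) (XT.lf (nat_lit 0) (nat_lit 9478521904) (nat_lit 152) (nat_lit 37874849064) (nat_lit 228) (nat_lit 7775211113) (nat_lit 30) (nat_lit 5) (nat_lit 32) (nat_lit 5) (nat_lit 33) (nat_lit 5) (nat_lit 306) (nat_lit 274) (nat_lit 140)) (XT.lf (nat_lit 0) (nat_lit 33460141507) (nat_lit 152) (nat_lit 23103861999) (nat_lit 228)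 (nat_lit 480080881) (nat_lit 30) (nat_lit 5) (nat_lit 32) (nat_lit 5) (nat_lit 33) (nat_lit 5) (nat_lit 307) (nat_lit 274) (nat_lit 139))) (XT.nd (nat_lit 78) (nat_lit 228) (nat_lit 0) (XT.lf (nat_lit 0) (nat_lit 6947758045) (nat_lit 228) (nat_lit 529785543) (nat_lit 76) (nat_lit 51572331163) (nat_lit 29) (nat_lit 5) (nat_lit 32) (nat_lit 5) (nat_lit 30) (nat_lit 5) (nat_lit 308) (nat_lit 274) (nat_lit 138)) (XT.nd (nat_lit 78) (nat_lit 0) (nat_lit 0) (XT.lf (nat_lit 0) (nat_lit 15256222405) (nat_lit 304) (nat_lit 36833681713) (nat_lit 76) (nat_lit 9039393709) (nat_lit 26) (nat_lit 5) (nat_lit 30) (nat_lit 5) (nat_lit 27) (nat_lit 5) (nat_lit 309) (nat_lit 274) (nat_lit 137)) (XT.lf (nat_lit 0) (nat_lit 24109711699) (nat_lit 304) (nat_lit 13057357125) (nat_lit 76) (nat_lit 26139147979) (nat_lit 26) (nat_lit 5) (nat_lit 30) (nat_lit 5) (nat_lit 27) (nat_lit 5) (nat_lit 310) (nat_lit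 274) (nat_lit 136))))) (XT.nd (nat_lit 156) (nat_lit 228) (nat_lit 0) (XT.nd (nat_lit 78) (nat_lit 0) (nat_lit 0) (XT.lf (nat_lit 0) (nat_lit 12298493507) (nat_lit 152) (nat_lit 21297395685) (nat_lit 228) (nat_lit 31986596450) (nat_lit 24) (nat_lit 5) (nat_lit 26) (nat_lit 5) (nat_lit 27) (nat_lit 5) (nat_lit 311) (nat_lit 274) (nat_lit 135)) (XT.lf (nat_lit 0) (nat_lit 39372586922) (nat_lit 152) (nat_lit 4402971497) (nat_lit 228) (nat_lit 24186054743) (nat_lit 24) (nat_lit 5) (nat_lit 26) (nat_lit 5) (nat_lit 27) (nat_lit 5) (nat_lit 312) (nat_lit 274) (nat_lit 134))) (XT.nd (nat_lit 78) (nat_lit 228) (nat_lit 0) (XT.lf (nat_lit 0) (nat_lit 54670555495) (nat_lit 228) (nat_lit 2870345371) (nat_lit 76) (nat_lit 12908483147) (nat_lit 24) (nat_lit 5) (nat_lit 27) (nat_lit 5) (nat_lit 25) (nat_lit 5) (nat_lit 313) (nat_lit 274) (nat_lit 133)) (XT.nd (nat_lit 78) (nat_lit 76) (nat_lit 0)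 (XT.lf (nat_lit 0) (nat_lit 24854918220) (nat_lit 152) (nat_lit 41713837410) (nat_lit 228) (nat_lit 6469869089) (nat_lit 22) (nat_lit 5) (nat_lit 24) (nat_lit 5) (nat_lit 25) (nat_lit 5) (nat_lit 314) (nat_lit 274) (nat_lit 132)) (XT.lf (nat_lit 0) (nat_lit 3246409900) (nat_lit 228) (nat_lit 21743892936) (nat_lit 76) (nat_lit 50762066703) (nat_lit 21) (nat_lit 5) (nat_lit 24) (nat_lit 5) (nat_lit 22) (nat_lit 5) (nat_lit 315) (nat_lit 274) (nat_lit 131))))))))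
noncomputable def xc208 : XT := (XT.nd (nat_lit 1404) (nat_lit 304) (nat_lit 0) (XT.nd (nat_lit 702) (nat_lit 456) (nat_lit 0) (XT.nd (nat_lit 312) (nat_lit 152) (nat_lit 0) (XT.nd (nat_lit 156) (nat_lit 152) (nat_lit 0) (XT.nd (nat_lit 78) (nat_lit 0) (nat_lit 0) (XT.lf (nat_lit 0) (nat_lit 6104660954) (nat_lit 152) (nat_lit 7220036885) (nat_lit 228) (nat_lit 65267122770) (nat_lit 19) (nat_lit 5) (nat_lit 21) (nat_lit 5) (nat_lit 22) (nat_lit 5) (nat_lit 316) (nat_lit 274) (nat_lit 130)) (XT.lf (nat_lit 0) (nat_lit 24458112163) (nat_lit 228) (nat_lit 45641522612) (nat_lit 76) (nat_lit 11446052128) (nat_lit 19) (nat_lit 5) (nat_lit 22) (nat_lit 5) (nat_lit 20) (nat_lit 5) (nat_lit 317) (nat_lit 274) (nat_lit 129))) (XT.nd (nat_lit 78) (nat_lit 152) (nat_lit 0) (XT.lf (nat_lit 0) (nat_lit 36264978502) (nat_lit 228) (nat_lit 17574445307) (nat_lit 76) (nat_lit 30801986752) (nat_lit 19)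 (nat_lit 5) (nat_lit 22) (nat_lit 5) (nat_lit 20) (nat_lit 5) (nat_lit 318) (nat_lit 274) (nat_lit 128)) (XT.lf (nat_lit 0) (nat_lit 12286880553) (nat_lit 152) (nat_lit 36565635516) (nat_lit 228) (nat_lit 39029890903) (nat_lit 17) (nat_lit 5) (nat_lit 19) (nat_lit 5) (nat_lit 20) (nat_lit 5) (nat_lit 319) (nat_lit 274) (nat_lit 127)))) (XT.nd (nat_lit 156) (nat_lit 152) (nat_lit 0) (XT.nd (nat_lit 78) (nat_lit 0) (nat_lit 0) (XT.lf (nat_lit 0) (nat_lit 44249093645) (nat_lit 152) (nat_lit 18116499247) (nat_lit 228) (nat_lit 28905055019) (nat_lit 17) (nat_lit 5) (nat_lit 19) (nat_lit 5) (nat_lit 20) (nat_lit 5) (nat_lit 320) (nat_lit 274) (nat_lit 126)) (XT.lf (nat_lit 0) (nat_lit 76572506988) (nat_lit 228) (nat_lit 17040752433) (nat_lit 76) (nat_lit 1214134992) (nat_lit 17) (nat_lit 5) (nat_lit 20) (nat_lit 5) (nat_lit 18) (nat_lit 4) (nat_lit 321) (nat_lit 274) (nat_lit 125))) (XT.nd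 (nat_lit 78) (nat_lit 76) (nat_lit 0) (XT.lf (nat_lit 0) (nat_lit 14607462588) (nat_lit 76) (nat_lit 77406014564) (nat_lit 152) (nat_lit 6522318133) (nat_lit 16) (nat_lit 5) (nat_lit 17) (nat_lit 5) (nat_lit 18) (nat_lit 4) (nat_lit 322) (nat_lit 274) (nat_lit 124)) (XT.nd (nat_lit 78) (nat_lit 0) (nat_lit 0) (XT.lf (nat_lit 0) (nat_lit 5903329721) (nat_lit 152) (nat_lit 54082895083) (nat_lit 76) (nat_lit 42424269122) (nat_lit 15) (nat_lit 5) (nat_lit 17) (nat_lit 5) (nat_lit 16) (nat_lit 5) (nat_lit 323) (nat_lit 274) (nat_lit 123)) (XT.lf (nat_lit 0) (nat_lit 18729793045) (nat_lit 152) (nat_lit 22854181960) (nat_lit 76) (nat_lit 64889672256) (nat_lit 15) (nat_lit 5) (nat_lit 17) (nat_lit 5) (nat_lit 16) (nat_lit 5) (nat_lit 324) (nat_lit 274) (nat_lit 122)))))) (XT.nd (nat_lit 312) (nat_lit 304) (nat_lit 0) (XT.nd (nat_lit 156) (nat_lit 0) (nat_lit 0) (XT.nd (nat_lit 78) (nat_lit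 0) (nat_lit 0) (XT.lf (nat_lit 0) (nat_lit 10262455065) (nat_lit 152) (nat_lit 22094136569) (nat_lit 228) (nat_lit 78375418134) (nat_lit 13) (nat_lit 5) (nat_lit 15) (nat_lit 5) (nat_lit 16) (nat_lit 5) (nat_lit 325) (nat_lit 274) (nat_lit 121)) (XT.lf (nat_lit 0) (nat_lit 45826426973) (nat_lit 152) (nat_lit 1224163683) (nat_lit 228) (nat_lit 68133408724) (nat_lit 13) (nat_lit 5) (nat_lit 15) (nat_lit 5) (nat_lit 16) (nat_lit 5) (nat_lit 326) (nat_lit 274) (nat_lit 120))) (XT.nd (nat_lit 78) (nat_lit 0) (nat_lit 0) (XT.lf (nat_lit 0) (nat_lit 62801166818) (nat_lit 228) (nat_lit 37014906278) (nat_lit 76) (nat_lit 20026423431) (nat_lit 13) (nat_lit 5) (nat_lit 16) (nat_lit 5) (nat_lit 14) (nat_lit 4) (nat_lit 327) (nat_lit 274) (nat_lit 119)) (XT.lf (nat_lit 0) (nat_lit 79358253482) (nat_lit 228) (nat_lit 3076981958) (nat_lit 76) (nat_lit 42297735826) (nat_lit 13) (nat_lit 5) (nat_lit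 16) (nat_lit 5) (nat_lit 14) (nat_lit 4) (nat_lit 328) (nat_lit 274) (nat_lit 118)))) (XT.nd (nat_lit 156) (nat_lit 228) (nat_lit 0) (XT.nd (nat_lit 78) (nat_lit 0) (nat_lit 0) (XT.lf (nat_lit 0) (nat_lit 33632570038) (nat_lit 76) (nat_lit 63634688294) (nat_lit 152) (nat_lit 32574509953) (nat_lit 12) (nat_lit 5) (nat_lit 13) (nat_lit 5) (nat_lit 14) (nat_lit 4) (nat_lit 329) (nat_lit 274) (nat_lit 117)) (XT.lf (nat_lit 0) (nat_lit 72282732436) (nat_lit 76) (nat_lit 43840079188) (nat_lit 152) (nat_lit 19080640271) (nat_lit 12) (nat_lit 5) (nat_lit 13) (nat_lit 5) (nat_lit 14) (nat_lit 4) (nat_lit 330) (nat_lit 274) (nat_lit 116))) (XT.nd (nat_lit 78) (nat_lit 228) (nat_lit 0) (XT.lf (nat_lit 0) (nat_lit 112863790512) (nat_lit 76) (nat_lit 23056388282) (nat_lit 152) (nat_lit 4913090654) (nat_lit 12) (nat_lit 5) (nat_lit 13) (nat_lit 5) (nat_lit 14) (nat_lit 4) (nat_lit 331) (nat_lit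 274) (nat_lit 115)) (XT.nd (nat_lit 78) (nat_lit 0) (nat_lit 0) (XT.lf (nat_lit 0) (nat_lit 8855643737) (nat_lit 152) (nat_lit 925646744) (nat_lit 228) (nat_lit 136948645083) (nat_lit 9) (nat_lit 5) (nat_lit 11) (nat_lit 5) (nat_lit 12) (nat_lit 5) (nat_lit 332) (nat_lit 274) (nat_lit 114)) (XT.lf (nat_lit 0) (nat_lit 25874143768) (nat_lit 228) (nat_lit 104842926151) (nat_lit 76) (nat_lit 22158896044) (nat_lit 9) (nat_lit 5) (nat_lit 12) (nat_lit 5) (nat_lit 10) (nat_lit 4) (nat_lit 333) (nat_lit 274) (nat_lit 113))))))) (XT.nd (nat_lit 702) (nat_lit 152) (nat_lit 0) (XT.nd (nat_lit 312) (nat_lit 76) (nat_lit 0) (XT.nd (nat_lit 156) (nat_lit 76) (nat_lit 0) (XT.nd (nat_lit 78) (nat_lit 0) (nat_lit 0) (XT.lf (nat_lit 0) (nat_lit 42785934449) (nat_lit 228) (nat_lit 70176671426) (nat_lit 76) (nat_lit 46365978567) (nat_lit 9) (nat_lit 5) (nat_lit 12) (nat_lit 5) (nat_lit 10) (nat_lit 4)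 (nat_lit 334) (nat_lit 274) (nat_lit 112)) (XT.lf (nat_lit 0) (nat_lit 60542476751) (nat_lit 228) (nat_lit 33778537009) (nat_lit 76) (nat_lit 71782863209) (nat_lit 9) (nat_lit 5) (nat_lit 12) (nat_lit 5) (nat_lit 10) (nat_lit 4) (nat_lit 335) (nat_lit 274) (nat_lit 111))) (XT.nd (nat_lit 78) (nat_lit 0) (nat_lit 0) (XT.lf (nat_lit 0) (nat_lit 4584884251) (nat_lit 76) (nat_lit 74672746798) (nat_lit 152) (nat_lit 93956765005) (nat_lit 8) (nat_lit 5) (nat_lit 9) (nat_lit 5) (nat_lit 10) (nat_lit 4) (nat_lit 336) (nat_lit 274) (nat_lit 110)) (XT.lf (nat_lit 0) (nat_lit 46037848314) (nat_lit 76) (nat_lit 53441969642) (nat_lit 152) (nat_lit 81172060511) (nat_lit 8) (nat_lit 5) (nat_lit 9) (nat_lit 5) (nat_lit 10) (nat_lit 4) (nat_lit 337) (nat_lit 274) (nat_lit 109)))) (XT.nd (nat_lit 156) (nat_lit 76) (nat_lit 0) (XT.nd (nat_lit 78) (nat_lit 0) (nat_lit 0) (XT.lf (nat_lit 0) (nat_lit 89562181730)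 (nat_lit 76) (nat_lit 31150188692) (nat_lit 152) (nat_lit 67748902831) (nat_lit 8) (nat_lit 5) (nat_lit 9) (nat_lit 5) (nat_lit 10) (nat_lit 4) (nat_lit 338) (nat_lit 274) (nat_lit 108)) (XT.lf (nat_lit 0) (nat_lit 135261513865) (nat_lit 76) (nat_lit 7744328278) (nat_lit 152) (nat_lit 53655332068) (nat_lit 8) (nat_lit 5) (nat_lit 9) (nat_lit 5) (nat_lit 10) (nat_lit 4) (nat_lit 339) (nat_lit 274) (nat_lit 107))) (XT.nd (nat_lit 78) (nat_lit 76) (nat_lit 0) (XT.lf (nat_lit 0) (nat_lit 166676097201) (nat_lit 152) (nat_lit 22289236647) (nat_lit 0) (nat_lit 16292631848) (nat_lit 8) (nat_lit 5) (nat_lit 10) (nat_lit 4) (nat_lit 8) (nat_lit 4) (nat_lit 340) (nat_lit 274) (nat_lit 106)) (XT.nd (nat_lit 78) (nat_lit 0) (nat_lit 0) (XT.lf (nat_lit 0) (nat_lit 19265229133) (nat_lit 76) (nat_lit 172691726568) (nat_lit 76) (nat_lit 22306287437) (nat_lit 7) (nat_lit 4) (nat_lit 8) (nat_lit 5) (nat_lit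 8) (nat_lit 4) (nat_lit 341) (nat_lit 274) (nat_lit 105)) (XT.lf (nat_lit 0) (nat_lit 63670137857) (nat_lit 76) (nat_lit 155208562125) (nat_lit 76) (nat_lit 4821243206) (nat_lit 7) (nat_lit 4) (nat_lit 8) (nat_lit 5) (nat_lit 8) (nat_lit 4) (nat_lit 342) (nat_lit 274) (nat_lit 104)))))) (XT.nd (nat_lit 312) (nat_lit 76) (nat_lit 0) (XT.nd (nat_lit 156) (nat_lit 0) (nat_lit 0) (XT.nd (nat_lit 78) (nat_lit 0) (nat_lit 0) (XT.lf (nat_lit 0) (nat_lit 13104134386) (nat_lit 152) (nat_lit 123525633700) (nat_lit 76) (nat_lit 96968173429) (nat_lit 6) (nat_lit 5) (nat_lit 8) (nat_lit 5) (nat_lit 7) (nat_lit 4) (nat_lit 343) (nat_lit 274) (nat_lit 103)) (XT.lf (nat_lit 0) (nat_lit 31763168234) (nat_lit 152) (nat_lit 85276319336) (nat_lit 76) (nat_lit 126947430470) (nat_lit 6) (nat_lit 5) (nat_lit 8) (nat_lit 5) (nat_lit 7) (nat_lit 4) (nat_lit 344) (nat_lit 274) (nat_lit 102))) (XT.nd (nat_lit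 78) (nat_lit 0) (nat_lit 0) (XT.lf (nat_lit 0) (nat_lit 51354594500) (nat_lit 152) (nat_lit 45115519323) (nat_lit 76) (nat_lit 158425258252) (nat_lit 6) (nat_lit 5) (nat_lit 8) (nat_lit 5) (nat_lit 7) (nat_lit 4) (nat_lit 345) (nat_lit 274) (nat_lit 101)) (XT.lf (nat_lit 0) (nat_lit 71925059436) (nat_lit 152) (nat_lit 2947612710) (nat_lit 76) (nat_lit 191476603983) (nat_lit 6) (nat_lit 5) (nat_lit 8) (nat_lit 5) (nat_lit 7) (nat_lit 4) (nat_lit 346) (nat_lit 274) (nat_lit 100)))) (XT.nd (nat_lit 156) (nat_lit 0) (nat_lit 0) (XT.nd (nat_lit 78) (nat_lit 0) (nat_lit 0) (XT.lf (nat_lit 0) (nat_lit 42694283999) (nat_lit 76) (nat_lit 51495833765) (nat_lit 152) (nat_lit 184152454769) (nat_lit 5) (nat_lit 5) (nat_lit 6) (nat_lit 5) (nat_lit 7) (nat_lit 4) (nat_lit 347) (nat_lit 274) (nat_lit 99)) (XT.lf (nat_lit 0) (nat_lit 90719735388) (nat_lit 76) (nat_lit 26898116091) (nat_lit 152) (nat_lit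 173315211777) (nat_lit 5) (nat_lit 5) (nat_lit 6) (nat_lit 5) (nat_lit 7) (nat_lit 4) (nat_lit 348) (nat_lit 274) (nat_lit 98))) (XT.nd (nat_lit 78) (nat_lit 0) (nat_lit 0) (XT.lf (nat_lit 0) (nat_lit 141145626380) (nat_lit 76) (nat_lit 1070872378) (nat_lit 152) (nat_lit 161936604005) (nat_lit 5) (nat_lit 5) (nat_lit 6) (nat_lit 5) (nat_lit 7) (nat_lit 4) (nat_lit 349) (nat_lit 274) (nat_lit 97)) (XT.nd (nat_lit 31668) (nat_lit 0) (nat_lit 4788) (XT.lf (nat_lit 0) (nat_lit 168451300578) (nat_lit 152) (nat_lit 124348821489) (nat_lit 0) (nat_lit 25213711635) (nat_lit 5) (nat_lit 5) (nat_lit 7) (nat_lit 4) (nat_lit 5) (nat_lit 4) (nat_lit 350) (nat_lit 274) (nat_lit 96)) (XT.lf (nat_lit 0) (nat_lit 1731768747) (nat_lit 0) (nat_lit 1731768747) (nat_lit 684) (nat_lit 7911404311) (nat_lit 68) (nat_lit 5) (nat_lit 68) (nat_lit 3) (nat_lit 77) (nat_lit 3) (nat_lit 275) (nat_lit 275) (nat_lit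 170))))))))
noncomputable def xc209 : XT := (XT.nd (nat_lit 1404) (nat_lit 1748) (nat_lit 0) (XT.nd (nat_lit 702) (nat_lit 1444) (nat_lit 0) (XT.nd (nat_lit 312) (nat_lit 0) (nat_lit 76) (XT.nd (nat_lit 156) (nat_lit 0) (nat_lit 76) (XT.nd (nat_lit 78) (nat_lit 0) (nat_lit 0) (XT.lf (nat_lit 0) (nat_lit 7315609849) (nat_lit 684) (nat_lit 9825741933) (nat_lit 760) (nat_lit 6166094730) (nat_lit 68) (nat_lit 5) (nat_lit 77) (nat_lit 3) (nat_lit 78) (nat_lit 5) (nat_lit 276) (nat_lit 275) (nat_lit 169)) (XT.lf (nat_lit 76) (nat_lit 48500254) (nat_lit 0) (nat_lit 7725246286) (nat_lit 760) (nat_lit 16116658911) (nat_lit 69) (nat_lit 5) (nat_lit 68) (nat_lit 5) (nat_lit 78) (nat_lit 5) (nat_lit 277) (nat_lit 275) (nat_lit 168))) (XT.nd (nat_lit 78) (nat_lit 0) (nat_lit 0) (XT.lf (nat_lit 0) (nat_lit 8450642931) (nat_lit 684) (nat_lit 13777611231) (nat_lit 760) (nat_lit 2264490911) (nat_lit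 69) (nat_lit 5) (nat_lit 78) (nat_lit 5) (nat_lit 79) (nat_lit 5) (nat_lit 278) (nat_lit 275) (nat_lit 167)) (XT.lf (nat_lit 0) (nat_lit 9281333810) (nat_lit 684) (nat_lit 3341054168) (nat_lit 760) (nat_lit 12496840385) (nat_lit 69) (nat_lit 5) (nat_lit 78) (nat_lit 5) (nat_lit 79) (nat_lit 5) (nat_lit 279) (nat_lit 275) (nat_lit 166)))) (XT.nd (nat_lit 156) (nat_lit 0) (nat_lit 76) (XT.nd (nat_lit 78) (nat_lit 0) (nat_lit 76) (XT.lf (nat_lit 76) (nat_lit 7864955370) (nat_lit 0) (nat_lit 2405022891) (nat_lit 760) (nat_lit 15501259624) (nat_lit 70) (nat_lit 5) (nat_lit 69) (nat_lit 5) (nat_lit 79) (nat_lit 5) (nat_lit 280) (nat_lit 275) (nat_lit 165)) (XT.lf (nat_lit 0) (nat_lit 11489411851) (nat_lit 684) (nat_lit 6841034026) (nat_lit 760) (nat_lit 8116356083) (nat_lit 70) (nat_lit 5) (nat_lit 79) (nat_lit 5) (nat_lit 80) (nat_lit 5) (nat_lit 281) (nat_lit 275) (nat_lit 164))) (XT.nd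 (nat_lit 78) (nat_lit 0) (nat_lit 76) (XT.lf (nat_lit 76) (nat_lit 4890384281) (nat_lit 0) (nat_lit 7989400928) (nat_lit 760) (nat_lit 14270881505) (nat_lit 71) (nat_lit 5) (nat_lit 70) (nat_lit 5) (nat_lit 80) (nat_lit 5) (nat_lit 282) (nat_lit 275) (nat_lit 163)) (XT.nd (nat_lit 78) (nat_lit 0) (nat_lit 0) (XT.lf (nat_lit 0) (nat_lit 14496645454) (nat_lit 684) (nat_lit 10489184975) (nat_lit 760) (nat_lit 2896065752) (nat_lit 71) (nat_lit 5) (nat_lit 80) (nat_lit 5) (nat_lit 81) (nat_lit 5) (nat_lit 283) (nat_lit 275) (nat_lit 162)) (XT.lf (nat_lit 76) (nat_lit 1792636597) (nat_lit 0) (nat_lit 14555363811) (nat_lit 760) (nat_lit 12294023065) (nat_lit 72) (nat_lit 5) (nat_lit 71) (nat_lit 5) (nat_lit 81) (nat_lit 5) (nat_lit 284) (nat_lit 275) (nat_lit 161)))))) (XT.nd (nat_lit 312) (nat_lit 1064) (nat_lit 0) (XT.nd (nat_lit 156) (nat_lit 608) (nat_lit 0) (XT.nd (nat_lit 78) (nat_lit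 0) (nat_lit 76) (XT.lf (nat_lit 76) (nat_lit 15048545792) (nat_lit 0) (nat_lit 3415894424) (nat_lit 760) (nat_lit 10967109095) (nat_lit 72) (nat_lit 5) (nat_lit 71) (nat_lit 5) (nat_lit 81) (nat_lit 5) (nat_lit 285) (nat_lit 275) (nat_lit 160)) (XT.lf (nat_lit 0) (nat_lit 20811120428) (nat_lit 684) (nat_lit 1426824880) (nat_lit 76) (nat_lit 8016402390) (nat_lit 72) (nat_lit 5) (nat_lit 81) (nat_lit 5) (nat_lit 73) (nat_lit 5) (nat_lit 286) (nat_lit 275) (nat_lit 159))) (XT.nd (nat_lit 78) (nat_lit 0) (nat_lit 0) (XT.lf (nat_lit 0) (nat_lit 12517771950) (nat_lit 684) (nat_lit 11004165944) (nat_lit 760) (nat_lit 7584024307) (nat_lit 63) (nat_lit 5) (nat_lit 72) (nat_lit 5) (nat_lit 73) (nat_lit 5) (nat_lit 287) (nat_lit 275) (nat_lit 158)) (XT.lf (nat_lit 0) (nat_lit 26400744607) (nat_lit 760) (nat_lit 4806786332) (nat_lit 76) (nat_lit 791019652) (nat_lit 63) (nat_lit 5) (nat_lit 73)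 (nat_lit 5) (nat_lit 64) (nat_lit 5) (nat_lit 288) (nat_lit 275) (nat_lit 157)))) (XT.nd (nat_lit 156) (nat_lit 760) (nat_lit 0) (XT.nd (nat_lit 78) (nat_lit 0) (nat_lit 0) (XT.lf (nat_lit 0) (nat_lit 9792698873) (nat_lit 304) (nat_lit 19959826917) (nat_lit 380) (nat_lit 3166805742) (nat_lit 59) (nat_lit 5) (nat_lit 63) (nat_lit 5) (nat_lit 64) (nat_lit 5) (nat_lit 289) (nat_lit 275) (nat_lit 156)) (XT.lf (nat_lit 0) (nat_lit 25285083681) (nat_lit 304) (nat_lit 8064104897) (nat_lit 380) (nat_lit 533112447) (nat_lit 59) (nat_lit 5) (nat_lit 63) (nat_lit 5) (nat_lit 64) (nat_lit 5) (nat_lit 290) (nat_lit 275) (nat_lit 155))) (XT.nd (nat_lit 78) (nat_lit 304) (nat_lit 0) (XT.lf (nat_lit 0) (nat_lit 2335029185) (nat_lit 456) (nat_lit 28119193030) (nat_lit 76) (nat_lit 4428756493) (nat_lit 53) (nat_lit 5) (nat_lit 59) (nat_lit 5) (nat_lit 54) (nat_lit 5) (nat_lit 291) (nat_lit 275) (nat_lit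 154)) (XT.nd (nat_lit 78) (nat_lit 304) (nat_lit 0) (XT.lf (nat_lit 0) (nat_lit 5604981392) (nat_lit 456) (nat_lit 12882474891) (nat_lit 76) (nat_lit 17431993246) (nat_lit 53) (nat_lit 5) (nat_lit 59) (nat_lit 5) (nat_lit 54) (nat_lit 5) (nat_lit 292) (nat_lit 275) (nat_lit 153)) (XT.lf (nat_lit 0) (nat_lit 3215121699) (nat_lit 304) (nat_lit 5869826796) (nat_lit 380) (nat_lit 27920481158) (nat_lit 49) (nat_lit 5) (nat_lit 53) (nat_lit 5) (nat_lit 54) (nat_lit 5) (nat_lit 293) (nat_lit 275) (nat_lit 152))))))) (XT.nd (nat_lit 702) (nat_lit 684) (nat_lit 0) (XT.nd (nat_lit 312) (nat_lit 760) (nat_lit 0) (XT.nd (nat_lit 156) (nat_lit 304) (nat_lit 0) (XT.nd (nat_lit 78) (nat_lit 0) (nat_lit 0) (XT.lf (nat_lit 0) (nat_lit 13072295874) (nat_lit 380) (nat_lit 17692714930) (nat_lit 76) (nat_lit 7364039955) (nat_lit 49) (nat_lit 5) (nat_lit 54) (nat_lit 5) (nat_lit 50) (nat_lit 5) (nat_lit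 294) (nat_lit 275) (nat_lit 151)) (XT.lf (nat_lit 0) (nat_lit 17351839638) (nat_lit 380) (nat_lit 890263913) (nat_lit 76) (nat_lit 21062118464) (nat_lit 49) (nat_lit 5) (nat_lit 54) (nat_lit 5) (nat_lit 50) (nat_lit 5) (nat_lit 295) (nat_lit 275) (nat_lit 150))) (XT.nd (nat_lit 78) (nat_lit 0) (nat_lit 0) (XT.lf (nat_lit 0) (nat_lit 17302482884) (nat_lit 304) (nat_lit 4809782092) (nat_lit 380) (nat_lit 18412551682) (nat_lit 45) (nat_lit 5) (nat_lit 49) (nat_lit 5) (nat_lit 50) (nat_lit 5) (nat_lit 296) (nat_lit 275) (nat_lit 149)) (XT.lf (nat_lit 0) (nat_lit 27267999783) (nat_lit 380) (nat_lit 5518983058) (nat_lit 76) (nat_lit 9011603347) (nat_lit 45) (nat_lit 5) (nat_lit 50) (nat_lit 5) (nat_lit 46) (nat_lit 5) (nat_lit 297) (nat_lit 275) (nat_lit 148)))) (XT.nd (nat_lit 156) (nat_lit 532) (nat_lit 0) (XT.nd (nat_lit 78) (nat_lit 0) (nat_lit 0) (XT.lf (nat_lit 0) (nat_lit 13416561121)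 (nat_lit 228) (nat_lit 19550285092) (nat_lit 304) (nat_lit 10154940847) (nat_lit 42) (nat_lit 5) (nat_lit 45) (nat_lit 5) (nat_lit 46) (nat_lit 5) (nat_lit 298) (nat_lit 275) (nat_lit 147)) (XT.lf (nat_lit 0) (nat_lit 33487007291) (nat_lit 228) (nat_lit 5554188417) (nat_lit 304) (nat_lit 5465432906) (nat_lit 42) (nat_lit 5) (nat_lit 45) (nat_lit 5) (nat_lit 46) (nat_lit 5) (nat_lit 299) (nat_lit 275) (nat_lit 146))) (XT.nd (nat_lit 78) (nat_lit 304) (nat_lit 0) (XT.lf (nat_lit 0) (nat_lit 8733611758) (nat_lit 228) (nat_lit 36961958742) (nat_lit 304) (nat_lit 251334616) (nat_lit 39) (nat_lit 5) (nat_lit 42) (nat_lit 5) (nat_lit 43) (nat_lit 5) (nat_lit 300) (nat_lit 275) (nat_lit 145)) (XT.nd (nat_lit 78) (nat_lit 228) (nat_lit 0) (XT.lf (nat_lit 0) (nat_lit 5334270460) (nat_lit 304) (nat_lit 17771942882) (nat_lit 76) (nat_lit 24335012674) (nat_lit 38) (nat_lit 5) (nat_lit 42) (nat_lit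 5) (nat_lit 39) (nat_lit 5) (nat_lit 301) (nat_lit 275) (nat_lit 144)) (XT.lf (nat_lit 0) (nat_lit 2721117350) (nat_lit 228) (nat_lit 8509458325) (nat_lit 304) (nat_lit 37777495092) (nat_lit 35) (nat_lit 5) (nat_lit 38) (nat_lit 5) (nat_lit 39) (nat_lit 5) (nat_lit 302) (nat_lit 275) (nat_lit 143)))))) (XT.nd (nat_lit 312) (nat_lit 456) (nat_lit 0) (XT.nd (nat_lit 156) (nat_lit 228) (nat_lit 0) (XT.nd (nat_lit 78) (nat_lit 0) (nat_lit 0) (XT.lf (nat_lit 0) (nat_lit 17831485399) (nat_lit 304) (nat_lit 25897144377) (nat_lit 76) (nat_lit 6904145315) (nat_lit 35) (nat_lit 5) (nat_lit 39) (nat_lit 5) (nat_lit 36) (nat_lit 5) (nat_lit 303) (nat_lit 275) (nat_lit 142)) (XT.lf (nat_lit 0) (nat_lit 24899505813) (nat_lit 304) (nat_lit 4630581485) (nat_lit 76) (nat_lit 22801780547) (nat_lit 35) (nat_lit 5) (nat_lit 39) (nat_lit 5) (nat_lit 36) (nat_lit 5) (nat_lit 304) (nat_lit 275) (nat_lit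 141))) (XT.nd (nat_lit 78) (nat_lit 0) (nat_lit 0) (XT.lf (nat_lit 0) (nat_lit 18281343585) (nat_lit 228) (nat_lit 14322688466) (nat_lit 304) (nat_lit 21497734111) (nat_lit 32) (nat_lit 5) (nat_lit 35) (nat_lit 5) (nat_lit 36) (nat_lit 5) (nat_lit 305) (nat_lit 275) (nat_lit 140)) (XT.lf (nat_lit 0) (nat_lit 40796908324) (nat_lit 304) (nat_lit 13486719883) (nat_lit 76) (nat_lit 1671380872) (nat_lit 32) (nat_lit 5) (nat_lit 36) (nat_lit 5) (nat_lit 33) (nat_lit 5) (nat_lit 306) (nat_lit 275) (nat_lit 139)))) (XT.nd (nat_lit 156) (nat_lit 304) (nat_lit 0) (XT.nd (nat_lit 78) (nat_lit 0) (nat_lit 0) (XT.lf (nat_lit 0) (nat_lit 10047460906) (nat_lit 152) (nat_lit 39741475344) (nat_lit 228) (nat_lit 8092508095) (nat_lit 30) (nat_lit 5) (nat_lit 32) (nat_lit 5) (nat_lit 33) (nat_lit 5) (nat_lit 307) (nat_lit 275) (nat_lit 138)) (XT.lf (nat_lit 0) (nat_lit 35223637065) (nat_lit 152) (nat_lit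 24233230172) (nat_lit 228) (nat_lit 436024379) (nat_lit 30) (nat_lit 5) (nat_lit 32) (nat_lit 5) (nat_lit 33) (nat_lit 5) (nat_lit 308) (nat_lit 275) (nat_lit 137))) (XT.nd (nat_lit 78) (nat_lit 228) (nat_lit 0) (XT.lf (nat_lit 0) (nat_lit 7357890884) (nat_lit 228) (nat_lit 467872099) (nat_lit 76) (nat_lit 54173319676) (nat_lit 29) (nat_lit 5) (nat_lit 32) (nat_lit 5) (nat_lit 30) (nat_lit 5) (nat_lit 309) (nat_lit 275) (nat_lit 136)) (XT.nd (nat_lit 78) (nat_lit 0) (nat_lit 0) (XT.lf (nat_lit 0) (nat_lit 16080552336) (nat_lit 304) (nat_lit 38585595446) (nat_lit 76) (nat_lit 9516397489) (nat_lit 26) (nat_lit 5) (nat_lit 30) (nat_lit 5) (nat_lit 27) (nat_lit 5) (nat_lit 310) (nat_lit 275) (nat_lit 135)) (XT.lf (nat_lit 0) (nat_lit 25373786628) (nat_lit 304) (nat_lit 13624729407) (nat_lit 76) (nat_lit 27469947374) (nat_lit 26) (nat_lit 5) (nat_lit 30) (nat_lit 5) (nat_lit 27) (nat_lit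 5) (nat_lit 311) (nat_lit 275) (nat_lit 134))))))))
noncomputable def xc210 : XT := (XT.nd (nat_lit 1404) (nat_lit 532) (nat_lit 0) (XT.nd (nat_lit 702) (nat_lit 304) (nat_lit 0) (XT.nd (nat_lit 312) (nat_lit 380) (nat_lit 0) (XT.nd (nat_lit 156) (nat_lit 152) (nat_lit 0) (XT.nd (nat_lit 78) (nat_lit 0) (nat_lit 0) (XT.lf (nat_lit 0) (nat_lit 12997534796) (nat_lit 152) (nat_lit 22335261526) (nat_lit 228) (nat_lit 33525829618) (nat_lit 24) (nat_lit 5) (nat_lit 26) (nat_lit 5) (nat_lit 27) (nat_lit 5) (nat_lit 312) (nat_lit 275) (nat_lit 133)) (XT.lf (nat_lit 0) (nat_lit 41421327329) (nat_lit 152) (nat_lit 4597402031) (nat_lit 228) (nat_lit 25338122571) (nat_lit 24) (nat_lit 5) (nat_lit 26) (nat_lit 5) (nat_lit 27) (nat_lit 5) (nat_lit 313) (nat_lit 275) (nat_lit 132))) (XT.nd (nat_lit 78) (nat_lit 152) (nat_lit 0) (XT.lf (nat_lit 0) (nat_lit 57456268556) (nat_lit 228) (nat_lit 2935242239)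 (nat_lit 76) (nat_lit 13577616736) (nat_lit 24) (nat_lit 5) (nat_lit 27) (nat_lit 5) (nat_lit 25) (nat_lit 5) (nat_lit 314) (nat_lit 275) (nat_lit 131)) (XT.lf (nat_lit 0) (nat_lit 26175016460) (nat_lit 152) (nat_lit 43773084911) (nat_lit 228) (nat_lit 6739798312) (nat_lit 22) (nat_lit 5) (nat_lit 24) (nat_lit 5) (nat_lit 25) (nat_lit 5) (nat_lit 315) (nat_lit 275) (nat_lit 130)))) (XT.nd (nat_lit 156) (nat_lit 152) (nat_lit 0) (XT.nd (nat_lit 78) (nat_lit 152) (nat_lit 0) (XT.lf (nat_lit 0) (nat_lit 3458111196) (nat_lit 228) (nat_lit 22755685379) (nat_lit 76) (nat_lit 53323621833) (nat_lit 21) (nat_lit 5) (nat_lit 24) (nat_lit 5) (nat_lit 22) (nat_lit 5) (nat_lit 316) (nat_lit 275) (nat_lit 129)) (XT.lf (nat_lit 0) (nat_lit 6484080040) (nat_lit 152) (nat_lit 7555040277) (nat_lit 228) (nat_lit 68479786165) (nat_lit 19) (nat_lit 5) (nat_lit 21) (nat_lit 5) (nat_lit 22) (nat_lit 5) (nat_lit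 317) (nat_lit 275) (nat_lit 128))) (XT.nd (nat_lit 78) (nat_lit 152) (nat_lit 0) (XT.lf (nat_lit 0) (nat_lit 25727297291) (nat_lit 228) (nat_lit 47850946088) (nat_lit 76) (nat_lit 12042322676) (nat_lit 19) (nat_lit 5) (nat_lit 22) (nat_lit 5) (nat_lit 20) (nat_lit 5) (nat_lit 318) (nat_lit 275) (nat_lit 127)) (XT.nd (nat_lit 78) (nat_lit 152) (nat_lit 0) (XT.lf (nat_lit 0) (nat_lit 38122303160) (nat_lit 228) (nat_lit 18383974569) (nat_lit 76) (nat_lit 32364912701) (nat_lit 19) (nat_lit 5) (nat_lit 22) (nat_lit 5) (nat_lit 20) (nat_lit 5) (nat_lit 319) (nat_lit 275) (nat_lit 126)) (XT.lf (nat_lit 0) (nat_lit 12969301568) (nat_lit 152) (nat_lit 38368880065) (nat_lit 228) (nat_lit 40936110963) (nat_lit 17) (nat_lit 5) (nat_lit 19) (nat_lit 5) (nat_lit 20) (nat_lit 5) (nat_lit 320) (nat_lit 275) (nat_lit 125)))))) (XT.nd (nat_lit 312) (nat_lit 152) (nat_lit 0) (XT.nd (nat_lit 156) (nat_lit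 152) (nat_lit 0) (XT.nd (nat_lit 78) (nat_lit 0) (nat_lit 0) (XT.lf (nat_lit 0) (nat_lit 46526383553) (nat_lit 152) (nat_lit 18998479231) (nat_lit 228) (nat_lit 30307189212) (nat_lit 17) (nat_lit 5) (nat_lit 19) (nat_lit 5) (nat_lit 20) (nat_lit 5) (nat_lit 321) (nat_lit 275) (nat_lit 124)) (XT.lf (nat_lit 0) (nat_lit 80440525229) (nat_lit 228) (nat_lit 17829369818) (nat_lit 76) (nat_lit 1296824398) (nat_lit 17) (nat_lit 5) (nat_lit 20) (nat_lit 5) (nat_lit 18) (nat_lit 4) (nat_lit 322) (nat_lit 275) (nat_lit 123))) (XT.nd (nat_lit 78) (nat_lit 76) (nat_lit 0) (XT.lf (nat_lit 0) (nat_lit 15400233047) (nat_lit 76) (nat_lit 81252409199) (nat_lit 152) (nat_lit 6807946772) (nat_lit 16) (nat_lit 5) (nat_lit 17) (nat_lit 5) (nat_lit 18) (nat_lit 4) (nat_lit 323) (nat_lit 275) (nat_lit 122)) (XT.lf (nat_lit 0) (nat_lit 6235821372) (nat_lit 152) (nat_lit 56726314845) (nat_lit 76) (nat_lit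 44566951321) (nat_lit 15) (nat_lit 5) (nat_lit 17) (nat_lit 5) (nat_lit 16) (nat_lit 5) (nat_lit 324) (nat_lit 275) (nat_lit 121)))) (XT.nd (nat_lit 156) (nat_lit 0) (nat_lit 0) (XT.nd (nat_lit 78) (nat_lit 152) (nat_lit 0) (XT.lf (nat_lit 0) (nat_lit 19701830473) (nat_lit 152) (nat_lit 23939057732) (nat_lit 76) (nat_lit 68154602291) (nat_lit 15) (nat_lit 5) (nat_lit 17) (nat_lit 5) (nat_lit 16) (nat_lit 5) (nat_lit 325) (nat_lit 275) (nat_lit 120)) (XT.lf (nat_lit 0) (nat_lit 10832478348) (nat_lit 152) (nat_lit 23176686268) (nat_lit 228) (nat_lit 82257649670) (nat_lit 13) (nat_lit 5) (nat_lit 15) (nat_lit 5) (nat_lit 16) (nat_lit 5) (nat_lit 326) (nat_lit 275) (nat_lit 119))) (XT.nd (nat_lit 78) (nat_lit 0) (nat_lit 0) (XT.lf (nat_lit 0) (nat_lit 48171939304) (nat_lit 152) (nat_lit 1264269840) (nat_lit 228) (nat_lit 71505279760) (nat_lit 13) (nat_lit 5) (nat_lit 15) (nat_lit 5) (nat_lit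 16) (nat_lit 5) (nat_lit 327) (nat_lit 275) (nat_lit 118)) (XT.nd (nat_lit 78) (nat_lit 0) (nat_lit 0) (XT.lf (nat_lit 0) (nat_lit 65973052222) (nat_lit 228) (nat_lit 38812725909) (nat_lit 76) (nat_lit 21047198537) (nat_lit 13) (nat_lit 5) (nat_lit 16) (nat_lit 5) (nat_lit 14) (nat_lit 4) (nat_lit 328) (nat_lit 275) (nat_lit 117)) (XT.lf (nat_lit 0) (nat_lit 83356477645) (nat_lit 228) (nat_lit 3180425645) (nat_lit 76) (nat_lit 44431150174) (nat_lit 13) (nat_lit 5) (nat_lit 16) (nat_lit 5) (nat_lit 14) (nat_lit 4) (nat_lit 329) (nat_lit 275) (nat_lit 116))))))) (XT.nd (nat_lit 702) (nat_lit 152) (nat_lit 0) (XT.nd (nat_lit 312) (nat_lit 76) (nat_lit 0) (XT.nd (nat_lit 156) (nat_lit 228) (nat_lit 0) (XT.nd (nat_lit 78) (nat_lit 0) (nat_lit 0) (XT.lf (nat_lit 0) (nat_lit 35363790961) (nat_lit 76) (nat_lit 66796472648) (nat_lit 152) (nat_lit 34172062598) (nat_lit 12) (nat_lit 5) (nat_lit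 13) (nat_lit 5) (nat_lit 14) (nat_lit 4) (nat_lit 330) (nat_lit 275) (nat_lit 115)) (XT.lf (nat_lit 0) (nat_lit 75944099935) (nat_lit 76) (nat_lit 46013083090) (nat_lit 152) (nat_lit 20004983853) (nat_lit 12) (nat_lit 5) (nat_lit 13) (nat_lit 5) (nat_lit 14) (nat_lit 4) (nat_lit 331) (nat_lit 275) (nat_lit 114))) (XT.nd (nat_lit 78) (nat_lit 228) (nat_lit 0) (XT.lf (nat_lit 0) (nat_lit 118551961826) (nat_lit 76) (nat_lit 24191112403) (nat_lit 152) (nat_lit 5130470491) (nat_lit 12) (nat_lit 5) (nat_lit 13) (nat_lit 5) (nat_lit 14) (nat_lit 4) (nat_lit 332) (nat_lit 275) (nat_lit 113)) (XT.lf (nat_lit 0) (nat_lit 9343613684) (nat_lit 152) (nat_lit 953513239) (nat_lit 228) (nat_lit 143767927027) (nat_lit 9) (nat_lit 5) (nat_lit 11) (nat_lit 5) (nat_lit 12) (nat_lit 5) (nat_lit 333) (nat_lit 275) (nat_lit 112)))) (XT.nd (nat_lit 156) (nat_lit 76) (nat_lit 0) (XT.nd (nat_lit 78) (nat_lit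 0) (nat_lit 0) (XT.lf (nat_lit 0) (nat_lit 27193621852) (nat_lit 228) (nat_lit 110040997574) (nat_lit 76) (nat_lit 23283818390) (nat_lit 9) (nat_lit 5) (nat_lit 12) (nat_lit 5) (nat_lit 10) (nat_lit 4) (nat_lit 334) (nat_lit 275) (nat_lit 111)) (XT.lf (nat_lit 0) (nat_lit 44949774880) (nat_lit 228) (nat_lit 73643528916) (nat_lit 76) (nat_lit 48700446584) (nat_lit 9) (nat_lit 5) (nat_lit 12) (nat_lit 5) (nat_lit 10) (nat_lit 4) (nat_lit 335) (nat_lit 275) (nat_lit 110))) (XT.nd (nat_lit 78) (nat_lit 76) (nat_lit 0) (XT.lf (nat_lit 0) (nat_lit 63592975550) (nat_lit 228) (nat_lit 35427486640) (nat_lit 76) (nat_lit 75387405502) (nat_lit 9) (nat_lit 5) (nat_lit 12) (nat_lit 5) (nat_lit 10) (nat_lit 4) (nat_lit 336) (nat_lit 275) (nat_lit 109)) (XT.nd (nat_lit 78) (nat_lit 0) (nat_lit 0) (XT.lf (nat_lit 0) (nat_lit 4853460890) (nat_lit 76) (nat_lit 78389927669) (nat_lit 152) (nat_lit 98630550759)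 (nat_lit 8) (nat_lit 5) (nat_lit 9) (nat_lit 5) (nat_lit 10) (nat_lit 4) (nat_lit 337) (nat_lit 275) (nat_lit 108)) (XT.lf (nat_lit 0) (nat_lit 48377200183) (nat_lit 76) (nat_lit 56098395297) (nat_lit 152) (nat_lit 85207756397) (nat_lit 8) (nat_lit 5) (nat_lit 9) (nat_lit 5) (nat_lit 10) (nat_lit 4) (nat_lit 338) (nat_lit 275) (nat_lit 107)))))) (XT.nd (nat_lit 312) (nat_lit 76) (nat_lit 0) (XT.nd (nat_lit 156) (nat_lit 76) (nat_lit 0) (XT.nd (nat_lit 78) (nat_lit 0) (nat_lit 0) (XT.lf (nat_lit 0) (nat_lit 94075966487) (nat_lit 76) (nat_lit 32692771624) (nat_lit 152) (nat_lit 71114531649) (nat_lit 8) (nat_lit 5) (nat_lit 9) (nat_lit 5) (nat_lit 10) (nat_lit 4) (nat_lit 339) (nat_lit 275) (nat_lit 106)) (XT.lf (nat_lit 0) (nat_lit 142058566387) (nat_lit 76) (nat_lit 8117328976) (nat_lit 152) (nat_lit 56317321220) (nat_lit 8) (nat_lit 5) (nat_lit 9) (nat_lit 5) (nat_lit 10) (nat_lit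 4) (nat_lit 340) (nat_lit 275) (nat_lit 105))) (XT.nd (nat_lit 78) (nat_lit 76) (nat_lit 0) (XT.lf (nat_lit 0) (nat_lit 175028933546) (nat_lit 152) (nat_lit 23370583032) (nat_lit 0) (nat_lit 17120368892) (nat_lit 8) (nat_lit 5) (nat_lit 10) (nat_lit 4) (nat_lit 8) (nat_lit 4) (nat_lit 341) (nat_lit 275) (nat_lit 104)) (XT.lf (nat_lit 0) (nat_lit 20261071918) (nat_lit 76) (nat_lit 181312365478) (nat_lit 76) (nat_lit 23402010550) (nat_lit 7) (nat_lit 4) (nat_lit 8) (nat_lit 5) (nat_lit 8) (nat_lit 4) (nat_lit 342) (nat_lit 275) (nat_lit 103)))) (XT.nd (nat_lit 156) (nat_lit 0) (nat_lit 0) (XT.nd (nat_lit 78) (nat_lit 76) (nat_lit 0) (XT.lf (nat_lit 0) (nat_lit 66884674587) (nat_lit 76) (nat_lit 162955706975) (nat_lit 76) (nat_lit 5043647024) (nat_lit 7) (nat_lit 4) (nat_lit 8) (nat_lit 5) (nat_lit 8) (nat_lit 4) (nat_lit 343) (nat_lit 275) (nat_lit 102)) (XT.lf (nat_lit 0) (nat_lit 13776542209)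 (nat_lit 152) (nat_lit 129671772253) (nat_lit 76) (nat_lit 101828641913) (nat_lit 6) (nat_lit 5) (nat_lit 8) (nat_lit 5) (nat_lit 7) (nat_lit 4) (nat_lit 344) (nat_lit 275) (nat_lit 101))) (XT.nd (nat_lit 78) (nat_lit 0) (nat_lit 0) (XT.lf (nat_lit 0) (nat_lit 33367708649) (nat_lit 152) (nat_lit 89511427558) (nat_lit 76) (nat_lit 133306287530) (nat_lit 6) (nat_lit 5) (nat_lit 8) (nat_lit 5) (nat_lit 7) (nat_lit 4) (nat_lit 345) (nat_lit 275) (nat_lit 100)) (XT.nd (nat_lit 78) (nat_lit 0) (nat_lit 0) (XT.lf (nat_lit 0) (nat_lit 53937926132) (nat_lit 152) (nat_lit 47343954580) (nat_lit 76) (nat_lit 166357459770) (nat_lit 6) (nat_lit 5) (nat_lit 8) (nat_lit 5) (nat_lit 7) (nat_lit 4) (nat_lit 346) (nat_lit 275) (nat_lit 99)) (XT.lf (nat_lit 0) (nat_lit 75536171367) (nat_lit 152) (nat_lit 3068954575) (nat_lit 76) (nat_lit 201060851902) (nat_lit 6) (nat_lit 5) (nat_lit 8) (nat_lit 5) (nat_lit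 7) (nat_lit 4) (nat_lit 347) (nat_lit 275) (nat_lit 98))))))))
noncomputable def xc211 : XT := (XT.nd (nat_lit 33072) (nat_lit 0) (nat_lit 1900) (XT.nd (nat_lit 32370) (nat_lit 0) (nat_lit 4104) (XT.nd (nat_lit 31980) (nat_lit 0) (nat_lit 4788) (XT.nd (nat_lit 156) (nat_lit 0) (nat_lit 0) (XT.nd (nat_lit 78) (nat_lit 0) (nat_lit 0) (XT.lf (nat_lit 0) (nat_lit 44854616990) (nat_lit 76) (nat_lit 54059558034) (nat_lit 152) (nat_lit 193344780336) (nat_lit 5) (nat_lit 5) (nat_lit 6) (nat_lit 5) (nat_lit 7) (nat_lit 4) (nat_lit 348) (nat_lit 275) (nat_lit 97)) (XT.lf (nat_lit 0) (nat_lit 95280121006) (nat_lit 76) (nat_lit 28232481496) (nat_lit 152) (nat_lit 181966403631) (nat_lit 5) (nat_lit 5) (nat_lit 6) (nat_lit 5) (nat_lit 7) (nat_lit 4) (nat_lit 349) (nat_lit 275) (nat_lit 96))) (XT.nd (nat_lit 31746) (nat_lit 0) (nat_lit 4788) (XT.lf (nat_lit 0) (nat_lit 148226144697) (nat_lit 76)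 (nat_lit 1114377522) (nat_lit 152) (nat_lit 170019559220) (nat_lit 5) (nat_lit 5) (nat_lit 6) (nat_lit 5) (nat_lit 7) (nat_lit 4) (nat_lit 350) (nat_lit 275) (nat_lit 95)) (XT.lf (nat_lit 0) (nat_lit 1875404807) (nat_lit 0) (nat_lit 1875404807) (nat_lit 684) (nat_lit 8186764729) (nat_lit 68) (nat_lit 5) (nat_lit 68) (nat_lit 3) (nat_lit 77) (nat_lit 3) (nat_lit 276) (nat_lit 276) (nat_lit 168)))) (XT.nd (nat_lit 156) (nat_lit 0) (nat_lit 76) (XT.nd (nat_lit 78) (nat_lit 0) (nat_lit 0) (XT.lf (nat_lit 0) (nat_lit 7897018097) (nat_lit 684) (nat_lit 10195023604) (nat_lit 760) (nat_lit 6369215195) (nat_lit 68) (nat_lit 5) (nat_lit 77) (nat_lit 3) (nat_lit 78) (nat_lit 5) (nat_lit 277) (nat_lit 276) (nat_lit 167)) (XT.lf (nat_lit 76) (nat_lit 170962863) (nat_lit 0) (nat_lit 8198704894) (nat_lit 760) (nat_lit 16704152888) (nat_lit 69) (nat_lit 5) (nat_lit 68) (nat_lit 5) (nat_lit 78) (nat_lit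 5) (nat_lit 278) (nat_lit 276) (nat_lit 166))) (XT.nd (nat_lit 78) (nat_lit 0) (nat_lit 0) (XT.lf (nat_lit 0) (nat_lit 9069244136) (nat_lit 684) (nat_lit 14340297455) (nat_lit 760) (nat_lit 2297329297) (nat_lit 69) (nat_lit 5) (nat_lit 78) (nat_lit 5) (nat_lit 79) (nat_lit 5) (nat_lit 279) (nat_lit 276) (nat_lit 165)) (XT.nd (nat_lit 78) (nat_lit 0) (nat_lit 0) (XT.lf (nat_lit 0) (nat_lit 9932132937) (nat_lit 684) (nat_lit 3387921793) (nat_lit 760) (nat_lit 13045124157) (nat_lit 69) (nat_lit 5) (nat_lit 78) (nat_lit 5) (nat_lit 79) (nat_lit 5) (nat_lit 280) (nat_lit 276) (nat_lit 164)) (XT.lf (nat_lit 76) (nat_lit 8376449752) (nat_lit 0) (nat_lit 2586713999) (nat_lit 760) (nat_lit 16087009535) (nat_lit 70) (nat_lit 5) (nat_lit 69) (nat_lit 5) (nat_lit 79) (nat_lit 5) (nat_lit 281) (nat_lit 276) (nat_lit 163)))))) (XT.nd (nat_lit 312) (nat_lit 836) (nat_lit 0) (XT.nd (nat_lit 156) (nat_lit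 0) (nat_lit 76) (XT.nd (nat_lit 78) (nat_lit 0) (nat_lit 0) (XT.lf (nat_lit 0) (nat_lit 12234098945) (nat_lit 684) (nat_lit 7060388244) (nat_lit 760) (nat_lit 8465532459) (nat_lit 70) (nat_lit 5) (nat_lit 79) (nat_lit 5) (nat_lit 80) (nat_lit 5) (nat_lit 282) (nat_lit 276) (nat_lit 162)) (XT.lf (nat_lit 76) (nat_lit 5255621986) (nat_lit 0) (nat_lit 8432148192) (nat_lit 760) (nat_lit 14811647625) (nat_lit 71) (nat_lit 5) (nat_lit 70) (nat_lit 5) (nat_lit 80) (nat_lit 5) (nat_lit 283) (nat_lit 276) (nat_lit 161))) (XT.nd (nat_lit 78) (nat_lit 0) (nat_lit 0) (XT.lf (nat_lit 0) (nat_lit 15377020611) (nat_lit 684) (nat_lit 10889666684) (nat_lit 760) (nat_lit 3000971825) (nat_lit 71) (nat_lit 5) (nat_lit 80) (nat_lit 5) (nat_lit 81) (nat_lit 5) (nat_lit 284) (nat_lit 276) (nat_lit 160)) (XT.lf (nat_lit 76) (nat_lit 2004246329) (nat_lit 0) (nat_lit 15311194598) (nat_lit 760) (nat_lit 12750653385)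 (nat_lit 72) (nat_lit 5) (nat_lit 71) (nat_lit 5) (nat_lit 81) (nat_lit 5) (nat_lit 285) (nat_lit 276) (nat_lit 159)))) (XT.nd (nat_lit 156) (nat_lit 912) (nat_lit 0) (XT.nd (nat_lit 78) (nat_lit 0) (nat_lit 76) (XT.lf (nat_lit 76) (nat_lit 15917142512) (nat_lit 0) (nat_lit 3613415427) (nat_lit 760) (nat_lit 11364920900) (nat_lit 72) (nat_lit 5) (nat_lit 71) (nat_lit 5) (nat_lit 81) (nat_lit 5) (nat_lit 286) (nat_lit 276) (nat_lit 158)) (XT.lf (nat_lit 0) (nat_lit 21987370202) (nat_lit 684) (nat_lit 1379847419) (nat_lit 76) (nat_lit 8392583582) (nat_lit 72) (nat_lit 5) (nat_lit 81) (nat_lit 5) (nat_lit 73) (nat_lit 5) (nat_lit 287) (nat_lit 276) (nat_lit 157))) (XT.nd (nat_lit 78) (nat_lit 304) (nat_lit 0) (XT.lf (nat_lit 0) (nat_lit 13260070886) (nat_lit 684) (nat_lit 11569013539) (nat_lit 760) (nat_lit 7825167030) (nat_lit 63) (nat_lit 5) (nat_lit 72) (nat_lit 5) (nat_lit 73) (nat_lit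 5) (nat_lit 288) (nat_lit 276) (nat_lit 156)) (XT.nd (nat_lit 78) (nat_lit 304) (nat_lit 0) (XT.lf (nat_lit 0) (nat_lit 27845373338) (nat_lit 760) (nat_lit 4929365882) (nat_lit 76) (nat_lit 817074684) (nat_lit 63) (nat_lit 5) (nat_lit 73) (nat_lit 5) (nat_lit 64) (nat_lit 5) (nat_lit 289) (nat_lit 276) (nat_lit 155)) (XT.lf (nat_lit 0) (nat_lit 10398194232) (nat_lit 304) (nat_lit 20962425326) (nat_lit 380) (nat_lit 3198241232) (nat_lit 59) (nat_lit 5) (nat_lit 63) (nat_lit 5) (nat_lit 64) (nat_lit 5) (nat_lit 290) (nat_lit 276) (nat_lit 154))))))) (XT.nd (nat_lit 702) (nat_lit 912) (nat_lit 0) (XT.nd (nat_lit 312) (nat_lit 532) (nat_lit 0) (XT.nd (nat_lit 156) (nat_lit 304) (nat_lit 0) (XT.nd (nat_lit 78) (nat_lit 456) (nat_lit 0) (XT.lf (nat_lit 0) (nat_lit 26659681118) (nat_lit 304) (nat_lit 8471697821) (nat_lit 380) (nat_lit 438906358) (nat_lit 59) (nat_lit 5) (nat_lit 63) (nat_lit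 5) (nat_lit 64) (nat_lit 5) (nat_lit 291) (nat_lit 276) (nat_lit 153)) (XT.lf (nat_lit 0) (nat_lit 2564956157) (nat_lit 456) (nat_lit 29406390190) (nat_lit 76) (nat_lit 4649764941) (nat_lit 53) (nat_lit 5) (nat_lit 59) (nat_lit 5) (nat_lit 54) (nat_lit 5) (nat_lit 292) (nat_lit 276) (nat_lit 152))) (XT.nd (nat_lit 78) (nat_lit 304) (nat_lit 0) (XT.lf (nat_lit 0) (nat_lit 5993016665) (nat_lit 456) (nat_lit 13413491500) (nat_lit 76) (nat_lit 18303183978) (nat_lit 53) (nat_lit 5) (nat_lit 59) (nat_lit 5) (nat_lit 54) (nat_lit 5) (nat_lit 293) (nat_lit 276) (nat_lit 151)) (XT.lf (nat_lit 0) (nat_lit 3487160611) (nat_lit 304) (nat_lit 6156426272) (nat_lit 380) (nat_lit 29206570368) (nat_lit 49) (nat_lit 5) (nat_lit 53) (nat_lit 5) (nat_lit 54) (nat_lit 5) (nat_lit 294) (nat_lit 276) (nat_lit 150)))) (XT.nd (nat_lit 156) (nat_lit 532) (nat_lit 0) (XT.nd (nat_lit 78) (nat_lit 0) (nat_lit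 0) (XT.lf (nat_lit 0) (nat_lit 13825433110) (nat_lit 380) (nat_lit 18466189619) (nat_lit 76) (nat_lit 7738595554) (nat_lit 49) (nat_lit 5) (nat_lit 54) (nat_lit 5) (nat_lit 50) (nat_lit 5) (nat_lit 295) (nat_lit 276) (nat_lit 149)) (XT.lf (nat_lit 0) (nat_lit 18314214898) (nat_lit 380) (nat_lit 828909436) (nat_lit 76) (nat_lit 22121275436) (nat_lit 49) (nat_lit 5) (nat_lit 54) (nat_lit 5) (nat_lit 50) (nat_lit 5) (nat_lit 296) (nat_lit 276) (nat_lit 148))) (XT.nd (nat_lit 78) (nat_lit 228) (nat_lit 0) (XT.lf (nat_lit 0) (nat_lit 18271767159) (nat_lit 304) (nat_lit 5038007087) (nat_lit 380) (nat_lit 19236408271) (nat_lit 45) (nat_lit 5) (nat_lit 49) (nat_lit 5) (nat_lit 50) (nat_lit 5) (nat_lit 297) (nat_lit 276) (nat_lit 147)) (XT.nd (nat_lit 78) (nat_lit 228) (nat_lit 0) (XT.lf (nat_lit 0) (nat_lit 28719102150) (nat_lit 380) (nat_lit 5691271613) (nat_lit 76) (nat_lit 9473489782) (nat_lit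 45) (nat_lit 5) (nat_lit 50) (nat_lit 5) (nat_lit 46) (nat_lit 5) (nat_lit 298) (nat_lit 276) (nat_lit 146)) (XT.lf (nat_lit 0) (nat_lit 14189377830) (nat_lit 228) (nat_lit 20510929097) (nat_lit 304) (nat_lit 10573059439) (nat_lit 42) (nat_lit 5) (nat_lit 45) (nat_lit 5) (nat_lit 46) (nat_lit 5) (nat_lit 299) (nat_lit 276) (nat_lit 145)))))) (XT.nd (nat_lit 312) (nat_lit 380) (nat_lit 0) (XT.nd (nat_lit 156) (nat_lit 304) (nat_lit 0) (XT.nd (nat_lit 78) (nat_lit 228) (nat_lit 0) (XT.lf (nat_lit 0) (nat_lit 35258489706) (nat_lit 228) (nat_lit 5815830933) (nat_lit 304) (nat_lit 5653344123) (nat_lit 42) (nat_lit 5) (nat_lit 45) (nat_lit 5) (nat_lit 46) (nat_lit 5) (nat_lit 300) (nat_lit 276) (nat_lit 144)) (XT.lf (nat_lit 0) (nat_lit 9269836951) (nat_lit 228) (nat_lit 38789510051) (nat_lit 304) (nat_lit 180722973) (nat_lit 39) (nat_lit 5) (nat_lit 42) (nat_lit 5) (nat_lit 43) (nat_lit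 5) (nat_lit 301) (nat_lit 276) (nat_lit 143))) (XT.nd (nat_lit 78) (nat_lit 228) (nat_lit 0) (XT.lf (nat_lit 0) (nat_lit 5677666027) (nat_lit 304) (nat_lit 18562991116) (nat_lit 76) (nat_lit 25568587001) (nat_lit 38) (nat_lit 5) (nat_lit 42) (nat_lit 5) (nat_lit 39) (nat_lit 5) (nat_lit 302) (nat_lit 276) (nat_lit 142)) (XT.lf (nat_lit 0) (nat_lit 2953148758) (nat_lit 228) (nat_lit 8913484667) (nat_lit 304) (nat_lit 39587915319) (nat_lit 35) (nat_lit 5) (nat_lit 38) (nat_lit 5) (nat_lit 39) (nat_lit 5) (nat_lit 303) (nat_lit 276) (nat_lit 141)))) (XT.nd (nat_lit 156) (nat_lit 380) (nat_lit 0) (XT.nd (nat_lit 78) (nat_lit 0) (nat_lit 0) (XT.lf (nat_lit 0) (nat_lit 18794358532) (nat_lit 304) (nat_lit 27097176584) (nat_lit 76) (nat_lit 7269124153) (nat_lit 35) (nat_lit 5) (nat_lit 39) (nat_lit 5) (nat_lit 36) (nat_lit 5) (nat_lit 304) (nat_lit 276) (nat_lit 140)) (XT.lf (nat_lit 0) (nat_lit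 26212384783) (nat_lit 304) (nat_lit 4771801025) (nat_lit 76) (nat_lit 23960699642) (nat_lit 35) (nat_lit 5) (nat_lit 39) (nat_lit 5) (nat_lit 36) (nat_lit 5) (nat_lit 305) (nat_lit 276) (nat_lit 139))) (XT.nd (nat_lit 78) (nat_lit 152) (nat_lit 0) (XT.lf (nat_lit 0) (nat_lit 19284263693) (nat_lit 228) (nat_lit 15016027375) (nat_lit 304) (nat_lit 22503088529) (nat_lit 32) (nat_lit 5) (nat_lit 35) (nat_lit 5) (nat_lit 36) (nat_lit 5) (nat_lit 306) (nat_lit 276) (nat_lit 138)) (XT.nd (nat_lit 78) (nat_lit 152) (nat_lit 0) (XT.lf (nat_lit 0) (nat_lit 42900004518) (nat_lit 304) (nat_lit 14073463591) (nat_lit 76) (nat_lit 1775965074) (nat_lit 32) (nat_lit 5) (nat_lit 36) (nat_lit 5) (nat_lit 33) (nat_lit 5) (nat_lit 307) (nat_lit 276) (nat_lit 137)) (XT.lf (nat_lit 0) (nat_lit 10636013459) (nat_lit 152) (nat_lit 41703953943) (nat_lit 228) (nat_lit 8432313932) (nat_lit 30) (nat_lit 5) (nat_lit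 32) (nat_lit 5) (nat_lit 33) (nat_lit 5) (nat_lit 308) (nat_lit 276) (nat_lit 136))))))))
noncomputable def xc212 : XT := (XT.nd (nat_lit 1404) (nat_lit 608) (nat_lit 0) (XT.nd (nat_lit 702) (nat_lit 456) (nat_lit 0) (XT.nd (nat_lit 312) (nat_lit 380) (nat_lit 0) (XT.nd (nat_lit 156) (nat_lit 228) (nat_lit 0) (XT.nd (nat_lit 78) (nat_lit 76) (nat_lit 0) (XT.lf (nat_lit 0) (nat_lit 37066894640) (nat_lit 152) (nat_lit 25421467711) (nat_lit 228) (nat_lit 396092677) (nat_lit 30) (nat_lit 5) (nat_lit 32) (nat_lit 5) (nat_lit 33) (nat_lit 5) (nat_lit 309) (nat_lit 276) (nat_lit 135)) (XT.lf (nat_lit 0) (nat_lit 7782696935) (nat_lit 228) (nat_lit 411081831) (nat_lit 76) (nat_lit 56902277682) (nat_lit 29) (nat_lit 5) (nat_lit 32) (nat_lit 5) (nat_lit 30) (nat_lit 5) (nat_lit 310) (nat_lit 276) (nat_lit 134))) (XT.nd (nat_lit 78) (nat_lit 0) (nat_lit 0) (XT.lf (nat_lit 0) (nat_lit 16940379328)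 (nat_lit 304) (nat_lit 40433450861) (nat_lit 76) (nat_lit 10014924026) (nat_lit 26) (nat_lit 5) (nat_lit 30) (nat_lit 5) (nat_lit 27) (nat_lit 5) (nat_lit 311) (nat_lit 276) (nat_lit 133)) (XT.lf (nat_lit 0) (nat_lit 26695618221) (nat_lit 304) (nat_lit 14228418871) (nat_lit 76) (nat_lit 28865070135) (nat_lit 26) (nat_lit 5) (nat_lit 30) (nat_lit 5) (nat_lit 27) (nat_lit 5) (nat_lit 312) (nat_lit 276) (nat_lit 132)))) (XT.nd (nat_lit 156) (nat_lit 228) (nat_lit 0) (XT.nd (nat_lit 78) (nat_lit 0) (nat_lit 0) (XT.lf (nat_lit 0) (nat_lit 13723707784) (nat_lit 152) (nat_lit 23427531231) (nat_lit 228) (nat_lit 35147611660) (nat_lit 24) (nat_lit 5) (nat_lit 26) (nat_lit 5) (nat_lit 27) (nat_lit 5) (nat_lit 313) (nat_lit 276) (nat_lit 131)) (XT.lf (nat_lit 0) (nat_lit 43565056789) (nat_lit 152) (nat_lit 4803945112) (nat_lit 228) (nat_lit 26553114949) (nat_lit 24) (nat_lit 5) (nat_lit 26) (nat_lit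 5) (nat_lit 27) (nat_lit 5) (nat_lit 314) (nat_lit 276) (nat_lit 130))) (XT.nd (nat_lit 78) (nat_lit 228) (nat_lit 0) (XT.lf (nat_lit 0) (nat_lit 60376415577) (nat_lit 228) (nat_lit 3010693331) (nat_lit 76) (nat_lit 14278002726) (nat_lit 24) (nat_lit 5) (nat_lit 27) (nat_lit 5) (nat_lit 25) (nat_lit 5) (nat_lit 315) (nat_lit 276) (nat_lit 129)) (XT.nd (nat_lit 78) (nat_lit 76) (nat_lit 0) (XT.lf (nat_lit 0) (nat_lit 27553928125) (nat_lit 152) (nat_lit 45937753333) (nat_lit 228) (nat_lit 7028203891) (nat_lit 22) (nat_lit 5) (nat_lit 24) (nat_lit 5) (nat_lit 25) (nat_lit 5) (nat_lit 316) (nat_lit 276) (nat_lit 128)) (XT.lf (nat_lit 0) (nat_lit 3675806599) (nat_lit 228) (nat_lit 23825077627) (nat_lit 76) (nat_lit 56011074394) (nat_lit 21) (nat_lit 5) (nat_lit 24) (nat_lit 5) (nat_lit 22) (nat_lit 5) (nat_lit 317) (nat_lit 276) (nat_lit 127)))))) (XT.nd (nat_lit 312) (nat_lit 152) (nat_lit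 0) (XT.nd (nat_lit 156) (nat_lit 152) (nat_lit 0) (XT.nd (nat_lit 78) (nat_lit 0) (nat_lit 0) (XT.lf (nat_lit 0) (nat_lit 6875572966) (nat_lit 152) (nat_lit 7909210929) (nat_lit 228) (nat_lit 71857795660) (nat_lit 19) (nat_lit 5) (nat_lit 21) (nat_lit 5) (nat_lit 22) (nat_lit 5) (nat_lit 318) (nat_lit 276) (nat_lit 126)) (XT.lf (nat_lit 0) (nat_lit 27055639044) (nat_lit 228) (nat_lit 50177595294) (nat_lit 76) (nat_lit 12666178440) (nat_lit 19) (nat_lit 5) (nat_lit 22) (nat_lit 5) (nat_lit 20) (nat_lit 5) (nat_lit 319) (nat_lit 276) (nat_lit 125))) (XT.nd (nat_lit 78) (nat_lit 152) (nat_lit 0) (XT.lf (nat_lit 0) (nat_lit 40068396307) (nat_lit 228) (nat_lit 19240413203) (nat_lit 76) (nat_lit 34003862746) (nat_lit 19) (nat_lit 5) (nat_lit 22) (nat_lit 5) (nat_lit 20) (nat_lit 5) (nat_lit 320) (nat_lit 276) (nat_lit 124)) (XT.lf (nat_lit 0) (nat_lit 13679514482) (nat_lit 152) (nat_lit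 40264614566) (nat_lit 228) (nat_lit 42941851219) (nat_lit 17) (nat_lit 5) (nat_lit 19) (nat_lit 5) (nat_lit 20) (nat_lit 5) (nat_lit 321) (nat_lit 276) (nat_lit 123)))) (XT.nd (nat_lit 156) (nat_lit 152) (nat_lit 0) (XT.nd (nat_lit 78) (nat_lit 0) (nat_lit 0) (XT.lf (nat_lit 0) (nat_lit 48911510193) (nat_lit 152) (nat_lit 19926775095) (nat_lit 228) (nat_lit 31783438870) (nat_lit 17) (nat_lit 5) (nat_lit 19) (nat_lit 5) (nat_lit 20) (nat_lit 5) (nat_lit 322) (nat_lit 276) (nat_lit 122)) (XT.lf (nat_lit 0) (nat_lit 84498282004) (nat_lit 228) (nat_lit 18663314285) (nat_lit 76) (nat_lit 1381604536) (nat_lit 17) (nat_lit 5) (nat_lit 20) (nat_lit 5) (nat_lit 18) (nat_lit 4) (nat_lit 323) (nat_lit 276) (nat_lit 121))) (XT.nd (nat_lit 78) (nat_lit 76) (nat_lit 0) (XT.lf (nat_lit 0) (nat_lit 16226840916) (nat_lit 76) (nat_lit 85293346128) (nat_lit 152) (nat_lit 7111620964) (nat_lit 16) (nat_lit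 5) (nat_lit 17) (nat_lit 5) (nat_lit 18) (nat_lit 4) (nat_lit 324) (nat_lit 276) (nat_lit 120)) (XT.nd (nat_lit 78) (nat_lit 0) (nat_lit 0) (XT.lf (nat_lit 0) (nat_lit 6581467465) (nat_lit 152) (nat_lit 59507551229) (nat_lit 76) (nat_lit 46814771670) (nat_lit 15) (nat_lit 5) (nat_lit 17) (nat_lit 5) (nat_lit 16) (nat_lit 5) (nat_lit 325) (nat_lit 276) (nat_lit 119)) (XT.lf (nat_lit 0) (nat_lit 20719164878) (nat_lit 152) (nat_lit 25083554087) (nat_lit 76) (nat_lit 71580877914) (nat_lit 15) (nat_lit 5) (nat_lit 17) (nat_lit 5) (nat_lit 16) (nat_lit 5) (nat_lit 326) (nat_lit 276) (nat_lit 118))))))) (XT.nd (nat_lit 702) (nat_lit 152) (nat_lit 0) (XT.nd (nat_lit 312) (nat_lit 304) (nat_lit 0) (XT.nd (nat_lit 156) (nat_lit 0) (nat_lit 0) (XT.nd (nat_lit 78) (nat_lit 0) (nat_lit 0) (XT.lf (nat_lit 0) (nat_lit 11425712724) (nat_lit 152) (nat_lit 24315423413) (nat_lit 228) (nat_lit 86337389867)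 (nat_lit 13) (nat_lit 5) (nat_lit 15) (nat_lit 5) (nat_lit 16) (nat_lit 5) (nat_lit 327) (nat_lit 276) (nat_lit 117)) (XT.lf (nat_lit 0) (nat_lit 50629689086) (nat_lit 152) (nat_lit 1308343171) (nat_lit 228) (nat_lit 75048979666) (nat_lit 13) (nat_lit 5) (nat_lit 15) (nat_lit 5) (nat_lit 16) (nat_lit 5) (nat_lit 328) (nat_lit 276) (nat_lit 116))) (XT.nd (nat_lit 78) (nat_lit 0) (nat_lit 0) (XT.lf (nat_lit 0) (nat_lit 69300572917) (nat_lit 228) (nat_lit 40705357051) (nat_lit 76) (nat_lit 22117203755) (nat_lit 13) (nat_lit 5) (nat_lit 16) (nat_lit 5) (nat_lit 14) (nat_lit 4) (nat_lit 329) (nat_lit 276) (nat_lit 115)) (XT.lf (nat_lit 0) (nat_lit 87551794940) (nat_lit 228) (nat_lit 3293727732) (nat_lit 76) (nat_lit 46669512722) (nat_lit 13) (nat_lit 5) (nat_lit 16) (nat_lit 5) (nat_lit 14) (nat_lit 4) (nat_lit 330) (nat_lit 276) (nat_lit 114)))) (XT.nd (nat_lit 156) (nat_lit 228) (nat_lit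 0) (XT.nd (nat_lit 78) (nat_lit 0) (nat_lit 0) (XT.lf (nat_lit 0) (nat_lit 37176962297) (nat_lit 76) (nat_lit 70118200987) (nat_lit 152) (nat_lit 35852391032) (nat_lit 12) (nat_lit 5) (nat_lit 13) (nat_lit 5) (nat_lit 14) (nat_lit 4) (nat_lit 331) (nat_lit 276) (nat_lit 113)) (XT.lf (nat_lit 0) (nat_lit 79784144730) (nat_lit 76) (nat_lit 48296503632) (nat_lit 152) (nat_lit 20978304763) (nat_lit 12) (nat_lit 5) (nat_lit 13) (nat_lit 5) (nat_lit 14) (nat_lit 4) (nat_lit 332) (nat_lit 276) (nat_lit 112))) (XT.nd (nat_lit 78) (nat_lit 228) (nat_lit 0) (XT.lf (nat_lit 0) (nat_lit 124520359725) (nat_lit 76) (nat_lit 25384255059) (nat_lit 152) (nat_lit 5361348032) (nat_lit 12) (nat_lit 5) (nat_lit 13) (nat_lit 5) (nat_lit 14) (nat_lit 4) (nat_lit 333) (nat_lit 276) (nat_lit 111)) (XT.nd (nat_lit 78) (nat_lit 0) (nat_lit 0) (XT.lf (nat_lit 0) (nat_lit 9851780997) (nat_lit 152) (nat_lit 984485189)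 (nat_lit 228) (nat_lit 150930790217) (nat_lit 9) (nat_lit 5) (nat_lit 11) (nat_lit 5) (nat_lit 12) (nat_lit 5) (nat_lit 334) (nat_lit 276) (nat_lit 110)) (XT.lf (nat_lit 0) (nat_lit 28576677906) (nat_lit 228) (nat_lit 115503070232) (nat_lit 76) (nat_lit 24463408442) (nat_lit 9) (nat_lit 5) (nat_lit 12) (nat_lit 5) (nat_lit 10) (nat_lit 4) (nat_lit 335) (nat_lit 276) (nat_lit 109)))))) (XT.nd (nat_lit 312) (nat_lit 76) (nat_lit 0) (XT.nd (nat_lit 156) (nat_lit 76) (nat_lit 0) (XT.nd (nat_lit 78) (nat_lit 0) (nat_lit 0) (XT.lf (nat_lit 0) (nat_lit 47219525492) (nat_lit 228) (nat_lit 77287631818) (nat_lit 76) (nat_lit 51150134753) (nat_lit 9) (nat_lit 5) (nat_lit 12) (nat_lit 5) (nat_lit 10) (nat_lit 4) (nat_lit 336) (nat_lit 276) (nat_lit 108)) (XT.lf (nat_lit 0) (nat_lit 66793826106) (nat_lit 228) (nat_lit 37162600454) (nat_lit 76) (nat_lit 79170743244) (nat_lit 9) (nat_lit 5) (nat_lit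 12) (nat_lit 5) (nat_lit 10) (nat_lit 4) (nat_lit 337) (nat_lit 276) (nat_lit 107))) (XT.nd (nat_lit 78) (nat_lit 0) (nat_lit 0) (XT.lf (nat_lit 0) (nat_lit 5131809604) (nat_lit 76) (nat_lit 82294497550) (nat_lit 152) (nat_lit 103540261974) (nat_lit 8) (nat_lit 5) (nat_lit 9) (nat_lit 5) (nat_lit 10) (nat_lit 4) (nat_lit 338) (nat_lit 276) (nat_lit 106)) (XT.lf (nat_lit 0) (nat_lit 50830037021) (nat_lit 76) (nat_lit 58889099345) (nat_lit 152) (nat_lit 89447366766) (nat_lit 8) (nat_lit 5) (nat_lit 9) (nat_lit 5) (nat_lit 10) (nat_lit 4) (nat_lit 339) (nat_lit 276) (nat_lit 105)))) (XT.nd (nat_lit 156) (nat_lit 76) (nat_lit 0) (XT.nd (nat_lit 78) (nat_lit 0) (nat_lit 0) (XT.lf (nat_lit 0) (nat_lit 98812123696) (nat_lit 76) (nat_lit 34313871427) (nat_lit 152) (nat_lit 74650470183) (nat_lit 8) (nat_lit 5) (nat_lit 9) (nat_lit 5) (nat_lit 10) (nat_lit 4) (nat_lit 340) (nat_lit 276) (nat_lit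 104)) (XT.lf (nat_lit 0) (nat_lit 149192312692) (nat_lit 76) (nat_lit 8510301350) (nat_lit 152) (nat_lit 59114341521) (nat_lit 8) (nat_lit 5) (nat_lit 9) (nat_lit 5) (nat_lit 10) (nat_lit 4) (nat_lit 341) (nat_lit 276) (nat_lit 103))) (XT.nd (nat_lit 78) (nat_lit 76) (nat_lit 0) (XT.lf (nat_lit 0) (nat_lit 183797642341) (nat_lit 152) (nat_lit 24509075496) (nat_lit 0) (nat_lit 17988274369) (nat_lit 8) (nat_lit 5) (nat_lit 10) (nat_lit 4) (nat_lit 8) (nat_lit 4) (nat_lit 342) (nat_lit 276) (nat_lit 102)) (XT.nd (nat_lit 78) (nat_lit 0) (nat_lit 0) (XT.lf (nat_lit 0) (nat_lit 21303677739) (nat_lit 76) (nat_lit 190365333032) (nat_lit 76) (nat_lit 24554341229) (nat_lit 7) (nat_lit 4) (nat_lit 8) (nat_lit 5) (nat_lit 8) (nat_lit 4) (nat_lit 343) (nat_lit 276) (nat_lit 101)) (XT.lf (nat_lit 0) (nat_lit 70257053292) (nat_lit 76) (nat_lit 171091444020) (nat_lit 76) (nat_lit 5278905709) (nat_lit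 7) (nat_lit 4) (nat_lit 8) (nat_lit 5) (nat_lit 8) (nat_lit 4) (nat_lit 344) (nat_lit 276) (nat_lit 100))))))))
noncomputable def xc213 : XT := (XT.nd (nat_lit 33228) (nat_lit 0) (nat_lit 2052) (XT.nd (nat_lit 32526) (nat_lit 0) (nat_lit 4408) (XT.nd (nat_lit 312) (nat_lit 76) (nat_lit 0) (XT.nd (nat_lit 156) (nat_lit 0) (nat_lit 0) (XT.nd (nat_lit 78) (nat_lit 0) (nat_lit 0) (XT.lf (nat_lit 0) (nat_lit 14480971227) (nat_lit 152) (nat_lit 136128020157) (nat_lit 76) (nat_lit 106931012615) (nat_lit 6) (nat_lit 5) (nat_lit 8) (nat_lit 5) (nat_lit 7) (nat_lit 4) (nat_lit 345) (nat_lit 276) (nat_lit 99)) (XT.lf (nat_lit 0) (nat_lit 35050953041) (nat_lit 152) (nat_lit 93960960165) (nat_lit 76) (nat_lit 139982019626) (nat_lit 6) (nat_lit 5) (nat_lit 8) (nat_lit 5) (nat_lit 7) (nat_lit 4) (nat_lit 346) (nat_lit 276) (nat_lit 98))) (XT.nd (nat_lit 78) (nat_lit 0) (nat_lit 0) (XT.lf (nat_lit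 0) (nat_lit 56648973829) (nat_lit 152) (nat_lit 49686353480) (nat_lit 76) (nat_lit 174685254397) (nat_lit 6) (nat_lit 5) (nat_lit 8) (nat_lit 5) (nat_lit 7) (nat_lit 4) (nat_lit 347) (nat_lit 276) (nat_lit 97)) (XT.lf (nat_lit 0) (nat_lit 79326457450) (nat_lit 152) (nat_lit 3198784371) (nat_lit 76) (nat_lit 211123343676) (nat_lit 6) (nat_lit 5) (nat_lit 8) (nat_lit 5) (nat_lit 7) (nat_lit 4) (nat_lit 348) (nat_lit 276) (nat_lit 96)))) (XT.nd (nat_lit 31980) (nat_lit 0) (nat_lit 4788) (XT.nd (nat_lit 31902) (nat_lit 0) (nat_lit 4788) (XT.lf (nat_lit 0) (nat_lit 47120584838) (nat_lit 76) (nat_lit 56752497460) (nat_lit 152) (nat_lit 202998144367) (nat_lit 5) (nat_lit 5) (nat_lit 6) (nat_lit 5) (nat_lit 7) (nat_lit 4) (nat_lit 349) (nat_lit 276) (nat_lit 95)) (XT.lf (nat_lit 0) (nat_lit 2020918922) (nat_lit 0) (nat_lit 2020918922) (nat_lit 684) (nat_lit 8487069135) (nat_lit 68) (nat_lit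 5) (nat_lit 68) (nat_lit 3) (nat_lit 77) (nat_lit 3) (nat_lit 277) (nat_lit 277) (nat_lit 166))) (XT.nd (nat_lit 78) (nat_lit 0) (nat_lit 0) (XT.lf (nat_lit 0) (nat_lit 8487449732) (nat_lit 684) (nat_lit 10594112266) (nat_lit 760) (nat_lit 6592270721) (nat_lit 68) (nat_lit 5) (nat_lit 77) (nat_lit 3) (nat_lit 78) (nat_lit 5) (nat_lit 278) (nat_lit 277) (nat_lit 165)) (XT.nd (nat_lit 78) (nat_lit 0) (nat_lit 76) (XT.lf (nat_lit 76) (nat_lit 288388645) (nat_lit 0) (nat_lit 8687729747) (nat_lit 760) (nat_lit 17341320651) (nat_lit 69) (nat_lit 5) (nat_lit 68) (nat_lit 5) (nat_lit 78) (nat_lit 5) (nat_lit 279) (nat_lit 277) (nat_lit 164)) (XT.lf (nat_lit 0) (nat_lit 9700546759) (nat_lit 684) (nat_lit 14942850344) (nat_lit 760) (nat_lit 2339283145) (nat_lit 69) (nat_lit 5) (nat_lit 78) (nat_lit 5) (nat_lit 79) (nat_lit 5) (nat_lit 280) (nat_lit 277) (nat_lit 163)))))) (XT.nd (nat_lit 312)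 (nat_lit 456) (nat_lit 0) (XT.nd (nat_lit 156) (nat_lit 0) (nat_lit 76) (XT.nd (nat_lit 78) (nat_lit 0) (nat_lit 0) (XT.lf (nat_lit 0) (nat_lit 10598111408) (nat_lit 684) (nat_lit 3448306469) (nat_lit 760) (nat_lit 13627939778) (nat_lit 69) (nat_lit 5) (nat_lit 78) (nat_lit 5) (nat_lit 79) (nat_lit 5) (nat_lit 281) (nat_lit 277) (nat_lit 162)) (XT.lf (nat_lit 76) (nat_lit 8902525405) (nat_lit 0) (nat_lit 2771777556) (nat_lit 760) (nat_lit 16719647478) (nat_lit 70) (nat_lit 5) (nat_lit 69) (nat_lit 5) (nat_lit 79) (nat_lit 5) (nat_lit 282) (nat_lit 277) (nat_lit 161))) (XT.nd (nat_lit 78) (nat_lit 0) (nat_lit 0) (XT.lf (nat_lit 0) (nat_lit 13000195277) (nat_lit 684) (nat_lit 7302117423) (nat_lit 760) (nat_lit 8837433636) (nat_lit 70) (nat_lit 5) (nat_lit 79) (nat_lit 5) (nat_lit 80) (nat_lit 5) (nat_lit 283) (nat_lit 277) (nat_lit 160)) (XT.lf (nat_lit 76) (nat_lit 5627898316) (nat_lit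 0) (nat_lit 8893009313) (nat_lit 760) (nat_lit 15395515308) (nat_lit 71) (nat_lit 5) (nat_lit 70) (nat_lit 5) (nat_lit 80) (nat_lit 5) (nat_lit 284) (nat_lit 277) (nat_lit 159)))) (XT.nd (nat_lit 156) (nat_lit 608) (nat_lit 0) (XT.nd (nat_lit 78) (nat_lit 0) (nat_lit 0) (XT.lf (nat_lit 0) (nat_lit 16286953624) (nat_lit 684) (nat_lit 11321698735) (nat_lit 760) (nat_lit 3114832466) (nat_lit 71) (nat_lit 5) (nat_lit 80) (nat_lit 5) (nat_lit 81) (nat_lit 5) (nat_lit 285) (nat_lit 277) (nat_lit 158)) (XT.lf (nat_lit 76) (nat_lit 2215096198) (nat_lit 0) (nat_lit 16102207930) (nat_lit 760) (nat_lit 13244811150) (nat_lit 72) (nat_lit 5) (nat_lit 71) (nat_lit 5) (nat_lit 81) (nat_lit 5) (nat_lit 286) (nat_lit 277) (nat_lit 157))) (XT.nd (nat_lit 78) (nat_lit 608) (nat_lit 0) (XT.lf (nat_lit 76) (nat_lit 16818368735) (nat_lit 0) (nat_lit 3818327724) (nat_lit 760) (nat_lit 11796619417) (nat_lit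 72) (nat_lit 5) (nat_lit 71) (nat_lit 5) (nat_lit 81) (nat_lit 5) (nat_lit 287) (nat_lit 277) (nat_lit 156)) (XT.nd (nat_lit 78) (nat_lit 684) (nat_lit 0) (XT.lf (nat_lit 0) (nat_lit 23209816945) (nat_lit 684) (nat_lit 1341521236) (nat_lit 76) (nat_lit 8789864527) (nat_lit 72) (nat_lit 5) (nat_lit 81) (nat_lit 5) (nat_lit 73) (nat_lit 5) (nat_lit 288) (nat_lit 277) (nat_lit 155)) (XT.lf (nat_lit 0) (nat_lit 14028662039) (nat_lit 684) (nat_lit 12160742491) (nat_lit 760) (nat_lit 8091202259) (nat_lit 63) (nat_lit 5) (nat_lit 72) (nat_lit 5) (nat_lit 73) (nat_lit 5) (nat_lit 289) (nat_lit 277) (nat_lit 154))))))) (XT.nd (nat_lit 702) (nat_lit 988) (nat_lit 0) (XT.nd (nat_lit 312) (nat_lit 608) (nat_lit 0) (XT.nd (nat_lit 156) (nat_lit 456) (nat_lit 0) (XT.nd (nat_lit 78) (nat_lit 304) (nat_lit 0) (XT.lf (nat_lit 0) (nat_lit 29350650170) (nat_lit 760) (nat_lit 5069022596) (nat_lit 76)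 (nat_lit 845687192) (nat_lit 63) (nat_lit 5) (nat_lit 73) (nat_lit 5) (nat_lit 64) (nat_lit 5) (nat_lit 290) (nat_lit 277) (nat_lit 153)) (XT.lf (nat_lit 0) (nat_lit 11023192756) (nat_lit 304) (nat_lit 22014725335) (nat_lit 380) (nat_lit 3243046902) (nat_lit 59) (nat_lit 5) (nat_lit 63) (nat_lit 5) (nat_lit 64) (nat_lit 5) (nat_lit 291) (nat_lit 277) (nat_lit 152))) (XT.nd (nat_lit 78) (nat_lit 456) (nat_lit 0) (XT.lf (nat_lit 0) (nat_lit 28092749757) (nat_lit 304) (nat_lit 8899262466) (nat_lit 380) (nat_lit 351226541) (nat_lit 59) (nat_lit 5) (nat_lit 63) (nat_lit 5) (nat_lit 64) (nat_lit 5) (nat_lit 292) (nat_lit 277) (nat_lit 151)) (XT.lf (nat_lit 0) (nat_lit 2795857491) (nat_lit 456) (nat_lit 30768988618) (nat_lit 76) (nat_lit 4881863731) (nat_lit 53) (nat_lit 5) (nat_lit 59) (nat_lit 5) (nat_lit 54) (nat_lit 5) (nat_lit 293) (nat_lit 277) (nat_lit 150)))) (XT.nd (nat_lit 156)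 (nat_lit 304) (nat_lit 0) (XT.nd (nat_lit 78) (nat_lit 304) (nat_lit 0) (XT.lf (nat_lit 0) (nat_lit 6390432761) (nat_lit 456) (nat_lit 13981574569) (nat_lit 76) (nat_lit 19217972265) (nat_lit 53) (nat_lit 5) (nat_lit 59) (nat_lit 5) (nat_lit 54) (nat_lit 5) (nat_lit 294) (nat_lit 277) (nat_lit 149)) (XT.lf (nat_lit 0) (nat_lit 3762455445) (nat_lit 304) (nat_lit 6457996462) (nat_lit 380) (nat_lit 30567184739) (nat_lit 49) (nat_lit 5) (nat_lit 53) (nat_lit 5) (nat_lit 54) (nat_lit 5) (nat_lit 295) (nat_lit 277) (nat_lit 148))) (XT.nd (nat_lit 78) (nat_lit 304) (nat_lit 0) (XT.lf (nat_lit 0) (nat_lit 14606974555) (nat_lit 380) (nat_lit 19288672744) (nat_lit 76) (nat_lit 8131288235) (nat_lit 49) (nat_lit 5) (nat_lit 54) (nat_lit 5) (nat_lit 50) (nat_lit 5) (nat_lit 296) (nat_lit 277) (nat_lit 147)) (XT.nd (nat_lit 78) (nat_lit 304) (nat_lit 0) (XT.lf (nat_lit 0) (nat_lit 19315896870) (nat_lit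 380) (nat_lit 774329807) (nat_lit 76) (nat_lit 23232827687) (nat_lit 49) (nat_lit 5) (nat_lit 54) (nat_lit 5) (nat_lit 50) (nat_lit 5) (nat_lit 297) (nat_lit 277) (nat_lit 146)) (XT.lf (nat_lit 0) (nat_lit 19279831825) (nat_lit 304) (nat_lit 5278783532) (nat_lit 380) (nat_lit 20110454539) (nat_lit 45) (nat_lit 5) (nat_lit 49) (nat_lit 5) (nat_lit 50) (nat_lit 5) (nat_lit 298) (nat_lit 277) (nat_lit 145)))))) (XT.nd (nat_lit 312) (nat_lit 532) (nat_lit 0) (XT.nd (nat_lit 156) (nat_lit 228) (nat_lit 0) (XT.nd (nat_lit 78) (nat_lit 228) (nat_lit 0) (XT.lf (nat_lit 0) (nat_lit 30234605901) (nat_lit 380) (nat_lit 5881811975) (nat_lit 76) (nat_lit 9957419390) (nat_lit 45) (nat_lit 5) (nat_lit 50) (nat_lit 5) (nat_lit 46) (nat_lit 5) (nat_lit 299) (nat_lit 277) (nat_lit 144)) (XT.lf (nat_lit 0) (nat_lit 14991353436) (nat_lit 228) (nat_lit 21521173738) (nat_lit 304) (nat_lit 11020416765) (nat_lit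 42) (nat_lit 5) (nat_lit 45) (nat_lit 5) (nat_lit 46) (nat_lit 5) (nat_lit 300) (nat_lit 277) (nat_lit 143))) (XT.nd (nat_lit 78) (nat_lit 228) (nat_lit 0) (XT.lf (nat_lit 0) (nat_lit 37109515825) (nat_lit 228) (nat_lit 6092049324) (nat_lit 304) (nat_lit 5858586904) (nat_lit 42) (nat_lit 5) (nat_lit 45) (nat_lit 5) (nat_lit 46) (nat_lit 5) (nat_lit 301) (nat_lit 277) (nat_lit 142)) (XT.lf (nat_lit 0) (nat_lit 9823618689) (nat_lit 228) (nat_lit 40710349155) (nat_lit 304) (nat_lit 114313884) (nat_lit 39) (nat_lit 5) (nat_lit 42) (nat_lit 5) (nat_lit 43) (nat_lit 5) (nat_lit 302) (nat_lit 277) (nat_lit 141)))) (XT.nd (nat_lit 156) (nat_lit 228) (nat_lit 0) (XT.nd (nat_lit 78) (nat_lit 228) (nat_lit 0) (XT.lf (nat_lit 0) (nat_lit 6031102204) (nat_lit 304) (nat_lit 19402660935) (nat_lit 76) (nat_lit 26862275937) (nat_lit 38) (nat_lit 5) (nat_lit 42) (nat_lit 5) (nat_lit 39) (nat_lit 5)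 (nat_lit 303) (nat_lit 277) (nat_lit 140)) (XT.lf (nat_lit 0) (nat_lit 3187858840) (nat_lit 228) (nat_lit 9339706224) (nat_lit 304) (nat_lit 41496150515) (nat_lit 35) (nat_lit 5) (nat_lit 38) (nat_lit 5) (nat_lit 39) (nat_lit 5) (nat_lit 304) (nat_lit 277) (nat_lit 139))) (XT.nd (nat_lit 78) (nat_lit 228) (nat_lit 0) (XT.lf (nat_lit 0) (nat_lit 19798746630) (nat_lit 304) (nat_lit 28366026332) (nat_lit 76) (nat_lit 7650513759) (nat_lit 35) (nat_lit 5) (nat_lit 39) (nat_lit 5) (nat_lit 36) (nat_lit 5) (nat_lit 305) (nat_lit 277) (nat_lit 138)) (XT.nd (nat_lit 78) (nat_lit 228) (nat_lit 0) (XT.lf (nat_lit 0) (nat_lit 27584594661) (nat_lit 304) (nat_lit 4928477666) (nat_lit 76) (nat_lit 25175814052) (nat_lit 35) (nat_lit 5) (nat_lit 39) (nat_lit 5) (nat_lit 36) (nat_lit 5) (nat_lit 306) (nat_lit 277) (nat_lit 137)) (XT.lf (nat_lit 0) (nat_lit 20329069104) (nat_lit 228) (nat_lit 15746152539)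 (nat_lit 304) (nat_lit 23565175121) (nat_lit 32) (nat_lit 5) (nat_lit 35) (nat_lit 5) (nat_lit 36) (nat_lit 5) (nat_lit 307) (nat_lit 277) (nat_lit 136))))))))
noncomputable def xc214 : XT := (XT.nd (nat_lit 1404) (nat_lit 608) (nat_lit 0) (XT.nd (nat_lit 702) (nat_lit 608) (nat_lit 0) (XT.nd (nat_lit 312) (nat_lit 380) (nat_lit 0) (XT.nd (nat_lit 156) (nat_lit 76) (nat_lit 0) (XT.nd (nat_lit 78) (nat_lit 152) (nat_lit 0) (XT.lf (nat_lit 0) (nat_lit 45102375063) (nat_lit 304) (nat_lit 14697687985) (nat_lit 76) (nat_lit 1883824696) (nat_lit 32) (nat_lit 5) (nat_lit 36) (nat_lit 5) (nat_lit 33) (nat_lit 5) (nat_lit 308) (nat_lit 277) (nat_lit 135)) (XT.lf (nat_lit 0) (nat_lit 11245981486) (nat_lit 152) (nat_lit 43766843098) (nat_lit 228) (nat_lit 8795136370) (nat_lit 30) (nat_lit 5) (nat_lit 32) (nat_lit 5) (nat_lit 33) (nat_lit 5) (nat_lit 309) (nat_lit 277) (nat_lit 134))) (XT.nd (nat_lit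 78) (nat_lit 76) (nat_lit 0) (XT.lf (nat_lit 0) (nat_lit 38994684471) (nat_lit 152) (nat_lit 26671294865) (nat_lit 228) (nat_lit 359903731) (nat_lit 30) (nat_lit 5) (nat_lit 32) (nat_lit 5) (nat_lit 33) (nat_lit 5) (nat_lit 310) (nat_lit 277) (nat_lit 133)) (XT.lf (nat_lit 0) (nat_lit 8223452196) (nat_lit 228) (nat_lit 358906785) (nat_lit 76) (nat_lit 59765797029) (nat_lit 29) (nat_lit 5) (nat_lit 32) (nat_lit 5) (nat_lit 30) (nat_lit 5) (nat_lit 311) (nat_lit 277) (nat_lit 132)))) (XT.nd (nat_lit 156) (nat_lit 152) (nat_lit 0) (XT.nd (nat_lit 78) (nat_lit 0) (nat_lit 0) (XT.lf (nat_lit 0) (nat_lit 17838009972) (nat_lit 304) (nat_lit 42381269113) (nat_lit 76) (nat_lit 10536265839) (nat_lit 26) (nat_lit 5) (nat_lit 30) (nat_lit 5) (nat_lit 27) (nat_lit 5) (nat_lit 312) (nat_lit 277) (nat_lit 131)) (XT.lf (nat_lit 0) (nat_lit 28078600730) (nat_lit 304) (nat_lit 14869502393) (nat_lit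 76) (nat_lit 30327938510) (nat_lit 26) (nat_lit 5) (nat_lit 30) (nat_lit 5) (nat_lit 27) (nat_lit 5) (nat_lit 313) (nat_lit 277) (nat_lit 130))) (XT.nd (nat_lit 78) (nat_lit 0) (nat_lit 0) (XT.lf (nat_lit 0) (nat_lit 14479096120) (nat_lit 152) (nat_lit 24576691582) (nat_lit 228) (nat_lit 36855550576) (nat_lit 24) (nat_lit 5) (nat_lit 26) (nat_lit 5) (nat_lit 27) (nat_lit 5) (nat_lit 314) (nat_lit 277) (nat_lit 129)) (XT.nd (nat_lit 78) (nat_lit 0) (nat_lit 0) (XT.lf (nat_lit 0) (nat_lit 45809217196) (nat_lit 152) (nat_lit 5022984072) (nat_lit 228) (nat_lit 27833683394) (nat_lit 24) (nat_lit 5) (nat_lit 26) (nat_lit 5) (nat_lit 27) (nat_lit 5) (nat_lit 315) (nat_lit 277) (nat_lit 128)) (XT.lf (nat_lit 0) (nat_lit 63438169320) (nat_lit 228) (nat_lit 3096546800) (nat_lit 76) (nat_lit 15011408670) (nat_lit 24) (nat_lit 5) (nat_lit 27) (nat_lit 5) (nat_lit 25) (nat_lit 5) (nat_lit 316)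 (nat_lit 277) (nat_lit 127)))))) (XT.nd (nat_lit 312) (nat_lit 228) (nat_lit 0) (XT.nd (nat_lit 156) (nat_lit 152) (nat_lit 0) (XT.nd (nat_lit 78) (nat_lit 76) (nat_lit 0) (XT.lf (nat_lit 0) (nat_lit 28995262484) (nat_lit 152) (nat_lit 48212885152) (nat_lit 228) (nat_lit 7335546659) (nat_lit 22) (nat_lit 5) (nat_lit 24) (nat_lit 5) (nat_lit 25) (nat_lit 5) (nat_lit 317) (nat_lit 277) (nat_lit 126)) (XT.lf (nat_lit 0) (nat_lit 3900222637) (nat_lit 228) (nat_lit 24954297929) (nat_lit 76) (nat_lit 58830921964) (nat_lit 21) (nat_lit 5) (nat_lit 24) (nat_lit 5) (nat_lit 22) (nat_lit 5) (nat_lit 318) (nat_lit 277) (nat_lit 125))) (XT.nd (nat_lit 78) (nat_lit 0) (nat_lit 0) (XT.lf (nat_lit 0) (nat_lit 7280384652) (nat_lit 152) (nat_lit 8283282484) (nat_lit 228) (nat_lit 75408980398) (nat_lit 19) (nat_lit 5) (nat_lit 21) (nat_lit 5) (nat_lit 22) (nat_lit 5) (nat_lit 319) (nat_lit 277) (nat_lit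 124)) (XT.lf (nat_lit 0) (nat_lit 28446495272) (nat_lit 228) (nat_lit 52626703540) (nat_lit 76) (nat_lit 13319205847) (nat_lit 19) (nat_lit 5) (nat_lit 22) (nat_lit 5) (nat_lit 20) (nat_lit 5) (nat_lit 320) (nat_lit 277) (nat_lit 123)))) (XT.nd (nat_lit 156) (nat_lit 76) (nat_lit 0) (XT.nd (nat_lit 78) (nat_lit 152) (nat_lit 0) (XT.lf (nat_lit 0) (nat_lit 42108077337) (nat_lit 228) (nat_lit 20145508607) (nat_lit 76) (nat_lit 35722835393) (nat_lit 19) (nat_lit 5) (nat_lit 22) (nat_lit 5) (nat_lit 20) (nat_lit 5) (nat_lit 321) (nat_lit 277) (nat_lit 122)) (XT.lf (nat_lit 0) (nat_lit 14419497312) (nat_lit 152) (nat_lit 42257247106) (nat_lit 228) (nat_lit 45051696349) (nat_lit 17) (nat_lit 5) (nat_lit 19) (nat_lit 5) (nat_lit 20) (nat_lit 5) (nat_lit 322) (nat_lit 277) (nat_lit 121))) (XT.nd (nat_lit 78) (nat_lit 76) (nat_lit 0) (XT.lf (nat_lit 0) (nat_lit 51410425804) (nat_lit 152) (nat_lit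 20903496528) (nat_lit 228) (nat_lit 33337137070) (nat_lit 17) (nat_lit 5) (nat_lit 19) (nat_lit 5) (nat_lit 20) (nat_lit 5) (nat_lit 323) (nat_lit 277) (nat_lit 120)) (XT.nd (nat_lit 78) (nat_lit 76) (nat_lit 0) (XT.lf (nat_lit 0) (nat_lit 88755604733) (nat_lit 228) (nat_lit 19544304014) (nat_lit 76) (nat_lit 1468769949) (nat_lit 17) (nat_lit 5) (nat_lit 20) (nat_lit 5) (nat_lit 18) (nat_lit 4) (nat_lit 324) (nat_lit 277) (nat_lit 119)) (XT.lf (nat_lit 0) (nat_lit 17089517399) (nat_lit 76) (nat_lit 89538345832) (nat_lit 152) (nat_lit 7433893036) (nat_lit 16) (nat_lit 5) (nat_lit 17) (nat_lit 5) (nat_lit 18) (nat_lit 4) (nat_lit 325) (nat_lit 277) (nat_lit 118))))))) (XT.nd (nat_lit 702) (nat_lit 304) (nat_lit 0) (XT.nd (nat_lit 312) (nat_lit 76) (nat_lit 0) (XT.nd (nat_lit 156) (nat_lit 152) (nat_lit 0) (XT.nd (nat_lit 78) (nat_lit 0) (nat_lit 0) (XT.lf (nat_lit 0) (nat_lit 6941248344)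 (nat_lit 152) (nat_lit 62432970189) (nat_lit 76) (nat_lit 49173172642) (nat_lit 15) (nat_lit 5) (nat_lit 17) (nat_lit 5) (nat_lit 16) (nat_lit 5) (nat_lit 326) (nat_lit 277) (nat_lit 117)) (XT.lf (nat_lit 0) (nat_lit 21784368365) (nat_lit 152) (nat_lit 26290152171) (nat_lit 76) (nat_lit 75176743131) (nat_lit 15) (nat_lit 5) (nat_lit 17) (nat_lit 5) (nat_lit 16) (nat_lit 5) (nat_lit 327) (nat_lit 277) (nat_lit 116))) (XT.nd (nat_lit 78) (nat_lit 0) (nat_lit 0) (XT.lf (nat_lit 0) (nat_lit 12043810568) (nat_lit 152) (nat_lit 25512965859) (nat_lit 228) (nat_lit 90624198330) (nat_lit 13) (nat_lit 5) (nat_lit 15) (nat_lit 5) (nat_lit 16) (nat_lit 5) (nat_lit 328) (nat_lit 277) (nat_lit 115)) (XT.lf (nat_lit 0) (nat_lit 53205756595) (nat_lit 152) (nat_lit 1356399639) (nat_lit 228) (nat_lit 78772799096) (nat_lit 13) (nat_lit 5) (nat_lit 15) (nat_lit 5) (nat_lit 16) (nat_lit 5) (nat_lit 329)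 (nat_lit 277) (nat_lit 114)))) (XT.nd (nat_lit 156) (nat_lit 76) (nat_lit 0) (XT.nd (nat_lit 78) (nat_lit 0) (nat_lit 0) (XT.lf (nat_lit 0) (nat_lit 72791785766) (nat_lit 228) (nat_lit 42697082813) (nat_lit 76) (nat_lit 23239068743) (nat_lit 13) (nat_lit 5) (nat_lit 16) (nat_lit 5) (nat_lit 14) (nat_lit 4) (nat_lit 330) (nat_lit 277) (nat_lit 113)) (XT.lf (nat_lit 0) (nat_lit 91954322024) (nat_lit 228) (nat_lit 3416945462) (nat_lit 76) (nat_lit 49018231025) (nat_lit 13) (nat_lit 5) (nat_lit 16) (nat_lit 5) (nat_lit 14) (nat_lit 4) (nat_lit 331) (nat_lit 277) (nat_lit 112))) (XT.nd (nat_lit 78) (nat_lit 0) (nat_lit 0) (XT.lf (nat_lit 0) (nat_lit 39076610219) (nat_lit 76) (nat_lit 73607698073) (nat_lit 152) (nat_lit 37619364600) (nat_lit 12) (nat_lit 5) (nat_lit 13) (nat_lit 5) (nat_lit 14) (nat_lit 4) (nat_lit 332) (nat_lit 277) (nat_lit 111)) (XT.nd (nat_lit 78) (nat_lit 0) (nat_lit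 0) (XT.lf (nat_lit 0) (nat_lit 83812208926) (nat_lit 76) (nat_lit 50695697420) (nat_lit 152) (nat_lit 22002795256) (nat_lit 12) (nat_lit 5) (nat_lit 13) (nat_lit 5) (nat_lit 14) (nat_lit 4) (nat_lit 333) (nat_lit 277) (nat_lit 110)) (XT.lf (nat_lit 0) (nat_lit 130783384339) (nat_lit 76) (nat_lit 26638580769) (nat_lit 152) (nat_lit 5606153771) (nat_lit 12) (nat_lit 5) (nat_lit 13) (nat_lit 5) (nat_lit 14) (nat_lit 4) (nat_lit 334) (nat_lit 277) (nat_lit 109)))))) (XT.nd (nat_lit 312) (nat_lit 76) (nat_lit 0) (XT.nd (nat_lit 156) (nat_lit 0) (nat_lit 0) (XT.nd (nat_lit 78) (nat_lit 0) (nat_lit 0) (XT.lf (nat_lit 0) (nat_lit 10381546129) (nat_lit 152) (nat_lit 1018558689) (nat_lit 228) (nat_lit 158454170398) (nat_lit 9) (nat_lit 5) (nat_lit 11) (nat_lit 5) (nat_lit 12) (nat_lit 5) (nat_lit 335) (nat_lit 277) (nat_lit 108)) (XT.lf (nat_lit 0) (nat_lit 30026713580) (nat_lit 228) (nat_lit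 121241963226) (nat_lit 76) (nat_lit 25700546331) (nat_lit 9) (nat_lit 5) (nat_lit 12) (nat_lit 5) (nat_lit 10) (nat_lit 4) (nat_lit 336) (nat_lit 277) (nat_lit 107))) (XT.nd (nat_lit 78) (nat_lit 0) (nat_lit 0) (XT.lf (nat_lit 0) (nat_lit 49600693937) (nat_lit 228) (nat_lit 81117479583) (nat_lit 76) (nat_lit 53720943841) (nat_lit 9) (nat_lit 5) (nat_lit 12) (nat_lit 5) (nat_lit 10) (nat_lit 4) (nat_lit 337) (nat_lit 277) (nat_lit 106)) (XT.lf (nat_lit 0) (nat_lit 70152748050) (nat_lit 228) (nat_lit 38987841119) (nat_lit 76) (nat_lit 83141949311) (nat_lit 9) (nat_lit 5) (nat_lit 12) (nat_lit 5) (nat_lit 10) (nat_lit 4) (nat_lit 338) (nat_lit 277) (nat_lit 105)))) (XT.nd (nat_lit 156) (nat_lit 0) (nat_lit 0) (XT.nd (nat_lit 78) (nat_lit 0) (nat_lit 0) (XT.lf (nat_lit 0) (nat_lit 5420758969) (nat_lit 76) (nat_lit 86395683650) (nat_lit 152) (nat_lit 108697487024) (nat_lit 8) (nat_lit 5)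 (nat_lit 9) (nat_lit 5) (nat_lit 10) (nat_lit 4) (nat_lit 339) (nat_lit 277) (nat_lit 104)) (XT.lf (nat_lit 0) (nat_lit 53402356857) (nat_lit 76) (nat_lit 61820660238) (nat_lit 152) (nat_lit 93900889343) (nat_lit 8) (nat_lit 5) (nat_lit 9) (nat_lit 5) (nat_lit 10) (nat_lit 4) (nat_lit 340) (nat_lit 277) (nat_lit 103))) (XT.nd (nat_lit 78) (nat_lit 0) (nat_lit 0) (XT.lf (nat_lit 0) (nat_lit 103782080343) (nat_lit 76) (nat_lit 36017284928) (nat_lit 152) (nat_lit 78365045349) (nat_lit 8) (nat_lit 5) (nat_lit 9) (nat_lit 5) (nat_lit 10) (nat_lit 4) (nat_lit 341) (nat_lit 277) (nat_lit 102)) (XT.nd (nat_lit 78) (nat_lit 0) (nat_lit 0) (XT.lf (nat_lit 0) (nat_lit 156679881148) (nat_lit 76) (nat_lit 8924121112) (nat_lit 152) (nat_lit 62052964936) (nat_lit 8) (nat_lit 5) (nat_lit 9) (nat_lit 5) (nat_lit 10) (nat_lit 4) (nat_lit 342) (nat_lit 277) (nat_lit 101)) (XT.lf (nat_lit 0) (nat_lit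 193003181708) (nat_lit 152) (nat_lit 25707285109) (nat_lit 0) (nat_lit 18898469975) (nat_lit 8) (nat_lit 5) (nat_lit 10) (nat_lit 4) (nat_lit 8) (nat_lit 4) (nat_lit 343) (nat_lit 277) (nat_lit 100))))))))
noncomputable def xc215 : XT := (XT.nd (nat_lit 33306) (nat_lit 0) (nat_lit 1976) (XT.nd (nat_lit 32604) (nat_lit 0) (nat_lit 4788) (XT.nd (nat_lit 312) (nat_lit 0) (nat_lit 0) (XT.nd (nat_lit 156) (nat_lit 76) (nat_lit 0) (XT.nd (nat_lit 78) (nat_lit 0) (nat_lit 0) (XT.lf (nat_lit 0) (nat_lit 22395666365) (nat_lit 76) (nat_lit 199872125108) (nat_lit 76) (nat_lit 25765940513) (nat_lit 7) (nat_lit 4) (nat_lit 8) (nat_lit 5) (nat_lit 8) (nat_lit 4) (nat_lit 344) (nat_lit 277) (nat_lit 99)) (XT.lf (nat_lit 0) (nat_lit 73795434280) (nat_lit 76) (nat_lit 179635088053) (nat_lit 76) (nat_lit 5527500731) (nat_lit 7) (nat_lit 4) (nat_lit 8) (nat_lit 5) (nat_lit 8) (nat_lit 4) (nat_lit 345)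 (nat_lit 277) (nat_lit 98))) (XT.nd (nat_lit 78) (nat_lit 0) (nat_lit 0) (XT.lf (nat_lit 0) (nat_lit 15219171178) (nat_lit 152) (nat_lit 142909622336) (nat_lit 76) (nat_lit 112287484883) (nat_lit 6) (nat_lit 5) (nat_lit 8) (nat_lit 5) (nat_lit 7) (nat_lit 4) (nat_lit 346) (nat_lit 277) (nat_lit 97)) (XT.lf (nat_lit 0) (nat_lit 36816978207) (nat_lit 152) (nat_lit 98635390241) (nat_lit 76) (nat_lit 146990569786) (nat_lit 6) (nat_lit 5) (nat_lit 8) (nat_lit 5) (nat_lit 7) (nat_lit 4) (nat_lit 347) (nat_lit 277) (nat_lit 96)))) (XT.nd (nat_lit 32058) (nat_lit 0) (nat_lit 4712) (XT.nd (nat_lit 78) (nat_lit 0) (nat_lit 0) (XT.lf (nat_lit 0) (nat_lit 59494258249) (nat_lit 152) (nat_lit 52148177885) (nat_lit 76) (nat_lit 183428516334) (nat_lit 6) (nat_lit 5) (nat_lit 8) (nat_lit 5) (nat_lit 7) (nat_lit 4) (nat_lit 348) (nat_lit 277) (nat_lit 95)) (XT.lf (nat_lit 0) (nat_lit 83305004826) (nat_lit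 152) (nat_lit 3337301429) (nat_lit 76) (nat_lit 221688081544) (nat_lit 6) (nat_lit 5) (nat_lit 8) (nat_lit 5) (nat_lit 7) (nat_lit 4) (nat_lit 349) (nat_lit 277) (nat_lit 94))) (XT.nd (nat_lit 78) (nat_lit 0) (nat_lit 0) (XT.lf (nat_lit 0) (nat_lit 2168898088) (nat_lit 0) (nat_lit 2168898088) (nat_lit 684) (nat_lit 8812525694) (nat_lit 68) (nat_lit 5) (nat_lit 68) (nat_lit 3) (nat_lit 77) (nat_lit 3) (nat_lit 278) (nat_lit 278) (nat_lit 164)) (XT.nd (nat_lit 78) (nat_lit 0) (nat_lit 0) (XT.lf (nat_lit 0) (nat_lit 9089219706) (nat_lit 684) (nat_lit 11023443714) (nat_lit 760) (nat_lit 6835348897) (nat_lit 68) (nat_lit 5) (nat_lit 77) (nat_lit 3) (nat_lit 78) (nat_lit 5) (nat_lit 279) (nat_lit 278) (nat_lit 163)) (XT.lf (nat_lit 76) (nat_lit 401563305) (nat_lit 0) (nat_lit 9193852841) (nat_lit 760) (nat_lit 18028758673) (nat_lit 69) (nat_lit 5) (nat_lit 68) (nat_lit 5) (nat_lit 78) (nat_lit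 5) (nat_lit 280) (nat_lit 278) (nat_lit 162)))))) (XT.nd (nat_lit 312) (nat_lit 0) (nat_lit 76) (XT.nd (nat_lit 156) (nat_lit 0) (nat_lit 0) (XT.nd (nat_lit 78) (nat_lit 0) (nat_lit 0) (XT.lf (nat_lit 0) (nat_lit 10346880597) (nat_lit 684) (nat_lit 15586172467) (nat_lit 760) (nat_lit 2390113410) (nat_lit 69) (nat_lit 5) (nat_lit 78) (nat_lit 5) (nat_lit 79) (nat_lit 5) (nat_lit 281) (nat_lit 278) (nat_lit 161)) (XT.lf (nat_lit 0) (nat_lit 11281642216) (nat_lit 684) (nat_lit 3521845227) (nat_lit 760) (nat_lit 14246352108) (nat_lit 69) (nat_lit 5) (nat_lit 78) (nat_lit 5) (nat_lit 79) (nat_lit 5) (nat_lit 282) (nat_lit 278) (nat_lit 160))) (XT.nd (nat_lit 78) (nat_lit 0) (nat_lit 76) (XT.lf (nat_lit 76) (nat_lit 9444933457) (nat_lit 0) (nat_lit 2960913243) (nat_lit 760) (nat_lit 17399881521) (nat_lit 70) (nat_lit 5) (nat_lit 69) (nat_lit 5) (nat_lit 79) (nat_lit 5) (nat_lit 283) (nat_lit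 278) (nat_lit 159)) (XT.lf (nat_lit 0) (nat_lit 13790242579) (nat_lit 684) (nat_lit 7566279771) (nat_lit 760) (nat_lit 9232706275) (nat_lit 70) (nat_lit 5) (nat_lit 79) (nat_lit 5) (nat_lit 80) (nat_lit 5) (nat_lit 284) (nat_lit 278) (nat_lit 158)))) (XT.nd (nat_lit 156) (nat_lit 0) (nat_lit 76) (XT.nd (nat_lit 78) (nat_lit 0) (nat_lit 76) (XT.lf (nat_lit 76) (nat_lit 6008608633) (nat_lit 0) (nat_lit 9373264052) (nat_lit 760) (nat_lit 16023146222) (nat_lit 71) (nat_lit 5) (nat_lit 70) (nat_lit 5) (nat_lit 80) (nat_lit 5) (nat_lit 285) (nat_lit 278) (nat_lit 157)) (XT.lf (nat_lit 0) (nat_lit 17229266822) (nat_lit 684) (nat_lit 11785787043) (nat_lit 760) (nat_lit 3237750552) (nat_lit 71) (nat_lit 5) (nat_lit 80) (nat_lit 5) (nat_lit 81) (nat_lit 5) (nat_lit 286) (nat_lit 278) (nat_lit 156))) (XT.nd (nat_lit 78) (nat_lit 0) (nat_lit 0) (XT.lf (nat_lit 76) (nat_lit 2426202529) (nat_lit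 0) (nat_lit 16930405493) (nat_lit 760) (nat_lit 13777006442) (nat_lit 72) (nat_lit 5) (nat_lit 71) (nat_lit 5) (nat_lit 81) (nat_lit 5) (nat_lit 287) (nat_lit 278) (nat_lit 155)) (XT.nd (nat_lit 78) (nat_lit 0) (nat_lit 76) (XT.lf (nat_lit 76) (nat_lit 17754860050) (nat_lit 0) (nat_lit 4031231888) (nat_lit 760) (nat_lit 12262597754) (nat_lit 72) (nat_lit 5) (nat_lit 71) (nat_lit 5) (nat_lit 81) (nat_lit 5) (nat_lit 288) (nat_lit 278) (nat_lit 154)) (XT.lf (nat_lit 0) (nat_lit 24481943379) (nat_lit 684) (nat_lit 1311256207) (nat_lit 76) (nat_lit 9209087247) (nat_lit 72) (nat_lit 5) (nat_lit 81) (nat_lit 5) (nat_lit 73) (nat_lit 5) (nat_lit 289) (nat_lit 278) (nat_lit 153))))))) (XT.nd (nat_lit 702) (nat_lit 1292) (nat_lit 0) (XT.nd (nat_lit 312) (nat_lit 760) (nat_lit 0) (XT.nd (nat_lit 156) (nat_lit 304) (nat_lit 0) (XT.nd (nat_lit 78) (nat_lit 0) (nat_lit 0) (XT.lf (nat_lit 0) (nat_lit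 14825866215) (nat_lit 684) (nat_lit 12780823403) (nat_lit 760) (nat_lit 8382181308) (nat_lit 63) (nat_lit 5) (nat_lit 72) (nat_lit 5) (nat_lit 73) (nat_lit 5) (nat_lit 290) (nat_lit 278) (nat_lit 152)) (XT.lf (nat_lit 0) (nat_lit 30920684415) (nat_lit 760) (nat_lit 5225592475) (nat_lit 76) (nat_lit 876868399) (nat_lit 63) (nat_lit 5) (nat_lit 73) (nat_lit 5) (nat_lit 64) (nat_lit 5) (nat_lit 291) (nat_lit 278) (nat_lit 151))) (XT.nd (nat_lit 78) (nat_lit 0) (nat_lit 0) (XT.lf (nat_lit 0) (nat_lit 11669671044) (nat_lit 304) (nat_lit 23119251843) (nat_lit 380) (nat_lit 3300794356) (nat_lit 59) (nat_lit 5) (nat_lit 63) (nat_lit 5) (nat_lit 64) (nat_lit 5) (nat_lit 292) (nat_lit 278) (nat_lit 150)) (XT.lf (nat_lit 0) (nat_lit 29588166912) (nat_lit 304) (nat_lit 9347835344) (nat_lit 380) (nat_lit 269354639) (nat_lit 59) (nat_lit 5) (nat_lit 63) (nat_lit 5) (nat_lit 64) (nat_lit 5) (nat_lit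 293) (nat_lit 278) (nat_lit 149)))) (XT.nd (nat_lit 156) (nat_lit 304) (nat_lit 0) (XT.nd (nat_lit 78) (nat_lit 0) (nat_lit 0) (XT.lf (nat_lit 0) (nat_lit 3028760140) (nat_lit 456) (nat_lit 32209731852) (nat_lit 76) (nat_lit 5125603668) (nat_lit 53) (nat_lit 5) (nat_lit 59) (nat_lit 5) (nat_lit 54) (nat_lit 5) (nat_lit 294) (nat_lit 278) (nat_lit 148)) (XT.lf (nat_lit 0) (nat_lit 6798630374) (nat_lit 456) (nat_lit 14587599777) (nat_lit 76) (nat_lit 20178534451) (nat_lit 53) (nat_lit 5) (nat_lit 59) (nat_lit 5) (nat_lit 54) (nat_lit 5) (nat_lit 295) (nat_lit 278) (nat_lit 147))) (XT.nd (nat_lit 78) (nat_lit 0) (nat_lit 0) (XT.lf (nat_lit 0) (nat_lit 4042130875) (nat_lit 304) (nat_lit 6775226332) (nat_lit 380) (nat_lit 32005100305) (nat_lit 49) (nat_lit 5) (nat_lit 53) (nat_lit 5) (nat_lit 54) (nat_lit 5) (nat_lit 296) (nat_lit 278) (nat_lit 146)) (XT.nd (nat_lit 78) (nat_lit 0) (nat_lit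 0) (XT.lf (nat_lit 0) (nat_lit 15419200642) (nat_lit 380) (nat_lit 20161653905) (nat_lit 76) (nat_lit 8543079770) (nat_lit 49) (nat_lit 5) (nat_lit 54) (nat_lit 5) (nat_lit 50) (nat_lit 5) (nat_lit 297) (nat_lit 278) (nat_lit 145)) (XT.lf (nat_lit 0) (nat_lit 20359670151) (nat_lit 380) (nat_lit 725948700) (nat_lit 76) (nat_lit 24399447284) (nat_lit 49) (nat_lit 5) (nat_lit 54) (nat_lit 5) (nat_lit 50) (nat_lit 5) (nat_lit 298) (nat_lit 278) (nat_lit 144)))))) (XT.nd (nat_lit 390) (nat_lit 532) (nat_lit 0) (XT.nd (nat_lit 156) (nat_lit 456) (nat_lit 0) (XT.nd (nat_lit 78) (nat_lit 0) (nat_lit 0) (XT.lf (nat_lit 0) (nat_lit 20329516214) (nat_lit 304) (nat_lit 5532632995) (nat_lit 380) (nat_lit 21036363528) (nat_lit 45) (nat_lit 5) (nat_lit 49) (nat_lit 5) (nat_lit 50) (nat_lit 5) (nat_lit 299) (nat_lit 278) (nat_lit 143)) (XT.lf (nat_lit 0) (nat_lit 31818489160) (nat_lit 380) (nat_lit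 6090620743) (nat_lit 76) (nat_lit 10464592055) (nat_lit 45) (nat_lit 5) (nat_lit 50) (nat_lit 5) (nat_lit 46) (nat_lit 5) (nat_lit 300) (nat_lit 278) (nat_lit 142))) (XT.nd (nat_lit 78) (nat_lit 228) (nat_lit 0) (XT.lf (nat_lit 0) (nat_lit 15824827426) (nat_lit 228) (nat_lit 22583353229) (nat_lit 304) (nat_lit 11497700056) (nat_lit 42) (nat_lit 5) (nat_lit 45) (nat_lit 5) (nat_lit 46) (nat_lit 5) (nat_lit 301) (nat_lit 278) (nat_lit 141)) (XT.nd (nat_lit 78) (nat_lit 228) (nat_lit 0) (XT.lf (nat_lit 0) (nat_lit 39044902394) (nat_lit 228) (nat_lit 6383433508) (nat_lit 304) (nat_lit 6081290014) (nat_lit 42) (nat_lit 5) (nat_lit 45) (nat_lit 5) (nat_lit 46) (nat_lit 5) (nat_lit 302) (nat_lit 278) (nat_lit 140)) (XT.lf (nat_lit 0) (nat_lit 10396695216) (nat_lit 228) (nat_lit 42728962850) (nat_lit 304) (nat_lit 51598524) (nat_lit 39) (nat_lit 5) (nat_lit 42) (nat_lit 5) (nat_lit 43) (nat_lit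 5) (nat_lit 303) (nat_lit 278) (nat_lit 139))))) (XT.nd (nat_lit 156) (nat_lit 228) (nat_lit 0) (XT.nd (nat_lit 78) (nat_lit 228) (nat_lit 0) (XT.lf (nat_lit 0) (nat_lit 6395743822) (nat_lit 304) (nat_lit 20292540252) (nat_lit 76) (nat_lit 28219230628) (nat_lit 38) (nat_lit 5) (nat_lit 42) (nat_lit 5) (nat_lit 39) (nat_lit 5) (nat_lit 304) (nat_lit 278) (nat_lit 138)) (XT.lf (nat_lit 0) (nat_lit 3426211097) (nat_lit 228) (nat_lit 9789047385) (nat_lit 304) (nat_lit 43506413306) (nat_lit 35) (nat_lit 5) (nat_lit 38) (nat_lit 5) (nat_lit 39) (nat_lit 5) (nat_lit 305) (nat_lit 278) (nat_lit 137))) (XT.nd (nat_lit 78) (nat_lit 228) (nat_lit 0) (XT.lf (nat_lit 0) (nat_lit 20847341713) (nat_lit 304) (nat_lit 29706314878) (nat_lit 76) (nat_lit 8049305569) (nat_lit 35) (nat_lit 5) (nat_lit 39) (nat_lit 5) (nat_lit 36) (nat_lit 5) (nat_lit 306) (nat_lit 278) (nat_lit 136)) (XT.nd (nat_lit 78)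 (nat_lit 228) (nat_lit 0) (XT.lf (nat_lit 0) (nat_lit 29019688920) (nat_lit 304) (nat_lit 5100603672) (nat_lit 76) (nat_lit 26450096298) (nat_lit 35) (nat_lit 5) (nat_lit 39) (nat_lit 5) (nat_lit 36) (nat_lit 5) (nat_lit 307) (nat_lit 278) (nat_lit 135)) (XT.lf (nat_lit 0) (nat_lit 21418622084) (nat_lit 228) (nat_lit 16514706240) (nat_lit 304) (nat_lit 24686229492) (nat_lit 32) (nat_lit 5) (nat_lit 35) (nat_lit 5) (nat_lit 36) (nat_lit 5) (nat_lit 308) (nat_lit 278) (nat_lit 134))))))))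
noncomputable def xc216 : XT := (XT.nd (nat_lit 1404) (nat_lit 608) (nat_lit 0) (XT.nd (nat_lit 702) (nat_lit 608) (nat_lit 0) (XT.nd (nat_lit 312) (nat_lit 380) (nat_lit 0) (XT.nd (nat_lit 156) (nat_lit 76) (nat_lit 0) (XT.nd (nat_lit 78) (nat_lit 152) (nat_lit 0) (XT.lf (nat_lit 0) (nat_lit 47409530388) (nat_lit 304) (nat_lit 15360509994) (nat_lit 76) (nat_lit 1995305154) (nat_lit 32) (nat_lit 5) (nat_lit 36) (nat_lit 5) (nat_lit 33) (nat_lit 5) (nat_lit 309) (nat_lit 278) (nat_lit 133)) (XT.lf (nat_lit 0) (nat_lit 11879180654) (nat_lit 152) (nat_lit 45934950747) (nat_lit 228) (nat_lit 9181565970) (nat_lit 30) (nat_lit 5) (nat_lit 32) (nat_lit 5) (nat_lit 33) (nat_lit 5) (nat_lit 310) (nat_lit 278) (nat_lit 132))) (XT.nd (nat_lit 78) (nat_lit 76) (nat_lit 0) (XT.lf (nat_lit 0) (nat_lit 41011942594) (nat_lit 152) (nat_lit 27985588651) (nat_lit 228) (nat_lit 327111091) (nat_lit 30)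 (nat_lit 5) (nat_lit 32) (nat_lit 5) (nat_lit 33) (nat_lit 5) (nat_lit 311) (nat_lit 278) (nat_lit 131)) (XT.lf (nat_lit 0) (nat_lit 8681446044) (nat_lit 228) (nat_lit 310884653) (nat_lit 76) (nat_lit 62770781178) (nat_lit 29) (nat_lit 5) (nat_lit 32) (nat_lit 5) (nat_lit 30) (nat_lit 5) (nat_lit 312) (nat_lit 278) (nat_lit 130)))) (XT.nd (nat_lit 156) (nat_lit 152) (nat_lit 0) (XT.nd (nat_lit 78) (nat_lit 0) (nat_lit 0) (XT.lf (nat_lit 0) (nat_lit 18775816755) (nat_lit 304) (nat_lit 44433344549) (nat_lit 76) (nat_lit 11081759958) (nat_lit 26) (nat_lit 5) (nat_lit 30) (nat_lit 5) (nat_lit 27) (nat_lit 5) (nat_lit 313) (nat_lit 278) (nat_lit 129)) (XT.lf (nat_lit 0) (nat_lit 29526251037) (nat_lit 304) (nat_lit 15549179399) (nat_lit 76) (nat_lit 31862126700) (nat_lit 26) (nat_lit 5) (nat_lit 30) (nat_lit 5) (nat_lit 27) (nat_lit 5) (nat_lit 314) (nat_lit 278) (nat_lit 128))) (XT.nd (nat_lit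 78) (nat_lit 0) (nat_lit 0) (XT.lf (nat_lit 0) (nat_lit 15265820038) (nat_lit 152) (nat_lit 25785375403) (nat_lit 228) (nat_lit 38653483056) (nat_lit 24) (nat_lit 5) (nat_lit 26) (nat_lit 5) (nat_lit 27) (nat_lit 5) (nat_lit 315) (nat_lit 278) (nat_lit 127)) (XT.nd (nat_lit 78) (nat_lit 0) (nat_lit 0) (XT.lf (nat_lit 0) (nat_lit 48159458163) (nat_lit 152) (nat_lit 5254942077) (nat_lit 228) (nat_lit 29182657993) (nat_lit 24) (nat_lit 5) (nat_lit 26) (nat_lit 5) (nat_lit 27) (nat_lit 5) (nat_lit 316) (nat_lit 278) (nat_lit 126)) (XT.lf (nat_lit 0) (nat_lit 66649019250) (nat_lit 228) (nat_lit 3192706387) (nat_lit 76) (nat_lit 15779671446) (nat_lit 24) (nat_lit 5) (nat_lit 27) (nat_lit 5) (nat_lit 25) (nat_lit 5) (nat_lit 317) (nat_lit 278) (nat_lit 125)))))) (XT.nd (nat_lit 312) (nat_lit 228) (nat_lit 0) (XT.nd (nat_lit 156) (nat_lit 152) (nat_lit 0) (XT.nd (nat_lit 78) (nat_lit 76) (nat_lit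 0) (XT.lf (nat_lit 0) (nat_lit 30502747107) (nat_lit 152) (nat_lit 50603796214) (nat_lit 228) (nat_lit 7662353538) (nat_lit 22) (nat_lit 5) (nat_lit 24) (nat_lit 5) (nat_lit 25) (nat_lit 5) (nat_lit 318) (nat_lit 278) (nat_lit 124)) (XT.lf (nat_lit 0) (nat_lit 4132082483) (nat_lit 228) (nat_lit 26145746541) (nat_lit 76) (nat_lit 61789968153) (nat_lit 21) (nat_lit 5) (nat_lit 24) (nat_lit 5) (nat_lit 22) (nat_lit 5) (nat_lit 319) (nat_lit 278) (nat_lit 123))) (XT.nd (nat_lit 78) (nat_lit 0) (nat_lit 0) (XT.lf (nat_lit 0) (nat_lit 7699762649) (nat_lit 152) (nat_lit 8678046163) (nat_lit 228) (nat_lit 79141601712) (nat_lit 19) (nat_lit 5) (nat_lit 21) (nat_lit 5) (nat_lit 22) (nat_lit 5) (nat_lit 320) (nat_lit 278) (nat_lit 122)) (XT.lf (nat_lit 0) (nat_lit 29903354525) (nat_lit 228) (nat_lit 55203824188) (nat_lit 76) (nat_lit 14003051387) (nat_lit 19) (nat_lit 5) (nat_lit 22) (nat_lit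 5) (nat_lit 20) (nat_lit 5) (nat_lit 321) (nat_lit 278) (nat_lit 121)))) (XT.nd (nat_lit 156) (nat_lit 76) (nat_lit 0) (XT.nd (nat_lit 78) (nat_lit 152) (nat_lit 0) (XT.lf (nat_lit 0) (nat_lit 44246371194) (nat_lit 228) (nat_lit 21101151153) (nat_lit 76) (nat_lit 37526010731) (nat_lit 19) (nat_lit 5) (nat_lit 22) (nat_lit 5) (nat_lit 20) (nat_lit 5) (nat_lit 322) (nat_lit 278) (nat_lit 120)) (XT.lf (nat_lit 0) (nat_lit 15191272274) (nat_lit 152) (nat_lit 44351426297) (nat_lit 228) (nat_lit 47270496648) (nat_lit 17) (nat_lit 5) (nat_lit 19) (nat_lit 5) (nat_lit 20) (nat_lit 5) (nat_lit 323) (nat_lit 278) (nat_lit 119))) (XT.nd (nat_lit 78) (nat_lit 76) (nat_lit 0) (XT.lf (nat_lit 0) (nat_lit 54029328138) (nat_lit 152) (nat_lit 21930877864) (nat_lit 228) (nat_lit 34971818192) (nat_lit 17) (nat_lit 5) (nat_lit 19) (nat_lit 5) (nat_lit 20) (nat_lit 5) (nat_lit 324) (nat_lit 278) (nat_lit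 118)) (XT.nd (nat_lit 78) (nat_lit 76) (nat_lit 0) (XT.lf (nat_lit 0) (nat_lit 93222780551) (nat_lit 228) (nat_lit 20474194058) (nat_lit 76) (nat_lit 1558612243) (nat_lit 17) (nat_lit 5) (nat_lit 20) (nat_lit 5) (nat_lit 18) (nat_lit 4) (nat_lit 325) (nat_lit 278) (nat_lit 117)) (XT.lf (nat_lit 0) (nat_lit 17990555117) (nat_lit 76) (nat_lit 93997424029) (nat_lit 152) (nat_lit 7775375465) (nat_lit 16) (nat_lit 5) (nat_lit 17) (nat_lit 5) (nat_lit 18) (nat_lit 4) (nat_lit 326) (nat_lit 278) (nat_lit 116))))))) (XT.nd (nat_lit 702) (nat_lit 304) (nat_lit 0) (XT.nd (nat_lit 312) (nat_lit 76) (nat_lit 0) (XT.nd (nat_lit 156) (nat_lit 152) (nat_lit 0) (XT.nd (nat_lit 78) (nat_lit 0) (nat_lit 0) (XT.lf (nat_lit 0) (nat_lit 7316163374) (nat_lit 152) (nat_lit 65509304774) (nat_lit 76) (nat_lit 51647851581) (nat_lit 15) (nat_lit 5) (nat_lit 17) (nat_lit 5) (nat_lit 16) (nat_lit 5) (nat_lit 327)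 (nat_lit 278) (nat_lit 115)) (XT.lf (nat_lit 0) (nat_lit 22900113081) (nat_lit 152) (nat_lit 27561503661) (nat_lit 76) (nat_lit 78950837723) (nat_lit 15) (nat_lit 5) (nat_lit 17) (nat_lit 5) (nat_lit 16) (nat_lit 5) (nat_lit 328) (nat_lit 278) (nat_lit 114))) (XT.nd (nat_lit 78) (nat_lit 0) (nat_lit 0) (XT.lf (nat_lit 0) (nat_lit 12688461148) (nat_lit 152) (nat_lit 26772080161) (nat_lit 228) (nat_lit 95128142006) (nat_lit 13) (nat_lit 5) (nat_lit 15) (nat_lit 5) (nat_lit 16) (nat_lit 5) (nat_lit 329) (nat_lit 278) (nat_lit 113)) (XT.lf (nat_lit 0) (nat_lit 55906482570) (nat_lit 152) (nat_lit 1408472963) (nat_lit 228) (nat_lit 82685471202) (nat_lit 13) (nat_lit 5) (nat_lit 15) (nat_lit 5) (nat_lit 16) (nat_lit 5) (nat_lit 330) (nat_lit 278) (nat_lit 112)))) (XT.nd (nat_lit 156) (nat_lit 76) (nat_lit 0) (XT.nd (nat_lit 78) (nat_lit 0) (nat_lit 0) (XT.lf (nat_lit 0) (nat_lit 76455124898)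 (nat_lit 228) (nat_lit 44792442995) (nat_lit 76) (nat_lit 24415539005) (nat_lit 13) (nat_lit 5) (nat_lit 16) (nat_lit 5) (nat_lit 14) (nat_lit 4) (nat_lit 331) (nat_lit 278) (nat_lit 111)) (XT.lf (nat_lit 0) (nat_lit 96574657024) (nat_lit 228) (nat_lit 3550179441) (nat_lit 76) (nat_lit 51482968124) (nat_lit 13) (nat_lit 5) (nat_lit 16) (nat_lit 5) (nat_lit 14) (nat_lit 4) (nat_lit 332) (nat_lit 278) (nat_lit 110))) (XT.nd (nat_lit 78) (nat_lit 0) (nat_lit 0) (XT.lf (nat_lit 0) (nat_lit 41067447358) (nat_lit 76) (nat_lit 77273195934) (nat_lit 152) (nat_lit 39477071167) (nat_lit 12) (nat_lit 5) (nat_lit 13) (nat_lit 5) (nat_lit 14) (nat_lit 4) (nat_lit 333) (nat_lit 278) (nat_lit 109)) (XT.nd (nat_lit 78) (nat_lit 0) (nat_lit 0) (XT.lf (nat_lit 0) (nat_lit 88038063780) (nat_lit 76) (nat_lit 53216304155) (nat_lit 152) (nat_lit 23080781054) (nat_lit 12) (nat_lit 5) (nat_lit 13) (nat_lit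 5) (nat_lit 14) (nat_lit 4) (nat_lit 334) (nat_lit 278) (nat_lit 108)) (XT.lf (nat_lit 0) (nat_lit 137356119659) (nat_lit 76) (nat_lit 27957006822) (nat_lit 152) (nat_lit 5865362446) (nat_lit 12) (nat_lit 5) (nat_lit 13) (nat_lit 5) (nat_lit 14) (nat_lit 4) (nat_lit 335) (nat_lit 278) (nat_lit 107)))))) (XT.nd (nat_lit 312) (nat_lit 76) (nat_lit 0) (XT.nd (nat_lit 156) (nat_lit 0) (nat_lit 0) (XT.nd (nat_lit 78) (nat_lit 0) (nat_lit 0) (XT.lf (nat_lit 0) (nat_lit 10934343237) (nat_lit 152) (nat_lit 1055744438) (nat_lit 228) (nat_lit 166355872724) (nat_lit 9) (nat_lit 5) (nat_lit 11) (nat_lit 5) (nat_lit 12) (nat_lit 5) (nat_lit 336) (nat_lit 278) (nat_lit 106)) (XT.lf (nat_lit 0) (nat_lit 31547279898) (nat_lit 228) (nat_lit 127271172029) (nat_lit 76) (nat_lit 26998242552) (nat_lit 9) (nat_lit 5) (nat_lit 12) (nat_lit 5) (nat_lit 10) (nat_lit 4) (nat_lit 337) (nat_lit 278) (nat_lit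 105))) (XT.nd (nat_lit 78) (nat_lit 0) (nat_lit 0) (XT.lf (nat_lit 0) (nat_lit 52099043528) (nat_lit 228) (nat_lit 85142030364) (nat_lit 76) (nat_lit 56419056656) (nat_lit 9) (nat_lit 5) (nat_lit 12) (nat_lit 5) (nat_lit 10) (nat_lit 4) (nat_lit 338) (nat_lit 278) (nat_lit 104)) (XT.lf (nat_lit 0) (nat_lit 73677828209) (nat_lit 228) (nat_lit 40907401558) (nat_lit 76) (nat_lit 87310537846) (nat_lit 9) (nat_lit 5) (nat_lit 12) (nat_lit 5) (nat_lit 10) (nat_lit 4) (nat_lit 339) (nat_lit 278) (nat_lit 103)))) (XT.nd (nat_lit 156) (nat_lit 0) (nat_lit 0) (XT.nd (nat_lit 78) (nat_lit 0) (nat_lit 0) (XT.lf (nat_lit 0) (nat_lit 5721147380) (nat_lit 76) (nat_lit 90703187761) (nat_lit 152) (nat_lit 114114413032) (nat_lit 8) (nat_lit 5) (nat_lit 9) (nat_lit 5) (nat_lit 10) (nat_lit 4) (nat_lit 340) (nat_lit 278) (nat_lit 102)) (XT.lf (nat_lit 0) (nat_lit 56100427522) (nat_lit 76) (nat_lit 64899997944)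 (nat_lit 152) (nat_lit 98578840150) (nat_lit 8) (nat_lit 5) (nat_lit 9) (nat_lit 5) (nat_lit 10) (nat_lit 4) (nat_lit 341) (nat_lit 278) (nat_lit 101))) (XT.nd (nat_lit 78) (nat_lit 0) (nat_lit 0) (XT.lf (nat_lit 0) (nat_lit 108997806094) (nat_lit 76) (nat_lit 37807010788) (nat_lit 152) (nat_lit 82267017940) (nat_lit 8) (nat_lit 5) (nat_lit 9) (nat_lit 5) (nat_lit 10) (nat_lit 4) (nat_lit 342) (nat_lit 278) (nat_lit 100)) (XT.nd (nat_lit 78) (nat_lit 0) (nat_lit 0) (XT.lf (nat_lit 0) (nat_lit 164539229238) (nat_lit 76) (nat_lit 9359719181) (nat_lit 152) (nat_lit 65140108729) (nat_lit 8) (nat_lit 5) (nat_lit 9) (nat_lit 5) (nat_lit 10) (nat_lit 4) (nat_lit 343) (nat_lit 278) (nat_lit 99)) (XT.lf (nat_lit 0) (nat_lit 202667542380) (nat_lit 152) (nat_lit 26967938107) (nat_lit 0) (nat_lit 19853172965) (nat_lit 8) (nat_lit 5) (nat_lit 10) (nat_lit 4) (nat_lit 8) (nat_lit 4) (nat_lit 344)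 (nat_lit 278) (nat_lit 98))))))))
noncomputable def xc217 : XT := (XT.nd (nat_lit 33462) (nat_lit 0) (nat_lit 1976) (XT.nd (nat_lit 32760) (nat_lit 0) (nat_lit 4332) (XT.nd (nat_lit 32370) (nat_lit 0) (nat_lit 4712) (XT.nd (nat_lit 156) (nat_lit 76) (nat_lit 0) (XT.nd (nat_lit 78) (nat_lit 0) (nat_lit 0) (XT.lf (nat_lit 0) (nat_lit 23539762372) (nat_lit 76) (nat_lit 209855323586) (nat_lit 76) (nat_lit 27039618240) (nat_lit 7) (nat_lit 4) (nat_lit 8) (nat_lit 5) (nat_lit 8) (nat_lit 4) (nat_lit 345) (nat_lit 278) (nat_lit 97)) (XT.lf (nat_lit 0) (nat_lit 77508360935) (nat_lit 76) (nat_lit 188606930286) (nat_lit 76) (nat_lit 5789952625) (nat_lit 7) (nat_lit 4) (nat_lit 8) (nat_lit 5) (nat_lit 8) (nat_lit 4) (nat_lit 346) (nat_lit 278) (nat_lit 96))) (XT.nd (nat_lit 78) (nat_lit 0) (nat_lit 0) (XT.lf (nat_lit 0) (nat_lit 15992965465) (nat_lit 152) (nat_lit 150032610183) (nat_lit 76) (nat_lit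 117910858346) (nat_lit 6) (nat_lit 5) (nat_lit 8) (nat_lit 5) (nat_lit 7) (nat_lit 4) (nat_lit 347) (nat_lit 278) (nat_lit 95)) (XT.lf (nat_lit 0) (nat_lit 38670051621) (nat_lit 152) (nat_lit 103545737592) (nat_lit 76) (nat_lit 154348668959) (nat_lit 6) (nat_lit 5) (nat_lit 8) (nat_lit 5) (nat_lit 7) (nat_lit 4) (nat_lit 348) (nat_lit 278) (nat_lit 94)))) (XT.nd (nat_lit 156) (nat_lit 0) (nat_lit 0) (XT.nd (nat_lit 78) (nat_lit 0) (nat_lit 0) (XT.lf (nat_lit 0) (nat_lit 2319912807) (nat_lit 0) (nat_lit 2319912807) (nat_lit 684) (nat_lit 9163449577) (nat_lit 68) (nat_lit 5) (nat_lit 68) (nat_lit 3) (nat_lit 77) (nat_lit 3) (nat_lit 279) (nat_lit 279) (nat_lit 162)) (XT.lf (nat_lit 0) (nat_lit 9704585442) (nat_lit 684) (nat_lit 11483573572) (nat_lit 760) (nat_lit 7098626220) (nat_lit 68) (nat_lit 5) (nat_lit 77) (nat_lit 3) (nat_lit 78) (nat_lit 5) (nat_lit 280) (nat_lit 279) (nat_lit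 161))) (XT.nd (nat_lit 78) (nat_lit 0) (nat_lit 76) (XT.lf (nat_lit 76) (nat_lit 511215373) (nat_lit 0) (nat_lit 9718612700) (nat_lit 760) (nat_lit 18767268706) (nat_lit 69) (nat_lit 5) (nat_lit 68) (nat_lit 5) (nat_lit 78) (nat_lit 5) (nat_lit 281) (nat_lit 279) (nat_lit 160)) (XT.nd (nat_lit 78) (nat_lit 0) (nat_lit 0) (XT.lf (nat_lit 0) (nat_lit 11010534377) (nat_lit 684) (nat_lit 16271312933) (nat_lit 760) (nat_lit 2449633691) (nat_lit 69) (nat_lit 5) (nat_lit 78) (nat_lit 5) (nat_lit 79) (nat_lit 5) (nat_lit 282) (nat_lit 279) (nat_lit 159)) (XT.lf (nat_lit 0) (nat_lit 11985066947) (nat_lit 684) (nat_lit 3608253529) (nat_lit 760) (nat_lit 14901540771) (nat_lit 69) (nat_lit 5) (nat_lit 78) (nat_lit 5) (nat_lit 79) (nat_lit 5) (nat_lit 283) (nat_lit 279) (nat_lit 158)))))) (XT.nd (nat_lit 312) (nat_lit 456) (nat_lit 0) (XT.nd (nat_lit 156) (nat_lit 0) (nat_lit 76) (XT.nd (nat_lit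 78) (nat_lit 0) (nat_lit 76) (XT.lf (nat_lit 76) (nat_lit 10005417574) (nat_lit 0) (nat_lit 3154806351) (nat_lit 760) (nat_lit 18128607270) (nat_lit 70) (nat_lit 5) (nat_lit 69) (nat_lit 5) (nat_lit 79) (nat_lit 5) (nat_lit 284) (nat_lit 279) (nat_lit 157)) (XT.lf (nat_lit 0) (nat_lit 14606772882) (nat_lit 684) (nat_lit 7853035009) (nat_lit 760) (nat_lit 9652074882) (nat_lit 70) (nat_lit 5) (nat_lit 79) (nat_lit 5) (nat_lit 80) (nat_lit 5) (nat_lit 285) (nat_lit 279) (nat_lit 156))) (XT.nd (nat_lit 78) (nat_lit 0) (nat_lit 76) (XT.lf (nat_lit 76) (nat_lit 6399121061) (nat_lit 0) (nat_lit 9874221380) (nat_lit 760) (nat_lit 16695373963) (nat_lit 71) (nat_lit 5) (nat_lit 70) (nat_lit 5) (nat_lit 80) (nat_lit 5) (nat_lit 286) (nat_lit 279) (nat_lit 155)) (XT.lf (nat_lit 0) (nat_lit 18206798659) (nat_lit 684) (nat_lit 12282562446) (nat_lit 760) (nat_lit 3369866163) (nat_lit 71) (nat_lit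 5) (nat_lit 80) (nat_lit 5) (nat_lit 81) (nat_lit 5) (nat_lit 287) (nat_lit 279) (nat_lit 154)))) (XT.nd (nat_lit 156) (nat_lit 608) (nat_lit 0) (XT.nd (nat_lit 78) (nat_lit 0) (nat_lit 0) (XT.lf (nat_lit 76) (nat_lit 2638534444) (nat_lit 0) (nat_lit 17797866509) (nat_lit 760) (nat_lit 14347901875) (nat_lit 72) (nat_lit 5) (nat_lit 71) (nat_lit 5) (nat_lit 81) (nat_lit 5) (nat_lit 288) (nat_lit 279) (nat_lit 153)) (XT.lf (nat_lit 76) (nat_lit 18729290470) (nat_lit 0) (nat_lit 4252737046) (nat_lit 760) (nat_lit 12763389652) (nat_lit 72) (nat_lit 5) (nat_lit 71) (nat_lit 5) (nat_lit 81) (nat_lit 5) (nat_lit 289) (nat_lit 279) (nat_lit 152))) (XT.nd (nat_lit 78) (nat_lit 684) (nat_lit 0) (XT.lf (nat_lit 0) (nat_lit 25807297315) (nat_lit 684) (nat_lit 1288527778) (nat_lit 76) (nat_lit 9651155662) (nat_lit 72) (nat_lit 5) (nat_lit 81) (nat_lit 5) (nat_lit 73) (nat_lit 5) (nat_lit 290) (nat_lit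 279) (nat_lit 151)) (XT.nd (nat_lit 78) (nat_lit 0) (nat_lit 0) (XT.lf (nat_lit 0) (nat_lit 15654026713) (nat_lit 684) (nat_lit 13430788643) (nat_lit 760) (nat_lit 8698269001) (nat_lit 63) (nat_lit 5) (nat_lit 72) (nat_lit 5) (nat_lit 73) (nat_lit 5) (nat_lit 291) (nat_lit 279) (nat_lit 150)) (XT.lf (nat_lit 0) (nat_lit 32559690732) (nat_lit 760) (nat_lit 5398997947) (nat_lit 76) (nat_lit 910640932) (nat_lit 63) (nat_lit 5) (nat_lit 73) (nat_lit 5) (nat_lit 64) (nat_lit 5) (nat_lit 292) (nat_lit 279) (nat_lit 149))))))) (XT.nd (nat_lit 702) (nat_lit 988) (nat_lit 0) (XT.nd (nat_lit 312) (nat_lit 608) (nat_lit 0) (XT.nd (nat_lit 156) (nat_lit 456) (nat_lit 0) (XT.nd (nat_lit 78) (nat_lit 0) (nat_lit 0) (XT.lf (nat_lit 0) (nat_lit 12339611422) (nat_lit 304) (nat_lit 24278652297) (nat_lit 380) (nat_lit 3371135761) (nat_lit 59) (nat_lit 5) (nat_lit 63) (nat_lit 5) (nat_lit 64) (nat_lit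 5) (nat_lit 293) (nat_lit 279) (nat_lit 148)) (XT.lf (nat_lit 0) (nat_lit 31149915092) (nat_lit 304) (nat_lit 9818501265) (nat_lit 380) (nat_lit 192633501) (nat_lit 59) (nat_lit 5) (nat_lit 63) (nat_lit 5) (nat_lit 64) (nat_lit 5) (nat_lit 294) (nat_lit 279) (nat_lit 147))) (XT.nd (nat_lit 78) (nat_lit 0) (nat_lit 0) (XT.lf (nat_lit 0) (nat_lit 3264651457) (nat_lit 456) (nat_lit 33731596045) (nat_lit 76) (nat_lit 5381563444) (nat_lit 53) (nat_lit 5) (nat_lit 59) (nat_lit 5) (nat_lit 54) (nat_lit 5) (nat_lit 295) (nat_lit 279) (nat_lit 146)) (XT.lf (nat_lit 0) (nat_lit 7218993617) (nat_lit 456) (nat_lit 15232577480) (nat_lit 76) (nat_lit 21187156023) (nat_lit 53) (nat_lit 5) (nat_lit 59) (nat_lit 5) (nat_lit 54) (nat_lit 5) (nat_lit 296) (nat_lit 279) (nat_lit 145)))) (XT.nd (nat_lit 156) (nat_lit 304) (nat_lit 0) (XT.nd (nat_lit 78) (nat_lit 0) (nat_lit 0) (XT.lf (nat_lit 0) (nat_lit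 4327278377) (nat_lit 304) (nat_lit 7108844833) (nat_lit 380) (nat_lit 33523320245) (nat_lit 49) (nat_lit 5) (nat_lit 53) (nat_lit 5) (nat_lit 54) (nat_lit 5) (nat_lit 297) (nat_lit 279) (nat_lit 144)) (XT.lf (nat_lit 0) (nat_lit 16264425853) (nat_lit 380) (nat_lit 21086786508) (nat_lit 76) (nat_lit 8974974914) (nat_lit 49) (nat_lit 5) (nat_lit 54) (nat_lit 5) (nat_lit 50) (nat_lit 5) (nat_lit 298) (nat_lit 279) (nat_lit 143))) (XT.nd (nat_lit 78) (nat_lit 304) (nat_lit 0) (XT.lf (nat_lit 0) (nat_lit 21448382400) (nat_lit 380) (nat_lit 683246047) (nat_lit 76) (nat_lit 25623935034) (nat_lit 49) (nat_lit 5) (nat_lit 54) (nat_lit 5) (nat_lit 50) (nat_lit 5) (nat_lit 299) (nat_lit 279) (nat_lit 142)) (XT.nd (nat_lit 78) (nat_lit 0) (nat_lit 0) (XT.lf (nat_lit 0) (nat_lit 21423717917) (nat_lit 304) (nat_lit 5800112977) (nat_lit 380) (nat_lit 22015969698) (nat_lit 45) (nat_lit 5) (nat_lit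 49) (nat_lit 5) (nat_lit 50) (nat_lit 5) (nat_lit 300) (nat_lit 279) (nat_lit 141)) (XT.lf (nat_lit 0) (nat_lit 33474858483) (nat_lit 380) (nat_lit 6317798646) (nat_lit 76) (nat_lit 10996258569) (nat_lit 45) (nat_lit 5) (nat_lit 50) (nat_lit 5) (nat_lit 46) (nat_lit 5) (nat_lit 301) (nat_lit 279) (nat_lit 140)))))) (XT.nd (nat_lit 312) (nat_lit 456) (nat_lit 0) (XT.nd (nat_lit 156) (nat_lit 304) (nat_lit 0) (XT.nd (nat_lit 78) (nat_lit 0) (nat_lit 0) (XT.lf (nat_lit 0) (nat_lit 16692174300) (nat_lit 228) (nat_lit 23699932050) (nat_lit 304) (nat_lit 12005702930) (nat_lit 42) (nat_lit 5) (nat_lit 45) (nat_lit 5) (nat_lit 46) (nat_lit 5) (nat_lit 302) (nat_lit 279) (nat_lit 139)) (XT.lf (nat_lit 0) (nat_lit 41069628946) (nat_lit 228) (nat_lit 6690615812) (nat_lit 304) (nat_lit 6321657249) (nat_lit 42) (nat_lit 5) (nat_lit 45) (nat_lit 5) (nat_lit 46) (nat_lit 5) (nat_lit 303) (nat_lit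 279) (nat_lit 138))) (XT.nd (nat_lit 78) (nat_lit 0) (nat_lit 0) (XT.lf (nat_lit 0) (nat_lit 7637986) (nat_lit 304) (nat_lit 44842311443) (nat_lit 76) (nat_lit 10983044354) (nat_lit 38) (nat_lit 5) (nat_lit 42) (nat_lit 5) (nat_lit 39) (nat_lit 5) (nat_lit 304) (nat_lit 279) (nat_lit 137)) (XT.lf (nat_lit 0) (nat_lit 6772752335) (nat_lit 304) (nat_lit 21234374766) (nat_lit 76) (nat_lit 29642746258) (nat_lit 38) (nat_lit 5) (nat_lit 42) (nat_lit 5) (nat_lit 39) (nat_lit 5) (nat_lit 305) (nat_lit 279) (nat_lit 136)))) (XT.nd (nat_lit 156) (nat_lit 228) (nat_lit 0) (XT.nd (nat_lit 78) (nat_lit 0) (nat_lit 0) (XT.lf (nat_lit 0) (nat_lit 3669140078) (nat_lit 228) (nat_lit 10262495990) (nat_lit 304) (nat_lit 45623189994) (nat_lit 35) (nat_lit 5) (nat_lit 38) (nat_lit 5) (nat_lit 39) (nat_lit 5) (nat_lit 306) (nat_lit 279) (nat_lit 135)) (XT.lf (nat_lit 0) (nat_lit 21942913109) (nat_lit 304)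 (nat_lit 31120870738) (nat_lit 76) (nat_lit 8466524698) (nat_lit 35) (nat_lit 5) (nat_lit 39) (nat_lit 5) (nat_lit 36) (nat_lit 5) (nat_lit 307) (nat_lit 279) (nat_lit 134))) (XT.nd (nat_lit 78) (nat_lit 228) (nat_lit 0) (XT.lf (nat_lit 0) (nat_lit 30521344137) (nat_lit 304) (nat_lit 5288243490) (nat_lit 76) (nat_lit 27786652400) (nat_lit 35) (nat_lit 5) (nat_lit 39) (nat_lit 5) (nat_lit 36) (nat_lit 5) (nat_lit 308) (nat_lit 279) (nat_lit 133)) (XT.nd (nat_lit 78) (nat_lit 0) (nat_lit 0) (XT.lf (nat_lit 0) (nat_lit 22555856612) (nat_lit 228) (nat_lit 17323431187) (nat_lit 304) (nat_lit 25868654903) (nat_lit 32) (nat_lit 5) (nat_lit 35) (nat_lit 5) (nat_lit 36) (nat_lit 5) (nat_lit 309) (nat_lit 279) (nat_lit 132)) (XT.lf (nat_lit 0) (nat_lit 49827205611) (nat_lit 304) (nat_lit 16063172781) (nat_lit 76) (nat_lit 2110752246) (nat_lit 32) (nat_lit 5) (nat_lit 36) (nat_lit 5) (nat_lit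 33) (nat_lit 5) (nat_lit 310) (nat_lit 279) (nat_lit 131))))))))
noncomputable def xc218 : XT := (XT.nd (nat_lit 1404) (nat_lit 608) (nat_lit 0) (XT.nd (nat_lit 702) (nat_lit 532) (nat_lit 0) (XT.nd (nat_lit 312) (nat_lit 304) (nat_lit 0) (XT.nd (nat_lit 156) (nat_lit 304) (nat_lit 0) (XT.nd (nat_lit 78) (nat_lit 0) (nat_lit 0) (XT.lf (nat_lit 0) (nat_lit 12537448162) (nat_lit 152) (nat_lit 48213344991) (nat_lit 228) (nat_lit 9592274910) (nat_lit 30) (nat_lit 5) (nat_lit 32) (nat_lit 5) (nat_lit 33) (nat_lit 5) (nat_lit 311) (nat_lit 279) (nat_lit 130)) (XT.lf (nat_lit 0) (nat_lit 43123785890) (nat_lit 152) (nat_lit 29367388756) (nat_lit 228) (nat_lit 297400589) (nat_lit 30) (nat_lit 5) (nat_lit 32) (nat_lit 5) (nat_lit 33) (nat_lit 5) (nat_lit 312) (nat_lit 279) (nat_lit 129))) (XT.nd (nat_lit 78) (nat_lit 228) (nat_lit 0) (XT.lf (nat_lit 0) (nat_lit 9157986589) (nat_lit 228) (nat_lit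 266594444) (nat_lit 76) (nat_lit 65924462457) (nat_lit 29) (nat_lit 5) (nat_lit 32) (nat_lit 5) (nat_lit 30) (nat_lit 5) (nat_lit 313) (nat_lit 279) (nat_lit 128)) (XT.lf (nat_lit 0) (nat_lit 19756245945) (nat_lit 304) (nat_lit 46594251667) (nat_lit 76) (nat_lit 11652792017) (nat_lit 26) (nat_lit 5) (nat_lit 30) (nat_lit 5) (nat_lit 27) (nat_lit 5) (nat_lit 314) (nat_lit 279) (nat_lit 127)))) (XT.nd (nat_lit 156) (nat_lit 152) (nat_lit 0) (XT.nd (nat_lit 78) (nat_lit 152) (nat_lit 0) (XT.lf (nat_lit 0) (nat_lit 31042219163) (nat_lit 304) (nat_lit 16268771599) (nat_lit 76) (nat_lit 33471370235) (nat_lit 26) (nat_lit 5) (nat_lit 30) (nat_lit 5) (nat_lit 27) (nat_lit 5) (nat_lit 315) (nat_lit 279) (nat_lit 126)) (XT.lf (nat_lit 0) (nat_lit 16086044475) (nat_lit 152) (nat_lit 27056366842) (nat_lit 228) (nat_lit 40545481426) (nat_lit 24) (nat_lit 5) (nat_lit 26) (nat_lit 5) (nat_lit 27)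 (nat_lit 5) (nat_lit 316) (nat_lit 279) (nat_lit 125))) (XT.nd (nat_lit 78) (nat_lit 152) (nat_lit 0) (XT.lf (nat_lit 0) (nat_lit 50621653390) (nat_lit 152) (nat_lit 5500282199) (nat_lit 228) (nat_lit 30603052053) (nat_lit 24) (nat_lit 5) (nat_lit 26) (nat_lit 5) (nat_lit 27) (nat_lit 5) (nat_lit 317) (nat_lit 279) (nat_lit 124)) (XT.nd (nat_lit 78) (nat_lit 152) (nat_lit 0) (XT.lf (nat_lit 0) (nat_lit 70016791268) (nat_lit 228) (nat_lit 3299128325) (nat_lit 76) (nat_lit 16584702494) (nat_lit 24) (nat_lit 5) (nat_lit 27) (nat_lit 5) (nat_lit 25) (nat_lit 5) (nat_lit 318) (nat_lit 279) (nat_lit 123)) (XT.lf (nat_lit 0) (nat_lit 32080239563) (nat_lit 152) (nat_lit 53116087434) (nat_lit 228) (nat_lit 8009216835) (nat_lit 22) (nat_lit 5) (nat_lit 24) (nat_lit 5) (nat_lit 25) (nat_lit 5) (nat_lit 319) (nat_lit 279) (nat_lit 122)))))) (XT.nd (nat_lit 312) (nat_lit 304) (nat_lit 0) (XT.nd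 (nat_lit 156) (nat_lit 0) (nat_lit 0) (XT.nd (nat_lit 78) (nat_lit 152) (nat_lit 0) (XT.lf (nat_lit 0) (nat_lit 4372109477) (nat_lit 228) (nat_lit 27401998688) (nat_lit 76) (nat_lit 64895339659) (nat_lit 21) (nat_lit 5) (nat_lit 24) (nat_lit 5) (nat_lit 22) (nat_lit 5) (nat_lit 320) (nat_lit 279) (nat_lit 121)) (XT.lf (nat_lit 0) (nat_lit 8134962813) (nat_lit 152) (nat_lit 9094351696) (nat_lit 228) (nat_lit 83064370953) (nat_lit 19) (nat_lit 5) (nat_lit 21) (nat_lit 5) (nat_lit 22) (nat_lit 5) (nat_lit 321) (nat_lit 279) (nat_lit 120))) (XT.nd (nat_lit 78) (nat_lit 0) (nat_lit 0) (XT.lf (nat_lit 0) (nat_lit 31429846052) (nat_lit 228) (nat_lit 57914841221) (nat_lit 76) (nat_lit 14719426402) (nat_lit 19) (nat_lit 5) (nat_lit 22) (nat_lit 5) (nat_lit 20) (nat_lit 5) (nat_lit 322) (nat_lit 279) (nat_lit 119)) (XT.lf (nat_lit 0) (nat_lit 46488521945) (nat_lit 228) (nat_lit 22109376162)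 (nat_lit 76) (nat_lit 39417761217) (nat_lit 19) (nat_lit 5) (nat_lit 22) (nat_lit 5) (nat_lit 20) (nat_lit 5) (nat_lit 323) (nat_lit 279) (nat_lit 118)))) (XT.nd (nat_lit 156) (nat_lit 152) (nat_lit 0) (XT.nd (nat_lit 78) (nat_lit 0) (nat_lit 0) (XT.lf (nat_lit 0) (nat_lit 15996913073) (nat_lit 152) (nat_lit 46552051432) (nat_lit 228) (nat_lit 49603377927) (nat_lit 17) (nat_lit 5) (nat_lit 19) (nat_lit 5) (nat_lit 20) (nat_lit 5) (nat_lit 324) (nat_lit 279) (nat_lit 117)) (XT.lf (nat_lit 0) (nat_lit 56774677578) (nat_lit 152) (nat_lit 23011282538) (nat_lit 228) (nat_lit 36691224765) (nat_lit 17) (nat_lit 5) (nat_lit 19) (nat_lit 5) (nat_lit 20) (nat_lit 5) (nat_lit 325) (nat_lit 279) (nat_lit 116))) (XT.nd (nat_lit 78) (nat_lit 152) (nat_lit 0) (XT.lf (nat_lit 0) (nat_lit 97910582238) (nat_lit 228) (nat_lit 21454978449) (nat_lit 76) (nat_lit 1651421583) (nat_lit 17) (nat_lit 5) (nat_lit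 20) (nat_lit 5) (nat_lit 18) (nat_lit 4) (nat_lit 326) (nat_lit 279) (nat_lit 115)) (XT.nd (nat_lit 78) (nat_lit 76) (nat_lit 0) (XT.lf (nat_lit 0) (nat_lit 18932315842) (nat_lit 76) (nat_lit 98681114646) (nat_lit 152) (nat_lit 8136740861) (nat_lit 16) (nat_lit 5) (nat_lit 17) (nat_lit 5) (nat_lit 18) (nat_lit 4) (nat_lit 327) (nat_lit 279) (nat_lit 114)) (XT.lf (nat_lit 0) (nat_lit 7707234684) (nat_lit 152) (nat_lit 68743668947) (nat_lit 76) (nat_lit 54244775051) (nat_lit 15) (nat_lit 5) (nat_lit 17) (nat_lit 5) (nat_lit 16) (nat_lit 5) (nat_lit 328) (nat_lit 279) (nat_lit 113))))))) (XT.nd (nat_lit 702) (nat_lit 152) (nat_lit 0) (XT.nd (nat_lit 312) (nat_lit 304) (nat_lit 0) (XT.nd (nat_lit 156) (nat_lit 0) (nat_lit 0) (XT.nd (nat_lit 78) (nat_lit 152) (nat_lit 0) (XT.lf (nat_lit 0) (nat_lit 24069178870) (nat_lit 152) (nat_lit 28900434973) (nat_lit 76) (nat_lit 82912218552) (nat_lit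 15) (nat_lit 5) (nat_lit 17) (nat_lit 5) (nat_lit 16) (nat_lit 5) (nat_lit 329) (nat_lit 279) (nat_lit 112)) (XT.lf (nat_lit 0) (nat_lit 13361396724) (nat_lit 152) (nat_lit 28095687352) (nat_lit 228) (nat_lit 99859817821) (nat_lit 13) (nat_lit 5) (nat_lit 15) (nat_lit 5) (nat_lit 16) (nat_lit 5) (nat_lit 330) (nat_lit 279) (nat_lit 111))) (XT.nd (nat_lit 78) (nat_lit 0) (nat_lit 0) (XT.lf (nat_lit 0) (nat_lit 58738485288) (nat_lit 152) (nat_lit 1464613929) (nat_lit 228) (nat_lit 86796191158) (nat_lit 13) (nat_lit 5) (nat_lit 15) (nat_lit 5) (nat_lit 16) (nat_lit 5) (nat_lit 331) (nat_lit 279) (nat_lit 110)) (XT.lf (nat_lit 0) (nat_lit 80299422952) (nat_lit 228) (nat_lit 46996242960) (nat_lit 76) (nat_lit 25649483144) (nat_lit 13) (nat_lit 5) (nat_lit 16) (nat_lit 5) (nat_lit 14) (nat_lit 4) (nat_lit 332) (nat_lit 279) (nat_lit 109)))) (XT.nd (nat_lit 156) (nat_lit 228) (nat_lit 0)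 (XT.nd (nat_lit 78) (nat_lit 76) (nat_lit 0) (XT.lf (nat_lit 0) (nat_lit 101423905884) (nat_lit 228) (nat_lit 3693572046) (nat_lit 76) (nat_lit 54069656709) (nat_lit 13) (nat_lit 5) (nat_lit 16) (nat_lit 5) (nat_lit 14) (nat_lit 4) (nat_lit 333) (nat_lit 279) (nat_lit 108)) (XT.lf (nat_lit 0) (nat_lit 43154385829) (nat_lit 76) (nat_lit 81123352744) (nat_lit 152) (nat_lit 41429825712) (nat_lit 12) (nat_lit 5) (nat_lit 13) (nat_lit 5) (nat_lit 14) (nat_lit 4) (nat_lit 334) (nat_lit 279) (nat_lit 107))) (XT.nd (nat_lit 78) (nat_lit 228) (nat_lit 0) (XT.lf (nat_lit 0) (nat_lit 92471934686) (nat_lit 76) (nat_lit 55864259376) (nat_lit 152) (nat_lit 24214725808) (nat_lit 12) (nat_lit 5) (nat_lit 13) (nat_lit 5) (nat_lit 14) (nat_lit 4) (nat_lit 335) (nat_lit 279) (nat_lit 106)) (XT.nd (nat_lit 78) (nat_lit 228) (nat_lit 0) (XT.lf (nat_lit 0) (nat_lit 144254371087) (nat_lit 76) (nat_lit 29342609556)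 (nat_lit 152) (nat_lit 6139493141) (nat_lit 12) (nat_lit 5) (nat_lit 13) (nat_lit 5) (nat_lit 14) (nat_lit 4) (nat_lit 336) (nat_lit 279) (nat_lit 105)) (XT.lf (nat_lit 0) (nat_lit 11511645253) (nat_lit 152) (nat_lit 1096067093) (nat_lit 228) (nat_lit 174654613122) (nat_lit 9) (nat_lit 5) (nat_lit 11) (nat_lit 5) (nat_lit 12) (nat_lit 5) (nat_lit 337) (nat_lit 279) (nat_lit 104)))))) (XT.nd (nat_lit 312) (nat_lit 76) (nat_lit 0) (XT.nd (nat_lit 156) (nat_lit 76) (nat_lit 0) (XT.nd (nat_lit 78) (nat_lit 0) (nat_lit 0) (XT.lf (nat_lit 0) (nat_lit 33142086648) (nat_lit 228) (nat_lit 133604899014) (nat_lit 76) (nat_lit 28359645749) (nat_lit 9) (nat_lit 5) (nat_lit 12) (nat_lit 5) (nat_lit 10) (nat_lit 4) (nat_lit 338) (nat_lit 279) (nat_lit 103)) (XT.lf (nat_lit 0) (nat_lit 54720607853) (nat_lit 228) (nat_lit 89370720819) (nat_lit 76) (nat_lit 59250953365) (nat_lit 9) (nat_lit 5) (nat_lit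 12) (nat_lit 5) (nat_lit 10) (nat_lit 4) (nat_lit 339) (nat_lit 279) (nat_lit 102))) (XT.nd (nat_lit 78) (nat_lit 76) (nat_lit 0) (XT.lf (nat_lit 0) (nat_lit 77377540713) (nat_lit 228) (nat_lit 42925713479) (nat_lit 76) (nat_lit 91686487477) (nat_lit 9) (nat_lit 5) (nat_lit 12) (nat_lit 5) (nat_lit 10) (nat_lit 4) (nat_lit 340) (nat_lit 279) (nat_lit 101)) (XT.lf (nat_lit 0) (nat_lit 6033826483) (nat_lit 76) (nat_lit 95227208763) (nat_lit 152) (nat_lit 119803854007) (nat_lit 8) (nat_lit 5) (nat_lit 9) (nat_lit 5) (nat_lit 10) (nat_lit 4) (nat_lit 341) (nat_lit 279) (nat_lit 100)))) (XT.nd (nat_lit 156) (nat_lit 76) (nat_lit 0) (XT.nd (nat_lit 78) (nat_lit 0) (nat_lit 0) (XT.lf (nat_lit 0) (nat_lit 58930802930) (nat_lit 76) (nat_lit 68134389855) (nat_lit 152) (nat_lit 103492277704) (nat_lit 8) (nat_lit 5) (nat_lit 9) (nat_lit 5) (nat_lit 10) (nat_lit 4) (nat_lit 342) (nat_lit 279) (nat_lit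 99)) (XT.lf (nat_lit 0) (nat_lit 114471843097) (nat_lit 76) (nat_lit 39687258483) (nat_lit 152) (nat_lit 86365602691) (nat_lit 8) (nat_lit 5) (nat_lit 9) (nat_lit 5) (nat_lit 10) (nat_lit 4) (nat_lit 343) (nat_lit 279) (nat_lit 98))) (XT.nd (nat_lit 78) (nat_lit 76) (nat_lit 0) (XT.lf (nat_lit 0) (nat_lit 172789187555) (nat_lit 76) (nat_lit 9818083384) (nat_lit 152) (nat_lit 68383051169) (nat_lit 8) (nat_lit 5) (nat_lit 9) (nat_lit 5) (nat_lit 10) (nat_lit 4) (nat_lit 344) (nat_lit 279) (nat_lit 97)) (XT.nd (nat_lit 78) (nat_lit 76) (nat_lit 0) (XT.lf (nat_lit 0) (nat_lit 212813800757) (nat_lit 152) (nat_lit 28293921174) (nat_lit 0) (nat_lit 20854701899) (nat_lit 8) (nat_lit 5) (nat_lit 10) (nat_lit 4) (nat_lit 8) (nat_lit 4) (nat_lit 345) (nat_lit 279) (nat_lit 96)) (XT.lf (nat_lit 0) (nat_lit 24738802816) (nat_lit 76) (nat_lit 220338649603) (nat_lit 76) (nat_lit 28378339016) (nat_lit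 7) (nat_lit 4) (nat_lit 8) (nat_lit 5) (nat_lit 8) (nat_lit 4) (nat_lit 346) (nat_lit 279) (nat_lit 95))))))))
noncomputable def xc219 : XT := (XT.nd (nat_lit 33540) (nat_lit 0) (nat_lit 1824) (XT.nd (nat_lit 32838) (nat_lit 0) (nat_lit 4028) (XT.nd (nat_lit 32448) (nat_lit 0) (nat_lit 4712) (XT.nd (nat_lit 32292) (nat_lit 0) (nat_lit 4712) (XT.nd (nat_lit 78) (nat_lit 76) (nat_lit 0) (XT.lf (nat_lit 0) (nat_lit 81404781197) (nat_lit 76) (nat_lit 198028286170) (nat_lit 76) (nat_lit 6066821557) (nat_lit 7) (nat_lit 4) (nat_lit 8) (nat_lit 5) (nat_lit 8) (nat_lit 4) (nat_lit 347) (nat_lit 279) (nat_lit 94)) (XT.lf (nat_lit 0) (nat_lit 16804256122) (nat_lit 152) (nat_lit 157513838634) (nat_lit 76) (nat_lit 123814563819) (nat_lit 6) (nat_lit 5) (nat_lit 8) (nat_lit 5) (nat_lit 7) (nat_lit 4) (nat_lit 348) (nat_lit 279) (nat_lit 93))) (XT.nd (nat_lit 78) (nat_lit 0) (nat_lit 0) (XT.lf (nat_lit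 0) (nat_lit 2474520524) (nat_lit 0) (nat_lit 2474520524) (nat_lit 684) (nat_lit 9540259333) (nat_lit 68) (nat_lit 5) (nat_lit 68) (nat_lit 3) (nat_lit 77) (nat_lit 3) (nat_lit 280) (nat_lit 280) (nat_lit 160)) (XT.lf (nat_lit 0) (nat_lit 10335760066) (nat_lit 684) (nat_lit 11975174176) (nat_lit 760) (nat_lit 7382364676) (nat_lit 68) (nat_lit 5) (nat_lit 77) (nat_lit 3) (nat_lit 78) (nat_lit 5) (nat_lit 281) (nat_lit 280) (nat_lit 159)))) (XT.nd (nat_lit 156) (nat_lit 0) (nat_lit 76) (XT.nd (nat_lit 78) (nat_lit 0) (nat_lit 76) (XT.lf (nat_lit 76) (nat_lit 618022312) (nat_lit 0) (nat_lit 10263561218) (nat_lit 760) (nat_lit 19557851733) (nat_lit 69) (nat_lit 5) (nat_lit 68) (nat_lit 5) (nat_lit 78) (nat_lit 5) (nat_lit 282) (nat_lit 280) (nat_lit 158)) (XT.lf (nat_lit 0) (nat_lit 11693768352) (nat_lit 684) (nat_lit 16999465285) (nat_lit 760) (nat_lit 2517706859) (nat_lit 69) (nat_lit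 5) (nat_lit 78) (nat_lit 5) (nat_lit 79) (nat_lit 5) (nat_lit 283) (nat_lit 280) (nat_lit 157))) (XT.nd (nat_lit 78) (nat_lit 0) (nat_lit 0) (XT.lf (nat_lit 0) (nat_lit 12710708157) (nat_lit 684) (nat_lit 3707320210) (nat_lit 760) (nat_lit 15594800174) (nat_lit 69) (nat_lit 5) (nat_lit 78) (nat_lit 5) (nat_lit 79) (nat_lit 5) (nat_lit 284) (nat_lit 280) (nat_lit 156)) (XT.nd (nat_lit 78) (nat_lit 0) (nat_lit 76) (XT.lf (nat_lit 76) (nat_lit 10585722416) (nat_lit 0) (nat_lit 3354131654) (nat_lit 760) (nat_lit 18906903096) (nat_lit 70) (nat_lit 5) (nat_lit 69) (nat_lit 5) (nat_lit 79) (nat_lit 5) (nat_lit 285) (nat_lit 280) (nat_lit 155)) (XT.lf (nat_lit 0) (nat_lit 15452320754) (nat_lit 684) (nat_lit 8162640274) (nat_lit 760) (nat_lit 10096341478) (nat_lit 70) (nat_lit 5) (nat_lit 79) (nat_lit 5) (nat_lit 80) (nat_lit 5) (nat_lit 286) (nat_lit 280) (nat_lit 154)))))) (XT.nd (nat_lit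 312) (nat_lit 836) (nat_lit 0) (XT.nd (nat_lit 156) (nat_lit 0) (nat_lit 76) (XT.nd (nat_lit 78) (nat_lit 0) (nat_lit 76) (XT.lf (nat_lit 76) (nat_lit 6800784141) (nat_lit 0) (nat_lit 10397224173) (nat_lit 760) (nat_lit 17413199741) (nat_lit 71) (nat_lit 5) (nat_lit 70) (nat_lit 5) (nat_lit 80) (nat_lit 5) (nat_lit 287) (nat_lit 280) (nat_lit 153)) (XT.lf (nat_lit 0) (nat_lit 19222416139) (nat_lit 684) (nat_lit 12812777690) (nat_lit 760) (nat_lit 3511355466) (nat_lit 71) (nat_lit 5) (nat_lit 80) (nat_lit 5) (nat_lit 81) (nat_lit 5) (nat_lit 288) (nat_lit 280) (nat_lit 152))) (XT.nd (nat_lit 78) (nat_lit 0) (nat_lit 0) (XT.lf (nat_lit 76) (nat_lit 2853020612) (nat_lit 0) (nat_lit 18706753705) (nat_lit 760) (nat_lit 14958308408) (nat_lit 72) (nat_lit 5) (nat_lit 71) (nat_lit 5) (nat_lit 81) (nat_lit 5) (nat_lit 289) (nat_lit 280) (nat_lit 151)) (XT.lf (nat_lit 76) (nat_lit 19744383036)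 (nat_lit 0) (nat_lit 4483463298) (nat_lit 760) (nat_lit 13299665267) (nat_lit 72) (nat_lit 5) (nat_lit 71) (nat_lit 5) (nat_lit 81) (nat_lit 5) (nat_lit 290) (nat_lit 280) (nat_lit 150)))) (XT.nd (nat_lit 156) (nat_lit 304) (nat_lit 0) (XT.nd (nat_lit 78) (nat_lit 684) (nat_lit 0) (XT.lf (nat_lit 0) (nat_lit 27189505054) (nat_lit 684) (nat_lit 1272871410) (nat_lit 76) (nat_lit 10117036849) (nat_lit 72) (nat_lit 5) (nat_lit 81) (nat_lit 5) (nat_lit 73) (nat_lit 5) (nat_lit 291) (nat_lit 280) (nat_lit 149)) (XT.lf (nat_lit 0) (nat_lit 16515519148) (nat_lit 684) (nat_lit 14112236528) (nat_lit 760) (nat_lit 9039739029) (nat_lit 63) (nat_lit 5) (nat_lit 72) (nat_lit 5) (nat_lit 73) (nat_lit 5) (nat_lit 292) (nat_lit 280) (nat_lit 148))) (XT.nd (nat_lit 78) (nat_lit 304) (nat_lit 0) (XT.lf (nat_lit 0) (nat_lit 34272003701) (nat_lit 760) (nat_lit 5589243399) (nat_lit 76) (nat_lit 947038387)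 (nat_lit 63) (nat_lit 5) (nat_lit 73) (nat_lit 5) (nat_lit 64) (nat_lit 5) (nat_lit 293) (nat_lit 280) (nat_lit 147)) (XT.nd (nat_lit 78) (nat_lit 0) (nat_lit 0) (XT.lf (nat_lit 0) (nat_lit 13035010883) (nat_lit 304) (nat_lit 25495703154) (nat_lit 380) (nat_lit 3453798387) (nat_lit 59) (nat_lit 5) (nat_lit 63) (nat_lit 5) (nat_lit 64) (nat_lit 5) (nat_lit 294) (nat_lit 280) (nat_lit 146)) (XT.lf (nat_lit 0) (nat_lit 32782095503) (nat_lit 304) (nat_lit 10312396082) (nat_lit 380) (nat_lit 120461213) (nat_lit 59) (nat_lit 5) (nat_lit 63) (nat_lit 5) (nat_lit 64) (nat_lit 5) (nat_lit 295) (nat_lit 280) (nat_lit 145))))))) (XT.nd (nat_lit 702) (nat_lit 912) (nat_lit 0) (XT.nd (nat_lit 312) (nat_lit 532) (nat_lit 0) (XT.nd (nat_lit 156) (nat_lit 304) (nat_lit 0) (XT.nd (nat_lit 78) (nat_lit 0) (nat_lit 0) (XT.lf (nat_lit 0) (nat_lit 3504485672) (nat_lit 456) (nat_lit 35337792717) (nat_lit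 76) (nat_lit 5650350998) (nat_lit 53) (nat_lit 5) (nat_lit 59) (nat_lit 5) (nat_lit 54) (nat_lit 5) (nat_lit 296) (nat_lit 280) (nat_lit 144)) (XT.lf (nat_lit 0) (nat_lit 7652897242) (nat_lit 456) (nat_lit 15917650992) (nat_lit 76) (nat_lit 22246237044) (nat_lit 53) (nat_lit 5) (nat_lit 59) (nat_lit 5) (nat_lit 54) (nat_lit 5) (nat_lit 297) (nat_lit 280) (nat_lit 143))) (XT.nd (nat_lit 78) (nat_lit 0) (nat_lit 0) (XT.lf (nat_lit 0) (nat_lit 4618962894) (nat_lit 304) (nat_lit 7459622390) (nat_lit 380) (nat_lit 35125078025) (nat_lit 49) (nat_lit 5) (nat_lit 53) (nat_lit 5) (nat_lit 54) (nat_lit 5) (nat_lit 298) (nat_lit 280) (nat_lit 142)) (XT.lf (nat_lit 0) (nat_lit 17145007852) (nat_lit 380) (nat_lit 22065887654) (nat_lit 76) (nat_lit 9428024027) (nat_lit 49) (nat_lit 5) (nat_lit 54) (nat_lit 5) (nat_lit 50) (nat_lit 5) (nat_lit 299) (nat_lit 280) (nat_lit 141)))) (XT.nd (nat_lit 156)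 (nat_lit 228) (nat_lit 0) (XT.nd (nat_lit 78) (nat_lit 304) (nat_lit 0) (XT.lf (nat_lit 0) (nat_lit 22584954574) (nat_lit 380) (nat_lit 645752941) (nat_lit 76) (nat_lit 26909227374) (nat_lit 49) (nat_lit 5) (nat_lit 54) (nat_lit 5) (nat_lit 50) (nat_lit 5) (nat_lit 300) (nat_lit 280) (nat_lit 140)) (XT.lf (nat_lit 0) (nat_lit 22565403489) (nat_lit 304) (nat_lit 6081817793) (nat_lit 380) (nat_lit 23051269765) (nat_lit 45) (nat_lit 5) (nat_lit 49) (nat_lit 5) (nat_lit 50) (nat_lit 5) (nat_lit 301) (nat_lit 280) (nat_lit 139))) (XT.nd (nat_lit 78) (nat_lit 228) (nat_lit 0) (XT.lf (nat_lit 0) (nat_lit 35207961829) (nat_lit 380) (nat_lit 6563527005) (nat_lit 76) (nat_lit 11553724025) (nat_lit 45) (nat_lit 5) (nat_lit 50) (nat_lit 5) (nat_lit 46) (nat_lit 5) (nat_lit 302) (nat_lit 280) (nat_lit 138)) (XT.nd (nat_lit 78) (nat_lit 0) (nat_lit 0) (XT.lf (nat_lit 0) (nat_lit 17595812950) (nat_lit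 228) (nat_lit 24873510204) (nat_lit 304) (nat_lit 12545324014) (nat_lit 42) (nat_lit 5) (nat_lit 45) (nat_lit 5) (nat_lit 46) (nat_lit 5) (nat_lit 303) (nat_lit 280) (nat_lit 137)) (XT.lf (nat_lit 0) (nat_lit 43188853188) (nat_lit 228) (nat_lit 7014271890) (nat_lit 304) (nat_lit 6579964813) (nat_lit 42) (nat_lit 5) (nat_lit 45) (nat_lit 5) (nat_lit 46) (nat_lit 5) (nat_lit 304) (nat_lit 280) (nat_lit 136)))))) (XT.nd (nat_lit 312) (nat_lit 380) (nat_lit 0) (XT.nd (nat_lit 156) (nat_lit 228) (nat_lit 0) (XT.nd (nat_lit 78) (nat_lit 0) (nat_lit 0) (XT.lf (nat_lit 0) (nat_lit 62516383) (nat_lit 304) (nat_lit 47015100826) (nat_lit 76) (nat_lit 11544152857) (nat_lit 38) (nat_lit 5) (nat_lit 42) (nat_lit 5) (nat_lit 39) (nat_lit 5) (nat_lit 305) (nat_lit 280) (nat_lit 135)) (XT.lf (nat_lit 0) (nat_lit 7163291378) (nat_lit 304) (nat_lit 22230068562) (nat_lit 76) (nat_lit 31136270509) (nat_lit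 38) (nat_lit 5) (nat_lit 42) (nat_lit 5) (nat_lit 39) (nat_lit 5) (nat_lit 306) (nat_lit 280) (nat_lit 134))) (XT.nd (nat_lit 78) (nat_lit 0) (nat_lit 0) (XT.lf (nat_lit 0) (nat_lit 3917557105) (nat_lit 228) (nat_lit 10761104904) (nat_lit 304) (nat_lit 47851248381) (nat_lit 35) (nat_lit 5) (nat_lit 38) (nat_lit 5) (nat_lit 39) (nat_lit 5) (nat_lit 307) (nat_lit 280) (nat_lit 133)) (XT.lf (nat_lit 0) (nat_lit 23088316642) (nat_lit 304) (nat_lit 32612732974) (nat_lit 76) (nat_lit 8903233111) (nat_lit 35) (nat_lit 5) (nat_lit 39) (nat_lit 5) (nat_lit 36) (nat_lit 5) (nat_lit 308) (nat_lit 280) (nat_lit 132)))) (XT.nd (nat_lit 156) (nat_lit 152) (nat_lit 0) (XT.nd (nat_lit 78) (nat_lit 228) (nat_lit 0) (XT.lf (nat_lit 0) (nat_lit 32093371227) (nat_lit 304) (nat_lit 5491530617) (nat_lit 76) (nat_lit 29188729952) (nat_lit 35) (nat_lit 5) (nat_lit 39) (nat_lit 5) (nat_lit 36) (nat_lit 5)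 (nat_lit 309) (nat_lit 280) (nat_lit 131)) (XT.lf (nat_lit 0) (nat_lit 23743788603) (nat_lit 228) (nat_lit 18174173845) (nat_lit 304) (nat_lit 27115025459) (nat_lit 32) (nat_lit 5) (nat_lit 35) (nat_lit 5) (nat_lit 36) (nat_lit 5) (nat_lit 310) (nat_lit 280) (nat_lit 130))) (XT.nd (nat_lit 78) (nat_lit 152) (nat_lit 0) (XT.lf (nat_lit 0) (nat_lit 52361376507) (nat_lit 304) (nat_lit 16807045512) (nat_lit 76) (nat_lit 2230513745) (nat_lit 32) (nat_lit 5) (nat_lit 36) (nat_lit 5) (nat_lit 33) (nat_lit 5) (nat_lit 311) (nat_lit 280) (nat_lit 129)) (XT.nd (nat_lit 78) (nat_lit 0) (nat_lit 0) (XT.lf (nat_lit 0) (nat_lit 13222650253) (nat_lit 152) (nat_lit 50607365262) (nat_lit 228) (nat_lit 10028016220) (nat_lit 30) (nat_lit 5) (nat_lit 32) (nat_lit 5) (nat_lit 33) (nat_lit 5) (nat_lit 312) (nat_lit 280) (nat_lit 128)) (XT.lf (nat_lit 0) (nat_lit 45335527264) (nat_lit 152) (nat_lit 30819903929)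 (nat_lit 228) (nat_lit 270487347) (nat_lit 30) (nat_lit 5) (nat_lit 32) (nat_lit 5) (nat_lit 33) (nat_lit 5) (nat_lit 313) (nat_lit 280) (nat_lit 127))))))))
noncomputable def xc220 : XT := (XT.nd (nat_lit 1404) (nat_lit 456) (nat_lit 0) (XT.nd (nat_lit 702) (nat_lit 456) (nat_lit 0) (XT.nd (nat_lit 312) (nat_lit 380) (nat_lit 0) (XT.nd (nat_lit 156) (nat_lit 152) (nat_lit 0) (XT.nd (nat_lit 78) (nat_lit 228) (nat_lit 0) (XT.lf (nat_lit 0) (nat_lit 9654405866) (nat_lit 228) (nat_lit 225652565) (nat_lit 76) (nat_lit 69234420020) (nat_lit 29) (nat_lit 5) (nat_lit 32) (nat_lit 5) (nat_lit 30) (nat_lit 5) (nat_lit 314) (nat_lit 280) (nat_lit 126)) (XT.lf (nat_lit 0) (nat_lit 20781825456) (nat_lit 304) (nat_lit 48868853041) (nat_lit 76) (nat_lit 12250800380) (nat_lit 26) (nat_lit 5) (nat_lit 30) (nat_lit 5) (nat_lit 27) (nat_lit 5) (nat_lit 315) (nat_lit 280) (nat_lit 125))) (XT.nd (nat_lit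 78) (nat_lit 152) (nat_lit 0) (XT.lf (nat_lit 0) (nat_lit 32630298895) (nat_lit 304) (nat_lit 17029723313) (nat_lit 76) (nat_lit 35159575664) (nat_lit 26) (nat_lit 5) (nat_lit 30) (nat_lit 5) (nat_lit 27) (nat_lit 5) (nat_lit 316) (nat_lit 280) (nat_lit 124)) (XT.lf (nat_lit 0) (nat_lit 16941987003) (nat_lit 152) (nat_lit 28392607106) (nat_lit 228) (nat_lit 42535861365) (nat_lit 24) (nat_lit 5) (nat_lit 26) (nat_lit 5) (nat_lit 27) (nat_lit 5) (nat_lit 317) (nat_lit 280) (nat_lit 123)))) (XT.nd (nat_lit 156) (nat_lit 380) (nat_lit 0) (XT.nd (nat_lit 78) (nat_lit 0) (nat_lit 0) (XT.lf (nat_lit 0) (nat_lit 53201917302) (nat_lit 152) (nat_lit 5759507663) (nat_lit 228) (nat_lit 32098067386) (nat_lit 24) (nat_lit 5) (nat_lit 26) (nat_lit 5) (nat_lit 27) (nat_lit 5) (nat_lit 318) (nat_lit 280) (nat_lit 122)) (XT.lf (nat_lit 0) (nat_lit 73549668071) (nat_lit 228) (nat_lit 3415818636) (nat_lit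 76) (nat_lit 17428493153) (nat_lit 24) (nat_lit 5) (nat_lit 27) (nat_lit 5) (nat_lit 25) (nat_lit 5) (nat_lit 319) (nat_lit 280) (nat_lit 121))) (XT.nd (nat_lit 78) (nat_lit 228) (nat_lit 0) (XT.lf (nat_lit 0) (nat_lit 33731739162) (nat_lit 152) (nat_lit 55755657257) (nat_lit 228) (nat_lit 8376793885) (nat_lit 22) (nat_lit 5) (nat_lit 24) (nat_lit 5) (nat_lit 25) (nat_lit 5) (nat_lit 320) (nat_lit 280) (nat_lit 120)) (XT.nd (nat_lit 78) (nat_lit 152) (nat_lit 0) (XT.lf (nat_lit 0) (nat_lit 4621030480) (nat_lit 228) (nat_lit 28725808211) (nat_lit 76) (nat_lit 68154504010) (nat_lit 21) (nat_lit 5) (nat_lit 24) (nat_lit 5) (nat_lit 22) (nat_lit 5) (nat_lit 321) (nat_lit 280) (nat_lit 119)) (XT.lf (nat_lit 0) (nat_lit 8587254746) (nat_lit 152) (nat_lit 9533108487) (nat_lit 228) (nat_lit 87186468554) (nat_lit 19) (nat_lit 5) (nat_lit 21) (nat_lit 5) (nat_lit 22) (nat_lit 5) (nat_lit 322)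 (nat_lit 280) (nat_lit 118)))))) (XT.nd (nat_lit 312) (nat_lit 304) (nat_lit 0) (XT.nd (nat_lit 156) (nat_lit 152) (nat_lit 0) (XT.nd (nat_lit 78) (nat_lit 0) (nat_lit 0) (XT.lf (nat_lit 0) (nat_lit 33029749965) (nat_lit 228) (nat_lit 60765980855) (nat_lit 76) (nat_lit 15470111960) (nat_lit 19) (nat_lit 5) (nat_lit 22) (nat_lit 5) (nat_lit 20) (nat_lit 5) (nat_lit 323) (nat_lit 280) (nat_lit 117)) (XT.lf (nat_lit 0) (nat_lit 48840006719) (nat_lit 228) (nat_lit 23172366468) (nat_lit 76) (nat_lit 41402662837) (nat_lit 19) (nat_lit 5) (nat_lit 22) (nat_lit 5) (nat_lit 20) (nat_lit 5) (nat_lit 324) (nat_lit 280) (nat_lit 116))) (XT.nd (nat_lit 78) (nat_lit 0) (nat_lit 0) (XT.lf (nat_lit 0) (nat_lit 16838552091) (nat_lit 152) (nat_lit 48864283318) (nat_lit 228) (nat_lit 52055752217) (nat_lit 17) (nat_lit 5) (nat_lit 19) (nat_lit 5) (nat_lit 20) (nat_lit 5) (nat_lit 325) (nat_lit 280) (nat_lit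 115)) (XT.lf (nat_lit 0) (nat_lit 59653214662) (nat_lit 152) (nat_lit 24147207917) (nat_lit 228) (nat_lit 38499314949) (nat_lit 17) (nat_lit 5) (nat_lit 19) (nat_lit 5) (nat_lit 20) (nat_lit 5) (nat_lit 326) (nat_lit 280) (nat_lit 114)))) (XT.nd (nat_lit 156) (nat_lit 228) (nat_lit 0) (XT.nd (nat_lit 78) (nat_lit 76) (nat_lit 0) (XT.lf (nat_lit 0) (nat_lit 102830295168) (nat_lit 228) (nat_lit 22488792847) (nat_lit 76) (nat_lit 1747488106) (nat_lit 17) (nat_lit 5) (nat_lit 20) (nat_lit 5) (nat_lit 18) (nat_lit 4) (nat_lit 327) (nat_lit 280) (nat_lit 113)) (XT.lf (nat_lit 0) (nat_lit 19917238181) (nat_lit 76) (nat_lit 103600494111) (nat_lit 152) (nat_lit 8518722233) (nat_lit 16) (nat_lit 5) (nat_lit 17) (nat_lit 5) (nat_lit 18) (nat_lit 4) (nat_lit 328) (nat_lit 280) (nat_lit 112))) (XT.nd (nat_lit 78) (nat_lit 152) (nat_lit 0) (XT.lf (nat_lit 0) (nat_lit 8115510831) (nat_lit 152) (nat_lit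 72143572517) (nat_lit 76) (nat_lit 56970193749) (nat_lit 15) (nat_lit 5) (nat_lit 17) (nat_lit 5) (nat_lit 16) (nat_lit 5) (nat_lit 329) (nat_lit 280) (nat_lit 111)) (XT.nd (nat_lit 78) (nat_lit 152) (nat_lit 0) (XT.lf (nat_lit 0) (nat_lit 25294461064) (nat_lit 152) (nat_lit 30309952076) (nat_lit 76) (nat_lit 87070381810) (nat_lit 15) (nat_lit 5) (nat_lit 17) (nat_lit 5) (nat_lit 16) (nat_lit 5) (nat_lit 330) (nat_lit 280) (nat_lit 110)) (XT.lf (nat_lit 0) (nat_lit 14064398550) (nat_lit 152) (nat_lit 29486869164) (nat_lit 228) (nat_lit 104830376709) (nat_lit 13) (nat_lit 5) (nat_lit 15) (nat_lit 5) (nat_lit 16) (nat_lit 5) (nat_lit 331) (nat_lit 280) (nat_lit 109))))))) (XT.nd (nat_lit 702) (nat_lit 152) (nat_lit 0) (XT.nd (nat_lit 312) (nat_lit 228) (nat_lit 0) (XT.nd (nat_lit 156) (nat_lit 76) (nat_lit 0) (XT.nd (nat_lit 78) (nat_lit 0) (nat_lit 0) (XT.lf (nat_lit 0) (nat_lit 61708678114)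 (nat_lit 152) (nat_lit 1524889811) (nat_lit 228) (nat_lit 91114636902) (nat_lit 13) (nat_lit 5) (nat_lit 15) (nat_lit 5) (nat_lit 16) (nat_lit 5) (nat_lit 332) (nat_lit 280) (nat_lit 108)) (XT.lf (nat_lit 0) (nat_lit 84333933155) (nat_lit 228) (nat_lit 49313563330) (nat_lit 76) (nat_lit 26943900329) (nat_lit 13) (nat_lit 5) (nat_lit 16) (nat_lit 5) (nat_lit 14) (nat_lit 4) (nat_lit 333) (nat_lit 280) (nat_lit 107))) (XT.nd (nat_lit 78) (nat_lit 76) (nat_lit 0) (XT.lf (nat_lit 0) (nat_lit 106513709802) (nat_lit 228) (nat_lit 3847306098) (nat_lit 76) (nat_lit 56784513857) (nat_lit 13) (nat_lit 5) (nat_lit 16) (nat_lit 5) (nat_lit 14) (nat_lit 4) (nat_lit 334) (nat_lit 280) (nat_lit 106)) (XT.lf (nat_lit 0) (nat_lit 45342550565) (nat_lit 76) (nat_lit 85167272775) (nat_lit 152) (nat_lit 43482179570) (nat_lit 12) (nat_lit 5) (nat_lit 13) (nat_lit 5) (nat_lit 14) (nat_lit 4) (nat_lit 335)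 (nat_lit 280) (nat_lit 105)))) (XT.nd (nat_lit 156) (nat_lit 228) (nat_lit 0) (XT.nd (nat_lit 78) (nat_lit 0) (nat_lit 0) (XT.lf (nat_lit 0) (nat_lit 97124527082) (nat_lit 76) (nat_lit 58645807957) (nat_lit 152) (nat_lit 25407235977) (nat_lit 12) (nat_lit 5) (nat_lit 13) (nat_lit 5) (nat_lit 14) (nat_lit 4) (nat_lit 336) (nat_lit 280) (nat_lit 104)) (XT.lf (nat_lit 0) (nat_lit 151494704557) (nat_lit 76) (nat_lit 30798631094) (nat_lit 152) (nat_lit 6429109587) (nat_lit 12) (nat_lit 5) (nat_lit 13) (nat_lit 5) (nat_lit 14) (nat_lit 4) (nat_lit 337) (nat_lit 280) (nat_lit 103))) (XT.nd (nat_lit 78) (nat_lit 0) (nat_lit 0) (XT.lf (nat_lit 0) (nat_lit 12114968880) (nat_lit 152) (nat_lit 1139564718) (nat_lit 228) (nat_lit 183370061930) (nat_lit 9) (nat_lit 5) (nat_lit 11) (nat_lit 5) (nat_lit 12) (nat_lit 5) (nat_lit 338) (nat_lit 280) (nat_lit 102)) (XT.nd (nat_lit 78) (nat_lit 0) (nat_lit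 0) (XT.lf (nat_lit 0) (nat_lit 34815012075) (nat_lit 228) (nat_lit 140258085808) (nat_lit 76) (nat_lit 29788050775) (nat_lit 9) (nat_lit 5) (nat_lit 12) (nat_lit 5) (nat_lit 10) (nat_lit 4) (nat_lit 339) (nat_lit 280) (nat_lit 101)) (XT.lf (nat_lit 0) (nat_lit 57471705954) (nat_lit 228) (nat_lit 93813487187) (nat_lit 76) (nat_lit 62223427451) (nat_lit 9) (nat_lit 5) (nat_lit 12) (nat_lit 5) (nat_lit 10) (nat_lit 4) (nat_lit 340) (nat_lit 280) (nat_lit 100)))))) (XT.nd (nat_lit 312) (nat_lit 76) (nat_lit 0) (XT.nd (nat_lit 156) (nat_lit 0) (nat_lit 0) (XT.nd (nat_lit 78) (nat_lit 76) (nat_lit 0) (XT.lf (nat_lit 0) (nat_lit 81260767947) (nat_lit 228) (nat_lit 45047456608) (nat_lit 76) (nat_lit 96280265583) (nat_lit 9) (nat_lit 5) (nat_lit 12) (nat_lit 5) (nat_lit 10) (nat_lit 4) (nat_lit 341) (nat_lit 280) (nat_lit 99)) (XT.lf (nat_lit 0) (nat_lit 6359664506) (nat_lit 76) (nat_lit 99978466357)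 (nat_lit 152) (nat_lit 125779280560) (nat_lit 8) (nat_lit 5) (nat_lit 9) (nat_lit 5) (nat_lit 10) (nat_lit 4) (nat_lit 342) (nat_lit 280) (nat_lit 98))) (XT.nd (nat_lit 78) (nat_lit 0) (nat_lit 0) (XT.lf (nat_lit 0) (nat_lit 61900339932) (nat_lit 76) (nat_lit 71531487591) (nat_lit 152) (nat_lit 108652828592) (nat_lit 8) (nat_lit 5) (nat_lit 9) (nat_lit 5) (nat_lit 10) (nat_lit 4) (nat_lit 343) (nat_lit 280) (nat_lit 97)) (XT.lf (nat_lit 0) (nat_lit 120217337019) (nat_lit 76) (nat_lit 41662457830) (nat_lit 152) (nat_lit 90670489495) (nat_lit 8) (nat_lit 5) (nat_lit 9) (nat_lit 5) (nat_lit 10) (nat_lit 4) (nat_lit 344) (nat_lit 280) (nat_lit 96)))) (XT.nd (nat_lit 156) (nat_lit 76) (nat_lit 0) (XT.nd (nat_lit 78) (nat_lit 0) (nat_lit 0) (XT.lf (nat_lit 0) (nat_lit 181449505758) (nat_lit 76) (nat_lit 10300260336) (nat_lit 152) (nat_lit 71789448175) (nat_lit 8) (nat_lit 5) (nat_lit 9)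 (nat_lit 5) (nat_lit 10) (nat_lit 4) (nat_lit 345) (nat_lit 280) (nat_lit 95)) (XT.lf (nat_lit 0) (nat_lit 223466174476) (nat_lit 152) (nat_lit 29688287220) (nat_lit 0) (nat_lit 21905482605) (nat_lit 8) (nat_lit 5) (nat_lit 10) (nat_lit 4) (nat_lit 8) (nat_lit 4) (nat_lit 346) (nat_lit 280) (nat_lit 94))) (XT.nd (nat_lit 32370) (nat_lit 0) (nat_lit 4636) (XT.lf (nat_lit 0) (nat_lit 25995745066) (nat_lit 76) (nat_lit 231347019578) (nat_lit 76) (nat_lit 29785228634) (nat_lit 7) (nat_lit 4) (nat_lit 8) (nat_lit 5) (nat_lit 8) (nat_lit 4) (nat_lit 347) (nat_lit 280) (nat_lit 93)) (XT.nd (nat_lit 78) (nat_lit 0) (nat_lit 0) (XT.lf (nat_lit 0) (nat_lit 2633268841) (nat_lit 0) (nat_lit 2633268841) (nat_lit 684) (nat_lit 9943473911) (nat_lit 68) (nat_lit 5) (nat_lit 68) (nat_lit 3) (nat_lit 77) (nat_lit 3) (nat_lit 281) (nat_lit 281) (nat_lit 158)) (XT.lf (nat_lit 0) (nat_lit 10984924806)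 (nat_lit 684) (nat_lit 12499032137) (nat_lit 760) (nat_lit 7686908892) (nat_lit 68) (nat_lit 5) (nat_lit 77) (nat_lit 3) (nat_lit 78) (nat_lit 5) (nat_lit 282) (nat_lit 281) (nat_lit 157))))))))
noncomputable def xc221 : XT := (XT.nd (nat_lit 1404) (nat_lit 1900) (nat_lit 0) (XT.nd (nat_lit 702) (nat_lit 1444) (nat_lit 0) (XT.nd (nat_lit 312) (nat_lit 0) (nat_lit 152) (XT.nd (nat_lit 156) (nat_lit 0) (nat_lit 76) (XT.nd (nat_lit 78) (nat_lit 0) (nat_lit 76) (XT.lf (nat_lit 76) (nat_lit 722616099) (nat_lit 0) (nat_lit 10830270239) (nat_lit 760) (nat_lit 20401703132) (nat_lit 69) (nat_lit 5) (nat_lit 68) (nat_lit 5) (nat_lit 78) (nat_lit 5) (nat_lit 283) (nat_lit 281) (nat_lit 156)) (XT.lf (nat_lit 0) (nat_lit 12398826163) (nat_lit 684) (nat_lit 17771966172) (nat_lit 760) (nat_lit 2594242073) (nat_lit 69) (nat_lit 5) (nat_lit 78) (nat_lit 5) (nat_lit 79) (nat_lit 5) (nat_lit 284) (nat_lit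 281) (nat_lit 155))) (XT.nd (nat_lit 78) (nat_lit 0) (nat_lit 0) (XT.lf (nat_lit 0) (nat_lit 13460881083) (nat_lit 684) (nat_lit 3818903005) (nat_lit 760) (nat_lit 16327540060) (nat_lit 69) (nat_lit 5) (nat_lit 78) (nat_lit 5) (nat_lit 79) (nat_lit 5) (nat_lit 285) (nat_lit 281) (nat_lit 154)) (XT.lf (nat_lit 76) (nat_lit 11187601701) (nat_lit 0) (nat_lit 3559557044) (nat_lit 760) (nat_lit 19736026448) (nat_lit 70) (nat_lit 5) (nat_lit 69) (nat_lit 5) (nat_lit 79) (nat_lit 5) (nat_lit 286) (nat_lit 281) (nat_lit 153)))) (XT.nd (nat_lit 156) (nat_lit 0) (nat_lit 76) (XT.nd (nat_lit 78) (nat_lit 0) (nat_lit 0) (XT.lf (nat_lit 0) (nat_lit 16329434959) (nat_lit 684) (nat_lit 8495446677) (nat_lit 760) (nat_lit 10566385628) (nat_lit 70) (nat_lit 5) (nat_lit 79) (nat_lit 5) (nat_lit 80) (nat_lit 5) (nat_lit 287) (nat_lit 281) (nat_lit 152)) (XT.lf (nat_lit 76) (nat_lit 7214934030) (nat_lit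 0) (nat_lit 10943653839) (nat_lit 760) (nat_lit 18177789051) (nat_lit 71) (nat_lit 5) (nat_lit 70) (nat_lit 5) (nat_lit 80) (nat_lit 5) (nat_lit 288) (nat_lit 281) (nat_lit 151))) (XT.nd (nat_lit 78) (nat_lit 0) (nat_lit 0) (XT.lf (nat_lit 0) (nat_lit 20279026784) (nat_lit 684) (nat_lit 13377305120) (nat_lit 760) (nat_lit 3662429810) (nat_lit 71) (nat_lit 5) (nat_lit 80) (nat_lit 5) (nat_lit 81) (nat_lit 5) (nat_lit 289) (nat_lit 281) (nat_lit 150)) (XT.nd (nat_lit 78) (nat_lit 0) (nat_lit 0) (XT.lf (nat_lit 76) (nat_lit 3070555493) (nat_lit 0) (nat_lit 19659319390) (nat_lit 760) (nat_lit 15609182049) (nat_lit 72) (nat_lit 5) (nat_lit 71) (nat_lit 5) (nat_lit 81) (nat_lit 5) (nat_lit 290) (nat_lit 281) (nat_lit 149)) (XT.lf (nat_lit 76) (nat_lit 20802920141) (nat_lit 0) (nat_lit 4724044082) (nat_lit 760) (nat_lit 13872227788) (nat_lit 72) (nat_lit 5) (nat_lit 71) (nat_lit 5) (nat_lit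 81) (nat_lit 5) (nat_lit 291) (nat_lit 281) (nat_lit 148)))))) (XT.nd (nat_lit 312) (nat_lit 760) (nat_lit 0) (XT.nd (nat_lit 156) (nat_lit 304) (nat_lit 0) (XT.nd (nat_lit 78) (nat_lit 684) (nat_lit 0) (XT.lf (nat_lit 0) (nat_lit 28632284500) (nat_lit 684) (nat_lit 1263877559) (nat_lit 76) (nat_lit 10607762527) (nat_lit 72) (nat_lit 5) (nat_lit 81) (nat_lit 5) (nat_lit 73) (nat_lit 5) (nat_lit 292) (nat_lit 281) (nat_lit 147)) (XT.lf (nat_lit 0) (nat_lit 17412760955) (nat_lit 684) (nat_lit 14826835614) (nat_lit 760) (nat_lit 9406970042) (nat_lit 63) (nat_lit 5) (nat_lit 72) (nat_lit 5) (nat_lit 73) (nat_lit 5) (nat_lit 293) (nat_lit 281) (nat_lit 146))) (XT.nd (nat_lit 78) (nat_lit 304) (nat_lit 0) (XT.lf (nat_lit 0) (nat_lit 36062092260) (nat_lit 760) (nat_lit 5796411288) (nat_lit 76) (nat_lit 986104963) (nat_lit 63) (nat_lit 5) (nat_lit 73) (nat_lit 5) (nat_lit 64) (nat_lit 5) (nat_lit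 294) (nat_lit 281) (nat_lit 145)) (XT.lf (nat_lit 0) (nat_lit 13757889672) (nat_lit 304) (nat_lit 26773316648) (nat_lit 380) (nat_lit 3548579770) (nat_lit 59) (nat_lit 5) (nat_lit 63) (nat_lit 5) (nat_lit 64) (nat_lit 5) (nat_lit 295) (nat_lit 281) (nat_lit 144)))) (XT.nd (nat_lit 156) (nat_lit 304) (nat_lit 0) (XT.nd (nat_lit 78) (nat_lit 456) (nat_lit 0) (XT.lf (nat_lit 0) (nat_lit 34488941464) (nat_lit 304) (nat_lit 10830709540) (nat_lit 380) (nat_lit 52285667) (nat_lit 59) (nat_lit 5) (nat_lit 63) (nat_lit 5) (nat_lit 64) (nat_lit 5) (nat_lit 296) (nat_lit 281) (nat_lit 143)) (XT.lf (nat_lit 0) (nat_lit 3749189902) (nat_lit 456) (nat_lit 37031772485) (nat_lit 76) (nat_lit 5932604947) (nat_lit 53) (nat_lit 5) (nat_lit 59) (nat_lit 5) (nat_lit 54) (nat_lit 5) (nat_lit 297) (nat_lit 281) (nat_lit 142))) (XT.nd (nat_lit 78) (nat_lit 304) (nat_lit 0) (XT.lf (nat_lit 0) (nat_lit 8101713483)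 (nat_lit 456) (nat_lit 16644095573) (nat_lit 76) (nat_lit 23358297849) (nat_lit 53) (nat_lit 5) (nat_lit 59) (nat_lit 5) (nat_lit 54) (nat_lit 5) (nat_lit 298) (nat_lit 281) (nat_lit 141)) (XT.nd (nat_lit 78) (nat_lit 0) (nat_lit 0) (XT.lf (nat_lit 0) (nat_lit 4918229041) (nat_lit 304) (nat_lit 7828372503) (nat_lit 380) (nat_lit 36813841466) (nat_lit 49) (nat_lit 5) (nat_lit 53) (nat_lit 5) (nat_lit 54) (nat_lit 5) (nat_lit 299) (nat_lit 281) (nat_lit 140)) (XT.lf (nat_lit 0) (nat_lit 18063356390) (nat_lit 380) (nat_lit 23100938790) (nat_lit 76) (nat_lit 9903325788) (nat_lit 49) (nat_lit 5) (nat_lit 54) (nat_lit 5) (nat_lit 50) (nat_lit 5) (nat_lit 300) (nat_lit 281) (nat_lit 139))))))) (XT.nd (nat_lit 702) (nat_lit 836) (nat_lit 0) (XT.nd (nat_lit 312) (nat_lit 532) (nat_lit 0) (XT.nd (nat_lit 156) (nat_lit 228) (nat_lit 0) (XT.nd (nat_lit 78) (nat_lit 304) (nat_lit 0) (XT.lf (nat_lit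 0) (nat_lit 23772391013) (nat_lit 380) (nat_lit 613047020) (nat_lit 76) (nat_lit 28258403562) (nat_lit 49) (nat_lit 5) (nat_lit 54) (nat_lit 5) (nat_lit 50) (nat_lit 5) (nat_lit 301) (nat_lit 281) (nat_lit 138)) (XT.lf (nat_lit 0) (nat_lit 23757618948) (nat_lit 304) (nat_lit 6378379583) (nat_lit 380) (nat_lit 24144424256) (nat_lit 45) (nat_lit 5) (nat_lit 49) (nat_lit 5) (nat_lit 50) (nat_lit 5) (nat_lit 302) (nat_lit 281) (nat_lit 137))) (XT.nd (nat_lit 78) (nat_lit 228) (nat_lit 0) (XT.lf (nat_lit 0) (nat_lit 37022201573) (nat_lit 380) (nat_lit 6828064741) (nat_lit 76) (nat_lit 12138351295) (nat_lit 45) (nat_lit 5) (nat_lit 50) (nat_lit 5) (nat_lit 46) (nat_lit 5) (nat_lit 303) (nat_lit 281) (nat_lit 136)) (XT.lf (nat_lit 0) (nat_lit 18538215784) (nat_lit 228) (nat_lit 26106828844) (nat_lit 304) (nat_lit 13117566121) (nat_lit 42) (nat_lit 5) (nat_lit 45) (nat_lit 5) (nat_lit 46)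 (nat_lit 5) (nat_lit 304) (nat_lit 281) (nat_lit 135)))) (XT.nd (nat_lit 156) (nat_lit 228) (nat_lit 0) (XT.nd (nat_lit 78) (nat_lit 304) (nat_lit 0) (XT.lf (nat_lit 0) (nat_lit 45407926501) (nat_lit 228) (nat_lit 7355121799) (nat_lit 304) (nat_lit 6856559156) (nat_lit 42) (nat_lit 5) (nat_lit 45) (nat_lit 5) (nat_lit 46) (nat_lit 5) (nat_lit 305) (nat_lit 281) (nat_lit 134)) (XT.lf (nat_lit 0) (nat_lit 115072131) (nat_lit 304) (nat_lit 49302974970) (nat_lit 76) (nat_lit 12132205202) (nat_lit 38) (nat_lit 5) (nat_lit 42) (nat_lit 5) (nat_lit 39) (nat_lit 5) (nat_lit 306) (nat_lit 281) (nat_lit 133))) (XT.nd (nat_lit 78) (nat_lit 228) (nat_lit 0) (XT.lf (nat_lit 0) (nat_lit 7568532070) (nat_lit 304) (nat_lit 23281685421) (nat_lit 76) (nat_lit 32703412323) (nat_lit 38) (nat_lit 5) (nat_lit 42) (nat_lit 5) (nat_lit 39) (nat_lit 5) (nat_lit 307) (nat_lit 281) (nat_lit 132)) (XT.nd (nat_lit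 78) (nat_lit 0) (nat_lit 0) (XT.lf (nat_lit 0) (nat_lit 4172355617) (nat_lit 228) (nat_lit 11285993813) (nat_lit 304) (nat_lit 50195646525) (nat_lit 35) (nat_lit 5) (nat_lit 38) (nat_lit 5) (nat_lit 39) (nat_lit 5) (nat_lit 308) (nat_lit 281) (nat_lit 131)) (XT.lf (nat_lit 0) (nat_lit 24286503791) (nat_lit 304) (nat_lit 34185155292) (nat_lit 76) (nat_lit 9360532797) (nat_lit 35) (nat_lit 5) (nat_lit 39) (nat_lit 5) (nat_lit 36) (nat_lit 5) (nat_lit 309) (nat_lit 281) (nat_lit 130)))))) (XT.nd (nat_lit 312) (nat_lit 456) (nat_lit 0) (XT.nd (nat_lit 156) (nat_lit 152) (nat_lit 0) (XT.nd (nat_lit 78) (nat_lit 228) (nat_lit 0) (XT.lf (nat_lit 0) (nat_lit 33739726757) (nat_lit 304) (nat_lit 5710664927) (nat_lit 76) (nat_lit 30659726478) (nat_lit 35) (nat_lit 5) (nat_lit 39) (nat_lit 5) (nat_lit 36) (nat_lit 5) (nat_lit 310) (nat_lit 281) (nat_lit 129)) (XT.lf (nat_lit 0) (nat_lit 24985526024)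 (nat_lit 228) (nat_lit 19068888069) (nat_lit 304) (nat_lit 28428089939) (nat_lit 32) (nat_lit 5) (nat_lit 35) (nat_lit 5) (nat_lit 36) (nat_lit 5) (nat_lit 311) (nat_lit 281) (nat_lit 128))) (XT.nd (nat_lit 78) (nat_lit 152) (nat_lit 0) (XT.lf (nat_lit 0) (nat_lit 55018275823) (nat_lit 304) (nat_lit 17593623723) (nat_lit 76) (nat_lit 2354940916) (nat_lit 32) (nat_lit 5) (nat_lit 36) (nat_lit 5) (nat_lit 33) (nat_lit 5) (nat_lit 312) (nat_lit 281) (nat_lit 127)) (XT.lf (nat_lit 0) (nat_lit 13936689508) (nat_lit 152) (nat_lit 53122634226) (nat_lit 228) (nat_lit 10489623440) (nat_lit 30) (nat_lit 5) (nat_lit 32) (nat_lit 5) (nat_lit 33) (nat_lit 5) (nat_lit 313) (nat_lit 281) (nat_lit 126)))) (XT.nd (nat_lit 156) (nat_lit 380) (nat_lit 0) (XT.nd (nat_lit 78) (nat_lit 76) (nat_lit 0) (XT.lf (nat_lit 0) (nat_lit 47652691000) (nat_lit 152) (nat_lit 32346518840) (nat_lit 228) (nat_lit 246113056)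 (nat_lit 30) (nat_lit 5) (nat_lit 32) (nat_lit 5) (nat_lit 33) (nat_lit 5) (nat_lit 314) (nat_lit 281) (nat_lit 125)) (XT.lf (nat_lit 0) (nat_lit 10172064888) (nat_lit 228) (nat_lit 187709250) (nat_lit 76) (nat_lit 72708598563) (nat_lit 29) (nat_lit 5) (nat_lit 32) (nat_lit 5) (nat_lit 30) (nat_lit 5) (nat_lit 315) (nat_lit 281) (nat_lit 124))) (XT.nd (nat_lit 78) (nat_lit 152) (nat_lit 0) (XT.lf (nat_lit 0) (nat_lit 21855172705) (nat_lit 304) (nat_lit 51262308201) (nat_lit 76) (nat_lit 12877280320) (nat_lit 26) (nat_lit 5) (nat_lit 30) (nat_lit 5) (nat_lit 27) (nat_lit 5) (nat_lit 316) (nat_lit 281) (nat_lit 123)) (XT.nd (nat_lit 78) (nat_lit 152) (nat_lit 0) (XT.lf (nat_lit 0) (nat_lit 34294438579) (nat_lit 304) (nat_lit 17833602343) (nat_lit 76) (nat_lit 36930830562) (nat_lit 26) (nat_lit 5) (nat_lit 30) (nat_lit 5) (nat_lit 27) (nat_lit 5) (nat_lit 317) (nat_lit 281) (nat_lit 122))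 (XT.lf (nat_lit 0) (nat_lit 17835925631) (nat_lit 152) (nat_lit 29797200655) (nat_lit 228) (nat_lit 44629190366) (nat_lit 24) (nat_lit 5) (nat_lit 26) (nat_lit 5) (nat_lit 27) (nat_lit 5) (nat_lit 318) (nat_lit 281) (nat_lit 121))))))))
noncomputable def xc222 : XT := (XT.nd (nat_lit 1404) (nat_lit 304) (nat_lit 0) (XT.nd (nat_lit 702) (nat_lit 380) (nat_lit 0) (XT.nd (nat_lit 312) (nat_lit 304) (nat_lit 0) (XT.nd (nat_lit 156) (nat_lit 228) (nat_lit 0) (XT.nd (nat_lit 78) (nat_lit 0) (nat_lit 0) (XT.lf (nat_lit 0) (nat_lit 55906622003) (nat_lit 152) (nat_lit 6033162279) (nat_lit 228) (nat_lit 33671100215) (nat_lit 24) (nat_lit 5) (nat_lit 26) (nat_lit 5) (nat_lit 27) (nat_lit 5) (nat_lit 319) (nat_lit 281) (nat_lit 120)) (XT.lf (nat_lit 0) (nat_lit 77256210194) (nat_lit 228) (nat_lit 3542830787) (nat_lit 76) (nat_lit 18313120109) (nat_lit 24) (nat_lit 5) (nat_lit 27) (nat_lit 5) (nat_lit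 25) (nat_lit 5) (nat_lit 320) (nat_lit 281) (nat_lit 119))) (XT.nd (nat_lit 78) (nat_lit 76) (nat_lit 0) (XT.lf (nat_lit 0) (nat_lit 35461398791) (nat_lit 152) (nat_lit 58528714905) (nat_lit 228) (nat_lit 8765807010) (nat_lit 22) (nat_lit 5) (nat_lit 24) (nat_lit 5) (nat_lit 25) (nat_lit 5) (nat_lit 321) (nat_lit 281) (nat_lit 118)) (XT.lf (nat_lit 0) (nat_lit 4879579082) (nat_lit 228) (nat_lit 30120111853) (nat_lit 76) (nat_lit 71575288047) (nat_lit 21) (nat_lit 5) (nat_lit 24) (nat_lit 5) (nat_lit 22) (nat_lit 5) (nat_lit 322) (nat_lit 281) (nat_lit 117)))) (XT.nd (nat_lit 156) (nat_lit 152) (nat_lit 0) (XT.nd (nat_lit 78) (nat_lit 0) (nat_lit 0) (XT.lf (nat_lit 0) (nat_lit 9057927045) (nat_lit 152) (nat_lit 9995287000) (nat_lit 228) (nat_lit 91517564365) (nat_lit 19) (nat_lit 5) (nat_lit 21) (nat_lit 5) (nat_lit 22) (nat_lit 5) (nat_lit 323) (nat_lit 281) (nat_lit 116)) (XT.lf (nat_lit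 0) (nat_lit 34707007632) (nat_lit 228) (nat_lit 63763824182) (nat_lit 76) (nat_lit 16256963805) (nat_lit 19) (nat_lit 5) (nat_lit 22) (nat_lit 5) (nat_lit 20) (nat_lit 5) (nat_lit 324) (nat_lit 281) (nat_lit 115))) (XT.nd (nat_lit 78) (nat_lit 152) (nat_lit 0) (XT.lf (nat_lit 0) (nat_lit 51306550072) (nat_lit 228) (nat_lit 24292455538) (nat_lit 76) (nat_lit 43485506690) (nat_lit 19) (nat_lit 5) (nat_lit 22) (nat_lit 5) (nat_lit 20) (nat_lit 5) (nat_lit 325) (nat_lit 281) (nat_lit 114)) (XT.nd (nat_lit 78) (nat_lit 0) (nat_lit 0) (XT.lf (nat_lit 0) (nat_lit 17718387510) (nat_lit 152) (nat_lit 51293555819) (nat_lit 228) (nat_lit 54633329300) (nat_lit 17) (nat_lit 5) (nat_lit 19) (nat_lit 5) (nat_lit 20) (nat_lit 5) (nat_lit 326) (nat_lit 281) (nat_lit 113)) (XT.lf (nat_lit 0) (nat_lit 62671978075) (nat_lit 152) (nat_lit 25341290537) (nat_lit 228) (nat_lit 40400270671) (nat_lit 17) (nat_lit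 5) (nat_lit 19) (nat_lit 5) (nat_lit 20) (nat_lit 5) (nat_lit 327) (nat_lit 281) (nat_lit 112)))))) (XT.nd (nat_lit 312) (nat_lit 228) (nat_lit 0) (XT.nd (nat_lit 156) (nat_lit 76) (nat_lit 0) (XT.nd (nat_lit 78) (nat_lit 76) (nat_lit 0) (XT.lf (nat_lit 0) (nat_lit 107993745362) (nat_lit 228) (nat_lit 23577917729) (nat_lit 76) (nat_lit 1847103277) (nat_lit 17) (nat_lit 5) (nat_lit 20) (nat_lit 5) (nat_lit 18) (nat_lit 4) (nat_lit 328) (nat_lit 281) (nat_lit 111)) (XT.lf (nat_lit 0) (nat_lit 20947845258) (nat_lit 76) (nat_lit 108767207009) (nat_lit 152) (nat_lit 8922113519) (nat_lit 16) (nat_lit 5) (nat_lit 17) (nat_lit 5) (nat_lit 18) (nat_lit 4) (nat_lit 329) (nat_lit 281) (nat_lit 110))) (XT.nd (nat_lit 78) (nat_lit 0) (nat_lit 0) (XT.lf (nat_lit 0) (nat_lit 8542070421) (nat_lit 152) (nat_lit 75716937195) (nat_lit 76) (nat_lit 59830658036) (nat_lit 15) (nat_lit 5) (nat_lit 17) (nat_lit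 5) (nat_lit 16) (nat_lit 5) (nat_lit 330) (nat_lit 281) (nat_lit 109)) (XT.lf (nat_lit 0) (nat_lit 26578978449) (nat_lit 152) (nat_lit 31793245920) (nat_lit 76) (nat_lit 91435286233) (nat_lit 15) (nat_lit 5) (nat_lit 17) (nat_lit 5) (nat_lit 16) (nat_lit 5) (nat_lit 331) (nat_lit 281) (nat_lit 108)))) (XT.nd (nat_lit 156) (nat_lit 76) (nat_lit 0) (XT.nd (nat_lit 78) (nat_lit 0) (nat_lit 0) (XT.lf (nat_lit 0) (nat_lit 14799302822) (nat_lit 152) (nat_lit 30948874704) (nat_lit 228) (nat_lit 110051549055) (nat_lit 13) (nat_lit 5) (nat_lit 15) (nat_lit 5) (nat_lit 16) (nat_lit 5) (nat_lit 332) (nat_lit 281) (nat_lit 107)) (XT.lf (nat_lit 0) (nat_lit 64824287586) (nat_lit 152) (nat_lit 1589383903) (nat_lit 228) (nat_lit 95650991139) (nat_lit 13) (nat_lit 5) (nat_lit 15) (nat_lit 5) (nat_lit 16) (nat_lit 5) (nat_lit 333) (nat_lit 281) (nat_lit 106))) (XT.nd (nat_lit 78) (nat_lit 76) (nat_lit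 0) (XT.lf (nat_lit 0) (nat_lit 88568352312) (nat_lit 228) (nat_lit 51749770496) (nat_lit 76) (nat_lit 28301928024) (nat_lit 13) (nat_lit 5) (nat_lit 16) (nat_lit 5) (nat_lit 14) (nat_lit 4) (nat_lit 334) (nat_lit 281) (nat_lit 105)) (XT.nd (nat_lit 78) (nat_lit 76) (nat_lit 0) (XT.lf (nat_lit 0) (nat_lit 111856273863) (nat_lit 228) (nat_lit 4011603784) (nat_lit 76) (nat_lit 59634056387) (nat_lit 13) (nat_lit 5) (nat_lit 16) (nat_lit 5) (nat_lit 14) (nat_lit 4) (nat_lit 335) (nat_lit 281) (nat_lit 104)) (XT.lf (nat_lit 0) (nat_lit 47637293009) (nat_lit 76) (nat_lit 89414527474) (nat_lit 152) (nat_lit 45638930338) (nat_lit 12) (nat_lit 5) (nat_lit 13) (nat_lit 5) (nat_lit 14) (nat_lit 4) (nat_lit 336) (nat_lit 281) (nat_lit 103))))))) (XT.nd (nat_lit 702) (nat_lit 0) (nat_lit 0) (XT.nd (nat_lit 312) (nat_lit 76) (nat_lit 0) (XT.nd (nat_lit 156) (nat_lit 228) (nat_lit 0) (XT.nd (nat_lit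 78) (nat_lit 0) (nat_lit 0) (XT.lf (nat_lit 0) (nat_lit 102007053356) (nat_lit 76) (nat_lit 61567518412) (nat_lit 152) (nat_lit 26661066146) (nat_lit 12) (nat_lit 5) (nat_lit 13) (nat_lit 5) (nat_lit 14) (nat_lit 4) (nat_lit 337) (nat_lit 281) (nat_lit 102)) (XT.lf (nat_lit 0) (nat_lit 159094487327) (nat_lit 76) (nat_lit 32328486512) (nat_lit 152) (nat_lit 6734820657) (nat_lit 12) (nat_lit 5) (nat_lit 13) (nat_lit 5) (nat_lit 14) (nat_lit 4) (nat_lit 338) (nat_lit 281) (nat_lit 101))) (XT.nd (nat_lit 78) (nat_lit 0) (nat_lit 0) (XT.lf (nat_lit 0) (nat_lit 12745879559) (nat_lit 152) (nat_lit 1186288324) (nat_lit 228) (nat_lit 192522889880) (nat_lit 9) (nat_lit 5) (nat_lit 11) (nat_lit 5) (nat_lit 12) (nat_lit 5) (nat_lit 339) (nat_lit 281) (nat_lit 100)) (XT.lf (nat_lit 0) (nat_lit 36570112877) (nat_lit 228) (nat_lit 147246447553) (nat_lit 76) (nat_lit 31286907046) (nat_lit 9) (nat_lit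 5) (nat_lit 12) (nat_lit 5) (nat_lit 10) (nat_lit 4) (nat_lit 340) (nat_lit 281) (nat_lit 99)))) (XT.nd (nat_lit 156) (nat_lit 76) (nat_lit 0) (XT.nd (nat_lit 78) (nat_lit 0) (nat_lit 0) (XT.lf (nat_lit 0) (nat_lit 60358958108) (nat_lit 228) (nat_lit 98480787693) (nat_lit 76) (nat_lit 65343602377) (nat_lit 9) (nat_lit 5) (nat_lit 12) (nat_lit 5) (nat_lit 10) (nat_lit 4) (nat_lit 341) (nat_lit 281) (nat_lit 98)) (XT.lf (nat_lit 0) (nat_lit 85336822398) (nat_lit 228) (nat_lit 47277568626) (nat_lit 76) (nat_lit 101102853675) (nat_lit 9) (nat_lit 5) (nat_lit 12) (nat_lit 5) (nat_lit 10) (nat_lit 4) (nat_lit 342) (nat_lit 281) (nat_lit 97))) (XT.nd (nat_lit 78) (nat_lit 0) (nat_lit 0) (XT.lf (nat_lit 0) (nat_lit 6699549498) (nat_lit 76) (nat_lit 104968226097) (nat_lit 152) (nat_lit 132054851258) (nat_lit 8) (nat_lit 5) (nat_lit 9) (nat_lit 5) (nat_lit 10) (nat_lit 4) (nat_lit 343) (nat_lit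 281) (nat_lit 96)) (XT.nd (nat_lit 78) (nat_lit 0) (nat_lit 0) (XT.lf (nat_lit 0) (nat_lit 65016215754) (nat_lit 76) (nat_lit 75099334753) (nat_lit 152) (nat_lit 114072714470) (nat_lit 8) (nat_lit 5) (nat_lit 9) (nat_lit 5) (nat_lit 10) (nat_lit 4) (nat_lit 344) (nat_lit 281) (nat_lit 95)) (XT.lf (nat_lit 0) (nat_lit 126248069418) (nat_lit 76) (nat_lit 43737269086) (nat_lit 152) (nat_lit 95191865825) (nat_lit 8) (nat_lit 5) (nat_lit 9) (nat_lit 5) (nat_lit 10) (nat_lit 4) (nat_lit 345) (nat_lit 281) (nat_lit 94)))))) (XT.nd (nat_lit 32682) (nat_lit 0) (nat_lit 4560) (XT.nd (nat_lit 32526) (nat_lit 0) (nat_lit 4560) (XT.nd (nat_lit 78) (nat_lit 0) (nat_lit 0) (XT.lf (nat_lit 0) (nat_lit 190540900616) (nat_lit 76) (nat_lit 10807357510) (nat_lit 152) (nat_lit 75367350922) (nat_lit 8) (nat_lit 5) (nat_lit 9) (nat_lit 5) (nat_lit 10) (nat_lit 4) (nat_lit 346) (nat_lit 281) (nat_lit 93))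 (XT.lf (nat_lit 0) (nat_lit 234650080643) (nat_lit 152) (nat_lit 31154261661) (nat_lit 0) (nat_lit 23008054341) (nat_lit 8) (nat_lit 5) (nat_lit 10) (nat_lit 4) (nat_lit 8) (nat_lit 4) (nat_lit 347) (nat_lit 281) (nat_lit 92))) (XT.nd (nat_lit 78) (nat_lit 0) (nat_lit 0) (XT.lf (nat_lit 0) (nat_lit 2796698534) (nat_lit 0) (nat_lit 2796698534) (nat_lit 684) (nat_lit 10373710294) (nat_lit 68) (nat_lit 5) (nat_lit 68) (nat_lit 3) (nat_lit 77) (nat_lit 3) (nat_lit 282) (nat_lit 282) (nat_lit 156)) (XT.lf (nat_lit 0) (nat_lit 11654240648) (nat_lit 684) (nat_lit 13056046557) (nat_lit 760) (nat_lit 8012683799) (nat_lit 68) (nat_lit 5) (nat_lit 77) (nat_lit 3) (nat_lit 78) (nat_lit 5) (nat_lit 283) (nat_lit 282) (nat_lit 155)))) (XT.nd (nat_lit 156) (nat_lit 0) (nat_lit 76) (XT.nd (nat_lit 78) (nat_lit 0) (nat_lit 76) (XT.lf (nat_lit 76) (nat_lit 825588329) (nat_lit 0) (nat_lit 11420337910)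 (nat_lit 760) (nat_lit 21300208981) (nat_lit 69) (nat_lit 5) (nat_lit 68) (nat_lit 5) (nat_lit 78) (nat_lit 5) (nat_lit 284) (nat_lit 282) (nat_lit 154)) (XT.lf (nat_lit 0) (nat_lit 13127946060) (nat_lit 684) (nat_lit 18590294752) (nat_lit 760) (nat_lit 2679192156) (nat_lit 69) (nat_lit 5) (nat_lit 78) (nat_lit 5) (nat_lit 79) (nat_lit 5) (nat_lit 285) (nat_lit 282) (nat_lit 153))) (XT.nd (nat_lit 78) (nat_lit 0) (nat_lit 0) (XT.lf (nat_lit 0) (nat_lit 14237904745) (nat_lit 684) (nat_lit 3942924604) (nat_lit 760) (nat_lit 17101286567) (nat_lit 69) (nat_lit 5) (nat_lit 78) (nat_lit 5) (nat_lit 79) (nat_lit 5) (nat_lit 286) (nat_lit 282) (nat_lit 152)) (XT.nd (nat_lit 78) (nat_lit 0) (nat_lit 76) (XT.lf (nat_lit 76) (nat_lit 11812825925) (nat_lit 0) (nat_lit 3771746966) (nat_lit 760) (nat_lit 20617411170) (nat_lit 70) (nat_lit 5) (nat_lit 69) (nat_lit 5) (nat_lit 79) (nat_lit 5) (nat_lit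 287) (nat_lit 282) (nat_lit 151)) (XT.lf (nat_lit 0) (nat_lit 17240689624) (nat_lit 684) (nat_lit 8851896461) (nat_lit 760) (nat_lit 11063164843) (nat_lit 70) (nat_lit 5) (nat_lit 79) (nat_lit 5) (nat_lit 80) (nat_lit 5) (nat_lit 288) (nat_lit 282) (nat_lit 150))))))))
noncomputable def xc223 : XT := (XT.nd (nat_lit 1404) (nat_lit 1748) (nat_lit 0) (XT.nd (nat_lit 702) (nat_lit 1216) (nat_lit 0) (XT.nd (nat_lit 312) (nat_lit 912) (nat_lit 0) (XT.nd (nat_lit 156) (nat_lit 0) (nat_lit 76) (XT.nd (nat_lit 78) (nat_lit 0) (nat_lit 76) (XT.lf (nat_lit 76) (nat_lit 7642901304) (nat_lit 0) (nat_lit 11514934905) (nat_lit 760) (nat_lit 18990469274) (nat_lit 71) (nat_lit 5) (nat_lit 70) (nat_lit 5) (nat_lit 80) (nat_lit 5) (nat_lit 289) (nat_lit 282) (nat_lit 149)) (XT.lf (nat_lit 0) (nat_lit 21379590222) (nat_lit 684) (nat_lit 13977135043) (nat_lit 760) (nat_lit 3823335038) (nat_lit 71) (nat_lit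 5) (nat_lit 80) (nat_lit 5) (nat_lit 81) (nat_lit 5) (nat_lit 290) (nat_lit 282) (nat_lit 148))) (XT.nd (nat_lit 78) (nat_lit 0) (nat_lit 0) (XT.lf (nat_lit 76) (nat_lit 3292005128) (nat_lit 0) (nat_lit 20657911663) (nat_lit 760) (nat_lit 16301621397) (nat_lit 72) (nat_lit 5) (nat_lit 71) (nat_lit 5) (nat_lit 81) (nat_lit 5) (nat_lit 291) (nat_lit 282) (nat_lit 147)) (XT.lf (nat_lit 76) (nat_lit 21907753634) (nat_lit 0) (nat_lit 4975128480) (nat_lit 760) (nat_lit 14482010840) (nat_lit 72) (nat_lit 5) (nat_lit 71) (nat_lit 5) (nat_lit 81) (nat_lit 5) (nat_lit 292) (nat_lit 282) (nat_lit 146)))) (XT.nd (nat_lit 156) (nat_lit 380) (nat_lit 0) (XT.nd (nat_lit 78) (nat_lit 684) (nat_lit 0) (XT.lf (nat_lit 0) (nat_lit 30139458083) (nat_lit 684) (nat_lit 1261187155) (nat_lit 76) (nat_lit 11124430777) (nat_lit 72) (nat_lit 5) (nat_lit 81) (nat_lit 5) (nat_lit 73) (nat_lit 5) (nat_lit 293)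 (nat_lit 282) (nat_lit 145)) (XT.lf (nat_lit 0) (nat_lit 18348220635) (nat_lit 684) (nat_lit 15576329103) (nat_lit 760) (nat_lit 9800442410) (nat_lit 63) (nat_lit 5) (nat_lit 72) (nat_lit 5) (nat_lit 73) (nat_lit 5) (nat_lit 294) (nat_lit 282) (nat_lit 144))) (XT.nd (nat_lit 78) (nat_lit 380) (nat_lit 0) (XT.lf (nat_lit 0) (nat_lit 37934574083) (nat_lit 760) (nat_lit 6020658808) (nat_lit 76) (nat_lit 1027895160) (nat_lit 63) (nat_lit 5) (nat_lit 73) (nat_lit 5) (nat_lit 64) (nat_lit 5) (nat_lit 295) (nat_lit 282) (nat_lit 143)) (XT.nd (nat_lit 78) (nat_lit 76) (nat_lit 0) (XT.lf (nat_lit 0) (nat_lit 14510299570) (nat_lit 304) (nat_lit 28114547866) (nat_lit 380) (nat_lit 3655343419) (nat_lit 59) (nat_lit 5) (nat_lit 63) (nat_lit 5) (nat_lit 64) (nat_lit 5) (nat_lit 296) (nat_lit 282) (nat_lit 142)) (XT.lf (nat_lit 0) (nat_lit 12003482) (nat_lit 380) (nat_lit 11362481473) (nat_lit 76)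 (nat_lit 36262625021) (nat_lit 58) (nat_lit 5) (nat_lit 63) (nat_lit 5) (nat_lit 59) (nat_lit 5) (nat_lit 297) (nat_lit 282) (nat_lit 141)))))) (XT.nd (nat_lit 312) (nat_lit 532) (nat_lit 0) (XT.nd (nat_lit 156) (nat_lit 304) (nat_lit 0) (XT.nd (nat_lit 78) (nat_lit 0) (nat_lit 0) (XT.lf (nat_lit 0) (nat_lit 3999669758) (nat_lit 456) (nat_lit 38817229710) (nat_lit 76) (nat_lit 6228996102) (nat_lit 53) (nat_lit 5) (nat_lit 59) (nat_lit 5) (nat_lit 54) (nat_lit 5) (nat_lit 298) (nat_lit 282) (nat_lit 140)) (XT.lf (nat_lit 0) (nat_lit 8566818548) (nat_lit 456) (nat_lit 17413318066) (nat_lit 76) (nat_lit 24525985034) (nat_lit 53) (nat_lit 5) (nat_lit 59) (nat_lit 5) (nat_lit 54) (nat_lit 5) (nat_lit 299) (nat_lit 282) (nat_lit 139))) (XT.nd (nat_lit 78) (nat_lit 0) (nat_lit 0) (XT.lf (nat_lit 0) (nat_lit 5226106935) (nat_lit 304) (nat_lit 8215953481) (nat_lit 380) (nat_lit 38593317703)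 (nat_lit 49) (nat_lit 5) (nat_lit 53) (nat_lit 5) (nat_lit 54) (nat_lit 5) (nat_lit 300) (nat_lit 282) (nat_lit 138)) (XT.lf (nat_lit 0) (nat_lit 19021942030) (nat_lit 380) (nat_lit 24194087094) (nat_lit 76) (nat_lit 10402030000) (nat_lit 49) (nat_lit 5) (nat_lit 54) (nat_lit 5) (nat_lit 50) (nat_lit 5) (nat_lit 301) (nat_lit 282) (nat_lit 137)))) (XT.nd (nat_lit 156) (nat_lit 228) (nat_lit 0) (XT.nd (nat_lit 78) (nat_lit 304) (nat_lit 0) (XT.lf (nat_lit 0) (nat_lit 25013789440) (nat_lit 380) (nat_lit 584748289) (nat_lit 76) (nat_lit 29674693190) (nat_lit 49) (nat_lit 5) (nat_lit 54) (nat_lit 5) (nat_lit 50) (nat_lit 5) (nat_lit 302) (nat_lit 282) (nat_lit 136)) (XT.lf (nat_lit 0) (nat_lit 25003500154) (nat_lit 304) (nat_lit 6690469447) (nat_lit 380) (nat_lit 25297759758) (nat_lit 45) (nat_lit 5) (nat_lit 49) (nat_lit 5) (nat_lit 50) (nat_lit 5) (nat_lit 303) (nat_lit 282) (nat_lit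 135))) (XT.nd (nat_lit 78) (nat_lit 228) (nat_lit 0) (XT.lf (nat_lit 0) (nat_lit 38922147618) (nat_lit 380) (nat_lit 7111745878) (nat_lit 76) (nat_lit 12751564613) (nat_lit 45) (nat_lit 5) (nat_lit 50) (nat_lit 5) (nat_lit 46) (nat_lit 5) (nat_lit 304) (nat_lit 282) (nat_lit 134)) (XT.nd (nat_lit 78) (nat_lit 0) (nat_lit 0) (XT.lf (nat_lit 0) (nat_lit 19521917671) (nat_lit 228) (nat_lit 27402776300) (nat_lit 304) (nat_lit 13723535953) (nat_lit 42) (nat_lit 5) (nat_lit 45) (nat_lit 5) (nat_lit 46) (nat_lit 5) (nat_lit 305) (nat_lit 282) (nat_lit 133)) (XT.lf (nat_lit 0) (nat_lit 47732409586) (nat_lit 228) (nat_lit 7713931235) (nat_lit 304) (nat_lit 7151855233) (nat_lit 42) (nat_lit 5) (nat_lit 45) (nat_lit 5) (nat_lit 46) (nat_lit 5) (nat_lit 306) (nat_lit 282) (nat_lit 132))))))) (XT.nd (nat_lit 702) (nat_lit 836) (nat_lit 0) (XT.nd (nat_lit 312) (nat_lit 380) (nat_lit 0) (XT.nd (nat_lit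 156) (nat_lit 228) (nat_lit 0) (XT.nd (nat_lit 78) (nat_lit 0) (nat_lit 0) (XT.lf (nat_lit 0) (nat_lit 165660141) (nat_lit 304) (nat_lit 51711088891) (nat_lit 76) (nat_lit 12748651927) (nat_lit 38) (nat_lit 5) (nat_lit 42) (nat_lit 5) (nat_lit 39) (nat_lit 5) (nat_lit 307) (nat_lit 282) (nat_lit 131)) (XT.lf (nat_lit 0) (nat_lit 7989658105) (nat_lit 304) (nat_lit 24391450809) (nat_lit 76) (nat_lit 34347951001) (nat_lit 38) (nat_lit 5) (nat_lit 42) (nat_lit 5) (nat_lit 39) (nat_lit 5) (nat_lit 308) (nat_lit 282) (nat_lit 130))) (XT.nd (nat_lit 78) (nat_lit 0) (nat_lit 0) (XT.lf (nat_lit 0) (nat_lit 4434416170) (nat_lit 228) (nat_lit 11838351248) (nat_lit 304) (nat_lit 52661742434) (nat_lit 35) (nat_lit 5) (nat_lit 38) (nat_lit 5) (nat_lit 39) (nat_lit 5) (nat_lit 309) (nat_lit 282) (nat_lit 129)) (XT.lf (nat_lit 0) (nat_lit 25540530856) (nat_lit 304) (nat_lit 35841610942) (nat_lit 76)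 (nat_lit 9839568988) (nat_lit 35) (nat_lit 5) (nat_lit 39) (nat_lit 5) (nat_lit 36) (nat_lit 5) (nat_lit 310) (nat_lit 282) (nat_lit 128)))) (XT.nd (nat_lit 156) (nat_lit 152) (nat_lit 0) (XT.nd (nat_lit 78) (nat_lit 228) (nat_lit 0) (XT.lf (nat_lit 0) (nat_lit 35464524405) (nat_lit 304) (nat_lit 5945910445) (nat_lit 76) (nat_lit 32203198089) (nat_lit 35) (nat_lit 5) (nat_lit 39) (nat_lit 5) (nat_lit 36) (nat_lit 5) (nat_lit 311) (nat_lit 282) (nat_lit 127)) (XT.lf (nat_lit 0) (nat_lit 26284278961) (nat_lit 228) (nat_lit 20009639076) (nat_lit 304) (nat_lit 29810776256) (nat_lit 32) (nat_lit 5) (nat_lit 35) (nat_lit 5) (nat_lit 36) (nat_lit 5) (nat_lit 312) (nat_lit 282) (nat_lit 126))) (XT.nd (nat_lit 78) (nat_lit 152) (nat_lit 0) (XT.lf (nat_lit 0) (nat_lit 57804410014) (nat_lit 304) (nat_lit 18424530246) (nat_lit 76) (nat_lit 2484389988) (nat_lit 32) (nat_lit 5) (nat_lit 36) (nat_lit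 5) (nat_lit 33) (nat_lit 5) (nat_lit 313) (nat_lit 282) (nat_lit 125)) (XT.nd (nat_lit 78) (nat_lit 0) (nat_lit 0) (XT.lf (nat_lit 0) (nat_lit 14681511958) (nat_lit 152) (nat_lit 55765070427) (nat_lit 228) (nat_lit 10978010651) (nat_lit 30) (nat_lit 5) (nat_lit 32) (nat_lit 5) (nat_lit 33) (nat_lit 5) (nat_lit 314) (nat_lit 282) (nat_lit 124)) (XT.lf (nat_lit 0) (nat_lit 50081028383) (nat_lit 152) (nat_lit 33950801439) (nat_lit 228) (nat_lit 224043508) (nat_lit 30) (nat_lit 5) (nat_lit 32) (nat_lit 5) (nat_lit 33) (nat_lit 5) (nat_lit 315) (nat_lit 282) (nat_lit 123)))))) (XT.nd (nat_lit 390) (nat_lit 380) (nat_lit 0) (XT.nd (nat_lit 156) (nat_lit 152) (nat_lit 0) (XT.nd (nat_lit 78) (nat_lit 228) (nat_lit 0) (XT.lf (nat_lit 0) (nat_lit 10712358589) (nat_lit 228) (nat_lit 152445332) (nat_lit 76) (nat_lit 76355327848) (nat_lit 29) (nat_lit 5) (nat_lit 32) (nat_lit 5) (nat_lit 30) (nat_lit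 5) (nat_lit 316) (nat_lit 282) (nat_lit 122)) (XT.lf (nat_lit 0) (nat_lit 22979002520) (nat_lit 304) (nat_lit 53780083483) (nat_lit 76) (nat_lit 13533788255) (nat_lit 26) (nat_lit 5) (nat_lit 30) (nat_lit 5) (nat_lit 27) (nat_lit 5) (nat_lit 317) (nat_lit 282) (nat_lit 121))) (XT.nd (nat_lit 78) (nat_lit 152) (nat_lit 0) (XT.lf (nat_lit 0) (nat_lit 36038752108) (nat_lit 304) (nat_lit 18682101386) (nat_lit 76) (nat_lit 38789413918) (nat_lit 26) (nat_lit 5) (nat_lit 30) (nat_lit 5) (nat_lit 27) (nat_lit 5) (nat_lit 318) (nat_lit 282) (nat_lit 120)) (XT.nd (nat_lit 78) (nat_lit 0) (nat_lit 0) (XT.lf (nat_lit 0) (nat_lit 18770206519) (nat_lit 152) (nat_lit 31273421862) (nat_lit 228) (nat_lit 46830296990) (nat_lit 24) (nat_lit 5) (nat_lit 26) (nat_lit 5) (nat_lit 27) (nat_lit 5) (nat_lit 319) (nat_lit 282) (nat_lit 119)) (XT.lf (nat_lit 0) (nat_lit 58742414633) (nat_lit 152) (nat_lit 6321831035)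 (nat_lit 228) (nat_lit 35325747707) (nat_lit 24) (nat_lit 5) (nat_lit 26) (nat_lit 5) (nat_lit 27) (nat_lit 5) (nat_lit 320) (nat_lit 282) (nat_lit 118))))) (XT.nd (nat_lit 156) (nat_lit 228) (nat_lit 0) (XT.nd (nat_lit 78) (nat_lit 152) (nat_lit 0) (XT.lf (nat_lit 0) (nat_lit 81145377820) (nat_lit 228) (nat_lit 3680263682) (nat_lit 76) (nat_lit 19240750988) (nat_lit 24) (nat_lit 5) (nat_lit 27) (nat_lit 5) (nat_lit 25) (nat_lit 5) (nat_lit 321) (nat_lit 282) (nat_lit 117)) (XT.lf (nat_lit 0) (nat_lit 37273536913) (nat_lit 152) (nat_lit 61441794447) (nat_lit 228) (nat_lit 9177043784) (nat_lit 22) (nat_lit 5) (nat_lit 24) (nat_lit 5) (nat_lit 25) (nat_lit 5) (nat_lit 322) (nat_lit 282) (nat_lit 116))) (XT.nd (nat_lit 78) (nat_lit 152) (nat_lit 0) (XT.lf (nat_lit 0) (nat_lit 5148498697) (nat_lit 228) (nat_lit 31588034209) (nat_lit 76) (nat_lit 75165897200) (nat_lit 21) (nat_lit 5) (nat_lit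 24) (nat_lit 5) (nat_lit 22) (nat_lit 5) (nat_lit 323) (nat_lit 282) (nat_lit 115)) (XT.nd (nat_lit 78) (nat_lit 0) (nat_lit 0) (XT.lf (nat_lit 0) (nat_lit 9548292389) (nat_lit 152) (nat_lit 10481920365) (nat_lit 228) (nat_lit 96067839303) (nat_lit 19) (nat_lit 5) (nat_lit 21) (nat_lit 5) (nat_lit 22) (nat_lit 5) (nat_lit 324) (nat_lit 282) (nat_lit 114)) (XT.lf (nat_lit 0) (nat_lit 36465732316) (nat_lit 228) (nat_lit 66915320863) (nat_lit 76) (nat_lit 17081917434) (nat_lit 19) (nat_lit 5) (nat_lit 22) (nat_lit 5) (nat_lit 20) (nat_lit 5) (nat_lit 325) (nat_lit 282) (nat_lit 113))))))))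
noncomputable def xc224 : XT := (XT.nd (nat_lit 1404) (nat_lit 76) (nat_lit 0) (XT.nd (nat_lit 702) (nat_lit 304) (nat_lit 0) (XT.nd (nat_lit 312) (nat_lit 304) (nat_lit 0) (XT.nd (nat_lit 156) (nat_lit 0) (nat_lit 0) (XT.nd (nat_lit 78) (nat_lit 152) (nat_lit 0) (XT.lf (nat_lit 0) (nat_lit 53894138816) (nat_lit 228) (nat_lit 25472131146) (nat_lit 76) (nat_lit 45671311015) (nat_lit 19) (nat_lit 5) (nat_lit 22) (nat_lit 5) (nat_lit 20) (nat_lit 5) (nat_lit 326) (nat_lit 282) (nat_lit 112)) (XT.lf (nat_lit 0) (nat_lit 18638690390) (nat_lit 152) (nat_lit 53845588109) (nat_lit 228) (nat_lit 57342129074) (nat_lit 17) (nat_lit 5) (nat_lit 19) (nat_lit 5) (nat_lit 20) (nat_lit 5) (nat_lit 327) (nat_lit 282) (nat_lit 111))) (XT.nd (nat_lit 78) (nat_lit 0) (nat_lit 0) (XT.lf (nat_lit 0) (nat_lit 65838323174) (nat_lit 152) (nat_lit 26596311730) (nat_lit 228) (nat_lit 42398506403) (nat_lit 17)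 (nat_lit 5) (nat_lit 19) (nat_lit 5) (nat_lit 20) (nat_lit 5) (nat_lit 328) (nat_lit 282) (nat_lit 110)) (XT.lf (nat_lit 0) (nat_lit 113413328717) (nat_lit 228) (nat_lit 24724782087) (nat_lit 76) (nat_lit 1950561177) (nat_lit 17) (nat_lit 5) (nat_lit 20) (nat_lit 5) (nat_lit 18) (nat_lit 4) (nat_lit 329) (nat_lit 282) (nat_lit 109)))) (XT.nd (nat_lit 156) (nat_lit 152) (nat_lit 0) (XT.nd (nat_lit 78) (nat_lit 76) (nat_lit 0) (XT.lf (nat_lit 0) (nat_lit 22026752413) (nat_lit 76) (nat_lit 114193493158) (nat_lit 152) (nat_lit 9347770373) (nat_lit 16) (nat_lit 5) (nat_lit 17) (nat_lit 5) (nat_lit 18) (nat_lit 4) (nat_lit 330) (nat_lit 282) (nat_lit 108)) (XT.lf (nat_lit 0) (nat_lit 8988025687) (nat_lit 152) (nat_lit 79472113807) (nat_lit 76) (nat_lit 62833034113) (nat_lit 15) (nat_lit 5) (nat_lit 17) (nat_lit 5) (nat_lit 16) (nat_lit 5) (nat_lit 331) (nat_lit 282) (nat_lit 107))) (XT.nd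 (nat_lit 78) (nat_lit 152) (nat_lit 0) (XT.lf (nat_lit 0) (nat_lit 27925881414) (nat_lit 152) (nat_lit 33353698457) (nat_lit 76) (nat_lit 96017377377) (nat_lit 15) (nat_lit 5) (nat_lit 17) (nat_lit 5) (nat_lit 16) (nat_lit 5) (nat_lit 332) (nat_lit 282) (nat_lit 106)) (XT.nd (nat_lit 78) (nat_lit 0) (nat_lit 0) (XT.lf (nat_lit 0) (nat_lit 15568006598) (nat_lit 152) (nat_lit 32485127584) (nat_lit 228) (nat_lit 115535671643) (nat_lit 13) (nat_lit 5) (nat_lit 15) (nat_lit 5) (nat_lit 16) (nat_lit 5) (nat_lit 333) (nat_lit 282) (nat_lit 105)) (XT.lf (nat_lit 0) (nat_lit 68092872093) (nat_lit 152) (nat_lit 1658195140) (nat_lit 228) (nat_lit 100415964634) (nat_lit 13) (nat_lit 5) (nat_lit 15) (nat_lit 5) (nat_lit 16) (nat_lit 5) (nat_lit 334) (nat_lit 282) (nat_lit 104)))))) (XT.nd (nat_lit 312) (nat_lit 228) (nat_lit 0) (XT.nd (nat_lit 156) (nat_lit 76) (nat_lit 0) (XT.nd (nat_lit 78) (nat_lit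 0) (nat_lit 0) (XT.lf (nat_lit 0) (nat_lit 93012844757) (nat_lit 228) (nat_lit 54310527955) (nat_lit 76) (nat_lit 29726849984) (nat_lit 13) (nat_lit 5) (nat_lit 16) (nat_lit 5) (nat_lit 14) (nat_lit 4) (nat_lit 335) (nat_lit 282) (nat_lit 103)) (XT.lf (nat_lit 0) (nat_lit 117464396917) (nat_lit 228) (nat_lit 4186725815) (nat_lit 76) (nat_lit 62625116881) (nat_lit 13) (nat_lit 5) (nat_lit 16) (nat_lit 5) (nat_lit 14) (nat_lit 4) (nat_lit 336) (nat_lit 282) (nat_lit 102))) (XT.nd (nat_lit 78) (nat_lit 0) (nat_lit 0) (XT.lf (nat_lit 0) (nat_lit 50044205203) (nat_lit 76) (nat_lit 93875177711) (nat_lit 152) (nat_lit 47905132446) (nat_lit 12) (nat_lit 5) (nat_lit 13) (nat_lit 5) (nat_lit 14) (nat_lit 4) (nat_lit 337) (nat_lit 282) (nat_lit 101)) (XT.lf (nat_lit 0) (nat_lit 107131260826) (nat_lit 76) (nat_lit 64636298013) (nat_lit 152) (nat_lit 27979124779) (nat_lit 12) (nat_lit 5) (nat_lit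 13) (nat_lit 5) (nat_lit 14) (nat_lit 4) (nat_lit 338) (nat_lit 282) (nat_lit 100)))) (XT.nd (nat_lit 156) (nat_lit 0) (nat_lit 0) (XT.nd (nat_lit 78) (nat_lit 228) (nat_lit 0) (XT.lf (nat_lit 0) (nat_lit 167071930553) (nat_lit 76) (nat_lit 33935771485) (nat_lit 152) (nat_lit 7057281047) (nat_lit 12) (nat_lit 5) (nat_lit 13) (nat_lit 5) (nat_lit 14) (nat_lit 4) (nat_lit 339) (nat_lit 282) (nat_lit 99)) (XT.lf (nat_lit 0) (nat_lit 13405996426) (nat_lit 152) (nat_lit 1236301488) (nat_lit 228) (nat_lit 202134816555) (nat_lit 9) (nat_lit 5) (nat_lit 11) (nat_lit 5) (nat_lit 12) (nat_lit 5) (nat_lit 340) (nat_lit 282) (nat_lit 98))) (XT.nd (nat_lit 78) (nat_lit 0) (nat_lit 0) (XT.lf (nat_lit 0) (nat_lit 38411634574) (nat_lit 228) (nat_lit 154586509119) (nat_lit 76) (nat_lit 32859827211) (nat_lit 9) (nat_lit 5) (nat_lit 12) (nat_lit 5) (nat_lit 10) (nat_lit 4) (nat_lit 341) (nat_lit 282)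 (nat_lit 97)) (XT.nd (nat_lit 78) (nat_lit 0) (nat_lit 0) (XT.lf (nat_lit 0) (nat_lit 63389302254) (nat_lit 228) (nat_lit 103383626305) (nat_lit 76) (nat_lit 68618948985) (nat_lit 9) (nat_lit 5) (nat_lit 12) (nat_lit 5) (nat_lit 10) (nat_lit 4) (nat_lit 342) (nat_lit 282) (nat_lit 96)) (XT.lf (nat_lit 0) (nat_lit 89615469461) (nat_lit 228) (nat_lit 49621255845) (nat_lit 76) (nat_lit 106165773967) (nat_lit 9) (nat_lit 5) (nat_lit 12) (nat_lit 5) (nat_lit 10) (nat_lit 4) (nat_lit 343) (nat_lit 282) (nat_lit 95))))))) (XT.nd (nat_lit 33228) (nat_lit 0) (nat_lit 3876) (XT.nd (nat_lit 32838) (nat_lit 0) (nat_lit 4560) (XT.nd (nat_lit 156) (nat_lit 0) (nat_lit 0) (XT.nd (nat_lit 78) (nat_lit 0) (nat_lit 0) (XT.lf (nat_lit 0) (nat_lit 7054392521) (nat_lit 76) (nat_lit 110208325767) (nat_lit 152) (nat_lit 138645445676) (nat_lit 8) (nat_lit 5) (nat_lit 9) (nat_lit 5) (nat_lit 10) (nat_lit 4)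 (nat_lit 344) (nat_lit 282) (nat_lit 94)) (XT.lf (nat_lit 0) (nat_lit 68285946112) (nat_lit 76) (nat_lit 78846385648) (nat_lit 152) (nat_lit 119764780531) (nat_lit 8) (nat_lit 5) (nat_lit 9) (nat_lit 5) (nat_lit 10) (nat_lit 4) (nat_lit 345) (nat_lit 282) (nat_lit 93))) (XT.nd (nat_lit 32604) (nat_lit 0) (nat_lit 4560) (XT.lf (nat_lit 0) (nat_lit 132578491526) (nat_lit 76) (nat_lit 45916593642) (nat_lit 152) (nat_lit 99940440390) (nat_lit 8) (nat_lit 5) (nat_lit 9) (nat_lit 5) (nat_lit 10) (nat_lit 4) (nat_lit 346) (nat_lit 282) (nat_lit 92)) (XT.lf (nat_lit 0) (nat_lit 2965346386) (nat_lit 0) (nat_lit 2965346386) (nat_lit 684) (nat_lit 10831681692) (nat_lit 68) (nat_lit 5) (nat_lit 68) (nat_lit 3) (nat_lit 77) (nat_lit 3) (nat_lit 283) (nat_lit 283) (nat_lit 154)))) (XT.nd (nat_lit 156) (nat_lit 0) (nat_lit 76) (XT.nd (nat_lit 78) (nat_lit 0) (nat_lit 0) (XT.lf (nat_lit 0) (nat_lit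 12345859350) (nat_lit 684) (nat_lit 13647227854) (nat_lit 760) (nat_lit 8360192785) (nat_lit 68) (nat_lit 5) (nat_lit 77) (nat_lit 3) (nat_lit 78) (nat_lit 5) (nat_lit 284) (nat_lit 283) (nat_lit 153)) (XT.lf (nat_lit 76) (nat_lit 927494889) (nat_lit 0) (nat_lit 12035394859) (nat_lit 760) (nat_lit 22254943414) (nat_lit 69) (nat_lit 5) (nat_lit 68) (nat_lit 5) (nat_lit 78) (nat_lit 5) (nat_lit 285) (nat_lit 283) (nat_lit 152))) (XT.nd (nat_lit 78) (nat_lit 0) (nat_lit 0) (XT.lf (nat_lit 0) (nat_lit 13883371561) (nat_lit 684) (nat_lit 19456072774) (nat_lit 760) (nat_lit 2772551290) (nat_lit 69) (nat_lit 5) (nat_lit 78) (nat_lit 5) (nat_lit 79) (nat_lit 5) (nat_lit 286) (nat_lit 283) (nat_lit 151)) (XT.nd (nat_lit 78) (nat_lit 0) (nat_lit 0) (XT.lf (nat_lit 0) (nat_lit 15044112552) (nat_lit 684) (nat_lit 4079369200) (nat_lit 760) (nat_lit 17917683778) (nat_lit 69) (nat_lit 5) (nat_lit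 78) (nat_lit 5) (nat_lit 79) (nat_lit 5) (nat_lit 287) (nat_lit 283) (nat_lit 150)) (XT.lf (nat_lit 76) (nat_lit 12463189797) (nat_lit 0) (nat_lit 3991365671) (nat_lit 760) (nat_lit 21552665764) (nat_lit 70) (nat_lit 5) (nat_lit 69) (nat_lit 5) (nat_lit 79) (nat_lit 5) (nat_lit 288) (nat_lit 283) (nat_lit 149)))))) (XT.nd (nat_lit 312) (nat_lit 836) (nat_lit 0) (XT.nd (nat_lit 156) (nat_lit 0) (nat_lit 76) (XT.nd (nat_lit 78) (nat_lit 0) (nat_lit 0) (XT.lf (nat_lit 0) (nat_lit 18188695005) (nat_lit 684) (nat_lit 9232520718) (nat_lit 760) (nat_lit 11587715315) (nat_lit 70) (nat_lit 5) (nat_lit 79) (nat_lit 5) (nat_lit 80) (nat_lit 5) (nat_lit 289) (nat_lit 283) (nat_lit 148)) (XT.lf (nat_lit 76) (nat_lit 8086017410) (nat_lit 0) (nat_lit 12112539586) (nat_lit 760) (nat_lit 19852728129) (nat_lit 71) (nat_lit 5) (nat_lit 70) (nat_lit 5) (nat_lit 80) (nat_lit 5) (nat_lit 290) (nat_lit 283)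 (nat_lit 147))) (XT.nd (nat_lit 78) (nat_lit 0) (nat_lit 0) (XT.lf (nat_lit 0) (nat_lit 22527129460) (nat_lit 684) (nat_lit 14613374713) (nat_lit 760) (nat_lit 3994350986) (nat_lit 71) (nat_lit 5) (nat_lit 80) (nat_lit 5) (nat_lit 81) (nat_lit 5) (nat_lit 291) (nat_lit 283) (nat_lit 146)) (XT.lf (nat_lit 76) (nat_lit 3518212513) (nat_lit 0) (nat_lit 21704980764) (nat_lit 760) (nat_lit 17036865955) (nat_lit 72) (nat_lit 5) (nat_lit 71) (nat_lit 5) (nat_lit 81) (nat_lit 5) (nat_lit 292) (nat_lit 283) (nat_lit 145)))) (XT.nd (nat_lit 156) (nat_lit 912) (nat_lit 0) (XT.nd (nat_lit 78) (nat_lit 0) (nat_lit 76) (XT.lf (nat_lit 76) (nat_lit 23061814772) (nat_lit 0) (nat_lit 5237383492) (nat_lit 760) (nat_lit 15130076609) (nat_lit 72) (nat_lit 5) (nat_lit 71) (nat_lit 5) (nat_lit 81) (nat_lit 5) (nat_lit 293) (nat_lit 283) (nat_lit 144)) (XT.lf (nat_lit 0) (nat_lit 31714965554) (nat_lit 684)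 (nat_lit 1264487527) (nat_lit 76) (nat_lit 11668207983) (nat_lit 72) (nat_lit 5) (nat_lit 81) (nat_lit 5) (nat_lit 73) (nat_lit 5) (nat_lit 294) (nat_lit 283) (nat_lit 143))) (XT.nd (nat_lit 78) (nat_lit 304) (nat_lit 0) (XT.lf (nat_lit 0) (nat_lit 19324426799) (nat_lit 684) (nat_lit 16362539399) (nat_lit 760) (nat_lit 10220735610) (nat_lit 63) (nat_lit 5) (nat_lit 72) (nat_lit 5) (nat_lit 73) (nat_lit 5) (nat_lit 295) (nat_lit 283) (nat_lit 142)) (XT.nd (nat_lit 78) (nat_lit 304) (nat_lit 0) (XT.lf (nat_lit 0) (nat_lit 39894229962) (nat_lit 760) (nat_lit 6262215064) (nat_lit 76) (nat_lit 1072473546) (nat_lit 63) (nat_lit 5) (nat_lit 73) (nat_lit 5) (nat_lit 64) (nat_lit 5) (nat_lit 296) (nat_lit 283) (nat_lit 141)) (XT.lf (nat_lit 0) (nat_lit 15294331932) (nat_lit 304) (nat_lit 29522602139) (nat_lit 380) (nat_lit 3774015044) (nat_lit 59) (nat_lit 5) (nat_lit 63) (nat_lit 5) (nat_lit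 64) (nat_lit 5) (nat_lit 297) (nat_lit 283) (nat_lit 140))))))))
noncomputable def xc225 : XT := (XT.nd (nat_lit 1404) (nat_lit 1140) (nat_lit 0) (XT.nd (nat_lit 702) (nat_lit 912) (nat_lit 0) (XT.nd (nat_lit 312) (nat_lit 532) (nat_lit 0) (XT.nd (nat_lit 156) (nat_lit 304) (nat_lit 0) (XT.nd (nat_lit 78) (nat_lit 380) (nat_lit 0) (XT.lf (nat_lit 0) (nat_lit 71693264) (nat_lit 380) (nat_lit 11872731304) (nat_lit 76) (nat_lit 38071396794) (nat_lit 58) (nat_lit 5) (nat_lit 63) (nat_lit 5) (nat_lit 59) (nat_lit 5) (nat_lit 298) (nat_lit 283) (nat_lit 139)) (XT.lf (nat_lit 0) (nat_lit 4256814570) (nat_lit 456) (nat_lit 40698108067) (nat_lit 76) (nat_lit 6540229042) (nat_lit 53) (nat_lit 5) (nat_lit 59) (nat_lit 5) (nat_lit 54) (nat_lit 5) (nat_lit 299) (nat_lit 283) (nat_lit 138))) (XT.nd (nat_lit 78) (nat_lit 304) (nat_lit 0) (XT.lf (nat_lit 0) (nat_lit 9049598832) (nat_lit 456) (nat_lit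 18226857180) (nat_lit 76) (nat_lit 25752077748) (nat_lit 53) (nat_lit 5) (nat_lit 59) (nat_lit 5) (nat_lit 54) (nat_lit 5) (nat_lit 300) (nat_lit 283) (nat_lit 137)) (XT.lf (nat_lit 0) (nat_lit 5543617671) (nat_lit 304) (nat_lit 8623270295) (nat_lit 380) (nat_lit 40467459020) (nat_lit 49) (nat_lit 5) (nat_lit 53) (nat_lit 5) (nat_lit 54) (nat_lit 5) (nat_lit 301) (nat_lit 283) (nat_lit 136)))) (XT.nd (nat_lit 156) (nat_lit 532) (nat_lit 0) (XT.nd (nat_lit 78) (nat_lit 0) (nat_lit 0) (XT.lf (nat_lit 0) (nat_lit 20023304727) (nat_lit 380) (nat_lit 25347647561) (nat_lit 76) (nat_lit 10925340501) (nat_lit 49) (nat_lit 5) (nat_lit 54) (nat_lit 5) (nat_lit 50) (nat_lit 5) (nat_lit 302) (nat_lit 283) (nat_lit 135)) (XT.lf (nat_lit 0) (nat_lit 26312350908) (nat_lit 380) (nat_lit 560515335) (nat_lit 76) (nat_lit 31161484041) (nat_lit 49) (nat_lit 5) (nat_lit 54) (nat_lit 5) (nat_lit 50) (nat_lit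 5) (nat_lit 303) (nat_lit 283) (nat_lit 134))) (XT.nd (nat_lit 78) (nat_lit 228) (nat_lit 0) (XT.lf (nat_lit 0) (nat_lit 26306283106) (nat_lit 304) (nat_lit 7018798710) (nat_lit 380) (nat_lit 26513771817) (nat_lit 45) (nat_lit 5) (nat_lit 49) (nat_lit 5) (nat_lit 50) (nat_lit 5) (nat_lit 304) (nat_lit 283) (nat_lit 133)) (XT.nd (nat_lit 78) (nat_lit 228) (nat_lit 0) (XT.lf (nat_lit 0) (nat_lit 40912550659) (nat_lit 380) (nat_lit 7414977525) (nat_lit 76) (nat_lit 13394853278) (nat_lit 45) (nat_lit 5) (nat_lit 50) (nat_lit 5) (nat_lit 46) (nat_lit 5) (nat_lit 305) (nat_lit 283) (nat_lit 132)) (XT.lf (nat_lit 0) (nat_lit 20549524755) (nat_lit 228) (nat_lit 28764394493) (nat_lit 304) (nat_lit 14364444293) (nat_lit 42) (nat_lit 5) (nat_lit 45) (nat_lit 5) (nat_lit 46) (nat_lit 5) (nat_lit 306) (nat_lit 283) (nat_lit 131)))))) (XT.nd (nat_lit 312) (nat_lit 380) (nat_lit 0) (XT.nd (nat_lit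 156) (nat_lit 228) (nat_lit 0) (XT.nd (nat_lit 78) (nat_lit 304) (nat_lit 0) (XT.lf (nat_lit 0) (nat_lit 50168088351) (nat_lit 228) (nat_lit 8091512918) (nat_lit 304) (nat_lit 7466335178) (nat_lit 42) (nat_lit 5) (nat_lit 45) (nat_lit 5) (nat_lit 46) (nat_lit 5) (nat_lit 307) (nat_lit 283) (nat_lit 130)) (XT.lf (nat_lit 0) (nat_lit 214609274) (nat_lit 304) (nat_lit 54244911066) (nat_lit 76) (nat_lit 13395006487) (nat_lit 38) (nat_lit 5) (nat_lit 42) (nat_lit 5) (nat_lit 39) (nat_lit 5) (nat_lit 308) (nat_lit 283) (nat_lit 129))) (XT.nd (nat_lit 78) (nat_lit 228) (nat_lit 0) (XT.lf (nat_lit 0) (nat_lit 8427870654) (nat_lit 304) (nat_lit 25561754521) (nat_lit 76) (nat_lit 36073845659) (nat_lit 38) (nat_lit 5) (nat_lit 42) (nat_lit 5) (nat_lit 39) (nat_lit 5) (nat_lit 309) (nat_lit 283) (nat_lit 128)) (XT.lf (nat_lit 0) (nat_lit 4704611148) (nat_lit 228) (nat_lit 12419436833) (nat_lit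 304) (nat_lit 55255204688) (nat_lit 35) (nat_lit 5) (nat_lit 38) (nat_lit 5) (nat_lit 39) (nat_lit 5) (nat_lit 310) (nat_lit 283) (nat_lit 127)))) (XT.nd (nat_lit 156) (nat_lit 380) (nat_lit 0) (XT.nd (nat_lit 78) (nat_lit 0) (nat_lit 0) (XT.lf (nat_lit 0) (nat_lit 26853568170) (nat_lit 304) (nat_lit 37585798415) (nat_lit 76) (nat_lit 10341533425) (nat_lit 35) (nat_lit 5) (nat_lit 39) (nat_lit 5) (nat_lit 36) (nat_lit 5) (nat_lit 311) (nat_lit 283) (nat_lit 126)) (XT.lf (nat_lit 0) (nat_lit 37272046598) (nat_lit 304) (nat_lit 6197593516) (nat_lit 76) (nat_lit 33822868457) (nat_lit 35) (nat_lit 5) (nat_lit 39) (nat_lit 5) (nat_lit 36) (nat_lit 5) (nat_lit 312) (nat_lit 283) (nat_lit 125))) (XT.nd (nat_lit 78) (nat_lit 152) (nat_lit 0) (XT.lf (nat_lit 0) (nat_lit 27643369676) (nat_lit 228) (nat_lit 20998607746) (nat_lit 304) (nat_lit 31266196539) (nat_lit 32) (nat_lit 5) (nat_lit 35)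 (nat_lit 5) (nat_lit 36) (nat_lit 5) (nat_lit 313) (nat_lit 283) (nat_lit 124)) (XT.nd (nat_lit 78) (nat_lit 152) (nat_lit 0) (XT.lf (nat_lit 0) (nat_lit 60726576455) (nat_lit 304) (nat_lit 19301516702) (nat_lit 76) (nat_lit 2619223571) (nat_lit 32) (nat_lit 5) (nat_lit 36) (nat_lit 5) (nat_lit 33) (nat_lit 5) (nat_lit 314) (nat_lit 283) (nat_lit 123)) (XT.lf (nat_lit 0) (nat_lit 15459114063) (nat_lit 152) (nat_lit 58540901717) (nat_lit 228) (nat_lit 11494172898) (nat_lit 30) (nat_lit 5) (nat_lit 32) (nat_lit 5) (nat_lit 33) (nat_lit 5) (nat_lit 315) (nat_lit 283) (nat_lit 122))))))) (XT.nd (nat_lit 702) (nat_lit 456) (nat_lit 0) (XT.nd (nat_lit 312) (nat_lit 380) (nat_lit 0) (XT.nd (nat_lit 156) (nat_lit 228) (nat_lit 0) (XT.nd (nat_lit 78) (nat_lit 76) (nat_lit 0) (XT.lf (nat_lit 0) (nat_lit 52626533619) (nat_lit 152) (nat_lit 35636510815) (nat_lit 228) (nat_lit 204066363) (nat_lit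 30) (nat_lit 5) (nat_lit 32) (nat_lit 5) (nat_lit 33) (nat_lit 5) (nat_lit 316) (nat_lit 283) (nat_lit 121)) (XT.lf (nat_lit 0) (nat_lit 11276720697) (nat_lit 228) (nat_lit 119569293) (nat_lit 76) (nat_lit 80183343091) (nat_lit 29) (nat_lit 5) (nat_lit 32) (nat_lit 5) (nat_lit 30) (nat_lit 5) (nat_lit 317) (nat_lit 283) (nat_lit 120))) (XT.nd (nat_lit 78) (nat_lit 0) (nat_lit 0) (XT.lf (nat_lit 0) (nat_lit 24156135122) (nat_lit 304) (nat_lit 56427962824) (nat_lit 76) (nat_lit 14221946076) (nat_lit 26) (nat_lit 5) (nat_lit 30) (nat_lit 5) (nat_lit 27) (nat_lit 5) (nat_lit 318) (nat_lit 283) (nat_lit 119)) (XT.lf (nat_lit 0) (nat_lit 37867530167) (nat_lit 304) (nat_lit 19577039947) (nat_lit 76) (nat_lit 40739806907) (nat_lit 26) (nat_lit 5) (nat_lit 30) (nat_lit 5) (nat_lit 27) (nat_lit 5) (nat_lit 319) (nat_lit 283) (nat_lit 118)))) (XT.nd (nat_lit 156) (nat_lit 228) (nat_lit 0) (XT.nd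 (nat_lit 78) (nat_lit 0) (nat_lit 0) (XT.lf (nat_lit 0) (nat_lit 19747251634) (nat_lit 152) (nat_lit 32824722138) (nat_lit 228) (nat_lit 49144280869) (nat_lit 24) (nat_lit 5) (nat_lit 26) (nat_lit 5) (nat_lit 27) (nat_lit 5) (nat_lit 320) (nat_lit 283) (nat_lit 117)) (XT.lf (nat_lit 0) (nat_lit 61716235164) (nat_lit 152) (nat_lit 6626140856) (nat_lit 228) (nat_lit 37065815121) (nat_lit 24) (nat_lit 5) (nat_lit 26) (nat_lit 5) (nat_lit 27) (nat_lit 5) (nat_lit 321) (nat_lit 283) (nat_lit 116))) (XT.nd (nat_lit 78) (nat_lit 228) (nat_lit 0) (XT.lf (nat_lit 0) (nat_lit 85226553392) (nat_lit 228) (nat_lit 3828259955) (nat_lit 76) (nat_lit 20213650101) (nat_lit 24) (nat_lit 5) (nat_lit 27) (nat_lit 5) (nat_lit 25) (nat_lit 5) (nat_lit 322) (nat_lit 283) (nat_lit 115)) (XT.nd (nat_lit 78) (nat_lit 76) (nat_lit 0) (XT.lf (nat_lit 0) (nat_lit 39172649752) (nat_lit 152) (nat_lit 64501769699)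 (nat_lit 228) (nat_lit 9611357582) (nat_lit 22) (nat_lit 5) (nat_lit 24) (nat_lit 5) (nat_lit 25) (nat_lit 5) (nat_lit 323) (nat_lit 283) (nat_lit 114)) (XT.lf (nat_lit 0) (nat_lit 5428545546) (nat_lit 228) (nat_lit 33132893302) (nat_lit 76) (nat_lit 78934935598) (nat_lit 21) (nat_lit 5) (nat_lit 24) (nat_lit 5) (nat_lit 22) (nat_lit 5) (nat_lit 324) (nat_lit 283) (nat_lit 113)))))) (XT.nd (nat_lit 312) (nat_lit 152) (nat_lit 0) (XT.nd (nat_lit 156) (nat_lit 152) (nat_lit 0) (XT.nd (nat_lit 78) (nat_lit 0) (nat_lit 0) (XT.lf (nat_lit 0) (nat_lit 10059692487) (nat_lit 152) (nat_lit 10994106193) (nat_lit 228) (nat_lit 100848008338) (nat_lit 19) (nat_lit 5) (nat_lit 21) (nat_lit 5) (nat_lit 22) (nat_lit 5) (nat_lit 325) (nat_lit 283) (nat_lit 112)) (XT.lf (nat_lit 0) (nat_lit 38310220113) (nat_lit 228) (nat_lit 70227803889) (nat_lit 76) (nat_lit 17946993296) (nat_lit 19) (nat_lit 5) (nat_lit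 22) (nat_lit 5) (nat_lit 20) (nat_lit 5) (nat_lit 326) (nat_lit 283) (nat_lit 111))) (XT.nd (nat_lit 78) (nat_lit 152) (nat_lit 0) (XT.lf (nat_lit 0) (nat_lit 56609037358) (nat_lit 228) (nat_lit 26714039591) (nat_lit 76) (nat_lit 47965333699) (nat_lit 19) (nat_lit 5) (nat_lit 22) (nat_lit 5) (nat_lit 20) (nat_lit 5) (nat_lit 327) (nat_lit 283) (nat_lit 110)) (XT.lf (nat_lit 0) (nat_lit 19601811762) (nat_lit 152) (nat_lit 56526397673) (nat_lit 228) (nat_lit 60188494764) (nat_lit 17) (nat_lit 5) (nat_lit 19) (nat_lit 5) (nat_lit 20) (nat_lit 5) (nat_lit 328) (nat_lit 283) (nat_lit 109)))) (XT.nd (nat_lit 156) (nat_lit 152) (nat_lit 0) (XT.nd (nat_lit 78) (nat_lit 0) (nat_lit 0) (XT.lf (nat_lit 0) (nat_lit 69159941097) (nat_lit 152) (nat_lit 27915203658) (nat_lit 228) (nat_lit 44498678615) (nat_lit 17) (nat_lit 5) (nat_lit 19) (nat_lit 5) (nat_lit 20) (nat_lit 5) (nat_lit 329) (nat_lit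 283) (nat_lit 108)) (XT.lf (nat_lit 0) (nat_lit 119102041490) (nat_lit 228) (nat_lit 25931967650) (nat_lit 76) (nat_lit 2058159744) (nat_lit 17) (nat_lit 5) (nat_lit 20) (nat_lit 5) (nat_lit 18) (nat_lit 4) (nat_lit 330) (nat_lit 283) (nat_lit 107))) (XT.nd (nat_lit 78) (nat_lit 76) (nat_lit 0) (XT.lf (nat_lit 0) (nat_lit 23156674969) (nat_lit 76) (nat_lit 119892216159) (nat_lit 152) (nat_lit 9796611207) (nat_lit 16) (nat_lit 5) (nat_lit 17) (nat_lit 5) (nat_lit 18) (nat_lit 4) (nat_lit 331) (nat_lit 283) (nat_lit 106)) (XT.nd (nat_lit 78) (nat_lit 0) (nat_lit 0) (XT.lf (nat_lit 0) (nat_lit 9454526060) (nat_lit 152) (nat_lit 83417900679) (nat_lit 76) (nat_lit 65984520897) (nat_lit 15) (nat_lit 5) (nat_lit 17) (nat_lit 5) (nat_lit 16) (nat_lit 5) (nat_lit 332) (nat_lit 283) (nat_lit 105)) (XT.lf (nat_lit 0) (nat_lit 29338460331) (nat_lit 152) (nat_lit 34994889266) (nat_lit 76) (nat_lit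 100827612988) (nat_lit 15) (nat_lit 5) (nat_lit 17) (nat_lit 5) (nat_lit 16) (nat_lit 5) (nat_lit 333) (nat_lit 283) (nat_lit 104))))))))
noncomputable def xc226 : XT := (XT.nd (nat_lit 34086) (nat_lit 0) (nat_lit 2584) (XT.nd (nat_lit 702) (nat_lit 76) (nat_lit 0) (XT.nd (nat_lit 312) (nat_lit 304) (nat_lit 0) (XT.nd (nat_lit 156) (nat_lit 0) (nat_lit 0) (XT.nd (nat_lit 78) (nat_lit 0) (nat_lit 0) (XT.lf (nat_lit 0) (nat_lit 16372473717) (nat_lit 152) (nat_lit 34099233527) (nat_lit 228) (nat_lit 121295716118) (nat_lit 13) (nat_lit 5) (nat_lit 15) (nat_lit 5) (nat_lit 16) (nat_lit 5) (nat_lit 334) (nat_lit 283) (nat_lit 103)) (XT.lf (nat_lit 0) (nat_lit 71522341211) (nat_lit 152) (nat_lit 1731437815) (nat_lit 228) (nat_lit 105420820859) (nat_lit 13) (nat_lit 5) (nat_lit 15) (nat_lit 5) (nat_lit 16) (nat_lit 5) (nat_lit 335) (nat_lit 283) (nat_lit 102))) (XT.nd (nat_lit 78) (nat_lit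 0) (nat_lit 0) (XT.lf (nat_lit 0) (nat_lit 97678067339) (nat_lit 228) (nat_lit 57001808488) (nat_lit 76) (nat_lit 31222104555) (nat_lit 13) (nat_lit 5) (nat_lit 16) (nat_lit 5) (nat_lit 14) (nat_lit 4) (nat_lit 336) (nat_lit 283) (nat_lit 101)) (XT.lf (nat_lit 0) (nat_lit 123351502805) (nat_lit 228) (nat_lit 4372970806) (nat_lit 76) (nat_lit 65764860412) (nat_lit 13) (nat_lit 5) (nat_lit 16) (nat_lit 5) (nat_lit 14) (nat_lit 4) (nat_lit 337) (nat_lit 283) (nat_lit 100)))) (XT.nd (nat_lit 156) (nat_lit 228) (nat_lit 0) (XT.nd (nat_lit 78) (nat_lit 0) (nat_lit 0) (XT.lf (nat_lit 0) (nat_lit 52569134322) (nat_lit 76) (nat_lit 98559797244) (nat_lit 152) (nat_lit 50286108425) (nat_lit 12) (nat_lit 5) (nat_lit 13) (nat_lit 5) (nat_lit 14) (nat_lit 4) (nat_lit 338) (nat_lit 283) (nat_lit 99)) (XT.lf (nat_lit 0) (nat_lit 112509460877) (nat_lit 76) (nat_lit 67859408768) (nat_lit 152) (nat_lit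 29364480405) (nat_lit 12) (nat_lit 5) (nat_lit 13) (nat_lit 5) (nat_lit 14) (nat_lit 4) (nat_lit 339) (nat_lit 283) (nat_lit 98))) (XT.nd (nat_lit 78) (nat_lit 228) (nat_lit 0) (XT.lf (nat_lit 0) (nat_lit 175446133756) (nat_lit 76) (nat_lit 35624270397) (nat_lit 152) (nat_lit 7397192135) (nat_lit 12) (nat_lit 5) (nat_lit 13) (nat_lit 5) (nat_lit 14) (nat_lit 4) (nat_lit 340) (nat_lit 283) (nat_lit 97)) (XT.nd (nat_lit 78) (nat_lit 0) (nat_lit 0) (XT.lf (nat_lit 0) (nat_lit 14096997281) (nat_lit 152) (nat_lit 1289680053) (nat_lit 228) (nat_lit 212228661401) (nat_lit 9) (nat_lit 5) (nat_lit 11) (nat_lit 5) (nat_lit 12) (nat_lit 5) (nat_lit 341) (nat_lit 283) (nat_lit 96)) (XT.lf (nat_lit 0) (nat_lit 40344022247) (nat_lit 228) (nat_lit 162295643362) (nat_lit 76) (nat_lit 34510596180) (nat_lit 9) (nat_lit 5) (nat_lit 12) (nat_lit 5) (nat_lit 10) (nat_lit 4) (nat_lit 342) (nat_lit 283)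 (nat_lit 95)))))) (XT.nd (nat_lit 32994) (nat_lit 0) (nat_lit 4560) (XT.nd (nat_lit 156) (nat_lit 76) (nat_lit 0) (XT.nd (nat_lit 78) (nat_lit 0) (nat_lit 0) (XT.lf (nat_lit 0) (nat_lit 66570011123) (nat_lit 228) (nat_lit 108533577893) (nat_lit 76) (nat_lit 72057303680) (nat_lit 9) (nat_lit 5) (nat_lit 12) (nat_lit 5) (nat_lit 10) (nat_lit 4) (nat_lit 343) (nat_lit 283) (nat_lit 94)) (XT.lf (nat_lit 0) (nat_lit 94106951274) (nat_lit 228) (nat_lit 52084004612) (nat_lit 76) (nat_lit 111481117185) (nat_lit 9) (nat_lit 5) (nat_lit 12) (nat_lit 5) (nat_lit 10) (nat_lit 4) (nat_lit 344) (nat_lit 283) (nat_lit 93))) (XT.nd (nat_lit 32760) (nat_lit 0) (nat_lit 4560) (XT.lf (nat_lit 0) (nat_lit 7425130784) (nat_lit 76) (nat_lit 115711203157) (nat_lit 152) (nat_lit 145566699234) (nat_lit 8) (nat_lit 5) (nat_lit 9) (nat_lit 5) (nat_lit 10) (nat_lit 4) (nat_lit 345) (nat_lit 283) (nat_lit 92))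 (XT.lf (nat_lit 0) (nat_lit 3139747879) (nat_lit 0) (nat_lit 3139747879) (nat_lit 684) (nat_lit 11318196283) (nat_lit 68) (nat_lit 5) (nat_lit 68) (nat_lit 3) (nat_lit 77) (nat_lit 3) (nat_lit 284) (nat_lit 284) (nat_lit 152)))) (XT.nd (nat_lit 156) (nat_lit 0) (nat_lit 76) (XT.nd (nat_lit 78) (nat_lit 0) (nat_lit 0) (XT.lf (nat_lit 0) (nat_lit 13061933876) (nat_lit 684) (nat_lit 14273697156) (nat_lit 760) (nat_lit 8730016298) (nat_lit 68) (nat_lit 5) (nat_lit 77) (nat_lit 3) (nat_lit 78) (nat_lit 5) (nat_lit 285) (nat_lit 284) (nat_lit 151)) (XT.lf (nat_lit 76) (nat_lit 1028860239) (nat_lit 0) (nat_lit 12677110228) (nat_lit 760) (nat_lit 23267666987) (nat_lit 69) (nat_lit 5) (nat_lit 68) (nat_lit 5) (nat_lit 78) (nat_lit 5) (nat_lit 286) (nat_lit 284) (nat_lit 150))) (XT.nd (nat_lit 78) (nat_lit 0) (nat_lit 0) (XT.lf (nat_lit 0) (nat_lit 14667361634) (nat_lit 684) (nat_lit 20371065333)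 (nat_lit 760) (nat_lit 2874353029) (nat_lit 69) (nat_lit 5) (nat_lit 78) (nat_lit 5) (nat_lit 79) (nat_lit 5) (nat_lit 287) (nat_lit 284) (nat_lit 149)) (XT.nd (nat_lit 78) (nat_lit 0) (nat_lit 0) (XT.lf (nat_lit 0) (nat_lit 15881862460) (nat_lit 684) (nat_lit 4228279489) (nat_lit 760) (nat_lit 18778495752) (nat_lit 69) (nat_lit 5) (nat_lit 78) (nat_lit 5) (nat_lit 79) (nat_lit 5) (nat_lit 288) (nat_lit 284) (nat_lit 148)) (XT.lf (nat_lit 76) (nat_lit 13140519423) (nat_lit 0) (nat_lit 4219080309) (nat_lit 760) (nat_lit 22543572554) (nat_lit 70) (nat_lit 5) (nat_lit 69) (nat_lit 5) (nat_lit 79) (nat_lit 5) (nat_lit 289) (nat_lit 284) (nat_lit 147))))))) (XT.nd (nat_lit 702) (nat_lit 1292) (nat_lit 0) (XT.nd (nat_lit 312) (nat_lit 836) (nat_lit 0) (XT.nd (nat_lit 156) (nat_lit 0) (nat_lit 76) (XT.nd (nat_lit 78) (nat_lit 0) (nat_lit 0) (XT.lf (nat_lit 0) (nat_lit 19176107896) (nat_lit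 684) (nat_lit 9637937623) (nat_lit 760) (nat_lit 12141152989) (nat_lit 70) (nat_lit 5) (nat_lit 79) (nat_lit 5) (nat_lit 80) (nat_lit 5) (nat_lit 290) (nat_lit 284) (nat_lit 146)) (XT.lf (nat_lit 76) (nat_lit 8545620813) (nat_lit 0) (nat_lit 12737992357) (nat_lit 760) (nat_lit 20766212964) (nat_lit 71) (nat_lit 5) (nat_lit 70) (nat_lit 5) (nat_lit 80) (nat_lit 5) (nat_lit 291) (nat_lit 284) (nat_lit 145))) (XT.nd (nat_lit 78) (nat_lit 0) (nat_lit 0) (XT.lf (nat_lit 0) (nat_lit 23724741921) (nat_lit 684) (nat_lit 15287247909) (nat_lit 760) (nat_lit 4175791161) (nat_lit 71) (nat_lit 5) (nat_lit 80) (nat_lit 5) (nat_lit 81) (nat_lit 5) (nat_lit 292) (nat_lit 284) (nat_lit 144)) (XT.lf (nat_lit 76) (nat_lit 3750002621) (nat_lit 0) (nat_lit 22803085601) (nat_lit 760) (nat_lit 17816295183) (nat_lit 72) (nat_lit 5) (nat_lit 71) (nat_lit 5) (nat_lit 81) (nat_lit 5) (nat_lit 293) (nat_lit 284)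 (nat_lit 143)))) (XT.nd (nat_lit 156) (nat_lit 912) (nat_lit 0) (XT.nd (nat_lit 78) (nat_lit 0) (nat_lit 76) (XT.lf (nat_lit 76) (nat_lit 24268124065) (nat_lit 0) (nat_lit 5511496285) (nat_lit 760) (nat_lit 15817614659) (nat_lit 72) (nat_lit 5) (nat_lit 71) (nat_lit 5) (nat_lit 81) (nat_lit 5) (nat_lit 294) (nat_lit 284) (nat_lit 142)) (XT.lf (nat_lit 0) (nat_lit 33362876703) (nat_lit 684) (nat_lit 1273508741) (nat_lit 76) (nat_lit 12240331005) (nat_lit 72) (nat_lit 5) (nat_lit 81) (nat_lit 5) (nat_lit 73) (nat_lit 5) (nat_lit 295) (nat_lit 284) (nat_lit 141))) (XT.nd (nat_lit 78) (nat_lit 304) (nat_lit 0) (XT.lf (nat_lit 0) (nat_lit 20343977056) (nat_lit 684) (nat_lit 17187372800) (nat_lit 760) (nat_lit 10668526204) (nat_lit 63) (nat_lit 5) (nat_lit 72) (nat_lit 5) (nat_lit 73) (nat_lit 5) (nat_lit 296) (nat_lit 284) (nat_lit 140)) (XT.nd (nat_lit 78) (nat_lit 304) (nat_lit 0) (XT.lf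 (nat_lit 0) (nat_lit 41946018262) (nat_lit 760) (nat_lit 6521378712) (nat_lit 76) (nat_lit 1119914572) (nat_lit 63) (nat_lit 5) (nat_lit 73) (nat_lit 5) (nat_lit 64) (nat_lit 5) (nat_lit 297) (nat_lit 284) (nat_lit 139)) (XT.lf (nat_lit 0) (nat_lit 16112125519) (nat_lit 304) (nat_lit 31000842795) (nat_lit 380) (nat_lit 3904579246) (nat_lit 59) (nat_lit 5) (nat_lit 63) (nat_lit 5) (nat_lit 64) (nat_lit 5) (nat_lit 298) (nat_lit 284) (nat_lit 138)))))) (XT.nd (nat_lit 312) (nat_lit 532) (nat_lit 0) (XT.nd (nat_lit 156) (nat_lit 304) (nat_lit 0) (XT.nd (nat_lit 78) (nat_lit 380) (nat_lit 0) (XT.lf (nat_lit 0) (nat_lit 128873944) (nat_lit 380) (nat_lit 12413874225) (nat_lit 76) (nat_lit 39971012459) (nat_lit 58) (nat_lit 5) (nat_lit 63) (nat_lit 5) (nat_lit 59) (nat_lit 5) (nat_lit 299) (nat_lit 284) (nat_lit 137)) (XT.lf (nat_lit 0) (nat_lit 4521502305) (nat_lit 456) (nat_lit 42678607004)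 (nat_lit 76) (nat_lit 6867043792) (nat_lit 53) (nat_lit 5) (nat_lit 59) (nat_lit 5) (nat_lit 54) (nat_lit 5) (nat_lit 300) (nat_lit 284) (nat_lit 136))) (XT.nd (nat_lit 78) (nat_lit 304) (nat_lit 0) (XT.lf (nat_lit 0) (nat_lit 9551456874) (nat_lit 456) (nat_lit 19086384357) (nat_lit 76) (nat_lit 27039494300) (nat_lit 53) (nat_lit 5) (nat_lit 59) (nat_lit 5) (nat_lit 54) (nat_lit 5) (nat_lit 301) (nat_lit 284) (nat_lit 135)) (XT.lf (nat_lit 0) (nat_lit 5871778500) (nat_lit 304) (nat_lit 9051276568) (nat_lit 380) (nat_lit 42440469551) (nat_lit 49) (nat_lit 5) (nat_lit 53) (nat_lit 5) (nat_lit 54) (nat_lit 5) (nat_lit 302) (nat_lit 284) (nat_lit 134)))) (XT.nd (nat_lit 156) (nat_lit 532) (nat_lit 0) (XT.nd (nat_lit 78) (nat_lit 0) (nat_lit 0) (XT.lf (nat_lit 0) (nat_lit 21070062341) (nat_lit 380) (nat_lit 26564105778) (nat_lit 76) (nat_lit 11474518184) (nat_lit 49) (nat_lit 5) (nat_lit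 54) (nat_lit 5) (nat_lit 50) (nat_lit 5) (nat_lit 303) (nat_lit 284) (nat_lit 133)) (XT.lf (nat_lit 0) (nat_lit 27671389766) (nat_lit 380) (nat_lit 540041900) (nat_lit 76) (nat_lit 32722330298) (nat_lit 49) (nat_lit 5) (nat_lit 54) (nat_lit 5) (nat_lit 50) (nat_lit 5) (nat_lit 304) (nat_lit 284) (nat_lit 132))) (XT.nd (nat_lit 78) (nat_lit 228) (nat_lit 0) (XT.lf (nat_lit 0) (nat_lit 27669314217) (nat_lit 304) (nat_lit 7364120316) (nat_lit 380) (nat_lit 27795128500) (nat_lit 45) (nat_lit 5) (nat_lit 49) (nat_lit 5) (nat_lit 50) (nat_lit 5) (nat_lit 305) (nat_lit 284) (nat_lit 131)) (XT.nd (nat_lit 78) (nat_lit 228) (nat_lit 0) (XT.lf (nat_lit 0) (nat_lit 42998355662) (nat_lit 380) (nat_lit 7738238287) (nat_lit 76) (nat_lit 14069775473) (nat_lit 45) (nat_lit 5) (nat_lit 50) (nat_lit 5) (nat_lit 46) (nat_lit 5) (nat_lit 306) (nat_lit 284) (nat_lit 130)) (XT.lf (nat_lit 0) (nat_lit 21623723170)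 (nat_lit 228) (nat_lit 30194885762) (nat_lit 304) (nat_lit 15041606682) (nat_lit 42) (nat_lit 5) (nat_lit 45) (nat_lit 5) (nat_lit 46) (nat_lit 5) (nat_lit 307) (nat_lit 284) (nat_lit 129))))))))
noncomputable def xc227 : XT := (XT.nd (nat_lit 1404) (nat_lit 912) (nat_lit 0) (XT.nd (nat_lit 702) (nat_lit 684) (nat_lit 0) (XT.nd (nat_lit 312) (nat_lit 380) (nat_lit 0) (XT.nd (nat_lit 156) (nat_lit 228) (nat_lit 0) (XT.nd (nat_lit 78) (nat_lit 304) (nat_lit 0) (XT.lf (nat_lit 0) (nat_lit 52720990081) (nat_lit 228) (nat_lit 8488728130) (nat_lit 304) (nat_lit 7800547341) (nat_lit 42) (nat_lit 5) (nat_lit 45) (nat_lit 5) (nat_lit 46) (nat_lit 5) (nat_lit 308) (nat_lit 284) (nat_lit 128)) (XT.lf (nat_lit 0) (nat_lit 262225112) (nat_lit 304) (nat_lit 56910233925) (nat_lit 76) (nat_lit 14072849296) (nat_lit 38) (nat_lit 5) (nat_lit 42) (nat_lit 5) (nat_lit 39) (nat_lit 5) (nat_lit 309) (nat_lit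 284) (nat_lit 127))) (XT.nd (nat_lit 78) (nat_lit 228) (nat_lit 0) (XT.lf (nat_lit 0) (nat_lit 8884393115) (nat_lit 304) (nat_lit 26795153968) (nat_lit 76) (nat_lit 37885245070) (nat_lit 38) (nat_lit 5) (nat_lit 42) (nat_lit 5) (nat_lit 39) (nat_lit 5) (nat_lit 310) (nat_lit 284) (nat_lit 126)) (XT.lf (nat_lit 0) (nat_lit 4983809207) (nat_lit 228) (nat_lit 13030583751) (nat_lit 304) (nat_lit 57982023999) (nat_lit 35) (nat_lit 5) (nat_lit 38) (nat_lit 5) (nat_lit 39) (nat_lit 5) (nat_lit 311) (nat_lit 284) (nat_lit 125)))) (XT.nd (nat_lit 156) (nat_lit 380) (nat_lit 0) (XT.nd (nat_lit 78) (nat_lit 0) (nat_lit 0) (XT.lf (nat_lit 0) (nat_lit 28228909409) (nat_lit 304) (nat_lit 39421647905) (nat_lit 76) (nat_lit 10867667681) (nat_lit 35) (nat_lit 5) (nat_lit 39) (nat_lit 5) (nat_lit 36) (nat_lit 5) (nat_lit 312) (nat_lit 284) (nat_lit 124)) (XT.lf (nat_lit 0) (nat_lit 39166756386) (nat_lit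 304) (nat_lit 6466101353) (nat_lit 76) (nat_lit 35522638152) (nat_lit 35) (nat_lit 5) (nat_lit 39) (nat_lit 5) (nat_lit 36) (nat_lit 5) (nat_lit 313) (nat_lit 284) (nat_lit 123))) (XT.nd (nat_lit 78) (nat_lit 152) (nat_lit 0) (XT.lf (nat_lit 0) (nat_lit 29066242711) (nat_lit 228) (nat_lit 22038095245) (nat_lit 304) (nat_lit 32797652824) (nat_lit 32) (nat_lit 5) (nat_lit 35) (nat_lit 5) (nat_lit 36) (nat_lit 5) (nat_lit 314) (nat_lit 284) (nat_lit 122)) (XT.nd (nat_lit 78) (nat_lit 152) (nat_lit 0) (XT.lf (nat_lit 0) (nat_lit 63791881188) (nat_lit 304) (nat_lit 20226465501) (nat_lit 76) (nat_lit 2759812035) (nat_lit 32) (nat_lit 5) (nat_lit 36) (nat_lit 5) (nat_lit 33) (nat_lit 5) (nat_lit 315) (nat_lit 284) (nat_lit 121)) (XT.lf (nat_lit 0) (nat_lit 16271549592) (nat_lit 152) (nat_lit 61456679473) (nat_lit 228) (nat_lit 12039186952) (nat_lit 30) (nat_lit 5) (nat_lit 32) (nat_lit 5)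 (nat_lit 33) (nat_lit 5) (nat_lit 316) (nat_lit 284) (nat_lit 120)))))) (XT.nd (nat_lit 312) (nat_lit 380) (nat_lit 0) (XT.nd (nat_lit 156) (nat_lit 228) (nat_lit 0) (XT.nd (nat_lit 78) (nat_lit 76) (nat_lit 0) (XT.lf (nat_lit 0) (nat_lit 55295460133) (nat_lit 152) (nat_lit 37407605565) (nat_lit 228) (nat_lit 185989119) (nat_lit 30) (nat_lit 5) (nat_lit 32) (nat_lit 5) (nat_lit 33) (nat_lit 5) (nat_lit 317) (nat_lit 284) (nat_lit 119)) (XT.lf (nat_lit 0) (nat_lit 11866628549) (nat_lit 228) (nat_lit 88814602) (nat_lit 76) (nat_lit 84201806255) (nat_lit 29) (nat_lit 5) (nat_lit 32) (nat_lit 5) (nat_lit 30) (nat_lit 5) (nat_lit 318) (nat_lit 284) (nat_lit 118))) (XT.nd (nat_lit 78) (nat_lit 0) (nat_lit 0) (XT.lf (nat_lit 0) (nat_lit 25389504214) (nat_lit 304) (nat_lit 59212059529) (nat_lit 76) (nat_lit 14943445563) (nat_lit 26) (nat_lit 5) (nat_lit 30) (nat_lit 5) (nat_lit 27) (nat_lit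 5) (nat_lit 319) (nat_lit 284) (nat_lit 117)) (XT.lf (nat_lit 0) (nat_lit 39785251757) (nat_lit 304) (nat_lit 20520366767) (nat_lit 76) (nat_lit 42786704094) (nat_lit 26) (nat_lit 5) (nat_lit 30) (nat_lit 5) (nat_lit 27) (nat_lit 5) (nat_lit 320) (nat_lit 284) (nat_lit 116)))) (XT.nd (nat_lit 156) (nat_lit 228) (nat_lit 0) (XT.nd (nat_lit 78) (nat_lit 0) (nat_lit 0) (XT.lf (nat_lit 0) (nat_lit 20769566407) (nat_lit 152) (nat_lit 34454737549) (nat_lit 228) (nat_lit 51576523511) (nat_lit 24) (nat_lit 5) (nat_lit 26) (nat_lit 5) (nat_lit 27) (nat_lit 5) (nat_lit 321) (nat_lit 284) (nat_lit 115)) (XT.lf (nat_lit 0) (nat_lit 64835334723) (nat_lit 152) (nat_lit 6946761521) (nat_lit 228) (nat_lit 38895323590) (nat_lit 24) (nat_lit 5) (nat_lit 26) (nat_lit 5) (nat_lit 27) (nat_lit 5) (nat_lit 322) (nat_lit 284) (nat_lit 114))) (XT.nd (nat_lit 78) (nat_lit 228) (nat_lit 0) (XT.lf (nat_lit 0)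 (nat_lit 89509565126) (nat_lit 228) (nat_lit 3987004553) (nat_lit 76) (nat_lit 21234184365) (nat_lit 24) (nat_lit 5) (nat_lit 27) (nat_lit 5) (nat_lit 25) (nat_lit 5) (nat_lit 323) (nat_lit 284) (nat_lit 113)) (XT.nd (nat_lit 78) (nat_lit 76) (nat_lit 0) (XT.lf (nat_lit 0) (nat_lit 41163423730) (nat_lit 152) (nat_lit 67715870002) (nat_lit 228) (nat_lit 10069668416) (nat_lit 22) (nat_lit 5) (nat_lit 24) (nat_lit 5) (nat_lit 25) (nat_lit 5) (nat_lit 324) (nat_lit 284) (nat_lit 112)) (XT.lf (nat_lit 0) (nat_lit 5720491566) (nat_lit 228) (nat_lit 34758206794) (nat_lit 76) (nat_lit 82891427083) (nat_lit 21) (nat_lit 5) (nat_lit 24) (nat_lit 5) (nat_lit 22) (nat_lit 5) (nat_lit 325) (nat_lit 284) (nat_lit 111))))))) (XT.nd (nat_lit 702) (nat_lit 456) (nat_lit 0) (XT.nd (nat_lit 312) (nat_lit 152) (nat_lit 0) (XT.nd (nat_lit 156) (nat_lit 152) (nat_lit 0) (XT.nd (nat_lit 78) (nat_lit 0) (nat_lit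 0) (XT.lf (nat_lit 0) (nat_lit 10593502943) (nat_lit 152) (nat_lit 11533008609) (nat_lit 228) (nat_lit 105869344873) (nat_lit 19) (nat_lit 5) (nat_lit 21) (nat_lit 5) (nat_lit 22) (nat_lit 5) (nat_lit 326) (nat_lit 284) (nat_lit 110)) (XT.lf (nat_lit 0) (nat_lit 40244961215) (nat_lit 228) (nat_lit 73709005405) (nat_lit 76) (nat_lit 18854302136) (nat_lit 19) (nat_lit 5) (nat_lit 22) (nat_lit 5) (nat_lit 20) (nat_lit 5) (nat_lit 327) (nat_lit 284) (nat_lit 109))) (XT.nd (nat_lit 78) (nat_lit 152) (nat_lit 0) (XT.lf (nat_lit 0) (nat_lit 59457803603) (nat_lit 228) (nat_lit 28020990448) (nat_lit 76) (nat_lit 50373085313) (nat_lit 19) (nat_lit 5) (nat_lit 22) (nat_lit 5) (nat_lit 20) (nat_lit 5) (nat_lit 328) (nat_lit 284) (nat_lit 108)) (XT.lf (nat_lit 0) (nat_lit 20610189745) (nat_lit 152) (nat_lit 59342314072) (nat_lit 228) (nat_lit 63179107018) (nat_lit 17) (nat_lit 5) (nat_lit 19) (nat_lit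 5) (nat_lit 20) (nat_lit 5) (nat_lit 329) (nat_lit 284) (nat_lit 107)))) (XT.nd (nat_lit 156) (nat_lit 152) (nat_lit 0) (XT.nd (nat_lit 78) (nat_lit 0) (nat_lit 0) (XT.lf (nat_lit 0) (nat_lit 72644878528) (nat_lit 152) (nat_lit 29301055760) (nat_lit 228) (nat_lit 46705695895) (nat_lit 17) (nat_lit 5) (nat_lit 19) (nat_lit 5) (nat_lit 20) (nat_lit 5) (nat_lit 330) (nat_lit 284) (nat_lit 106)) (XT.lf (nat_lit 0) (nat_lit 125073512124) (nat_lit 228) (nat_lit 27202213614) (nat_lit 76) (nat_lit 2170201979) (nat_lit 17) (nat_lit 5) (nat_lit 20) (nat_lit 5) (nat_lit 18) (nat_lit 4) (nat_lit 331) (nat_lit 284) (nat_lit 105))) (XT.nd (nat_lit 78) (nat_lit 76) (nat_lit 0) (XT.lf (nat_lit 0) (nat_lit 24340436096) (nat_lit 76) (nat_lit 125876893492) (nat_lit 152) (nat_lit 10269618471) (nat_lit 16) (nat_lit 5) (nat_lit 17) (nat_lit 5) (nat_lit 18) (nat_lit 4) (nat_lit 332) (nat_lit 284) (nat_lit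 104)) (XT.nd (nat_lit 78) (nat_lit 0) (nat_lit 0) (XT.lf (nat_lit 0) (nat_lit 9942761740) (nat_lit 152) (nat_lit 87563563224) (nat_lit 76) (nat_lit 69292667648) (nat_lit 15) (nat_lit 5) (nat_lit 17) (nat_lit 5) (nat_lit 16) (nat_lit 5) (nat_lit 333) (nat_lit 284) (nat_lit 103)) (XT.lf (nat_lit 0) (nat_lit 30820154183) (nat_lit 152) (nat_lit 36720602788) (nat_lit 76) (nat_lit 105877489548) (nat_lit 15) (nat_lit 5) (nat_lit 17) (nat_lit 5) (nat_lit 16) (nat_lit 5) (nat_lit 334) (nat_lit 284) (nat_lit 102)))))) (XT.nd (nat_lit 312) (nat_lit 304) (nat_lit 0) (XT.nd (nat_lit 156) (nat_lit 0) (nat_lit 0) (XT.nd (nat_lit 78) (nat_lit 0) (nat_lit 0) (XT.lf (nat_lit 0) (nat_lit 17214740748) (nat_lit 152) (nat_lit 35794988459) (nat_lit 228) (nat_lit 127345319061) (nat_lit 13) (nat_lit 5) (nat_lit 15) (nat_lit 5) (nat_lit 16) (nat_lit 5) (nat_lit 335) (nat_lit 284) (nat_lit 101)) (XT.lf (nat_lit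 0) (nat_lit 75120975743) (nat_lit 152) (nat_lit 1809241378) (nat_lit 228) (nat_lit 110677402033) (nat_lit 13) (nat_lit 5) (nat_lit 15) (nat_lit 5) (nat_lit 16) (nat_lit 5) (nat_lit 336) (nat_lit 284) (nat_lit 100))) (XT.nd (nat_lit 78) (nat_lit 0) (nat_lit 0) (XT.lf (nat_lit 0) (nat_lit 102575195508) (nat_lit 228) (nat_lit 59829907198) (nat_lit 76) (nat_lit 32791293294) (nat_lit 13) (nat_lit 5) (nat_lit 16) (nat_lit 5) (nat_lit 14) (nat_lit 4) (nat_lit 337) (nat_lit 284) (nat_lit 99)) (XT.lf (nat_lit 0) (nat_lit 129531672995) (nat_lit 228) (nat_lit 4570674857) (nat_lit 76) (nat_lit 69060802015) (nat_lit 13) (nat_lit 5) (nat_lit 16) (nat_lit 5) (nat_lit 14) (nat_lit 4) (nat_lit 338) (nat_lit 284) (nat_lit 98)))) (XT.nd (nat_lit 156) (nat_lit 228) (nat_lit 0) (XT.nd (nat_lit 78) (nat_lit 0) (nat_lit 0) (XT.lf (nat_lit 0) (nat_lit 55218197714) (nat_lit 76) (nat_lit 103479497444) (nat_lit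 152) (nat_lit 52787460882) (nat_lit 12) (nat_lit 5) (nat_lit 13) (nat_lit 5) (nat_lit 14) (nat_lit 4) (nat_lit 339) (nat_lit 284) (nat_lit 97)) (XT.lf (nat_lit 0) (nat_lit 118154559326) (nat_lit 76) (nat_lit 71244484290) (nat_lit 152) (nat_lit 30820368269) (nat_lit 12) (nat_lit 5) (nat_lit 13) (nat_lit 5) (nat_lit 14) (nat_lit 4) (nat_lit 340) (nat_lit 284) (nat_lit 96))) (XT.nd (nat_lit 78) (nat_lit 228) (nat_lit 0) (XT.lf (nat_lit 0) (nat_lit 184237131306) (nat_lit 76) (nat_lit 37397964949) (nat_lit 152) (nat_lit 7755303022) (nat_lit 12) (nat_lit 5) (nat_lit 13) (nat_lit 5) (nat_lit 14) (nat_lit 4) (nat_lit 341) (nat_lit 284) (nat_lit 95)) (XT.nd (nat_lit 78) (nat_lit 0) (nat_lit 0) (XT.lf (nat_lit 0) (nat_lit 14820623592) (nat_lit 152) (nat_lit 1346511892) (nat_lit 228) (nat_lit 222828397436) (nat_lit 9) (nat_lit 5) (nat_lit 11) (nat_lit 5) (nat_lit 12) (nat_lit 5) (nat_lit 342)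 (nat_lit 284) (nat_lit 94)) (XT.lf (nat_lit 0) (nat_lit 42371931698) (nat_lit 228) (nat_lit 170392111505) (nat_lit 76) (nat_lit 36243180509) (nat_lit 9) (nat_lit 5) (nat_lit 12) (nat_lit 5) (nat_lit 10) (nat_lit 4) (nat_lit 343) (nat_lit 284) (nat_lit 93))))))))
noncomputable def xc228 : XT := (XT.nd (nat_lit 34164) (nat_lit 0) (nat_lit 1596) (XT.nd (nat_lit 33462) (nat_lit 0) (nat_lit 3724) (XT.nd (nat_lit 33072) (nat_lit 0) (nat_lit 4484) (XT.nd (nat_lit 32916) (nat_lit 0) (nat_lit 4484) (XT.nd (nat_lit 78) (nat_lit 0) (nat_lit 0) (XT.lf (nat_lit 0) (nat_lit 69908710097) (nat_lit 228) (nat_lit 113942814859) (nat_lit 76) (nat_lit 75666887454) (nat_lit 9) (nat_lit 5) (nat_lit 12) (nat_lit 5) (nat_lit 10) (nat_lit 4) (nat_lit 344) (nat_lit 284) (nat_lit 92)) (XT.lf (nat_lit 0) (nat_lit 98822011617) (nat_lit 228) (nat_lit 54671593482) (nat_lit 76) (nat_lit 117061571702) (nat_lit 9) (nat_lit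 5) (nat_lit 12) (nat_lit 5) (nat_lit 10) (nat_lit 4) (nat_lit 345) (nat_lit 284) (nat_lit 91))) (XT.nd (nat_lit 78) (nat_lit 0) (nat_lit 0) (XT.lf (nat_lit 0) (nat_lit 3320439738) (nat_lit 0) (nat_lit 3320439738) (nat_lit 684) (nat_lit 11834156443) (nat_lit 68) (nat_lit 5) (nat_lit 68) (nat_lit 3) (nat_lit 77) (nat_lit 3) (nat_lit 285) (nat_lit 285) (nat_lit 150)) (XT.lf (nat_lit 0) (nat_lit 13804628356) (nat_lit 684) (nat_lit 14936686239) (nat_lit 760) (nat_lit 9122810876) (nat_lit 68) (nat_lit 5) (nat_lit 77) (nat_lit 3) (nat_lit 78) (nat_lit 5) (nat_lit 286) (nat_lit 285) (nat_lit 149)))) (XT.nd (nat_lit 156) (nat_lit 0) (nat_lit 76) (XT.nd (nat_lit 78) (nat_lit 0) (nat_lit 76) (XT.lf (nat_lit 76) (nat_lit 1130181352) (nat_lit 0) (nat_lit 13347197601) (nat_lit 760) (nat_lit 24340325985) (nat_lit 69) (nat_lit 5) (nat_lit 68) (nat_lit 5) (nat_lit 78) (nat_lit 5) (nat_lit 287) (nat_lit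 285) (nat_lit 148)) (XT.lf (nat_lit 0) (nat_lit 15482200459) (nat_lit 684) (nat_lit 21337182246) (nat_lit 760) (nat_lit 2984668571) (nat_lit 69) (nat_lit 5) (nat_lit 78) (nat_lit 5) (nat_lit 79) (nat_lit 5) (nat_lit 288) (nat_lit 285) (nat_lit 147))) (XT.nd (nat_lit 78) (nat_lit 0) (nat_lit 0) (XT.lf (nat_lit 0) (nat_lit 16753546767) (nat_lit 684) (nat_lit 4389754079) (nat_lit 760) (nat_lit 19685609007) (nat_lit 69) (nat_lit 5) (nat_lit 78) (nat_lit 5) (nat_lit 79) (nat_lit 5) (nat_lit 289) (nat_lit 285) (nat_lit 146)) (XT.nd (nat_lit 78) (nat_lit 0) (nat_lit 76) (XT.lf (nat_lit 76) (nat_lit 13846679305) (nat_lit 0) (nat_lit 4455563898) (nat_lit 760) (nat_lit 23592087691) (nat_lit 70) (nat_lit 5) (nat_lit 69) (nat_lit 5) (nat_lit 79) (nat_lit 5) (nat_lit 290) (nat_lit 285) (nat_lit 145)) (XT.lf (nat_lit 0) (nat_lit 20205641763) (nat_lit 684) (nat_lit 10068851166) (nat_lit 760) (nat_lit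 12724674955) (nat_lit 70) (nat_lit 5) (nat_lit 79) (nat_lit 5) (nat_lit 80) (nat_lit 5) (nat_lit 291) (nat_lit 285) (nat_lit 144)))))) (XT.nd (nat_lit 312) (nat_lit 912) (nat_lit 0) (XT.nd (nat_lit 156) (nat_lit 0) (nat_lit 76) (XT.nd (nat_lit 78) (nat_lit 0) (nat_lit 76) (XT.lf (nat_lit 76) (nat_lit 9023062880) (nat_lit 0) (nat_lit 13392874552) (nat_lit 760) (nat_lit 21732730803) (nat_lit 71) (nat_lit 5) (nat_lit 70) (nat_lit 5) (nat_lit 80) (nat_lit 5) (nat_lit 292) (nat_lit 285) (nat_lit 143)) (XT.lf (nat_lit 0) (nat_lit 24975610298) (nat_lit 684) (nat_lit 16000095076) (nat_lit 760) (nat_lit 4368002602) (nat_lit 71) (nat_lit 5) (nat_lit 80) (nat_lit 5) (nat_lit 81) (nat_lit 5) (nat_lit 293) (nat_lit 285) (nat_lit 142))) (XT.nd (nat_lit 78) (nat_lit 0) (nat_lit 0) (XT.lf (nat_lit 76) (nat_lit 3988187090) (nat_lit 0) (nat_lit 23954900469) (nat_lit 760) (nat_lit 18641428246) (nat_lit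 72) (nat_lit 5) (nat_lit 71) (nat_lit 5) (nat_lit 81) (nat_lit 5) (nat_lit 294) (nat_lit 285) (nat_lit 141)) (XT.lf (nat_lit 76) (nat_lit 25529801066) (nat_lit 0) (nat_lit 5798176421) (nat_lit 760) (nat_lit 16545941396) (nat_lit 72) (nat_lit 5) (nat_lit 71) (nat_lit 5) (nat_lit 81) (nat_lit 5) (nat_lit 295) (nat_lit 285) (nat_lit 140)))) (XT.nd (nat_lit 156) (nat_lit 380) (nat_lit 0) (XT.nd (nat_lit 78) (nat_lit 684) (nat_lit 0) (XT.lf (nat_lit 0) (nat_lit 35087404095) (nat_lit 684) (nat_lit 1288020312) (nat_lit 76) (nat_lit 12842109572) (nat_lit 72) (nat_lit 5) (nat_lit 81) (nat_lit 5) (nat_lit 73) (nat_lit 5) (nat_lit 296) (nat_lit 285) (nat_lit 139)) (XT.lf (nat_lit 0) (nat_lit 21409546809) (nat_lit 684) (nat_lit 18052824371) (nat_lit 760) (nat_lit 11144586359) (nat_lit 63) (nat_lit 5) (nat_lit 72) (nat_lit 5) (nat_lit 73) (nat_lit 5) (nat_lit 297) (nat_lit 285) (nat_lit 138)))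 (XT.nd (nat_lit 78) (nat_lit 380) (nat_lit 0) (XT.lf (nat_lit 0) (nat_lit 44095089518) (nat_lit 760) (nat_lit 6798516032) (nat_lit 76) (nat_lit 1170302454) (nat_lit 63) (nat_lit 5) (nat_lit 73) (nat_lit 5) (nat_lit 64) (nat_lit 5) (nat_lit 298) (nat_lit 285) (nat_lit 137)) (XT.nd (nat_lit 78) (nat_lit 76) (nat_lit 0) (XT.lf (nat_lit 0) (nat_lit 16965874191) (nat_lit 304) (nat_lit 32552799264) (nat_lit 380) (nat_lit 4047076644) (nat_lit 59) (nat_lit 5) (nat_lit 63) (nat_lit 5) (nat_lit 64) (nat_lit 5) (nat_lit 299) (nat_lit 285) (nat_lit 136)) (XT.lf (nat_lit 0) (nat_lit 183930808) (nat_lit 380) (nat_lit 12986954654) (nat_lit 76) (nat_lit 41965976528) (nat_lit 58) (nat_lit 5) (nat_lit 63) (nat_lit 5) (nat_lit 59) (nat_lit 5) (nat_lit 300) (nat_lit 285) (nat_lit 135))))))) (XT.nd (nat_lit 702) (nat_lit 912) (nat_lit 0) (XT.nd (nat_lit 312) (nat_lit 532) (nat_lit 0) (XT.nd (nat_lit 156)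 (nat_lit 304) (nat_lit 0) (XT.nd (nat_lit 78) (nat_lit 0) (nat_lit 0) (XT.lf (nat_lit 0) (nat_lit 4794604183) (nat_lit 456) (nat_lit 44763189086) (nat_lit 76) (nat_lit 7210217567) (nat_lit 53) (nat_lit 5) (nat_lit 59) (nat_lit 5) (nat_lit 54) (nat_lit 5) (nat_lit 301) (nat_lit 285) (nat_lit 134)) (XT.lf (nat_lit 0) (nat_lit 10073817112) (nat_lit 456) (nat_lit 19993705224) (nat_lit 76) (nat_lit 28391299096) (nat_lit 53) (nat_lit 5) (nat_lit 59) (nat_lit 5) (nat_lit 54) (nat_lit 5) (nat_lit 302) (nat_lit 285) (nat_lit 133))) (XT.nd (nat_lit 78) (nat_lit 0) (nat_lit 0) (XT.lf (nat_lit 0) (nat_lit 6211607738) (nat_lit 304) (nat_lit 9500976684) (nat_lit 380) (nat_lit 44516812829) (nat_lit 49) (nat_lit 5) (nat_lit 53) (nat_lit 5) (nat_lit 54) (nat_lit 5) (nat_lit 303) (nat_lit 285) (nat_lit 132)) (XT.lf (nat_lit 0) (nat_lit 22164919089) (nat_lit 380) (nat_lit 27846121352) (nat_lit 76) (nat_lit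 12050884145) (nat_lit 49) (nat_lit 5) (nat_lit 54) (nat_lit 5) (nat_lit 50) (nat_lit 5) (nat_lit 304) (nat_lit 285) (nat_lit 131)))) (XT.nd (nat_lit 156) (nat_lit 228) (nat_lit 0) (XT.nd (nat_lit 78) (nat_lit 304) (nat_lit 0) (XT.lf (nat_lit 0) (nat_lit 29094343664) (nat_lit 380) (nat_lit 523053790) (nat_lit 76) (nat_lit 34360961148) (nat_lit 49) (nat_lit 5) (nat_lit 54) (nat_lit 5) (nat_lit 50) (nat_lit 5) (nat_lit 305) (nat_lit 285) (nat_lit 130)) (XT.lf (nat_lit 0) (nat_lit 29096060613) (nat_lit 304) (nat_lit 7727230340) (nat_lit 380) (nat_lit 29144674578) (nat_lit 45) (nat_lit 5) (nat_lit 49) (nat_lit 5) (nat_lit 50) (nat_lit 5) (nat_lit 306) (nat_lit 285) (nat_lit 129))) (XT.nd (nat_lit 78) (nat_lit 228) (nat_lit 0) (XT.lf (nat_lit 0) (nat_lit 45184715595) (nat_lit 380) (nat_lit 8082077082) (nat_lit 76) (nat_lit 14777962235) (nat_lit 45) (nat_lit 5) (nat_lit 50) (nat_lit 5) (nat_lit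 46) (nat_lit 5) (nat_lit 307) (nat_lit 285) (nat_lit 128)) (XT.nd (nat_lit 78) (nat_lit 0) (nat_lit 0) (XT.lf (nat_lit 0) (nat_lit 22747287720) (nat_lit 228) (nat_lit 31697620113) (nat_lit 304) (nat_lit 15756444544) (nat_lit 42) (nat_lit 5) (nat_lit 45) (nat_lit 5) (nat_lit 46) (nat_lit 5) (nat_lit 308) (nat_lit 285) (nat_lit 127)) (XT.lf (nat_lit 0) (nat_lit 55397399958) (nat_lit 228) (nat_lit 8906488406) (nat_lit 304) (nat_lit 8155105687) (nat_lit 42) (nat_lit 5) (nat_lit 45) (nat_lit 5) (nat_lit 46) (nat_lit 5) (nat_lit 309) (nat_lit 285) (nat_lit 126)))))) (XT.nd (nat_lit 312) (nat_lit 380) (nat_lit 0) (XT.nd (nat_lit 156) (nat_lit 228) (nat_lit 0) (XT.nd (nat_lit 78) (nat_lit 0) (nat_lit 0) (XT.lf (nat_lit 0) (nat_lit 308792489) (nat_lit 304) (nat_lit 59713185355) (nat_lit 76) (nat_lit 14783831882) (nat_lit 38) (nat_lit 5) (nat_lit 42) (nat_lit 5) (nat_lit 39) (nat_lit 5) (nat_lit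 310) (nat_lit 285) (nat_lit 125)) (XT.lf (nat_lit 0) (nat_lit 9360475744) (nat_lit 304) (nat_lit 28094378079) (nat_lit 76) (nat_lit 39786497916) (nat_lit 38) (nat_lit 5) (nat_lit 42) (nat_lit 5) (nat_lit 39) (nat_lit 5) (nat_lit 311) (nat_lit 285) (nat_lit 124))) (XT.nd (nat_lit 78) (nat_lit 0) (nat_lit 0) (XT.lf (nat_lit 0) (nat_lit 5272879486) (nat_lit 228) (nat_lit 13673201444) (nat_lit 304) (nat_lit 60848525722) (nat_lit 35) (nat_lit 5) (nat_lit 38) (nat_lit 5) (nat_lit 39) (nat_lit 5) (nat_lit 312) (nat_lit 285) (nat_lit 123)) (XT.lf (nat_lit 0) (nat_lit 29669981030) (nat_lit 304) (nat_lit 41353328550) (nat_lit 76) (nat_lit 11419266561) (nat_lit 35) (nat_lit 5) (nat_lit 39) (nat_lit 5) (nat_lit 36) (nat_lit 5) (nat_lit 313) (nat_lit 285) (nat_lit 122)))) (XT.nd (nat_lit 156) (nat_lit 152) (nat_lit 0) (XT.nd (nat_lit 78) (nat_lit 228) (nat_lit 0) (XT.lf (nat_lit 0) (nat_lit 41153309586)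 (nat_lit 304) (nat_lit 6751880944) (nat_lit 76) (nat_lit 37306594342) (nat_lit 35) (nat_lit 5) (nat_lit 39) (nat_lit 5) (nat_lit 36) (nat_lit 5) (nat_lit 314) (nat_lit 285) (nat_lit 121)) (XT.lf (nat_lit 0) (nat_lit 30556475074) (nat_lit 228) (nat_lit 23130528000) (nat_lit 304) (nat_lit 34408643363) (nat_lit 32) (nat_lit 5) (nat_lit 35) (nat_lit 5) (nat_lit 36) (nat_lit 5) (nat_lit 315) (nat_lit 285) (nat_lit 120))) (XT.nd (nat_lit 78) (nat_lit 152) (nat_lit 0) (XT.lf (nat_lit 0) (nat_lit 67007757252) (nat_lit 304) (nat_lit 21201392372) (nat_lit 76) (nat_lit 2906534869) (nat_lit 32) (nat_lit 5) (nat_lit 36) (nat_lit 5) (nat_lit 33) (nat_lit 5) (nat_lit 316) (nat_lit 285) (nat_lit 119)) (XT.nd (nat_lit 78) (nat_lit 0) (nat_lit 0) (XT.lf (nat_lit 0) (nat_lit 17120936437) (nat_lit 152) (nat_lit 64519293646) (nat_lit 228) (nat_lit 12614212430) (nat_lit 30) (nat_lit 5) (nat_lit 32) (nat_lit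 5) (nat_lit 33) (nat_lit 5) (nat_lit 317) (nat_lit 285) (nat_lit 118)) (XT.lf (nat_lit 0) (nat_lit 58094337298) (nat_lit 152) (nat_lit 39268252700) (nat_lit 228) (nat_lit 169637271) (nat_lit 30) (nat_lit 5) (nat_lit 32) (nat_lit 5) (nat_lit 33) (nat_lit 5) (nat_lit 318) (nat_lit 285) (nat_lit 117))))))))
noncomputable def xc229 : XT := (XT.nd (nat_lit 1404) (nat_lit 304) (nat_lit 0) (XT.nd (nat_lit 702) (nat_lit 456) (nat_lit 0) (XT.nd (nat_lit 312) (nat_lit 380) (nat_lit 0) (XT.nd (nat_lit 156) (nat_lit 152) (nat_lit 0) (XT.nd (nat_lit 78) (nat_lit 228) (nat_lit 0) (XT.lf (nat_lit 0) (nat_lit 12483607883) (nat_lit 228) (nat_lit 59937276) (nat_lit 76) (nat_lit 88420328323) (nat_lit 29) (nat_lit 5) (nat_lit 32) (nat_lit 5) (nat_lit 30) (nat_lit 5) (nat_lit 319) (nat_lit 285) (nat_lit 116)) (XT.lf (nat_lit 0) (nat_lit 26682165218) (nat_lit 304) (nat_lit 62138829004) (nat_lit 76) (nat_lit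 15700052928) (nat_lit 26) (nat_lit 5) (nat_lit 30) (nat_lit 5) (nat_lit 27) (nat_lit 5) (nat_lit 320) (nat_lit 285) (nat_lit 115))) (XT.nd (nat_lit 78) (nat_lit 152) (nat_lit 0) (XT.lf (nat_lit 0) (nat_lit 41796596053) (nat_lit 304) (nat_lit 21514162723) (nat_lit 76) (nat_lit 44935025096) (nat_lit 26) (nat_lit 5) (nat_lit 30) (nat_lit 5) (nat_lit 27) (nat_lit 5) (nat_lit 321) (nat_lit 285) (nat_lit 114)) (XT.lf (nat_lit 0) (nat_lit 21839747394) (nat_lit 152) (nat_lit 36167296924) (nat_lit 228) (nat_lit 54132699889) (nat_lit 24) (nat_lit 5) (nat_lit 26) (nat_lit 5) (nat_lit 27) (nat_lit 5) (nat_lit 322) (nat_lit 285) (nat_lit 113)))) (XT.nd (nat_lit 156) (nat_lit 380) (nat_lit 0) (XT.nd (nat_lit 78) (nat_lit 0) (nat_lit 0) (XT.lf (nat_lit 0) (nat_lit 68107294475) (nat_lit 152) (nat_lit 7284406738) (nat_lit 228) (nat_lit 40818518534) (nat_lit 24) (nat_lit 5) (nat_lit 26) (nat_lit 5)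 (nat_lit 27) (nat_lit 5) (nat_lit 323) (nat_lit 285) (nat_lit 112)) (XT.lf (nat_lit 0) (nat_lit 94004711468) (nat_lit 228) (nat_lit 4156723579) (nat_lit 76) (nat_lit 22304829418) (nat_lit 24) (nat_lit 5) (nat_lit 27) (nat_lit 5) (nat_lit 25) (nat_lit 5) (nat_lit 324) (nat_lit 285) (nat_lit 111))) (XT.nd (nat_lit 78) (nat_lit 228) (nat_lit 0) (XT.lf (nat_lit 0) (nat_lit 43250748195) (nat_lit 152) (nat_lit 71091696898) (nat_lit 228) (nat_lit 10552964041) (nat_lit 22) (nat_lit 5) (nat_lit 24) (nat_lit 5) (nat_lit 25) (nat_lit 5) (nat_lit 325) (nat_lit 285) (nat_lit 110)) (XT.nd (nat_lit 78) (nat_lit 152) (nat_lit 0) (XT.lf (nat_lit 0) (nat_lit 6025127249) (nat_lit 228) (nat_lit 36467698836) (nat_lit 76) (nat_lit 87044837172) (nat_lit 21) (nat_lit 5) (nat_lit 24) (nat_lit 5) (nat_lit 22) (nat_lit 5) (nat_lit 326) (nat_lit 285) (nat_lit 109)) (XT.lf (nat_lit 0) (nat_lit 11151138028) (nat_lit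 152) (nat_lit 12099860497) (nat_lit 228) (nat_lit 111143706555) (nat_lit 19) (nat_lit 5) (nat_lit 21) (nat_lit 5) (nat_lit 22) (nat_lit 5) (nat_lit 327) (nat_lit 285) (nat_lit 108)))))) (XT.nd (nat_lit 312) (nat_lit 304) (nat_lit 0) (XT.nd (nat_lit 156) (nat_lit 152) (nat_lit 0) (XT.nd (nat_lit 78) (nat_lit 0) (nat_lit 0) (XT.lf (nat_lit 0) (nat_lit 42274651540) (nat_lit 228) (nat_lit 77367073654) (nat_lit 76) (nat_lit 19806050508) (nat_lit 19) (nat_lit 5) (nat_lit 22) (nat_lit 5) (nat_lit 20) (nat_lit 5) (nat_lit 328) (nat_lit 285) (nat_lit 107)) (XT.lf (nat_lit 0) (nat_lit 62447305463) (nat_lit 228) (nat_lit 29395961855) (nat_lit 76) (nat_lit 52900342688) (nat_lit 19) (nat_lit 5) (nat_lit 22) (nat_lit 5) (nat_lit 20) (nat_lit 5) (nat_lit 329) (nat_lit 285) (nat_lit 106))) (XT.nd (nat_lit 78) (nat_lit 0) (nat_lit 0) (XT.lf (nat_lit 0) (nat_lit 21666356733) (nat_lit 152) (nat_lit 62299993508)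 (nat_lit 228) (nat_lit 66320998892) (nat_lit 17) (nat_lit 5) (nat_lit 19) (nat_lit 5) (nat_lit 20) (nat_lit 5) (nat_lit 330) (nat_lit 285) (nat_lit 105)) (XT.lf (nat_lit 0) (nat_lit 76301558169) (nat_lit 152) (nat_lit 30757121626) (nat_lit 228) (nat_lit 49024729758) (nat_lit 17) (nat_lit 5) (nat_lit 19) (nat_lit 5) (nat_lit 20) (nat_lit 5) (nat_lit 331) (nat_lit 285) (nat_lit 104)))) (XT.nd (nat_lit 156) (nat_lit 228) (nat_lit 0) (XT.nd (nat_lit 78) (nat_lit 76) (nat_lit 0) (XT.lf (nat_lit 0) (nat_lit 131342034497) (nat_lit 228) (nat_lit 28538421875) (nat_lit 76) (nat_lit 2286997110) (nat_lit 17) (nat_lit 5) (nat_lit 20) (nat_lit 5) (nat_lit 18) (nat_lit 4) (nat_lit 332) (nat_lit 285) (nat_lit 103)) (XT.lf (nat_lit 0) (nat_lit 25580974798) (nat_lit 76) (nat_lit 132161728211) (nat_lit 152) (nat_lit 10767840169) (nat_lit 16) (nat_lit 5) (nat_lit 17) (nat_lit 5) (nat_lit 18) (nat_lit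 4) (nat_lit 333) (nat_lit 285) (nat_lit 102))) (XT.nd (nat_lit 78) (nat_lit 152) (nat_lit 0) (XT.lf (nat_lit 0) (nat_lit 10453967289) (nat_lit 152) (nat_lit 91918854774) (nat_lit 76) (nat_lit 72765392374) (nat_lit 15) (nat_lit 5) (nat_lit 17) (nat_lit 5) (nat_lit 16) (nat_lit 5) (nat_lit 334) (nat_lit 285) (nat_lit 101)) (XT.nd (nat_lit 78) (nat_lit 152) (nat_lit 0) (XT.lf (nat_lit 0) (nat_lit 32374559475) (nat_lit 152) (nat_lit 38534836155) (nat_lit 76) (nat_lit 111179070067) (nat_lit 15) (nat_lit 5) (nat_lit 17) (nat_lit 5) (nat_lit 16) (nat_lit 5) (nat_lit 335) (nat_lit 285) (nat_lit 100)) (XT.lf (nat_lit 0) (nat_lit 18096922997) (nat_lit 152) (nat_lit 37576387093) (nat_lit 228) (nat_lit 133698813709) (nat_lit 13) (nat_lit 5) (nat_lit 15) (nat_lit 5) (nat_lit 16) (nat_lit 5) (nat_lit 336) (nat_lit 285) (nat_lit 99))))))) (XT.nd (nat_lit 33618) (nat_lit 0) (nat_lit 4484) (XT.nd (nat_lit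 312) (nat_lit 228) (nat_lit 0) (XT.nd (nat_lit 156) (nat_lit 76) (nat_lit 0) (XT.nd (nat_lit 78) (nat_lit 0) (nat_lit 0) (XT.lf (nat_lit 0) (nat_lit 78897448542) (nat_lit 152) (nat_lit 1891750314) (nat_lit 228) (nat_lit 116198156606) (nat_lit 13) (nat_lit 5) (nat_lit 15) (nat_lit 5) (nat_lit 16) (nat_lit 5) (nat_lit 337) (nat_lit 285) (nat_lit 98)) (XT.lf (nat_lit 0) (nat_lit 107715950569) (nat_lit 228) (nat_lit 62801455425) (nat_lit 76) (nat_lit 34438189942) (nat_lit 13) (nat_lit 5) (nat_lit 16) (nat_lit 5) (nat_lit 14) (nat_lit 4) (nat_lit 338) (nat_lit 285) (nat_lit 97))) (XT.nd (nat_lit 78) (nat_lit 76) (nat_lit 0) (XT.lf (nat_lit 0) (nat_lit 136019680726) (nat_lit 228) (nat_lit 4780211330) (nat_lit 76) (nat_lit 72520824957) (nat_lit 13) (nat_lit 5) (nat_lit 16) (nat_lit 5) (nat_lit 14) (nat_lit 4) (nat_lit 339) (nat_lit 285) (nat_lit 96)) (XT.lf (nat_lit 0) (nat_lit 57997798461)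 (nat_lit 76) (nat_lit 108645953348) (nat_lit 152) (nat_lit 55415085206) (nat_lit 12) (nat_lit 5) (nat_lit 13) (nat_lit 5) (nat_lit 14) (nat_lit 4) (nat_lit 340) (nat_lit 285) (nat_lit 95)))) (XT.nd (nat_lit 156) (nat_lit 228) (nat_lit 0) (XT.nd (nat_lit 78) (nat_lit 0) (nat_lit 0) (XT.lf (nat_lit 0) (nat_lit 124080088113) (nat_lit 76) (nat_lit 74799547583) (nat_lit 152) (nat_lit 32350197425) (nat_lit 12) (nat_lit 5) (nat_lit 13) (nat_lit 5) (nat_lit 14) (nat_lit 4) (nat_lit 341) (nat_lit 285) (nat_lit 94)) (XT.lf (nat_lit 0) (nat_lit 193465941034) (nat_lit 76) (nat_lit 39261043271) (nat_lit 152) (nat_lit 8132411737) (nat_lit 12) (nat_lit 5) (nat_lit 13) (nat_lit 5) (nat_lit 14) (nat_lit 4) (nat_lit 342) (nat_lit 285) (nat_lit 93))) (XT.nd (nat_lit 78) (nat_lit 0) (nat_lit 0) (XT.lf (nat_lit 0) (nat_lit 15578685563) (nat_lit 152) (nat_lit 1406896750) (nat_lit 228) (nat_lit 233959207752)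 (nat_lit 9) (nat_lit 5) (nat_lit 11) (nat_lit 5) (nat_lit 12) (nat_lit 5) (nat_lit 343) (nat_lit 285) (nat_lit 92)) (XT.nd (nat_lit 32994) (nat_lit 0) (nat_lit 4484) (XT.lf (nat_lit 0) (nat_lit 44500241062) (nat_lit 228) (nat_lit 178895105719) (nat_lit 76) (nat_lit 38061738192) (nat_lit 9) (nat_lit 5) (nat_lit 12) (nat_lit 5) (nat_lit 10) (nat_lit 4) (nat_lit 344) (nat_lit 285) (nat_lit 91)) (XT.lf (nat_lit 0) (nat_lit 3507962374) (nat_lit 0) (nat_lit 3507962374) (nat_lit 684) (nat_lit 12380558457) (nat_lit 68) (nat_lit 5) (nat_lit 68) (nat_lit 3) (nat_lit 77) (nat_lit 3) (nat_lit 286) (nat_lit 286) (nat_lit 148)))))) (XT.nd (nat_lit 312) (nat_lit 0) (nat_lit 76) (XT.nd (nat_lit 156) (nat_lit 0) (nat_lit 76) (XT.nd (nat_lit 78) (nat_lit 0) (nat_lit 0) (XT.lf (nat_lit 0) (nat_lit 14576127607) (nat_lit 684) (nat_lit 15637537989) (nat_lit 760) (nat_lit 9539308574) (nat_lit 68) (nat_lit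 5) (nat_lit 77) (nat_lit 3) (nat_lit 78) (nat_lit 5) (nat_lit 287) (nat_lit 286) (nat_lit 147)) (XT.lf (nat_lit 76) (nat_lit 1231931327) (nat_lit 0) (nat_lit 14047420847) (nat_lit 760) (nat_lit 25475052623) (nat_lit 69) (nat_lit 5) (nat_lit 68) (nat_lit 5) (nat_lit 78) (nat_lit 5) (nat_lit 288) (nat_lit 286) (nat_lit 146))) (XT.nd (nat_lit 78) (nat_lit 0) (nat_lit 0) (XT.lf (nat_lit 0) (nat_lit 16330206848) (nat_lit 684) (nat_lit 22356480039) (nat_lit 760) (nat_lit 3103605301) (nat_lit 69) (nat_lit 5) (nat_lit 78) (nat_lit 5) (nat_lit 79) (nat_lit 5) (nat_lit 289) (nat_lit 286) (nat_lit 145)) (XT.lf (nat_lit 0) (nat_lit 17661601597) (nat_lit 684) (nat_lit 4563945289) (nat_lit 760) (nat_lit 20641035459) (nat_lit 69) (nat_lit 5) (nat_lit 78) (nat_lit 5) (nat_lit 79) (nat_lit 5) (nat_lit 290) (nat_lit 286) (nat_lit 144)))) (XT.nd (nat_lit 156) (nat_lit 0) (nat_lit 76) (XT.nd (nat_lit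 78) (nat_lit 0) (nat_lit 76) (XT.lf (nat_lit 76) (nat_lit 14583579175) (nat_lit 0) (nat_lit 4701498168) (nat_lit 760) (nat_lit 24700341971) (nat_lit 70) (nat_lit 5) (nat_lit 69) (nat_lit 5) (nat_lit 79) (nat_lit 5) (nat_lit 291) (nat_lit 286) (nat_lit 143)) (XT.lf (nat_lit 0) (nat_lit 21280076661) (nat_lit 684) (nat_lit 10526050333) (nat_lit 760) (nat_lit 13339561144) (nat_lit 70) (nat_lit 5) (nat_lit 79) (nat_lit 5) (nat_lit 80) (nat_lit 5) (nat_lit 292) (nat_lit 286) (nat_lit 142))) (XT.nd (nat_lit 78) (nat_lit 0) (nat_lit 76) (XT.lf (nat_lit 76) (nat_lit 9519713553) (nat_lit 0) (nat_lit 14078829007) (nat_lit 760) (nat_lit 22754249149) (nat_lit 71) (nat_lit 5) (nat_lit 70) (nat_lit 5) (nat_lit 80) (nat_lit 5) (nat_lit 293) (nat_lit 286) (nat_lit 141)) (XT.nd (nat_lit 78) (nat_lit 0) (nat_lit 0) (XT.lf (nat_lit 0) (nat_lit 26283013291) (nat_lit 684) (nat_lit 16753373999) (nat_lit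 760) (nat_lit 4571365892) (nat_lit 71) (nat_lit 5) (nat_lit 80) (nat_lit 5) (nat_lit 81) (nat_lit 5) (nat_lit 294) (nat_lit 286) (nat_lit 140)) (XT.lf (nat_lit 76) (nat_lit 4233568633) (nat_lit 0) (nat_lit 25163221990) (nat_lit 760) (nat_lit 19513924424) (nat_lit 72) (nat_lit 5) (nat_lit 71) (nat_lit 5) (nat_lit 81) (nat_lit 5) (nat_lit 295) (nat_lit 286) (nat_lit 139))))))))
noncomputable def xc230 : XT := (XT.nd (nat_lit 1404) (nat_lit 1368) (nat_lit 0) (XT.nd (nat_lit 702) (nat_lit 1064) (nat_lit 0) (XT.nd (nat_lit 312) (nat_lit 1064) (nat_lit 0) (XT.nd (nat_lit 156) (nat_lit 608) (nat_lit 0) (XT.nd (nat_lit 78) (nat_lit 0) (nat_lit 76) (XT.lf (nat_lit 76) (nat_lit 26850074156) (nat_lit 0) (nat_lit 6098158097) (nat_lit 760) (nat_lit 17316500147) (nat_lit 72) (nat_lit 5) (nat_lit 71) (nat_lit 5) (nat_lit 81) (nat_lit 5) (nat_lit 296) (nat_lit 286) (nat_lit 138)) (XT.lf (nat_lit 0)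 (nat_lit 36892915848) (nat_lit 684) (nat_lit 1307828252) (nat_lit 76) (nat_lit 13474928898) (nat_lit 72) (nat_lit 5) (nat_lit 81) (nat_lit 5) (nat_lit 73) (nat_lit 5) (nat_lit 297) (nat_lit 286) (nat_lit 137))) (XT.nd (nat_lit 78) (nat_lit 0) (nat_lit 0) (XT.lf (nat_lit 0) (nat_lit 22523897982) (nat_lit 684) (nat_lit 18960982987) (nat_lit 760) (nat_lit 11649782883) (nat_lit 63) (nat_lit 5) (nat_lit 72) (nat_lit 5) (nat_lit 73) (nat_lit 5) (nat_lit 298) (nat_lit 286) (nat_lit 136)) (XT.lf (nat_lit 0) (nat_lit 46346801220) (nat_lit 760) (nat_lit 7094059416) (nat_lit 76) (nat_lit 1223731094) (nat_lit 63) (nat_lit 5) (nat_lit 73) (nat_lit 5) (nat_lit 64) (nat_lit 5) (nat_lit 299) (nat_lit 286) (nat_lit 135)))) (XT.nd (nat_lit 156) (nat_lit 684) (nat_lit 0) (XT.nd (nat_lit 78) (nat_lit 76) (nat_lit 0) (XT.lf (nat_lit 0) (nat_lit 17857834473) (nat_lit 304) (nat_lit 34182175581) (nat_lit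 380) (nat_lit 4201601393) (nat_lit 59) (nat_lit 5) (nat_lit 63) (nat_lit 5) (nat_lit 64) (nat_lit 5) (nat_lit 300) (nat_lit 286) (nat_lit 134)) (XT.lf (nat_lit 0) (nat_lit 237220923) (nat_lit 380) (nat_lit 13593115735) (nat_lit 76) (nat_lit 44061022245) (nat_lit 58) (nat_lit 5) (nat_lit 63) (nat_lit 5) (nat_lit 59) (nat_lit 5) (nat_lit 301) (nat_lit 286) (nat_lit 133))) (XT.nd (nat_lit 78) (nat_lit 304) (nat_lit 0) (XT.lf (nat_lit 0) (nat_lit 5076989053) (nat_lit 456) (nat_lit 46956588206) (nat_lit 76) (nat_lit 7570566618) (nat_lit 53) (nat_lit 5) (nat_lit 59) (nat_lit 5) (nat_lit 54) (nat_lit 5) (nat_lit 302) (nat_lit 286) (nat_lit 132)) (XT.nd (nat_lit 78) (nat_lit 304) (nat_lit 0) (XT.lf (nat_lit 0) (nat_lit 10618131453) (nat_lit 456) (nat_lit 20950761595) (nat_lit 76) (nat_lit 29810709929) (nat_lit 53) (nat_lit 5) (nat_lit 59) (nat_lit 5) (nat_lit 54) (nat_lit 5) (nat_lit 303)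 (nat_lit 286) (nat_lit 131)) (XT.lf (nat_lit 0) (nat_lit 6564129452) (nat_lit 304) (nat_lit 9973428047) (nat_lit 380) (nat_lit 46701220182) (nat_lit 49) (nat_lit 5) (nat_lit 53) (nat_lit 5) (nat_lit 54) (nat_lit 5) (nat_lit 304) (nat_lit 286) (nat_lit 130)))))) (XT.nd (nat_lit 312) (nat_lit 760) (nat_lit 0) (XT.nd (nat_lit 156) (nat_lit 304) (nat_lit 0) (XT.nd (nat_lit 78) (nat_lit 0) (nat_lit 0) (XT.lf (nat_lit 0) (nat_lit 23310674005) (nat_lit 380) (nat_lit 29196531986) (nat_lit 76) (nat_lit 12655822958) (nat_lit 49) (nat_lit 5) (nat_lit 54) (nat_lit 5) (nat_lit 50) (nat_lit 5) (nat_lit 305) (nat_lit 286) (nat_lit 129)) (XT.lf (nat_lit 0) (nat_lit 30584783668) (nat_lit 380) (nat_lit 509306067) (nat_lit 76) (nat_lit 36081289783) (nat_lit 49) (nat_lit 5) (nat_lit 54) (nat_lit 5) (nat_lit 50) (nat_lit 5) (nat_lit 306) (nat_lit 286) (nat_lit 128))) (XT.nd (nat_lit 78) (nat_lit 0) (nat_lit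 0) (XT.lf (nat_lit 0) (nat_lit 30590120501) (nat_lit 304) (nat_lit 8108969643) (nat_lit 380) (nat_lit 30565436337) (nat_lit 45) (nat_lit 5) (nat_lit 49) (nat_lit 5) (nat_lit 50) (nat_lit 5) (nat_lit 307) (nat_lit 286) (nat_lit 127)) (XT.lf (nat_lit 0) (nat_lit 47477005479) (nat_lit 380) (nat_lit 8447112347) (nat_lit 76) (nat_lit 15521121561) (nat_lit 45) (nat_lit 5) (nat_lit 50) (nat_lit 5) (nat_lit 46) (nat_lit 5) (nat_lit 308) (nat_lit 286) (nat_lit 126)))) (XT.nd (nat_lit 156) (nat_lit 532) (nat_lit 0) (XT.nd (nat_lit 78) (nat_lit 0) (nat_lit 0) (XT.lf (nat_lit 0) (nat_lit 23923090557) (nat_lit 228) (nat_lit 33276142899) (nat_lit 304) (nat_lit 16510486751) (nat_lit 42) (nat_lit 5) (nat_lit 45) (nat_lit 5) (nat_lit 46) (nat_lit 5) (nat_lit 309) (nat_lit 286) (nat_lit 125)) (XT.lf (nat_lit 0) (nat_lit 58203878004) (nat_lit 228) (nat_lit 9345757379) (nat_lit 304) (nat_lit 8530689524)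 (nat_lit 42) (nat_lit 5) (nat_lit 45) (nat_lit 5) (nat_lit 46) (nat_lit 5) (nat_lit 310) (nat_lit 286) (nat_lit 124))) (XT.nd (nat_lit 78) (nat_lit 228) (nat_lit 0) (XT.lf (nat_lit 0) (nat_lit 354577803) (nat_lit 304) (nat_lit 62660241207) (nat_lit 76) (nat_lit 15529681183) (nat_lit 38) (nat_lit 5) (nat_lit 42) (nat_lit 5) (nat_lit 39) (nat_lit 5) (nat_lit 311) (nat_lit 286) (nat_lit 123)) (XT.nd (nat_lit 78) (nat_lit 228) (nat_lit 0) (XT.lf (nat_lit 0) (nat_lit 9857400187) (nat_lit 304) (nat_lit 29462331825) (nat_lit 76) (nat_lit 41782163485) (nat_lit 38) (nat_lit 5) (nat_lit 42) (nat_lit 5) (nat_lit 39) (nat_lit 5) (nat_lit 312) (nat_lit 286) (nat_lit 122)) (XT.lf (nat_lit 0) (nat_lit 5572695633) (nat_lit 228) (nat_lit 14348778528) (nat_lit 304) (nat_lit 63861383322) (nat_lit 35) (nat_lit 5) (nat_lit 38) (nat_lit 5) (nat_lit 39) (nat_lit 5) (nat_lit 313) (nat_lit 286) (nat_lit 121)))))))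 (XT.nd (nat_lit 702) (nat_lit 684) (nat_lit 0) (XT.nd (nat_lit 312) (nat_lit 456) (nat_lit 0) (XT.nd (nat_lit 156) (nat_lit 228) (nat_lit 0) (XT.nd (nat_lit 78) (nat_lit 0) (nat_lit 0) (XT.lf (nat_lit 0) (nat_lit 31180351874) (nat_lit 304) (nat_lit 43385256427) (nat_lit 76) (nat_lit 11997681587) (nat_lit 35) (nat_lit 5) (nat_lit 39) (nat_lit 5) (nat_lit 36) (nat_lit 5) (nat_lit 314) (nat_lit 286) (nat_lit 120)) (XT.lf (nat_lit 0) (nat_lit 43236567248) (nat_lit 304) (nat_lit 7055438277) (nat_lit 76) (nat_lit 39179020913) (nat_lit 35) (nat_lit 5) (nat_lit 39) (nat_lit 5) (nat_lit 36) (nat_lit 5) (nat_lit 315) (nat_lit 286) (nat_lit 119))) (XT.nd (nat_lit 78) (nat_lit 0) (nat_lit 0) (XT.lf (nat_lit 0) (nat_lit 32117786562) (nat_lit 228) (nat_lit 24278463010) (nat_lit 304) (nat_lit 36102869544) (nat_lit 32) (nat_lit 5) (nat_lit 35) (nat_lit 5) (nat_lit 36) (nat_lit 5) (nat_lit 316) (nat_lit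 286) (nat_lit 118)) (XT.lf (nat_lit 0) (nat_lit 70381983667) (nat_lit 304) (nat_lit 22228449379) (nat_lit 76) (nat_lit 3059782005) (nat_lit 32) (nat_lit 5) (nat_lit 36) (nat_lit 5) (nat_lit 33) (nat_lit 5) (nat_lit 317) (nat_lit 286) (nat_lit 117)))) (XT.nd (nat_lit 156) (nat_lit 304) (nat_lit 0) (XT.nd (nat_lit 78) (nat_lit 0) (nat_lit 0) (XT.lf (nat_lit 0) (nat_lit 18009463409) (nat_lit 152) (nat_lit 67735988668) (nat_lit 228) (nat_lit 13220493239) (nat_lit 30) (nat_lit 5) (nat_lit 32) (nat_lit 5) (nat_lit 33) (nat_lit 5) (nat_lit 318) (nat_lit 286) (nat_lit 116)) (XT.lf (nat_lit 0) (nat_lit 61029987639) (nat_lit 152) (nat_lit 41222837087) (nat_lit 228) (nat_lit 154852646) (nat_lit 30) (nat_lit 5) (nat_lit 32) (nat_lit 5) (nat_lit 33) (nat_lit 5) (nat_lit 319) (nat_lit 286) (nat_lit 115))) (XT.nd (nat_lit 78) (nat_lit 228) (nat_lit 0) (XT.lf (nat_lit 0) (nat_lit 13129237626) (nat_lit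 228) (nat_lit 32713681) (nat_lit 76) (nat_lit 92848992589) (nat_lit 29) (nat_lit 5) (nat_lit 32) (nat_lit 5) (nat_lit 30) (nat_lit 5) (nat_lit 320) (nat_lit 286) (nat_lit 114)) (XT.nd (nat_lit 78) (nat_lit 0) (nat_lit 0) (XT.lf (nat_lit 0) (nat_lit 28037303676) (nat_lit 304) (nat_lit 65215082470) (nat_lit 76) (nat_lit 16493613477) (nat_lit 26) (nat_lit 5) (nat_lit 30) (nat_lit 5) (nat_lit 27) (nat_lit 5) (nat_lit 321) (nat_lit 286) (nat_lit 113)) (XT.lf (nat_lit 0) (nat_lit 43906454615) (nat_lit 304) (nat_lit 22560644208) (nat_lit 76) (nat_lit 47189926734) (nat_lit 26) (nat_lit 5) (nat_lit 30) (nat_lit 5) (nat_lit 27) (nat_lit 5) (nat_lit 322) (nat_lit 286) (nat_lit 112)))))) (XT.nd (nat_lit 312) (nat_lit 380) (nat_lit 0) (XT.nd (nat_lit 156) (nat_lit 152) (nat_lit 0) (XT.nd (nat_lit 78) (nat_lit 0) (nat_lit 0) (XT.lf (nat_lit 0) (nat_lit 22960490017) (nat_lit 152) (nat_lit 37966430476)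 (nat_lit 228) (nat_lit 56818790850) (nat_lit 24) (nat_lit 5) (nat_lit 26) (nat_lit 5) (nat_lit 27) (nat_lit 5) (nat_lit 323) (nat_lit 286) (nat_lit 111)) (XT.lf (nat_lit 0) (nat_lit 71540045155) (nat_lit 152) (nat_lit 7639835366) (nat_lit 228) (nat_lit 42839878714) (nat_lit 24) (nat_lit 5) (nat_lit 26) (nat_lit 5) (nat_lit 27) (nat_lit 5) (nat_lit 324) (nat_lit 286) (nat_lit 110))) (XT.nd (nat_lit 78) (nat_lit 152) (nat_lit 0) (XT.lf (nat_lit 0) (nat_lit 98722786575) (nat_lit 228) (nat_lit 4337683384) (nat_lit 76) (nat_lit 23428175955) (nat_lit 24) (nat_lit 5) (nat_lit 27) (nat_lit 5) (nat_lit 25) (nat_lit 5) (nat_lit 325) (nat_lit 286) (nat_lit 109)) (XT.lf (nat_lit 0) (nat_lit 45439728489) (nat_lit 152) (nat_lit 74637241738) (nat_lit 228) (nat_lit 11062301318) (nat_lit 22) (nat_lit 5) (nat_lit 24) (nat_lit 5) (nat_lit 25) (nat_lit 5) (nat_lit 326) (nat_lit 286) (nat_lit 108)))) (XT.nd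 (nat_lit 156) (nat_lit 152) (nat_lit 0) (XT.nd (nat_lit 78) (nat_lit 152) (nat_lit 0) (XT.lf (nat_lit 0) (nat_lit 6343264432) (nat_lit 228) (nat_lit 38265307545) (nat_lit 76) (nat_lit 91405096024) (nat_lit 21) (nat_lit 5) (nat_lit 24) (nat_lit 5) (nat_lit 22) (nat_lit 5) (nat_lit 327) (nat_lit 286) (nat_lit 107)) (XT.lf (nat_lit 0) (nat_lit 11734055417) (nat_lit 152) (nat_lit 12695965954) (nat_lit 228) (nat_lit 116683562575) (nat_lit 19) (nat_lit 5) (nat_lit 21) (nat_lit 5) (nat_lit 22) (nat_lit 5) (nat_lit 328) (nat_lit 286) (nat_lit 106))) (XT.nd (nat_lit 78) (nat_lit 152) (nat_lit 0) (XT.lf (nat_lit 0) (nat_lit 44404204764) (nat_lit 228) (nat_lit 81210591036) (nat_lit 76) (nat_lit 20804546472) (nat_lit 19) (nat_lit 5) (nat_lit 22) (nat_lit 5) (nat_lit 20) (nat_lit 5) (nat_lit 329) (nat_lit 286) (nat_lit 105)) (XT.nd (nat_lit 78) (nat_lit 152) (nat_lit 0) (XT.lf (nat_lit 0) (nat_lit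 65584738020) (nat_lit 228) (nat_lit 30842106328) (nat_lit 76) (nat_lit 55553163097) (nat_lit 19) (nat_lit 5) (nat_lit 22) (nat_lit 5) (nat_lit 20) (nat_lit 5) (nat_lit 330) (nat_lit 286) (nat_lit 104)) (XT.lf (nat_lit 0) (nat_lit 22772946679) (nat_lit 152) (nat_lit 65406434211) (nat_lit 228) (nat_lit 69621571760) (nat_lit 17) (nat_lit 5) (nat_lit 19) (nat_lit 5) (nat_lit 20) (nat_lit 5) (nat_lit 331) (nat_lit 286) (nat_lit 103))))))))
noncomputable def xc231 : XT := (XT.nd (nat_lit 34476) (nat_lit 0) (nat_lit 2280) (XT.nd (nat_lit 702) (nat_lit 76) (nat_lit 0) (XT.nd (nat_lit 312) (nat_lit 152) (nat_lit 0) (XT.nd (nat_lit 156) (nat_lit 152) (nat_lit 0) (XT.nd (nat_lit 78) (nat_lit 0) (nat_lit 0) (XT.lf (nat_lit 0) (nat_lit 80138799991) (nat_lit 152) (nat_lit 32286826305) (nat_lit 228) (nat_lit 51461226173) (nat_lit 17) (nat_lit 5) (nat_lit 19) (nat_lit 5) (nat_lit 20) (nat_lit 5) (nat_lit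 332) (nat_lit 286) (nat_lit 102)) (XT.lf (nat_lit 0) (nat_lit 137922602677) (nat_lit 228) (nat_lit 29943662769) (nat_lit 76) (nat_lit 2408861734) (nat_lit 17) (nat_lit 5) (nat_lit 20) (nat_lit 5) (nat_lit 18) (nat_lit 4) (nat_lit 333) (nat_lit 286) (nat_lit 101))) (XT.nd (nat_lit 78) (nat_lit 76) (nat_lit 0) (XT.lf (nat_lit 0) (nat_lit 26881354057) (nat_lit 76) (nat_lit 138761642327) (nat_lit 152) (nat_lit 11292391610) (nat_lit 16) (nat_lit 5) (nat_lit 17) (nat_lit 5) (nat_lit 18) (nat_lit 4) (nat_lit 334) (nat_lit 286) (nat_lit 100)) (XT.lf (nat_lit 0) (nat_lit 10989425256) (nat_lit 152) (nat_lit 96494038682) (nat_lit 76) (nat_lit 76411001080) (nat_lit 15) (nat_lit 5) (nat_lit 17) (nat_lit 5) (nat_lit 16) (nat_lit 5) (nat_lit 335) (nat_lit 286) (nat_lit 99)))) (XT.nd (nat_lit 156) (nat_lit 0) (nat_lit 0) (XT.nd (nat_lit 78) (nat_lit 152) (nat_lit 0) (XT.lf (nat_lit 0) (nat_lit 34005439451)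 (nat_lit 152) (nat_lit 40441807648) (nat_lit 76) (nat_lit 116745013177) (nat_lit 15) (nat_lit 5) (nat_lit 17) (nat_lit 5) (nat_lit 16) (nat_lit 5) (nat_lit 336) (nat_lit 286) (nat_lit 98)) (XT.lf (nat_lit 0) (nat_lit 19021220586) (nat_lit 152) (nat_lit 39447632036) (nat_lit 228) (nat_lit 140371263416) (nat_lit 13) (nat_lit 5) (nat_lit 15) (nat_lit 5) (nat_lit 16) (nat_lit 5) (nat_lit 337) (nat_lit 286) (nat_lit 97))) (XT.nd (nat_lit 78) (nat_lit 0) (nat_lit 0) (XT.lf (nat_lit 0) (nat_lit 82860846149) (nat_lit 152) (nat_lit 1979124105) (nat_lit 228) (nat_lit 121996168266) (nat_lit 13) (nat_lit 5) (nat_lit 15) (nat_lit 5) (nat_lit 16) (nat_lit 5) (nat_lit 338) (nat_lit 286) (nat_lit 96)) (XT.nd (nat_lit 78) (nat_lit 0) (nat_lit 0) (XT.lf (nat_lit 0) (nat_lit 113112628175) (nat_lit 228) (nat_lit 65923435559) (nat_lit 76) (nat_lit 36166749764) (nat_lit 13) (nat_lit 5) (nat_lit 16) (nat_lit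 5) (nat_lit 14) (nat_lit 4) (nat_lit 339) (nat_lit 286) (nat_lit 95)) (XT.lf (nat_lit 0) (nat_lit 142831026741) (nat_lit 228) (nat_lit 5001990813) (nat_lit 76) (nat_lit 76153199848) (nat_lit 13) (nat_lit 5) (nat_lit 16) (nat_lit 5) (nat_lit 14) (nat_lit 4) (nat_lit 340) (nat_lit 286) (nat_lit 94)))))) (XT.nd (nat_lit 33384) (nat_lit 0) (nat_lit 4256) (XT.nd (nat_lit 156) (nat_lit 0) (nat_lit 0) (XT.nd (nat_lit 78) (nat_lit 0) (nat_lit 0) (XT.lf (nat_lit 0) (nat_lit 60914641547) (nat_lit 76) (nat_lit 114071431090) (nat_lit 152) (nat_lit 58175183030) (nat_lit 12) (nat_lit 5) (nat_lit 13) (nat_lit 5) (nat_lit 14) (nat_lit 4) (nat_lit 341) (nat_lit 286) (nat_lit 93)) (XT.lf (nat_lit 0) (nat_lit 130300238388) (nat_lit 76) (nat_lit 78533029795) (nat_lit 152) (nat_lit 33957558310) (nat_lit 12) (nat_lit 5) (nat_lit 13) (nat_lit 5) (nat_lit 14) (nat_lit 4) (nat_lit 342) (nat_lit 286) (nat_lit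 92))) (XT.nd (nat_lit 33150) (nat_lit 0) (nat_lit 4256) (XT.lf (nat_lit 0) (nat_lit 203154615104) (nat_lit 76) (nat_lit 41217909561) (nat_lit 152) (nat_lit 8529366623) (nat_lit 12) (nat_lit 5) (nat_lit 13) (nat_lit 5) (nat_lit 14) (nat_lit 4) (nat_lit 343) (nat_lit 286) (nat_lit 91)) (XT.lf (nat_lit 0) (nat_lit 3702862215) (nat_lit 0) (nat_lit 3702862215) (nat_lit 684) (nat_lit 12958492676) (nat_lit 68) (nat_lit 5) (nat_lit 68) (nat_lit 3) (nat_lit 77) (nat_lit 3) (nat_lit 287) (nat_lit 287) (nat_lit 146)))) (XT.nd (nat_lit 156) (nat_lit 0) (nat_lit 76) (XT.nd (nat_lit 78) (nat_lit 0) (nat_lit 0) (XT.lf (nat_lit 0) (nat_lit 15378646307) (nat_lit 684) (nat_lit 16377707349) (nat_lit 760) (nat_lit 9980316774) (nat_lit 68) (nat_lit 5) (nat_lit 77) (nat_lit 3) (nat_lit 78) (nat_lit 5) (nat_lit 288) (nat_lit 287) (nat_lit 145)) (XT.lf (nat_lit 76) (nat_lit 1334562731) (nat_lit 0) (nat_lit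 14779599931) (nat_lit 760) (nat_lit 26674166106) (nat_lit 69) (nat_lit 5) (nat_lit 68) (nat_lit 5) (nat_lit 78) (nat_lit 5) (nat_lit 289) (nat_lit 287) (nat_lit 144))) (XT.nd (nat_lit 78) (nat_lit 0) (nat_lit 0) (XT.lf (nat_lit 0) (nat_lit 17213743373) (nat_lit 684) (nat_lit 23431164523) (nat_lit 760) (nat_lit 3231305568) (nat_lit 69) (nat_lit 5) (nat_lit 78) (nat_lit 5) (nat_lit 79) (nat_lit 5) (nat_lit 290) (nat_lit 287) (nat_lit 143)) (XT.nd (nat_lit 78) (nat_lit 0) (nat_lit 0) (XT.lf (nat_lit 0) (nat_lit 18608516136) (nat_lit 684) (nat_lit 4751057298) (nat_lit 760) (nat_lit 21646915805) (nat_lit 69) (nat_lit 5) (nat_lit 78) (nat_lit 5) (nat_lit 79) (nat_lit 5) (nat_lit 291) (nat_lit 287) (nat_lit 142)) (XT.lf (nat_lit 76) (nat_lit 15353180724) (nat_lit 0) (nat_lit 4957576320) (nat_lit 760) (nat_lit 25870642421) (nat_lit 70) (nat_lit 5) (nat_lit 69) (nat_lit 5) (nat_lit 79) (nat_lit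 5) (nat_lit 292) (nat_lit 287) (nat_lit 141))))))) (XT.nd (nat_lit 702) (nat_lit 1292) (nat_lit 0) (XT.nd (nat_lit 312) (nat_lit 836) (nat_lit 0) (XT.nd (nat_lit 156) (nat_lit 0) (nat_lit 76) (XT.nd (nat_lit 78) (nat_lit 0) (nat_lit 0) (XT.lf (nat_lit 0) (nat_lit 22402268983) (nat_lit 684) (nat_lit 11010408731) (nat_lit 760) (nat_lit 13987176336) (nat_lit 70) (nat_lit 5) (nat_lit 79) (nat_lit 5) (nat_lit 80) (nat_lit 5) (nat_lit 293) (nat_lit 287) (nat_lit 140)) (XT.lf (nat_lit 76) (nat_lit 10036966832) (nat_lit 0) (nat_lit 14797564769) (nat_lit 760) (nat_lit 23832897485) (nat_lit 71) (nat_lit 5) (nat_lit 70) (nat_lit 5) (nat_lit 80) (nat_lit 5) (nat_lit 294) (nat_lit 287) (nat_lit 139))) (XT.nd (nat_lit 78) (nat_lit 0) (nat_lit 0) (XT.lf (nat_lit 0) (nat_lit 27650336271) (nat_lit 684) (nat_lit 17548660993) (nat_lit 760) (nat_lit 4786295329) (nat_lit 71) (nat_lit 5) (nat_lit 80) (nat_lit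 5) (nat_lit 81) (nat_lit 5) (nat_lit 295) (nat_lit 287) (nat_lit 138)) (XT.lf (nat_lit 76) (nat_lit 4486945194) (nat_lit 0) (nat_lit 26430976284) (nat_lit 760) (nat_lit 20435584152) (nat_lit 72) (nat_lit 5) (nat_lit 71) (nat_lit 5) (nat_lit 81) (nat_lit 5) (nat_lit 296) (nat_lit 287) (nat_lit 137)))) (XT.nd (nat_lit 156) (nat_lit 912) (nat_lit 0) (XT.nd (nat_lit 78) (nat_lit 0) (nat_lit 76) (XT.lf (nat_lit 76) (nat_lit 28232290369) (nat_lit 0) (nat_lit 6412202378) (nat_lit 760) (nat_lit 18130861827) (nat_lit 72) (nat_lit 5) (nat_lit 71) (nat_lit 5) (nat_lit 81) (nat_lit 5) (nat_lit 297) (nat_lit 287) (nat_lit 136)) (XT.lf (nat_lit 0) (nat_lit 38783948532) (nat_lit 684) (nat_lit 1332772431) (nat_lit 76) (nat_lit 14140252529) (nat_lit 72) (nat_lit 5) (nat_lit 81) (nat_lit 5) (nat_lit 73) (nat_lit 5) (nat_lit 298) (nat_lit 287) (nat_lit 135))) (XT.nd (nat_lit 78) (nat_lit 304) (nat_lit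 0) (XT.lf (nat_lit 0) (nat_lit 23689887740) (nat_lit 684) (nat_lit 19914036578) (nat_lit 760) (nat_lit 12185076750) (nat_lit 63) (nat_lit 5) (nat_lit 72) (nat_lit 5) (nat_lit 73) (nat_lit 5) (nat_lit 299) (nat_lit 287) (nat_lit 134)) (XT.nd (nat_lit 78) (nat_lit 304) (nat_lit 0) (XT.lf (nat_lit 0) (nat_lit 48706732870) (nat_lit 760) (nat_lit 7408506226) (nat_lit 76) (nat_lit 1280304060) (nat_lit 63) (nat_lit 5) (nat_lit 73) (nat_lit 5) (nat_lit 64) (nat_lit 5) (nat_lit 300) (nat_lit 287) (nat_lit 133)) (XT.lf (nat_lit 0) (nat_lit 18790333065) (nat_lit 304) (nat_lit 35892859284) (nat_lit 380) (nat_lit 4368299074) (nat_lit 59) (nat_lit 5) (nat_lit 63) (nat_lit 5) (nat_lit 64) (nat_lit 5) (nat_lit 301) (nat_lit 287) (nat_lit 132)))))) (XT.nd (nat_lit 390) (nat_lit 532) (nat_lit 0) (XT.nd (nat_lit 156) (nat_lit 304) (nat_lit 0) (XT.nd (nat_lit 78) (nat_lit 380) (nat_lit 0) (XT.lf (nat_lit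 0) (nat_lit 289076142) (nat_lit 380) (nat_lit 14233599956) (nat_lit 76) (nat_lit 46261122691) (nat_lit 58) (nat_lit 5) (nat_lit 63) (nat_lit 5) (nat_lit 59) (nat_lit 5) (nat_lit 302) (nat_lit 287) (nat_lit 131)) (XT.lf (nat_lit 0) (nat_lit 5369527540) (nat_lit 456) (nat_lit 49263818673) (nat_lit 76) (nat_lit 7948948166) (nat_lit 53) (nat_lit 5) (nat_lit 59) (nat_lit 5) (nat_lit 54) (nat_lit 5) (nat_lit 303) (nat_lit 287) (nat_lit 130))) (XT.nd (nat_lit 78) (nat_lit 304) (nat_lit 0) (XT.lf (nat_lit 0) (nat_lit 11185884725) (nat_lit 456) (nat_lit 21959634015) (nat_lit 76) (nat_lit 31301105633) (nat_lit 53) (nat_lit 5) (nat_lit 59) (nat_lit 5) (nat_lit 54) (nat_lit 5) (nat_lit 304) (nat_lit 287) (nat_lit 129)) (XT.nd (nat_lit 78) (nat_lit 0) (nat_lit 0) (XT.lf (nat_lit 0) (nat_lit 6930377945) (nat_lit 304) (nat_lit 10469743467) (nat_lit 380) (nat_lit 48998699978) (nat_lit 49) (nat_lit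 5) (nat_lit 53) (nat_lit 5) (nat_lit 54) (nat_lit 5) (nat_lit 305) (nat_lit 287) (nat_lit 128)) (XT.lf (nat_lit 0) (nat_lit 24510229439) (nat_lit 380) (nat_lit 30618358192) (nat_lit 76) (nat_lit 13290786084) (nat_lit 49) (nat_lit 5) (nat_lit 54) (nat_lit 5) (nat_lit 50) (nat_lit 5) (nat_lit 306) (nat_lit 287) (nat_lit 127))))) (XT.nd (nat_lit 156) (nat_lit 228) (nat_lit 0) (XT.nd (nat_lit 78) (nat_lit 304) (nat_lit 0) (XT.lf (nat_lit 0) (nat_lit 32146424503) (nat_lit 380) (nat_lit 498580520) (nat_lit 76) (nat_lit 37887422822) (nat_lit 49) (nat_lit 5) (nat_lit 54) (nat_lit 5) (nat_lit 50) (nat_lit 5) (nat_lit 307) (nat_lit 287) (nat_lit 126)) (XT.lf (nat_lit 0) (nat_lit 32155233654) (nat_lit 304) (nat_lit 8510225641) (nat_lit 380) (nat_lit 32060627001) (nat_lit 45) (nat_lit 5) (nat_lit 49) (nat_lit 5) (nat_lit 50) (nat_lit 5) (nat_lit 308) (nat_lit 287) (nat_lit 125))) (XT.nd (nat_lit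 78) (nat_lit 228) (nat_lit 0) (XT.lf (nat_lit 0) (nat_lit 49880836800) (nat_lit 380) (nat_lit 8834031602) (nat_lit 76) (nat_lit 16301042685) (nat_lit 45) (nat_lit 5) (nat_lit 50) (nat_lit 5) (nat_lit 46) (nat_lit 5) (nat_lit 309) (nat_lit 287) (nat_lit 124)) (XT.nd (nat_lit 78) (nat_lit 0) (nat_lit 0) (XT.lf (nat_lit 0) (nat_lit 25154109893) (nat_lit 228) (nat_lit 34934182951) (nat_lit 304) (nat_lit 17305371615) (nat_lit 42) (nat_lit 5) (nat_lit 45) (nat_lit 5) (nat_lit 46) (nat_lit 5) (nat_lit 310) (nat_lit 287) (nat_lit 123)) (XT.lf (nat_lit 0) (nat_lit 61147276483) (nat_lit 228) (nat_lit 9807552779) (nat_lit 304) (nat_lit 8928043549) (nat_lit 42) (nat_lit 5) (nat_lit 45) (nat_lit 5) (nat_lit 46) (nat_lit 5) (nat_lit 311) (nat_lit 287) (nat_lit 122))))))))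
noncomputable def xc232 : XT := (XT.nd (nat_lit 1404) (nat_lit 532) (nat_lit 0) (XT.nd (nat_lit 702) (nat_lit 836) (nat_lit 0) (XT.nd (nat_lit 312) (nat_lit 380) (nat_lit 0) (XT.nd (nat_lit 156) (nat_lit 228) (nat_lit 0) (XT.nd (nat_lit 78) (nat_lit 0) (nat_lit 0) (XT.lf (nat_lit 0) (nat_lit 399831127) (nat_lit 304) (nat_lit 65758238831) (nat_lit 76) (nat_lit 16312203979) (nat_lit 38) (nat_lit 5) (nat_lit 42) (nat_lit 5) (nat_lit 39) (nat_lit 5) (nat_lit 312) (nat_lit 287) (nat_lit 121)) (XT.lf (nat_lit 0) (nat_lit 10376483943) (nat_lit 304) (nat_lit 30902101334) (nat_lit 76) (nat_lit 43877022836) (nat_lit 38) (nat_lit 5) (nat_lit 42) (nat_lit 5) (nat_lit 39) (nat_lit 5) (nat_lit 313) (nat_lit 287) (nat_lit 120))) (XT.nd (nat_lit 78) (nat_lit 0) (nat_lit 0) (XT.lf (nat_lit 0) (nat_lit 5884139640) (nat_lit 228) (nat_lit 15058885945) (nat_lit 304) (nat_lit 67027632817) (nat_lit 35) (nat_lit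 5) (nat_lit 38) (nat_lit 5) (nat_lit 39) (nat_lit 5) (nat_lit 314) (nat_lit 287) (nat_lit 119)) (XT.lf (nat_lit 0) (nat_lit 32763742975) (nat_lit 304) (nat_lit 45522103331) (nat_lit 76) (nat_lit 12604324576) (nat_lit 35) (nat_lit 5) (nat_lit 39) (nat_lit 5) (nat_lit 36) (nat_lit 5) (nat_lit 315) (nat_lit 287) (nat_lit 118)))) (XT.nd (nat_lit 156) (nat_lit 152) (nat_lit 0) (XT.nd (nat_lit 78) (nat_lit 228) (nat_lit 0) (XT.lf (nat_lit 0) (nat_lit 45421608475) (nat_lit 304) (nat_lit 7377337888) (nat_lit 76) (nat_lit 41144409016) (nat_lit 35) (nat_lit 5) (nat_lit 39) (nat_lit 5) (nat_lit 36) (nat_lit 5) (nat_lit 316) (nat_lit 287) (nat_lit 117)) (XT.lf (nat_lit 0) (nat_lit 33754050253) (nat_lit 228) (nat_lit 25484593517) (nat_lit 304) (nat_lit 37884243417) (nat_lit 32) (nat_lit 5) (nat_lit 35) (nat_lit 5) (nat_lit 36) (nat_lit 5) (nat_lit 317) (nat_lit 287) (nat_lit 116))) (XT.nd (nat_lit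 78) (nat_lit 152) (nat_lit 0) (XT.lf (nat_lit 0) (nat_lit 73922705121) (nat_lit 304) (nat_lit 23309928436) (nat_lit 76) (nat_lit 3219955134) (nat_lit 32) (nat_lit 5) (nat_lit 36) (nat_lit 5) (nat_lit 33) (nat_lit 5) (nat_lit 318) (nat_lit 287) (nat_lit 115)) (XT.nd (nat_lit 78) (nat_lit 0) (nat_lit 0) (XT.lf (nat_lit 0) (nat_lit 18939397033) (nat_lit 152) (nat_lit 71114380246) (nat_lit 228) (nat_lit 13859359340) (nat_lit 30) (nat_lit 5) (nat_lit 32) (nat_lit 5) (nat_lit 33) (nat_lit 5) (nat_lit 319) (nat_lit 287) (nat_lit 114)) (XT.lf (nat_lit 0) (nat_lit 64109544596) (nat_lit 152) (nat_lit 43275971461) (nat_lit 228) (nat_lit 141491887) (nat_lit 30) (nat_lit 5) (nat_lit 32) (nat_lit 5) (nat_lit 33) (nat_lit 5) (nat_lit 320) (nat_lit 287) (nat_lit 113)))))) (XT.nd (nat_lit 312) (nat_lit 380) (nat_lit 0) (XT.nd (nat_lit 156) (nat_lit 152) (nat_lit 0) (XT.nd (nat_lit 78) (nat_lit 228)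 (nat_lit 0) (XT.lf (nat_lit 0) (nat_lit 13805154698) (nat_lit 228) (nat_lit 6938518) (nat_lit 76) (nat_lit 97498379044) (nat_lit 29) (nat_lit 5) (nat_lit 32) (nat_lit 5) (nat_lit 30) (nat_lit 5) (nat_lit 321) (nat_lit 287) (nat_lit 112)) (XT.lf (nat_lit 0) (nat_lit 29458243869) (nat_lit 304) (nat_lit 68448001688) (nat_lit 76) (nat_lit 17326056420) (nat_lit 26) (nat_lit 5) (nat_lit 30) (nat_lit 5) (nat_lit 27) (nat_lit 5) (nat_lit 322) (nat_lit 287) (nat_lit 111))) (XT.nd (nat_lit 78) (nat_lit 152) (nat_lit 0) (XT.lf (nat_lit 0) (nat_lit 46119944021) (nat_lit 304) (nat_lit 23662166984) (nat_lit 76) (nat_lit 49556815708) (nat_lit 26) (nat_lit 5) (nat_lit 30) (nat_lit 5) (nat_lit 27) (nat_lit 5) (nat_lit 323) (nat_lit 287) (nat_lit 110)) (XT.lf (nat_lit 0) (nat_lit 24134596381) (nat_lit 152) (nat_lit 39856378944) (nat_lit 228) (nat_lit 59641096348) (nat_lit 24) (nat_lit 5) (nat_lit 26)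 (nat_lit 5) (nat_lit 27) (nat_lit 5) (nat_lit 324) (nat_lit 287) (nat_lit 109)))) (XT.nd (nat_lit 156) (nat_lit 380) (nat_lit 0) (XT.nd (nat_lit 78) (nat_lit 0) (nat_lit 0) (XT.lf (nat_lit 0) (nat_lit 75141887282) (nat_lit 152) (nat_lit 8013852796) (nat_lit 228) (nat_lit 44964125941) (nat_lit 24) (nat_lit 5) (nat_lit 26) (nat_lit 5) (nat_lit 27) (nat_lit 5) (nat_lit 325) (nat_lit 287) (nat_lit 108)) (XT.lf (nat_lit 0) (nat_lit 103675106886) (nat_lit 228) (nat_lit 4530189890) (nat_lit 76) (nat_lit 24606936287) (nat_lit 24) (nat_lit 5) (nat_lit 27) (nat_lit 5) (nat_lit 25) (nat_lit 5) (nat_lit 326) (nat_lit 287) (nat_lit 107))) (XT.nd (nat_lit 78) (nat_lit 228) (nat_lit 0) (XT.lf (nat_lit 0) (nat_lit 47735699388) (nat_lit 152) (nat_lit 78360904275) (nat_lit 228) (nat_lit 11598807834) (nat_lit 22) (nat_lit 5) (nat_lit 24) (nat_lit 5) (nat_lit 25) (nat_lit 5) (nat_lit 327) (nat_lit 287)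 (nat_lit 106)) (XT.nd (nat_lit 78) (nat_lit 152) (nat_lit 0) (XT.lf (nat_lit 0) (nat_lit 6675739056) (nat_lit 228) (nat_lit 40155193118) (nat_lit 76) (nat_lit 95982622474) (nat_lit 21) (nat_lit 5) (nat_lit 24) (nat_lit 5) (nat_lit 22) (nat_lit 5) (nat_lit 328) (nat_lit 287) (nat_lit 105)) (XT.lf (nat_lit 0) (nat_lit 12343760898) (nat_lit 152) (nat_lit 13322702966) (nat_lit 228) (nat_lit 122502022511) (nat_lit 19) (nat_lit 5) (nat_lit 21) (nat_lit 5) (nat_lit 22) (nat_lit 5) (nat_lit 329) (nat_lit 287) (nat_lit 104))))))) (XT.nd (nat_lit 702) (nat_lit 76) (nat_lit 0) (XT.nd (nat_lit 312) (nat_lit 304) (nat_lit 0) (XT.nd (nat_lit 156) (nat_lit 152) (nat_lit 0) (XT.nd (nat_lit 78) (nat_lit 0) (nat_lit 0) (XT.lf (nat_lit 0) (nat_lit 46638764796) (nat_lit 228) (nat_lit 85248593331) (nat_lit 76) (nat_lit 21852205485) (nat_lit 19) (nat_lit 5) (nat_lit 22) (nat_lit 5) (nat_lit 20) (nat_lit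 5) (nat_lit 330) (nat_lit 287) (nat_lit 103)) (XT.lf (nat_lit 0) (nat_lit 68877641392) (nat_lit 228) (nat_lit 32362757115) (nat_lit 76) (nat_lit 58337899051) (nat_lit 19) (nat_lit 5) (nat_lit 22) (nat_lit 5) (nat_lit 20) (nat_lit 5) (nat_lit 331) (nat_lit 287) (nat_lit 102))) (XT.nd (nat_lit 78) (nat_lit 0) (nat_lit 0) (XT.lf (nat_lit 0) (nat_lit 23932702502) (nat_lit 152) (nat_lit 68668992681) (nat_lit 228) (nat_lit 73088612183) (nat_lit 17) (nat_lit 5) (nat_lit 19) (nat_lit 5) (nat_lit 20) (nat_lit 5) (nat_lit 332) (nat_lit 287) (nat_lit 101)) (XT.lf (nat_lit 0) (nat_lit 84165843314) (nat_lit 152) (nat_lit 33893774058) (nat_lit 228) (nat_lit 54020917801) (nat_lit 17) (nat_lit 5) (nat_lit 19) (nat_lit 5) (nat_lit 20) (nat_lit 5) (nat_lit 333) (nat_lit 287) (nat_lit 100)))) (XT.nd (nat_lit 156) (nat_lit 228) (nat_lit 0) (XT.nd (nat_lit 78) (nat_lit 76) (nat_lit 0) (XT.lf (nat_lit 0)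 (nat_lit 144830947282) (nat_lit 228) (nat_lit 31421181327) (nat_lit 76) (nat_lit 2536120937) (nat_lit 17) (nat_lit 5) (nat_lit 20) (nat_lit 5) (nat_lit 18) (nat_lit 4) (nat_lit 334) (nat_lit 287) (nat_lit 99)) (XT.lf (nat_lit 0) (nat_lit 28244769170) (nat_lit 76) (nat_lit 145692311931) (nat_lit 152) (nat_lit 11844457388) (nat_lit 16) (nat_lit 5) (nat_lit 17) (nat_lit 5) (nat_lit 18) (nat_lit 4) (nat_lit 335) (nat_lit 287) (nat_lit 98))) (XT.nd (nat_lit 78) (nat_lit 152) (nat_lit 0) (XT.lf (nat_lit 0) (nat_lit 11550469855) (nat_lit 152) (nat_lit 101299911745) (nat_lit 76) (nat_lit 80238207902) (nat_lit 15) (nat_lit 5) (nat_lit 17) (nat_lit 5) (nat_lit 16) (nat_lit 5) (nat_lit 336) (nat_lit 287) (nat_lit 97)) (XT.nd (nat_lit 78) (nat_lit 152) (nat_lit 0) (XT.lf (nat_lit 0) (nat_lit 35716733648) (nat_lit 152) (nat_lit 42445965772) (nat_lit 76) (nat_lit 122588603615) (nat_lit 15) (nat_lit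 5) (nat_lit 17) (nat_lit 5) (nat_lit 16) (nat_lit 5) (nat_lit 337) (nat_lit 287) (nat_lit 96)) (XT.lf (nat_lit 0) (nat_lit 19989924644) (nat_lit 152) (nat_lit 41413143423) (nat_lit 228) (nat_lit 147378496900) (nat_lit 13) (nat_lit 5) (nat_lit 15) (nat_lit 5) (nat_lit 16) (nat_lit 5) (nat_lit 338) (nat_lit 287) (nat_lit 95)))))) (XT.nd (nat_lit 312) (nat_lit 0) (nat_lit 0) (XT.nd (nat_lit 156) (nat_lit 76) (nat_lit 0) (XT.nd (nat_lit 78) (nat_lit 0) (nat_lit 0) (XT.lf (nat_lit 0) (nat_lit 87020691340) (nat_lit 152) (nat_lit 2071537248) (nat_lit 228) (nat_lit 128085186502) (nat_lit 13) (nat_lit 5) (nat_lit 15) (nat_lit 5) (nat_lit 16) (nat_lit 5) (nat_lit 339) (nat_lit 287) (nat_lit 94)) (XT.lf (nat_lit 0) (nat_lit 118778128134) (nat_lit 228) (nat_lit 69203196781) (nat_lit 76) (nat_lit 37981119293) (nat_lit 13) (nat_lit 5) (nat_lit 16) (nat_lit 5) (nat_lit 14) (nat_lit 4) (nat_lit 340)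 (nat_lit 287) (nat_lit 93))) (XT.nd (nat_lit 78) (nat_lit 76) (nat_lit 0) (XT.lf (nat_lit 0) (nat_lit 149981976698) (nat_lit 228) (nat_lit 5236461253) (nat_lit 76) (nat_lit 79966604641) (nat_lit 13) (nat_lit 5) (nat_lit 16) (nat_lit 5) (nat_lit 14) (nat_lit 4) (nat_lit 341) (nat_lit 287) (nat_lit 92)) (XT.lf (nat_lit 0) (nat_lit 63975750643) (nat_lit 76) (nat_lit 119768816771) (nat_lit 152) (nat_lit 61074276481) (nat_lit 12) (nat_lit 5) (nat_lit 13) (nat_lit 5) (nat_lit 14) (nat_lit 4) (nat_lit 342) (nat_lit 287) (nat_lit 91)))) (XT.nd (nat_lit 33306) (nat_lit 0) (nat_lit 4256) (XT.nd (nat_lit 33228) (nat_lit 0) (nat_lit 4256) (XT.lf (nat_lit 0) (nat_lit 136829895087) (nat_lit 76) (nat_lit 82453789976) (nat_lit 152) (nat_lit 35646230796) (nat_lit 12) (nat_lit 5) (nat_lit 13) (nat_lit 5) (nat_lit 14) (nat_lit 4) (nat_lit 343) (nat_lit 287) (nat_lit 90)) (XT.lf (nat_lit 0) (nat_lit 3905693963)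 (nat_lit 0) (nat_lit 3905693963) (nat_lit 684) (nat_lit 13569144109) (nat_lit 68) (nat_lit 5) (nat_lit 68) (nat_lit 3) (nat_lit 77) (nat_lit 3) (nat_lit 288) (nat_lit 288) (nat_lit 144))) (XT.nd (nat_lit 78) (nat_lit 0) (nat_lit 0) (XT.lf (nat_lit 0) (nat_lit 16214437870) (nat_lit 684) (nat_lit 17158762749) (nat_lit 760) (nat_lit 10446718345) (nat_lit 68) (nat_lit 5) (nat_lit 77) (nat_lit 3) (nat_lit 78) (nat_lit 5) (nat_lit 289) (nat_lit 288) (nat_lit 143)) (XT.nd (nat_lit 78) (nat_lit 0) (nat_lit 76) (XT.lf (nat_lit 76) (nat_lit 1438510674) (nat_lit 0) (nat_lit 15545616700) (nat_lit 760) (nat_lit 27940174504) (nat_lit 69) (nat_lit 5) (nat_lit 68) (nat_lit 5) (nat_lit 78) (nat_lit 5) (nat_lit 290) (nat_lit 288) (nat_lit 142)) (XT.lf (nat_lit 0) (nat_lit 18135225264) (nat_lit 684) (nat_lit 24563593935) (nat_lit 760) (nat_lit 3367945678) (nat_lit 69) (nat_lit 5) (nat_lit 78) (nat_lit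 5) (nat_lit 79) (nat_lit 5) (nat_lit 291) (nat_lit 288) (nat_lit 141))))))))
noncomputable def xc233 : XT := (XT.nd (nat_lit 1404) (nat_lit 1596) (nat_lit 0) (XT.nd (nat_lit 702) (nat_lit 1368) (nat_lit 0) (XT.nd (nat_lit 312) (nat_lit 456) (nat_lit 0) (XT.nd (nat_lit 156) (nat_lit 0) (nat_lit 76) (XT.nd (nat_lit 78) (nat_lit 0) (nat_lit 0) (XT.lf (nat_lit 0) (nat_lit 19596841680) (nat_lit 684) (nat_lit 4951344625) (nat_lit 760) (nat_lit 22705523339) (nat_lit 69) (nat_lit 5) (nat_lit 78) (nat_lit 5) (nat_lit 79) (nat_lit 5) (nat_lit 292) (nat_lit 288) (nat_lit 140)) (XT.lf (nat_lit 76) (nat_lit 16157504241) (nat_lit 0) (nat_lit 5224505697) (nat_lit 760) (nat_lit 27105474634) (nat_lit 70) (nat_lit 5) (nat_lit 69) (nat_lit 5) (nat_lit 79) (nat_lit 5) (nat_lit 293) (nat_lit 288) (nat_lit 139))) (XT.nd (nat_lit 78) (nat_lit 0) (nat_lit 0) (XT.lf (nat_lit 0) (nat_lit 23575161107) (nat_lit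 684) (nat_lit 11522884616) (nat_lit 760) (nat_lit 14668972464) (nat_lit 70) (nat_lit 5) (nat_lit 79) (nat_lit 5) (nat_lit 80) (nat_lit 5) (nat_lit 294) (nat_lit 288) (nat_lit 138)) (XT.lf (nat_lit 76) (nat_lit 10576246104) (nat_lit 0) (nat_lit 15550861884) (nat_lit 760) (nat_lit 24970969460) (nat_lit 71) (nat_lit 5) (nat_lit 70) (nat_lit 5) (nat_lit 80) (nat_lit 5) (nat_lit 295) (nat_lit 288) (nat_lit 137)))) (XT.nd (nat_lit 156) (nat_lit 608) (nat_lit 0) (XT.nd (nat_lit 78) (nat_lit 0) (nat_lit 0) (XT.lf (nat_lit 0) (nat_lit 29081081941) (nat_lit 684) (nat_lit 18387652586) (nat_lit 760) (nat_lit 5013239249) (nat_lit 71) (nat_lit 5) (nat_lit 80) (nat_lit 5) (nat_lit 81) (nat_lit 5) (nat_lit 296) (nat_lit 288) (nat_lit 136)) (XT.lf (nat_lit 76) (nat_lit 4749113887) (nat_lit 0) (nat_lit 27761226409) (nat_lit 760) (nat_lit 21408350667) (nat_lit 72) (nat_lit 5) (nat_lit 71) (nat_lit 5)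 (nat_lit 81) (nat_lit 5) (nat_lit 297) (nat_lit 288) (nat_lit 135))) (XT.nd (nat_lit 78) (nat_lit 608) (nat_lit 0) (XT.lf (nat_lit 76) (nat_lit 29679925300) (nat_lit 0) (nat_lit 6741099459) (nat_lit 760) (nat_lit 18990726164) (nat_lit 72) (nat_lit 5) (nat_lit 71) (nat_lit 5) (nat_lit 81) (nat_lit 5) (nat_lit 298) (nat_lit 288) (nat_lit 134)) (XT.nd (nat_lit 78) (nat_lit 684) (nat_lit 0) (XT.lf (nat_lit 0) (nat_lit 40765220237) (nat_lit 684) (nat_lit 1362724219) (nat_lit 76) (nat_lit 14839625414) (nat_lit 72) (nat_lit 5) (nat_lit 81) (nat_lit 5) (nat_lit 73) (nat_lit 5) (nat_lit 299) (nat_lit 288) (nat_lit 133)) (XT.lf (nat_lit 0) (nat_lit 24910477238) (nat_lit 684) (nat_lit 20914277584) (nat_lit 760) (nat_lit 12751523079) (nat_lit 63) (nat_lit 5) (nat_lit 72) (nat_lit 5) (nat_lit 73) (nat_lit 5) (nat_lit 300) (nat_lit 288) (nat_lit 132)))))) (XT.nd (nat_lit 312) (nat_lit 608) (nat_lit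 0) (XT.nd (nat_lit 156) (nat_lit 456) (nat_lit 0) (XT.nd (nat_lit 78) (nat_lit 304) (nat_lit 0) (XT.lf (nat_lit 0) (nat_lit 51180701340) (nat_lit 760) (nat_lit 7742418013) (nat_lit 76) (nat_lit 1340134601) (nat_lit 63) (nat_lit 5) (nat_lit 73) (nat_lit 5) (nat_lit 64) (nat_lit 5) (nat_lit 301) (nat_lit 288) (nat_lit 131)) (XT.lf (nat_lit 0) (nat_lit 19765774315) (nat_lit 304) (nat_lit 37688930751) (nat_lit 380) (nat_lit 4547364923) (nat_lit 59) (nat_lit 5) (nat_lit 63) (nat_lit 5) (nat_lit 64) (nat_lit 5) (nat_lit 302) (nat_lit 288) (nat_lit 130))) (XT.nd (nat_lit 78) (nat_lit 380) (nat_lit 0) (XT.lf (nat_lit 0) (nat_lit 339805843) (nat_lit 380) (nat_lit 14909750190) (nat_lit 76) (nat_lit 48571502484) (nat_lit 58) (nat_lit 5) (nat_lit 63) (nat_lit 5) (nat_lit 59) (nat_lit 5) (nat_lit 303) (nat_lit 288) (nat_lit 129)) (XT.lf (nat_lit 0) (nat_lit 5673096012) (nat_lit 456) (nat_lit 51690185169)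 (nat_lit 76) (nat_lit 8346262439) (nat_lit 53) (nat_lit 5) (nat_lit 59) (nat_lit 5) (nat_lit 54) (nat_lit 5) (nat_lit 304) (nat_lit 288) (nat_lit 128)))) (XT.nd (nat_lit 156) (nat_lit 304) (nat_lit 0) (XT.nd (nat_lit 78) (nat_lit 304) (nat_lit 0) (XT.lf (nat_lit 0) (nat_lit 11778600004) (nat_lit 456) (nat_lit 23022544823) (nat_lit 76) (nat_lit 32866034118) (nat_lit 53) (nat_lit 5) (nat_lit 59) (nat_lit 5) (nat_lit 54) (nat_lit 5) (nat_lit 305) (nat_lit 288) (nat_lit 127)) (XT.lf (nat_lit 0) (nat_lit 7311402076) (nat_lit 304) (nat_lit 10991093694) (nat_lit 380) (nat_lit 51414547708) (nat_lit 49) (nat_lit 5) (nat_lit 53) (nat_lit 5) (nat_lit 54) (nat_lit 5) (nat_lit 306) (nat_lit 288) (nat_lit 126))) (XT.nd (nat_lit 78) (nat_lit 304) (nat_lit 0) (XT.lf (nat_lit 0) (nat_lit 25766599627) (nat_lit 380) (nat_lit 32114808625) (nat_lit 76) (nat_lit 13957295436) (nat_lit 49) (nat_lit 5) (nat_lit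 54) (nat_lit 5) (nat_lit 50) (nat_lit 5) (nat_lit 307) (nat_lit 288) (nat_lit 125)) (XT.nd (nat_lit 78) (nat_lit 304) (nat_lit 0) (XT.lf (nat_lit 0) (nat_lit 33783134981) (nat_lit 380) (nat_lit 490683378) (nat_lit 76) (nat_lit 39783670199) (nat_lit 49) (nat_lit 5) (nat_lit 54) (nat_lit 5) (nat_lit 50) (nat_lit 5) (nat_lit 308) (nat_lit 288) (nat_lit 124)) (XT.lf (nat_lit 0) (nat_lit 33795292050) (nat_lit 304) (nat_lit 8931934216) (nat_lit 380) (nat_lit 33633652771) (nat_lit 45) (nat_lit 5) (nat_lit 49) (nat_lit 5) (nat_lit 50) (nat_lit 5) (nat_lit 309) (nat_lit 288) (nat_lit 123))))))) (XT.nd (nat_lit 702) (nat_lit 608) (nat_lit 0) (XT.nd (nat_lit 312) (nat_lit 456) (nat_lit 0) (XT.nd (nat_lit 156) (nat_lit 304) (nat_lit 0) (XT.nd (nat_lit 78) (nat_lit 228) (nat_lit 0) (XT.lf (nat_lit 0) (nat_lit 52402072333) (nat_lit 380) (nat_lit 9243591357) (nat_lit 76) (nat_lit 17119600530) (nat_lit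 45) (nat_lit 5) (nat_lit 50) (nat_lit 5) (nat_lit 46) (nat_lit 5) (nat_lit 310) (nat_lit 288) (nat_lit 122)) (XT.lf (nat_lit 0) (nat_lit 26443438796) (nat_lit 228) (nat_lit 36675661176) (nat_lit 304) (nat_lit 18142849290) (nat_lit 42) (nat_lit 5) (nat_lit 45) (nat_lit 5) (nat_lit 46) (nat_lit 5) (nat_lit 311) (nat_lit 288) (nat_lit 121))) (XT.nd (nat_lit 78) (nat_lit 304) (nat_lit 0) (XT.lf (nat_lit 0) (nat_lit 64234757840) (nat_lit 228) (nat_lit 10292948586) (nat_lit 304) (nat_lit 9347978197) (nat_lit 42) (nat_lit 5) (nat_lit 45) (nat_lit 5) (nat_lit 46) (nat_lit 5) (nat_lit 312) (nat_lit 288) (nat_lit 120)) (XT.lf (nat_lit 0) (nat_lit 444788157) (nat_lit 304) (nat_lit 69014391646) (nat_lit 76) (nat_lit 17133291489) (nat_lit 38) (nat_lit 5) (nat_lit 42) (nat_lit 5) (nat_lit 39) (nat_lit 5) (nat_lit 313) (nat_lit 288) (nat_lit 119)))) (XT.nd (nat_lit 156) (nat_lit 228) (nat_lit 0)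 (XT.nd (nat_lit 78) (nat_lit 228) (nat_lit 0) (XT.lf (nat_lit 0) (nat_lit 10919084782) (nat_lit 304) (nat_lit 32416959614) (nat_lit 76) (nat_lit 46076090465) (nat_lit 38) (nat_lit 5) (nat_lit 42) (nat_lit 5) (nat_lit 39) (nat_lit 5) (nat_lit 314) (nat_lit 288) (nat_lit 118)) (XT.lf (nat_lit 0) (nat_lit 6208105558) (nat_lit 228) (nat_lit 15805180348) (nat_lit 304) (nat_lit 70354688226) (nat_lit 35) (nat_lit 5) (nat_lit 38) (nat_lit 5) (nat_lit 39) (nat_lit 5) (nat_lit 315) (nat_lit 288) (nat_lit 117))) (XT.nd (nat_lit 78) (nat_lit 228) (nat_lit 0) (XT.lf (nat_lit 0) (nat_lit 34424037613) (nat_lit 304) (nat_lit 47768806304) (nat_lit 76) (nat_lit 13240671334) (nat_lit 35) (nat_lit 5) (nat_lit 39) (nat_lit 5) (nat_lit 36) (nat_lit 5) (nat_lit 316) (nat_lit 288) (nat_lit 116)) (XT.nd (nat_lit 78) (nat_lit 228) (nat_lit 0) (XT.lf (nat_lit 0) (nat_lit 47713743651) (nat_lit 304) (nat_lit 7718202694)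 (nat_lit 76) (nat_lit 43207468066) (nat_lit 35) (nat_lit 5) (nat_lit 39) (nat_lit 5) (nat_lit 36) (nat_lit 5) (nat_lit 317) (nat_lit 288) (nat_lit 115)) (XT.lf (nat_lit 0) (nat_lit 35469303207) (nat_lit 228) (nat_lit 26751755035) (nat_lit 304) (nat_lit 39756895857) (nat_lit 32) (nat_lit 5) (nat_lit 35) (nat_lit 5) (nat_lit 36) (nat_lit 5) (nat_lit 318) (nat_lit 288) (nat_lit 114)))))) (XT.nd (nat_lit 312) (nat_lit 152) (nat_lit 0) (XT.nd (nat_lit 156) (nat_lit 304) (nat_lit 0) (XT.nd (nat_lit 78) (nat_lit 152) (nat_lit 0) (XT.lf (nat_lit 0) (nat_lit 77638452413) (nat_lit 304) (nat_lit 24448265301) (nat_lit 76) (nat_lit 3387469017) (nat_lit 32) (nat_lit 5) (nat_lit 36) (nat_lit 5) (nat_lit 33) (nat_lit 5) (nat_lit 319) (nat_lit 288) (nat_lit 113)) (XT.lf (nat_lit 0) (nat_lit 19913088384) (nat_lit 152) (nat_lit 74662473086) (nat_lit 228) (nat_lit 14532228839) (nat_lit 30) (nat_lit 5)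 (nat_lit 32) (nat_lit 5) (nat_lit 33) (nat_lit 5) (nat_lit 320) (nat_lit 288) (nat_lit 112))) (XT.nd (nat_lit 78) (nat_lit 304) (nat_lit 0) (XT.lf (nat_lit 0) (nat_lit 67340470873) (nat_lit 152) (nat_lit 45432507012) (nat_lit 228) (nat_lit 129425083) (nat_lit 30) (nat_lit 5) (nat_lit 32) (nat_lit 5) (nat_lit 33) (nat_lit 5) (nat_lit 321) (nat_lit 288) (nat_lit 111)) (XT.lf (nat_lit 0) (nat_lit 18158176) (nat_lit 228) (nat_lit 14495184189) (nat_lit 304) (nat_lit 102361715225) (nat_lit 26) (nat_lit 5) (nat_lit 29) (nat_lit 5) (nat_lit 30) (nat_lit 5) (nat_lit 322) (nat_lit 288) (nat_lit 110)))) (XT.nd (nat_lit 156) (nat_lit 152) (nat_lit 0) (XT.nd (nat_lit 78) (nat_lit 0) (nat_lit 0) (XT.lf (nat_lit 0) (nat_lit 30948457658) (nat_lit 304) (nat_lit 71845154692) (nat_lit 76) (nat_lit 18199399849) (nat_lit 26) (nat_lit 5) (nat_lit 30) (nat_lit 5) (nat_lit 27) (nat_lit 5) (nat_lit 323) (nat_lit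 288) (nat_lit 109)) (XT.lf (nat_lit 0) (nat_lit 48442418932) (nat_lit 304) (nat_lit 24821230495) (nat_lit 76) (nat_lit 52041361834) (nat_lit 26) (nat_lit 5) (nat_lit 30) (nat_lit 5) (nat_lit 27) (nat_lit 5) (nat_lit 324) (nat_lit 288) (nat_lit 108))) (XT.nd (nat_lit 78) (nat_lit 0) (nat_lit 0) (XT.lf (nat_lit 0) (nat_lit 25364983218) (nat_lit 152) (nat_lit 41841603282) (nat_lit 228) (nat_lit 62606249538) (nat_lit 24) (nat_lit 5) (nat_lit 26) (nat_lit 5) (nat_lit 27) (nat_lit 5) (nat_lit 325) (nat_lit 288) (nat_lit 107)) (XT.nd (nat_lit 78) (nat_lit 0) (nat_lit 0) (XT.lf (nat_lit 0) (nat_lit 78921512139) (nat_lit 152) (nat_lit 8407312475) (nat_lit 228) (nat_lit 47196235450) (nat_lit 24) (nat_lit 5) (nat_lit 26) (nat_lit 5) (nat_lit 27) (nat_lit 5) (nat_lit 326) (nat_lit 288) (nat_lit 106)) (XT.lf (nat_lit 0) (nat_lit 108873538859) (nat_lit 228) (nat_lit 4734588126) (nat_lit 76) (nat_lit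 25843951159) (nat_lit 24) (nat_lit 5) (nat_lit 27) (nat_lit 5) (nat_lit 25) (nat_lit 5) (nat_lit 327) (nat_lit 288) (nat_lit 105))))))))
noncomputable def xc234 : XT := (XT.nd (nat_lit 34710) (nat_lit 0) (nat_lit 2736) (XT.nd (nat_lit 702) (nat_lit 228) (nat_lit 0) (XT.nd (nat_lit 312) (nat_lit 228) (nat_lit 0) (XT.nd (nat_lit 156) (nat_lit 152) (nat_lit 0) (XT.nd (nat_lit 78) (nat_lit 76) (nat_lit 0) (XT.lf (nat_lit 0) (nat_lit 50144238984) (nat_lit 152) (nat_lit 82271512255) (nat_lit 228) (nat_lit 12163683782) (nat_lit 22) (nat_lit 5) (nat_lit 24) (nat_lit 5) (nat_lit 25) (nat_lit 5) (nat_lit 328) (nat_lit 288) (nat_lit 104)) (XT.lf (nat_lit 0) (nat_lit 7023413902) (nat_lit 228) (nat_lit 42141746603) (nat_lit 76) (nat_lit 100788349198) (nat_lit 21) (nat_lit 5) (nat_lit 24) (nat_lit 5) (nat_lit 22) (nat_lit 5) (nat_lit 329) (nat_lit 288) (nat_lit 103))) (XT.nd (nat_lit 78) (nat_lit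 0) (nat_lit 0) (XT.lf (nat_lit 0) (nat_lit 12981813079) (nat_lit 152) (nat_lit 13981526291) (nat_lit 228) (nat_lit 128612866772) (nat_lit 19) (nat_lit 5) (nat_lit 21) (nat_lit 5) (nat_lit 22) (nat_lit 5) (nat_lit 330) (nat_lit 288) (nat_lit 102)) (XT.lf (nat_lit 0) (nat_lit 48983718722) (nat_lit 228) (nat_lit 89490590112) (nat_lit 76) (nat_lit 22951556521) (nat_lit 19) (nat_lit 5) (nat_lit 22) (nat_lit 5) (nat_lit 20) (nat_lit 5) (nat_lit 331) (nat_lit 288) (nat_lit 101)))) (XT.nd (nat_lit 156) (nat_lit 76) (nat_lit 0) (XT.nd (nat_lit 78) (nat_lit 152) (nat_lit 0) (XT.lf (nat_lit 0) (nat_lit 72333919353) (nat_lit 228) (nat_lit 33961435079) (nat_lit 76) (nat_lit 61261213777) (nat_lit 19) (nat_lit 5) (nat_lit 22) (nat_lit 5) (nat_lit 20) (nat_lit 5) (nat_lit 332) (nat_lit 288) (nat_lit 100)) (XT.lf (nat_lit 0) (nat_lit 25148483649) (nat_lit 152) (nat_lit 72095400827) (nat_lit 228) (nat_lit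 76730309762) (nat_lit 17) (nat_lit 5) (nat_lit 19) (nat_lit 5) (nat_lit 20) (nat_lit 5) (nat_lit 333) (nat_lit 288) (nat_lit 99))) (XT.nd (nat_lit 78) (nat_lit 76) (nat_lit 0) (XT.lf (nat_lit 0) (nat_lit 88392369786) (nat_lit 152) (nat_lit 35581756582) (nat_lit 228) (nat_lit 56709836996) (nat_lit 17) (nat_lit 5) (nat_lit 19) (nat_lit 5) (nat_lit 20) (nat_lit 5) (nat_lit 334) (nat_lit 288) (nat_lit 98)) (XT.nd (nat_lit 78) (nat_lit 76) (nat_lit 0) (XT.lf (nat_lit 0) (nat_lit 152083573532) (nat_lit 228) (nat_lit 32974404040) (nat_lit 76) (nat_lit 2669109403) (nat_lit 17) (nat_lit 5) (nat_lit 20) (nat_lit 5) (nat_lit 18) (nat_lit 4) (nat_lit 335) (nat_lit 288) (nat_lit 97)) (XT.lf (nat_lit 0) (nat_lit 29674556299) (nat_lit 76) (nat_lit 152970204160) (nat_lit 152) (nat_lit 12425293588) (nat_lit 16) (nat_lit 5) (nat_lit 17) (nat_lit 5) (nat_lit 18) (nat_lit 4) (nat_lit 336) (nat_lit 288)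 (nat_lit 96)))))) (XT.nd (nat_lit 312) (nat_lit 0) (nat_lit 0) (XT.nd (nat_lit 156) (nat_lit 152) (nat_lit 0) (XT.nd (nat_lit 78) (nat_lit 0) (nat_lit 0) (XT.lf (nat_lit 0) (nat_lit 12138490704) (nat_lit 152) (nat_lit 106347828991) (nat_lit 76) (nat_lit 84256156182) (nat_lit 15) (nat_lit 5) (nat_lit 17) (nat_lit 5) (nat_lit 16) (nat_lit 5) (nat_lit 337) (nat_lit 288) (nat_lit 95)) (XT.lf (nat_lit 0) (nat_lit 37512567814) (nat_lit 152) (nat_lit 44551998973) (nat_lit 76) (nat_lit 128723784163) (nat_lit 15) (nat_lit 5) (nat_lit 17) (nat_lit 5) (nat_lit 16) (nat_lit 5) (nat_lit 338) (nat_lit 288) (nat_lit 94))) (XT.nd (nat_lit 78) (nat_lit 0) (nat_lit 0) (XT.lf (nat_lit 0) (nat_lit 21005423623) (nat_lit 152) (nat_lit 43477569107) (nat_lit 228) (nat_lit 154737145386) (nat_lit 13) (nat_lit 5) (nat_lit 15) (nat_lit 5) (nat_lit 16) (nat_lit 5) (nat_lit 339) (nat_lit 288) (nat_lit 93)) (XT.lf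 (nat_lit 0) (nat_lit 91386966619) (nat_lit 152) (nat_lit 2169179361) (nat_lit 228) (nat_lit 134479658818) (nat_lit 13) (nat_lit 5) (nat_lit 15) (nat_lit 5) (nat_lit 16) (nat_lit 5) (nat_lit 340) (nat_lit 288) (nat_lit 92)))) (XT.nd (nat_lit 33462) (nat_lit 0) (nat_lit 4180) (XT.nd (nat_lit 78) (nat_lit 0) (nat_lit 0) (XT.lf (nat_lit 0) (nat_lit 124725985607) (nat_lit 228) (nat_lit 72648471762) (nat_lit 76) (nat_lit 39885646496) (nat_lit 13) (nat_lit 5) (nat_lit 16) (nat_lit 5) (nat_lit 14) (nat_lit 4) (nat_lit 341) (nat_lit 288) (nat_lit 91)) (XT.lf (nat_lit 0) (nat_lit 157489600358) (nat_lit 228) (nat_lit 5484108261) (nat_lit 76) (nat_lit 83970145576) (nat_lit 13) (nat_lit 5) (nat_lit 16) (nat_lit 5) (nat_lit 14) (nat_lit 4) (nat_lit 342) (nat_lit 288) (nat_lit 90))) (XT.nd (nat_lit 78) (nat_lit 0) (nat_lit 0) (XT.lf (nat_lit 0) (nat_lit 4117022776) (nat_lit 0) (nat_lit 4117022776)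 (nat_lit 684) (nat_lit 14213793423) (nat_lit 68) (nat_lit 5) (nat_lit 68) (nat_lit 3) (nat_lit 77) (nat_lit 3) (nat_lit 289) (nat_lit 289) (nat_lit 142)) (XT.nd (nat_lit 78) (nat_lit 0) (nat_lit 0) (XT.lf (nat_lit 0) (nat_lit 17085803072) (nat_lit 684) (nat_lit 17982387991) (nat_lit 760) (nat_lit 10939472161) (nat_lit 68) (nat_lit 5) (nat_lit 77) (nat_lit 3) (nat_lit 78) (nat_lit 5) (nat_lit 290) (nat_lit 289) (nat_lit 141)) (XT.lf (nat_lit 76) (nat_lit 1544195670) (nat_lit 0) (nat_lit 16347420684) (nat_lit 760) (nat_lit 29275777417) (nat_lit 69) (nat_lit 5) (nat_lit 68) (nat_lit 5) (nat_lit 78) (nat_lit 5) (nat_lit 291) (nat_lit 289) (nat_lit 140))))))) (XT.nd (nat_lit 702) (nat_lit 1520) (nat_lit 0) (XT.nd (nat_lit 312) (nat_lit 0) (nat_lit 76) (XT.nd (nat_lit 156) (nat_lit 0) (nat_lit 0) (XT.nd (nat_lit 78) (nat_lit 0) (nat_lit 0) (XT.lf (nat_lit 0) (nat_lit 19097129134) (nat_lit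 684) (nat_lit 25756282643) (nat_lit 760) (nat_lit 3513735100) (nat_lit 69) (nat_lit 5) (nat_lit 78) (nat_lit 5) (nat_lit 79) (nat_lit 5) (nat_lit 292) (nat_lit 289) (nat_lit 139)) (XT.lf (nat_lit 0) (nat_lit 20629200531) (nat_lit 684) (nat_lit 5165110915) (nat_lit 760) (nat_lit 23819268209) (nat_lit 69) (nat_lit 5) (nat_lit 78) (nat_lit 5) (nat_lit 79) (nat_lit 5) (nat_lit 293) (nat_lit 289) (nat_lit 138))) (XT.nd (nat_lit 78) (nat_lit 0) (nat_lit 76) (XT.lf (nat_lit 76) (nat_lit 16998635217) (nat_lit 0) (nat_lit 5503010402) (nat_lit 760) (nat_lit 28407505819) (nat_lit 70) (nat_lit 5) (nat_lit 69) (nat_lit 5) (nat_lit 79) (nat_lit 5) (nat_lit 294) (nat_lit 289) (nat_lit 137)) (XT.lf (nat_lit 0) (nat_lit 24801790977) (nat_lit 684) (nat_lit 12064521316) (nat_lit 760) (nat_lit 15386491210) (nat_lit 70) (nat_lit 5) (nat_lit 79) (nat_lit 5) (nat_lit 80) (nat_lit 5) (nat_lit 295) (nat_lit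 289) (nat_lit 136)))) (XT.nd (nat_lit 156) (nat_lit 0) (nat_lit 76) (XT.nd (nat_lit 78) (nat_lit 0) (nat_lit 76) (XT.lf (nat_lit 76) (nat_lit 11139009366) (nat_lit 0) (nat_lit 16340576294) (nat_lit 760) (nat_lit 26170925734) (nat_lit 71) (nat_lit 5) (nat_lit 70) (nat_lit 5) (nat_lit 80) (nat_lit 5) (nat_lit 296) (nat_lit 289) (nat_lit 135)) (XT.lf (nat_lit 0) (nat_lit 30578881034) (nat_lit 684) (nat_lit 19272167681) (nat_lit 760) (nat_lit 5252680489) (nat_lit 71) (nat_lit 5) (nat_lit 80) (nat_lit 5) (nat_lit 81) (nat_lit 5) (nat_lit 297) (nat_lit 289) (nat_lit 134))) (XT.nd (nat_lit 78) (nat_lit 0) (nat_lit 0) (XT.lf (nat_lit 76) (nat_lit 5020874736) (nat_lit 0) (nat_lit 29157180074) (nat_lit 760) (nat_lit 22434312243) (nat_lit 72) (nat_lit 5) (nat_lit 71) (nat_lit 5) (nat_lit 81) (nat_lit 5) (nat_lit 298) (nat_lit 289) (nat_lit 133)) (XT.nd (nat_lit 78) (nat_lit 0) (nat_lit 76) (XT.lf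 (nat_lit 76) (nat_lit 31196593140) (nat_lit 0) (nat_lit 7085670951) (nat_lit 760) (nat_lit 19897923465) (nat_lit 72) (nat_lit 5) (nat_lit 71) (nat_lit 5) (nat_lit 81) (nat_lit 5) (nat_lit 299) (nat_lit 289) (nat_lit 132)) (XT.lf (nat_lit 0) (nat_lit 42841643860) (nat_lit 684) (nat_lit 1397584390) (nat_lit 76) (nat_lit 15574677215) (nat_lit 72) (nat_lit 5) (nat_lit 81) (nat_lit 5) (nat_lit 73) (nat_lit 5) (nat_lit 300) (nat_lit 289) (nat_lit 131)))))) (XT.nd (nat_lit 312) (nat_lit 684) (nat_lit 0) (XT.nd (nat_lit 156) (nat_lit 380) (nat_lit 0) (XT.nd (nat_lit 78) (nat_lit 0) (nat_lit 0) (XT.lf (nat_lit 0) (nat_lit 26188740429) (nat_lit 684) (nat_lit 21964108630) (nat_lit 760) (nat_lit 13350271561) (nat_lit 63) (nat_lit 5) (nat_lit 72) (nat_lit 5) (nat_lit 73) (nat_lit 5) (nat_lit 301) (nat_lit 289) (nat_lit 130)) (XT.lf (nat_lit 0) (nat_lit 53774776612) (nat_lit 760) (nat_lit 8096420070)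 (nat_lit 76) (nat_lit 1403345720) (nat_lit 63) (nat_lit 5) (nat_lit 73) (nat_lit 5) (nat_lit 64) (nat_lit 5) (nat_lit 302) (nat_lit 289) (nat_lit 129))) (XT.nd (nat_lit 78) (nat_lit 76) (nat_lit 0) (XT.lf (nat_lit 0) (nat_lit 20786647699) (nat_lit 304) (nat_lit 39574672982) (nat_lit 380) (nat_lit 4739042371) (nat_lit 59) (nat_lit 5) (nat_lit 63) (nat_lit 5) (nat_lit 64) (nat_lit 5) (nat_lit 303) (nat_lit 289) (nat_lit 128)) (XT.lf (nat_lit 0) (nat_lit 389699439) (nat_lit 380) (nat_lit 15623011155) (nat_lit 76) (nat_lit 50997650088) (nat_lit 58) (nat_lit 5) (nat_lit 63) (nat_lit 5) (nat_lit 59) (nat_lit 5) (nat_lit 304) (nat_lit 289) (nat_lit 127)))) (XT.nd (nat_lit 156) (nat_lit 304) (nat_lit 0) (XT.nd (nat_lit 78) (nat_lit 0) (nat_lit 0) (XT.lf (nat_lit 0) (nat_lit 5988580377) (nat_lit 456) (nat_lit 54241293577) (nat_lit 76) (nat_lit 8763454802) (nat_lit 53) (nat_lit 5) (nat_lit 59)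 (nat_lit 5) (nat_lit 54) (nat_lit 5) (nat_lit 305) (nat_lit 289) (nat_lit 126)) (XT.lf (nat_lit 0) (nat_lit 12397843875) (nat_lit 456) (nat_lit 24141861730) (nat_lit 76) (nat_lit 34509220816) (nat_lit 53) (nat_lit 5) (nat_lit 59) (nat_lit 5) (nat_lit 54) (nat_lit 5) (nat_lit 306) (nat_lit 289) (nat_lit 125))) (XT.nd (nat_lit 78) (nat_lit 0) (nat_lit 0) (XT.lf (nat_lit 0) (nat_lit 7708269443) (nat_lit 304) (nat_lit 11538710106) (nat_lit 380) (nat_lit 53954356937) (nat_lit 49) (nat_lit 5) (nat_lit 53) (nat_lit 5) (nat_lit 54) (nat_lit 5) (nat_lit 307) (nat_lit 289) (nat_lit 124)) (XT.nd (nat_lit 78) (nat_lit 0) (nat_lit 0) (XT.lf (nat_lit 0) (nat_lit 27082919373) (nat_lit 380) (nat_lit 33689286039) (nat_lit 76) (nat_lit 14656947099) (nat_lit 49) (nat_lit 5) (nat_lit 54) (nat_lit 5) (nat_lit 50) (nat_lit 5) (nat_lit 308) (nat_lit 289) (nat_lit 123)) (XT.lf (nat_lit 0) (nat_lit 35498948649)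 (nat_lit 380) (nat_lit 485443244) (nat_lit 76) (nat_lit 41774555510) (nat_lit 49) (nat_lit 5) (nat_lit 54) (nat_lit 5) (nat_lit 50) (nat_lit 5) (nat_lit 309) (nat_lit 289) (nat_lit 122))))))))
noncomputable def xc235 : XT := (XT.nd (nat_lit 1404) (nat_lit 836) (nat_lit 0) (XT.nd (nat_lit 702) (nat_lit 836) (nat_lit 0) (XT.nd (nat_lit 312) (nat_lit 532) (nat_lit 0) (XT.nd (nat_lit 156) (nat_lit 228) (nat_lit 0) (XT.nd (nat_lit 78) (nat_lit 0) (nat_lit 0) (XT.lf (nat_lit 0) (nat_lit 35514350725) (nat_lit 304) (nat_lit 9375081760) (nat_lit 380) (nat_lit 35288119464) (nat_lit 45) (nat_lit 5) (nat_lit 49) (nat_lit 5) (nat_lit 50) (nat_lit 5) (nat_lit 310) (nat_lit 289) (nat_lit 121)) (XT.lf (nat_lit 0) (nat_lit 55046841431) (nat_lit 380) (nat_lit 9676617342) (nat_lit 76) (nat_lit 17978760340) (nat_lit 45) (nat_lit 5) (nat_lit 50) (nat_lit 5) (nat_lit 46) (nat_lit 5) (nat_lit 311) (nat_lit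 289) (nat_lit 120))) (XT.nd (nat_lit 78) (nat_lit 0) (nat_lit 0) (XT.lf (nat_lit 0) (nat_lit 27794294100) (nat_lit 228) (nat_lit 38504699633) (nat_lit 304) (nat_lit 19024784583) (nat_lit 42) (nat_lit 5) (nat_lit 45) (nat_lit 5) (nat_lit 46) (nat_lit 5) (nat_lit 312) (nat_lit 289) (nat_lit 119)) (XT.lf (nat_lit 0) (nat_lit 67473813221) (nat_lit 228) (nat_lit 10803077348) (nat_lit 304) (nat_lit 9791370277) (nat_lit 42) (nat_lit 5) (nat_lit 45) (nat_lit 5) (nat_lit 46) (nat_lit 5) (nat_lit 313) (nat_lit 289) (nat_lit 118)))) (XT.nd (nat_lit 156) (nat_lit 228) (nat_lit 0) (XT.nd (nat_lit 78) (nat_lit 0) (nat_lit 0) (XT.lf (nat_lit 0) (nat_lit 489671985) (nat_lit 304) (nat_lit 72436304765) (nat_lit 76) (nat_lit 17994924147) (nat_lit 38) (nat_lit 5) (nat_lit 42) (nat_lit 5) (nat_lit 39) (nat_lit 5) (nat_lit 314) (nat_lit 289) (nat_lit 117)) (XT.lf (nat_lit 0) (nat_lit 11486605136) (nat_lit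 304) (nat_lit 34010372867) (nat_lit 76) (nat_lit 48384626497) (nat_lit 38) (nat_lit 5) (nat_lit 42) (nat_lit 5) (nat_lit 39) (nat_lit 5) (nat_lit 315) (nat_lit 289) (nat_lit 116))) (XT.nd (nat_lit 78) (nat_lit 0) (nat_lit 0) (XT.lf (nat_lit 0) (nat_lit 6545503067) (nat_lit 228) (nat_lit 16589407715) (nat_lit 304) (nat_lit 73850358029) (nat_lit 35) (nat_lit 5) (nat_lit 38) (nat_lit 5) (nat_lit 39) (nat_lit 5) (nat_lit 316) (nat_lit 289) (nat_lit 115)) (XT.nd (nat_lit 78) (nat_lit 0) (nat_lit 0) (XT.lf (nat_lit 0) (nat_lit 36165291638) (nat_lit 304) (nat_lit 50130577964) (nat_lit 76) (nat_lit 13908265473) (nat_lit 35) (nat_lit 5) (nat_lit 39) (nat_lit 5) (nat_lit 36) (nat_lit 5) (nat_lit 317) (nat_lit 289) (nat_lit 114)) (XT.lf (nat_lit 0) (nat_lit 50118528114) (nat_lit 304) (nat_lit 8078714109) (nat_lit 76) (nat_lit 45373137252) (nat_lit 35) (nat_lit 5) (nat_lit 39) (nat_lit 5) (nat_lit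 36) (nat_lit 5) (nat_lit 318) (nat_lit 289) (nat_lit 113)))))) (XT.nd (nat_lit 312) (nat_lit 456) (nat_lit 0) (XT.nd (nat_lit 156) (nat_lit 152) (nat_lit 0) (XT.nd (nat_lit 78) (nat_lit 0) (nat_lit 0) (XT.lf (nat_lit 0) (nat_lit 37267757431) (nat_lit 228) (nat_lit 28082931760) (nat_lit 304) (nat_lit 41725185338) (nat_lit 32) (nat_lit 5) (nat_lit 35) (nat_lit 5) (nat_lit 36) (nat_lit 5) (nat_lit 319) (nat_lit 289) (nat_lit 112)) (XT.lf (nat_lit 0) (nat_lit 81538163729) (nat_lit 304) (nat_lit 25646044047) (nat_lit 76) (nat_lit 3562752787) (nat_lit 32) (nat_lit 5) (nat_lit 36) (nat_lit 5) (nat_lit 33) (nat_lit 5) (nat_lit 320) (nat_lit 289) (nat_lit 111))) (XT.nd (nat_lit 78) (nat_lit 0) (nat_lit 0) (XT.lf (nat_lit 0) (nat_lit 20932979991) (nat_lit 152) (nat_lit 78388679577) (nat_lit 228) (nat_lit 15240610378) (nat_lit 30) (nat_lit 5) (nat_lit 32) (nat_lit 5) (nat_lit 33) (nat_lit 5)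 (nat_lit 321) (nat_lit 289) (nat_lit 110)) (XT.lf (nat_lit 0) (nat_lit 70730577453) (nat_lit 152) (nat_lit 47697544588) (nat_lit 228) (nat_lit 118534525) (nat_lit 30) (nat_lit 5) (nat_lit 32) (nat_lit 5) (nat_lit 33) (nat_lit 5) (nat_lit 322) (nat_lit 289) (nat_lit 109)))) (XT.nd (nat_lit 156) (nat_lit 152) (nat_lit 0) (XT.nd (nat_lit 78) (nat_lit 0) (nat_lit 0) (XT.lf (nat_lit 0) (nat_lit 42362693) (nat_lit 228) (nat_lit 15213016350) (nat_lit 304) (nat_lit 107462575046) (nat_lit 26) (nat_lit 5) (nat_lit 29) (nat_lit 5) (nat_lit 30) (nat_lit 5) (nat_lit 323) (nat_lit 289) (nat_lit 108)) (XT.lf (nat_lit 0) (nat_lit 32511573599) (nat_lit 304) (nat_lit 75414512581) (nat_lit 76) (nat_lit 19115755880) (nat_lit 26) (nat_lit 5) (nat_lit 30) (nat_lit 5) (nat_lit 27) (nat_lit 5) (nat_lit 324) (nat_lit 289) (nat_lit 107))) (XT.nd (nat_lit 78) (nat_lit 152) (nat_lit 0) (XT.lf (nat_lit 0) (nat_lit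 50879485648) (nat_lit 304) (nat_lit 26040482643) (nat_lit 76) (nat_lit 54649511867) (nat_lit 26) (nat_lit 5) (nat_lit 30) (nat_lit 5) (nat_lit 27) (nat_lit 5) (nat_lit 325) (nat_lit 289) (nat_lit 106)) (XT.nd (nat_lit 78) (nat_lit 0) (nat_lit 0) (XT.lf (nat_lit 0) (nat_lit 26654689992) (nat_lit 152) (nat_lit 43926794912) (nat_lit 228) (nat_lit 65721231740) (nat_lit 24) (nat_lit 5) (nat_lit 26) (nat_lit 5) (nat_lit 27) (nat_lit 5) (nat_lit 326) (nat_lit 289) (nat_lit 105)) (XT.lf (nat_lit 0) (nat_lit 82888023568) (nat_lit 152) (nat_lit 8821117590) (nat_lit 228) (nat_lit 49541446961) (nat_lit 24) (nat_lit 5) (nat_lit 26) (nat_lit 5) (nat_lit 27) (nat_lit 5) (nat_lit 327) (nat_lit 289) (nat_lit 104))))))) (XT.nd (nat_lit 702) (nat_lit 304) (nat_lit 0) (XT.nd (nat_lit 312) (nat_lit 152) (nat_lit 0) (XT.nd (nat_lit 156) (nat_lit 228) (nat_lit 0) (XT.nd (nat_lit 78) (nat_lit 152) (nat_lit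 0) (XT.lf (nat_lit 0) (nat_lit 114330527936) (nat_lit 228) (nat_lit 4951261968) (nat_lit 76) (nat_lit 27142196842) (nat_lit 24) (nat_lit 5) (nat_lit 27) (nat_lit 5) (nat_lit 25) (nat_lit 5) (nat_lit 328) (nat_lit 289) (nat_lit 103)) (XT.lf (nat_lit 0) (nat_lit 52671183020) (nat_lit 152) (nat_lit 86378342077) (nat_lit 228) (nat_lit 12758204077) (nat_lit 22) (nat_lit 5) (nat_lit 24) (nat_lit 5) (nat_lit 25) (nat_lit 5) (nat_lit 329) (nat_lit 289) (nat_lit 102))) (XT.nd (nat_lit 78) (nat_lit 152) (nat_lit 0) (XT.lf (nat_lit 0) (nat_lit 7387181325) (nat_lit 228) (nat_lit 44229599311) (nat_lit 76) (nat_lit 105833749062) (nat_lit 21) (nat_lit 5) (nat_lit 24) (nat_lit 5) (nat_lit 22) (nat_lit 5) (nat_lit 330) (nat_lit 289) (nat_lit 101)) (XT.lf (nat_lit 0) (nat_lit 13649828119) (nat_lit 152) (nat_lit 14673970566) (nat_lit 228) (nat_lit 135030578714) (nat_lit 19) (nat_lit 5) (nat_lit 21) (nat_lit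 5) (nat_lit 22) (nat_lit 5) (nat_lit 331) (nat_lit 289) (nat_lit 100)))) (XT.nd (nat_lit 156) (nat_lit 152) (nat_lit 0) (XT.nd (nat_lit 78) (nat_lit 0) (nat_lit 0) (XT.lf (nat_lit 0) (nat_lit 51444710270) (nat_lit 228) (nat_lit 93946586388) (nat_lit 76) (nat_lit 24105248416) (nat_lit 19) (nat_lit 5) (nat_lit 22) (nat_lit 5) (nat_lit 20) (nat_lit 5) (nat_lit 332) (nat_lit 289) (nat_lit 99)) (XT.lf (nat_lit 0) (nat_lit 75961858759) (nat_lit 228) (nat_lit 35641856138) (nat_lit 76) (nat_lit 64330097389) (nat_lit 19) (nat_lit 5) (nat_lit 22) (nat_lit 5) (nat_lit 20) (nat_lit 5) (nat_lit 333) (nat_lit 289) (nat_lit 98))) (XT.nd (nat_lit 78) (nat_lit 0) (nat_lit 0) (XT.lf (nat_lit 0) (nat_lit 26423273838) (nat_lit 152) (nat_lit 75693784031) (nat_lit 228) (nat_lit 80555276017) (nat_lit 17) (nat_lit 5) (nat_lit 19) (nat_lit 5) (nat_lit 20) (nat_lit 5) (nat_lit 334) (nat_lit 289) (nat_lit 97))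 (XT.nd (nat_lit 78) (nat_lit 0) (nat_lit 0) (XT.lf (nat_lit 0) (nat_lit 92828527329) (nat_lit 152) (nat_lit 37354761709) (nat_lit 228) (nat_lit 59534329576) (nat_lit 17) (nat_lit 5) (nat_lit 19) (nat_lit 5) (nat_lit 20) (nat_lit 5) (nat_lit 335) (nat_lit 289) (nat_lit 96)) (XT.lf (nat_lit 0) (nat_lit 159697801084) (nat_lit 228) (nat_lit 34606946143) (nat_lit 76) (nat_lit 2808172509) (nat_lit 17) (nat_lit 5) (nat_lit 20) (nat_lit 5) (nat_lit 18) (nat_lit 4) (nat_lit 336) (nat_lit 289) (nat_lit 95)))))) (XT.nd (nat_lit 312) (nat_lit 0) (nat_lit 0) (XT.nd (nat_lit 156) (nat_lit 152) (nat_lit 0) (XT.nd (nat_lit 78) (nat_lit 76) (nat_lit 0) (XT.lf (nat_lit 0) (nat_lit 31174201276) (nat_lit 76) (nat_lit 160612616076) (nat_lit 152) (nat_lit 13036230223) (nat_lit 16) (nat_lit 5) (nat_lit 17) (nat_lit 5) (nat_lit 18) (nat_lit 4) (nat_lit 337) (nat_lit 289) (nat_lit 94)) (XT.lf (nat_lit 0) (nat_lit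 12754936652) (nat_lit 152) (nat_lit 111649729881) (nat_lit 76) (nat_lit 88474440531) (nat_lit 15) (nat_lit 5) (nat_lit 17) (nat_lit 5) (nat_lit 16) (nat_lit 5) (nat_lit 338) (nat_lit 289) (nat_lit 93))) (XT.nd (nat_lit 78) (nat_lit 152) (nat_lit 0) (XT.lf (nat_lit 0) (nat_lit 39397264216) (nat_lit 152) (nat_lit 46764846008) (nat_lit 76) (nat_lit 135165189123) (nat_lit 15) (nat_lit 5) (nat_lit 17) (nat_lit 5) (nat_lit 16) (nat_lit 5) (nat_lit 339) (nat_lit 289) (nat_lit 92)) (XT.lf (nat_lit 0) (nat_lit 22070209768) (nat_lit 152) (nat_lit 45645795420) (nat_lit 228) (nat_lit 162464681694) (nat_lit 13) (nat_lit 5) (nat_lit 15) (nat_lit 5) (nat_lit 16) (nat_lit 5) (nat_lit 340) (nat_lit 289) (nat_lit 91)))) (XT.nd (nat_lit 33618) (nat_lit 0) (nat_lit 4180) (XT.nd (nat_lit 33540) (nat_lit 0) (nat_lit 4180) (XT.lf (nat_lit 0) (nat_lit 95970138725) (nat_lit 152) (nat_lit 2272255336) (nat_lit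 228) (nat_lit 141194764653) (nat_lit 13) (nat_lit 5) (nat_lit 15) (nat_lit 5) (nat_lit 16) (nat_lit 5) (nat_lit 341) (nat_lit 289) (nat_lit 90)) (XT.lf (nat_lit 0) (nat_lit 4337426401) (nat_lit 0) (nat_lit 4337426401) (nat_lit 684) (nat_lit 14893818340) (nat_lit 68) (nat_lit 5) (nat_lit 68) (nat_lit 3) (nat_lit 77) (nat_lit 3) (nat_lit 290) (nat_lit 290) (nat_lit 140))) (XT.nd (nat_lit 78) (nat_lit 0) (nat_lit 0) (XT.lf (nat_lit 0) (nat_lit 17995098494) (nat_lit 684) (nat_lit 18850384583) (nat_lit 760) (nat_lit 11459613931) (nat_lit 68) (nat_lit 5) (nat_lit 77) (nat_lit 3) (nat_lit 78) (nat_lit 5) (nat_lit 291) (nat_lit 290) (nat_lit 139)) (XT.nd (nat_lit 78) (nat_lit 0) (nat_lit 76) (XT.lf (nat_lit 76) (nat_lit 1652026280) (nat_lit 0) (nat_lit 17187034938) (nat_lit 760) (nat_lit 30683869406) (nat_lit 69) (nat_lit 5) (nat_lit 68) (nat_lit 5) (nat_lit 78) (nat_lit 5) (nat_lit 292) (nat_lit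 290) (nat_lit 138)) (XT.lf (nat_lit 0) (nat_lit 20102001560) (nat_lit 684) (nat_lit 27011905403) (nat_lit 760) (nat_lit 3668915857) (nat_lit 69) (nat_lit 5) (nat_lit 78) (nat_lit 5) (nat_lit 79) (nat_lit 5) (nat_lit 293) (nat_lit 290) (nat_lit 137))))))))
noncomputable def xc236 : XT := (XT.nd (nat_lit 1404) (nat_lit 1596) (nat_lit 0) (XT.nd (nat_lit 702) (nat_lit 1368) (nat_lit 0) (XT.nd (nat_lit 312) (nat_lit 456) (nat_lit 0) (XT.nd (nat_lit 156) (nat_lit 0) (nat_lit 76) (XT.nd (nat_lit 78) (nat_lit 0) (nat_lit 0) (XT.lf (nat_lit 0) (nat_lit 21708294814) (nat_lit 684) (nat_lit 5392708011) (nat_lit 760) (nat_lit 24990702098) (nat_lit 69) (nat_lit 5) (nat_lit 78) (nat_lit 5) (nat_lit 79) (nat_lit 5) (nat_lit 294) (nat_lit 290) (nat_lit 136)) (XT.lf (nat_lit 76) (nat_lit 17878730937) (nat_lit 0) (nat_lit 5793833866) (nat_lit 760) (nat_lit 29779588551) (nat_lit 70) (nat_lit 5) (nat_lit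 69) (nat_lit 5) (nat_lit 79) (nat_lit 5) (nat_lit 295) (nat_lit 290) (nat_lit 135))) (XT.nd (nat_lit 78) (nat_lit 0) (nat_lit 0) (XT.lf (nat_lit 0) (nat_lit 26085301672) (nat_lit 684) (nat_lit 12636448035) (nat_lit 760) (nat_lit 16141366903) (nat_lit 70) (nat_lit 5) (nat_lit 79) (nat_lit 5) (nat_lit 80) (nat_lit 5) (nat_lit 296) (nat_lit 290) (nat_lit 134)) (XT.lf (nat_lit 76) (nat_lit 11726754353) (nat_lit 0) (nat_lit 17168644852) (nat_lit 760) (nat_lit 27435397464) (nat_lit 71) (nat_lit 5) (nat_lit 70) (nat_lit 5) (nat_lit 80) (nat_lit 5) (nat_lit 297) (nat_lit 290) (nat_lit 133)))) (XT.nd (nat_lit 156) (nat_lit 608) (nat_lit 0) (XT.nd (nat_lit 78) (nat_lit 0) (nat_lit 0) (XT.lf (nat_lit 0) (nat_lit 32147503086) (nat_lit 684) (nat_lit 20204150184) (nat_lit 760) (nat_lit 5505136988) (nat_lit 71) (nat_lit 5) (nat_lit 80) (nat_lit 5) (nat_lit 81) (nat_lit 5) (nat_lit 298) (nat_lit 290)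 (nat_lit 132)) (XT.lf (nat_lit 76) (nat_lit 5303034260) (nat_lit 0) (nat_lit 30622197668) (nat_lit 760) (nat_lit 23515704992) (nat_lit 72) (nat_lit 5) (nat_lit 71) (nat_lit 5) (nat_lit 81) (nat_lit 5) (nat_lit 299) (nat_lit 290) (nat_lit 131))) (XT.nd (nat_lit 78) (nat_lit 608) (nat_lit 0) (XT.lf (nat_lit 76) (nat_lit 32786056880) (nat_lit 0) (nat_lit 7446772203) (nat_lit 760) (nat_lit 20854416911) (nat_lit 72) (nat_lit 5) (nat_lit 71) (nat_lit 5) (nat_lit 81) (nat_lit 5) (nat_lit 300) (nat_lit 290) (nat_lit 130)) (XT.nd (nat_lit 78) (nat_lit 684) (nat_lit 0) (XT.lf (nat_lit 0) (nat_lit 45018340665) (nat_lit 684) (nat_lit 1437281261) (nat_lit 76) (nat_lit 16347125842) (nat_lit 72) (nat_lit 5) (nat_lit 81) (nat_lit 5) (nat_lit 73) (nat_lit 5) (nat_lit 301) (nat_lit 290) (nat_lit 129)) (XT.lf (nat_lit 0) (nat_lit 27527872987) (nat_lit 684) (nat_lit 23066048453) (nat_lit 760) (nat_lit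 13982567296) (nat_lit 63) (nat_lit 5) (nat_lit 72) (nat_lit 5) (nat_lit 73) (nat_lit 5) (nat_lit 302) (nat_lit 290) (nat_lit 128)))))) (XT.nd (nat_lit 312) (nat_lit 608) (nat_lit 0) (XT.nd (nat_lit 156) (nat_lit 456) (nat_lit 0) (XT.nd (nat_lit 78) (nat_lit 304) (nat_lit 0) (XT.lf (nat_lit 0) (nat_lit 56495297942) (nat_lit 760) (nat_lit 8471201306) (nat_lit 76) (nat_lit 1470070275) (nat_lit 63) (nat_lit 5) (nat_lit 73) (nat_lit 5) (nat_lit 64) (nat_lit 5) (nat_lit 303) (nat_lit 290) (nat_lit 127)) (XT.lf (nat_lit 0) (nat_lit 21855535339) (nat_lit 304) (nat_lit 41554581864) (nat_lit 380) (nat_lit 4943621883) (nat_lit 59) (nat_lit 5) (nat_lit 63) (nat_lit 5) (nat_lit 64) (nat_lit 5) (nat_lit 304) (nat_lit 290) (nat_lit 126))) (XT.nd (nat_lit 78) (nat_lit 380) (nat_lit 0) (XT.lf (nat_lit 0) (nat_lit 439028679) (nat_lit 380) (nat_lit 16374931288) (nat_lit 76) (nat_lit 53545330759) (nat_lit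 58) (nat_lit 5) (nat_lit 63) (nat_lit 5) (nat_lit 59) (nat_lit 5) (nat_lit 305) (nat_lit 290) (nat_lit 125)) (XT.lf (nat_lit 0) (nat_lit 6316879749) (nat_lit 456) (nat_lit 56923062700) (nat_lit 76) (nat_lit 9201518011) (nat_lit 53) (nat_lit 5) (nat_lit 59) (nat_lit 5) (nat_lit 54) (nat_lit 5) (nat_lit 306) (nat_lit 290) (nat_lit 124)))) (XT.nd (nat_lit 156) (nat_lit 304) (nat_lit 0) (XT.nd (nat_lit 78) (nat_lit 304) (nat_lit 0) (XT.lf (nat_lit 0) (nat_lit 13045231644) (nat_lit 456) (nat_lit 25320101906) (nat_lit 76) (nat_lit 36234577542) (nat_lit 53) (nat_lit 5) (nat_lit 59) (nat_lit 5) (nat_lit 54) (nat_lit 5) (nat_lit 307) (nat_lit 290) (nat_lit 123)) (XT.lf (nat_lit 0) (nat_lit 8122070457) (nat_lit 304) (nat_lit 12113887541) (nat_lit 380) (nat_lit 56624031103) (nat_lit 49) (nat_lit 5) (nat_lit 53) (nat_lit 5) (nat_lit 54) (nat_lit 5) (nat_lit 308) (nat_lit 290) (nat_lit 122))) (XT.nd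 (nat_lit 78) (nat_lit 304) (nat_lit 0) (XT.lf (nat_lit 0) (nat_lit 28462452883) (nat_lit 380) (nat_lit 35345393863) (nat_lit 76) (nat_lit 15391415217) (nat_lit 49) (nat_lit 5) (nat_lit 54) (nat_lit 5) (nat_lit 50) (nat_lit 5) (nat_lit 309) (nat_lit 290) (nat_lit 121)) (XT.nd (nat_lit 78) (nat_lit 304) (nat_lit 0) (XT.lf (nat_lit 0) (nat_lit 37298074692) (nat_lit 380) (nat_lit 482709237) (nat_lit 76) (nat_lit 43864826870) (nat_lit 49) (nat_lit 5) (nat_lit 54) (nat_lit 5) (nat_lit 50) (nat_lit 5) (nat_lit 310) (nat_lit 290) (nat_lit 120)) (XT.lf (nat_lit 0) (nat_lit 37316638847) (nat_lit 304) (nat_lit 9840707351) (nat_lit 380) (nat_lit 37027839772) (nat_lit 45) (nat_lit 5) (nat_lit 49) (nat_lit 5) (nat_lit 50) (nat_lit 5) (nat_lit 311) (nat_lit 290) (nat_lit 119))))))) (XT.nd (nat_lit 702) (nat_lit 608) (nat_lit 0) (XT.nd (nat_lit 312) (nat_lit 456) (nat_lit 0) (XT.nd (nat_lit 156) (nat_lit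 304) (nat_lit 0) (XT.nd (nat_lit 78) (nat_lit 228) (nat_lit 0) (XT.lf (nat_lit 0) (nat_lit 57821555822) (nat_lit 380) (nat_lit 10134005050) (nat_lit 76) (nat_lit 18880582514) (nat_lit 45) (nat_lit 5) (nat_lit 50) (nat_lit 5) (nat_lit 46) (nat_lit 5) (nat_lit 312) (nat_lit 290) (nat_lit 118)) (XT.lf (nat_lit 0) (nat_lit 29210025461) (nat_lit 228) (nat_lit 40425631121) (nat_lit 304) (nat_lit 19953160165) (nat_lit 42) (nat_lit 5) (nat_lit 45) (nat_lit 5) (nat_lit 46) (nat_lit 5) (nat_lit 313) (nat_lit 290) (nat_lit 117))) (XT.nd (nat_lit 78) (nat_lit 304) (nat_lit 0) (XT.lf (nat_lit 0) (nat_lit 70872281650) (nat_lit 228) (nat_lit 11339132650) (nat_lit 304) (nat_lit 10259163889) (nat_lit 42) (nat_lit 5) (nat_lit 45) (nat_lit 5) (nat_lit 46) (nat_lit 5) (nat_lit 314) (nat_lit 290) (nat_lit 116)) (XT.lf (nat_lit 0) (nat_lit 534694741) (nat_lit 304) (nat_lit 76031991692) (nat_lit 76) (nat_lit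 18899176553) (nat_lit 38) (nat_lit 5) (nat_lit 42) (nat_lit 5) (nat_lit 39) (nat_lit 5) (nat_lit 315) (nat_lit 290) (nat_lit 115)))) (XT.nd (nat_lit 156) (nat_lit 228) (nat_lit 0) (XT.nd (nat_lit 78) (nat_lit 228) (nat_lit 0) (XT.lf (nat_lit 0) (nat_lit 12080496494) (nat_lit 304) (nat_lit 35686007405) (nat_lit 76) (nat_lit 50808149439) (nat_lit 38) (nat_lit 5) (nat_lit 42) (nat_lit 5) (nat_lit 39) (nat_lit 5) (nat_lit 316) (nat_lit 290) (nat_lit 114)) (XT.lf (nat_lit 0) (nat_lit 6897260970) (nat_lit 228) (nat_lit 17413407216) (nat_lit 304) (nat_lit 77522862679) (nat_lit 35) (nat_lit 5) (nat_lit 38) (nat_lit 5) (nat_lit 39) (nat_lit 5) (nat_lit 317) (nat_lit 290) (nat_lit 113))) (XT.nd (nat_lit 78) (nat_lit 228) (nat_lit 0) (XT.lf (nat_lit 0) (nat_lit 37991744107) (nat_lit 304) (nat_lit 52612917605) (nat_lit 76) (nat_lit 14608722348) (nat_lit 35) (nat_lit 5) (nat_lit 39) (nat_lit 5)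 (nat_lit 36) (nat_lit 5) (nat_lit 318) (nat_lit 290) (nat_lit 112)) (XT.nd (nat_lit 78) (nat_lit 228) (nat_lit 0) (XT.lf (nat_lit 0) (nat_lit 52641776316) (nat_lit 304) (nat_lit 8459612427) (nat_lit 76) (nat_lit 47646597545) (nat_lit 35) (nat_lit 5) (nat_lit 39) (nat_lit 5) (nat_lit 36) (nat_lit 5) (nat_lit 319) (nat_lit 290) (nat_lit 111)) (XT.lf (nat_lit 0) (nat_lit 39153811119) (nat_lit 228) (nat_lit 29481263357) (nat_lit 304) (nat_lit 43793707361) (nat_lit 32) (nat_lit 5) (nat_lit 35) (nat_lit 5) (nat_lit 36) (nat_lit 5) (nat_lit 320) (nat_lit 290) (nat_lit 110)))))) (XT.nd (nat_lit 312) (nat_lit 152) (nat_lit 0) (XT.nd (nat_lit 156) (nat_lit 304) (nat_lit 0) (XT.nd (nat_lit 78) (nat_lit 152) (nat_lit 0) (XT.lf (nat_lit 0) (nat_lit 85631206786) (nat_lit 304) (nat_lit 26906002015) (nat_lit 76) (nat_lit 3746251259) (nat_lit 32) (nat_lit 5) (nat_lit 36) (nat_lit 5) (nat_lit 33) (nat_lit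 5) (nat_lit 321) (nat_lit 290) (nat_lit 109)) (XT.lf (nat_lit 0) (nat_lit 22001612835) (nat_lit 152) (nat_lit 82301839485) (nat_lit 228) (nat_lit 15986105838) (nat_lit 30) (nat_lit 5) (nat_lit 32) (nat_lit 5) (nat_lit 33) (nat_lit 5) (nat_lit 322) (nat_lit 290) (nat_lit 108))) (XT.nd (nat_lit 78) (nat_lit 304) (nat_lit 0) (XT.lf (nat_lit 0) (nat_lit 74288043320) (nat_lit 152) (nat_lit 50076446512) (nat_lit 228) (nat_lit 108713576) (nat_lit 30) (nat_lit 5) (nat_lit 32) (nat_lit 5) (nat_lit 33) (nat_lit 5) (nat_lit 323) (nat_lit 290) (nat_lit 107)) (XT.lf (nat_lit 0) (nat_lit 65611539) (nat_lit 228) (nat_lit 15967384129) (nat_lit 304) (nat_lit 112820079363) (nat_lit 26) (nat_lit 5) (nat_lit 29) (nat_lit 5) (nat_lit 30) (nat_lit 5) (nat_lit 324) (nat_lit 290) (nat_lit 106)))) (XT.nd (nat_lit 156) (nat_lit 152) (nat_lit 0) (XT.nd (nat_lit 78) (nat_lit 0) (nat_lit 0) (XT.lf (nat_lit 0)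 (nat_lit 34151386344) (nat_lit 304) (nat_lit 79164467375) (nat_lit 76) (nat_lit 20077335999) (nat_lit 26) (nat_lit 5) (nat_lit 30) (nat_lit 5) (nat_lit 27) (nat_lit 5) (nat_lit 325) (nat_lit 290) (nat_lit 105)) (XT.lf (nat_lit 0) (nat_lit 53437016183) (nat_lit 304) (nat_lit 27322725027) (nat_lit 76) (nat_lit 57387503960) (nat_lit 26) (nat_lit 5) (nat_lit 30) (nat_lit 5) (nat_lit 27) (nat_lit 5) (nat_lit 326) (nat_lit 290) (nat_lit 104))) (XT.nd (nat_lit 78) (nat_lit 0) (nat_lit 0) (XT.lf (nat_lit 0) (nat_lit 28006887179) (nat_lit 152) (nat_lit 46116886555) (nat_lit 228) (nat_lit 68993388317) (nat_lit 24) (nat_lit 5) (nat_lit 26) (nat_lit 5) (nat_lit 27) (nat_lit 5) (nat_lit 327) (nat_lit 290) (nat_lit 103)) (XT.nd (nat_lit 78) (nat_lit 0) (nat_lit 0) (XT.lf (nat_lit 0) (nat_lit 87050960639) (nat_lit 152) (nat_lit 9256222895) (nat_lit 228) (nat_lit 52005276441) (nat_lit 24) (nat_lit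 5) (nat_lit 26) (nat_lit 5) (nat_lit 27) (nat_lit 5) (nat_lit 328) (nat_lit 290) (nat_lit 102)) (XT.lf (nat_lit 0) (nat_lit 120059128831) (nat_lit 228) (nat_lit 5180634079) (nat_lit 76) (nat_lit 28504792512) (nat_lit 24) (nat_lit 5) (nat_lit 27) (nat_lit 5) (nat_lit 25) (nat_lit 5) (nat_lit 329) (nat_lit 290) (nat_lit 101))))))))
noncomputable def xc237 : XT := (XT.nd (nat_lit 35022) (nat_lit 0) (nat_lit 2052) (XT.nd (nat_lit 702) (nat_lit 76) (nat_lit 0) (XT.nd (nat_lit 312) (nat_lit 228) (nat_lit 0) (XT.nd (nat_lit 156) (nat_lit 152) (nat_lit 0) (XT.nd (nat_lit 78) (nat_lit 76) (nat_lit 0) (XT.lf (nat_lit 0) (nat_lit 55322639755) (nat_lit 152) (nat_lit 90691140550) (nat_lit 228) (nat_lit 13383720725) (nat_lit 22) (nat_lit 5) (nat_lit 24) (nat_lit 5) (nat_lit 25) (nat_lit 5) (nat_lit 330) (nat_lit 290) (nat_lit 100)) (XT.lf (nat_lit 0) (nat_lit 7767965995) (nat_lit 228) (nat_lit 46423632907)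 (nat_lit 76) (nat_lit 111130862732) (nat_lit 21) (nat_lit 5) (nat_lit 24) (nat_lit 5) (nat_lit 22) (nat_lit 5) (nat_lit 331) (nat_lit 290) (nat_lit 99))) (XT.nd (nat_lit 78) (nat_lit 0) (nat_lit 0) (XT.lf (nat_lit 0) (nat_lit 14349484502) (nat_lit 152) (nat_lit 15401653639) (nat_lit 228) (nat_lit 141770378492) (nat_lit 19) (nat_lit 5) (nat_lit 21) (nat_lit 5) (nat_lit 22) (nat_lit 5) (nat_lit 332) (nat_lit 290) (nat_lit 98)) (XT.lf (nat_lit 0) (nat_lit 54027653820) (nat_lit 228) (nat_lit 98627105522) (nat_lit 76) (nat_lit 25316056478) (nat_lit 19) (nat_lit 5) (nat_lit 22) (nat_lit 5) (nat_lit 20) (nat_lit 5) (nat_lit 333) (nat_lit 290) (nat_lit 97)))) (XT.nd (nat_lit 156) (nat_lit 76) (nat_lit 0) (XT.nd (nat_lit 78) (nat_lit 152) (nat_lit 0) (XT.lf (nat_lit 0) (nat_lit 79770149828) (nat_lit 228) (nat_lit 37407939244) (nat_lit 76) (nat_lit 67551883822) (nat_lit 19) (nat_lit 5) (nat_lit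 22) (nat_lit 5) (nat_lit 20) (nat_lit 5) (nat_lit 334) (nat_lit 290) (nat_lit 96)) (XT.lf (nat_lit 0) (nat_lit 27760189010) (nat_lit 152) (nat_lit 79472680183) (nat_lit 228) (nat_lit 84572564323) (nat_lit 17) (nat_lit 5) (nat_lit 19) (nat_lit 5) (nat_lit 20) (nat_lit 5) (nat_lit 335) (nat_lit 290) (nat_lit 95))) (XT.nd (nat_lit 78) (nat_lit 76) (nat_lit 0) (XT.lf (nat_lit 0) (nat_lit 97484955105) (nat_lit 152) (nat_lit 39216982604) (nat_lit 228) (nat_lit 62501069393) (nat_lit 17) (nat_lit 5) (nat_lit 19) (nat_lit 5) (nat_lit 20) (nat_lit 5) (nat_lit 336) (nat_lit 290) (nat_lit 94)) (XT.nd (nat_lit 78) (nat_lit 76) (nat_lit 0) (XT.lf (nat_lit 0) (nat_lit 167691805765) (nat_lit 228) (nat_lit 36322619438) (nat_lit 76) (nat_lit 2953667425) (nat_lit 17) (nat_lit 5) (nat_lit 20) (nat_lit 5) (nat_lit 18) (nat_lit 4) (nat_lit 337) (nat_lit 290) (nat_lit 93)) (XT.lf (nat_lit 0) (nat_lit 32747348674)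 (nat_lit 76) (nat_lit 168637715549) (nat_lit 152) (nat_lit 13678673893) (nat_lit 16) (nat_lit 5) (nat_lit 17) (nat_lit 5) (nat_lit 18) (nat_lit 4) (nat_lit 338) (nat_lit 290) (nat_lit 92)))))) (XT.nd (nat_lit 33930) (nat_lit 0) (nat_lit 4028) (XT.nd (nat_lit 33774) (nat_lit 0) (nat_lit 4028) (XT.nd (nat_lit 78) (nat_lit 0) (nat_lit 0) (XT.lf (nat_lit 0) (nat_lit 13401319686) (nat_lit 152) (nat_lit 117218165981) (nat_lit 76) (nat_lit 92903129941) (nat_lit 15) (nat_lit 5) (nat_lit 17) (nat_lit 5) (nat_lit 16) (nat_lit 5) (nat_lit 339) (nat_lit 290) (nat_lit 91)) (XT.lf (nat_lit 0) (nat_lit 41375352380) (nat_lit 152) (nat_lit 49089706981) (nat_lit 76) (nat_lit 141928179420) (nat_lit 15) (nat_lit 5) (nat_lit 17) (nat_lit 5) (nat_lit 16) (nat_lit 5) (nat_lit 340) (nat_lit 290) (nat_lit 90))) (XT.nd (nat_lit 78) (nat_lit 0) (nat_lit 0) (XT.lf (nat_lit 0) (nat_lit 4567497254) (nat_lit 0)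 (nat_lit 4567497254) (nat_lit 684) (nat_lit 15610695420) (nat_lit 68) (nat_lit 5) (nat_lit 68) (nat_lit 3) (nat_lit 77) (nat_lit 3) (nat_lit 291) (nat_lit 291) (nat_lit 138)) (XT.lf (nat_lit 0) (nat_lit 18944744818) (nat_lit 684) (nat_lit 19764674508) (nat_lit 760) (nat_lit 12008257359) (nat_lit 68) (nat_lit 5) (nat_lit 77) (nat_lit 3) (nat_lit 78) (nat_lit 5) (nat_lit 292) (nat_lit 291) (nat_lit 137)))) (XT.nd (nat_lit 156) (nat_lit 0) (nat_lit 76) (XT.nd (nat_lit 78) (nat_lit 0) (nat_lit 76) (XT.lf (nat_lit 76) (nat_lit 1762401587) (nat_lit 0) (nat_lit 18066561941) (nat_lit 760) (nat_lit 32167544162) (nat_lit 69) (nat_lit 5) (nat_lit 68) (nat_lit 5) (nat_lit 78) (nat_lit 5) (nat_lit 293) (nat_lit 291) (nat_lit 136)) (XT.lf (nat_lit 0) (nat_lit 21152467596) (nat_lit 684) (nat_lit 28333302149) (nat_lit 760) (nat_lit 3833762105) (nat_lit 69) (nat_lit 5) (nat_lit 78) (nat_lit 5) (nat_lit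 79) (nat_lit 5) (nat_lit 294) (nat_lit 291) (nat_lit 135))) (XT.nd (nat_lit 78) (nat_lit 0) (nat_lit 0) (XT.lf (nat_lit 0) (nat_lit 22836915230) (nat_lit 684) (nat_lit 5634535294) (nat_lit 760) (nat_lit 26222523351) (nat_lit 69) (nat_lit 5) (nat_lit 78) (nat_lit 5) (nat_lit 79) (nat_lit 5) (nat_lit 295) (nat_lit 291) (nat_lit 134)) (XT.nd (nat_lit 78) (nat_lit 0) (nat_lit 76) (XT.lf (nat_lit 76) (nat_lit 18800027084) (nat_lit 0) (nat_lit 6097741381) (nat_lit 760) (nat_lit 31224765203) (nat_lit 70) (nat_lit 5) (nat_lit 69) (nat_lit 5) (nat_lit 79) (nat_lit 5) (nat_lit 296) (nat_lit 291) (nat_lit 133)) (XT.lf (nat_lit 0) (nat_lit 27428951016) (nat_lit 684) (nat_lit 13239881006) (nat_lit 760) (nat_lit 16935329698) (nat_lit 70) (nat_lit 5) (nat_lit 79) (nat_lit 5) (nat_lit 80) (nat_lit 5) (nat_lit 297) (nat_lit 291) (nat_lit 132))))))) (XT.nd (nat_lit 702) (nat_lit 1216) (nat_lit 0) (XT.nd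 (nat_lit 312) (nat_lit 912) (nat_lit 0) (XT.nd (nat_lit 156) (nat_lit 0) (nat_lit 76) (XT.nd (nat_lit 78) (nat_lit 0) (nat_lit 76) (XT.lf (nat_lit 76) (nat_lit 12341023607) (nat_lit 0) (nat_lit 18037090466) (nat_lit 760) (nat_lit 28767190415) (nat_lit 71) (nat_lit 5) (nat_lit 70) (nat_lit 5) (nat_lit 80) (nat_lit 5) (nat_lit 298) (nat_lit 291) (nat_lit 131)) (XT.lf (nat_lit 0) (nat_lit 33790867356) (nat_lit 684) (nat_lit 21185672086) (nat_lit 760) (nat_lit 5771162522) (nat_lit 71) (nat_lit 5) (nat_lit 80) (nat_lit 5) (nat_lit 81) (nat_lit 5) (nat_lit 299) (nat_lit 291) (nat_lit 130))) (XT.nd (nat_lit 78) (nat_lit 0) (nat_lit 0) (XT.lf (nat_lit 76) (nat_lit 5596408909) (nat_lit 0) (nat_lit 32159800603) (nat_lit 760) (nat_lit 24654916215) (nat_lit 72) (nat_lit 5) (nat_lit 71) (nat_lit 5) (nat_lit 81) (nat_lit 5) (nat_lit 300) (nat_lit 291) (nat_lit 129)) (XT.lf (nat_lit 76) (nat_lit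 34452238710) (nat_lit 0) (nat_lit 7825294672) (nat_lit 760) (nat_lit 21862305351) (nat_lit 72) (nat_lit 5) (nat_lit 71) (nat_lit 5) (nat_lit 81) (nat_lit 5) (nat_lit 301) (nat_lit 291) (nat_lit 128)))) (XT.nd (nat_lit 156) (nat_lit 380) (nat_lit 0) (XT.nd (nat_lit 78) (nat_lit 684) (nat_lit 0) (XT.lf (nat_lit 0) (nat_lit 47300654173) (nat_lit 684) (nat_lit 1481769044) (nat_lit 76) (nat_lit 17158781242) (nat_lit 72) (nat_lit 5) (nat_lit 81) (nat_lit 5) (nat_lit 73) (nat_lit 5) (nat_lit 302) (nat_lit 291) (nat_lit 127)) (XT.lf (nat_lit 0) (nat_lit 28931201364) (nat_lit 684) (nat_lit 24222738080) (nat_lit 760) (nat_lit 14649752039) (nat_lit 63) (nat_lit 5) (nat_lit 72) (nat_lit 5) (nat_lit 73) (nat_lit 5) (nat_lit 303) (nat_lit 291) (nat_lit 126))) (XT.nd (nat_lit 78) (nat_lit 380) (nat_lit 0) (XT.lf (nat_lit 0) (nat_lit 59348890503) (nat_lit 760) (nat_lit 8867514417) (nat_lit 76) (nat_lit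 1540451130) (nat_lit 63) (nat_lit 5) (nat_lit 73) (nat_lit 5) (nat_lit 64) (nat_lit 5) (nat_lit 304) (nat_lit 291) (nat_lit 125)) (XT.nd (nat_lit 78) (nat_lit 76) (nat_lit 0) (XT.lf (nat_lit 0) (nat_lit 22975119593) (nat_lit 304) (nat_lit 43633376927) (nat_lit 380) (nat_lit 5161440069) (nat_lit 59) (nat_lit 5) (nat_lit 63) (nat_lit 5) (nat_lit 64) (nat_lit 5) (nat_lit 305) (nat_lit 291) (nat_lit 124)) (XT.lf (nat_lit 0) (nat_lit 488049743) (nat_lit 380) (nat_lit 17167164994) (nat_lit 76) (nat_lit 56220600170) (nat_lit 58) (nat_lit 5) (nat_lit 63) (nat_lit 5) (nat_lit 59) (nat_lit 5) (nat_lit 306) (nat_lit 291) (nat_lit 123)))))) (XT.nd (nat_lit 312) (nat_lit 532) (nat_lit 0) (XT.nd (nat_lit 156) (nat_lit 304) (nat_lit 0) (XT.nd (nat_lit 78) (nat_lit 0) (nat_lit 0) (XT.lf (nat_lit 0) (nat_lit 6658909997) (nat_lit 456) (nat_lit 59741736872) (nat_lit 76) (nat_lit 9661494564) (nat_lit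 53) (nat_lit 5) (nat_lit 59) (nat_lit 5) (nat_lit 54) (nat_lit 5) (nat_lit 307) (nat_lit 291) (nat_lit 122)) (XT.lf (nat_lit 0) (nat_lit 13722432522) (nat_lit 456) (nat_lit 26559936561) (nat_lit 76) (nat_lit 38046211801) (nat_lit 53) (nat_lit 5) (nat_lit 59) (nat_lit 5) (nat_lit 54) (nat_lit 5) (nat_lit 308) (nat_lit 291) (nat_lit 121))) (XT.nd (nat_lit 78) (nat_lit 0) (nat_lit 0) (XT.lf (nat_lit 0) (nat_lit 8553922316) (nat_lit 304) (nat_lit 12717987296) (nat_lit 380) (nat_lit 59429796214) (nat_lit 49) (nat_lit 5) (nat_lit 53) (nat_lit 5) (nat_lit 54) (nat_lit 5) (nat_lit 309) (nat_lit 291) (nat_lit 120)) (XT.lf (nat_lit 0) (nat_lit 29908602776) (nat_lit 380) (nat_lit 37086943394) (nat_lit 76) (nat_lit 16162456058) (nat_lit 49) (nat_lit 5) (nat_lit 54) (nat_lit 5) (nat_lit 50) (nat_lit 5) (nat_lit 310) (nat_lit 291) (nat_lit 119)))) (XT.nd (nat_lit 156) (nat_lit 228) (nat_lit 0) (XT.nd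 (nat_lit 78) (nat_lit 304) (nat_lit 0) (XT.lf (nat_lit 0) (nat_lit 39184909140) (nat_lit 380) (nat_lit 482349306) (nat_lit 76) (nat_lit 46059468290) (nat_lit 49) (nat_lit 5) (nat_lit 54) (nat_lit 5) (nat_lit 50) (nat_lit 5) (nat_lit 311) (nat_lit 291) (nat_lit 118)) (XT.lf (nat_lit 0) (nat_lit 39206571095) (nat_lit 304) (nat_lit 10329905080) (nat_lit 380) (nat_lit 38856841134) (nat_lit 45) (nat_lit 5) (nat_lit 49) (nat_lit 5) (nat_lit 50) (nat_lit 5) (nat_lit 312) (nat_lit 291) (nat_lit 117))) (XT.nd (nat_lit 78) (nat_lit 228) (nat_lit 0) (XT.lf (nat_lit 0) (nat_lit 60732925965) (nat_lit 380) (nat_lit 10616720578) (nat_lit 76) (nat_lit 19827227656) (nat_lit 45) (nat_lit 5) (nat_lit 50) (nat_lit 5) (nat_lit 46) (nat_lit 5) (nat_lit 313) (nat_lit 291) (nat_lit 116)) (XT.nd (nat_lit 78) (nat_lit 0) (nat_lit 0) (XT.lf (nat_lit 0) (nat_lit 30694124609) (nat_lit 228) (nat_lit 42443009282)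 (nat_lit 304) (nat_lit 20930080171) (nat_lit 42) (nat_lit 5) (nat_lit 45) (nat_lit 5) (nat_lit 46) (nat_lit 5) (nat_lit 314) (nat_lit 291) (nat_lit 115)) (XT.lf (nat_lit 0) (nat_lit 74438369899) (nat_lit 228) (nat_lit 11902371763) (nat_lit 304) (nat_lit 10752371605) (nat_lit 42) (nat_lit 5) (nat_lit 45) (nat_lit 5) (nat_lit 46) (nat_lit 5) (nat_lit 315) (nat_lit 291) (nat_lit 114))))))))
noncomputable def xc238 : XT := (XT.nd (nat_lit 1404) (nat_lit 304) (nat_lit 0) (XT.nd (nat_lit 702) (nat_lit 836) (nat_lit 0) (XT.nd (nat_lit 312) (nat_lit 380) (nat_lit 0) (XT.nd (nat_lit 156) (nat_lit 228) (nat_lit 0) (XT.nd (nat_lit 78) (nat_lit 0) (nat_lit 0) (XT.lf (nat_lit 0) (nat_lit 580059099) (nat_lit 304) (nat_lit 79809892128) (nat_lit 76) (nat_lit 19848222635) (nat_lit 38) (nat_lit 5) (nat_lit 42) (nat_lit 5) (nat_lit 39) (nat_lit 5) (nat_lit 316) (nat_lit 291) (nat_lit 113)) (XT.lf (nat_lit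 0) (nat_lit 12702263815) (nat_lit 304) (nat_lit 37447737157) (nat_lit 76) (nat_lit 53352449534) (nat_lit 38) (nat_lit 5) (nat_lit 42) (nat_lit 5) (nat_lit 39) (nat_lit 5) (nat_lit 317) (nat_lit 291) (nat_lit 112))) (XT.nd (nat_lit 78) (nat_lit 0) (nat_lit 0) (XT.lf (nat_lit 0) (nat_lit 7264330594) (nat_lit 228) (nat_lit 18279115323) (nat_lit 304) (nat_lit 81380853204) (nat_lit 35) (nat_lit 5) (nat_lit 38) (nat_lit 5) (nat_lit 39) (nat_lit 5) (nat_lit 318) (nat_lit 291) (nat_lit 111)) (XT.lf (nat_lit 0) (nat_lit 39907828261) (nat_lit 304) (nat_lit 55221623116) (nat_lit 76) (nat_lit 15343733162) (nat_lit 35) (nat_lit 5) (nat_lit 39) (nat_lit 5) (nat_lit 36) (nat_lit 5) (nat_lit 319) (nat_lit 291) (nat_lit 110)))) (XT.nd (nat_lit 156) (nat_lit 152) (nat_lit 0) (XT.nd (nat_lit 78) (nat_lit 228) (nat_lit 0) (XT.lf (nat_lit 0) (nat_lit 55289576512) (nat_lit 304) (nat_lit 8861697458) (nat_lit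 76) (nat_lit 50033284276) (nat_lit 35) (nat_lit 5) (nat_lit 39) (nat_lit 5) (nat_lit 36) (nat_lit 5) (nat_lit 320) (nat_lit 291) (nat_lit 109)) (XT.lf (nat_lit 0) (nat_lit 41132060239) (nat_lit 228) (nat_lit 30950052157) (nat_lit 304) (nat_lit 45967304526) (nat_lit 32) (nat_lit 5) (nat_lit 35) (nat_lit 5) (nat_lit 36) (nat_lit 5) (nat_lit 321) (nat_lit 291) (nat_lit 108))) (XT.nd (nat_lit 78) (nat_lit 152) (nat_lit 0) (XT.lf (nat_lit 0) (nat_lit 89927401929) (nat_lit 304) (nat_lit 28231035236) (nat_lit 76) (nat_lit 3938426256) (nat_lit 32) (nat_lit 5) (nat_lit 36) (nat_lit 5) (nat_lit 33) (nat_lit 5) (nat_lit 322) (nat_lit 291) (nat_lit 107)) (XT.nd (nat_lit 78) (nat_lit 0) (nat_lit 0) (XT.lf (nat_lit 0) (nat_lit 23121633471) (nat_lit 152) (nat_lit 86411240692) (nat_lit 228) (nat_lit 16770413344) (nat_lit 30) (nat_lit 5) (nat_lit 32) (nat_lit 5) (nat_lit 33) (nat_lit 5) (nat_lit 323)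 (nat_lit 291) (nat_lit 106)) (XT.lf (nat_lit 0) (nat_lit 78021435957) (nat_lit 152) (nat_lit 52574849060) (nat_lit 228) (nat_lit 99865649) (nat_lit 30) (nat_lit 5) (nat_lit 32) (nat_lit 5) (nat_lit 33) (nat_lit 5) (nat_lit 324) (nat_lit 291) (nat_lit 105)))))) (XT.nd (nat_lit 312) (nat_lit 380) (nat_lit 0) (XT.nd (nat_lit 156) (nat_lit 152) (nat_lit 0) (XT.nd (nat_lit 78) (nat_lit 0) (nat_lit 0) (XT.lf (nat_lit 0) (nat_lit 88058293) (nat_lit 228) (nat_lit 16760054435) (nat_lit 304) (nat_lit 118446911508) (nat_lit 26) (nat_lit 5) (nat_lit 29) (nat_lit 5) (nat_lit 30) (nat_lit 5) (nat_lit 325) (nat_lit 291) (nat_lit 104)) (XT.lf (nat_lit 0) (nat_lit 35871866378) (nat_lit 304) (nat_lit 83103850983) (nat_lit 76) (nat_lit 21086456608) (nat_lit 26) (nat_lit 5) (nat_lit 30) (nat_lit 5) (nat_lit 27) (nat_lit 5) (nat_lit 326) (nat_lit 291) (nat_lit 103))) (XT.nd (nat_lit 78) (nat_lit 152) (nat_lit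 0) (XT.lf (nat_lit 0) (nat_lit 56121162913) (nat_lit 304) (nat_lit 28670918650) (nat_lit 76) (nat_lit 60261882786) (nat_lit 26) (nat_lit 5) (nat_lit 30) (nat_lit 5) (nat_lit 27) (nat_lit 5) (nat_lit 327) (nat_lit 291) (nat_lit 102)) (XT.lf (nat_lit 0) (nat_lit 29424884769) (nat_lit 152) (nat_lit 48417063669) (nat_lit 228) (nat_lit 72430445478) (nat_lit 24) (nat_lit 5) (nat_lit 26) (nat_lit 5) (nat_lit 27) (nat_lit 5) (nat_lit 328) (nat_lit 291) (nat_lit 101)))) (XT.nd (nat_lit 156) (nat_lit 380) (nat_lit 0) (XT.nd (nat_lit 78) (nat_lit 0) (nat_lit 0) (XT.lf (nat_lit 0) (nat_lit 91420321273) (nat_lit 152) (nat_lit 9713636693) (nat_lit 228) (nat_lit 54593528592) (nat_lit 24) (nat_lit 5) (nat_lit 26) (nat_lit 5) (nat_lit 27) (nat_lit 5) (nat_lit 329) (nat_lit 291) (nat_lit 100)) (XT.lf (nat_lit 0) (nat_lit 126073037199) (nat_lit 228) (nat_lit 5423166021) (nat_lit 76) (nat_lit 29935007945)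 (nat_lit 24) (nat_lit 5) (nat_lit 27) (nat_lit 5) (nat_lit 25) (nat_lit 5) (nat_lit 330) (nat_lit 291) (nat_lit 99))) (XT.nd (nat_lit 78) (nat_lit 228) (nat_lit 0) (XT.lf (nat_lit 0) (nat_lit 58105005380) (nat_lit 152) (nat_lit 95220147799) (nat_lit 228) (nat_lit 14041665441) (nat_lit 22) (nat_lit 5) (nat_lit 24) (nat_lit 5) (nat_lit 25) (nat_lit 5) (nat_lit 331) (nat_lit 291) (nat_lit 98)) (XT.nd (nat_lit 78) (nat_lit 152) (nat_lit 0) (XT.lf (nat_lit 0) (nat_lit 8166727654) (nat_lit 228) (nat_lit 48728990181) (nat_lit 76) (nat_lit 116692327607) (nat_lit 21) (nat_lit 5) (nat_lit 24) (nat_lit 5) (nat_lit 22) (nat_lit 5) (nat_lit 332) (nat_lit 291) (nat_lit 97)) (XT.lf (nat_lit 0) (nat_lit 15082527866) (nat_lit 152) (nat_lit 16166280125) (nat_lit 228) (nat_lit 148848258725) (nat_lit 19) (nat_lit 5) (nat_lit 21) (nat_lit 5) (nat_lit 22) (nat_lit 5) (nat_lit 333) (nat_lit 291) (nat_lit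 96))))))) (XT.nd (nat_lit 34398) (nat_lit 0) (nat_lit 4028) (XT.nd (nat_lit 312) (nat_lit 152) (nat_lit 0) (XT.nd (nat_lit 156) (nat_lit 152) (nat_lit 0) (XT.nd (nat_lit 78) (nat_lit 0) (nat_lit 0) (XT.lf (nat_lit 0) (nat_lit 56738749017) (nat_lit 228) (nat_lit 103543213464) (nat_lit 76) (nat_lit 26586889362) (nat_lit 19) (nat_lit 5) (nat_lit 22) (nat_lit 5) (nat_lit 20) (nat_lit 5) (nat_lit 334) (nat_lit 291) (nat_lit 95)) (XT.lf (nat_lit 0) (nat_lit 83767907325) (nat_lit 228) (nat_lit 39263814936) (nat_lit 76) (nat_lit 70934268546) (nat_lit 19) (nat_lit 5) (nat_lit 22) (nat_lit 5) (nat_lit 20) (nat_lit 5) (nat_lit 335) (nat_lit 291) (nat_lit 94))) (XT.nd (nat_lit 78) (nat_lit 0) (nat_lit 0) (XT.lf (nat_lit 0) (nat_lit 29162485517) (nat_lit 152) (nat_lit 83441059725) (nat_lit 228) (nat_lit 88791690957) (nat_lit 17) (nat_lit 5) (nat_lit 19) (nat_lit 5) (nat_lit 20) (nat_lit 5) (nat_lit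 336) (nat_lit 291) (nat_lit 93)) (XT.lf (nat_lit 0) (nat_lit 102372809581) (nat_lit 152) (nat_lit 41172827480) (nat_lit 228) (nat_lit 65617073737) (nat_lit 17) (nat_lit 5) (nat_lit 19) (nat_lit 5) (nat_lit 20) (nat_lit 5) (nat_lit 337) (nat_lit 291) (nat_lit 92)))) (XT.nd (nat_lit 156) (nat_lit 76) (nat_lit 0) (XT.nd (nat_lit 78) (nat_lit 76) (nat_lit 0) (XT.lf (nat_lit 0) (nat_lit 176084663288) (nat_lit 228) (nat_lit 38125440648) (nat_lit 76) (nat_lit 3105964212) (nat_lit 17) (nat_lit 5) (nat_lit 20) (nat_lit 5) (nat_lit 18) (nat_lit 4) (nat_lit 338) (nat_lit 291) (nat_lit 91)) (XT.lf (nat_lit 0) (nat_lit 34397811197) (nat_lit 76) (nat_lit 177064584247) (nat_lit 152) (nat_lit 14354110680) (nat_lit 16) (nat_lit 5) (nat_lit 17) (nat_lit 5) (nat_lit 18) (nat_lit 4) (nat_lit 339) (nat_lit 291) (nat_lit 90))) (XT.nd (nat_lit 33774) (nat_lit 0) (nat_lit 4028) (XT.lf (nat_lit 0) (nat_lit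 14079218959) (nat_lit 152) (nat_lit 123066330159) (nat_lit 76) (nat_lit 97552792001) (nat_lit 15) (nat_lit 5) (nat_lit 17) (nat_lit 5) (nat_lit 16) (nat_lit 5) (nat_lit 340) (nat_lit 291) (nat_lit 89)) (XT.nd (nat_lit 78) (nat_lit 0) (nat_lit 0) (XT.lf (nat_lit 0) (nat_lit 4807844482) (nat_lit 0) (nat_lit 4807844482) (nat_lit 684) (nat_lit 16366002222) (nat_lit 68) (nat_lit 5) (nat_lit 68) (nat_lit 3) (nat_lit 77) (nat_lit 3) (nat_lit 292) (nat_lit 292) (nat_lit 136)) (XT.lf (nat_lit 0) (nat_lit 19937235029) (nat_lit 684) (nat_lit 20727303422) (nat_lit 760) (nat_lit 12586595608) (nat_lit 68) (nat_lit 5) (nat_lit 77) (nat_lit 3) (nat_lit 78) (nat_lit 5) (nat_lit 293) (nat_lit 292) (nat_lit 135)))))) (XT.nd (nat_lit 312) (nat_lit 0) (nat_lit 152) (XT.nd (nat_lit 156) (nat_lit 0) (nat_lit 76) (XT.nd (nat_lit 78) (nat_lit 0) (nat_lit 76) (XT.lf (nat_lit 76) (nat_lit 1875713497) (nat_lit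 0) (nat_lit 18988189590) (nat_lit 760) (nat_lit 33730099408) (nat_lit 69) (nat_lit 5) (nat_lit 68) (nat_lit 5) (nat_lit 78) (nat_lit 5) (nat_lit 294) (nat_lit 292) (nat_lit 134)) (XT.lf (nat_lit 0) (nat_lit 22251239238) (nat_lit 684) (nat_lit 29723483335) (nat_lit 760) (nat_lit 4008579876) (nat_lit 69) (nat_lit 5) (nat_lit 78) (nat_lit 5) (nat_lit 79) (nat_lit 5) (nat_lit 295) (nat_lit 292) (nat_lit 133))) (XT.nd (nat_lit 78) (nat_lit 0) (nat_lit 0) (XT.lf (nat_lit 0) (nat_lit 24017949812) (nat_lit 684) (nat_lit 5891039276) (nat_lit 760) (nat_lit 27517582532) (nat_lit 69) (nat_lit 5) (nat_lit 78) (nat_lit 5) (nat_lit 79) (nat_lit 5) (nat_lit 296) (nat_lit 292) (nat_lit 132)) (XT.lf (nat_lit 76) (nat_lit 19764844402) (nat_lit 0) (nat_lit 6415522619) (nat_lit 760) (nat_lit 32746273055) (nat_lit 70) (nat_lit 5) (nat_lit 69) (nat_lit 5) (nat_lit 79) (nat_lit 5) (nat_lit 297) (nat_lit 292)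 (nat_lit 131)))) (XT.nd (nat_lit 156) (nat_lit 0) (nat_lit 76) (XT.nd (nat_lit 78) (nat_lit 0) (nat_lit 0) (XT.lf (nat_lit 0) (nat_lit 28836121251) (nat_lit 684) (nat_lit 13876125006) (nat_lit 760) (nat_lit 17770209064) (nat_lit 70) (nat_lit 5) (nat_lit 79) (nat_lit 5) (nat_lit 80) (nat_lit 5) (nat_lit 298) (nat_lit 292) (nat_lit 130)) (XT.lf (nat_lit 76) (nat_lit 12983409515) (nat_lit 0) (nat_lit 18948027413) (nat_lit 760) (nat_lit 30169289688) (nat_lit 71) (nat_lit 5) (nat_lit 70) (nat_lit 5) (nat_lit 80) (nat_lit 5) (nat_lit 299) (nat_lit 292) (nat_lit 129))) (XT.nd (nat_lit 78) (nat_lit 0) (nat_lit 0) (XT.lf (nat_lit 0) (nat_lit 35513053913) (nat_lit 684) (nat_lit 22218936999) (nat_lit 760) (nat_lit 6051347572) (nat_lit 71) (nat_lit 5) (nat_lit 80) (nat_lit 5) (nat_lit 81) (nat_lit 5) (nat_lit 300) (nat_lit 292) (nat_lit 128)) (XT.nd (nat_lit 78) (nat_lit 0) (nat_lit 0) (XT.lf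 (nat_lit 76) (nat_lit 5901828389) (nat_lit 0) (nat_lit 33773680023) (nat_lit 760) (nat_lit 25854488306) (nat_lit 72) (nat_lit 5) (nat_lit 71) (nat_lit 5) (nat_lit 81) (nat_lit 5) (nat_lit 301) (nat_lit 292) (nat_lit 127)) (XT.lf (nat_lit 76) (nat_lit 36199230679) (nat_lit 0) (nat_lit 8222168348) (nat_lit 760) (nat_lit 22923826600) (nat_lit 72) (nat_lit 5) (nat_lit 71) (nat_lit 5) (nat_lit 81) (nat_lit 5) (nat_lit 302) (nat_lit 292) (nat_lit 126))))))))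
noncomputable def xc239 : XT := (XT.nd (nat_lit 1404) (nat_lit 1368) (nat_lit 0) (XT.nd (nat_lit 702) (nat_lit 1064) (nat_lit 0) (XT.nd (nat_lit 312) (nat_lit 760) (nat_lit 0) (XT.nd (nat_lit 156) (nat_lit 304) (nat_lit 0) (XT.nd (nat_lit 78) (nat_lit 684) (nat_lit 0) (XT.lf (nat_lit 0) (nat_lit 49694164409) (nat_lit 684) (nat_lit 1531026403) (nat_lit 76) (nat_lit 18011549427) (nat_lit 72) (nat_lit 5) (nat_lit 81) (nat_lit 5) (nat_lit 73) (nat_lit 5) (nat_lit 303) (nat_lit 292) (nat_lit 125)) (XT.lf (nat_lit 0) (nat_lit 30402192023) (nat_lit 684) (nat_lit 25436947277) (nat_lit 760) (nat_lit 15353265834) (nat_lit 63) (nat_lit 5) (nat_lit 72) (nat_lit 5) (nat_lit 73) (nat_lit 5) (nat_lit 304) (nat_lit 292) (nat_lit 124))) (XT.nd (nat_lit 78) (nat_lit 304) (nat_lit 0) (XT.lf (nat_lit 0) (nat_lit 62342482569) (nat_lit 760) (nat_lit 9286176347) (nat_lit 76) (nat_lit 1614641342) (nat_lit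 63) (nat_lit 5) (nat_lit 73) (nat_lit 5) (nat_lit 64) (nat_lit 5) (nat_lit 305) (nat_lit 292) (nat_lit 123)) (XT.lf (nat_lit 0) (nat_lit 24148190754) (nat_lit 304) (nat_lit 45816012640) (nat_lit 380) (nat_lit 5392879050) (nat_lit 59) (nat_lit 5) (nat_lit 63) (nat_lit 5) (nat_lit 64) (nat_lit 5) (nat_lit 306) (nat_lit 292) (nat_lit 122)))) (XT.nd (nat_lit 156) (nat_lit 304) (nat_lit 0) (XT.nd (nat_lit 78) (nat_lit 380) (nat_lit 0) (XT.lf (nat_lit 0) (nat_lit 537005183) (nat_lit 380) (nat_lit 18001475301) (nat_lit 76) (nat_lit 59029818725) (nat_lit 58) (nat_lit 5) (nat_lit 63) (nat_lit 5) (nat_lit 59) (nat_lit 5) (nat_lit 307) (nat_lit 292) (nat_lit 121)) (XT.lf (nat_lit 0) (nat_lit 7015607208) (nat_lit 456) (nat_lit 62703899487) (nat_lit 76) (nat_lit 10144479180) (nat_lit 53) (nat_lit 5) (nat_lit 59) (nat_lit 5) (nat_lit 54) (nat_lit 5) (nat_lit 308) (nat_lit 292) (nat_lit 120))) (XT.nd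 (nat_lit 78) (nat_lit 304) (nat_lit 0) (XT.lf (nat_lit 0) (nat_lit 14431174825) (nat_lit 456) (nat_lit 27864196028) (nat_lit 76) (nat_lit 39948436571) (nat_lit 53) (nat_lit 5) (nat_lit 59) (nat_lit 5) (nat_lit 54) (nat_lit 5) (nat_lit 309) (nat_lit 292) (nat_lit 119)) (XT.nd (nat_lit 78) (nat_lit 0) (nat_lit 0) (XT.lf (nat_lit 0) (nat_lit 9004972932) (nat_lit 304) (nat_lit 13352440292) (nat_lit 380) (nat_lit 62378214420) (nat_lit 49) (nat_lit 5) (nat_lit 53) (nat_lit 5) (nat_lit 54) (nat_lit 5) (nat_lit 310) (nat_lit 292) (nat_lit 118)) (XT.lf (nat_lit 0) (nat_lit 31424919308) (nat_lit 380) (nat_lit 38917961619) (nat_lit 76) (nat_lit 16971912267) (nat_lit 49) (nat_lit 5) (nat_lit 54) (nat_lit 5) (nat_lit 50) (nat_lit 5) (nat_lit 311) (nat_lit 292) (nat_lit 117)))))) (XT.nd (nat_lit 312) (nat_lit 532) (nat_lit 0) (XT.nd (nat_lit 156) (nat_lit 228) (nat_lit 0) (XT.nd (nat_lit 78) (nat_lit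 304) (nat_lit 0) (XT.lf (nat_lit 0) (nat_lit 41164046400) (nat_lit 380) (nat_lit 484248729) (nat_lit 76) (nat_lit 48363711615) (nat_lit 49) (nat_lit 5) (nat_lit 54) (nat_lit 5) (nat_lit 50) (nat_lit 5) (nat_lit 312) (nat_lit 292) (nat_lit 116)) (XT.lf (nat_lit 0) (nat_lit 41188759337) (nat_lit 304) (nat_lit 10843826513) (nat_lit 380) (nat_lit 40779374233) (nat_lit 45) (nat_lit 5) (nat_lit 49) (nat_lit 5) (nat_lit 50) (nat_lit 5) (nat_lit 313) (nat_lit 292) (nat_lit 115))) (XT.nd (nat_lit 78) (nat_lit 228) (nat_lit 0) (XT.lf (nat_lit 0) (nat_lit 63787978026) (nat_lit 380) (nat_lit 11125801754) (nat_lit 76) (nat_lit 20820961842) (nat_lit 45) (nat_lit 5) (nat_lit 50) (nat_lit 5) (nat_lit 46) (nat_lit 5) (nat_lit 314) (nat_lit 292) (nat_lit 114)) (XT.lf (nat_lit 0) (nat_lit 32250234807) (nat_lit 228) (nat_lit 44561619252) (nat_lit 304) (nat_lit 21957774201) (nat_lit 42) (nat_lit 5) (nat_lit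 45) (nat_lit 5) (nat_lit 46) (nat_lit 5) (nat_lit 315) (nat_lit 292) (nat_lit 113)))) (XT.nd (nat_lit 156) (nat_lit 228) (nat_lit 0) (XT.nd (nat_lit 78) (nat_lit 304) (nat_lit 0) (XT.lf (nat_lit 0) (nat_lit 78180673125) (nat_lit 228) (nat_lit 12494118452) (nat_lit 304) (nat_lit 11272075920) (nat_lit 42) (nat_lit 5) (nat_lit 45) (nat_lit 5) (nat_lit 46) (nat_lit 5) (nat_lit 316) (nat_lit 292) (nat_lit 112)) (XT.lf (nat_lit 0) (nat_lit 625959669) (nat_lit 304) (nat_lit 83778890908) (nat_lit 76) (nat_lit 20844341027) (nat_lit 38) (nat_lit 5) (nat_lit 42) (nat_lit 5) (nat_lit 39) (nat_lit 5) (nat_lit 317) (nat_lit 292) (nat_lit 111))) (XT.nd (nat_lit 78) (nat_lit 228) (nat_lit 0) (XT.lf (nat_lit 0) (nat_lit 13353469972) (nat_lit 304) (nat_lit 39299651799) (nat_lit 76) (nat_lit 56023602734) (nat_lit 38) (nat_lit 5) (nat_lit 42) (nat_lit 5) (nat_lit 39) (nat_lit 5) (nat_lit 318) (nat_lit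 292) (nat_lit 110)) (XT.nd (nat_lit 78) (nat_lit 0) (nat_lit 0) (XT.lf (nat_lit 0) (nat_lit 7647689143) (nat_lit 228) (nat_lit 19188570179) (nat_lit 304) (nat_lit 85433430914) (nat_lit 35) (nat_lit 5) (nat_lit 38) (nat_lit 5) (nat_lit 39) (nat_lit 5) (nat_lit 319) (nat_lit 292) (nat_lit 109)) (XT.lf (nat_lit 0) (nat_lit 41918182894) (nat_lit 304) (nat_lit 57962803710) (nat_lit 76) (nat_lit 16115069204) (nat_lit 35) (nat_lit 5) (nat_lit 39) (nat_lit 5) (nat_lit 36) (nat_lit 5) (nat_lit 320) (nat_lit 292) (nat_lit 108))))))) (XT.nd (nat_lit 702) (nat_lit 532) (nat_lit 0) (XT.nd (nat_lit 312) (nat_lit 456) (nat_lit 0) (XT.nd (nat_lit 156) (nat_lit 152) (nat_lit 0) (XT.nd (nat_lit 78) (nat_lit 228) (nat_lit 0) (XT.lf (nat_lit 0) (nat_lit 58068306023) (nat_lit 304) (nat_lit 9285829415) (nat_lit 76) (nat_lit 52538900284) (nat_lit 35) (nat_lit 5) (nat_lit 39) (nat_lit 5) (nat_lit 36) (nat_lit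 5) (nat_lit 321) (nat_lit 292) (nat_lit 107)) (XT.lf (nat_lit 0) (nat_lit 43207310475) (nat_lit 228) (nat_lit 32492770757) (nat_lit 304) (nat_lit 48251077277) (nat_lit 32) (nat_lit 5) (nat_lit 35) (nat_lit 5) (nat_lit 36) (nat_lit 5) (nat_lit 322) (nat_lit 292) (nat_lit 106))) (XT.nd (nat_lit 78) (nat_lit 152) (nat_lit 0) (XT.lf (nat_lit 0) (nat_lit 94437046224) (nat_lit 304) (nat_lit 29624204340) (nat_lit 76) (nat_lit 4139757940) (nat_lit 32) (nat_lit 5) (nat_lit 36) (nat_lit 5) (nat_lit 33) (nat_lit 5) (nat_lit 323) (nat_lit 292) (nat_lit 105)) (XT.lf (nat_lit 0) (nat_lit 24295801308) (nat_lit 152) (nat_lit 90726641033) (nat_lit 228) (nat_lit 17595330577) (nat_lit 30) (nat_lit 5) (nat_lit 32) (nat_lit 5) (nat_lit 33) (nat_lit 5) (nat_lit 324) (nat_lit 292) (nat_lit 104)))) (XT.nd (nat_lit 156) (nat_lit 152) (nat_lit 0) (XT.nd (nat_lit 78) (nat_lit 304) (nat_lit 0) (XT.lf (nat_lit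 0) (nat_lit 81939732672) (nat_lit 152) (nat_lit 55198675614) (nat_lit 228) (nat_lit 91903280) (nat_lit 30) (nat_lit 5) (nat_lit 32) (nat_lit 5) (nat_lit 33) (nat_lit 5) (nat_lit 325) (nat_lit 292) (nat_lit 103)) (XT.lf (nat_lit 0) (nat_lit 109845496) (nat_lit 228) (nat_lit 17592888086) (nat_lit 304) (nat_lit 124356402822) (nat_lit 26) (nat_lit 5) (nat_lit 29) (nat_lit 5) (nat_lit 30) (nat_lit 5) (nat_lit 326) (nat_lit 292) (nat_lit 102))) (XT.nd (nat_lit 78) (nat_lit 152) (nat_lit 0) (XT.lf (nat_lit 0) (nat_lit 37677170098) (nat_lit 304) (nat_lit 87241955315) (nat_lit 76) (nat_lit 22145544799) (nat_lit 26) (nat_lit 5) (nat_lit 30) (nat_lit 5) (nat_lit 27) (nat_lit 5) (nat_lit 327) (nat_lit 292) (nat_lit 101)) (XT.nd (nat_lit 78) (nat_lit 152) (nat_lit 0) (XT.lf (nat_lit 0) (nat_lit 58938373821) (nat_lit 304) (nat_lit 30088190090) (nat_lit 76) (nat_lit 63279515364) (nat_lit 26) (nat_lit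 5) (nat_lit 30) (nat_lit 5) (nat_lit 27) (nat_lit 5) (nat_lit 328) (nat_lit 292) (nat_lit 100)) (XT.lf (nat_lit 0) (nat_lit 30912141009) (nat_lit 152) (nat_lit 50832776522) (nat_lit 228) (nat_lit 76040528065) (nat_lit 24) (nat_lit 5) (nat_lit 26) (nat_lit 5) (nat_lit 27) (nat_lit 5) (nat_lit 329) (nat_lit 292) (nat_lit 99)))))) (XT.nd (nat_lit 390) (nat_lit 152) (nat_lit 0) (XT.nd (nat_lit 156) (nat_lit 380) (nat_lit 0) (XT.nd (nat_lit 78) (nat_lit 0) (nat_lit 0) (XT.lf (nat_lit 0) (nat_lit 96006586861) (nat_lit 152) (nat_lit 10194422975) (nat_lit 228) (nat_lit 57312310082) (nat_lit 24) (nat_lit 5) (nat_lit 26) (nat_lit 5) (nat_lit 27) (nat_lit 5) (nat_lit 330) (nat_lit 292) (nat_lit 98)) (XT.lf (nat_lit 0) (nat_lit 132386622779) (nat_lit 228) (nat_lit 5679358552) (nat_lit 76) (nat_lit 31436271546) (nat_lit 24) (nat_lit 5) (nat_lit 27) (nat_lit 5) (nat_lit 25) (nat_lit 5) (nat_lit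 331) (nat_lit 292) (nat_lit 97))) (XT.nd (nat_lit 78) (nat_lit 228) (nat_lit 0) (XT.lf (nat_lit 0) (nat_lit 61024980036) (nat_lit 152) (nat_lit 99976121376) (nat_lit 228) (nat_lit 14733552505) (nat_lit 22) (nat_lit 5) (nat_lit 24) (nat_lit 5) (nat_lit 25) (nat_lit 5) (nat_lit 332) (nat_lit 292) (nat_lit 96)) (XT.nd (nat_lit 78) (nat_lit 152) (nat_lit 0) (XT.lf (nat_lit 0) (nat_lit 8584463910) (nat_lit 228) (nat_lit 51151086519) (nat_lit 76) (nat_lit 122531408149) (nat_lit 21) (nat_lit 5) (nat_lit 24) (nat_lit 5) (nat_lit 22) (nat_lit 5) (nat_lit 333) (nat_lit 292) (nat_lit 95)) (XT.lf (nat_lit 0) (nat_lit 15850775928) (nat_lit 152) (nat_lit 16969645201) (nat_lit 228) (nat_lit 156281022054) (nat_lit 19) (nat_lit 5) (nat_lit 21) (nat_lit 5) (nat_lit 22) (nat_lit 5) (nat_lit 334) (nat_lit 292) (nat_lit 94))))) (XT.nd (nat_lit 156) (nat_lit 152) (nat_lit 0) (XT.nd (nat_lit 78) (nat_lit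 0) (nat_lit 0) (XT.lf (nat_lit 0) (nat_lit 59584495996) (nat_lit 228) (nat_lit 108706544355) (nat_lit 76) (nat_lit 27920796243) (nat_lit 19) (nat_lit 5) (nat_lit 22) (nat_lit 5) (nat_lit 20) (nat_lit 5) (nat_lit 335) (nat_lit 292) (nat_lit 93)) (XT.lf (nat_lit 0) (nat_lit 87964692718) (nat_lit 228) (nat_lit 41213834462) (nat_lit 76) (nat_lit 74485327129) (nat_lit 19) (nat_lit 5) (nat_lit 22) (nat_lit 5) (nat_lit 20) (nat_lit 5) (nat_lit 336) (nat_lit 292) (nat_lit 92))) (XT.nd (nat_lit 78) (nat_lit 0) (nat_lit 0) (XT.lf (nat_lit 0) (nat_lit 30633568574) (nat_lit 152) (nat_lit 87608346755) (nat_lit 228) (nat_lit 93222657289) (nat_lit 17) (nat_lit 5) (nat_lit 19) (nat_lit 5) (nat_lit 20) (nat_lit 5) (nat_lit 337) (nat_lit 292) (nat_lit 91)) (XT.nd (nat_lit 34008) (nat_lit 0) (nat_lit 3876) (XT.lf (nat_lit 0) (nat_lit 107503791756) (nat_lit 152) (nat_lit 43226929848) (nat_lit 228) (nat_lit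 68889719599) (nat_lit 17) (nat_lit 5) (nat_lit 19) (nat_lit 5) (nat_lit 20) (nat_lit 5) (nat_lit 338) (nat_lit 292) (nat_lit 90)) (XT.lf (nat_lit 0) (nat_lit 5059095995) (nat_lit 0) (nat_lit 5059095995) (nat_lit 684) (nat_lit 17161419821) (nat_lit 68) (nat_lit 5) (nat_lit 68) (nat_lit 3) (nat_lit 77) (nat_lit 3) (nat_lit 293) (nat_lit 293) (nat_lit 134))))))))
noncomputable def xc240 : XT := (XT.nd (nat_lit 1404) (nat_lit 1748) (nat_lit 0) (XT.nd (nat_lit 702) (nat_lit 1444) (nat_lit 0) (XT.nd (nat_lit 312) (nat_lit 0) (nat_lit 76) (XT.nd (nat_lit 156) (nat_lit 0) (nat_lit 76) (XT.nd (nat_lit 78) (nat_lit 0) (nat_lit 0) (XT.lf (nat_lit 0) (nat_lit 20975142559) (nat_lit 684) (nat_lit 21740444275) (nat_lit 760) (nat_lit 13195903057) (nat_lit 68) (nat_lit 5) (nat_lit 77) (nat_lit 3) (nat_lit 78) (nat_lit 5) (nat_lit 294) (nat_lit 293) (nat_lit 133)) (XT.lf (nat_lit 76) (nat_lit 1992348904)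 (nat_lit 0) (nat_lit 19954197302) (nat_lit 760) (nat_lit 35375042508) (nat_lit 69) (nat_lit 5) (nat_lit 68) (nat_lit 5) (nat_lit 78) (nat_lit 5) (nat_lit 295) (nat_lit 293) (nat_lit 132))) (XT.nd (nat_lit 78) (nat_lit 0) (nat_lit 0) (XT.lf (nat_lit 0) (nat_lit 23401123886) (nat_lit 684) (nat_lit 31185635804) (nat_lit 760) (nat_lit 4193706978) (nat_lit 69) (nat_lit 5) (nat_lit 78) (nat_lit 5) (nat_lit 79) (nat_lit 5) (nat_lit 296) (nat_lit 293) (nat_lit 131)) (XT.lf (nat_lit 0) (nat_lit 25254392718) (nat_lit 684) (nat_lit 6162713432) (nat_lit 760) (nat_lit 28878888429) (nat_lit 69) (nat_lit 5) (nat_lit 78) (nat_lit 5) (nat_lit 79) (nat_lit 5) (nat_lit 297) (nat_lit 293) (nat_lit 130)))) (XT.nd (nat_lit 156) (nat_lit 0) (nat_lit 76) (XT.nd (nat_lit 78) (nat_lit 0) (nat_lit 76) (XT.lf (nat_lit 76) (nat_lit 20775595433) (nat_lit 0) (nat_lit 6747994142) (nat_lit 760) (nat_lit 34347550057)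 (nat_lit 70) (nat_lit 5) (nat_lit 69) (nat_lit 5) (nat_lit 79) (nat_lit 5) (nat_lit 298) (nat_lit 293) (nat_lit 129)) (XT.lf (nat_lit 0) (nat_lit 30310328842) (nat_lit 684) (nat_lit 14546575202) (nat_lit 760) (nat_lit 18647937549) (nat_lit 70) (nat_lit 5) (nat_lit 79) (nat_lit 5) (nat_lit 80) (nat_lit 5) (nat_lit 299) (nat_lit 293) (nat_lit 128))) (XT.nd (nat_lit 78) (nat_lit 0) (nat_lit 76) (XT.lf (nat_lit 76) (nat_lit 13655559335) (nat_lit 0) (nat_lit 19903666810) (nat_lit 760) (nat_lit 31644865060) (nat_lit 71) (nat_lit 5) (nat_lit 70) (nat_lit 5) (nat_lit 80) (nat_lit 5) (nat_lit 300) (nat_lit 293) (nat_lit 127)) (XT.nd (nat_lit 78) (nat_lit 0) (nat_lit 0) (XT.lf (nat_lit 0) (nat_lit 37318314943) (nat_lit 684) (nat_lit 23306284130) (nat_lit 760) (nat_lit 6346320325) (nat_lit 71) (nat_lit 5) (nat_lit 80) (nat_lit 5) (nat_lit 81) (nat_lit 5) (nat_lit 301) (nat_lit 293) (nat_lit 126))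 (XT.lf (nat_lit 76) (nat_lit 6220138887) (nat_lit 0) (nat_lit 35467705874) (nat_lit 760) (nat_lit 27117123180) (nat_lit 72) (nat_lit 5) (nat_lit 71) (nat_lit 5) (nat_lit 81) (nat_lit 5) (nat_lit 302) (nat_lit 293) (nat_lit 125)))))) (XT.nd (nat_lit 312) (nat_lit 1064) (nat_lit 0) (XT.nd (nat_lit 156) (nat_lit 608) (nat_lit 0) (XT.nd (nat_lit 78) (nat_lit 0) (nat_lit 76) (XT.lf (nat_lit 76) (nat_lit 38031305622) (nat_lit 0) (nat_lit 8638364242) (nat_lit 760) (nat_lit 24041361224) (nat_lit 72) (nat_lit 5) (nat_lit 71) (nat_lit 5) (nat_lit 81) (nat_lit 5) (nat_lit 303) (nat_lit 293) (nat_lit 124)) (XT.lf (nat_lit 0) (nat_lit 52204702587) (nat_lit 684) (nat_lit 1585055190) (nat_lit 76) (nat_lit 18907436760) (nat_lit 72) (nat_lit 5) (nat_lit 81) (nat_lit 5) (nat_lit 73) (nat_lit 5) (nat_lit 304) (nat_lit 293) (nat_lit 123))) (XT.nd (nat_lit 78) (nat_lit 0) (nat_lit 0) (XT.lf (nat_lit 0)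 (nat_lit 31944460891) (nat_lit 684) (nat_lit 26711581301) (nat_lit 760) (nat_lit 16094649029) (nat_lit 63) (nat_lit 5) (nat_lit 72) (nat_lit 5) (nat_lit 73) (nat_lit 5) (nat_lit 305) (nat_lit 293) (nat_lit 122)) (XT.lf (nat_lit 0) (nat_lit 65483323288) (nat_lit 760) (nat_lit 9728069028) (nat_lit 76) (nat_lit 1692804390) (nat_lit 63) (nat_lit 5) (nat_lit 73) (nat_lit 5) (nat_lit 64) (nat_lit 5) (nat_lit 306) (nat_lit 293) (nat_lit 121)))) (XT.nd (nat_lit 156) (nat_lit 684) (nat_lit 0) (XT.nd (nat_lit 78) (nat_lit 76) (nat_lit 0) (XT.lf (nat_lit 0) (nat_lit 25377654878) (nat_lit 304) (nat_lit 48107690249) (nat_lit 380) (nat_lit 5638366065) (nat_lit 59) (nat_lit 5) (nat_lit 63) (nat_lit 5) (nat_lit 64) (nat_lit 5) (nat_lit 307) (nat_lit 293) (nat_lit 120)) (XT.lf (nat_lit 0) (nat_lit 586125693) (nat_lit 380) (nat_lit 18879736872) (nat_lit 76) (nat_lit 61979666620) (nat_lit 58) (nat_lit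 5) (nat_lit 63) (nat_lit 5) (nat_lit 59) (nat_lit 5) (nat_lit 308) (nat_lit 293) (nat_lit 119))) (XT.nd (nat_lit 78) (nat_lit 304) (nat_lit 0) (XT.lf (nat_lit 0) (nat_lit 7387931071) (nat_lit 456) (nat_lit 65816487451) (nat_lit 76) (nat_lit 10651621405) (nat_lit 53) (nat_lit 5) (nat_lit 59) (nat_lit 5) (nat_lit 54) (nat_lit 5) (nat_lit 309) (nat_lit 293) (nat_lit 118)) (XT.nd (nat_lit 78) (nat_lit 304) (nat_lit 0) (XT.lf (nat_lit 0) (nat_lit 15173251188) (nat_lit 456) (nat_lit 29235875343) (nat_lit 76) (nat_lit 41945780558) (nat_lit 53) (nat_lit 5) (nat_lit 59) (nat_lit 5) (nat_lit 54) (nat_lit 5) (nat_lit 310) (nat_lit 293) (nat_lit 117)) (XT.lf (nat_lit 0) (nat_lit 9476404799) (nat_lit 304) (nat_lit 14018750407) (nat_lit 380) (nat_lit 65476198515) (nat_lit 49) (nat_lit 5) (nat_lit 53) (nat_lit 5) (nat_lit 54) (nat_lit 5) (nat_lit 311) (nat_lit 293) (nat_lit 116))))))) (XT.nd (nat_lit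 702) (nat_lit 684) (nat_lit 0) (XT.nd (nat_lit 312) (nat_lit 760) (nat_lit 0) (XT.nd (nat_lit 156) (nat_lit 304) (nat_lit 0) (XT.nd (nat_lit 78) (nat_lit 0) (nat_lit 0) (XT.lf (nat_lit 0) (nat_lit 33015109848) (nat_lit 380) (nat_lit 40842699659) (nat_lit 76) (nat_lit 17821717319) (nat_lit 49) (nat_lit 5) (nat_lit 54) (nat_lit 5) (nat_lit 50) (nat_lit 5) (nat_lit 312) (nat_lit 293) (nat_lit 115)) (XT.lf (nat_lit 0) (nat_lit 43240291172) (nat_lit 380) (nat_lit 488308746) (nat_lit 76) (nat_lit 50783049042) (nat_lit 49) (nat_lit 5) (nat_lit 54) (nat_lit 5) (nat_lit 50) (nat_lit 5) (nat_lit 313) (nat_lit 293) (nat_lit 114))) (XT.nd (nat_lit 78) (nat_lit 0) (nat_lit 0) (XT.lf (nat_lit 0) (nat_lit 43268024685) (nat_lit 304) (nat_lit 11383683306) (nat_lit 380) (nat_lit 42799922122) (nat_lit 45) (nat_lit 5) (nat_lit 49) (nat_lit 5) (nat_lit 50) (nat_lit 5) (nat_lit 314) (nat_lit 293) (nat_lit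 113)) (XT.lf (nat_lit 0) (nat_lit 66994071496) (nat_lit 380) (nat_lit 11662359550) (nat_lit 76) (nat_lit 21864162136) (nat_lit 45) (nat_lit 5) (nat_lit 50) (nat_lit 5) (nat_lit 46) (nat_lit 5) (nat_lit 315) (nat_lit 293) (nat_lit 112)))) (XT.nd (nat_lit 156) (nat_lit 532) (nat_lit 0) (XT.nd (nat_lit 78) (nat_lit 0) (nat_lit 0) (XT.lf (nat_lit 0) (nat_lit 33882160577) (nat_lit 228) (nat_lit 46786488881) (nat_lit 304) (nat_lit 23038601705) (nat_lit 42) (nat_lit 5) (nat_lit 45) (nat_lit 5) (nat_lit 46) (nat_lit 5) (nat_lit 316) (nat_lit 293) (nat_lit 111)) (XT.lf (nat_lit 0) (nat_lit 82108196333) (nat_lit 228) (nat_lit 13115765962) (nat_lit 304) (nat_lit 11819430948) (nat_lit 42) (nat_lit 5) (nat_lit 45) (nat_lit 5) (nat_lit 46) (nat_lit 5) (nat_lit 317) (nat_lit 293) (nat_lit 110))) (XT.nd (nat_lit 78) (nat_lit 228) (nat_lit 0) (XT.lf (nat_lit 0) (nat_lit 672584287) (nat_lit 304) (nat_lit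 87948338105) (nat_lit 76) (nat_lit 21889920672) (nat_lit 38) (nat_lit 5) (nat_lit 42) (nat_lit 5) (nat_lit 39) (nat_lit 5) (nat_lit 318) (nat_lit 293) (nat_lit 109)) (XT.nd (nat_lit 78) (nat_lit 228) (nat_lit 0) (XT.lf (nat_lit 0) (nat_lit 14035740266) (nat_lit 304) (nat_lit 41246065486) (nat_lit 76) (nat_lit 58827985342) (nat_lit 38) (nat_lit 5) (nat_lit 42) (nat_lit 5) (nat_lit 39) (nat_lit 5) (nat_lit 319) (nat_lit 293) (nat_lit 108)) (XT.lf (nat_lit 0) (nat_lit 8048343005) (nat_lit 228) (nat_lit 20143916229) (nat_lit 304) (nat_lit 89690168263) (nat_lit 35) (nat_lit 5) (nat_lit 38) (nat_lit 5) (nat_lit 39) (nat_lit 5) (nat_lit 320) (nat_lit 293) (nat_lit 107)))))) (XT.nd (nat_lit 312) (nat_lit 456) (nat_lit 0) (XT.nd (nat_lit 156) (nat_lit 228) (nat_lit 0) (XT.nd (nat_lit 78) (nat_lit 0) (nat_lit 0) (XT.lf (nat_lit 0) (nat_lit 44027664119) (nat_lit 304) (nat_lit 60842893499) (nat_lit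 76) (nat_lit 16924586278) (nat_lit 35) (nat_lit 5) (nat_lit 39) (nat_lit 5) (nat_lit 36) (nat_lit 5) (nat_lit 321) (nat_lit 293) (nat_lit 106)) (XT.lf (nat_lit 0) (nat_lit 60984647116) (nat_lit 304) (nat_lit 9732930033) (nat_lit 76) (nat_lit 55169429692) (nat_lit 35) (nat_lit 5) (nat_lit 39) (nat_lit 5) (nat_lit 36) (nat_lit 5) (nat_lit 322) (nat_lit 293) (nat_lit 105))) (XT.nd (nat_lit 78) (nat_lit 0) (nat_lit 0) (XT.lf (nat_lit 0) (nat_lit 45384589580) (nat_lit 228) (nat_lit 34113070059) (nat_lit 304) (nat_lit 50650395337) (nat_lit 32) (nat_lit 5) (nat_lit 35) (nat_lit 5) (nat_lit 36) (nat_lit 5) (nat_lit 323) (nat_lit 293) (nat_lit 104)) (XT.lf (nat_lit 0) (nat_lit 99170938624) (nat_lit 304) (nat_lit 31088740945) (nat_lit 76) (nat_lit 4350746173) (nat_lit 32) (nat_lit 5) (nat_lit 36) (nat_lit 5) (nat_lit 33) (nat_lit 5) (nat_lit 324) (nat_lit 293) (nat_lit 103)))) (XT.nd (nat_lit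 156) (nat_lit 304) (nat_lit 0) (XT.nd (nat_lit 78) (nat_lit 0) (nat_lit 0) (XT.lf (nat_lit 0) (nat_lit 25526996056) (nat_lit 152) (nat_lit 95258291277) (nat_lit 228) (nat_lit 18462758390) (nat_lit 30) (nat_lit 5) (nat_lit 32) (nat_lit 5) (nat_lit 33) (nat_lit 5) (nat_lit 325) (nat_lit 293) (nat_lit 102)) (XT.lf (nat_lit 0) (nat_lit 86052342813) (nat_lit 152) (nat_lit 57954150529) (nat_lit 228) (nat_lit 84747286) (nat_lit 30) (nat_lit 5) (nat_lit 32) (nat_lit 5) (nat_lit 33) (nat_lit 5) (nat_lit 326) (nat_lit 293) (nat_lit 101))) (XT.nd (nat_lit 78) (nat_lit 0) (nat_lit 0) (XT.lf (nat_lit 0) (nat_lit 131105832) (nat_lit 228) (nat_lit 18467843991) (nat_lit 304) (nat_lit 130562563769) (nat_lit 26) (nat_lit 5) (nat_lit 29) (nat_lit 5) (nat_lit 30) (nat_lit 5) (nat_lit 327) (nat_lit 293) (nat_lit 100)) (XT.nd (nat_lit 78) (nat_lit 0) (nat_lit 0) (XT.lf (nat_lit 0) (nat_lit 39571650282)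 (nat_lit 304) (nat_lit 91588553564) (nat_lit 76) (nat_lit 23257144361) (nat_lit 26) (nat_lit 5) (nat_lit 30) (nat_lit 5) (nat_lit 27) (nat_lit 5) (nat_lit 328) (nat_lit 293) (nat_lit 99)) (XT.lf (nat_lit 0) (nat_lit 61895408397) (nat_lit 304) (nat_lit 31577838149) (nat_lit 76) (nat_lit 66447607629) (nat_lit 26) (nat_lit 5) (nat_lit 30) (nat_lit 5) (nat_lit 27) (nat_lit 5) (nat_lit 329) (nat_lit 293) (nat_lit 98))))))))
noncomputable def xc241 : XT := (XT.nd (nat_lit 35412) (nat_lit 0) (nat_lit 1596) (XT.nd (nat_lit 34710) (nat_lit 0) (nat_lit 3876) (XT.nd (nat_lit 312) (nat_lit 380) (nat_lit 0) (XT.nd (nat_lit 156) (nat_lit 152) (nat_lit 0) (XT.nd (nat_lit 78) (nat_lit 0) (nat_lit 0) (XT.lf (nat_lit 0) (nat_lit 32472271416) (nat_lit 152) (nat_lit 53369752917) (nat_lit 228) (nat_lit 79832178335) (nat_lit 24) (nat_lit 5) (nat_lit 26) (nat_lit 5) (nat_lit 27) (nat_lit 5) (nat_lit 330)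 (nat_lit 293) (nat_lit 97)) (XT.lf (nat_lit 0) (nat_lit 100820747973) (nat_lit 152) (nat_lit 10699703714) (nat_lit 228) (nat_lit 60168043555) (nat_lit 24) (nat_lit 5) (nat_lit 26) (nat_lit 5) (nat_lit 27) (nat_lit 5) (nat_lit 331) (nat_lit 293) (nat_lit 96))) (XT.nd (nat_lit 78) (nat_lit 152) (nat_lit 0) (XT.lf (nat_lit 0) (nat_lit 139014964094) (nat_lit 228) (nat_lit 5949752085) (nat_lit 76) (nat_lit 33012178733) (nat_lit 24) (nat_lit 5) (nat_lit 27) (nat_lit 5) (nat_lit 25) (nat_lit 5) (nat_lit 332) (nat_lit 293) (nat_lit 95)) (XT.lf (nat_lit 0) (nat_lit 64089584491) (nat_lit 152) (nat_lit 104970361629) (nat_lit 228) (nat_lit 15460981869) (nat_lit 22) (nat_lit 5) (nat_lit 24) (nat_lit 5) (nat_lit 25) (nat_lit 5) (nat_lit 333) (nat_lit 293) (nat_lit 94)))) (XT.nd (nat_lit 156) (nat_lit 152) (nat_lit 0) (XT.nd (nat_lit 78) (nat_lit 152) (nat_lit 0) (XT.lf (nat_lit 0) (nat_lit 9022213067)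 (nat_lit 228) (nat_lit 53695622096) (nat_lit 76) (nat_lit 128662027682) (nat_lit 21) (nat_lit 5) (nat_lit 24) (nat_lit 5) (nat_lit 22) (nat_lit 5) (nat_lit 334) (nat_lit 293) (nat_lit 93)) (XT.lf (nat_lit 0) (nat_lit 16656123494) (nat_lit 152) (nat_lit 17813638636) (nat_lit 228) (nat_lit 164086320679) (nat_lit 19) (nat_lit 5) (nat_lit 21) (nat_lit 5) (nat_lit 22) (nat_lit 5) (nat_lit 335) (nat_lit 293) (nat_lit 92))) (XT.nd (nat_lit 78) (nat_lit 152) (nat_lit 0) (XT.lf (nat_lit 0) (nat_lit 62571711298) (nat_lit 228) (nat_lit 114129327554) (nat_lit 76) (nat_lit 29320974299) (nat_lit 19) (nat_lit 5) (nat_lit 22) (nat_lit 5) (nat_lit 20) (nat_lit 5) (nat_lit 336) (nat_lit 293) (nat_lit 91)) (XT.nd (nat_lit 78) (nat_lit 152) (nat_lit 0) (XT.lf (nat_lit 0) (nat_lit 92370537356) (nat_lit 228) (nat_lit 43262579500) (nat_lit 76) (nat_lit 78213534669) (nat_lit 19) (nat_lit 5) (nat_lit 22) (nat_lit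 5) (nat_lit 20) (nat_lit 5) (nat_lit 337) (nat_lit 293) (nat_lit 90)) (XT.lf (nat_lit 0) (nat_lit 32177001000) (nat_lit 152) (nat_lit 91984441230) (nat_lit 228) (nat_lit 97875973178) (nat_lit 17) (nat_lit 5) (nat_lit 19) (nat_lit 5) (nat_lit 20) (nat_lit 5) (nat_lit 338) (nat_lit 293) (nat_lit 89)))))) (XT.nd (nat_lit 312) (nat_lit 0) (nat_lit 76) (XT.nd (nat_lit 156) (nat_lit 0) (nat_lit 0) (XT.nd (nat_lit 78) (nat_lit 0) (nat_lit 0) (XT.lf (nat_lit 0) (nat_lit 5321900490) (nat_lit 0) (nat_lit 5321900490) (nat_lit 684) (nat_lit 17998735699) (nat_lit 68) (nat_lit 5) (nat_lit 68) (nat_lit 3) (nat_lit 77) (nat_lit 3) (nat_lit 294) (nat_lit 294) (nat_lit 132)) (XT.lf (nat_lit 0) (nat_lit 22061129418) (nat_lit 684) (nat_lit 22806401347) (nat_lit 760) (nat_lit 13837537366) (nat_lit 68) (nat_lit 5) (nat_lit 77) (nat_lit 3) (nat_lit 78) (nat_lit 5) (nat_lit 295) (nat_lit 294) (nat_lit 131)))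 (XT.nd (nat_lit 78) (nat_lit 0) (nat_lit 76) (XT.lf (nat_lit 76) (nat_lit 2112691731) (nat_lit 0) (nat_lit 20966962254) (nat_lit 760) (nat_lit 37106096791) (nat_lit 69) (nat_lit 5) (nat_lit 68) (nat_lit 5) (nat_lit 78) (nat_lit 5) (nat_lit 296) (nat_lit 294) (nat_lit 130)) (XT.lf (nat_lit 0) (nat_lit 24605032857) (nat_lit 684) (nat_lit 32723129206) (nat_lit 760) (nat_lit 4389513061) (nat_lit 69) (nat_lit 5) (nat_lit 78) (nat_lit 5) (nat_lit 79) (nat_lit 5) (nat_lit 297) (nat_lit 294) (nat_lit 129)))) (XT.nd (nat_lit 156) (nat_lit 0) (nat_lit 76) (XT.nd (nat_lit 78) (nat_lit 0) (nat_lit 0) (XT.lf (nat_lit 0) (nat_lit 26549353094) (nat_lit 684) (nat_lit 6450098258) (nat_lit 760) (nat_lit 30309614502) (nat_lit 69) (nat_lit 5) (nat_lit 78) (nat_lit 5) (nat_lit 79) (nat_lit 5) (nat_lit 298) (nat_lit 294) (nat_lit 128)) (XT.lf (nat_lit 76) (nat_lit 21834791359) (nat_lit 0) (nat_lit 7096001914)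 (nat_lit 760) (nat_lit 36032241254) (nat_lit 70) (nat_lit 5) (nat_lit 69) (nat_lit 5) (nat_lit 79) (nat_lit 5) (nat_lit 299) (nat_lit 294) (nat_lit 127))) (XT.nd (nat_lit 78) (nat_lit 0) (nat_lit 0) (XT.lf (nat_lit 0) (nat_lit 31855234425) (nat_lit 684) (nat_lit 15252719332) (nat_lit 760) (nat_lit 19570554864) (nat_lit 70) (nat_lit 5) (nat_lit 79) (nat_lit 5) (nat_lit 80) (nat_lit 5) (nat_lit 300) (nat_lit 294) (nat_lit 126)) (XT.nd (nat_lit 78) (nat_lit 0) (nat_lit 76) (XT.lf (nat_lit 76) (nat_lit 14359180244) (nat_lit 0) (nat_lit 20906322283) (nat_lit 760) (nat_lit 33197276918) (nat_lit 71) (nat_lit 5) (nat_lit 70) (nat_lit 5) (nat_lit 80) (nat_lit 5) (nat_lit 301) (nat_lit 294) (nat_lit 125)) (XT.lf (nat_lit 0) (nat_lit 39211086323) (nat_lit 684) (nat_lit 24450192695) (nat_lit 760) (nat_lit 6656747791) (nat_lit 71) (nat_lit 5) (nat_lit 80) (nat_lit 5) (nat_lit 81) (nat_lit 5) (nat_lit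 302) (nat_lit 294) (nat_lit 124))))))) (XT.nd (nat_lit 702) (nat_lit 1140) (nat_lit 0) (XT.nd (nat_lit 312) (nat_lit 760) (nat_lit 0) (XT.nd (nat_lit 156) (nat_lit 608) (nat_lit 0) (XT.nd (nat_lit 78) (nat_lit 0) (nat_lit 0) (XT.lf (nat_lit 76) (nat_lit 6552206221) (nat_lit 0) (nat_lit 37245936383) (nat_lit 760) (nat_lit 28445687238) (nat_lit 72) (nat_lit 5) (nat_lit 71) (nat_lit 5) (nat_lit 81) (nat_lit 5) (nat_lit 303) (nat_lit 294) (nat_lit 123)) (XT.lf (nat_lit 76) (nat_lit 39952928416) (nat_lit 0) (nat_lit 9074896945) (nat_lit 760) (nat_lit 25217436807) (nat_lit 72) (nat_lit 5) (nat_lit 71) (nat_lit 5) (nat_lit 81) (nat_lit 5) (nat_lit 304) (nat_lit 294) (nat_lit 122))) (XT.nd (nat_lit 78) (nat_lit 684) (nat_lit 0) (XT.lf (nat_lit 0) (nat_lit 54838366249) (nat_lit 684) (nat_lit 1643879348) (nat_lit 76) (nat_lit 19848554505) (nat_lit 72) (nat_lit 5) (nat_lit 81) (nat_lit 5) (nat_lit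 73) (nat_lit 5) (nat_lit 305) (nat_lit 294) (nat_lit 121)) (XT.lf (nat_lit 0) (nat_lit 33561783044) (nat_lit 684) (nat_lit 28049687950) (nat_lit 760) (nat_lit 16875544659) (nat_lit 63) (nat_lit 5) (nat_lit 72) (nat_lit 5) (nat_lit 73) (nat_lit 5) (nat_lit 306) (nat_lit 294) (nat_lit 120)))) (XT.nd (nat_lit 156) (nat_lit 456) (nat_lit 0) (XT.nd (nat_lit 78) (nat_lit 304) (nat_lit 0) (XT.lf (nat_lit 0) (nat_lit 68779001099) (nat_lit 760) (nat_lit 10194140383) (nat_lit 76) (nat_lit 1775114434) (nat_lit 63) (nat_lit 5) (nat_lit 73) (nat_lit 5) (nat_lit 64) (nat_lit 5) (nat_lit 307) (nat_lit 294) (nat_lit 119)) (XT.lf (nat_lit 0) (nat_lit 26666541781) (nat_lit 304) (nat_lit 50513870205) (nat_lit 380) (nat_lit 5898373314) (nat_lit 59) (nat_lit 5) (nat_lit 63) (nat_lit 5) (nat_lit 64) (nat_lit 5) (nat_lit 308) (nat_lit 294) (nat_lit 118))) (XT.nd (nat_lit 78) (nat_lit 380) (nat_lit 0) (XT.lf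 (nat_lit 0) (nat_lit 635631753) (nat_lit 380) (nat_lit 19803939414) (nat_lit 76) (nat_lit 65077159664) (nat_lit 58) (nat_lit 5) (nat_lit 63) (nat_lit 5) (nat_lit 59) (nat_lit 5) (nat_lit 309) (nat_lit 294) (nat_lit 117)) (XT.nd (nat_lit 78) (nat_lit 0) (nat_lit 0) (XT.lf (nat_lit 0) (nat_lit 7776868216) (nat_lit 456) (nat_lit 69086806599) (nat_lit 76) (nat_lit 11184128340) (nat_lit 53) (nat_lit 5) (nat_lit 59) (nat_lit 5) (nat_lit 54) (nat_lit 5) (nat_lit 310) (nat_lit 294) (nat_lit 116)) (XT.lf (nat_lit 0) (nat_lit 15950523834) (nat_lit 456) (nat_lit 30678140325) (nat_lit 76) (nat_lit 44042998981) (nat_lit 53) (nat_lit 5) (nat_lit 59) (nat_lit 5) (nat_lit 54) (nat_lit 5) (nat_lit 311) (nat_lit 294) (nat_lit 115)))))) (XT.nd (nat_lit 312) (nat_lit 532) (nat_lit 0) (XT.nd (nat_lit 156) (nat_lit 304) (nat_lit 0) (XT.nd (nat_lit 78) (nat_lit 0) (nat_lit 0) (XT.lf (nat_lit 0) (nat_lit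 9969438844) (nat_lit 304) (nat_lit 14718497996) (nat_lit 380) (nat_lit 68731027374) (nat_lit 49) (nat_lit 5) (nat_lit 53) (nat_lit 5) (nat_lit 54) (nat_lit 5) (nat_lit 312) (nat_lit 294) (nat_lit 114)) (XT.lf (nat_lit 0) (nat_lit 34683048628) (nat_lit 380) (nat_lit 42865641861) (nat_lit 76) (nat_lit 18713900181) (nat_lit 49) (nat_lit 5) (nat_lit 54) (nat_lit 5) (nat_lit 50) (nat_lit 5) (nat_lit 313) (nat_lit 294) (nat_lit 113))) (XT.nd (nat_lit 78) (nat_lit 304) (nat_lit 0) (XT.lf (nat_lit 0) (nat_lit 45418670767) (nat_lit 380) (nat_lit 494445344) (nat_lit 76) (nat_lit 53323246252) (nat_lit 49) (nat_lit 5) (nat_lit 54) (nat_lit 5) (nat_lit 50) (nat_lit 5) (nat_lit 314) (nat_lit 294) (nat_lit 112)) (XT.lf (nat_lit 0) (nat_lit 45449409938) (nat_lit 304) (nat_lit 11950749982) (nat_lit 380) (nat_lit 44923209998) (nat_lit 45) (nat_lit 5) (nat_lit 49) (nat_lit 5) (nat_lit 50) (nat_lit 5)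 (nat_lit 315) (nat_lit 294) (nat_lit 111)))) (XT.nd (nat_lit 156) (nat_lit 304) (nat_lit 0) (XT.nd (nat_lit 78) (nat_lit 228) (nat_lit 0) (XT.lf (nat_lit 0) (nat_lit 70358917536) (nat_lit 380) (nat_lit 12227579756) (nat_lit 76) (nat_lit 22959322354) (nat_lit 45) (nat_lit 5) (nat_lit 50) (nat_lit 5) (nat_lit 46) (nat_lit 5) (nat_lit 316) (nat_lit 294) (nat_lit 110)) (XT.lf (nat_lit 0) (nat_lit 35593877703) (nat_lit 228) (nat_lit 49122900552) (nat_lit 304) (nat_lit 24175056774) (nat_lit 42) (nat_lit 5) (nat_lit 45) (nat_lit 5) (nat_lit 46) (nat_lit 5) (nat_lit 317) (nat_lit 294) (nat_lit 109))) (XT.nd (nat_lit 78) (nat_lit 304) (nat_lit 0) (XT.lf (nat_lit 0) (nat_lit 86230376718) (nat_lit 228) (nat_lit 13768780190) (nat_lit 304) (nat_lit 12395664385) (nat_lit 42) (nat_lit 5) (nat_lit 45) (nat_lit 5) (nat_lit 46) (nat_lit 5) (nat_lit 318) (nat_lit 294) (nat_lit 108)) (XT.nd (nat_lit 78)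 (nat_lit 0) (nat_lit 0) (XT.lf (nat_lit 0) (nat_lit 720115212) (nat_lit 304) (nat_lit 92328070340) (nat_lit 76) (nat_lit 22987466678) (nat_lit 38) (nat_lit 5) (nat_lit 42) (nat_lit 5) (nat_lit 39) (nat_lit 5) (nat_lit 319) (nat_lit 294) (nat_lit 107)) (XT.lf (nat_lit 0) (nat_lit 14750767003) (nat_lit 304) (nat_lit 43291526217) (nat_lit 76) (nat_lit 61772289344) (nat_lit 38) (nat_lit 5) (nat_lit 42) (nat_lit 5) (nat_lit 39) (nat_lit 5) (nat_lit 320) (nat_lit 294) (nat_lit 106))))))))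
noncomputable def xc242 : XT := (XT.nd (nat_lit 35568) (nat_lit 0) (nat_lit 2280) (XT.nd (nat_lit 702) (nat_lit 532) (nat_lit 0) (XT.nd (nat_lit 312) (nat_lit 456) (nat_lit 0) (XT.nd (nat_lit 156) (nat_lit 228) (nat_lit 0) (XT.nd (nat_lit 78) (nat_lit 0) (nat_lit 0) (XT.lf (nat_lit 0) (nat_lit 8467331044) (nat_lit 228) (nat_lit 21147409131) (nat_lit 304) (nat_lit 94161130920) (nat_lit 35) (nat_lit 5) (nat_lit 38) (nat_lit 5) (nat_lit 39) (nat_lit 5) (nat_lit 321) (nat_lit 294) (nat_lit 105)) (XT.lf (nat_lit 0) (nat_lit 46241357603) (nat_lit 304) (nat_lit 63868665933) (nat_lit 76) (nat_lit 17774229300) (nat_lit 35) (nat_lit 5) (nat_lit 39) (nat_lit 5) (nat_lit 36) (nat_lit 5) (nat_lit 322) (nat_lit 294) (nat_lit 104))) (XT.nd (nat_lit 78) (nat_lit 228) (nat_lit 0) (XT.lf (nat_lit 0) (nat_lit 64045603545) (nat_lit 304) (nat_lit 10203983923) (nat_lit 76) (nat_lit 57931152328) (nat_lit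 35) (nat_lit 5) (nat_lit 39) (nat_lit 5) (nat_lit 36) (nat_lit 5) (nat_lit 323) (nat_lit 294) (nat_lit 103)) (XT.lf (nat_lit 0) (nat_lit 47669160177) (nat_lit 228) (nat_lit 35814787748) (nat_lit 304) (nat_lit 53170909839) (nat_lit 32) (nat_lit 5) (nat_lit 35) (nat_lit 5) (nat_lit 36) (nat_lit 5) (nat_lit 324) (nat_lit 294) (nat_lit 102)))) (XT.nd (nat_lit 156) (nat_lit 304) (nat_lit 0) (XT.nd (nat_lit 78) (nat_lit 152) (nat_lit 0) (XT.lf (nat_lit 0) (nat_lit 104140406271) (nat_lit 304) (nat_lit 32628054535) (nat_lit 76) (nat_lit 4571911904) (nat_lit 32) (nat_lit 5) (nat_lit 36) (nat_lit 5) (nat_lit 33) (nat_lit 5) (nat_lit 325) (nat_lit 294) (nat_lit 101)) (XT.lf (nat_lit 0) (nat_lit 26818225390) (nat_lit 152) (nat_lit 100016959302) (nat_lit 228) (nat_lit 19374704730) (nat_lit 30) (nat_lit 5) (nat_lit 32) (nat_lit 5) (nat_lit 33) (nat_lit 5) (nat_lit 326) (nat_lit 294) (nat_lit 100)))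 (XT.nd (nat_lit 78) (nat_lit 304) (nat_lit 0) (XT.lf (nat_lit 0) (nat_lit 90369130935) (nat_lit 152) (nat_lit 60847813734) (nat_lit 228) (nat_lit 78326004) (nat_lit 30) (nat_lit 5) (nat_lit 32) (nat_lit 5) (nat_lit 33) (nat_lit 5) (nat_lit 327) (nat_lit 294) (nat_lit 99)) (XT.nd (nat_lit 78) (nat_lit 0) (nat_lit 0) (XT.lf (nat_lit 0) (nat_lit 151963220) (nat_lit 228) (nat_lit 19386983584) (nat_lit 304) (nat_lit 137080116725) (nat_lit 26) (nat_lit 5) (nat_lit 29) (nat_lit 5) (nat_lit 30) (nat_lit 5) (nat_lit 328) (nat_lit 294) (nat_lit 98)) (XT.lf (nat_lit 0) (nat_lit 41559866972) (nat_lit 304) (nat_lit 96153922723) (nat_lit 76) (nat_lit 24423922052) (nat_lit 26) (nat_lit 5) (nat_lit 30) (nat_lit 5) (nat_lit 27) (nat_lit 5) (nat_lit 329) (nat_lit 294) (nat_lit 97)))))) (XT.nd (nat_lit 312) (nat_lit 380) (nat_lit 0) (XT.nd (nat_lit 156) (nat_lit 0) (nat_lit 0) (XT.nd (nat_lit 78) (nat_lit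 152) (nat_lit 0) (XT.lf (nat_lit 0) (nat_lit 64999354223) (nat_lit 304) (nat_lit 33143340991) (nat_lit 76) (nat_lit 69773721795) (nat_lit 26) (nat_lit 5) (nat_lit 30) (nat_lit 5) (nat_lit 27) (nat_lit 5) (nat_lit 330) (nat_lit 294) (nat_lit 96)) (XT.lf (nat_lit 0) (nat_lit 34109058100) (nat_lit 152) (nat_lit 56034011601) (nat_lit 228) (nat_lit 83814375793) (nat_lit 24) (nat_lit 5) (nat_lit 26) (nat_lit 5) (nat_lit 27) (nat_lit 5) (nat_lit 331) (nat_lit 294) (nat_lit 95))) (XT.nd (nat_lit 78) (nat_lit 0) (nat_lit 0) (XT.lf (nat_lit 0) (nat_lit 105874331193) (nat_lit 152) (nat_lit 11230661316) (nat_lit 228) (nat_lit 63167482438) (nat_lit 24) (nat_lit 5) (nat_lit 26) (nat_lit 5) (nat_lit 27) (nat_lit 5) (nat_lit 332) (nat_lit 294) (nat_lit 94)) (XT.lf (nat_lit 0) (nat_lit 145973884795) (nat_lit 228) (nat_lit 6234927312) (nat_lit 76) (nat_lit 34666500694) (nat_lit 24) (nat_lit 5) (nat_lit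 27) (nat_lit 5) (nat_lit 25) (nat_lit 5) (nat_lit 333) (nat_lit 294) (nat_lit 93)))) (XT.nd (nat_lit 156) (nat_lit 152) (nat_lit 0) (XT.nd (nat_lit 78) (nat_lit 76) (nat_lit 0) (XT.lf (nat_lit 0) (nat_lit 67306177505) (nat_lit 152) (nat_lit 110214738380) (nat_lit 228) (nat_lit 16225642516) (nat_lit 22) (nat_lit 5) (nat_lit 24) (nat_lit 5) (nat_lit 25) (nat_lit 5) (nat_lit 334) (nat_lit 294) (nat_lit 92)) (XT.lf (nat_lit 0) (nat_lit 9481057019) (nat_lit 228) (nat_lit 56368594811) (nat_lit 76) (nat_lit 135098801744) (nat_lit 21) (nat_lit 5) (nat_lit 24) (nat_lit 5) (nat_lit 22) (nat_lit 5) (nat_lit 335) (nat_lit 294) (nat_lit 91))) (XT.nd (nat_lit 78) (nat_lit 0) (nat_lit 0) (XT.lf (nat_lit 0) (nat_lit 17500547601) (nat_lit 152) (nat_lit 18700249071) (nat_lit 228) (nat_lit 172282697957) (nat_lit 19) (nat_lit 5) (nat_lit 21) (nat_lit 5) (nat_lit 22) (nat_lit 5) (nat_lit 336) (nat_lit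 294) (nat_lit 90)) (XT.nd (nat_lit 34242) (nat_lit 0) (nat_lit 3724) (XT.lf (nat_lit 0) (nat_lit 65707544484) (nat_lit 228) (nat_lit 119824416136) (nat_lit 76) (nat_lit 30790776522) (nat_lit 19) (nat_lit 5) (nat_lit 22) (nat_lit 5) (nat_lit 20) (nat_lit 5) (nat_lit 337) (nat_lit 294) (nat_lit 89)) (XT.lf (nat_lit 0) (nat_lit 5596929478) (nat_lit 0) (nat_lit 5596929478) (nat_lit 684) (nat_lit 18879846985) (nat_lit 68) (nat_lit 5) (nat_lit 68) (nat_lit 3) (nat_lit 77) (nat_lit 3) (nat_lit 295) (nat_lit 295) (nat_lit 130))))))) (XT.nd (nat_lit 702) (nat_lit 1444) (nat_lit 0) (XT.nd (nat_lit 312) (nat_lit 0) (nat_lit 76) (XT.nd (nat_lit 156) (nat_lit 0) (nat_lit 76) (XT.nd (nat_lit 78) (nat_lit 0) (nat_lit 0) (XT.lf (nat_lit 0) (nat_lit 23197954352) (nat_lit 684) (nat_lit 23927614710) (nat_lit 760) (nat_lit 14512941813) (nat_lit 68) (nat_lit 5) (nat_lit 77) (nat_lit 3) (nat_lit 78) (nat_lit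 5) (nat_lit 296) (nat_lit 295) (nat_lit 129)) (XT.lf (nat_lit 76) (nat_lit 2237124849) (nat_lit 0) (nat_lit 22028965774) (nat_lit 760) (nat_lit 38927208577) (nat_lit 69) (nat_lit 5) (nat_lit 68) (nat_lit 5) (nat_lit 78) (nat_lit 5) (nat_lit 297) (nat_lit 295) (nat_lit 128))) (XT.nd (nat_lit 78) (nat_lit 0) (nat_lit 0) (XT.lf (nat_lit 0) (nat_lit 25865989966) (nat_lit 684) (nat_lit 34339522956) (nat_lit 760) (nat_lit 4596399810) (nat_lit 69) (nat_lit 5) (nat_lit 78) (nat_lit 5) (nat_lit 79) (nat_lit 5) (nat_lit 298) (nat_lit 295) (nat_lit 127)) (XT.lf (nat_lit 0) (nat_lit 27906064050) (nat_lit 684) (nat_lit 6753781542) (nat_lit 760) (nat_lit 31813105795) (nat_lit 69) (nat_lit 5) (nat_lit 78) (nat_lit 5) (nat_lit 79) (nat_lit 5) (nat_lit 299) (nat_lit 295) (nat_lit 126)))) (XT.nd (nat_lit 156) (nat_lit 0) (nat_lit 76) (XT.nd (nat_lit 78) (nat_lit 0) (nat_lit 76) (XT.lf (nat_lit 76) (nat_lit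 22945048981) (nat_lit 0) (nat_lit 7460423838) (nat_lit 760) (nat_lit 37804205875) (nat_lit 70) (nat_lit 5) (nat_lit 69) (nat_lit 5) (nat_lit 79) (nat_lit 5) (nat_lit 300) (nat_lit 295) (nat_lit 125)) (XT.lf (nat_lit 0) (nat_lit 33474652964) (nat_lit 684) (nat_lit 15996140215) (nat_lit 760) (nat_lit 20540212256) (nat_lit 70) (nat_lit 5) (nat_lit 79) (nat_lit 5) (nat_lit 80) (nat_lit 5) (nat_lit 301) (nat_lit 295) (nat_lit 124))) (XT.nd (nat_lit 78) (nat_lit 0) (nat_lit 76) (XT.lf (nat_lit 76) (nat_lit 15096044419) (nat_lit 0) (nat_lit 21958415841) (nat_lit 760) (nat_lit 34830082809) (nat_lit 71) (nat_lit 5) (nat_lit 70) (nat_lit 5) (nat_lit 80) (nat_lit 5) (nat_lit 302) (nat_lit 295) (nat_lit 123)) (XT.nd (nat_lit 78) (nat_lit 0) (nat_lit 0) (XT.lf (nat_lit 0) (nat_lit 41195999489) (nat_lit 684) (nat_lit 25653286782) (nat_lit 760) (nat_lit 6983337062) (nat_lit 71) (nat_lit 5) (nat_lit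 80) (nat_lit 5) (nat_lit 81) (nat_lit 5) (nat_lit 303) (nat_lit 295) (nat_lit 122)) (XT.lf (nat_lit 76) (nat_lit 6898918926) (nat_lit 0) (nat_lit 39112627955) (nat_lit 760) (nat_lit 29843216859) (nat_lit 72) (nat_lit 5) (nat_lit 71) (nat_lit 5) (nat_lit 81) (nat_lit 5) (nat_lit 304) (nat_lit 295) (nat_lit 121)))))) (XT.nd (nat_lit 312) (nat_lit 1064) (nat_lit 0) (XT.nd (nat_lit 156) (nat_lit 608) (nat_lit 0) (XT.nd (nat_lit 78) (nat_lit 0) (nat_lit 76) (XT.lf (nat_lit 76) (nat_lit 41968767593) (nat_lit 0) (nat_lit 9532827271) (nat_lit 760) (nat_lit 26454732705) (nat_lit 72) (nat_lit 5) (nat_lit 71) (nat_lit 5) (nat_lit 81) (nat_lit 5) (nat_lit 305) (nat_lit 295) (nat_lit 120)) (XT.lf (nat_lit 0) (nat_lit 57601534931) (nat_lit 684) (nat_lit 1707543972) (nat_lit 76) (nat_lit 20837123642) (nat_lit 72) (nat_lit 5) (nat_lit 81) (nat_lit 5) (nat_lit 73) (nat_lit 5) (nat_lit 306) (nat_lit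 295) (nat_lit 119))) (XT.nd (nat_lit 78) (nat_lit 0) (nat_lit 0) (XT.lf (nat_lit 0) (nat_lit 35258102680) (nat_lit 684) (nat_lit 29454464940) (nat_lit 760) (nat_lit 17697701191) (nat_lit 63) (nat_lit 5) (nat_lit 72) (nat_lit 5) (nat_lit 73) (nat_lit 5) (nat_lit 307) (nat_lit 295) (nat_lit 118)) (XT.lf (nat_lit 0) (nat_lit 72237462851) (nat_lit 760) (nat_lit 10685405590) (nat_lit 76) (nat_lit 1861756617) (nat_lit 63) (nat_lit 5) (nat_lit 73) (nat_lit 5) (nat_lit 64) (nat_lit 5) (nat_lit 308) (nat_lit 295) (nat_lit 117)))) (XT.nd (nat_lit 156) (nat_lit 684) (nat_lit 0) (XT.nd (nat_lit 78) (nat_lit 76) (nat_lit 0) (XT.lf (nat_lit 0) (nat_lit 28018013233) (nat_lit 304) (nat_lit 53040285206) (nat_lit 380) (nat_lit 6173418008) (nat_lit 59) (nat_lit 5) (nat_lit 63) (nat_lit 5) (nat_lit 64) (nat_lit 5) (nat_lit 309) (nat_lit 295) (nat_lit 116)) (XT.lf (nat_lit 0) (nat_lit 685735132) (nat_lit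 380) (nat_lit 20776191439) (nat_lit 76) (nat_lit 68329665913) (nat_lit 58) (nat_lit 5) (nat_lit 63) (nat_lit 5) (nat_lit 59) (nat_lit 5) (nat_lit 310) (nat_lit 295) (nat_lit 115))) (XT.nd (nat_lit 78) (nat_lit 304) (nat_lit 0) (XT.lf (nat_lit 0) (nat_lit 8183435519) (nat_lit 456) (nat_lit 72522548085) (nat_lit 76) (nat_lit 11743267515) (nat_lit 53) (nat_lit 5) (nat_lit 59) (nat_lit 5) (nat_lit 54) (nat_lit 5) (nat_lit 311) (nat_lit 295) (nat_lit 114)) (XT.nd (nat_lit 78) (nat_lit 304) (nat_lit 0) (XT.lf (nat_lit 0) (nat_lit 16764929924) (nat_lit 456) (nat_lit 32194334157) (nat_lit 76) (nat_lit 46245084889) (nat_lit 53) (nat_lit 5) (nat_lit 59) (nat_lit 5) (nat_lit 54) (nat_lit 5) (nat_lit 312) (nat_lit 295) (nat_lit 113)) (XT.lf (nat_lit 0) (nat_lit 10485338274) (nat_lit 304) (nat_lit 15453343593) (nat_lit 380) (nat_lit 72150362356) (nat_lit 49) (nat_lit 5) (nat_lit 53) (nat_lit 5)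 (nat_lit 54) (nat_lit 5) (nat_lit 313) (nat_lit 295) (nat_lit 112))))))))
noncomputable def xc243 : XT := (XT.nd (nat_lit 1404) (nat_lit 380) (nat_lit 0) (XT.nd (nat_lit 702) (nat_lit 684) (nat_lit 0) (XT.nd (nat_lit 312) (nat_lit 760) (nat_lit 0) (XT.nd (nat_lit 156) (nat_lit 304) (nat_lit 0) (XT.nd (nat_lit 78) (nat_lit 0) (nat_lit 0) (XT.lf (nat_lit 0) (nat_lit 36432786808) (nat_lit 380) (nat_lit 44991515536) (nat_lit 76) (nat_lit 19650590198) (nat_lit 49) (nat_lit 5) (nat_lit 54) (nat_lit 5) (nat_lit 50) (nat_lit 5) (nat_lit 314) (nat_lit 295) (nat_lit 111)) (XT.lf (nat_lit 0) (nat_lit 47704447875) (nat_lit 380) (nat_lit 502588166) (nat_lit 76) (nat_lit 55990356191) (nat_lit 49) (nat_lit 5) (nat_lit 54) (nat_lit 5) (nat_lit 50) (nat_lit 5) (nat_lit 315) (nat_lit 295) (nat_lit 110))) (XT.nd (nat_lit 78) (nat_lit 0) (nat_lit 0) (XT.lf (nat_lit 0) (nat_lit 47738192470) (nat_lit 304)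 (nat_lit 12546366856) (nat_lit 380) (nat_lit 47154215641) (nat_lit 45) (nat_lit 5) (nat_lit 49) (nat_lit 5) (nat_lit 50) (nat_lit 5) (nat_lit 316) (nat_lit 295) (nat_lit 109)) (XT.lf (nat_lit 0) (nat_lit 73890598076) (nat_lit 380) (nat_lit 12822724938) (nat_lit 76) (nat_lit 24109059094) (nat_lit 45) (nat_lit 5) (nat_lit 50) (nat_lit 5) (nat_lit 46) (nat_lit 5) (nat_lit 317) (nat_lit 295) (nat_lit 108)))) (XT.nd (nat_lit 156) (nat_lit 532) (nat_lit 0) (XT.nd (nat_lit 78) (nat_lit 0) (nat_lit 0) (XT.lf (nat_lit 0) (nat_lit 37389543558) (nat_lit 228) (nat_lit 51576403608) (nat_lit 304) (nat_lit 25369773317) (nat_lit 42) (nat_lit 5) (nat_lit 45) (nat_lit 5) (nat_lit 46) (nat_lit 5) (nat_lit 318) (nat_lit 295) (nat_lit 107)) (XT.lf (nat_lit 0) (nat_lit 90557106954) (nat_lit 228) (nat_lit 14454703036) (nat_lit 304) (nat_lit 13002079703) (nat_lit 42) (nat_lit 5) (nat_lit 45) (nat_lit 5) (nat_lit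 46) (nat_lit 5) (nat_lit 319) (nat_lit 295) (nat_lit 106))) (XT.nd (nat_lit 78) (nat_lit 228) (nat_lit 0) (XT.lf (nat_lit 0) (nat_lit 768730233) (nat_lit 304) (nat_lit 96928433340) (nat_lit 76) (nat_lit 24139606427) (nat_lit 38) (nat_lit 5) (nat_lit 42) (nat_lit 5) (nat_lit 39) (nat_lit 5) (nat_lit 320) (nat_lit 295) (nat_lit 105)) (XT.nd (nat_lit 78) (nat_lit 228) (nat_lit 0) (XT.lf (nat_lit 0) (nat_lit 15500314172) (nat_lit 304) (nat_lit 45440825846) (nat_lit 76) (nat_lit 64863538492) (nat_lit 38) (nat_lit 5) (nat_lit 42) (nat_lit 5) (nat_lit 39) (nat_lit 5) (nat_lit 321) (nat_lit 295) (nat_lit 104)) (XT.lf (nat_lit 0) (nat_lit 8905727881) (nat_lit 228) (nat_lit 22201420938) (nat_lit 304) (nat_lit 98856901066) (nat_lit 35) (nat_lit 5) (nat_lit 38) (nat_lit 5) (nat_lit 39) (nat_lit 5) (nat_lit 322) (nat_lit 295) (nat_lit 103)))))) (XT.nd (nat_lit 312) (nat_lit 456) (nat_lit 0) (XT.nd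 (nat_lit 156) (nat_lit 228) (nat_lit 0) (XT.nd (nat_lit 78) (nat_lit 0) (nat_lit 0) (XT.lf (nat_lit 0) (nat_lit 48564591268) (nat_lit 304) (nat_lit 67047249124) (nat_lit 76) (nat_lit 18666037099) (nat_lit 35) (nat_lit 5) (nat_lit 39) (nat_lit 5) (nat_lit 36) (nat_lit 5) (nat_lit 323) (nat_lit 295) (nat_lit 102)) (XT.lf (nat_lit 0) (nat_lit 67258517803) (nat_lit 304) (nat_lit 10700040162) (nat_lit 76) (nat_lit 60830658834) (nat_lit 35) (nat_lit 5) (nat_lit 39) (nat_lit 5) (nat_lit 36) (nat_lit 5) (nat_lit 324) (nat_lit 295) (nat_lit 101))) (XT.nd (nat_lit 78) (nat_lit 0) (nat_lit 0) (XT.lf (nat_lit 0) (nat_lit 50066533031) (nat_lit 228) (nat_lit 37601957235) (nat_lit 304) (nat_lit 55818566201) (nat_lit 32) (nat_lit 5) (nat_lit 35) (nat_lit 5) (nat_lit 36) (nat_lit 5) (nat_lit 325) (nat_lit 295) (nat_lit 100)) (XT.lf (nat_lit 0) (nat_lit 109357331996) (nat_lit 304) (nat_lit 34245739839)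 (nat_lit 76) (nat_lit 4803798586) (nat_lit 32) (nat_lit 5) (nat_lit 36) (nat_lit 5) (nat_lit 33) (nat_lit 5) (nat_lit 326) (nat_lit 295) (nat_lit 99)))) (XT.nd (nat_lit 156) (nat_lit 304) (nat_lit 0) (XT.nd (nat_lit 78) (nat_lit 0) (nat_lit 0) (XT.lf (nat_lit 0) (nat_lit 28172632833) (nat_lit 152) (nat_lit 105013955532) (nat_lit 228) (nat_lit 20333288875) (nat_lit 30) (nat_lit 5) (nat_lit 32) (nat_lit 5) (nat_lit 33) (nat_lit 5) (nat_lit 327) (nat_lit 295) (nat_lit 98)) (XT.lf (nat_lit 0) (nat_lit 94900440980) (nat_lit 152) (nat_lit 63886536101) (nat_lit 228) (nat_lit 72574597) (nat_lit 30) (nat_lit 5) (nat_lit 32) (nat_lit 5) (nat_lit 33) (nat_lit 5) (nat_lit 328) (nat_lit 295) (nat_lit 97))) (XT.nd (nat_lit 78) (nat_lit 0) (nat_lit 0) (XT.lf (nat_lit 0) (nat_lit 172533805) (nat_lit 228) (nat_lit 20352475523) (nat_lit 304) (nat_lit 143924530513) (nat_lit 26) (nat_lit 5) (nat_lit 29)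 (nat_lit 5) (nat_lit 30) (nat_lit 5) (nat_lit 329) (nat_lit 295) (nat_lit 96)) (XT.nd (nat_lit 78) (nat_lit 0) (nat_lit 0) (XT.lf (nat_lit 0) (nat_lit 43646598802) (nat_lit 304) (nat_lit 100948867368) (nat_lit 76) (nat_lit 25648674140) (nat_lit 26) (nat_lit 5) (nat_lit 30) (nat_lit 5) (nat_lit 27) (nat_lit 5) (nat_lit 330) (nat_lit 295) (nat_lit 95)) (XT.lf (nat_lit 0) (nat_lit 68257644297) (nat_lit 304) (nat_lit 34788363764) (nat_lit 76) (nat_lit 73265794537) (nat_lit 26) (nat_lit 5) (nat_lit 30) (nat_lit 5) (nat_lit 27) (nat_lit 5) (nat_lit 331) (nat_lit 295) (nat_lit 94))))))) (XT.nd (nat_lit 35022) (nat_lit 0) (nat_lit 3192) (XT.nd (nat_lit 312) (nat_lit 76) (nat_lit 0) (XT.nd (nat_lit 156) (nat_lit 152) (nat_lit 0) (XT.nd (nat_lit 78) (nat_lit 0) (nat_lit 0) (XT.lf (nat_lit 0) (nat_lit 35826459407) (nat_lit 152) (nat_lit 58831876387) (nat_lit 228) (nat_lit 87996558112) (nat_lit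 24) (nat_lit 5) (nat_lit 26) (nat_lit 5) (nat_lit 27) (nat_lit 5) (nat_lit 332) (nat_lit 295) (nat_lit 93)) (XT.lf (nat_lit 0) (nat_lit 111179427183) (nat_lit 152) (nat_lit 11788541245) (nat_lit 228) (nat_lit 66317726589) (nat_lit 24) (nat_lit 5) (nat_lit 26) (nat_lit 5) (nat_lit 27) (nat_lit 5) (nat_lit 333) (nat_lit 295) (nat_lit 92))) (XT.nd (nat_lit 78) (nat_lit 152) (nat_lit 0) (XT.lf (nat_lit 0) (nat_lit 153279991729) (nat_lit 228) (nat_lit 6535505990) (nat_lit 76) (nat_lit 36403193551) (nat_lit 24) (nat_lit 5) (nat_lit 27) (nat_lit 5) (nat_lit 25) (nat_lit 5) (nat_lit 334) (nat_lit 295) (nat_lit 91)) (XT.lf (nat_lit 0) (nat_lit 70682473945) (nat_lit 152) (nat_lit 115721718990) (nat_lit 228) (nat_lit 17029316074) (nat_lit 22) (nat_lit 5) (nat_lit 24) (nat_lit 5) (nat_lit 25) (nat_lit 5) (nat_lit 335) (nat_lit 295) (nat_lit 90)))) (XT.nd (nat_lit 34476) (nat_lit 0) (nat_lit 3572)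 (XT.nd (nat_lit 34398) (nat_lit 0) (nat_lit 3572) (XT.lf (nat_lit 0) (nat_lit 9962124199) (nat_lit 228) (nat_lit 59176313994) (nat_lit 76) (nat_lit 141857073057) (nat_lit 21) (nat_lit 5) (nat_lit 24) (nat_lit 5) (nat_lit 22) (nat_lit 5) (nat_lit 336) (nat_lit 295) (nat_lit 89)) (XT.lf (nat_lit 0) (nat_lit 5884879321) (nat_lit 0) (nat_lit 5884879321) (nat_lit 684) (nat_lit 19806764052) (nat_lit 68) (nat_lit 5) (nat_lit 68) (nat_lit 3) (nat_lit 77) (nat_lit 3) (nat_lit 296) (nat_lit 296) (nat_lit 128))) (XT.nd (nat_lit 78) (nat_lit 0) (nat_lit 0) (XT.lf (nat_lit 0) (nat_lit 24388481061) (nat_lit 684) (nat_lit 25106665102) (nat_lit 760) (nat_lit 15223647932) (nat_lit 68) (nat_lit 5) (nat_lit 77) (nat_lit 3) (nat_lit 78) (nat_lit 5) (nat_lit 297) (nat_lit 296) (nat_lit 127)) (XT.nd (nat_lit 78) (nat_lit 0) (nat_lit 76) (XT.lf (nat_lit 76) (nat_lit 2366031914) (nat_lit 0) (nat_lit 23142799920)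 (nat_lit 760) (nat_lit 40842554898) (nat_lit 69) (nat_lit 5) (nat_lit 68) (nat_lit 5) (nat_lit 78) (nat_lit 5) (nat_lit 298) (nat_lit 296) (nat_lit 126)) (XT.lf (nat_lit 0) (nat_lit 27187140228) (nat_lit 684) (nat_lit 36038573743) (nat_lit 760) (nat_lit 4814801294) (nat_lit 69) (nat_lit 5) (nat_lit 78) (nat_lit 5) (nat_lit 79) (nat_lit 5) (nat_lit 299) (nat_lit 296) (nat_lit 125)))))) (XT.nd (nat_lit 312) (nat_lit 456) (nat_lit 0) (XT.nd (nat_lit 156) (nat_lit 0) (nat_lit 76) (XT.nd (nat_lit 78) (nat_lit 0) (nat_lit 0) (XT.lf (nat_lit 0) (nat_lit 29327891789) (nat_lit 684) (nat_lit 7074398847) (nat_lit 760) (nat_lit 33392886316) (nat_lit 69) (nat_lit 5) (nat_lit 78) (nat_lit 5) (nat_lit 79) (nat_lit 5) (nat_lit 300) (nat_lit 296) (nat_lit 124)) (XT.lf (nat_lit 76) (nat_lit 24109097851) (nat_lit 0) (nat_lit 7842172311) (nat_lit 760) (nat_lit 39667525065) (nat_lit 70) (nat_lit 5) (nat_lit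 69) (nat_lit 5) (nat_lit 79) (nat_lit 5) (nat_lit 301) (nat_lit 296) (nat_lit 123))) (XT.nd (nat_lit 78) (nat_lit 0) (nat_lit 0) (XT.lf (nat_lit 0) (nat_lit 35172564131) (nat_lit 684) (nat_lit 16778518578) (nat_lit 760) (nat_lit 21559177198) (nat_lit 70) (nat_lit 5) (nat_lit 79) (nat_lit 5) (nat_lit 80) (nat_lit 5) (nat_lit 302) (nat_lit 296) (nat_lit 122)) (XT.lf (nat_lit 76) (nat_lit 15867994181) (nat_lit 0) (nat_lit 23062483975) (nat_lit 760) (nat_lit 36547044587) (nat_lit 71) (nat_lit 5) (nat_lit 70) (nat_lit 5) (nat_lit 80) (nat_lit 5) (nat_lit 303) (nat_lit 296) (nat_lit 121)))) (XT.nd (nat_lit 156) (nat_lit 608) (nat_lit 0) (XT.nd (nat_lit 78) (nat_lit 0) (nat_lit 0) (XT.lf (nat_lit 0) (nat_lit 43277893659) (nat_lit 684) (nat_lit 26918340647) (nat_lit 760) (nat_lit 7326836688) (nat_lit 71) (nat_lit 5) (nat_lit 80) (nat_lit 5) (nat_lit 81) (nat_lit 5) (nat_lit 304) (nat_lit 296)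 (nat_lit 120)) (XT.lf (nat_lit 76) (nat_lit 7261191306) (nat_lit 0) (nat_lit 41072245524) (nat_lit 760) (nat_lit 31312924423) (nat_lit 72) (nat_lit 5) (nat_lit 71) (nat_lit 5) (nat_lit 81) (nat_lit 5) (nat_lit 305) (nat_lit 296) (nat_lit 119))) (XT.nd (nat_lit 78) (nat_lit 608) (nat_lit 0) (XT.lf (nat_lit 76) (nat_lit 44083707339) (nat_lit 0) (nat_lit 10013264988) (nat_lit 760) (nat_lit 27756085264) (nat_lit 72) (nat_lit 5) (nat_lit 71) (nat_lit 5) (nat_lit 81) (nat_lit 5) (nat_lit 306) (nat_lit 296) (nat_lit 118)) (XT.nd (nat_lit 78) (nat_lit 684) (nat_lit 0) (XT.lf (nat_lit 0) (nat_lit 60500886389) (nat_lit 684) (nat_lit 1776114509) (nat_lit 76) (nat_lit 21875479970) (nat_lit 72) (nat_lit 5) (nat_lit 81) (nat_lit 5) (nat_lit 73) (nat_lit 5) (nat_lit 307) (nat_lit 296) (nat_lit 117)) (XT.lf (nat_lit 0) (nat_lit 37037543400) (nat_lit 684) (nat_lit 30929267636) (nat_lit 760) (nat_lit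 18562975638) (nat_lit 63) (nat_lit 5) (nat_lit 72) (nat_lit 5) (nat_lit 73) (nat_lit 5) (nat_lit 308) (nat_lit 296) (nat_lit 116))))))))
noncomputable def xc244 : XT := (XT.nd (nat_lit 1404) (nat_lit 608) (nat_lit 0) (XT.nd (nat_lit 702) (nat_lit 988) (nat_lit 0) (XT.nd (nat_lit 312) (nat_lit 608) (nat_lit 0) (XT.nd (nat_lit 156) (nat_lit 456) (nat_lit 0) (XT.nd (nat_lit 78) (nat_lit 304) (nat_lit 0) (XT.lf (nat_lit 0) (nat_lit 75867033678) (nat_lit 760) (nat_lit 11202948604) (nat_lit 76) (nat_lit 1952927406) (nat_lit 63) (nat_lit 5) (nat_lit 73) (nat_lit 5) (nat_lit 64) (nat_lit 5) (nat_lit 309) (nat_lit 296) (nat_lit 115)) (XT.lf (nat_lit 0) (nat_lit 29435371367) (nat_lit 304) (nat_lit 55692953880) (nat_lit 380) (nat_lit 6464062630) (nat_lit 59) (nat_lit 5) (nat_lit 63) (nat_lit 5) (nat_lit 64) (nat_lit 5) (nat_lit 310) (nat_lit 296) (nat_lit 114))) (XT.nd (nat_lit 78) (nat_lit 380)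 (nat_lit 0) (XT.lf (nat_lit 0) (nat_lit 736640293) (nat_lit 380) (nat_lit 21798724416) (nat_lit 76) (nat_lit 71744923146) (nat_lit 58) (nat_lit 5) (nat_lit 63) (nat_lit 5) (nat_lit 59) (nat_lit 5) (nat_lit 311) (nat_lit 296) (nat_lit 113)) (XT.lf (nat_lit 0) (nat_lit 8608683388) (nat_lit 456) (nat_lit 76131805790) (nat_lit 76) (nat_lit 12330369900) (nat_lit 53) (nat_lit 5) (nat_lit 59) (nat_lit 5) (nat_lit 54) (nat_lit 5) (nat_lit 312) (nat_lit 296) (nat_lit 112)))) (XT.nd (nat_lit 156) (nat_lit 304) (nat_lit 0) (XT.nd (nat_lit 78) (nat_lit 304) (nat_lit 0) (XT.lf (nat_lit 0) (nat_lit 17618486984) (nat_lit 456) (nat_lit 33787984485) (nat_lit 76) (nat_lit 48557281047) (nat_lit 53) (nat_lit 5) (nat_lit 59) (nat_lit 5) (nat_lit 54) (nat_lit 5) (nat_lit 313) (nat_lit 296) (nat_lit 111)) (XT.lf (nat_lit 0) (nat_lit 11025412433) (nat_lit 304) (nat_lit 16225031813) (nat_lit 380) (nat_lit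 75742264704) (nat_lit 49) (nat_lit 5) (nat_lit 53) (nat_lit 5) (nat_lit 54) (nat_lit 5) (nat_lit 314) (nat_lit 296) (nat_lit 110))) (XT.nd (nat_lit 78) (nat_lit 304) (nat_lit 0) (XT.lf (nat_lit 0) (nat_lit 38268562882) (nat_lit 380) (nat_lit 47225301365) (nat_lit 76) (nat_lit 20634022210) (nat_lit 49) (nat_lit 5) (nat_lit 54) (nat_lit 5) (nat_lit 50) (nat_lit 5) (nat_lit 315) (nat_lit 296) (nat_lit 109)) (XT.nd (nat_lit 78) (nat_lit 304) (nat_lit 0) (XT.lf (nat_lit 0) (nat_lit 50103133824) (nat_lit 380) (nat_lit 512679528) (nat_lit 76) (nat_lit 58790733526) (nat_lit 49) (nat_lit 5) (nat_lit 54) (nat_lit 5) (nat_lit 50) (nat_lit 5) (nat_lit 316) (nat_lit 296) (nat_lit 108)) (XT.lf (nat_lit 0) (nat_lit 50139897590) (nat_lit 304) (nat_lit 13171943134) (nat_lit 380) (nat_lit 49498180521) (nat_lit 45) (nat_lit 5) (nat_lit 49) (nat_lit 5) (nat_lit 50) (nat_lit 5) (nat_lit 317) (nat_lit 296)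 (nat_lit 107)))))) (XT.nd (nat_lit 312) (nat_lit 456) (nat_lit 0) (XT.nd (nat_lit 156) (nat_lit 304) (nat_lit 0) (XT.nd (nat_lit 78) (nat_lit 228) (nat_lit 0) (XT.lf (nat_lit 0) (nat_lit 77597585724) (nat_lit 380) (nat_lit 13449136645) (nat_lit 76) (nat_lit 25316118056) (nat_lit 45) (nat_lit 5) (nat_lit 50) (nat_lit 5) (nat_lit 46) (nat_lit 5) (nat_lit 318) (nat_lit 296) (nat_lit 106)) (XT.lf (nat_lit 0) (nat_lit 39273507784) (nat_lit 228) (nat_lit 54152827442) (nat_lit 304) (nat_lit 26625530649) (nat_lit 42) (nat_lit 5) (nat_lit 45) (nat_lit 5) (nat_lit 46) (nat_lit 5) (nat_lit 319) (nat_lit 296) (nat_lit 105))) (XT.nd (nat_lit 78) (nat_lit 304) (nat_lit 0) (XT.lf (nat_lit 0) (nat_lit 95098759491) (nat_lit 228) (nat_lit 15175155953) (nat_lit 304) (nat_lit 13640058608) (nat_lit 42) (nat_lit 5) (nat_lit 45) (nat_lit 5) (nat_lit 46) (nat_lit 5) (nat_lit 320) (nat_lit 296) (nat_lit 104))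 (XT.lf (nat_lit 0) (nat_lit 818603715) (nat_lit 304) (nat_lit 101760305786) (nat_lit 76) (nat_lit 25349095968) (nat_lit 38) (nat_lit 5) (nat_lit 42) (nat_lit 5) (nat_lit 39) (nat_lit 5) (nat_lit 321) (nat_lit 296) (nat_lit 103)))) (XT.nd (nat_lit 156) (nat_lit 228) (nat_lit 0) (XT.nd (nat_lit 78) (nat_lit 228) (nat_lit 0) (XT.lf (nat_lit 0) (nat_lit 16286222234) (nat_lit 304) (nat_lit 47699010736) (nat_lit 76) (nat_lit 68109105150) (nat_lit 38) (nat_lit 5) (nat_lit 42) (nat_lit 5) (nat_lit 39) (nat_lit 5) (nat_lit 322) (nat_lit 296) (nat_lit 102)) (XT.lf (nat_lit 0) (nat_lit 9364647186) (nat_lit 228) (nat_lit 23308445592) (nat_lit 304) (nat_lit 103788601993) (nat_lit 35) (nat_lit 5) (nat_lit 38) (nat_lit 5) (nat_lit 39) (nat_lit 5) (nat_lit 323) (nat_lit 296) (nat_lit 101))) (XT.nd (nat_lit 78) (nat_lit 228) (nat_lit 0) (XT.lf (nat_lit 0) (nat_lit 51002948527) (nat_lit 304) (nat_lit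 70386142097) (nat_lit 76) (nat_lit 19602147421) (nat_lit 35) (nat_lit 5) (nat_lit 39) (nat_lit 5) (nat_lit 36) (nat_lit 5) (nat_lit 324) (nat_lit 296) (nat_lit 100)) (XT.nd (nat_lit 78) (nat_lit 228) (nat_lit 0) (XT.lf (nat_lit 0) (nat_lit 70631089118) (nat_lit 304) (nat_lit 11222214091) (nat_lit 76) (nat_lit 63874866505) (nat_lit 35) (nat_lit 5) (nat_lit 39) (nat_lit 5) (nat_lit 36) (nat_lit 5) (nat_lit 325) (nat_lit 296) (nat_lit 99)) (XT.lf (nat_lit 0) (nat_lit 52582480857) (nat_lit 228) (nat_lit 39478817093) (nat_lit 304) (nat_lit 58599617750) (nat_lit 32) (nat_lit 5) (nat_lit 35) (nat_lit 5) (nat_lit 36) (nat_lit 5) (nat_lit 326) (nat_lit 296) (nat_lit 98))))))) (XT.nd (nat_lit 35178) (nat_lit 0) (nat_lit 3344) (XT.nd (nat_lit 312) (nat_lit 152) (nat_lit 0) (XT.nd (nat_lit 156) (nat_lit 304) (nat_lit 0) (XT.nd (nat_lit 78) (nat_lit 152) (nat_lit 0) (XT.lf (nat_lit 0) (nat_lit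 114834183095) (nat_lit 304) (nat_lit 35945584725) (nat_lit 76) (nat_lit 5046973628) (nat_lit 32) (nat_lit 5) (nat_lit 36) (nat_lit 5) (nat_lit 33) (nat_lit 5) (nat_lit 327) (nat_lit 296) (nat_lit 97)) (XT.lf (nat_lit 0) (nat_lit 29593505901) (nat_lit 152) (nat_lit 110261159671) (nat_lit 228) (nat_lit 21340745979) (nat_lit 30) (nat_lit 5) (nat_lit 32) (nat_lit 5) (nat_lit 33) (nat_lit 5) (nat_lit 328) (nat_lit 296) (nat_lit 96))) (XT.nd (nat_lit 78) (nat_lit 304) (nat_lit 0) (XT.lf (nat_lit 0) (nat_lit 99657121531) (nat_lit 152) (nat_lit 67077535632) (nat_lit 228) (nat_lit 67434432) (nat_lit 30) (nat_lit 5) (nat_lit 32) (nat_lit 5) (nat_lit 33) (nat_lit 5) (nat_lit 329) (nat_lit 296) (nat_lit 95)) (XT.lf (nat_lit 0) (nat_lit 192926865) (nat_lit 228) (nat_lit 21366600668) (nat_lit 304) (nat_lit 151112056769) (nat_lit 26) (nat_lit 5) (nat_lit 29) (nat_lit 5) (nat_lit 30) (nat_lit 5) (nat_lit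 330) (nat_lit 296) (nat_lit 94)))) (XT.nd (nat_lit 156) (nat_lit 152) (nat_lit 0) (XT.nd (nat_lit 78) (nat_lit 0) (nat_lit 0) (XT.lf (nat_lit 0) (nat_lit 45836854802) (nat_lit 304) (nat_lit 105984744758) (nat_lit 76) (nat_lit 26934333230) (nat_lit 26) (nat_lit 5) (nat_lit 30) (nat_lit 5) (nat_lit 27) (nat_lit 5) (nat_lit 331) (nat_lit 296) (nat_lit 93)) (XT.lf (nat_lit 0) (nat_lit 71678075141) (nat_lit 304) (nat_lit 36516766734) (nat_lit 76) (nat_lit 76932156058) (nat_lit 26) (nat_lit 5) (nat_lit 30) (nat_lit 5) (nat_lit 27) (nat_lit 5) (nat_lit 332) (nat_lit 296) (nat_lit 92))) (XT.nd (nat_lit 78) (nat_lit 0) (nat_lit 0) (XT.lf (nat_lit 0) (nat_lit 37628619930) (nat_lit 152) (nat_lit 61769991029) (nat_lit 228) (nat_lit 92388643188) (nat_lit 24) (nat_lit 5) (nat_lit 26) (nat_lit 5) (nat_lit 27) (nat_lit 5) (nat_lit 333) (nat_lit 296) (nat_lit 91)) (XT.nd (nat_lit 78) (nat_lit 0) (nat_lit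 0) (XT.lf (nat_lit 0) (nat_lit 116748720021) (nat_lit 152) (nat_lit 12374654805) (nat_lit 228) (nat_lit 69626238794) (nat_lit 24) (nat_lit 5) (nat_lit 26) (nat_lit 5) (nat_lit 27) (nat_lit 5) (nat_lit 334) (nat_lit 296) (nat_lit 90)) (XT.lf (nat_lit 0) (nat_lit 160950714848) (nat_lit 228) (nat_lit 6852151867) (nat_lit 76) (nat_lit 38226407942) (nat_lit 24) (nat_lit 5) (nat_lit 27) (nat_lit 5) (nat_lit 25) (nat_lit 5) (nat_lit 335) (nat_lit 296) (nat_lit 89)))))) (XT.nd (nat_lit 312) (nat_lit 0) (nat_lit 76) (XT.nd (nat_lit 156) (nat_lit 0) (nat_lit 0) (XT.nd (nat_lit 78) (nat_lit 0) (nat_lit 0) (XT.lf (nat_lit 0) (nat_lit 6186473281) (nat_lit 0) (nat_lit 6186473281) (nat_lit 684) (nat_lit 20781614469) (nat_lit 68) (nat_lit 5) (nat_lit 68) (nat_lit 3) (nat_lit 77) (nat_lit 3) (nat_lit 297) (nat_lit 297) (nat_lit 126)) (XT.lf (nat_lit 0) (nat_lit 25635686512) (nat_lit 684) (nat_lit 26346279224)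 (nat_lit 760) (nat_lit 15971278427) (nat_lit 68) (nat_lit 5) (nat_lit 77) (nat_lit 3) (nat_lit 78) (nat_lit 5) (nat_lit 298) (nat_lit 297) (nat_lit 125))) (XT.nd (nat_lit 78) (nat_lit 0) (nat_lit 76) (XT.lf (nat_lit 76) (nat_lit 2499799108) (nat_lit 0) (nat_lit 24311174253) (nat_lit 760) (nat_lit 42856551933) (nat_lit 69) (nat_lit 5) (nat_lit 68) (nat_lit 5) (nat_lit 78) (nat_lit 5) (nat_lit 299) (nat_lit 297) (nat_lit 124)) (XT.lf (nat_lit 0) (nat_lit 28571758703) (nat_lit 684) (nat_lit 37824243600) (nat_lit 760) (nat_lit 5045184436) (nat_lit 69) (nat_lit 5) (nat_lit 78) (nat_lit 5) (nat_lit 79) (nat_lit 5) (nat_lit 300) (nat_lit 297) (nat_lit 123)))) (XT.nd (nat_lit 156) (nat_lit 0) (nat_lit 76) (XT.nd (nat_lit 78) (nat_lit 0) (nat_lit 0) (XT.lf (nat_lit 0) (nat_lit 30818344915) (nat_lit 684) (nat_lit 7412634189) (nat_lit 760) (nat_lit 35052666896) (nat_lit 69) (nat_lit 5) (nat_lit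 78) (nat_lit 5) (nat_lit 79) (nat_lit 5) (nat_lit 301) (nat_lit 297) (nat_lit 122)) (XT.lf (nat_lit 76) (nat_lit 25329787593) (nat_lit 0) (nat_lit 8242196828) (nat_lit 760) (nat_lit 41626510294) (nat_lit 70) (nat_lit 5) (nat_lit 69) (nat_lit 5) (nat_lit 79) (nat_lit 5) (nat_lit 302) (nat_lit 297) (nat_lit 121))) (XT.nd (nat_lit 78) (nat_lit 0) (nat_lit 0) (XT.lf (nat_lit 0) (nat_lit 36953122967) (nat_lit 684) (nat_lit 17601636209) (nat_lit 760) (nat_lit 22629838398) (nat_lit 70) (nat_lit 5) (nat_lit 79) (nat_lit 5) (nat_lit 80) (nat_lit 5) (nat_lit 303) (nat_lit 297) (nat_lit 120)) (XT.nd (nat_lit 78) (nat_lit 0) (nat_lit 76) (XT.lf (nat_lit 76) (nat_lit 16676947215) (nat_lit 0) (nat_lit 24221183994) (nat_lit 760) (nat_lit 38352136170) (nat_lit 71) (nat_lit 5) (nat_lit 70) (nat_lit 5) (nat_lit 80) (nat_lit 5) (nat_lit 304) (nat_lit 297) (nat_lit 119)) (XT.lf (nat_lit 0) (nat_lit 45461828428)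 (nat_lit 684) (nat_lit 28248284460) (nat_lit 760) (nat_lit 7688038181) (nat_lit 71) (nat_lit 5) (nat_lit 80) (nat_lit 5) (nat_lit 81) (nat_lit 5) (nat_lit 305) (nat_lit 297) (nat_lit 118))))))))
noncomputable def xc245 : XT := (XT.nd (nat_lit 1404) (nat_lit 1064) (nat_lit 0) (XT.nd (nat_lit 702) (nat_lit 1140) (nat_lit 0) (XT.nd (nat_lit 312) (nat_lit 760) (nat_lit 0) (XT.nd (nat_lit 156) (nat_lit 608) (nat_lit 0) (XT.nd (nat_lit 78) (nat_lit 0) (nat_lit 0) (XT.lf (nat_lit 76) (nat_lit 7639966458) (nat_lit 0) (nat_lit 43129473374) (nat_lit 760) (nat_lit 32858204858) (nat_lit 72) (nat_lit 5) (nat_lit 71) (nat_lit 5) (nat_lit 81) (nat_lit 5) (nat_lit 306) (nat_lit 297) (nat_lit 117)) (XT.lf (nat_lit 76) (nat_lit 46302859931) (nat_lit 0) (nat_lit 10517371641) (nat_lit 760) (nat_lit 29124493541) (nat_lit 72) (nat_lit 5) (nat_lit 71) (nat_lit 5) (nat_lit 81) (nat_lit 5) (nat_lit 307) (nat_lit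 297) (nat_lit 116))) (XT.nd (nat_lit 78) (nat_lit 684) (nat_lit 0) (XT.lf (nat_lit 0) (nat_lit 63543413440) (nat_lit 684) (nat_lit 1849676097) (nat_lit 76) (nat_lit 22966079499) (nat_lit 72) (nat_lit 5) (nat_lit 81) (nat_lit 5) (nat_lit 73) (nat_lit 5) (nat_lit 308) (nat_lit 297) (nat_lit 115)) (XT.lf (nat_lit 0) (nat_lit 38904418834) (nat_lit 684) (nat_lit 32477617140) (nat_lit 760) (nat_lit 19473337016) (nat_lit 63) (nat_lit 5) (nat_lit 72) (nat_lit 5) (nat_lit 73) (nat_lit 5) (nat_lit 309) (nat_lit 297) (nat_lit 114)))) (XT.nd (nat_lit 156) (nat_lit 456) (nat_lit 0) (XT.nd (nat_lit 78) (nat_lit 304) (nat_lit 0) (XT.lf (nat_lit 0) (nat_lit 79676437684) (nat_lit 760) (nat_lit 11747923910) (nat_lit 76) (nat_lit 2048834963) (nat_lit 63) (nat_lit 5) (nat_lit 73) (nat_lit 5) (nat_lit 64) (nat_lit 5) (nat_lit 310) (nat_lit 297) (nat_lit 113)) (XT.lf (nat_lit 0) (nat_lit 30922067347) (nat_lit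 304) (nat_lit 58478195146) (nat_lit 380) (nat_lit 6770915395) (nat_lit 59) (nat_lit 5) (nat_lit 63) (nat_lit 5) (nat_lit 64) (nat_lit 5) (nat_lit 311) (nat_lit 297) (nat_lit 112))) (XT.nd (nat_lit 78) (nat_lit 380) (nat_lit 0) (XT.lf (nat_lit 0) (nat_lit 788545691) (nat_lit 380) (nat_lit 22873897286) (nat_lit 76) (nat_lit 75331057228) (nat_lit 58) (nat_lit 5) (nat_lit 63) (nat_lit 5) (nat_lit 59) (nat_lit 5) (nat_lit 312) (nat_lit 297) (nat_lit 111)) (XT.nd (nat_lit 78) (nat_lit 0) (nat_lit 0) (XT.lf (nat_lit 0) (nat_lit 9053699047) (nat_lit 456) (nat_lit 79923094765) (nat_lit 76) (nat_lit 12946833074) (nat_lit 53) (nat_lit 5) (nat_lit 59) (nat_lit 5) (nat_lit 54) (nat_lit 5) (nat_lit 313) (nat_lit 297) (nat_lit 110)) (XT.lf (nat_lit 0) (nat_lit 18513298467) (nat_lit 456) (nat_lit 35462811028) (nat_lit 76) (nat_lit 50985092413) (nat_lit 53) (nat_lit 5) (nat_lit 59) (nat_lit 5) (nat_lit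 54) (nat_lit 5) (nat_lit 314) (nat_lit 297) (nat_lit 109)))))) (XT.nd (nat_lit 312) (nat_lit 532) (nat_lit 0) (XT.nd (nat_lit 156) (nat_lit 304) (nat_lit 0) (XT.nd (nat_lit 78) (nat_lit 0) (nat_lit 0) (XT.lf (nat_lit 0) (nat_lit 11591020692) (nat_lit 304) (nat_lit 17035395459) (nat_lit 380) (nat_lit 79515213975) (nat_lit 49) (nat_lit 5) (nat_lit 53) (nat_lit 5) (nat_lit 54) (nat_lit 5) (nat_lit 315) (nat_lit 297) (nat_lit 108)) (XT.lf (nat_lit 0) (nat_lit 40194813460) (nat_lit 380) (nat_lit 49572244485) (nat_lit 76) (nat_lit 21666541916) (nat_lit 49) (nat_lit 5) (nat_lit 54) (nat_lit 5) (nat_lit 50) (nat_lit 5) (nat_lit 316) (nat_lit 297) (nat_lit 107))) (XT.nd (nat_lit 78) (nat_lit 304) (nat_lit 0) (XT.lf (nat_lit 0) (nat_lit 52620502357) (nat_lit 380) (nat_lit 524673554) (nat_lit 76) (nat_lit 61731049818) (nat_lit 49) (nat_lit 5) (nat_lit 54) (nat_lit 5) (nat_lit 50) (nat_lit 5)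 (nat_lit 317) (nat_lit 297) (nat_lit 106)) (XT.lf (nat_lit 0) (nat_lit 52660312421) (nat_lit 304) (nat_lit 13828960188) (nat_lit 380) (nat_lit 51960621608) (nat_lit 45) (nat_lit 5) (nat_lit 49) (nat_lit 5) (nat_lit 50) (nat_lit 5) (nat_lit 318) (nat_lit 297) (nat_lit 105)))) (XT.nd (nat_lit 156) (nat_lit 304) (nat_lit 0) (XT.nd (nat_lit 78) (nat_lit 228) (nat_lit 0) (XT.lf (nat_lit 0) (nat_lit 81488764552) (nat_lit 380) (nat_lit 14108237885) (nat_lit 76) (nat_lit 26583380654) (nat_lit 45) (nat_lit 5) (nat_lit 50) (nat_lit 5) (nat_lit 46) (nat_lit 5) (nat_lit 319) (nat_lit 297) (nat_lit 104)) (XT.lf (nat_lit 0) (nat_lit 41250323353) (nat_lit 228) (nat_lit 56858295258) (nat_lit 304) (nat_lit 27945259486) (nat_lit 42) (nat_lit 5) (nat_lit 45) (nat_lit 5) (nat_lit 46) (nat_lit 5) (nat_lit 320) (nat_lit 297) (nat_lit 103))) (XT.nd (nat_lit 78) (nat_lit 304) (nat_lit 0) (XT.lf (nat_lit 0)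 (nat_lit 99866211922) (nat_lit 228) (nat_lit 15931843697) (nat_lit 304) (nat_lit 14311063733) (nat_lit 42) (nat_lit 5) (nat_lit 45) (nat_lit 5) (nat_lit 46) (nat_lit 5) (nat_lit 321) (nat_lit 297) (nat_lit 102)) (XT.nd (nat_lit 78) (nat_lit 0) (nat_lit 0) (XT.lf (nat_lit 0) (nat_lit 869907571) (nat_lit 304) (nat_lit 106835124502) (nat_lit 76) (nat_lit 26618826702) (nat_lit 38) (nat_lit 5) (nat_lit 42) (nat_lit 5) (nat_lit 39) (nat_lit 5) (nat_lit 322) (nat_lit 297) (nat_lit 101)) (XT.lf (nat_lit 0) (nat_lit 17110413032) (nat_lit 304) (nat_lit 50071393109) (nat_lit 76) (nat_lit 71516727966) (nat_lit 38) (nat_lit 5) (nat_lit 42) (nat_lit 5) (nat_lit 39) (nat_lit 5) (nat_lit 323) (nat_lit 297) (nat_lit 100))))))) (XT.nd (nat_lit 702) (nat_lit 152) (nat_lit 0) (XT.nd (nat_lit 312) (nat_lit 456) (nat_lit 0) (XT.nd (nat_lit 156) (nat_lit 228) (nat_lit 0) (XT.nd (nat_lit 78) (nat_lit 0) (nat_lit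 0) (XT.lf (nat_lit 0) (nat_lit 9845244997) (nat_lit 228) (nat_lit 24471104703) (nat_lit 304) (nat_lit 108967924041) (nat_lit 35) (nat_lit 5) (nat_lit 38) (nat_lit 5) (nat_lit 39) (nat_lit 5) (nat_lit 324) (nat_lit 297) (nat_lit 99)) (XT.lf (nat_lit 0) (nat_lit 53562282072) (nat_lit 304) (nat_lit 73893231983) (nat_lit 76) (nat_lit 20584802154) (nat_lit 35) (nat_lit 5) (nat_lit 39) (nat_lit 5) (nat_lit 36) (nat_lit 5) (nat_lit 325) (nat_lit 297) (nat_lit 98))) (XT.nd (nat_lit 78) (nat_lit 228) (nat_lit 0) (XT.lf (nat_lit 0) (nat_lit 74171392258) (nat_lit 304) (nat_lit 11771689349) (nat_lit 76) (nat_lit 67071035889) (nat_lit 35) (nat_lit 5) (nat_lit 39) (nat_lit 5) (nat_lit 36) (nat_lit 5) (nat_lit 326) (nat_lit 297) (nat_lit 97)) (XT.lf (nat_lit 0) (nat_lit 55223052678) (nat_lit 228) (nat_lit 41449820982) (nat_lit 304) (nat_lit 61520640124) (nat_lit 32) (nat_lit 5) (nat_lit 35) (nat_lit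 5) (nat_lit 36) (nat_lit 5) (nat_lit 327) (nat_lit 297) (nat_lit 96)))) (XT.nd (nat_lit 156) (nat_lit 304) (nat_lit 0) (XT.nd (nat_lit 78) (nat_lit 152) (nat_lit 0) (XT.lf (nat_lit 0) (nat_lit 120584041456) (nat_lit 304) (nat_lit 37731578605) (nat_lit 76) (nat_lit 5302029894) (nat_lit 32) (nat_lit 5) (nat_lit 36) (nat_lit 5) (nat_lit 33) (nat_lit 5) (nat_lit 328) (nat_lit 297) (nat_lit 95)) (XT.lf (nat_lit 0) (nat_lit 31084284531) (nat_lit 152) (nat_lit 115771048823) (nat_lit 228) (nat_lit 22399431949) (nat_lit 30) (nat_lit 5) (nat_lit 32) (nat_lit 5) (nat_lit 33) (nat_lit 5) (nat_lit 329) (nat_lit 297) (nat_lit 94))) (XT.nd (nat_lit 78) (nat_lit 304) (nat_lit 0) (XT.lf (nat_lit 0) (nat_lit 104650552213) (nat_lit 152) (nat_lit 70428394479) (nat_lit 228) (nat_lit 62852508) (nat_lit 30) (nat_lit 5) (nat_lit 32) (nat_lit 5) (nat_lit 33) (nat_lit 5) (nat_lit 330) (nat_lit 297) (nat_lit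 93)) (XT.nd (nat_lit 78) (nat_lit 0) (nat_lit 0) (XT.lf (nat_lit 0) (nat_lit 213245654) (nat_lit 228) (nat_lit 22431757341) (nat_lit 304) (nat_lit 158659768206) (nat_lit 26) (nat_lit 5) (nat_lit 29) (nat_lit 5) (nat_lit 30) (nat_lit 5) (nat_lit 331) (nat_lit 297) (nat_lit 92)) (XT.lf (nat_lit 0) (nat_lit 48135886713) (nat_lit 304) (nat_lit 111273491313) (nat_lit 76) (nat_lit 28283975410) (nat_lit 26) (nat_lit 5) (nat_lit 30) (nat_lit 5) (nat_lit 27) (nat_lit 5) (nat_lit 332) (nat_lit 297) (nat_lit 91)))))) (XT.nd (nat_lit 34944) (nat_lit 0) (nat_lit 3344) (XT.nd (nat_lit 34788) (nat_lit 0) (nat_lit 3344) (XT.nd (nat_lit 78) (nat_lit 152) (nat_lit 0) (XT.lf (nat_lit 0) (nat_lit 75268825727) (nat_lit 304) (nat_lit 38332613944) (nat_lit 76) (nat_lit 80781550068) (nat_lit 26) (nat_lit 5) (nat_lit 30) (nat_lit 5) (nat_lit 27) (nat_lit 5) (nat_lit 333) (nat_lit 297) (nat_lit 90)) (XT.lf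 (nat_lit 0) (nat_lit 39519880906) (nat_lit 152) (nat_lit 64855334864) (nat_lit 228) (nat_lit 97001052372) (nat_lit 24) (nat_lit 5) (nat_lit 26) (nat_lit 5) (nat_lit 27) (nat_lit 5) (nat_lit 334) (nat_lit 297) (nat_lit 89))) (XT.nd (nat_lit 78) (nat_lit 0) (nat_lit 0) (XT.lf (nat_lit 0) (nat_lit 6502463606) (nat_lit 0) (nat_lit 6502463606) (nat_lit 684) (nat_lit 21806647315) (nat_lit 68) (nat_lit 5) (nat_lit 68) (nat_lit 3) (nat_lit 77) (nat_lit 3) (nat_lit 298) (nat_lit 298) (nat_lit 124)) (XT.lf (nat_lit 0) (nat_lit 26942669385) (nat_lit 684) (nat_lit 27649335468) (nat_lit 760) (nat_lit 16757550374) (nat_lit 68) (nat_lit 5) (nat_lit 77) (nat_lit 3) (nat_lit 78) (nat_lit 5) (nat_lit 299) (nat_lit 298) (nat_lit 123)))) (XT.nd (nat_lit 156) (nat_lit 0) (nat_lit 76) (XT.nd (nat_lit 78) (nat_lit 0) (nat_lit 76) (XT.lf (nat_lit 76) (nat_lit 2638816817) (nat_lit 0) (nat_lit 25536922841)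 (nat_lit 760) (nat_lit 44973864146) (nat_lit 69) (nat_lit 5) (nat_lit 68) (nat_lit 5) (nat_lit 78) (nat_lit 5) (nat_lit 300) (nat_lit 298) (nat_lit 122)) (XT.lf (nat_lit 0) (nat_lit 30023259529) (nat_lit 684) (nat_lit 39700708541) (nat_lit 760) (nat_lit 5288049624) (nat_lit 69) (nat_lit 5) (nat_lit 78) (nat_lit 5) (nat_lit 79) (nat_lit 5) (nat_lit 301) (nat_lit 298) (nat_lit 121))) (XT.nd (nat_lit 78) (nat_lit 0) (nat_lit 0) (XT.lf (nat_lit 0) (nat_lit 32381083962) (nat_lit 684) (nat_lit 7769220909) (nat_lit 760) (nat_lit 36796353542) (nat_lit 69) (nat_lit 5) (nat_lit 78) (nat_lit 5) (nat_lit 79) (nat_lit 5) (nat_lit 302) (nat_lit 298) (nat_lit 120)) (XT.nd (nat_lit 78) (nat_lit 0) (nat_lit 76) (XT.lf (nat_lit 76) (nat_lit 26610095430) (nat_lit 0) (nat_lit 8661486626) (nat_lit 760) (nat_lit 43685712431) (nat_lit 70) (nat_lit 5) (nat_lit 69) (nat_lit 5) (nat_lit 79) (nat_lit 5) (nat_lit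 303) (nat_lit 298) (nat_lit 119)) (XT.lf (nat_lit 0) (nat_lit 38820670843) (nat_lit 684) (nat_lit 18467379428) (nat_lit 760) (nat_lit 23754711125) (nat_lit 70) (nat_lit 5) (nat_lit 79) (nat_lit 5) (nat_lit 80) (nat_lit 5) (nat_lit 304) (nat_lit 298) (nat_lit 118))))))))
noncomputable def xc246 : XT := (XT.nd (nat_lit 1404) (nat_lit 1216) (nat_lit 0) (XT.nd (nat_lit 702) (nat_lit 1216) (nat_lit 0) (XT.nd (nat_lit 312) (nat_lit 912) (nat_lit 0) (XT.nd (nat_lit 156) (nat_lit 0) (nat_lit 76) (XT.nd (nat_lit 78) (nat_lit 0) (nat_lit 76) (XT.lf (nat_lit 76) (nat_lit 17524901899) (nat_lit 0) (nat_lit 25437300627) (nat_lit 760) (nat_lit 40249551917) (nat_lit 71) (nat_lit 5) (nat_lit 70) (nat_lit 5) (nat_lit 80) (nat_lit 5) (nat_lit 305) (nat_lit 298) (nat_lit 117)) (XT.lf (nat_lit 0) (nat_lit 47753096799) (nat_lit 684) (nat_lit 29646210502) (nat_lit 760) (nat_lit 8067777648) (nat_lit 71) (nat_lit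 5) (nat_lit 80) (nat_lit 5) (nat_lit 81) (nat_lit 5) (nat_lit 306) (nat_lit 298) (nat_lit 116))) (XT.nd (nat_lit 78) (nat_lit 0) (nat_lit 0) (XT.lf (nat_lit 76) (nat_lit 8036219282) (nat_lit 0) (nat_lit 45289226475) (nat_lit 760) (nat_lit 34482642733) (nat_lit 72) (nat_lit 5) (nat_lit 71) (nat_lit 5) (nat_lit 81) (nat_lit 5) (nat_lit 307) (nat_lit 298) (nat_lit 115)) (XT.lf (nat_lit 76) (nat_lit 48631578642) (nat_lit 0) (nat_lit 11046363492) (nat_lit 760) (nat_lit 30563125486) (nat_lit 72) (nat_lit 5) (nat_lit 71) (nat_lit 5) (nat_lit 81) (nat_lit 5) (nat_lit 308) (nat_lit 298) (nat_lit 114)))) (XT.nd (nat_lit 156) (nat_lit 380) (nat_lit 0) (XT.nd (nat_lit 78) (nat_lit 684) (nat_lit 0) (XT.lf (nat_lit 0) (nat_lit 66736441465) (nat_lit 684) (nat_lit 1928333021) (nat_lit 76) (nat_lit 24111504136) (nat_lit 72) (nat_lit 5) (nat_lit 81) (nat_lit 5) (nat_lit 73) (nat_lit 5) (nat_lit 309)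 (nat_lit 298) (nat_lit 113)) (XT.lf (nat_lit 0) (nat_lit 40863243643) (nat_lit 684) (nat_lit 34103208765) (nat_lit 760) (nat_lit 20430870167) (nat_lit 63) (nat_lit 5) (nat_lit 72) (nat_lit 5) (nat_lit 73) (nat_lit 5) (nat_lit 310) (nat_lit 298) (nat_lit 112))) (XT.nd (nat_lit 78) (nat_lit 380) (nat_lit 0) (XT.lf (nat_lit 0) (nat_lit 83674819498) (nat_lit 760) (nat_lit 12321558542) (nat_lit 76) (nat_lit 2149699557) (nat_lit 63) (nat_lit 5) (nat_lit 73) (nat_lit 5) (nat_lit 64) (nat_lit 5) (nat_lit 311) (nat_lit 298) (nat_lit 111)) (XT.nd (nat_lit 78) (nat_lit 76) (nat_lit 0) (XT.lf (nat_lit 0) (nat_lit 32481710317) (nat_lit 304) (nat_lit 61402643291) (nat_lit 380) (nat_lit 7094630901) (nat_lit 59) (nat_lit 5) (nat_lit 63) (nat_lit 5) (nat_lit 64) (nat_lit 5) (nat_lit 312) (nat_lit 298) (nat_lit 110)) (XT.lf (nat_lit 0) (nat_lit 841644978) (nat_lit 380) (nat_lit 24004201356) (nat_lit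 76) (nat_lit 79096601405) (nat_lit 58) (nat_lit 5) (nat_lit 63) (nat_lit 5) (nat_lit 59) (nat_lit 5) (nat_lit 313) (nat_lit 298) (nat_lit 109)))))) (XT.nd (nat_lit 312) (nat_lit 532) (nat_lit 0) (XT.nd (nat_lit 156) (nat_lit 304) (nat_lit 0) (XT.nd (nat_lit 78) (nat_lit 0) (nat_lit 0) (XT.lf (nat_lit 0) (nat_lit 9519609841) (nat_lit 456) (nat_lit 83905370760) (nat_lit 76) (nat_lit 13594124550) (nat_lit 53) (nat_lit 5) (nat_lit 59) (nat_lit 5) (nat_lit 54) (nat_lit 5) (nat_lit 314) (nat_lit 298) (nat_lit 108)) (XT.lf (nat_lit 0) (nat_lit 19451559430) (nat_lit 456) (nat_lit 37222733729) (nat_lit 76) (nat_lit 53534299245) (nat_lit 53) (nat_lit 5) (nat_lit 59) (nat_lit 5) (nat_lit 54) (nat_lit 5) (nat_lit 315) (nat_lit 298) (nat_lit 107))) (XT.nd (nat_lit 78) (nat_lit 0) (nat_lit 0) (XT.lf (nat_lit 0) (nat_lit 12183576386) (nat_lit 304) (nat_lit 17886359839) (nat_lit 380) (nat_lit 83478127540)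 (nat_lit 49) (nat_lit 5) (nat_lit 53) (nat_lit 5) (nat_lit 54) (nat_lit 5) (nat_lit 316) (nat_lit 298) (nat_lit 106)) (XT.lf (nat_lit 0) (nat_lit 42216184458) (nat_lit 380) (nat_lit 52037866279) (nat_lit 76) (nat_lit 22750611502) (nat_lit 49) (nat_lit 5) (nat_lit 54) (nat_lit 5) (nat_lit 50) (nat_lit 5) (nat_lit 317) (nat_lit 298) (nat_lit 105)))) (XT.nd (nat_lit 156) (nat_lit 228) (nat_lit 0) (XT.nd (nat_lit 78) (nat_lit 304) (nat_lit 0) (XT.lf (nat_lit 0) (nat_lit 55262603975) (nat_lit 380) (nat_lit 538535394) (nat_lit 76) (nat_lit 64818309442) (nat_lit 49) (nat_lit 5) (nat_lit 54) (nat_lit 5) (nat_lit 50) (nat_lit 5) (nat_lit 318) (nat_lit 298) (nat_lit 104)) (XT.lf (nat_lit 0) (nat_lit 55305500334) (nat_lit 304) (nat_lit 14518974997) (nat_lit 380) (nat_lit 54547343901) (nat_lit 45) (nat_lit 5) (nat_lit 49) (nat_lit 5) (nat_lit 50) (nat_lit 5) (nat_lit 319) (nat_lit 298) (nat_lit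 103))) (XT.nd (nat_lit 78) (nat_lit 228) (nat_lit 0) (XT.lf (nat_lit 0) (nat_lit 85573451796) (nat_lit 380) (nat_lit 14801535863) (nat_lit 76) (nat_lit 27913870952) (nat_lit 45) (nat_lit 5) (nat_lit 50) (nat_lit 5) (nat_lit 46) (nat_lit 5) (nat_lit 320) (nat_lit 298) (nat_lit 102)) (XT.nd (nat_lit 78) (nat_lit 0) (nat_lit 0) (XT.lf (nat_lit 0) (nat_lit 43324758050) (nat_lit 228) (nat_lit 59699238541) (nat_lit 304) (nat_lit 29332048360) (nat_lit 42) (nat_lit 5) (nat_lit 45) (nat_lit 5) (nat_lit 46) (nat_lit 5) (nat_lit 321) (nat_lit 298) (nat_lit 101)) (XT.lf (nat_lit 0) (nat_lit 104870873499) (nat_lit 228) (nat_lit 16726558282) (nat_lit 304) (nat_lit 15016641587) (nat_lit 42) (nat_lit 5) (nat_lit 45) (nat_lit 5) (nat_lit 46) (nat_lit 5) (nat_lit 322) (nat_lit 298) (nat_lit 100))))))) (XT.nd (nat_lit 702) (nat_lit 304) (nat_lit 0) (XT.nd (nat_lit 312) (nat_lit 380) (nat_lit 0) (XT.nd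 (nat_lit 156) (nat_lit 228) (nat_lit 0) (XT.nd (nat_lit 78) (nat_lit 0) (nat_lit 0) (XT.lf (nat_lit 0) (nat_lit 922812174) (nat_lit 304) (nat_lit 112164911047) (nat_lit 76) (nat_lit 27951832378) (nat_lit 38) (nat_lit 5) (nat_lit 42) (nat_lit 5) (nat_lit 39) (nat_lit 5) (nat_lit 323) (nat_lit 298) (nat_lit 99)) (XT.lf (nat_lit 0) (nat_lit 17974894849) (nat_lit 304) (nat_lit 52563563068) (nat_lit 76) (nat_lit 75094530403) (nat_lit 38) (nat_lit 5) (nat_lit 42) (nat_lit 5) (nat_lit 39) (nat_lit 5) (nat_lit 324) (nat_lit 298) (nat_lit 98))) (XT.nd (nat_lit 78) (nat_lit 0) (nat_lit 0) (XT.lf (nat_lit 0) (nat_lit 10348723077) (nat_lit 228) (nat_lit 25692153663) (nat_lit 304) (nat_lit 114407151942) (nat_lit 35) (nat_lit 5) (nat_lit 38) (nat_lit 5) (nat_lit 39) (nat_lit 5) (nat_lit 325) (nat_lit 298) (nat_lit 97)) (XT.lf (nat_lit 0) (nat_lit 56248728256) (nat_lit 304) (nat_lit 77576812205)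 (nat_lit 76) (nat_lit 21616352794) (nat_lit 35) (nat_lit 5) (nat_lit 39) (nat_lit 5) (nat_lit 36) (nat_lit 5) (nat_lit 326) (nat_lit 298) (nat_lit 96)))) (XT.nd (nat_lit 156) (nat_lit 152) (nat_lit 0) (XT.nd (nat_lit 78) (nat_lit 228) (nat_lit 0) (XT.lf (nat_lit 0) (nat_lit 77887897185) (nat_lit 304) (nat_lit 12349720124) (nat_lit 76) (nat_lit 70426788191) (nat_lit 35) (nat_lit 5) (nat_lit 39) (nat_lit 5) (nat_lit 36) (nat_lit 5) (nat_lit 327) (nat_lit 298) (nat_lit 95)) (XT.lf (nat_lit 0) (nat_lit 57994588784) (nat_lit 228) (nat_lit 43519648116) (nat_lit 304) (nat_lit 64588546494) (nat_lit 32) (nat_lit 5) (nat_lit 35) (nat_lit 5) (nat_lit 36) (nat_lit 5) (nat_lit 328) (nat_lit 298) (nat_lit 94))) (XT.nd (nat_lit 78) (nat_lit 152) (nat_lit 0) (XT.lf (nat_lit 0) (nat_lit 126620635099) (nat_lit 304) (nat_lit 39607921383) (nat_lit 76) (nat_lit 5569587249) (nat_lit 32) (nat_lit 5) (nat_lit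 36) (nat_lit 5) (nat_lit 33) (nat_lit 5) (nat_lit 329) (nat_lit 298) (nat_lit 93)) (XT.nd (nat_lit 78) (nat_lit 0) (nat_lit 0) (XT.lf (nat_lit 0) (nat_lit 32648569810) (nat_lit 152) (nat_lit 121556727040) (nat_lit 228) (nat_lit 23511828646) (nat_lit 30) (nat_lit 5) (nat_lit 32) (nat_lit 5) (nat_lit 33) (nat_lit 5) (nat_lit 330) (nat_lit 298) (nat_lit 92)) (XT.lf (nat_lit 0) (nat_lit 109892671302) (nat_lit 152) (nat_lit 73947076846) (nat_lit 228) (nat_lit 58780942) (nat_lit 30) (nat_lit 5) (nat_lit 32) (nat_lit 5) (nat_lit 33) (nat_lit 5) (nat_lit 331) (nat_lit 298) (nat_lit 91)))))) (XT.nd (nat_lit 35022) (nat_lit 0) (nat_lit 3192) (XT.nd (nat_lit 156) (nat_lit 0) (nat_lit 0) (XT.nd (nat_lit 78) (nat_lit 0) (nat_lit 0) (XT.lf (nat_lit 0) (nat_lit 233588158) (nat_lit 228) (nat_lit 23550466876) (nat_lit 304) (nat_lit 166585598882) (nat_lit 26) (nat_lit 5) (nat_lit 29) (nat_lit 5) (nat_lit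 30) (nat_lit 5) (nat_lit 332) (nat_lit 298) (nat_lit 90)) (XT.lf (nat_lit 0) (nat_lit 50549201838) (nat_lit 304) (nat_lit 116827650520) (nat_lit 76) (nat_lit 29700827711) (nat_lit 26) (nat_lit 5) (nat_lit 30) (nat_lit 5) (nat_lit 27) (nat_lit 5) (nat_lit 333) (nat_lit 298) (nat_lit 89))) (XT.nd (nat_lit 34788) (nat_lit 0) (nat_lit 3192) (XT.lf (nat_lit 0) (nat_lit 79038477289) (nat_lit 304) (nat_lit 40240182395) (nat_lit 76) (nat_lit 84823154744) (nat_lit 26) (nat_lit 5) (nat_lit 30) (nat_lit 5) (nat_lit 27) (nat_lit 5) (nat_lit 334) (nat_lit 298) (nat_lit 88)) (XT.lf (nat_lit 0) (nat_lit 6833633645) (nat_lit 0) (nat_lit 6833633645) (nat_lit 684) (nat_lit 22884237842) (nat_lit 68) (nat_lit 5) (nat_lit 68) (nat_lit 3) (nat_lit 77) (nat_lit 3) (nat_lit 299) (nat_lit 299) (nat_lit 122)))) (XT.nd (nat_lit 156) (nat_lit 0) (nat_lit 76) (XT.nd (nat_lit 78) (nat_lit 0) (nat_lit 0) (XT.lf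 (nat_lit 0) (nat_lit 28312658680) (nat_lit 684) (nat_lit 29018870072) (nat_lit 760) (nat_lit 17584278710) (nat_lit 68) (nat_lit 5) (nat_lit 77) (nat_lit 3) (nat_lit 78) (nat_lit 5) (nat_lit 300) (nat_lit 299) (nat_lit 121)) (XT.lf (nat_lit 76) (nat_lit 2783481244) (nat_lit 0) (nat_lit 26823011500) (nat_lit 760) (nat_lit 47199414149) (nat_lit 69) (nat_lit 5) (nat_lit 68) (nat_lit 5) (nat_lit 78) (nat_lit 5) (nat_lit 301) (nat_lit 299) (nat_lit 120))) (XT.nd (nat_lit 78) (nat_lit 0) (nat_lit 0) (XT.lf (nat_lit 0) (nat_lit 31545205174) (nat_lit 684) (nat_lit 41672367788) (nat_lit 760) (nat_lit 5543931439) (nat_lit 69) (nat_lit 5) (nat_lit 78) (nat_lit 5) (nat_lit 79) (nat_lit 5) (nat_lit 302) (nat_lit 299) (nat_lit 119)) (XT.nd (nat_lit 78) (nat_lit 0) (nat_lit 0) (XT.lf (nat_lit 0) (nat_lit 34019931178) (nat_lit 684) (nat_lit 8144942735) (nat_lit 760) (nat_lit 38628056300) (nat_lit 69)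 (nat_lit 5) (nat_lit 78) (nat_lit 5) (nat_lit 79) (nat_lit 5) (nat_lit 303) (nat_lit 299) (nat_lit 118)) (XT.lf (nat_lit 76) (nat_lit 27953133949) (nat_lit 0) (nat_lit 9101073389) (nat_lit 760) (nat_lit 45849931496) (nat_lit 70) (nat_lit 5) (nat_lit 69) (nat_lit 5) (nat_lit 79) (nat_lit 5) (nat_lit 304) (nat_lit 299) (nat_lit 117))))))))
noncomputable def xc247 : XT := (XT.nd (nat_lit 1404) (nat_lit 1216) (nat_lit 0) (XT.nd (nat_lit 702) (nat_lit 1292) (nat_lit 0) (XT.nd (nat_lit 312) (nat_lit 836) (nat_lit 0) (XT.nd (nat_lit 156) (nat_lit 0) (nat_lit 76) (XT.nd (nat_lit 78) (nat_lit 0) (nat_lit 0) (XT.lf (nat_lit 0) (nat_lit 40779746769) (nat_lit 684) (nat_lit 19377742875) (nat_lit 760) (nat_lit 24936442878) (nat_lit 70) (nat_lit 5) (nat_lit 79) (nat_lit 5) (nat_lit 80) (nat_lit 5) (nat_lit 305) (nat_lit 299) (nat_lit 116)) (XT.lf (nat_lit 76) (nat_lit 18413942753) (nat_lit 0) (nat_lit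 26713752900) (nat_lit 760) (nat_lit 42243715624) (nat_lit 71) (nat_lit 5) (nat_lit 70) (nat_lit 5) (nat_lit 80) (nat_lit 5) (nat_lit 306) (nat_lit 299) (nat_lit 115))) (XT.nd (nat_lit 78) (nat_lit 0) (nat_lit 0) (XT.lf (nat_lit 0) (nat_lit 50157238668) (nat_lit 684) (nat_lit 31115379820) (nat_lit 760) (nat_lit 8466937558) (nat_lit 71) (nat_lit 5) (nat_lit 80) (nat_lit 5) (nat_lit 81) (nat_lit 5) (nat_lit 307) (nat_lit 299) (nat_lit 114)) (XT.lf (nat_lit 76) (nat_lit 8450959498) (nat_lit 0) (nat_lit 47556662341) (nat_lit 760) (nat_lit 36190019887) (nat_lit 72) (nat_lit 5) (nat_lit 71) (nat_lit 5) (nat_lit 81) (nat_lit 5) (nat_lit 308) (nat_lit 299) (nat_lit 113)))) (XT.nd (nat_lit 156) (nat_lit 912) (nat_lit 0) (XT.nd (nat_lit 78) (nat_lit 0) (nat_lit 76) (XT.lf (nat_lit 76) (nat_lit 51075471148) (nat_lit 0) (nat_lit 11601514564) (nat_lit 760) (nat_lit 32075324634) (nat_lit 72) (nat_lit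 5) (nat_lit 71) (nat_lit 5) (nat_lit 81) (nat_lit 5) (nat_lit 309) (nat_lit 299) (nat_lit 112)) (XT.lf (nat_lit 0) (nat_lit 70087646625) (nat_lit 684) (nat_lit 2012208282) (nat_lit 76) (nat_lit 25314467698) (nat_lit 72) (nat_lit 5) (nat_lit 81) (nat_lit 5) (nat_lit 73) (nat_lit 5) (nat_lit 310) (nat_lit 299) (nat_lit 111))) (XT.nd (nat_lit 78) (nat_lit 304) (nat_lit 0) (XT.lf (nat_lit 0) (nat_lit 42918744934) (nat_lit 684) (nat_lit 35809920920) (nat_lit 760) (nat_lit 21437779934) (nat_lit 63) (nat_lit 5) (nat_lit 72) (nat_lit 5) (nat_lit 73) (nat_lit 5) (nat_lit 311) (nat_lit 299) (nat_lit 110)) (XT.nd (nat_lit 78) (nat_lit 304) (nat_lit 0) (XT.lf (nat_lit 0) (nat_lit 87871766757) (nat_lit 760) (nat_lit 12925154326) (nat_lit 76) (nat_lit 2255754009) (nat_lit 63) (nat_lit 5) (nat_lit 73) (nat_lit 5) (nat_lit 64) (nat_lit 5) (nat_lit 312) (nat_lit 299) (nat_lit 109)) (XT.lf (nat_lit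 0) (nat_lit 34118076652) (nat_lit 304) (nat_lit 64473263789) (nat_lit 380) (nat_lit 7435910960) (nat_lit 59) (nat_lit 5) (nat_lit 63) (nat_lit 5) (nat_lit 64) (nat_lit 5) (nat_lit 313) (nat_lit 299) (nat_lit 108)))))) (XT.nd (nat_lit 312) (nat_lit 532) (nat_lit 0) (XT.nd (nat_lit 156) (nat_lit 304) (nat_lit 0) (XT.nd (nat_lit 78) (nat_lit 380) (nat_lit 0) (XT.lf (nat_lit 0) (nat_lit 896128137) (nat_lit 380) (nat_lit 25192265578) (nat_lit 76) (nat_lit 83050516568) (nat_lit 58) (nat_lit 5) (nat_lit 63) (nat_lit 5) (nat_lit 59) (nat_lit 5) (nat_lit 314) (nat_lit 299) (nat_lit 107)) (XT.lf (nat_lit 0) (nat_lit 10007586561) (nat_lit 456) (nat_lit 88088050869) (nat_lit 76) (nat_lit 14273785265) (nat_lit 53) (nat_lit 5) (nat_lit 59) (nat_lit 5) (nat_lit 54) (nat_lit 5) (nat_lit 315) (nat_lit 299) (nat_lit 106))) (XT.nd (nat_lit 78) (nat_lit 304) (nat_lit 0) (XT.lf (nat_lit 0) (nat_lit 20435562381)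 (nat_lit 456) (nat_lit 39071881435) (nat_lit 76) (nat_lit 56210970862) (nat_lit 53) (nat_lit 5) (nat_lit 59) (nat_lit 5) (nat_lit 54) (nat_lit 5) (nat_lit 316) (nat_lit 299) (nat_lit 105)) (XT.lf (nat_lit 0) (nat_lit 12804550815) (nat_lit 304) (nat_lit 18779947317) (nat_lit 380) (nat_lit 87640381189) (nat_lit 49) (nat_lit 5) (nat_lit 53) (nat_lit 5) (nat_lit 54) (nat_lit 5) (nat_lit 317) (nat_lit 299) (nat_lit 104)))) (XT.nd (nat_lit 156) (nat_lit 532) (nat_lit 0) (XT.nd (nat_lit 78) (nat_lit 0) (nat_lit 0) (XT.lf (nat_lit 0) (nat_lit 44337542729) (nat_lit 380) (nat_lit 54627976891) (nat_lit 76) (nat_lit 23888815538) (nat_lit 49) (nat_lit 5) (nat_lit 54) (nat_lit 5) (nat_lit 50) (nat_lit 5) (nat_lit 318) (nat_lit 299) (nat_lit 103)) (XT.lf (nat_lit 0) (nat_lit 58035780887) (nat_lit 380) (nat_lit 554240542) (nat_lit 76) (nat_lit 68059866305) (nat_lit 49) (nat_lit 5) (nat_lit 54) (nat_lit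 5) (nat_lit 50) (nat_lit 5) (nat_lit 319) (nat_lit 299) (nat_lit 102))) (XT.nd (nat_lit 78) (nat_lit 228) (nat_lit 0) (XT.lf (nat_lit 0) (nat_lit 58081815979) (nat_lit 304) (nat_lit 15243623792) (nat_lit 380) (nat_lit 57264453693) (nat_lit 45) (nat_lit 5) (nat_lit 49) (nat_lit 5) (nat_lit 50) (nat_lit 5) (nat_lit 320) (nat_lit 299) (nat_lit 101)) (XT.nd (nat_lit 78) (nat_lit 228) (nat_lit 0) (XT.lf (nat_lit 0) (nat_lit 89861420547) (nat_lit 380) (nat_lit 15530624978) (nat_lit 76) (nat_lit 29310762927) (nat_lit 45) (nat_lit 5) (nat_lit 50) (nat_lit 5) (nat_lit 46) (nat_lit 5) (nat_lit 321) (nat_lit 299) (nat_lit 100)) (XT.lf (nat_lit 0) (nat_lit 45501806411) (nat_lit 228) (nat_lit 62682412277) (nat_lit 304) (nat_lit 30789150460) (nat_lit 42) (nat_lit 5) (nat_lit 45) (nat_lit 5) (nat_lit 46) (nat_lit 5) (nat_lit 322) (nat_lit 299) (nat_lit 99))))))) (XT.nd (nat_lit 702) (nat_lit 304)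 (nat_lit 0) (XT.nd (nat_lit 312) (nat_lit 380) (nat_lit 0) (XT.nd (nat_lit 156) (nat_lit 228) (nat_lit 0) (XT.nd (nat_lit 78) (nat_lit 304) (nat_lit 0) (XT.lf (nat_lit 0) (nat_lit 110124712848) (nat_lit 228) (nat_lit 17561183158) (nat_lit 304) (nat_lit 15758425744) (nat_lit 42) (nat_lit 5) (nat_lit 45) (nat_lit 5) (nat_lit 46) (nat_lit 5) (nat_lit 323) (nat_lit 299) (nat_lit 98)) (XT.lf (nat_lit 0) (nat_lit 977487226) (nat_lit 304) (nat_lit 117762299746) (nat_lit 76) (nat_lit 29351296416) (nat_lit 38) (nat_lit 5) (nat_lit 42) (nat_lit 5) (nat_lit 39) (nat_lit 5) (nat_lit 324) (nat_lit 299) (nat_lit 97))) (XT.nd (nat_lit 78) (nat_lit 228) (nat_lit 0) (XT.lf (nat_lit 0) (nat_lit 18881767634) (nat_lit 304) (nat_lit 55181401362) (nat_lit 76) (nat_lit 78851040179) (nat_lit 38) (nat_lit 5) (nat_lit 42) (nat_lit 5) (nat_lit 39) (nat_lit 5) (nat_lit 325) (nat_lit 299) (nat_lit 96)) (XT.lf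 (nat_lit 0) (nat_lit 10876332319) (nat_lit 228) (nat_lit 26974488080) (nat_lit 304) (nat_lit 120119193620) (nat_lit 35) (nat_lit 5) (nat_lit 38) (nat_lit 5) (nat_lit 39) (nat_lit 5) (nat_lit 326) (nat_lit 299) (nat_lit 95)))) (XT.nd (nat_lit 156) (nat_lit 380) (nat_lit 0) (XT.nd (nat_lit 78) (nat_lit 0) (nat_lit 0) (XT.lf (nat_lit 0) (nat_lit 59068722111) (nat_lit 304) (nat_lit 81445601680) (nat_lit 76) (nat_lit 22699266154) (nat_lit 35) (nat_lit 5) (nat_lit 39) (nat_lit 5) (nat_lit 36) (nat_lit 5) (nat_lit 327) (nat_lit 299) (nat_lit 94)) (XT.lf (nat_lit 0) (nat_lit 81789489609) (nat_lit 304) (nat_lit 12957633620) (nat_lit 76) (nat_lit 73950123525) (nat_lit 35) (nat_lit 5) (nat_lit 39) (nat_lit 5) (nat_lit 36) (nat_lit 5) (nat_lit 328) (nat_lit 299) (nat_lit 93))) (XT.nd (nat_lit 78) (nat_lit 152) (nat_lit 0) (XT.lf (nat_lit 0) (nat_lit 60903736338) (nat_lit 228) (nat_lit 45693214274)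 (nat_lit 304) (nat_lit 67810603628) (nat_lit 32) (nat_lit 5) (nat_lit 35) (nat_lit 5) (nat_lit 36) (nat_lit 5) (nat_lit 329) (nat_lit 299) (nat_lit 92)) (XT.nd (nat_lit 78) (nat_lit 152) (nat_lit 0) (XT.lf (nat_lit 0) (nat_lit 132958371227) (nat_lit 304) (nat_lit 41579032961) (nat_lit 76) (nat_lit 5850294148) (nat_lit 32) (nat_lit 5) (nat_lit 36) (nat_lit 5) (nat_lit 33) (nat_lit 5) (nat_lit 330) (nat_lit 299) (nat_lit 91)) (XT.lf (nat_lit 0) (nat_lit 34290133042) (nat_lit 152) (nat_lit 127631956386) (nat_lit 228) (nat_lit 24680549419) (nat_lit 30) (nat_lit 5) (nat_lit 32) (nat_lit 5) (nat_lit 33) (nat_lit 5) (nat_lit 331) (nat_lit 299) (nat_lit 90)))))) (XT.nd (nat_lit 35256) (nat_lit 0) (nat_lit 3268) (XT.nd (nat_lit 35022) (nat_lit 0) (nat_lit 3192) (XT.nd (nat_lit 78) (nat_lit 304) (nat_lit 0) (XT.lf (nat_lit 0) (nat_lit 115396004620) (nat_lit 152) (nat_lit 77641947826) (nat_lit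 228) (nat_lit 55176504) (nat_lit 30) (nat_lit 5) (nat_lit 32) (nat_lit 5) (nat_lit 33) (nat_lit 5) (nat_lit 332) (nat_lit 299) (nat_lit 89)) (XT.lf (nat_lit 0) (nat_lit 254047813) (nat_lit 228) (nat_lit 24725379488) (nat_lit 304) (nat_lit 174908386551) (nat_lit 26) (nat_lit 5) (nat_lit 29) (nat_lit 5) (nat_lit 30) (nat_lit 5) (nat_lit 333) (nat_lit 299) (nat_lit 88))) (XT.nd (nat_lit 78) (nat_lit 0) (nat_lit 0) (XT.lf (nat_lit 0) (nat_lit 7180800006) (nat_lit 0) (nat_lit 7180800006) (nat_lit 684) (nat_lit 24016892511) (nat_lit 68) (nat_lit 5) (nat_lit 68) (nat_lit 3) (nat_lit 77) (nat_lit 3) (nat_lit 300) (nat_lit 300) (nat_lit 120)) (XT.nd (nat_lit 78) (nat_lit 0) (nat_lit 0) (XT.lf (nat_lit 0) (nat_lit 29749022521) (nat_lit 684) (nat_lit 30458083717) (nat_lit 760) (nat_lit 18453380008) (nat_lit 68) (nat_lit 5) (nat_lit 77) (nat_lit 3) (nat_lit 78) (nat_lit 5) (nat_lit 301) (nat_lit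 300) (nat_lit 119)) (XT.lf (nat_lit 76) (nat_lit 2934195974) (nat_lit 0) (nat_lit 28172545311) (nat_lit 760) (nat_lit 49538393287) (nat_lit 69) (nat_lit 5) (nat_lit 68) (nat_lit 5) (nat_lit 78) (nat_lit 5) (nat_lit 302) (nat_lit 300) (nat_lit 118))))) (XT.nd (nat_lit 156) (nat_lit 0) (nat_lit 0) (XT.nd (nat_lit 78) (nat_lit 0) (nat_lit 0) (XT.lf (nat_lit 0) (nat_lit 33141315926) (nat_lit 684) (nat_lit 43743853588) (nat_lit 760) (nat_lit 5813399517) (nat_lit 69) (nat_lit 5) (nat_lit 78) (nat_lit 5) (nat_lit 79) (nat_lit 5) (nat_lit 303) (nat_lit 300) (nat_lit 117)) (XT.lf (nat_lit 0) (nat_lit 35738880587) (nat_lit 684) (nat_lit 8540635025) (nat_lit 760) (nat_lit 40552098643) (nat_lit 69) (nat_lit 5) (nat_lit 78) (nat_lit 5) (nat_lit 79) (nat_lit 5) (nat_lit 304) (nat_lit 300) (nat_lit 116))) (XT.nd (nat_lit 78) (nat_lit 0) (nat_lit 76) (XT.lf (nat_lit 76) (nat_lit 29362159125) (nat_lit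 0) (nat_lit 9562034026) (nat_lit 760) (nat_lit 48124227113) (nat_lit 70) (nat_lit 5) (nat_lit 69) (nat_lit 5) (nat_lit 79) (nat_lit 5) (nat_lit 305) (nat_lit 300) (nat_lit 115)) (XT.nd (nat_lit 78) (nat_lit 0) (nat_lit 0) (XT.lf (nat_lit 0) (nat_lit 42835099081) (nat_lit 684) (nat_lit 20334833624) (nat_lit 760) (nat_lit 26177819396) (nat_lit 70) (nat_lit 5) (nat_lit 79) (nat_lit 5) (nat_lit 80) (nat_lit 5) (nat_lit 306) (nat_lit 300) (nat_lit 114)) (XT.lf (nat_lit 76) (nat_lit 19346246021) (nat_lit 0) (nat_lit 28053601308) (nat_lit 760) (nat_lit 44339290168) (nat_lit 71) (nat_lit 5) (nat_lit 70) (nat_lit 5) (nat_lit 80) (nat_lit 5) (nat_lit 307) (nat_lit 300) (nat_lit 113))))))))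
noncomputable def xc248 : XT := (XT.nd (nat_lit 1404) (nat_lit 608) (nat_lit 0) (XT.nd (nat_lit 702) (nat_lit 1140) (nat_lit 0) (XT.nd (nat_lit 312) (nat_lit 1368) (nat_lit 0) (XT.nd (nat_lit 156) (nat_lit 0) (nat_lit 0) (XT.nd (nat_lit 78) (nat_lit 0) (nat_lit 0) (XT.lf (nat_lit 0) (nat_lit 52680054822) (nat_lit 684) (nat_lit 32659229349) (nat_lit 760) (nat_lit 8886448634) (nat_lit 71) (nat_lit 5) (nat_lit 80) (nat_lit 5) (nat_lit 81) (nat_lit 5) (nat_lit 308) (nat_lit 300) (nat_lit 112)) (XT.lf (nat_lit 76) (nat_lit 8885234686) (nat_lit 0) (nat_lit 49937193455) (nat_lit 760) (nat_lit 37984323618) (nat_lit 72) (nat_lit 5) (nat_lit 71) (nat_lit 5) (nat_lit 81) (nat_lit 5) (nat_lit 309) (nat_lit 300) (nat_lit 111))) (XT.nd (nat_lit 78) (nat_lit 0) (nat_lit 76) (XT.lf (nat_lit 76) (nat_lit 53640413479) (nat_lit 0) (nat_lit 12184159813) (nat_lit 760) (nat_lit 33664617282) (nat_lit 72)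 (nat_lit 5) (nat_lit 71) (nat_lit 5) (nat_lit 81) (nat_lit 5) (nat_lit 310) (nat_lit 300) (nat_lit 110)) (XT.lf (nat_lit 0) (nat_lit 73605074840) (nat_lit 684) (nat_lit 2101443287) (nat_lit 76) (nat_lit 26577822245) (nat_lit 72) (nat_lit 5) (nat_lit 81) (nat_lit 5) (nat_lit 73) (nat_lit 5) (nat_lit 311) (nat_lit 300) (nat_lit 109)))) (XT.nd (nat_lit 156) (nat_lit 760) (nat_lit 0) (XT.nd (nat_lit 78) (nat_lit 0) (nat_lit 0) (XT.lf (nat_lit 0) (nat_lit 45075874116) (nat_lit 684) (nat_lit 37601824419) (nat_lit 760) (nat_lit 22496395696) (nat_lit 63) (nat_lit 5) (nat_lit 72) (nat_lit 5) (nat_lit 73) (nat_lit 5) (nat_lit 312) (nat_lit 300) (nat_lit 108)) (XT.lf (nat_lit 0) (nat_lit 92277333585) (nat_lit 760) (nat_lit 13560090370) (nat_lit 76) (nat_lit 2367244180) (nat_lit 63) (nat_lit 5) (nat_lit 73) (nat_lit 5) (nat_lit 64) (nat_lit 5) (nat_lit 313) (nat_lit 300) (nat_lit 107))) (XT.nd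 (nat_lit 78) (nat_lit 456) (nat_lit 0) (XT.lf (nat_lit 0) (nat_lit 35835119549) (nat_lit 304) (nat_lit 67697369911) (nat_lit 380) (nat_lit 7795505613) (nat_lit 59) (nat_lit 5) (nat_lit 63) (nat_lit 5) (nat_lit 64) (nat_lit 5) (nat_lit 314) (nat_lit 300) (nat_lit 106)) (XT.nd (nat_lit 78) (nat_lit 380) (nat_lit 0) (XT.lf (nat_lit 0) (nat_lit 952182534) (nat_lit 380) (nat_lit 26440862217) (nat_lit 76) (nat_lit 87202212549) (nat_lit 58) (nat_lit 5) (nat_lit 63) (nat_lit 5) (nat_lit 59) (nat_lit 5) (nat_lit 315) (nat_lit 300) (nat_lit 105)) (XT.lf (nat_lit 0) (nat_lit 10518846822) (nat_lit 456) (nat_lit 92481035336) (nat_lit 76) (nat_lit 14987433247) (nat_lit 53) (nat_lit 5) (nat_lit 59) (nat_lit 5) (nat_lit 54) (nat_lit 5) (nat_lit 316) (nat_lit 300) (nat_lit 104)))))) (XT.nd (nat_lit 312) (nat_lit 836) (nat_lit 0) (XT.nd (nat_lit 156) (nat_lit 0) (nat_lit 0) (XT.nd (nat_lit 78) (nat_lit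 304) (nat_lit 0) (XT.lf (nat_lit 0) (nat_lit 21467703292) (nat_lit 456) (nat_lit 41014601148) (nat_lit 76) (nat_lit 59021480090) (nat_lit 53) (nat_lit 5) (nat_lit 59) (nat_lit 5) (nat_lit 54) (nat_lit 5) (nat_lit 317) (nat_lit 300) (nat_lit 103)) (XT.lf (nat_lit 0) (nat_lit 13455477322) (nat_lit 304) (nat_lit 19718282084) (nat_lit 380) (nat_lit 92011830881) (nat_lit 49) (nat_lit 5) (nat_lit 53) (nat_lit 5) (nat_lit 54) (nat_lit 5) (nat_lit 318) (nat_lit 300) (nat_lit 102))) (XT.nd (nat_lit 78) (nat_lit 0) (nat_lit 0) (XT.lf (nat_lit 0) (nat_lit 46563988163) (nat_lit 380) (nat_lit 57348688477) (nat_lit 76) (nat_lit 25083867163) (nat_lit 49) (nat_lit 5) (nat_lit 54) (nat_lit 5) (nat_lit 50) (nat_lit 5) (nat_lit 319) (nat_lit 300) (nat_lit 101)) (XT.lf (nat_lit 0) (nat_lit 60946682595) (nat_lit 380) (nat_lit 571774228) (nat_lit 76) (nat_lit 71463441381) (nat_lit 49) (nat_lit 5) (nat_lit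 54) (nat_lit 5) (nat_lit 50) (nat_lit 5) (nat_lit 320) (nat_lit 300) (nat_lit 100)))) (XT.nd (nat_lit 156) (nat_lit 532) (nat_lit 0) (XT.nd (nat_lit 78) (nat_lit 0) (nat_lit 0) (XT.lf (nat_lit 0) (nat_lit 60995920952) (nat_lit 304) (nat_lit 16004625884) (nat_lit 380) (nat_lit 60118372610) (nat_lit 45) (nat_lit 5) (nat_lit 49) (nat_lit 5) (nat_lit 50) (nat_lit 5) (nat_lit 321) (nat_lit 300) (nat_lit 99)) (XT.lf (nat_lit 0) (nat_lit 94362923466) (nat_lit 380) (nat_lit 16297190078) (nat_lit 76) (nat_lit 30777388081) (nat_lit 45) (nat_lit 5) (nat_lit 50) (nat_lit 5) (nat_lit 46) (nat_lit 5) (nat_lit 322) (nat_lit 300) (nat_lit 98))) (XT.nd (nat_lit 78) (nat_lit 304) (nat_lit 0) (XT.lf (nat_lit 0) (nat_lit 47786702136) (nat_lit 228) (nat_lit 65814910950) (nat_lit 304) (nat_lit 32319990915) (nat_lit 42) (nat_lit 5) (nat_lit 45) (nat_lit 5) (nat_lit 46) (nat_lit 5) (nat_lit 323) (nat_lit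 300) (nat_lit 97)) (XT.nd (nat_lit 78) (nat_lit 304) (nat_lit 0) (XT.lf (nat_lit 0) (nat_lit 115640286971) (nat_lit 228) (nat_lit 18437697610) (nat_lit 304) (nat_lit 16538140300) (nat_lit 42) (nat_lit 5) (nat_lit 45) (nat_lit 5) (nat_lit 46) (nat_lit 5) (nat_lit 324) (nat_lit 300) (nat_lit 96)) (XT.lf (nat_lit 0) (nat_lit 1034102580) (nat_lit 304) (nat_lit 123640567248) (nat_lit 76) (nat_lit 30820559575) (nat_lit 38) (nat_lit 5) (nat_lit 42) (nat_lit 5) (nat_lit 39) (nat_lit 5) (nat_lit 325) (nat_lit 300) (nat_lit 95))))))) (XT.nd (nat_lit 35724) (nat_lit 0) (nat_lit 2888) (XT.nd (nat_lit 312) (nat_lit 380) (nat_lit 0) (XT.nd (nat_lit 156) (nat_lit 0) (nat_lit 0) (XT.nd (nat_lit 78) (nat_lit 228) (nat_lit 0) (XT.lf (nat_lit 0) (nat_lit 19833228389) (nat_lit 304) (nat_lit 57931092872) (nat_lit 76) (nat_lit 82795209653) (nat_lit 38) (nat_lit 5) (nat_lit 42) (nat_lit 5) (nat_lit 39) (nat_lit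 5) (nat_lit 326) (nat_lit 300) (nat_lit 94)) (XT.lf (nat_lit 0) (nat_lit 11429376226) (nat_lit 228) (nat_lit 28321150566) (nat_lit 304) (nat_lit 126117610517) (nat_lit 35) (nat_lit 5) (nat_lit 38) (nat_lit 5) (nat_lit 39) (nat_lit 5) (nat_lit 327) (nat_lit 300) (nat_lit 93))) (XT.nd (nat_lit 78) (nat_lit 0) (nat_lit 0) (XT.lf (nat_lit 0) (nat_lit 62029013040) (nat_lit 304) (nat_lit 85508765087) (nat_lit 76) (nat_lit 23836130343) (nat_lit 35) (nat_lit 5) (nat_lit 39) (nat_lit 5) (nat_lit 36) (nat_lit 5) (nat_lit 328) (nat_lit 300) (nat_lit 92)) (XT.lf (nat_lit 0) (nat_lit 85885492492) (nat_lit 304) (nat_lit 13596832751) (nat_lit 76) (nat_lit 77649440064) (nat_lit 35) (nat_lit 5) (nat_lit 39) (nat_lit 5) (nat_lit 36) (nat_lit 5) (nat_lit 329) (nat_lit 300) (nat_lit 91)))) (XT.nd (nat_lit 156) (nat_lit 152) (nat_lit 0) (XT.nd (nat_lit 78) (nat_lit 0) (nat_lit 0) (XT.lf (nat_lit 0) (nat_lit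 63957465663) (nat_lit 228) (nat_lit 47975683378) (nat_lit 304) (nat_lit 71194448828) (nat_lit 32) (nat_lit 5) (nat_lit 35) (nat_lit 5) (nat_lit 36) (nat_lit 5) (nat_lit 330) (nat_lit 300) (nat_lit 90)) (XT.lf (nat_lit 0) (nat_lit 139612370851) (nat_lit 304) (nat_lit 43649563302) (nat_lit 76) (nat_lit 6144829297) (nat_lit 32) (nat_lit 5) (nat_lit 36) (nat_lit 5) (nat_lit 33) (nat_lit 5) (nat_lit 331) (nat_lit 300) (nat_lit 89))) (XT.nd (nat_lit 35100) (nat_lit 0) (nat_lit 2888) (XT.lf (nat_lit 0) (nat_lit 36012925174) (nat_lit 152) (nat_lit 134011189574) (nat_lit 228) (nat_lit 25908345000) (nat_lit 30) (nat_lit 5) (nat_lit 32) (nat_lit 5) (nat_lit 33) (nat_lit 5) (nat_lit 332) (nat_lit 300) (nat_lit 88)) (XT.nd (nat_lit 78) (nat_lit 0) (nat_lit 0) (XT.lf (nat_lit 0) (nat_lit 7544814771) (nat_lit 0) (nat_lit 7544814771) (nat_lit 684) (nat_lit 25207254394) (nat_lit 68) (nat_lit 5) (nat_lit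 68) (nat_lit 3) (nat_lit 77) (nat_lit 3) (nat_lit 301) (nat_lit 301) (nat_lit 118)) (XT.lf (nat_lit 0) (nat_lit 31255277191) (nat_lit 684) (nat_lit 31970348575) (nat_lit 760) (nat_lit 19366876548) (nat_lit 68) (nat_lit 5) (nat_lit 77) (nat_lit 3) (nat_lit 78) (nat_lit 5) (nat_lit 302) (nat_lit 301) (nat_lit 117)))))) (XT.nd (nat_lit 312) (nat_lit 0) (nat_lit 152) (XT.nd (nat_lit 156) (nat_lit 0) (nat_lit 76) (XT.nd (nat_lit 78) (nat_lit 0) (nat_lit 76) (XT.lf (nat_lit 76) (nat_lit 3091373498) (nat_lit 0) (nat_lit 29588776418) (nat_lit 760) (nat_lit 51996272980) (nat_lit 69) (nat_lit 5) (nat_lit 68) (nat_lit 5) (nat_lit 78) (nat_lit 5) (nat_lit 303) (nat_lit 301) (nat_lit 116)) (XT.lf (nat_lit 0) (nat_lit 34815479675) (nat_lit 684) (nat_lit 45920041651) (nat_lit 760) (nat_lit 6097059520) (nat_lit 69) (nat_lit 5) (nat_lit 78) (nat_lit 5) (nat_lit 79) (nat_lit 5) (nat_lit 304) (nat_lit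 301) (nat_lit 115))) (XT.nd (nat_lit 78) (nat_lit 0) (nat_lit 0) (XT.lf (nat_lit 0) (nat_lit 37542108381) (nat_lit 684) (nat_lit 8957186189) (nat_lit 760) (nat_lit 42573027411) (nat_lit 69) (nat_lit 5) (nat_lit 78) (nat_lit 5) (nat_lit 79) (nat_lit 5) (nat_lit 305) (nat_lit 301) (nat_lit 114)) (XT.lf (nat_lit 76) (nat_lit 30840578627) (nat_lit 0) (nat_lit 10045493521) (nat_lit 760) (nat_lit 50513929664) (nat_lit 70) (nat_lit 5) (nat_lit 69) (nat_lit 5) (nat_lit 79) (nat_lit 5) (nat_lit 306) (nat_lit 301) (nat_lit 113)))) (XT.nd (nat_lit 156) (nat_lit 0) (nat_lit 76) (XT.nd (nat_lit 78) (nat_lit 0) (nat_lit 0) (XT.lf (nat_lit 0) (nat_lit 44991697548) (nat_lit 684) (nat_lit 21340875627) (nat_lit 760) (nat_lit 27481771022) (nat_lit 70) (nat_lit 5) (nat_lit 79) (nat_lit 5) (nat_lit 80) (nat_lit 5) (nat_lit 307) (nat_lit 301) (nat_lit 112)) (XT.lf (nat_lit 76) (nat_lit 20324085424) (nat_lit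 0) (nat_lit 29460055308) (nat_lit 760) (nat_lit 46541187795) (nat_lit 71) (nat_lit 5) (nat_lit 70) (nat_lit 5) (nat_lit 80) (nat_lit 5) (nat_lit 308) (nat_lit 301) (nat_lit 111))) (XT.nd (nat_lit 78) (nat_lit 0) (nat_lit 0) (XT.lf (nat_lit 0) (nat_lit 55327621483) (nat_lit 684) (nat_lit 34281379513) (nat_lit 760) (nat_lit 9327291880) (nat_lit 71) (nat_lit 5) (nat_lit 80) (nat_lit 5) (nat_lit 81) (nat_lit 5) (nat_lit 309) (nat_lit 301) (nat_lit 110)) (XT.nd (nat_lit 78) (nat_lit 0) (nat_lit 0) (XT.lf (nat_lit 76) (nat_lit 9340133348) (nat_lit 0) (nat_lit 52436500291) (nat_lit 760) (nat_lit 39869755433) (nat_lit 72) (nat_lit 5) (nat_lit 71) (nat_lit 5) (nat_lit 81) (nat_lit 5) (nat_lit 310) (nat_lit 301) (nat_lit 109)) (XT.lf (nat_lit 76) (nat_lit 56332564561) (nat_lit 0) (nat_lit 12795698435) (nat_lit 760) (nat_lit 35334720178) (nat_lit 72) (nat_lit 5) (nat_lit 71) (nat_lit 5) (nat_lit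 81) (nat_lit 5) (nat_lit 311) (nat_lit 301) (nat_lit 108))))))))
noncomputable def xc249 : XT := (XT.nd (nat_lit 1404) (nat_lit 228) (nat_lit 0) (XT.nd (nat_lit 702) (nat_lit 1064) (nat_lit 0) (XT.nd (nat_lit 312) (nat_lit 760) (nat_lit 0) (XT.nd (nat_lit 156) (nat_lit 304) (nat_lit 0) (XT.nd (nat_lit 78) (nat_lit 684) (nat_lit 0) (XT.lf (nat_lit 0) (nat_lit 77297161583) (nat_lit 684) (nat_lit 2196197619) (nat_lit 76) (nat_lit 27904564751) (nat_lit 72) (nat_lit 5) (nat_lit 81) (nat_lit 5) (nat_lit 73) (nat_lit 5) (nat_lit 312) (nat_lit 301) (nat_lit 107)) (XT.lf (nat_lit 0) (nat_lit 47339819237) (nat_lit 684) (nat_lit 39483192241) (nat_lit 760) (nat_lit 23609176266) (nat_lit 63) (nat_lit 5) (nat_lit 72) (nat_lit 5) (nat_lit 73) (nat_lit 5) (nat_lit 313) (nat_lit 301) (nat_lit 106))) (XT.nd (nat_lit 78) (nat_lit 304) (nat_lit 0) (XT.lf (nat_lit 0) (nat_lit 96902065108) (nat_lit 760)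 (nat_lit 14227825798) (nat_lit 76) (nat_lit 2484429492) (nat_lit 63) (nat_lit 5) (nat_lit 73) (nat_lit 5) (nat_lit 64) (nat_lit 5) (nat_lit 314) (nat_lit 301) (nat_lit 105)) (XT.lf (nat_lit 0) (nat_lit 37636978987) (nat_lit 304) (nat_lit 71082640160) (nat_lit 380) (nat_lit 8174214322) (nat_lit 59) (nat_lit 5) (nat_lit 63) (nat_lit 5) (nat_lit 64) (nat_lit 5) (nat_lit 315) (nat_lit 301) (nat_lit 104)))) (XT.nd (nat_lit 156) (nat_lit 304) (nat_lit 0) (XT.nd (nat_lit 78) (nat_lit 380) (nat_lit 0) (XT.lf (nat_lit 0) (nat_lit 1009993920) (nat_lit 380) (nat_lit 27752912911) (nat_lit 76) (nat_lit 91561570480) (nat_lit 58) (nat_lit 5) (nat_lit 63) (nat_lit 5) (nat_lit 59) (nat_lit 5) (nat_lit 316) (nat_lit 301) (nat_lit 103)) (XT.lf (nat_lit 0) (nat_lit 11054658489) (nat_lit 456) (nat_lit 97094730571) (nat_lit 76) (nat_lit 15736767466) (nat_lit 53) (nat_lit 5) (nat_lit 59) (nat_lit 5) (nat_lit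 54) (nat_lit 5) (nat_lit 317) (nat_lit 301) (nat_lit 102))) (XT.nd (nat_lit 78) (nat_lit 304) (nat_lit 0) (XT.lf (nat_lit 0) (nat_lit 22550487816) (nat_lit 456) (nat_lit 43055467842) (nat_lit 76) (nat_lit 61972518434) (nat_lit 53) (nat_lit 5) (nat_lit 59) (nat_lit 5) (nat_lit 54) (nat_lit 5) (nat_lit 318) (nat_lit 301) (nat_lit 101)) (XT.nd (nat_lit 78) (nat_lit 0) (nat_lit 0) (XT.lf (nat_lit 0) (nat_lit 14137955465) (nat_lit 304) (nat_lit 20703595192) (nat_lit 380) (nat_lit 96602835696) (nat_lit 49) (nat_lit 5) (nat_lit 53) (nat_lit 5) (nat_lit 54) (nat_lit 5) (nat_lit 319) (nat_lit 301) (nat_lit 100)) (XT.lf (nat_lit 0) (nat_lit 48900866299) (nat_lit 380) (nat_lit 60206429242) (nat_lit 76) (nat_lit 26338614579) (nat_lit 49) (nat_lit 5) (nat_lit 54) (nat_lit 5) (nat_lit 50) (nat_lit 5) (nat_lit 320) (nat_lit 301) (nat_lit 99)))))) (XT.nd (nat_lit 312) (nat_lit 532) (nat_lit 0) (XT.nd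 (nat_lit 156) (nat_lit 228) (nat_lit 0) (XT.nd (nat_lit 78) (nat_lit 304) (nat_lit 0) (XT.lf (nat_lit 0) (nat_lit 64002282180) (nat_lit 380) (nat_lit 591130883) (nat_lit 76) (nat_lit 75037141124) (nat_lit 49) (nat_lit 5) (nat_lit 54) (nat_lit 5) (nat_lit 50) (nat_lit 5) (nat_lit 321) (nat_lit 301) (nat_lit 98)) (XT.lf (nat_lit 0) (nat_lit 64054800151) (nat_lit 304) (nat_lit 16803787702) (nat_lit 380) (nat_lit 63115852449) (nat_lit 45) (nat_lit 5) (nat_lit 49) (nat_lit 5) (nat_lit 50) (nat_lit 5) (nat_lit 322) (nat_lit 301) (nat_lit 97))) (XT.nd (nat_lit 78) (nat_lit 228) (nat_lit 0) (XT.lf (nat_lit 0) (nat_lit 99088717613) (nat_lit 380) (nat_lit 17103009992) (nat_lit 76) (nat_lit 32317243434) (nat_lit 45) (nat_lit 5) (nat_lit 50) (nat_lit 5) (nat_lit 46) (nat_lit 5) (nat_lit 323) (nat_lit 301) (nat_lit 96)) (XT.lf (nat_lit 0) (nat_lit 50184931033) (nat_lit 228) (nat_lit 69104185349)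 (nat_lit 304) (nat_lit 33928174526) (nat_lit 42) (nat_lit 5) (nat_lit 45) (nat_lit 5) (nat_lit 46) (nat_lit 5) (nat_lit 324) (nat_lit 301) (nat_lit 95)))) (XT.nd (nat_lit 156) (nat_lit 228) (nat_lit 0) (XT.nd (nat_lit 78) (nat_lit 304) (nat_lit 0) (XT.lf (nat_lit 0) (nat_lit 121430771596) (nat_lit 228) (nat_lit 19358181396) (nat_lit 304) (nat_lit 17357603567) (nat_lit 42) (nat_lit 5) (nat_lit 45) (nat_lit 5) (nat_lit 46) (nat_lit 5) (nat_lit 325) (nat_lit 301) (nat_lit 94)) (XT.lf (nat_lit 0) (nat_lit 1092829017) (nat_lit 304) (nat_lit 129813663650) (nat_lit 76) (nat_lit 32363127997) (nat_lit 38) (nat_lit 5) (nat_lit 42) (nat_lit 5) (nat_lit 39) (nat_lit 5) (nat_lit 326) (nat_lit 301) (nat_lit 93))) (XT.nd (nat_lit 78) (nat_lit 228) (nat_lit 0) (XT.lf (nat_lit 0) (nat_lit 20831576768) (nat_lit 304) (nat_lit 60819140887) (nat_lit 76) (nat_lit 86936437225) (nat_lit 38) (nat_lit 5) (nat_lit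 42) (nat_lit 5) (nat_lit 39) (nat_lit 5) (nat_lit 327) (nat_lit 301) (nat_lit 92)) (XT.nd (nat_lit 78) (nat_lit 0) (nat_lit 0) (XT.lf (nat_lit 0) (nat_lit 12009214462) (nat_lit 228) (nat_lit 29735337873) (nat_lit 304) (nat_lit 132416649516) (nat_lit 35) (nat_lit 5) (nat_lit 38) (nat_lit 5) (nat_lit 39) (nat_lit 5) (nat_lit 328) (nat_lit 301) (nat_lit 91)) (XT.lf (nat_lit 0) (nat_lit 65136681218) (nat_lit 304) (nat_lit 89775934247) (nat_lit 76) (nat_lit 25029661015) (nat_lit 35) (nat_lit 5) (nat_lit 39) (nat_lit 5) (nat_lit 36) (nat_lit 5) (nat_lit 329) (nat_lit 301) (nat_lit 90))))))) (XT.nd (nat_lit 35880) (nat_lit 0) (nat_lit 1976) (XT.nd (nat_lit 35490) (nat_lit 0) (nat_lit 2736) (XT.nd (nat_lit 35334) (nat_lit 0) (nat_lit 2736) (XT.nd (nat_lit 78) (nat_lit 228) (nat_lit 0) (XT.lf (nat_lit 0) (nat_lit 90185688571) (nat_lit 304) (nat_lit 14268799061) (nat_lit 76) (nat_lit 81533554119)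 (nat_lit 35) (nat_lit 5) (nat_lit 39) (nat_lit 5) (nat_lit 36) (nat_lit 5) (nat_lit 330) (nat_lit 301) (nat_lit 89)) (XT.lf (nat_lit 0) (nat_lit 67163087253) (nat_lit 228) (nat_lit 50372479693) (nat_lit 304) (nat_lit 74748107795) (nat_lit 32) (nat_lit 5) (nat_lit 35) (nat_lit 5) (nat_lit 36) (nat_lit 5) (nat_lit 331) (nat_lit 301) (nat_lit 88))) (XT.nd (nat_lit 78) (nat_lit 0) (nat_lit 0) (XT.lf (nat_lit 0) (nat_lit 7926567769) (nat_lit 0) (nat_lit 7926567769) (nat_lit 684) (nat_lit 26458108958) (nat_lit 68) (nat_lit 5) (nat_lit 68) (nat_lit 3) (nat_lit 77) (nat_lit 3) (nat_lit 302) (nat_lit 302) (nat_lit 116)) (XT.lf (nat_lit 0) (nat_lit 32835096419) (nat_lit 684) (nat_lit 33559215820) (nat_lit 760) (nat_lit 20326900684) (nat_lit 68) (nat_lit 5) (nat_lit 77) (nat_lit 3) (nat_lit 78) (nat_lit 5) (nat_lit 303) (nat_lit 302) (nat_lit 115)))) (XT.nd (nat_lit 156) (nat_lit 0) (nat_lit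 76) (XT.nd (nat_lit 78) (nat_lit 0) (nat_lit 76) (XT.lf (nat_lit 76) (nat_lit 3255436709) (nat_lit 0) (nat_lit 31075112148) (nat_lit 760) (nat_lit 54578816813) (nat_lit 69) (nat_lit 5) (nat_lit 68) (nat_lit 5) (nat_lit 78) (nat_lit 5) (nat_lit 304) (nat_lit 302) (nat_lit 114)) (XT.lf (nat_lit 0) (nat_lit 36571762006) (nat_lit 684) (nat_lit 48206062222) (nat_lit 760) (nat_lit 6395554244) (nat_lit 69) (nat_lit 5) (nat_lit 78) (nat_lit 5) (nat_lit 79) (nat_lit 5) (nat_lit 305) (nat_lit 302) (nat_lit 113))) (XT.nd (nat_lit 78) (nat_lit 0) (nat_lit 0) (XT.lf (nat_lit 0) (nat_lit 39433983654) (nat_lit 684) (nat_lit 9395539296) (nat_lit 760) (nat_lit 44695623304) (nat_lit 69) (nat_lit 5) (nat_lit 78) (nat_lit 5) (nat_lit 79) (nat_lit 5) (nat_lit 306) (nat_lit 302) (nat_lit 112)) (XT.nd (nat_lit 78) (nat_lit 0) (nat_lit 76) (XT.lf (nat_lit 76) (nat_lit 32391960434) (nat_lit 0) (nat_lit 10552627874)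 (nat_lit 760) (nat_lit 53024652174) (nat_lit 70) (nat_lit 5) (nat_lit 69) (nat_lit 5) (nat_lit 79) (nat_lit 5) (nat_lit 307) (nat_lit 302) (nat_lit 111)) (XT.lf (nat_lit 0) (nat_lit 47254745930) (nat_lit 684) (nat_lit 22398214485) (nat_lit 760) (nat_lit 28851379443) (nat_lit 70) (nat_lit 5) (nat_lit 79) (nat_lit 5) (nat_lit 80) (nat_lit 5) (nat_lit 308) (nat_lit 302) (nat_lit 110)))))) (XT.nd (nat_lit 312) (nat_lit 912) (nat_lit 0) (XT.nd (nat_lit 156) (nat_lit 0) (nat_lit 76) (XT.nd (nat_lit 78) (nat_lit 0) (nat_lit 76) (XT.lf (nat_lit 76) (nat_lit 21349838088) (nat_lit 0) (nat_lit 30936481143) (nat_lit 760) (nat_lit 48854581079) (nat_lit 71) (nat_lit 5) (nat_lit 70) (nat_lit 5) (nat_lit 80) (nat_lit 5) (nat_lit 309) (nat_lit 302) (nat_lit 109)) (XT.lf (nat_lit 0) (nat_lit 58106305431) (nat_lit 684) (nat_lit 35985642318) (nat_lit 760) (nat_lit 9790500750) (nat_lit 71) (nat_lit 5)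 (nat_lit 80) (nat_lit 5) (nat_lit 81) (nat_lit 5) (nat_lit 310) (nat_lit 302) (nat_lit 108))) (XT.nd (nat_lit 78) (nat_lit 0) (nat_lit 0) (XT.lf (nat_lit 76) (nat_lit 9816788022) (nat_lit 0) (nat_lit 55060544954) (nat_lit 760) (nat_lit 41850740379) (nat_lit 72) (nat_lit 5) (nat_lit 71) (nat_lit 5) (nat_lit 81) (nat_lit 5) (nat_lit 311) (nat_lit 302) (nat_lit 107)) (XT.lf (nat_lit 76) (nat_lit 59158381367) (nat_lit 0) (nat_lit 13437597308) (nat_lit 760) (nat_lit 37089548734) (nat_lit 72) (nat_lit 5) (nat_lit 71) (nat_lit 5) (nat_lit 81) (nat_lit 5) (nat_lit 312) (nat_lit 302) (nat_lit 106)))) (XT.nd (nat_lit 156) (nat_lit 380) (nat_lit 0) (XT.nd (nat_lit 78) (nat_lit 684) (nat_lit 0) (XT.lf (nat_lit 0) (nat_lit 81172752543) (nat_lit 684) (nat_lit 2296648922) (nat_lit 76) (nat_lit 29297844139) (nat_lit 72) (nat_lit 5) (nat_lit 81) (nat_lit 5) (nat_lit 73) (nat_lit 5) (nat_lit 313) (nat_lit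 302) (nat_lit 105)) (XT.lf (nat_lit 0) (nat_lit 49716017832) (nat_lit 684) (nat_lit 41458509768) (nat_lit 760) (nat_lit 24778715156) (nat_lit 63) (nat_lit 5) (nat_lit 72) (nat_lit 5) (nat_lit 73) (nat_lit 5) (nat_lit 314) (nat_lit 302) (nat_lit 104))) (XT.nd (nat_lit 78) (nat_lit 380) (nat_lit 0) (XT.lf (nat_lit 0) (nat_lit 101757023096) (nat_lit 760) (nat_lit 14929902720) (nat_lit 76) (nat_lit 2607583486) (nat_lit 63) (nat_lit 5) (nat_lit 73) (nat_lit 5) (nat_lit 64) (nat_lit 5) (nat_lit 315) (nat_lit 302) (nat_lit 103)) (XT.nd (nat_lit 78) (nat_lit 76) (nat_lit 0) (XT.lf (nat_lit 0) (nat_lit 39527992072) (nat_lit 304) (nat_lit 74637136570) (nat_lit 380) (nat_lit 8572887332) (nat_lit 59) (nat_lit 5) (nat_lit 63) (nat_lit 5) (nat_lit 64) (nat_lit 5) (nat_lit 316) (nat_lit 302) (nat_lit 102)) (XT.lf (nat_lit 0) (nat_lit 1069747365) (nat_lit 380) (nat_lit 29131495139) (nat_lit 76) (nat_lit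 96138966287) (nat_lit 58) (nat_lit 5) (nat_lit 63) (nat_lit 5) (nat_lit 59) (nat_lit 5) (nat_lit 317) (nat_lit 302) (nat_lit 101))))))))
noncomputable def xc250 : XT := (XT.nd (nat_lit 36738) (nat_lit 0) (nat_lit 760) (XT.nd (nat_lit 702) (nat_lit 532) (nat_lit 0) (XT.nd (nat_lit 312) (nat_lit 532) (nat_lit 0) (XT.nd (nat_lit 156) (nat_lit 304) (nat_lit 0) (XT.nd (nat_lit 78) (nat_lit 0) (nat_lit 0) (XT.lf (nat_lit 0) (nat_lit 11616343184) (nat_lit 456) (nat_lit 101940073419) (nat_lit 76) (nat_lit 16523571877) (nat_lit 53) (nat_lit 5) (nat_lit 59) (nat_lit 5) (nat_lit 54) (nat_lit 5) (nat_lit 318) (nat_lit 302) (nat_lit 100)) (XT.lf (nat_lit 0) (nat_lit 23686537702) (nat_lit 456) (nat_lit 45199294873) (nat_lit 76) (nat_lit 65071112011) (nat_lit 53) (nat_lit 5) (nat_lit 59) (nat_lit 5) (nat_lit 54) (nat_lit 5) (nat_lit 319) (nat_lit 302) (nat_lit 99))) (XT.nd (nat_lit 78) (nat_lit 0)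 (nat_lit 0) (XT.lf (nat_lit 0) (nat_lit 14853655304) (nat_lit 304) (nat_lit 21738229831) (nat_lit 380) (nat_lit 101424282036) (nat_lit 49) (nat_lit 5) (nat_lit 53) (nat_lit 5) (nat_lit 54) (nat_lit 5) (nat_lit 320) (nat_lit 302) (nat_lit 98)) (XT.lf (nat_lit 0) (nat_lit 51353781476) (nat_lit 380) (nat_lit 63207958271) (nat_lit 76) (nat_lit 27656047855) (nat_lit 49) (nat_lit 5) (nat_lit 54) (nat_lit 5) (nat_lit 50) (nat_lit 5) (nat_lit 321) (nat_lit 302) (nat_lit 97)))) (XT.nd (nat_lit 156) (nat_lit 228) (nat_lit 0) (XT.nd (nat_lit 78) (nat_lit 304) (nat_lit 0) (XT.lf (nat_lit 0) (nat_lit 67209893301) (nat_lit 380) (nat_lit 612313681) (nat_lit 76) (nat_lit 78789476796) (nat_lit 49) (nat_lit 5) (nat_lit 54) (nat_lit 5) (nat_lit 50) (nat_lit 5) (nat_lit 322) (nat_lit 302) (nat_lit 96)) (XT.lf (nat_lit 0) (nat_lit 67265778845) (nat_lit 304) (nat_lit 17643007041) (nat_lit 380) (nat_lit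 66263990839) (nat_lit 45) (nat_lit 5) (nat_lit 49) (nat_lit 5) (nat_lit 50) (nat_lit 5) (nat_lit 323) (nat_lit 302) (nat_lit 95))) (XT.nd (nat_lit 78) (nat_lit 228) (nat_lit 0) (XT.lf (nat_lit 0) (nat_lit 104050090432) (nat_lit 380) (nat_lit 17949961316) (nat_lit 76) (nat_lit 33933999891) (nat_lit 45) (nat_lit 5) (nat_lit 50) (nat_lit 5) (nat_lit 46) (nat_lit 5) (nat_lit 324) (nat_lit 302) (nat_lit 94)) (XT.nd (nat_lit 78) (nat_lit 0) (nat_lit 0) (XT.lf (nat_lit 0) (nat_lit 52702244515) (nat_lit 228) (nat_lit 72558060241) (nat_lit 304) (nat_lit 35617493969) (nat_lit 42) (nat_lit 5) (nat_lit 45) (nat_lit 5) (nat_lit 46) (nat_lit 5) (nat_lit 325) (nat_lit 302) (nat_lit 93)) (XT.lf (nat_lit 0) (nat_lit 127509992967) (nat_lit 228) (nat_lit 20324819633) (nat_lit 304) (nat_lit 18218732047) (nat_lit 42) (nat_lit 5) (nat_lit 45) (nat_lit 5) (nat_lit 46) (nat_lit 5) (nat_lit 326) (nat_lit 302)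 (nat_lit 92)))))) (XT.nd (nat_lit 35646) (nat_lit 0) (nat_lit 2508) (XT.nd (nat_lit 156) (nat_lit 228) (nat_lit 0) (XT.nd (nat_lit 78) (nat_lit 0) (nat_lit 0) (XT.lf (nat_lit 0) (nat_lit 1153839001) (nat_lit 304) (nat_lit 136296245282) (nat_lit 76) (nat_lit 33982681624) (nat_lit 38) (nat_lit 5) (nat_lit 42) (nat_lit 5) (nat_lit 39) (nat_lit 5) (nat_lit 327) (nat_lit 302) (nat_lit 91)) (XT.lf (nat_lit 0) (nat_lit 21879220877) (nat_lit 304) (nat_lit 63852382169) (nat_lit 76) (nat_lit 91284589779) (nat_lit 38) (nat_lit 5) (nat_lit 42) (nat_lit 5) (nat_lit 39) (nat_lit 5) (nat_lit 328) (nat_lit 302) (nat_lit 90))) (XT.nd (nat_lit 78) (nat_lit 0) (nat_lit 0) (XT.lf (nat_lit 0) (nat_lit 12617266500) (nat_lit 228) (nat_lit 31220408420) (nat_lit 304) (nat_lit 139031276524) (nat_lit 35) (nat_lit 5) (nat_lit 38) (nat_lit 5) (nat_lit 39) (nat_lit 5) (nat_lit 329) (nat_lit 302) (nat_lit 89)) (XT.lf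 (nat_lit 0) (nat_lit 68399154759) (nat_lit 304) (nat_lit 94257230647) (nat_lit 76) (nat_lit 26282707925) (nat_lit 35) (nat_lit 5) (nat_lit 39) (nat_lit 5) (nat_lit 36) (nat_lit 5) (nat_lit 330) (nat_lit 302) (nat_lit 88)))) (XT.nd (nat_lit 156) (nat_lit 0) (nat_lit 0) (XT.nd (nat_lit 78) (nat_lit 0) (nat_lit 0) (XT.lf (nat_lit 0) (nat_lit 8326988909) (nat_lit 0) (nat_lit 8326988909) (nat_lit 684) (nat_lit 27772390227) (nat_lit 68) (nat_lit 5) (nat_lit 68) (nat_lit 3) (nat_lit 77) (nat_lit 3) (nat_lit 303) (nat_lit 303) (nat_lit 114)) (XT.lf (nat_lit 0) (nat_lit 34492320962) (nat_lit 684) (nat_lit 35228423609) (nat_lit 760) (nat_lit 21335699512) (nat_lit 68) (nat_lit 5) (nat_lit 77) (nat_lit 3) (nat_lit 78) (nat_lit 5) (nat_lit 304) (nat_lit 303) (nat_lit 113))) (XT.nd (nat_lit 78) (nat_lit 0) (nat_lit 76) (XT.lf (nat_lit 76) (nat_lit 3426820368) (nat_lit 0) (nat_lit 32635123454) (nat_lit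 760) (nat_lit 57292093422) (nat_lit 69) (nat_lit 5) (nat_lit 68) (nat_lit 5) (nat_lit 78) (nat_lit 5) (nat_lit 305) (nat_lit 303) (nat_lit 112)) (XT.nd (nat_lit 78) (nat_lit 0) (nat_lit 0) (XT.lf (nat_lit 0) (nat_lit 38414416634) (nat_lit 684) (nat_lit 50607311807) (nat_lit 760) (nat_lit 6709564834) (nat_lit 69) (nat_lit 5) (nat_lit 78) (nat_lit 5) (nat_lit 79) (nat_lit 5) (nat_lit 306) (nat_lit 303) (nat_lit 111)) (XT.lf (nat_lit 0) (nat_lit 41419079530) (nat_lit 684) (nat_lit 9856693856) (nat_lit 760) (nat_lit 46924911972) (nat_lit 69) (nat_lit 5) (nat_lit 78) (nat_lit 5) (nat_lit 79) (nat_lit 5) (nat_lit 307) (nat_lit 303) (nat_lit 110))))))) (XT.nd (nat_lit 702) (nat_lit 1368) (nat_lit 0) (XT.nd (nat_lit 312) (nat_lit 456) (nat_lit 0) (XT.nd (nat_lit 156) (nat_lit 0) (nat_lit 76) (XT.nd (nat_lit 78) (nat_lit 0) (nat_lit 76) (XT.lf (nat_lit 76) (nat_lit 34020041790) (nat_lit 0)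 (nat_lit 11084667138) (nat_lit 760) (nat_lit 55662302948) (nat_lit 70) (nat_lit 5) (nat_lit 69) (nat_lit 5) (nat_lit 79) (nat_lit 5) (nat_lit 308) (nat_lit 303) (nat_lit 109)) (XT.lf (nat_lit 0) (nat_lit 49629695021) (nat_lit 684) (nat_lit 23509322558) (nat_lit 760) (nat_lit 30289884804) (nat_lit 70) (nat_lit 5) (nat_lit 79) (nat_lit 5) (nat_lit 80) (nat_lit 5) (nat_lit 309) (nat_lit 303) (nat_lit 108))) (XT.nd (nat_lit 78) (nat_lit 0) (nat_lit 76) (XT.lf (nat_lit 76) (nat_lit 22425990665) (nat_lit 0) (nat_lit 32486410025) (nat_lit 760) (nat_lit 51284914572) (nat_lit 71) (nat_lit 5) (nat_lit 70) (nat_lit 5) (nat_lit 80) (nat_lit 5) (nat_lit 310) (nat_lit 303) (nat_lit 107)) (XT.lf (nat_lit 0) (nat_lit 61022779773) (nat_lit 684) (nat_lit 37776029948) (nat_lit 760) (nat_lit 10277163453) (nat_lit 71) (nat_lit 5) (nat_lit 80) (nat_lit 5) (nat_lit 81) (nat_lit 5) (nat_lit 311) (nat_lit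 303) (nat_lit 106)))) (XT.nd (nat_lit 156) (nat_lit 608) (nat_lit 0) (XT.nd (nat_lit 78) (nat_lit 0) (nat_lit 0) (XT.lf (nat_lit 76) (nat_lit 10316378450) (nat_lit 0) (nat_lit 57815585489) (nat_lit 760) (nat_lit 43931936966) (nat_lit 72) (nat_lit 5) (nat_lit 71) (nat_lit 5) (nat_lit 81) (nat_lit 5) (nat_lit 312) (nat_lit 303) (nat_lit 105)) (XT.lf (nat_lit 76) (nat_lit 62124634746) (nat_lit 0) (nat_lit 14111394590) (nat_lit 760) (nat_lit 38933225759) (nat_lit 72) (nat_lit 5) (nat_lit 71) (nat_lit 5) (nat_lit 81) (nat_lit 5) (nat_lit 313) (nat_lit 303) (nat_lit 104))) (XT.nd (nat_lit 78) (nat_lit 684) (nat_lit 0) (XT.lf (nat_lit 0) (nat_lit 85241125209) (nat_lit 684) (nat_lit 2402992862) (nat_lit 76) (nat_lit 30760968682) (nat_lit 72) (nat_lit 5) (nat_lit 81) (nat_lit 5) (nat_lit 73) (nat_lit 5) (nat_lit 314) (nat_lit 303) (nat_lit 103)) (XT.nd (nat_lit 78) (nat_lit 0) (nat_lit 0) (XT.lf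 (nat_lit 0) (nat_lit 52210170319) (nat_lit 684) (nat_lit 43532485520) (nat_lit 760) (nat_lit 26007746222) (nat_lit 63) (nat_lit 5) (nat_lit 72) (nat_lit 5) (nat_lit 73) (nat_lit 5) (nat_lit 315) (nat_lit 303) (nat_lit 102)) (XT.lf (nat_lit 0) (nat_lit 106853812784) (nat_lit 760) (nat_lit 15667949450) (nat_lit 76) (nat_lit 2736994424) (nat_lit 63) (nat_lit 5) (nat_lit 73) (nat_lit 5) (nat_lit 64) (nat_lit 5) (nat_lit 316) (nat_lit 303) (nat_lit 101)))))) (XT.nd (nat_lit 312) (nat_lit 608) (nat_lit 0) (XT.nd (nat_lit 156) (nat_lit 380) (nat_lit 0) (XT.nd (nat_lit 78) (nat_lit 76) (nat_lit 0) (XT.lf (nat_lit 0) (nat_lit 41512703817) (nat_lit 304) (nat_lit 78369323922) (nat_lit 380) (nat_lit 8992427203) (nat_lit 59) (nat_lit 5) (nat_lit 63) (nat_lit 5) (nat_lit 64) (nat_lit 5) (nat_lit 317) (nat_lit 303) (nat_lit 100)) (XT.lf (nat_lit 0) (nat_lit 1131628157) (nat_lit 380) (nat_lit 30579849110)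 (nat_lit 76) (nat_lit 100945295356) (nat_lit 58) (nat_lit 5) (nat_lit 63) (nat_lit 5) (nat_lit 59) (nat_lit 5) (nat_lit 318) (nat_lit 303) (nat_lit 99))) (XT.nd (nat_lit 78) (nat_lit 0) (nat_lit 0) (XT.lf (nat_lit 0) (nat_lit 12205279863) (nat_lit 456) (nat_lit 107028556746) (nat_lit 76) (nat_lit 17349719667) (nat_lit 53) (nat_lit 5) (nat_lit 59) (nat_lit 5) (nat_lit 54) (nat_lit 5) (nat_lit 319) (nat_lit 303) (nat_lit 98)) (XT.lf (nat_lit 0) (nat_lit 24878597462) (nat_lit 456) (nat_lit 47451145002) (nat_lit 76) (nat_lit 68324638274) (nat_lit 53) (nat_lit 5) (nat_lit 59) (nat_lit 5) (nat_lit 54) (nat_lit 5) (nat_lit 320) (nat_lit 303) (nat_lit 97)))) (XT.nd (nat_lit 156) (nat_lit 304) (nat_lit 0) (XT.nd (nat_lit 78) (nat_lit 0) (nat_lit 0) (XT.lf (nat_lit 0) (nat_lit 15604321802) (nat_lit 304) (nat_lit 22824646881) (nat_lit 380) (nat_lit 106487609112) (nat_lit 49) (nat_lit 5) (nat_lit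 53) (nat_lit 5) (nat_lit 54) (nat_lit 5) (nat_lit 321) (nat_lit 303) (nat_lit 96)) (XT.lf (nat_lit 0) (nat_lit 53928610561) (nat_lit 380) (nat_lit 66360381187) (nat_lit 76) (nat_lit 29039306072) (nat_lit 49) (nat_lit 5) (nat_lit 54) (nat_lit 5) (nat_lit 50) (nat_lit 5) (nat_lit 322) (nat_lit 303) (nat_lit 95))) (XT.nd (nat_lit 78) (nat_lit 304) (nat_lit 0) (XT.lf (nat_lit 0) (nat_lit 70577187976) (nat_lit 380) (nat_lit 635334130) (nat_lit 76) (nat_lit 82729384755) (nat_lit 49) (nat_lit 5) (nat_lit 54) (nat_lit 5) (nat_lit 50) (nat_lit 5) (nat_lit 323) (nat_lit 303) (nat_lit 94)) (XT.nd (nat_lit 78) (nat_lit 0) (nat_lit 0) (XT.lf (nat_lit 0) (nat_lit 70636540519) (nat_lit 304) (nat_lit 18524277533) (nat_lit 380) (nat_lit 69570247766) (nat_lit 45) (nat_lit 5) (nat_lit 49) (nat_lit 5) (nat_lit 50) (nat_lit 5) (nat_lit 324) (nat_lit 303) (nat_lit 93)) (XT.lf (nat_lit 0) (nat_lit 109258886961)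 (nat_lit 380) (nat_lit 18840022489) (nat_lit 76) (nat_lit 35631511028) (nat_lit 45) (nat_lit 5) (nat_lit 50) (nat_lit 5) (nat_lit 46) (nat_lit 5) (nat_lit 325) (nat_lit 303) (nat_lit 92))))))))
noncomputable def xc251 : XT := (XT.nd (nat_lit 36894) (nat_lit 0) (nat_lit 304) (XT.nd (nat_lit 36192) (nat_lit 0) (nat_lit 1900) (XT.nd (nat_lit 35802) (nat_lit 0) (nat_lit 2280) (XT.nd (nat_lit 156) (nat_lit 304) (nat_lit 0) (XT.nd (nat_lit 78) (nat_lit 0) (nat_lit 0) (XT.lf (nat_lit 0) (nat_lit 55344673685) (nat_lit 228) (nat_lit 76184752935) (nat_lit 304) (nat_lit 37391938478) (nat_lit 42) (nat_lit 5) (nat_lit 45) (nat_lit 5) (nat_lit 46) (nat_lit 5) (nat_lit 326) (nat_lit 303) (nat_lit 91)) (XT.lf (nat_lit 0) (nat_lit 133892461133) (nat_lit 228) (nat_lit 21339907931) (nat_lit 304) (nat_lit 19123544660) (nat_lit 42) (nat_lit 5) (nat_lit 45) (nat_lit 5) (nat_lit 46) (nat_lit 5) (nat_lit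 327) (nat_lit 303) (nat_lit 90))) (XT.nd (nat_lit 78) (nat_lit 0) (nat_lit 0) (XT.lf (nat_lit 0) (nat_lit 1217307399) (nat_lit 304) (nat_lit 143103709200) (nat_lit 76) (nat_lit 35683083032) (nat_lit 38) (nat_lit 5) (nat_lit 42) (nat_lit 5) (nat_lit 39) (nat_lit 5) (nat_lit 328) (nat_lit 303) (nat_lit 89)) (XT.lf (nat_lit 0) (nat_lit 22978683299) (nat_lit 304) (nat_lit 67038002853) (nat_lit 76) (nat_lit 95850026245) (nat_lit 38) (nat_lit 5) (nat_lit 42) (nat_lit 5) (nat_lit 39) (nat_lit 5) (nat_lit 329) (nat_lit 303) (nat_lit 88)))) (XT.nd (nat_lit 156) (nat_lit 0) (nat_lit 0) (XT.nd (nat_lit 78) (nat_lit 0) (nat_lit 0) (XT.lf (nat_lit 0) (nat_lit 8747050601) (nat_lit 0) (nat_lit 8747050601) (nat_lit 684) (nat_lit 29153187355) (nat_lit 68) (nat_lit 5) (nat_lit 68) (nat_lit 3) (nat_lit 77) (nat_lit 3) (nat_lit 304) (nat_lit 304) (nat_lit 112)) (XT.lf (nat_lit 0) (nat_lit 36230968504)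 (nat_lit 684) (nat_lit 36981905560) (nat_lit 760) (nat_lit 22395639856) (nat_lit 68) (nat_lit 5) (nat_lit 77) (nat_lit 3) (nat_lit 78) (nat_lit 5) (nat_lit 305) (nat_lit 304) (nat_lit 111))) (XT.nd (nat_lit 78) (nat_lit 0) (nat_lit 76) (XT.lf (nat_lit 76) (nat_lit 3605972565) (nat_lit 0) (nat_lit 34272553731) (nat_lit 760) (nat_lit 60142490173) (nat_lit 69) (nat_lit 5) (nat_lit 68) (nat_lit 5) (nat_lit 78) (nat_lit 5) (nat_lit 306) (nat_lit 304) (nat_lit 110)) (XT.nd (nat_lit 78) (nat_lit 0) (nat_lit 0) (XT.lf (nat_lit 0) (nat_lit 40347896221) (nat_lit 684) (nat_lit 53129465583) (nat_lit 760) (nat_lit 7039812126) (nat_lit 69) (nat_lit 5) (nat_lit 78) (nat_lit 5) (nat_lit 79) (nat_lit 5) (nat_lit 307) (nat_lit 304) (nat_lit 109)) (XT.lf (nat_lit 0) (nat_lit 43502184702) (nat_lit 684) (nat_lit 10341707774) (nat_lit 760) (nat_lit 49266175714) (nat_lit 69) (nat_lit 5) (nat_lit 78) (nat_lit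 5) (nat_lit 79) (nat_lit 5) (nat_lit 308) (nat_lit 304) (nat_lit 108)))))) (XT.nd (nat_lit 312) (nat_lit 456) (nat_lit 0) (XT.nd (nat_lit 156) (nat_lit 0) (nat_lit 76) (XT.nd (nat_lit 78) (nat_lit 0) (nat_lit 76) (XT.lf (nat_lit 76) (nat_lit 35728738513) (nat_lit 0) (nat_lit 11642898563) (nat_lit 760) (nat_lit 58433098970) (nat_lit 70) (nat_lit 5) (nat_lit 69) (nat_lit 5) (nat_lit 79) (nat_lit 5) (nat_lit 309) (nat_lit 304) (nat_lit 107)) (XT.lf (nat_lit 0) (nat_lit 52122256231) (nat_lit 684) (nat_lit 24676804422) (nat_lit 760) (nat_lit 31800693230) (nat_lit 70) (nat_lit 5) (nat_lit 79) (nat_lit 5) (nat_lit 80) (nat_lit 5) (nat_lit 310) (nat_lit 304) (nat_lit 106))) (XT.nd (nat_lit 78) (nat_lit 0) (nat_lit 76) (XT.lf (nat_lit 76) (nat_lit 23555145684) (nat_lit 0) (nat_lit 34113546695) (nat_lit 760) (nat_lit 53837917161) (nat_lit 71) (nat_lit 5) (nat_lit 70) (nat_lit 5) (nat_lit 80)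 (nat_lit 5) (nat_lit 311) (nat_lit 304) (nat_lit 105)) (XT.lf (nat_lit 0) (nat_lit 64084040367) (nat_lit 684) (nat_lit 39656763884) (nat_lit 760) (nat_lit 10788425403) (nat_lit 71) (nat_lit 5) (nat_lit 80) (nat_lit 5) (nat_lit 81) (nat_lit 5) (nat_lit 312) (nat_lit 304) (nat_lit 104)))) (XT.nd (nat_lit 156) (nat_lit 608) (nat_lit 0) (XT.nd (nat_lit 78) (nat_lit 0) (nat_lit 0) (XT.lf (nat_lit 76) (nat_lit 10840134811) (nat_lit 0) (nat_lit 60708190874) (nat_lit 760) (nat_lit 46118247708) (nat_lit 72) (nat_lit 5) (nat_lit 71) (nat_lit 5) (nat_lit 81) (nat_lit 5) (nat_lit 313) (nat_lit 304) (nat_lit 103)) (XT.lf (nat_lit 76) (nat_lit 65238425949) (nat_lit 0) (nat_lit 14818703472) (nat_lit 760) (nat_lit 40870090756) (nat_lit 72) (nat_lit 5) (nat_lit 71) (nat_lit 5) (nat_lit 81) (nat_lit 5) (nat_lit 314) (nat_lit 304) (nat_lit 102))) (XT.nd (nat_lit 78) (nat_lit 684) (nat_lit 0) (XT.lf (nat_lit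 0) (nat_lit 89512011437) (nat_lit 684) (nat_lit 2515443180) (nat_lit 76) (nat_lit 32297413793) (nat_lit 72) (nat_lit 5) (nat_lit 81) (nat_lit 5) (nat_lit 73) (nat_lit 5) (nat_lit 315) (nat_lit 304) (nat_lit 101)) (XT.nd (nat_lit 78) (nat_lit 0) (nat_lit 0) (XT.lf (nat_lit 0) (nat_lit 54828253977) (nat_lit 684) (nat_lit 45710062415) (nat_lit 760) (nat_lit 27299149685) (nat_lit 63) (nat_lit 5) (nat_lit 72) (nat_lit 5) (nat_lit 73) (nat_lit 5) (nat_lit 316) (nat_lit 304) (nat_lit 100)) (XT.lf (nat_lit 0) (nat_lit 112204610937) (nat_lit 760) (nat_lit 16443683969) (nat_lit 76) (nat_lit 2872965926) (nat_lit 63) (nat_lit 5) (nat_lit 73) (nat_lit 5) (nat_lit 64) (nat_lit 5) (nat_lit 317) (nat_lit 304) (nat_lit 99))))))) (XT.nd (nat_lit 702) (nat_lit 228) (nat_lit 0) (XT.nd (nat_lit 312) (nat_lit 608) (nat_lit 0) (XT.nd (nat_lit 156) (nat_lit 380) (nat_lit 0) (XT.nd (nat_lit 78) (nat_lit 76)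 (nat_lit 0) (XT.lf (nat_lit 0) (nat_lit 43595878366) (nat_lit 304) (nat_lit 82288089912) (nat_lit 380) (nat_lit 9433790517) (nat_lit 59) (nat_lit 5) (nat_lit 63) (nat_lit 5) (nat_lit 64) (nat_lit 5) (nat_lit 318) (nat_lit 304) (nat_lit 98)) (XT.lf (nat_lit 0) (nat_lit 1195822648) (nat_lit 380) (nat_lit 32101385070) (nat_lit 76) (nat_lit 105991998450) (nat_lit 58) (nat_lit 5) (nat_lit 63) (nat_lit 5) (nat_lit 59) (nat_lit 5) (nat_lit 319) (nat_lit 304) (nat_lit 97))) (XT.nd (nat_lit 78) (nat_lit 0) (nat_lit 0) (XT.lf (nat_lit 0) (nat_lit 12822908499) (nat_lit 456) (nat_lit 112372256380) (nat_lit 76) (nat_lit 18217177709) (nat_lit 53) (nat_lit 5) (nat_lit 59) (nat_lit 5) (nat_lit 54) (nat_lit 5) (nat_lit 320) (nat_lit 304) (nat_lit 96)) (XT.lf (nat_lit 0) (nat_lit 26129541282) (nat_lit 456) (nat_lit 49816342059) (nat_lit 76) (nat_lit 71740843578) (nat_lit 53) (nat_lit 5) (nat_lit 59)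 (nat_lit 5) (nat_lit 54) (nat_lit 5) (nat_lit 321) (nat_lit 304) (nat_lit 95)))) (XT.nd (nat_lit 156) (nat_lit 304) (nat_lit 0) (XT.nd (nat_lit 78) (nat_lit 0) (nat_lit 0) (XT.lf (nat_lit 0) (nat_lit 16391779373) (nat_lit 304) (nat_lit 23965430753) (nat_lit 380) (nat_lit 111804835804) (nat_lit 49) (nat_lit 5) (nat_lit 53) (nat_lit 5) (nat_lit 54) (nat_lit 5) (nat_lit 322) (nat_lit 304) (nat_lit 94)) (XT.lf (nat_lit 0) (nat_lit 56631517289) (nat_lit 380) (nat_lit 69671166690) (nat_lit 76) (nat_lit 30491684823) (nat_lit 49) (nat_lit 5) (nat_lit 54) (nat_lit 5) (nat_lit 50) (nat_lit 5) (nat_lit 323) (nat_lit 304) (nat_lit 93))) (XT.nd (nat_lit 78) (nat_lit 304) (nat_lit 0) (XT.lf (nat_lit 0) (nat_lit 74112215185) (nat_lit 380) (nat_lit 660211734) (nat_lit 76) (nat_lit 86866247751) (nat_lit 49) (nat_lit 5) (nat_lit 54) (nat_lit 5) (nat_lit 50) (nat_lit 5) (nat_lit 324) (nat_lit 304) (nat_lit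 92)) (XT.nd (nat_lit 78) (nat_lit 0) (nat_lit 0) (XT.lf (nat_lit 0) (nat_lit 74175145532) (nat_lit 304) (nat_lit 19449693350) (nat_lit 380) (nat_lit 73042462998) (nat_lit 45) (nat_lit 5) (nat_lit 49) (nat_lit 5) (nat_lit 50) (nat_lit 5) (nat_lit 325) (nat_lit 304) (nat_lit 91)) (XT.lf (nat_lit 0) (nat_lit 114727538345) (nat_lit 380) (nat_lit 19775278131) (nat_lit 76) (nat_lit 37413822309) (nat_lit 45) (nat_lit 5) (nat_lit 50) (nat_lit 5) (nat_lit 46) (nat_lit 5) (nat_lit 326) (nat_lit 304) (nat_lit 90)))))) (XT.nd (nat_lit 35958) (nat_lit 0) (nat_lit 1976) (XT.nd (nat_lit 35802) (nat_lit 0) (nat_lit 1976) (XT.nd (nat_lit 78) (nat_lit 0) (nat_lit 0) (XT.lf (nat_lit 0) (nat_lit 58118544052) (nat_lit 228) (nat_lit 79992892788) (nat_lit 304) (nat_lit 39255703031) (nat_lit 42) (nat_lit 5) (nat_lit 45) (nat_lit 5) (nat_lit 46) (nat_lit 5) (nat_lit 327) (nat_lit 304) (nat_lit 89)) (XT.lf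 (nat_lit 0) (nat_lit 140593404841) (nat_lit 228) (nat_lit 22405857810) (nat_lit 304) (nat_lit 20074167254) (nat_lit 42) (nat_lit 5) (nat_lit 45) (nat_lit 5) (nat_lit 46) (nat_lit 5) (nat_lit 328) (nat_lit 304) (nat_lit 88))) (XT.nd (nat_lit 78) (nat_lit 0) (nat_lit 0) (XT.lf (nat_lit 0) (nat_lit 9187770248) (nat_lit 0) (nat_lit 9187770248) (nat_lit 684) (nat_lit 30603751590) (nat_lit 68) (nat_lit 5) (nat_lit 68) (nat_lit 3) (nat_lit 77) (nat_lit 3) (nat_lit 305) (nat_lit 305) (nat_lit 110)) (XT.lf (nat_lit 0) (nat_lit 38055243908) (nat_lit 684) (nat_lit 38823799722) (nat_lit 760) (nat_lit 23509213567) (nat_lit 68) (nat_lit 5) (nat_lit 77) (nat_lit 3) (nat_lit 78) (nat_lit 5) (nat_lit 306) (nat_lit 305) (nat_lit 109)))) (XT.nd (nat_lit 156) (nat_lit 0) (nat_lit 76) (XT.nd (nat_lit 78) (nat_lit 0) (nat_lit 76) (XT.lf (nat_lit 76) (nat_lit 3793356162) (nat_lit 0) (nat_lit 35991327997)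 (nat_lit 760) (nat_lit 63136727679) (nat_lit 69) (nat_lit 5) (nat_lit 68) (nat_lit 5) (nat_lit 78) (nat_lit 5) (nat_lit 307) (nat_lit 305) (nat_lit 108)) (XT.lf (nat_lit 0) (nat_lit 42376863599) (nat_lit 684) (nat_lit 55778490505) (nat_lit 760) (nat_lit 7387058107) (nat_lit 69) (nat_lit 5) (nat_lit 78) (nat_lit 5) (nat_lit 79) (nat_lit 5) (nat_lit 308) (nat_lit 305) (nat_lit 107))) (XT.nd (nat_lit 78) (nat_lit 0) (nat_lit 0) (XT.lf (nat_lit 0) (nat_lit 45688315430) (nat_lit 684) (nat_lit 10851699488) (nat_lit 760) (nat_lit 51724965808) (nat_lit 69) (nat_lit 5) (nat_lit 78) (nat_lit 5) (nat_lit 79) (nat_lit 5) (nat_lit 309) (nat_lit 305) (nat_lit 106)) (XT.nd (nat_lit 78) (nat_lit 0) (nat_lit 76) (XT.lf (nat_lit 76) (nat_lit 37522154699) (nat_lit 0) (nat_lit 12228669857) (nat_lit 760) (nat_lit 61343580110) (nat_lit 70) (nat_lit 5) (nat_lit 69) (nat_lit 5) (nat_lit 79) (nat_lit 5) (nat_lit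 310) (nat_lit 305) (nat_lit 105)) (XT.lf (nat_lit 0) (nat_lit 54738415716) (nat_lit 684) (nat_lit 25903402680) (nat_lit 760) (nat_lit 33387384750) (nat_lit 70) (nat_lit 5) (nat_lit 79) (nat_lit 5) (nat_lit 80) (nat_lit 5) (nat_lit 311) (nat_lit 305) (nat_lit 104))))))))
noncomputable def xc252 : XT := (XT.nd (nat_lit 37206) (nat_lit 0) (nat_lit 304) (XT.nd (nat_lit 702) (nat_lit 988) (nat_lit 0) (XT.nd (nat_lit 312) (nat_lit 912) (nat_lit 0) (XT.nd (nat_lit 156) (nat_lit 0) (nat_lit 76) (XT.nd (nat_lit 78) (nat_lit 0) (nat_lit 76) (XT.lf (nat_lit 76) (nat_lit 24740028126) (nat_lit 0) (nat_lit 35821778377) (nat_lit 760) (nat_lit 56519615161) (nat_lit 71) (nat_lit 5) (nat_lit 70) (nat_lit 5) (nat_lit 80) (nat_lit 5) (nat_lit 312) (nat_lit 305) (nat_lit 103)) (XT.lf (nat_lit 0) (nat_lit 67297422980) (nat_lit 684) (nat_lit 41632284562) (nat_lit 760) (nat_lit 11325491823) (nat_lit 71) (nat_lit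 5) (nat_lit 80) (nat_lit 5) (nat_lit 81) (nat_lit 5) (nat_lit 313) (nat_lit 305) (nat_lit 102))) (XT.nd (nat_lit 78) (nat_lit 0) (nat_lit 0) (XT.lf (nat_lit 76) (nat_lit 11389341043) (nat_lit 0) (nat_lit 63745256754) (nat_lit 760) (nat_lit 48414830292) (nat_lit 72) (nat_lit 5) (nat_lit 71) (nat_lit 5) (nat_lit 81) (nat_lit 5) (nat_lit 314) (nat_lit 305) (nat_lit 101)) (XT.lf (nat_lit 76) (nat_lit 68507203905) (nat_lit 0) (nat_lit 15561216109) (nat_lit 760) (nat_lit 42904709769) (nat_lit 72) (nat_lit 5) (nat_lit 71) (nat_lit 5) (nat_lit 81) (nat_lit 5) (nat_lit 315) (nat_lit 305) (nat_lit 100)))) (XT.nd (nat_lit 156) (nat_lit 380) (nat_lit 0) (XT.nd (nat_lit 78) (nat_lit 684) (nat_lit 0) (XT.lf (nat_lit 0) (nat_lit 93995621050) (nat_lit 684) (nat_lit 2634231824) (nat_lit 76) (nat_lit 33910830221) (nat_lit 72) (nat_lit 5) (nat_lit 81) (nat_lit 5) (nat_lit 73) (nat_lit 5) (nat_lit 316)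 (nat_lit 305) (nat_lit 99)) (XT.lf (nat_lit 0) (nat_lit 57576537553) (nat_lit 684) (nat_lit 47996429590) (nat_lit 760) (nat_lit 28655958555) (nat_lit 63) (nat_lit 5) (nat_lit 72) (nat_lit 5) (nat_lit 73) (nat_lit 5) (nat_lit 317) (nat_lit 305) (nat_lit 98))) (XT.nd (nat_lit 78) (nat_lit 380) (nat_lit 0) (XT.lf (nat_lit 0) (nat_lit 117822195237) (nat_lit 760) (nat_lit 17258917642) (nat_lit 76) (nat_lit 3015817652) (nat_lit 63) (nat_lit 5) (nat_lit 73) (nat_lit 5) (nat_lit 64) (nat_lit 5) (nat_lit 318) (nat_lit 305) (nat_lit 97)) (XT.nd (nat_lit 78) (nat_lit 76) (nat_lit 0) (XT.lf (nat_lit 0) (nat_lit 45782510703) (nat_lit 304) (nat_lit 86402766330) (nat_lit 380) (nat_lit 9897989752) (nat_lit 59) (nat_lit 5) (nat_lit 63) (nat_lit 5) (nat_lit 64) (nat_lit 5) (nat_lit 319) (nat_lit 305) (nat_lit 96)) (XT.lf (nat_lit 0) (nat_lit 1262519071) (nat_lit 380) (nat_lit 33699691062) (nat_lit 76)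 (nat_lit 111291088918) (nat_lit 58) (nat_lit 5) (nat_lit 63) (nat_lit 5) (nat_lit 59) (nat_lit 5) (nat_lit 320) (nat_lit 305) (nat_lit 95)))))) (XT.nd (nat_lit 312) (nat_lit 304) (nat_lit 0) (XT.nd (nat_lit 156) (nat_lit 304) (nat_lit 0) (XT.nd (nat_lit 78) (nat_lit 0) (nat_lit 0) (XT.lf (nat_lit 0) (nat_lit 13470733873) (nat_lit 456) (nat_lit 117983859490) (nat_lit 76) (nat_lit 19128011252) (nat_lit 53) (nat_lit 5) (nat_lit 59) (nat_lit 5) (nat_lit 54) (nat_lit 5) (nat_lit 321) (nat_lit 305) (nat_lit 94)) (XT.lf (nat_lit 0) (nat_lit 27442380202) (nat_lit 456) (nat_lit 52300483249) (nat_lit 76) (nat_lit 75327861620) (nat_lit 53) (nat_lit 5) (nat_lit 59) (nat_lit 5) (nat_lit 54) (nat_lit 5) (nat_lit 322) (nat_lit 305) (nat_lit 93))) (XT.nd (nat_lit 78) (nat_lit 0) (nat_lit 0) (XT.lf (nat_lit 0) (nat_lit 17217936579) (nat_lit 304) (nat_lit 25163295512) (nat_lit 380) (nat_lit 117388588919)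 (nat_lit 49) (nat_lit 5) (nat_lit 53) (nat_lit 5) (nat_lit 54) (nat_lit 5) (nat_lit 323) (nat_lit 305) (nat_lit 92)) (XT.lf (nat_lit 0) (nat_lit 59468967258) (nat_lit 380) (nat_lit 73148163974) (nat_lit 76) (nat_lit 32016644072) (nat_lit 49) (nat_lit 5) (nat_lit 54) (nat_lit 5) (nat_lit 50) (nat_lit 5) (nat_lit 324) (nat_lit 305) (nat_lit 91)))) (XT.nd (nat_lit 156) (nat_lit 0) (nat_lit 0) (XT.nd (nat_lit 78) (nat_lit 304) (nat_lit 0) (XT.lf (nat_lit 0) (nat_lit 77823420329) (nat_lit 380) (nat_lit 686973702) (nat_lit 76) (nat_lit 91209917289) (nat_lit 49) (nat_lit 5) (nat_lit 54) (nat_lit 5) (nat_lit 50) (nat_lit 5) (nat_lit 325) (nat_lit 305) (nat_lit 90)) (XT.lf (nat_lit 0) (nat_lit 77890050643) (nat_lit 304) (nat_lit 20421454154) (nat_lit 380) (nat_lit 76688874442) (nat_lit 45) (nat_lit 5) (nat_lit 49) (nat_lit 5) (nat_lit 50) (nat_lit 5) (nat_lit 326) (nat_lit 305) (nat_lit 89)))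 (XT.nd (nat_lit 35880) (nat_lit 0) (nat_lit 1748) (XT.lf (nat_lit 0) (nat_lit 120469091713) (nat_lit 380) (nat_lit 20757923687) (nat_lit 76) (nat_lit 39285180754) (nat_lit 45) (nat_lit 5) (nat_lit 50) (nat_lit 5) (nat_lit 46) (nat_lit 5) (nat_lit 327) (nat_lit 305) (nat_lit 88)) (XT.nd (nat_lit 78) (nat_lit 0) (nat_lit 0) (XT.lf (nat_lit 0) (nat_lit 9650212834) (nat_lit 0) (nat_lit 9650212834) (nat_lit 684) (nat_lit 32127503675) (nat_lit 68) (nat_lit 5) (nat_lit 68) (nat_lit 3) (nat_lit 77) (nat_lit 3) (nat_lit 306) (nat_lit 306) (nat_lit 108)) (XT.lf (nat_lit 0) (nat_lit 39969549848) (nat_lit 684) (nat_lit 40758458083) (nat_lit 760) (nat_lit 24679043150) (nat_lit 68) (nat_lit 5) (nat_lit 77) (nat_lit 3) (nat_lit 78) (nat_lit 5) (nat_lit 307) (nat_lit 306) (nat_lit 107))))))) (XT.nd (nat_lit 702) (nat_lit 1444) (nat_lit 0) (XT.nd (nat_lit 312) (nat_lit 0) (nat_lit 152) (XT.nd (nat_lit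 156) (nat_lit 0) (nat_lit 76) (XT.nd (nat_lit 78) (nat_lit 0) (nat_lit 76) (XT.lf (nat_lit 76) (nat_lit 3989450246) (nat_lit 0) (nat_lit 37795562496) (nat_lit 760) (nat_lit 66281875172) (nat_lit 69) (nat_lit 5) (nat_lit 68) (nat_lit 5) (nat_lit 78) (nat_lit 5) (nat_lit 308) (nat_lit 306) (nat_lit 106)) (XT.lf (nat_lit 0) (nat_lit 44506203439) (nat_lit 684) (nat_lit 58560659150) (nat_lit 760) (nat_lit 7752107497) (nat_lit 69) (nat_lit 5) (nat_lit 78) (nat_lit 5) (nat_lit 79) (nat_lit 5) (nat_lit 309) (nat_lit 306) (nat_lit 105))) (XT.nd (nat_lit 78) (nat_lit 0) (nat_lit 0) (XT.lf (nat_lit 0) (nat_lit 47982728021) (nat_lit 684) (nat_lit 11387850291) (nat_lit 760) (nat_lit 54307115513) (nat_lit 69) (nat_lit 5) (nat_lit 78) (nat_lit 5) (nat_lit 79) (nat_lit 5) (nat_lit 310) (nat_lit 306) (nat_lit 104)) (XT.lf (nat_lit 76) (nat_lit 39404592828) (nat_lit 0) (nat_lit 12843392570) (nat_lit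 760) (nat_lit 64400624141) (nat_lit 70) (nat_lit 5) (nat_lit 69) (nat_lit 5) (nat_lit 79) (nat_lit 5) (nat_lit 311) (nat_lit 306) (nat_lit 103)))) (XT.nd (nat_lit 156) (nat_lit 0) (nat_lit 76) (XT.nd (nat_lit 78) (nat_lit 0) (nat_lit 0) (XT.lf (nat_lit 0) (nat_lit 57484449132) (nat_lit 684) (nat_lit 27192004140) (nat_lit 760) (nat_lit 35053721659) (nat_lit 70) (nat_lit 5) (nat_lit 79) (nat_lit 5) (nat_lit 80) (nat_lit 5) (nat_lit 312) (nat_lit 306) (nat_lit 102)) (XT.lf (nat_lit 76) (nat_lit 25983492260) (nat_lit 0) (nat_lit 37615184164) (nat_lit 760) (nat_lit 59336346161) (nat_lit 71) (nat_lit 5) (nat_lit 70) (nat_lit 5) (nat_lit 80) (nat_lit 5) (nat_lit 313) (nat_lit 306) (nat_lit 101))) (XT.nd (nat_lit 78) (nat_lit 0) (nat_lit 0) (XT.lf (nat_lit 0) (nat_lit 70670621199) (nat_lit 684) (nat_lit 43707261588) (nat_lit 760) (nat_lit 11889630496) (nat_lit 71) (nat_lit 5) (nat_lit 80)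 (nat_lit 5) (nat_lit 81) (nat_lit 5) (nat_lit 314) (nat_lit 306) (nat_lit 100)) (XT.nd (nat_lit 78) (nat_lit 0) (nat_lit 0) (XT.lf (nat_lit 76) (nat_lit 11965338246) (nat_lit 0) (nat_lit 66934021938) (nat_lit 760) (nat_lit 50827109402) (nat_lit 72) (nat_lit 5) (nat_lit 71) (nat_lit 5) (nat_lit 81) (nat_lit 5) (nat_lit 315) (nat_lit 306) (nat_lit 99)) (XT.lf (nat_lit 76) (nat_lit 71938783292) (nat_lit 0) (nat_lit 16340707720) (nat_lit 760) (nat_lit 45041885824) (nat_lit 72) (nat_lit 5) (nat_lit 71) (nat_lit 5) (nat_lit 81) (nat_lit 5) (nat_lit 316) (nat_lit 306) (nat_lit 98)))))) (XT.nd (nat_lit 312) (nat_lit 760) (nat_lit 0) (XT.nd (nat_lit 156) (nat_lit 304) (nat_lit 0) (XT.nd (nat_lit 78) (nat_lit 684) (nat_lit 0) (XT.lf (nat_lit 0) (nat_lit 98702666538) (nat_lit 684) (nat_lit 2759609162) (nat_lit 76) (nat_lit 35605052675) (nat_lit 72) (nat_lit 5) (nat_lit 81) (nat_lit 5) (nat_lit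 73) (nat_lit 5) (nat_lit 317) (nat_lit 306) (nat_lit 97)) (XT.lf (nat_lit 0) (nat_lit 60461596520) (nat_lit 684) (nat_lit 50397034792) (nat_lit 760) (nat_lit 30081365449) (nat_lit 63) (nat_lit 5) (nat_lit 72) (nat_lit 5) (nat_lit 73) (nat_lit 5) (nat_lit 318) (nat_lit 306) (nat_lit 96))) (XT.nd (nat_lit 78) (nat_lit 304) (nat_lit 0) (XT.lf (nat_lit 0) (nat_lit 123719975071) (nat_lit 760) (nat_lit 18115559194) (nat_lit 76) (nat_lit 3165886022) (nat_lit 63) (nat_lit 5) (nat_lit 73) (nat_lit 5) (nat_lit 64) (nat_lit 5) (nat_lit 319) (nat_lit 306) (nat_lit 95)) (XT.lf (nat_lit 0) (nat_lit 48077838887) (nat_lit 304) (nat_lit 90723151288) (nat_lit 380) (nat_lit 10386095325) (nat_lit 59) (nat_lit 5) (nat_lit 63) (nat_lit 5) (nat_lit 64) (nat_lit 5) (nat_lit 320) (nat_lit 306) (nat_lit 94)))) (XT.nd (nat_lit 156) (nat_lit 304) (nat_lit 0) (XT.nd (nat_lit 78) (nat_lit 380) (nat_lit 0) (XT.lf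 (nat_lit 0) (nat_lit 1331908326) (nat_lit 380) (nat_lit 35378541138) (nat_lit 76) (nat_lit 116855181274) (nat_lit 58) (nat_lit 5) (nat_lit 63) (nat_lit 5) (nat_lit 59) (nat_lit 5) (nat_lit 321) (nat_lit 306) (nat_lit 93)) (XT.lf (nat_lit 0) (nat_lit 14150329477) (nat_lit 456) (nat_lit 123876694453) (nat_lit 76) (nat_lit 20084388827) (nat_lit 53) (nat_lit 5) (nat_lit 59) (nat_lit 5) (nat_lit 54) (nat_lit 5) (nat_lit 322) (nat_lit 306) (nat_lit 92))) (XT.nd (nat_lit 78) (nat_lit 304) (nat_lit 0) (XT.lf (nat_lit 0) (nat_lit 28820269603) (nat_lit 456) (nat_lit 54909452162) (nat_lit 76) (nat_lit 79094232809) (nat_lit 53) (nat_lit 5) (nat_lit 59) (nat_lit 5) (nat_lit 54) (nat_lit 5) (nat_lit 323) (nat_lit 306) (nat_lit 91)) (XT.nd (nat_lit 78) (nat_lit 0) (nat_lit 0) (XT.lf (nat_lit 0) (nat_lit 18084790992) (nat_lit 304) (nat_lit 26421091328) (nat_lit 380) (nat_lit 123252132945) (nat_lit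 49) (nat_lit 5) (nat_lit 53) (nat_lit 5) (nat_lit 54) (nat_lit 5) (nat_lit 324) (nat_lit 306) (nat_lit 90)) (XT.lf (nat_lit 0) (nat_lit 62447743607) (nat_lit 380) (nat_lit 76799621108) (nat_lit 76) (nat_lit 33617816419) (nat_lit 49) (nat_lit 5) (nat_lit 54) (nat_lit 5) (nat_lit 50) (nat_lit 5) (nat_lit 325) (nat_lit 306) (nat_lit 89))))))))
noncomputable def xc253 : XT := (XT.nd (nat_lit 37362) (nat_lit 0) (nat_lit 0) (XT.nd (nat_lit 36660) (nat_lit 0) (nat_lit 304) (XT.nd (nat_lit 36270) (nat_lit 0) (nat_lit 1520) (XT.nd (nat_lit 36114) (nat_lit 0) (nat_lit 1444) (XT.nd (nat_lit 36036) (nat_lit 0) (nat_lit 1444) (XT.lf (nat_lit 0) (nat_lit 81719665618) (nat_lit 380) (nat_lit 715654706) (nat_lit 76) (nat_lit 95770737100) (nat_lit 49) (nat_lit 5) (nat_lit 54) (nat_lit 5) (nat_lit 50) (nat_lit 5) (nat_lit 326) (nat_lit 306) (nat_lit 88)) (XT.lf (nat_lit 0) (nat_lit 10135493612) (nat_lit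 0) (nat_lit 10135493612) (nat_lit 684) (nat_lit 33728041676) (nat_lit 68) (nat_lit 5) (nat_lit 68) (nat_lit 3) (nat_lit 77) (nat_lit 3) (nat_lit 307) (nat_lit 307) (nat_lit 106))) (XT.nd (nat_lit 78) (nat_lit 0) (nat_lit 0) (XT.lf (nat_lit 0) (nat_lit 41978497857) (nat_lit 684) (nat_lit 42790456612) (nat_lit 760) (nat_lit 25907887739) (nat_lit 68) (nat_lit 5) (nat_lit 77) (nat_lit 3) (nat_lit 78) (nat_lit 5) (nat_lit 308) (nat_lit 307) (nat_lit 105)) (XT.lf (nat_lit 76) (nat_lit 4194751580) (nat_lit 0) (nat_lit 39689574725) (nat_lit 760) (nat_lit 69585366762) (nat_lit 69) (nat_lit 5) (nat_lit 68) (nat_lit 5) (nat_lit 78) (nat_lit 5) (nat_lit 309) (nat_lit 307) (nat_lit 104)))) (XT.nd (nat_lit 156) (nat_lit 0) (nat_lit 0) (XT.nd (nat_lit 78) (nat_lit 0) (nat_lit 0) (XT.lf (nat_lit 0) (nat_lit 46741034391) (nat_lit 684) (nat_lit 61482564326) (nat_lit 760) (nat_lit 8135809457) (nat_lit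 69) (nat_lit 5) (nat_lit 78) (nat_lit 5) (nat_lit 79) (nat_lit 5) (nat_lit 310) (nat_lit 307) (nat_lit 103)) (XT.lf (nat_lit 0) (nat_lit 50390931831) (nat_lit 684) (nat_lit 11951406823) (nat_lit 760) (nat_lit 57018753751) (nat_lit 69) (nat_lit 5) (nat_lit 78) (nat_lit 5) (nat_lit 79) (nat_lit 5) (nat_lit 311) (nat_lit 307) (nat_lit 102))) (XT.nd (nat_lit 78) (nat_lit 0) (nat_lit 76) (XT.lf (nat_lit 76) (nat_lit 41380564324) (nat_lit 0) (nat_lit 13488545619) (nat_lit 760) (nat_lit 67611462628) (nat_lit 70) (nat_lit 5) (nat_lit 69) (nat_lit 5) (nat_lit 79) (nat_lit 5) (nat_lit 312) (nat_lit 307) (nat_lit 101)) (XT.nd (nat_lit 78) (nat_lit 0) (nat_lit 0) (XT.lf (nat_lit 0) (nat_lit 60366937012) (nat_lit 684) (nat_lit 28545646366) (nat_lit 760) (nat_lit 36803657330) (nat_lit 70) (nat_lit 5) (nat_lit 79) (nat_lit 5) (nat_lit 80) (nat_lit 5) (nat_lit 313) (nat_lit 307) (nat_lit 100)) (XT.lf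 (nat_lit 76) (nat_lit 27288528757) (nat_lit 0) (nat_lit 39498044841) (nat_lit 760) (nat_lit 62294773665) (nat_lit 71) (nat_lit 5) (nat_lit 70) (nat_lit 5) (nat_lit 80) (nat_lit 5) (nat_lit 314) (nat_lit 307) (nat_lit 99)))))) (XT.nd (nat_lit 312) (nat_lit 1368) (nat_lit 0) (XT.nd (nat_lit 156) (nat_lit 0) (nat_lit 0) (XT.nd (nat_lit 78) (nat_lit 0) (nat_lit 0) (XT.lf (nat_lit 0) (nat_lit 74211705156) (nat_lit 684) (nat_lit 45886604529) (nat_lit 760) (nat_lit 12482174680) (nat_lit 71) (nat_lit 5) (nat_lit 80) (nat_lit 5) (nat_lit 81) (nat_lit 5) (nat_lit 315) (nat_lit 307) (nat_lit 98)) (XT.lf (nat_lit 76) (nat_lit 12569528198) (nat_lit 0) (nat_lit 70282085707) (nat_lit 760) (nat_lit 53360789222) (nat_lit 72) (nat_lit 5) (nat_lit 71) (nat_lit 5) (nat_lit 81) (nat_lit 5) (nat_lit 316) (nat_lit 307) (nat_lit 97))) (XT.nd (nat_lit 78) (nat_lit 0) (nat_lit 76) (XT.lf (nat_lit 76) (nat_lit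 75541363446) (nat_lit 0) (nat_lit 17159040889) (nat_lit 760) (nat_lit 47286669972) (nat_lit 72) (nat_lit 5) (nat_lit 71) (nat_lit 5) (nat_lit 81) (nat_lit 5) (nat_lit 317) (nat_lit 307) (nat_lit 96)) (XT.lf (nat_lit 0) (nat_lit 103644388923) (nat_lit 684) (nat_lit 2891844265) (nat_lit 76) (nat_lit 37384108884) (nat_lit 72) (nat_lit 5) (nat_lit 81) (nat_lit 5) (nat_lit 73) (nat_lit 5) (nat_lit 318) (nat_lit 307) (nat_lit 95)))) (XT.nd (nat_lit 156) (nat_lit 760) (nat_lit 0) (XT.nd (nat_lit 78) (nat_lit 0) (nat_lit 0) (XT.lf (nat_lit 0) (nat_lit 63490329034) (nat_lit 684) (nat_lit 52917597391) (nat_lit 760) (nat_lit 31578729836) (nat_lit 63) (nat_lit 5) (nat_lit 72) (nat_lit 5) (nat_lit 73) (nat_lit 5) (nat_lit 319) (nat_lit 307) (nat_lit 94)) (XT.lf (nat_lit 0) (nat_lit 129912023775) (nat_lit 760) (nat_lit 19015618940) (nat_lit 76) (nat_lit 3323524982) (nat_lit 63) (nat_lit 5) (nat_lit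 73) (nat_lit 5) (nat_lit 64) (nat_lit 5) (nat_lit 320) (nat_lit 307) (nat_lit 93))) (XT.nd (nat_lit 78) (nat_lit 456) (nat_lit 0) (XT.lf (nat_lit 0) (nat_lit 50487356816) (nat_lit 304) (nat_lit 95259532564) (nat_lit 380) (nat_lit 10899237810) (nat_lit 59) (nat_lit 5) (nat_lit 63) (nat_lit 5) (nat_lit 64) (nat_lit 5) (nat_lit 321) (nat_lit 307) (nat_lit 92)) (XT.nd (nat_lit 78) (nat_lit 380) (nat_lit 0) (XT.lf (nat_lit 0) (nat_lit 1404184742) (nat_lit 380) (nat_lit 37141904043) (nat_lit 76) (nat_lit 122697521208) (nat_lit 58) (nat_lit 5) (nat_lit 63) (nat_lit 5) (nat_lit 59) (nat_lit 5) (nat_lit 322) (nat_lit 307) (nat_lit 91)) (XT.lf (nat_lit 0) (nat_lit 14863341561) (nat_lit 456) (nat_lit 130064762271) (nat_lit 76) (nat_lit 21088587419) (nat_lit 53) (nat_lit 5) (nat_lit 59) (nat_lit 5) (nat_lit 54) (nat_lit 5) (nat_lit 323) (nat_lit 307) (nat_lit 90))))))) (XT.nd (nat_lit 36816) (nat_lit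 0) (nat_lit 684) (XT.nd (nat_lit 36426) (nat_lit 0) (nat_lit 1444) (XT.nd (nat_lit 36270) (nat_lit 0) (nat_lit 1444) (XT.nd (nat_lit 78) (nat_lit 304) (nat_lit 0) (XT.lf (nat_lit 0) (nat_lit 30266516997) (nat_lit 456) (nat_lit 57649432480) (nat_lit 76) (nat_lit 83048924592) (nat_lit 53) (nat_lit 5) (nat_lit 59) (nat_lit 5) (nat_lit 54) (nat_lit 5) (nat_lit 324) (nat_lit 307) (nat_lit 89)) (XT.lf (nat_lit 0) (nat_lit 18994434246) (nat_lit 304) (nat_lit 27741811238) (nat_lit 380) (nat_lit 129409401343) (nat_lit 49) (nat_lit 5) (nat_lit 53) (nat_lit 5) (nat_lit 54) (nat_lit 5) (nat_lit 325) (nat_lit 307) (nat_lit 88))) (XT.nd (nat_lit 78) (nat_lit 0) (nat_lit 0) (XT.lf (nat_lit 0) (nat_lit 10644780887) (nat_lit 0) (nat_lit 10644780887) (nat_lit 684) (nat_lit 35409149262) (nat_lit 68) (nat_lit 5) (nat_lit 68) (nat_lit 3) (nat_lit 77) (nat_lit 3) (nat_lit 308) (nat_lit 308) (nat_lit 104))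 (XT.lf (nat_lit 0) (nat_lit 44086919817) (nat_lit 684) (nat_lit 44924605859) (nat_lit 760) (nat_lit 27198649410) (nat_lit 68) (nat_lit 5) (nat_lit 77) (nat_lit 3) (nat_lit 78) (nat_lit 5) (nat_lit 309) (nat_lit 308) (nat_lit 103)))) (XT.nd (nat_lit 156) (nat_lit 0) (nat_lit 76) (XT.nd (nat_lit 78) (nat_lit 0) (nat_lit 76) (XT.lf (nat_lit 76) (nat_lit 4409776071) (nat_lit 0) (nat_lit 41677893918) (nat_lit 760) (nat_lit 73055018620) (nat_lit 69) (nat_lit 5) (nat_lit 68) (nat_lit 5) (nat_lit 78) (nat_lit 5) (nat_lit 310) (nat_lit 308) (nat_lit 102)) (XT.lf (nat_lit 0) (nat_lit 49086721739) (nat_lit 684) (nat_lit 64551134463) (nat_lit 760) (nat_lit 8539059418) (nat_lit 69) (nat_lit 5) (nat_lit 78) (nat_lit 5) (nat_lit 79) (nat_lit 5) (nat_lit 311) (nat_lit 308) (nat_lit 101))) (XT.nd (nat_lit 78) (nat_lit 0) (nat_lit 0) (XT.lf (nat_lit 0) (nat_lit 52918702830) (nat_lit 684) (nat_lit 12543683755)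 (nat_lit 760) (nat_lit 59866319521) (nat_lit 69) (nat_lit 5) (nat_lit 78) (nat_lit 5) (nat_lit 79) (nat_lit 5) (nat_lit 312) (nat_lit 308) (nat_lit 100)) (XT.nd (nat_lit 78) (nat_lit 0) (nat_lit 76) (XT.lf (nat_lit 76) (nat_lit 43454800572) (nat_lit 0) (nat_lit 14165678950) (nat_lit 760) (nat_lit 70983697691) (nat_lit 70) (nat_lit 5) (nat_lit 69) (nat_lit 5) (nat_lit 79) (nat_lit 5) (nat_lit 313) (nat_lit 308) (nat_lit 99)) (XT.lf (nat_lit 0) (nat_lit 63392780845) (nat_lit 684) (nat_lit 29967524620) (nat_lit 760) (nat_lit 38641345493) (nat_lit 70) (nat_lit 5) (nat_lit 79) (nat_lit 5) (nat_lit 80) (nat_lit 5) (nat_lit 314) (nat_lit 308) (nat_lit 98)))))) (XT.nd (nat_lit 312) (nat_lit 912) (nat_lit 0) (XT.nd (nat_lit 156) (nat_lit 0) (nat_lit 76) (XT.nd (nat_lit 78) (nat_lit 0) (nat_lit 76) (XT.lf (nat_lit 76) (nat_lit 28658272097) (nat_lit 0) (nat_lit 41474853176) (nat_lit 760) (nat_lit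 65401902550) (nat_lit 71) (nat_lit 5) (nat_lit 70) (nat_lit 5) (nat_lit 80) (nat_lit 5) (nat_lit 315) (nat_lit 308) (nat_lit 97)) (XT.lf (nat_lit 0) (nat_lit 77929141115) (nat_lit 684) (nat_lit 48175474313) (nat_lit 760) (nat_lit 13104526189) (nat_lit 71) (nat_lit 5) (nat_lit 80) (nat_lit 5) (nat_lit 81) (nat_lit 5) (nat_lit 316) (nat_lit 308) (nat_lit 96))) (XT.nd (nat_lit 78) (nat_lit 0) (nat_lit 0) (XT.lf (nat_lit 76) (nat_lit 13203376979) (nat_lit 0) (nat_lit 73797425976) (nat_lit 760) (nat_lit 56021866641) (nat_lit 72) (nat_lit 5) (nat_lit 71) (nat_lit 5) (nat_lit 81) (nat_lit 5) (nat_lit 317) (nat_lit 308) (nat_lit 95)) (XT.lf (nat_lit 76) (nat_lit 79323548163) (nat_lit 0) (nat_lit 18018170061) (nat_lit 760) (nat_lit 49644372955) (nat_lit 72) (nat_lit 5) (nat_lit 71) (nat_lit 5) (nat_lit 81) (nat_lit 5) (nat_lit 318) (nat_lit 308) (nat_lit 94)))) (XT.nd (nat_lit 156) (nat_lit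 380) (nat_lit 0) (XT.nd (nat_lit 78) (nat_lit 684) (nat_lit 0) (XT.lf (nat_lit 0) (nat_lit 108832584839) (nat_lit 684) (nat_lit 3031225272) (nat_lit 76) (nat_lit 39252229136) (nat_lit 72) (nat_lit 5) (nat_lit 81) (nat_lit 5) (nat_lit 73) (nat_lit 5) (nat_lit 319) (nat_lit 308) (nat_lit 93)) (XT.lf (nat_lit 0) (nat_lit 66669972640) (nat_lit 684) (nat_lit 55564122031) (nat_lit 760) (nat_lit 33151585706) (nat_lit 63) (nat_lit 5) (nat_lit 72) (nat_lit 5) (nat_lit 73) (nat_lit 5) (nat_lit 320) (nat_lit 308) (nat_lit 92))) (XT.nd (nat_lit 78) (nat_lit 380) (nat_lit 0) (XT.lf (nat_lit 0) (nat_lit 136413112448) (nat_lit 760) (nat_lit 19961213298) (nat_lit 76) (nat_lit 3489106818) (nat_lit 63) (nat_lit 5) (nat_lit 73) (nat_lit 5) (nat_lit 64) (nat_lit 5) (nat_lit 321) (nat_lit 308) (nat_lit 91)) (XT.nd (nat_lit 78) (nat_lit 76) (nat_lit 0) (XT.lf (nat_lit 0) (nat_lit 53016827590) (nat_lit 304)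 (nat_lit 100022712104) (nat_lit 380) (nat_lit 11438610330) (nat_lit 59) (nat_lit 5) (nat_lit 63) (nat_lit 5) (nat_lit 64) (nat_lit 5) (nat_lit 322) (nat_lit 308) (nat_lit 90)) (XT.lf (nat_lit 0) (nat_lit 1479546813) (nat_lit 380) (nat_lit 38993952396) (nat_lit 76) (nat_lit 128832017106) (nat_lit 58) (nat_lit 5) (nat_lit 63) (nat_lit 5) (nat_lit 59) (nat_lit 5) (nat_lit 323) (nat_lit 308) (nat_lit 89))))))))
noncomputable def xc254 : XT := (XT.nd (nat_lit 74022) (nat_lit 0) (nat_lit 760) (XT.nd (nat_lit 36972) (nat_lit 0) (nat_lit 380) (XT.nd (nat_lit 36582) (nat_lit 0) (nat_lit 1216) (XT.nd (nat_lit 36426) (nat_lit 0) (nat_lit 1140) (XT.nd (nat_lit 36348) (nat_lit 0) (nat_lit 1140) (XT.lf (nat_lit 0) (nat_lit 15611493319) (nat_lit 456) (nat_lit 136562769632) (nat_lit 76) (nat_lit 22142997879) (nat_lit 53) (nat_lit 5) (nat_lit 59) (nat_lit 5) (nat_lit 54) (nat_lit 5) (nat_lit 324) (nat_lit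 308) (nat_lit 88)) (XT.lf (nat_lit 0) (nat_lit 11179298928) (nat_lit 0) (nat_lit 11179298928) (nat_lit 684) (nat_lit 37174804461) (nat_lit 68) (nat_lit 5) (nat_lit 68) (nat_lit 3) (nat_lit 77) (nat_lit 3) (nat_lit 309) (nat_lit 309) (nat_lit 102))) (XT.nd (nat_lit 78) (nat_lit 0) (nat_lit 0) (XT.lf (nat_lit 0) (nat_lit 46299879928) (nat_lit 684) (nat_lit 47165962153) (nat_lit 760) (nat_lit 28554379870) (nat_lit 68) (nat_lit 5) (nat_lit 77) (nat_lit 3) (nat_lit 78) (nat_lit 5) (nat_lit 310) (nat_lit 309) (nat_lit 101)) (XT.lf (nat_lit 76) (nat_lit 4635060261) (nat_lit 0) (nat_lit 43765272021) (nat_lit 760) (nat_lit 76699047121) (nat_lit 69) (nat_lit 5) (nat_lit 68) (nat_lit 5) (nat_lit 78) (nat_lit 5) (nat_lit 311) (nat_lit 309) (nat_lit 100)))) (XT.nd (nat_lit 156) (nat_lit 0) (nat_lit 0) (XT.nd (nat_lit 78) (nat_lit 0) (nat_lit 0) (XT.lf (nat_lit 0) (nat_lit 51548890595) (nat_lit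 684) (nat_lit 67773649844) (nat_lit 760) (nat_lit 8962801039) (nat_lit 69) (nat_lit 5) (nat_lit 78) (nat_lit 5) (nat_lit 79) (nat_lit 5) (nat_lit 312) (nat_lit 309) (nat_lit 99)) (XT.lf (nat_lit 0) (nat_lit 55572097752) (nat_lit 684) (nat_lit 13166066665) (nat_lit 760) (nat_lit 62856577070) (nat_lit 69) (nat_lit 5) (nat_lit 78) (nat_lit 5) (nat_lit 79) (nat_lit 5) (nat_lit 313) (nat_lit 309) (nat_lit 98))) (XT.nd (nat_lit 78) (nat_lit 0) (nat_lit 76) (XT.lf (nat_lit 76) (nat_lit 45632264438) (nat_lit 0) (nat_lit 14876417364) (nat_lit 760) (nat_lit 74525319701) (nat_lit 70) (nat_lit 5) (nat_lit 69) (nat_lit 5) (nat_lit 79) (nat_lit 5) (nat_lit 314) (nat_lit 309) (nat_lit 97)) (XT.nd (nat_lit 78) (nat_lit 0) (nat_lit 0) (XT.lf (nat_lit 0) (nat_lit 66569219872) (nat_lit 684) (nat_lit 31460999205) (nat_lit 760) (nat_lit 40571149997) (nat_lit 70) (nat_lit 5) (nat_lit 79) (nat_lit 5) (nat_lit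 80) (nat_lit 5) (nat_lit 315) (nat_lit 309) (nat_lit 96)) (XT.lf (nat_lit 76) (nat_lit 30096008289) (nat_lit 0) (nat_lit 43550324718) (nat_lit 760) (nat_lit 68665095365) (nat_lit 71) (nat_lit 5) (nat_lit 70) (nat_lit 5) (nat_lit 80) (nat_lit 5) (nat_lit 316) (nat_lit 309) (nat_lit 95)))))) (XT.nd (nat_lit 312) (nat_lit 988) (nat_lit 0) (XT.nd (nat_lit 156) (nat_lit 0) (nat_lit 0) (XT.nd (nat_lit 78) (nat_lit 0) (nat_lit 0) (XT.lf (nat_lit 0) (nat_lit 81831811959) (nat_lit 684) (nat_lit 50579295245) (nat_lit 760) (nat_lit 13758158643) (nat_lit 71) (nat_lit 5) (nat_lit 80) (nat_lit 5) (nat_lit 81) (nat_lit 5) (nat_lit 317) (nat_lit 309) (nat_lit 94)) (XT.lf (nat_lit 76) (nat_lit 13868418727) (nat_lit 0) (nat_lit 77488418348) (nat_lit 760) (nat_lit 58816645197) (nat_lit 72) (nat_lit 5) (nat_lit 71) (nat_lit 5) (nat_lit 81) (nat_lit 5) (nat_lit 318) (nat_lit 309) (nat_lit 93))) (XT.nd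 (nat_lit 78) (nat_lit 0) (nat_lit 76) (XT.lf (nat_lit 76) (nat_lit 83294366427) (nat_lit 0) (nat_lit 18920146253) (nat_lit 760) (nat_lit 52120577530) (nat_lit 72) (nat_lit 5) (nat_lit 71) (nat_lit 5) (nat_lit 81) (nat_lit 5) (nat_lit 319) (nat_lit 309) (nat_lit 92)) (XT.lf (nat_lit 0) (nat_lit 114279634915) (nat_lit 684) (nat_lit 3178059818) (nat_lit 76) (nat_lit 41213856292) (nat_lit 72) (nat_lit 5) (nat_lit 81) (nat_lit 5) (nat_lit 73) (nat_lit 5) (nat_lit 320) (nat_lit 309) (nat_lit 91)))) (XT.nd (nat_lit 156) (nat_lit 380) (nat_lit 0) (XT.nd (nat_lit 78) (nat_lit 0) (nat_lit 0) (XT.lf (nat_lit 0) (nat_lit 70008121752) (nat_lit 684) (nat_lit 58342912959) (nat_lit 760) (nat_lit 34803649689) (nat_lit 63) (nat_lit 5) (nat_lit 72) (nat_lit 5) (nat_lit 73) (nat_lit 5) (nat_lit 321) (nat_lit 309) (nat_lit 90)) (XT.lf (nat_lit 0) (nat_lit 143238745381) (nat_lit 760) (nat_lit 20954569574)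 (nat_lit 76) (nat_lit 3663023009) (nat_lit 63) (nat_lit 5) (nat_lit 73) (nat_lit 5) (nat_lit 64) (nat_lit 5) (nat_lit 322) (nat_lit 309) (nat_lit 89))) (XT.nd (nat_lit 78) (nat_lit 76) (nat_lit 0) (XT.lf (nat_lit 0) (nat_lit 55672297481) (nat_lit 304) (nat_lit 105024031757) (nat_lit 380) (nat_lit 12005471123) (nat_lit 59) (nat_lit 5) (nat_lit 63) (nat_lit 5) (nat_lit 64) (nat_lit 5) (nat_lit 323) (nat_lit 309) (nat_lit 88)) (XT.nd (nat_lit 36426) (nat_lit 0) (nat_lit 760) (XT.lf (nat_lit 0) (nat_lit 1558197926) (nat_lit 380) (nat_lit 40939072374) (nat_lit 76) (nat_lit 135273273142) (nat_lit 58) (nat_lit 5) (nat_lit 63) (nat_lit 5) (nat_lit 59) (nat_lit 5) (nat_lit 324) (nat_lit 309) (nat_lit 87)) (XT.lf (nat_lit 0) (nat_lit 11740330993) (nat_lit 0) (nat_lit 11740330993) (nat_lit 684) (nat_lit 39029188888) (nat_lit 68) (nat_lit 5) (nat_lit 68) (nat_lit 3) (nat_lit 77) (nat_lit 3) (nat_lit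 310) (nat_lit 310) (nat_lit 100))))))) (XT.nd (nat_lit 702) (nat_lit 380) (nat_lit 0) (XT.nd (nat_lit 312) (nat_lit 0) (nat_lit 76) (XT.nd (nat_lit 156) (nat_lit 0) (nat_lit 76) (XT.nd (nat_lit 78) (nat_lit 0) (nat_lit 0) (XT.lf (nat_lit 0) (nat_lit 48622687186) (nat_lit 684) (nat_lit 49519839400) (nat_lit 760) (nat_lit 29978287517) (nat_lit 68) (nat_lit 5) (nat_lit 77) (nat_lit 3) (nat_lit 78) (nat_lit 5) (nat_lit 311) (nat_lit 310) (nat_lit 99)) (XT.lf (nat_lit 76) (nat_lit 4871162830) (nat_lit 0) (nat_lit 45956695175) (nat_lit 760) (nat_lit 80526087975) (nat_lit 69) (nat_lit 5) (nat_lit 68) (nat_lit 5) (nat_lit 78) (nat_lit 5) (nat_lit 312) (nat_lit 310) (nat_lit 98))) (XT.nd (nat_lit 78) (nat_lit 0) (nat_lit 0) (XT.lf (nat_lit 0) (nat_lit 54133439677) (nat_lit 684) (nat_lit 71157759691) (nat_lit 760) (nat_lit 9408028303) (nat_lit 69) (nat_lit 5) (nat_lit 78) (nat_lit 5) (nat_lit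 79) (nat_lit 5) (nat_lit 313) (nat_lit 310) (nat_lit 97)) (XT.lf (nat_lit 0) (nat_lit 58357468880) (nat_lit 684) (nat_lit 13820015098) (nat_lit 760) (nat_lit 65996631839) (nat_lit 69) (nat_lit 5) (nat_lit 78) (nat_lit 5) (nat_lit 79) (nat_lit 5) (nat_lit 314) (nat_lit 310) (nat_lit 96)))) (XT.nd (nat_lit 156) (nat_lit 0) (nat_lit 76) (XT.nd (nat_lit 78) (nat_lit 0) (nat_lit 76) (XT.lf (nat_lit 76) (nat_lit 47918162320) (nat_lit 0) (nat_lit 15622464506) (nat_lit 760) (nat_lit 78244725937) (nat_lit 70) (nat_lit 5) (nat_lit 69) (nat_lit 5) (nat_lit 79) (nat_lit 5) (nat_lit 315) (nat_lit 310) (nat_lit 95)) (XT.lf (nat_lit 0) (nat_lit 69903848652) (nat_lit 684) (nat_lit 33029603228) (nat_lit 760) (nat_lit 42597655097) (nat_lit 70) (nat_lit 5) (nat_lit 79) (nat_lit 5) (nat_lit 80) (nat_lit 5) (nat_lit 316) (nat_lit 310) (nat_lit 94))) (XT.nd (nat_lit 78) (nat_lit 0) (nat_lit 76) (XT.lf (nat_lit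 76) (nat_lit 31605182932) (nat_lit 0) (nat_lit 45729409102) (nat_lit 760) (nat_lit 72092089533) (nat_lit 71) (nat_lit 5) (nat_lit 70) (nat_lit 5) (nat_lit 80) (nat_lit 5) (nat_lit 317) (nat_lit 310) (nat_lit 93)) (XT.nd (nat_lit 78) (nat_lit 0) (nat_lit 0) (XT.lf (nat_lit 0) (nat_lit 85929038645) (nat_lit 684) (nat_lit 53103767688) (nat_lit 760) (nat_lit 14444620902) (nat_lit 71) (nat_lit 5) (nat_lit 80) (nat_lit 5) (nat_lit 81) (nat_lit 5) (nat_lit 318) (nat_lit 310) (nat_lit 92)) (XT.lf (nat_lit 76) (nat_lit 14566259527) (nat_lit 0) (nat_lit 81363856112) (nat_lit 760) (nat_lit 61751749768) (nat_lit 72) (nat_lit 5) (nat_lit 71) (nat_lit 5) (nat_lit 81) (nat_lit 5) (nat_lit 319) (nat_lit 310) (nat_lit 91)))))) (XT.nd (nat_lit 36816) (nat_lit 0) (nat_lit 380) (XT.nd (nat_lit 156) (nat_lit 608) (nat_lit 0) (XT.nd (nat_lit 78) (nat_lit 0) (nat_lit 76) (XT.lf (nat_lit 76) (nat_lit 87463294142)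 (nat_lit 0) (nat_lit 19867121991) (nat_lit 760) (nat_lit 54721151464) (nat_lit 72) (nat_lit 5) (nat_lit 71) (nat_lit 5) (nat_lit 81) (nat_lit 5) (nat_lit 320) (nat_lit 310) (nat_lit 90)) (XT.lf (nat_lit 0) (nat_lit 119998533517) (nat_lit 684) (nat_lit 3332675536) (nat_lit 76) (nat_lit 43273656316) (nat_lit 72) (nat_lit 5) (nat_lit 81) (nat_lit 5) (nat_lit 73) (nat_lit 5) (nat_lit 321) (nat_lit 310) (nat_lit 89))) (XT.nd (nat_lit 78) (nat_lit 0) (nat_lit 0) (XT.lf (nat_lit 0) (nat_lit 73512745963) (nat_lit 684) (nat_lit 61260589061) (nat_lit 760) (nat_lit 36538829630) (nat_lit 63) (nat_lit 5) (nat_lit 72) (nat_lit 5) (nat_lit 73) (nat_lit 5) (nat_lit 322) (nat_lit 310) (nat_lit 88)) (XT.lf (nat_lit 0) (nat_lit 150405197217) (nat_lit 760) (nat_lit 21998031034) (nat_lit 76) (nat_lit 3845685135) (nat_lit 63) (nat_lit 5) (nat_lit 73) (nat_lit 5) (nat_lit 64) (nat_lit 5) (nat_lit 323) (nat_lit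 310) (nat_lit 87)))) (XT.nd (nat_lit 156) (nat_lit 0) (nat_lit 0) (XT.nd (nat_lit 78) (nat_lit 0) (nat_lit 0) (XT.lf (nat_lit 0) (nat_lit 12329222479) (nat_lit 0) (nat_lit 12329222479) (nat_lit 684) (nat_lit 40976697497) (nat_lit 68) (nat_lit 5) (nat_lit 68) (nat_lit 3) (nat_lit 77) (nat_lit 3) (nat_lit 311) (nat_lit 311) (nat_lit 98)) (XT.lf (nat_lit 0) (nat_lit 51060908403) (nat_lit 684) (nat_lit 51991821520) (nat_lit 760) (nat_lit 31473744889) (nat_lit 68) (nat_lit 5) (nat_lit 77) (nat_lit 3) (nat_lit 78) (nat_lit 5) (nat_lit 312) (nat_lit 311) (nat_lit 97))) (XT.nd (nat_lit 78) (nat_lit 0) (nat_lit 76) (XT.lf (nat_lit 76) (nat_lit 5118666147) (nat_lit 0) (nat_lit 48257395742) (nat_lit 760) (nat_lit 84545216409) (nat_lit 69) (nat_lit 5) (nat_lit 68) (nat_lit 5) (nat_lit 78) (nat_lit 5) (nat_lit 313) (nat_lit 311) (nat_lit 96)) (XT.nd (nat_lit 78) (nat_lit 0) (nat_lit 0) (XT.lf (nat_lit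 0) (nat_lit 56846555699) (nat_lit 684) (nat_lit 74711500151) (nat_lit 760) (nat_lit 9875787733) (nat_lit 69) (nat_lit 5) (nat_lit 78) (nat_lit 5) (nat_lit 79) (nat_lit 5) (nat_lit 314) (nat_lit 311) (nat_lit 95)) (XT.lf (nat_lit 0) (nat_lit 61281479503) (nat_lit 684) (nat_lit 14507065830) (nat_lit 760) (nat_lit 69293947255) (nat_lit 69) (nat_lit 5) (nat_lit 78) (nat_lit 5) (nat_lit 79) (nat_lit 5) (nat_lit 315) (nat_lit 311) (nat_lit 94))))))))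
noncomputable def xc255 : XT := (XT.nd (nat_lit 74880) (nat_lit 0) (nat_lit 0) (XT.nd (nat_lit 37362) (nat_lit 0) (nat_lit 0) (XT.nd (nat_lit 312) (nat_lit 76) (nat_lit 0) (XT.nd (nat_lit 156) (nat_lit 0) (nat_lit 76) (XT.nd (nat_lit 78) (nat_lit 0) (nat_lit 76) (XT.lf (nat_lit 76) (nat_lit 50317956749) (nat_lit 0) (nat_lit 16405607028) (nat_lit 760) (nat_lit 82150740239) (nat_lit 70) (nat_lit 5) (nat_lit 69) (nat_lit 5) (nat_lit 79) (nat_lit 5) (nat_lit 316) (nat_lit 311) (nat_lit 93)) (XT.lf (nat_lit 0) (nat_lit 73404635449) (nat_lit 684) (nat_lit 34677050794) (nat_lit 760) (nat_lit 44725676266) (nat_lit 70) (nat_lit 5) (nat_lit 79) (nat_lit 5) (nat_lit 80) (nat_lit 5) (nat_lit 317) (nat_lit 311) (nat_lit 92))) (XT.nd (nat_lit 78) (nat_lit 0) (nat_lit 76) (XT.lf (nat_lit 76) (nat_lit 33189409633) (nat_lit 0) (nat_lit 48017301913) (nat_lit 760) (nat_lit 75691015460) (nat_lit 71) (nat_lit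 5) (nat_lit 70) (nat_lit 5) (nat_lit 80) (nat_lit 5) (nat_lit 318) (nat_lit 311) (nat_lit 91)) (XT.lf (nat_lit 0) (nat_lit 90230602676) (nat_lit 684) (nat_lit 55754881406) (nat_lit 760) (nat_lit 15165540679) (nat_lit 71) (nat_lit 5) (nat_lit 80) (nat_lit 5) (nat_lit 81) (nat_lit 5) (nat_lit 319) (nat_lit 311) (nat_lit 90)))) (XT.nd (nat_lit 156) (nat_lit 228) (nat_lit 0) (XT.nd (nat_lit 78) (nat_lit 0) (nat_lit 0) (XT.lf (nat_lit 76) (nat_lit 15298581449) (nat_lit 0) (nat_lit 85432971228) (nat_lit 760) (nat_lit 64834142074) (nat_lit 72) (nat_lit 5) (nat_lit 71) (nat_lit 5) (nat_lit 81) (nat_lit 5) (nat_lit 320) (nat_lit 311) (nat_lit 89)) (XT.lf (nat_lit 76) (nat_lit 91840276893) (nat_lit 0) (nat_lit 20861356481) (nat_lit 760) (nat_lit 57452261245) (nat_lit 72) (nat_lit 5) (nat_lit 71) (nat_lit 5) (nat_lit 81) (nat_lit 5) (nat_lit 321) (nat_lit 311) (nat_lit 88))) (XT.nd (nat_lit 36738)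 (nat_lit 304) (nat_lit 0) (XT.lf (nat_lit 0) (nat_lit 126002919926) (nat_lit 684) (nat_lit 3495420631) (nat_lit 76) (nat_lit 45436529345) (nat_lit 72) (nat_lit 5) (nat_lit 81) (nat_lit 5) (nat_lit 73) (nat_lit 5) (nat_lit 322) (nat_lit 311) (nat_lit 87)) (XT.nd (nat_lit 78) (nat_lit 0) (nat_lit 0) (XT.lf (nat_lit 0) (nat_lit 12947384226) (nat_lit 0) (nat_lit 12947384226) (nat_lit 684) (nat_lit 43021948847) (nat_lit 68) (nat_lit 5) (nat_lit 68) (nat_lit 3) (nat_lit 77) (nat_lit 3) (nat_lit 312) (nat_lit 312) (nat_lit 96)) (XT.lf (nat_lit 0) (nat_lit 53620381812) (nat_lit 684) (nat_lit 54587775543) (nat_lit 760) (nat_lit 33044296529) (nat_lit 68) (nat_lit 5) (nat_lit 77) (nat_lit 3) (nat_lit 78) (nat_lit 5) (nat_lit 313) (nat_lit 312) (nat_lit 95)))))) (XT.nd (nat_lit 312) (nat_lit 0) (nat_lit 0) (XT.nd (nat_lit 156) (nat_lit 0) (nat_lit 76) (XT.nd (nat_lit 78) (nat_lit 0) (nat_lit 76)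 (XT.lf (nat_lit 76) (nat_lit 5378177846) (nat_lit 0) (nat_lit 50672864902) (nat_lit 760) (nat_lit 88765968417) (nat_lit 69) (nat_lit 5) (nat_lit 68) (nat_lit 5) (nat_lit 78) (nat_lit 5) (nat_lit 314) (nat_lit 312) (nat_lit 94)) (XT.lf (nat_lit 0) (nat_lit 59694728417) (nat_lit 684) (nat_lit 78443313232) (nat_lit 760) (nat_lit 10367180761) (nat_lit 69) (nat_lit 5) (nat_lit 78) (nat_lit 5) (nat_lit 79) (nat_lit 5) (nat_lit 315) (nat_lit 312) (nat_lit 93))) (XT.nd (nat_lit 78) (nat_lit 0) (nat_lit 0) (XT.lf (nat_lit 0) (nat_lit 64351120081) (nat_lit 684) (nat_lit 15228836334) (nat_lit 760) (nat_lit 72756362371) (nat_lit 69) (nat_lit 5) (nat_lit 78) (nat_lit 5) (nat_lit 79) (nat_lit 5) (nat_lit 316) (nat_lit 312) (nat_lit 92)) (XT.lf (nat_lit 76) (nat_lit 52837379587) (nat_lit 0) (nat_lit 17227718940) (nat_lit 760) (nat_lit 86252633718) (nat_lit 70) (nat_lit 5) (nat_lit 69) (nat_lit 5)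 (nat_lit 79) (nat_lit 5) (nat_lit 317) (nat_lit 312) (nat_lit 91)))) (XT.nd (nat_lit 156) (nat_lit 152) (nat_lit 0) (XT.nd (nat_lit 78) (nat_lit 0) (nat_lit 0) (XT.lf (nat_lit 0) (nat_lit 77079941475) (nat_lit 684) (nat_lit 36407245650) (nat_lit 760) (nat_lit 46960271565) (nat_lit 70) (nat_lit 5) (nat_lit 79) (nat_lit 5) (nat_lit 80) (nat_lit 5) (nat_lit 318) (nat_lit 312) (nat_lit 90)) (XT.lf (nat_lit 76) (nat_lit 34852478803) (nat_lit 0) (nat_lit 50419457128) (nat_lit 760) (nat_lit 79470415622) (nat_lit 71) (nat_lit 5) (nat_lit 70) (nat_lit 5) (nat_lit 80) (nat_lit 5) (nat_lit 319) (nat_lit 312) (nat_lit 89))) (XT.nd (nat_lit 78) (nat_lit 228) (nat_lit 0) (XT.lf (nat_lit 0) (nat_lit 94746769634) (nat_lit 684) (nat_lit 58538929633) (nat_lit 760) (nat_lit 15922628353) (nat_lit 71) (nat_lit 5) (nat_lit 80) (nat_lit 5) (nat_lit 81) (nat_lit 5) (nat_lit 320) (nat_lit 312) (nat_lit 88))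 (XT.nd (nat_lit 36894) (nat_lit 228) (nat_lit 0) (XT.lf (nat_lit 76) (nat_lit 16067146754) (nat_lit 0) (nat_lit 89705456351) (nat_lit 760) (nat_lit 68071136994) (nat_lit 72) (nat_lit 5) (nat_lit 71) (nat_lit 5) (nat_lit 81) (nat_lit 5) (nat_lit 321) (nat_lit 312) (nat_lit 87)) (XT.lf (nat_lit 0) (nat_lit 13596295952) (nat_lit 0) (nat_lit 13596295952) (nat_lit 684) (nat_lit 45169795928) (nat_lit 68) (nat_lit 5) (nat_lit 68) (nat_lit 3) (nat_lit 77) (nat_lit 3) (nat_lit 313) (nat_lit 313) (nat_lit 94))))))) (XT.nd (nat_lit 37674) (nat_lit 0) (nat_lit 0) (XT.nd (nat_lit 312) (nat_lit 0) (nat_lit 0) (XT.nd (nat_lit 156) (nat_lit 0) (nat_lit 76) (XT.nd (nat_lit 78) (nat_lit 0) (nat_lit 0) (XT.lf (nat_lit 0) (nat_lit 56307231278) (nat_lit 684) (nat_lit 57313865406) (nat_lit 760) (nat_lit 34693667270) (nat_lit 68) (nat_lit 5) (nat_lit 77) (nat_lit 3) (nat_lit 78) (nat_lit 5) (nat_lit 314)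 (nat_lit 313) (nat_lit 93)) (XT.lf (nat_lit 76) (nat_lit 5650332444) (nat_lit 0) (nat_lit 53208865854) (nat_lit 760) (nat_lit 93198363154) (nat_lit 69) (nat_lit 5) (nat_lit 68) (nat_lit 5) (nat_lit 78) (nat_lit 5) (nat_lit 315) (nat_lit 313) (nat_lit 92))) (XT.nd (nat_lit 78) (nat_lit 0) (nat_lit 0) (XT.lf (nat_lit 0) (nat_lit 62684766364) (nat_lit 684) (nat_lit 82362066715) (nat_lit 760) (nat_lit 10883366232) (nat_lit 69) (nat_lit 5) (nat_lit 78) (nat_lit 5) (nat_lit 79) (nat_lit 5) (nat_lit 316) (nat_lit 313) (nat_lit 91)) (XT.lf (nat_lit 0) (nat_lit 67573725158) (nat_lit 684) (nat_lit 15987028457) (nat_lit 760) (nat_lit 76392110426) (nat_lit 69) (nat_lit 5) (nat_lit 78) (nat_lit 5) (nat_lit 79) (nat_lit 5) (nat_lit 317) (nat_lit 313) (nat_lit 90)))) (XT.nd (nat_lit 156) (nat_lit 76) (nat_lit 0) (XT.nd (nat_lit 78) (nat_lit 0) (nat_lit 76) (XT.lf (nat_lit 76) (nat_lit 55482445846)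 (nat_lit 0) (nat_lit 18090766167) (nat_lit 760) (nat_lit 90560146553) (nat_lit 70) (nat_lit 5) (nat_lit 69) (nat_lit 5) (nat_lit 79) (nat_lit 5) (nat_lit 318) (nat_lit 313) (nat_lit 89)) (XT.lf (nat_lit 0) (nat_lit 80938541045) (nat_lit 684) (nat_lit 38224290306) (nat_lit 760) (nat_lit 49306753611) (nat_lit 70) (nat_lit 5) (nat_lit 79) (nat_lit 5) (nat_lit 80) (nat_lit 5) (nat_lit 319) (nat_lit 313) (nat_lit 88))) (XT.nd (nat_lit 37050) (nat_lit 152) (nat_lit 0) (XT.lf (nat_lit 76) (nat_lit 36598366860) (nat_lit 0) (nat_lit 52941600160) (nat_lit 760) (nat_lit 83439264646) (nat_lit 71) (nat_lit 5) (nat_lit 70) (nat_lit 5) (nat_lit 80) (nat_lit 5) (nat_lit 320) (nat_lit 313) (nat_lit 87)) (XT.nd (nat_lit 78) (nat_lit 0) (nat_lit 0) (XT.lf (nat_lit 0) (nat_lit 14277509856) (nat_lit 0) (nat_lit 14277509856) (nat_lit 684) (nat_lit 47425337550) (nat_lit 68) (nat_lit 5) (nat_lit 68) (nat_lit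 3) (nat_lit 77) (nat_lit 3) (nat_lit 314) (nat_lit 314) (nat_lit 92)) (XT.lf (nat_lit 0) (nat_lit 59127881165) (nat_lit 684) (nat_lit 60176566464) (nat_lit 760) (nat_lit 36425770964) (nat_lit 68) (nat_lit 5) (nat_lit 77) (nat_lit 3) (nat_lit 78) (nat_lit 5) (nat_lit 315) (nat_lit 314) (nat_lit 91)))))) (XT.nd (nat_lit 37518) (nat_lit 0) (nat_lit 0) (XT.nd (nat_lit 156) (nat_lit 0) (nat_lit 0) (XT.nd (nat_lit 78) (nat_lit 0) (nat_lit 76) (XT.lf (nat_lit 76) (nat_lit 5935793017) (nat_lit 0) (nat_lit 55871447657) (nat_lit 760) (nat_lit 97852926496) (nat_lit 69) (nat_lit 5) (nat_lit 68) (nat_lit 5) (nat_lit 78) (nat_lit 5) (nat_lit 316) (nat_lit 314) (nat_lit 90)) (XT.lf (nat_lit 0) (nat_lit 65823813323) (nat_lit 684) (nat_lit 86477075105) (nat_lit 760) (nat_lit 11425563054) (nat_lit 69) (nat_lit 5) (nat_lit 78) (nat_lit 5) (nat_lit 79) (nat_lit 5) (nat_lit 317) (nat_lit 314) (nat_lit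 89))) (XT.nd (nat_lit 78) (nat_lit 76) (nat_lit 0) (XT.lf (nat_lit 0) (nat_lit 70956991074) (nat_lit 684) (nat_lit 16783432312) (nat_lit 760) (nat_lit 80209838338) (nat_lit 69) (nat_lit 5) (nat_lit 78) (nat_lit 5) (nat_lit 79) (nat_lit 5) (nat_lit 318) (nat_lit 314) (nat_lit 88)) (XT.nd (nat_lit 37206) (nat_lit 76) (nat_lit 0) (XT.lf (nat_lit 76) (nat_lit 58259468165) (nat_lit 0) (nat_lit 18996811305) (nat_lit 760) (nat_lit 95083510932) (nat_lit 70) (nat_lit 5) (nat_lit 69) (nat_lit 5) (nat_lit 79) (nat_lit 5) (nat_lit 319) (nat_lit 314) (nat_lit 87)) (XT.lf (nat_lit 0) (nat_lit 14992654380) (nat_lit 0) (nat_lit 14992654380) (nat_lit 684) (nat_lit 49793930347) (nat_lit 68) (nat_lit 5) (nat_lit 68) (nat_lit 3) (nat_lit 77) (nat_lit 3) (nat_lit 315) (nat_lit 315) (nat_lit 90))))) (XT.nd (nat_lit 156) (nat_lit 0) (nat_lit 0) (XT.nd (nat_lit 78) (nat_lit 0) (nat_lit 0) (XT.lf (nat_lit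 0) (nat_lit 62089071887) (nat_lit 684) (nat_lit 63182680762) (nat_lit 760) (nat_lit 38244719676) (nat_lit 68) (nat_lit 5) (nat_lit 77) (nat_lit 3) (nat_lit 78) (nat_lit 5) (nat_lit 316) (nat_lit 315) (nat_lit 89)) (XT.lf (nat_lit 76) (nat_lit 6235252918) (nat_lit 0) (nat_lit 58666959731) (nat_lit 760) (nat_lit 102740715845) (nat_lit 69) (nat_lit 5) (nat_lit 68) (nat_lit 5) (nat_lit 78) (nat_lit 5) (nat_lit 317) (nat_lit 315) (nat_lit 88))) (XT.nd (nat_lit 37362) (nat_lit 76) (nat_lit 0) (XT.lf (nat_lit 0) (nat_lit 69119365569) (nat_lit 684) (nat_lit 90798121652) (nat_lit 760) (nat_lit 11995053007) (nat_lit 69) (nat_lit 5) (nat_lit 78) (nat_lit 5) (nat_lit 79) (nat_lit 5) (nat_lit 318) (nat_lit 315) (nat_lit 87)) (XT.nd (nat_lit 78) (nat_lit 0) (nat_lit 0) (XT.lf (nat_lit 0) (nat_lit 15743438148) (nat_lit 0) (nat_lit 15743438148) (nat_lit 684) (nat_lit 52281201394) (nat_lit 68) (nat_lit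 5) (nat_lit 68) (nat_lit 3) (nat_lit 77) (nat_lit 3) (nat_lit 316) (nat_lit 316) (nat_lit 88)) (XT.lf (nat_lit 0) (nat_lit 65197876198) (nat_lit 684) (nat_lit 66339353100) (nat_lit 760) (nat_lit 40154833359) (nat_lit 68) (nat_lit 5) (nat_lit 77) (nat_lit 3) (nat_lit 78) (nat_lit 5) (nat_lit 317) (nat_lit 316) (nat_lit 87))))))))

set_option maxRecDepth 10000000 in
noncomputable def Tp : PT := (PT.nd (nat_lit 4623528) (PT.nd (nat_lit 4286490) (PT.nd (nat_lit 3986658) (PT.nd (nat_lit 3724344) pc0 pc1) (PT.nd (nat_lit 150228) pc2 pc3)) (PT.nd (nat_lit 187512) (PT.nd (nat_lit 112086) pc4 pc5) (PT.nd (nat_lit 75036) pc6 pc7))) (PT.nd (nat_lit 188604) (PT.nd (nat_lit 112398) (PT.nd (nat_lit 38610) pc8 pc9) (PT.nd (nat_lit 38142) pc10 pc11)) (PT.nd (nat_lit 112476) (PT.nd (nat_lit 37830) pc12 pc13) (PT.nd (nat_lit 75738) pc14 pc15))))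

set_option maxRecDepth 10000000 in
noncomputable def Tx : XT := (XT.nd (nat_lit 6669312) (nat_lit 0) (nat_lit 76) XT.nil (XT.nd (nat_lit 5211180) (nat_lit 0) (nat_lit 0) (XT.nd (nat_lit 2545218) (nat_lit 0) (nat_lit 0) (XT.nd (nat_lit 1761552) (nat_lit 0) (nat_lit 0) (XT.nd (nat_lit 1235520) (nat_lit 0) (nat_lit 0) (XT.nd (nat_lit 861276) (nat_lit 0) (nat_lit 0) (XT.nd (nat_lit 599040) (nat_lit 0) (nat_lit 0) (XT.nd (nat_lit 411918) (nat_lit 0) (nat_lit 0) (XT.nd (nat_lit 298896) (nat_lit 0) (nat_lit 0) (XT.nd (nat_lit 187278) (nat_lit 0) (nat_lit 0) xc0 xc1) (XT.nd (nat_lit 38766) (nat_lit 0) (nat_lit 0) xc2 xc3)) (XT.nd (nat_lit 111618) (nat_lit 0) (nat_lit 0) (XT.nd (nat_lit 38298) (nat_lit 0) (nat_lit 0) xc4 xc5) (XT.nd (nat_lit 37830) (nat_lit 0) (nat_lit 0) xc6 xc7))) (XT.nd (nat_lit 149136) (nat_lit 0) (nat_lit 0) (XT.nd (nat_lit 74880) (nat_lit 0) (nat_lit 0) (XT.nd (nat_lit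 37518) (nat_lit 0) (nat_lit 0) xc8 xc9) (XT.nd (nat_lit 37206) (nat_lit 0) (nat_lit 0) xc10 xc11)) (XT.nd (nat_lit 39702) (nat_lit 0) (nat_lit 0) (XT.nd (nat_lit 36894) (nat_lit 0) (nat_lit 0) xc12 xc13) (XT.nd (nat_lit 36738) (nat_lit 0) (nat_lit 0) xc14 xc15)))) (XT.nd (nat_lit 189072) (nat_lit 0) (nat_lit 0) (XT.nd (nat_lit 111618) (nat_lit 0) (nat_lit 0) (XT.nd (nat_lit 72696) (nat_lit 0) (nat_lit 0) (XT.nd (nat_lit 36426) (nat_lit 0) (nat_lit 0) xc16 xc17) (XT.nd (nat_lit 2808) (nat_lit 0) (nat_lit 0) xc18 xc19)) (XT.nd (nat_lit 38766) (nat_lit 0) (nat_lit 0) (XT.nd (nat_lit 35958) (nat_lit 0) (nat_lit 0) xc20 xc21) (XT.nd (nat_lit 35802) (nat_lit 0) (nat_lit 0) xc22 xc23))) (XT.nd (nat_lit 109278) (nat_lit 0) (nat_lit 0) (XT.nd (nat_lit 71136) (nat_lit 0) (nat_lit 0) (XT.nd (nat_lit 35646) (nat_lit 0) (nat_lit 0) xc24 xc25) (XT.nd (nat_lit 2808) (nat_lit 0) (nat_lit 0) xc26 xc27))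 (XT.nd (nat_lit 37986) (nat_lit 0) (nat_lit 0) (XT.nd (nat_lit 2808) (nat_lit 0) (nat_lit 0) xc28 xc29) (XT.nd (nat_lit 2808) (nat_lit 0) (nat_lit 0) xc30 xc31))))) (XT.nd (nat_lit 297804) (nat_lit 0) (nat_lit 0) (XT.nd (nat_lit 150150) (nat_lit 0) (nat_lit 0) (XT.nd (nat_lit 75348) (nat_lit 0) (nat_lit 0) (XT.nd (nat_lit 37752) (nat_lit 0) (nat_lit 0) (XT.nd (nat_lit 34944) (nat_lit 0) (nat_lit 0) xc32 xc33) (XT.nd (nat_lit 34788) (nat_lit 0) (nat_lit 0) xc34 xc35)) (XT.nd (nat_lit 37440) (nat_lit 0) (nat_lit 0) (XT.nd (nat_lit 34632) (nat_lit 0) (nat_lit 0) xc36 xc37) (XT.nd (nat_lit 34476) (nat_lit 0) (nat_lit 0) xc38 xc39))) (XT.nd (nat_lit 74100) (nat_lit 0) (nat_lit 0) (XT.nd (nat_lit 37128) (nat_lit 0) (nat_lit 0) (XT.nd (nat_lit 34320) (nat_lit 0) (nat_lit 0) xc40 xc41) (XT.nd (nat_lit 2808) (nat_lit 0) (nat_lit 0) xc42 xc43)) (XT.nd (nat_lit 36816) (nat_lit 0) (nat_lit 0)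 (XT.nd (nat_lit 2808) (nat_lit 0) (nat_lit 0) xc44 xc45) (XT.nd (nat_lit 2808) (nat_lit 0) (nat_lit 0) xc46 xc47)))) (XT.nd (nat_lit 114738) (nat_lit 0) (nat_lit 0) (XT.nd (nat_lit 42120) (nat_lit 0) (nat_lit 0) (XT.nd (nat_lit 36504) (nat_lit 0) (nat_lit 0) (XT.nd (nat_lit 2808) (nat_lit 0) (nat_lit 0) xc48 xc49) (XT.nd (nat_lit 2808) (nat_lit 0) (nat_lit 0) xc50 xc51)) (XT.nd (nat_lit 36348) (nat_lit 0) (nat_lit 0) (XT.nd (nat_lit 33540) (nat_lit 0) (nat_lit 0) xc52 xc53) (XT.nd (nat_lit 33384) (nat_lit 0) (nat_lit 0) xc54 xc55))) (XT.nd (nat_lit 71994) (nat_lit 0) (nat_lit 0) (XT.nd (nat_lit 36036) (nat_lit 0) (nat_lit 0) (XT.nd (nat_lit 33228) (nat_lit 0) (nat_lit 152) xc56 xc57) (XT.nd (nat_lit 2808) (nat_lit 0) (nat_lit 0) xc58 xc59)) (XT.nd (nat_lit 5616) (nat_lit 0) (nat_lit 0) (XT.nd (nat_lit 2808) (nat_lit 76) (nat_lit 0) xc60 xc61) (XT.nd (nat_lit 32994) (nat_lit 0) (nat_lit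 0) xc62 xc63)))))) (XT.nd (nat_lit 412308) (nat_lit 0) (nat_lit 0) (XT.nd (nat_lit 222924) (nat_lit 0) (nat_lit 0) (XT.nd (nat_lit 112086) (nat_lit 0) (nat_lit 0) (XT.nd (nat_lit 71136) (nat_lit 0) (nat_lit 0) (XT.nd (nat_lit 35646) (nat_lit 0) (nat_lit 0) (XT.nd (nat_lit 32838) (nat_lit 0) (nat_lit 76) xc64 xc65) (XT.nd (nat_lit 2808) (nat_lit 0) (nat_lit 0) xc66 xc67)) (XT.nd (nat_lit 35334) (nat_lit 0) (nat_lit 0) (XT.nd (nat_lit 2808) (nat_lit 76) (nat_lit 0) xc68 xc69) (XT.nd (nat_lit 2808) (nat_lit 380) (nat_lit 0) xc70 xc71))) (XT.nd (nat_lit 70200) (nat_lit 0) (nat_lit 0) (XT.nd (nat_lit 35178) (nat_lit 0) (nat_lit 0) (XT.nd (nat_lit 32370) (nat_lit 0) (nat_lit 304) xc72 xc73) (XT.nd (nat_lit 2808) (nat_lit 0) (nat_lit 0) xc74 xc75)) (XT.nd (nat_lit 5616) (nat_lit 0) (nat_lit 0) (XT.nd (nat_lit 2808) (nat_lit 228) (nat_lit 0) xc76 xc77) (XT.nd (nat_lit 32136) (nat_lit 0) (nat_lit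 228) xc78 xc79)))) (XT.nd (nat_lit 109590) (nat_lit 0) (nat_lit 0) (XT.nd (nat_lit 40404) (nat_lit 0) (nat_lit 0) (XT.nd (nat_lit 34788) (nat_lit 0) (nat_lit 0) (XT.nd (nat_lit 2808) (nat_lit 0) (nat_lit 0) xc80 xc81) (XT.nd (nat_lit 2808) (nat_lit 228) (nat_lit 0) xc82 xc83)) (XT.nd (nat_lit 34632) (nat_lit 0) (nat_lit 0) (XT.nd (nat_lit 31824) (nat_lit 0) (nat_lit 228) xc84 xc85) (XT.nd (nat_lit 2808) (nat_lit 0) (nat_lit 0) xc86 xc87))) (XT.nd (nat_lit 39936) (nat_lit 0) (nat_lit 0) (XT.nd (nat_lit 5616) (nat_lit 0) (nat_lit 0) (XT.nd (nat_lit 2808) (nat_lit 304) (nat_lit 0) xc88 xc89) (XT.nd (nat_lit 31512) (nat_lit 0) (nat_lit 304) xc90 xc91)) (XT.nd (nat_lit 34164) (nat_lit 0) (nat_lit 76) (XT.nd (nat_lit 2808) (nat_lit 0) (nat_lit 0) xc92 xc93) (XT.nd (nat_lit 2808) (nat_lit 456) (nat_lit 0) xc94 xc95))))) (XT.nd (nat_lit 185718) (nat_lit 0) (nat_lit 0) (XT.nd (nat_lit 107328)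 (nat_lit 0) (nat_lit 0) (XT.nd (nat_lit 67860) (nat_lit 0) (nat_lit 0) (XT.nd (nat_lit 34008) (nat_lit 0) (nat_lit 0) (XT.nd (nat_lit 31200) (nat_lit 0) (nat_lit 836) xc96 xc97) (XT.nd (nat_lit 2808) (nat_lit 76) (nat_lit 0) xc98 xc99)) (XT.nd (nat_lit 5616) (nat_lit 228) (nat_lit 0) (XT.nd (nat_lit 2808) (nat_lit 1368) (nat_lit 0) xc100 xc101) (XT.nd (nat_lit 2808) (nat_lit 0) (nat_lit 0) xc102 xc103))) (XT.nd (nat_lit 39234) (nat_lit 0) (nat_lit 0) (XT.nd (nat_lit 5616) (nat_lit 0) (nat_lit 0) (XT.nd (nat_lit 2808) (nat_lit 456) (nat_lit 0) xc104 xc105) (XT.nd (nat_lit 30810) (nat_lit 0) (nat_lit 912) xc106 xc107)) (XT.nd (nat_lit 33462) (nat_lit 0) (nat_lit 304) (XT.nd (nat_lit 2808) (nat_lit 76) (nat_lit 0) xc108 xc109) (XT.nd (nat_lit 2808) (nat_lit 1900) (nat_lit 0) xc110 xc111)))) (XT.nd (nat_lit 78468) (nat_lit 0) (nat_lit 0) (XT.nd (nat_lit 39156) (nat_lit 0) (nat_lit 0) (XT.nd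 (nat_lit 33540) (nat_lit 0) (nat_lit 76) (XT.nd (nat_lit 2808) (nat_lit 0) (nat_lit 0) xc112 xc113) (XT.nd (nat_lit 2808) (nat_lit 760) (nat_lit 0) xc114 xc115)) (XT.nd (nat_lit 33618) (nat_lit 0) (nat_lit 0) (XT.nd (nat_lit 30810) (nat_lit 0) (nat_lit 1596) xc116 xc117) (XT.nd (nat_lit 2808) (nat_lit 304) (nat_lit 0) xc118 xc119))) (XT.nd (nat_lit 67548) (nat_lit 0) (nat_lit 0) (XT.nd (nat_lit 33696) (nat_lit 0) (nat_lit 0) (XT.nd (nat_lit 30888) (nat_lit 0) (nat_lit 532) xc120 xc121) (XT.nd (nat_lit 2808) (nat_lit 76) (nat_lit 0) xc122 xc123)) (XT.nd (nat_lit 5616) (nat_lit 76) (nat_lit 0) (XT.nd (nat_lit 2808) (nat_lit 836) (nat_lit 0) xc124 xc125) (XT.nd (nat_lit 31122) (nat_lit 0) (nat_lit 1368) xc126 xc127))))))) (XT.nd (nat_lit 827346) (nat_lit 0) (nat_lit 76) (XT.nd (nat_lit 378144) (nat_lit 0) (nat_lit 0) (XT.nd (nat_lit 187824) (nat_lit 0) (nat_lit 0) (XT.nd (nat_lit 79326)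 (nat_lit 0) (nat_lit 0) (XT.nd (nat_lit 39624) (nat_lit 0) (nat_lit 0) (XT.nd (nat_lit 5616) (nat_lit 0) (nat_lit 0) (XT.nd (nat_lit 2808) (nat_lit 228) (nat_lit 0) xc128 xc129) (XT.nd (nat_lit 31200) (nat_lit 0) (nat_lit 380) xc130 xc131)) (XT.nd (nat_lit 34086) (nat_lit 0) (nat_lit 76) (XT.nd (nat_lit 2808) (nat_lit 0) (nat_lit 0) xc132 xc133) (XT.nd (nat_lit 2808) (nat_lit 532) (nat_lit 0) xc134 xc135))) (XT.nd (nat_lit 68406) (nat_lit 0) (nat_lit 0) (XT.nd (nat_lit 34164) (nat_lit 0) (nat_lit 0) (XT.nd (nat_lit 31356) (nat_lit 0) (nat_lit 912) xc136 xc137) (XT.nd (nat_lit 2808) (nat_lit 76) (nat_lit 0) xc138 xc139)) (XT.nd (nat_lit 5616) (nat_lit 228) (nat_lit 0) (XT.nd (nat_lit 2808) (nat_lit 988) (nat_lit 0) xc140 xc141) (XT.nd (nat_lit 31590) (nat_lit 0) (nat_lit 1520) xc142 xc143)))) (XT.nd (nat_lit 80340) (nat_lit 0) (nat_lit 0) (XT.nd (nat_lit 40092) (nat_lit 0) (nat_lit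 0) (XT.nd (nat_lit 34476) (nat_lit 0) (nat_lit 304) (XT.nd (nat_lit 2808) (nat_lit 304) (nat_lit 0) xc144 xc145) (XT.nd (nat_lit 2808) (nat_lit 1444) (nat_lit 0) xc146 xc147)) (XT.nd (nat_lit 34554) (nat_lit 0) (nat_lit 0) (XT.nd (nat_lit 31746) (nat_lit 0) (nat_lit 1900) xc148 xc149) (XT.nd (nat_lit 2808) (nat_lit 380) (nat_lit 0) xc150 xc151))) (XT.nd (nat_lit 69420) (nat_lit 0) (nat_lit 0) (XT.nd (nat_lit 34632) (nat_lit 0) (nat_lit 0) (XT.nd (nat_lit 31824) (nat_lit 0) (nat_lit 380) xc152 xc153) (XT.nd (nat_lit 2808) (nat_lit 0) (nat_lit 0) xc154 xc155)) (XT.nd (nat_lit 34866) (nat_lit 0) (nat_lit 380) (XT.nd (nat_lit 2808) (nat_lit 380) (nat_lit 0) xc156 xc157) (XT.nd (nat_lit 2808) (nat_lit 1520) (nat_lit 0) xc158 xc159))))) (XT.nd (nat_lit 222612) (nat_lit 0) (nat_lit 76) (XT.nd (nat_lit 110838) (nat_lit 0) (nat_lit 76) (XT.nd (nat_lit 69966) (nat_lit 0) (nat_lit 76) (XT.nd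 (nat_lit 34944) (nat_lit 0) (nat_lit 0) (XT.nd (nat_lit 32136) (nat_lit 0) (nat_lit 1748) xc160 xc161) (XT.nd (nat_lit 2808) (nat_lit 304) (nat_lit 0) xc162 xc163)) (XT.nd (nat_lit 5616) (nat_lit 228) (nat_lit 0) (XT.nd (nat_lit 2808) (nat_lit 1292) (nat_lit 0) xc164 xc165) (XT.nd (nat_lit 32370) (nat_lit 0) (nat_lit 1140) xc166 xc167))) (XT.nd (nat_lit 40872) (nat_lit 0) (nat_lit 0) (XT.nd (nat_lit 35256) (nat_lit 0) (nat_lit 0) (XT.nd (nat_lit 2808) (nat_lit 152) (nat_lit 0) xc168 xc169) (XT.nd (nat_lit 2808) (nat_lit 836) (nat_lit 0) xc170 xc171)) (XT.nd (nat_lit 35334) (nat_lit 0) (nat_lit 0) (XT.nd (nat_lit 32526) (nat_lit 0) (nat_lit 532) xc172 xc173) (XT.nd (nat_lit 2808) (nat_lit 0) (nat_lit 0) xc174 xc175)))) (XT.nd (nat_lit 112710) (nat_lit 0) (nat_lit 0) (XT.nd (nat_lit 41184) (nat_lit 0) (nat_lit 0) (XT.nd (nat_lit 35568) (nat_lit 0) (nat_lit 152) (XT.nd (nat_lit 2808)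 (nat_lit 304) (nat_lit 0) xc176 xc177) (XT.nd (nat_lit 2808) (nat_lit 1140) (nat_lit 0) xc178 xc179)) (XT.nd (nat_lit 35646) (nat_lit 0) (nat_lit 0) (XT.nd (nat_lit 32838) (nat_lit 0) (nat_lit 760) xc180 xc181) (XT.nd (nat_lit 2808) (nat_lit 0) (nat_lit 0) xc182 xc183))) (XT.nd (nat_lit 41496) (nat_lit 0) (nat_lit 0) (XT.nd (nat_lit 35880) (nat_lit 0) (nat_lit 152) (XT.nd (nat_lit 2808) (nat_lit 304) (nat_lit 0) xc184 xc185) (XT.nd (nat_lit 2808) (nat_lit 988) (nat_lit 0) xc186 xc187)) (XT.nd (nat_lit 36114) (nat_lit 0) (nat_lit 0) (XT.nd (nat_lit 33306) (nat_lit 0) (nat_lit 456) xc188 xc189) (XT.nd (nat_lit 33384) (nat_lit 0) (nat_lit 1140) xc190 xc191)))))) (XT.nd (nat_lit 563628) (nat_lit 0) (nat_lit 456) (XT.nd (nat_lit 262704) (nat_lit 0) (nat_lit 228) (XT.nd (nat_lit 115050) (nat_lit 0) (nat_lit 152) (XT.nd (nat_lit 72852) (nat_lit 0) (nat_lit 152) (XT.nd (nat_lit 36348) (nat_lit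 0) (nat_lit 152) (XT.nd (nat_lit 2808) (nat_lit 152) (nat_lit 0) xc192 xc193) (XT.nd (nat_lit 2808) (nat_lit 228) (nat_lit 0) xc194 xc195)) (XT.nd (nat_lit 36582) (nat_lit 0) (nat_lit 76) (XT.nd (nat_lit 2808) (nat_lit 684) (nat_lit 0) xc196 xc197) (XT.nd (nat_lit 2808) (nat_lit 1292) (nat_lit 0) xc198 xc199))) (XT.nd (nat_lit 73554) (nat_lit 0) (nat_lit 0) (XT.nd (nat_lit 36738) (nat_lit 0) (nat_lit 0) (XT.nd (nat_lit 33930) (nat_lit 0) (nat_lit 304) xc200 xc201) (XT.nd (nat_lit 34008) (nat_lit 0) (nat_lit 608) xc202 xc203)) (XT.nd (nat_lit 36972) (nat_lit 0) (nat_lit 76) (XT.nd (nat_lit 34164) (nat_lit 0) (nat_lit 988) xc204 xc205) (XT.nd (nat_lit 34242) (nat_lit 0) (nat_lit 1216) xc206 xc207)))) (XT.nd (nat_lit 149526) (nat_lit 0) (nat_lit 76) (XT.nd (nat_lit 74490) (nat_lit 0) (nat_lit 0) (XT.nd (nat_lit 37206) (nat_lit 0) (nat_lit 0) (XT.nd (nat_lit 34398) (nat_lit 0) (nat_lit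 1596) xc208 xc209) (XT.nd (nat_lit 2808) (nat_lit 76) (nat_lit 0) xc210 xc211)) (XT.nd (nat_lit 37440) (nat_lit 0) (nat_lit 76) (XT.nd (nat_lit 2808) (nat_lit 152) (nat_lit 0) xc212 xc213) (XT.nd (nat_lit 2808) (nat_lit 152) (nat_lit 0) xc214 xc215))) (XT.nd (nat_lit 75426) (nat_lit 0) (nat_lit 76) (XT.nd (nat_lit 37674) (nat_lit 0) (nat_lit 0) (XT.nd (nat_lit 2808) (nat_lit 152) (nat_lit 0) xc216 xc217) (XT.nd (nat_lit 2808) (nat_lit 76) (nat_lit 0) xc218 xc219)) (XT.nd (nat_lit 37908) (nat_lit 0) (nat_lit 76) (XT.nd (nat_lit 35100) (nat_lit 0) (nat_lit 1292) xc220 xc221) (XT.nd (nat_lit 35178) (nat_lit 0) (nat_lit 836) xc222 xc223))))) (XT.nd (nat_lit 410202) (nat_lit 0) (nat_lit 684) (XT.nd (nat_lit 186498) (nat_lit 0) (nat_lit 304) (XT.nd (nat_lit 76440) (nat_lit 0) (nat_lit 76) (XT.nd (nat_lit 38142) (nat_lit 0) (nat_lit 0) (XT.nd (nat_lit 35334) (nat_lit 0) (nat_lit 532) xc224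 xc225) (XT.nd (nat_lit 35490) (nat_lit 0) (nat_lit 76) xc226 xc227)) (XT.nd (nat_lit 71292) (nat_lit 0) (nat_lit 228) (XT.nd (nat_lit 35568) (nat_lit 0) (nat_lit 0) xc228 xc229) (XT.nd (nat_lit 2808) (nat_lit 380) (nat_lit 0) xc230 xc231))) (XT.nd (nat_lit 111150) (nat_lit 0) (nat_lit 228) (XT.nd (nat_lit 38766) (nat_lit 0) (nat_lit 76) (XT.nd (nat_lit 35958) (nat_lit 0) (nat_lit 912) xc232 xc233) (XT.nd (nat_lit 36114) (nat_lit 0) (nat_lit 0) xc234 xc235)) (XT.nd (nat_lit 39234) (nat_lit 0) (nat_lit 0) (XT.nd (nat_lit 2808) (nat_lit 684) (nat_lit 0) xc236 xc237) (XT.nd (nat_lit 36504) (nat_lit 0) (nat_lit 152) xc238 xc239)))) (XT.nd (nat_lit 263718) (nat_lit 0) (nat_lit 988) (XT.nd (nat_lit 113724) (nat_lit 0) (nat_lit 532) (XT.nd (nat_lit 39624) (nat_lit 0) (nat_lit 152) (XT.nd (nat_lit 2808) (nat_lit 684) (nat_lit 0) xc240 xc241) (XT.nd (nat_lit 36972) (nat_lit 0) (nat_lit 152)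 xc242 xc243)) (XT.nd (nat_lit 74724) (nat_lit 0) (nat_lit 152) (XT.nd (nat_lit 37284) (nat_lit 0) (nat_lit 0) xc244 xc245) (XT.nd (nat_lit 37518) (nat_lit 0) (nat_lit 0) xc246 xc247))) (XT.nd (nat_lit 187902) (nat_lit 0) (nat_lit 1140) (XT.nd (nat_lit 75816) (nat_lit 0) (nat_lit 380) (XT.nd (nat_lit 37830) (nat_lit 0) (nat_lit 152) xc248 xc249) (XT.nd (nat_lit 38142) (nat_lit 0) (nat_lit 228) xc250 xc251)) (XT.nd (nat_lit 113490) (nat_lit 0) (nat_lit 608) (XT.nd (nat_lit 38610) (nat_lit 0) (nat_lit 304) xc252 xc253) (XT.nd (nat_lit 111930) (nat_lit 0) (nat_lit 1140) xc254 xc255)))))))) XT.nil))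

set_option maxRecDepth 10000000 in
noncomputable def Te : XT := XT.nil

set_option maxRecDepth 10000000 in
noncomputable def Tz : ZL := (ZL.cons (nat_lit 76) (nat_lit 3) (nat_lit 88071976913256066796) (ZL.cons (nat_lit 152) (nat_lit 6) (nat_lit 172468403566003189466) (ZL.cons (nat_lit 228) (nat_lit 6) (nat_lit 169002157717219348504) (ZL.cons (nat_lit 304) (nat_lit 3) (nat_lit 84405205218426613186) (ZL.cons (nat_lit 380) (nat_lit 6) (nat_lit 165362599575996315494) (ZL.cons (nat_lit 456) (nat_lit 6) (nat_lit 162116761909954226092) (ZL.cons (nat_lit 532) (nat_lit 3) (nat_lit 80967072726231340602) (ZL.cons (nat_lit 608) (nat_lit 6) (nat_lit 158708632360610032220) (ZL.cons (nat_lit 684) (nat_lit 6) (nat_lit 155678380507362528902) (ZL.cons (nat_lit 760) (nat_lit 3) (nat_lit 77752230035828147838) (ZL.cons (nat_lit 836) (nat_lit 6) (nat_lit 152836175007355296240) (ZL.cons (nat_lit 912) (nat_lit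 6) (nat_lit 152496616061452650416) (ZL.cons (nat_lit 988) (nat_lit 6) (nat_lit 149677938796641468720) (ZL.cons (nat_lit 1064) (nat_lit 3) (nat_lit 74756150143222528061) (ZL.cons (nat_lit 1140) (nat_lit 6) (nat_lit 147041717140877962052) (ZL.cons (nat_lit 1216) (nat_lit 6) (nat_lit 146718327668589727936) (ZL.cons (nat_lit 1292) (nat_lit 6) (nat_lit 144108045892129867456) (ZL.cons (nat_lit 1368) (nat_lit 3) (nat_lit 71975147465019022969) (ZL.cons (nat_lit 1444) (nat_lit 6) (nat_lit 141675240000454855970) (ZL.cons (nat_lit 1520) (nat_lit 6) (nat_lit 141367250026847013954) (ZL.cons (nat_lit 1596) (nat_lit 6) (nat_lit 139414117598584514880) (ZL.cons (nat_lit 1672) (nat_lit 6) (nat_lit 138963042852104272392) (ZL.cons (nat_lit 1748) (nat_lit 3) (nat_lit 69406401920294125947) (ZL.cons (nat_lit 1824) (nat_lit 6) (nat_lit 136731949103012814718) (ZL.cons (nat_lit 1900) (nat_lit 6) (nat_lit 136438625318624393748)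 (ZL.cons (nat_lit 1976) (nat_lit 6) (nat_lit 134668656651598613652) (ZL.cons (nat_lit 2052) (nat_lit 6) (nat_lit 134239061654950763662) (ZL.cons (nat_lit 2128) (nat_lit 3) (nat_lit 67047988441039181595) (ZL.cons (nat_lit 2204) (nat_lit 6) (nat_lit 132768252896786873480) (ZL.cons (nat_lit 2280) (nat_lit 6) (nat_lit 132208875793225281564) (ZL.cons (nat_lit 2356) (nat_lit 6) (nat_lit 131929519808093452072) (ZL.cons (nat_lit 2432) (nat_lit 6) (nat_lit 130343233957586696308) (ZL.cons (nat_lit 2508) (nat_lit 6) (nat_lit 129934095865541124890) (ZL.cons (nat_lit 2584) (nat_lit 3) (nat_lit 64898912326640847935) (ZL.cons (nat_lit 2660) (nat_lit 6) (nat_lit 128637694143664439834) (ZL.cons (nat_lit 2736) (nat_lit 6) (nat_lit 128104954045034352296) (ZL.cons (nat_lit 2812) (nat_lit 6) (nat_lit 127838900725861181350) (ZL.cons (nat_lit 2888) (nat_lit 6) (nat_lit 127088195542377744862) (ZL.cons (nat_lit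 2964) (nat_lit 6) (nat_lit 126437739247000499118) (ZL.cons (nat_lit 3040) (nat_lit 6) (nat_lit 126048083921242812052) (ZL.cons (nat_lit 3116) (nat_lit 3) (nat_lit 62959150907164535063) (ZL.cons (nat_lit 3192) (nat_lit 6) (nat_lit 124928481912396627606) (ZL.cons (nat_lit 3268) (nat_lit 6) (nat_lit 124421110389891782334) (ZL.cons (nat_lit 3344) (nat_lit 6) (nat_lit 124167726276393524288) (ZL.cons (nat_lit 3420) (nat_lit 6) (nat_lit 123573588571378442832) (ZL.cons (nat_lit 3496) (nat_lit 6) (nat_lit 122954106385304875456) (ZL.cons (nat_lit 3572) (nat_lit 6) (nat_lit 122583006075059459204) (ZL.cons (nat_lit 3648) (nat_lit 3) (nat_lit 61229702034237471542) (ZL.cons (nat_lit 3724) (nat_lit 6) (nat_lit 122369833287419711020) (ZL.cons (nat_lit 3800) (nat_lit 6) (nat_lit 121643579040804503544) (ZL.cons (nat_lit 3876) (nat_lit 6) (nat_lit 121160368066990365188) (ZL.cons (nat_lit 3952) (nat_lit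 6) (nat_lit 120919049863658690862) (ZL.cons (nat_lit 4028) (nat_lit 6) (nat_lit 121314349976511006620) (ZL.cons (nat_lit 4104) (nat_lit 6) (nat_lit 120486408053189475242) (ZL.cons (nat_lit 4180) (nat_lit 6) (nat_lit 119896425018833696786) (ZL.cons (nat_lit 4256) (nat_lit 6) (nat_lit 119542996151933300356) (ZL.cons (nat_lit 4332) (nat_lit 3) (nat_lit 59712639977593071075) (ZL.cons (nat_lit 4408) (nat_lit 6) (nat_lit 120404625583150166048) (ZL.cons (nat_lit 4484) (nat_lit 6) (nat_lit 119479838253441659524) (ZL.cons (nat_lit 4560) (nat_lit 6) (nat_lit 118788167542379557166) (ZL.cons (nat_lit 4636) (nat_lit 6) (nat_lit 118327966614937520636) (ZL.cons (nat_lit 4712) (nat_lit 6) (nat_lit 118098139754621640326) (ZL.cons (nat_lit 4788) (nat_lit 6) (nat_lit 118621473046799752072) (ZL.cons (nat_lit 4864) (nat_lit 6) (nat_lit 117832956929350674568) (ZL.cons (nat_lit 4940) (nat_lit 6) (nat_lit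 117271068325202314136) (ZL.cons (nat_lit 5016) (nat_lit 6) (nat_lit 116934469404344793726) (ZL.cons (nat_lit 5092) (nat_lit 3) (nat_lit 58411179370388035811) (ZL.cons (nat_lit 5168) (nat_lit 6) (nat_lit 116493286487343670884) (ZL.cons (nat_lit 5244) (nat_lit 6) (nat_lit 116634380242911250604) (ZL.cons (nat_lit 5320) (nat_lit 6) (nat_lit 116916903691559666186) (ZL.cons (nat_lit 5396) (nat_lit 6) (nat_lit 117341529508166651950) (ZL.cons (nat_lit 5472) (nat_lit 6) (nat_lit 117909268706581272150) (ZL.cons (nat_lit 5548) (nat_lit 6) (nat_lit 117028518868763646886) (ZL.cons (nat_lit 5624) (nat_lit 6) (nat_lit 116369784858228311308) (ZL.cons (nat_lit 5700) (nat_lit 6) (nat_lit 115931498260664466996) (ZL.cons (nat_lit 5776) (nat_lit 6) (nat_lit 115712615536554104792) (ZL.cons (nat_lit 5852) (nat_lit 3) (nat_lit 57606606454472465742) (ZL.cons (nat_lit 5928) (nat_lit 6) (nat_lit 115285480442284423536)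 (ZL.cons (nat_lit 6004) (nat_lit 6) (nat_lit 115502455107858469910) (ZL.cons (nat_lit 6080) (nat_lit 6) (nat_lit 115864653512013675478) (ZL.cons (nat_lit 6156) (nat_lit 6) (nat_lit 116372938031902790728) (ZL.cons (nat_lit 6232) (nat_lit 6) (nat_lit 115621970300998907390) (ZL.cons (nat_lit 6308) (nat_lit 6) (nat_lit 115086838297048087932) (ZL.cons (nat_lit 6384) (nat_lit 6) (nat_lit 114766267896231401826) (ZL.cons (nat_lit 6460) (nat_lit 3) (nat_lit 57329747917844880863) (ZL.cons (nat_lit 6536) (nat_lit 6) (nat_lit 114135188970799426062) (ZL.cons (nat_lit 6612) (nat_lit 6) (nat_lit 114283337414145384768) (ZL.cons (nat_lit 6688) (nat_lit 6) (nat_lit 114579987035226221128) (ZL.cons (nat_lit 6764) (nat_lit 6) (nat_lit 115025844142663556182) (ZL.cons (nat_lit 6840) (nat_lit 6) (nat_lit 114398478418344188964) (ZL.cons (nat_lit 6916) (nat_lit 6) (nat_lit 113981062611140527712) (ZL.cons (nat_lit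 6992) (nat_lit 6) (nat_lit 113772602873892563710) (ZL.cons (nat_lit 7068) (nat_lit 3) (nat_lit 56590383519619218380) (ZL.cons (nat_lit 7144) (nat_lit 6) (nat_lit 113256647949244903414) (ZL.cons (nat_lit 7220) (nat_lit 6) (nat_lit 113484471348097652106) (ZL.cons (nat_lit 7296) (nat_lit 6) (nat_lit 113864779672460617952) (ZL.cons (nat_lit 7372) (nat_lit 6) (nat_lit 113355130144888408940) (ZL.cons (nat_lit 7448) (nat_lit 6) (nat_lit 113049825001253469792) (ZL.cons (nat_lit 7524) (nat_lit 3) (nat_lit 56474068662273572945) (ZL.cons (nat_lit 7600) (nat_lit 6) (nat_lit 112419942214431072318) (ZL.cons (nat_lit 7676) (nat_lit 6) (nat_lit 112575498079944328958) (ZL.cons (nat_lit 7752) (nat_lit 6) (nat_lit 112886980182079207136) (ZL.cons (nat_lit 7828) (nat_lit 6) (nat_lit 112489441318075720228) (ZL.cons (nat_lit 7904) (nat_lit 6) (nat_lit 112290908234982421180) (ZL.cons (nat_lit 7980) (nat_lit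 3) (nat_lit 55885614026596214990) (ZL.cons (nat_lit 8056) (nat_lit 6) (nat_lit 111850903008699219966) (ZL.cons (nat_lit 8132) (nat_lit 6) (nat_lit 112090117577494606092) (ZL.cons (nat_lit 8208) (nat_lit 6) (nat_lit 111799350774032759284) (ZL.cons (nat_lit 8284) (nat_lit 3) (nat_lit 55851252683822892069) (ZL.cons (nat_lit 8360) (nat_lit 6) (nat_lit 111308960908002217728) (ZL.cons (nat_lit 8436) (nat_lit 6) (nat_lit 111472294566791137200) (ZL.cons (nat_lit 8512) (nat_lit 6) (nat_lit 111283215440035614294) (ZL.cons (nat_lit 8588) (nat_lit 3) (nat_lit 55474190719759164689) (ZL.cons (nat_lit 8664) (nat_lit 6) (nat_lit 111032040142800458864) (ZL.cons (nat_lit 8740) (nat_lit 3) (nat_lit 55469903211215955552) (ZL.cons (nat_lit 8816) (nat_lit 6) (nat_lit 110768306080703545660) (ZL.cons (nat_lit 8892) (nat_lit 1) (nat_lit 18446744073709551617) ZL.nil)))))))))))))))))))))))))))))))))))))))))))))))))))))))))))))))))))))))))))))))))))))))))))))))))))))))))))))))))))))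

noncomputable def vl : XL := ⟨(nat_lit 0), (nat_lit 76), (nat_lit 644284179), (nat_lit 152), (nat_lit 15525977), (nat_lit 152), (nat_lit 15525977), (nat_lit 1), (nat_lit 4), (nat_lit 2), (nat_lit 5), (nat_lit 2), (nat_lit 4), (nat_lit 0), (nat_lit 0), (nat_lit 0)⟩

noncomputable def cp0 : Nat := (nat_lit 1227756365782008643862289076957674423907176446172942500897095370320816019889360313712617979664454370754302270328738941153302170385577887081963683572118553971070677807198651693102641533671642527344050645584714331025172701869136533089390024143859471530020348427708554932171397050860268561431361968391735937872126408221194743442194178480232697898223965332365479009188157577737981051891761061814811615360145656708985108830365128366014693836929429052009061665188878613360111106574867994817105439462753757204845195430305804557973973639404826554976011004660538594822018137445566919260982569023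447766016143090974501741110608208644858587437778491159203973537820512986841565713427780548012393797730419656443699416245428334634898753019555412417588838908083384636344381224692146790665080438316340323907965439090932329301204841224444308850973262413021824155404494123491587719613051933117863786593505733636419334127339066322389834953195085128109033867202436459422350395326420624539141679697618641880077606496986535152169999237493702744607084002434006331241086553255547401816889826332948406054918395968705017169049106690526194990330545946067977318991582806742649292786470843967287805372001921628745067017063073894437732194496505611711422126470162720871356469523615616599032215627539581299865042094358098760169964183755266085882699968626620428410020594919079871132944422507377954916245899894170124065010957704321185328165548544660246725842067757858741692499742420330936108338673291239206196358650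6199191934491752791953580888503892142388626705159261385402477395065208379092906935625819607364215904715744972260539742536690735951842333422451137119792948497392138714816100270609369246890350116607936301326763438352596042861306992530250931687967325634748681924396480680924338953658476313367422890326748727090213864355740603417254703788734385868191289346054779682667001592621613373603366064539032066850842468887550647410543177381475278973960589596711761875641272661045889843781139530942241270274920553353047435825647701236248886309203782907670446634729082055069731698408156343220210226781314280485767712560490002195090417482366583499082764374805912013354173874176217728048156592048220998718374911876455194895195188674214543531788857558349239008598610470056821215040863741507916536638189065913259329308043673584127442062036254999556567666578631422533126557905026879269571628774894988907016739969541737841413475237616709965666175654897481464205807490878870346764854253734285417095431790530926803003541854908574371616454491688998733028444578316858860008588164129020879156193381958395903002557939976107318471615099506475165395826659942417152098698240399734340036407115147038212519116011402568286024695589855346397158572032)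

noncomputable def cp1 : Nat := (nat_lit 172952647425253191562276113559478518814723293307798342351147844651084092532889925851108306149675362492887530950021110379027096262883389517337767445542076380102678046654658028322463010376480997918481182728987159941467725158618593389710605483657010661957946119660616215818486262591583895887481998601552619330628315958302344730226300661650550227355492970488777210516379986769831613647862874261849671250653171626909655026016276588941137079291681607271176670509254290535047865184689431877839381278156340273815131576731737363986783640142375577072181350899713027756780652100160336592622196101630335220240634746549563724164927559579510754709941261517073999698724199407164422373069012005938233176953636750083610998257306230904584510840990085049825401104813869617273824692266133244251293124924460678126994852043673829315823690109746809322596724025138695174630157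511708816606886258034312497230023214666803817953316165931610526278468454147248486348454934617520823414034299213448871233299791093004394303519391074820262106950938577258366563237638472046705312561759898909747397117793850236097937018573554419577374462018920568524652421284211168986347728907931216613962448272282152987592239280546691850970666609385224321561128738313905044764898948338160984546056246330951115687157492851224906368414825283226652379248591802060768586684109528705456854647935593109500504197351538635665140925187769560744324012198778758128144445290793821596116277279101548067353228466365019785358459219244573976047737412386499319680120369519494522641046755025108732990609024208310954603845058788024183040951967431754318614061519160240089055665810495731965524645406487568462743737724971449033191608281456050776603131214501586661382435605915777564684142932299527433007598975487881213939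55626026088858450848753904121373636304387741125351103595712407421085498297965675809505315627618604731203989218575076672388528468993890125590077074166800940156038652041215903359960657265237024843939578971352109557122753132051018983671179171861852490227550563851306344974110960617567880800943447660394670672328772067382076997609512830630960089604201908742057126463664581743940716878684808923603064652723777188302548628798704081484549872676258840855736354919295043471941692569117983975818115122571606122403028013975563080346319054994828477604806679105812396250142497053144481161239637565921030000752068712815781609982451753676084871959474250632816192018956700137798490551740708073024326727878385228492415497308232982182733569145699273226111222703815329184479527303607887493361494651093427071788615716049154800081390936176945325843579309425219396544219470023653680613890620273592792486670838073491972703179638271623486691197639474617920321067653554765824)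

noncomputable def rc0 : Nat := (nat_lit 136331059818767994113270009554432637208246566560321848900464885520608758800838024679266727127913594304203102916369778685723598633369299897429439381287329157310105856099924081617970149654118651202892534646093525708235456760813534428292714156786142698664850903996052834590612799224773705304283407638269005854688715578241201415863675092904853179314097304293497996748848116491910128928305934814977325193555450001019715179407914490162864268382834702110156733643970348047488838259597453154551502906337320332890852670270606652597860315740859934745380177566198613197033646542566554756067083567834693968634974216507049511565380725571705222917948776317745963364984486515484646148400793046323599555645785555286106597910633734439807471375954235378462017801618349163262257132715054441698406856715092567038593974283158335252227424486558660705592815674137678245491120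223253349827968700327154113425798089334737453876043338299268244900181726489039291503907425732350002707974942198269432665414065268925644484500406659989094055487686511412831890900482648605434978610712187610228877058265586887658436729933689853688845883164309683875557114784458337107151893777395595470172563603772258770986544343684289015346948517252041397078052312377697434760319836313251517157798207486286287427680015574043844790430805167388782622494287783291735850674923981256098195019415185774797388615889802341453555153294055627796948709399632045012857469513058636675230248568459253648464672440433022606621146619583017861681572927680995569785770561469984622615879309476732767718975705176978056546186737087644262910782840479456715387883505521157507129576439925456380255566173192071218468071881605985073207320741672968951519617475858020226749444496233666054425351712242747503676022320298132463257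09277393128946041427296979042688930736468174976805788630659782025431301830873167183197004764437309499846488337355365260437337633145491900899049664047006917426008425072943098894633751975405045998871042188861412450638565564263465708174835909787256453973816832274303775708044742589678462417068650862827682502658891721093994359155406288344672394642631689481607055878331149063405686069816943551715225791892695928876072763430594474598145468912393097974546251510264523534260836112797134332818605626289601579525006630127002734031309152052660291092171430405321378901810211022640256602463759308551370785326087477048834835524764502972225219224014254760867944411198459181821981950532723819321464761620886552712945098441320557241064532363802452938666018696480157532644821220839532692281130550893866286006337700567283933158126599318008076418717811601672178856492137691675468554625753130297095607720859791823947592346434717363428454814920723130273411218570674700288)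

noncomputable def rc1 : Nat := (nat_lit 156848841592925641498345733872274711590089706481286952866545177015802846982679892089171392443948463615523767502659234587051576633166170975681752946089355380309017761959413168234331293263216098409307648543754574447322259215975412498664232450641887588925725756936659105902186132299678997254897838855293014829722051473521093772761608300779490431231117012567033574956027282933892505234642273283647270011803059149286356573412444466840452458905275520385347123855490404226441752910400851782497293803679444350047233597943372895437800486587601550460451323105664113744247124357540173985296842877895727493501359809485967089949187623491900543987739636050175961919774665853127447776543204374792253983183081609191367710123287602612131063710174396212262191741595437746685881624726203859891399884801043441651411827008384567192775852982495490998849008713874290868532241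920198675093198963403958486623645637999031704198234636559396815419723242143870351761684603725164877927212462735858810179132618319569068208891135159296675820652731059892532251799709517704219160698521238862738830701952394974206587684851478259281788234067749975259503986625633799857196683700411240682296884674234455855309717033073225158062790851646882567261857270916206558479622015637572870855294230521275446006237230209557378882230323242141345513140423128735057429380449228290522033273095534284953836959307576394365218414098927065104399088144522190884820453230009656752028408280783611055231420771523298635674578215390877400592009350232659526579090802174770587079791179479234140577119842088386759637078984261509026638810078088406693690003516239295162132306565041352763903707385998798485979868388436154398387848852886209451518856142781592528407504748921432066095751896101699990251132274833122804013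81728926841212084742496408764136485000287971714360659913277987623368562941188475149245887771345447821184144040822309475700225101457173327843173954726956784447984100951783816605956709377289891820243626493310116207361151128110833988409468143701664441582343833008232311658692412472605625118517558065174489331296101868199070866371757937345394879447487009855723601595714059005915580670970712926180558400119623923041494217041682846734961238111578824764358835459849963500811804530607833279796242730445897011214697528597522511427095329681226743885778076295554183979360643744325723806388691933424758169275481107112570944930446583571999955036900909288676642945676524123011220376122473288001282114237800590501416085767155429080296406862938384007415440068080723930001619671810320111330398597757994368821937327631379239423236067393636466128871016467114247013087326851333379288660381176424957270962284328278069958367113379711783708085502344640477832211512065785856)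

noncomputable def rc2 : Nat := (nat_lit 172952647425253191562276113559478518814723293307798342351147844651084092532889925851108306149675362492887530950021110379027096262883389517337767445542076380102678046654658028322463010376480997918481182728987159941467725158618593389710605483657010661957946119660616215818486262591583895887481998601552619330628315958302344730226300661650550227355492970488777210516379986769831613647862874261849671250653171626909655026016276588941137079291681607271176670509254290535047865184689431877839381278156340273815131576731737363986783640142375577072181350899713027756780652100160336592622196101630335220240634746549563724164927559579510754709941261517073999698724199407164422373069012005938233176953636750083610998257306230904584510840990085049825401104813869617273824692266133244251293124924460678126994852043673829315823690109746809322596724025138695174630157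511708816606886258034312497230023214666803817953316165931610526278468454147248486348454934617520823414034299213448871233299791093004394303519391074820262106950938577258366563237638472046705312561759898909747397117793850236097937018573554419577374462018920568524652421284211168986347728907931216613962448272282152987592239280546691850970666609385224321561128738313905044764898948338160984546056246330951115687157492851224906368414825283226652379248591802060768586684109528705456854647935593109500504197351538635665140925187769560744324012198778758128144445290793821596116277279101548067353228466365019785358459219244573976047737412386499319680120369519494522641046755025108732990609024208310954603845058788024183040951967431754318614061519160240089055665810495731965524645406487568462743737724971449033191608281456050776603131214501586661382435605915777564684142932299527433007598975487881213939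55626026088858450848753904121373636304387741125351103595712407421085498297965675809505315627618604731203989218575076672388528468993890125590077074166800940156038652041215903359960657265237024843939578971352109557122753132051018983671179171861852490227550563851306344974110960617567880800943447660394670672328772067382076997609512830630960089604201908742057126463664581743940716878684808923603064652723777188302548628798704081484549872676258840855736354919295043471941692569117983975818115122571606122403028013975563080346319054994828477604806679105812396250142497053144481161239637565921030000752068712815781609982451753676084871959474250632816192018956700137798490551740708073024326727878385228492415497308232982182733569145699273226111222703815329184479527303607887493361494651093427071788615716049154800081390936176945325843579309425219396544219470023653680613890620273592792486670838073491972703179638271623486691197639474617920321067653554765824)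

end Vale.Agent.Lib.P154.PChain.BT.S4
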