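import Vale.Agent.Lib.P154.PChain.BT.R4_0

set_option linter.all false

namespace Vale.Agent.Lib.P154.PChain.BT.S5

open Vale.Agent.Lib.P154.Chain

noncomputable def pc0 : PT := (PT.nd (nat_lit 3499704) (PT.nd (nat_lit 3387150) (PT.nd (nat_lit 3312192) (PT.nd (nat_lit 3274752) (PT.nd (nat_lit 3274674) (PT.nd (nat_lit 3237234) PT.nil (PT.lf (nat_lit 76) (nat_lit 3) (nat_lit 1) (nat_lit 1) (nat_lit 137) (nat_lit 86) (nat_lit 137))) (PT.lf (nat_lit 152) (nat_lit 6) (nat_lit 2) (nat_lit 3) (nat_lit 136) (nat_lit 87) (nat_lit 137))) (PT.nd (nat_lit 37362) (PT.lf (nat_lit 152) (nat_lit 6) (nat_lit 2) (nat_lit 1) (nat_lit 137) (nat_lit 87) (nat_lit 136)) (PT.lf (nat_lit 228) (nat_lit 6) (nat_lit 3) (nat_lit 3) (nat_lit 135) (nat_lit 88) (nat_lit 137)))) (PT.nd (nat_lit 37440) (PT.nd (nat_lit 78) (PT.lf (nat_lit 304) (nat_lit 3) (nat_lit 4) (nat_lit 1) (nat_lit 136) (nat_lit 88) (nat_lit 136)) (PT.lf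 (nat_lit 228) (nat_lit 6) (nat_lit 3) (nat_lit 1) (nat_lit 137) (nat_lit 88) (nat_lit 135))) (PT.nd (nat_lit 78) (PT.lf (nat_lit 380) (nat_lit 6) (nat_lit 5) (nat_lit 3) (nat_lit 135) (nat_lit 89) (nat_lit 136)) (PT.nd (nat_lit 37362) (PT.lf (nat_lit 380) (nat_lit 6) (nat_lit 5) (nat_lit 1) (nat_lit 136) (nat_lit 89) (nat_lit 135)) (PT.lf (nat_lit 456) (nat_lit 6) (nat_lit 6) (nat_lit 3) (nat_lit 134) (nat_lit 90) (nat_lit 136)))))) (PT.nd (nat_lit 74958) (PT.nd (nat_lit 37440) (PT.nd (nat_lit 78) (PT.lf (nat_lit 532) (nat_lit 3) (nat_lit 7) (nat_lit 1) (nat_lit 135) (nat_lit 90) (nat_lit 135)) (PT.lf (nat_lit 456) (nat_lit 6) (nat_lit 6) (nat_lit 1) (nat_lit 136) (nat_lit 90) (nat_lit 134))) (PT.nd (nat_lit 78) (PT.lf (nat_lit 608) (nat_lit 6) (nat_lit 8) (nat_lit 3) (nat_lit 134) (nat_lit 91) (nat_lit 135)) (PT.nd (nat_lit 37362) (PT.lf (nat_lit 608) (nat_lit 6) (nat_lit 8) (nat_lit 1)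 (nat_lit 135) (nat_lit 91) (nat_lit 134)) (PT.lf (nat_lit 684) (nat_lit 6) (nat_lit 9) (nat_lit 3) (nat_lit 133) (nat_lit 92) (nat_lit 135))))) (PT.nd (nat_lit 37362) (PT.nd (nat_lit 78) (PT.lf (nat_lit 760) (nat_lit 3) (nat_lit 10) (nat_lit 1) (nat_lit 134) (nat_lit 92) (nat_lit 134)) (PT.lf (nat_lit 684) (nat_lit 6) (nat_lit 9) (nat_lit 1) (nat_lit 135) (nat_lit 92) (nat_lit 133))) (PT.nd (nat_lit 78) (PT.lf (nat_lit 836) (nat_lit 6) (nat_lit 11) (nat_lit 3) (nat_lit 132) (nat_lit 93) (nat_lit 135)) (PT.nd (nat_lit 78) (PT.lf (nat_lit 912) (nat_lit 6) (nat_lit 12) (nat_lit 3) (nat_lit 133) (nat_lit 93) (nat_lit 134)) (PT.lf (nat_lit 912) (nat_lit 6) (nat_lit 12) (nat_lit 1) (nat_lit 134) (nat_lit 93) (nat_lit 133))))))) (PT.nd (nat_lit 112398) (PT.nd (nat_lit 74802) (PT.nd (nat_lit 37362) (PT.nd (nat_lit 37284) (PT.lf (nat_lit 836) (nat_lit 6) (nat_lit 11) (nat_lit 1) (nat_lit 135) (nat_lit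 93) (nat_lit 132)) (PT.lf (nat_lit 988) (nat_lit 6) (nat_lit 13) (nat_lit 3) (nat_lit 132) (nat_lit 94) (nat_lit 134))) (PT.nd (nat_lit 78) (PT.lf (nat_lit 1064) (nat_lit 3) (nat_lit 14) (nat_lit 1) (nat_lit 133) (nat_lit 94) (nat_lit 133)) (PT.nd (nat_lit 37284) (PT.lf (nat_lit 988) (nat_lit 6) (nat_lit 13) (nat_lit 1) (nat_lit 134) (nat_lit 94) (nat_lit 132)) (PT.lf (nat_lit 1140) (nat_lit 6) (nat_lit 15) (nat_lit 3) (nat_lit 131) (nat_lit 95) (nat_lit 134))))) (PT.nd (nat_lit 156) (PT.nd (nat_lit 78) (PT.lf (nat_lit 1216) (nat_lit 6) (nat_lit 16) (nat_lit 3) (nat_lit 132) (nat_lit 95) (nat_lit 133)) (PT.lf (nat_lit 1216) (nat_lit 6) (nat_lit 16) (nat_lit 1) (nat_lit 133) (nat_lit 95) (nat_lit 132))) (PT.nd (nat_lit 37284) (PT.lf (nat_lit 1140) (nat_lit 6) (nat_lit 15) (nat_lit 1) (nat_lit 134) (nat_lit 95) (nat_lit 131)) (PT.nd (nat_lit 78) (PT.lf (nat_lit 1292) (nat_lit 6) (nat_lit 17)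 (nat_lit 3) (nat_lit 131) (nat_lit 96) (nat_lit 133)) (PT.lf (nat_lit 1368) (nat_lit 3) (nat_lit 18) (nat_lit 1) (nat_lit 132) (nat_lit 96) (nat_lit 132)))))) (PT.nd (nat_lit 74724) (PT.nd (nat_lit 37362) (PT.nd (nat_lit 37284) (PT.lf (nat_lit 1292) (nat_lit 6) (nat_lit 17) (nat_lit 1) (nat_lit 133) (nat_lit 96) (nat_lit 131)) (PT.lf (nat_lit 1444) (nat_lit 6) (nat_lit 19) (nat_lit 3) (nat_lit 130) (nat_lit 97) (nat_lit 133))) (PT.nd (nat_lit 78) (PT.lf (nat_lit 1520) (nat_lit 6) (nat_lit 20) (nat_lit 3) (nat_lit 131) (nat_lit 97) (nat_lit 132)) (PT.nd (nat_lit 78) (PT.lf (nat_lit 1520) (nat_lit 6) (nat_lit 20) (nat_lit 1) (nat_lit 132) (nat_lit 97) (nat_lit 131)) (PT.lf (nat_lit 1444) (nat_lit 6) (nat_lit 19) (nat_lit 1) (nat_lit 133) (nat_lit 97) (nat_lit 130))))) (PT.nd (nat_lit 156) (PT.nd (nat_lit 78) (PT.lf (nat_lit 1596) (nat_lit 6) (nat_lit 21) (nat_lit 3) (nat_lit 129) (nat_lit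 98) (nat_lit 133)) (PT.lf (nat_lit 1672) (nat_lit 6) (nat_lit 22) (nat_lit 3) (nat_lit 130) (nat_lit 98) (nat_lit 132))) (PT.nd (nat_lit 78) (PT.lf (nat_lit 1748) (nat_lit 3) (nat_lit 23) (nat_lit 1) (nat_lit 131) (nat_lit 98) (nat_lit 131)) (PT.nd (nat_lit 78) (PT.lf (nat_lit 1672) (nat_lit 6) (nat_lit 22) (nat_lit 1) (nat_lit 132) (nat_lit 98) (nat_lit 130)) (PT.lf (nat_lit 1596) (nat_lit 6) (nat_lit 21) (nat_lit 1) (nat_lit 133) (nat_lit 98) (nat_lit 129))))))))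
noncomputable def pc1 : PT := (PT.nd (nat_lit 149838) (PT.nd (nat_lit 74958) (PT.nd (nat_lit 37518) (PT.nd (nat_lit 156) (PT.nd (nat_lit 78) (PT.lf (nat_lit 1824) (nat_lit 6) (nat_lit 24) (nat_lit 3) (nat_lit 129) (nat_lit 99) (nat_lit 132)) (PT.lf (nat_lit 1900) (nat_lit 6) (nat_lit 25) (nat_lit 3) (nat_lit 130) (nat_lit 99) (nat_lit 131))) (PT.nd (nat_lit 78) (PT.lf (nat_lit 1900) (nat_lit 6) (nat_lit 25) (nat_lit 1) (nat_lit 131) (nat_lit 99) (nat_lit 130)) (PT.nd (nat_lit 37206) (PT.lf (nat_lit 1824) (nat_lit 6) (nat_lit 24) (nat_lit 1) (nat_lit 132) (nat_lit 99) (nat_lit 129)) (PT.lf (nat_lit 1976) (nat_lit 6) (nat_lit 26) (nat_lit 3) (nat_lit 128) (nat_lit 100) (nat_lit 132))))) (PT.nd (nat_lit 156) (PT.nd (nat_lit 78) (PT.lf (nat_lit 2052) (nat_lit 6) (nat_lit 27) (nat_lit 3) (nat_lit 129) (nat_lit 100) (nat_lit 131)) (PT.lf (nat_lit 2128) (nat_lit 3) (nat_lit 28) (nat_lit 1) (nat_lit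 130) (nat_lit 100) (nat_lit 130))) (PT.nd (nat_lit 78) (PT.lf (nat_lit 2052) (nat_lit 6) (nat_lit 27) (nat_lit 1) (nat_lit 131) (nat_lit 100) (nat_lit 129)) (PT.nd (nat_lit 37128) (PT.lf (nat_lit 1976) (nat_lit 6) (nat_lit 26) (nat_lit 1) (nat_lit 132) (nat_lit 100) (nat_lit 128)) (PT.lf (nat_lit 2204) (nat_lit 6) (nat_lit 29) (nat_lit 3) (nat_lit 127) (nat_lit 101) (nat_lit 132)))))) (PT.nd (nat_lit 37440) (PT.nd (nat_lit 156) (PT.nd (nat_lit 78) (PT.lf (nat_lit 2280) (nat_lit 6) (nat_lit 30) (nat_lit 3) (nat_lit 128) (nat_lit 101) (nat_lit 131)) (PT.lf (nat_lit 2356) (nat_lit 6) (nat_lit 31) (nat_lit 3) (nat_lit 129) (nat_lit 101) (nat_lit 130))) (PT.nd (nat_lit 78) (PT.lf (nat_lit 2356) (nat_lit 6) (nat_lit 31) (nat_lit 1) (nat_lit 130) (nat_lit 101) (nat_lit 129)) (PT.nd (nat_lit 78) (PT.lf (nat_lit 2280) (nat_lit 6) (nat_lit 30) (nat_lit 1) (nat_lit 131) (nat_lit 101) (nat_lit 128))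 (PT.lf (nat_lit 2204) (nat_lit 6) (nat_lit 29) (nat_lit 1) (nat_lit 132) (nat_lit 101) (nat_lit 127))))) (PT.nd (nat_lit 156) (PT.nd (nat_lit 78) (PT.lf (nat_lit 2432) (nat_lit 6) (nat_lit 32) (nat_lit 3) (nat_lit 127) (nat_lit 102) (nat_lit 131)) (PT.lf (nat_lit 2508) (nat_lit 6) (nat_lit 33) (nat_lit 3) (nat_lit 128) (nat_lit 102) (nat_lit 130))) (PT.nd (nat_lit 78) (PT.lf (nat_lit 2584) (nat_lit 3) (nat_lit 34) (nat_lit 1) (nat_lit 129) (nat_lit 102) (nat_lit 129)) (PT.nd (nat_lit 78) (PT.lf (nat_lit 2508) (nat_lit 6) (nat_lit 33) (nat_lit 1) (nat_lit 130) (nat_lit 102) (nat_lit 128)) (PT.lf (nat_lit 2432) (nat_lit 6) (nat_lit 32) (nat_lit 1) (nat_lit 131) (nat_lit 102) (nat_lit 127))))))) (PT.nd (nat_lit 37752) (PT.nd (nat_lit 390) (PT.nd (nat_lit 156) (PT.nd (nat_lit 78) (PT.lf (nat_lit 2660) (nat_lit 6) (nat_lit 35) (nat_lit 3) (nat_lit 126) (nat_lit 103) (nat_lit 131)) (PT.lf (nat_lit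 2736) (nat_lit 6) (nat_lit 36) (nat_lit 3) (nat_lit 127) (nat_lit 103) (nat_lit 130))) (PT.nd (nat_lit 78) (PT.lf (nat_lit 2812) (nat_lit 6) (nat_lit 37) (nat_lit 3) (nat_lit 128) (nat_lit 103) (nat_lit 129)) (PT.nd (nat_lit 78) (PT.lf (nat_lit 2812) (nat_lit 6) (nat_lit 37) (nat_lit 1) (nat_lit 129) (nat_lit 103) (nat_lit 128)) (PT.lf (nat_lit 2736) (nat_lit 6) (nat_lit 36) (nat_lit 1) (nat_lit 130) (nat_lit 103) (nat_lit 127))))) (PT.nd (nat_lit 37128) (PT.nd (nat_lit 37050) (PT.lf (nat_lit 2660) (nat_lit 6) (nat_lit 35) (nat_lit 1) (nat_lit 131) (nat_lit 103) (nat_lit 126)) (PT.lf (nat_lit 2888) (nat_lit 6) (nat_lit 38) (nat_lit 3) (nat_lit 125) (nat_lit 104) (nat_lit 131))) (PT.nd (nat_lit 78) (PT.lf (nat_lit 2964) (nat_lit 6) (nat_lit 39) (nat_lit 3) (nat_lit 126) (nat_lit 104) (nat_lit 130)) (PT.nd (nat_lit 78) (PT.lf (nat_lit 3040) (nat_lit 6) (nat_lit 40) (nat_lit 3) (nat_lit 127)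 (nat_lit 104) (nat_lit 129)) (PT.lf (nat_lit 3116) (nat_lit 3) (nat_lit 41) (nat_lit 1) (nat_lit 128) (nat_lit 104) (nat_lit 128)))))) (PT.nd (nat_lit 37362) (PT.nd (nat_lit 156) (PT.nd (nat_lit 78) (PT.lf (nat_lit 3040) (nat_lit 6) (nat_lit 40) (nat_lit 1) (nat_lit 129) (nat_lit 104) (nat_lit 127)) (PT.lf (nat_lit 2964) (nat_lit 6) (nat_lit 39) (nat_lit 1) (nat_lit 130) (nat_lit 104) (nat_lit 126))) (PT.nd (nat_lit 37050) (PT.lf (nat_lit 2888) (nat_lit 6) (nat_lit 38) (nat_lit 1) (nat_lit 131) (nat_lit 104) (nat_lit 125)) (PT.nd (nat_lit 78) (PT.lf (nat_lit 3192) (nat_lit 6) (nat_lit 42) (nat_lit 3) (nat_lit 125) (nat_lit 105) (nat_lit 130)) (PT.lf (nat_lit 3268) (nat_lit 6) (nat_lit 43) (nat_lit 3) (nat_lit 126) (nat_lit 105) (nat_lit 129))))) (PT.nd (nat_lit 156) (PT.nd (nat_lit 78) (PT.lf (nat_lit 3344) (nat_lit 6) (nat_lit 44) (nat_lit 3) (nat_lit 127) (nat_lit 105) (nat_lit 128)) (PT.lf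 (nat_lit 3344) (nat_lit 6) (nat_lit 44) (nat_lit 1) (nat_lit 128) (nat_lit 105) (nat_lit 127))) (PT.nd (nat_lit 78) (PT.lf (nat_lit 3268) (nat_lit 6) (nat_lit 43) (nat_lit 1) (nat_lit 129) (nat_lit 105) (nat_lit 126)) (PT.nd (nat_lit 37050) (PT.lf (nat_lit 3192) (nat_lit 6) (nat_lit 42) (nat_lit 1) (nat_lit 130) (nat_lit 105) (nat_lit 125)) (PT.lf (nat_lit 3420) (nat_lit 6) (nat_lit 45) (nat_lit 3) (nat_lit 124) (nat_lit 106) (nat_lit 130))))))))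
noncomputable def pc2 : PT := (PT.nd (nat_lit 75192) (PT.nd (nat_lit 37596) (PT.nd (nat_lit 312) (PT.nd (nat_lit 156) (PT.nd (nat_lit 78) (PT.lf (nat_lit 3496) (nat_lit 6) (nat_lit 46) (nat_lit 3) (nat_lit 125) (nat_lit 106) (nat_lit 129)) (PT.lf (nat_lit 3572) (nat_lit 6) (nat_lit 47) (nat_lit 3) (nat_lit 126) (nat_lit 106) (nat_lit 128))) (PT.nd (nat_lit 78) (PT.lf (nat_lit 3648) (nat_lit 3) (nat_lit 48) (nat_lit 1) (nat_lit 127) (nat_lit 106) (nat_lit 127)) (PT.lf (nat_lit 3572) (nat_lit 6) (nat_lit 47) (nat_lit 1) (nat_lit 128) (nat_lit 106) (nat_lit 126)))) (PT.nd (nat_lit 37050) (PT.nd (nat_lit 78) (PT.lf (nat_lit 3496) (nat_lit 6) (nat_lit 46) (nat_lit 1) (nat_lit 129) (nat_lit 106) (nat_lit 125)) (PT.lf (nat_lit 3420) (nat_lit 6) (nat_lit 45) (nat_lit 1) (nat_lit 130) (nat_lit 106) (nat_lit 124))) (PT.nd (nat_lit 78) (PT.lf (nat_lit 3724) (nat_lit 6) (nat_lit 49) (nat_lit 3) (nat_lit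 123) (nat_lit 107) (nat_lit 130)) (PT.nd (nat_lit 78) (PT.lf (nat_lit 3800) (nat_lit 6) (nat_lit 50) (nat_lit 3) (nat_lit 124) (nat_lit 107) (nat_lit 129)) (PT.lf (nat_lit 3876) (nat_lit 6) (nat_lit 51) (nat_lit 3) (nat_lit 125) (nat_lit 107) (nat_lit 128)))))) (PT.nd (nat_lit 37206) (PT.nd (nat_lit 156) (PT.nd (nat_lit 78) (PT.lf (nat_lit 3952) (nat_lit 6) (nat_lit 52) (nat_lit 3) (nat_lit 126) (nat_lit 107) (nat_lit 127)) (PT.lf (nat_lit 3952) (nat_lit 6) (nat_lit 52) (nat_lit 1) (nat_lit 127) (nat_lit 107) (nat_lit 126))) (PT.nd (nat_lit 78) (PT.lf (nat_lit 3876) (nat_lit 6) (nat_lit 51) (nat_lit 1) (nat_lit 128) (nat_lit 107) (nat_lit 125)) (PT.nd (nat_lit 78) (PT.lf (nat_lit 3800) (nat_lit 6) (nat_lit 50) (nat_lit 1) (nat_lit 129) (nat_lit 107) (nat_lit 124)) (PT.lf (nat_lit 3724) (nat_lit 6) (nat_lit 49) (nat_lit 1) (nat_lit 130) (nat_lit 107) (nat_lit 123))))) (PT.nd (nat_lit 156)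 (PT.nd (nat_lit 78) (PT.lf (nat_lit 4028) (nat_lit 6) (nat_lit 53) (nat_lit 3) (nat_lit 122) (nat_lit 108) (nat_lit 130)) (PT.lf (nat_lit 4104) (nat_lit 6) (nat_lit 54) (nat_lit 3) (nat_lit 123) (nat_lit 108) (nat_lit 129))) (PT.nd (nat_lit 78) (PT.lf (nat_lit 4180) (nat_lit 6) (nat_lit 55) (nat_lit 3) (nat_lit 124) (nat_lit 108) (nat_lit 128)) (PT.nd (nat_lit 78) (PT.lf (nat_lit 4256) (nat_lit 6) (nat_lit 56) (nat_lit 3) (nat_lit 125) (nat_lit 108) (nat_lit 127)) (PT.lf (nat_lit 4332) (nat_lit 3) (nat_lit 57) (nat_lit 1) (nat_lit 126) (nat_lit 108) (nat_lit 126))))))) (PT.nd (nat_lit 37518) (PT.nd (nat_lit 37128) (PT.nd (nat_lit 156) (PT.nd (nat_lit 78) (PT.lf (nat_lit 4256) (nat_lit 6) (nat_lit 56) (nat_lit 1) (nat_lit 127) (nat_lit 108) (nat_lit 125)) (PT.lf (nat_lit 4180) (nat_lit 6) (nat_lit 55) (nat_lit 1) (nat_lit 128) (nat_lit 108) (nat_lit 124))) (PT.nd (nat_lit 78) (PT.lf (nat_lit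 4104) (nat_lit 6) (nat_lit 54) (nat_lit 1) (nat_lit 129) (nat_lit 108) (nat_lit 123)) (PT.nd (nat_lit 36816) (PT.lf (nat_lit 4028) (nat_lit 6) (nat_lit 53) (nat_lit 1) (nat_lit 130) (nat_lit 108) (nat_lit 122)) (PT.lf (nat_lit 4408) (nat_lit 6) (nat_lit 58) (nat_lit 3) (nat_lit 121) (nat_lit 109) (nat_lit 130))))) (PT.nd (nat_lit 156) (PT.nd (nat_lit 78) (PT.lf (nat_lit 4484) (nat_lit 6) (nat_lit 59) (nat_lit 3) (nat_lit 122) (nat_lit 109) (nat_lit 129)) (PT.lf (nat_lit 4560) (nat_lit 6) (nat_lit 60) (nat_lit 3) (nat_lit 123) (nat_lit 109) (nat_lit 128))) (PT.nd (nat_lit 78) (PT.lf (nat_lit 4636) (nat_lit 6) (nat_lit 61) (nat_lit 3) (nat_lit 124) (nat_lit 109) (nat_lit 127)) (PT.nd (nat_lit 78) (PT.lf (nat_lit 4712) (nat_lit 6) (nat_lit 62) (nat_lit 3) (nat_lit 125) (nat_lit 109) (nat_lit 126)) (PT.lf (nat_lit 4712) (nat_lit 6) (nat_lit 62) (nat_lit 1) (nat_lit 126) (nat_lit 109) (nat_lit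 125)))))) (PT.nd (nat_lit 37128) (PT.nd (nat_lit 156) (PT.nd (nat_lit 78) (PT.lf (nat_lit 4636) (nat_lit 6) (nat_lit 61) (nat_lit 1) (nat_lit 127) (nat_lit 109) (nat_lit 124)) (PT.lf (nat_lit 4560) (nat_lit 6) (nat_lit 60) (nat_lit 1) (nat_lit 128) (nat_lit 109) (nat_lit 123))) (PT.nd (nat_lit 78) (PT.lf (nat_lit 4484) (nat_lit 6) (nat_lit 59) (nat_lit 1) (nat_lit 129) (nat_lit 109) (nat_lit 122)) (PT.nd (nat_lit 36816) (PT.lf (nat_lit 4408) (nat_lit 6) (nat_lit 58) (nat_lit 1) (nat_lit 130) (nat_lit 109) (nat_lit 121)) (PT.lf (nat_lit 4788) (nat_lit 6) (nat_lit 63) (nat_lit 3) (nat_lit 121) (nat_lit 110) (nat_lit 129))))) (PT.nd (nat_lit 156) (PT.nd (nat_lit 78) (PT.lf (nat_lit 4864) (nat_lit 6) (nat_lit 64) (nat_lit 3) (nat_lit 122) (nat_lit 110) (nat_lit 128)) (PT.lf (nat_lit 4940) (nat_lit 6) (nat_lit 65) (nat_lit 3) (nat_lit 123) (nat_lit 110) (nat_lit 127))) (PT.nd (nat_lit 78) (PT.lf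 (nat_lit 5016) (nat_lit 6) (nat_lit 66) (nat_lit 3) (nat_lit 124) (nat_lit 110) (nat_lit 126)) (PT.nd (nat_lit 78) (PT.lf (nat_lit 5092) (nat_lit 3) (nat_lit 67) (nat_lit 1) (nat_lit 125) (nat_lit 110) (nat_lit 125)) (PT.lf (nat_lit 5016) (nat_lit 6) (nat_lit 66) (nat_lit 1) (nat_lit 126) (nat_lit 110) (nat_lit 124))))))))
noncomputable def pc3 : PT := (PT.nd (nat_lit 74958) (PT.nd (nat_lit 37518) (PT.nd (nat_lit 37128) (PT.nd (nat_lit 156) (PT.nd (nat_lit 78) (PT.lf (nat_lit 4940) (nat_lit 6) (nat_lit 65) (nat_lit 1) (nat_lit 127) (nat_lit 110) (nat_lit 123)) (PT.lf (nat_lit 4864) (nat_lit 6) (nat_lit 64) (nat_lit 1) (nat_lit 128) (nat_lit 110) (nat_lit 122))) (PT.nd (nat_lit 36816) (PT.lf (nat_lit 4788) (nat_lit 6) (nat_lit 63) (nat_lit 1) (nat_lit 129) (nat_lit 110) (nat_lit 121)) (PT.nd (nat_lit 78) (PT.lf (nat_lit 5472) (nat_lit 6) (nat_lit 72) (nat_lit 3) (nat_lit 120) (nat_lit 111)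 (nat_lit 129)) (PT.lf (nat_lit 5548) (nat_lit 6) (nat_lit 73) (nat_lit 3) (nat_lit 121) (nat_lit 111) (nat_lit 128))))) (PT.nd (nat_lit 156) (PT.nd (nat_lit 78) (PT.lf (nat_lit 5624) (nat_lit 6) (nat_lit 74) (nat_lit 3) (nat_lit 122) (nat_lit 111) (nat_lit 127)) (PT.lf (nat_lit 5700) (nat_lit 6) (nat_lit 75) (nat_lit 3) (nat_lit 123) (nat_lit 111) (nat_lit 126))) (PT.nd (nat_lit 78) (PT.lf (nat_lit 5776) (nat_lit 6) (nat_lit 76) (nat_lit 3) (nat_lit 124) (nat_lit 111) (nat_lit 125)) (PT.nd (nat_lit 78) (PT.lf (nat_lit 5776) (nat_lit 6) (nat_lit 76) (nat_lit 1) (nat_lit 125) (nat_lit 111) (nat_lit 124)) (PT.lf (nat_lit 5700) (nat_lit 6) (nat_lit 75) (nat_lit 1) (nat_lit 126) (nat_lit 111) (nat_lit 123)))))) (PT.nd (nat_lit 37050) (PT.nd (nat_lit 156) (PT.nd (nat_lit 78) (PT.lf (nat_lit 5624) (nat_lit 6) (nat_lit 74) (nat_lit 1) (nat_lit 127) (nat_lit 111) (nat_lit 122)) (PT.lf (nat_lit 5548)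 (nat_lit 6) (nat_lit 73) (nat_lit 1) (nat_lit 128) (nat_lit 111) (nat_lit 121))) (PT.nd (nat_lit 36738) (PT.lf (nat_lit 5472) (nat_lit 6) (nat_lit 72) (nat_lit 1) (nat_lit 129) (nat_lit 111) (nat_lit 120)) (PT.nd (nat_lit 78) (PT.lf (nat_lit 5396) (nat_lit 6) (nat_lit 71) (nat_lit 3) (nat_lit 119) (nat_lit 112) (nat_lit 129)) (PT.lf (nat_lit 6156) (nat_lit 6) (nat_lit 81) (nat_lit 3) (nat_lit 120) (nat_lit 112) (nat_lit 128))))) (PT.nd (nat_lit 156) (PT.nd (nat_lit 78) (PT.lf (nat_lit 6232) (nat_lit 6) (nat_lit 82) (nat_lit 3) (nat_lit 121) (nat_lit 112) (nat_lit 127)) (PT.lf (nat_lit 6308) (nat_lit 6) (nat_lit 83) (nat_lit 3) (nat_lit 122) (nat_lit 112) (nat_lit 126))) (PT.nd (nat_lit 78) (PT.lf (nat_lit 6384) (nat_lit 6) (nat_lit 84) (nat_lit 3) (nat_lit 123) (nat_lit 112) (nat_lit 125)) (PT.nd (nat_lit 78) (PT.lf (nat_lit 6460) (nat_lit 3) (nat_lit 85) (nat_lit 1) (nat_lit 124) (nat_lit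 112) (nat_lit 124)) (PT.lf (nat_lit 6384) (nat_lit 6) (nat_lit 84) (nat_lit 1) (nat_lit 125) (nat_lit 112) (nat_lit 123))))))) (PT.nd (nat_lit 37362) (PT.nd (nat_lit 36972) (PT.nd (nat_lit 156) (PT.nd (nat_lit 78) (PT.lf (nat_lit 6308) (nat_lit 6) (nat_lit 83) (nat_lit 1) (nat_lit 126) (nat_lit 112) (nat_lit 122)) (PT.lf (nat_lit 6232) (nat_lit 6) (nat_lit 82) (nat_lit 1) (nat_lit 127) (nat_lit 112) (nat_lit 121))) (PT.nd (nat_lit 78) (PT.lf (nat_lit 6156) (nat_lit 6) (nat_lit 81) (nat_lit 1) (nat_lit 128) (nat_lit 112) (nat_lit 120)) (PT.nd (nat_lit 36660) (PT.lf (nat_lit 5396) (nat_lit 6) (nat_lit 71) (nat_lit 1) (nat_lit 129) (nat_lit 112) (nat_lit 119)) (PT.lf (nat_lit 5320) (nat_lit 6) (nat_lit 70) (nat_lit 3) (nat_lit 118) (nat_lit 113) (nat_lit 129))))) (PT.nd (nat_lit 156) (PT.nd (nat_lit 78) (PT.lf (nat_lit 6080) (nat_lit 6) (nat_lit 80) (nat_lit 3) (nat_lit 119) (nat_lit 113) (nat_lit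 128)) (PT.lf (nat_lit 6764) (nat_lit 6) (nat_lit 89) (nat_lit 3) (nat_lit 120) (nat_lit 113) (nat_lit 127))) (PT.nd (nat_lit 78) (PT.lf (nat_lit 6840) (nat_lit 6) (nat_lit 90) (nat_lit 3) (nat_lit 121) (nat_lit 113) (nat_lit 126)) (PT.nd (nat_lit 78) (PT.lf (nat_lit 6916) (nat_lit 6) (nat_lit 91) (nat_lit 3) (nat_lit 122) (nat_lit 113) (nat_lit 125)) (PT.lf (nat_lit 6992) (nat_lit 6) (nat_lit 92) (nat_lit 3) (nat_lit 123) (nat_lit 113) (nat_lit 124)))))) (PT.nd (nat_lit 390) (PT.nd (nat_lit 156) (PT.nd (nat_lit 78) (PT.lf (nat_lit 6992) (nat_lit 6) (nat_lit 92) (nat_lit 1) (nat_lit 124) (nat_lit 113) (nat_lit 123)) (PT.lf (nat_lit 6916) (nat_lit 6) (nat_lit 91) (nat_lit 1) (nat_lit 125) (nat_lit 113) (nat_lit 122))) (PT.nd (nat_lit 78) (PT.lf (nat_lit 6840) (nat_lit 6) (nat_lit 90) (nat_lit 1) (nat_lit 126) (nat_lit 113) (nat_lit 121)) (PT.nd (nat_lit 78) (PT.lf (nat_lit 6764) (nat_lit 6)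 (nat_lit 89) (nat_lit 1) (nat_lit 127) (nat_lit 113) (nat_lit 120)) (PT.lf (nat_lit 6080) (nat_lit 6) (nat_lit 80) (nat_lit 1) (nat_lit 128) (nat_lit 113) (nat_lit 119))))) (PT.nd (nat_lit 36660) (PT.nd (nat_lit 36582) (PT.lf (nat_lit 5320) (nat_lit 6) (nat_lit 70) (nat_lit 1) (nat_lit 129) (nat_lit 113) (nat_lit 118)) (PT.lf (nat_lit 5244) (nat_lit 6) (nat_lit 69) (nat_lit 3) (nat_lit 117) (nat_lit 114) (nat_lit 129))) (PT.nd (nat_lit 78) (PT.lf (nat_lit 6004) (nat_lit 6) (nat_lit 79) (nat_lit 3) (nat_lit 118) (nat_lit 114) (nat_lit 128)) (PT.nd (nat_lit 78) (PT.lf (nat_lit 6688) (nat_lit 6) (nat_lit 88) (nat_lit 3) (nat_lit 119) (nat_lit 114) (nat_lit 127)) (PT.lf (nat_lit 7296) (nat_lit 6) (nat_lit 96) (nat_lit 3) (nat_lit 120) (nat_lit 114) (nat_lit 126))))))))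
noncomputable def pc4 : PT := (PT.nd (nat_lit 37908) (PT.nd (nat_lit 37128) (PT.nd (nat_lit 312) (PT.nd (nat_lit 156) (PT.nd (nat_lit 78) (PT.lf (nat_lit 7372) (nat_lit 6) (nat_lit 97) (nat_lit 3) (nat_lit 121) (nat_lit 114) (nat_lit 125)) (PT.lf (nat_lit 7448) (nat_lit 6) (nat_lit 98) (nat_lit 3) (nat_lit 122) (nat_lit 114) (nat_lit 124))) (PT.nd (nat_lit 78) (PT.lf (nat_lit 7524) (nat_lit 3) (nat_lit 99) (nat_lit 1) (nat_lit 123) (nat_lit 114) (nat_lit 123)) (PT.lf (nat_lit 7448) (nat_lit 6) (nat_lit 98) (nat_lit 1) (nat_lit 124) (nat_lit 114) (nat_lit 122)))) (PT.nd (nat_lit 156) (PT.nd (nat_lit 78) (PT.lf (nat_lit 7372) (nat_lit 6) (nat_lit 97) (nat_lit 1) (nat_lit 125) (nat_lit 114) (nat_lit 121)) (PT.lf (nat_lit 7296) (nat_lit 6) (nat_lit 96) (nat_lit 1) (nat_lit 126) (nat_lit 114) (nat_lit 120))) (PT.nd (nat_lit 78) (PT.lf (nat_lit 6688) (nat_lit 6) (nat_lit 88) (nat_lit 1) (nat_lit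 127) (nat_lit 114) (nat_lit 119)) (PT.nd (nat_lit 78) (PT.lf (nat_lit 6004) (nat_lit 6) (nat_lit 79) (nat_lit 1) (nat_lit 128) (nat_lit 114) (nat_lit 118)) (PT.lf (nat_lit 5244) (nat_lit 6) (nat_lit 69) (nat_lit 1) (nat_lit 129) (nat_lit 114) (nat_lit 117)))))) (PT.nd (nat_lit 390) (PT.nd (nat_lit 156) (PT.nd (nat_lit 78) (PT.lf (nat_lit 5168) (nat_lit 6) (nat_lit 68) (nat_lit 3) (nat_lit 116) (nat_lit 115) (nat_lit 129)) (PT.lf (nat_lit 5928) (nat_lit 6) (nat_lit 78) (nat_lit 3) (nat_lit 117) (nat_lit 115) (nat_lit 128))) (PT.nd (nat_lit 78) (PT.lf (nat_lit 6612) (nat_lit 6) (nat_lit 87) (nat_lit 3) (nat_lit 118) (nat_lit 115) (nat_lit 127)) (PT.nd (nat_lit 78) (PT.lf (nat_lit 7220) (nat_lit 6) (nat_lit 95) (nat_lit 3) (nat_lit 119) (nat_lit 115) (nat_lit 126)) (PT.lf (nat_lit 7752) (nat_lit 6) (nat_lit 102) (nat_lit 3) (nat_lit 120) (nat_lit 115) (nat_lit 125))))) (PT.nd (nat_lit 156)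 (PT.nd (nat_lit 78) (PT.lf (nat_lit 7828) (nat_lit 6) (nat_lit 103) (nat_lit 3) (nat_lit 121) (nat_lit 115) (nat_lit 124)) (PT.lf (nat_lit 7904) (nat_lit 6) (nat_lit 104) (nat_lit 3) (nat_lit 122) (nat_lit 115) (nat_lit 123))) (PT.nd (nat_lit 78) (PT.lf (nat_lit 7904) (nat_lit 6) (nat_lit 104) (nat_lit 1) (nat_lit 123) (nat_lit 115) (nat_lit 122)) (PT.nd (nat_lit 78) (PT.lf (nat_lit 7828) (nat_lit 6) (nat_lit 103) (nat_lit 1) (nat_lit 124) (nat_lit 115) (nat_lit 121)) (PT.lf (nat_lit 7752) (nat_lit 6) (nat_lit 102) (nat_lit 1) (nat_lit 125) (nat_lit 115) (nat_lit 120))))))) (PT.nd (nat_lit 37128) (PT.nd (nat_lit 36738) (PT.nd (nat_lit 156) (PT.nd (nat_lit 78) (PT.lf (nat_lit 7220) (nat_lit 6) (nat_lit 95) (nat_lit 1) (nat_lit 126) (nat_lit 115) (nat_lit 119)) (PT.lf (nat_lit 6612) (nat_lit 6) (nat_lit 87) (nat_lit 1) (nat_lit 127) (nat_lit 115) (nat_lit 118))) (PT.nd (nat_lit 78) (PT.lf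 (nat_lit 5928) (nat_lit 6) (nat_lit 78) (nat_lit 1) (nat_lit 128) (nat_lit 115) (nat_lit 117)) (PT.nd (nat_lit 36426) (PT.lf (nat_lit 5168) (nat_lit 6) (nat_lit 68) (nat_lit 1) (nat_lit 129) (nat_lit 115) (nat_lit 116)) (PT.lf (nat_lit 5168) (nat_lit 6) (nat_lit 68) (nat_lit 5) (nat_lit 115) (nat_lit 116) (nat_lit 129))))) (PT.nd (nat_lit 156) (PT.nd (nat_lit 78) (PT.lf (nat_lit 5852) (nat_lit 3) (nat_lit 77) (nat_lit 3) (nat_lit 116) (nat_lit 116) (nat_lit 128)) (PT.lf (nat_lit 6536) (nat_lit 6) (nat_lit 86) (nat_lit 3) (nat_lit 117) (nat_lit 116) (nat_lit 127))) (PT.nd (nat_lit 78) (PT.lf (nat_lit 7144) (nat_lit 6) (nat_lit 94) (nat_lit 3) (nat_lit 118) (nat_lit 116) (nat_lit 126)) (PT.nd (nat_lit 78) (PT.lf (nat_lit 7676) (nat_lit 6) (nat_lit 101) (nat_lit 3) (nat_lit 119) (nat_lit 116) (nat_lit 125)) (PT.lf (nat_lit 8132) (nat_lit 6) (nat_lit 107) (nat_lit 3) (nat_lit 120) (nat_lit 116)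 (nat_lit 124)))))) (PT.nd (nat_lit 390) (PT.nd (nat_lit 156) (PT.nd (nat_lit 78) (PT.lf (nat_lit 8208) (nat_lit 6) (nat_lit 108) (nat_lit 3) (nat_lit 121) (nat_lit 116) (nat_lit 123)) (PT.lf (nat_lit 8284) (nat_lit 3) (nat_lit 109) (nat_lit 1) (nat_lit 122) (nat_lit 116) (nat_lit 122))) (PT.nd (nat_lit 78) (PT.lf (nat_lit 8208) (nat_lit 6) (nat_lit 108) (nat_lit 1) (nat_lit 123) (nat_lit 116) (nat_lit 121)) (PT.nd (nat_lit 78) (PT.lf (nat_lit 8132) (nat_lit 6) (nat_lit 107) (nat_lit 1) (nat_lit 124) (nat_lit 116) (nat_lit 120)) (PT.lf (nat_lit 7676) (nat_lit 6) (nat_lit 101) (nat_lit 1) (nat_lit 125) (nat_lit 116) (nat_lit 119))))) (PT.nd (nat_lit 156) (PT.nd (nat_lit 78) (PT.lf (nat_lit 7144) (nat_lit 6) (nat_lit 94) (nat_lit 1) (nat_lit 126) (nat_lit 116) (nat_lit 118)) (PT.lf (nat_lit 6536) (nat_lit 6) (nat_lit 86) (nat_lit 1) (nat_lit 127) (nat_lit 116) (nat_lit 117))) (PT.nd (nat_lit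 78) (PT.lf (nat_lit 5852) (nat_lit 3) (nat_lit 77) (nat_lit 0) (nat_lit 128) (nat_lit 116) (nat_lit 116)) (PT.nd (nat_lit 36348) (PT.lf (nat_lit 5168) (nat_lit 6) (nat_lit 68) (nat_lit 0) (nat_lit 129) (nat_lit 116) (nat_lit 115)) (PT.lf (nat_lit 5244) (nat_lit 6) (nat_lit 69) (nat_lit 5) (nat_lit 114) (nat_lit 117) (nat_lit 129))))))))
noncomputable def pc5 : PT := (PT.nd (nat_lit 37752) (PT.nd (nat_lit 780) (PT.nd (nat_lit 390) (PT.nd (nat_lit 156) (PT.nd (nat_lit 78) (PT.lf (nat_lit 5928) (nat_lit 6) (nat_lit 78) (nat_lit 5) (nat_lit 115) (nat_lit 117) (nat_lit 128)) (PT.lf (nat_lit 6536) (nat_lit 6) (nat_lit 86) (nat_lit 5) (nat_lit 116) (nat_lit 117) (nat_lit 127))) (PT.nd (nat_lit 78) (PT.lf (nat_lit 7068) (nat_lit 3) (nat_lit 93) (nat_lit 3) (nat_lit 117) (nat_lit 117) (nat_lit 126)) (PT.nd (nat_lit 78) (PT.lf (nat_lit 7600) (nat_lit 6) (nat_lit 100) (nat_lit 3) (nat_lit 118) (nat_lit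 117) (nat_lit 125)) (PT.lf (nat_lit 8056) (nat_lit 6) (nat_lit 106) (nat_lit 3) (nat_lit 119) (nat_lit 117) (nat_lit 124))))) (PT.nd (nat_lit 156) (PT.nd (nat_lit 78) (PT.lf (nat_lit 8436) (nat_lit 6) (nat_lit 111) (nat_lit 3) (nat_lit 120) (nat_lit 117) (nat_lit 123)) (PT.lf (nat_lit 8512) (nat_lit 6) (nat_lit 112) (nat_lit 3) (nat_lit 121) (nat_lit 117) (nat_lit 122))) (PT.nd (nat_lit 78) (PT.lf (nat_lit 8512) (nat_lit 6) (nat_lit 112) (nat_lit 1) (nat_lit 122) (nat_lit 117) (nat_lit 121)) (PT.nd (nat_lit 78) (PT.lf (nat_lit 8436) (nat_lit 6) (nat_lit 111) (nat_lit 1) (nat_lit 123) (nat_lit 117) (nat_lit 120)) (PT.lf (nat_lit 8056) (nat_lit 6) (nat_lit 106) (nat_lit 1) (nat_lit 124) (nat_lit 117) (nat_lit 119)))))) (PT.nd (nat_lit 36582) (PT.nd (nat_lit 156) (PT.nd (nat_lit 78) (PT.lf (nat_lit 7600) (nat_lit 6) (nat_lit 100) (nat_lit 1) (nat_lit 125) (nat_lit 117) (nat_lit 118)) (PT.lf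 (nat_lit 7068) (nat_lit 3) (nat_lit 93) (nat_lit 0) (nat_lit 126) (nat_lit 117) (nat_lit 117))) (PT.nd (nat_lit 78) (PT.lf (nat_lit 6536) (nat_lit 6) (nat_lit 86) (nat_lit 0) (nat_lit 127) (nat_lit 117) (nat_lit 116)) (PT.nd (nat_lit 78) (PT.lf (nat_lit 5928) (nat_lit 6) (nat_lit 78) (nat_lit 0) (nat_lit 128) (nat_lit 117) (nat_lit 115)) (PT.lf (nat_lit 5244) (nat_lit 6) (nat_lit 69) (nat_lit 0) (nat_lit 129) (nat_lit 117) (nat_lit 114))))) (PT.nd (nat_lit 156) (PT.nd (nat_lit 78) (PT.lf (nat_lit 5320) (nat_lit 6) (nat_lit 70) (nat_lit 5) (nat_lit 113) (nat_lit 118) (nat_lit 129)) (PT.lf (nat_lit 6004) (nat_lit 6) (nat_lit 79) (nat_lit 5) (nat_lit 114) (nat_lit 118) (nat_lit 128))) (PT.nd (nat_lit 78) (PT.lf (nat_lit 6612) (nat_lit 6) (nat_lit 87) (nat_lit 5) (nat_lit 115) (nat_lit 118) (nat_lit 127)) (PT.nd (nat_lit 78) (PT.lf (nat_lit 7144) (nat_lit 6) (nat_lit 94) (nat_lit 5) (nat_lit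 116) (nat_lit 118) (nat_lit 126)) (PT.lf (nat_lit 7600) (nat_lit 6) (nat_lit 100) (nat_lit 5) (nat_lit 117) (nat_lit 118) (nat_lit 125))))))) (PT.nd (nat_lit 780) (PT.nd (nat_lit 390) (PT.nd (nat_lit 156) (PT.nd (nat_lit 78) (PT.lf (nat_lit 7980) (nat_lit 3) (nat_lit 105) (nat_lit 3) (nat_lit 118) (nat_lit 118) (nat_lit 124)) (PT.lf (nat_lit 8360) (nat_lit 6) (nat_lit 110) (nat_lit 3) (nat_lit 119) (nat_lit 118) (nat_lit 123))) (PT.nd (nat_lit 78) (PT.lf (nat_lit 8664) (nat_lit 6) (nat_lit 114) (nat_lit 3) (nat_lit 120) (nat_lit 118) (nat_lit 122)) (PT.nd (nat_lit 78) (PT.lf (nat_lit 8740) (nat_lit 3) (nat_lit 115) (nat_lit 1) (nat_lit 121) (nat_lit 118) (nat_lit 121)) (PT.lf (nat_lit 8664) (nat_lit 6) (nat_lit 114) (nat_lit 1) (nat_lit 122) (nat_lit 118) (nat_lit 120))))) (PT.nd (nat_lit 156) (PT.nd (nat_lit 78) (PT.lf (nat_lit 8360) (nat_lit 6) (nat_lit 110) (nat_lit 1) (nat_lit 123) (nat_lit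 118) (nat_lit 119)) (PT.lf (nat_lit 7980) (nat_lit 3) (nat_lit 105) (nat_lit 0) (nat_lit 124) (nat_lit 118) (nat_lit 118))) (PT.nd (nat_lit 78) (PT.lf (nat_lit 7600) (nat_lit 6) (nat_lit 100) (nat_lit 0) (nat_lit 125) (nat_lit 118) (nat_lit 117)) (PT.nd (nat_lit 78) (PT.lf (nat_lit 7144) (nat_lit 6) (nat_lit 94) (nat_lit 0) (nat_lit 126) (nat_lit 118) (nat_lit 116)) (PT.lf (nat_lit 6612) (nat_lit 6) (nat_lit 87) (nat_lit 0) (nat_lit 127) (nat_lit 118) (nat_lit 115)))))) (PT.nd (nat_lit 36504) (PT.nd (nat_lit 36270) (PT.nd (nat_lit 78) (PT.lf (nat_lit 6004) (nat_lit 6) (nat_lit 79) (nat_lit 0) (nat_lit 128) (nat_lit 118) (nat_lit 114)) (PT.lf (nat_lit 5320) (nat_lit 6) (nat_lit 70) (nat_lit 0) (nat_lit 129) (nat_lit 118) (nat_lit 113))) (PT.nd (nat_lit 78) (PT.lf (nat_lit 5396) (nat_lit 6) (nat_lit 71) (nat_lit 5) (nat_lit 112) (nat_lit 119) (nat_lit 129)) (PT.nd (nat_lit 78) (PT.lf (nat_lit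 6080) (nat_lit 6) (nat_lit 80) (nat_lit 5) (nat_lit 113) (nat_lit 119) (nat_lit 128)) (PT.lf (nat_lit 6688) (nat_lit 6) (nat_lit 88) (nat_lit 5) (nat_lit 114) (nat_lit 119) (nat_lit 127))))) (PT.nd (nat_lit 156) (PT.nd (nat_lit 78) (PT.lf (nat_lit 7220) (nat_lit 6) (nat_lit 95) (nat_lit 5) (nat_lit 115) (nat_lit 119) (nat_lit 126)) (PT.lf (nat_lit 7676) (nat_lit 6) (nat_lit 101) (nat_lit 5) (nat_lit 116) (nat_lit 119) (nat_lit 125))) (PT.nd (nat_lit 78) (PT.lf (nat_lit 8056) (nat_lit 6) (nat_lit 106) (nat_lit 5) (nat_lit 117) (nat_lit 119) (nat_lit 124)) (PT.nd (nat_lit 78) (PT.lf (nat_lit 8360) (nat_lit 6) (nat_lit 110) (nat_lit 5) (nat_lit 118) (nat_lit 119) (nat_lit 123)) (PT.lf (nat_lit 8588) (nat_lit 3) (nat_lit 113) (nat_lit 3) (nat_lit 119) (nat_lit 119) (nat_lit 122))))))))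
noncomputable def pc6 : PT := (PT.nd (nat_lit 37596) (PT.nd (nat_lit 36816) (PT.nd (nat_lit 390) (PT.nd (nat_lit 156) (PT.nd (nat_lit 78) (PT.lf (nat_lit 8816) (nat_lit 6) (nat_lit 116) (nat_lit 3) (nat_lit 120) (nat_lit 119) (nat_lit 121)) (PT.lf (nat_lit 8816) (nat_lit 6) (nat_lit 116) (nat_lit 1) (nat_lit 121) (nat_lit 119) (nat_lit 120))) (PT.nd (nat_lit 78) (PT.lf (nat_lit 8588) (nat_lit 3) (nat_lit 113) (nat_lit 0) (nat_lit 122) (nat_lit 119) (nat_lit 119)) (PT.nd (nat_lit 78) (PT.lf (nat_lit 8360) (nat_lit 6) (nat_lit 110) (nat_lit 0) (nat_lit 123) (nat_lit 119) (nat_lit 118)) (PT.lf (nat_lit 8056) (nat_lit 6) (nat_lit 106) (nat_lit 0) (nat_lit 124) (nat_lit 119) (nat_lit 117))))) (PT.nd (nat_lit 156) (PT.nd (nat_lit 78) (PT.lf (nat_lit 7676) (nat_lit 6) (nat_lit 101) (nat_lit 0) (nat_lit 125) (nat_lit 119) (nat_lit 116)) (PT.lf (nat_lit 7220) (nat_lit 6) (nat_lit 95) (nat_lit 0)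 (nat_lit 126) (nat_lit 119) (nat_lit 115))) (PT.nd (nat_lit 78) (PT.lf (nat_lit 6688) (nat_lit 6) (nat_lit 88) (nat_lit 0) (nat_lit 127) (nat_lit 119) (nat_lit 114)) (PT.nd (nat_lit 78) (PT.lf (nat_lit 6080) (nat_lit 6) (nat_lit 80) (nat_lit 0) (nat_lit 128) (nat_lit 119) (nat_lit 113)) (PT.lf (nat_lit 5396) (nat_lit 6) (nat_lit 71) (nat_lit 0) (nat_lit 129) (nat_lit 119) (nat_lit 112)))))) (PT.nd (nat_lit 390) (PT.nd (nat_lit 156) (PT.nd (nat_lit 78) (PT.lf (nat_lit 5472) (nat_lit 6) (nat_lit 72) (nat_lit 5) (nat_lit 111) (nat_lit 120) (nat_lit 129)) (PT.lf (nat_lit 6156) (nat_lit 6) (nat_lit 81) (nat_lit 5) (nat_lit 112) (nat_lit 120) (nat_lit 128))) (PT.nd (nat_lit 78) (PT.lf (nat_lit 6764) (nat_lit 6) (nat_lit 89) (nat_lit 5) (nat_lit 113) (nat_lit 120) (nat_lit 127)) (PT.nd (nat_lit 78) (PT.lf (nat_lit 7296) (nat_lit 6) (nat_lit 96) (nat_lit 5) (nat_lit 114) (nat_lit 120) (nat_lit 126))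 (PT.lf (nat_lit 7752) (nat_lit 6) (nat_lit 102) (nat_lit 5) (nat_lit 115) (nat_lit 120) (nat_lit 125))))) (PT.nd (nat_lit 156) (PT.nd (nat_lit 78) (PT.lf (nat_lit 8132) (nat_lit 6) (nat_lit 107) (nat_lit 5) (nat_lit 116) (nat_lit 120) (nat_lit 124)) (PT.lf (nat_lit 8436) (nat_lit 6) (nat_lit 111) (nat_lit 5) (nat_lit 117) (nat_lit 120) (nat_lit 123))) (PT.nd (nat_lit 78) (PT.lf (nat_lit 8664) (nat_lit 6) (nat_lit 114) (nat_lit 5) (nat_lit 118) (nat_lit 120) (nat_lit 122)) (PT.nd (nat_lit 78) (PT.lf (nat_lit 8816) (nat_lit 6) (nat_lit 116) (nat_lit 5) (nat_lit 119) (nat_lit 120) (nat_lit 121)) (PT.lf (nat_lit 8892) (nat_lit 1) (nat_lit 117) (nat_lit 0) (nat_lit 120) (nat_lit 120) (nat_lit 120))))))) (PT.nd (nat_lit 36660) (PT.nd (nat_lit 390) (PT.nd (nat_lit 156) (PT.nd (nat_lit 78) (PT.lf (nat_lit 8816) (nat_lit 6) (nat_lit 116) (nat_lit 0) (nat_lit 121) (nat_lit 120) (nat_lit 119)) (PT.lf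 (nat_lit 8664) (nat_lit 6) (nat_lit 114) (nat_lit 0) (nat_lit 122) (nat_lit 120) (nat_lit 118))) (PT.nd (nat_lit 78) (PT.lf (nat_lit 8436) (nat_lit 6) (nat_lit 111) (nat_lit 0) (nat_lit 123) (nat_lit 120) (nat_lit 117)) (PT.nd (nat_lit 78) (PT.lf (nat_lit 8132) (nat_lit 6) (nat_lit 107) (nat_lit 0) (nat_lit 124) (nat_lit 120) (nat_lit 116)) (PT.lf (nat_lit 7752) (nat_lit 6) (nat_lit 102) (nat_lit 0) (nat_lit 125) (nat_lit 120) (nat_lit 115))))) (PT.nd (nat_lit 156) (PT.nd (nat_lit 78) (PT.lf (nat_lit 7296) (nat_lit 6) (nat_lit 96) (nat_lit 0) (nat_lit 126) (nat_lit 120) (nat_lit 114)) (PT.lf (nat_lit 6764) (nat_lit 6) (nat_lit 89) (nat_lit 0) (nat_lit 127) (nat_lit 120) (nat_lit 113))) (PT.nd (nat_lit 78) (PT.lf (nat_lit 6156) (nat_lit 6) (nat_lit 81) (nat_lit 0) (nat_lit 128) (nat_lit 120) (nat_lit 112)) (PT.nd (nat_lit 35958) (PT.lf (nat_lit 5472) (nat_lit 6) (nat_lit 72) (nat_lit 0) (nat_lit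 129) (nat_lit 120) (nat_lit 111)) (PT.lf (nat_lit 4408) (nat_lit 6) (nat_lit 58) (nat_lit 5) (nat_lit 109) (nat_lit 121) (nat_lit 130)))))) (PT.nd (nat_lit 390) (PT.nd (nat_lit 156) (PT.nd (nat_lit 78) (PT.lf (nat_lit 4788) (nat_lit 6) (nat_lit 63) (nat_lit 5) (nat_lit 110) (nat_lit 121) (nat_lit 129)) (PT.lf (nat_lit 5548) (nat_lit 6) (nat_lit 73) (nat_lit 5) (nat_lit 111) (nat_lit 121) (nat_lit 128))) (PT.nd (nat_lit 78) (PT.lf (nat_lit 6232) (nat_lit 6) (nat_lit 82) (nat_lit 5) (nat_lit 112) (nat_lit 121) (nat_lit 127)) (PT.nd (nat_lit 78) (PT.lf (nat_lit 6840) (nat_lit 6) (nat_lit 90) (nat_lit 5) (nat_lit 113) (nat_lit 121) (nat_lit 126)) (PT.lf (nat_lit 7372) (nat_lit 6) (nat_lit 97) (nat_lit 5) (nat_lit 114) (nat_lit 121) (nat_lit 125))))) (PT.nd (nat_lit 156) (PT.nd (nat_lit 78) (PT.lf (nat_lit 7828) (nat_lit 6) (nat_lit 103) (nat_lit 5) (nat_lit 115) (nat_lit 121) (nat_lit 124))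 (PT.lf (nat_lit 8208) (nat_lit 6) (nat_lit 108) (nat_lit 5) (nat_lit 116) (nat_lit 121) (nat_lit 123))) (PT.nd (nat_lit 78) (PT.lf (nat_lit 8512) (nat_lit 6) (nat_lit 112) (nat_lit 5) (nat_lit 117) (nat_lit 121) (nat_lit 122)) (PT.nd (nat_lit 78) (PT.lf (nat_lit 8740) (nat_lit 3) (nat_lit 115) (nat_lit 4) (nat_lit 118) (nat_lit 121) (nat_lit 121)) (PT.lf (nat_lit 8816) (nat_lit 6) (nat_lit 116) (nat_lit 4) (nat_lit 119) (nat_lit 121) (nat_lit 120))))))))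
noncomputable def pc7 : PT := (PT.nd (nat_lit 37284) (PT.nd (nat_lit 780) (PT.nd (nat_lit 390) (PT.nd (nat_lit 156) (PT.nd (nat_lit 78) (PT.lf (nat_lit 8816) (nat_lit 6) (nat_lit 116) (nat_lit 2) (nat_lit 120) (nat_lit 121) (nat_lit 119)) (PT.lf (nat_lit 8740) (nat_lit 3) (nat_lit 115) (nat_lit 0) (nat_lit 121) (nat_lit 121) (nat_lit 118))) (PT.nd (nat_lit 78) (PT.lf (nat_lit 8512) (nat_lit 6) (nat_lit 112) (nat_lit 0) (nat_lit 122) (nat_lit 121) (nat_lit 117)) (PT.nd (nat_lit 78) (PT.lf (nat_lit 8208) (nat_lit 6) (nat_lit 108) (nat_lit 0) (nat_lit 123) (nat_lit 121) (nat_lit 116)) (PT.lf (nat_lit 7828) (nat_lit 6) (nat_lit 103) (nat_lit 0) (nat_lit 124) (nat_lit 121) (nat_lit 115))))) (PT.nd (nat_lit 156) (PT.nd (nat_lit 78) (PT.lf (nat_lit 7372) (nat_lit 6) (nat_lit 97) (nat_lit 0) (nat_lit 125) (nat_lit 121) (nat_lit 114)) (PT.lf (nat_lit 6840) (nat_lit 6) (nat_lit 90) (nat_lit 0) (nat_lit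 126) (nat_lit 121) (nat_lit 113))) (PT.nd (nat_lit 78) (PT.lf (nat_lit 6232) (nat_lit 6) (nat_lit 82) (nat_lit 0) (nat_lit 127) (nat_lit 121) (nat_lit 112)) (PT.nd (nat_lit 78) (PT.lf (nat_lit 5548) (nat_lit 6) (nat_lit 73) (nat_lit 0) (nat_lit 128) (nat_lit 121) (nat_lit 111)) (PT.lf (nat_lit 4788) (nat_lit 6) (nat_lit 63) (nat_lit 0) (nat_lit 129) (nat_lit 121) (nat_lit 110)))))) (PT.nd (nat_lit 36114) (PT.nd (nat_lit 35880) (PT.nd (nat_lit 35802) (PT.lf (nat_lit 4408) (nat_lit 6) (nat_lit 58) (nat_lit 0) (nat_lit 130) (nat_lit 121) (nat_lit 109)) (PT.lf (nat_lit 4028) (nat_lit 6) (nat_lit 53) (nat_lit 5) (nat_lit 108) (nat_lit 122) (nat_lit 130))) (PT.nd (nat_lit 78) (PT.lf (nat_lit 4484) (nat_lit 6) (nat_lit 59) (nat_lit 5) (nat_lit 109) (nat_lit 122) (nat_lit 129)) (PT.nd (nat_lit 78) (PT.lf (nat_lit 4864) (nat_lit 6) (nat_lit 64) (nat_lit 5) (nat_lit 110) (nat_lit 122) (nat_lit 128))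 (PT.lf (nat_lit 5624) (nat_lit 6) (nat_lit 74) (nat_lit 5) (nat_lit 111) (nat_lit 122) (nat_lit 127))))) (PT.nd (nat_lit 156) (PT.nd (nat_lit 78) (PT.lf (nat_lit 6308) (nat_lit 6) (nat_lit 83) (nat_lit 5) (nat_lit 112) (nat_lit 122) (nat_lit 126)) (PT.lf (nat_lit 6916) (nat_lit 6) (nat_lit 91) (nat_lit 5) (nat_lit 113) (nat_lit 122) (nat_lit 125))) (PT.nd (nat_lit 78) (PT.lf (nat_lit 7448) (nat_lit 6) (nat_lit 98) (nat_lit 5) (nat_lit 114) (nat_lit 122) (nat_lit 124)) (PT.nd (nat_lit 78) (PT.lf (nat_lit 7904) (nat_lit 6) (nat_lit 104) (nat_lit 5) (nat_lit 115) (nat_lit 122) (nat_lit 123)) (PT.lf (nat_lit 8284) (nat_lit 3) (nat_lit 109) (nat_lit 4) (nat_lit 116) (nat_lit 122) (nat_lit 122))))))) (PT.nd (nat_lit 780) (PT.nd (nat_lit 390) (PT.nd (nat_lit 156) (PT.nd (nat_lit 78) (PT.lf (nat_lit 8512) (nat_lit 6) (nat_lit 112) (nat_lit 4) (nat_lit 117) (nat_lit 122) (nat_lit 121)) (PT.lf (nat_lit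 8664) (nat_lit 6) (nat_lit 114) (nat_lit 4) (nat_lit 118) (nat_lit 122) (nat_lit 120))) (PT.nd (nat_lit 78) (PT.lf (nat_lit 8588) (nat_lit 3) (nat_lit 113) (nat_lit 2) (nat_lit 119) (nat_lit 122) (nat_lit 119)) (PT.nd (nat_lit 78) (PT.lf (nat_lit 8664) (nat_lit 6) (nat_lit 114) (nat_lit 2) (nat_lit 120) (nat_lit 122) (nat_lit 118)) (PT.lf (nat_lit 8512) (nat_lit 6) (nat_lit 112) (nat_lit 2) (nat_lit 121) (nat_lit 122) (nat_lit 117))))) (PT.nd (nat_lit 156) (PT.nd (nat_lit 78) (PT.lf (nat_lit 8284) (nat_lit 3) (nat_lit 109) (nat_lit 0) (nat_lit 122) (nat_lit 122) (nat_lit 116)) (PT.lf (nat_lit 7904) (nat_lit 6) (nat_lit 104) (nat_lit 0) (nat_lit 123) (nat_lit 122) (nat_lit 115))) (PT.nd (nat_lit 78) (PT.lf (nat_lit 7448) (nat_lit 6) (nat_lit 98) (nat_lit 0) (nat_lit 124) (nat_lit 122) (nat_lit 114)) (PT.nd (nat_lit 78) (PT.lf (nat_lit 6916) (nat_lit 6) (nat_lit 91) (nat_lit 0) (nat_lit 125)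 (nat_lit 122) (nat_lit 113)) (PT.lf (nat_lit 6308) (nat_lit 6) (nat_lit 83) (nat_lit 0) (nat_lit 126) (nat_lit 122) (nat_lit 112)))))) (PT.nd (nat_lit 36036) (PT.nd (nat_lit 156) (PT.nd (nat_lit 78) (PT.lf (nat_lit 5624) (nat_lit 6) (nat_lit 74) (nat_lit 0) (nat_lit 127) (nat_lit 122) (nat_lit 111)) (PT.lf (nat_lit 4864) (nat_lit 6) (nat_lit 64) (nat_lit 0) (nat_lit 128) (nat_lit 122) (nat_lit 110))) (PT.nd (nat_lit 78) (PT.lf (nat_lit 4484) (nat_lit 6) (nat_lit 59) (nat_lit 0) (nat_lit 129) (nat_lit 122) (nat_lit 109)) (PT.nd (nat_lit 35724) (PT.lf (nat_lit 4028) (nat_lit 6) (nat_lit 53) (nat_lit 0) (nat_lit 130) (nat_lit 122) (nat_lit 108)) (PT.lf (nat_lit 3724) (nat_lit 6) (nat_lit 49) (nat_lit 5) (nat_lit 107) (nat_lit 123) (nat_lit 130))))) (PT.nd (nat_lit 156) (PT.nd (nat_lit 78) (PT.lf (nat_lit 4104) (nat_lit 6) (nat_lit 54) (nat_lit 5) (nat_lit 108) (nat_lit 123) (nat_lit 129)) (PT.lf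 (nat_lit 4560) (nat_lit 6) (nat_lit 60) (nat_lit 5) (nat_lit 109) (nat_lit 123) (nat_lit 128))) (PT.nd (nat_lit 78) (PT.lf (nat_lit 4940) (nat_lit 6) (nat_lit 65) (nat_lit 5) (nat_lit 110) (nat_lit 123) (nat_lit 127)) (PT.nd (nat_lit 78) (PT.lf (nat_lit 5700) (nat_lit 6) (nat_lit 75) (nat_lit 5) (nat_lit 111) (nat_lit 123) (nat_lit 126)) (PT.lf (nat_lit 6384) (nat_lit 6) (nat_lit 84) (nat_lit 5) (nat_lit 112) (nat_lit 123) (nat_lit 125))))))))
noncomputable def pc8 : PT := (PT.nd (nat_lit 37050) (PT.nd (nat_lit 702) (PT.nd (nat_lit 312) (PT.nd (nat_lit 156) (PT.nd (nat_lit 78) (PT.lf (nat_lit 6992) (nat_lit 6) (nat_lit 92) (nat_lit 5) (nat_lit 113) (nat_lit 123) (nat_lit 124)) (PT.lf (nat_lit 7524) (nat_lit 3) (nat_lit 99) (nat_lit 4) (nat_lit 114) (nat_lit 123) (nat_lit 123))) (PT.nd (nat_lit 78) (PT.lf (nat_lit 7904) (nat_lit 6) (nat_lit 104) (nat_lit 4) (nat_lit 115) (nat_lit 123) (nat_lit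 122)) (PT.lf (nat_lit 8208) (nat_lit 6) (nat_lit 108) (nat_lit 4) (nat_lit 116) (nat_lit 123) (nat_lit 121)))) (PT.nd (nat_lit 156) (PT.nd (nat_lit 78) (PT.lf (nat_lit 8436) (nat_lit 6) (nat_lit 111) (nat_lit 4) (nat_lit 117) (nat_lit 123) (nat_lit 120)) (PT.lf (nat_lit 8360) (nat_lit 6) (nat_lit 110) (nat_lit 4) (nat_lit 118) (nat_lit 123) (nat_lit 119))) (PT.nd (nat_lit 78) (PT.lf (nat_lit 8360) (nat_lit 6) (nat_lit 110) (nat_lit 2) (nat_lit 119) (nat_lit 123) (nat_lit 118)) (PT.nd (nat_lit 78) (PT.lf (nat_lit 8436) (nat_lit 6) (nat_lit 111) (nat_lit 2) (nat_lit 120) (nat_lit 123) (nat_lit 117)) (PT.lf (nat_lit 8208) (nat_lit 6) (nat_lit 108) (nat_lit 2) (nat_lit 121) (nat_lit 123) (nat_lit 116)))))) (PT.nd (nat_lit 390) (PT.nd (nat_lit 156) (PT.nd (nat_lit 78) (PT.lf (nat_lit 7904) (nat_lit 6) (nat_lit 104) (nat_lit 2) (nat_lit 122) (nat_lit 123) (nat_lit 115)) (PT.lf (nat_lit 7524) (nat_lit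 3) (nat_lit 99) (nat_lit 0) (nat_lit 123) (nat_lit 123) (nat_lit 114))) (PT.nd (nat_lit 78) (PT.lf (nat_lit 6992) (nat_lit 6) (nat_lit 92) (nat_lit 0) (nat_lit 124) (nat_lit 123) (nat_lit 113)) (PT.nd (nat_lit 78) (PT.lf (nat_lit 6384) (nat_lit 6) (nat_lit 84) (nat_lit 0) (nat_lit 125) (nat_lit 123) (nat_lit 112)) (PT.lf (nat_lit 5700) (nat_lit 6) (nat_lit 75) (nat_lit 0) (nat_lit 126) (nat_lit 123) (nat_lit 111))))) (PT.nd (nat_lit 156) (PT.nd (nat_lit 78) (PT.lf (nat_lit 4940) (nat_lit 6) (nat_lit 65) (nat_lit 0) (nat_lit 127) (nat_lit 123) (nat_lit 110)) (PT.lf (nat_lit 4560) (nat_lit 6) (nat_lit 60) (nat_lit 0) (nat_lit 128) (nat_lit 123) (nat_lit 109))) (PT.nd (nat_lit 78) (PT.lf (nat_lit 4104) (nat_lit 6) (nat_lit 54) (nat_lit 0) (nat_lit 129) (nat_lit 123) (nat_lit 108)) (PT.nd (nat_lit 35646) (PT.lf (nat_lit 3724) (nat_lit 6) (nat_lit 49) (nat_lit 0) (nat_lit 130) (nat_lit 123) (nat_lit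 107)) (PT.lf (nat_lit 3420) (nat_lit 6) (nat_lit 45) (nat_lit 5) (nat_lit 106) (nat_lit 124) (nat_lit 130))))))) (PT.nd (nat_lit 780) (PT.nd (nat_lit 390) (PT.nd (nat_lit 156) (PT.nd (nat_lit 78) (PT.lf (nat_lit 3800) (nat_lit 6) (nat_lit 50) (nat_lit 5) (nat_lit 107) (nat_lit 124) (nat_lit 129)) (PT.lf (nat_lit 4180) (nat_lit 6) (nat_lit 55) (nat_lit 5) (nat_lit 108) (nat_lit 124) (nat_lit 128))) (PT.nd (nat_lit 78) (PT.lf (nat_lit 4636) (nat_lit 6) (nat_lit 61) (nat_lit 5) (nat_lit 109) (nat_lit 124) (nat_lit 127)) (PT.nd (nat_lit 78) (PT.lf (nat_lit 5016) (nat_lit 6) (nat_lit 66) (nat_lit 5) (nat_lit 110) (nat_lit 124) (nat_lit 126)) (PT.lf (nat_lit 5776) (nat_lit 6) (nat_lit 76) (nat_lit 5) (nat_lit 111) (nat_lit 124) (nat_lit 125))))) (PT.nd (nat_lit 156) (PT.nd (nat_lit 78) (PT.lf (nat_lit 6460) (nat_lit 3) (nat_lit 85) (nat_lit 4) (nat_lit 112) (nat_lit 124) (nat_lit 124)) (PT.lf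 (nat_lit 6992) (nat_lit 6) (nat_lit 92) (nat_lit 4) (nat_lit 113) (nat_lit 124) (nat_lit 123))) (PT.nd (nat_lit 78) (PT.lf (nat_lit 7448) (nat_lit 6) (nat_lit 98) (nat_lit 4) (nat_lit 114) (nat_lit 124) (nat_lit 122)) (PT.nd (nat_lit 78) (PT.lf (nat_lit 7828) (nat_lit 6) (nat_lit 103) (nat_lit 4) (nat_lit 115) (nat_lit 124) (nat_lit 121)) (PT.lf (nat_lit 8132) (nat_lit 6) (nat_lit 107) (nat_lit 4) (nat_lit 116) (nat_lit 124) (nat_lit 120)))))) (PT.nd (nat_lit 390) (PT.nd (nat_lit 156) (PT.nd (nat_lit 78) (PT.lf (nat_lit 8056) (nat_lit 6) (nat_lit 106) (nat_lit 4) (nat_lit 117) (nat_lit 124) (nat_lit 119)) (PT.lf (nat_lit 7980) (nat_lit 3) (nat_lit 105) (nat_lit 2) (nat_lit 118) (nat_lit 124) (nat_lit 118))) (PT.nd (nat_lit 78) (PT.lf (nat_lit 8056) (nat_lit 6) (nat_lit 106) (nat_lit 2) (nat_lit 119) (nat_lit 124) (nat_lit 117)) (PT.nd (nat_lit 78) (PT.lf (nat_lit 8132) (nat_lit 6) (nat_lit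 107) (nat_lit 2) (nat_lit 120) (nat_lit 124) (nat_lit 116)) (PT.lf (nat_lit 7828) (nat_lit 6) (nat_lit 103) (nat_lit 2) (nat_lit 121) (nat_lit 124) (nat_lit 115))))) (PT.nd (nat_lit 156) (PT.nd (nat_lit 78) (PT.lf (nat_lit 7448) (nat_lit 6) (nat_lit 98) (nat_lit 2) (nat_lit 122) (nat_lit 124) (nat_lit 114)) (PT.lf (nat_lit 6992) (nat_lit 6) (nat_lit 92) (nat_lit 2) (nat_lit 123) (nat_lit 124) (nat_lit 113))) (PT.nd (nat_lit 78) (PT.lf (nat_lit 6460) (nat_lit 3) (nat_lit 85) (nat_lit 0) (nat_lit 124) (nat_lit 124) (nat_lit 112)) (PT.nd (nat_lit 78) (PT.lf (nat_lit 5776) (nat_lit 6) (nat_lit 76) (nat_lit 0) (nat_lit 125) (nat_lit 124) (nat_lit 111)) (PT.lf (nat_lit 5016) (nat_lit 6) (nat_lit 66) (nat_lit 0) (nat_lit 126) (nat_lit 124) (nat_lit 110))))))))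
noncomputable def pc9 : PT := (PT.nd (nat_lit 36972) (PT.nd (nat_lit 36192) (PT.nd (nat_lit 35802) (PT.nd (nat_lit 156) (PT.nd (nat_lit 78) (PT.lf (nat_lit 4636) (nat_lit 6) (nat_lit 61) (nat_lit 0) (nat_lit 127) (nat_lit 124) (nat_lit 109)) (PT.lf (nat_lit 4180) (nat_lit 6) (nat_lit 55) (nat_lit 0) (nat_lit 128) (nat_lit 124) (nat_lit 108))) (PT.nd (nat_lit 78) (PT.lf (nat_lit 3800) (nat_lit 6) (nat_lit 50) (nat_lit 0) (nat_lit 129) (nat_lit 124) (nat_lit 107)) (PT.nd (nat_lit 35490) (PT.lf (nat_lit 3420) (nat_lit 6) (nat_lit 45) (nat_lit 0) (nat_lit 130) (nat_lit 124) (nat_lit 106)) (PT.lf (nat_lit 2888) (nat_lit 6) (nat_lit 38) (nat_lit 5) (nat_lit 104) (nat_lit 125) (nat_lit 131))))) (PT.nd (nat_lit 156) (PT.nd (nat_lit 78) (PT.lf (nat_lit 3192) (nat_lit 6) (nat_lit 42) (nat_lit 5) (nat_lit 105) (nat_lit 125) (nat_lit 130)) (PT.lf (nat_lit 3496) (nat_lit 6) (nat_lit 46) (nat_lit 5) (nat_lit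 106) (nat_lit 125) (nat_lit 129))) (PT.nd (nat_lit 78) (PT.lf (nat_lit 3876) (nat_lit 6) (nat_lit 51) (nat_lit 5) (nat_lit 107) (nat_lit 125) (nat_lit 128)) (PT.nd (nat_lit 78) (PT.lf (nat_lit 4256) (nat_lit 6) (nat_lit 56) (nat_lit 5) (nat_lit 108) (nat_lit 125) (nat_lit 127)) (PT.lf (nat_lit 4712) (nat_lit 6) (nat_lit 62) (nat_lit 5) (nat_lit 109) (nat_lit 125) (nat_lit 126)))))) (PT.nd (nat_lit 390) (PT.nd (nat_lit 156) (PT.nd (nat_lit 78) (PT.lf (nat_lit 5092) (nat_lit 3) (nat_lit 67) (nat_lit 4) (nat_lit 110) (nat_lit 125) (nat_lit 125)) (PT.lf (nat_lit 5776) (nat_lit 6) (nat_lit 76) (nat_lit 4) (nat_lit 111) (nat_lit 125) (nat_lit 124))) (PT.nd (nat_lit 78) (PT.lf (nat_lit 6384) (nat_lit 6) (nat_lit 84) (nat_lit 4) (nat_lit 112) (nat_lit 125) (nat_lit 123)) (PT.nd (nat_lit 78) (PT.lf (nat_lit 6916) (nat_lit 6) (nat_lit 91) (nat_lit 4) (nat_lit 113) (nat_lit 125) (nat_lit 122)) (PT.lf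 (nat_lit 7372) (nat_lit 6) (nat_lit 97) (nat_lit 4) (nat_lit 114) (nat_lit 125) (nat_lit 121))))) (PT.nd (nat_lit 156) (PT.nd (nat_lit 78) (PT.lf (nat_lit 7752) (nat_lit 6) (nat_lit 102) (nat_lit 4) (nat_lit 115) (nat_lit 125) (nat_lit 120)) (PT.lf (nat_lit 7676) (nat_lit 6) (nat_lit 101) (nat_lit 4) (nat_lit 116) (nat_lit 125) (nat_lit 119))) (PT.nd (nat_lit 78) (PT.lf (nat_lit 7600) (nat_lit 6) (nat_lit 100) (nat_lit 4) (nat_lit 117) (nat_lit 125) (nat_lit 118)) (PT.nd (nat_lit 78) (PT.lf (nat_lit 7600) (nat_lit 6) (nat_lit 100) (nat_lit 2) (nat_lit 118) (nat_lit 125) (nat_lit 117)) (PT.lf (nat_lit 7676) (nat_lit 6) (nat_lit 101) (nat_lit 2) (nat_lit 119) (nat_lit 125) (nat_lit 116))))))) (PT.nd (nat_lit 780) (PT.nd (nat_lit 390) (PT.nd (nat_lit 156) (PT.nd (nat_lit 78) (PT.lf (nat_lit 7752) (nat_lit 6) (nat_lit 102) (nat_lit 2) (nat_lit 120) (nat_lit 125) (nat_lit 115)) (PT.lf (nat_lit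 7372) (nat_lit 6) (nat_lit 97) (nat_lit 2) (nat_lit 121) (nat_lit 125) (nat_lit 114))) (PT.nd (nat_lit 78) (PT.lf (nat_lit 6916) (nat_lit 6) (nat_lit 91) (nat_lit 2) (nat_lit 122) (nat_lit 125) (nat_lit 113)) (PT.nd (nat_lit 78) (PT.lf (nat_lit 6384) (nat_lit 6) (nat_lit 84) (nat_lit 2) (nat_lit 123) (nat_lit 125) (nat_lit 112)) (PT.lf (nat_lit 5776) (nat_lit 6) (nat_lit 76) (nat_lit 2) (nat_lit 124) (nat_lit 125) (nat_lit 111))))) (PT.nd (nat_lit 156) (PT.nd (nat_lit 78) (PT.lf (nat_lit 5092) (nat_lit 3) (nat_lit 67) (nat_lit 0) (nat_lit 125) (nat_lit 125) (nat_lit 110)) (PT.lf (nat_lit 4712) (nat_lit 6) (nat_lit 62) (nat_lit 0) (nat_lit 126) (nat_lit 125) (nat_lit 109))) (PT.nd (nat_lit 78) (PT.lf (nat_lit 4256) (nat_lit 6) (nat_lit 56) (nat_lit 0) (nat_lit 127) (nat_lit 125) (nat_lit 108)) (PT.nd (nat_lit 78) (PT.lf (nat_lit 3876) (nat_lit 6) (nat_lit 51) (nat_lit 0) (nat_lit 128) (nat_lit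 125) (nat_lit 107)) (PT.lf (nat_lit 3496) (nat_lit 6) (nat_lit 46) (nat_lit 0) (nat_lit 129) (nat_lit 125) (nat_lit 106)))))) (PT.nd (nat_lit 35646) (PT.nd (nat_lit 35412) (PT.nd (nat_lit 78) (PT.lf (nat_lit 3192) (nat_lit 6) (nat_lit 42) (nat_lit 0) (nat_lit 130) (nat_lit 125) (nat_lit 105)) (PT.lf (nat_lit 2888) (nat_lit 6) (nat_lit 38) (nat_lit 0) (nat_lit 131) (nat_lit 125) (nat_lit 104))) (PT.nd (nat_lit 78) (PT.lf (nat_lit 2660) (nat_lit 6) (nat_lit 35) (nat_lit 5) (nat_lit 103) (nat_lit 126) (nat_lit 131)) (PT.nd (nat_lit 78) (PT.lf (nat_lit 2964) (nat_lit 6) (nat_lit 39) (nat_lit 5) (nat_lit 104) (nat_lit 126) (nat_lit 130)) (PT.lf (nat_lit 3268) (nat_lit 6) (nat_lit 43) (nat_lit 5) (nat_lit 105) (nat_lit 126) (nat_lit 129))))) (PT.nd (nat_lit 156) (PT.nd (nat_lit 78) (PT.lf (nat_lit 3572) (nat_lit 6) (nat_lit 47) (nat_lit 5) (nat_lit 106) (nat_lit 126) (nat_lit 128)) (PT.lf (nat_lit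 3952) (nat_lit 6) (nat_lit 52) (nat_lit 5) (nat_lit 107) (nat_lit 126) (nat_lit 127))) (PT.nd (nat_lit 78) (PT.lf (nat_lit 4332) (nat_lit 3) (nat_lit 57) (nat_lit 4) (nat_lit 108) (nat_lit 126) (nat_lit 126)) (PT.nd (nat_lit 78) (PT.lf (nat_lit 4712) (nat_lit 6) (nat_lit 62) (nat_lit 4) (nat_lit 109) (nat_lit 126) (nat_lit 125)) (PT.lf (nat_lit 5016) (nat_lit 6) (nat_lit 66) (nat_lit 4) (nat_lit 110) (nat_lit 126) (nat_lit 124))))))))
noncomputable def pc10 : PT := (PT.nd (nat_lit 1482) (PT.nd (nat_lit 702) (PT.nd (nat_lit 312) (PT.nd (nat_lit 156) (PT.nd (nat_lit 78) (PT.lf (nat_lit 5700) (nat_lit 6) (nat_lit 75) (nat_lit 4) (nat_lit 111) (nat_lit 126) (nat_lit 123)) (PT.lf (nat_lit 6308) (nat_lit 6) (nat_lit 83) (nat_lit 4) (nat_lit 112) (nat_lit 126) (nat_lit 122))) (PT.nd (nat_lit 78) (PT.lf (nat_lit 6840) (nat_lit 6) (nat_lit 90) (nat_lit 4) (nat_lit 113) (nat_lit 126) (nat_lit 121))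 (PT.lf (nat_lit 7296) (nat_lit 6) (nat_lit 96) (nat_lit 4) (nat_lit 114) (nat_lit 126) (nat_lit 120)))) (PT.nd (nat_lit 156) (PT.nd (nat_lit 78) (PT.lf (nat_lit 7220) (nat_lit 6) (nat_lit 95) (nat_lit 4) (nat_lit 115) (nat_lit 126) (nat_lit 119)) (PT.lf (nat_lit 7144) (nat_lit 6) (nat_lit 94) (nat_lit 4) (nat_lit 116) (nat_lit 126) (nat_lit 118))) (PT.nd (nat_lit 78) (PT.lf (nat_lit 7068) (nat_lit 3) (nat_lit 93) (nat_lit 2) (nat_lit 117) (nat_lit 126) (nat_lit 117)) (PT.nd (nat_lit 78) (PT.lf (nat_lit 7144) (nat_lit 6) (nat_lit 94) (nat_lit 2) (nat_lit 118) (nat_lit 126) (nat_lit 116)) (PT.lf (nat_lit 7220) (nat_lit 6) (nat_lit 95) (nat_lit 2) (nat_lit 119) (nat_lit 126) (nat_lit 115)))))) (PT.nd (nat_lit 390) (PT.nd (nat_lit 156) (PT.nd (nat_lit 78) (PT.lf (nat_lit 7296) (nat_lit 6) (nat_lit 96) (nat_lit 2) (nat_lit 120) (nat_lit 126) (nat_lit 114)) (PT.lf (nat_lit 6840) (nat_lit 6) (nat_lit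 90) (nat_lit 2) (nat_lit 121) (nat_lit 126) (nat_lit 113))) (PT.nd (nat_lit 78) (PT.lf (nat_lit 6308) (nat_lit 6) (nat_lit 83) (nat_lit 2) (nat_lit 122) (nat_lit 126) (nat_lit 112)) (PT.nd (nat_lit 78) (PT.lf (nat_lit 5700) (nat_lit 6) (nat_lit 75) (nat_lit 2) (nat_lit 123) (nat_lit 126) (nat_lit 111)) (PT.lf (nat_lit 5016) (nat_lit 6) (nat_lit 66) (nat_lit 2) (nat_lit 124) (nat_lit 126) (nat_lit 110))))) (PT.nd (nat_lit 156) (PT.nd (nat_lit 78) (PT.lf (nat_lit 4712) (nat_lit 6) (nat_lit 62) (nat_lit 2) (nat_lit 125) (nat_lit 126) (nat_lit 109)) (PT.lf (nat_lit 4332) (nat_lit 3) (nat_lit 57) (nat_lit 0) (nat_lit 126) (nat_lit 126) (nat_lit 108))) (PT.nd (nat_lit 78) (PT.lf (nat_lit 3952) (nat_lit 6) (nat_lit 52) (nat_lit 0) (nat_lit 127) (nat_lit 126) (nat_lit 107)) (PT.nd (nat_lit 78) (PT.lf (nat_lit 3572) (nat_lit 6) (nat_lit 47) (nat_lit 0) (nat_lit 128) (nat_lit 126) (nat_lit 106)) (PT.lf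 (nat_lit 3268) (nat_lit 6) (nat_lit 43) (nat_lit 0) (nat_lit 129) (nat_lit 126) (nat_lit 105))))))) (PT.nd (nat_lit 35880) (PT.nd (nat_lit 35490) (PT.nd (nat_lit 35256) (PT.nd (nat_lit 78) (PT.lf (nat_lit 2964) (nat_lit 6) (nat_lit 39) (nat_lit 0) (nat_lit 130) (nat_lit 126) (nat_lit 104)) (PT.lf (nat_lit 2660) (nat_lit 6) (nat_lit 35) (nat_lit 0) (nat_lit 131) (nat_lit 126) (nat_lit 103))) (PT.nd (nat_lit 78) (PT.lf (nat_lit 2204) (nat_lit 6) (nat_lit 29) (nat_lit 5) (nat_lit 101) (nat_lit 127) (nat_lit 132)) (PT.nd (nat_lit 78) (PT.lf (nat_lit 2432) (nat_lit 6) (nat_lit 32) (nat_lit 5) (nat_lit 102) (nat_lit 127) (nat_lit 131)) (PT.lf (nat_lit 2736) (nat_lit 6) (nat_lit 36) (nat_lit 5) (nat_lit 103) (nat_lit 127) (nat_lit 130))))) (PT.nd (nat_lit 156) (PT.nd (nat_lit 78) (PT.lf (nat_lit 3040) (nat_lit 6) (nat_lit 40) (nat_lit 5) (nat_lit 104) (nat_lit 127) (nat_lit 129)) (PT.lf (nat_lit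 3344) (nat_lit 6) (nat_lit 44) (nat_lit 5) (nat_lit 105) (nat_lit 127) (nat_lit 128))) (PT.nd (nat_lit 78) (PT.lf (nat_lit 3648) (nat_lit 3) (nat_lit 48) (nat_lit 4) (nat_lit 106) (nat_lit 127) (nat_lit 127)) (PT.nd (nat_lit 78) (PT.lf (nat_lit 3952) (nat_lit 6) (nat_lit 52) (nat_lit 4) (nat_lit 107) (nat_lit 127) (nat_lit 126)) (PT.lf (nat_lit 4256) (nat_lit 6) (nat_lit 56) (nat_lit 4) (nat_lit 108) (nat_lit 127) (nat_lit 125)))))) (PT.nd (nat_lit 390) (PT.nd (nat_lit 156) (PT.nd (nat_lit 78) (PT.lf (nat_lit 4636) (nat_lit 6) (nat_lit 61) (nat_lit 4) (nat_lit 109) (nat_lit 127) (nat_lit 124)) (PT.lf (nat_lit 4940) (nat_lit 6) (nat_lit 65) (nat_lit 4) (nat_lit 110) (nat_lit 127) (nat_lit 123))) (PT.nd (nat_lit 78) (PT.lf (nat_lit 5624) (nat_lit 6) (nat_lit 74) (nat_lit 4) (nat_lit 111) (nat_lit 127) (nat_lit 122)) (PT.nd (nat_lit 78) (PT.lf (nat_lit 6232) (nat_lit 6) (nat_lit 82) (nat_lit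 4) (nat_lit 112) (nat_lit 127) (nat_lit 121)) (PT.lf (nat_lit 6764) (nat_lit 6) (nat_lit 89) (nat_lit 4) (nat_lit 113) (nat_lit 127) (nat_lit 120))))) (PT.nd (nat_lit 156) (PT.nd (nat_lit 78) (PT.lf (nat_lit 6688) (nat_lit 6) (nat_lit 88) (nat_lit 4) (nat_lit 114) (nat_lit 127) (nat_lit 119)) (PT.lf (nat_lit 6612) (nat_lit 6) (nat_lit 87) (nat_lit 4) (nat_lit 115) (nat_lit 127) (nat_lit 118))) (PT.nd (nat_lit 78) (PT.lf (nat_lit 6536) (nat_lit 6) (nat_lit 86) (nat_lit 4) (nat_lit 116) (nat_lit 127) (nat_lit 117)) (PT.nd (nat_lit 78) (PT.lf (nat_lit 6536) (nat_lit 6) (nat_lit 86) (nat_lit 2) (nat_lit 117) (nat_lit 127) (nat_lit 116)) (PT.lf (nat_lit 6612) (nat_lit 6) (nat_lit 87) (nat_lit 2) (nat_lit 118) (nat_lit 127) (nat_lit 115))))))))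
noncomputable def pc11 : PT := (PT.nd (nat_lit 36504) (PT.nd (nat_lit 780) (PT.nd (nat_lit 390) (PT.nd (nat_lit 156) (PT.nd (nat_lit 78) (PT.lf (nat_lit 6688) (nat_lit 6) (nat_lit 88) (nat_lit 2) (nat_lit 119) (nat_lit 127) (nat_lit 114)) (PT.lf (nat_lit 6764) (nat_lit 6) (nat_lit 89) (nat_lit 2) (nat_lit 120) (nat_lit 127) (nat_lit 113))) (PT.nd (nat_lit 78) (PT.lf (nat_lit 6232) (nat_lit 6) (nat_lit 82) (nat_lit 2) (nat_lit 121) (nat_lit 127) (nat_lit 112)) (PT.nd (nat_lit 78) (PT.lf (nat_lit 5624) (nat_lit 6) (nat_lit 74) (nat_lit 2) (nat_lit 122) (nat_lit 127) (nat_lit 111)) (PT.lf (nat_lit 4940) (nat_lit 6) (nat_lit 65) (nat_lit 2) (nat_lit 123) (nat_lit 127) (nat_lit 110))))) (PT.nd (nat_lit 156) (PT.nd (nat_lit 78) (PT.lf (nat_lit 4636) (nat_lit 6) (nat_lit 61) (nat_lit 2) (nat_lit 124) (nat_lit 127) (nat_lit 109)) (PT.lf (nat_lit 4256) (nat_lit 6) (nat_lit 56) (nat_lit 2) (nat_lit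 125) (nat_lit 127) (nat_lit 108))) (PT.nd (nat_lit 78) (PT.lf (nat_lit 3952) (nat_lit 6) (nat_lit 52) (nat_lit 2) (nat_lit 126) (nat_lit 127) (nat_lit 107)) (PT.nd (nat_lit 78) (PT.lf (nat_lit 3648) (nat_lit 3) (nat_lit 48) (nat_lit 0) (nat_lit 127) (nat_lit 127) (nat_lit 106)) (PT.lf (nat_lit 3344) (nat_lit 6) (nat_lit 44) (nat_lit 0) (nat_lit 128) (nat_lit 127) (nat_lit 105)))))) (PT.nd (nat_lit 35334) (PT.nd (nat_lit 156) (PT.nd (nat_lit 78) (PT.lf (nat_lit 3040) (nat_lit 6) (nat_lit 40) (nat_lit 0) (nat_lit 129) (nat_lit 127) (nat_lit 104)) (PT.lf (nat_lit 2736) (nat_lit 6) (nat_lit 36) (nat_lit 0) (nat_lit 130) (nat_lit 127) (nat_lit 103))) (PT.nd (nat_lit 78) (PT.lf (nat_lit 2432) (nat_lit 6) (nat_lit 32) (nat_lit 0) (nat_lit 131) (nat_lit 127) (nat_lit 102)) (PT.nd (nat_lit 35022) (PT.lf (nat_lit 2204) (nat_lit 6) (nat_lit 29) (nat_lit 0) (nat_lit 132) (nat_lit 127) (nat_lit 101))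 (PT.lf (nat_lit 1976) (nat_lit 6) (nat_lit 26) (nat_lit 5) (nat_lit 100) (nat_lit 128) (nat_lit 132))))) (PT.nd (nat_lit 156) (PT.nd (nat_lit 78) (PT.lf (nat_lit 2280) (nat_lit 6) (nat_lit 30) (nat_lit 5) (nat_lit 101) (nat_lit 128) (nat_lit 131)) (PT.lf (nat_lit 2508) (nat_lit 6) (nat_lit 33) (nat_lit 5) (nat_lit 102) (nat_lit 128) (nat_lit 130))) (PT.nd (nat_lit 78) (PT.lf (nat_lit 2812) (nat_lit 6) (nat_lit 37) (nat_lit 5) (nat_lit 103) (nat_lit 128) (nat_lit 129)) (PT.nd (nat_lit 78) (PT.lf (nat_lit 3116) (nat_lit 3) (nat_lit 41) (nat_lit 4) (nat_lit 104) (nat_lit 128) (nat_lit 128)) (PT.lf (nat_lit 3344) (nat_lit 6) (nat_lit 44) (nat_lit 4) (nat_lit 105) (nat_lit 128) (nat_lit 127))))))) (PT.nd (nat_lit 780) (PT.nd (nat_lit 390) (PT.nd (nat_lit 156) (PT.nd (nat_lit 78) (PT.lf (nat_lit 3572) (nat_lit 6) (nat_lit 47) (nat_lit 4) (nat_lit 106) (nat_lit 128) (nat_lit 126)) (PT.lf (nat_lit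 3876) (nat_lit 6) (nat_lit 51) (nat_lit 4) (nat_lit 107) (nat_lit 128) (nat_lit 125))) (PT.nd (nat_lit 78) (PT.lf (nat_lit 4180) (nat_lit 6) (nat_lit 55) (nat_lit 4) (nat_lit 108) (nat_lit 128) (nat_lit 124)) (PT.nd (nat_lit 78) (PT.lf (nat_lit 4560) (nat_lit 6) (nat_lit 60) (nat_lit 4) (nat_lit 109) (nat_lit 128) (nat_lit 123)) (PT.lf (nat_lit 4864) (nat_lit 6) (nat_lit 64) (nat_lit 4) (nat_lit 110) (nat_lit 128) (nat_lit 122))))) (PT.nd (nat_lit 156) (PT.nd (nat_lit 78) (PT.lf (nat_lit 5548) (nat_lit 6) (nat_lit 73) (nat_lit 4) (nat_lit 111) (nat_lit 128) (nat_lit 121)) (PT.lf (nat_lit 6156) (nat_lit 6) (nat_lit 81) (nat_lit 4) (nat_lit 112) (nat_lit 128) (nat_lit 120))) (PT.nd (nat_lit 78) (PT.lf (nat_lit 6080) (nat_lit 6) (nat_lit 80) (nat_lit 4) (nat_lit 113) (nat_lit 128) (nat_lit 119)) (PT.nd (nat_lit 78) (PT.lf (nat_lit 6004) (nat_lit 6) (nat_lit 79) (nat_lit 4) (nat_lit 114) (nat_lit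 128) (nat_lit 118)) (PT.lf (nat_lit 5928) (nat_lit 6) (nat_lit 78) (nat_lit 4) (nat_lit 115) (nat_lit 128) (nat_lit 117)))))) (PT.nd (nat_lit 390) (PT.nd (nat_lit 156) (PT.nd (nat_lit 78) (PT.lf (nat_lit 5852) (nat_lit 3) (nat_lit 77) (nat_lit 2) (nat_lit 116) (nat_lit 128) (nat_lit 116)) (PT.lf (nat_lit 5928) (nat_lit 6) (nat_lit 78) (nat_lit 2) (nat_lit 117) (nat_lit 128) (nat_lit 115))) (PT.nd (nat_lit 78) (PT.lf (nat_lit 6004) (nat_lit 6) (nat_lit 79) (nat_lit 2) (nat_lit 118) (nat_lit 128) (nat_lit 114)) (PT.nd (nat_lit 78) (PT.lf (nat_lit 6080) (nat_lit 6) (nat_lit 80) (nat_lit 2) (nat_lit 119) (nat_lit 128) (nat_lit 113)) (PT.lf (nat_lit 6156) (nat_lit 6) (nat_lit 81) (nat_lit 2) (nat_lit 120) (nat_lit 128) (nat_lit 112))))) (PT.nd (nat_lit 156) (PT.nd (nat_lit 78) (PT.lf (nat_lit 5548) (nat_lit 6) (nat_lit 73) (nat_lit 2) (nat_lit 121) (nat_lit 128) (nat_lit 111)) (PT.lf (nat_lit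 4864) (nat_lit 6) (nat_lit 64) (nat_lit 2) (nat_lit 122) (nat_lit 128) (nat_lit 110))) (PT.nd (nat_lit 78) (PT.lf (nat_lit 4560) (nat_lit 6) (nat_lit 60) (nat_lit 2) (nat_lit 123) (nat_lit 128) (nat_lit 109)) (PT.nd (nat_lit 78) (PT.lf (nat_lit 4180) (nat_lit 6) (nat_lit 55) (nat_lit 2) (nat_lit 124) (nat_lit 128) (nat_lit 108)) (PT.lf (nat_lit 3876) (nat_lit 6) (nat_lit 51) (nat_lit 2) (nat_lit 125) (nat_lit 128) (nat_lit 107))))))))
noncomputable def pc12 : PT := (PT.nd (nat_lit 36270) (PT.nd (nat_lit 35490) (PT.nd (nat_lit 312) (PT.nd (nat_lit 156) (PT.nd (nat_lit 78) (PT.lf (nat_lit 3572) (nat_lit 6) (nat_lit 47) (nat_lit 2) (nat_lit 126) (nat_lit 128) (nat_lit 106)) (PT.lf (nat_lit 3344) (nat_lit 6) (nat_lit 44) (nat_lit 2) (nat_lit 127) (nat_lit 128) (nat_lit 105))) (PT.nd (nat_lit 78) (PT.lf (nat_lit 3116) (nat_lit 3) (nat_lit 41) (nat_lit 0) (nat_lit 128) (nat_lit 128) (nat_lit 104))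 (PT.lf (nat_lit 2812) (nat_lit 6) (nat_lit 37) (nat_lit 0) (nat_lit 129) (nat_lit 128) (nat_lit 103)))) (PT.nd (nat_lit 156) (PT.nd (nat_lit 78) (PT.lf (nat_lit 2508) (nat_lit 6) (nat_lit 33) (nat_lit 0) (nat_lit 130) (nat_lit 128) (nat_lit 102)) (PT.lf (nat_lit 2280) (nat_lit 6) (nat_lit 30) (nat_lit 0) (nat_lit 131) (nat_lit 128) (nat_lit 101))) (PT.nd (nat_lit 34866) (PT.lf (nat_lit 1976) (nat_lit 6) (nat_lit 26) (nat_lit 0) (nat_lit 132) (nat_lit 128) (nat_lit 100)) (PT.nd (nat_lit 78) (PT.lf (nat_lit 1596) (nat_lit 6) (nat_lit 21) (nat_lit 5) (nat_lit 98) (nat_lit 129) (nat_lit 133)) (PT.lf (nat_lit 1824) (nat_lit 6) (nat_lit 24) (nat_lit 5) (nat_lit 99) (nat_lit 129) (nat_lit 132)))))) (PT.nd (nat_lit 390) (PT.nd (nat_lit 156) (PT.nd (nat_lit 78) (PT.lf (nat_lit 2052) (nat_lit 6) (nat_lit 27) (nat_lit 5) (nat_lit 100) (nat_lit 129) (nat_lit 131)) (PT.lf (nat_lit 2356) (nat_lit 6) (nat_lit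 31) (nat_lit 5) (nat_lit 101) (nat_lit 129) (nat_lit 130))) (PT.nd (nat_lit 78) (PT.lf (nat_lit 2584) (nat_lit 3) (nat_lit 34) (nat_lit 4) (nat_lit 102) (nat_lit 129) (nat_lit 129)) (PT.nd (nat_lit 78) (PT.lf (nat_lit 2812) (nat_lit 6) (nat_lit 37) (nat_lit 4) (nat_lit 103) (nat_lit 129) (nat_lit 128)) (PT.lf (nat_lit 3040) (nat_lit 6) (nat_lit 40) (nat_lit 4) (nat_lit 104) (nat_lit 129) (nat_lit 127))))) (PT.nd (nat_lit 156) (PT.nd (nat_lit 78) (PT.lf (nat_lit 3268) (nat_lit 6) (nat_lit 43) (nat_lit 4) (nat_lit 105) (nat_lit 129) (nat_lit 126)) (PT.lf (nat_lit 3496) (nat_lit 6) (nat_lit 46) (nat_lit 4) (nat_lit 106) (nat_lit 129) (nat_lit 125))) (PT.nd (nat_lit 78) (PT.lf (nat_lit 3800) (nat_lit 6) (nat_lit 50) (nat_lit 4) (nat_lit 107) (nat_lit 129) (nat_lit 124)) (PT.nd (nat_lit 78) (PT.lf (nat_lit 4104) (nat_lit 6) (nat_lit 54) (nat_lit 4) (nat_lit 108) (nat_lit 129) (nat_lit 123)) (PT.lf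 (nat_lit 4484) (nat_lit 6) (nat_lit 59) (nat_lit 4) (nat_lit 109) (nat_lit 129) (nat_lit 122))))))) (PT.nd (nat_lit 780) (PT.nd (nat_lit 390) (PT.nd (nat_lit 156) (PT.nd (nat_lit 78) (PT.lf (nat_lit 4788) (nat_lit 6) (nat_lit 63) (nat_lit 4) (nat_lit 110) (nat_lit 129) (nat_lit 121)) (PT.lf (nat_lit 5472) (nat_lit 6) (nat_lit 72) (nat_lit 4) (nat_lit 111) (nat_lit 129) (nat_lit 120))) (PT.nd (nat_lit 78) (PT.lf (nat_lit 5396) (nat_lit 6) (nat_lit 71) (nat_lit 4) (nat_lit 112) (nat_lit 129) (nat_lit 119)) (PT.nd (nat_lit 78) (PT.lf (nat_lit 5320) (nat_lit 6) (nat_lit 70) (nat_lit 4) (nat_lit 113) (nat_lit 129) (nat_lit 118)) (PT.lf (nat_lit 5244) (nat_lit 6) (nat_lit 69) (nat_lit 4) (nat_lit 114) (nat_lit 129) (nat_lit 117))))) (PT.nd (nat_lit 156) (PT.nd (nat_lit 78) (PT.lf (nat_lit 5168) (nat_lit 6) (nat_lit 68) (nat_lit 4) (nat_lit 115) (nat_lit 129) (nat_lit 116)) (PT.lf (nat_lit 5168)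 (nat_lit 6) (nat_lit 68) (nat_lit 2) (nat_lit 116) (nat_lit 129) (nat_lit 115))) (PT.nd (nat_lit 78) (PT.lf (nat_lit 5244) (nat_lit 6) (nat_lit 69) (nat_lit 2) (nat_lit 117) (nat_lit 129) (nat_lit 114)) (PT.nd (nat_lit 78) (PT.lf (nat_lit 5320) (nat_lit 6) (nat_lit 70) (nat_lit 2) (nat_lit 118) (nat_lit 129) (nat_lit 113)) (PT.lf (nat_lit 5396) (nat_lit 6) (nat_lit 71) (nat_lit 2) (nat_lit 119) (nat_lit 129) (nat_lit 112)))))) (PT.nd (nat_lit 390) (PT.nd (nat_lit 156) (PT.nd (nat_lit 78) (PT.lf (nat_lit 5472) (nat_lit 6) (nat_lit 72) (nat_lit 2) (nat_lit 120) (nat_lit 129) (nat_lit 111)) (PT.lf (nat_lit 4788) (nat_lit 6) (nat_lit 63) (nat_lit 2) (nat_lit 121) (nat_lit 129) (nat_lit 110))) (PT.nd (nat_lit 78) (PT.lf (nat_lit 4484) (nat_lit 6) (nat_lit 59) (nat_lit 2) (nat_lit 122) (nat_lit 129) (nat_lit 109)) (PT.nd (nat_lit 78) (PT.lf (nat_lit 4104) (nat_lit 6) (nat_lit 54) (nat_lit 2) (nat_lit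 123) (nat_lit 129) (nat_lit 108)) (PT.lf (nat_lit 3800) (nat_lit 6) (nat_lit 50) (nat_lit 2) (nat_lit 124) (nat_lit 129) (nat_lit 107))))) (PT.nd (nat_lit 156) (PT.nd (nat_lit 78) (PT.lf (nat_lit 3496) (nat_lit 6) (nat_lit 46) (nat_lit 2) (nat_lit 125) (nat_lit 129) (nat_lit 106)) (PT.lf (nat_lit 3268) (nat_lit 6) (nat_lit 43) (nat_lit 2) (nat_lit 126) (nat_lit 129) (nat_lit 105))) (PT.nd (nat_lit 78) (PT.lf (nat_lit 3040) (nat_lit 6) (nat_lit 40) (nat_lit 2) (nat_lit 127) (nat_lit 129) (nat_lit 104)) (PT.nd (nat_lit 78) (PT.lf (nat_lit 2812) (nat_lit 6) (nat_lit 37) (nat_lit 2) (nat_lit 128) (nat_lit 129) (nat_lit 103)) (PT.lf (nat_lit 2584) (nat_lit 3) (nat_lit 34) (nat_lit 0) (nat_lit 129) (nat_lit 129) (nat_lit 102))))))))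
noncomputable def pc13 : PT := (PT.nd (nat_lit 37050) (PT.nd (nat_lit 35412) (PT.nd (nat_lit 35022) (PT.nd (nat_lit 156) (PT.nd (nat_lit 78) (PT.lf (nat_lit 2356) (nat_lit 6) (nat_lit 31) (nat_lit 0) (nat_lit 130) (nat_lit 129) (nat_lit 101)) (PT.lf (nat_lit 2052) (nat_lit 6) (nat_lit 27) (nat_lit 0) (nat_lit 131) (nat_lit 129) (nat_lit 100))) (PT.nd (nat_lit 78) (PT.lf (nat_lit 1824) (nat_lit 6) (nat_lit 24) (nat_lit 0) (nat_lit 132) (nat_lit 129) (nat_lit 99)) (PT.nd (nat_lit 34710) (PT.lf (nat_lit 1596) (nat_lit 6) (nat_lit 21) (nat_lit 0) (nat_lit 133) (nat_lit 129) (nat_lit 98)) (PT.lf (nat_lit 1444) (nat_lit 6) (nat_lit 19) (nat_lit 5) (nat_lit 97) (nat_lit 130) (nat_lit 133))))) (PT.nd (nat_lit 156) (PT.nd (nat_lit 78) (PT.lf (nat_lit 1672) (nat_lit 6) (nat_lit 22) (nat_lit 5) (nat_lit 98) (nat_lit 130) (nat_lit 132)) (PT.lf (nat_lit 1900) (nat_lit 6) (nat_lit 25) (nat_lit 5) (nat_lit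 99) (nat_lit 130) (nat_lit 131))) (PT.nd (nat_lit 78) (PT.lf (nat_lit 2128) (nat_lit 3) (nat_lit 28) (nat_lit 4) (nat_lit 100) (nat_lit 130) (nat_lit 130)) (PT.nd (nat_lit 78) (PT.lf (nat_lit 2356) (nat_lit 6) (nat_lit 31) (nat_lit 4) (nat_lit 101) (nat_lit 130) (nat_lit 129)) (PT.lf (nat_lit 2508) (nat_lit 6) (nat_lit 33) (nat_lit 4) (nat_lit 102) (nat_lit 130) (nat_lit 128)))))) (PT.nd (nat_lit 390) (PT.nd (nat_lit 156) (PT.nd (nat_lit 78) (PT.lf (nat_lit 2736) (nat_lit 6) (nat_lit 36) (nat_lit 4) (nat_lit 103) (nat_lit 130) (nat_lit 127)) (PT.lf (nat_lit 2964) (nat_lit 6) (nat_lit 39) (nat_lit 4) (nat_lit 104) (nat_lit 130) (nat_lit 126))) (PT.nd (nat_lit 78) (PT.lf (nat_lit 3192) (nat_lit 6) (nat_lit 42) (nat_lit 4) (nat_lit 105) (nat_lit 130) (nat_lit 125)) (PT.nd (nat_lit 78) (PT.lf (nat_lit 3420) (nat_lit 6) (nat_lit 45) (nat_lit 4) (nat_lit 106) (nat_lit 130) (nat_lit 124)) (PT.lf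 (nat_lit 3724) (nat_lit 6) (nat_lit 49) (nat_lit 4) (nat_lit 107) (nat_lit 130) (nat_lit 123))))) (PT.nd (nat_lit 1014) (PT.nd (nat_lit 78) (PT.lf (nat_lit 4028) (nat_lit 6) (nat_lit 53) (nat_lit 4) (nat_lit 108) (nat_lit 130) (nat_lit 122)) (PT.lf (nat_lit 4408) (nat_lit 6) (nat_lit 58) (nat_lit 4) (nat_lit 109) (nat_lit 130) (nat_lit 121))) (PT.nd (nat_lit 78) (PT.lf (nat_lit 4408) (nat_lit 6) (nat_lit 58) (nat_lit 2) (nat_lit 121) (nat_lit 130) (nat_lit 109)) (PT.nd (nat_lit 78) (PT.lf (nat_lit 4028) (nat_lit 6) (nat_lit 53) (nat_lit 2) (nat_lit 122) (nat_lit 130) (nat_lit 108)) (PT.lf (nat_lit 3724) (nat_lit 6) (nat_lit 49) (nat_lit 2) (nat_lit 123) (nat_lit 130) (nat_lit 107))))))) (PT.nd (nat_lit 35256) (PT.nd (nat_lit 390) (PT.nd (nat_lit 156) (PT.nd (nat_lit 78) (PT.lf (nat_lit 3420) (nat_lit 6) (nat_lit 45) (nat_lit 2) (nat_lit 124) (nat_lit 130) (nat_lit 106)) (PT.lf (nat_lit 3192)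 (nat_lit 6) (nat_lit 42) (nat_lit 2) (nat_lit 125) (nat_lit 130) (nat_lit 105))) (PT.nd (nat_lit 78) (PT.lf (nat_lit 2964) (nat_lit 6) (nat_lit 39) (nat_lit 2) (nat_lit 126) (nat_lit 130) (nat_lit 104)) (PT.nd (nat_lit 78) (PT.lf (nat_lit 2736) (nat_lit 6) (nat_lit 36) (nat_lit 2) (nat_lit 127) (nat_lit 130) (nat_lit 103)) (PT.lf (nat_lit 2508) (nat_lit 6) (nat_lit 33) (nat_lit 2) (nat_lit 128) (nat_lit 130) (nat_lit 102))))) (PT.nd (nat_lit 156) (PT.nd (nat_lit 78) (PT.lf (nat_lit 2356) (nat_lit 6) (nat_lit 31) (nat_lit 2) (nat_lit 129) (nat_lit 130) (nat_lit 101)) (PT.lf (nat_lit 2128) (nat_lit 3) (nat_lit 28) (nat_lit 0) (nat_lit 130) (nat_lit 130) (nat_lit 100))) (PT.nd (nat_lit 78) (PT.lf (nat_lit 1900) (nat_lit 6) (nat_lit 25) (nat_lit 0) (nat_lit 131) (nat_lit 130) (nat_lit 99)) (PT.nd (nat_lit 78) (PT.lf (nat_lit 1672) (nat_lit 6) (nat_lit 22) (nat_lit 0) (nat_lit 132) (nat_lit 130)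 (nat_lit 98)) (PT.lf (nat_lit 1444) (nat_lit 6) (nat_lit 19) (nat_lit 0) (nat_lit 133) (nat_lit 130) (nat_lit 97)))))) (PT.nd (nat_lit 390) (PT.nd (nat_lit 156) (PT.nd (nat_lit 78) (PT.lf (nat_lit 1140) (nat_lit 6) (nat_lit 15) (nat_lit 5) (nat_lit 95) (nat_lit 131) (nat_lit 134)) (PT.lf (nat_lit 1292) (nat_lit 6) (nat_lit 17) (nat_lit 5) (nat_lit 96) (nat_lit 131) (nat_lit 133))) (PT.nd (nat_lit 78) (PT.lf (nat_lit 1520) (nat_lit 6) (nat_lit 20) (nat_lit 5) (nat_lit 97) (nat_lit 131) (nat_lit 132)) (PT.nd (nat_lit 78) (PT.lf (nat_lit 1748) (nat_lit 3) (nat_lit 23) (nat_lit 4) (nat_lit 98) (nat_lit 131) (nat_lit 131)) (PT.lf (nat_lit 1900) (nat_lit 6) (nat_lit 25) (nat_lit 4) (nat_lit 99) (nat_lit 131) (nat_lit 130))))) (PT.nd (nat_lit 156) (PT.nd (nat_lit 78) (PT.lf (nat_lit 2052) (nat_lit 6) (nat_lit 27) (nat_lit 4) (nat_lit 100) (nat_lit 131) (nat_lit 129)) (PT.lf (nat_lit 2280) (nat_lit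 6) (nat_lit 30) (nat_lit 4) (nat_lit 101) (nat_lit 131) (nat_lit 128))) (PT.nd (nat_lit 78) (PT.lf (nat_lit 2432) (nat_lit 6) (nat_lit 32) (nat_lit 4) (nat_lit 102) (nat_lit 131) (nat_lit 127)) (PT.nd (nat_lit 78) (PT.lf (nat_lit 2660) (nat_lit 6) (nat_lit 35) (nat_lit 4) (nat_lit 103) (nat_lit 131) (nat_lit 126)) (PT.lf (nat_lit 2888) (nat_lit 6) (nat_lit 38) (nat_lit 4) (nat_lit 104) (nat_lit 131) (nat_lit 125))))))))
noncomputable def pc14 : PT := (PT.nd (nat_lit 37752) (PT.nd (nat_lit 35022) (PT.nd (nat_lit 390) (PT.nd (nat_lit 156) (PT.nd (nat_lit 78) (PT.lf (nat_lit 2888) (nat_lit 6) (nat_lit 38) (nat_lit 2) (nat_lit 125) (nat_lit 131) (nat_lit 104)) (PT.lf (nat_lit 2660) (nat_lit 6) (nat_lit 35) (nat_lit 2) (nat_lit 126) (nat_lit 131) (nat_lit 103))) (PT.nd (nat_lit 78) (PT.lf (nat_lit 2432) (nat_lit 6) (nat_lit 32) (nat_lit 2) (nat_lit 127) (nat_lit 131) (nat_lit 102)) (PT.nd (nat_lit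 78) (PT.lf (nat_lit 2280) (nat_lit 6) (nat_lit 30) (nat_lit 2) (nat_lit 128) (nat_lit 131) (nat_lit 101)) (PT.lf (nat_lit 2052) (nat_lit 6) (nat_lit 27) (nat_lit 2) (nat_lit 129) (nat_lit 131) (nat_lit 100))))) (PT.nd (nat_lit 156) (PT.nd (nat_lit 78) (PT.lf (nat_lit 1900) (nat_lit 6) (nat_lit 25) (nat_lit 2) (nat_lit 130) (nat_lit 131) (nat_lit 99)) (PT.lf (nat_lit 1748) (nat_lit 3) (nat_lit 23) (nat_lit 0) (nat_lit 131) (nat_lit 131) (nat_lit 98))) (PT.nd (nat_lit 78) (PT.lf (nat_lit 1520) (nat_lit 6) (nat_lit 20) (nat_lit 0) (nat_lit 132) (nat_lit 131) (nat_lit 97)) (PT.nd (nat_lit 78) (PT.lf (nat_lit 1292) (nat_lit 6) (nat_lit 17) (nat_lit 0) (nat_lit 133) (nat_lit 131) (nat_lit 96)) (PT.lf (nat_lit 1140) (nat_lit 6) (nat_lit 15) (nat_lit 0) (nat_lit 134) (nat_lit 131) (nat_lit 95)))))) (PT.nd (nat_lit 390) (PT.nd (nat_lit 156) (PT.nd (nat_lit 78) (PT.lf (nat_lit 836) (nat_lit 6) (nat_lit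 11) (nat_lit 5) (nat_lit 93) (nat_lit 132) (nat_lit 135)) (PT.lf (nat_lit 988) (nat_lit 6) (nat_lit 13) (nat_lit 5) (nat_lit 94) (nat_lit 132) (nat_lit 134))) (PT.nd (nat_lit 78) (PT.lf (nat_lit 1216) (nat_lit 6) (nat_lit 16) (nat_lit 5) (nat_lit 95) (nat_lit 132) (nat_lit 133)) (PT.nd (nat_lit 78) (PT.lf (nat_lit 1368) (nat_lit 3) (nat_lit 18) (nat_lit 4) (nat_lit 96) (nat_lit 132) (nat_lit 132)) (PT.lf (nat_lit 1520) (nat_lit 6) (nat_lit 20) (nat_lit 4) (nat_lit 97) (nat_lit 132) (nat_lit 131))))) (PT.nd (nat_lit 156) (PT.nd (nat_lit 78) (PT.lf (nat_lit 1672) (nat_lit 6) (nat_lit 22) (nat_lit 4) (nat_lit 98) (nat_lit 132) (nat_lit 130)) (PT.lf (nat_lit 1824) (nat_lit 6) (nat_lit 24) (nat_lit 4) (nat_lit 99) (nat_lit 132) (nat_lit 129))) (PT.nd (nat_lit 78) (PT.lf (nat_lit 1976) (nat_lit 6) (nat_lit 26) (nat_lit 4) (nat_lit 100) (nat_lit 132) (nat_lit 128)) (PT.nd (nat_lit 2028) (PT.lf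 (nat_lit 2204) (nat_lit 6) (nat_lit 29) (nat_lit 4) (nat_lit 101) (nat_lit 132) (nat_lit 127)) (PT.lf (nat_lit 2204) (nat_lit 6) (nat_lit 29) (nat_lit 2) (nat_lit 127) (nat_lit 132) (nat_lit 101))))))) (PT.nd (nat_lit 34866) (PT.nd (nat_lit 390) (PT.nd (nat_lit 156) (PT.nd (nat_lit 78) (PT.lf (nat_lit 1976) (nat_lit 6) (nat_lit 26) (nat_lit 2) (nat_lit 128) (nat_lit 132) (nat_lit 100)) (PT.lf (nat_lit 1824) (nat_lit 6) (nat_lit 24) (nat_lit 2) (nat_lit 129) (nat_lit 132) (nat_lit 99))) (PT.nd (nat_lit 78) (PT.lf (nat_lit 1672) (nat_lit 6) (nat_lit 22) (nat_lit 2) (nat_lit 130) (nat_lit 132) (nat_lit 98)) (PT.nd (nat_lit 78) (PT.lf (nat_lit 1520) (nat_lit 6) (nat_lit 20) (nat_lit 2) (nat_lit 131) (nat_lit 132) (nat_lit 97)) (PT.lf (nat_lit 1368) (nat_lit 3) (nat_lit 18) (nat_lit 0) (nat_lit 132) (nat_lit 132) (nat_lit 96))))) (PT.nd (nat_lit 156) (PT.nd (nat_lit 78) (PT.lf (nat_lit 1216)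 (nat_lit 6) (nat_lit 16) (nat_lit 0) (nat_lit 133) (nat_lit 132) (nat_lit 95)) (PT.lf (nat_lit 988) (nat_lit 6) (nat_lit 13) (nat_lit 0) (nat_lit 134) (nat_lit 132) (nat_lit 94))) (PT.nd (nat_lit 34164) (PT.lf (nat_lit 836) (nat_lit 6) (nat_lit 11) (nat_lit 0) (nat_lit 135) (nat_lit 132) (nat_lit 93)) (PT.nd (nat_lit 78) (PT.lf (nat_lit 684) (nat_lit 6) (nat_lit 9) (nat_lit 5) (nat_lit 92) (nat_lit 133) (nat_lit 135)) (PT.lf (nat_lit 912) (nat_lit 6) (nat_lit 12) (nat_lit 5) (nat_lit 93) (nat_lit 133) (nat_lit 134)))))) (PT.nd (nat_lit 2730) (PT.nd (nat_lit 156) (PT.nd (nat_lit 78) (PT.lf (nat_lit 1064) (nat_lit 3) (nat_lit 14) (nat_lit 4) (nat_lit 94) (nat_lit 133) (nat_lit 133)) (PT.lf (nat_lit 1216) (nat_lit 6) (nat_lit 16) (nat_lit 4) (nat_lit 95) (nat_lit 133) (nat_lit 132))) (PT.nd (nat_lit 78) (PT.lf (nat_lit 1292) (nat_lit 6) (nat_lit 17) (nat_lit 4) (nat_lit 96) (nat_lit 133) (nat_lit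 131)) (PT.nd (nat_lit 78) (PT.lf (nat_lit 1444) (nat_lit 6) (nat_lit 19) (nat_lit 4) (nat_lit 97) (nat_lit 133) (nat_lit 130)) (PT.lf (nat_lit 1596) (nat_lit 6) (nat_lit 21) (nat_lit 4) (nat_lit 98) (nat_lit 133) (nat_lit 129))))) (PT.nd (nat_lit 156) (PT.nd (nat_lit 78) (PT.lf (nat_lit 1596) (nat_lit 6) (nat_lit 21) (nat_lit 2) (nat_lit 129) (nat_lit 133) (nat_lit 98)) (PT.lf (nat_lit 1444) (nat_lit 6) (nat_lit 19) (nat_lit 2) (nat_lit 130) (nat_lit 133) (nat_lit 97))) (PT.nd (nat_lit 78) (PT.lf (nat_lit 1292) (nat_lit 6) (nat_lit 17) (nat_lit 2) (nat_lit 131) (nat_lit 133) (nat_lit 96)) (PT.nd (nat_lit 78) (PT.lf (nat_lit 1216) (nat_lit 6) (nat_lit 16) (nat_lit 2) (nat_lit 132) (nat_lit 133) (nat_lit 95)) (PT.lf (nat_lit 1064) (nat_lit 3) (nat_lit 14) (nat_lit 0) (nat_lit 133) (nat_lit 133) (nat_lit 94))))))))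
noncomputable def pc15 : PT := (PT.nd (nat_lit 74880) (PT.nd (nat_lit 37440) (PT.nd (nat_lit 34320) (PT.nd (nat_lit 34086) (PT.nd (nat_lit 78) (PT.lf (nat_lit 912) (nat_lit 6) (nat_lit 12) (nat_lit 0) (nat_lit 134) (nat_lit 133) (nat_lit 93)) (PT.lf (nat_lit 684) (nat_lit 6) (nat_lit 9) (nat_lit 0) (nat_lit 135) (nat_lit 133) (nat_lit 92))) (PT.nd (nat_lit 78) (PT.lf (nat_lit 456) (nat_lit 6) (nat_lit 6) (nat_lit 5) (nat_lit 90) (nat_lit 134) (nat_lit 136)) (PT.nd (nat_lit 78) (PT.lf (nat_lit 608) (nat_lit 6) (nat_lit 8) (nat_lit 5) (nat_lit 91) (nat_lit 134) (nat_lit 135)) (PT.lf (nat_lit 760) (nat_lit 3) (nat_lit 10) (nat_lit 4) (nat_lit 92) (nat_lit 134) (nat_lit 134))))) (PT.nd (nat_lit 156) (PT.nd (nat_lit 78) (PT.lf (nat_lit 912) (nat_lit 6) (nat_lit 12) (nat_lit 4) (nat_lit 93) (nat_lit 134) (nat_lit 133)) (PT.lf (nat_lit 988) (nat_lit 6) (nat_lit 13) (nat_lit 4) (nat_lit 94) (nat_lit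 134) (nat_lit 132))) (PT.nd (nat_lit 2808) (PT.lf (nat_lit 1140) (nat_lit 6) (nat_lit 15) (nat_lit 4) (nat_lit 95) (nat_lit 134) (nat_lit 131)) (PT.nd (nat_lit 78) (PT.lf (nat_lit 1140) (nat_lit 6) (nat_lit 15) (nat_lit 2) (nat_lit 131) (nat_lit 134) (nat_lit 95)) (PT.lf (nat_lit 988) (nat_lit 6) (nat_lit 13) (nat_lit 2) (nat_lit 132) (nat_lit 134) (nat_lit 94)))))) (PT.nd (nat_lit 34086) (PT.nd (nat_lit 156) (PT.nd (nat_lit 78) (PT.lf (nat_lit 912) (nat_lit 6) (nat_lit 12) (nat_lit 2) (nat_lit 133) (nat_lit 134) (nat_lit 93)) (PT.lf (nat_lit 760) (nat_lit 3) (nat_lit 10) (nat_lit 0) (nat_lit 134) (nat_lit 134) (nat_lit 92))) (PT.nd (nat_lit 78) (PT.lf (nat_lit 608) (nat_lit 6) (nat_lit 8) (nat_lit 0) (nat_lit 135) (nat_lit 134) (nat_lit 91)) (PT.nd (nat_lit 33774) (PT.lf (nat_lit 456) (nat_lit 6) (nat_lit 6) (nat_lit 0) (nat_lit 136) (nat_lit 134) (nat_lit 90)) (PT.lf (nat_lit 228) (nat_lit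 6) (nat_lit 3) (nat_lit 5) (nat_lit 88) (nat_lit 135) (nat_lit 137))))) (PT.nd (nat_lit 156) (PT.nd (nat_lit 78) (PT.lf (nat_lit 380) (nat_lit 6) (nat_lit 5) (nat_lit 5) (nat_lit 89) (nat_lit 135) (nat_lit 136)) (PT.lf (nat_lit 532) (nat_lit 3) (nat_lit 7) (nat_lit 4) (nat_lit 90) (nat_lit 135) (nat_lit 135))) (PT.nd (nat_lit 78) (PT.lf (nat_lit 608) (nat_lit 6) (nat_lit 8) (nat_lit 4) (nat_lit 91) (nat_lit 135) (nat_lit 134)) (PT.nd (nat_lit 78) (PT.lf (nat_lit 684) (nat_lit 6) (nat_lit 9) (nat_lit 4) (nat_lit 92) (nat_lit 135) (nat_lit 133)) (PT.lf (nat_lit 836) (nat_lit 6) (nat_lit 11) (nat_lit 4) (nat_lit 93) (nat_lit 135) (nat_lit 132))))))) (PT.nd (nat_lit 37674) (PT.nd (nat_lit 390) (PT.nd (nat_lit 156) (PT.nd (nat_lit 78) (PT.lf (nat_lit 836) (nat_lit 6) (nat_lit 11) (nat_lit 2) (nat_lit 132) (nat_lit 135) (nat_lit 93)) (PT.lf (nat_lit 684) (nat_lit 6) (nat_lit 9) (nat_lit 2) (nat_lit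 133) (nat_lit 135) (nat_lit 92))) (PT.nd (nat_lit 78) (PT.lf (nat_lit 608) (nat_lit 6) (nat_lit 8) (nat_lit 2) (nat_lit 134) (nat_lit 135) (nat_lit 91)) (PT.nd (nat_lit 78) (PT.lf (nat_lit 532) (nat_lit 3) (nat_lit 7) (nat_lit 0) (nat_lit 135) (nat_lit 135) (nat_lit 90)) (PT.lf (nat_lit 380) (nat_lit 6) (nat_lit 5) (nat_lit 0) (nat_lit 136) (nat_lit 135) (nat_lit 89))))) (PT.nd (nat_lit 33696) (PT.nd (nat_lit 33618) (PT.lf (nat_lit 228) (nat_lit 6) (nat_lit 3) (nat_lit 0) (nat_lit 137) (nat_lit 135) (nat_lit 88)) (PT.lf (nat_lit 152) (nat_lit 6) (nat_lit 2) (nat_lit 5) (nat_lit 87) (nat_lit 136) (nat_lit 137))) (PT.nd (nat_lit 78) (PT.lf (nat_lit 304) (nat_lit 3) (nat_lit 4) (nat_lit 4) (nat_lit 88) (nat_lit 136) (nat_lit 136)) (PT.nd (nat_lit 78) (PT.lf (nat_lit 380) (nat_lit 6) (nat_lit 5) (nat_lit 4) (nat_lit 89) (nat_lit 136) (nat_lit 135)) (PT.lf (nat_lit 456) (nat_lit 6) (nat_lit 6)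 (nat_lit 4) (nat_lit 90) (nat_lit 136) (nat_lit 134)))))) (PT.nd (nat_lit 33852) (PT.nd (nat_lit 156) (PT.nd (nat_lit 78) (PT.lf (nat_lit 456) (nat_lit 6) (nat_lit 6) (nat_lit 2) (nat_lit 134) (nat_lit 136) (nat_lit 90)) (PT.lf (nat_lit 380) (nat_lit 6) (nat_lit 5) (nat_lit 2) (nat_lit 135) (nat_lit 136) (nat_lit 89))) (PT.nd (nat_lit 78) (PT.lf (nat_lit 304) (nat_lit 3) (nat_lit 4) (nat_lit 0) (nat_lit 136) (nat_lit 136) (nat_lit 88)) (PT.nd (nat_lit 33540) (PT.lf (nat_lit 152) (nat_lit 6) (nat_lit 2) (nat_lit 0) (nat_lit 137) (nat_lit 136) (nat_lit 87)) (PT.lf (nat_lit 76) (nat_lit 3) (nat_lit 1) (nat_lit 4) (nat_lit 86) (nat_lit 137) (nat_lit 137))))) (PT.nd (nat_lit 3744) (PT.nd (nat_lit 78) (PT.lf (nat_lit 152) (nat_lit 6) (nat_lit 2) (nat_lit 4) (nat_lit 87) (nat_lit 137) (nat_lit 136)) (PT.lf (nat_lit 228) (nat_lit 6) (nat_lit 3) (nat_lit 4) (nat_lit 88) (nat_lit 137) (nat_lit 135)))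 (PT.nd (nat_lit 78) (PT.lf (nat_lit 228) (nat_lit 6) (nat_lit 3) (nat_lit 2) (nat_lit 135) (nat_lit 137) (nat_lit 88)) (PT.nd (nat_lit 78) (PT.lf (nat_lit 152) (nat_lit 6) (nat_lit 2) (nat_lit 2) (nat_lit 136) (nat_lit 137) (nat_lit 87)) (PT.lf (nat_lit 76) (nat_lit 3) (nat_lit 1) (nat_lit 0) (nat_lit 137) (nat_lit 137) (nat_lit 86))))))))
noncomputable def xc0 : XT := (XT.nd (nat_lit 149526) (nat_lit 0) (nat_lit 0) (XT.nd (nat_lit 75036) (nat_lit 0) (nat_lit 0) (XT.nd (nat_lit 74646) (nat_lit 0) (nat_lit 0) (XT.nd (nat_lit 37362) (nat_lit 0) (nat_lit 0) (XT.nd (nat_lit 37284) (nat_lit 0) (nat_lit 0) (XT.lf (nat_lit 0) (nat_lit 78099583706) (nat_lit 76) (nat_lit 31208741286) (nat_lit 76) (nat_lit 31004256442) (nat_lit 2) (nat_lit 4) (nat_lit 3) (nat_lit 5) (nat_lit 3) (nat_lit 4) (nat_lit 335) (nat_lit 193) (nat_lit 192)) (XT.lf (nat_lit 0) (nat_lit 26615544812) (nat_lit 76) (nat_lit 17054390383)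 (nat_lit 76) (nat_lit 17054390383) (nat_lit 2) (nat_lit 4) (nat_lit 3) (nat_lit 5) (nat_lit 3) (nat_lit 4) (nat_lit 332) (nat_lit 194) (nat_lit 194))) (XT.nd (nat_lit 78) (nat_lit 0) (nat_lit 0) (XT.lf (nat_lit 0) (nat_lit 61228859964) (nat_lit 76) (nat_lit 33208223819) (nat_lit 76) (nat_lit 32993514733) (nat_lit 2) (nat_lit 4) (nat_lit 3) (nat_lit 5) (nat_lit 3) (nat_lit 4) (nat_lit 333) (nat_lit 194) (nat_lit 193)) (XT.nd (nat_lit 78) (nat_lit 0) (nat_lit 0) (XT.lf (nat_lit 0) (nat_lit 69458481301) (nat_lit 76) (nat_lit 32337602625) (nat_lit 76) (nat_lit 31918408695) (nat_lit 2) (nat_lit 4) (nat_lit 3) (nat_lit 5) (nat_lit 3) (nat_lit 4) (nat_lit 334) (nat_lit 194) (nat_lit 192)) (XT.lf (nat_lit 0) (nat_lit 77939547973) (nat_lit 76) (nat_lit 31494844278) (nat_lit 76) (nat_lit 30880902878) (nat_lit 2) (nat_lit 4) (nat_lit 3) (nat_lit 5) (nat_lit 3) (nat_lit 4) (nat_lit 335) (nat_lit 194)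 (nat_lit 191))))) (XT.nd (nat_lit 156) (nat_lit 0) (nat_lit 0) (XT.nd (nat_lit 78) (nat_lit 0) (nat_lit 0) (XT.lf (nat_lit 0) (nat_lit 18972905390) (nat_lit 76) (nat_lit 18096741894) (nat_lit 76) (nat_lit 18096741894) (nat_lit 2) (nat_lit 4) (nat_lit 3) (nat_lit 5) (nat_lit 3) (nat_lit 4) (nat_lit 330) (nat_lit 195) (nat_lit 195)) (XT.lf (nat_lit 0) (nat_lit 45446127971) (nat_lit 76) (nat_lit 35266862193) (nat_lit 76) (nat_lit 35041417652) (nat_lit 2) (nat_lit 4) (nat_lit 3) (nat_lit 5) (nat_lit 3) (nat_lit 4) (nat_lit 331) (nat_lit 195) (nat_lit 194))) (XT.nd (nat_lit 78) (nat_lit 0) (nat_lit 0) (XT.lf (nat_lit 0) (nat_lit 53145021626) (nat_lit 76) (nat_lit 34372621298) (nat_lit 76) (nat_lit 33932467672) (nat_lit 2) (nat_lit 4) (nat_lit 3) (nat_lit 5) (nat_lit 3) (nat_lit 4) (nat_lit 332) (nat_lit 195) (nat_lit 193)) (XT.nd (nat_lit 78) (nat_lit 0) (nat_lit 0) (XT.lf (nat_lit 0) (nat_lit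 61060822444) (nat_lit 76) (nat_lit 33508631961) (nat_lit 76) (nat_lit 32863993491) (nat_lit 2) (nat_lit 4) (nat_lit 3) (nat_lit 5) (nat_lit 3) (nat_lit 4) (nat_lit 333) (nat_lit 195) (nat_lit 192)) (XT.lf (nat_lit 0) (nat_lit 69212377571) (nat_lit 76) (nat_lit 32672837063) (nat_lit 76) (nat_lit 31833451123) (nat_lit 2) (nat_lit 4) (nat_lit 3) (nat_lit 5) (nat_lit 3) (nat_lit 4) (nat_lit 334) (nat_lit 195) (nat_lit 191)))))) (XT.nd (nat_lit 37284) (nat_lit 0) (nat_lit 0) (XT.nd (nat_lit 37050) (nat_lit 0) (nat_lit 0) (XT.nd (nat_lit 36972) (nat_lit 0) (nat_lit 0) (XT.lf (nat_lit 0) (nat_lit 77619095470) (nat_lit 76) (nat_lit 31863246616) (nat_lit 76) (nat_lit 30838386895) (nat_lit 2) (nat_lit 4) (nat_lit 3) (nat_lit 5) (nat_lit 3) (nat_lit 4) (nat_lit 335) (nat_lit 195) (nat_lit 190)) (XT.lf (nat_lit 0) (nat_lit 11782397225) (nat_lit 76) (nat_lit 19173580796) (nat_lit 76) (nat_lit 19173580796)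 (nat_lit 2) (nat_lit 4) (nat_lit 3) (nat_lit 5) (nat_lit 3) (nat_lit 4) (nat_lit 328) (nat_lit 196) (nat_lit 196))) (XT.nd (nat_lit 78) (nat_lit 0) (nat_lit 0) (XT.lf (nat_lit 0) (nat_lit 30626212156) (nat_lit 76) (nat_lit 37391409096) (nat_lit 76) (nat_lit 37154692329) (nat_lit 2) (nat_lit 4) (nat_lit 3) (nat_lit 5) (nat_lit 3) (nat_lit 4) (nat_lit 329) (nat_lit 196) (nat_lit 195)) (XT.nd (nat_lit 78) (nat_lit 0) (nat_lit 0) (XT.lf (nat_lit 0) (nat_lit 37855439383) (nat_lit 76) (nat_lit 36470516347) (nat_lit 76) (nat_lit 36008355039) (nat_lit 2) (nat_lit 4) (nat_lit 3) (nat_lit 5) (nat_lit 3) (nat_lit 4) (nat_lit 330) (nat_lit 196) (nat_lit 194)) (XT.lf (nat_lit 0) (nat_lit 45269688576) (nat_lit 76) (nat_lit 35582290742) (nat_lit 76) (nat_lit 34905420348) (nat_lit 2) (nat_lit 4) (nat_lit 3) (nat_lit 5) (nat_lit 3) (nat_lit 4) (nat_lit 331) (nat_lit 196) (nat_lit 193))))) (XT.nd (nat_lit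 234) (nat_lit 0) (nat_lit 0) (XT.nd (nat_lit 78) (nat_lit 0) (nat_lit 0) (XT.lf (nat_lit 0) (nat_lit 52886612709) (nat_lit 76) (nat_lit 34724617458) (nat_lit 76) (nat_lit 33843262221) (nat_lit 2) (nat_lit 4) (nat_lit 3) (nat_lit 5) (nat_lit 3) (nat_lit 4) (nat_lit 332) (nat_lit 196) (nat_lit 192)) (XT.nd (nat_lit 78) (nat_lit 0) (nat_lit 0) (XT.lf (nat_lit 0) (nat_lit 60724347316) (nat_lit 76) (nat_lit 33895454416) (nat_lit 76) (nat_lit 32819351709) (nat_lit 2) (nat_lit 4) (nat_lit 3) (nat_lit 5) (nat_lit 3) (nat_lit 4) (nat_lit 333) (nat_lit 196) (nat_lit 191)) (XT.lf (nat_lit 0) (nat_lit 68801553670) (nat_lit 76) (nat_lit 33092827419) (nat_lit 76) (nat_lit 31831250930) (nat_lit 2) (nat_lit 4) (nat_lit 3) (nat_lit 5) (nat_lit 3) (nat_lit 4) (nat_lit 334) (nat_lit 196) (nat_lit 190)))) (XT.nd (nat_lit 36816) (nat_lit 0) (nat_lit 0) (XT.lf (nat_lit 0) (nat_lit 77137463215) (nat_lit 76) (nat_lit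 32314825449) (nat_lit 76) (nat_lit 30876607264) (nat_lit 2) (nat_lit 4) (nat_lit 3) (nat_lit 5) (nat_lit 3) (nat_lit 4) (nat_lit 335) (nat_lit 196) (nat_lit 189)) (XT.nd (nat_lit 78) (nat_lit 0) (nat_lit 0) (XT.lf (nat_lit 0) (nat_lit 4989064990) (nat_lit 76) (nat_lit 20288270544) (nat_lit 76) (nat_lit 20288270544) (nat_lit 2) (nat_lit 4) (nat_lit 3) (nat_lit 5) (nat_lit 3) (nat_lit 4) (nat_lit 326) (nat_lit 197) (nat_lit 197)) (XT.lf (nat_lit 0) (nat_lit 16654373364) (nat_lit 76) (nat_lit 39588602040) (nat_lit 76) (nat_lit 39340049434) (nat_lit 2) (nat_lit 4) (nat_lit 3) (nat_lit 5) (nat_lit 3) (nat_lit 4) (nat_lit 327) (nat_lit 197) (nat_lit 196))))))) (XT.nd (nat_lit 37440) (nat_lit 0) (nat_lit 0) (XT.nd (nat_lit 390) (nat_lit 0) (nat_lit 0) (XT.nd (nat_lit 156) (nat_lit 0) (nat_lit 0) (XT.nd (nat_lit 78) (nat_lit 0) (nat_lit 0) (XT.lf (nat_lit 0) (nat_lit 23469904482) (nat_lit 76) (nat_lit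 38638045777) (nat_lit 76) (nat_lit 38152776405) (nat_lit 2) (nat_lit 4) (nat_lit 3) (nat_lit 5) (nat_lit 3) (nat_lit 4) (nat_lit 328) (nat_lit 197) (nat_lit 195)) (XT.lf (nat_lit 0) (nat_lit 30440950791) (nat_lit 76) (nat_lit 37722609073) (nat_lit 76) (nat_lit 37011895160) (nat_lit 2) (nat_lit 4) (nat_lit 3) (nat_lit 5) (nat_lit 3) (nat_lit 4) (nat_lit 329) (nat_lit 197) (nat_lit 194))) (XT.nd (nat_lit 78) (nat_lit 0) (nat_lit 0) (XT.lf (nat_lit 0) (nat_lit 37584110020) (nat_lit 76) (nat_lit 36840112314) (nat_lit 76) (nat_lit 35914689315) (nat_lit 2) (nat_lit 4) (nat_lit 3) (nat_lit 5) (nat_lit 3) (nat_lit 4) (nat_lit 330) (nat_lit 197) (nat_lit 193)) (XT.nd (nat_lit 78) (nat_lit 0) (nat_lit 0) (XT.lf (nat_lit 0) (nat_lit 44916389692) (nat_lit 76) (nat_lit 35988454320) (nat_lit 76) (nat_lit 34858546477) (nat_lit 2) (nat_lit 4) (nat_lit 3) (nat_lit 5) (nat_lit 3) (nat_lit 4) (nat_lit 331)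 (nat_lit 197) (nat_lit 192)) (XT.lf (nat_lit 0) (nat_lit 52455247614) (nat_lit 76) (nat_lit 35165607332) (nat_lit 76) (nat_lit 33840952019) (nat_lit 2) (nat_lit 4) (nat_lit 3) (nat_lit 5) (nat_lit 3) (nat_lit 4) (nat_lit 332) (nat_lit 197) (nat_lit 191))))) (XT.nd (nat_lit 36816) (nat_lit 0) (nat_lit 0) (XT.nd (nat_lit 78) (nat_lit 0) (nat_lit 0) (XT.lf (nat_lit 0) (nat_lit 60218633448) (nat_lit 76) (nat_lit 34369612191) (nat_lit 76) (nat_lit 32859483096) (nat_lit 2) (nat_lit 4) (nat_lit 3) (nat_lit 5) (nat_lit 3) (nat_lit 4) (nat_lit 333) (nat_lit 197) (nat_lit 190)) (XT.nd (nat_lit 78) (nat_lit 0) (nat_lit 0) (XT.lf (nat_lit 0) (nat_lit 68225031448) (nat_lit 76) (nat_lit 33598573670) (nat_lit 76) (nat_lit 31911802879) (nat_lit 2) (nat_lit 4) (nat_lit 3) (nat_lit 5) (nat_lit 3) (nat_lit 4) (nat_lit 334) (nat_lit 197) (nat_lit 189)) (XT.lf (nat_lit 0) (nat_lit 76493504464) (nat_lit 76) (nat_lit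 32850655964) (nat_lit 76) (nat_lit 30995654987) (nat_lit 2) (nat_lit 4) (nat_lit 3) (nat_lit 5) (nat_lit 3) (nat_lit 4) (nat_lit 335) (nat_lit 197) (nat_lit 188)))) (XT.nd (nat_lit 78) (nat_lit 76) (nat_lit 0) (XT.lf (nat_lit 0) (nat_lit 20000618134) (nat_lit 152) (nat_lit 1429140730) (nat_lit 0) (nat_lit 20000618134) (nat_lit 3) (nat_lit 5) (nat_lit 5) (nat_lit 4) (nat_lit 3) (nat_lit 4) (nat_lit 324) (nat_lit 198) (nat_lit 198)) (XT.nd (nat_lit 78) (nat_lit 0) (nat_lit 0) (XT.lf (nat_lit 0) (nat_lit 3425278517) (nat_lit 76) (nat_lit 41865195397) (nat_lit 76) (nat_lit 41604215161) (nat_lit 2) (nat_lit 4) (nat_lit 3) (nat_lit 5) (nat_lit 3) (nat_lit 4) (nat_lit 325) (nat_lit 198) (nat_lit 197)) (XT.lf (nat_lit 0) (nat_lit 9878495515) (nat_lit 76) (nat_lit 40881969484) (nat_lit 76) (nat_lit 40372436643) (nat_lit 2) (nat_lit 4) (nat_lit 3) (nat_lit 5) (nat_lit 3) (nat_lit 4) (nat_lit 326)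 (nat_lit 198) (nat_lit 196)))))) (XT.nd (nat_lit 390) (nat_lit 0) (nat_lit 0) (XT.nd (nat_lit 156) (nat_lit 0) (nat_lit 0) (XT.nd (nat_lit 78) (nat_lit 0) (nat_lit 0) (XT.lf (nat_lit 0) (nat_lit 16459848930) (nat_lit 76) (nat_lit 39936362015) (nat_lit 76) (nat_lit 39190112406) (nat_lit 2) (nat_lit 4) (nat_lit 3) (nat_lit 5) (nat_lit 3) (nat_lit 4) (nat_lit 327) (nat_lit 198) (nat_lit 195)) (XT.lf (nat_lit 0) (nat_lit 23185008651) (nat_lit 76) (nat_lit 39026121543) (nat_lit 76) (nat_lit 38054427394) (nat_lit 2) (nat_lit 4) (nat_lit 3) (nat_lit 5) (nat_lit 3) (nat_lit 4) (nat_lit 328) (nat_lit 198) (nat_lit 194))) (XT.nd (nat_lit 78) (nat_lit 0) (nat_lit 0) (XT.lf (nat_lit 0) (nat_lit 30069986962) (nat_lit 76) (nat_lit 38149080830) (nat_lit 76) (nat_lit 36962677595) (nat_lit 2) (nat_lit 4) (nat_lit 3) (nat_lit 5) (nat_lit 3) (nat_lit 4) (nat_lit 329) (nat_lit 198) (nat_lit 193)) (XT.nd (nat_lit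 78) (nat_lit 0) (nat_lit 0) (XT.lf (nat_lit 0) (nat_lit 37131176670) (nat_lit 76) (nat_lit 37303151682) (nat_lit 76) (nat_lit 35912263603) (nat_lit 2) (nat_lit 4) (nat_lit 3) (nat_lit 5) (nat_lit 3) (nat_lit 4) (nat_lit 330) (nat_lit 198) (nat_lit 192)) (XT.lf (nat_lit 0) (nat_lit 44385390130) (nat_lit 76) (nat_lit 36486319983) (nat_lit 76) (nat_lit 34900684434) (nat_lit 2) (nat_lit 4) (nat_lit 3) (nat_lit 5) (nat_lit 3) (nat_lit 4) (nat_lit 331) (nat_lit 198) (nat_lit 191))))) (XT.nd (nat_lit 234) (nat_lit 0) (nat_lit 0) (XT.nd (nat_lit 78) (nat_lit 0) (nat_lit 0) (XT.lf (nat_lit 0) (nat_lit 51849899280) (nat_lit 76) (nat_lit 35696640896) (nat_lit 76) (nat_lit 33925531565) (nat_lit 2) (nat_lit 4) (nat_lit 3) (nat_lit 5) (nat_lit 3) (nat_lit 4) (nat_lit 332) (nat_lit 198) (nat_lit 190)) (XT.nd (nat_lit 78) (nat_lit 0) (nat_lit 0) (XT.lf (nat_lit 0) (nat_lit 59542476760) (nat_lit 76) (nat_lit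 34932234231) (nat_lit 76) (nat_lit 32984483205) (nat_lit 2) (nat_lit 4) (nat_lit 3) (nat_lit 5) (nat_lit 3) (nat_lit 4) (nat_lit 333) (nat_lit 198) (nat_lit 189)) (XT.lf (nat_lit 0) (nat_lit 67481438231) (nat_lit 76) (nat_lit 34191279975) (nat_lit 76) (nat_lit 32075298761) (nat_lit 2) (nat_lit 4) (nat_lit 3) (nat_lit 5) (nat_lit 3) (nat_lit 4) (nat_lit 334) (nat_lit 198) (nat_lit 188)))) (XT.nd (nat_lit 36504) (nat_lit 0) (nat_lit 76) (XT.lf (nat_lit 0) (nat_lit 75685685982) (nat_lit 76) (nat_lit 33472013948) (nat_lit 76) (nat_lit 31195813509) (nat_lit 2) (nat_lit 4) (nat_lit 3) (nat_lit 5) (nat_lit 3) (nat_lit 4) (nat_lit 335) (nat_lit 198) (nat_lit 187)) (XT.nd (nat_lit 78) (nat_lit 0) (nat_lit 0) (XT.lf (nat_lit 0) (nat_lit 15113820618) (nat_lit 152) (nat_lit 7455642312) (nat_lit 0) (nat_lit 15113820618) (nat_lit 3) (nat_lit 5) (nat_lit 5) (nat_lit 4) (nat_lit 3) (nat_lit 4) (nat_lit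 322) (nat_lit 199) (nat_lit 199)) (XT.lf (nat_lit 0) (nat_lit 35158085756) (nat_lit 152) (nat_lit 8979232600) (nat_lit 0) (nat_lit 34884056508) (nat_lit 3) (nat_lit 5) (nat_lit 5) (nat_lit 4) (nat_lit 3) (nat_lit 4) (nat_lit 323) (nat_lit 199) (nat_lit 198))))))))
noncomputable def xc1 : XT := (XT.nd (nat_lit 38064) (nat_lit 0) (nat_lit 0) (XT.nd (nat_lit 37206) (nat_lit 0) (nat_lit 0) (XT.nd (nat_lit 390) (nat_lit 0) (nat_lit 0) (XT.nd (nat_lit 156) (nat_lit 0) (nat_lit 0) (XT.nd (nat_lit 78) (nat_lit 76) (nat_lit 0) (XT.lf (nat_lit 0) (nat_lit 40218325529) (nat_lit 152) (nat_lit 2960856211) (nat_lit 0) (nat_lit 39683316045) (nat_lit 3) (nat_lit 5) (nat_lit 5) (nat_lit 4) (nat_lit 3) (nat_lit 4) (nat_lit 324) (nat_lit 199) (nat_lit 197)) (XT.lf (nat_lit 0) (nat_lit 3221027862) (nat_lit 76) (nat_lit 42230343371) (nat_lit 76) (nat_lit 41446781282) (nat_lit 2) (nat_lit 4) (nat_lit 3) (nat_lit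 5) (nat_lit 3) (nat_lit 4) (nat_lit 325) (nat_lit 199) (nat_lit 196))) (XT.nd (nat_lit 78) (nat_lit 0) (nat_lit 0) (XT.lf (nat_lit 0) (nat_lit 9579354893) (nat_lit 76) (nat_lit 41289449038) (nat_lit 76) (nat_lit 40269170182) (nat_lit 2) (nat_lit 4) (nat_lit 3) (nat_lit 5) (nat_lit 3) (nat_lit 4) (nat_lit 326) (nat_lit 199) (nat_lit 195)) (XT.nd (nat_lit 78) (nat_lit 0) (nat_lit 0) (XT.lf (nat_lit 0) (nat_lit 16070336910) (nat_lit 76) (nat_lit 40384157360) (nat_lit 76) (nat_lit 39138433963) (nat_lit 2) (nat_lit 4) (nat_lit 3) (nat_lit 5) (nat_lit 3) (nat_lit 4) (nat_lit 327) (nat_lit 199) (nat_lit 194)) (XT.lf (nat_lit 0) (nat_lit 22709428633) (nat_lit 76) (nat_lit 39512312879) (nat_lit 76) (nat_lit 38051880396) (nat_lit 2) (nat_lit 4) (nat_lit 3) (nat_lit 5) (nat_lit 3) (nat_lit 4) (nat_lit 328) (nat_lit 199) (nat_lit 193))))) (XT.nd (nat_lit 234) (nat_lit 0) (nat_lit 0) (XT.nd (nat_lit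 78) (nat_lit 0) (nat_lit 0) (XT.lf (nat_lit 0) (nat_lit 29512437423) (nat_lit 76) (nat_lit 38671839776) (nat_lit 76) (nat_lit 37006922449) (nat_lit 2) (nat_lit 4) (nat_lit 3) (nat_lit 5) (nat_lit 3) (nat_lit 4) (nat_lit 329) (nat_lit 199) (nat_lit 192)) (XT.nd (nat_lit 78) (nat_lit 0) (nat_lit 0) (XT.lf (nat_lit 0) (nat_lit 36495560919) (nat_lit 76) (nat_lit 37860736924) (nat_lit 76) (nat_lit 36001072127) (nat_lit 2) (nat_lit 4) (nat_lit 3) (nat_lit 5) (nat_lit 3) (nat_lit 4) (nat_lit 330) (nat_lit 199) (nat_lit 191)) (XT.lf (nat_lit 0) (nat_lit 43675425607) (nat_lit 76) (nat_lit 37077073126) (nat_lit 76) (nat_lit 35031934548) (nat_lit 2) (nat_lit 4) (nat_lit 3) (nat_lit 5) (nat_lit 3) (nat_lit 4) (nat_lit 331) (nat_lit 199) (nat_lit 190)))) (XT.nd (nat_lit 78) (nat_lit 0) (nat_lit 0) (XT.lf (nat_lit 0) (nat_lit 51069126402) (nat_lit 76) (nat_lit 36318982515) (nat_lit 76) (nat_lit 34097202241)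 (nat_lit 2) (nat_lit 4) (nat_lit 3) (nat_lit 5) (nat_lit 3) (nat_lit 4) (nat_lit 332) (nat_lit 199) (nat_lit 189)) (XT.nd (nat_lit 156) (nat_lit 0) (nat_lit 0) (XT.lf (nat_lit 0) (nat_lit 58694267354) (nat_lit 76) (nat_lit 35584660115) (nat_lit 76) (nat_lit 33194649653) (nat_lit 2) (nat_lit 4) (nat_lit 3) (nat_lit 5) (nat_lit 3) (nat_lit 4) (nat_lit 333) (nat_lit 199) (nat_lit 188)) (XT.lf (nat_lit 0) (nat_lit 74712084392) (nat_lit 76) (nat_lit 34180378825) (nat_lit 76) (nat_lit 31477559400) (nat_lit 2) (nat_lit 4) (nat_lit 3) (nat_lit 5) (nat_lit 3) (nat_lit 4) (nat_lit 335) (nat_lit 199) (nat_lit 186)))))) (XT.nd (nat_lit 390) (nat_lit 76) (nat_lit 0) (XT.nd (nat_lit 156) (nat_lit 0) (nat_lit 0) (XT.nd (nat_lit 78) (nat_lit 0) (nat_lit 0) (XT.lf (nat_lit 0) (nat_lit 10529984734) (nat_lit 152) (nat_lit 13229825377) (nat_lit 0) (nat_lit 10529984734) (nat_lit 3) (nat_lit 5) (nat_lit 5) (nat_lit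 4) (nat_lit 3) (nat_lit 4) (nat_lit 320) (nat_lit 200) (nat_lit 200)) (XT.lf (nat_lit 0) (nat_lit 25702983524) (nat_lit 152) (nat_lit 20771136222) (nat_lit 0) (nat_lit 25415252814) (nat_lit 3) (nat_lit 5) (nat_lit 5) (nat_lit 4) (nat_lit 3) (nat_lit 4) (nat_lit 321) (nat_lit 200) (nat_lit 199))) (XT.nd (nat_lit 78) (nat_lit 0) (nat_lit 0) (XT.lf (nat_lit 0) (nat_lit 30455584959) (nat_lit 152) (nat_lit 15018988113) (nat_lit 0) (nat_lit 29893825002) (nat_lit 3) (nat_lit 5) (nat_lit 5) (nat_lit 4) (nat_lit 3) (nat_lit 4) (nat_lit 322) (nat_lit 200) (nat_lit 198)) (XT.nd (nat_lit 78) (nat_lit 0) (nat_lit 0) (XT.lf (nat_lit 0) (nat_lit 35329089492) (nat_lit 152) (nat_lit 9189510838) (nat_lit 0) (nat_lit 34506349299) (nat_lit 3) (nat_lit 5) (nat_lit 5) (nat_lit 4) (nat_lit 3) (nat_lit 4) (nat_lit 323) (nat_lit 200) (nat_lit 197)) (XT.lf (nat_lit 0) (nat_lit 40335100706) (nat_lit 152) (nat_lit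 3268824688) (nat_lit 0) (nat_lit 39263807906) (nat_lit 3) (nat_lit 5) (nat_lit 5) (nat_lit 4) (nat_lit 3) (nat_lit 4) (nat_lit 324) (nat_lit 200) (nat_lit 196))))) (XT.nd (nat_lit 234) (nat_lit 0) (nat_lit 0) (XT.nd (nat_lit 78) (nat_lit 0) (nat_lit 0) (XT.lf (nat_lit 0) (nat_lit 2812040241) (nat_lit 76) (nat_lit 42700528483) (nat_lit 76) (nat_lit 41392518916) (nat_lit 2) (nat_lit 4) (nat_lit 3) (nat_lit 5) (nat_lit 3) (nat_lit 4) (nat_lit 325) (nat_lit 200) (nat_lit 195)) (XT.nd (nat_lit 78) (nat_lit 0) (nat_lit 0) (XT.lf (nat_lit 0) (nat_lit 9079995874) (nat_lit 76) (nat_lit 41799949941) (nat_lit 76) (nat_lit 40266495834) (nat_lit 2) (nat_lit 4) (nat_lit 3) (nat_lit 5) (nat_lit 3) (nat_lit 4) (nat_lit 326) (nat_lit 200) (nat_lit 194)) (XT.lf (nat_lit 0) (nat_lit 15484909894) (nat_lit 76) (nat_lit 40933054253) (nat_lit 76) (nat_lit 39184891061) (nat_lit 2) (nat_lit 4) (nat_lit 3) (nat_lit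 5) (nat_lit 3) (nat_lit 4) (nat_lit 327) (nat_lit 200) (nat_lit 193)))) (XT.nd (nat_lit 78) (nat_lit 0) (nat_lit 0) (XT.lf (nat_lit 0) (nat_lit 22042032095) (nat_lit 76) (nat_lit 40097777383) (nat_lit 76) (nat_lit 38145129347) (nat_lit 2) (nat_lit 4) (nat_lit 3) (nat_lit 5) (nat_lit 3) (nat_lit 4) (nat_lit 328) (nat_lit 200) (nat_lit 192)) (XT.nd (nat_lit 78) (nat_lit 0) (nat_lit 0) (XT.lf (nat_lit 0) (nat_lit 28766974674) (nat_lit 76) (nat_lit 39292130576) (nat_lit 76) (nat_lit 37144735069) (nat_lit 2) (nat_lit 4) (nat_lit 3) (nat_lit 5) (nat_lit 3) (nat_lit 4) (nat_lit 329) (nat_lit 200) (nat_lit 191)) (XT.lf (nat_lit 0) (nat_lit 35675749398) (nat_lit 76) (nat_lit 38514195625) (nat_lit 76) (nat_lit 36181326337) (nat_lit 2) (nat_lit 4) (nat_lit 3) (nat_lit 5) (nat_lit 3) (nat_lit 4) (nat_lit 330) (nat_lit 200) (nat_lit 190))))))) (XT.nd (nat_lit 37050) (nat_lit 0) (nat_lit 0) (XT.nd (nat_lit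 36582) (nat_lit 0) (nat_lit 76) (XT.nd (nat_lit 156) (nat_lit 0) (nat_lit 0) (XT.nd (nat_lit 78) (nat_lit 0) (nat_lit 0) (XT.lf (nat_lit 0) (nat_lit 42784805731) (nat_lit 76) (nat_lit 37762120303) (nat_lit 76) (nat_lit 35252609319) (nat_lit 2) (nat_lit 4) (nat_lit 3) (nat_lit 5) (nat_lit 3) (nat_lit 4) (nat_lit 331) (nat_lit 200) (nat_lit 189)) (XT.lf (nat_lit 0) (nat_lit 50111069997) (nat_lit 76) (nat_lit 37034113956) (nat_lit 76) (nat_lit 34356372785) (nat_lit 2) (nat_lit 4) (nat_lit 3) (nat_lit 5) (nat_lit 3) (nat_lit 4) (nat_lit 332) (nat_lit 200) (nat_lit 188))) (XT.nd (nat_lit 156) (nat_lit 0) (nat_lit 0) (XT.lf (nat_lit 0) (nat_lit 57671985684) (nat_lit 76) (nat_lit 36328443236) (nat_lit 76) (nat_lit 33490482839) (nat_lit 2) (nat_lit 4) (nat_lit 3) (nat_lit 5) (nat_lit 3) (nat_lit 4) (nat_lit 333) (nat_lit 200) (nat_lit 187)) (XT.nd (nat_lit 36192) (nat_lit 0) (nat_lit 76) (XT.lf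 (nat_lit 0) (nat_lit 73570381594) (nat_lit 76) (nat_lit 34977437178) (nat_lit 76) (nat_lit 31841563482) (nat_lit 2) (nat_lit 4) (nat_lit 3) (nat_lit 5) (nat_lit 3) (nat_lit 4) (nat_lit 335) (nat_lit 200) (nat_lit 185)) (XT.lf (nat_lit 0) (nat_lit 6213375659) (nat_lit 152) (nat_lit 18790546531) (nat_lit 0) (nat_lit 6213375659) (nat_lit 3) (nat_lit 5) (nat_lit 5) (nat_lit 4) (nat_lit 3) (nat_lit 4) (nat_lit 318) (nat_lit 201) (nat_lit 201))))) (XT.nd (nat_lit 234) (nat_lit 0) (nat_lit 0) (XT.nd (nat_lit 78) (nat_lit 0) (nat_lit 0) (XT.lf (nat_lit 0) (nat_lit 16817605245) (nat_lit 152) (nat_lit 32098075792) (nat_lit 0) (nat_lit 16515487999) (nat_lit 3) (nat_lit 5) (nat_lit 5) (nat_lit 4) (nat_lit 3) (nat_lit 4) (nat_lit 319) (nat_lit 201) (nat_lit 200)) (XT.nd (nat_lit 78) (nat_lit 0) (nat_lit 0) (XT.lf (nat_lit 0) (nat_lit 21299310379) (nat_lit 152) (nat_lit 26572739416) (nat_lit 0) (nat_lit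 20709462423) (nat_lit 3) (nat_lit 5) (nat_lit 5) (nat_lit 4) (nat_lit 3) (nat_lit 4) (nat_lit 320) (nat_lit 201) (nat_lit 199)) (XT.lf (nat_lit 0) (nat_lit 25882537447) (nat_lit 152) (nat_lit 20991928372) (nat_lit 0) (nat_lit 25018660244) (nat_lit 3) (nat_lit 5) (nat_lit 5) (nat_lit 4) (nat_lit 3) (nat_lit 4) (nat_lit 321) (nat_lit 201) (nat_lit 198)))) (XT.nd (nat_lit 78) (nat_lit 0) (nat_lit 0) (XT.lf (nat_lit 0) (nat_lit 30578198895) (nat_lit 152) (nat_lit 15342355014) (nat_lit 0) (nat_lit 29453341456) (nat_lit 3) (nat_lit 5) (nat_lit 5) (nat_lit 4) (nat_lit 3) (nat_lit 4) (nat_lit 322) (nat_lit 201) (nat_lit 197)) (XT.nd (nat_lit 78) (nat_lit 0) (nat_lit 0) (XT.lf (nat_lit 0) (nat_lit 35397474869) (nat_lit 152) (nat_lit 9610567978) (nat_lit 0) (nat_lit 34024064824) (nat_lit 3) (nat_lit 5) (nat_lit 5) (nat_lit 4) (nat_lit 3) (nat_lit 4) (nat_lit 323) (nat_lit 201) (nat_lit 196)) (XT.lf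 (nat_lit 0) (nat_lit 40351839835) (nat_lit 152) (nat_lit 3782920150) (nat_lit 0) (nat_lit 38741713023) (nat_lit 3) (nat_lit 5) (nat_lit 5) (nat_lit 4) (nat_lit 3) (nat_lit 4) (nat_lit 324) (nat_lit 201) (nat_lit 195)))))) (XT.nd (nat_lit 390) (nat_lit 0) (nat_lit 0) (XT.nd (nat_lit 156) (nat_lit 0) (nat_lit 0) (XT.nd (nat_lit 78) (nat_lit 0) (nat_lit 0) (XT.lf (nat_lit 0) (nat_lit 2197341874) (nat_lit 76) (nat_lit 43276870221) (nat_lit 76) (nat_lit 41441298869) (nat_lit 2) (nat_lit 4) (nat_lit 3) (nat_lit 5) (nat_lit 3) (nat_lit 4) (nat_lit 325) (nat_lit 201) (nat_lit 194)) (XT.lf (nat_lit 0) (nat_lit 8379229509) (nat_lit 76) (nat_lit 42414687670) (nat_lit 76) (nat_lit 40364407232) (nat_lit 2) (nat_lit 4) (nat_lit 3) (nat_lit 5) (nat_lit 3) (nat_lit 4) (nat_lit 326) (nat_lit 201) (nat_lit 193))) (XT.nd (nat_lit 78) (nat_lit 0) (nat_lit 0) (XT.lf (nat_lit 0) (nat_lit 14702174007) (nat_lit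 76) (nat_lit 41584359593) (nat_lit 76) (nat_lit 39329594311) (nat_lit 2) (nat_lit 4) (nat_lit 3) (nat_lit 5) (nat_lit 3) (nat_lit 4) (nat_lit 327) (nat_lit 201) (nat_lit 192)) (XT.nd (nat_lit 78) (nat_lit 0) (nat_lit 0) (XT.lf (nat_lit 0) (nat_lit 21181229997) (nat_lit 76) (nat_lit 40783909019) (nat_lit 76) (nat_lit 38334396267) (nat_lit 2) (nat_lit 4) (nat_lit 3) (nat_lit 5) (nat_lit 3) (nat_lit 4) (nat_lit 328) (nat_lit 201) (nat_lit 191)) (XT.lf (nat_lit 0) (nat_lit 27831823804) (nat_lit 76) (nat_lit 40011430112) (nat_lit 76) (nat_lit 37376443579) (nat_lit 2) (nat_lit 4) (nat_lit 3) (nat_lit 5) (nat_lit 3) (nat_lit 4) (nat_lit 329) (nat_lit 201) (nat_lit 190))))) (XT.nd (nat_lit 234) (nat_lit 0) (nat_lit 0) (XT.nd (nat_lit 78) (nat_lit 0) (nat_lit 0) (XT.lf (nat_lit 0) (nat_lit 34669790173) (nat_lit 76) (nat_lit 39265083638) (nat_lit 76) (nat_lit 36453455408) (nat_lit 2) (nat_lit 4) (nat_lit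 3) (nat_lit 5) (nat_lit 3) (nat_lit 4) (nat_lit 330) (nat_lit 201) (nat_lit 189)) (XT.nd (nat_lit 78) (nat_lit 0) (nat_lit 0) (XT.lf (nat_lit 0) (nat_lit 41711409978) (nat_lit 76) (nat_lit 38543092580) (nat_lit 76) (nat_lit 35563234163) (nat_lit 2) (nat_lit 4) (nat_lit 3) (nat_lit 5) (nat_lit 3) (nat_lit 4) (nat_lit 331) (nat_lit 201) (nat_lit 188)) (XT.lf (nat_lit 0) (nat_lit 48973448979) (nat_lit 76) (nat_lit 37843737913) (nat_lit 76) (nat_lit 34703660270) (nat_lit 2) (nat_lit 4) (nat_lit 3) (nat_lit 5) (nat_lit 3) (nat_lit 4) (nat_lit 332) (nat_lit 201) (nat_lit 187)))) (XT.nd (nat_lit 156) (nat_lit 0) (nat_lit 0) (XT.lf (nat_lit 0) (nat_lit 56473197747) (nat_lit 76) (nat_lit 37165354506) (nat_lit 76) (nat_lit 33872687125) (nat_lit 2) (nat_lit 4) (nat_lit 3) (nat_lit 5) (nat_lit 3) (nat_lit 4) (nat_lit 333) (nat_lit 201) (nat_lit 186)) (XT.nd (nat_lit 36036) (nat_lit 0) (nat_lit 76) (XT.lf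 (nat_lit 0) (nat_lit 72257859249) (nat_lit 76) (nat_lit 35865086765) (nat_lit 76) (nat_lit 32288692432) (nat_lit 2) (nat_lit 4) (nat_lit 3) (nat_lit 5) (nat_lit 3) (nat_lit 4) (nat_lit 335) (nat_lit 201) (nat_lit 184)) (XT.lf (nat_lit 0) (nat_lit 2131202435) (nat_lit 152) (nat_lit 24173819785) (nat_lit 0) (nat_lit 2131202435) (nat_lit 3) (nat_lit 5) (nat_lit 5) (nat_lit 4) (nat_lit 3) (nat_lit 4) (nat_lit 316) (nat_lit 202) (nat_lit 202))))))))
noncomputable def xc2 : XT := (XT.nd (nat_lit 37596) (nat_lit 0) (nat_lit 0) (XT.nd (nat_lit 858) (nat_lit 0) (nat_lit 0) (XT.nd (nat_lit 390) (nat_lit 76) (nat_lit 0) (XT.nd (nat_lit 156) (nat_lit 0) (nat_lit 0) (XT.nd (nat_lit 78) (nat_lit 0) (nat_lit 0) (XT.lf (nat_lit 0) (nat_lit 8433517294) (nat_lit 152) (nat_lit 43034846030) (nat_lit 0) (nat_lit 8116294186) (nat_lit 3) (nat_lit 5) (nat_lit 5) (nat_lit 4) (nat_lit 3) (nat_lit 4) (nat_lit 317)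 (nat_lit 202) (nat_lit 201)) (XT.lf (nat_lit 0) (nat_lit 12678059274) (nat_lit 152) (nat_lit 37699836158) (nat_lit 0) (nat_lit 12058718920) (nat_lit 3) (nat_lit 5) (nat_lit 5) (nat_lit 4) (nat_lit 3) (nat_lit 4) (nat_lit 318) (nat_lit 202) (nat_lit 200))) (XT.nd (nat_lit 78) (nat_lit 0) (nat_lit 0) (XT.lf (nat_lit 0) (nat_lit 17006136864) (nat_lit 152) (nat_lit 32329907550) (nat_lit 0) (nat_lit 16099065801) (nat_lit 3) (nat_lit 5) (nat_lit 5) (nat_lit 4) (nat_lit 3) (nat_lit 4) (nat_lit 319) (nat_lit 202) (nat_lit 199)) (XT.nd (nat_lit 78) (nat_lit 0) (nat_lit 0) (XT.lf (nat_lit 0) (nat_lit 21428055012) (nat_lit 152) (nat_lit 26912274662) (nat_lit 0) (nat_lit 20246954700) (nat_lit 3) (nat_lit 5) (nat_lit 5) (nat_lit 4) (nat_lit 3) (nat_lit 4) (nat_lit 320) (nat_lit 202) (nat_lit 198)) (XT.lf (nat_lit 0) (nat_lit 25954342093) (nat_lit 152) (nat_lit 21434038369) (nat_lit 0) (nat_lit 24512261546)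 (nat_lit 3) (nat_lit 5) (nat_lit 5) (nat_lit 4) (nat_lit 3) (nat_lit 4) (nat_lit 321) (nat_lit 202) (nat_lit 197))))) (XT.nd (nat_lit 234) (nat_lit 76) (nat_lit 0) (XT.nd (nat_lit 78) (nat_lit 0) (nat_lit 0) (XT.lf (nat_lit 0) (nat_lit 30595774981) (nat_lit 152) (nat_lit 15882155249) (nat_lit 0) (nat_lit 28905141829) (nat_lit 3) (nat_lit 5) (nat_lit 5) (nat_lit 4) (nat_lit 3) (nat_lit 4) (nat_lit 322) (nat_lit 202) (nat_lit 196)) (XT.nd (nat_lit 78) (nat_lit 0) (nat_lit 0) (XT.lf (nat_lit 0) (nat_lit 35363404708) (nat_lit 152) (nat_lit 10243406535) (nat_lit 0) (nat_lit 33436054788) (nat_lit 3) (nat_lit 5) (nat_lit 5) (nat_lit 4) (nat_lit 3) (nat_lit 4) (nat_lit 323) (nat_lit 202) (nat_lit 195)) (XT.lf (nat_lit 0) (nat_lit 40268582773) (nat_lit 152) (nat_lit 4504366634) (nat_lit 0) (nat_lit 38115788312) (nat_lit 3) (nat_lit 5) (nat_lit 5) (nat_lit 4) (nat_lit 3) (nat_lit 4) (nat_lit 324)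 (nat_lit 202) (nat_lit 194)))) (XT.nd (nat_lit 78) (nat_lit 0) (nat_lit 0) (XT.lf (nat_lit 0) (nat_lit 1375469193) (nat_lit 76) (nat_lit 43960740828) (nat_lit 76) (nat_lit 41593237282) (nat_lit 2) (nat_lit 4) (nat_lit 3) (nat_lit 5) (nat_lit 3) (nat_lit 4) (nat_lit 325) (nat_lit 202) (nat_lit 193)) (XT.nd (nat_lit 78) (nat_lit 0) (nat_lit 0) (XT.lf (nat_lit 0) (nat_lit 7475387307) (nat_lit 76) (nat_lit 43135125888) (nat_lit 76) (nat_lit 40563137498) (nat_lit 2) (nat_lit 4) (nat_lit 3) (nat_lit 5) (nat_lit 3) (nat_lit 4) (nat_lit 326) (nat_lit 202) (nat_lit 192)) (XT.lf (nat_lit 0) (nat_lit 13720265594) (nat_lit 76) (nat_lit 42339624107) (nat_lit 76) (nat_lit 39572888246) (nat_lit 2) (nat_lit 4) (nat_lit 3) (nat_lit 5) (nat_lit 3) (nat_lit 4) (nat_lit 327) (nat_lit 202) (nat_lit 191)))))) (XT.nd (nat_lit 390) (nat_lit 0) (nat_lit 0) (XT.nd (nat_lit 156) (nat_lit 0) (nat_lit 0) (XT.nd (nat_lit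 78) (nat_lit 0) (nat_lit 0) (XT.lf (nat_lit 0) (nat_lit 20124972811) (nat_lit 76) (nat_lit 41572341433) (nat_lit 76) (nat_lit 38620131792) (nat_lit 2) (nat_lit 4) (nat_lit 3) (nat_lit 5) (nat_lit 3) (nat_lit 4) (nat_lit 328) (nat_lit 202) (nat_lit 190)) (XT.lf (nat_lit 0) (nat_lit 26704758263) (nat_lit 76) (nat_lit 40831451003) (nat_lit 76) (nat_lit 37702599665) (nat_lit 2) (nat_lit 4) (nat_lit 3) (nat_lit 5) (nat_lit 3) (nat_lit 4) (nat_lit 329) (nat_lit 202) (nat_lit 189))) (XT.nd (nat_lit 78) (nat_lit 0) (nat_lit 0) (XT.lf (nat_lit 0) (nat_lit 33475288104) (nat_lit 76) (nat_lit 40115188792) (nat_lit 76) (nat_lit 36818107268) (nat_lit 2) (nat_lit 4) (nat_lit 3) (nat_lit 5) (nat_lit 3) (nat_lit 4) (nat_lit 330) (nat_lit 202) (nat_lit 188)) (XT.nd (nat_lit 78) (nat_lit 0) (nat_lit 0) (XT.lf (nat_lit 0) (nat_lit 40452682643) (nat_lit 76) (nat_lit 39421849414) (nat_lit 76) (nat_lit 35964548664)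 (nat_lit 2) (nat_lit 4) (nat_lit 3) (nat_lit 5) (nat_lit 3) (nat_lit 4) (nat_lit 331) (nat_lit 202) (nat_lit 187)) (XT.lf (nat_lit 0) (nat_lit 47653554726) (nat_lit 76) (nat_lit 38749782061) (nat_lit 76) (nat_lit 35139891572) (nat_lit 2) (nat_lit 4) (nat_lit 3) (nat_lit 5) (nat_lit 3) (nat_lit 4) (nat_lit 332) (nat_lit 202) (nat_lit 186))))) (XT.nd (nat_lit 36114) (nat_lit 0) (nat_lit 76) (XT.nd (nat_lit 156) (nat_lit 0) (nat_lit 0) (XT.lf (nat_lit 0) (nat_lit 55095049285) (nat_lit 76) (nat_lit 38097386573) (nat_lit 76) (nat_lit 34342172523) (nat_lit 2) (nat_lit 4) (nat_lit 3) (nat_lit 5) (nat_lit 3) (nat_lit 4) (nat_lit 333) (nat_lit 202) (nat_lit 185)) (XT.nd (nat_lit 35880) (nat_lit 0) (nat_lit 228) (XT.lf (nat_lit 0) (nat_lit 70771392304) (nat_lit 76) (nat_lit 36845441038) (nat_lit 76) (nat_lit 32820010843) (nat_lit 2) (nat_lit 4) (nat_lit 3) (nat_lit 5) (nat_lit 3) (nat_lit 4) (nat_lit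 335) (nat_lit 202) (nat_lit 183)) (XT.lf (nat_lit 0) (nat_lit 22458644317) (nat_lit 76) (nat_lit 1729550375) (nat_lit 76) (nat_lit 1729550375) (nat_lit 5) (nat_lit 4) (nat_lit 6) (nat_lit 5) (nat_lit 6) (nat_lit 4) (nat_lit 314) (nat_lit 203) (nat_lit 203)))) (XT.nd (nat_lit 78) (nat_lit 0) (nat_lit 0) (XT.lf (nat_lit 0) (nat_lit 487875051) (nat_lit 152) (nat_lit 53650866289) (nat_lit 0) (nat_lit 154790787) (nat_lit 3) (nat_lit 5) (nat_lit 5) (nat_lit 4) (nat_lit 3) (nat_lit 4) (nat_lit 315) (nat_lit 203) (nat_lit 202)) (XT.nd (nat_lit 78) (nat_lit 0) (nat_lit 0) (XT.lf (nat_lit 0) (nat_lit 4526278224) (nat_lit 152) (nat_lit 48472319821) (nat_lit 0) (nat_lit 3875970853) (nat_lit 3) (nat_lit 5) (nat_lit 5) (nat_lit 4) (nat_lit 3) (nat_lit 4) (nat_lit 316) (nat_lit 203) (nat_lit 201)) (XT.lf (nat_lit 0) (nat_lit 8631475494) (nat_lit 152) (nat_lit 43278269376) (nat_lit 0) (nat_lit 7679050877)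 (nat_lit 3) (nat_lit 5) (nat_lit 5) (nat_lit 4) (nat_lit 3) (nat_lit 4) (nat_lit 317) (nat_lit 203) (nat_lit 200))))))) (XT.nd (nat_lit 858) (nat_lit 0) (nat_lit 0) (XT.nd (nat_lit 390) (nat_lit 76) (nat_lit 0) (XT.nd (nat_lit 156) (nat_lit 0) (nat_lit 0) (XT.nd (nat_lit 78) (nat_lit 0) (nat_lit 0) (XT.lf (nat_lit 0) (nat_lit 12813241138) (nat_lit 152) (nat_lit 38056348166) (nat_lit 0) (nat_lit 11573085811) (nat_lit 3) (nat_lit 5) (nat_lit 5) (nat_lit 4) (nat_lit 3) (nat_lit 4) (nat_lit 318) (nat_lit 203) (nat_lit 199)) (XT.lf (nat_lit 0) (nat_lit 17081531742) (nat_lit 152) (nat_lit 32794123046) (nat_lit 0) (nat_lit 15567347167) (nat_lit 3) (nat_lit 5) (nat_lit 5) (nat_lit 4) (nat_lit 3) (nat_lit 4) (nat_lit 319) (nat_lit 203) (nat_lit 198))) (XT.nd (nat_lit 78) (nat_lit 0) (nat_lit 0) (XT.lf (nat_lit 0) (nat_lit 21446509902) (nat_lit 152) (nat_lit 27479064909) (nat_lit 0) (nat_lit 19671345092)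 (nat_lit 3) (nat_lit 5) (nat_lit 5) (nat_lit 4) (nat_lit 3) (nat_lit 4) (nat_lit 320) (nat_lit 203) (nat_lit 197)) (XT.nd (nat_lit 78) (nat_lit 0) (nat_lit 0) (XT.lf (nat_lit 0) (nat_lit 25918568424) (nat_lit 152) (nat_lit 22098518854) (nat_lit 0) (nat_lit 23894851008) (nat_lit 3) (nat_lit 5) (nat_lit 5) (nat_lit 4) (nat_lit 3) (nat_lit 4) (nat_lit 321) (nat_lit 203) (nat_lit 196)) (XT.lf (nat_lit 0) (nat_lit 30508355066) (nat_lit 152) (nat_lit 16639674057) (nat_lit 0) (nat_lit 28247920882) (nat_lit 3) (nat_lit 5) (nat_lit 5) (nat_lit 4) (nat_lit 3) (nat_lit 4) (nat_lit 322) (nat_lit 203) (nat_lit 195))))) (XT.nd (nat_lit 234) (nat_lit 0) (nat_lit 0) (XT.nd (nat_lit 78) (nat_lit 76) (nat_lit 0) (XT.lf (nat_lit 0) (nat_lit 35226797891) (nat_lit 152) (nat_lit 11089533269) (nat_lit 0) (nat_lit 32740919167) (nat_lit 3) (nat_lit 5) (nat_lit 5) (nat_lit 4) (nat_lit 3) (nat_lit 4) (nat_lit 323)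 (nat_lit 203) (nat_lit 194)) (XT.nd (nat_lit 78) (nat_lit 76) (nat_lit 0) (XT.lf (nat_lit 0) (nat_lit 40085131287) (nat_lit 152) (nat_lit 5434881869) (nat_lit 0) (nat_lit 37384543477) (nat_lit 3) (nat_lit 5) (nat_lit 5) (nat_lit 4) (nat_lit 3) (nat_lit 4) (nat_lit 324) (nat_lit 203) (nat_lit 193)) (XT.lf (nat_lit 0) (nat_lit 344465358) (nat_lit 76) (nat_lit 44753768567) (nat_lit 76) (nat_lit 41848695914) (nat_lit 2) (nat_lit 4) (nat_lit 3) (nat_lit 5) (nat_lit 3) (nat_lit 4) (nat_lit 325) (nat_lit 203) (nat_lit 192)))) (XT.nd (nat_lit 78) (nat_lit 0) (nat_lit 0) (XT.lf (nat_lit 0) (nat_lit 6366317261) (nat_lit 76) (nat_lit 43962979922) (nat_lit 76) (nat_lit 40863159799) (nat_lit 2) (nat_lit 4) (nat_lit 3) (nat_lit 5) (nat_lit 3) (nat_lit 4) (nat_lit 326) (nat_lit 203) (nat_lit 191)) (XT.nd (nat_lit 78) (nat_lit 0) (nat_lit 0) (XT.lf (nat_lit 0) (nat_lit 12536846776) (nat_lit 76) (nat_lit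 43200646042) (nat_lit 76) (nat_lit 39915352137) (nat_lit 2) (nat_lit 4) (nat_lit 3) (nat_lit 5) (nat_lit 3) (nat_lit 4) (nat_lit 327) (nat_lit 203) (nat_lit 190)) (XT.lf (nat_lit 0) (nat_lit 18870745639) (nat_lit 76) (nat_lit 42464951845) (nat_lit 76) (nat_lit 39003016244) (nat_lit 2) (nat_lit 4) (nat_lit 3) (nat_lit 5) (nat_lit 3) (nat_lit 4) (nat_lit 328) (nat_lit 203) (nat_lit 189)))))) (XT.nd (nat_lit 468) (nat_lit 0) (nat_lit 0) (XT.nd (nat_lit 156) (nat_lit 0) (nat_lit 0) (XT.nd (nat_lit 78) (nat_lit 0) (nat_lit 0) (XT.lf (nat_lit 0) (nat_lit 25383094562) (nat_lit 76) (nat_lit 41754145679) (nat_lit 76) (nat_lit 38123979891) (nat_lit 2) (nat_lit 4) (nat_lit 3) (nat_lit 5) (nat_lit 3) (nat_lit 4) (nat_lit 329) (nat_lit 203) (nat_lit 188)) (XT.lf (nat_lit 0) (nat_lit 32089399138) (nat_lit 76) (nat_lit 41066535148) (nat_lit 76) (nat_lit 37276150134) (nat_lit 2) (nat_lit 4) (nat_lit 3)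 (nat_lit 5) (nat_lit 3) (nat_lit 4) (nat_lit 330) (nat_lit 203) (nat_lit 187))) (XT.nd (nat_lit 78) (nat_lit 0) (nat_lit 0) (XT.lf (nat_lit 0) (nat_lit 39005626758) (nat_lit 76) (nat_lit 40400483084) (nat_lit 76) (nat_lit 36457508332) (nat_lit 2) (nat_lit 4) (nat_lit 3) (nat_lit 5) (nat_lit 3) (nat_lit 4) (nat_lit 331) (nat_lit 203) (nat_lit 186)) (XT.nd (nat_lit 78) (nat_lit 0) (nat_lit 0) (XT.lf (nat_lit 0) (nat_lit 46148244632) (nat_lit 76) (nat_lit 39754403649) (nat_lit 76) (nat_lit 35666105336) (nat_lit 2) (nat_lit 4) (nat_lit 3) (nat_lit 5) (nat_lit 3) (nat_lit 4) (nat_lit 332) (nat_lit 203) (nat_lit 185)) (XT.lf (nat_lit 0) (nat_lit 53534258992) (nat_lit 76) (nat_lit 39126758559) (nat_lit 76) (nat_lit 34900056854) (nat_lit 2) (nat_lit 4) (nat_lit 3) (nat_lit 5) (nat_lit 3) (nat_lit 4) (nat_lit 333) (nat_lit 203) (nat_lit 184))))) (XT.nd (nat_lit 35880) (nat_lit 0) (nat_lit 76) (XT.nd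 (nat_lit 35724) (nat_lit 0) (nat_lit 228) (XT.lf (nat_lit 0) (nat_lit 69107441551) (nat_lit 76) (nat_lit 37920834172) (nat_lit 76) (nat_lit 33436783758) (nat_lit 2) (nat_lit 4) (nat_lit 3) (nat_lit 5) (nat_lit 3) (nat_lit 4) (nat_lit 335) (nat_lit 203) (nat_lit 182)) (XT.nd (nat_lit 78) (nat_lit 0) (nat_lit 0) (XT.lf (nat_lit 0) (nat_lit 12848122281) (nat_lit 76) (nat_lit 5394598492) (nat_lit 76) (nat_lit 5394598492) (nat_lit 5) (nat_lit 4) (nat_lit 6) (nat_lit 5) (nat_lit 6) (nat_lit 4) (nat_lit 312) (nat_lit 204) (nat_lit 204)) (XT.lf (nat_lit 0) (nat_lit 35136529418) (nat_lit 76) (nat_lit 7361021844) (nat_lit 76) (nat_lit 7000791213) (nat_lit 5) (nat_lit 4) (nat_lit 6) (nat_lit 5) (nat_lit 6) (nat_lit 4) (nat_lit 313) (nat_lit 204) (nat_lit 203)))) (XT.nd (nat_lit 78) (nat_lit 152) (nat_lit 0) (XT.lf (nat_lit 0) (nat_lit 44792012558) (nat_lit 76) (nat_lit 3874467983) (nat_lit 76) (nat_lit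 3171160561) (nat_lit 5) (nat_lit 4) (nat_lit 6) (nat_lit 5) (nat_lit 6) (nat_lit 4) (nat_lit 314) (nat_lit 204) (nat_lit 202)) (XT.nd (nat_lit 78) (nat_lit 0) (nat_lit 0) (XT.lf (nat_lit 0) (nat_lit 388343493) (nat_lit 76) (nat_lit 310371145) (nat_lit 152) (nat_lit 53599073134) (nat_lit 3) (nat_lit 5) (nat_lit 4) (nat_lit 5) (nat_lit 5) (nat_lit 4) (nat_lit 315) (nat_lit 204) (nat_lit 201)) (XT.lf (nat_lit 0) (nat_lit 4668219182) (nat_lit 152) (nat_lit 48846657430) (nat_lit 0) (nat_lit 3366056089) (nat_lit 3) (nat_lit 5) (nat_lit 5) (nat_lit 4) (nat_lit 3) (nat_lit 4) (nat_lit 316) (nat_lit 204) (nat_lit 200))))))))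
noncomputable def xc3 : XT := (XT.nd (nat_lit 37284) (nat_lit 0) (nat_lit 0) (XT.nd (nat_lit 858) (nat_lit 0) (nat_lit 0) (XT.nd (nat_lit 390) (nat_lit 76) (nat_lit 0) (XT.nd (nat_lit 156) (nat_lit 0) (nat_lit 0) (XT.nd (nat_lit 78) (nat_lit 0) (nat_lit 0) (XT.lf (nat_lit 0) (nat_lit 8710640115) (nat_lit 152) (nat_lit 43765695647) (nat_lit 0) (nat_lit 7120746312) (nat_lit 3) (nat_lit 5) (nat_lit 5) (nat_lit 4) (nat_lit 3) (nat_lit 4) (nat_lit 317) (nat_lit 204) (nat_lit 199)) (XT.lf (nat_lit 0) (nat_lit 12832618773) (nat_lit 152) (nat_lit 38651477925) (nat_lit 0) (nat_lit 10968695722) (nat_lit 3) (nat_lit 5) (nat_lit 5) (nat_lit 4) (nat_lit 3) (nat_lit 4) (nat_lit 318) (nat_lit 204) (nat_lit 198))) (XT.nd (nat_lit 78) (nat_lit 0) (nat_lit 0) (XT.lf (nat_lit 0) (nat_lit 17043969390) (nat_lit 152) (nat_lit 33491827556) (nat_lit 0) (nat_lit 14919066103) (nat_lit 3) (nat_lit 5) (nat_lit 5) (nat_lit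 4) (nat_lit 3) (nat_lit 4) (nat_lit 319) (nat_lit 204) (nat_lit 197)) (XT.nd (nat_lit 78) (nat_lit 0) (nat_lit 0) (XT.lf (nat_lit 0) (nat_lit 21354718991) (nat_lit 152) (nat_lit 28274459657) (nat_lit 0) (nat_lit 18981263098) (nat_lit 3) (nat_lit 5) (nat_lit 5) (nat_lit 4) (nat_lit 3) (nat_lit 4) (nat_lit 320) (nat_lit 204) (nat_lit 196)) (XT.lf (nat_lit 0) (nat_lit 25775131265) (nat_lit 152) (nat_lit 22986951925) (nat_lit 0) (nat_lit 23164958606) (nat_lit 3) (nat_lit 5) (nat_lit 5) (nat_lit 4) (nat_lit 3) (nat_lit 4) (nat_lit 321) (nat_lit 204) (nat_lit 195))))) (XT.nd (nat_lit 234) (nat_lit 76) (nat_lit 0) (XT.nd (nat_lit 78) (nat_lit 0) (nat_lit 0) (XT.lf (nat_lit 0) (nat_lit 30315731005) (nat_lit 152) (nat_lit 17616715054) (nat_lit 0) (nat_lit 27480113805) (nat_lit 3) (nat_lit 5) (nat_lit 5) (nat_lit 4) (nat_lit 3) (nat_lit 4) (nat_lit 322) (nat_lit 204) (nat_lit 194)) (XT.nd (nat_lit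 78) (nat_lit 0) (nat_lit 0) (XT.lf (nat_lit 0) (nat_lit 34987329162) (nat_lit 152) (nat_lit 12150962767) (nat_lit 0) (nat_lit 31937002876) (nat_lit 3) (nat_lit 5) (nat_lit 5) (nat_lit 4) (nat_lit 3) (nat_lit 4) (nat_lit 323) (nat_lit 204) (nat_lit 193)) (XT.lf (nat_lit 0) (nat_lit 39801048588) (nat_lit 152) (nat_lit 6576681368) (nat_lit 0) (nat_lit 36546237459) (nat_lit 3) (nat_lit 5) (nat_lit 5) (nat_lit 4) (nat_lit 3) (nat_lit 4) (nat_lit 324) (nat_lit 204) (nat_lit 192)))) (XT.nd (nat_lit 78) (nat_lit 76) (nat_lit 0) (XT.lf (nat_lit 0) (nat_lit 44768350521) (nat_lit 152) (nat_lit 880598757) (nat_lit 0) (nat_lit 41318791921) (nat_lit 3) (nat_lit 5) (nat_lit 5) (nat_lit 4) (nat_lit 3) (nat_lit 4) (nat_lit 325) (nat_lit 204) (nat_lit 191)) (XT.nd (nat_lit 78) (nat_lit 0) (nat_lit 0) (XT.lf (nat_lit 0) (nat_lit 5049378730) (nat_lit 76) (nat_lit 44900220855) (nat_lit 76) (nat_lit 41265188474)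 (nat_lit 2) (nat_lit 4) (nat_lit 3) (nat_lit 5) (nat_lit 3) (nat_lit 4) (nat_lit 326) (nat_lit 204) (nat_lit 190)) (XT.lf (nat_lit 0) (nat_lit 11149099890) (nat_lit 76) (nat_lit 44169475452) (nat_lit 76) (nat_lit 40357801374) (nat_lit 2) (nat_lit 4) (nat_lit 3) (nat_lit 5) (nat_lit 3) (nat_lit 4) (nat_lit 327) (nat_lit 204) (nat_lit 189)))))) (XT.nd (nat_lit 390) (nat_lit 0) (nat_lit 0) (XT.nd (nat_lit 156) (nat_lit 0) (nat_lit 0) (XT.nd (nat_lit 78) (nat_lit 0) (nat_lit 0) (XT.lf (nat_lit 0) (nat_lit 17415562224) (nat_lit 76) (nat_lit 43463865519) (nat_lit 76) (nat_lit 39483961254) (nat_lit 2) (nat_lit 4) (nat_lit 3) (nat_lit 5) (nat_lit 3) (nat_lit 4) (nat_lit 328) (nat_lit 204) (nat_lit 188)) (XT.lf (nat_lit 0) (nat_lit 23863685882) (nat_lit 76) (nat_lit 42781711032) (nat_lit 76) (nat_lit 38641587542) (nat_lit 2) (nat_lit 4) (nat_lit 3) (nat_lit 5) (nat_lit 3) (nat_lit 4) (nat_lit 329)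 (nat_lit 204) (nat_lit 187))) (XT.nd (nat_lit 78) (nat_lit 0) (nat_lit 0) (XT.lf (nat_lit 0) (nat_lit 30508823539) (nat_lit 76) (nat_lit 42121387815) (nat_lit 76) (nat_lit 37828674586) (nat_lit 2) (nat_lit 4) (nat_lit 3) (nat_lit 5) (nat_lit 3) (nat_lit 4) (nat_lit 330) (nat_lit 204) (nat_lit 186)) (XT.nd (nat_lit 78) (nat_lit 0) (nat_lit 0) (XT.lf (nat_lit 0) (nat_lit 37366796951) (nat_lit 76) (nat_lit 41481323669) (nat_lit 76) (nat_lit 37043286880) (nat_lit 2) (nat_lit 4) (nat_lit 3) (nat_lit 5) (nat_lit 3) (nat_lit 4) (nat_lit 331) (nat_lit 204) (nat_lit 185)) (XT.lf (nat_lit 0) (nat_lit 44453934626) (nat_lit 76) (nat_lit 40859994633) (nat_lit 76) (nat_lit 36283554452) (nat_lit 2) (nat_lit 4) (nat_lit 3) (nat_lit 5) (nat_lit 3) (nat_lit 4) (nat_lit 332) (nat_lit 204) (nat_lit 184))))) (XT.nd (nat_lit 35802) (nat_lit 0) (nat_lit 228) (XT.nd (nat_lit 156) (nat_lit 0) (nat_lit 0) (XT.lf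 (nat_lit 0) (nat_lit 51787110702) (nat_lit 76) (nat_lit 40255921350) (nat_lit 76) (nat_lit 35547668415) (nat_lit 2) (nat_lit 4) (nat_lit 3) (nat_lit 5) (nat_lit 3) (nat_lit 4) (nat_lit 333) (nat_lit 204) (nat_lit 183)) (XT.nd (nat_lit 35568) (nat_lit 0) (nat_lit 228) (XT.lf (nat_lit 0) (nat_lit 67262045204) (nat_lit 76) (nat_lit 39093826629) (nat_lit 76) (nat_lit 34140479686) (nat_lit 2) (nat_lit 4) (nat_lit 3) (nat_lit 5) (nat_lit 3) (nat_lit 4) (nat_lit 335) (nat_lit 204) (nat_lit 181)) (XT.lf (nat_lit 0) (nat_lit 3754968982) (nat_lit 76) (nat_lit 8910197439) (nat_lit 76) (nat_lit 8910197439) (nat_lit 5) (nat_lit 4) (nat_lit 6) (nat_lit 5) (nat_lit 6) (nat_lit 4) (nat_lit 310) (nat_lit 205) (nat_lit 205)))) (XT.nd (nat_lit 78) (nat_lit 0) (nat_lit 0) (XT.lf (nat_lit 0) (nat_lit 16448681122) (nat_lit 76) (nat_lit 14545397885) (nat_lit 76) (nat_lit 14167155723) (nat_lit 5) (nat_lit 4) (nat_lit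 6) (nat_lit 5) (nat_lit 6) (nat_lit 4) (nat_lit 311) (nat_lit 205) (nat_lit 204)) (XT.nd (nat_lit 78) (nat_lit 0) (nat_lit 0) (XT.lf (nat_lit 0) (nat_lit 25564704681) (nat_lit 76) (nat_lit 11225332578) (nat_lit 76) (nat_lit 10486859785) (nat_lit 5) (nat_lit 4) (nat_lit 6) (nat_lit 5) (nat_lit 6) (nat_lit 4) (nat_lit 312) (nat_lit 205) (nat_lit 203)) (XT.lf (nat_lit 0) (nat_lit 34879713459) (nat_lit 76) (nat_lit 7852294042) (nat_lit 76) (nat_lit 6770744458) (nat_lit 5) (nat_lit 4) (nat_lit 6) (nat_lit 5) (nat_lit 6) (nat_lit 4) (nat_lit 313) (nat_lit 205) (nat_lit 202))))))) (XT.nd (nat_lit 858) (nat_lit 76) (nat_lit 0) (XT.nd (nat_lit 390) (nat_lit 0) (nat_lit 0) (XT.nd (nat_lit 156) (nat_lit 76) (nat_lit 0) (XT.nd (nat_lit 78) (nat_lit 76) (nat_lit 0) (XT.lf (nat_lit 0) (nat_lit 44415886050) (nat_lit 76) (nat_lit 4418251231) (nat_lit 76) (nat_lit 3009961845) (nat_lit 5) (nat_lit 4) (nat_lit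 6) (nat_lit 5) (nat_lit 6) (nat_lit 4) (nat_lit 314) (nat_lit 205) (nat_lit 201)) (XT.lf (nat_lit 0) (nat_lit 788744727) (nat_lit 152) (nat_lit 118318350) (nat_lit 76) (nat_lit 53399218122) (nat_lit 4) (nat_lit 5) (nat_lit 6) (nat_lit 5) (nat_lit 5) (nat_lit 4) (nat_lit 315) (nat_lit 205) (nat_lit 200))) (XT.nd (nat_lit 78) (nat_lit 0) (nat_lit 0) (XT.lf (nat_lit 0) (nat_lit 4688565699) (nat_lit 152) (nat_lit 49471543677) (nat_lit 0) (nat_lit 2731446495) (nat_lit 3) (nat_lit 5) (nat_lit 5) (nat_lit 4) (nat_lit 3) (nat_lit 4) (nat_lit 316) (nat_lit 205) (nat_lit 199)) (XT.nd (nat_lit 78) (nat_lit 0) (nat_lit 0) (XT.lf (nat_lit 0) (nat_lit 8671199645) (nat_lit 152) (nat_lit 44498285382) (nat_lit 0) (nat_lit 6440051194) (nat_lit 3) (nat_lit 5) (nat_lit 5) (nat_lit 4) (nat_lit 3) (nat_lit 4) (nat_lit 317) (nat_lit 205) (nat_lit 198)) (XT.lf (nat_lit 0) (nat_lit 12736238316) (nat_lit 152) (nat_lit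 39486642411) (nat_lit 0) (nat_lit 10244109629) (nat_lit 3) (nat_lit 5) (nat_lit 5) (nat_lit 4) (nat_lit 3) (nat_lit 4) (nat_lit 318) (nat_lit 205) (nat_lit 197))))) (XT.nd (nat_lit 234) (nat_lit 0) (nat_lit 0) (XT.nd (nat_lit 78) (nat_lit 0) (nat_lit 0) (XT.lf (nat_lit 0) (nat_lit 16893360373) (nat_lit 152) (nat_lit 34424682280) (nat_lit 0) (nat_lit 14152679081) (nat_lit 3) (nat_lit 5) (nat_lit 5) (nat_lit 4) (nat_lit 3) (nat_lit 4) (nat_lit 319) (nat_lit 205) (nat_lit 196)) (XT.nd (nat_lit 78) (nat_lit 0) (nat_lit 0) (XT.lf (nat_lit 0) (nat_lit 21152463727) (nat_lit 152) (nat_lit 29300352704) (nat_lit 0) (nat_lit 18175065667) (nat_lit 3) (nat_lit 5) (nat_lit 5) (nat_lit 4) (nat_lit 3) (nat_lit 4) (nat_lit 320) (nat_lit 205) (nat_lit 195)) (XT.lf (nat_lit 0) (nat_lit 25523689100) (nat_lit 152) (nat_lit 24101452897) (nat_lit 0) (nat_lit 22320846500) (nat_lit 3) (nat_lit 5) (nat_lit 5) (nat_lit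 4) (nat_lit 3) (nat_lit 4) (nat_lit 321) (nat_lit 205) (nat_lit 194)))) (XT.nd (nat_lit 78) (nat_lit 0) (nat_lit 0) (XT.lf (nat_lit 0) (nat_lit 30017444172) (nat_lit 152) (nat_lit 18815604528) (nat_lit 0) (nat_lit 26599892486) (nat_lit 3) (nat_lit 5) (nat_lit 5) (nat_lit 4) (nat_lit 3) (nat_lit 4) (nat_lit 322) (nat_lit 205) (nat_lit 193)) (XT.nd (nat_lit 78) (nat_lit 0) (nat_lit 0) (XT.lf (nat_lit 0) (nat_lit 34644428359) (nat_lit 152) (nat_lit 13430222242) (nat_lit 0) (nat_lit 31022391829) (nat_lit 3) (nat_lit 5) (nat_lit 5) (nat_lit 4) (nat_lit 3) (nat_lit 4) (nat_lit 323) (nat_lit 205) (nat_lit 192)) (XT.lf (nat_lit 0) (nat_lit 39415658290) (nat_lit 152) (nat_lit 7932483700) (nat_lit 0) (nat_lit 35598874289) (nat_lit 3) (nat_lit 5) (nat_lit 5) (nat_lit 4) (nat_lit 3) (nat_lit 4) (nat_lit 324) (nat_lit 205) (nat_lit 191)))))) (XT.nd (nat_lit 390) (nat_lit 0) (nat_lit 0) (XT.nd (nat_lit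 156) (nat_lit 0) (nat_lit 0) (XT.nd (nat_lit 78) (nat_lit 76) (nat_lit 0) (XT.lf (nat_lit 0) (nat_lit 44342494036) (nat_lit 152) (nat_lit 2309299051) (nat_lit 0) (nat_lit 40340236255) (nat_lit 3) (nat_lit 5) (nat_lit 5) (nat_lit 4) (nat_lit 3) (nat_lit 4) (nat_lit 325) (nat_lit 205) (nat_lit 190)) (XT.lf (nat_lit 0) (nat_lit 3521436145) (nat_lit 76) (nat_lit 45949080212) (nat_lit 76) (nat_lit 41770180735) (nat_lit 2) (nat_lit 4) (nat_lit 3) (nat_lit 5) (nat_lit 3) (nat_lit 4) (nat_lit 326) (nat_lit 205) (nat_lit 189))) (XT.nd (nat_lit 78) (nat_lit 0) (nat_lit 0) (XT.lf (nat_lit 0) (nat_lit 9553720776) (nat_lit 76) (nat_lit 45248419073) (nat_lit 76) (nat_lit 40901289408) (nat_lit 2) (nat_lit 4) (nat_lit 3) (nat_lit 5) (nat_lit 3) (nat_lit 4) (nat_lit 327) (nat_lit 205) (nat_lit 188)) (XT.nd (nat_lit 78) (nat_lit 0) (nat_lit 0) (XT.lf (nat_lit 0) (nat_lit 15755957846) (nat_lit 76) (nat_lit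 44571460819) (nat_lit 76) (nat_lit 40064111929) (nat_lit 2) (nat_lit 4) (nat_lit 3) (nat_lit 5) (nat_lit 3) (nat_lit 4) (nat_lit 328) (nat_lit 205) (nat_lit 187)) (XT.lf (nat_lit 0) (nat_lit 22142914585) (nat_lit 76) (nat_lit 43916593647) (nat_lit 76) (nat_lit 39256655017) (nat_lit 2) (nat_lit 4) (nat_lit 3) (nat_lit 5) (nat_lit 3) (nat_lit 4) (nat_lit 329) (nat_lit 205) (nat_lit 186))))) (XT.nd (nat_lit 234) (nat_lit 0) (nat_lit 0) (XT.nd (nat_lit 78) (nat_lit 0) (nat_lit 0) (XT.lf (nat_lit 0) (nat_lit 28729798033) (nat_lit 76) (nat_lit 43282258348) (nat_lit 76) (nat_lit 38476996158) (nat_lit 2) (nat_lit 4) (nat_lit 3) (nat_lit 5) (nat_lit 3) (nat_lit 4) (nat_lit 330) (nat_lit 205) (nat_lit 185)) (XT.nd (nat_lit 78) (nat_lit 0) (nat_lit 0) (XT.lf (nat_lit 0) (nat_lit 35532291246) (nat_lit 76) (nat_lit 42666944600) (nat_lit 76) (nat_lit 37723279019) (nat_lit 2) (nat_lit 4) (nat_lit 3) (nat_lit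 5) (nat_lit 3) (nat_lit 4) (nat_lit 331) (nat_lit 205) (nat_lit 184)) (XT.lf (nat_lit 0) (nat_lit 42566590637) (nat_lit 76) (nat_lit 42069187371) (nat_lit 76) (nat_lit 36993709036) (nat_lit 2) (nat_lit 4) (nat_lit 3) (nat_lit 5) (nat_lit 3) (nat_lit 4) (nat_lit 332) (nat_lit 205) (nat_lit 183)))) (XT.nd (nat_lit 156) (nat_lit 0) (nat_lit 0) (XT.lf (nat_lit 0) (nat_lit 49849444537) (nat_lit 76) (nat_lit 41487563429) (nat_lit 76) (nat_lit 36286549139) (nat_lit 2) (nat_lit 4) (nat_lit 3) (nat_lit 5) (nat_lit 3) (nat_lit 4) (nat_lit 333) (nat_lit 205) (nat_lit 182)) (XT.nd (nat_lit 35412) (nat_lit 0) (nat_lit 304) (XT.lf (nat_lit 0) (nat_lit 65230809460) (nat_lit 76) (nat_lit 40367211247) (nat_lit 76) (nat_lit 34932774091) (nat_lit 2) (nat_lit 4) (nat_lit 3) (nat_lit 5) (nat_lit 3) (nat_lit 4) (nat_lit 335) (nat_lit 205) (nat_lit 180)) (XT.lf (nat_lit 0) (nat_lit 7459068027) (nat_lit 152) (nat_lit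 4792344884) (nat_lit 0) (nat_lit 7459068027) (nat_lit 6) (nat_lit 5) (nat_lit 8) (nat_lit 4) (nat_lit 6) (nat_lit 4) (nat_lit 308) (nat_lit 206) (nat_lit 206))))))))
noncomputable def xc4 : XT := (XT.nd (nat_lit 1716) (nat_lit 0) (nat_lit 0) (XT.nd (nat_lit 858) (nat_lit 76) (nat_lit 0) (XT.nd (nat_lit 390) (nat_lit 152) (nat_lit 0) (XT.nd (nat_lit 156) (nat_lit 0) (nat_lit 0) (XT.nd (nat_lit 78) (nat_lit 76) (nat_lit 0) (XT.lf (nat_lit 0) (nat_lit 20194702935) (nat_lit 152) (nat_lit 1247970452) (nat_lit 0) (nat_lit 19797548665) (nat_lit 6) (nat_lit 5) (nat_lit 8) (nat_lit 4) (nat_lit 6) (nat_lit 4) (nat_lit 309) (nat_lit 206) (nat_lit 205)) (XT.lf (nat_lit 0) (nat_lit 7371821090) (nat_lit 76) (nat_lit 18278337254) (nat_lit 76) (nat_lit 17502940821) (nat_lit 5) (nat_lit 4) (nat_lit 6) (nat_lit 5) (nat_lit 6) (nat_lit 4) (nat_lit 310) (nat_lit 206) (nat_lit 204))) (XT.nd (nat_lit 78) (nat_lit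 0) (nat_lit 0) (XT.lf (nat_lit 0) (nat_lit 16179024366) (nat_lit 76) (nat_lit 15061233692) (nat_lit 76) (nat_lit 13925606629) (nat_lit 5) (nat_lit 4) (nat_lit 6) (nat_lit 5) (nat_lit 6) (nat_lit 4) (nat_lit 311) (nat_lit 206) (nat_lit 203)) (XT.nd (nat_lit 78) (nat_lit 0) (nat_lit 0) (XT.lf (nat_lit 0) (nat_lit 25169771848) (nat_lit 76) (nat_lit 11796304988) (nat_lit 76) (nat_lit 10317601134) (nat_lit 5) (nat_lit 4) (nat_lit 6) (nat_lit 5) (nat_lit 6) (nat_lit 4) (nat_lit 312) (nat_lit 206) (nat_lit 202)) (XT.lf (nat_lit 0) (nat_lit 34365470076) (nat_lit 76) (nat_lit 8475777502) (nat_lit 76) (nat_lit 6670333846) (nat_lit 5) (nat_lit 4) (nat_lit 6) (nat_lit 5) (nat_lit 6) (nat_lit 4) (nat_lit 313) (nat_lit 206) (nat_lit 201))))) (XT.nd (nat_lit 234) (nat_lit 0) (nat_lit 0) (XT.nd (nat_lit 78) (nat_lit 152) (nat_lit 0) (XT.lf (nat_lit 0) (nat_lit 43788013572) (nat_lit 76) (nat_lit 5091745215)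 (nat_lit 76) (nat_lit 2975120796) (nat_lit 5) (nat_lit 4) (nat_lit 6) (nat_lit 5) (nat_lit 6) (nat_lit 4) (nat_lit 314) (nat_lit 206) (nat_lit 200)) (XT.nd (nat_lit 78) (nat_lit 76) (nat_lit 0) (XT.lf (nat_lit 0) (nat_lit 761677271) (nat_lit 152) (nat_lit 866782189) (nat_lit 76) (nat_lit 52690468243) (nat_lit 4) (nat_lit 5) (nat_lit 6) (nat_lit 5) (nat_lit 5) (nat_lit 4) (nat_lit 315) (nat_lit 206) (nat_lit 199)) (XT.lf (nat_lit 0) (nat_lit 4587366219) (nat_lit 152) (nat_lit 50348466387) (nat_lit 0) (nat_lit 1970631097) (nat_lit 3) (nat_lit 5) (nat_lit 5) (nat_lit 4) (nat_lit 3) (nat_lit 4) (nat_lit 316) (nat_lit 206) (nat_lit 198)))) (XT.nd (nat_lit 78) (nat_lit 0) (nat_lit 0) (XT.lf (nat_lit 0) (nat_lit 8513060178) (nat_lit 152) (nat_lit 45477782842) (nat_lit 0) (nat_lit 5635344821) (nat_lit 3) (nat_lit 5) (nat_lit 5) (nat_lit 4) (nat_lit 3) (nat_lit 4) (nat_lit 317) (nat_lit 206) (nat_lit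 197)) (XT.nd (nat_lit 78) (nat_lit 0) (nat_lit 0) (XT.lf (nat_lit 0) (nat_lit 12523870289) (nat_lit 152) (nat_lit 40563830110) (nat_lit 0) (nat_lit 9397602326) (nat_lit 3) (nat_lit 5) (nat_lit 5) (nat_lit 4) (nat_lit 3) (nat_lit 4) (nat_lit 318) (nat_lit 206) (nat_lit 196)) (XT.lf (nat_lit 0) (nat_lit 16629346100) (nat_lit 152) (nat_lit 35594908301) (nat_lit 0) (nat_lit 13266361370) (nat_lit 3) (nat_lit 5) (nat_lit 5) (nat_lit 4) (nat_lit 3) (nat_lit 4) (nat_lit 319) (nat_lit 206) (nat_lit 195)))))) (XT.nd (nat_lit 390) (nat_lit 76) (nat_lit 0) (XT.nd (nat_lit 156) (nat_lit 0) (nat_lit 0) (XT.nd (nat_lit 78) (nat_lit 0) (nat_lit 0) (XT.lf (nat_lit 0) (nat_lit 20839262552) (nat_lit 152) (nat_lit 30559186651) (nat_lit 0) (nat_lit 17250833282) (nat_lit 3) (nat_lit 5) (nat_lit 5) (nat_lit 4) (nat_lit 3) (nat_lit 4) (nat_lit 320) (nat_lit 206) (nat_lit 194)) (XT.lf (nat_lit 0) (nat_lit 25163643257)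 (nat_lit 152) (nat_lit 25444675346) (nat_lit 0) (nat_lit 21360504900) (nat_lit 3) (nat_lit 5) (nat_lit 5) (nat_lit 4) (nat_lit 3) (nat_lit 4) (nat_lit 321) (nat_lit 206) (nat_lit 193))) (XT.nd (nat_lit 78) (nat_lit 0) (nat_lit 0) (XT.lf (nat_lit 0) (nat_lit 29612784358) (nat_lit 152) (nat_lit 20239196977) (nat_lit 0) (nat_lit 25605161158) (nat_lit 3) (nat_lit 5) (nat_lit 5) (nat_lit 4) (nat_lit 3) (nat_lit 4) (nat_lit 322) (nat_lit 206) (nat_lit 192)) (XT.nd (nat_lit 78) (nat_lit 0) (nat_lit 0) (XT.lf (nat_lit 0) (nat_lit 34197279050) (nat_lit 152) (nat_lit 14930357549) (nat_lit 0) (nat_lit 29994908380) (nat_lit 3) (nat_lit 5) (nat_lit 5) (nat_lit 4) (nat_lit 3) (nat_lit 4) (nat_lit 323) (nat_lit 206) (nat_lit 191)) (XT.lf (nat_lit 0) (nat_lit 38928042795) (nat_lit 152) (nat_lit 9505516968) (nat_lit 0) (nat_lit 34540198343) (nat_lit 3) (nat_lit 5) (nat_lit 5) (nat_lit 4) (nat_lit 3) (nat_lit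 4) (nat_lit 324) (nat_lit 206) (nat_lit 190))))) (XT.nd (nat_lit 234) (nat_lit 0) (nat_lit 0) (XT.nd (nat_lit 78) (nat_lit 76) (nat_lit 0) (XT.lf (nat_lit 0) (nat_lit 43816339317) (nat_lit 152) (nat_lit 3951758947) (nat_lit 0) (nat_lit 39251853169) (nat_lit 3) (nat_lit 5) (nat_lit 5) (nat_lit 4) (nat_lit 3) (nat_lit 4) (nat_lit 325) (nat_lit 206) (nat_lit 189)) (XT.nd (nat_lit 78) (nat_lit 0) (nat_lit 0) (XT.lf (nat_lit 0) (nat_lit 1778851548) (nat_lit 76) (nat_lit 47112055278) (nat_lit 76) (nat_lit 42379338943) (nat_lit 2) (nat_lit 4) (nat_lit 3) (nat_lit 5) (nat_lit 3) (nat_lit 4) (nat_lit 326) (nat_lit 206) (nat_lit 188)) (XT.lf (nat_lit 0) (nat_lit 7746910914) (nat_lit 76) (nat_lit 46440045818) (nat_lit 76) (nat_lit 41547110257) (nat_lit 2) (nat_lit 4) (nat_lit 3) (nat_lit 5) (nat_lit 3) (nat_lit 4) (nat_lit 327) (nat_lit 206) (nat_lit 187)))) (XT.nd (nat_lit 78) (nat_lit 0) (nat_lit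 0) (XT.lf (nat_lit 0) (nat_lit 13887981065) (nat_lit 76) (nat_lit 45790374878) (nat_lit 76) (nat_lit 40744849579) (nat_lit 2) (nat_lit 4) (nat_lit 3) (nat_lit 5) (nat_lit 3) (nat_lit 4) (nat_lit 328) (nat_lit 206) (nat_lit 186)) (XT.nd (nat_lit 78) (nat_lit 0) (nat_lit 0) (XT.lf (nat_lit 0) (nat_lit 20216683595) (nat_lit 76) (nat_lit 45161495624) (nat_lit 76) (nat_lit 39970646764) (nat_lit 2) (nat_lit 4) (nat_lit 3) (nat_lit 5) (nat_lit 3) (nat_lit 4) (nat_lit 329) (nat_lit 206) (nat_lit 185)) (XT.lf (nat_lit 0) (nat_lit 26748086844) (nat_lit 76) (nat_lit 44551910723) (nat_lit 76) (nat_lit 39222658472) (nat_lit 2) (nat_lit 4) (nat_lit 3) (nat_lit 5) (nat_lit 3) (nat_lit 4) (nat_lit 330) (nat_lit 206) (nat_lit 184))))))) (XT.nd (nat_lit 36114) (nat_lit 0) (nat_lit 76) (XT.nd (nat_lit 35646) (nat_lit 0) (nat_lit 228) (XT.nd (nat_lit 156) (nat_lit 0) (nat_lit 0) (XT.nd (nat_lit 78) (nat_lit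 0) (nat_lit 0) (XT.lf (nat_lit 0) (nat_lit 33497741773) (nat_lit 76) (nat_lit 43960168783) (nat_lit 76) (nat_lit 38499103778) (nat_lit 2) (nat_lit 4) (nat_lit 3) (nat_lit 5) (nat_lit 3) (nat_lit 4) (nat_lit 331) (nat_lit 206) (nat_lit 183)) (XT.lf (nat_lit 0) (nat_lit 40481718988) (nat_lit 76) (nat_lit 43384860895) (nat_lit 76) (nat_lit 37798259934) (nat_lit 2) (nat_lit 4) (nat_lit 3) (nat_lit 5) (nat_lit 3) (nat_lit 4) (nat_lit 332) (nat_lit 206) (nat_lit 182))) (XT.nd (nat_lit 156) (nat_lit 0) (nat_lit 0) (XT.lf (nat_lit 0) (nat_lit 47716647006) (nat_lit 76) (nat_lit 42824617278) (nat_lit 76) (nat_lit 37118458264) (nat_lit 2) (nat_lit 4) (nat_lit 3) (nat_lit 5) (nat_lit 3) (nat_lit 4) (nat_lit 333) (nat_lit 206) (nat_lit 181)) (XT.nd (nat_lit 35256) (nat_lit 0) (nat_lit 304) (XT.lf (nat_lit 0) (nat_lit 63008898045) (nat_lit 76) (nat_lit 41744019894) (nat_lit 76) (nat_lit 35815553389) (nat_lit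 2) (nat_lit 4) (nat_lit 3) (nat_lit 5) (nat_lit 3) (nat_lit 4) (nat_lit 335) (nat_lit 206) (nat_lit 179)) (XT.lf (nat_lit 0) (nat_lit 2569928999) (nat_lit 152) (nat_lit 12885137365) (nat_lit 0) (nat_lit 2569928999) (nat_lit 6) (nat_lit 5) (nat_lit 8) (nat_lit 4) (nat_lit 6) (nat_lit 4) (nat_lit 306) (nat_lit 207) (nat_lit 207))))) (XT.nd (nat_lit 234) (nat_lit 76) (nat_lit 0) (XT.nd (nat_lit 78) (nat_lit 0) (nat_lit 0) (XT.lf (nat_lit 0) (nat_lit 10154043979) (nat_lit 152) (nat_lit 17802036972) (nat_lit 0) (nat_lit 9737031996) (nat_lit 6) (nat_lit 5) (nat_lit 8) (nat_lit 4) (nat_lit 6) (nat_lit 4) (nat_lit 307) (nat_lit 207) (nat_lit 206)) (XT.nd (nat_lit 78) (nat_lit 0) (nat_lit 0) (XT.lf (nat_lit 0) (nat_lit 15255346877) (nat_lit 152) (nat_lit 9726882572) (nat_lit 0) (nat_lit 14441180623) (nat_lit 6) (nat_lit 5) (nat_lit 8) (nat_lit 4) (nat_lit 6) (nat_lit 4) (nat_lit 308) (nat_lit 207)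 (nat_lit 205)) (XT.lf (nat_lit 0) (nat_lit 20455912650) (nat_lit 152) (nat_lit 1525584973) (nat_lit 0) (nat_lit 19263504234) (nat_lit 6) (nat_lit 5) (nat_lit 8) (nat_lit 4) (nat_lit 6) (nat_lit 4) (nat_lit 309) (nat_lit 207) (nat_lit 204)))) (XT.nd (nat_lit 78) (nat_lit 0) (nat_lit 0) (XT.lf (nat_lit 0) (nat_lit 6957141615) (nat_lit 76) (nat_lit 18877858284) (nat_lit 76) (nat_lit 17325219237) (nat_lit 5) (nat_lit 4) (nat_lit 6) (nat_lit 5) (nat_lit 6) (nat_lit 4) (nat_lit 310) (nat_lit 207) (nat_lit 203)) (XT.nd (nat_lit 78) (nat_lit 0) (nat_lit 0) (XT.lf (nat_lit 0) (nat_lit 15639068814) (nat_lit 76) (nat_lit 15715891325) (nat_lit 76) (nat_lit 13820175487) (nat_lit 5) (nat_lit 4) (nat_lit 6) (nat_lit 5) (nat_lit 6) (nat_lit 4) (nat_lit 311) (nat_lit 207) (nat_lit 202)) (XT.lf (nat_lit 0) (nat_lit 24510505745) (nat_lit 76) (nat_lit 12503473671) (nat_lit 76) (nat_lit 10281018032) (nat_lit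 5) (nat_lit 4) (nat_lit 6) (nat_lit 5) (nat_lit 6) (nat_lit 4) (nat_lit 312) (nat_lit 207) (nat_lit 201)))))) (XT.nd (nat_lit 390) (nat_lit 0) (nat_lit 0) (XT.nd (nat_lit 156) (nat_lit 152) (nat_lit 0) (XT.nd (nat_lit 78) (nat_lit 0) (nat_lit 0) (XT.lf (nat_lit 0) (nat_lit 33592574879) (nat_lit 76) (nat_lit 9232956709) (nat_lit 76) (nat_lit 6699320306) (nat_lit 5) (nat_lit 4) (nat_lit 6) (nat_lit 5) (nat_lit 6) (nat_lit 4) (nat_lit 313) (nat_lit 207) (nat_lit 200)) (XT.lf (nat_lit 0) (nat_lit 42906900189) (nat_lit 76) (nat_lit 5896553492) (nat_lit 76) (nat_lit 3066554458) (nat_lit 5) (nat_lit 4) (nat_lit 6) (nat_lit 5) (nat_lit 6) (nat_lit 4) (nat_lit 314) (nat_lit 207) (nat_lit 199))) (XT.nd (nat_lit 78) (nat_lit 76) (nat_lit 0) (XT.lf (nat_lit 0) (nat_lit 613714826) (nat_lit 152) (nat_lit 1866408061) (nat_lit 76) (nat_lit 51855746497) (nat_lit 4) (nat_lit 5) (nat_lit 6) (nat_lit 5) (nat_lit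 5) (nat_lit 4) (nat_lit 315) (nat_lit 207) (nat_lit 198)) (XT.nd (nat_lit 78) (nat_lit 0) (nat_lit 0) (XT.lf (nat_lit 0) (nat_lit 4364379791) (nat_lit 152) (nat_lit 51479513471) (nat_lit 0) (nat_lit 1081798430) (nat_lit 3) (nat_lit 5) (nat_lit 5) (nat_lit 4) (nat_lit 3) (nat_lit 4) (nat_lit 316) (nat_lit 207) (nat_lit 197)) (XT.lf (nat_lit 0) (nat_lit 8235845191) (nat_lit 152) (nat_lit 46706520165) (nat_lit 0) (nat_lit 4704711225) (nat_lit 3) (nat_lit 5) (nat_lit 5) (nat_lit 4) (nat_lit 3) (nat_lit 4) (nat_lit 317) (nat_lit 207) (nat_lit 196))))) (XT.nd (nat_lit 234) (nat_lit 0) (nat_lit 0) (XT.nd (nat_lit 78) (nat_lit 0) (nat_lit 0) (XT.lf (nat_lit 0) (nat_lit 12195009055) (nat_lit 152) (nat_lit 41885605755) (nat_lit 0) (nat_lit 8427158321) (nat_lit 3) (nat_lit 5) (nat_lit 5) (nat_lit 4) (nat_lit 3) (nat_lit 4) (nat_lit 318) (nat_lit 207) (nat_lit 195)) (XT.nd (nat_lit 78) (nat_lit 0) (nat_lit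 0) (XT.lf (nat_lit 0) (nat_lit 16251297964) (nat_lit 152) (nat_lit 37005291872) (nat_lit 0) (nat_lit 12258002690) (nat_lit 3) (nat_lit 5) (nat_lit 5) (nat_lit 4) (nat_lit 3) (nat_lit 4) (nat_lit 319) (nat_lit 207) (nat_lit 194)) (XT.lf (nat_lit 0) (nat_lit 20414369748) (nat_lit 152) (nat_lit 32053958723) (nat_lit 0) (nat_lit 16206365388) (nat_lit 3) (nat_lit 5) (nat_lit 5) (nat_lit 4) (nat_lit 3) (nat_lit 4) (nat_lit 320) (nat_lit 207) (nat_lit 193)))) (XT.nd (nat_lit 78) (nat_lit 0) (nat_lit 0) (XT.lf (nat_lit 0) (nat_lit 24694136483) (nat_lit 152) (nat_lit 27019817419) (nat_lit 0) (nat_lit 20281647279) (nat_lit 3) (nat_lit 5) (nat_lit 5) (nat_lit 4) (nat_lit 3) (nat_lit 4) (nat_lit 321) (nat_lit 207) (nat_lit 192)) (XT.nd (nat_lit 78) (nat_lit 0) (nat_lit 0) (XT.lf (nat_lit 0) (nat_lit 29100788089) (nat_lit 152) (nat_lit 21890881908) (nat_lit 0) (nat_lit 24493551415) (nat_lit 3) (nat_lit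 5) (nat_lit 5) (nat_lit 4) (nat_lit 3) (nat_lit 4) (nat_lit 322) (nat_lit 207) (nat_lit 191)) (XT.lf (nat_lit 0) (nat_lit 33644816595) (nat_lit 152) (nat_lit 16654940441) (nat_lit 0) (nat_lit 28852106139) (nat_lit 3) (nat_lit 5) (nat_lit 5) (nat_lit 4) (nat_lit 3) (nat_lit 4) (nat_lit 323) (nat_lit 207) (nat_lit 190))))))))
noncomputable def xc5 : XT := (XT.nd (nat_lit 36816) (nat_lit 0) (nat_lit 0) (XT.nd (nat_lit 35958) (nat_lit 0) (nat_lit 228) (XT.nd (nat_lit 390) (nat_lit 0) (nat_lit 0) (XT.nd (nat_lit 156) (nat_lit 76) (nat_lit 0) (XT.nd (nat_lit 78) (nat_lit 0) (nat_lit 0) (XT.lf (nat_lit 0) (nat_lit 38337041115) (nat_lit 152) (nat_lit 11299526488) (nat_lit 0) (nat_lit 33367688964) (nat_lit 3) (nat_lit 5) (nat_lit 5) (nat_lit 4) (nat_lit 3) (nat_lit 4) (nat_lit 324) (nat_lit 207) (nat_lit 189)) (XT.lf (nat_lit 0) (nat_lit 43188633614) (nat_lit 152) (nat_lit 5811889066) (nat_lit 0)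 (nat_lit 38051051275) (nat_lit 3) (nat_lit 5) (nat_lit 5) (nat_lit 4) (nat_lit 3) (nat_lit 4) (nat_lit 325) (nat_lit 207) (nat_lit 188))) (XT.nd (nat_lit 78) (nat_lit 76) (nat_lit 0) (XT.lf (nat_lit 0) (nat_lit 48211145501) (nat_lit 152) (nat_lit 178962370) (nat_lit 0) (nat_lit 42913343936) (nat_lit 3) (nat_lit 5) (nat_lit 5) (nat_lit 4) (nat_lit 3) (nat_lit 4) (nat_lit 326) (nat_lit 207) (nat_lit 187)) (XT.nd (nat_lit 78) (nat_lit 0) (nat_lit 0) (XT.lf (nat_lit 0) (nat_lit 5724368374) (nat_lit 76) (nat_lit 47747192894) (nat_lit 76) (nat_lit 42296801591) (nat_lit 2) (nat_lit 4) (nat_lit 3) (nat_lit 5) (nat_lit 3) (nat_lit 4) (nat_lit 327) (nat_lit 207) (nat_lit 186)) (XT.lf (nat_lit 0) (nat_lit 11807184316) (nat_lit 76) (nat_lit 47123509873) (nat_lit 76) (nat_lit 41527795009) (nat_lit 2) (nat_lit 4) (nat_lit 3) (nat_lit 5) (nat_lit 3) (nat_lit 4) (nat_lit 328) (nat_lit 207) (nat_lit 185)))))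 (XT.nd (nat_lit 234) (nat_lit 0) (nat_lit 0) (XT.nd (nat_lit 78) (nat_lit 0) (nat_lit 0) (XT.lf (nat_lit 0) (nat_lit 18080406648) (nat_lit 76) (nat_lit 46519381016) (nat_lit 76) (nat_lit 40785262761) (nat_lit 2) (nat_lit 4) (nat_lit 3) (nat_lit 5) (nat_lit 3) (nat_lit 4) (nat_lit 329) (nat_lit 207) (nat_lit 184)) (XT.nd (nat_lit 78) (nat_lit 0) (nat_lit 0) (XT.lf (nat_lit 0) (nat_lit 24558971613) (nat_lit 76) (nat_lit 45933367924) (nat_lit 76) (nat_lit 40067436915) (nat_lit 2) (nat_lit 4) (nat_lit 3) (nat_lit 5) (nat_lit 3) (nat_lit 4) (nat_lit 330) (nat_lit 207) (nat_lit 183)) (XT.lf (nat_lit 0) (nat_lit 31258304366) (nat_lit 76) (nat_lit 45364075324) (nat_lit 76) (nat_lit 39372608360) (nat_lit 2) (nat_lit 4) (nat_lit 3) (nat_lit 5) (nat_lit 3) (nat_lit 4) (nat_lit 331) (nat_lit 207) (nat_lit 182)))) (XT.nd (nat_lit 78) (nat_lit 0) (nat_lit 0) (XT.lf (nat_lit 0) (nat_lit 38194355699) (nat_lit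 76) (nat_lit 44810147761) (nat_lit 76) (nat_lit 38699122743) (nat_lit 2) (nat_lit 4) (nat_lit 3) (nat_lit 5) (nat_lit 3) (nat_lit 4) (nat_lit 332) (nat_lit 207) (nat_lit 181)) (XT.nd (nat_lit 156) (nat_lit 0) (nat_lit 0) (XT.lf (nat_lit 0) (nat_lit 45383640020) (nat_lit 76) (nat_lit 44270266357) (nat_lit 76) (nat_lit 38045376527) (nat_lit 2) (nat_lit 4) (nat_lit 3) (nat_lit 5) (nat_lit 3) (nat_lit 4) (nat_lit 333) (nat_lit 207) (nat_lit 180)) (XT.lf (nat_lit 0) (nat_lit 60591020694) (nat_lit 76) (nat_lit 43227530686) (nat_lit 76) (nat_lit 36790919436) (nat_lit 2) (nat_lit 4) (nat_lit 3) (nat_lit 5) (nat_lit 3) (nat_lit 4) (nat_lit 335) (nat_lit 207) (nat_lit 178)))))) (XT.nd (nat_lit 390) (nat_lit 76) (nat_lit 0) (XT.nd (nat_lit 156) (nat_lit 0) (nat_lit 0) (XT.nd (nat_lit 78) (nat_lit 152) (nat_lit 0) (XT.lf (nat_lit 0) (nat_lit 12392936117) (nat_lit 76) (nat_lit 2054109782) (nat_lit 76)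 (nat_lit 2054109782) (nat_lit 8) (nat_lit 4) (nat_lit 9) (nat_lit 5) (nat_lit 9) (nat_lit 4) (nat_lit 304) (nat_lit 208) (nat_lit 208)) (XT.lf (nat_lit 0) (nat_lit 638712979) (nat_lit 152) (nat_lit 33650567842) (nat_lit 0) (nat_lit 200850396) (nat_lit 6) (nat_lit 5) (nat_lit 8) (nat_lit 4) (nat_lit 6) (nat_lit 4) (nat_lit 305) (nat_lit 208) (nat_lit 207))) (XT.nd (nat_lit 78) (nat_lit 0) (nat_lit 0) (XT.lf (nat_lit 0) (nat_lit 5493929361) (nat_lit 152) (nat_lit 25919577174) (nat_lit 0) (nat_lit 4639054794) (nat_lit 6) (nat_lit 5) (nat_lit 8) (nat_lit 4) (nat_lit 6) (nat_lit 4) (nat_lit 306) (nat_lit 208) (nat_lit 206)) (XT.nd (nat_lit 78) (nat_lit 0) (nat_lit 0) (XT.lf (nat_lit 0) (nat_lit 10428314180) (nat_lit 152) (nat_lit 18093532218) (nat_lit 0) (nat_lit 9176285343) (nat_lit 6) (nat_lit 5) (nat_lit 8) (nat_lit 4) (nat_lit 6) (nat_lit 4) (nat_lit 307) (nat_lit 208) (nat_lit 205)) (XT.lf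 (nat_lit 0) (nat_lit 15453615970) (nat_lit 152) (nat_lit 10153799536) (nat_lit 0) (nat_lit 13823344971) (nat_lit 6) (nat_lit 5) (nat_lit 8) (nat_lit 4) (nat_lit 6) (nat_lit 4) (nat_lit 308) (nat_lit 208) (nat_lit 204))))) (XT.nd (nat_lit 234) (nat_lit 0) (nat_lit 0) (XT.nd (nat_lit 78) (nat_lit 76) (nat_lit 0) (XT.lf (nat_lit 0) (nat_lit 20581799737) (nat_lit 152) (nat_lit 2081475001) (nat_lit 0) (nat_lit 18591298107) (nat_lit 6) (nat_lit 5) (nat_lit 8) (nat_lit 4) (nat_lit 6) (nat_lit 4) (nat_lit 309) (nat_lit 208) (nat_lit 203)) (XT.nd (nat_lit 78) (nat_lit 0) (nat_lit 0) (XT.lf (nat_lit 0) (nat_lit 6264912208) (nat_lit 76) (nat_lit 19620385401) (nat_lit 76) (nat_lit 17286806980) (nat_lit 5) (nat_lit 4) (nat_lit 6) (nat_lit 5) (nat_lit 6) (nat_lit 4) (nat_lit 310) (nat_lit 208) (nat_lit 202)) (XT.lf (nat_lit 0) (nat_lit 14827528857) (nat_lit 76) (nat_lit 16510929493) (nat_lit 76) (nat_lit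 13850611270) (nat_lit 5) (nat_lit 4) (nat_lit 6) (nat_lit 5) (nat_lit 6) (nat_lit 4) (nat_lit 311) (nat_lit 208) (nat_lit 201)))) (XT.nd (nat_lit 78) (nat_lit 0) (nat_lit 0) (XT.lf (nat_lit 0) (nat_lit 23585336694) (nat_lit 76) (nat_lit 13348522362) (nat_lit 76) (nat_lit 10377023377) (nat_lit 5) (nat_lit 4) (nat_lit 6) (nat_lit 5) (nat_lit 6) (nat_lit 4) (nat_lit 312) (nat_lit 208) (nat_lit 200)) (XT.nd (nat_lit 78) (nat_lit 0) (nat_lit 0) (XT.lf (nat_lit 0) (nat_lit 32559187642) (nat_lit 76) (nat_lit 10125634470) (nat_lit 76) (nat_lit 6857772853) (nat_lit 5) (nat_lit 4) (nat_lit 6) (nat_lit 5) (nat_lit 6) (nat_lit 4) (nat_lit 313) (nat_lit 208) (nat_lit 199)) (XT.lf (nat_lit 0) (nat_lit 41770448012) (nat_lit 76) (nat_lit 6834592273) (nat_lit 76) (nat_lit 3284480531) (nat_lit 5) (nat_lit 4) (nat_lit 6) (nat_lit 5) (nat_lit 6) (nat_lit 4) (nat_lit 314) (nat_lit 208) (nat_lit 198))))))) (XT.nd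 (nat_lit 858) (nat_lit 76) (nat_lit 0) (XT.nd (nat_lit 390) (nat_lit 0) (nat_lit 0) (XT.nd (nat_lit 156) (nat_lit 0) (nat_lit 0) (XT.nd (nat_lit 78) (nat_lit 76) (nat_lit 0) (XT.lf (nat_lit 0) (nat_lit 344505102) (nat_lit 152) (nat_lit 3119576027) (nat_lit 76) (nat_lit 50893065450) (nat_lit 4) (nat_lit 5) (nat_lit 6) (nat_lit 5) (nat_lit 5) (nat_lit 4) (nat_lit 315) (nat_lit 208) (nat_lit 197)) (XT.lf (nat_lit 0) (nat_lit 4019075495) (nat_lit 152) (nat_lit 52867377898) (nat_lit 0) (nat_lit 62832225) (nat_lit 3) (nat_lit 5) (nat_lit 5) (nat_lit 4) (nat_lit 3) (nat_lit 4) (nat_lit 316) (nat_lit 208) (nat_lit 196))) (XT.nd (nat_lit 78) (nat_lit 0) (nat_lit 0) (XT.lf (nat_lit 0) (nat_lit 7838894649) (nat_lit 152) (nat_lit 48187422914) (nat_lit 0) (nat_lit 3645934611) (nat_lit 3) (nat_lit 5) (nat_lit 5) (nat_lit 4) (nat_lit 3) (nat_lit 4) (nat_lit 317) (nat_lit 208) (nat_lit 195)) (XT.nd (nat_lit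 78) (nat_lit 0) (nat_lit 0) (XT.lf (nat_lit 0) (nat_lit 11748871611) (nat_lit 152) (nat_lit 43455116430) (nat_lit 0) (nat_lit 7330467033) (nat_lit 3) (nat_lit 5) (nat_lit 5) (nat_lit 4) (nat_lit 3) (nat_lit 4) (nat_lit 318) (nat_lit 208) (nat_lit 194)) (XT.lf (nat_lit 0) (nat_lit 15758315851) (nat_lit 152) (nat_lit 38659191049) (nat_lit 0) (nat_lit 11125202187) (nat_lit 3) (nat_lit 5) (nat_lit 5) (nat_lit 4) (nat_lit 3) (nat_lit 4) (nat_lit 319) (nat_lit 208) (nat_lit 193))))) (XT.nd (nat_lit 234) (nat_lit 0) (nat_lit 0) (XT.nd (nat_lit 78) (nat_lit 0) (nat_lit 0) (XT.lf (nat_lit 0) (nat_lit 19876773665) (nat_lit 152) (nat_lit 33788227901) (nat_lit 0) (nat_lit 15039175157) (nat_lit 3) (nat_lit 5) (nat_lit 5) (nat_lit 4) (nat_lit 3) (nat_lit 4) (nat_lit 320) (nat_lit 208) (nat_lit 192)) (XT.nd (nat_lit 78) (nat_lit 0) (nat_lit 0) (XT.lf (nat_lit 0) (nat_lit 24114050905) (nat_lit 152) (nat_lit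 28830629455) (nat_lit 0) (nat_lit 19081704927) (nat_lit 3) (nat_lit 5) (nat_lit 5) (nat_lit 4) (nat_lit 3) (nat_lit 4) (nat_lit 321) (nat_lit 208) (nat_lit 191)) (XT.lf (nat_lit 0) (nat_lit 28480236325) (nat_lit 152) (nat_lit 23774591905) (nat_lit 0) (nat_lit 23262416566) (nat_lit 3) (nat_lit 5) (nat_lit 5) (nat_lit 4) (nat_lit 3) (nat_lit 4) (nat_lit 322) (nat_lit 208) (nat_lit 190)))) (XT.nd (nat_lit 78) (nat_lit 0) (nat_lit 0) (XT.lf (nat_lit 0) (nat_lit 32985725606) (nat_lit 152) (nat_lit 18608077065) (nat_lit 0) (nat_lit 27591264151) (nat_lit 3) (nat_lit 5) (nat_lit 5) (nat_lit 4) (nat_lit 3) (nat_lit 4) (nat_lit 323) (nat_lit 208) (nat_lit 189)) (XT.nd (nat_lit 78) (nat_lit 0) (nat_lit 0) (XT.lf (nat_lit 0) (nat_lit 37641246104) (nat_lit 152) (nat_lit 13318783712) (nat_lit 0) (nat_lit 32078554461) (nat_lit 3) (nat_lit 5) (nat_lit 5) (nat_lit 4) (nat_lit 3) (nat_lit 4) (nat_lit 324)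 (nat_lit 208) (nat_lit 188)) (XT.lf (nat_lit 0) (nat_lit 42457882389) (nat_lit 152) (nat_lit 7894118288) (nat_lit 0) (nat_lit 36734971521) (nat_lit 3) (nat_lit 5) (nat_lit 5) (nat_lit 4) (nat_lit 3) (nat_lit 4) (nat_lit 325) (nat_lit 208) (nat_lit 187)))))) (XT.nd (nat_lit 390) (nat_lit 0) (nat_lit 0) (XT.nd (nat_lit 156) (nat_lit 0) (nat_lit 0) (XT.nd (nat_lit 78) (nat_lit 76) (nat_lit 0) (XT.lf (nat_lit 0) (nat_lit 47447102645) (nat_lit 152) (nat_lit 2321164924) (nat_lit 0) (nat_lit 41571602038) (nat_lit 3) (nat_lit 5) (nat_lit 5) (nat_lit 4) (nat_lit 3) (nat_lit 4) (nat_lit 326) (nat_lit 208) (nat_lit 186)) (XT.lf (nat_lit 0) (nat_lit 3481277580) (nat_lit 76) (nat_lit 49172972556) (nat_lit 76) (nat_lit 43152148388) (nat_lit 2) (nat_lit 4) (nat_lit 3) (nat_lit 5) (nat_lit 3) (nat_lit 4) (nat_lit 327) (nat_lit 208) (nat_lit 185))) (XT.nd (nat_lit 78) (nat_lit 0) (nat_lit 0) (XT.lf (nat_lit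 0) (nat_lit 9508613323) (nat_lit 76) (nat_lit 48574039933) (nat_lit 76) (nat_lit 42414812374) (nat_lit 2) (nat_lit 4) (nat_lit 3) (nat_lit 5) (nat_lit 3) (nat_lit 4) (nat_lit 328) (nat_lit 208) (nat_lit 184)) (XT.nd (nat_lit 78) (nat_lit 0) (nat_lit 0) (XT.lf (nat_lit 0) (nat_lit 15728997370) (nat_lit 76) (nat_lit 47993482885) (nat_lit 76) (nat_lit 41702442572) (nat_lit 2) (nat_lit 4) (nat_lit 3) (nat_lit 5) (nat_lit 3) (nat_lit 4) (nat_lit 329) (nat_lit 208) (nat_lit 183)) (XT.lf (nat_lit 0) (nat_lit 22157240159) (nat_lit 76) (nat_lit 47429919132) (nat_lit 76) (nat_lit 41013342864) (nat_lit 2) (nat_lit 4) (nat_lit 3) (nat_lit 5) (nat_lit 3) (nat_lit 4) (nat_lit 330) (nat_lit 208) (nat_lit 182))))) (XT.nd (nat_lit 312) (nat_lit 0) (nat_lit 0) (XT.nd (nat_lit 78) (nat_lit 0) (nat_lit 0) (XT.lf (nat_lit 0) (nat_lit 28808647031) (nat_lit 76) (nat_lit 46882006858) (nat_lit 76) (nat_lit 40345872536)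 (nat_lit 2) (nat_lit 4) (nat_lit 3) (nat_lit 5) (nat_lit 3) (nat_lit 4) (nat_lit 331) (nat_lit 208) (nat_lit 181)) (XT.nd (nat_lit 78) (nat_lit 0) (nat_lit 0) (XT.lf (nat_lit 0) (nat_lit 35699054667) (nat_lit 76) (nat_lit 46348441508) (nat_lit 76) (nat_lit 39698442374) (nat_lit 2) (nat_lit 4) (nat_lit 3) (nat_lit 5) (nat_lit 3) (nat_lit 4) (nat_lit 332) (nat_lit 208) (nat_lit 180)) (XT.lf (nat_lit 0) (nat_lit 42844868801) (nat_lit 76) (nat_lit 45827952689) (nat_lit 76) (nat_lit 39069510877) (nat_lit 2) (nat_lit 4) (nat_lit 3) (nat_lit 5) (nat_lit 3) (nat_lit 4) (nat_lit 333) (nat_lit 208) (nat_lit 179)))) (XT.nd (nat_lit 34944) (nat_lit 0) (nat_lit 456) (XT.lf (nat_lit 0) (nat_lit 57971420554) (nat_lit 76) (nat_lit 44821275792) (nat_lit 76) (nat_lit 37861194532) (nat_lit 2) (nat_lit 4) (nat_lit 3) (nat_lit 5) (nat_lit 3) (nat_lit 4) (nat_lit 335) (nat_lit 208) (nat_lit 177)) (XT.nd (nat_lit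 78) (nat_lit 0) (nat_lit 0) (XT.lf (nat_lit 0) (nat_lit 2236729865) (nat_lit 76) (nat_lit 6443509221) (nat_lit 76) (nat_lit 6443509221) (nat_lit 8) (nat_lit 4) (nat_lit 9) (nat_lit 5) (nat_lit 9) (nat_lit 4) (nat_lit 302) (nat_lit 209) (nat_lit 209)) (XT.lf (nat_lit 0) (nat_lit 14458756338) (nat_lit 76) (nat_lit 8802381997) (nat_lit 76) (nat_lit 8328833613) (nat_lit 8) (nat_lit 4) (nat_lit 9) (nat_lit 5) (nat_lit 9) (nat_lit 4) (nat_lit 303) (nat_lit 209) (nat_lit 208))))))))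
noncomputable def xc6 : XT := (XT.nd (nat_lit 1716) (nat_lit 76) (nat_lit 0) (XT.nd (nat_lit 858) (nat_lit 152) (nat_lit 0) (XT.nd (nat_lit 390) (nat_lit 76) (nat_lit 0) (XT.nd (nat_lit 156) (nat_lit 0) (nat_lit 0) (XT.nd (nat_lit 78) (nat_lit 152) (nat_lit 0) (XT.lf (nat_lit 0) (nat_lit 24635924099) (nat_lit 76) (nat_lit 4646771966) (nat_lit 76) (nat_lit 3722225121) (nat_lit 8) (nat_lit 4) (nat_lit 9) (nat_lit 5) (nat_lit 9) (nat_lit 4) (nat_lit 304) (nat_lit 209) (nat_lit 207)) (XT.lf (nat_lit 0) (nat_lit 534845731) (nat_lit 76) (nat_lit 395654228) (nat_lit 152) (nat_lit 33564786893) (nat_lit 6) (nat_lit 5) (nat_lit 7) (nat_lit 5) (nat_lit 8) (nat_lit 4) (nat_lit 305) (nat_lit 209) (nat_lit 206))) (XT.nd (nat_lit 78) (nat_lit 0) (nat_lit 0) (XT.lf (nat_lit 0) (nat_lit 5702111909) (nat_lit 152) (nat_lit 26367839986) (nat_lit 0) (nat_lit 3990327360) (nat_lit 6) (nat_lit 5) (nat_lit 8) (nat_lit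 4) (nat_lit 6) (nat_lit 4) (nat_lit 306) (nat_lit 209) (nat_lit 205)) (XT.nd (nat_lit 78) (nat_lit 0) (nat_lit 0) (XT.lf (nat_lit 0) (nat_lit 10560495621) (nat_lit 152) (nat_lit 18677216748) (nat_lit 0) (nat_lit 8470468909) (nat_lit 6) (nat_lit 5) (nat_lit 8) (nat_lit 4) (nat_lit 6) (nat_lit 4) (nat_lit 307) (nat_lit 209) (nat_lit 204)) (XT.lf (nat_lit 0) (nat_lit 15513415405) (nat_lit 152) (nat_lit 10866457130) (nat_lit 0) (nat_lit 13063158062) (nat_lit 6) (nat_lit 5) (nat_lit 8) (nat_lit 4) (nat_lit 6) (nat_lit 4) (nat_lit 308) (nat_lit 209) (nat_lit 203))))) (XT.nd (nat_lit 234) (nat_lit 0) (nat_lit 0) (XT.nd (nat_lit 78) (nat_lit 76) (nat_lit 0) (XT.lf (nat_lit 0) (nat_lit 20572663927) (nat_lit 152) (nat_lit 2916964085) (nat_lit 0) (nat_lit 17779329794) (nat_lit 6) (nat_lit 5) (nat_lit 8) (nat_lit 4) (nat_lit 6) (nat_lit 4) (nat_lit 309) (nat_lit 209) (nat_lit 202)) (XT.nd (nat_lit 78)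 (nat_lit 0) (nat_lit 0) (XT.lf (nat_lit 0) (nat_lit 5293484703) (nat_lit 76) (nat_lit 20507686527) (nat_lit 76) (nat_lit 17387612592) (nat_lit 5) (nat_lit 4) (nat_lit 6) (nat_lit 5) (nat_lit 6) (nat_lit 4) (nat_lit 310) (nat_lit 209) (nat_lit 201)) (XT.lf (nat_lit 0) (nat_lit 13742472257) (nat_lit 76) (nat_lit 17448241142) (nat_lit 76) (nat_lit 14016986444) (nat_lit 5) (nat_lit 4) (nat_lit 6) (nat_lit 5) (nat_lit 6) (nat_lit 4) (nat_lit 311) (nat_lit 209) (nat_lit 200)))) (XT.nd (nat_lit 78) (nat_lit 0) (nat_lit 0) (XT.lf (nat_lit 0) (nat_lit 22392061908) (nat_lit 76) (nat_lit 14333463082) (nat_lit 76) (nat_lit 10605845753) (nat_lit 5) (nat_lit 4) (nat_lit 6) (nat_lit 5) (nat_lit 6) (nat_lit 4) (nat_lit 312) (nat_lit 209) (nat_lit 199)) (XT.nd (nat_lit 78) (nat_lit 0) (nat_lit 0) (XT.lf (nat_lit 0) (nat_lit 31262847918) (nat_lit 76) (nat_lit 11155936209) (nat_lit 76) (nat_lit 7146068755)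 (nat_lit 5) (nat_lit 4) (nat_lit 6) (nat_lit 5) (nat_lit 6) (nat_lit 4) (nat_lit 313) (nat_lit 209) (nat_lit 198)) (XT.lf (nat_lit 0) (nat_lit 40375951204) (nat_lit 76) (nat_lit 7908094983) (nat_lit 76) (nat_lit 3629417885) (nat_lit 5) (nat_lit 4) (nat_lit 6) (nat_lit 5) (nat_lit 6) (nat_lit 4) (nat_lit 314) (nat_lit 209) (nat_lit 197)))))) (XT.nd (nat_lit 390) (nat_lit 0) (nat_lit 0) (XT.nd (nat_lit 156) (nat_lit 0) (nat_lit 0) (XT.nd (nat_lit 78) (nat_lit 152) (nat_lit 0) (XT.lf (nat_lit 0) (nat_lit 49753069632) (nat_lit 76) (nat_lit 4582206447) (nat_lit 76) (nat_lit 47520166) (nat_lit 5) (nat_lit 4) (nat_lit 6) (nat_lit 5) (nat_lit 6) (nat_lit 4) (nat_lit 315) (nat_lit 209) (nat_lit 196)) (XT.lf (nat_lit 0) (nat_lit 2450943880) (nat_lit 76) (nat_lit 1110360765) (nat_lit 152) (nat_lit 53415676808) (nat_lit 3) (nat_lit 5) (nat_lit 4) (nat_lit 5) (nat_lit 5) (nat_lit 4) (nat_lit 316) (nat_lit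 209) (nat_lit 195))) (XT.nd (nat_lit 78) (nat_lit 0) (nat_lit 0) (XT.lf (nat_lit 0) (nat_lit 7321263430) (nat_lit 152) (nat_lit 49924017050) (nat_lit 0) (nat_lit 2456494083) (nat_lit 3) (nat_lit 5) (nat_lit 5) (nat_lit 4) (nat_lit 3) (nat_lit 4) (nat_lit 317) (nat_lit 209) (nat_lit 194)) (XT.nd (nat_lit 78) (nat_lit 0) (nat_lit 0) (XT.lf (nat_lit 0) (nat_lit 11184395724) (nat_lit 152) (nat_lit 45276099067) (nat_lit 0) (nat_lit 6104917291) (nat_lit 3) (nat_lit 5) (nat_lit 5) (nat_lit 4) (nat_lit 3) (nat_lit 4) (nat_lit 318) (nat_lit 209) (nat_lit 193)) (XT.lf (nat_lit 0) (nat_lit 15149225995) (nat_lit 152) (nat_lit 40560543687) (nat_lit 0) (nat_lit 9865262718) (nat_lit 3) (nat_lit 5) (nat_lit 5) (nat_lit 4) (nat_lit 3) (nat_lit 4) (nat_lit 319) (nat_lit 209) (nat_lit 192))))) (XT.nd (nat_lit 234) (nat_lit 0) (nat_lit 0) (XT.nd (nat_lit 78) (nat_lit 0) (nat_lit 0) (XT.lf (nat_lit 0) (nat_lit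 19225194313) (nat_lit 152) (nat_lit 35766123397) (nat_lit 0) (nat_lit 13746483566) (nat_lit 3) (nat_lit 5) (nat_lit 5) (nat_lit 4) (nat_lit 3) (nat_lit 4) (nat_lit 320) (nat_lit 209) (nat_lit 191)) (XT.nd (nat_lit 78) (nat_lit 0) (nat_lit 0) (XT.lf (nat_lit 0) (nat_lit 23422005367) (nat_lit 152) (nat_lit 30881422911) (nat_lit 0) (nat_lit 17757820839) (nat_lit 3) (nat_lit 5) (nat_lit 5) (nat_lit 4) (nat_lit 3) (nat_lit 4) (nat_lit 321) (nat_lit 209) (nat_lit 190)) (XT.lf (nat_lit 0) (nat_lit 27749651563) (nat_lit 152) (nat_lit 25894811989) (nat_lit 0) (nat_lit 21908825338) (nat_lit 3) (nat_lit 5) (nat_lit 5) (nat_lit 4) (nat_lit 3) (nat_lit 4) (nat_lit 322) (nat_lit 209) (nat_lit 189)))) (XT.nd (nat_lit 78) (nat_lit 0) (nat_lit 0) (XT.lf (nat_lit 0) (nat_lit 32218436821) (nat_lit 152) (nat_lit 20794417749) (nat_lit 0) (nat_lit 26209380409) (nat_lit 3) (nat_lit 5) (nat_lit 5) (nat_lit 4) (nat_lit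 3) (nat_lit 4) (nat_lit 323) (nat_lit 209) (nat_lit 188)) (XT.nd (nat_lit 78) (nat_lit 0) (nat_lit 0) (XT.lf (nat_lit 0) (nat_lit 36839001105) (nat_lit 152) (nat_lit 15568096394) (nat_lit 0) (nat_lit 30669725467) (nat_lit 3) (nat_lit 5) (nat_lit 5) (nat_lit 4) (nat_lit 3) (nat_lit 4) (nat_lit 324) (nat_lit 209) (nat_lit 187)) (XT.lf (nat_lit 0) (nat_lit 41622345759) (nat_lit 152) (nat_lit 10203404303) (nat_lit 0) (nat_lit 35300480383) (nat_lit 3) (nat_lit 5) (nat_lit 5) (nat_lit 4) (nat_lit 3) (nat_lit 4) (nat_lit 325) (nat_lit 209) (nat_lit 186))))))) (XT.nd (nat_lit 35646) (nat_lit 0) (nat_lit 228) (XT.nd (nat_lit 390) (nat_lit 0) (nat_lit 0) (XT.nd (nat_lit 156) (nat_lit 0) (nat_lit 0) (XT.nd (nat_lit 78) (nat_lit 76) (nat_lit 0) (XT.lf (nat_lit 0) (nat_lit 46579859700) (nat_lit 152) (nat_lit 4687568398) (nat_lit 0) (nat_lit 40112670762) (nat_lit 3) (nat_lit 5) (nat_lit 5) (nat_lit 4)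 (nat_lit 3) (nat_lit 4) (nat_lit 326) (nat_lit 209) (nat_lit 185)) (XT.lf (nat_lit 0) (nat_lit 1012297839) (nat_lit 76) (nat_lit 50720779518) (nat_lit 76) (nat_lit 44115187189) (nat_lit 2) (nat_lit 4) (nat_lit 3) (nat_lit 5) (nat_lit 3) (nat_lit 4) (nat_lit 327) (nat_lit 209) (nat_lit 184))) (XT.nd (nat_lit 78) (nat_lit 0) (nat_lit 0) (XT.lf (nat_lit 0) (nat_lit 6986795297) (nat_lit 76) (nat_lit 50145418702) (nat_lit 76) (nat_lit 43408013620) (nat_lit 2) (nat_lit 4) (nat_lit 3) (nat_lit 5) (nat_lit 3) (nat_lit 4) (nat_lit 328) (nat_lit 209) (nat_lit 183)) (XT.nd (nat_lit 78) (nat_lit 0) (nat_lit 0) (XT.lf (nat_lit 0) (nat_lit 13156857169) (nat_lit 76) (nat_lit 49587310995) (nat_lit 76) (nat_lit 42724369957) (nat_lit 2) (nat_lit 4) (nat_lit 3) (nat_lit 5) (nat_lit 3) (nat_lit 4) (nat_lit 329) (nat_lit 209) (nat_lit 182)) (XT.lf (nat_lit 0) (nat_lit 19537174076) (nat_lit 76) (nat_lit 49045127567)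 (nat_lit 76) (nat_lit 42062628476) (nat_lit 2) (nat_lit 4) (nat_lit 3) (nat_lit 5) (nat_lit 3) (nat_lit 4) (nat_lit 330) (nat_lit 209) (nat_lit 181))))) (XT.nd (nat_lit 312) (nat_lit 0) (nat_lit 0) (XT.nd (nat_lit 78) (nat_lit 0) (nat_lit 0) (XT.lf (nat_lit 0) (nat_lit 26142937251) (nat_lit 76) (nat_lit 48517577506) (nat_lit 76) (nat_lit 41421213603) (nat_lit 2) (nat_lit 4) (nat_lit 3) (nat_lit 5) (nat_lit 3) (nat_lit 4) (nat_lit 331) (nat_lit 209) (nat_lit 180)) (XT.nd (nat_lit 78) (nat_lit 0) (nat_lit 0) (XT.lf (nat_lit 0) (nat_lit 32989874700) (nat_lit 76) (nat_lit 48003404741) (nat_lit 76) (nat_lit 40798598159) (nat_lit 2) (nat_lit 4) (nat_lit 3) (nat_lit 5) (nat_lit 3) (nat_lit 4) (nat_lit 332) (nat_lit 209) (nat_lit 179)) (XT.lf (nat_lit 0) (nat_lit 40094288655) (nat_lit 76) (nat_lit 47501385050) (nat_lit 76) (nat_lit 40193299727) (nat_lit 2) (nat_lit 4) (nat_lit 3) (nat_lit 5) (nat_lit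 3) (nat_lit 4) (nat_lit 333) (nat_lit 209) (nat_lit 178)))) (XT.nd (nat_lit 34788) (nat_lit 0) (nat_lit 532) (XT.lf (nat_lit 0) (nat_lit 55143860485) (nat_lit 76) (nat_lit 46529049843) (nat_lit 76) (nat_lit 39028926950) (nat_lit 2) (nat_lit 4) (nat_lit 3) (nat_lit 5) (nat_lit 3) (nat_lit 4) (nat_lit 335) (nat_lit 209) (nat_lit 176)) (XT.nd (nat_lit 78) (nat_lit 0) (nat_lit 0) (XT.lf (nat_lit 0) (nat_lit 3299770408) (nat_lit 152) (nat_lit 7280552745) (nat_lit 0) (nat_lit 3299770408) (nat_lit 9) (nat_lit 5) (nat_lit 11) (nat_lit 4) (nat_lit 9) (nat_lit 4) (nat_lit 300) (nat_lit 210) (nat_lit 210)) (XT.lf (nat_lit 0) (nat_lit 12115259490) (nat_lit 152) (nat_lit 5239464621) (nat_lit 0) (nat_lit 11618033688) (nat_lit 9) (nat_lit 5) (nat_lit 11) (nat_lit 4) (nat_lit 9) (nat_lit 4) (nat_lit 301) (nat_lit 210) (nat_lit 209)))))) (XT.nd (nat_lit 390) (nat_lit 76) (nat_lit 0) (XT.nd (nat_lit 156)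 (nat_lit 152) (nat_lit 0) (XT.nd (nat_lit 78) (nat_lit 0) (nat_lit 0) (XT.lf (nat_lit 0) (nat_lit 4316014188) (nat_lit 76) (nat_lit 13452498464) (nat_lit 76) (nat_lit 12481724278) (nat_lit 8) (nat_lit 4) (nat_lit 9) (nat_lit 5) (nat_lit 9) (nat_lit 4) (nat_lit 302) (nat_lit 210) (nat_lit 208)) (XT.lf (nat_lit 0) (nat_lit 14151362661) (nat_lit 76) (nat_lit 9432866036) (nat_lit 76) (nat_lit 8011093390) (nat_lit 8) (nat_lit 4) (nat_lit 9) (nat_lit 5) (nat_lit 9) (nat_lit 4) (nat_lit 303) (nat_lit 210) (nat_lit 207))) (XT.nd (nat_lit 78) (nat_lit 152) (nat_lit 0) (XT.lf (nat_lit 0) (nat_lit 24185722673) (nat_lit 76) (nat_lit 5339164593) (nat_lit 76) (nat_lit 3487869603) (nat_lit 8) (nat_lit 4) (nat_lit 9) (nat_lit 5) (nat_lit 9) (nat_lit 4) (nat_lit 304) (nat_lit 210) (nat_lit 206)) (XT.nd (nat_lit 78) (nat_lit 76) (nat_lit 0) (XT.lf (nat_lit 0) (nat_lit 1077276741) (nat_lit 152) (nat_lit 73492103)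 (nat_lit 76) (nat_lit 33354830435) (nat_lit 7) (nat_lit 5) (nat_lit 9) (nat_lit 5) (nat_lit 8) (nat_lit 4) (nat_lit 305) (nat_lit 210) (nat_lit 205)) (XT.lf (nat_lit 0) (nat_lit 5764901316) (nat_lit 152) (nat_lit 27116130460) (nat_lit 0) (nat_lit 3192131106) (nat_lit 6) (nat_lit 5) (nat_lit 8) (nat_lit 4) (nat_lit 6) (nat_lit 4) (nat_lit 306) (nat_lit 210) (nat_lit 204))))) (XT.nd (nat_lit 234) (nat_lit 76) (nat_lit 0) (XT.nd (nat_lit 78) (nat_lit 0) (nat_lit 0) (XT.lf (nat_lit 0) (nat_lit 10550903021) (nat_lit 152) (nat_lit 19554480286) (nat_lit 0) (nat_lit 7617902180) (nat_lit 6) (nat_lit 5) (nat_lit 8) (nat_lit 4) (nat_lit 6) (nat_lit 4) (nat_lit 307) (nat_lit 210) (nat_lit 203)) (XT.nd (nat_lit 78) (nat_lit 0) (nat_lit 0) (XT.lf (nat_lit 0) (nat_lit 15434887560) (nat_lit 152) (nat_lit 11866552158) (nat_lit 0) (nat_lit 12158809929) (nat_lit 6) (nat_lit 5) (nat_lit 8) (nat_lit 4) (nat_lit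 6) (nat_lit 4) (nat_lit 308) (nat_lit 210) (nat_lit 202)) (XT.lf (nat_lit 0) (nat_lit 20428483469) (nat_lit 152) (nat_lit 4034041484) (nat_lit 0) (nat_lit 16825666036) (nat_lit 6) (nat_lit 5) (nat_lit 8) (nat_lit 4) (nat_lit 6) (nat_lit 4) (nat_lit 309) (nat_lit 210) (nat_lit 201)))) (XT.nd (nat_lit 78) (nat_lit 0) (nat_lit 0) (XT.lf (nat_lit 0) (nat_lit 4040546179) (nat_lit 76) (nat_lit 21541874283) (nat_lit 76) (nat_lit 17627876087) (nat_lit 5) (nat_lit 4) (nat_lit 6) (nat_lit 5) (nat_lit 6) (nat_lit 4) (nat_lit 310) (nat_lit 210) (nat_lit 200)) (XT.nd (nat_lit 78) (nat_lit 0) (nat_lit 0) (XT.lf (nat_lit 0) (nat_lit 12381315547) (nat_lit 76) (nat_lit 18530057968) (nat_lit 76) (nat_lit 14319697141) (nat_lit 5) (nat_lit 4) (nat_lit 6) (nat_lit 5) (nat_lit 6) (nat_lit 4) (nat_lit 311) (nat_lit 210) (nat_lit 199)) (XT.lf (nat_lit 0) (nat_lit 20927840259) (nat_lit 76) (nat_lit 15460640928)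 (nat_lit 76) (nat_lit 10968029976) (nat_lit 5) (nat_lit 4) (nat_lit 6) (nat_lit 5) (nat_lit 6) (nat_lit 4) (nat_lit 312) (nat_lit 210) (nat_lit 198))))))))
noncomputable def xc7 : XT := (XT.nd (nat_lit 36348) (nat_lit 0) (nat_lit 76) (XT.nd (nat_lit 858) (nat_lit 76) (nat_lit 0) (XT.nd (nat_lit 390) (nat_lit 0) (nat_lit 0) (XT.nd (nat_lit 156) (nat_lit 152) (nat_lit 0) (XT.nd (nat_lit 78) (nat_lit 0) (nat_lit 0) (XT.lf (nat_lit 0) (nat_lit 29700469184) (nat_lit 76) (nat_lit 12326315026) (nat_lit 76) (nat_lit 7564894430) (nat_lit 5) (nat_lit 4) (nat_lit 6) (nat_lit 5) (nat_lit 6) (nat_lit 4) (nat_lit 313) (nat_lit 210) (nat_lit 197)) (XT.lf (nat_lit 0) (nat_lit 38720089533) (nat_lit 76) (nat_lit 9119617581) (nat_lit 76) (nat_lit 4102187802) (nat_lit 5) (nat_lit 4) (nat_lit 6) (nat_lit 5) (nat_lit 6) (nat_lit 4) (nat_lit 314) (nat_lit 210) (nat_lit 196))) (XT.nd (nat_lit 78) (nat_lit 152)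 (nat_lit 0) (XT.lf (nat_lit 0) (nat_lit 48008176592) (nat_lit 76) (nat_lit 5832913599) (nat_lit 76) (nat_lit 571665550) (nat_lit 5) (nat_lit 4) (nat_lit 6) (nat_lit 5) (nat_lit 6) (nat_lit 4) (nat_lit 315) (nat_lit 210) (nat_lit 195)) (XT.nd (nat_lit 78) (nat_lit 0) (nat_lit 0) (XT.lf (nat_lit 0) (nat_lit 558422538) (nat_lit 76) (nat_lit 2422798379) (nat_lit 152) (nat_lit 54027886916) (nat_lit 3) (nat_lit 5) (nat_lit 4) (nat_lit 5) (nat_lit 5) (nat_lit 4) (nat_lit 316) (nat_lit 210) (nat_lit 194)) (XT.lf (nat_lit 0) (nat_lit 6681719081) (nat_lit 152) (nat_lit 51920437320) (nat_lit 0) (nat_lit 1133557640) (nat_lit 3) (nat_lit 5) (nat_lit 5) (nat_lit 4) (nat_lit 3) (nat_lit 4) (nat_lit 317) (nat_lit 210) (nat_lit 193))))) (XT.nd (nat_lit 234) (nat_lit 0) (nat_lit 0) (XT.nd (nat_lit 78) (nat_lit 0) (nat_lit 0) (XT.lf (nat_lit 0) (nat_lit 10500237405) (nat_lit 152) (nat_lit 47352889338) (nat_lit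 0) (nat_lit 4747591120) (nat_lit 3) (nat_lit 5) (nat_lit 5) (nat_lit 4) (nat_lit 3) (nat_lit 4) (nat_lit 318) (nat_lit 210) (nat_lit 192)) (XT.nd (nat_lit 78) (nat_lit 0) (nat_lit 0) (XT.lf (nat_lit 0) (nat_lit 14422578180) (nat_lit 152) (nat_lit 42713876816) (nat_lit 0) (nat_lit 8475184425) (nat_lit 3) (nat_lit 5) (nat_lit 5) (nat_lit 4) (nat_lit 3) (nat_lit 4) (nat_lit 319) (nat_lit 210) (nat_lit 191)) (XT.lf (nat_lit 0) (nat_lit 18458080313) (nat_lit 152) (nat_lit 37992354486) (nat_lit 0) (nat_lit 12325212777) (nat_lit 3) (nat_lit 5) (nat_lit 5) (nat_lit 4) (nat_lit 3) (nat_lit 4) (nat_lit 320) (nat_lit 210) (nat_lit 190)))) (XT.nd (nat_lit 78) (nat_lit 0) (nat_lit 0) (XT.lf (nat_lit 0) (nat_lit 22616352142) (nat_lit 152) (nat_lit 33177080628) (nat_lit 0) (nat_lit 16306842909) (nat_lit 3) (nat_lit 5) (nat_lit 5) (nat_lit 4) (nat_lit 3) (nat_lit 4) (nat_lit 321) (nat_lit 210) (nat_lit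 189)) (XT.nd (nat_lit 78) (nat_lit 0) (nat_lit 0) (XT.lf (nat_lit 0) (nat_lit 26907294314) (nat_lit 152) (nat_lit 28256590305) (nat_lit 0) (nat_lit 20429554895) (nat_lit 3) (nat_lit 5) (nat_lit 5) (nat_lit 4) (nat_lit 3) (nat_lit 4) (nat_lit 322) (nat_lit 210) (nat_lit 188)) (XT.lf (nat_lit 0) (nat_lit 31341123359) (nat_lit 152) (nat_lit 23219168064) (nat_lit 0) (nat_lit 24703164714) (nat_lit 3) (nat_lit 5) (nat_lit 5) (nat_lit 4) (nat_lit 3) (nat_lit 4) (nat_lit 323) (nat_lit 210) (nat_lit 187)))))) (XT.nd (nat_lit 390) (nat_lit 0) (nat_lit 0) (XT.nd (nat_lit 156) (nat_lit 76) (nat_lit 0) (XT.nd (nat_lit 78) (nat_lit 0) (nat_lit 0) (XT.lf (nat_lit 0) (nat_lit 35928396012) (nat_lit 152) (nat_lit 18052820041) (nat_lit 0) (nat_lit 29137847628) (nat_lit 3) (nat_lit 5) (nat_lit 5) (nat_lit 4) (nat_lit 3) (nat_lit 4) (nat_lit 324) (nat_lit 210) (nat_lit 186)) (XT.lf (nat_lit 0) (nat_lit 40680034351)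 (nat_lit 152) (nat_lit 12745245409) (nat_lit 0) (nat_lit 33744162406) (nat_lit 3) (nat_lit 5) (nat_lit 5) (nat_lit 4) (nat_lit 3) (nat_lit 4) (nat_lit 325) (nat_lit 210) (nat_lit 185))) (XT.nd (nat_lit 78) (nat_lit 76) (nat_lit 0) (XT.lf (nat_lit 0) (nat_lit 45607351801) (nat_lit 152) (nat_lit 7283807085) (nat_lit 0) (nat_lit 38533076465) (nat_lit 3) (nat_lit 5) (nat_lit 5) (nat_lit 4) (nat_lit 3) (nat_lit 4) (nat_lit 326) (nat_lit 210) (nat_lit 184)) (XT.nd (nat_lit 78) (nat_lit 76) (nat_lit 0) (XT.lf (nat_lit 0) (nat_lit 50722080069) (nat_lit 152) (nat_lit 1655501643) (nat_lit 0) (nat_lit 43515991979) (nat_lit 3) (nat_lit 5) (nat_lit 5) (nat_lit 4) (nat_lit 3) (nat_lit 4) (nat_lit 327) (nat_lit 210) (nat_lit 183)) (XT.lf (nat_lit 0) (nat_lit 4235725910) (nat_lit 76) (nat_lit 51841387559) (nat_lit 76) (nat_lit 44509763513) (nat_lit 2) (nat_lit 4) (nat_lit 3) (nat_lit 5) (nat_lit 3) (nat_lit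 4) (nat_lit 328) (nat_lit 210) (nat_lit 182))))) (XT.nd (nat_lit 234) (nat_lit 0) (nat_lit 0) (XT.nd (nat_lit 78) (nat_lit 0) (nat_lit 0) (XT.lf (nat_lit 0) (nat_lit 10357861899) (nat_lit 76) (nat_lit 51304660175) (nat_lit 76) (nat_lit 43853478077) (nat_lit 2) (nat_lit 4) (nat_lit 3) (nat_lit 5) (nat_lit 3) (nat_lit 4) (nat_lit 329) (nat_lit 210) (nat_lit 181)) (XT.nd (nat_lit 78) (nat_lit 0) (nat_lit 0) (XT.lf (nat_lit 0) (nat_lit 16692535110) (nat_lit 76) (nat_lit 50782838962) (nat_lit 76) (nat_lit 43217792051) (nat_lit 2) (nat_lit 4) (nat_lit 3) (nat_lit 5) (nat_lit 3) (nat_lit 4) (nat_lit 330) (nat_lit 210) (nat_lit 180)) (XT.lf (nat_lit 0) (nat_lit 23254828097) (nat_lit 76) (nat_lit 50274681486) (nat_lit 76) (nat_lit 42601191896) (nat_lit 2) (nat_lit 4) (nat_lit 3) (nat_lit 5) (nat_lit 3) (nat_lit 4) (nat_lit 331) (nat_lit 210) (nat_lit 179)))) (XT.nd (nat_lit 78) (nat_lit 0) (nat_lit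 0) (XT.lf (nat_lit 0) (nat_lit 30060365368) (nat_lit 76) (nat_lit 49778977849) (nat_lit 76) (nat_lit 42002209518) (nat_lit 2) (nat_lit 4) (nat_lit 3) (nat_lit 5) (nat_lit 3) (nat_lit 4) (nat_lit 332) (nat_lit 210) (nat_lit 178)) (XT.nd (nat_lit 156) (nat_lit 0) (nat_lit 0) (XT.lf (nat_lit 0) (nat_lit 37125350582) (nat_lit 76) (nat_lit 49294547804) (nat_lit 76) (nat_lit 41419418767) (nat_lit 2) (nat_lit 4) (nat_lit 3) (nat_lit 5) (nat_lit 3) (nat_lit 4) (nat_lit 333) (nat_lit 210) (nat_lit 177)) (XT.lf (nat_lit 0) (nat_lit 52101608198) (nat_lit 76) (nat_lit 48354918967) (nat_lit 76) (nat_lit 40296897007) (nat_lit 2) (nat_lit 4) (nat_lit 3) (nat_lit 5) (nat_lit 3) (nat_lit 4) (nat_lit 335) (nat_lit 210) (nat_lit 175))))))) (XT.nd (nat_lit 858) (nat_lit 228) (nat_lit 0) (XT.nd (nat_lit 390) (nat_lit 152) (nat_lit 0) (XT.nd (nat_lit 156) (nat_lit 76) (nat_lit 0) (XT.nd (nat_lit 78) (nat_lit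 152) (nat_lit 0) (XT.lf (nat_lit 0) (nat_lit 9215227535) (nat_lit 76) (nat_lit 1771133465) (nat_lit 76) (nat_lit 1771133465) (nat_lit 11) (nat_lit 4) (nat_lit 12) (nat_lit 5) (nat_lit 12) (nat_lit 4) (nat_lit 298) (nat_lit 211) (nat_lit 211)) (XT.lf (nat_lit 0) (nat_lit 1688822891) (nat_lit 152) (nat_lit 23755323785) (nat_lit 0) (nat_lit 1166735798) (nat_lit 9) (nat_lit 5) (nat_lit 11) (nat_lit 4) (nat_lit 9) (nat_lit 4) (nat_lit 299) (nat_lit 211) (nat_lit 210))) (XT.nd (nat_lit 78) (nat_lit 76) (nat_lit 0) (XT.lf (nat_lit 0) (nat_lit 7029566155) (nat_lit 152) (nat_lit 14723197364) (nat_lit 0) (nat_lit 6010253260) (nat_lit 9) (nat_lit 5) (nat_lit 11) (nat_lit 4) (nat_lit 9) (nat_lit 4) (nat_lit 300) (nat_lit 211) (nat_lit 209)) (XT.nd (nat_lit 78) (nat_lit 76) (nat_lit 0) (XT.lf (nat_lit 0) (nat_lit 12457606969) (nat_lit 152) (nat_lit 5555929707) (nat_lit 0) (nat_lit 10964745690) (nat_lit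 9) (nat_lit 5) (nat_lit 11) (nat_lit 4) (nat_lit 9) (nat_lit 4) (nat_lit 301) (nat_lit 211) (nat_lit 208)) (XT.lf (nat_lit 0) (nat_lit 3843302691) (nat_lit 76) (nat_lit 14179510724) (nat_lit 76) (nat_lit 12235650984) (nat_lit 8) (nat_lit 4) (nat_lit 9) (nat_lit 5) (nat_lit 9) (nat_lit 4) (nat_lit 302) (nat_lit 211) (nat_lit 207))))) (XT.nd (nat_lit 234) (nat_lit 76) (nat_lit 0) (XT.nd (nat_lit 78) (nat_lit 76) (nat_lit 0) (XT.lf (nat_lit 0) (nat_lit 13535843415) (nat_lit 76) (nat_lit 10221786884) (nat_lit 76) (nat_lit 7848404801) (nat_lit 8) (nat_lit 4) (nat_lit 9) (nat_lit 5) (nat_lit 9) (nat_lit 4) (nat_lit 303) (nat_lit 211) (nat_lit 206)) (XT.nd (nat_lit 78) (nat_lit 76) (nat_lit 0) (XT.lf (nat_lit 0) (nat_lit 23434196049) (nat_lit 76) (nat_lit 6187046002) (nat_lit 76) (nat_lit 3404595020) (nat_lit 8) (nat_lit 4) (nat_lit 9) (nat_lit 5) (nat_lit 9) (nat_lit 4) (nat_lit 304) (nat_lit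 211) (nat_lit 205)) (XT.lf (nat_lit 0) (nat_lit 1084769811) (nat_lit 152) (nat_lit 969957690) (nat_lit 76) (nat_lit 32466204238) (nat_lit 7) (nat_lit 5) (nat_lit 9) (nat_lit 5) (nat_lit 8) (nat_lit 4) (nat_lit 305) (nat_lit 211) (nat_lit 204)))) (XT.nd (nat_lit 78) (nat_lit 0) (nat_lit 0) (XT.lf (nat_lit 0) (nat_lit 5682447079) (nat_lit 152) (nat_lit 28166230239) (nat_lit 0) (nat_lit 2242565566) (nat_lit 6) (nat_lit 5) (nat_lit 8) (nat_lit 4) (nat_lit 6) (nat_lit 4) (nat_lit 306) (nat_lit 211) (nat_lit 203)) (XT.nd (nat_lit 78) (nat_lit 0) (nat_lit 0) (XT.lf (nat_lit 0) (nat_lit 10399513540) (nat_lit 152) (nat_lit 20727411555) (nat_lit 0) (nat_lit 6616555235) (nat_lit 6) (nat_lit 5) (nat_lit 8) (nat_lit 4) (nat_lit 6) (nat_lit 4) (nat_lit 307) (nat_lit 211) (nat_lit 202)) (XT.lf (nat_lit 0) (nat_lit 15217845465) (nat_lit 152) (nat_lit 13156465798) (nat_lit 0) (nat_lit 11108147360) (nat_lit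 6) (nat_lit 5) (nat_lit 8) (nat_lit 4) (nat_lit 6) (nat_lit 4) (nat_lit 308) (nat_lit 211) (nat_lit 201)))))) (XT.nd (nat_lit 390) (nat_lit 152) (nat_lit 0) (XT.nd (nat_lit 156) (nat_lit 0) (nat_lit 0) (XT.nd (nat_lit 78) (nat_lit 76) (nat_lit 0) (XT.lf (nat_lit 0) (nat_lit 20148915075) (nat_lit 152) (nat_lit 5435366906) (nat_lit 0) (nat_lit 15728036207) (nat_lit 6) (nat_lit 5) (nat_lit 8) (nat_lit 4) (nat_lit 6) (nat_lit 4) (nat_lit 309) (nat_lit 211) (nat_lit 200)) (XT.lf (nat_lit 0) (nat_lit 2503113447) (nat_lit 76) (nat_lit 22725411021) (nat_lit 76) (nat_lit 18008169521) (nat_lit 5) (nat_lit 4) (nat_lit 6) (nat_lit 5) (nat_lit 6) (nat_lit 4) (nat_lit 310) (nat_lit 211) (nat_lit 199))) (XT.nd (nat_lit 78) (nat_lit 0) (nat_lit 0) (XT.lf (nat_lit 0) (nat_lit 10740817877) (nat_lit 76) (nat_lit 19758955726) (nat_lit 76) (nat_lit 14759464101) (nat_lit 5) (nat_lit 4) (nat_lit 6) (nat_lit 5)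 (nat_lit 6) (nat_lit 4) (nat_lit 311) (nat_lit 211) (nat_lit 198)) (XT.nd (nat_lit 78) (nat_lit 0) (nat_lit 0) (XT.lf (nat_lit 0) (nat_lit 19189185505) (nat_lit 76) (nat_lit 16732739656) (nat_lit 76) (nat_lit 11464438388) (nat_lit 5) (nat_lit 4) (nat_lit 6) (nat_lit 5) (nat_lit 6) (nat_lit 4) (nat_lit 312) (nat_lit 211) (nat_lit 197)) (XT.lf (nat_lit 0) (nat_lit 27868331492) (nat_lit 76) (nat_lit 13639557535) (nat_lit 76) (nat_lit 8115247084) (nat_lit 5) (nat_lit 4) (nat_lit 6) (nat_lit 5) (nat_lit 6) (nat_lit 4) (nat_lit 313) (nat_lit 211) (nat_lit 196))))) (XT.nd (nat_lit 234) (nat_lit 76) (nat_lit 0) (XT.nd (nat_lit 78) (nat_lit 76) (nat_lit 0) (XT.lf (nat_lit 0) (nat_lit 36798920471) (nat_lit 76) (nat_lit 10472044644) (nat_lit 76) (nat_lit 4703915923) (nat_lit 5) (nat_lit 4) (nat_lit 6) (nat_lit 5) (nat_lit 6) (nat_lit 4) (nat_lit 314) (nat_lit 211) (nat_lit 195)) (XT.nd (nat_lit 78)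 (nat_lit 76) (nat_lit 0) (XT.lf (nat_lit 0) (nat_lit 46002215750) (nat_lit 76) (nat_lit 7222659286) (nat_lit 76) (nat_lit 1222322688) (nat_lit 5) (nat_lit 4) (nat_lit 6) (nat_lit 5) (nat_lit 6) (nat_lit 4) (nat_lit 315) (nat_lit 211) (nat_lit 194)) (XT.lf (nat_lit 0) (nat_lit 2292202797) (nat_lit 152) (nat_lit 1568315277) (nat_lit 76) (nat_lit 53184780385) (nat_lit 4) (nat_lit 5) (nat_lit 6) (nat_lit 5) (nat_lit 5) (nat_lit 4) (nat_lit 316) (nat_lit 211) (nat_lit 193)))) (XT.nd (nat_lit 78) (nat_lit 0) (nat_lit 0) (XT.lf (nat_lit 0) (nat_lit 5589422100) (nat_lit 76) (nat_lit 332513095) (nat_lit 152) (nat_lit 53852120329) (nat_lit 3) (nat_lit 5) (nat_lit 4) (nat_lit 5) (nat_lit 5) (nat_lit 4) (nat_lit 317) (nat_lit 211) (nat_lit 192)) (XT.nd (nat_lit 78) (nat_lit 0) (nat_lit 0) (XT.lf (nat_lit 0) (nat_lit 9694767704) (nat_lit 152) (nat_lit 49690431981) (nat_lit 0) (nat_lit 3255256791) (nat_lit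 3) (nat_lit 5) (nat_lit 5) (nat_lit 4) (nat_lit 3) (nat_lit 4) (nat_lit 318) (nat_lit 211) (nat_lit 191)) (XT.lf (nat_lit 0) (nat_lit 13576642293) (nat_lit 152) (nat_lit 45124317419) (nat_lit 0) (nat_lit 6951657599) (nat_lit 3) (nat_lit 5) (nat_lit 5) (nat_lit 4) (nat_lit 3) (nat_lit 4) (nat_lit 319) (nat_lit 211) (nat_lit 190))))))))
noncomputable def xc8 : XT := (XT.nd (nat_lit 36114) (nat_lit 0) (nat_lit 76) (XT.nd (nat_lit 780) (nat_lit 0) (nat_lit 0) (XT.nd (nat_lit 390) (nat_lit 76) (nat_lit 0) (XT.nd (nat_lit 156) (nat_lit 0) (nat_lit 0) (XT.nd (nat_lit 78) (nat_lit 0) (nat_lit 0) (XT.lf (nat_lit 0) (nat_lit 17573605202) (nat_lit 152) (nat_lit 40472221718) (nat_lit 0) (nat_lit 10771978811) (nat_lit 3) (nat_lit 5) (nat_lit 5) (nat_lit 4) (nat_lit 3) (nat_lit 4) (nat_lit 320) (nat_lit 211) (nat_lit 189)) (XT.lf (nat_lit 0) (nat_lit 21695173007) (nat_lit 152) (nat_lit 35723068459) (nat_lit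 0) (nat_lit 14725316430) (nat_lit 3) (nat_lit 5) (nat_lit 5) (nat_lit 4) (nat_lit 3) (nat_lit 4) (nat_lit 321) (nat_lit 211) (nat_lit 188))) (XT.nd (nat_lit 78) (nat_lit 0) (nat_lit 0) (XT.lf (nat_lit 0) (nat_lit 25951158967) (nat_lit 152) (nat_lit 30865550135) (nat_lit 0) (nat_lit 18821083164) (nat_lit 3) (nat_lit 5) (nat_lit 5) (nat_lit 4) (nat_lit 3) (nat_lit 4) (nat_lit 322) (nat_lit 211) (nat_lit 187)) (XT.nd (nat_lit 78) (nat_lit 0) (nat_lit 0) (XT.lf (nat_lit 0) (nat_lit 30351696381) (nat_lit 152) (nat_lit 25888101226) (nat_lit 0) (nat_lit 23069030839) (nat_lit 3) (nat_lit 5) (nat_lit 5) (nat_lit 4) (nat_lit 3) (nat_lit 4) (nat_lit 323) (nat_lit 211) (nat_lit 186)) (XT.lf (nat_lit 0) (nat_lit 34907262718) (nat_lit 152) (nat_lit 20778870662) (nat_lit 0) (nat_lit 27479273615) (nat_lit 3) (nat_lit 5) (nat_lit 5) (nat_lit 4) (nat_lit 3) (nat_lit 4) (nat_lit 324) (nat_lit 211) (nat_lit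 185))))) (XT.nd (nat_lit 156) (nat_lit 76) (nat_lit 0) (XT.nd (nat_lit 78) (nat_lit 0) (nat_lit 0) (XT.lf (nat_lit 0) (nat_lit 39628704566) (nat_lit 152) (nat_lit 15525693610) (nat_lit 0) (nat_lit 32062312072) (nat_lit 3) (nat_lit 5) (nat_lit 5) (nat_lit 4) (nat_lit 3) (nat_lit 4) (nat_lit 325) (nat_lit 211) (nat_lit 184)) (XT.lf (nat_lit 0) (nat_lit 44527263453) (nat_lit 152) (nat_lit 10116062505) (nat_lit 0) (nat_lit 36829058205) (nat_lit 3) (nat_lit 5) (nat_lit 5) (nat_lit 4) (nat_lit 3) (nat_lit 4) (nat_lit 326) (nat_lit 211) (nat_lit 183))) (XT.nd (nat_lit 78) (nat_lit 76) (nat_lit 0) (XT.lf (nat_lit 0) (nat_lit 49614602614) (nat_lit 152) (nat_lit 4537097273) (nat_lit 0) (nat_lit 41790861410) (nat_lit 3) (nat_lit 5) (nat_lit 5) (nat_lit 4) (nat_lit 3) (nat_lit 4) (nat_lit 327) (nat_lit 211) (nat_lit 182)) (XT.nd (nat_lit 78) (nat_lit 0) (nat_lit 0) (XT.lf (nat_lit 0) (nat_lit 1248854995)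 (nat_lit 76) (nat_lit 53665984523) (nat_lit 76) (nat_lit 45722685267) (nat_lit 2) (nat_lit 4) (nat_lit 3) (nat_lit 5) (nat_lit 3) (nat_lit 4) (nat_lit 328) (nat_lit 211) (nat_lit 181)) (XT.lf (nat_lit 0) (nat_lit 7325347288) (nat_lit 76) (nat_lit 53149619354) (nat_lit 76) (nat_lit 45092455285) (nat_lit 2) (nat_lit 4) (nat_lit 3) (nat_lit 5) (nat_lit 3) (nat_lit 4) (nat_lit 329) (nat_lit 211) (nat_lit 180)))))) (XT.nd (nat_lit 34866) (nat_lit 0) (nat_lit 532) (XT.nd (nat_lit 156) (nat_lit 0) (nat_lit 0) (XT.nd (nat_lit 78) (nat_lit 0) (nat_lit 0) (XT.lf (nat_lit 0) (nat_lit 13616550312) (nat_lit 76) (nat_lit 52647190725) (nat_lit 76) (nat_lit 44481583977) (nat_lit 2) (nat_lit 4) (nat_lit 3) (nat_lit 5) (nat_lit 3) (nat_lit 4) (nat_lit 330) (nat_lit 211) (nat_lit 179)) (XT.lf (nat_lit 0) (nat_lit 20137443120) (nat_lit 76) (nat_lit 52157502377) (nat_lit 76) (nat_lit 43888616888) (nat_lit 2)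 (nat_lit 4) (nat_lit 3) (nat_lit 5) (nat_lit 3) (nat_lit 4) (nat_lit 331) (nat_lit 211) (nat_lit 178))) (XT.nd (nat_lit 78) (nat_lit 0) (nat_lit 0) (XT.lf (nat_lit 0) (nat_lit 26903551649) (nat_lit 76) (nat_lit 51679388385) (nat_lit 76) (nat_lit 43312142191) (nat_lit 2) (nat_lit 4) (nat_lit 3) (nat_lit 5) (nat_lit 3) (nat_lit 4) (nat_lit 332) (nat_lit 211) (nat_lit 177)) (XT.nd (nat_lit 156) (nat_lit 0) (nat_lit 0) (XT.lf (nat_lit 0) (nat_lit 33930985681) (nat_lit 76) (nat_lit 51211710384) (nat_lit 76) (nat_lit 42750787327) (nat_lit 2) (nat_lit 4) (nat_lit 3) (nat_lit 5) (nat_lit 3) (nat_lit 4) (nat_lit 333) (nat_lit 211) (nat_lit 176)) (XT.lf (nat_lit 0) (nat_lit 48837420237) (nat_lit 76) (nat_lit 50303230473) (nat_lit 76) (nat_lit 41668123679) (nat_lit 2) (nat_lit 4) (nat_lit 3) (nat_lit 5) (nat_lit 3) (nat_lit 4) (nat_lit 335) (nat_lit 211) (nat_lit 174))))) (XT.nd (nat_lit 234) (nat_lit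 152) (nat_lit 0) (XT.nd (nat_lit 78) (nat_lit 76) (nat_lit 0) (XT.lf (nat_lit 0) (nat_lit 5179596601) (nat_lit 152) (nat_lit 1384412253) (nat_lit 0) (nat_lit 5179596601) (nat_lit 12) (nat_lit 5) (nat_lit 14) (nat_lit 4) (nat_lit 12) (nat_lit 4) (nat_lit 296) (nat_lit 212) (nat_lit 212)) (XT.nd (nat_lit 78) (nat_lit 0) (nat_lit 0) (XT.lf (nat_lit 0) (nat_lit 7627403070) (nat_lit 76) (nat_lit 8706275000) (nat_lit 76) (nat_lit 8141637809) (nat_lit 11) (nat_lit 4) (nat_lit 12) (nat_lit 5) (nat_lit 12) (nat_lit 4) (nat_lit 297) (nat_lit 212) (nat_lit 211)) (XT.lf (nat_lit 0) (nat_lit 18267743411) (nat_lit 76) (nat_lit 4176253310) (nat_lit 76) (nat_lit 3073866413) (nat_lit 11) (nat_lit 4) (nat_lit 12) (nat_lit 5) (nat_lit 12) (nat_lit 4) (nat_lit 298) (nat_lit 212) (nat_lit 210)))) (XT.nd (nat_lit 78) (nat_lit 0) (nat_lit 0) (XT.lf (nat_lit 0) (nat_lit 2048287743) (nat_lit 152) (nat_lit 24087612126)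 (nat_lit 0) (nat_lit 480783400) (nat_lit 9) (nat_lit 5) (nat_lit 11) (nat_lit 4) (nat_lit 9) (nat_lit 4) (nat_lit 299) (nat_lit 212) (nat_lit 209)) (XT.nd (nat_lit 78) (nat_lit 0) (nat_lit 0) (XT.lf (nat_lit 0) (nat_lit 7301353147) (nat_lit 152) (nat_lit 15209858916) (nat_lit 0) (nat_lit 5260300420) (nat_lit 9) (nat_lit 5) (nat_lit 11) (nat_lit 4) (nat_lit 9) (nat_lit 4) (nat_lit 300) (nat_lit 212) (nat_lit 208)) (XT.lf (nat_lit 0) (nat_lit 12645891237) (nat_lit 152) (nat_lit 6189613367) (nat_lit 0) (nat_lit 10153840049) (nat_lit 9) (nat_lit 5) (nat_lit 11) (nat_lit 4) (nat_lit 9) (nat_lit 4) (nat_lit 301) (nat_lit 212) (nat_lit 207))))))) (XT.nd (nat_lit 858) (nat_lit 152) (nat_lit 0) (XT.nd (nat_lit 390) (nat_lit 76) (nat_lit 0) (XT.nd (nat_lit 156) (nat_lit 152) (nat_lit 0) (XT.nd (nat_lit 78) (nat_lit 0) (nat_lit 0) (XT.lf (nat_lit 0) (nat_lit 3054199735) (nat_lit 76) (nat_lit 15069786202)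 (nat_lit 76) (nat_lit 12148212672) (nat_lit 8) (nat_lit 4) (nat_lit 9) (nat_lit 5) (nat_lit 9) (nat_lit 4) (nat_lit 302) (nat_lit 212) (nat_lit 206)) (XT.lf (nat_lit 0) (nat_lit 12610733080) (nat_lit 76) (nat_lit 11171022923) (nat_lit 76) (nat_lit 7840380494) (nat_lit 8) (nat_lit 4) (nat_lit 9) (nat_lit 5) (nat_lit 9) (nat_lit 4) (nat_lit 303) (nat_lit 212) (nat_lit 205))) (XT.nd (nat_lit 78) (nat_lit 152) (nat_lit 0) (XT.lf (nat_lit 0) (nat_lit 22379554877) (nat_lit 76) (nat_lit 7192434956) (nat_lit 76) (nat_lit 3472203099) (nat_lit 8) (nat_lit 4) (nat_lit 9) (nat_lit 5) (nat_lit 9) (nat_lit 4) (nat_lit 304) (nat_lit 212) (nat_lit 204)) (XT.nd (nat_lit 78) (nat_lit 76) (nat_lit 0) (XT.lf (nat_lit 0) (nat_lit 947855747) (nat_lit 152) (nat_lit 2167122239) (nat_lit 76) (nat_lit 31426496992) (nat_lit 7) (nat_lit 5) (nat_lit 9) (nat_lit 5) (nat_lit 8) (nat_lit 4) (nat_lit 305) (nat_lit 212)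 (nat_lit 203)) (XT.lf (nat_lit 0) (nat_lit 5454552879) (nat_lit 152) (nat_lit 29520639561) (nat_lit 0) (nat_lit 1139369868) (nat_lit 6) (nat_lit 5) (nat_lit 8) (nat_lit 4) (nat_lit 6) (nat_lit 4) (nat_lit 306) (nat_lit 212) (nat_lit 202))))) (XT.nd (nat_lit 234) (nat_lit 76) (nat_lit 0) (XT.nd (nat_lit 78) (nat_lit 0) (nat_lit 0) (XT.lf (nat_lit 0) (nat_lit 10105966726) (nat_lit 152) (nat_lit 22198803248) (nat_lit 0) (nat_lit 5464043914) (nat_lit 6) (nat_lit 5) (nat_lit 8) (nat_lit 4) (nat_lit 6) (nat_lit 4) (nat_lit 307) (nat_lit 212) (nat_lit 201)) (XT.nd (nat_lit 78) (nat_lit 0) (nat_lit 0) (XT.lf (nat_lit 0) (nat_lit 14861772353) (nat_lit 152) (nat_lit 14739269273) (nat_lit 0) (nat_lit 9908668779) (nat_lit 6) (nat_lit 5) (nat_lit 8) (nat_lit 4) (nat_lit 6) (nat_lit 4) (nat_lit 308) (nat_lit 212) (nat_lit 200)) (XT.lf (nat_lit 0) (nat_lit 19733293107) (nat_lit 152) (nat_lit 7124276841)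 (nat_lit 0) (nat_lit 14483826901) (nat_lit 6) (nat_lit 5) (nat_lit 8) (nat_lit 4) (nat_lit 6) (nat_lit 4) (nat_lit 309) (nat_lit 212) (nat_lit 199)))) (XT.nd (nat_lit 78) (nat_lit 0) (nat_lit 0) (XT.lf (nat_lit 0) (nat_lit 677525955) (nat_lit 76) (nat_lit 24061114685) (nat_lit 76) (nat_lit 18529398354) (nat_lit 5) (nat_lit 4) (nat_lit 6) (nat_lit 5) (nat_lit 6) (nat_lit 4) (nat_lit 310) (nat_lit 212) (nat_lit 198)) (XT.nd (nat_lit 78) (nat_lit 0) (nat_lit 0) (XT.lf (nat_lit 0) (nat_lit 8817073300) (nat_lit 76) (nat_lit 21137860361) (nat_lit 76) (nat_lit 15337334387) (nat_lit 5) (nat_lit 4) (nat_lit 6) (nat_lit 5) (nat_lit 6) (nat_lit 4) (nat_lit 311) (nat_lit 212) (nat_lit 197)) (XT.lf (nat_lit 0) (nat_lit 17171957990) (nat_lit 76) (nat_lit 18152788073) (nat_lit 76) (nat_lit 12096252915) (nat_lit 5) (nat_lit 4) (nat_lit 6) (nat_lit 5) (nat_lit 6) (nat_lit 4) (nat_lit 312) (nat_lit 212) (nat_lit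 196)))))) (XT.nd (nat_lit 390) (nat_lit 0) (nat_lit 0) (XT.nd (nat_lit 156) (nat_lit 152) (nat_lit 0) (XT.nd (nat_lit 78) (nat_lit 0) (nat_lit 0) (XT.lf (nat_lit 0) (nat_lit 25762072608) (nat_lit 76) (nat_lit 15098790506) (nat_lit 76) (nat_lit 8798437078) (nat_lit 5) (nat_lit 4) (nat_lit 6) (nat_lit 5) (nat_lit 6) (nat_lit 4) (nat_lit 313) (nat_lit 212) (nat_lit 195)) (XT.lf (nat_lit 0) (nat_lit 34607869807) (nat_lit 76) (nat_lit 11968596238) (nat_lit 76) (nat_lit 5436034934) (nat_lit 5) (nat_lit 4) (nat_lit 6) (nat_lit 5) (nat_lit 6) (nat_lit 4) (nat_lit 314) (nat_lit 212) (nat_lit 194))) (XT.nd (nat_lit 78) (nat_lit 152) (nat_lit 0) (XT.lf (nat_lit 0) (nat_lit 43730411010) (nat_lit 76) (nat_lit 8754752426) (nat_lit 76) (nat_lit 2001040762) (nat_lit 5) (nat_lit 4) (nat_lit 6) (nat_lit 5) (nat_lit 6) (nat_lit 4) (nat_lit 315) (nat_lit 212) (nat_lit 193)) (XT.nd (nat_lit 78) (nat_lit 76)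 (nat_lit 0) (XT.lf (nat_lit 0) (nat_lit 1485166272) (nat_lit 152) (nat_lit 3949443520) (nat_lit 76) (nat_lit 51651253013) (nat_lit 4) (nat_lit 5) (nat_lit 6) (nat_lit 5) (nat_lit 5) (nat_lit 4) (nat_lit 316) (nat_lit 212) (nat_lit 192)) (XT.lf (nat_lit 0) (nat_lit 3085332387) (nat_lit 76) (nat_lit 1964053491) (nat_lit 152) (nat_lit 54767225930) (nat_lit 3) (nat_lit 5) (nat_lit 4) (nat_lit 5) (nat_lit 5) (nat_lit 4) (nat_lit 317) (nat_lit 212) (nat_lit 191))))) (XT.nd (nat_lit 234) (nat_lit 0) (nat_lit 0) (XT.nd (nat_lit 78) (nat_lit 0) (nat_lit 0) (XT.lf (nat_lit 0) (nat_lit 8766068838) (nat_lit 152) (nat_lit 52294292575) (nat_lit 0) (nat_lit 1624361128) (nat_lit 3) (nat_lit 5) (nat_lit 5) (nat_lit 4) (nat_lit 3) (nat_lit 4) (nat_lit 318) (nat_lit 212) (nat_lit 190)) (XT.nd (nat_lit 78) (nat_lit 0) (nat_lit 0) (XT.lf (nat_lit 0) (nat_lit 12609404202) (nat_lit 152) (nat_lit 47797604642) (nat_lit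 0) (nat_lit 5291054796) (nat_lit 3) (nat_lit 5) (nat_lit 5) (nat_lit 4) (nat_lit 3) (nat_lit 4) (nat_lit 319) (nat_lit 212) (nat_lit 189)) (XT.lf (nat_lit 0) (nat_lit 16569663087) (nat_lit 152) (nat_lit 43211629539) (nat_lit 0) (nat_lit 9083083494) (nat_lit 3) (nat_lit 5) (nat_lit 5) (nat_lit 4) (nat_lit 3) (nat_lit 4) (nat_lit 320) (nat_lit 212) (nat_lit 188)))) (XT.nd (nat_lit 78) (nat_lit 0) (nat_lit 0) (XT.lf (nat_lit 0) (nat_lit 20656274680) (nat_lit 152) (nat_lit 38525448279) (nat_lit 0) (nat_lit 13009475861) (nat_lit 3) (nat_lit 5) (nat_lit 5) (nat_lit 4) (nat_lit 3) (nat_lit 4) (nat_lit 321) (nat_lit 212) (nat_lit 187)) (XT.nd (nat_lit 78) (nat_lit 0) (nat_lit 0) (XT.lf (nat_lit 0) (nat_lit 24878969008) (nat_lit 152) (nat_lit 33727903287) (nat_lit 0) (nat_lit 17079580450) (nat_lit 3) (nat_lit 5) (nat_lit 5) (nat_lit 4) (nat_lit 3) (nat_lit 4) (nat_lit 322) (nat_lit 212) (nat_lit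 186)) (XT.lf (nat_lit 0) (nat_lit 29247800106) (nat_lit 152) (nat_lit 28807571837) (nat_lit 0) (nat_lit 21303087988) (nat_lit 3) (nat_lit 5) (nat_lit 5) (nat_lit 4) (nat_lit 3) (nat_lit 4) (nat_lit 323) (nat_lit 212) (nat_lit 185))))))))
noncomputable def xc9 : XT := (XT.nd (nat_lit 36036) (nat_lit 0) (nat_lit 76) (XT.nd (nat_lit 35178) (nat_lit 0) (nat_lit 456) (XT.nd (nat_lit 390) (nat_lit 76) (nat_lit 0) (XT.nd (nat_lit 156) (nat_lit 0) (nat_lit 0) (XT.nd (nat_lit 78) (nat_lit 0) (nat_lit 0) (XT.lf (nat_lit 0) (nat_lit 33773169953) (nat_lit 152) (nat_lit 23752738854) (nat_lit 0) (nat_lit 25690054443) (nat_lit 3) (nat_lit 5) (nat_lit 5) (nat_lit 4) (nat_lit 3) (nat_lit 4) (nat_lit 324) (nat_lit 212) (nat_lit 184)) (XT.lf (nat_lit 0) (nat_lit 38465853238) (nat_lit 152) (nat_lit 18551369021) (nat_lit 0) (nat_lit 30250924975) (nat_lit 3) (nat_lit 5) (nat_lit 5) (nat_lit 4) (nat_lit 3) (nat_lit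 4) (nat_lit 325) (nat_lit 212) (nat_lit 183))) (XT.nd (nat_lit 78) (nat_lit 0) (nat_lit 0) (XT.lf (nat_lit 0) (nat_lit 43337023017) (nat_lit 152) (nat_lit 13191078125) (nat_lit 0) (nat_lit 34996558798) (nat_lit 3) (nat_lit 5) (nat_lit 5) (nat_lit 4) (nat_lit 3) (nat_lit 4) (nat_lit 326) (nat_lit 212) (nat_lit 182)) (XT.nd (nat_lit 78) (nat_lit 0) (nat_lit 0) (XT.lf (nat_lit 0) (nat_lit 48398277314) (nat_lit 152) (nat_lit 7659103568) (nat_lit 0) (nat_lit 39938255042) (nat_lit 3) (nat_lit 5) (nat_lit 5) (nat_lit 4) (nat_lit 3) (nat_lit 4) (nat_lit 327) (nat_lit 212) (nat_lit 181)) (XT.lf (nat_lit 0) (nat_lit 53661666733) (nat_lit 152) (nat_lit 1942273981) (nat_lit 0) (nat_lit 45087779649) (nat_lit 3) (nat_lit 5) (nat_lit 5) (nat_lit 4) (nat_lit 3) (nat_lit 4) (nat_lit 328) (nat_lit 212) (nat_lit 180))))) (XT.nd (nat_lit 234) (nat_lit 0) (nat_lit 0) (XT.nd (nat_lit 78) (nat_lit 0) (nat_lit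 0) (XT.lf (nat_lit 0) (nat_lit 4052093063) (nat_lit 76) (nat_lit 55126581289) (nat_lit 76) (nat_lit 46444251526) (nat_lit 2) (nat_lit 4) (nat_lit 3) (nat_lit 5) (nat_lit 3) (nat_lit 4) (nat_lit 329) (nat_lit 212) (nat_lit 179)) (XT.nd (nat_lit 78) (nat_lit 0) (nat_lit 0) (XT.lf (nat_lit 0) (nat_lit 10301895907) (nat_lit 76) (nat_lit 54642621788) (nat_lit 76) (nat_lit 45857013284) (nat_lit 2) (nat_lit 4) (nat_lit 3) (nat_lit 5) (nat_lit 3) (nat_lit 4) (nat_lit 330) (nat_lit 212) (nat_lit 178)) (XT.lf (nat_lit 0) (nat_lit 16783359974) (nat_lit 76) (nat_lit 54170523086) (nat_lit 76) (nat_lit 45286553876) (nat_lit 2) (nat_lit 4) (nat_lit 3) (nat_lit 5) (nat_lit 3) (nat_lit 4) (nat_lit 331) (nat_lit 212) (nat_lit 177)))) (XT.nd (nat_lit 78) (nat_lit 0) (nat_lit 0) (XT.lf (nat_lit 0) (nat_lit 23511917321) (nat_lit 76) (nat_lit 53709161139) (nat_lit 76) (nat_lit 44731515065) (nat_lit 2) (nat_lit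 4) (nat_lit 3) (nat_lit 5) (nat_lit 3) (nat_lit 4) (nat_lit 332) (nat_lit 212) (nat_lit 176)) (XT.nd (nat_lit 156) (nat_lit 0) (nat_lit 0) (XT.lf (nat_lit 0) (nat_lit 30503588322) (nat_lit 76) (nat_lit 53257437465) (nat_lit 76) (nat_lit 44190575331) (nat_lit 2) (nat_lit 4) (nat_lit 3) (nat_lit 5) (nat_lit 3) (nat_lit 4) (nat_lit 333) (nat_lit 212) (nat_lit 175)) (XT.lf (nat_lit 0) (nat_lit 45343524726) (nat_lit 76) (nat_lit 52378623196) (nat_lit 76) (nat_lit 43145871790) (nat_lit 2) (nat_lit 4) (nat_lit 3) (nat_lit 5) (nat_lit 3) (nat_lit 4) (nat_lit 335) (nat_lit 212) (nat_lit 173)))))) (XT.nd (nat_lit 390) (nat_lit 228) (nat_lit 0) (XT.nd (nat_lit 156) (nat_lit 76) (nat_lit 0) (XT.nd (nat_lit 78) (nat_lit 152) (nat_lit 0) (XT.lf (nat_lit 0) (nat_lit 10350097839) (nat_lit 152) (nat_lit 239838880) (nat_lit 152) (nat_lit 239838880) (nat_lit 14) (nat_lit 4) (nat_lit 16) (nat_lit 5) (nat_lit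 16) (nat_lit 4) (nat_lit 294) (nat_lit 213) (nat_lit 213)) (XT.lf (nat_lit 0) (nat_lit 5143717843) (nat_lit 152) (nat_lit 12855293018) (nat_lit 0) (nat_lit 4550848792) (nat_lit 12) (nat_lit 5) (nat_lit 14) (nat_lit 4) (nat_lit 12) (nat_lit 4) (nat_lit 295) (nat_lit 213) (nat_lit 212))) (XT.nd (nat_lit 78) (nat_lit 76) (nat_lit 0) (XT.lf (nat_lit 0) (nat_lit 10855673947) (nat_lit 152) (nat_lit 2936337905) (nat_lit 0) (nat_lit 9698167706) (nat_lit 12) (nat_lit 5) (nat_lit 14) (nat_lit 4) (nat_lit 12) (nat_lit 4) (nat_lit 296) (nat_lit 213) (nat_lit 211)) (XT.nd (nat_lit 78) (nat_lit 0) (nat_lit 0) (XT.lf (nat_lit 0) (nat_lit 7293844166) (nat_lit 76) (nat_lit 9441309889) (nat_lit 76) (nat_lit 7746053942) (nat_lit 11) (nat_lit 4) (nat_lit 12) (nat_lit 5) (nat_lit 12) (nat_lit 4) (nat_lit 297) (nat_lit 213) (nat_lit 210)) (XT.lf (nat_lit 0) (nat_lit 17779221021) (nat_lit 76) (nat_lit 4977335046)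 (nat_lit 76) (nat_lit 2769936522) (nat_lit 11) (nat_lit 4) (nat_lit 12) (nat_lit 5) (nat_lit 12) (nat_lit 4) (nat_lit 298) (nat_lit 213) (nat_lit 209))))) (XT.nd (nat_lit 234) (nat_lit 76) (nat_lit 0) (XT.nd (nat_lit 78) (nat_lit 0) (nat_lit 0) (XT.lf (nat_lit 0) (nat_lit 1871575687) (nat_lit 76) (nat_lit 378044532) (nat_lit 152) (nat_lit 24378569432) (nat_lit 9) (nat_lit 5) (nat_lit 10) (nat_lit 5) (nat_lit 11) (nat_lit 4) (nat_lit 299) (nat_lit 213) (nat_lit 208)) (XT.nd (nat_lit 78) (nat_lit 0) (nat_lit 0) (XT.lf (nat_lit 0) (nat_lit 7415548904) (nat_lit 152) (nat_lit 16022248867) (nat_lit 0) (nat_lit 4347896696) (nat_lit 9) (nat_lit 5) (nat_lit 11) (nat_lit 4) (nat_lit 9) (nat_lit 4) (nat_lit 300) (nat_lit 213) (nat_lit 207)) (XT.lf (nat_lit 0) (nat_lit 12680560589) (nat_lit 152) (nat_lit 7142024372) (nat_lit 0) (nat_lit 9183386038) (nat_lit 9) (nat_lit 5) (nat_lit 11) (nat_lit 4) (nat_lit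 9) (nat_lit 4) (nat_lit 301) (nat_lit 213) (nat_lit 206)))) (XT.nd (nat_lit 78) (nat_lit 0) (nat_lit 0) (XT.lf (nat_lit 0) (nat_lit 1946826504) (nat_lit 76) (nat_lit 16125444604) (nat_lit 76) (nat_lit 12219201155) (nat_lit 8) (nat_lit 4) (nat_lit 9) (nat_lit 5) (nat_lit 9) (nat_lit 4) (nat_lit 302) (nat_lit 213) (nat_lit 205)) (XT.nd (nat_lit 78) (nat_lit 0) (nat_lit 0) (XT.lf (nat_lit 0) (nat_lit 11373829012) (nat_lit 76) (nat_lit 12282834240) (nat_lit 76) (nat_lit 7987001363) (nat_lit 8) (nat_lit 4) (nat_lit 9) (nat_lit 5) (nat_lit 9) (nat_lit 4) (nat_lit 303) (nat_lit 213) (nat_lit 204)) (XT.lf (nat_lit 0) (nat_lit 21019288107) (nat_lit 76) (nat_lit 8357725238) (nat_lit 76) (nat_lit 3690854812) (nat_lit 8) (nat_lit 4) (nat_lit 9) (nat_lit 5) (nat_lit 9) (nat_lit 4) (nat_lit 304) (nat_lit 213) (nat_lit 203))))))) (XT.nd (nat_lit 858) (nat_lit 152) (nat_lit 0) (XT.nd (nat_lit 390) (nat_lit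 76) (nat_lit 0) (XT.nd (nat_lit 156) (nat_lit 0) (nat_lit 0) (XT.nd (nat_lit 78) (nat_lit 76) (nat_lit 0) (XT.lf (nat_lit 0) (nat_lit 666208561) (nat_lit 152) (nat_lit 3667836140) (nat_lit 76) (nat_lit 30233233204) (nat_lit 7) (nat_lit 5) (nat_lit 9) (nat_lit 5) (nat_lit 8) (nat_lit 4) (nat_lit 305) (nat_lit 213) (nat_lit 202)) (XT.lf (nat_lit 0) (nat_lit 4959380870) (nat_lit 76) (nat_lit 122472521) (nat_lit 152) (nat_lit 31061287969) (nat_lit 6) (nat_lit 5) (nat_lit 7) (nat_lit 5) (nat_lit 8) (nat_lit 4) (nat_lit 306) (nat_lit 213) (nat_lit 201))) (XT.nd (nat_lit 78) (nat_lit 0) (nat_lit 0) (XT.lf (nat_lit 0) (nat_lit 9669563660) (nat_lit 152) (nat_lit 23972158679) (nat_lit 0) (nat_lit 4157624143) (nat_lit 6) (nat_lit 5) (nat_lit 8) (nat_lit 4) (nat_lit 6) (nat_lit 4) (nat_lit 307) (nat_lit 213) (nat_lit 200)) (XT.nd (nat_lit 78) (nat_lit 0) (nat_lit 0) (XT.lf (nat_lit 0) (nat_lit 14365820431)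 (nat_lit 152) (nat_lit 16618731163) (nat_lit 0) (nat_lit 8557518283) (nat_lit 6) (nat_lit 5) (nat_lit 8) (nat_lit 4) (nat_lit 6) (nat_lit 4) (nat_lit 308) (nat_lit 213) (nat_lit 199)) (XT.lf (nat_lit 0) (nat_lit 19180627988) (nat_lit 152) (nat_lit 9104792501) (nat_lit 0) (nat_lit 13090075716) (nat_lit 6) (nat_lit 5) (nat_lit 8) (nat_lit 4) (nat_lit 6) (nat_lit 4) (nat_lit 309) (nat_lit 213) (nat_lit 198))))) (XT.nd (nat_lit 234) (nat_lit 0) (nat_lit 0) (XT.nd (nat_lit 78) (nat_lit 76) (nat_lit 0) (XT.lf (nat_lit 0) (nat_lit 24125450160) (nat_lit 152) (nat_lit 1412452363) (nat_lit 0) (nat_lit 17766088244) (nat_lit 6) (nat_lit 5) (nat_lit 8) (nat_lit 4) (nat_lit 6) (nat_lit 4) (nat_lit 310) (nat_lit 213) (nat_lit 197)) (XT.nd (nat_lit 78) (nat_lit 0) (nat_lit 0) (XT.lf (nat_lit 0) (nat_lit 6605501472) (nat_lit 76) (nat_lit 22670054980) (nat_lit 76) (nat_lit 16054683881) (nat_lit 5) (nat_lit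 4) (nat_lit 6) (nat_lit 5) (nat_lit 6) (nat_lit 4) (nat_lit 311) (nat_lit 213) (nat_lit 196)) (XT.lf (nat_lit 0) (nat_lit 14871354793) (nat_lit 76) (nat_lit 19724167246) (nat_lit 76) (nat_lit 12864977877) (nat_lit 5) (nat_lit 4) (nat_lit 6) (nat_lit 5) (nat_lit 6) (nat_lit 4) (nat_lit 312) (nat_lit 213) (nat_lit 195)))) (XT.nd (nat_lit 78) (nat_lit 0) (nat_lit 0) (XT.lf (nat_lit 0) (nat_lit 23376677630) (nat_lit 76) (nat_lit 16707488303) (nat_lit 76) (nat_lit 9616091056) (nat_lit 5) (nat_lit 4) (nat_lit 6) (nat_lit 5) (nat_lit 6) (nat_lit 4) (nat_lit 313) (nat_lit 213) (nat_lit 194)) (XT.nd (nat_lit 78) (nat_lit 0) (nat_lit 0) (XT.lf (nat_lit 0) (nat_lit 32141720753) (nat_lit 76) (nat_lit 13612835581) (nat_lit 76) (nat_lit 6300287976) (nat_lit 5) (nat_lit 4) (nat_lit 6) (nat_lit 5) (nat_lit 6) (nat_lit 4) (nat_lit 314) (nat_lit 213) (nat_lit 193)) (XT.lf (nat_lit 0) (nat_lit 41187353312)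 (nat_lit 76) (nat_lit 10432840859) (nat_lit 76) (nat_lit 2909673865) (nat_lit 5) (nat_lit 4) (nat_lit 6) (nat_lit 5) (nat_lit 6) (nat_lit 4) (nat_lit 315) (nat_lit 213) (nat_lit 192)))))) (XT.nd (nat_lit 390) (nat_lit 0) (nat_lit 0) (XT.nd (nat_lit 156) (nat_lit 0) (nat_lit 0) (XT.nd (nat_lit 78) (nat_lit 76) (nat_lit 0) (XT.lf (nat_lit 0) (nat_lit 552821925) (nat_lit 152) (nat_lit 6601528378) (nat_lit 76) (nat_lit 49976708183) (nat_lit 4) (nat_lit 5) (nat_lit 6) (nat_lit 5) (nat_lit 5) (nat_lit 4) (nat_lit 316) (nat_lit 213) (nat_lit 191)) (XT.lf (nat_lit 0) (nat_lit 308492173) (nat_lit 76) (nat_lit 3742388149) (nat_lit 152) (nat_lit 55812937297) (nat_lit 3) (nat_lit 5) (nat_lit 4) (nat_lit 5) (nat_lit 5) (nat_lit 4) (nat_lit 317) (nat_lit 213) (nat_lit 190))) (XT.nd (nat_lit 78) (nat_lit 0) (nat_lit 0) (XT.lf (nat_lit 0) (nat_lit 7561446267) (nat_lit 76) (nat_lit 151943928) (nat_lit 152)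 (nat_lit 55020187436) (nat_lit 3) (nat_lit 5) (nat_lit 4) (nat_lit 5) (nat_lit 5) (nat_lit 4) (nat_lit 318) (nat_lit 213) (nat_lit 189)) (XT.nd (nat_lit 78) (nat_lit 0) (nat_lit 0) (XT.lf (nat_lit 0) (nat_lit 11518560958) (nat_lit 152) (nat_lit 50740103452) (nat_lit 0) (nat_lit 3489422198) (nat_lit 3) (nat_lit 5) (nat_lit 5) (nat_lit 4) (nat_lit 3) (nat_lit 4) (nat_lit 319) (nat_lit 213) (nat_lit 188)) (XT.lf (nat_lit 0) (nat_lit 15443863630) (nat_lit 152) (nat_lit 46217100349) (nat_lit 0) (nat_lit 7254505645) (nat_lit 3) (nat_lit 5) (nat_lit 5) (nat_lit 4) (nat_lit 3) (nat_lit 4) (nat_lit 320) (nat_lit 213) (nat_lit 187))))) (XT.nd (nat_lit 234) (nat_lit 0) (nat_lit 0) (XT.nd (nat_lit 78) (nat_lit 0) (nat_lit 0) (XT.lf (nat_lit 0) (nat_lit 19497183592) (nat_lit 152) (nat_lit 41590892421) (nat_lit 0) (nat_lit 11155235867) (nat_lit 3) (nat_lit 5) (nat_lit 5) (nat_lit 4) (nat_lit 3) (nat_lit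 4) (nat_lit 321) (nat_lit 213) (nat_lit 186)) (XT.nd (nat_lit 78) (nat_lit 0) (nat_lit 0) (XT.lf (nat_lit 0) (nat_lit 23688171605) (nat_lit 152) (nat_lit 36850464888) (nat_lit 0) (nat_lit 15200900320) (nat_lit 3) (nat_lit 5) (nat_lit 5) (nat_lit 4) (nat_lit 3) (nat_lit 4) (nat_lit 322) (nat_lit 213) (nat_lit 185)) (XT.lf (nat_lit 0) (nat_lit 28026806212) (nat_lit 152) (nat_lit 31984531019) (nat_lit 0) (nat_lit 19401131536) (nat_lit 3) (nat_lit 5) (nat_lit 5) (nat_lit 4) (nat_lit 3) (nat_lit 4) (nat_lit 323) (nat_lit 213) (nat_lit 184)))) (XT.nd (nat_lit 78) (nat_lit 0) (nat_lit 0) (XT.lf (nat_lit 0) (nat_lit 32523417496) (nat_lit 152) (nat_lit 26981505255) (nat_lit 0) (nat_lit 23765930066) (nat_lit 3) (nat_lit 5) (nat_lit 5) (nat_lit 4) (nat_lit 3) (nat_lit 4) (nat_lit 324) (nat_lit 213) (nat_lit 183)) (XT.nd (nat_lit 78) (nat_lit 0) (nat_lit 0) (XT.lf (nat_lit 0) (nat_lit 37188711674) (nat_lit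 152) (nat_lit 21829475631) (nat_lit 0) (nat_lit 28305688288) (nat_lit 3) (nat_lit 5) (nat_lit 5) (nat_lit 4) (nat_lit 3) (nat_lit 4) (nat_lit 325) (nat_lit 213) (nat_lit 182)) (XT.lf (nat_lit 0) (nat_lit 42033796589) (nat_lit 152) (nat_lit 16516175409) (nat_lit 0) (nat_lit 33031215150) (nat_lit 3) (nat_lit 5) (nat_lit 5) (nat_lit 4) (nat_lit 3) (nat_lit 4) (nat_lit 326) (nat_lit 213) (nat_lit 181))))))))
noncomputable def xc10 : XT := (XT.nd (nat_lit 35880) (nat_lit 0) (nat_lit 76) (XT.nd (nat_lit 35022) (nat_lit 0) (nat_lit 380) (XT.nd (nat_lit 390) (nat_lit 0) (nat_lit 0) (XT.nd (nat_lit 156) (nat_lit 76) (nat_lit 0) (XT.nd (nat_lit 78) (nat_lit 0) (nat_lit 0) (XT.lf (nat_lit 0) (nat_lit 47070208157) (nat_lit 152) (nat_lit 11028953876) (nat_lit 0) (nat_lit 37953761906) (nat_lit 3) (nat_lit 5) (nat_lit 5) (nat_lit 4) (nat_lit 3) (nat_lit 4) (nat_lit 327) (nat_lit 213) (nat_lit 180)) (XT.lf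 (nat_lit 0) (nat_lit 52309937836) (nat_lit 152) (nat_lit 5354746217) (nat_lit 0) (nat_lit 43085048906) (nat_lit 3) (nat_lit 5) (nat_lit 5) (nat_lit 4) (nat_lit 3) (nat_lit 4) (nat_lit 328) (nat_lit 213) (nat_lit 179))) (XT.nd (nat_lit 78) (nat_lit 0) (nat_lit 0) (XT.lf (nat_lit 0) (nat_lit 530305759) (nat_lit 76) (nat_lit 57240253035) (nat_lit 76) (nat_lit 47912085363) (nat_lit 2) (nat_lit 4) (nat_lit 3) (nat_lit 5) (nat_lit 3) (nat_lit 4) (nat_lit 329) (nat_lit 213) (nat_lit 178)) (XT.nd (nat_lit 78) (nat_lit 0) (nat_lit 0) (XT.lf (nat_lit 0) (nat_lit 6740679863) (nat_lit 76) (nat_lit 56773883179) (nat_lit 76) (nat_lit 47347354802) (nat_lit 2) (nat_lit 4) (nat_lit 3) (nat_lit 5) (nat_lit 3) (nat_lit 4) (nat_lit 330) (nat_lit 213) (nat_lit 177)) (XT.lf (nat_lit 0) (nat_lit 13184592748) (nat_lit 76) (nat_lit 56318536521) (nat_lit 76) (nat_lit 46798331281) (nat_lit 2) (nat_lit 4) (nat_lit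 3) (nat_lit 5) (nat_lit 3) (nat_lit 4) (nat_lit 331) (nat_lit 213) (nat_lit 176))))) (XT.nd (nat_lit 34398) (nat_lit 0) (nat_lit 836) (XT.nd (nat_lit 78) (nat_lit 0) (nat_lit 0) (XT.lf (nat_lit 0) (nat_lit 19877387064) (nat_lit 76) (nat_lit 55873128901) (nat_lit 76) (nat_lit 46263707601) (nat_lit 2) (nat_lit 4) (nat_lit 3) (nat_lit 5) (nat_lit 3) (nat_lit 4) (nat_lit 332) (nat_lit 213) (nat_lit 175)) (XT.nd (nat_lit 156) (nat_lit 0) (nat_lit 0) (XT.lf (nat_lit 0) (nat_lit 26834998035) (nat_lit 76) (nat_lit 55436599825) (nat_lit 76) (nat_lit 45742210848) (nat_lit 2) (nat_lit 4) (nat_lit 3) (nat_lit 5) (nat_lit 3) (nat_lit 4) (nat_lit 333) (nat_lit 213) (nat_lit 174)) (XT.lf (nat_lit 0) (nat_lit 41611602865) (nat_lit 76) (nat_lit 54586038549) (nat_lit 76) (nat_lit 44733659789) (nat_lit 2) (nat_lit 4) (nat_lit 3) (nat_lit 5) (nat_lit 3) (nat_lit 4) (nat_lit 335) (nat_lit 213) (nat_lit 172))))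 (XT.nd (nat_lit 78) (nat_lit 228) (nat_lit 0) (XT.lf (nat_lit 0) (nat_lit 4656892002) (nat_lit 152) (nat_lit 690098017) (nat_lit 0) (nat_lit 4656892002) (nat_lit 16) (nat_lit 5) (nat_lit 18) (nat_lit 4) (nat_lit 16) (nat_lit 4) (nat_lit 292) (nat_lit 214) (nat_lit 214)) (XT.nd (nat_lit 78) (nat_lit 76) (nat_lit 0) (XT.lf (nat_lit 0) (nat_lit 9462737603) (nat_lit 152) (nat_lit 5995313407) (nat_lit 152) (nat_lit 5354125529) (nat_lit 14) (nat_lit 4) (nat_lit 16) (nat_lit 5) (nat_lit 16) (nat_lit 4) (nat_lit 293) (nat_lit 214) (nat_lit 213)) (XT.lf (nat_lit 0) (nat_lit 59520099) (nat_lit 228) (nat_lit 1131017198) (nat_lit 76) (nat_lit 20472013322) (nat_lit 13) (nat_lit 5) (nat_lit 16) (nat_lit 5) (nat_lit 14) (nat_lit 4) (nat_lit 294) (nat_lit 214) (nat_lit 212)))))) (XT.nd (nat_lit 390) (nat_lit 152) (nat_lit 0) (XT.nd (nat_lit 156) (nat_lit 228) (nat_lit 0) (XT.nd (nat_lit 78) (nat_lit 0)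 (nat_lit 0) (XT.lf (nat_lit 0) (nat_lit 5568634318) (nat_lit 152) (nat_lit 13198695485) (nat_lit 0) (nat_lit 3788615573) (nat_lit 12) (nat_lit 5) (nat_lit 14) (nat_lit 4) (nat_lit 12) (nat_lit 4) (nat_lit 295) (nat_lit 214) (nat_lit 211)) (XT.lf (nat_lit 0) (nat_lit 11188792035) (nat_lit 152) (nat_lit 3439276941) (nat_lit 0) (nat_lit 8871023585) (nat_lit 12) (nat_lit 5) (nat_lit 14) (nat_lit 4) (nat_lit 12) (nat_lit 4) (nat_lit 296) (nat_lit 214) (nat_lit 210))) (XT.nd (nat_lit 78) (nat_lit 152) (nat_lit 0) (XT.lf (nat_lit 0) (nat_lit 6625932171) (nat_lit 76) (nat_lit 10348492559) (nat_lit 76) (nat_lit 7518581531) (nat_lit 11) (nat_lit 4) (nat_lit 12) (nat_lit 5) (nat_lit 12) (nat_lit 4) (nat_lit 297) (nat_lit 214) (nat_lit 209)) (XT.nd (nat_lit 78) (nat_lit 152) (nat_lit 0) (XT.lf (nat_lit 0) (nat_lit 16963724753) (nat_lit 76) (nat_lit 5947419475) (nat_lit 76) (nat_lit 2629753612) (nat_lit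 11) (nat_lit 4) (nat_lit 12) (nat_lit 5) (nat_lit 12) (nat_lit 4) (nat_lit 298) (nat_lit 214) (nat_lit 208)) (XT.lf (nat_lit 0) (nat_lit 878712128) (nat_lit 76) (nat_lit 1417300878) (nat_lit 152) (nat_lit 24349334608) (nat_lit 9) (nat_lit 5) (nat_lit 10) (nat_lit 5) (nat_lit 11) (nat_lit 4) (nat_lit 299) (nat_lit 214) (nat_lit 207))))) (XT.nd (nat_lit 234) (nat_lit 76) (nat_lit 0) (XT.nd (nat_lit 78) (nat_lit 76) (nat_lit 0) (XT.lf (nat_lit 0) (nat_lit 7372425320) (nat_lit 152) (nat_lit 17162301477) (nat_lit 0) (nat_lit 3270869698) (nat_lit 9) (nat_lit 5) (nat_lit 11) (nat_lit 4) (nat_lit 9) (nat_lit 4) (nat_lit 300) (nat_lit 214) (nat_lit 206)) (XT.nd (nat_lit 78) (nat_lit 76) (nat_lit 0) (XT.lf (nat_lit 0) (nat_lit 12561697572) (nat_lit 152) (nat_lit 8415430367) (nat_lit 0) (nat_lit 8051073052) (nat_lit 9) (nat_lit 5) (nat_lit 11) (nat_lit 4) (nat_lit 9) (nat_lit 4) (nat_lit 301) (nat_lit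 214) (nat_lit 205)) (XT.lf (nat_lit 0) (nat_lit 518546396) (nat_lit 76) (nat_lit 17348999401) (nat_lit 76) (nat_lit 12448785454) (nat_lit 8) (nat_lit 4) (nat_lit 9) (nat_lit 5) (nat_lit 9) (nat_lit 4) (nat_lit 302) (nat_lit 214) (nat_lit 204)))) (XT.nd (nat_lit 78) (nat_lit 76) (nat_lit 0) (XT.lf (nat_lit 0) (nat_lit 9822186202) (nat_lit 76) (nat_lit 13559868003) (nat_lit 76) (nat_lit 8288616506) (nat_lit 8) (nat_lit 4) (nat_lit 9) (nat_lit 5) (nat_lit 9) (nat_lit 4) (nat_lit 303) (nat_lit 214) (nat_lit 203)) (XT.nd (nat_lit 78) (nat_lit 76) (nat_lit 0) (XT.lf (nat_lit 0) (nat_lit 19350157008) (nat_lit 76) (nat_lit 9685691350) (nat_lit 76) (nat_lit 4061070759) (nat_lit 8) (nat_lit 4) (nat_lit 9) (nat_lit 5) (nat_lit 9) (nat_lit 4) (nat_lit 304) (nat_lit 214) (nat_lit 202)) (XT.lf (nat_lit 0) (nat_lit 239157666) (nat_lit 152) (nat_lit 5475672523) (nat_lit 76) (nat_lit 28883571769) (nat_lit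 7) (nat_lit 5) (nat_lit 9) (nat_lit 5) (nat_lit 8) (nat_lit 4) (nat_lit 305) (nat_lit 214) (nat_lit 201))))))) (XT.nd (nat_lit 858) (nat_lit 152) (nat_lit 0) (XT.nd (nat_lit 390) (nat_lit 76) (nat_lit 0) (XT.nd (nat_lit 156) (nat_lit 0) (nat_lit 0) (XT.nd (nat_lit 78) (nat_lit 0) (nat_lit 0) (XT.lf (nat_lit 0) (nat_lit 3005597162) (nat_lit 76) (nat_lit 1569415613) (nat_lit 152) (nat_lit 31601688764) (nat_lit 6) (nat_lit 5) (nat_lit 7) (nat_lit 5) (nat_lit 8) (nat_lit 4) (nat_lit 306) (nat_lit 214) (nat_lit 200)) (XT.lf (nat_lit 0) (nat_lit 9089265285) (nat_lit 152) (nat_lit 26051700123) (nat_lit 0) (nat_lit 2694185399) (nat_lit 6) (nat_lit 5) (nat_lit 8) (nat_lit 4) (nat_lit 6) (nat_lit 4) (nat_lit 307) (nat_lit 214) (nat_lit 199))) (XT.nd (nat_lit 78) (nat_lit 0) (nat_lit 0) (XT.lf (nat_lit 0) (nat_lit 13728808860) (nat_lit 152) (nat_lit 18799326378) (nat_lit 0) (nat_lit 7051478848) (nat_lit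 6) (nat_lit 5) (nat_lit 8) (nat_lit 4) (nat_lit 6) (nat_lit 4) (nat_lit 308) (nat_lit 214) (nat_lit 198)) (XT.nd (nat_lit 78) (nat_lit 0) (nat_lit 0) (XT.lf (nat_lit 0) (nat_lit 18489603850) (nat_lit 152) (nat_lit 11381629402) (nat_lit 0) (nat_lit 11543464195) (nat_lit 6) (nat_lit 5) (nat_lit 8) (nat_lit 4) (nat_lit 6) (nat_lit 4) (nat_lit 309) (nat_lit 214) (nat_lit 197)) (XT.lf (nat_lit 0) (nat_lit 23382985481) (nat_lit 152) (nat_lit 3780948013) (nat_lit 0) (nat_lit 16180836642) (nat_lit 6) (nat_lit 5) (nat_lit 8) (nat_lit 4) (nat_lit 6) (nat_lit 4) (nat_lit 310) (nat_lit 214) (nat_lit 196))))) (XT.nd (nat_lit 234) (nat_lit 0) (nat_lit 0) (XT.nd (nat_lit 78) (nat_lit 0) (nat_lit 0) (XT.lf (nat_lit 0) (nat_lit 4100836746) (nat_lit 76) (nat_lit 24359187667) (nat_lit 76) (nat_lit 16913220558) (nat_lit 5) (nat_lit 4) (nat_lit 6) (nat_lit 5) (nat_lit 6) (nat_lit 4) (nat_lit 311) (nat_lit 214)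 (nat_lit 195)) (XT.nd (nat_lit 78) (nat_lit 0) (nat_lit 0) (XT.lf (nat_lit 0) (nat_lit 12281898286) (nat_lit 76) (nat_lit 21450618556) (nat_lit 76) (nat_lit 13772443571) (nat_lit 5) (nat_lit 4) (nat_lit 6) (nat_lit 5) (nat_lit 6) (nat_lit 4) (nat_lit 312) (nat_lit 214) (nat_lit 194)) (XT.lf (nat_lit 0) (nat_lit 20706467048) (nat_lit 76) (nat_lit 18469481158) (nat_lit 76) (nat_lit 10570155814) (nat_lit 5) (nat_lit 4) (nat_lit 6) (nat_lit 5) (nat_lit 6) (nat_lit 4) (nat_lit 313) (nat_lit 214) (nat_lit 193)))) (XT.nd (nat_lit 78) (nat_lit 0) (nat_lit 0) (XT.lf (nat_lit 0) (nat_lit 29394601526) (nat_lit 76) (nat_lit 15408677526) (nat_lit 76) (nat_lit 7298732794) (nat_lit 5) (nat_lit 4) (nat_lit 6) (nat_lit 5) (nat_lit 6) (nat_lit 4) (nat_lit 314) (nat_lit 214) (nat_lit 192)) (XT.nd (nat_lit 78) (nat_lit 0) (nat_lit 0) (XT.lf (nat_lit 0) (nat_lit 38366987757) (nat_lit 76) (nat_lit 12260920034)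 (nat_lit 76) (nat_lit 3950385407) (nat_lit 5) (nat_lit 4) (nat_lit 6) (nat_lit 5) (nat_lit 6) (nat_lit 4) (nat_lit 315) (nat_lit 214) (nat_lit 191)) (XT.lf (nat_lit 0) (nat_lit 47644988564) (nat_lit 76) (nat_lit 9018714021) (nat_lit 76) (nat_lit 517141399) (nat_lit 5) (nat_lit 4) (nat_lit 6) (nat_lit 5) (nat_lit 6) (nat_lit 4) (nat_lit 316) (nat_lit 214) (nat_lit 190)))))) (XT.nd (nat_lit 390) (nat_lit 0) (nat_lit 0) (XT.nd (nat_lit 156) (nat_lit 0) (nat_lit 0) (XT.nd (nat_lit 78) (nat_lit 76) (nat_lit 0) (XT.lf (nat_lit 0) (nat_lit 2950453805) (nat_lit 152) (nat_lit 2694092343) (nat_lit 76) (nat_lit 54270446822) (nat_lit 4) (nat_lit 5) (nat_lit 6) (nat_lit 5) (nat_lit 5) (nat_lit 4) (nat_lit 317) (nat_lit 214) (nat_lit 189)) (XT.lf (nat_lit 0) (nat_lit 4439961792) (nat_lit 76) (nat_lit 2110162569) (nat_lit 152) (nat_lit 56236536742) (nat_lit 3) (nat_lit 5) (nat_lit 4) (nat_lit 5) (nat_lit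 5) (nat_lit 4) (nat_lit 318) (nat_lit 214) (nat_lit 188))) (XT.nd (nat_lit 78) (nat_lit 0) (nat_lit 0) (XT.lf (nat_lit 0) (nat_lit 10301515316) (nat_lit 152) (nat_lit 53958819802) (nat_lit 0) (nat_lit 1542470205) (nat_lit 3) (nat_lit 5) (nat_lit 5) (nat_lit 4) (nat_lit 3) (nat_lit 4) (nat_lit 319) (nat_lit 214) (nat_lit 187)) (XT.nd (nat_lit 78) (nat_lit 0) (nat_lit 0) (XT.lf (nat_lit 0) (nat_lit 14193526357) (nat_lit 152) (nat_lit 49495790030) (nat_lit 0) (nat_lit 5281891507) (nat_lit 3) (nat_lit 5) (nat_lit 5) (nat_lit 4) (nat_lit 3) (nat_lit 4) (nat_lit 320) (nat_lit 214) (nat_lit 186)) (XT.lf (nat_lit 0) (nat_lit 18215140003) (nat_lit 152) (nat_lit 44926699562) (nat_lit 0) (nat_lit 9158181593) (nat_lit 3) (nat_lit 5) (nat_lit 5) (nat_lit 4) (nat_lit 3) (nat_lit 4) (nat_lit 321) (nat_lit 214) (nat_lit 185))))) (XT.nd (nat_lit 234) (nat_lit 0) (nat_lit 0) (XT.nd (nat_lit 78) (nat_lit 0)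 (nat_lit 0) (XT.lf (nat_lit 0) (nat_lit 22375931525) (nat_lit 152) (nat_lit 40240669609) (nat_lit 0) (nat_lit 13180569723) (nat_lit 3) (nat_lit 5) (nat_lit 5) (nat_lit 4) (nat_lit 3) (nat_lit 4) (nat_lit 322) (nat_lit 214) (nat_lit 184)) (XT.nd (nat_lit 78) (nat_lit 0) (nat_lit 0) (XT.lf (nat_lit 0) (nat_lit 26685807569) (nat_lit 152) (nat_lit 35426542959) (nat_lit 0) (nat_lit 17358633014) (nat_lit 3) (nat_lit 5) (nat_lit 5) (nat_lit 4) (nat_lit 3) (nat_lit 4) (nat_lit 323) (nat_lit 214) (nat_lit 183)) (XT.lf (nat_lit 0) (nat_lit 31155029746) (nat_lit 152) (nat_lit 30472857404) (nat_lit 0) (nat_lit 21702319235) (nat_lit 3) (nat_lit 5) (nat_lit 5) (nat_lit 4) (nat_lit 3) (nat_lit 4) (nat_lit 324) (nat_lit 214) (nat_lit 182)))) (XT.nd (nat_lit 78) (nat_lit 0) (nat_lit 0) (XT.lf (nat_lit 0) (nat_lit 35794239059) (nat_lit 152) (nat_lit 25367818455) (nat_lit 0) (nat_lit 26221970495) (nat_lit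 3) (nat_lit 5) (nat_lit 5) (nat_lit 4) (nat_lit 3) (nat_lit 4) (nat_lit 325) (nat_lit 214) (nat_lit 181)) (XT.nd (nat_lit 78) (nat_lit 0) (nat_lit 0) (XT.lf (nat_lit 0) (nat_lit 40614481246) (nat_lit 152) (nat_lit 20099271257) (nat_lit 0) (nat_lit 30928347870) (nat_lit 3) (nat_lit 5) (nat_lit 5) (nat_lit 4) (nat_lit 3) (nat_lit 4) (nat_lit 326) (nat_lit 214) (nat_lit 180)) (XT.lf (nat_lit 0) (nat_lit 45627233074) (nat_lit 152) (nat_lit 14654671651) (nat_lit 0) (nat_lit 35832657020) (nat_lit 3) (nat_lit 5) (nat_lit 5) (nat_lit 4) (nat_lit 3) (nat_lit 4) (nat_lit 327) (nat_lit 214) (nat_lit 179))))))))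
noncomputable def xc11 : XT := (XT.nd (nat_lit 35724) (nat_lit 0) (nat_lit 76) (XT.nd (nat_lit 34866) (nat_lit 0) (nat_lit 456) (XT.nd (nat_lit 390) (nat_lit 0) (nat_lit 0) (XT.nd (nat_lit 156) (nat_lit 76) (nat_lit 0) (XT.nd (nat_lit 78) (nat_lit 0) (nat_lit 0) (XT.lf (nat_lit 0) (nat_lit 50844429666) (nat_lit 152) (nat_lit 9021056304) (nat_lit 0) (nat_lit 40946574870) (nat_lit 3) (nat_lit 5) (nat_lit 5) (nat_lit 4) (nat_lit 3) (nat_lit 4) (nat_lit 328) (nat_lit 214) (nat_lit 178)) (XT.lf (nat_lit 0) (nat_lit 56278492919) (nat_lit 152) (nat_lit 3185011847) (nat_lit 0) (nat_lit 46282277417) (nat_lit 3) (nat_lit 5) (nat_lit 5) (nat_lit 4) (nat_lit 3) (nat_lit 4) (nat_lit 329) (nat_lit 214) (nat_lit 177))) (XT.nd (nat_lit 78) (nat_lit 0) (nat_lit 0) (XT.lf (nat_lit 0) (nat_lit 2924423092) (nat_lit 76) (nat_lit 59046049330) (nat_lit 76) (nat_lit 48956156964) (nat_lit 2) (nat_lit 4) (nat_lit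 3) (nat_lit 5) (nat_lit 3) (nat_lit 4) (nat_lit 330) (nat_lit 214) (nat_lit 176)) (XT.nd (nat_lit 78) (nat_lit 0) (nat_lit 0) (XT.lf (nat_lit 0) (nat_lit 9332572946) (nat_lit 76) (nat_lit 58606656999) (nat_lit 76) (nat_lit 48427548573) (nat_lit 2) (nat_lit 4) (nat_lit 3) (nat_lit 5) (nat_lit 3) (nat_lit 4) (nat_lit 331) (nat_lit 214) (nat_lit 175)) (XT.lf (nat_lit 0) (nat_lit 15991307233) (nat_lit 76) (nat_lit 58176443976) (nat_lit 76) (nat_lit 47912367875) (nat_lit 2) (nat_lit 4) (nat_lit 3) (nat_lit 5) (nat_lit 3) (nat_lit 4) (nat_lit 332) (nat_lit 214) (nat_lit 174))))) (XT.nd (nat_lit 34242) (nat_lit 0) (nat_lit 912) (XT.nd (nat_lit 156) (nat_lit 0) (nat_lit 0) (XT.lf (nat_lit 0) (nat_lit 22916480082) (nat_lit 76) (nat_lit 57754385945) (nat_lit 76) (nat_lit 47409388247) (nat_lit 2) (nat_lit 4) (nat_lit 3) (nat_lit 5) (nat_lit 3) (nat_lit 4) (nat_lit 333) (nat_lit 214) (nat_lit 173))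 (XT.nd (nat_lit 34008) (nat_lit 0) (nat_lit 1216) (XT.lf (nat_lit 0) (nat_lit 37632769127) (nat_lit 76) (nat_lit 56930732282) (nat_lit 76) (nat_lit 46435268123) (nat_lit 2) (nat_lit 4) (nat_lit 3) (nat_lit 5) (nat_lit 3) (nat_lit 4) (nat_lit 335) (nat_lit 214) (nat_lit 171)) (XT.lf (nat_lit 0) (nat_lit 7522710278) (nat_lit 152) (nat_lit 868625061) (nat_lit 152) (nat_lit 868625061) (nat_lit 18) (nat_lit 4) (nat_lit 20) (nat_lit 5) (nat_lit 20) (nat_lit 4) (nat_lit 290) (nat_lit 215) (nat_lit 215)))) (XT.nd (nat_lit 78) (nat_lit 152) (nat_lit 0) (XT.lf (nat_lit 0) (nat_lit 4024823842) (nat_lit 152) (nat_lit 11868742932) (nat_lit 0) (nat_lit 3351576570) (nat_lit 16) (nat_lit 5) (nat_lit 18) (nat_lit 4) (nat_lit 16) (nat_lit 4) (nat_lit 291) (nat_lit 215) (nat_lit 214)) (XT.nd (nat_lit 78) (nat_lit 152) (nat_lit 0) (XT.lf (nat_lit 0) (nat_lit 9886049607) (nat_lit 152) (nat_lit 1553216863) (nat_lit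 0) (nat_lit 8571614457) (nat_lit 16) (nat_lit 5) (nat_lit 18) (nat_lit 4) (nat_lit 16) (nat_lit 4) (nat_lit 292) (nat_lit 215) (nat_lit 213)) (XT.lf (nat_lit 0) (nat_lit 9118212100) (nat_lit 152) (nat_lit 6812619706) (nat_lit 152) (nat_lit 4887529434) (nat_lit 14) (nat_lit 4) (nat_lit 16) (nat_lit 5) (nat_lit 16) (nat_lit 4) (nat_lit 293) (nat_lit 215) (nat_lit 212)))))) (XT.nd (nat_lit 390) (nat_lit 228) (nat_lit 0) (XT.nd (nat_lit 156) (nat_lit 76) (nat_lit 0) (XT.nd (nat_lit 78) (nat_lit 76) (nat_lit 0) (XT.lf (nat_lit 0) (nat_lit 422879439) (nat_lit 228) (nat_lit 1648221317) (nat_lit 76) (nat_lit 19600400957) (nat_lit 13) (nat_lit 5) (nat_lit 16) (nat_lit 5) (nat_lit 14) (nat_lit 4) (nat_lit 294) (nat_lit 215) (nat_lit 211)) (XT.lf (nat_lit 0) (nat_lit 5826609923) (nat_lit 152) (nat_lit 13886318043) (nat_lit 0) (nat_lit 2855203345) (nat_lit 12) (nat_lit 5) (nat_lit 14) (nat_lit 4) (nat_lit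 12) (nat_lit 4) (nat_lit 295) (nat_lit 215) (nat_lit 210))) (XT.nd (nat_lit 78) (nat_lit 76) (nat_lit 0) (XT.lf (nat_lit 0) (nat_lit 11359340605) (nat_lit 152) (nat_lit 4278839089) (nat_lit 0) (nat_lit 7875791450) (nat_lit 12) (nat_lit 5) (nat_lit 14) (nat_lit 4) (nat_lit 12) (nat_lit 4) (nat_lit 296) (nat_lit 215) (nat_lit 209)) (XT.nd (nat_lit 78) (nat_lit 0) (nat_lit 0) (XT.lf (nat_lit 0) (nat_lit 5622076817) (nat_lit 76) (nat_lit 11429982968) (nat_lit 76) (nat_lit 7458678977) (nat_lit 11) (nat_lit 4) (nat_lit 12) (nat_lit 5) (nat_lit 12) (nat_lit 4) (nat_lit 297) (nat_lit 215) (nat_lit 208)) (XT.lf (nat_lit 0) (nat_lit 15819312949) (nat_lit 76) (nat_lit 7088816321) (nat_lit 76) (nat_lit 2652983916) (nat_lit 11) (nat_lit 4) (nat_lit 12) (nat_lit 5) (nat_lit 12) (nat_lit 4) (nat_lit 298) (nat_lit 215) (nat_lit 207))))) (XT.nd (nat_lit 234) (nat_lit 76) (nat_lit 0) (XT.nd (nat_lit 78) (nat_lit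 76) (nat_lit 0) (XT.lf (nat_lit 0) (nat_lit 2187160114) (nat_lit 152) (nat_lit 438305385) (nat_lit 76) (nat_lit 24042745009) (nat_lit 10) (nat_lit 5) (nat_lit 12) (nat_lit 5) (nat_lit 11) (nat_lit 4) (nat_lit 299) (nat_lit 215) (nat_lit 206)) (XT.nd (nat_lit 78) (nat_lit 0) (nat_lit 0) (XT.lf (nat_lit 0) (nat_lit 7171879719) (nat_lit 152) (nat_lit 18632731157) (nat_lit 0) (nat_lit 2026655075) (nat_lit 9) (nat_lit 5) (nat_lit 11) (nat_lit 4) (nat_lit 9) (nat_lit 4) (nat_lit 300) (nat_lit 215) (nat_lit 205)) (XT.lf (nat_lit 0) (nat_lit 12289019179) (nat_lit 152) (nat_lit 10012863271) (nat_lit 0) (nat_lit 6754205107) (nat_lit 9) (nat_lit 5) (nat_lit 11) (nat_lit 4) (nat_lit 9) (nat_lit 4) (nat_lit 301) (nat_lit 215) (nat_lit 204)))) (XT.nd (nat_lit 78) (nat_lit 76) (nat_lit 0) (XT.lf (nat_lit 0) (nat_lit 17521184921) (nat_lit 152) (nat_lit 1209960667) (nat_lit 0) (nat_lit 11615333299) (nat_lit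 9) (nat_lit 5) (nat_lit 11) (nat_lit 4) (nat_lit 9) (nat_lit 4) (nat_lit 302) (nat_lit 215) (nat_lit 203)) (XT.nd (nat_lit 78) (nat_lit 0) (nat_lit 0) (XT.lf (nat_lit 0) (nat_lit 7952110260) (nat_lit 76) (nat_lit 15005164770) (nat_lit 76) (nat_lit 8745944053) (nat_lit 8) (nat_lit 4) (nat_lit 9) (nat_lit 5) (nat_lit 9) (nat_lit 4) (nat_lit 303) (nat_lit 215) (nat_lit 202)) (XT.lf (nat_lit 0) (nat_lit 17368187459) (nat_lit 76) (nat_lit 11179495116) (nat_lit 76) (nat_lit 4583732405) (nat_lit 8) (nat_lit 4) (nat_lit 9) (nat_lit 5) (nat_lit 9) (nat_lit 4) (nat_lit 304) (nat_lit 215) (nat_lit 201))))))) (XT.nd (nat_lit 858) (nat_lit 152) (nat_lit 0) (XT.nd (nat_lit 390) (nat_lit 76) (nat_lit 0) (XT.nd (nat_lit 156) (nat_lit 0) (nat_lit 0) (XT.nd (nat_lit 78) (nat_lit 152) (nat_lit 0) (XT.lf (nat_lit 0) (nat_lit 27036609570) (nat_lit 76) (nat_lit 7257246121) (nat_lit 76) (nat_lit 340967224) (nat_lit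 8) (nat_lit 4) (nat_lit 9) (nat_lit 5) (nat_lit 9) (nat_lit 4) (nat_lit 305) (nat_lit 215) (nat_lit 200)) (XT.lf (nat_lit 0) (nat_lit 739425159) (nat_lit 76) (nat_lit 3182228814) (nat_lit 152) (nat_lit 32294003886) (nat_lit 6) (nat_lit 5) (nat_lit 7) (nat_lit 5) (nat_lit 8) (nat_lit 4) (nat_lit 306) (nat_lit 215) (nat_lit 199))) (XT.nd (nat_lit 78) (nat_lit 0) (nat_lit 0) (XT.lf (nat_lit 0) (nat_lit 8363689940) (nat_lit 152) (nat_lit 28442378869) (nat_lit 0) (nat_lit 1070243302) (nat_lit 6) (nat_lit 5) (nat_lit 8) (nat_lit 4) (nat_lit 6) (nat_lit 4) (nat_lit 307) (nat_lit 215) (nat_lit 198)) (XT.nd (nat_lit 78) (nat_lit 0) (nat_lit 0) (XT.lf (nat_lit 0) (nat_lit 12949220947) (nat_lit 152) (nat_lit 21286246810) (nat_lit 0) (nat_lit 5386964667) (nat_lit 6) (nat_lit 5) (nat_lit 8) (nat_lit 4) (nat_lit 6) (nat_lit 4) (nat_lit 308) (nat_lit 215) (nat_lit 197)) (XT.lf (nat_lit 0) (nat_lit 17658575396)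 (nat_lit 152) (nat_lit 13960208583) (nat_lit 0) (nat_lit 9840309932) (nat_lit 6) (nat_lit 5) (nat_lit 8) (nat_lit 4) (nat_lit 6) (nat_lit 4) (nat_lit 309) (nat_lit 215) (nat_lit 196))))) (XT.nd (nat_lit 234) (nat_lit 0) (nat_lit 0) (XT.nd (nat_lit 78) (nat_lit 76) (nat_lit 0) (XT.lf (nat_lit 0) (nat_lit 22502966036) (nat_lit 152) (nat_lit 6446821240) (nat_lit 0) (nat_lit 14440882301) (nat_lit 6) (nat_lit 5) (nat_lit 8) (nat_lit 4) (nat_lit 6) (nat_lit 4) (nat_lit 310) (nat_lit 215) (nat_lit 195)) (XT.nd (nat_lit 78) (nat_lit 0) (nat_lit 0) (XT.lf (nat_lit 0) (nat_lit 1297115634) (nat_lit 76) (nat_lit 26209280164) (nat_lit 76) (nat_lit 17914988553) (nat_lit 5) (nat_lit 4) (nat_lit 6) (nat_lit 5) (nat_lit 6) (nat_lit 4) (nat_lit 311) (nat_lit 215) (nat_lit 194)) (XT.lf (nat_lit 0) (nat_lit 9397423098) (nat_lit 76) (nat_lit 23336252599) (nat_lit 76) (nat_lit 14820810630) (nat_lit 5) (nat_lit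 4) (nat_lit 6) (nat_lit 5) (nat_lit 6) (nat_lit 4) (nat_lit 312) (nat_lit 215) (nat_lit 193)))) (XT.nd (nat_lit 78) (nat_lit 0) (nat_lit 0) (XT.lf (nat_lit 0) (nat_lit 17745083215) (nat_lit 76) (nat_lit 20388964292) (nat_lit 76) (nat_lit 11662902934) (nat_lit 5) (nat_lit 4) (nat_lit 6) (nat_lit 5) (nat_lit 6) (nat_lit 4) (nat_lit 313) (nat_lit 215) (nat_lit 192)) (XT.nd (nat_lit 78) (nat_lit 0) (nat_lit 0) (XT.lf (nat_lit 0) (nat_lit 26359971366) (nat_lit 76) (nat_lit 17360397890) (nat_lit 76) (nat_lit 8433746638) (nat_lit 5) (nat_lit 4) (nat_lit 6) (nat_lit 5) (nat_lit 6) (nat_lit 4) (nat_lit 314) (nat_lit 215) (nat_lit 191)) (XT.lf (nat_lit 0) (nat_lit 35262599189) (nat_lit 76) (nat_lit 14243342522) (nat_lit 76) (nat_lit 5125653274) (nat_lit 5) (nat_lit 4) (nat_lit 6) (nat_lit 5) (nat_lit 6) (nat_lit 4) (nat_lit 315) (nat_lit 215) (nat_lit 190)))))) (XT.nd (nat_lit 390) (nat_lit 0) (nat_lit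 0) (XT.nd (nat_lit 156) (nat_lit 76) (nat_lit 0) (XT.nd (nat_lit 78) (nat_lit 76) (nat_lit 0) (XT.lf (nat_lit 0) (nat_lit 44474163418) (nat_lit 76) (nat_lit 11030376625) (nat_lit 76) (nat_lit 1730746431) (nat_lit 5) (nat_lit 4) (nat_lit 6) (nat_lit 5) (nat_lit 6) (nat_lit 4) (nat_lit 316) (nat_lit 215) (nat_lit 189)) (XT.lf (nat_lit 0) (nat_lit 1724731465) (nat_lit 152) (nat_lit 5971702411) (nat_lit 76) (nat_lit 52274448476) (nat_lit 4) (nat_lit 5) (nat_lit 6) (nat_lit 5) (nat_lit 5) (nat_lit 4) (nat_lit 317) (nat_lit 215) (nat_lit 188))) (XT.nd (nat_lit 78) (nat_lit 0) (nat_lit 0) (XT.lf (nat_lit 0) (nat_lit 1034947299) (nat_lit 76) (nat_lit 4222629247) (nat_lit 152) (nat_lit 57587000551) (nat_lit 3) (nat_lit 5) (nat_lit 4) (nat_lit 5) (nat_lit 5) (nat_lit 4) (nat_lit 318) (nat_lit 215) (nat_lit 187)) (XT.nd (nat_lit 78) (nat_lit 0) (nat_lit 0) (XT.lf (nat_lit 0) (nat_lit 8395334040) (nat_lit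 76) (nat_lit 565471161) (nat_lit 152) (nat_lit 56901381792) (nat_lit 3) (nat_lit 5) (nat_lit 4) (nat_lit 5) (nat_lit 5) (nat_lit 4) (nat_lit 319) (nat_lit 215) (nat_lit 186)) (XT.lf (nat_lit 0) (nat_lit 12815674273) (nat_lit 152) (nat_lit 53055504987) (nat_lit 0) (nat_lit 3160544381) (nat_lit 3) (nat_lit 5) (nat_lit 5) (nat_lit 4) (nat_lit 3) (nat_lit 4) (nat_lit 320) (nat_lit 215) (nat_lit 185))))) (XT.nd (nat_lit 234) (nat_lit 0) (nat_lit 0) (XT.nd (nat_lit 78) (nat_lit 0) (nat_lit 0) (XT.lf (nat_lit 0) (nat_lit 16807091428) (nat_lit 152) (nat_lit 48540812099) (nat_lit 0) (nat_lit 7013558145) (nat_lit 3) (nat_lit 5) (nat_lit 5) (nat_lit 4) (nat_lit 3) (nat_lit 4) (nat_lit 321) (nat_lit 215) (nat_lit 184)) (XT.nd (nat_lit 78) (nat_lit 0) (nat_lit 0) (XT.lf (nat_lit 0) (nat_lit 20939124387) (nat_lit 152) (nat_lit 43906589365) (nat_lit 0) (nat_lit 11013778351) (nat_lit 3) (nat_lit 5) (nat_lit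 5) (nat_lit 4) (nat_lit 3) (nat_lit 4) (nat_lit 322) (nat_lit 215) (nat_lit 183)) (XT.lf (nat_lit 0) (nat_lit 25221611324) (nat_lit 152) (nat_lit 39141802924) (nat_lit 0) (nat_lit 15170729332) (nat_lit 3) (nat_lit 5) (nat_lit 5) (nat_lit 4) (nat_lit 3) (nat_lit 4) (nat_lit 323) (nat_lit 215) (nat_lit 182)))) (XT.nd (nat_lit 78) (nat_lit 0) (nat_lit 0) (XT.lf (nat_lit 0) (nat_lit 29664748636) (nat_lit 152) (nat_lit 34235108044) (nat_lit 0) (nat_lit 19494308591) (nat_lit 3) (nat_lit 5) (nat_lit 5) (nat_lit 4) (nat_lit 3) (nat_lit 4) (nat_lit 324) (nat_lit 215) (nat_lit 181)) (XT.nd (nat_lit 78) (nat_lit 0) (nat_lit 0) (XT.lf (nat_lit 0) (nat_lit 34279115222) (nat_lit 152) (nat_lit 29174822119) (nat_lit 0) (nat_lit 23994810364) (nat_lit 3) (nat_lit 5) (nat_lit 5) (nat_lit 4) (nat_lit 3) (nat_lit 4) (nat_lit 325) (nat_lit 215) (nat_lit 180)) (XT.lf (nat_lit 0) (nat_lit 39075697668) (nat_lit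 152) (nat_lit 23948896849) (nat_lit 0) (nat_lit 28682950132) (nat_lit 3) (nat_lit 5) (nat_lit 5) (nat_lit 4) (nat_lit 3) (nat_lit 4) (nat_lit 326) (nat_lit 215) (nat_lit 179))))))))
noncomputable def xc12 : XT := (XT.nd (nat_lit 35568) (nat_lit 0) (nat_lit 76) (XT.nd (nat_lit 34710) (nat_lit 0) (nat_lit 532) (XT.nd (nat_lit 390) (nat_lit 0) (nat_lit 0) (XT.nd (nat_lit 156) (nat_lit 76) (nat_lit 0) (XT.nd (nat_lit 78) (nat_lit 0) (nat_lit 0) (XT.lf (nat_lit 0) (nat_lit 44065916410) (nat_lit 152) (nat_lit 18544889555) (nat_lit 0) (nat_lit 33569890132) (nat_lit 3) (nat_lit 5) (nat_lit 5) (nat_lit 4) (nat_lit 3) (nat_lit 4) (nat_lit 327) (nat_lit 215) (nat_lit 178)) (XT.lf (nat_lit 0) (nat_lit 49261652920) (nat_lit 152) (nat_lit 12949933552) (nat_lit 0) (nat_lit 38667265936) (nat_lit 3) (nat_lit 5) (nat_lit 5) (nat_lit 4) (nat_lit 3) (nat_lit 4) (nat_lit 328) (nat_lit 215) (nat_lit 177))) (XT.nd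 (nat_lit 78) (nat_lit 76) (nat_lit 0) (XT.lf (nat_lit 0) (nat_lit 54675277999) (nat_lit 152) (nat_lit 7150707518) (nat_lit 0) (nat_lit 43987214152) (nat_lit 3) (nat_lit 5) (nat_lit 5) (nat_lit 4) (nat_lit 3) (nat_lit 4) (nat_lit 329) (nat_lit 215) (nat_lit 176)) (XT.nd (nat_lit 78) (nat_lit 76) (nat_lit 0) (XT.lf (nat_lit 0) (nat_lit 60319681231) (nat_lit 152) (nat_lit 1133403771) (nat_lit 0) (nat_lit 49542401324) (nat_lit 3) (nat_lit 5) (nat_lit 5) (nat_lit 4) (nat_lit 3) (nat_lit 4) (nat_lit 330) (nat_lit 215) (nat_lit 175)) (XT.lf (nat_lit 0) (nat_lit 5218129095) (nat_lit 76) (nat_lit 61040332425) (nat_lit 76) (nat_lit 50178084842) (nat_lit 2) (nat_lit 4) (nat_lit 3) (nat_lit 5) (nat_lit 3) (nat_lit 4) (nat_lit 331) (nat_lit 215) (nat_lit 174))))) (XT.nd (nat_lit 34086) (nat_lit 0) (nat_lit 1216) (XT.nd (nat_lit 78) (nat_lit 0) (nat_lit 0) (XT.lf (nat_lit 0) (nat_lit 11844425259) (nat_lit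 76) (nat_lit 60624590448) (nat_lit 76) (nat_lit 49681421269) (nat_lit 2) (nat_lit 4) (nat_lit 3) (nat_lit 5) (nat_lit 3) (nat_lit 4) (nat_lit 332) (nat_lit 215) (nat_lit 173)) (XT.nd (nat_lit 156) (nat_lit 0) (nat_lit 0) (XT.lf (nat_lit 0) (nat_lit 18738704656) (nat_lit 76) (nat_lit 60216314365) (nat_lit 76) (nat_lit 49196076998) (nat_lit 2) (nat_lit 4) (nat_lit 3) (nat_lit 5) (nat_lit 3) (nat_lit 4) (nat_lit 333) (nat_lit 215) (nat_lit 172)) (XT.lf (nat_lit 0) (nat_lit 33397550098) (nat_lit 76) (nat_lit 59418286999) (nat_lit 76) (nat_lit 48254748241) (nat_lit 2) (nat_lit 4) (nat_lit 3) (nat_lit 5) (nat_lit 3) (nat_lit 4) (nat_lit 335) (nat_lit 215) (nat_lit 170)))) (XT.nd (nat_lit 78) (nat_lit 152) (nat_lit 0) (XT.lf (nat_lit 0) (nat_lit 2532334301) (nat_lit 152) (nat_lit 3523661994) (nat_lit 0) (nat_lit 2532334301) (nat_lit 20) (nat_lit 5) (nat_lit 22) (nat_lit 4) (nat_lit 20) (nat_lit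 4) (nat_lit 288) (nat_lit 216) (nat_lit 216)) (XT.nd (nat_lit 78) (nat_lit 0) (nat_lit 0) (XT.lf (nat_lit 0) (nat_lit 3746642378) (nat_lit 152) (nat_lit 7406411335) (nat_lit 152) (nat_lit 6678294410) (nat_lit 18) (nat_lit 4) (nat_lit 20) (nat_lit 5) (nat_lit 20) (nat_lit 4) (nat_lit 289) (nat_lit 216) (nat_lit 215)) (XT.lf (nat_lit 0) (nat_lit 14871939743) (nat_lit 152) (nat_lit 2536355995) (nat_lit 152) (nat_lit 1114794380) (nat_lit 18) (nat_lit 4) (nat_lit 20) (nat_lit 5) (nat_lit 20) (nat_lit 4) (nat_lit 290) (nat_lit 216) (nat_lit 214)))))) (XT.nd (nat_lit 390) (nat_lit 228) (nat_lit 0) (XT.nd (nat_lit 156) (nat_lit 304) (nat_lit 0) (XT.nd (nat_lit 78) (nat_lit 0) (nat_lit 0) (XT.lf (nat_lit 0) (nat_lit 4524721057) (nat_lit 152) (nat_lit 12223435629) (nat_lit 0) (nat_lit 2503376271) (nat_lit 16) (nat_lit 5) (nat_lit 18) (nat_lit 4) (nat_lit 16) (nat_lit 4) (nat_lit 291) (nat_lit 216)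 (nat_lit 213)) (XT.lf (nat_lit 0) (nat_lit 10289773804) (nat_lit 152) (nat_lit 2072691301) (nat_lit 0) (nat_lit 7657773896) (nat_lit 16) (nat_lit 5) (nat_lit 18) (nat_lit 4) (nat_lit 16) (nat_lit 4) (nat_lit 292) (nat_lit 216) (nat_lit 212))) (XT.nd (nat_lit 78) (nat_lit 152) (nat_lit 0) (XT.lf (nat_lit 0) (nat_lit 8428340796) (nat_lit 152) (nat_lit 7807990392) (nat_lit 152) (nat_lit 4594414177) (nat_lit 14) (nat_lit 4) (nat_lit 16) (nat_lit 5) (nat_lit 16) (nat_lit 4) (nat_lit 293) (nat_lit 216) (nat_lit 211)) (XT.nd (nat_lit 78) (nat_lit 76) (nat_lit 0) (XT.lf (nat_lit 0) (nat_lit 620625641) (nat_lit 228) (nat_lit 2507588358) (nat_lit 76) (nat_lit 18558350120) (nat_lit 13) (nat_lit 5) (nat_lit 16) (nat_lit 5) (nat_lit 14) (nat_lit 4) (nat_lit 294) (nat_lit 216) (nat_lit 210)) (XT.lf (nat_lit 0) (nat_lit 5918258887) (nat_lit 152) (nat_lit 14919797889) (nat_lit 0) (nat_lit 1748389697) (nat_lit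 12) (nat_lit 5) (nat_lit 14) (nat_lit 4) (nat_lit 12) (nat_lit 4) (nat_lit 295) (nat_lit 216) (nat_lit 209))))) (XT.nd (nat_lit 234) (nat_lit 152) (nat_lit 0) (XT.nd (nat_lit 78) (nat_lit 76) (nat_lit 0) (XT.lf (nat_lit 0) (nat_lit 11367725726) (nat_lit 152) (nat_lit 5457023307) (nat_lit 0) (nat_lit 6710101701) (nat_lit 12) (nat_lit 5) (nat_lit 14) (nat_lit 4) (nat_lit 12) (nat_lit 4) (nat_lit 296) (nat_lit 216) (nat_lit 208)) (XT.nd (nat_lit 78) (nat_lit 0) (nat_lit 0) (XT.lf (nat_lit 0) (nat_lit 4279887973) (nat_lit 76) (nat_lit 12688356094) (nat_lit 76) (nat_lit 7566203654) (nat_lit 11) (nat_lit 4) (nat_lit 12) (nat_lit 5) (nat_lit 12) (nat_lit 4) (nat_lit 297) (nat_lit 216) (nat_lit 207)) (XT.lf (nat_lit 0) (nat_lit 14343260820) (nat_lit 76) (nat_lit 8404243196) (nat_lit 76) (nat_lit 2839682743) (nat_lit 11) (nat_lit 4) (nat_lit 12) (nat_lit 5) (nat_lit 12) (nat_lit 4) (nat_lit 298)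 (nat_lit 216) (nat_lit 206)))) (XT.nd (nat_lit 78) (nat_lit 76) (nat_lit 0) (XT.lf (nat_lit 0) (nat_lit 1930171903) (nat_lit 152) (nat_lit 2067652453) (nat_lit 76) (nat_lit 22698787324) (nat_lit 10) (nat_lit 5) (nat_lit 12) (nat_lit 5) (nat_lit 11) (nat_lit 4) (nat_lit 299) (nat_lit 216) (nat_lit 205)) (XT.nd (nat_lit 78) (nat_lit 0) (nat_lit 0) (XT.lf (nat_lit 0) (nat_lit 6813434614) (nat_lit 152) (nat_lit 20437038931) (nat_lit 0) (nat_lit 612290411) (nat_lit 9) (nat_lit 5) (nat_lit 11) (nat_lit 4) (nat_lit 9) (nat_lit 4) (nat_lit 300) (nat_lit 216) (nat_lit 204)) (XT.lf (nat_lit 0) (nat_lit 11861876175) (nat_lit 152) (nat_lit 11938126497) (nat_lit 0) (nat_lit 5289694423) (nat_lit 9) (nat_lit 5) (nat_lit 11) (nat_lit 4) (nat_lit 9) (nat_lit 4) (nat_lit 301) (nat_lit 216) (nat_lit 203))))))) (XT.nd (nat_lit 858) (nat_lit 152) (nat_lit 0) (XT.nd (nat_lit 390) (nat_lit 152) (nat_lit 0) (XT.nd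 (nat_lit 156) (nat_lit 76) (nat_lit 0) (XT.nd (nat_lit 78) (nat_lit 76) (nat_lit 0) (XT.lf (nat_lit 0) (nat_lit 17028615347) (nat_lit 152) (nat_lit 3250419560) (nat_lit 0) (nat_lit 10103064500) (nat_lit 9) (nat_lit 5) (nat_lit 11) (nat_lit 4) (nat_lit 9) (nat_lit 4) (nat_lit 302) (nat_lit 216) (nat_lit 202)) (XT.lf (nat_lit 0) (nat_lit 5759148627) (nat_lit 76) (nat_lit 16622165723) (nat_lit 76) (nat_lit 9360072880) (nat_lit 8) (nat_lit 4) (nat_lit 9) (nat_lit 5) (nat_lit 9) (nat_lit 4) (nat_lit 303) (nat_lit 216) (nat_lit 201))) (XT.nd (nat_lit 78) (nat_lit 76) (nat_lit 0) (XT.lf (nat_lit 0) (nat_lit 15068660485) (nat_lit 76) (nat_lit 12842693211) (nat_lit 76) (nat_lit 5260084183) (nat_lit 8) (nat_lit 4) (nat_lit 9) (nat_lit 5) (nat_lit 9) (nat_lit 4) (nat_lit 304) (nat_lit 216) (nat_lit 200)) (XT.nd (nat_lit 78) (nat_lit 76) (nat_lit 0) (XT.lf (nat_lit 0) (nat_lit 24635591796) (nat_lit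 76) (nat_lit 8964441494) (nat_lit 76) (nat_lit 1076578955) (nat_lit 8) (nat_lit 4) (nat_lit 9) (nat_lit 5) (nat_lit 9) (nat_lit 4) (nat_lit 305) (nat_lit 216) (nat_lit 199)) (XT.lf (nat_lit 0) (nat_lit 3137952128) (nat_lit 152) (nat_lit 1808537346) (nat_lit 76) (nat_lit 31313081675) (nat_lit 7) (nat_lit 5) (nat_lit 9) (nat_lit 5) (nat_lit 8) (nat_lit 4) (nat_lit 306) (nat_lit 216) (nat_lit 198))))) (XT.nd (nat_lit 234) (nat_lit 76) (nat_lit 0) (XT.nd (nat_lit 78) (nat_lit 0) (nat_lit 0) (XT.lf (nat_lit 0) (nat_lit 6765790304) (nat_lit 76) (nat_lit 732359648) (nat_lit 152) (nat_lit 30424567250) (nat_lit 6) (nat_lit 5) (nat_lit 7) (nat_lit 5) (nat_lit 8) (nat_lit 4) (nat_lit 307) (nat_lit 216) (nat_lit 197)) (XT.nd (nat_lit 78) (nat_lit 0) (nat_lit 0) (XT.lf (nat_lit 0) (nat_lit 12025200530) (nat_lit 152) (nat_lit 24085413699) (nat_lit 0) (nat_lit 3560012609) (nat_lit 6) (nat_lit 5) (nat_lit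 8) (nat_lit 4) (nat_lit 6) (nat_lit 4) (nat_lit 308) (nat_lit 216) (nat_lit 196)) (XT.lf (nat_lit 0) (nat_lit 16685563988) (nat_lit 152) (nat_lit 16846669518) (nat_lit 0) (nat_lit 7976557796) (nat_lit 6) (nat_lit 5) (nat_lit 8) (nat_lit 4) (nat_lit 6) (nat_lit 4) (nat_lit 309) (nat_lit 216) (nat_lit 195)))) (XT.nd (nat_lit 78) (nat_lit 76) (nat_lit 0) (XT.lf (nat_lit 0) (nat_lit 21483296540) (nat_lit 152) (nat_lit 9416419362) (nat_lit 0) (nat_lit 12542082473) (nat_lit 6) (nat_lit 5) (nat_lit 8) (nat_lit 4) (nat_lit 6) (nat_lit 4) (nat_lit 310) (nat_lit 216) (nat_lit 194)) (XT.nd (nat_lit 78) (nat_lit 76) (nat_lit 0) (XT.lf (nat_lit 0) (nat_lit 26429821361) (nat_lit 152) (nat_lit 1776972159) (nat_lit 0) (nat_lit 17267456935) (nat_lit 6) (nat_lit 5) (nat_lit 8) (nat_lit 4) (nat_lit 6) (nat_lit 4) (nat_lit 311) (nat_lit 216) (nat_lit 193)) (XT.lf (nat_lit 0) (nat_lit 6211061430) (nat_lit 76)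 (nat_lit 25385558981) (nat_lit 76) (nat_lit 16012575166) (nat_lit 5) (nat_lit 4) (nat_lit 6) (nat_lit 5) (nat_lit 6) (nat_lit 4) (nat_lit 312) (nat_lit 216) (nat_lit 192)))))) (XT.nd (nat_lit 390) (nat_lit 76) (nat_lit 0) (XT.nd (nat_lit 156) (nat_lit 76) (nat_lit 0) (XT.nd (nat_lit 78) (nat_lit 0) (nat_lit 0) (XT.lf (nat_lit 0) (nat_lit 14485475219) (nat_lit 76) (nat_lit 22470507904) (nat_lit 76) (nat_lit 12896934194) (nat_lit 5) (nat_lit 4) (nat_lit 6) (nat_lit 5) (nat_lit 6) (nat_lit 4) (nat_lit 313) (nat_lit 216) (nat_lit 191)) (XT.lf (nat_lit 0) (nat_lit 23030604963) (nat_lit 76) (nat_lit 19472643625) (nat_lit 76) (nat_lit 9708031921) (nat_lit 5) (nat_lit 4) (nat_lit 6) (nat_lit 5) (nat_lit 6) (nat_lit 4) (nat_lit 314) (nat_lit 216) (nat_lit 190))) (XT.nd (nat_lit 78) (nat_lit 76) (nat_lit 0) (XT.lf (nat_lit 0) (nat_lit 31866796207) (nat_lit 76) (nat_lit 16384828374) (nat_lit 76) (nat_lit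 6438275723) (nat_lit 5) (nat_lit 4) (nat_lit 6) (nat_lit 5) (nat_lit 6) (nat_lit 4) (nat_lit 315) (nat_lit 216) (nat_lit 189)) (XT.nd (nat_lit 78) (nat_lit 76) (nat_lit 0) (XT.lf (nat_lit 0) (nat_lit 41015087504) (nat_lit 76) (nat_lit 13199710209) (nat_lit 76) (nat_lit 3079880465) (nat_lit 5) (nat_lit 4) (nat_lit 6) (nat_lit 5) (nat_lit 6) (nat_lit 4) (nat_lit 316) (nat_lit 216) (nat_lit 188)) (XT.lf (nat_lit 0) (nat_lit 367829502) (nat_lit 152) (nat_lit 9538161655) (nat_lit 76) (nat_lit 50125716639) (nat_lit 4) (nat_lit 5) (nat_lit 6) (nat_lit 5) (nat_lit 5) (nat_lit 4) (nat_lit 317) (nat_lit 216) (nat_lit 187))))) (XT.nd (nat_lit 234) (nat_lit 0) (nat_lit 0) (XT.nd (nat_lit 78) (nat_lit 76) (nat_lit 0) (XT.lf (nat_lit 0) (nat_lit 3858255185) (nat_lit 152) (nat_lit 2609764950) (nat_lit 76) (nat_lit 56438675795) (nat_lit 4) (nat_lit 5) (nat_lit 6) (nat_lit 5) (nat_lit 5) (nat_lit 4) (nat_lit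 318) (nat_lit 216) (nat_lit 186)) (XT.nd (nat_lit 78) (nat_lit 0) (nat_lit 0) (XT.lf (nat_lit 0) (nat_lit 4642289101) (nat_lit 76) (nat_lit 2862142103) (nat_lit 152) (nat_lit 58421606020) (nat_lit 3) (nat_lit 5) (nat_lit 4) (nat_lit 5) (nat_lit 5) (nat_lit 4) (nat_lit 319) (nat_lit 216) (nat_lit 185)) (XT.lf (nat_lit 0) (nat_lit 11307026778) (nat_lit 152) (nat_lit 56904720731) (nat_lit 0) (nat_lit 885413440) (nat_lit 3) (nat_lit 5) (nat_lit 5) (nat_lit 4) (nat_lit 3) (nat_lit 4) (nat_lit 320) (nat_lit 216) (nat_lit 184)))) (XT.nd (nat_lit 78) (nat_lit 0) (nat_lit 0) (XT.lf (nat_lit 0) (nat_lit 15269685371) (nat_lit 152) (nat_lit 52441835062) (nat_lit 0) (nat_lit 4716259279) (nat_lit 3) (nat_lit 5) (nat_lit 5) (nat_lit 4) (nat_lit 3) (nat_lit 4) (nat_lit 321) (nat_lit 216) (nat_lit 183)) (XT.nd (nat_lit 78) (nat_lit 0) (nat_lit 0) (XT.lf (nat_lit 0) (nat_lit 19374329222) (nat_lit 152) (nat_lit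 47856952538) (nat_lit 0) (nat_lit 8695367175) (nat_lit 3) (nat_lit 5) (nat_lit 5) (nat_lit 4) (nat_lit 3) (nat_lit 4) (nat_lit 322) (nat_lit 216) (nat_lit 182)) (XT.lf (nat_lit 0) (nat_lit 23630731295) (nat_lit 152) (nat_lit 43139156771) (nat_lit 0) (nat_lit 12832211195) (nat_lit 3) (nat_lit 5) (nat_lit 5) (nat_lit 4) (nat_lit 3) (nat_lit 4) (nat_lit 323) (nat_lit 216) (nat_lit 181))))))))
noncomputable def xc13 : XT := (XT.nd (nat_lit 35412) (nat_lit 0) (nat_lit 152) (XT.nd (nat_lit 34554) (nat_lit 0) (nat_lit 760) (XT.nd (nat_lit 390) (nat_lit 76) (nat_lit 0) (XT.nd (nat_lit 156) (nat_lit 0) (nat_lit 0) (XT.nd (nat_lit 78) (nat_lit 0) (nat_lit 0) (XT.lf (nat_lit 0) (nat_lit 28049025879) (nat_lit 152) (nat_lit 38277214915) (nat_lit 0) (nat_lit 17136640967) (nat_lit 3) (nat_lit 5) (nat_lit 5) (nat_lit 4) (nat_lit 3) (nat_lit 4) (nat_lit 324) (nat_lit 216) (nat_lit 180)) (XT.lf (nat_lit 0)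 (nat_lit 32639732724) (nat_lit 152) (nat_lit 33259550917) (nat_lit 0) (nat_lit 21618905133) (nat_lit 3) (nat_lit 5) (nat_lit 5) (nat_lit 4) (nat_lit 3) (nat_lit 4) (nat_lit 325) (nat_lit 216) (nat_lit 179))) (XT.nd (nat_lit 78) (nat_lit 0) (nat_lit 0) (XT.lf (nat_lit 0) (nat_lit 37413782084) (nat_lit 152) (nat_lit 28074217959) (nat_lit 0) (nat_lit 26289675751) (nat_lit 3) (nat_lit 5) (nat_lit 5) (nat_lit 4) (nat_lit 3) (nat_lit 4) (nat_lit 326) (nat_lit 216) (nat_lit 178)) (XT.nd (nat_lit 78) (nat_lit 0) (nat_lit 0) (XT.lf (nat_lit 0) (nat_lit 42382540743) (nat_lit 152) (nat_lit 22708870010) (nat_lit 0) (nat_lit 31160073704) (nat_lit 3) (nat_lit 5) (nat_lit 5) (nat_lit 4) (nat_lit 3) (nat_lit 4) (nat_lit 327) (nat_lit 216) (nat_lit 177)) (XT.lf (nat_lit 0) (nat_lit 47557839080) (nat_lit 152) (nat_lit 17150732431) (nat_lit 0) (nat_lit 36241695178) (nat_lit 3) (nat_lit 5) (nat_lit 5) (nat_lit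 4) (nat_lit 3) (nat_lit 4) (nat_lit 328) (nat_lit 216) (nat_lit 176))))) (XT.nd (nat_lit 234) (nat_lit 0) (nat_lit 0) (XT.nd (nat_lit 78) (nat_lit 76) (nat_lit 0) (XT.lf (nat_lit 0) (nat_lit 52951999232) (nat_lit 152) (nat_lit 11386571562) (nat_lit 0) (nat_lit 41546639270) (nat_lit 3) (nat_lit 5) (nat_lit 5) (nat_lit 4) (nat_lit 3) (nat_lit 4) (nat_lit 329) (nat_lit 216) (nat_lit 175)) (XT.nd (nat_lit 78) (nat_lit 76) (nat_lit 0) (XT.lf (nat_lit 0) (nat_lit 58577864438) (nat_lit 152) (nat_lit 5402663211) (nat_lit 0) (nat_lit 47087536800) (nat_lit 3) (nat_lit 5) (nat_lit 5) (nat_lit 4) (nat_lit 3) (nat_lit 4) (nat_lit 330) (nat_lit 216) (nat_lit 174)) (XT.lf (nat_lit 0) (nat_lit 831464899) (nat_lit 76) (nat_lit 63625357266) (nat_lit 76) (nat_lit 52054108031) (nat_lit 2) (nat_lit 4) (nat_lit 3) (nat_lit 5) (nat_lit 3) (nat_lit 4) (nat_lit 331) (nat_lit 216) (nat_lit 173)))) (XT.nd (nat_lit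 78) (nat_lit 0) (nat_lit 0) (XT.lf (nat_lit 0) (nat_lit 7426867612) (nat_lit 76) (nat_lit 63223397236) (nat_lit 76) (nat_lit 51575079814) (nat_lit 2) (nat_lit 4) (nat_lit 3) (nat_lit 5) (nat_lit 3) (nat_lit 4) (nat_lit 332) (nat_lit 216) (nat_lit 172)) (XT.nd (nat_lit 156) (nat_lit 0) (nat_lit 0) (XT.lf (nat_lit 0) (nat_lit 14291724675) (nat_lit 76) (nat_lit 62828246818) (nat_lit 76) (nat_lit 51106531123) (nat_lit 2) (nat_lit 4) (nat_lit 3) (nat_lit 5) (nat_lit 3) (nat_lit 4) (nat_lit 333) (nat_lit 216) (nat_lit 171)) (XT.lf (nat_lit 0) (nat_lit 28895861922) (nat_lit 76) (nat_lit 62054625449) (nat_lit 76) (nat_lit 50196432239) (nat_lit 2) (nat_lit 4) (nat_lit 3) (nat_lit 5) (nat_lit 3) (nat_lit 4) (nat_lit 335) (nat_lit 216) (nat_lit 169)))))) (XT.nd (nat_lit 390) (nat_lit 456) (nat_lit 0) (XT.nd (nat_lit 156) (nat_lit 304) (nat_lit 0) (XT.nd (nat_lit 78) (nat_lit 0) (nat_lit 0) (XT.lf (nat_lit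 0) (nat_lit 2107226066) (nat_lit 152) (nat_lit 2937937156) (nat_lit 152) (nat_lit 2937937156) (nat_lit 22) (nat_lit 4) (nat_lit 24) (nat_lit 5) (nat_lit 24) (nat_lit 4) (nat_lit 286) (nat_lit 217) (nat_lit 217)) (XT.lf (nat_lit 0) (nat_lit 15520337469) (nat_lit 152) (nat_lit 912514479) (nat_lit 152) (nat_lit 125056025) (nat_lit 22) (nat_lit 4) (nat_lit 24) (nat_lit 5) (nat_lit 24) (nat_lit 4) (nat_lit 287) (nat_lit 217) (nat_lit 216))) (XT.nd (nat_lit 78) (nat_lit 152) (nat_lit 0) (XT.lf (nat_lit 0) (nat_lit 5723325899) (nat_lit 152) (nat_lit 7225924345) (nat_lit 0) (nat_lit 4230686203) (nat_lit 20) (nat_lit 5) (nat_lit 22) (nat_lit 4) (nat_lit 20) (nat_lit 4) (nat_lit 288) (nat_lit 217) (nat_lit 215)) (XT.nd (nat_lit 78) (nat_lit 0) (nat_lit 0) (XT.lf (nat_lit 0) (nat_lit 3391006712) (nat_lit 152) (nat_lit 8316461448) (nat_lit 152) (nat_lit 6130377062) (nat_lit 18) (nat_lit 4) (nat_lit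 20) (nat_lit 5) (nat_lit 20) (nat_lit 4) (nat_lit 289) (nat_lit 217) (nat_lit 214)) (XT.lf (nat_lit 0) (nat_lit 14351084255) (nat_lit 152) (nat_lit 3514014630) (nat_lit 152) (nat_lit 667506729) (nat_lit 18) (nat_lit 4) (nat_lit 20) (nat_lit 5) (nat_lit 20) (nat_lit 4) (nat_lit 290) (nat_lit 217) (nat_lit 213))))) (XT.nd (nat_lit 234) (nat_lit 152) (nat_lit 0) (XT.nd (nat_lit 78) (nat_lit 152) (nat_lit 0) (XT.lf (nat_lit 0) (nat_lit 4852458446) (nat_lit 152) (nat_lit 12933665531) (nat_lit 0) (nat_lit 1478203421) (nat_lit 16) (nat_lit 5) (nat_lit 18) (nat_lit 4) (nat_lit 16) (nat_lit 4) (nat_lit 291) (nat_lit 217) (nat_lit 212)) (XT.nd (nat_lit 78) (nat_lit 152) (nat_lit 0) (XT.lf (nat_lit 0) (nat_lit 10525917843) (nat_lit 152) (nat_lit 2939856195) (nat_lit 0) (nat_lit 6570086511) (nat_lit 16) (nat_lit 5) (nat_lit 18) (nat_lit 4) (nat_lit 16) (nat_lit 4) (nat_lit 292) (nat_lit 217) (nat_lit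 211)) (XT.lf (nat_lit 0) (nat_lit 7391481139) (nat_lit 152) (nat_lit 8983795396) (nat_lit 152) (nat_lit 4474081867) (nat_lit 14) (nat_lit 4) (nat_lit 16) (nat_lit 5) (nat_lit 16) (nat_lit 4) (nat_lit 293) (nat_lit 217) (nat_lit 210)))) (XT.nd (nat_lit 78) (nat_lit 76) (nat_lit 0) (XT.lf (nat_lit 0) (nat_lit 653229531) (nat_lit 228) (nat_lit 3711164435) (nat_lit 76) (nat_lit 17343379737) (nat_lit 13) (nat_lit 5) (nat_lit 16) (nat_lit 5) (nat_lit 14) (nat_lit 4) (nat_lit 294) (nat_lit 217) (nat_lit 209)) (XT.nd (nat_lit 78) (nat_lit 0) (nat_lit 0) (XT.lf (nat_lit 0) (nat_lit 5843799420) (nat_lit 152) (nat_lit 16301595689) (nat_lit 0) (nat_lit 465539359) (nat_lit 12) (nat_lit 5) (nat_lit 14) (nat_lit 4) (nat_lit 12) (nat_lit 4) (nat_lit 295) (nat_lit 217) (nat_lit 208)) (XT.lf (nat_lit 0) (nat_lit 11213967361) (nat_lit 152) (nat_lit 6976634795) (nat_lit 0) (nat_lit 5371178885) (nat_lit 12)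 (nat_lit 5) (nat_lit 14) (nat_lit 4) (nat_lit 12) (nat_lit 4) (nat_lit 296) (nat_lit 217) (nat_lit 207))))))) (XT.nd (nat_lit 858) (nat_lit 152) (nat_lit 0) (XT.nd (nat_lit 390) (nat_lit 228) (nat_lit 0) (XT.nd (nat_lit 156) (nat_lit 152) (nat_lit 0) (XT.nd (nat_lit 78) (nat_lit 0) (nat_lit 0) (XT.lf (nat_lit 0) (nat_lit 2596169951) (nat_lit 76) (nat_lit 14126608063) (nat_lit 76) (nat_lit 7841411573) (nat_lit 11) (nat_lit 4) (nat_lit 12) (nat_lit 5) (nat_lit 12) (nat_lit 4) (nat_lit 297) (nat_lit 217) (nat_lit 206)) (XT.lf (nat_lit 0) (nat_lit 12532053954) (nat_lit 76) (nat_lit 9896832070) (nat_lit 76) (nat_lit 3190294615) (nat_lit 11) (nat_lit 4) (nat_lit 12) (nat_lit 5) (nat_lit 12) (nat_lit 4) (nat_lit 298) (nat_lit 217) (nat_lit 205))) (XT.nd (nat_lit 78) (nat_lit 76) (nat_lit 0) (XT.lf (nat_lit 0) (nat_lit 1515989780) (nat_lit 152) (nat_lit 4030355310) (nat_lit 76) (nat_lit 21184527064)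 (nat_lit 10) (nat_lit 5) (nat_lit 12) (nat_lit 5) (nat_lit 11) (nat_lit 4) (nat_lit 299) (nat_lit 217) (nat_lit 204)) (XT.nd (nat_lit 78) (nat_lit 0) (nat_lit 0) (XT.lf (nat_lit 0) (nat_lit 5310793170) (nat_lit 76) (nat_lit 995008017) (nat_lit 152) (nat_lit 21594077377) (nat_lit 9) (nat_lit 5) (nat_lit 10) (nat_lit 5) (nat_lit 11) (nat_lit 4) (nat_lit 300) (nat_lit 217) (nat_lit 203)) (XT.lf (nat_lit 0) (nat_lit 11279251554) (nat_lit 152) (nat_lit 14195804003) (nat_lit 0) (nat_lit 3654054070) (nat_lit 9) (nat_lit 5) (nat_lit 11) (nat_lit 4) (nat_lit 9) (nat_lit 4) (nat_lit 301) (nat_lit 217) (nat_lit 202))))) (XT.nd (nat_lit 234) (nat_lit 152) (nat_lit 0) (XT.nd (nat_lit 78) (nat_lit 76) (nat_lit 0) (XT.lf (nat_lit 0) (nat_lit 16383679707) (nat_lit 152) (nat_lit 5617807227) (nat_lit 0) (nat_lit 8421940228) (nat_lit 9) (nat_lit 5) (nat_lit 11) (nat_lit 4) (nat_lit 9) (nat_lit 4) (nat_lit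 302) (nat_lit 217) (nat_lit 201)) (XT.nd (nat_lit 78) (nat_lit 0) (nat_lit 0) (XT.lf (nat_lit 0) (nat_lit 3238079964) (nat_lit 76) (nat_lit 18414720864) (nat_lit 76) (nat_lit 10132465199) (nat_lit 8) (nat_lit 4) (nat_lit 9) (nat_lit 5) (nat_lit 9) (nat_lit 4) (nat_lit 303) (nat_lit 217) (nat_lit 200)) (XT.lf (nat_lit 0) (nat_lit 12446101022) (nat_lit 76) (nat_lit 14679245631) (nat_lit 76) (nat_lit 6091736455) (nat_lit 8) (nat_lit 4) (nat_lit 9) (nat_lit 5) (nat_lit 9) (nat_lit 4) (nat_lit 304) (nat_lit 217) (nat_lit 199)))) (XT.nd (nat_lit 78) (nat_lit 152) (nat_lit 0) (XT.lf (nat_lit 0) (nat_lit 21916374427) (nat_lit 76) (nat_lit 10842896083) (nat_lit 76) (nat_lit 1964669278) (nat_lit 8) (nat_lit 4) (nat_lit 9) (nat_lit 5) (nat_lit 9) (nat_lit 4) (nat_lit 305) (nat_lit 217) (nat_lit 198)) (XT.nd (nat_lit 78) (nat_lit 76) (nat_lit 0) (XT.lf (nat_lit 0) (nat_lit 2214489987) (nat_lit 152)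 (nat_lit 4659686061) (nat_lit 76) (nat_lit 29434596456) (nat_lit 7) (nat_lit 5) (nat_lit 9) (nat_lit 5) (nat_lit 8) (nat_lit 4) (nat_lit 306) (nat_lit 217) (nat_lit 197)) (XT.lf (nat_lit 0) (nat_lit 3767427328) (nat_lit 76) (nat_lit 2728246328) (nat_lit 152) (nat_lit 31478650235) (nat_lit 6) (nat_lit 5) (nat_lit 7) (nat_lit 5) (nat_lit 8) (nat_lit 4) (nat_lit 307) (nat_lit 217) (nat_lit 196)))))) (XT.nd (nat_lit 390) (nat_lit 76) (nat_lit 0) (XT.nd (nat_lit 156) (nat_lit 76) (nat_lit 0) (XT.nd (nat_lit 78) (nat_lit 0) (nat_lit 0) (XT.lf (nat_lit 0) (nat_lit 10954547560) (nat_lit 152) (nat_lit 27203491727) (nat_lit 0) (nat_lit 1566272788) (nat_lit 6) (nat_lit 5) (nat_lit 8) (nat_lit 4) (nat_lit 6) (nat_lit 4) (nat_lit 308) (nat_lit 217) (nat_lit 195)) (XT.lf (nat_lit 0) (nat_lit 15568252931) (nat_lit 152) (nat_lit 20047884734) (nat_lit 0) (nat_lit 5947770283) (nat_lit 6) (nat_lit 5) (nat_lit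 8) (nat_lit 4) (nat_lit 6) (nat_lit 4) (nat_lit 309) (nat_lit 217) (nat_lit 194))) (XT.nd (nat_lit 78) (nat_lit 76) (nat_lit 0) (XT.lf (nat_lit 0) (nat_lit 20321549210) (nat_lit 152) (nat_lit 12696812852) (nat_lit 0) (nat_lit 10479916204) (nat_lit 6) (nat_lit 5) (nat_lit 8) (nat_lit 4) (nat_lit 6) (nat_lit 4) (nat_lit 310) (nat_lit 217) (nat_lit 193)) (XT.nd (nat_lit 78) (nat_lit 76) (nat_lit 0) (XT.lf (nat_lit 0) (nat_lit 25225753771) (nat_lit 152) (nat_lit 5132773528) (nat_lit 0) (nat_lit 15173501375) (nat_lit 6) (nat_lit 5) (nat_lit 8) (nat_lit 4) (nat_lit 6) (nat_lit 4) (nat_lit 311) (nat_lit 217) (nat_lit 192)) (XT.lf (nat_lit 0) (nat_lit 2715226706) (nat_lit 76) (nat_lit 27603417003) (nat_lit 76) (nat_lit 17350574713) (nat_lit 5) (nat_lit 4) (nat_lit 6) (nat_lit 5) (nat_lit 6) (nat_lit 4) (nat_lit 312) (nat_lit 217) (nat_lit 191))))) (XT.nd (nat_lit 234) (nat_lit 76) (nat_lit 0) (XT.nd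 (nat_lit 78) (nat_lit 0) (nat_lit 0) (XT.lf (nat_lit 0) (nat_lit 10919882088) (nat_lit 76) (nat_lit 24719068049) (nat_lit 76) (nat_lit 14275187765) (nat_lit 5) (nat_lit 4) (nat_lit 6) (nat_lit 5) (nat_lit 6) (nat_lit 4) (nat_lit 313) (nat_lit 217) (nat_lit 190)) (XT.nd (nat_lit 78) (nat_lit 0) (nat_lit 0) (XT.lf (nat_lit 0) (nat_lit 19398575253) (nat_lit 76) (nat_lit 21750443888) (nat_lit 76) (nat_lit 11124622657) (nat_lit 5) (nat_lit 4) (nat_lit 6) (nat_lit 5) (nat_lit 6) (nat_lit 4) (nat_lit 314) (nat_lit 217) (nat_lit 189)) (XT.lf (nat_lit 0) (nat_lit 28171493566) (nat_lit 76) (nat_lit 18690476368) (nat_lit 76) (nat_lit 7891378044) (nat_lit 5) (nat_lit 4) (nat_lit 6) (nat_lit 5) (nat_lit 6) (nat_lit 4) (nat_lit 315) (nat_lit 217) (nat_lit 188)))) (XT.nd (nat_lit 78) (nat_lit 76) (nat_lit 0) (XT.lf (nat_lit 0) (nat_lit 37259524928) (nat_lit 76) (nat_lit 15531879851) (nat_lit 76) (nat_lit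 4567755725) (nat_lit 5) (nat_lit 4) (nat_lit 6) (nat_lit 5) (nat_lit 6) (nat_lit 4) (nat_lit 316) (nat_lit 217) (nat_lit 187)) (XT.nd (nat_lit 78) (nat_lit 76) (nat_lit 0) (XT.lf (nat_lit 0) (nat_lit 46684307508) (nat_lit 76) (nat_lit 12267133870) (nat_lit 76) (nat_lit 1145842313) (nat_lit 5) (nat_lit 4) (nat_lit 6) (nat_lit 5) (nat_lit 6) (nat_lit 4) (nat_lit 317) (nat_lit 217) (nat_lit 186)) (XT.lf (nat_lit 0) (nat_lit 2336018260) (nat_lit 152) (nat_lit 6528857755) (nat_lit 76) (nat_lit 54108673800) (nat_lit 4) (nat_lit 5) (nat_lit 6) (nat_lit 5) (nat_lit 5) (nat_lit 4) (nat_lit 318) (nat_lit 217) (nat_lit 185))))))))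
noncomputable def xc14 : XT := (XT.nd (nat_lit 35256) (nat_lit 0) (nat_lit 304) (XT.nd (nat_lit 858) (nat_lit 76) (nat_lit 0) (XT.nd (nat_lit 390) (nat_lit 0) (nat_lit 0) (XT.nd (nat_lit 156) (nat_lit 0) (nat_lit 0) (XT.nd (nat_lit 78) (nat_lit 0) (nat_lit 0) (XT.lf (nat_lit 0) (nat_lit 591490806) (nat_lit 76) (nat_lit 5322312703) (nat_lit 152) (nat_lit 60081158197) (nat_lit 3) (nat_lit 5) (nat_lit 4) (nat_lit 5) (nat_lit 5) (nat_lit 4) (nat_lit 319) (nat_lit 217) (nat_lit 184)) (XT.lf (nat_lit 0) (nat_lit 8099432524) (nat_lit 76) (nat_lit 1579744805) (nat_lit 152) (nat_lit 59488042730) (nat_lit 3) (nat_lit 5) (nat_lit 4) (nat_lit 5) (nat_lit 5) (nat_lit 4) (nat_lit 320) (nat_lit 217) (nat_lit 183))) (XT.nd (nat_lit 78) (nat_lit 0) (nat_lit 0) (XT.lf (nat_lit 0) (nat_lit 13599261340) (nat_lit 152) (nat_lit 56639056601) (nat_lit 0) (nat_lit 2260815235) (nat_lit 3) (nat_lit 5) (nat_lit 5)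 (nat_lit 4) (nat_lit 3) (nat_lit 4) (nat_lit 321) (nat_lit 217) (nat_lit 182)) (XT.nd (nat_lit 78) (nat_lit 0) (nat_lit 0) (XT.lf (nat_lit 0) (nat_lit 17677820328) (nat_lit 152) (nat_lit 52101164752) (nat_lit 0) (nat_lit 6219816169) (nat_lit 3) (nat_lit 5) (nat_lit 5) (nat_lit 4) (nat_lit 3) (nat_lit 4) (nat_lit 322) (nat_lit 217) (nat_lit 181)) (XT.lf (nat_lit 0) (nat_lit 21909379673) (nat_lit 152) (nat_lit 47428122009) (nat_lit 0) (nat_lit 10337510702) (nat_lit 3) (nat_lit 5) (nat_lit 5) (nat_lit 4) (nat_lit 3) (nat_lit 4) (nat_lit 323) (nat_lit 217) (nat_lit 180))))) (XT.nd (nat_lit 234) (nat_lit 0) (nat_lit 0) (XT.nd (nat_lit 78) (nat_lit 0) (nat_lit 0) (XT.lf (nat_lit 0) (nat_lit 26304014516) (nat_lit 152) (nat_lit 42608802081) (nat_lit 0) (nat_lit 14623702867) (nat_lit 3) (nat_lit 5) (nat_lit 5) (nat_lit 4) (nat_lit 3) (nat_lit 4) (nat_lit 324) (nat_lit 217) (nat_lit 179)) (XT.nd (nat_lit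 78) (nat_lit 0) (nat_lit 0) (XT.lf (nat_lit 0) (nat_lit 30872188275) (nat_lit 152) (nat_lit 37631730395) (nat_lit 0) (nat_lit 19088597884) (nat_lit 3) (nat_lit 5) (nat_lit 5) (nat_lit 4) (nat_lit 3) (nat_lit 4) (nat_lit 325) (nat_lit 217) (nat_lit 178)) (XT.lf (nat_lit 0) (nat_lit 35624777552) (nat_lit 152) (nat_lit 32485056782) (nat_lit 0) (nat_lit 23742826455) (nat_lit 3) (nat_lit 5) (nat_lit 5) (nat_lit 4) (nat_lit 3) (nat_lit 4) (nat_lit 326) (nat_lit 217) (nat_lit 177)))) (XT.nd (nat_lit 78) (nat_lit 0) (nat_lit 0) (XT.lf (nat_lit 0) (nat_lit 40573098038) (nat_lit 152) (nat_lit 27156527256) (nat_lit 0) (nat_lit 28597470078) (nat_lit 3) (nat_lit 5) (nat_lit 5) (nat_lit 4) (nat_lit 3) (nat_lit 4) (nat_lit 327) (nat_lit 217) (nat_lit 176)) (XT.nd (nat_lit 78) (nat_lit 0) (nat_lit 0) (XT.lf (nat_lit 0) (nat_lit 45728931447) (nat_lit 152) (nat_lit 21633454842) (nat_lit 0) (nat_lit 33664087426)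 (nat_lit 3) (nat_lit 5) (nat_lit 5) (nat_lit 4) (nat_lit 3) (nat_lit 4) (nat_lit 328) (nat_lit 217) (nat_lit 175)) (XT.lf (nat_lit 0) (nat_lit 51104553573) (nat_lit 152) (nat_lit 15902689369) (nat_lit 0) (nat_lit 38954741876) (nat_lit 3) (nat_lit 5) (nat_lit 5) (nat_lit 4) (nat_lit 3) (nat_lit 4) (nat_lit 329) (nat_lit 217) (nat_lit 174)))))) (XT.nd (nat_lit 33930) (nat_lit 0) (nat_lit 1216) (XT.nd (nat_lit 156) (nat_lit 76) (nat_lit 0) (XT.nd (nat_lit 78) (nat_lit 0) (nat_lit 0) (XT.lf (nat_lit 0) (nat_lit 56712763516) (nat_lit 152) (nat_lit 9950586156) (nat_lit 0) (nat_lit 44482030223) (nat_lit 3) (nat_lit 5) (nat_lit 5) (nat_lit 4) (nat_lit 3) (nat_lit 4) (nat_lit 330) (nat_lit 217) (nat_lit 173)) (XT.lf (nat_lit 0) (nat_lit 62566914158) (nat_lit 152) (nat_lit 3762973529) (nat_lit 0) (nat_lit 50259112678) (nat_lit 3) (nat_lit 5) (nat_lit 5) (nat_lit 4) (nat_lit 3) (nat_lit 4) (nat_lit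 331) (nat_lit 217) (nat_lit 172))) (XT.nd (nat_lit 78) (nat_lit 0) (nat_lit 0) (XT.lf (nat_lit 0) (nat_lit 2728116298) (nat_lit 76) (nat_lit 65979051976) (nat_lit 76) (nat_lit 53597852223) (nat_lit 2) (nat_lit 4) (nat_lit 3) (nat_lit 5) (nat_lit 3) (nat_lit 4) (nat_lit 332) (nat_lit 217) (nat_lit 171)) (XT.nd (nat_lit 156) (nat_lit 0) (nat_lit 0) (XT.lf (nat_lit 0) (nat_lit 9564952091) (nat_lit 76) (nat_lit 65596402191) (nat_lit 76) (nat_lit 53145299320) (nat_lit 2) (nat_lit 4) (nat_lit 3) (nat_lit 5) (nat_lit 3) (nat_lit 4) (nat_lit 333) (nat_lit 217) (nat_lit 170)) (XT.lf (nat_lit 0) (nat_lit 24116986295) (nat_lit 76) (nat_lit 64846024629) (nat_lit 76) (nat_lit 52264943173) (nat_lit 2) (nat_lit 4) (nat_lit 3) (nat_lit 5) (nat_lit 3) (nat_lit 4) (nat_lit 335) (nat_lit 217) (nat_lit 168))))) (XT.nd (nat_lit 234) (nat_lit 304) (nat_lit 0) (XT.nd (nat_lit 78) (nat_lit 380) (nat_lit 0) (XT.lf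 (nat_lit 0) (nat_lit 6226132500) (nat_lit 152) (nat_lit 605807405) (nat_lit 152) (nat_lit 605807405) (nat_lit 27) (nat_lit 4) (nat_lit 29) (nat_lit 5) (nat_lit 29) (nat_lit 4) (nat_lit 284) (nat_lit 218) (nat_lit 218)) (XT.nd (nat_lit 78) (nat_lit 152) (nat_lit 0) (XT.lf (nat_lit 0) (nat_lit 4733131928) (nat_lit 228) (nat_lit 6767753003) (nat_lit 0) (nat_lit 3906300551) (nat_lit 24) (nat_lit 5) (nat_lit 27) (nat_lit 4) (nat_lit 24) (nat_lit 4) (nat_lit 285) (nat_lit 218) (nat_lit 217)) (XT.lf (nat_lit 0) (nat_lit 4035497894) (nat_lit 152) (nat_lit 6774162498) (nat_lit 152) (nat_lit 5159872667) (nat_lit 22) (nat_lit 4) (nat_lit 24) (nat_lit 5) (nat_lit 24) (nat_lit 4) (nat_lit 286) (nat_lit 218) (nat_lit 216)))) (XT.nd (nat_lit 78) (nat_lit 228) (nat_lit 0) (XT.lf (nat_lit 0) (nat_lit 475921718) (nat_lit 228) (nat_lit 1398129175) (nat_lit 76) (nat_lit 14690223030) (nat_lit 21) (nat_lit 5)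 (nat_lit 24) (nat_lit 5) (nat_lit 22) (nat_lit 4) (nat_lit 287) (nat_lit 218) (nat_lit 215)) (XT.nd (nat_lit 78) (nat_lit 152) (nat_lit 0) (XT.lf (nat_lit 0) (nat_lit 6208226324) (nat_lit 152) (nat_lit 7762150653) (nat_lit 0) (nat_lit 3219393028) (nat_lit 20) (nat_lit 5) (nat_lit 22) (nat_lit 4) (nat_lit 20) (nat_lit 4) (nat_lit 288) (nat_lit 218) (nat_lit 214)) (XT.lf (nat_lit 0) (nat_lit 2678888628) (nat_lit 152) (nat_lit 9410611536) (nat_lit 152) (nat_lit 5761354726) (nat_lit 18) (nat_lit 4) (nat_lit 20) (nat_lit 5) (nat_lit 20) (nat_lit 4) (nat_lit 289) (nat_lit 218) (nat_lit 213))))))) (XT.nd (nat_lit 858) (nat_lit 228) (nat_lit 0) (XT.nd (nat_lit 390) (nat_lit 304) (nat_lit 0) (XT.nd (nat_lit 156) (nat_lit 228) (nat_lit 0) (XT.nd (nat_lit 78) (nat_lit 152) (nat_lit 0) (XT.lf (nat_lit 0) (nat_lit 13481613960) (nat_lit 152) (nat_lit 4672553785) (nat_lit 152) (nat_lit 394322200) (nat_lit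 18) (nat_lit 4) (nat_lit 20) (nat_lit 5) (nat_lit 20) (nat_lit 4) (nat_lit 290) (nat_lit 218) (nat_lit 212)) (XT.lf (nat_lit 0) (nat_lit 5008816337) (nat_lit 152) (nat_lit 14001123661) (nat_lit 0) (nat_lit 273617132) (nat_lit 16) (nat_lit 5) (nat_lit 18) (nat_lit 4) (nat_lit 16) (nat_lit 4) (nat_lit 291) (nat_lit 218) (nat_lit 211))) (XT.nd (nat_lit 78) (nat_lit 228) (nat_lit 0) (XT.lf (nat_lit 0) (nat_lit 10595043972) (nat_lit 152) (nat_lit 4156776221) (nat_lit 0) (nat_lit 5305962570) (nat_lit 16) (nat_lit 5) (nat_lit 18) (nat_lit 4) (nat_lit 16) (nat_lit 4) (nat_lit 292) (nat_lit 218) (nat_lit 210)) (XT.nd (nat_lit 78) (nat_lit 76) (nat_lit 0) (XT.lf (nat_lit 0) (nat_lit 6005164417) (nat_lit 152) (nat_lit 10342834254) (nat_lit 152) (nat_lit 4526245998) (nat_lit 14) (nat_lit 4) (nat_lit 16) (nat_lit 5) (nat_lit 16) (nat_lit 4) (nat_lit 293) (nat_lit 218) (nat_lit 209)) (XT.lf (nat_lit 0)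 (nat_lit 520768735) (nat_lit 228) (nat_lit 5261815203) (nat_lit 76) (nat_lit 15952597023) (nat_lit 13) (nat_lit 5) (nat_lit 16) (nat_lit 5) (nat_lit 14) (nat_lit 4) (nat_lit 294) (nat_lit 218) (nat_lit 208))))) (XT.nd (nat_lit 234) (nat_lit 152) (nat_lit 0) (XT.nd (nat_lit 78) (nat_lit 76) (nat_lit 0) (XT.lf (nat_lit 0) (nat_lit 4596590457) (nat_lit 76) (nat_lit 1016232429) (nat_lit 152) (nat_lit 17028537657) (nat_lit 12) (nat_lit 5) (nat_lit 13) (nat_lit 5) (nat_lit 14) (nat_lit 4) (nat_lit 295) (nat_lit 218) (nat_lit 207)) (XT.nd (nat_lit 78) (nat_lit 76) (nat_lit 0) (XT.lf (nat_lit 0) (nat_lit 10897699420) (nat_lit 152) (nat_lit 8841291675) (nat_lit 0) (nat_lit 3855835092) (nat_lit 12) (nat_lit 5) (nat_lit 14) (nat_lit 4) (nat_lit 12) (nat_lit 4) (nat_lit 296) (nat_lit 218) (nat_lit 206)) (XT.lf (nat_lit 0) (nat_lit 566913899) (nat_lit 76) (nat_lit 15748163284) (nat_lit 76) (nat_lit 8284957991)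 (nat_lit 11) (nat_lit 4) (nat_lit 12) (nat_lit 5) (nat_lit 12) (nat_lit 4) (nat_lit 297) (nat_lit 218) (nat_lit 205)))) (XT.nd (nat_lit 78) (nat_lit 152) (nat_lit 0) (XT.lf (nat_lit 0) (nat_lit 10381379956) (nat_lit 76) (nat_lit 11570136725) (nat_lit 76) (nat_lit 3705654322) (nat_lit 11) (nat_lit 4) (nat_lit 12) (nat_lit 5) (nat_lit 12) (nat_lit 4) (nat_lit 298) (nat_lit 218) (nat_lit 204)) (XT.nd (nat_lit 78) (nat_lit 76) (nat_lit 0) (XT.lf (nat_lit 0) (nat_lit 943627595) (nat_lit 152) (nat_lit 6331087060) (nat_lit 76) (nat_lit 19496358847) (nat_lit 10) (nat_lit 5) (nat_lit 12) (nat_lit 5) (nat_lit 11) (nat_lit 4) (nat_lit 299) (nat_lit 218) (nat_lit 203)) (XT.lf (nat_lit 0) (nat_lit 2850605400) (nat_lit 76) (nat_lit 2795319056) (nat_lit 152) (nat_lit 22296829079) (nat_lit 9) (nat_lit 5) (nat_lit 10) (nat_lit 5) (nat_lit 11) (nat_lit 4) (nat_lit 300) (nat_lit 218) (nat_lit 202)))))) (XT.nd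 (nat_lit 390) (nat_lit 152) (nat_lit 0) (XT.nd (nat_lit 156) (nat_lit 76) (nat_lit 0) (XT.nd (nat_lit 78) (nat_lit 0) (nat_lit 0) (XT.lf (nat_lit 0) (nat_lit 10539758113) (nat_lit 152) (nat_lit 16791271212) (nat_lit 0) (nat_lit 1843389665) (nat_lit 9) (nat_lit 5) (nat_lit 11) (nat_lit 4) (nat_lit 9) (nat_lit 4) (nat_lit 301) (nat_lit 218) (nat_lit 201)) (XT.lf (nat_lit 0) (nat_lit 15584842439) (nat_lit 152) (nat_lit 8317760303) (nat_lit 0) (nat_lit 6567957805) (nat_lit 9) (nat_lit 5) (nat_lit 11) (nat_lit 4) (nat_lit 9) (nat_lit 4) (nat_lit 302) (nat_lit 218) (nat_lit 200))) (XT.nd (nat_lit 78) (nat_lit 0) (nat_lit 0) (XT.lf (nat_lit 0) (nat_lit 382901727) (nat_lit 76) (nat_lit 20387098183) (nat_lit 76) (nat_lit 11064960038) (nat_lit 8) (nat_lit 4) (nat_lit 9) (nat_lit 5) (nat_lit 9) (nat_lit 4) (nat_lit 303) (nat_lit 218) (nat_lit 199)) (XT.nd (nat_lit 78) (nat_lit 0) (nat_lit 0) (XT.lf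 (nat_lit 0) (nat_lit 9494264880) (nat_lit 76) (nat_lit 16693525119) (nat_lit 76) (nat_lit 7080669345) (nat_lit 8) (nat_lit 4) (nat_lit 9) (nat_lit 5) (nat_lit 9) (nat_lit 4) (nat_lit 304) (nat_lit 218) (nat_lit 198)) (XT.lf (nat_lit 0) (nat_lit 18872483137) (nat_lit 76) (nat_lit 12897082399) (nat_lit 76) (nat_lit 3007352693) (nat_lit 8) (nat_lit 4) (nat_lit 9) (nat_lit 5) (nat_lit 9) (nat_lit 4) (nat_lit 305) (nat_lit 218) (nat_lit 197))))) (XT.nd (nat_lit 234) (nat_lit 0) (nat_lit 0) (XT.nd (nat_lit 78) (nat_lit 76) (nat_lit 0) (XT.lf (nat_lit 0) (nat_lit 1141961026) (nat_lit 152) (nat_lit 7835238281) (nat_lit 76) (nat_lit 27386392997) (nat_lit 7) (nat_lit 5) (nat_lit 9) (nat_lit 5) (nat_lit 8) (nat_lit 4) (nat_lit 306) (nat_lit 218) (nat_lit 196)) (XT.nd (nat_lit 78) (nat_lit 0) (nat_lit 0) (XT.lf (nat_lit 0) (nat_lit 442512715) (nat_lit 76) (nat_lit 4900868909) (nat_lit 152) (nat_lit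 32688188208) (nat_lit 6) (nat_lit 5) (nat_lit 7) (nat_lit 5) (nat_lit 8) (nat_lit 4) (nat_lit 307) (nat_lit 218) (nat_lit 195)) (XT.lf (nat_lit 0) (nat_lit 9129662326) (nat_lit 76) (nat_lit 610923103) (nat_lit 152) (nat_lit 30042854354) (nat_lit 6) (nat_lit 5) (nat_lit 7) (nat_lit 5) (nat_lit 8) (nat_lit 4) (nat_lit 308) (nat_lit 218) (nat_lit 194)))) (XT.nd (nat_lit 78) (nat_lit 0) (nat_lit 0) (XT.lf (nat_lit 0) (nat_lit 14303981961) (nat_lit 152) (nat_lit 23571476171) (nat_lit 0) (nat_lit 3749116946) (nat_lit 6) (nat_lit 5) (nat_lit 8) (nat_lit 4) (nat_lit 6) (nat_lit 4) (nat_lit 309) (nat_lit 218) (nat_lit 193)) (XT.nd (nat_lit 78) (nat_lit 0) (nat_lit 0) (XT.lf (nat_lit 0) (nat_lit 19014957980) (nat_lit 152) (nat_lit 16295812168) (nat_lit 0) (nat_lit 8249473576) (nat_lit 6) (nat_lit 5) (nat_lit 8) (nat_lit 4) (nat_lit 6) (nat_lit 4) (nat_lit 310) (nat_lit 218) (nat_lit 192)) (XT.lf (nat_lit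 0) (nat_lit 23878857531) (nat_lit 152) (nat_lit 8803589873) (nat_lit 0) (nat_lit 12912783233) (nat_lit 6) (nat_lit 5) (nat_lit 8) (nat_lit 4) (nat_lit 6) (nat_lit 4) (nat_lit 311) (nat_lit 218) (nat_lit 191))))))))
noncomputable def xc15 : XT := (XT.nd (nat_lit 35178) (nat_lit 0) (nat_lit 532) (XT.nd (nat_lit 858) (nat_lit 76) (nat_lit 0) (XT.nd (nat_lit 390) (nat_lit 152) (nat_lit 0) (XT.nd (nat_lit 156) (nat_lit 0) (nat_lit 0) (XT.nd (nat_lit 78) (nat_lit 76) (nat_lit 0) (XT.lf (nat_lit 0) (nat_lit 28907261326) (nat_lit 152) (nat_lit 1076970660) (nat_lit 0) (nat_lit 17750149033) (nat_lit 6) (nat_lit 5) (nat_lit 8) (nat_lit 4) (nat_lit 6) (nat_lit 4) (nat_lit 312) (nat_lit 218) (nat_lit 190)) (XT.lf (nat_lit 0) (nat_lit 7039814314) (nat_lit 76) (nat_lit 27139998442) (nat_lit 76) (nat_lit 15800945202) (nat_lit 5) (nat_lit 4) (nat_lit 6) (nat_lit 5) (nat_lit 6) (nat_lit 4) (nat_lit 313) (nat_lit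 218) (nat_lit 189))) (XT.nd (nat_lit 78) (nat_lit 0) (nat_lit 0) (XT.lf (nat_lit 0) (nat_lit 15455234548) (nat_lit 76) (nat_lit 24199222013) (nat_lit 76) (nat_lit 12686891680) (nat_lit 5) (nat_lit 4) (nat_lit 6) (nat_lit 5) (nat_lit 6) (nat_lit 4) (nat_lit 314) (nat_lit 218) (nat_lit 188)) (XT.nd (nat_lit 78) (nat_lit 0) (nat_lit 0) (XT.lf (nat_lit 0) (nat_lit 24167892925) (nat_lit 76) (nat_lit 21165776141) (nat_lit 76) (nat_lit 9488420005) (nat_lit 5) (nat_lit 4) (nat_lit 6) (nat_lit 5) (nat_lit 6) (nat_lit 4) (nat_lit 315) (nat_lit 218) (nat_lit 187)) (XT.lf (nat_lit 0) (nat_lit 33198533873) (nat_lit 76) (nat_lit 18032438337) (nat_lit 76) (nat_lit 6197914771) (nat_lit 5) (nat_lit 4) (nat_lit 6) (nat_lit 5) (nat_lit 6) (nat_lit 4) (nat_lit 316) (nat_lit 218) (nat_lit 186))))) (XT.nd (nat_lit 234) (nat_lit 76) (nat_lit 0) (XT.nd (nat_lit 78) (nat_lit 76) (nat_lit 0) (XT.lf (nat_lit 0) (nat_lit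 42568658915) (nat_lit 76) (nat_lit 14791748273) (nat_lit 76) (nat_lit 2807541439) (nat_lit 5) (nat_lit 4) (nat_lit 6) (nat_lit 5) (nat_lit 6) (nat_lit 4) (nat_lit 317) (nat_lit 218) (nat_lit 185)) (XT.nd (nat_lit 78) (nat_lit 0) (nat_lit 0) (XT.lf (nat_lit 0) (nat_lit 677292850) (nat_lit 152) (nat_lit 10751857840) (nat_lit 76) (nat_lit 51616445695) (nat_lit 4) (nat_lit 5) (nat_lit 6) (nat_lit 5) (nat_lit 5) (nat_lit 4) (nat_lit 318) (nat_lit 218) (nat_lit 184)) (XT.lf (nat_lit 0) (nat_lit 4221342786) (nat_lit 152) (nat_lit 3693203607) (nat_lit 76) (nat_lit 58153491916) (nat_lit 4) (nat_lit 5) (nat_lit 6) (nat_lit 5) (nat_lit 5) (nat_lit 4) (nat_lit 319) (nat_lit 218) (nat_lit 183)))) (XT.nd (nat_lit 78) (nat_lit 0) (nat_lit 0) (XT.lf (nat_lit 0) (nat_lit 3692521506) (nat_lit 76) (nat_lit 4230805096) (nat_lit 152) (nat_lit 61318888877) (nat_lit 3) (nat_lit 5) (nat_lit 4) (nat_lit 5) (nat_lit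 5) (nat_lit 4) (nat_lit 320) (nat_lit 218) (nat_lit 182)) (XT.nd (nat_lit 78) (nat_lit 0) (nat_lit 0) (XT.lf (nat_lit 0) (nat_lit 11429600492) (nat_lit 76) (nat_lit 365757529) (nat_lit 152) (nat_lit 60780228458) (nat_lit 3) (nat_lit 5) (nat_lit 4) (nat_lit 5) (nat_lit 5) (nat_lit 4) (nat_lit 321) (nat_lit 218) (nat_lit 181)) (XT.lf (nat_lit 0) (nat_lit 15845558396) (nat_lit 152) (nat_lit 56649331276) (nat_lit 0) (nat_lit 3581231164) (nat_lit 3) (nat_lit 5) (nat_lit 5) (nat_lit 4) (nat_lit 3) (nat_lit 4) (nat_lit 322) (nat_lit 218) (nat_lit 180)))))) (XT.nd (nat_lit 390) (nat_lit 76) (nat_lit 0) (XT.nd (nat_lit 156) (nat_lit 0) (nat_lit 0) (XT.nd (nat_lit 78) (nat_lit 0) (nat_lit 0) (XT.lf (nat_lit 0) (nat_lit 20053458000) (nat_lit 152) (nat_lit 52018910461) (nat_lit 0) (nat_lit 7680688090) (nat_lit 3) (nat_lit 5) (nat_lit 5) (nat_lit 4) (nat_lit 3) (nat_lit 4) (nat_lit 323) (nat_lit 218)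 (nat_lit 179)) (XT.lf (nat_lit 0) (nat_lit 24425559757) (nat_lit 152) (nat_lit 47240182844) (nat_lit 0) (nat_lit 11949511105) (nat_lit 3) (nat_lit 5) (nat_lit 5) (nat_lit 4) (nat_lit 3) (nat_lit 4) (nat_lit 324) (nat_lit 218) (nat_lit 178))) (XT.nd (nat_lit 78) (nat_lit 0) (nat_lit 0) (XT.lf (nat_lit 0) (nat_lit 28972273434) (nat_lit 152) (nat_lit 42301770503) (nat_lit 0) (nat_lit 16397864075) (nat_lit 3) (nat_lit 5) (nat_lit 5) (nat_lit 4) (nat_lit 3) (nat_lit 4) (nat_lit 325) (nat_lit 218) (nat_lit 177)) (XT.nd (nat_lit 78) (nat_lit 0) (nat_lit 0) (XT.lf (nat_lit 0) (nat_lit 33704424538) (nat_lit 152) (nat_lit 37191915314) (nat_lit 0) (nat_lit 21036338316) (nat_lit 3) (nat_lit 5) (nat_lit 5) (nat_lit 4) (nat_lit 3) (nat_lit 4) (nat_lit 326) (nat_lit 218) (nat_lit 176)) (XT.lf (nat_lit 0) (nat_lit 38633280096) (nat_lit 152) (nat_lit 31898450953) (nat_lit 0) (nat_lit 25875977815) (nat_lit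 3) (nat_lit 5) (nat_lit 5) (nat_lit 4) (nat_lit 3) (nat_lit 4) (nat_lit 327) (nat_lit 218) (nat_lit 175))))) (XT.nd (nat_lit 234) (nat_lit 76) (nat_lit 0) (XT.nd (nat_lit 78) (nat_lit 0) (nat_lit 0) (XT.lf (nat_lit 0) (nat_lit 43770575479) (nat_lit 152) (nat_lit 26408773935) (nat_lit 0) (nat_lit 30928305521) (nat_lit 3) (nat_lit 5) (nat_lit 5) (nat_lit 4) (nat_lit 3) (nat_lit 4) (nat_lit 328) (nat_lit 218) (nat_lit 174)) (XT.nd (nat_lit 78) (nat_lit 0) (nat_lit 0) (XT.lf (nat_lit 0) (nat_lit 49128542342) (nat_lit 152) (nat_lit 20709813600) (nat_lit 0) (nat_lit 36205350788) (nat_lit 3) (nat_lit 5) (nat_lit 5) (nat_lit 4) (nat_lit 3) (nat_lit 4) (nat_lit 329) (nat_lit 218) (nat_lit 173)) (XT.lf (nat_lit 0) (nat_lit 54719937749) (nat_lit 152) (nat_lit 14788000995) (nat_lit 0) (nat_lit 41719678008) (nat_lit 3) (nat_lit 5) (nat_lit 5) (nat_lit 4) (nat_lit 3) (nat_lit 4) (nat_lit 330) (nat_lit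 218) (nat_lit 172)))) (XT.nd (nat_lit 78) (nat_lit 76) (nat_lit 0) (XT.lf (nat_lit 0) (nat_lit 60558074547) (nat_lit 152) (nat_lit 8629236566) (nat_lit 0) (nat_lit 47484416533) (nat_lit 3) (nat_lit 5) (nat_lit 5) (nat_lit 4) (nat_lit 3) (nat_lit 4) (nat_lit 331) (nat_lit 218) (nat_lit 171)) (XT.nd (nat_lit 78) (nat_lit 76) (nat_lit 0) (XT.lf (nat_lit 0) (nat_lit 66656853061) (nat_lit 152) (nat_lit 2218856589) (nat_lit 0) (nat_lit 53513291929) (nat_lit 3) (nat_lit 5) (nat_lit 5) (nat_lit 4) (nat_lit 3) (nat_lit 4) (nat_lit 332) (nat_lit 218) (nat_lit 170)) (XT.lf (nat_lit 0) (nat_lit 4547132683) (nat_lit 76) (nat_lit 68527371330) (nat_lit 76) (nat_lit 55317235801) (nat_lit 2) (nat_lit 4) (nat_lit 3) (nat_lit 5) (nat_lit 3) (nat_lit 4) (nat_lit 333) (nat_lit 218) (nat_lit 169))))))) (XT.nd (nat_lit 858) (nat_lit 532) (nat_lit 0) (XT.nd (nat_lit 390) (nat_lit 456) (nat_lit 0) (XT.nd (nat_lit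 156) (nat_lit 380) (nat_lit 0) (XT.nd (nat_lit 78) (nat_lit 152) (nat_lit 0) (XT.lf (nat_lit 0) (nat_lit 1069638897) (nat_lit 228) (nat_lit 4806119743) (nat_lit 0) (nat_lit 1069638897) (nat_lit 29) (nat_lit 5) (nat_lit 32) (nat_lit 4) (nat_lit 29) (nat_lit 4) (nat_lit 282) (nat_lit 219) (nat_lit 219)) (XT.lf (nat_lit 0) (nat_lit 1142930780) (nat_lit 152) (nat_lit 7061080507) (nat_lit 152) (nat_lit 6166862373) (nat_lit 27) (nat_lit 4) (nat_lit 29) (nat_lit 5) (nat_lit 29) (nat_lit 4) (nat_lit 283) (nat_lit 219) (nat_lit 218))) (XT.nd (nat_lit 78) (nat_lit 380) (nat_lit 0) (XT.lf (nat_lit 0) (nat_lit 12276586816) (nat_lit 152) (nat_lit 2174051095) (nat_lit 152) (nat_lit 428196643) (nat_lit 27) (nat_lit 4) (nat_lit 29) (nat_lit 5) (nat_lit 29) (nat_lit 4) (nat_lit 284) (nat_lit 219) (nat_lit 217)) (XT.nd (nat_lit 78) (nat_lit 152) (nat_lit 0) (XT.lf (nat_lit 0) (nat_lit 5384461592) (nat_lit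 228) (nat_lit 7127450504) (nat_lit 0) (nat_lit 2901998815) (nat_lit 24) (nat_lit 5) (nat_lit 27) (nat_lit 4) (nat_lit 24) (nat_lit 4) (nat_lit 285) (nat_lit 219) (nat_lit 216)) (XT.lf (nat_lit 0) (nat_lit 3498209100) (nat_lit 152) (nat_lit 7856876007) (nat_lit 152) (nat_lit 4624452798) (nat_lit 22) (nat_lit 4) (nat_lit 24) (nat_lit 5) (nat_lit 24) (nat_lit 4) (nat_lit 286) (nat_lit 219) (nat_lit 215))))) (XT.nd (nat_lit 234) (nat_lit 152) (nat_lit 0) (XT.nd (nat_lit 78) (nat_lit 228) (nat_lit 0) (XT.lf (nat_lit 0) (nat_lit 902329404) (nat_lit 228) (nat_lit 2114942548) (nat_lit 76) (nat_lit 13559903899) (nat_lit 21) (nat_lit 5) (nat_lit 24) (nat_lit 5) (nat_lit 22) (nat_lit 4) (nat_lit 287) (nat_lit 219) (nat_lit 214)) (XT.nd (nat_lit 78) (nat_lit 152) (nat_lit 0) (XT.lf (nat_lit 0) (nat_lit 6520524402) (nat_lit 152) (nat_lit 8657279641) (nat_lit 0) (nat_lit 2028381237) (nat_lit 20) (nat_lit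 5) (nat_lit 22) (nat_lit 4) (nat_lit 20) (nat_lit 4) (nat_lit 288) (nat_lit 219) (nat_lit 213)) (XT.lf (nat_lit 0) (nat_lit 1608592607) (nat_lit 152) (nat_lit 10691466717) (nat_lit 152) (nat_lit 5570348777) (nat_lit 18) (nat_lit 4) (nat_lit 20) (nat_lit 5) (nat_lit 20) (nat_lit 4) (nat_lit 289) (nat_lit 219) (nat_lit 212)))) (XT.nd (nat_lit 78) (nat_lit 152) (nat_lit 0) (XT.lf (nat_lit 0) (nat_lit 12261458690) (nat_lit 152) (nat_lit 6014731889) (nat_lit 152) (nat_lit 294590352) (nat_lit 18) (nat_lit 4) (nat_lit 20) (nat_lit 5) (nat_lit 20) (nat_lit 4) (nat_lit 290) (nat_lit 219) (nat_lit 211)) (XT.nd (nat_lit 78) (nat_lit 0) (nat_lit 0) (XT.lf (nat_lit 0) (nat_lit 3869674702) (nat_lit 76) (nat_lit 1135406529) (nat_lit 152) (nat_lit 14303859278) (nat_lit 16) (nat_lit 5) (nat_lit 17) (nat_lit 5) (nat_lit 18) (nat_lit 4) (nat_lit 291) (nat_lit 219) (nat_lit 210)) (XT.lf (nat_lit 0) (nat_lit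 10497316776) (nat_lit 152) (nat_lit 5726348809) (nat_lit 0) (nat_lit 3862392253) (nat_lit 16) (nat_lit 5) (nat_lit 18) (nat_lit 4) (nat_lit 16) (nat_lit 4) (nat_lit 292) (nat_lit 219) (nat_lit 209)))))) (XT.nd (nat_lit 390) (nat_lit 228) (nat_lit 0) (XT.nd (nat_lit 156) (nat_lit 76) (nat_lit 0) (XT.nd (nat_lit 78) (nat_lit 76) (nat_lit 0) (XT.lf (nat_lit 0) (nat_lit 4266089875) (nat_lit 152) (nat_lit 11888342772) (nat_lit 152) (nat_lit 4751030769) (nat_lit 14) (nat_lit 4) (nat_lit 16) (nat_lit 5) (nat_lit 16) (nat_lit 4) (nat_lit 293) (nat_lit 219) (nat_lit 208)) (XT.lf (nat_lit 0) (nat_lit 222927872) (nat_lit 228) (nat_lit 7163232689) (nat_lit 76) (nat_lit 14382690588) (nat_lit 13) (nat_lit 5) (nat_lit 16) (nat_lit 5) (nat_lit 14) (nat_lit 4) (nat_lit 294) (nat_lit 219) (nat_lit 207))) (XT.nd (nat_lit 78) (nat_lit 0) (nat_lit 0) (XT.lf (nat_lit 0) (nat_lit 2527866655) (nat_lit 76) (nat_lit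 2693474812) (nat_lit 152) (nat_lit 17456558809) (nat_lit 12) (nat_lit 5) (nat_lit 13) (nat_lit 5) (nat_lit 14) (nat_lit 4) (nat_lit 295) (nat_lit 219) (nat_lit 206)) (XT.nd (nat_lit 78) (nat_lit 0) (nat_lit 0) (XT.lf (nat_lit 0) (nat_lit 10418168883) (nat_lit 152) (nat_lit 11055433608) (nat_lit 0) (nat_lit 2160462359) (nat_lit 12) (nat_lit 5) (nat_lit 14) (nat_lit 4) (nat_lit 12) (nat_lit 4) (nat_lit 296) (nat_lit 219) (nat_lit 205)) (XT.lf (nat_lit 0) (nat_lit 15761595754) (nat_lit 152) (nat_lit 1777339209) (nat_lit 0) (nat_lit 7102612121) (nat_lit 12) (nat_lit 5) (nat_lit 14) (nat_lit 4) (nat_lit 12) (nat_lit 4) (nat_lit 297) (nat_lit 219) (nat_lit 204))))) (XT.nd (nat_lit 234) (nat_lit 0) (nat_lit 0) (XT.nd (nat_lit 78) (nat_lit 152) (nat_lit 0) (XT.lf (nat_lit 0) (nat_lit 7886118173) (nat_lit 76) (nat_lit 13428141219) (nat_lit 76) (nat_lit 4386988910) (nat_lit 11) (nat_lit 4) (nat_lit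 12) (nat_lit 5) (nat_lit 12) (nat_lit 4) (nat_lit 298) (nat_lit 219) (nat_lit 203)) (XT.nd (nat_lit 78) (nat_lit 76) (nat_lit 0) (XT.lf (nat_lit 0) (nat_lit 211722582) (nat_lit 152) (nat_lit 8975325633) (nat_lit 76) (nat_lit 17630263225) (nat_lit 10) (nat_lit 5) (nat_lit 12) (nat_lit 5) (nat_lit 11) (nat_lit 4) (nat_lit 299) (nat_lit 219) (nat_lit 202)) (XT.lf (nat_lit 0) (nat_lit 45487058) (nat_lit 76) (nat_lit 4780743379) (nat_lit 152) (nat_lit 23165440599) (nat_lit 9) (nat_lit 5) (nat_lit 10) (nat_lit 5) (nat_lit 11) (nat_lit 4) (nat_lit 300) (nat_lit 219) (nat_lit 201)))) (XT.nd (nat_lit 78) (nat_lit 0) (nat_lit 0) (XT.lf (nat_lit 0) (nat_lit 9493544785) (nat_lit 76) (nat_lit 149527721) (nat_lit 152) (nat_lit 19582617440) (nat_lit 9) (nat_lit 5) (nat_lit 10) (nat_lit 5) (nat_lit 11) (nat_lit 4) (nat_lit 301) (nat_lit 219) (nat_lit 200)) (XT.nd (nat_lit 78) (nat_lit 0) (nat_lit 0) (XT.lf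 (nat_lit 0) (nat_lit 14630201550) (nat_lit 152) (nat_lit 11356707249) (nat_lit 0) (nat_lit 4536702988) (nat_lit 9) (nat_lit 5) (nat_lit 11) (nat_lit 4) (nat_lit 9) (nat_lit 4) (nat_lit 302) (nat_lit 219) (nat_lit 199)) (XT.lf (nat_lit 0) (nat_lit 19757851734) (nat_lit 152) (nat_lit 2758288772) (nat_lit 0) (nat_lit 9373635543) (nat_lit 9) (nat_lit 5) (nat_lit 11) (nat_lit 4) (nat_lit 9) (nat_lit 4) (nat_lit 303) (nat_lit 219) (nat_lit 198))))))))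
noncomputable def xc16 : XT := (XT.nd (nat_lit 1638) (nat_lit 76) (nat_lit 0) (XT.nd (nat_lit 780) (nat_lit 152) (nat_lit 0) (XT.nd (nat_lit 390) (nat_lit 76) (nat_lit 0) (XT.nd (nat_lit 156) (nat_lit 152) (nat_lit 0) (XT.nd (nat_lit 78) (nat_lit 0) (nat_lit 0) (XT.lf (nat_lit 0) (nat_lit 6206123877) (nat_lit 76) (nat_lit 18890327579) (nat_lit 76) (nat_lit 8229237455) (nat_lit 8) (nat_lit 4) (nat_lit 9) (nat_lit 5) (nat_lit 9) (nat_lit 4) (nat_lit 304) (nat_lit 219) (nat_lit 197)) (XT.lf (nat_lit 0) (nat_lit 15496670566) (nat_lit 76) (nat_lit 15131891362) (nat_lit 76) (nat_lit 4207111779) (nat_lit 8) (nat_lit 4) (nat_lit 9) (nat_lit 5) (nat_lit 9) (nat_lit 4) (nat_lit 305) (nat_lit 219) (nat_lit 196))) (XT.nd (nat_lit 78) (nat_lit 152) (nat_lit 0) (XT.lf (nat_lit 0) (nat_lit 25080576287) (nat_lit 76) (nat_lit 11259736507) (nat_lit 76) (nat_lit 83824106) (nat_lit 8) (nat_lit 4) (nat_lit 9)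 (nat_lit 5) (nat_lit 9) (nat_lit 4) (nat_lit 306) (nat_lit 219) (nat_lit 195)) (XT.nd (nat_lit 78) (nat_lit 76) (nat_lit 0) (XT.lf (nat_lit 0) (nat_lit 4069452825) (nat_lit 152) (nat_lit 3154097278) (nat_lit 76) (nat_lit 30870113544) (nat_lit 7) (nat_lit 5) (nat_lit 9) (nat_lit 5) (nat_lit 8) (nat_lit 4) (nat_lit 307) (nat_lit 219) (nat_lit 194)) (XT.lf (nat_lit 0) (nat_lit 5392127524) (nat_lit 76) (nat_lit 2999497553) (nat_lit 152) (nat_lit 31456189625) (nat_lit 6) (nat_lit 5) (nat_lit 7) (nat_lit 5) (nat_lit 8) (nat_lit 4) (nat_lit 308) (nat_lit 219) (nat_lit 193))))) (XT.nd (nat_lit 156) (nat_lit 76) (nat_lit 0) (XT.nd (nat_lit 78) (nat_lit 0) (nat_lit 0) (XT.lf (nat_lit 0) (nat_lit 12889740909) (nat_lit 152) (nat_lit 27425833333) (nat_lit 0) (nat_lit 1375362896) (nat_lit 6) (nat_lit 5) (nat_lit 8) (nat_lit 4) (nat_lit 6) (nat_lit 4) (nat_lit 309) (nat_lit 219) (nat_lit 192)) (XT.lf (nat_lit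 0) (nat_lit 17560411919) (nat_lit 152) (nat_lit 20221986358) (nat_lit 0) (nat_lit 5845444011) (nat_lit 6) (nat_lit 5) (nat_lit 8) (nat_lit 4) (nat_lit 6) (nat_lit 4) (nat_lit 310) (nat_lit 219) (nat_lit 191))) (XT.nd (nat_lit 78) (nat_lit 76) (nat_lit 0) (XT.lf (nat_lit 0) (nat_lit 22385925746) (nat_lit 152) (nat_lit 12798161232) (nat_lit 0) (nat_lit 10479919844) (nat_lit 6) (nat_lit 5) (nat_lit 8) (nat_lit 4) (nat_lit 6) (nat_lit 4) (nat_lit 311) (nat_lit 219) (nat_lit 190)) (XT.nd (nat_lit 78) (nat_lit 76) (nat_lit 0) (XT.lf (nat_lit 0) (nat_lit 27377771709) (nat_lit 152) (nat_lit 5136682181) (nat_lit 0) (nat_lit 15289824860) (nat_lit 6) (nat_lit 5) (nat_lit 8) (nat_lit 4) (nat_lit 6) (nat_lit 4) (nat_lit 312) (nat_lit 219) (nat_lit 189)) (XT.lf (nat_lit 0) (nat_lit 2836033642) (nat_lit 76) (nat_lit 29739063204) (nat_lit 76) (nat_lit 17477839262) (nat_lit 5) (nat_lit 4) (nat_lit 6) (nat_lit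 5) (nat_lit 6) (nat_lit 4) (nat_lit 313) (nat_lit 219) (nat_lit 188)))))) (XT.nd (nat_lit 390) (nat_lit 152) (nat_lit 0) (XT.nd (nat_lit 156) (nat_lit 0) (nat_lit 0) (XT.nd (nat_lit 78) (nat_lit 0) (nat_lit 0) (XT.lf (nat_lit 0) (nat_lit 11191193940) (nat_lit 76) (nat_lit 26824808423) (nat_lit 76) (nat_lit 14398558678) (nat_lit 5) (nat_lit 4) (nat_lit 6) (nat_lit 5) (nat_lit 6) (nat_lit 4) (nat_lit 314) (nat_lit 219) (nat_lit 187)) (XT.lf (nat_lit 0) (nat_lit 19846461903) (nat_lit 76) (nat_lit 23816621264) (nat_lit 76) (nat_lit 11233204088) (nat_lit 5) (nat_lit 4) (nat_lit 6) (nat_lit 5) (nat_lit 6) (nat_lit 4) (nat_lit 315) (nat_lit 219) (nat_lit 186))) (XT.nd (nat_lit 78) (nat_lit 0) (nat_lit 0) (XT.lf (nat_lit 0) (nat_lit 28822445313) (nat_lit 76) (nat_lit 20707339377) (nat_lit 76) (nat_lit 7974238934) (nat_lit 5) (nat_lit 4) (nat_lit 6) (nat_lit 5) (nat_lit 6) (nat_lit 4) (nat_lit 316)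 (nat_lit 219) (nat_lit 185)) (XT.nd (nat_lit 78) (nat_lit 0) (nat_lit 0) (XT.lf (nat_lit 0) (nat_lit 38140515558) (nat_lit 76) (nat_lit 17489559711) (nat_lit 76) (nat_lit 4613903774) (nat_lit 5) (nat_lit 4) (nat_lit 6) (nat_lit 5) (nat_lit 6) (nat_lit 4) (nat_lit 317) (nat_lit 219) (nat_lit 184)) (XT.lf (nat_lit 0) (nat_lit 47822858520) (nat_lit 76) (nat_lit 14155620884) (nat_lit 76) (nat_lit 1144197811) (nat_lit 5) (nat_lit 4) (nat_lit 6) (nat_lit 5) (nat_lit 6) (nat_lit 4) (nat_lit 318) (nat_lit 219) (nat_lit 183))))) (XT.nd (nat_lit 234) (nat_lit 0) (nat_lit 0) (XT.nd (nat_lit 78) (nat_lit 76) (nat_lit 0) (XT.lf (nat_lit 0) (nat_lit 2395465695) (nat_lit 152) (nat_lit 8277929745) (nat_lit 76) (nat_lit 55472872194) (nat_lit 4) (nat_lit 5) (nat_lit 6) (nat_lit 5) (nat_lit 5) (nat_lit 4) (nat_lit 319) (nat_lit 219) (nat_lit 182)) (XT.nd (nat_lit 78) (nat_lit 76) (nat_lit 0) (XT.lf (nat_lit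 0) (nat_lit 6036512975) (nat_lit 152) (nat_lit 1009748561) (nat_lit 76) (nat_lit 62276027669) (nat_lit 4) (nat_lit 5) (nat_lit 6) (nat_lit 5) (nat_lit 5) (nat_lit 4) (nat_lit 320) (nat_lit 219) (nat_lit 181)) (XT.lf (nat_lit 0) (nat_lit 6663048860) (nat_lit 76) (nat_lit 3210941050) (nat_lit 152) (nat_lit 62782722456) (nat_lit 3) (nat_lit 5) (nat_lit 4) (nat_lit 5) (nat_lit 5) (nat_lit 4) (nat_lit 321) (nat_lit 219) (nat_lit 180)))) (XT.nd (nat_lit 78) (nat_lit 0) (nat_lit 0) (XT.lf (nat_lit 0) (nat_lit 13873180900) (nat_lit 152) (nat_lit 61512281078) (nat_lit 0) (nat_lit 773329815) (nat_lit 3) (nat_lit 5) (nat_lit 5) (nat_lit 4) (nat_lit 3) (nat_lit 4) (nat_lit 322) (nat_lit 219) (nat_lit 179)) (XT.nd (nat_lit 78) (nat_lit 0) (nat_lit 0) (XT.lf (nat_lit 0) (nat_lit 18058547417) (nat_lit 152) (nat_lit 56922452575) (nat_lit 0) (nat_lit 4855417591) (nat_lit 3) (nat_lit 5) (nat_lit 5) (nat_lit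 4) (nat_lit 3) (nat_lit 4) (nat_lit 323) (nat_lit 219) (nat_lit 178)) (XT.lf (nat_lit 0) (nat_lit 22409189092) (nat_lit 152) (nat_lit 52182384303) (nat_lit 0) (nat_lit 9107698560) (nat_lit 3) (nat_lit 5) (nat_lit 5) (nat_lit 4) (nat_lit 3) (nat_lit 4) (nat_lit 324) (nat_lit 219) (nat_lit 177))))))) (XT.nd (nat_lit 34086) (nat_lit 0) (nat_lit 1064) (XT.nd (nat_lit 390) (nat_lit 76) (nat_lit 0) (XT.nd (nat_lit 156) (nat_lit 0) (nat_lit 0) (XT.nd (nat_lit 78) (nat_lit 0) (nat_lit 0) (XT.lf (nat_lit 0) (nat_lit 26935464595) (nat_lit 152) (nat_lit 47280790385) (nat_lit 0) (nat_lit 13540297199) (nat_lit 3) (nat_lit 5) (nat_lit 5) (nat_lit 4) (nat_lit 3) (nat_lit 4) (nat_lit 325) (nat_lit 219) (nat_lit 176)) (XT.lf (nat_lit 0) (nat_lit 31648150771) (nat_lit 152) (nat_lit 42206000361) (nat_lit 0) (nat_lit 18163767316) (nat_lit 3) (nat_lit 5) (nat_lit 5) (nat_lit 4) (nat_lit 3) (nat_lit 4) (nat_lit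 326) (nat_lit 219) (nat_lit 175))) (XT.nd (nat_lit 78) (nat_lit 0) (nat_lit 0) (XT.lf (nat_lit 0) (nat_lit 36558468303) (nat_lit 152) (nat_lit 36945931395) (nat_lit 0) (nat_lit 22989117172) (nat_lit 3) (nat_lit 5) (nat_lit 5) (nat_lit 4) (nat_lit 3) (nat_lit 4) (nat_lit 327) (nat_lit 219) (nat_lit 174)) (XT.nd (nat_lit 78) (nat_lit 0) (nat_lit 0) (XT.lf (nat_lit 0) (nat_lit 41678108423) (nat_lit 152) (nat_lit 31488059516) (nat_lit 0) (nat_lit 28027835696) (nat_lit 3) (nat_lit 5) (nat_lit 5) (nat_lit 4) (nat_lit 3) (nat_lit 4) (nat_lit 328) (nat_lit 219) (nat_lit 173)) (XT.lf (nat_lit 0) (nat_lit 47019260750) (nat_lit 152) (nat_lit 25819389789) (nat_lit 0) (nat_lit 33291919836) (nat_lit 3) (nat_lit 5) (nat_lit 5) (nat_lit 4) (nat_lit 3) (nat_lit 4) (nat_lit 329) (nat_lit 219) (nat_lit 172))))) (XT.nd (nat_lit 234) (nat_lit 76) (nat_lit 0) (XT.nd (nat_lit 78) (nat_lit 0) (nat_lit 0) (XT.lf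 (nat_lit 0) (nat_lit 52594642314) (nat_lit 152) (nat_lit 19926425383) (nat_lit 0) (nat_lit 38793903126) (nat_lit 3) (nat_lit 5) (nat_lit 5) (nat_lit 4) (nat_lit 3) (nat_lit 4) (nat_lit 330) (nat_lit 219) (nat_lit 171)) (XT.nd (nat_lit 78) (nat_lit 0) (nat_lit 0) (XT.lf (nat_lit 0) (nat_lit 58417527832) (nat_lit 152) (nat_lit 13795135428) (nat_lit 0) (nat_lit 44546885526) (nat_lit 3) (nat_lit 5) (nat_lit 5) (nat_lit 4) (nat_lit 3) (nat_lit 4) (nat_lit 331) (nat_lit 219) (nat_lit 170)) (XT.lf (nat_lit 0) (nat_lit 64501781317) (nat_lit 152) (nat_lit 7410921617) (nat_lit 0) (nat_lit 50564564614) (nat_lit 3) (nat_lit 5) (nat_lit 5) (nat_lit 4) (nat_lit 3) (nat_lit 4) (nat_lit 332) (nat_lit 219) (nat_lit 169)))) (XT.nd (nat_lit 78) (nat_lit 76) (nat_lit 0) (XT.lf (nat_lit 0) (nat_lit 70861889088) (nat_lit 152) (nat_lit 758583439) (nat_lit 0) (nat_lit 56861268197) (nat_lit 3) (nat_lit 5) (nat_lit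 5) (nat_lit 4) (nat_lit 3) (nat_lit 4) (nat_lit 333) (nat_lit 219) (nat_lit 168)) (XT.nd (nat_lit 33306) (nat_lit 0) (nat_lit 2432) (XT.lf (nat_lit 0) (nat_lit 6300666705) (nat_lit 76) (nat_lit 71272893415) (nat_lit 76) (nat_lit 57211887583) (nat_lit 2) (nat_lit 4) (nat_lit 3) (nat_lit 5) (nat_lit 3) (nat_lit 4) (nat_lit 334) (nat_lit 219) (nat_lit 167)) (XT.lf (nat_lit 0) (nat_lit 2208860355) (nat_lit 228) (nat_lit 2083684893) (nat_lit 0) (nat_lit 2208860355) (nat_lit 34) (nat_lit 5) (nat_lit 37) (nat_lit 4) (nat_lit 34) (nat_lit 4) (nat_lit 280) (nat_lit 220) (nat_lit 220)))))) (XT.nd (nat_lit 390) (nat_lit 608) (nat_lit 0) (XT.nd (nat_lit 156) (nat_lit 380) (nat_lit 0) (XT.nd (nat_lit 78) (nat_lit 228) (nat_lit 0) (XT.lf (nat_lit 0) (nat_lit 6755119369) (nat_lit 152) (nat_lit 3824036461) (nat_lit 152) (nat_lit 2856939549) (nat_lit 32) (nat_lit 4) (nat_lit 34) (nat_lit 5) (nat_lit 34)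 (nat_lit 4) (nat_lit 281) (nat_lit 220) (nat_lit 219)) (XT.lf (nat_lit 0) (nat_lit 2967146962) (nat_lit 228) (nat_lit 9793102059) (nat_lit 0) (nat_lit 1133999787) (nat_lit 29) (nat_lit 5) (nat_lit 32) (nat_lit 4) (nat_lit 29) (nat_lit 4) (nat_lit 282) (nat_lit 220) (nat_lit 218))) (XT.nd (nat_lit 78) (nat_lit 228) (nat_lit 0) (XT.lf (nat_lit 0) (nat_lit 782790502) (nat_lit 152) (nat_lit 8139856757) (nat_lit 152) (nat_lit 5455073264) (nat_lit 27) (nat_lit 4) (nat_lit 29) (nat_lit 5) (nat_lit 29) (nat_lit 4) (nat_lit 283) (nat_lit 220) (nat_lit 217)) (XT.nd (nat_lit 78) (nat_lit 152) (nat_lit 0) (XT.lf (nat_lit 0) (nat_lit 174593927) (nat_lit 228) (nat_lit 3141440028) (nat_lit 76) (nat_lit 11572777000) (nat_lit 26) (nat_lit 5) (nat_lit 29) (nat_lit 5) (nat_lit 27) (nat_lit 4) (nat_lit 284) (nat_lit 220) (nat_lit 216)) (XT.lf (nat_lit 0) (nat_lit 5861840327) (nat_lit 228) (nat_lit 7847701930)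 (nat_lit 0) (nat_lit 1717835525) (nat_lit 24) (nat_lit 5) (nat_lit 27) (nat_lit 4) (nat_lit 24) (nat_lit 4) (nat_lit 285) (nat_lit 220) (nat_lit 215))))) (XT.nd (nat_lit 234) (nat_lit 304) (nat_lit 0) (XT.nd (nat_lit 78) (nat_lit 152) (nat_lit 0) (XT.lf (nat_lit 0) (nat_lit 2601306490) (nat_lit 152) (nat_lit 9126592727) (nat_lit 152) (nat_lit 4268339894) (nat_lit 22) (nat_lit 4) (nat_lit 24) (nat_lit 5) (nat_lit 24) (nat_lit 4) (nat_lit 286) (nat_lit 220) (nat_lit 214)) (XT.nd (nat_lit 78) (nat_lit 76) (nat_lit 0) (XT.lf (nat_lit 0) (nat_lit 1157622583) (nat_lit 228) (nat_lit 3188515207) (nat_lit 76) (nat_lit 12250542750) (nat_lit 21) (nat_lit 5) (nat_lit 24) (nat_lit 5) (nat_lit 22) (nat_lit 4) (nat_lit 287) (nat_lit 220) (nat_lit 213)) (XT.lf (nat_lit 0) (nat_lit 6660963700) (nat_lit 152) (nat_lit 9913442569) (nat_lit 0) (nat_lit 654815086) (nat_lit 20) (nat_lit 5) (nat_lit 22) (nat_lit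 4) (nat_lit 20) (nat_lit 4) (nat_lit 288) (nat_lit 220) (nat_lit 212)))) (XT.nd (nat_lit 78) (nat_lit 152) (nat_lit 0) (XT.lf (nat_lit 0) (nat_lit 177570325) (nat_lit 152) (nat_lit 12162076648) (nat_lit 152) (nat_lit 5556904438) (nat_lit 18) (nat_lit 4) (nat_lit 20) (nat_lit 5) (nat_lit 20) (nat_lit 4) (nat_lit 289) (nat_lit 220) (nat_lit 211)) (XT.nd (nat_lit 78) (nat_lit 152) (nat_lit 0) (XT.lf (nat_lit 0) (nat_lit 10687713314) (nat_lit 152) (nat_lit 7543744602) (nat_lit 152) (nat_lit 368073730) (nat_lit 18) (nat_lit 4) (nat_lit 20) (nat_lit 5) (nat_lit 20) (nat_lit 4) (nat_lit 290) (nat_lit 220) (nat_lit 210)) (XT.lf (nat_lit 0) (nat_lit 2095653244) (nat_lit 76) (nat_lit 2739152753) (nat_lit 152) (nat_lit 14505925124) (nat_lit 16) (nat_lit 5) (nat_lit 17) (nat_lit 5) (nat_lit 18) (nat_lit 4) (nat_lit 291) (nat_lit 220) (nat_lit 209))))))))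
noncomputable def xc17 : XT := (XT.nd (nat_lit 1716) (nat_lit 304) (nat_lit 0) (XT.nd (nat_lit 858) (nat_lit 228) (nat_lit 0) (XT.nd (nat_lit 390) (nat_lit 228) (nat_lit 0) (XT.nd (nat_lit 156) (nat_lit 152) (nat_lit 0) (XT.nd (nat_lit 78) (nat_lit 152) (nat_lit 0) (XT.lf (nat_lit 0) (nat_lit 10232503572) (nat_lit 152) (nat_lit 7652311036) (nat_lit 0) (nat_lit 2235938488) (nat_lit 16) (nat_lit 5) (nat_lit 18) (nat_lit 4) (nat_lit 16) (nat_lit 4) (nat_lit 292) (nat_lit 220) (nat_lit 208)) (XT.lf (nat_lit 0) (nat_lit 2170116859) (nat_lit 152) (nat_lit 13624000733) (nat_lit 152) (nat_lit 5148971383) (nat_lit 14) (nat_lit 4) (nat_lit 16) (nat_lit 5) (nat_lit 16) (nat_lit 4) (nat_lit 293) (nat_lit 220) (nat_lit 207))) (XT.nd (nat_lit 78) (nat_lit 152) (nat_lit 0) (XT.lf (nat_lit 0) (nat_lit 12386486708) (nat_lit 152) (nat_lit 9176508225) (nat_lit 152) (nat_lit 245798620) (nat_lit 14) (nat_lit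 4) (nat_lit 16) (nat_lit 5) (nat_lit 16) (nat_lit 4) (nat_lit 294) (nat_lit 220) (nat_lit 206)) (XT.nd (nat_lit 78) (nat_lit 0) (nat_lit 0) (XT.lf (nat_lit 0) (nat_lit 102942877) (nat_lit 76) (nat_lit 4560916076) (nat_lit 152) (nat_lit 18056918638) (nat_lit 12) (nat_lit 5) (nat_lit 13) (nat_lit 5) (nat_lit 14) (nat_lit 4) (nat_lit 295) (nat_lit 220) (nat_lit 205)) (XT.lf (nat_lit 0) (nat_lit 9774234011) (nat_lit 152) (nat_lit 13624332358) (nat_lit 0) (nat_lit 281024086) (nat_lit 12) (nat_lit 5) (nat_lit 14) (nat_lit 4) (nat_lit 12) (nat_lit 4) (nat_lit 296) (nat_lit 220) (nat_lit 204))))) (XT.nd (nat_lit 234) (nat_lit 152) (nat_lit 0) (XT.nd (nat_lit 78) (nat_lit 76) (nat_lit 0) (XT.lf (nat_lit 0) (nat_lit 15052421483) (nat_lit 152) (nat_lit 4459617621) (nat_lit 0) (nat_lit 5177042882) (nat_lit 12) (nat_lit 5) (nat_lit 14) (nat_lit 4) (nat_lit 12) (nat_lit 4) (nat_lit 297) (nat_lit 220)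 (nat_lit 203)) (XT.nd (nat_lit 78) (nat_lit 0) (nat_lit 0) (XT.lf (nat_lit 0) (nat_lit 5040327504) (nat_lit 76) (nat_lit 15475269373) (nat_lit 76) (nat_lit 5235920605) (nat_lit 11) (nat_lit 4) (nat_lit 12) (nat_lit 5) (nat_lit 12) (nat_lit 4) (nat_lit 298) (nat_lit 220) (nat_lit 202)) (XT.lf (nat_lit 0) (nat_lit 14893447735) (nat_lit 76) (nat_lit 11281017459) (nat_lit 76) (nat_lit 695030436) (nat_lit 11) (nat_lit 4) (nat_lit 12) (nat_lit 5) (nat_lit 12) (nat_lit 4) (nat_lit 299) (nat_lit 220) (nat_lit 201)))) (XT.nd (nat_lit 78) (nat_lit 76) (nat_lit 0) (XT.lf (nat_lit 0) (nat_lit 3874674630) (nat_lit 152) (nat_lit 3050529195) (nat_lit 76) (nat_lit 21120646500) (nat_lit 10) (nat_lit 5) (nat_lit 12) (nat_lit 5) (nat_lit 11) (nat_lit 4) (nat_lit 300) (nat_lit 220) (nat_lit 200)) (XT.nd (nat_lit 78) (nat_lit 0) (nat_lit 0) (XT.lf (nat_lit 0) (nat_lit 6238627235) (nat_lit 76) (nat_lit 2366868846)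 (nat_lit 152) (nat_lit 20676995397) (nat_lit 9) (nat_lit 5) (nat_lit 10) (nat_lit 5) (nat_lit 11) (nat_lit 4) (nat_lit 301) (nat_lit 220) (nat_lit 199)) (XT.lf (nat_lit 0) (nat_lit 13517484085) (nat_lit 152) (nat_lit 14741883653) (nat_lit 0) (nat_lit 2323339456) (nat_lit 9) (nat_lit 5) (nat_lit 11) (nat_lit 4) (nat_lit 9) (nat_lit 4) (nat_lit 302) (nat_lit 220) (nat_lit 198)))))) (XT.nd (nat_lit 390) (nat_lit 76) (nat_lit 0) (XT.nd (nat_lit 156) (nat_lit 76) (nat_lit 0) (XT.nd (nat_lit 78) (nat_lit 76) (nat_lit 0) (XT.lf (nat_lit 0) (nat_lit 18593870840) (nat_lit 152) (nat_lit 6233723996) (nat_lit 0) (nat_lit 7122852278) (nat_lit 9) (nat_lit 5) (nat_lit 11) (nat_lit 4) (nat_lit 9) (nat_lit 4) (nat_lit 303) (nat_lit 220) (nat_lit 197)) (XT.lf (nat_lit 0) (nat_lit 2573849108) (nat_lit 76) (nat_lit 21274883493) (nat_lit 76) (nat_lit 9540175472) (nat_lit 8) (nat_lit 4) (nat_lit 9) (nat_lit 5)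 (nat_lit 9) (nat_lit 4) (nat_lit 304) (nat_lit 220) (nat_lit 196))) (XT.nd (nat_lit 78) (nat_lit 76) (nat_lit 0) (XT.lf (nat_lit 0) (nat_lit 11780899064) (nat_lit 76) (nat_lit 17552643946) (nat_lit 76) (nat_lit 5566803106) (nat_lit 8) (nat_lit 4) (nat_lit 9) (nat_lit 5) (nat_lit 9) (nat_lit 4) (nat_lit 305) (nat_lit 220) (nat_lit 195)) (XT.nd (nat_lit 78) (nat_lit 76) (nat_lit 0) (XT.lf (nat_lit 0) (nat_lit 21285284087) (nat_lit 76) (nat_lit 13714962109) (nat_lit 76) (nat_lit 1489947157) (nat_lit 8) (nat_lit 4) (nat_lit 9) (nat_lit 5) (nat_lit 9) (nat_lit 4) (nat_lit 306) (nat_lit 220) (nat_lit 194)) (XT.lf (nat_lit 0) (nat_lit 2647410514) (nat_lit 152) (nat_lit 7078556476) (nat_lit 76) (nat_lit 28435489496) (nat_lit 7) (nat_lit 5) (nat_lit 9) (nat_lit 5) (nat_lit 8) (nat_lit 4) (nat_lit 307) (nat_lit 220) (nat_lit 193))))) (XT.nd (nat_lit 234) (nat_lit 0) (nat_lit 0) (XT.nd (nat_lit 78)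 (nat_lit 0) (nat_lit 0) (XT.lf (nat_lit 0) (nat_lit 1315133332) (nat_lit 76) (nat_lit 5573965743) (nat_lit 152) (nat_lit 33028951698) (nat_lit 6) (nat_lit 5) (nat_lit 7) (nat_lit 5) (nat_lit 8) (nat_lit 4) (nat_lit 308) (nat_lit 220) (nat_lit 192)) (XT.nd (nat_lit 78) (nat_lit 0) (nat_lit 0) (XT.lf (nat_lit 0) (nat_lit 10131111835) (nat_lit 76) (nat_lit 1202610932) (nat_lit 152) (nat_lit 30429082560) (nat_lit 6) (nat_lit 5) (nat_lit 7) (nat_lit 5) (nat_lit 8) (nat_lit 4) (nat_lit 309) (nat_lit 220) (nat_lit 191)) (XT.lf (nat_lit 0) (nat_lit 15954447822) (nat_lit 152) (nat_lit 24484683455) (nat_lit 0) (nat_lit 3262103630) (nat_lit 6) (nat_lit 5) (nat_lit 8) (nat_lit 4) (nat_lit 6) (nat_lit 4) (nat_lit 310) (nat_lit 220) (nat_lit 190)))) (XT.nd (nat_lit 78) (nat_lit 0) (nat_lit 0) (XT.lf (nat_lit 0) (nat_lit 20743403817) (nat_lit 152) (nat_lit 17125998491) (nat_lit 0) (nat_lit 7869118678)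 (nat_lit 6) (nat_lit 5) (nat_lit 8) (nat_lit 4) (nat_lit 6) (nat_lit 4) (nat_lit 311) (nat_lit 220) (nat_lit 189)) (XT.nd (nat_lit 78) (nat_lit 0) (nat_lit 0) (XT.lf (nat_lit 0) (nat_lit 25700432797) (nat_lit 152) (nat_lit 9526557689) (nat_lit 0) (nat_lit 12652870565) (nat_lit 6) (nat_lit 5) (nat_lit 8) (nat_lit 4) (nat_lit 6) (nat_lit 4) (nat_lit 312) (nat_lit 220) (nat_lit 188)) (XT.lf (nat_lit 0) (nat_lit 30837337213) (nat_lit 152) (nat_lit 1668267143) (nat_lit 0) (nat_lit 17624749178) (nat_lit 6) (nat_lit 5) (nat_lit 8) (nat_lit 4) (nat_lit 6) (nat_lit 4) (nat_lit 313) (nat_lit 220) (nat_lit 187))))))) (XT.nd (nat_lit 858) (nat_lit 76) (nat_lit 0) (XT.nd (nat_lit 390) (nat_lit 152) (nat_lit 0) (XT.nd (nat_lit 156) (nat_lit 0) (nat_lit 0) (XT.nd (nat_lit 78) (nat_lit 0) (nat_lit 0) (XT.lf (nat_lit 0) (nat_lit 6596300952) (nat_lit 76) (nat_lit 29633454515) (nat_lit 76) (nat_lit 16263699050)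 (nat_lit 5) (nat_lit 4) (nat_lit 6) (nat_lit 5) (nat_lit 6) (nat_lit 4) (nat_lit 314) (nat_lit 220) (nat_lit 186)) (XT.lf (nat_lit 0) (nat_lit 15196911378) (nat_lit 76) (nat_lit 26649323273) (nat_lit 76) (nat_lit 13129884540) (nat_lit 5) (nat_lit 4) (nat_lit 6) (nat_lit 5) (nat_lit 6) (nat_lit 4) (nat_lit 315) (nat_lit 220) (nat_lit 185))) (XT.nd (nat_lit 78) (nat_lit 0) (nat_lit 0) (XT.lf (nat_lit 0) (nat_lit 24120839990) (nat_lit 76) (nat_lit 23562951784) (nat_lit 76) (nat_lit 9900957558) (nat_lit 5) (nat_lit 4) (nat_lit 6) (nat_lit 5) (nat_lit 6) (nat_lit 4) (nat_lit 316) (nat_lit 220) (nat_lit 184)) (XT.nd (nat_lit 78) (nat_lit 0) (nat_lit 0) (XT.lf (nat_lit 0) (nat_lit 33389334238) (nat_lit 76) (nat_lit 20366991543) (nat_lit 76) (nat_lit 6569230181) (nat_lit 5) (nat_lit 4) (nat_lit 6) (nat_lit 5) (nat_lit 6) (nat_lit 4) (nat_lit 317) (nat_lit 220) (nat_lit 183)) (XT.lf (nat_lit 0) (nat_lit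 43024461963) (nat_lit 76) (nat_lit 17053833122) (nat_lit 76) (nat_lit 3126769725) (nat_lit 5) (nat_lit 4) (nat_lit 6) (nat_lit 5) (nat_lit 6) (nat_lit 4) (nat_lit 318) (nat_lit 220) (nat_lit 182))))) (XT.nd (nat_lit 234) (nat_lit 0) (nat_lit 0) (XT.nd (nat_lit 78) (nat_lit 76) (nat_lit 0) (XT.lf (nat_lit 0) (nat_lit 426139139) (nat_lit 152) (nat_lit 13185145738) (nat_lit 76) (nat_lit 52618721640) (nat_lit 4) (nat_lit 5) (nat_lit 6) (nat_lit 5) (nat_lit 5) (nat_lit 4) (nat_lit 319) (nat_lit 220) (nat_lit 181)) (XT.nd (nat_lit 78) (nat_lit 76) (nat_lit 0) (XT.lf (nat_lit 0) (nat_lit 4042956170) (nat_lit 152) (nat_lit 5960287922) (nat_lit 76) (nat_lit 59403526430) (nat_lit 4) (nat_lit 5) (nat_lit 6) (nat_lit 5) (nat_lit 5) (nat_lit 4) (nat_lit 320) (nat_lit 220) (nat_lit 180)) (XT.lf (nat_lit 0) (nat_lit 1571902548) (nat_lit 76) (nat_lit 6236514917) (nat_lit 152) (nat_lit 64934951475) (nat_lit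 3) (nat_lit 5) (nat_lit 4) (nat_lit 5) (nat_lit 5) (nat_lit 4) (nat_lit 321) (nat_lit 220) (nat_lit 179)))) (XT.nd (nat_lit 78) (nat_lit 0) (nat_lit 0) (XT.lf (nat_lit 0) (nat_lit 9523095887) (nat_lit 76) (nat_lit 2254568101) (nat_lit 152) (nat_lit 64468696796) (nat_lit 3) (nat_lit 5) (nat_lit 4) (nat_lit 5) (nat_lit 5) (nat_lit 4) (nat_lit 322) (nat_lit 220) (nat_lit 178)) (XT.nd (nat_lit 78) (nat_lit 0) (nat_lit 0) (XT.lf (nat_lit 0) (nat_lit 15919898136) (nat_lit 152) (nat_lit 62150423451) (nat_lit 0) (nat_lit 1854972371) (nat_lit 3) (nat_lit 5) (nat_lit 5) (nat_lit 4) (nat_lit 3) (nat_lit 4) (nat_lit 323) (nat_lit 220) (nat_lit 177)) (XT.lf (nat_lit 0) (nat_lit 20250101637) (nat_lit 152) (nat_lit 57447173602) (nat_lit 0) (nat_lit 6091499009) (nat_lit 3) (nat_lit 5) (nat_lit 5) (nat_lit 4) (nat_lit 3) (nat_lit 4) (nat_lit 324) (nat_lit 220) (nat_lit 176)))))) (XT.nd (nat_lit 390) (nat_lit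 76) (nat_lit 0) (XT.nd (nat_lit 156) (nat_lit 0) (nat_lit 0) (XT.nd (nat_lit 78) (nat_lit 0) (nat_lit 0) (XT.lf (nat_lit 0) (nat_lit 24756912213) (nat_lit 152) (nat_lit 52580644850) (nat_lit 0) (nat_lit 10509093525) (nat_lit 3) (nat_lit 5) (nat_lit 5) (nat_lit 4) (nat_lit 3) (nat_lit 4) (nat_lit 325) (nat_lit 220) (nat_lit 175)) (XT.lf (nat_lit 0) (nat_lit 29451060363) (nat_lit 152) (nat_lit 47539250221) (nat_lit 0) (nat_lit 15118273999) (nat_lit 3) (nat_lit 5) (nat_lit 5) (nat_lit 4) (nat_lit 3) (nat_lit 4) (nat_lit 326) (nat_lit 220) (nat_lit 174))) (XT.nd (nat_lit 78) (nat_lit 0) (nat_lit 0) (XT.lf (nat_lit 0) (nat_lit 34343722633) (nat_lit 152) (nat_lit 42310986394) (nat_lit 0) (nat_lit 19930014672) (nat_lit 3) (nat_lit 5) (nat_lit 5) (nat_lit 4) (nat_lit 3) (nat_lit 4) (nat_lit 327) (nat_lit 220) (nat_lit 173)) (XT.nd (nat_lit 78) (nat_lit 0) (nat_lit 0) (XT.lf (nat_lit 0) (nat_lit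 39446548216) (nat_lit 152) (nat_lit 36883405123) (nat_lit 0) (nat_lit 24955772069) (nat_lit 3) (nat_lit 5) (nat_lit 5) (nat_lit 4) (nat_lit 3) (nat_lit 4) (nat_lit 328) (nat_lit 220) (nat_lit 172)) (XT.lf (nat_lit 0) (nat_lit 44771686700) (nat_lit 152) (nat_lit 31243583594) (nat_lit 0) (nat_lit 30207512279) (nat_lit 3) (nat_lit 5) (nat_lit 5) (nat_lit 4) (nat_lit 3) (nat_lit 4) (nat_lit 329) (nat_lit 220) (nat_lit 171))))) (XT.nd (nat_lit 234) (nat_lit 76) (nat_lit 0) (XT.nd (nat_lit 78) (nat_lit 0) (nat_lit 0) (XT.lf (nat_lit 0) (nat_lit 50331816983) (nat_lit 152) (nat_lit 25378093662) (nat_lit 0) (nat_lit 35697739445) (nat_lit 3) (nat_lit 5) (nat_lit 5) (nat_lit 4) (nat_lit 3) (nat_lit 4) (nat_lit 330) (nat_lit 220) (nat_lit 170)) (XT.nd (nat_lit 78) (nat_lit 0) (nat_lit 0) (XT.lf (nat_lit 0) (nat_lit 56140177473) (nat_lit 152) (nat_lit 19272969874) (nat_lit 0) (nat_lit 41439525537) (nat_lit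 3) (nat_lit 5) (nat_lit 5) (nat_lit 4) (nat_lit 3) (nat_lit 4) (nat_lit 331) (nat_lit 220) (nat_lit 169)) (XT.lf (nat_lit 0) (nat_lit 62210597598) (nat_lit 152) (nat_lit 12913676221) (nat_lit 0) (nat_lit 47446541474) (nat_lit 3) (nat_lit 5) (nat_lit 5) (nat_lit 4) (nat_lit 3) (nat_lit 4) (nat_lit 332) (nat_lit 220) (nat_lit 168)))) (XT.nd (nat_lit 78) (nat_lit 76) (nat_lit 0) (XT.lf (nat_lit 0) (nat_lit 68557530740) (nat_lit 152) (nat_lit 6285071527) (nat_lit 0) (nat_lit 53733089675) (nat_lit 3) (nat_lit 5) (nat_lit 5) (nat_lit 4) (nat_lit 3) (nat_lit 4) (nat_lit 333) (nat_lit 220) (nat_lit 167)) (XT.nd (nat_lit 33150) (nat_lit 0) (nat_lit 2888) (XT.lf (nat_lit 0) (nat_lit 641137500) (nat_lit 76) (nat_lit 74561114150) (nat_lit 76) (nat_lit 59679163617) (nat_lit 2) (nat_lit 4) (nat_lit 3) (nat_lit 5) (nat_lit 3) (nat_lit 4) (nat_lit 334) (nat_lit 220) (nat_lit 166)) (XT.lf (nat_lit 0) (nat_lit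 2916788468) (nat_lit 228) (nat_lit 267720110) (nat_lit 0) (nat_lit 2916788468) (nat_lit 40) (nat_lit 5) (nat_lit 43) (nat_lit 4) (nat_lit 40) (nat_lit 4) (nat_lit 278) (nat_lit 221) (nat_lit 221))))))))
noncomputable def xc18 : XT := (XT.nd (nat_lit 1716) (nat_lit 532) (nat_lit 0) (XT.nd (nat_lit 858) (nat_lit 760) (nat_lit 0) (XT.nd (nat_lit 390) (nat_lit 532) (nat_lit 0) (XT.nd (nat_lit 156) (nat_lit 532) (nat_lit 0) (XT.nd (nat_lit 78) (nat_lit 228) (nat_lit 0) (XT.lf (nat_lit 0) (nat_lit 10419834726) (nat_lit 228) (nat_lit 1609939873) (nat_lit 228) (nat_lit 564024563) (nat_lit 37) (nat_lit 4) (nat_lit 40) (nat_lit 5) (nat_lit 40) (nat_lit 4) (nat_lit 279) (nat_lit 221) (nat_lit 220)) (XT.lf (nat_lit 0) (nat_lit 5322026235) (nat_lit 228) (nat_lit 4344773674) (nat_lit 0) (nat_lit 3339477565) (nat_lit 34) (nat_lit 5) (nat_lit 37) (nat_lit 4) (nat_lit 34) (nat_lit 4) (nat_lit 280) (nat_lit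 221) (nat_lit 219))) (XT.nd (nat_lit 78) (nat_lit 380) (nat_lit 0) (XT.lf (nat_lit 0) (nat_lit 6401866159) (nat_lit 152) (nat_lit 4972345954) (nat_lit 152) (nat_lit 2068752606) (nat_lit 32) (nat_lit 4) (nat_lit 34) (nat_lit 5) (nat_lit 34) (nat_lit 4) (nat_lit 281) (nat_lit 221) (nat_lit 218)) (XT.nd (nat_lit 78) (nat_lit 152) (nat_lit 0) (XT.lf (nat_lit 0) (nat_lit 3567982019) (nat_lit 152) (nat_lit 52097179) (nat_lit 228) (nat_lit 10284524015) (nat_lit 29) (nat_lit 5) (nat_lit 31) (nat_lit 5) (nat_lit 32) (nat_lit 4) (nat_lit 282) (nat_lit 221) (nat_lit 217)) (XT.lf (nat_lit 0) (nat_lit 61652471) (nat_lit 152) (nat_lit 9405759637) (nat_lit 152) (nat_lit 4924018443) (nat_lit 27) (nat_lit 4) (nat_lit 29) (nat_lit 5) (nat_lit 29) (nat_lit 4) (nat_lit 283) (nat_lit 221) (nat_lit 216))))) (XT.nd (nat_lit 234) (nat_lit 152) (nat_lit 0) (XT.nd (nat_lit 78) (nat_lit 304) (nat_lit 0) (XT.lf (nat_lit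 0) (nat_lit 596748213) (nat_lit 228) (nat_lit 4042801564) (nat_lit 76) (nat_lit 10265876460) (nat_lit 26) (nat_lit 5) (nat_lit 29) (nat_lit 5) (nat_lit 27) (nat_lit 4) (nat_lit 284) (nat_lit 221) (nat_lit 215)) (XT.nd (nat_lit 78) (nat_lit 152) (nat_lit 0) (XT.lf (nat_lit 0) (nat_lit 6166404750) (nat_lit 228) (nat_lit 8930222164) (nat_lit 0) (nat_lit 350991245) (nat_lit 24) (nat_lit 5) (nat_lit 27) (nat_lit 4) (nat_lit 24) (nat_lit 4) (nat_lit 285) (nat_lit 221) (nat_lit 214)) (XT.lf (nat_lit 0) (nat_lit 1342654581) (nat_lit 152) (nat_lit 10586335794) (nat_lit 152) (nat_lit 4090686069) (nat_lit 22) (nat_lit 4) (nat_lit 24) (nat_lit 5) (nat_lit 24) (nat_lit 4) (nat_lit 286) (nat_lit 221) (nat_lit 213)))) (XT.nd (nat_lit 78) (nat_lit 76) (nat_lit 0) (XT.lf (nat_lit 0) (nat_lit 1242409096) (nat_lit 228) (nat_lit 4621403278) (nat_lit 76) (nat_lit 10759022058) (nat_lit 21) (nat_lit 5) (nat_lit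 24) (nat_lit 5) (nat_lit 22) (nat_lit 4) (nat_lit 287) (nat_lit 221) (nat_lit 212)) (XT.nd (nat_lit 78) (nat_lit 0) (nat_lit 0) (XT.lf (nat_lit 0) (nat_lit 5716168337) (nat_lit 76) (nat_lit 922578650) (nat_lit 152) (nat_lit 10619920041) (nat_lit 20) (nat_lit 5) (nat_lit 21) (nat_lit 5) (nat_lit 22) (nat_lit 4) (nat_lit 288) (nat_lit 221) (nat_lit 211)) (XT.lf (nat_lit 0) (nat_lit 12223906587) (nat_lit 152) (nat_lit 1586020495) (nat_lit 0) (nat_lit 4118953508) (nat_lit 20) (nat_lit 5) (nat_lit 22) (nat_lit 4) (nat_lit 20) (nat_lit 4) (nat_lit 289) (nat_lit 221) (nat_lit 210)))))) (XT.nd (nat_lit 390) (nat_lit 304) (nat_lit 0) (XT.nd (nat_lit 156) (nat_lit 228) (nat_lit 0) (XT.nd (nat_lit 78) (nat_lit 76) (nat_lit 0) (XT.lf (nat_lit 0) (nat_lit 8756630819) (nat_lit 152) (nat_lit 9263232431) (nat_lit 152) (nat_lit 614947293) (nat_lit 18) (nat_lit 4) (nat_lit 20) (nat_lit 5) (nat_lit 20) (nat_lit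 4) (nat_lit 290) (nat_lit 221) (nat_lit 209)) (XT.lf (nat_lit 0) (nat_lit 4495297695) (nat_lit 228) (nat_lit 40289921) (nat_lit 76) (nat_lit 14843485667) (nat_lit 17) (nat_lit 5) (nat_lit 20) (nat_lit 5) (nat_lit 18) (nat_lit 4) (nat_lit 291) (nat_lit 221) (nat_lit 208))) (XT.nd (nat_lit 78) (nat_lit 152) (nat_lit 0) (XT.lf (nat_lit 0) (nat_lit 9799973852) (nat_lit 152) (nat_lit 9939248526) (nat_lit 0) (nat_lit 422728767) (nat_lit 16) (nat_lit 5) (nat_lit 18) (nat_lit 4) (nat_lit 16) (nat_lit 4) (nat_lit 292) (nat_lit 221) (nat_lit 207)) (XT.nd (nat_lit 78) (nat_lit 152) (nat_lit 0) (XT.lf (nat_lit 0) (nat_lit 15268961595) (nat_lit 152) (nat_lit 282130099) (nat_lit 0) (nat_lit 5436036256) (nat_lit 16) (nat_lit 5) (nat_lit 18) (nat_lit 4) (nat_lit 16) (nat_lit 4) (nat_lit 293) (nat_lit 221) (nat_lit 206)) (XT.lf (nat_lit 0) (nat_lit 9809186835) (nat_lit 152) (nat_lit 11156389640) (nat_lit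 152) (nat_lit 889483106) (nat_lit 14) (nat_lit 4) (nat_lit 16) (nat_lit 5) (nat_lit 16) (nat_lit 4) (nat_lit 294) (nat_lit 221) (nat_lit 205))))) (XT.nd (nat_lit 234) (nat_lit 152) (nat_lit 0) (XT.nd (nat_lit 78) (nat_lit 76) (nat_lit 0) (XT.lf (nat_lit 0) (nat_lit 3964847817) (nat_lit 228) (nat_lit 2631580886) (nat_lit 76) (nat_lit 16172891879) (nat_lit 13) (nat_lit 5) (nat_lit 16) (nat_lit 5) (nat_lit 14) (nat_lit 4) (nat_lit 295) (nat_lit 221) (nat_lit 204)) (XT.nd (nat_lit 78) (nat_lit 0) (nat_lit 0) (XT.lf (nat_lit 0) (nat_lit 7159362308) (nat_lit 76) (nat_lit 1822518480) (nat_lit 152) (nat_lit 14749105034) (nat_lit 12) (nat_lit 5) (nat_lit 13) (nat_lit 5) (nat_lit 14) (nat_lit 4) (nat_lit 296) (nat_lit 221) (nat_lit 203)) (XT.lf (nat_lit 0) (nat_lit 14180416336) (nat_lit 152) (nat_lit 7497370245) (nat_lit 0) (nat_lit 3065129961) (nat_lit 12) (nat_lit 5) (nat_lit 14) (nat_lit 4) (nat_lit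 12) (nat_lit 4) (nat_lit 297) (nat_lit 221) (nat_lit 202)))) (XT.nd (nat_lit 78) (nat_lit 76) (nat_lit 0) (XT.lf (nat_lit 0) (nat_lit 1837232259) (nat_lit 76) (nat_lit 17716395302) (nat_lit 76) (nat_lit 6254470672) (nat_lit 11) (nat_lit 4) (nat_lit 12) (nat_lit 5) (nat_lit 12) (nat_lit 4) (nat_lit 298) (nat_lit 221) (nat_lit 201)) (XT.nd (nat_lit 78) (nat_lit 76) (nat_lit 0) (XT.lf (nat_lit 0) (nat_lit 11590461645) (nat_lit 76) (nat_lit 13564717775) (nat_lit 76) (nat_lit 1772661473) (nat_lit 11) (nat_lit 4) (nat_lit 12) (nat_lit 5) (nat_lit 12) (nat_lit 4) (nat_lit 299) (nat_lit 221) (nat_lit 200)) (XT.lf (nat_lit 0) (nat_lit 2762902448) (nat_lit 152) (nat_lit 6497775446) (nat_lit 76) (nat_lit 18845525173) (nat_lit 10) (nat_lit 5) (nat_lit 12) (nat_lit 5) (nat_lit 11) (nat_lit 4) (nat_lit 300) (nat_lit 221) (nat_lit 199))))))) (XT.nd (nat_lit 858) (nat_lit 228) (nat_lit 0) (XT.nd (nat_lit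 390) (nat_lit 152) (nat_lit 0) (XT.nd (nat_lit 156) (nat_lit 76) (nat_lit 0) (XT.nd (nat_lit 78) (nat_lit 0) (nat_lit 0) (XT.lf (nat_lit 0) (nat_lit 2629259945) (nat_lit 76) (nat_lit 4777226024) (nat_lit 152) (nat_lit 21939015032) (nat_lit 9) (nat_lit 5) (nat_lit 10) (nat_lit 5) (nat_lit 11) (nat_lit 4) (nat_lit 301) (nat_lit 221) (nat_lit 198)) (XT.lf (nat_lit 0) (nat_lit 12165856396) (nat_lit 76) (nat_lit 78943170) (nat_lit 152) (nat_lit 18403165139) (nat_lit 9) (nat_lit 5) (nat_lit 10) (nat_lit 5) (nat_lit 11) (nat_lit 4) (nat_lit 302) (nat_lit 221) (nat_lit 197))) (XT.nd (nat_lit 78) (nat_lit 76) (nat_lit 0) (XT.lf (nat_lit 0) (nat_lit 17271605158) (nat_lit 152) (nat_lit 10059150583) (nat_lit 0) (nat_lit 4686472277) (nat_lit 9) (nat_lit 5) (nat_lit 11) (nat_lit 4) (nat_lit 9) (nat_lit 4) (nat_lit 303) (nat_lit 221) (nat_lit 196)) (XT.nd (nat_lit 78) (nat_lit 76) (nat_lit 0) (XT.lf (nat_lit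 0) (nat_lit 22455228066) (nat_lit 152) (nat_lit 1383669955) (nat_lit 0) (nat_lit 9618962366) (nat_lit 9) (nat_lit 5) (nat_lit 11) (nat_lit 4) (nat_lit 9) (nat_lit 4) (nat_lit 304) (nat_lit 221) (nat_lit 195)) (XT.lf (nat_lit 0) (nat_lit 7716321557) (nat_lit 76) (nat_lit 20165103847) (nat_lit 76) (nat_lit 7089664034) (nat_lit 8) (nat_lit 4) (nat_lit 9) (nat_lit 5) (nat_lit 9) (nat_lit 4) (nat_lit 305) (nat_lit 221) (nat_lit 194))))) (XT.nd (nat_lit 234) (nat_lit 76) (nat_lit 0) (XT.nd (nat_lit 78) (nat_lit 76) (nat_lit 0) (XT.lf (nat_lit 0) (nat_lit 17144972582) (nat_lit 76) (nat_lit 16360253457) (nat_lit 76) (nat_lit 3057028775) (nat_lit 8) (nat_lit 4) (nat_lit 9) (nat_lit 5) (nat_lit 9) (nat_lit 4) (nat_lit 306) (nat_lit 221) (nat_lit 193)) (XT.nd (nat_lit 78) (nat_lit 0) (nat_lit 0) (XT.lf (nat_lit 0) (nat_lit 1069615175) (nat_lit 152) (nat_lit 11348843846) (nat_lit 76) (nat_lit 25816778353)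 (nat_lit 7) (nat_lit 5) (nat_lit 9) (nat_lit 5) (nat_lit 8) (nat_lit 4) (nat_lit 307) (nat_lit 221) (nat_lit 192)) (XT.lf (nat_lit 0) (nat_lit 5259335082) (nat_lit 152) (nat_lit 3050320027) (nat_lit 76) (nat_lit 31683762964) (nat_lit 7) (nat_lit 5) (nat_lit 9) (nat_lit 5) (nat_lit 8) (nat_lit 4) (nat_lit 308) (nat_lit 221) (nat_lit 191)))) (XT.nd (nat_lit 78) (nat_lit 0) (nat_lit 0) (XT.lf (nat_lit 0) (nat_lit 5637440413) (nat_lit 76) (nat_lit 3998510222) (nat_lit 152) (nat_lit 32204288286) (nat_lit 6) (nat_lit 5) (nat_lit 7) (nat_lit 5) (nat_lit 8) (nat_lit 4) (nat_lit 309) (nat_lit 221) (nat_lit 190)) (XT.nd (nat_lit 78) (nat_lit 0) (nat_lit 0) (XT.lf (nat_lit 0) (nat_lit 14193241964) (nat_lit 152) (nat_lit 29094052739) (nat_lit 0) (nat_lit 493301620) (nat_lit 6) (nat_lit 5) (nat_lit 8) (nat_lit 4) (nat_lit 6) (nat_lit 4) (nat_lit 310) (nat_lit 221) (nat_lit 189)) (XT.lf (nat_lit 0) (nat_lit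 18947380976) (nat_lit 152) (nat_lit 21797406023) (nat_lit 0) (nat_lit 5074163540) (nat_lit 6) (nat_lit 5) (nat_lit 8) (nat_lit 4) (nat_lit 6) (nat_lit 4) (nat_lit 311) (nat_lit 221) (nat_lit 188)))))) (XT.nd (nat_lit 390) (nat_lit 152) (nat_lit 0) (XT.nd (nat_lit 156) (nat_lit 76) (nat_lit 0) (XT.nd (nat_lit 78) (nat_lit 0) (nat_lit 0) (XT.lf (nat_lit 0) (nat_lit 23871250926) (nat_lit 152) (nat_lit 14257049268) (nat_lit 0) (nat_lit 9833007687) (nat_lit 6) (nat_lit 5) (nat_lit 8) (nat_lit 4) (nat_lit 6) (nat_lit 4) (nat_lit 312) (nat_lit 221) (nat_lit 187)) (XT.lf (nat_lit 0) (nat_lit 28976575311) (nat_lit 152) (nat_lit 6455029243) (nat_lit 0) (nat_lit 14781164641) (nat_lit 6) (nat_lit 5) (nat_lit 8) (nat_lit 4) (nat_lit 6) (nat_lit 4) (nat_lit 313) (nat_lit 221) (nat_lit 186))) (XT.nd (nat_lit 78) (nat_lit 0) (nat_lit 0) (XT.lf (nat_lit 0) (nat_lit 1659615363) (nat_lit 76) (nat_lit 32631847542)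 (nat_lit 76) (nat_lit 18286753604) (nat_lit 5) (nat_lit 4) (nat_lit 6) (nat_lit 5) (nat_lit 6) (nat_lit 4) (nat_lit 314) (nat_lit 221) (nat_lit 185)) (XT.nd (nat_lit 78) (nat_lit 0) (nat_lit 0) (XT.lf (nat_lit 0) (nat_lit 10208170992) (nat_lit 76) (nat_lit 29670626697) (nat_lit 76) (nat_lit 15182977267) (nat_lit 5) (nat_lit 4) (nat_lit 6) (nat_lit 5) (nat_lit 6) (nat_lit 4) (nat_lit 315) (nat_lit 221) (nat_lit 184)) (XT.lf (nat_lit 0) (nat_lit 19082523606) (nat_lit 76) (nat_lit 26606074634) (nat_lit 76) (nat_lit 11982658067) (nat_lit 5) (nat_lit 4) (nat_lit 6) (nat_lit 5) (nat_lit 6) (nat_lit 4) (nat_lit 316) (nat_lit 221) (nat_lit 183))))) (XT.nd (nat_lit 234) (nat_lit 152) (nat_lit 0) (XT.nd (nat_lit 78) (nat_lit 0) (nat_lit 0) (XT.lf (nat_lit 0) (nat_lit 28303802617) (nat_lit 76) (nat_lit 23430894798) (nat_lit 76) (nat_lit 8678176198) (nat_lit 5) (nat_lit 4) (nat_lit 6) (nat_lit 5) (nat_lit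 6) (nat_lit 4) (nat_lit 317) (nat_lit 221) (nat_lit 182)) (XT.nd (nat_lit 78) (nat_lit 0) (nat_lit 0) (XT.lf (nat_lit 0) (nat_lit 37893963452) (nat_lit 76) (nat_lit 20137527240) (nat_lit 76) (nat_lit 5261663844) (nat_lit 5) (nat_lit 4) (nat_lit 6) (nat_lit 5) (nat_lit 6) (nat_lit 4) (nat_lit 318) (nat_lit 221) (nat_lit 181)) (XT.lf (nat_lit 0) (nat_lit 47875839826) (nat_lit 76) (nat_lit 16718130606) (nat_lit 76) (nat_lit 1724986453) (nat_lit 5) (nat_lit 4) (nat_lit 6) (nat_lit 5) (nat_lit 6) (nat_lit 4) (nat_lit 319) (nat_lit 221) (nat_lit 180)))) (XT.nd (nat_lit 78) (nat_lit 76) (nat_lit 0) (XT.lf (nat_lit 0) (nat_lit 1902414848) (nat_lit 152) (nat_lit 11242937968) (nat_lit 76) (nat_lit 56351572603) (nat_lit 4) (nat_lit 5) (nat_lit 6) (nat_lit 5) (nat_lit 5) (nat_lit 4) (nat_lit 320) (nat_lit 221) (nat_lit 179)) (XT.nd (nat_lit 78) (nat_lit 76) (nat_lit 0) (XT.lf (nat_lit 0) (nat_lit 5630788505)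 (nat_lit 152) (nat_lit 3780716549) (nat_lit 76) (nat_lit 63423145496) (nat_lit 4) (nat_lit 5) (nat_lit 6) (nat_lit 5) (nat_lit 5) (nat_lit 4) (nat_lit 321) (nat_lit 221) (nat_lit 178)) (XT.lf (nat_lit 0) (nat_lit 4057063945) (nat_lit 76) (nat_lit 5484607329) (nat_lit 152) (nat_lit 66797735446) (nat_lit 3) (nat_lit 5) (nat_lit 4) (nat_lit 5) (nat_lit 5) (nat_lit 4) (nat_lit 322) (nat_lit 221) (nat_lit 177))))))))
noncomputable def xc19 : XT := (XT.nd (nat_lit 34632) (nat_lit 0) (nat_lit 380) (XT.nd (nat_lit 858) (nat_lit 0) (nat_lit 0) (XT.nd (nat_lit 390) (nat_lit 0) (nat_lit 0) (XT.nd (nat_lit 156) (nat_lit 0) (nat_lit 0) (XT.nd (nat_lit 78) (nat_lit 0) (nat_lit 0) (XT.lf (nat_lit 0) (nat_lit 12291218558) (nat_lit 76) (nat_lit 1354217140) (nat_lit 152) (nat_lit 66374071062) (nat_lit 3) (nat_lit 5) (nat_lit 4) (nat_lit 5) (nat_lit 5) (nat_lit 4) (nat_lit 323) (nat_lit 221) (nat_lit 176))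 (XT.lf (nat_lit 0) (nat_lit 17943156709) (nat_lit 152) (nat_lit 63047085956) (nat_lit 0) (nat_lit 2893731027) (nat_lit 3) (nat_lit 5) (nat_lit 5) (nat_lit 4) (nat_lit 3) (nat_lit 4) (nat_lit 324) (nat_lit 221) (nat_lit 175))) (XT.nd (nat_lit 78) (nat_lit 0) (nat_lit 0) (XT.lf (nat_lit 0) (nat_lit 22431429258) (nat_lit 152) (nat_lit 58213952599) (nat_lit 0) (nat_lit 7297035900) (nat_lit 3) (nat_lit 5) (nat_lit 5) (nat_lit 4) (nat_lit 3) (nat_lit 4) (nat_lit 325) (nat_lit 221) (nat_lit 174)) (XT.nd (nat_lit 78) (nat_lit 0) (nat_lit 0) (XT.lf (nat_lit 0) (nat_lit 27107922146) (nat_lit 152) (nat_lit 53204363108) (nat_lit 0) (nat_lit 11892607191) (nat_lit 3) (nat_lit 5) (nat_lit 5) (nat_lit 4) (nat_lit 3) (nat_lit 4) (nat_lit 326) (nat_lit 221) (nat_lit 173)) (XT.lf (nat_lit 0) (nat_lit 31983769879) (nat_lit 152) (nat_lit 48006389890) (nat_lit 0) (nat_lit 16691386737) (nat_lit 3) (nat_lit 5)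 (nat_lit 5) (nat_lit 4) (nat_lit 3) (nat_lit 4) (nat_lit 327) (nat_lit 221) (nat_lit 172))))) (XT.nd (nat_lit 234) (nat_lit 0) (nat_lit 0) (XT.nd (nat_lit 78) (nat_lit 0) (nat_lit 0) (XT.lf (nat_lit 0) (nat_lit 37070581619) (nat_lit 152) (nat_lit 42607656816) (nat_lit 0) (nat_lit 21704800204) (nat_lit 3) (nat_lit 5) (nat_lit 5) (nat_lit 4) (nat_lit 3) (nat_lit 4) (nat_lit 328) (nat_lit 221) (nat_lit 171)) (XT.nd (nat_lit 78) (nat_lit 0) (nat_lit 0) (XT.lf (nat_lit 0) (nat_lit 42380468823) (nat_lit 152) (nat_lit 36995309762) (nat_lit 0) (nat_lit 26944784290) (nat_lit 3) (nat_lit 5) (nat_lit 5) (nat_lit 4) (nat_lit 3) (nat_lit 4) (nat_lit 329) (nat_lit 221) (nat_lit 170)) (XT.lf (nat_lit 0) (nat_lit 47926074078) (nat_lit 152) (nat_lit 31155985996) (nat_lit 0) (nat_lit 32423815148) (nat_lit 3) (nat_lit 5) (nat_lit 5) (nat_lit 4) (nat_lit 3) (nat_lit 4) (nat_lit 330) (nat_lit 221) (nat_lit 169))))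 (XT.nd (nat_lit 78) (nat_lit 0) (nat_lit 0) (XT.lf (nat_lit 0) (nat_lit 53720601207) (nat_lit 152) (nat_lit 25075782366) (nat_lit 0) (nat_lit 38154938088) (nat_lit 3) (nat_lit 5) (nat_lit 5) (nat_lit 4) (nat_lit 3) (nat_lit 4) (nat_lit 331) (nat_lit 221) (nat_lit 168)) (XT.nd (nat_lit 78) (nat_lit 0) (nat_lit 0) (XT.lf (nat_lit 0) (nat_lit 59777846703) (nat_lit 152) (nat_lit 18740222197) (nat_lit 0) (nat_lit 44151798643) (nat_lit 3) (nat_lit 5) (nat_lit 5) (nat_lit 4) (nat_lit 3) (nat_lit 4) (nat_lit 332) (nat_lit 221) (nat_lit 167)) (XT.lf (nat_lit 0) (nat_lit 66112232579) (nat_lit 152) (nat_lit 12134220822) (nat_lit 0) (nat_lit 50428675052) (nat_lit 3) (nat_lit 5) (nat_lit 5) (nat_lit 4) (nat_lit 3) (nat_lit 4) (nat_lit 333) (nat_lit 221) (nat_lit 166)))))) (XT.nd (nat_lit 33306) (nat_lit 0) (nat_lit 1596) (XT.nd (nat_lit 33072) (nat_lit 0) (nat_lit 2508) (XT.nd (nat_lit 32994) (nat_lit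 0) (nat_lit 3040) (XT.lf (nat_lit 0) (nat_lit 72738840707) (nat_lit 152) (nat_lit 5242049666) (nat_lit 0) (nat_lit 57000512258) (nat_lit 3) (nat_lit 5) (nat_lit 5) (nat_lit 4) (nat_lit 3) (nat_lit 4) (nat_lit 334) (nat_lit 221) (nat_lit 165)) (XT.lf (nat_lit 0) (nat_lit 849785129) (nat_lit 228) (nat_lit 2445264328) (nat_lit 228) (nat_lit 2445264328) (nat_lit 43) (nat_lit 4) (nat_lit 46) (nat_lit 5) (nat_lit 46) (nat_lit 4) (nat_lit 276) (nat_lit 222) (nat_lit 222))) (XT.nd (nat_lit 78) (nat_lit 304) (nat_lit 0) (XT.lf (nat_lit 0) (nat_lit 717230249) (nat_lit 152) (nat_lit 193305542) (nat_lit 228) (nat_lit 10923363851) (nat_lit 40) (nat_lit 5) (nat_lit 42) (nat_lit 5) (nat_lit 43) (nat_lit 4) (nat_lit 277) (nat_lit 222) (nat_lit 221)) (XT.nd (nat_lit 78) (nat_lit 304) (nat_lit 0) (XT.lf (nat_lit 0) (nat_lit 6820456269) (nat_lit 228) (nat_lit 709290518) (nat_lit 0) (nat_lit 4676329883) (nat_lit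 40) (nat_lit 5) (nat_lit 43) (nat_lit 4) (nat_lit 40) (nat_lit 4) (nat_lit 278) (nat_lit 222) (nat_lit 220)) (XT.lf (nat_lit 0) (nat_lit 300614897) (nat_lit 304) (nat_lit 2529987962) (nat_lit 76) (nat_lit 9770007034) (nat_lit 36) (nat_lit 5) (nat_lit 40) (nat_lit 5) (nat_lit 37) (nat_lit 4) (nat_lit 279) (nat_lit 222) (nat_lit 219))))) (XT.nd (nat_lit 234) (nat_lit 380) (nat_lit 0) (XT.nd (nat_lit 78) (nat_lit 380) (nat_lit 0) (XT.lf (nat_lit 0) (nat_lit 6054547244) (nat_lit 228) (nat_lit 4877407722) (nat_lit 0) (nat_lit 2084729552) (nat_lit 34) (nat_lit 5) (nat_lit 37) (nat_lit 4) (nat_lit 34) (nat_lit 4) (nat_lit 280) (nat_lit 222) (nat_lit 218)) (XT.nd (nat_lit 78) (nat_lit 228) (nat_lit 0) (XT.lf (nat_lit 0) (nat_lit 5694518658) (nat_lit 152) (nat_lit 6304602096) (nat_lit 152) (nat_lit 1457598996) (nat_lit 32) (nat_lit 4) (nat_lit 34) (nat_lit 5) (nat_lit 34) (nat_lit 4) (nat_lit 281)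 (nat_lit 222) (nat_lit 217)) (XT.lf (nat_lit 0) (nat_lit 2665013680) (nat_lit 152) (nat_lit 1447021518) (nat_lit 228) (nat_lit 9809475559) (nat_lit 29) (nat_lit 5) (nat_lit 31) (nat_lit 5) (nat_lit 32) (nat_lit 4) (nat_lit 282) (nat_lit 222) (nat_lit 216)))) (XT.nd (nat_lit 78) (nat_lit 380) (nat_lit 0) (XT.lf (nat_lit 0) (nat_lit 9849428908) (nat_lit 228) (nat_lit 1002253498) (nat_lit 0) (nat_lit 3560059202) (nat_lit 29) (nat_lit 5) (nat_lit 32) (nat_lit 4) (nat_lit 29) (nat_lit 4) (nat_lit 283) (nat_lit 222) (nat_lit 215)) (XT.nd (nat_lit 78) (nat_lit 152) (nat_lit 0) (XT.lf (nat_lit 0) (nat_lit 847627004) (nat_lit 228) (nat_lit 5304362357) (nat_lit 76) (nat_lit 8776854084) (nat_lit 26) (nat_lit 5) (nat_lit 29) (nat_lit 5) (nat_lit 27) (nat_lit 4) (nat_lit 284) (nat_lit 222) (nat_lit 214)) (XT.lf (nat_lit 0) (nat_lit 5084955891) (nat_lit 152) (nat_lit 1225706362) (nat_lit 228) (nat_lit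 9163664512) (nat_lit 24) (nat_lit 5) (nat_lit 26) (nat_lit 5) (nat_lit 27) (nat_lit 4) (nat_lit 285) (nat_lit 222) (nat_lit 213))))))) (XT.nd (nat_lit 858) (nat_lit 304) (nat_lit 0) (XT.nd (nat_lit 390) (nat_lit 456) (nat_lit 0) (XT.nd (nat_lit 156) (nat_lit 228) (nat_lit 0) (XT.nd (nat_lit 78) (nat_lit 228) (nat_lit 0) (XT.lf (nat_lit 0) (nat_lit 11961536050) (nat_lit 228) (nat_lit 275265099) (nat_lit 0) (nat_lit 3813023599) (nat_lit 24) (nat_lit 5) (nat_lit 27) (nat_lit 4) (nat_lit 24) (nat_lit 4) (nat_lit 286) (nat_lit 222) (nat_lit 212)) (XT.lf (nat_lit 0) (nat_lit 1156890815) (nat_lit 228) (nat_lit 6417018399) (nat_lit 76) (nat_lit 9081790581) (nat_lit 21) (nat_lit 5) (nat_lit 24) (nat_lit 5) (nat_lit 22) (nat_lit 4) (nat_lit 287) (nat_lit 222) (nat_lit 211))) (XT.nd (nat_lit 78) (nat_lit 152) (nat_lit 0) (XT.lf (nat_lit 0) (nat_lit 3746895579) (nat_lit 76) (nat_lit 2706314251) (nat_lit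 152) (nat_lit 10841400923) (nat_lit 20) (nat_lit 5) (nat_lit 21) (nat_lit 5) (nat_lit 22) (nat_lit 4) (nat_lit 288) (nat_lit 222) (nat_lit 210)) (XT.nd (nat_lit 78) (nat_lit 152) (nat_lit 0) (XT.lf (nat_lit 0) (nat_lit 11942224624) (nat_lit 152) (nat_lit 3707364956) (nat_lit 0) (nat_lit 2318193169) (nat_lit 20) (nat_lit 5) (nat_lit 22) (nat_lit 4) (nat_lit 20) (nat_lit 4) (nat_lit 289) (nat_lit 222) (nat_lit 209)) (XT.lf (nat_lit 0) (nat_lit 6463613390) (nat_lit 152) (nat_lit 11177289395) (nat_lit 152) (nat_lit 1035798836) (nat_lit 18) (nat_lit 4) (nat_lit 20) (nat_lit 5) (nat_lit 20) (nat_lit 4) (nat_lit 290) (nat_lit 222) (nat_lit 208))))) (XT.nd (nat_lit 234) (nat_lit 304) (nat_lit 0) (XT.nd (nat_lit 78) (nat_lit 76) (nat_lit 0) (XT.lf (nat_lit 0) (nat_lit 4009032356) (nat_lit 228) (nat_lit 2495973070) (nat_lit 76) (nat_lit 12918354328) (nat_lit 17) (nat_lit 5) (nat_lit 20) (nat_lit 5)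 (nat_lit 18) (nat_lit 4) (nat_lit 291) (nat_lit 222) (nat_lit 207)) (XT.nd (nat_lit 78) (nat_lit 0) (nat_lit 0) (XT.lf (nat_lit 0) (nat_lit 7601173112) (nat_lit 76) (nat_lit 1613030103) (nat_lit 152) (nat_lit 10995081698) (nat_lit 16) (nat_lit 5) (nat_lit 17) (nat_lit 5) (nat_lit 18) (nat_lit 4) (nat_lit 292) (nat_lit 222) (nat_lit 206)) (XT.lf (nat_lit 0) (nat_lit 14599337159) (nat_lit 152) (nat_lit 3052595250) (nat_lit 0) (nat_lit 3385104104) (nat_lit 16) (nat_lit 5) (nat_lit 18) (nat_lit 4) (nat_lit 16) (nat_lit 4) (nat_lit 293) (nat_lit 222) (nat_lit 205)))) (XT.nd (nat_lit 78) (nat_lit 152) (nat_lit 0) (XT.lf (nat_lit 0) (nat_lit 6869833547) (nat_lit 152) (nat_lit 13332769946) (nat_lit 152) (nat_lit 1705221468) (nat_lit 14) (nat_lit 4) (nat_lit 16) (nat_lit 5) (nat_lit 16) (nat_lit 4) (nat_lit 294) (nat_lit 222) (nat_lit 204)) (XT.nd (nat_lit 78) (nat_lit 76) (nat_lit 0) (XT.lf (nat_lit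 0) (nat_lit 3101315352) (nat_lit 228) (nat_lit 5725512049) (nat_lit 76) (nat_lit 13997457279) (nat_lit 13) (nat_lit 5) (nat_lit 16) (nat_lit 5) (nat_lit 14) (nat_lit 4) (nat_lit 295) (nat_lit 222) (nat_lit 203)) (XT.lf (nat_lit 0) (nat_lit 3897345184) (nat_lit 76) (nat_lit 4128968446) (nat_lit 152) (nat_lit 15762446962) (nat_lit 12) (nat_lit 5) (nat_lit 13) (nat_lit 5) (nat_lit 14) (nat_lit 4) (nat_lit 296) (nat_lit 222) (nat_lit 202)))))) (XT.nd (nat_lit 390) (nat_lit 152) (nat_lit 0) (XT.nd (nat_lit 156) (nat_lit 152) (nat_lit 0) (XT.nd (nat_lit 78) (nat_lit 0) (nat_lit 0) (XT.lf (nat_lit 0) (nat_lit 13143504112) (nat_lit 152) (nat_lit 10897829827) (nat_lit 0) (nat_lit 761844995) (nat_lit 12) (nat_lit 5) (nat_lit 14) (nat_lit 4) (nat_lit 12) (nat_lit 4) (nat_lit 297) (nat_lit 222) (nat_lit 201)) (XT.lf (nat_lit 0) (nat_lit 18442698491) (nat_lit 152) (nat_lit 1697019954) (nat_lit 0) (nat_lit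 5730907703) (nat_lit 12) (nat_lit 5) (nat_lit 14) (nat_lit 4) (nat_lit 12) (nat_lit 4) (nat_lit 298) (nat_lit 222) (nat_lit 200))) (XT.nd (nat_lit 78) (nat_lit 76) (nat_lit 0) (XT.lf (nat_lit 0) (nat_lit 7927301268) (nat_lit 76) (nat_lit 16045724527) (nat_lit 76) (nat_lit 3019522624) (nat_lit 11) (nat_lit 4) (nat_lit 12) (nat_lit 5) (nat_lit 12) (nat_lit 4) (nat_lit 299) (nat_lit 222) (nat_lit 199)) (XT.nd (nat_lit 78) (nat_lit 0) (nat_lit 0) (XT.lf (nat_lit 0) (nat_lit 1487829567) (nat_lit 152) (nat_lit 10305347039) (nat_lit 76) (nat_lit 16379709472) (nat_lit 10) (nat_lit 5) (nat_lit 12) (nat_lit 5) (nat_lit 11) (nat_lit 4) (nat_lit 300) (nat_lit 222) (nat_lit 198)) (XT.lf (nat_lit 0) (nat_lit 6056098574) (nat_lit 152) (nat_lit 1316941105) (nat_lit 76) (nat_lit 22041441525) (nat_lit 10) (nat_lit 5) (nat_lit 12) (nat_lit 5) (nat_lit 11) (nat_lit 4) (nat_lit 301) (nat_lit 222) (nat_lit 197)))))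 (XT.nd (nat_lit 234) (nat_lit 76) (nat_lit 0) (XT.nd (nat_lit 78) (nat_lit 0) (nat_lit 0) (XT.lf (nat_lit 0) (nat_lit 8108625609) (nat_lit 76) (nat_lit 2724402451) (nat_lit 152) (nat_lit 19885794328) (nat_lit 9) (nat_lit 5) (nat_lit 10) (nat_lit 5) (nat_lit 11) (nat_lit 4) (nat_lit 302) (nat_lit 222) (nat_lit 196)) (XT.nd (nat_lit 78) (nat_lit 0) (nat_lit 0) (XT.lf (nat_lit 0) (nat_lit 15787906437) (nat_lit 152) (nat_lit 14243676691) (nat_lit 0) (nat_lit 2058694634) (nat_lit 9) (nat_lit 5) (nat_lit 11) (nat_lit 4) (nat_lit 9) (nat_lit 4) (nat_lit 303) (nat_lit 222) (nat_lit 195)) (XT.lf (nat_lit 0) (nat_lit 20927246068) (nat_lit 152) (nat_lit 5646165026) (nat_lit 0) (nat_lit 6958860152) (nat_lit 9) (nat_lit 5) (nat_lit 11) (nat_lit 4) (nat_lit 9) (nat_lit 4) (nat_lit 304) (nat_lit 222) (nat_lit 194)))) (XT.nd (nat_lit 78) (nat_lit 0) (nat_lit 0) (XT.lf (nat_lit 0) (nat_lit 3293260479) (nat_lit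 76) (nat_lit 22975491208) (nat_lit 76) (nat_lit 8779320422) (nat_lit 8) (nat_lit 4) (nat_lit 9) (nat_lit 5) (nat_lit 9) (nat_lit 4) (nat_lit 305) (nat_lit 222) (nat_lit 193)) (XT.nd (nat_lit 78) (nat_lit 0) (nat_lit 0) (XT.lf (nat_lit 0) (nat_lit 12649783887) (nat_lit 76) (nat_lit 19201908861) (nat_lit 76) (nat_lit 4788800106) (nat_lit 8) (nat_lit 4) (nat_lit 9) (nat_lit 5) (nat_lit 9) (nat_lit 4) (nat_lit 306) (nat_lit 222) (nat_lit 192)) (XT.lf (nat_lit 0) (nat_lit 22333312880) (nat_lit 76) (nat_lit 15300694532) (nat_lit 76) (nat_lit 680978185) (nat_lit 8) (nat_lit 4) (nat_lit 9) (nat_lit 5) (nat_lit 9) (nat_lit 4) (nat_lit 307) (nat_lit 222) (nat_lit 191))))))))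
noncomputable def xc20 : XT := (XT.nd (nat_lit 1716) (nat_lit 0) (nat_lit 0) (XT.nd (nat_lit 858) (nat_lit 152) (nat_lit 0) (XT.nd (nat_lit 390) (nat_lit 76) (nat_lit 0) (XT.nd (nat_lit 156) (nat_lit 0) (nat_lit 0) (XT.nd (nat_lit 78) (nat_lit 76) (nat_lit 0) (XT.lf (nat_lit 0) (nat_lit 3484575973) (nat_lit 152) (nat_lit 7742796254) (nat_lit 76) (nat_lit 28847140121) (nat_lit 7) (nat_lit 5) (nat_lit 9) (nat_lit 5) (nat_lit 8) (nat_lit 4) (nat_lit 308) (nat_lit 222) (nat_lit 190)) (XT.lf (nat_lit 0) (nat_lit 787278791) (nat_lit 76) (nat_lit 6991619458) (nat_lit 152) (nat_lit 34144928555) (nat_lit 6) (nat_lit 5) (nat_lit 7) (nat_lit 5) (nat_lit 8) (nat_lit 4) (nat_lit 309) (nat_lit 222) (nat_lit 189))) (XT.nd (nat_lit 78) (nat_lit 0) (nat_lit 0) (XT.lf (nat_lit 0) (nat_lit 9780129136) (nat_lit 76) (nat_lit 2516663572) (nat_lit 152) (nat_lit 31568597034) (nat_lit 6) (nat_lit 5) (nat_lit 7)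 (nat_lit 5) (nat_lit 8) (nat_lit 4) (nat_lit 310) (nat_lit 222) (nat_lit 188)) (XT.nd (nat_lit 78) (nat_lit 0) (nat_lit 0) (XT.lf (nat_lit 0) (nat_lit 16993580980) (nat_lit 152) (nat_lit 26823506228) (nat_lit 0) (nat_lit 2088399777) (nat_lit 6) (nat_lit 5) (nat_lit 8) (nat_lit 4) (nat_lit 6) (nat_lit 4) (nat_lit 311) (nat_lit 222) (nat_lit 187)) (XT.lf (nat_lit 0) (nat_lit 21885870899) (nat_lit 152) (nat_lit 19339419994) (nat_lit 0) (nat_lit 6823522265) (nat_lit 6) (nat_lit 5) (nat_lit 8) (nat_lit 4) (nat_lit 6) (nat_lit 4) (nat_lit 312) (nat_lit 222) (nat_lit 186))))) (XT.nd (nat_lit 234) (nat_lit 0) (nat_lit 0) (XT.nd (nat_lit 78) (nat_lit 76) (nat_lit 0) (XT.lf (nat_lit 0) (nat_lit 26961119066) (nat_lit 152) (nat_lit 11590990940) (nat_lit 0) (nat_lit 11749087164) (nat_lit 6) (nat_lit 5) (nat_lit 8) (nat_lit 4) (nat_lit 6) (nat_lit 4) (nat_lit 313) (nat_lit 222) (nat_lit 185)) (XT.nd (nat_lit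 78) (nat_lit 76) (nat_lit 0) (XT.lf (nat_lit 0) (nat_lit 32231409405) (nat_lit 152) (nat_lit 3559770428) (nat_lit 0) (nat_lit 16876822010) (nat_lit 6) (nat_lit 5) (nat_lit 8) (nat_lit 4) (nat_lit 6) (nat_lit 4) (nat_lit 314) (nat_lit 222) (nat_lit 184)) (XT.lf (nat_lit 0) (nat_lit 4868362790) (nat_lit 76) (nat_lit 32887725116) (nat_lit 76) (nat_lit 17397370585) (nat_lit 5) (nat_lit 4) (nat_lit 6) (nat_lit 5) (nat_lit 6) (nat_lit 4) (nat_lit 315) (nat_lit 222) (nat_lit 183)))) (XT.nd (nat_lit 78) (nat_lit 0) (nat_lit 0) (XT.lf (nat_lit 0) (nat_lit 13695500169) (nat_lit 76) (nat_lit 29843953458) (nat_lit 76) (nat_lit 14224296892) (nat_lit 5) (nat_lit 4) (nat_lit 6) (nat_lit 5) (nat_lit 6) (nat_lit 4) (nat_lit 316) (nat_lit 222) (nat_lit 182)) (XT.nd (nat_lit 78) (nat_lit 0) (nat_lit 0) (XT.lf (nat_lit 0) (nat_lit 22871812289) (nat_lit 76) (nat_lit 26688564485) (nat_lit 76) (nat_lit 10945763125)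 (nat_lit 5) (nat_lit 4) (nat_lit 6) (nat_lit 5) (nat_lit 6) (nat_lit 4) (nat_lit 317) (nat_lit 222) (nat_lit 181)) (XT.lf (nat_lit 0) (nat_lit 32419147512) (nat_lit 76) (nat_lit 23414045366) (nat_lit 76) (nat_lit 7553963250) (nat_lit 5) (nat_lit 4) (nat_lit 6) (nat_lit 5) (nat_lit 6) (nat_lit 4) (nat_lit 318) (nat_lit 222) (nat_lit 180)))))) (XT.nd (nat_lit 390) (nat_lit 0) (nat_lit 0) (XT.nd (nat_lit 156) (nat_lit 152) (nat_lit 0) (XT.nd (nat_lit 78) (nat_lit 0) (nat_lit 0) (XT.lf (nat_lit 0) (nat_lit 42360237590) (nat_lit 76) (nat_lit 20012599628) (nat_lit 76) (nat_lit 4040821553) (nat_lit 5) (nat_lit 4) (nat_lit 6) (nat_lit 5) (nat_lit 6) (nat_lit 4) (nat_lit 319) (nat_lit 222) (nat_lit 179)) (XT.lf (nat_lit 0) (nat_lit 52718751785) (nat_lit 76) (nat_lit 16476128590) (nat_lit 76) (nat_lit 397973411) (nat_lit 5) (nat_lit 4) (nat_lit 6) (nat_lit 5) (nat_lit 6) (nat_lit 4) (nat_lit 320)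 (nat_lit 222) (nat_lit 178))) (XT.nd (nat_lit 78) (nat_lit 76) (nat_lit 0) (XT.lf (nat_lit 0) (nat_lit 3317235139) (nat_lit 152) (nat_lit 9445479372) (nat_lit 76) (nat_lit 60168620514) (nat_lit 4) (nat_lit 5) (nat_lit 6) (nat_lit 5) (nat_lit 5) (nat_lit 4) (nat_lit 321) (nat_lit 222) (nat_lit 177)) (XT.nd (nat_lit 78) (nat_lit 76) (nat_lit 0) (XT.lf (nat_lit 0) (nat_lit 7169184643) (nat_lit 152) (nat_lit 1722509049) (nat_lit 76) (nat_lit 67546178276) (nat_lit 4) (nat_lit 5) (nat_lit 6) (nat_lit 5) (nat_lit 5) (nat_lit 4) (nat_lit 322) (nat_lit 222) (nat_lit 176)) (XT.lf (nat_lit 0) (nat_lit 6442743692) (nat_lit 76) (nat_lit 4794000204) (nat_lit 152) (nat_lit 68882326434) (nat_lit 3) (nat_lit 5) (nat_lit 4) (nat_lit 5) (nat_lit 5) (nat_lit 4) (nat_lit 323) (nat_lit 222) (nat_lit 175))))) (XT.nd (nat_lit 234) (nat_lit 0) (nat_lit 0) (XT.nd (nat_lit 78) (nat_lit 0) (nat_lit 0) (XT.lf (nat_lit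 0) (nat_lit 14984661914) (nat_lit 76) (nat_lit 503035148) (nat_lit 152) (nat_lit 68497254820) (nat_lit 3) (nat_lit 5) (nat_lit 4) (nat_lit 5) (nat_lit 5) (nat_lit 4) (nat_lit 324) (nat_lit 222) (nat_lit 174)) (XT.nd (nat_lit 78) (nat_lit 0) (nat_lit 0) (XT.lf (nat_lit 0) (nat_lit 19953478867) (nat_lit 152) (nat_lit 64194126269) (nat_lit 0) (nat_lit 3896476568) (nat_lit 3) (nat_lit 5) (nat_lit 5) (nat_lit 4) (nat_lit 3) (nat_lit 4) (nat_lit 325) (nat_lit 222) (nat_lit 173)) (XT.lf (nat_lit 0) (nat_lit 24613157219) (nat_lit 152) (nat_lit 59214827386) (nat_lit 0) (nat_lit 8479086733) (nat_lit 3) (nat_lit 5) (nat_lit 5) (nat_lit 4) (nat_lit 3) (nat_lit 4) (nat_lit 326) (nat_lit 222) (nat_lit 172)))) (XT.nd (nat_lit 78) (nat_lit 0) (nat_lit 0) (XT.lf (nat_lit 0) (nat_lit 29472991108) (nat_lit 152) (nat_lit 54045702366) (nat_lit 0) (nat_lit 13265522349) (nat_lit 3) (nat_lit 5) (nat_lit 5) (nat_lit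 4) (nat_lit 3) (nat_lit 4) (nat_lit 327) (nat_lit 222) (nat_lit 171)) (XT.nd (nat_lit 78) (nat_lit 0) (nat_lit 0) (XT.lf (nat_lit 0) (nat_lit 34544551569) (nat_lit 152) (nat_lit 48674443767) (nat_lit 0) (nat_lit 18267179692) (nat_lit 3) (nat_lit 5) (nat_lit 5) (nat_lit 4) (nat_lit 3) (nat_lit 4) (nat_lit 328) (nat_lit 222) (nat_lit 170)) (XT.lf (nat_lit 0) (nat_lit 39839913744) (nat_lit 152) (nat_lit 43088262880) (nat_lit 0) (nat_lit 23495967469) (nat_lit 3) (nat_lit 5) (nat_lit 5) (nat_lit 4) (nat_lit 3) (nat_lit 4) (nat_lit 329) (nat_lit 222) (nat_lit 169))))))) (XT.nd (nat_lit 33696) (nat_lit 0) (nat_lit 1064) (XT.nd (nat_lit 33228) (nat_lit 0) (nat_lit 2356) (XT.nd (nat_lit 156) (nat_lit 0) (nat_lit 0) (XT.nd (nat_lit 78) (nat_lit 0) (nat_lit 0) (XT.lf (nat_lit 0) (nat_lit 45371685638) (nat_lit 152) (nat_lit 37273859272) (nat_lit 0) (nat_lit 28964335176) (nat_lit 3) (nat_lit 5) (nat_lit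 5) (nat_lit 4) (nat_lit 3) (nat_lit 4) (nat_lit 330) (nat_lit 222) (nat_lit 168)) (XT.lf (nat_lit 0) (nat_lit 51153038138) (nat_lit 152) (nat_lit 31217389126) (nat_lit 0) (nat_lit 34685302735) (nat_lit 3) (nat_lit 5) (nat_lit 5) (nat_lit 4) (nat_lit 3) (nat_lit 4) (nat_lit 331) (nat_lit 222) (nat_lit 167))) (XT.nd (nat_lit 156) (nat_lit 0) (nat_lit 0) (XT.lf (nat_lit 0) (nat_lit 57197736369) (nat_lit 152) (nat_lit 24904432275) (nat_lit 0) (nat_lit 40672491497) (nat_lit 3) (nat_lit 5) (nat_lit 5) (nat_lit 4) (nat_lit 3) (nat_lit 4) (nat_lit 332) (nat_lit 222) (nat_lit 166)) (XT.nd (nat_lit 32838) (nat_lit 0) (nat_lit 3572) (XT.lf (nat_lit 0) (nat_lit 70135399856) (nat_lit 152) (nat_lit 11448288589) (nat_lit 0) (nat_lit 53503221280) (nat_lit 3) (nat_lit 5) (nat_lit 5) (nat_lit 4) (nat_lit 3) (nat_lit 4) (nat_lit 334) (nat_lit 222) (nat_lit 164)) (XT.lf (nat_lit 0) (nat_lit 1407834042) (nat_lit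 228) (nat_lit 2003510202) (nat_lit 228) (nat_lit 2003510202) (nat_lit 50) (nat_lit 4) (nat_lit 53) (nat_lit 5) (nat_lit 53) (nat_lit 4) (nat_lit 274) (nat_lit 223) (nat_lit 223))))) (XT.nd (nat_lit 234) (nat_lit 456) (nat_lit 0) (XT.nd (nat_lit 78) (nat_lit 456) (nat_lit 0) (XT.lf (nat_lit 0) (nat_lit 1770562453) (nat_lit 304) (nat_lit 8794668416) (nat_lit 0) (nat_lit 582847174) (nat_lit 46) (nat_lit 5) (nat_lit 50) (nat_lit 4) (nat_lit 46) (nat_lit 4) (nat_lit 275) (nat_lit 223) (nat_lit 222)) (XT.nd (nat_lit 78) (nat_lit 228) (nat_lit 0) (XT.lf (nat_lit 0) (nat_lit 1525990950) (nat_lit 228) (nat_lit 6138531161) (nat_lit 228) (nat_lit 3819658474) (nat_lit 43) (nat_lit 4) (nat_lit 46) (nat_lit 5) (nat_lit 46) (nat_lit 4) (nat_lit 276) (nat_lit 223) (nat_lit 221)) (XT.lf (nat_lit 0) (nat_lit 355110052) (nat_lit 152) (nat_lit 1492808917) (nat_lit 228) (nat_lit 9992745208) (nat_lit 40) (nat_lit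 5) (nat_lit 42) (nat_lit 5) (nat_lit 43) (nat_lit 4) (nat_lit 277) (nat_lit 223) (nat_lit 220)))) (XT.nd (nat_lit 78) (nat_lit 456) (nat_lit 0) (XT.lf (nat_lit 0) (nat_lit 7639317594) (nat_lit 228) (nat_lit 1231255340) (nat_lit 0) (nat_lit 3345959759) (nat_lit 40) (nat_lit 5) (nat_lit 43) (nat_lit 4) (nat_lit 40) (nat_lit 4) (nat_lit 278) (nat_lit 223) (nat_lit 219)) (XT.nd (nat_lit 78) (nat_lit 152) (nat_lit 0) (XT.lf (nat_lit 0) (nat_lit 984408244) (nat_lit 304) (nat_lit 3243685117) (nat_lit 76) (nat_lit 8386130138) (nat_lit 36) (nat_lit 5) (nat_lit 40) (nat_lit 5) (nat_lit 37) (nat_lit 4) (nat_lit 279) (nat_lit 223) (nat_lit 218)) (XT.lf (nat_lit 0) (nat_lit 6617027838) (nat_lit 228) (nat_lit 5766540109) (nat_lit 0) (nat_lit 650489175) (nat_lit 34) (nat_lit 5) (nat_lit 37) (nat_lit 4) (nat_lit 34) (nat_lit 4) (nat_lit 280) (nat_lit 223) (nat_lit 217)))))) (XT.nd (nat_lit 390) (nat_lit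 532) (nat_lit 0) (XT.nd (nat_lit 156) (nat_lit 380) (nat_lit 0) (XT.nd (nat_lit 78) (nat_lit 228) (nat_lit 0) (XT.lf (nat_lit 0) (nat_lit 4631392708) (nat_lit 152) (nat_lit 7823976927) (nat_lit 152) (nat_lit 1022023590) (nat_lit 32) (nat_lit 4) (nat_lit 34) (nat_lit 5) (nat_lit 34) (nat_lit 4) (nat_lit 281) (nat_lit 223) (nat_lit 216)) (XT.lf (nat_lit 0) (nat_lit 1401542982) (nat_lit 152) (nat_lit 3031525659) (nat_lit 228) (nat_lit 9512276587) (nat_lit 29) (nat_lit 5) (nat_lit 31) (nat_lit 5) (nat_lit 32) (nat_lit 4) (nat_lit 282) (nat_lit 223) (nat_lit 215))) (XT.nd (nat_lit 78) (nat_lit 380) (nat_lit 0) (XT.lf (nat_lit 0) (nat_lit 10063861895) (nat_lit 228) (nat_lit 2423123530) (nat_lit 0) (nat_lit 1951888986) (nat_lit 29) (nat_lit 5) (nat_lit 32) (nat_lit 4) (nat_lit 29) (nat_lit 4) (nat_lit 283) (nat_lit 223) (nat_lit 214)) (XT.nd (nat_lit 78) (nat_lit 152) (nat_lit 0) (XT.lf (nat_lit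 0) (nat_lit 927827631) (nat_lit 228) (nat_lit 6929126123) (nat_lit 76) (nat_lit 7102164581) (nat_lit 26) (nat_lit 5) (nat_lit 29) (nat_lit 5) (nat_lit 27) (nat_lit 4) (nat_lit 284) (nat_lit 223) (nat_lit 213)) (XT.lf (nat_lit 0) (nat_lit 3285650329) (nat_lit 152) (nat_lit 3002795919) (nat_lit 228) (nat_lit 9219316248) (nat_lit 24) (nat_lit 5) (nat_lit 26) (nat_lit 5) (nat_lit 27) (nat_lit 4) (nat_lit 285) (nat_lit 223) (nat_lit 212))))) (XT.nd (nat_lit 234) (nat_lit 228) (nat_lit 0) (XT.nd (nat_lit 78) (nat_lit 304) (nat_lit 0) (XT.lf (nat_lit 0) (nat_lit 11839358360) (nat_lit 228) (nat_lit 2228403141) (nat_lit 0) (nat_lit 2018581964) (nat_lit 24) (nat_lit 5) (nat_lit 27) (nat_lit 4) (nat_lit 24) (nat_lit 4) (nat_lit 286) (nat_lit 223) (nat_lit 211)) (XT.nd (nat_lit 78) (nat_lit 76) (nat_lit 0) (XT.lf (nat_lit 0) (nat_lit 900864125) (nat_lit 228) (nat_lit 8579635844) (nat_lit 76) (nat_lit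 7214854913) (nat_lit 21) (nat_lit 5) (nat_lit 24) (nat_lit 5) (nat_lit 22) (nat_lit 4) (nat_lit 287) (nat_lit 223) (nat_lit 210)) (XT.lf (nat_lit 0) (nat_lit 1409884114) (nat_lit 76) (nat_lit 4687606601) (nat_lit 152) (nat_lit 11239839987) (nat_lit 20) (nat_lit 5) (nat_lit 21) (nat_lit 5) (nat_lit 22) (nat_lit 4) (nat_lit 288) (nat_lit 223) (nat_lit 209)))) (XT.nd (nat_lit 78) (nat_lit 228) (nat_lit 0) (XT.lf (nat_lit 0) (nat_lit 11492223500) (nat_lit 152) (nat_lit 6194978915) (nat_lit 0) (nat_lit 326199308) (nat_lit 20) (nat_lit 5) (nat_lit 22) (nat_lit 4) (nat_lit 20) (nat_lit 4) (nat_lit 289) (nat_lit 223) (nat_lit 208)) (XT.nd (nat_lit 78) (nat_lit 76) (nat_lit 0) (XT.lf (nat_lit 0) (nat_lit 3803201461) (nat_lit 152) (nat_lit 13290472773) (nat_lit 152) (nat_lit 1631630386) (nat_lit 18) (nat_lit 4) (nat_lit 20) (nat_lit 5) (nat_lit 20) (nat_lit 4) (nat_lit 290) (nat_lit 223) (nat_lit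 207)) (XT.lf (nat_lit 0) (nat_lit 3354707506) (nat_lit 228) (nat_lit 5318136809) (nat_lit 76) (nat_lit 10801456004) (nat_lit 17) (nat_lit 5) (nat_lit 20) (nat_lit 5) (nat_lit 18) (nat_lit 4) (nat_lit 291) (nat_lit 223) (nat_lit 206))))))))
noncomputable def xc21 : XT := (XT.nd (nat_lit 1716) (nat_lit 228) (nat_lit 0) (XT.nd (nat_lit 858) (nat_lit 228) (nat_lit 0) (XT.nd (nat_lit 390) (nat_lit 228) (nat_lit 0) (XT.nd (nat_lit 156) (nat_lit 304) (nat_lit 0) (XT.nd (nat_lit 78) (nat_lit 0) (nat_lit 0) (XT.lf (nat_lit 0) (nat_lit 4607374038) (nat_lit 76) (nat_lit 3856945034) (nat_lit 152) (nat_lit 11798832365) (nat_lit 16) (nat_lit 5) (nat_lit 17) (nat_lit 5) (nat_lit 18) (nat_lit 4) (nat_lit 292) (nat_lit 223) (nat_lit 205)) (XT.lf (nat_lit 0) (nat_lit 13762789448) (nat_lit 152) (nat_lit 6190221733) (nat_lit 0) (nat_lit 1140548123) (nat_lit 16) (nat_lit 5) (nat_lit 18) (nat_lit 4) (nat_lit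 16) (nat_lit 4) (nat_lit 293) (nat_lit 223) (nat_lit 204))) (XT.nd (nat_lit 78) (nat_lit 152) (nat_lit 0) (XT.lf (nat_lit 0) (nat_lit 3561428383) (nat_lit 152) (nat_lit 15710831000) (nat_lit 152) (nat_lit 2694955939) (nat_lit 14) (nat_lit 4) (nat_lit 16) (nat_lit 5) (nat_lit 16) (nat_lit 4) (nat_lit 294) (nat_lit 223) (nat_lit 203)) (XT.nd (nat_lit 78) (nat_lit 76) (nat_lit 0) (XT.lf (nat_lit 0) (nat_lit 2070215978) (nat_lit 228) (nat_lit 9188225898) (nat_lit 76) (nat_lit 11627388560) (nat_lit 13) (nat_lit 5) (nat_lit 16) (nat_lit 5) (nat_lit 14) (nat_lit 4) (nat_lit 295) (nat_lit 223) (nat_lit 202)) (XT.lf (nat_lit 0) (nat_lit 264277811) (nat_lit 76) (nat_lit 6638224429) (nat_lit 152) (nat_lit 16950632739) (nat_lit 12) (nat_lit 5) (nat_lit 13) (nat_lit 5) (nat_lit 14) (nat_lit 4) (nat_lit 296) (nat_lit 223) (nat_lit 201))))) (XT.nd (nat_lit 234) (nat_lit 152) (nat_lit 0) (XT.nd (nat_lit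 78) (nat_lit 76) (nat_lit 0) (XT.lf (nat_lit 0) (nat_lit 10183366562) (nat_lit 76) (nat_lit 1772891526) (nat_lit 152) (nat_lit 12913243289) (nat_lit 12) (nat_lit 5) (nat_lit 13) (nat_lit 5) (nat_lit 14) (nat_lit 4) (nat_lit 297) (nat_lit 223) (nat_lit 200)) (XT.nd (nat_lit 78) (nat_lit 76) (nat_lit 0) (XT.lf (nat_lit 0) (nat_lit 17184737734) (nat_lit 152) (nat_lit 5561560553) (nat_lit 0) (nat_lit 3192814620) (nat_lit 12) (nat_lit 5) (nat_lit 14) (nat_lit 4) (nat_lit 12) (nat_lit 4) (nat_lit 298) (nat_lit 223) (nat_lit 199)) (XT.lf (nat_lit 0) (nat_lit 3895244793) (nat_lit 76) (nat_lit 18729944875) (nat_lit 76) (nat_lit 4438582603) (nat_lit 11) (nat_lit 4) (nat_lit 12) (nat_lit 5) (nat_lit 12) (nat_lit 4) (nat_lit 299) (nat_lit 223) (nat_lit 198)))) (XT.nd (nat_lit 78) (nat_lit 76) (nat_lit 0) (XT.lf (nat_lit 0) (nat_lit 46420098) (nat_lit 152) (nat_lit 14482309621) (nat_lit 76) (nat_lit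 13717328407) (nat_lit 10) (nat_lit 5) (nat_lit 12) (nat_lit 5) (nat_lit 11) (nat_lit 4) (nat_lit 300) (nat_lit 223) (nat_lit 197)) (XT.nd (nat_lit 78) (nat_lit 76) (nat_lit 0) (XT.lf (nat_lit 0) (nat_lit 4567031525) (nat_lit 152) (nat_lit 5577068569) (nat_lit 76) (nat_lit 19345018844) (nat_lit 10) (nat_lit 5) (nat_lit 12) (nat_lit 5) (nat_lit 11) (nat_lit 4) (nat_lit 301) (nat_lit 223) (nat_lit 196)) (XT.lf (nat_lit 0) (nat_lit 3682932278) (nat_lit 76) (nat_lit 5573098089) (nat_lit 152) (nat_lit 21540101920) (nat_lit 9) (nat_lit 5) (nat_lit 10) (nat_lit 5) (nat_lit 11) (nat_lit 4) (nat_lit 302) (nat_lit 223) (nat_lit 195)))))) (XT.nd (nat_lit 390) (nat_lit 152) (nat_lit 0) (XT.nd (nat_lit 156) (nat_lit 76) (nat_lit 0) (XT.nd (nat_lit 78) (nat_lit 0) (nat_lit 0) (XT.lf (nat_lit 0) (nat_lit 13364762255) (nat_lit 76) (nat_lit 781996837) (nat_lit 152) (nat_lit 18022785672) (nat_lit 9) (nat_lit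 5) (nat_lit 10) (nat_lit 5) (nat_lit 11) (nat_lit 4) (nat_lit 303) (nat_lit 223) (nat_lit 194)) (XT.lf (nat_lit 0) (nat_lit 19236407142) (nat_lit 152) (nat_lit 10274009967) (nat_lit 0) (nat_lit 4102642948) (nat_lit 9) (nat_lit 5) (nat_lit 11) (nat_lit 4) (nat_lit 9) (nat_lit 4) (nat_lit 304) (nat_lit 223) (nat_lit 193))) (XT.nd (nat_lit 78) (nat_lit 76) (nat_lit 0) (XT.lf (nat_lit 0) (nat_lit 24506089688) (nat_lit 152) (nat_lit 1469567983) (nat_lit 0) (nat_lit 9155387524) (nat_lit 9) (nat_lit 5) (nat_lit 11) (nat_lit 4) (nat_lit 9) (nat_lit 4) (nat_lit 305) (nat_lit 223) (nat_lit 192)) (XT.nd (nat_lit 78) (nat_lit 0) (nat_lit 0) (XT.lf (nat_lit 0) (nat_lit 7789015171) (nat_lit 76) (nat_lit 22246694170) (nat_lit 76) (nat_lit 6689384415) (nat_lit 8) (nat_lit 4) (nat_lit 9) (nat_lit 5) (nat_lit 9) (nat_lit 4) (nat_lit 306) (nat_lit 223) (nat_lit 191)) (XT.lf (nat_lit 0) (nat_lit 17407122290)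 (nat_lit 76) (nat_lit 18373840878) (nat_lit 76) (nat_lit 2619761988) (nat_lit 8) (nat_lit 4) (nat_lit 9) (nat_lit 5) (nat_lit 9) (nat_lit 4) (nat_lit 307) (nat_lit 223) (nat_lit 190))))) (XT.nd (nat_lit 234) (nat_lit 0) (nat_lit 0) (XT.nd (nat_lit 78) (nat_lit 76) (nat_lit 0) (XT.lf (nat_lit 0) (nat_lit 1547954268) (nat_lit 152) (nat_lit 12799130899) (nat_lit 76) (nat_lit 25814820770) (nat_lit 7) (nat_lit 5) (nat_lit 9) (nat_lit 5) (nat_lit 8) (nat_lit 4) (nat_lit 308) (nat_lit 223) (nat_lit 189)) (XT.nd (nat_lit 78) (nat_lit 76) (nat_lit 0) (XT.lf (nat_lit 0) (nat_lit 5800736781) (nat_lit 152) (nat_lit 4344457804) (nat_lit 76) (nat_lit 31867295631) (nat_lit 7) (nat_lit 5) (nat_lit 9) (nat_lit 5) (nat_lit 8) (nat_lit 4) (nat_lit 309) (nat_lit 223) (nat_lit 188)) (XT.lf (nat_lit 0) (nat_lit 4503611019) (nat_lit 76) (nat_lit 5739512659) (nat_lit 152) (nat_lit 33713217206) (nat_lit 6) (nat_lit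 5) (nat_lit 7) (nat_lit 5) (nat_lit 8) (nat_lit 4) (nat_lit 310) (nat_lit 223) (nat_lit 187)))) (XT.nd (nat_lit 78) (nat_lit 0) (nat_lit 0) (XT.lf (nat_lit 0) (nat_lit 13771010153) (nat_lit 76) (nat_lit 1117079824) (nat_lit 152) (nat_lit 31109924241) (nat_lit 6) (nat_lit 5) (nat_lit 7) (nat_lit 5) (nat_lit 8) (nat_lit 4) (nat_lit 311) (nat_lit 223) (nat_lit 186)) (XT.nd (nat_lit 78) (nat_lit 0) (nat_lit 0) (XT.lf (nat_lit 0) (nat_lit 19739565623) (nat_lit 152) (nat_lit 24785770748) (nat_lit 0) (nat_lit 3617248859) (nat_lit 6) (nat_lit 5) (nat_lit 8) (nat_lit 4) (nat_lit 6) (nat_lit 4) (nat_lit 312) (nat_lit 223) (nat_lit 185)) (XT.lf (nat_lit 0) (nat_lit 24786169772) (nat_lit 152) (nat_lit 17088380716) (nat_lit 0) (nat_lit 8521297515) (nat_lit 6) (nat_lit 5) (nat_lit 8) (nat_lit 4) (nat_lit 6) (nat_lit 4) (nat_lit 313) (nat_lit 223) (nat_lit 184))))))) (XT.nd (nat_lit 858) (nat_lit 0) (nat_lit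 0) (XT.nd (nat_lit 390) (nat_lit 152) (nat_lit 0) (XT.nd (nat_lit 156) (nat_lit 76) (nat_lit 0) (XT.nd (nat_lit 78) (nat_lit 0) (nat_lit 0) (XT.lf (nat_lit 0) (nat_lit 30029180094) (nat_lit 152) (nat_lit 9105768795) (nat_lit 0) (nat_lit 13628540700) (nat_lit 6) (nat_lit 5) (nat_lit 8) (nat_lit 4) (nat_lit 6) (nat_lit 4) (nat_lit 314) (nat_lit 223) (nat_lit 183)) (XT.lf (nat_lit 0) (nat_lit 35481079946) (nat_lit 152) (nat_lit 818928765) (nat_lit 0) (nat_lit 18951138518) (nat_lit 6) (nat_lit 5) (nat_lit 8) (nat_lit 4) (nat_lit 6) (nat_lit 4) (nat_lit 315) (nat_lit 223) (nat_lit 182))) (XT.nd (nat_lit 78) (nat_lit 0) (nat_lit 0) (XT.lf (nat_lit 0) (nat_lit 7946943432) (nat_lit 76) (nat_lit 33284297491) (nat_lit 76) (nat_lit 16631211268) (nat_lit 5) (nat_lit 4) (nat_lit 6) (nat_lit 5) (nat_lit 6) (nat_lit 4) (nat_lit 316) (nat_lit 223) (nat_lit 181)) (XT.nd (nat_lit 78) (nat_lit 0) (nat_lit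 0) (XT.lf (nat_lit 0) (nat_lit 17080429941) (nat_lit 76) (nat_lit 30147756958) (nat_lit 76) (nat_lit 13377389979) (nat_lit 5) (nat_lit 4) (nat_lit 6) (nat_lit 5) (nat_lit 6) (nat_lit 4) (nat_lit 317) (nat_lit 223) (nat_lit 180)) (XT.lf (nat_lit 0) (nat_lit 26586978869) (nat_lit 76) (nat_lit 26891188736) (nat_lit 76) (nat_lit 10009125798) (nat_lit 5) (nat_lit 4) (nat_lit 6) (nat_lit 5) (nat_lit 6) (nat_lit 4) (nat_lit 318) (nat_lit 223) (nat_lit 179))))) (XT.nd (nat_lit 234) (nat_lit 76) (nat_lit 0) (XT.nd (nat_lit 78) (nat_lit 76) (nat_lit 0) (XT.lf (nat_lit 0) (nat_lit 36489224855) (nat_lit 76) (nat_lit 23506839089) (nat_lit 76) (nat_lit 6518399047) (nat_lit 5) (nat_lit 4) (nat_lit 6) (nat_lit 5) (nat_lit 6) (nat_lit 4) (nat_lit 319) (nat_lit 223) (nat_lit 178)) (XT.nd (nat_lit 78) (nat_lit 76) (nat_lit 0) (XT.lf (nat_lit 0) (nat_lit 46810744677) (nat_lit 76) (nat_lit 19986650042) (nat_lit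 76) (nat_lit 2896898473) (nat_lit 5) (nat_lit 4) (nat_lit 6) (nat_lit 5) (nat_lit 6) (nat_lit 4) (nat_lit 320) (nat_lit 223) (nat_lit 177)) (XT.lf (nat_lit 0) (nat_lit 847138820) (nat_lit 152) (nat_lit 15466546931) (nat_lit 76) (nat_lit 56720420119) (nat_lit 4) (nat_lit 5) (nat_lit 6) (nat_lit 5) (nat_lit 5) (nat_lit 4) (nat_lit 321) (nat_lit 223) (nat_lit 176)))) (XT.nd (nat_lit 78) (nat_lit 76) (nat_lit 0) (XT.lf (nat_lit 0) (nat_lit 4680103290) (nat_lit 152) (nat_lit 7777521600) (nat_lit 76) (nat_lit 64083599640) (nat_lit 4) (nat_lit 5) (nat_lit 6) (nat_lit 5) (nat_lit 5) (nat_lit 4) (nat_lit 322) (nat_lit 223) (nat_lit 175)) (XT.nd (nat_lit 78) (nat_lit 0) (nat_lit 0) (XT.lf (nat_lit 0) (nat_lit 234252553) (nat_lit 76) (nat_lit 8435649190) (nat_lit 152) (nat_lit 71554865559) (nat_lit 3) (nat_lit 5) (nat_lit 4) (nat_lit 5) (nat_lit 5) (nat_lit 4) (nat_lit 323) (nat_lit 223) (nat_lit 174))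 (XT.lf (nat_lit 0) (nat_lit 8744768903) (nat_lit 76) (nat_lit 4158564167) (nat_lit 152) (nat_lit 71187852474) (nat_lit 3) (nat_lit 5) (nat_lit 4) (nat_lit 5) (nat_lit 5) (nat_lit 4) (nat_lit 324) (nat_lit 223) (nat_lit 173)))))) (XT.nd (nat_lit 390) (nat_lit 0) (nat_lit 0) (XT.nd (nat_lit 156) (nat_lit 0) (nat_lit 0) (XT.nd (nat_lit 78) (nat_lit 0) (nat_lit 0) (XT.lf (nat_lit 0) (nat_lit 17317161158) (nat_lit 152) (nat_lit 70535404369) (nat_lit 0) (nat_lit 299318960) (nat_lit 3) (nat_lit 5) (nat_lit 5) (nat_lit 4) (nat_lit 3) (nat_lit 4) (nat_lit 325) (nat_lit 223) (nat_lit 172)) (XT.lf (nat_lit 0) (nat_lit 21960825666) (nat_lit 152) (nat_lit 65584953685) (nat_lit 0) (nat_lit 4869585195) (nat_lit 3) (nat_lit 5) (nat_lit 5) (nat_lit 4) (nat_lit 3) (nat_lit 4) (nat_lit 326) (nat_lit 223) (nat_lit 171))) (XT.nd (nat_lit 78) (nat_lit 0) (nat_lit 0) (XT.lf (nat_lit 0) (nat_lit 26805408275) (nat_lit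 152) (nat_lit 60443303139) (nat_lit 0) (nat_lit 9644264687) (nat_lit 3) (nat_lit 5) (nat_lit 5) (nat_lit 4) (nat_lit 3) (nat_lit 4) (nat_lit 327) (nat_lit 223) (nat_lit 170)) (XT.nd (nat_lit 78) (nat_lit 0) (nat_lit 0) (XT.lf (nat_lit 0) (nat_lit 31862443707) (nat_lit 152) (nat_lit 55098210707) (nat_lit 0) (nat_lit 14634725721) (nat_lit 3) (nat_lit 5) (nat_lit 5) (nat_lit 4) (nat_lit 3) (nat_lit 4) (nat_lit 328) (nat_lit 223) (nat_lit 169)) (XT.lf (nat_lit 0) (nat_lit 37143972522) (nat_lit 152) (nat_lit 49536949977) (nat_lit 0) (nat_lit 19852850348) (nat_lit 3) (nat_lit 5) (nat_lit 5) (nat_lit 4) (nat_lit 3) (nat_lit 4) (nat_lit 329) (nat_lit 223) (nat_lit 168))))) (XT.nd (nat_lit 312) (nat_lit 0) (nat_lit 0) (XT.nd (nat_lit 78) (nat_lit 0) (nat_lit 0) (XT.lf (nat_lit 0) (nat_lit 42662569787) (nat_lit 152) (nat_lit 43746279853) (nat_lit 0) (nat_lit 25311062672) (nat_lit 3) (nat_lit 5) (nat_lit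 5) (nat_lit 4) (nat_lit 3) (nat_lit 4) (nat_lit 330) (nat_lit 223) (nat_lit 167)) (XT.nd (nat_lit 78) (nat_lit 0) (nat_lit 0) (XT.lf (nat_lit 0) (nat_lit 48431375022) (nat_lit 152) (nat_lit 37712413026) (nat_lit 0) (nat_lit 31022358439) (nat_lit 3) (nat_lit 5) (nat_lit 5) (nat_lit 4) (nat_lit 3) (nat_lit 4) (nat_lit 331) (nat_lit 223) (nat_lit 166)) (XT.lf (nat_lit 0) (nat_lit 54464123475) (nat_lit 152) (nat_lit 31420983144) (nat_lit 0) (nat_lit 37000335971) (nat_lit 3) (nat_lit 5) (nat_lit 5) (nat_lit 4) (nat_lit 3) (nat_lit 4) (nat_lit 332) (nat_lit 223) (nat_lit 165)))) (XT.nd (nat_lit 32682) (nat_lit 0) (nat_lit 3800) (XT.lf (nat_lit 0) (nat_lit 67379567423) (nat_lit 152) (nat_lit 18004866930) (nat_lit 0) (nat_lit 49813938295) (nat_lit 3) (nat_lit 5) (nat_lit 5) (nat_lit 4) (nat_lit 3) (nat_lit 4) (nat_lit 334) (nat_lit 223) (nat_lit 163)) (XT.nd (nat_lit 78) (nat_lit 304) (nat_lit 0)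 (XT.lf (nat_lit 0) (nat_lit 1539592311) (nat_lit 304) (nat_lit 1790970812) (nat_lit 304) (nat_lit 1790970812) (nat_lit 57) (nat_lit 4) (nat_lit 61) (nat_lit 5) (nat_lit 61) (nat_lit 4) (nat_lit 272) (nat_lit 224) (nat_lit 224)) (XT.lf (nat_lit 0) (nat_lit 2146093036) (nat_lit 304) (nat_lit 7522299483) (nat_lit 0) (nat_lit 861578963) (nat_lit 53) (nat_lit 5) (nat_lit 57) (nat_lit 4) (nat_lit 53) (nat_lit 4) (nat_lit 273) (nat_lit 224) (nat_lit 223))))))))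
noncomputable def xc22 : XT := (XT.nd (nat_lit 1716) (nat_lit 608) (nat_lit 0) (XT.nd (nat_lit 858) (nat_lit 988) (nat_lit 0) (XT.nd (nat_lit 390) (nat_lit 1064) (nat_lit 0) (XT.nd (nat_lit 156) (nat_lit 456) (nat_lit 0) (XT.nd (nat_lit 78) (nat_lit 304) (nat_lit 0) (XT.lf (nat_lit 0) (nat_lit 2645936992) (nat_lit 228) (nat_lit 5347604680) (nat_lit 228) (nat_lit 2839743869) (nat_lit 50) (nat_lit 4) (nat_lit 53) (nat_lit 5) (nat_lit 53) (nat_lit 4) (nat_lit 274) (nat_lit 224) (nat_lit 222)) (XT.lf (nat_lit 0) (nat_lit 2003849198) (nat_lit 228) (nat_lit 792605057) (nat_lit 304) (nat_lit 8358576275) (nat_lit 46) (nat_lit 5) (nat_lit 49) (nat_lit 5) (nat_lit 50) (nat_lit 4) (nat_lit 275) (nat_lit 224) (nat_lit 221))) (XT.nd (nat_lit 78) (nat_lit 228) (nat_lit 0) (XT.lf (nat_lit 0) (nat_lit 1004839736) (nat_lit 228) (nat_lit 7566637420) (nat_lit 228) (nat_lit 2923370922) (nat_lit 43) (nat_lit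 4) (nat_lit 46) (nat_lit 5) (nat_lit 46) (nat_lit 4) (nat_lit 276) (nat_lit 224) (nat_lit 220)) (XT.nd (nat_lit 78) (nat_lit 152) (nat_lit 0) (XT.lf (nat_lit 0) (nat_lit 2619389331) (nat_lit 304) (nat_lit 351899268) (nat_lit 76) (nat_lit 8883140256) (nat_lit 42) (nat_lit 5) (nat_lit 46) (nat_lit 5) (nat_lit 43) (nat_lit 4) (nat_lit 277) (nat_lit 224) (nat_lit 219)) (XT.lf (nat_lit 0) (nat_lit 8292110581) (nat_lit 228) (nat_lit 2102577460) (nat_lit 0) (nat_lit 1839299017) (nat_lit 40) (nat_lit 5) (nat_lit 43) (nat_lit 4) (nat_lit 40) (nat_lit 4) (nat_lit 278) (nat_lit 224) (nat_lit 218))))) (XT.nd (nat_lit 234) (nat_lit 456) (nat_lit 0) (XT.nd (nat_lit 78) (nat_lit 304) (nat_lit 0) (XT.lf (nat_lit 0) (nat_lit 1499989705) (nat_lit 304) (nat_lit 4311333432) (nat_lit 76) (nat_lit 6823511908) (nat_lit 36) (nat_lit 5) (nat_lit 40) (nat_lit 5) (nat_lit 37) (nat_lit 4) (nat_lit 279) (nat_lit 224)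 (nat_lit 217)) (XT.nd (nat_lit 78) (nat_lit 152) (nat_lit 0) (XT.lf (nat_lit 0) (nat_lit 6034387478) (nat_lit 152) (nat_lit 985896820) (nat_lit 228) (nat_lit 6037868040) (nat_lit 34) (nat_lit 5) (nat_lit 36) (nat_lit 5) (nat_lit 37) (nat_lit 4) (nat_lit 280) (nat_lit 224) (nat_lit 216)) (XT.lf (nat_lit 0) (nat_lit 3209957055) (nat_lit 152) (nat_lit 9534088007) (nat_lit 152) (nat_lit 760989306) (nat_lit 32) (nat_lit 4) (nat_lit 34) (nat_lit 5) (nat_lit 34) (nat_lit 4) (nat_lit 281) (nat_lit 224) (nat_lit 215)))) (XT.nd (nat_lit 78) (nat_lit 380) (nat_lit 0) (XT.lf (nat_lit 0) (nat_lit 4586110942) (nat_lit 228) (nat_lit 221039224) (nat_lit 76) (nat_lit 9168948195) (nat_lit 31) (nat_lit 5) (nat_lit 34) (nat_lit 5) (nat_lit 32) (nat_lit 4) (nat_lit 282) (nat_lit 224) (nat_lit 214)) (XT.nd (nat_lit 78) (nat_lit 228) (nat_lit 0) (XT.lf (nat_lit 0) (nat_lit 10110628983) (nat_lit 228) (nat_lit 4205543708)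 (nat_lit 0) (nat_lit 156738650) (nat_lit 29) (nat_lit 5) (nat_lit 32) (nat_lit 4) (nat_lit 29) (nat_lit 4) (nat_lit 283) (nat_lit 224) (nat_lit 213)) (XT.lf (nat_lit 0) (nat_lit 837541046) (nat_lit 228) (nat_lit 8920961348) (nat_lit 76) (nat_lit 5237820594) (nat_lit 26) (nat_lit 5) (nat_lit 29) (nat_lit 5) (nat_lit 27) (nat_lit 4) (nat_lit 284) (nat_lit 224) (nat_lit 212)))))) (XT.nd (nat_lit 390) (nat_lit 532) (nat_lit 0) (XT.nd (nat_lit 156) (nat_lit 304) (nat_lit 0) (XT.nd (nat_lit 78) (nat_lit 0) (nat_lit 0) (XT.lf (nat_lit 0) (nat_lit 1118739573) (nat_lit 152) (nat_lit 4977523174) (nat_lit 228) (nat_lit 9451845444) (nat_lit 24) (nat_lit 5) (nat_lit 26) (nat_lit 5) (nat_lit 27) (nat_lit 4) (nat_lit 285) (nat_lit 224) (nat_lit 211)) (XT.lf (nat_lit 0) (nat_lit 11549259990) (nat_lit 228) (nat_lit 4547609898) (nat_lit 0) (nat_lit 32836848) (nat_lit 24) (nat_lit 5) (nat_lit 27) (nat_lit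 4) (nat_lit 24) (nat_lit 4) (nat_lit 286) (nat_lit 224) (nat_lit 210))) (XT.nd (nat_lit 78) (nat_lit 76) (nat_lit 0) (XT.lf (nat_lit 0) (nat_lit 473719439) (nat_lit 228) (nat_lit 11114404702) (nat_lit 76) (nat_lit 5153769968) (nat_lit 21) (nat_lit 5) (nat_lit 24) (nat_lit 5) (nat_lit 22) (nat_lit 4) (nat_lit 287) (nat_lit 224) (nat_lit 209)) (XT.nd (nat_lit 78) (nat_lit 76) (nat_lit 0) (XT.lf (nat_lit 0) (nat_lit 5583243228) (nat_lit 228) (nat_lit 1275054287) (nat_lit 76) (nat_lit 10528256062) (nat_lit 21) (nat_lit 5) (nat_lit 24) (nat_lit 5) (nat_lit 22) (nat_lit 4) (nat_lit 288) (nat_lit 224) (nat_lit 208)) (XT.lf (nat_lit 0) (nat_lit 8992260629) (nat_lit 76) (nat_lit 1898823809) (nat_lit 152) (nat_lit 7174214108) (nat_lit 20) (nat_lit 5) (nat_lit 21) (nat_lit 5) (nat_lit 22) (nat_lit 4) (nat_lit 289) (nat_lit 224) (nat_lit 207))))) (XT.nd (nat_lit 234) (nat_lit 228) (nat_lit 0) (XT.nd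 (nat_lit 78) (nat_lit 152) (nat_lit 0) (XT.lf (nat_lit 0) (nat_lit 769060718) (nat_lit 152) (nat_lit 15607813953) (nat_lit 152) (nat_lit 2403860590) (nat_lit 18) (nat_lit 4) (nat_lit 20) (nat_lit 5) (nat_lit 20) (nat_lit 4) (nat_lit 290) (nat_lit 224) (nat_lit 206)) (XT.nd (nat_lit 78) (nat_lit 76) (nat_lit 0) (XT.lf (nat_lit 0) (nat_lit 2530765229) (nat_lit 228) (nat_lit 8513500576) (nat_lit 76) (nat_lit 8487750460) (nat_lit 17) (nat_lit 5) (nat_lit 20) (nat_lit 5) (nat_lit 18) (nat_lit 4) (nat_lit 291) (nat_lit 224) (nat_lit 205)) (XT.lf (nat_lit 0) (nat_lit 1238446035) (nat_lit 76) (nat_lit 6305945547) (nat_lit 152) (nat_lit 12779411718) (nat_lit 16) (nat_lit 5) (nat_lit 17) (nat_lit 5) (nat_lit 18) (nat_lit 4) (nat_lit 292) (nat_lit 224) (nat_lit 204)))) (XT.nd (nat_lit 78) (nat_lit 228) (nat_lit 0) (XT.lf (nat_lit 0) (nat_lit 11441193315) (nat_lit 76) (nat_lit 1328907641) (nat_lit 152)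 (nat_lit 8386346719) (nat_lit 16) (nat_lit 5) (nat_lit 17) (nat_lit 5) (nat_lit 18) (nat_lit 4) (nat_lit 293) (nat_lit 224) (nat_lit 203)) (XT.nd (nat_lit 78) (nat_lit 228) (nat_lit 0) (XT.lf (nat_lit 0) (nat_lit 18173520100) (nat_lit 152) (nat_lit 121487962) (nat_lit 0) (nat_lit 3738328276) (nat_lit 16) (nat_lit 5) (nat_lit 18) (nat_lit 4) (nat_lit 16) (nat_lit 4) (nat_lit 294) (nat_lit 224) (nat_lit 202)) (XT.lf (nat_lit 0) (nat_lit 869094696) (nat_lit 228) (nat_lit 13027966992) (nat_lit 76) (nat_lit 9057042702) (nat_lit 13) (nat_lit 5) (nat_lit 16) (nat_lit 5) (nat_lit 14) (nat_lit 4) (nat_lit 295) (nat_lit 224) (nat_lit 201))))))) (XT.nd (nat_lit 858) (nat_lit 228) (nat_lit 0) (XT.nd (nat_lit 390) (nat_lit 228) (nat_lit 0) (XT.nd (nat_lit 156) (nat_lit 76) (nat_lit 0) (XT.nd (nat_lit 78) (nat_lit 76) (nat_lit 0) (XT.lf (nat_lit 0) (nat_lit 5643803653) (nat_lit 228) (nat_lit 3675343430)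 (nat_lit 76) (nat_lit 14604034186) (nat_lit 13) (nat_lit 5) (nat_lit 16) (nat_lit 5) (nat_lit 14) (nat_lit 4) (nat_lit 296) (nat_lit 224) (nat_lit 200)) (XT.lf (nat_lit 0) (nat_lit 6078590863) (nat_lit 76) (nat_lit 4529635324) (nat_lit 152) (nat_lit 14334044355) (nat_lit 12) (nat_lit 5) (nat_lit 13) (nat_lit 5) (nat_lit 14) (nat_lit 4) (nat_lit 297) (nat_lit 224) (nat_lit 199))) (XT.nd (nat_lit 78) (nat_lit 76) (nat_lit 0) (XT.lf (nat_lit 0) (nat_lit 15759089547) (nat_lit 152) (nat_lit 9801441842) (nat_lit 0) (nat_lit 453720004) (nat_lit 12) (nat_lit 5) (nat_lit 14) (nat_lit 4) (nat_lit 12) (nat_lit 4) (nat_lit 298) (nat_lit 224) (nat_lit 198)) (XT.nd (nat_lit 78) (nat_lit 76) (nat_lit 0) (XT.lf (nat_lit 0) (nat_lit 21113415362) (nat_lit 152) (nat_lit 505252399) (nat_lit 0) (nat_lit 5522865668) (nat_lit 12) (nat_lit 5) (nat_lit 14) (nat_lit 4) (nat_lit 12) (nat_lit 4) (nat_lit 299) (nat_lit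 224) (nat_lit 197)) (XT.lf (nat_lit 0) (nat_lit 9271484105) (nat_lit 76) (nat_lit 17458049470) (nat_lit 76) (nat_lit 1595899633) (nat_lit 11) (nat_lit 4) (nat_lit 12) (nat_lit 5) (nat_lit 12) (nat_lit 4) (nat_lit 300) (nat_lit 224) (nat_lit 196))))) (XT.nd (nat_lit 234) (nat_lit 76) (nat_lit 0) (XT.nd (nat_lit 78) (nat_lit 76) (nat_lit 0) (XT.lf (nat_lit 0) (nat_lit 2910465370) (nat_lit 152) (nat_lit 10212571937) (nat_lit 76) (nat_lit 16447312826) (nat_lit 10) (nat_lit 5) (nat_lit 12) (nat_lit 5) (nat_lit 11) (nat_lit 4) (nat_lit 301) (nat_lit 224) (nat_lit 195)) (XT.nd (nat_lit 78) (nat_lit 76) (nat_lit 0) (XT.lf (nat_lit 0) (nat_lit 7520834783) (nat_lit 152) (nat_lit 1099871364) (nat_lit 76) (nat_lit 22259048832) (nat_lit 10) (nat_lit 5) (nat_lit 12) (nat_lit 5) (nat_lit 11) (nat_lit 4) (nat_lit 302) (nat_lit 224) (nat_lit 194)) (XT.lf (nat_lit 0) (nat_lit 8486798288) (nat_lit 76) (nat_lit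 3872109435) (nat_lit 152) (nat_lit 19895870471) (nat_lit 9) (nat_lit 5) (nat_lit 10) (nat_lit 5) (nat_lit 11) (nat_lit 4) (nat_lit 303) (nat_lit 224) (nat_lit 193)))) (XT.nd (nat_lit 78) (nat_lit 76) (nat_lit 0) (XT.lf (nat_lit 0) (nat_lit 17378685481) (nat_lit 152) (nat_lit 15278223458) (nat_lit 0) (nat_lit 1043510238) (nat_lit 9) (nat_lit 5) (nat_lit 11) (nat_lit 4) (nat_lit 9) (nat_lit 4) (nat_lit 304) (nat_lit 224) (nat_lit 192)) (XT.nd (nat_lit 78) (nat_lit 76) (nat_lit 0) (XT.lf (nat_lit 0) (nat_lit 22610114467) (nat_lit 152) (nat_lit 6541133995) (nat_lit 0) (nat_lit 6068331633) (nat_lit 9) (nat_lit 5) (nat_lit 11) (nat_lit 4) (nat_lit 9) (nat_lit 4) (nat_lit 305) (nat_lit 224) (nat_lit 191)) (XT.lf (nat_lit 0) (nat_lit 2551093177) (nat_lit 76) (nat_lit 25501858872) (nat_lit 76) (nat_lit 8763306903) (nat_lit 8) (nat_lit 4) (nat_lit 9) (nat_lit 5) (nat_lit 9) (nat_lit 4) (nat_lit 306)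 (nat_lit 224) (nat_lit 190)))))) (XT.nd (nat_lit 390) (nat_lit 76) (nat_lit 0) (XT.nd (nat_lit 156) (nat_lit 152) (nat_lit 0) (XT.nd (nat_lit 78) (nat_lit 0) (nat_lit 0) (XT.lf (nat_lit 0) (nat_lit 12106893747) (nat_lit 76) (nat_lit 21656016092) (nat_lit 76) (nat_lit 4730064947) (nat_lit 8) (nat_lit 4) (nat_lit 9) (nat_lit 5) (nat_lit 9) (nat_lit 4) (nat_lit 307) (nat_lit 224) (nat_lit 189)) (XT.lf (nat_lit 0) (nat_lit 22018838231) (nat_lit 76) (nat_lit 17670615982) (nat_lit 76) (nat_lit 566189432) (nat_lit 8) (nat_lit 4) (nat_lit 9) (nat_lit 5) (nat_lit 9) (nat_lit 4) (nat_lit 308) (nat_lit 224) (nat_lit 188))) (XT.nd (nat_lit 78) (nat_lit 76) (nat_lit 0) (XT.lf (nat_lit 0) (nat_lit 3665287228) (nat_lit 152) (nat_lit 9833870052) (nat_lit 76) (nat_lit 28608227050) (nat_lit 7) (nat_lit 5) (nat_lit 9) (nat_lit 5) (nat_lit 8) (nat_lit 4) (nat_lit 309) (nat_lit 224) (nat_lit 187)) (XT.nd (nat_lit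 78) (nat_lit 76) (nat_lit 0) (XT.lf (nat_lit 0) (nat_lit 8033569093) (nat_lit 152) (nat_lit 1128140321) (nat_lit 76) (nat_lit 34891770167) (nat_lit 7) (nat_lit 5) (nat_lit 9) (nat_lit 5) (nat_lit 8) (nat_lit 4) (nat_lit 310) (nat_lit 224) (nat_lit 186)) (XT.lf (nat_lit 0) (nat_lit 8063910198) (nat_lit 76) (nat_lit 4573710266) (nat_lit 152) (nat_lit 33458780309) (nat_lit 6) (nat_lit 5) (nat_lit 7) (nat_lit 5) (nat_lit 8) (nat_lit 4) (nat_lit 311) (nat_lit 224) (nat_lit 185))))) (XT.nd (nat_lit 234) (nat_lit 76) (nat_lit 0) (XT.nd (nat_lit 78) (nat_lit 0) (nat_lit 0) (XT.lf (nat_lit 0) (nat_lit 17427224847) (nat_lit 152) (nat_lit 30609069034) (nat_lit 0) (nat_lit 206553483) (nat_lit 6) (nat_lit 5) (nat_lit 8) (nat_lit 4) (nat_lit 6) (nat_lit 4) (nat_lit 312) (nat_lit 224) (nat_lit 184)) (XT.nd (nat_lit 78) (nat_lit 0) (nat_lit 0) (XT.lf (nat_lit 0) (nat_lit 22446548979) (nat_lit 152) (nat_lit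 22960287593) (nat_lit 0) (nat_lit 5090110479) (nat_lit 6) (nat_lit 5) (nat_lit 8) (nat_lit 4) (nat_lit 6) (nat_lit 4) (nat_lit 313) (nat_lit 224) (nat_lit 183)) (XT.lf (nat_lit 0) (nat_lit 27663578331) (nat_lit 152) (nat_lit 15023969568) (nat_lit 0) (nat_lit 10177837798) (nat_lit 6) (nat_lit 5) (nat_lit 8) (nat_lit 4) (nat_lit 6) (nat_lit 4) (nat_lit 314) (nat_lit 224) (nat_lit 182)))) (XT.nd (nat_lit 78) (nat_lit 76) (nat_lit 0) (XT.lf (nat_lit 0) (nat_lit 33090734404) (nat_lit 152) (nat_lit 6781218964) (nat_lit 0) (nat_lit 15481849075) (nat_lit 6) (nat_lit 5) (nat_lit 8) (nat_lit 4) (nat_lit 6) (nat_lit 4) (nat_lit 315) (nat_lit 224) (nat_lit 181)) (XT.nd (nat_lit 78) (nat_lit 0) (nat_lit 0) (XT.lf (nat_lit 0) (nat_lit 1823166357) (nat_lit 76) (nat_lit 36935298029) (nat_lit 76) (nat_lit 19209131943) (nat_lit 5) (nat_lit 4) (nat_lit 6) (nat_lit 5) (nat_lit 6) (nat_lit 4) (nat_lit 316) (nat_lit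 224) (nat_lit 180)) (XT.lf (nat_lit 0) (nat_lit 10915866570) (nat_lit 76) (nat_lit 33816708392) (nat_lit 76) (nat_lit 15978846348) (nat_lit 5) (nat_lit 4) (nat_lit 6) (nat_lit 5) (nat_lit 6) (nat_lit 4) (nat_lit 317) (nat_lit 224) (nat_lit 179))))))))
noncomputable def xc23 : XT := (XT.nd (nat_lit 34242) (nat_lit 0) (nat_lit 684) (XT.nd (nat_lit 858) (nat_lit 0) (nat_lit 0) (XT.nd (nat_lit 390) (nat_lit 76) (nat_lit 0) (XT.nd (nat_lit 156) (nat_lit 76) (nat_lit 0) (XT.nd (nat_lit 78) (nat_lit 0) (nat_lit 0) (XT.lf (nat_lit 0) (nat_lit 20383571406) (nat_lit 76) (nat_lit 30577236260) (nat_lit 76) (nat_lit 12632997113) (nat_lit 5) (nat_lit 4) (nat_lit 6) (nat_lit 5) (nat_lit 6) (nat_lit 4) (nat_lit 318) (nat_lit 224) (nat_lit 178)) (XT.lf (nat_lit 0) (nat_lit 30248823020) (nat_lit 76) (nat_lit 27209168605) (nat_lit 76) (nat_lit 9163617930) (nat_lit 5) (nat_lit 4) (nat_lit 6) (nat_lit 5) (nat_lit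 6) (nat_lit 4) (nat_lit 319) (nat_lit 224) (nat_lit 177))) (XT.nd (nat_lit 78) (nat_lit 76) (nat_lit 0) (XT.lf (nat_lit 0) (nat_lit 40535110105) (nat_lit 76) (nat_lit 23704486217) (nat_lit 76) (nat_lit 5562448373) (nat_lit 5) (nat_lit 4) (nat_lit 6) (nat_lit 5) (nat_lit 6) (nat_lit 4) (nat_lit 320) (nat_lit 224) (nat_lit 176)) (XT.nd (nat_lit 78) (nat_lit 76) (nat_lit 0) (XT.lf (nat_lit 0) (nat_lit 51266923822) (nat_lit 76) (nat_lit 20054844614) (nat_lit 76) (nat_lit 1820914229) (nat_lit 5) (nat_lit 4) (nat_lit 6) (nat_lit 5) (nat_lit 6) (nat_lit 4) (nat_lit 321) (nat_lit 224) (nat_lit 175)) (XT.lf (nat_lit 0) (nat_lit 2029501850) (nat_lit 152) (nat_lit 14201558334) (nat_lit 76) (nat_lit 60419820268) (nat_lit 4) (nat_lit 5) (nat_lit 6) (nat_lit 5) (nat_lit 5) (nat_lit 4) (nat_lit 322) (nat_lit 224) (nat_lit 174))))) (XT.nd (nat_lit 234) (nat_lit 0) (nat_lit 0) (XT.nd (nat_lit 78) (nat_lit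 76) (nat_lit 0) (XT.lf (nat_lit 0) (nat_lit 5999828539) (nat_lit 152) (nat_lit 6225144400) (nat_lit 76) (nat_lit 68110045472) (nat_lit 4) (nat_lit 5) (nat_lit 6) (nat_lit 5) (nat_lit 5) (nat_lit 4) (nat_lit 323) (nat_lit 224) (nat_lit 173)) (XT.nd (nat_lit 78) (nat_lit 0) (nat_lit 0) (XT.lf (nat_lit 0) (nat_lit 2131572824) (nat_lit 76) (nat_lit 8023968748) (nat_lit 152) (nat_lit 74048237140) (nat_lit 3) (nat_lit 5) (nat_lit 4) (nat_lit 5) (nat_lit 5) (nat_lit 4) (nat_lit 324) (nat_lit 224) (nat_lit 172)) (XT.lf (nat_lit 0) (nat_lit 10977824152) (nat_lit 76) (nat_lit 3572718184) (nat_lit 152) (nat_lit 73714510149) (nat_lit 3) (nat_lit 5) (nat_lit 4) (nat_lit 5) (nat_lit 5) (nat_lit 4) (nat_lit 325) (nat_lit 224) (nat_lit 171)))) (XT.nd (nat_lit 78) (nat_lit 0) (nat_lit 0) (XT.lf (nat_lit 0) (nat_lit 19144612411) (nat_lit 152) (nat_lit 72329908971) (nat_lit 0) (nat_lit 1055508526) (nat_lit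 3) (nat_lit 5) (nat_lit 5) (nat_lit 4) (nat_lit 3) (nat_lit 4) (nat_lit 326) (nat_lit 224) (nat_lit 170)) (XT.nd (nat_lit 78) (nat_lit 0) (nat_lit 0) (XT.lf (nat_lit 0) (nat_lit 23974669992) (nat_lit 152) (nat_lit 67214424591) (nat_lit 0) (nat_lit 5818991710) (nat_lit 3) (nat_lit 5) (nat_lit 5) (nat_lit 4) (nat_lit 3) (nat_lit 4) (nat_lit 327) (nat_lit 224) (nat_lit 169)) (XT.lf (nat_lit 0) (nat_lit 29017872064) (nat_lit 152) (nat_lit 61894252317) (nat_lit 0) (nat_lit 10798789593) (nat_lit 3) (nat_lit 5) (nat_lit 5) (nat_lit 4) (nat_lit 3) (nat_lit 4) (nat_lit 328) (nat_lit 224) (nat_lit 168)))))) (XT.nd (nat_lit 32916) (nat_lit 0) (nat_lit 3268) (XT.nd (nat_lit 156) (nat_lit 0) (nat_lit 0) (XT.nd (nat_lit 78) (nat_lit 0) (nat_lit 0) (XT.lf (nat_lit 0) (nat_lit 34286226249) (nat_lit 152) (nat_lit 56356725072) (nat_lit 0) (nat_lit 16006758837) (nat_lit 3) (nat_lit 5) (nat_lit 5) (nat_lit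 4) (nat_lit 3) (nat_lit 4) (nat_lit 329) (nat_lit 224) (nat_lit 167)) (XT.lf (nat_lit 0) (nat_lit 39792276249) (nat_lit 152) (nat_lit 50588658266) (nat_lit 0) (nat_lit 21455299369) (nat_lit 3) (nat_lit 5) (nat_lit 5) (nat_lit 4) (nat_lit 3) (nat_lit 4) (nat_lit 330) (nat_lit 224) (nat_lit 166))) (XT.nd (nat_lit 78) (nat_lit 0) (nat_lit 0) (XT.lf (nat_lit 0) (nat_lit 45549131707) (nat_lit 152) (nat_lit 44576318408) (nat_lit 0) (nat_lit 27157383905) (nat_lit 3) (nat_lit 5) (nat_lit 5) (nat_lit 4) (nat_lit 3) (nat_lit 4) (nat_lit 331) (nat_lit 224) (nat_lit 165)) (XT.nd (nat_lit 156) (nat_lit 0) (nat_lit 0) (XT.lf (nat_lit 0) (nat_lit 51570499421) (nat_lit 152) (nat_lit 38305390403) (nat_lit 0) (nat_lit 33126588837) (nat_lit 3) (nat_lit 5) (nat_lit 5) (nat_lit 4) (nat_lit 3) (nat_lit 4) (nat_lit 332) (nat_lit 224) (nat_lit 164)) (XT.lf (nat_lit 0) (nat_lit 64464781902) (nat_lit 152) (nat_lit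 24927395590) (nat_lit 0) (nat_lit 45923879296) (nat_lit 3) (nat_lit 5) (nat_lit 5) (nat_lit 4) (nat_lit 3) (nat_lit 4) (nat_lit 334) (nat_lit 224) (nat_lit 162))))) (XT.nd (nat_lit 234) (nat_lit 836) (nat_lit 0) (XT.nd (nat_lit 78) (nat_lit 608) (nat_lit 0) (XT.lf (nat_lit 0) (nat_lit 1361616739) (nat_lit 304) (nat_lit 1747859821) (nat_lit 304) (nat_lit 1747859821) (nat_lit 65) (nat_lit 4) (nat_lit 69) (nat_lit 5) (nat_lit 69) (nat_lit 4) (nat_lit 270) (nat_lit 225) (nat_lit 225)) (XT.nd (nat_lit 78) (nat_lit 304) (nat_lit 0) (XT.lf (nat_lit 0) (nat_lit 2161984060) (nat_lit 304) (nat_lit 7038367866) (nat_lit 0) (nat_lit 772782089) (nat_lit 61) (nat_lit 5) (nat_lit 65) (nat_lit 4) (nat_lit 61) (nat_lit 4) (nat_lit 271) (nat_lit 225) (nat_lit 224)) (XT.lf (nat_lit 0) (nat_lit 2913430491) (nat_lit 304) (nat_lit 5022746894) (nat_lit 304) (nat_lit 2310495427) (nat_lit 57) (nat_lit 4) (nat_lit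 61) (nat_lit 5) (nat_lit 61) (nat_lit 4) (nat_lit 272) (nat_lit 225) (nat_lit 223)))) (XT.nd (nat_lit 78) (nat_lit 532) (nat_lit 0) (XT.lf (nat_lit 0) (nat_lit 2667772516) (nat_lit 228) (nat_lit 603198479) (nat_lit 304) (nat_lit 7266058322) (nat_lit 53) (nat_lit 5) (nat_lit 56) (nat_lit 5) (nat_lit 57) (nat_lit 4) (nat_lit 273) (nat_lit 225) (nat_lit 222)) (XT.nd (nat_lit 78) (nat_lit 304) (nat_lit 0) (XT.lf (nat_lit 0) (nat_lit 2136339593) (nat_lit 228) (nat_lit 6864688561) (nat_lit 228) (nat_lit 1842995843) (nat_lit 50) (nat_lit 4) (nat_lit 53) (nat_lit 5) (nat_lit 53) (nat_lit 4) (nat_lit 274) (nat_lit 225) (nat_lit 221)) (XT.lf (nat_lit 0) (nat_lit 1304104406) (nat_lit 228) (nat_lit 2358658488) (nat_lit 304) (nat_lit 7506195232) (nat_lit 46) (nat_lit 5) (nat_lit 49) (nat_lit 5) (nat_lit 50) (nat_lit 4) (nat_lit 275) (nat_lit 225) (nat_lit 220))))))) (XT.nd (nat_lit 858) (nat_lit 912)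 (nat_lit 0) (XT.nd (nat_lit 390) (nat_lit 760) (nat_lit 0) (XT.nd (nat_lit 156) (nat_lit 608) (nat_lit 0) (XT.nd (nat_lit 78) (nat_lit 76) (nat_lit 0) (XT.lf (nat_lit 0) (nat_lit 134875782) (nat_lit 228) (nat_lit 9178247689) (nat_lit 228) (nat_lit 2199531982) (nat_lit 43) (nat_lit 4) (nat_lit 46) (nat_lit 5) (nat_lit 46) (nat_lit 4) (nat_lit 276) (nat_lit 225) (nat_lit 219)) (XT.lf (nat_lit 0) (nat_lit 3230137989) (nat_lit 304) (nat_lit 1398671887) (nat_lit 76) (nat_lit 7246315947) (nat_lit 42) (nat_lit 5) (nat_lit 46) (nat_lit 5) (nat_lit 43) (nat_lit 4) (nat_lit 277) (nat_lit 225) (nat_lit 218))) (XT.nd (nat_lit 78) (nat_lit 456) (nat_lit 0) (XT.lf (nat_lit 0) (nat_lit 8780389499) (nat_lit 228) (nat_lit 3325331455) (nat_lit 0) (nat_lit 152760368) (nat_lit 40) (nat_lit 5) (nat_lit 43) (nat_lit 4) (nat_lit 40) (nat_lit 4) (nat_lit 278) (nat_lit 225) (nat_lit 217)) (XT.nd (nat_lit 78) (nat_lit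 152) (nat_lit 0) (XT.lf (nat_lit 0) (nat_lit 1848586856) (nat_lit 304) (nat_lit 5735474926) (nat_lit 76) (nat_lit 5078431823) (nat_lit 36) (nat_lit 5) (nat_lit 40) (nat_lit 5) (nat_lit 37) (nat_lit 4) (nat_lit 279) (nat_lit 225) (nat_lit 216)) (XT.lf (nat_lit 0) (nat_lit 4438282213) (nat_lit 152) (nat_lit 2825703240) (nat_lit 228) (nat_lit 5825080820) (nat_lit 34) (nat_lit 5) (nat_lit 36) (nat_lit 5) (nat_lit 37) (nat_lit 4) (nat_lit 280) (nat_lit 225) (nat_lit 215))))) (XT.nd (nat_lit 234) (nat_lit 380) (nat_lit 0) (XT.nd (nat_lit 78) (nat_lit 228) (nat_lit 0) (XT.lf (nat_lit 0) (nat_lit 1426827328) (nat_lit 152) (nat_lit 11439007027) (nat_lit 152) (nat_lit 673874633) (nat_lit 32) (nat_lit 4) (nat_lit 34) (nat_lit 5) (nat_lit 34) (nat_lit 4) (nat_lit 281) (nat_lit 225) (nat_lit 214)) (XT.nd (nat_lit 78) (nat_lit 152) (nat_lit 0) (XT.lf (nat_lit 0) (nat_lit 4586358288) (nat_lit 228) (nat_lit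 2176487674) (nat_lit 76) (nat_lit 7250552461) (nat_lit 31) (nat_lit 5) (nat_lit 34) (nat_lit 5) (nat_lit 32) (nat_lit 4) (nat_lit 282) (nat_lit 225) (nat_lit 213)) (XT.lf (nat_lit 0) (nat_lit 8141699512) (nat_lit 152) (nat_lit 1866079912) (nat_lit 228) (nat_lit 4505615881) (nat_lit 29) (nat_lit 5) (nat_lit 31) (nat_lit 5) (nat_lit 32) (nat_lit 4) (nat_lit 283) (nat_lit 225) (nat_lit 212)))) (XT.nd (nat_lit 78) (nat_lit 152) (nat_lit 0) (XT.lf (nat_lit 0) (nat_lit 576552282) (nat_lit 228) (nat_lit 11284610495) (nat_lit 76) (nat_lit 3179383209) (nat_lit 26) (nat_lit 5) (nat_lit 29) (nat_lit 5) (nat_lit 27) (nat_lit 4) (nat_lit 284) (nat_lit 225) (nat_lit 211)) (XT.nd (nat_lit 78) (nat_lit 152) (nat_lit 0) (XT.lf (nat_lit 0) (nat_lit 5747313075) (nat_lit 228) (nat_lit 1393208115) (nat_lit 76) (nat_lit 8454528955) (nat_lit 26) (nat_lit 5) (nat_lit 29) (nat_lit 5) (nat_lit 27) (nat_lit 4) (nat_lit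 285) (nat_lit 225) (nat_lit 210)) (XT.lf (nat_lit 0) (nat_lit 8919910437) (nat_lit 152) (nat_lit 2191707827) (nat_lit 228) (nat_lit 5067767501) (nat_lit 24) (nat_lit 5) (nat_lit 26) (nat_lit 5) (nat_lit 27) (nat_lit 4) (nat_lit 286) (nat_lit 225) (nat_lit 209)))))) (XT.nd (nat_lit 390) (nat_lit 380) (nat_lit 0) (XT.nd (nat_lit 156) (nat_lit 304) (nat_lit 0) (XT.nd (nat_lit 78) (nat_lit 76) (nat_lit 0) (XT.lf (nat_lit 0) (nat_lit 2766800235) (nat_lit 152) (nat_lit 13900531971) (nat_lit 152) (nat_lit 128059149) (nat_lit 22) (nat_lit 4) (nat_lit 24) (nat_lit 5) (nat_lit 24) (nat_lit 4) (nat_lit 287) (nat_lit 225) (nat_lit 208)) (XT.lf (nat_lit 0) (nat_lit 4913915789) (nat_lit 228) (nat_lit 4304826509) (nat_lit 76) (nat_lit 8223514089) (nat_lit 21) (nat_lit 5) (nat_lit 24) (nat_lit 5) (nat_lit 22) (nat_lit 4) (nat_lit 288) (nat_lit 225) (nat_lit 207))) (XT.nd (nat_lit 78) (nat_lit 228) (nat_lit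 0) (XT.lf (nat_lit 0) (nat_lit 5788721741) (nat_lit 76) (nat_lit 4335528743) (nat_lit 152) (nat_lit 7999740070) (nat_lit 20) (nat_lit 5) (nat_lit 21) (nat_lit 5) (nat_lit 22) (nat_lit 4) (nat_lit 289) (nat_lit 225) (nat_lit 206)) (XT.nd (nat_lit 78) (nat_lit 228) (nat_lit 0) (XT.lf (nat_lit 0) (nat_lit 15514232718) (nat_lit 152) (nat_lit 2594399349) (nat_lit 0) (nat_lit 733730396) (nat_lit 20) (nat_lit 5) (nat_lit 22) (nat_lit 4) (nat_lit 20) (nat_lit 4) (nat_lit 290) (nat_lit 225) (nat_lit 205)) (XT.lf (nat_lit 0) (nat_lit 1535243757) (nat_lit 228) (nat_lit 12089672380) (nat_lit 76) (nat_lit 5971728875) (nat_lit 17) (nat_lit 5) (nat_lit 20) (nat_lit 5) (nat_lit 18) (nat_lit 4) (nat_lit 291) (nat_lit 225) (nat_lit 204))))) (XT.nd (nat_lit 234) (nat_lit 304) (nat_lit 0) (XT.nd (nat_lit 78) (nat_lit 76) (nat_lit 0) (XT.lf (nat_lit 0) (nat_lit 6476393015) (nat_lit 228) (nat_lit 2464582135)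 (nat_lit 76) (nat_lit 11449684887) (nat_lit 17) (nat_lit 5) (nat_lit 20) (nat_lit 5) (nat_lit 18) (nat_lit 4) (nat_lit 292) (nat_lit 225) (nat_lit 203)) (XT.nd (nat_lit 78) (nat_lit 0) (nat_lit 0) (XT.lf (nat_lit 0) (nat_lit 7589368884) (nat_lit 76) (nat_lit 4029924116) (nat_lit 152) (nat_lit 9606546815) (nat_lit 16) (nat_lit 5) (nat_lit 17) (nat_lit 5) (nat_lit 18) (nat_lit 4) (nat_lit 293) (nat_lit 225) (nat_lit 202)) (XT.lf (nat_lit 0) (nat_lit 16940517950) (nat_lit 152) (nat_lit 4113085180) (nat_lit 0) (nat_lit 1051639860) (nat_lit 16) (nat_lit 5) (nat_lit 18) (nat_lit 4) (nat_lit 16) (nat_lit 4) (nat_lit 294) (nat_lit 225) (nat_lit 201)))) (XT.nd (nat_lit 78) (nat_lit 152) (nat_lit 0) (XT.lf (nat_lit 0) (nat_lit 5770292945) (nat_lit 152) (nat_lit 16743870681) (nat_lit 152) (nat_lit 514956969) (nat_lit 14) (nat_lit 4) (nat_lit 16) (nat_lit 5) (nat_lit 16) (nat_lit 4) (nat_lit 295) (nat_lit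 225) (nat_lit 200)) (XT.nd (nat_lit 78) (nat_lit 76) (nat_lit 0) (XT.lf (nat_lit 0) (nat_lit 4217384552) (nat_lit 228) (nat_lit 7991466519) (nat_lit 76) (nat_lit 11791110264) (nat_lit 13) (nat_lit 5) (nat_lit 16) (nat_lit 5) (nat_lit 14) (nat_lit 4) (nat_lit 296) (nat_lit 225) (nat_lit 199)) (XT.lf (nat_lit 0) (nat_lit 1588941873) (nat_lit 76) (nat_lit 7499787863) (nat_lit 152) (nat_lit 15933154024) (nat_lit 12) (nat_lit 5) (nat_lit 13) (nat_lit 5) (nat_lit 14) (nat_lit 4) (nat_lit 297) (nat_lit 225) (nat_lit 198))))))))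
noncomputable def xc24 : XT := (XT.nd (nat_lit 1638) (nat_lit 152) (nat_lit 0) (XT.nd (nat_lit 780) (nat_lit 228) (nat_lit 0) (XT.nd (nat_lit 390) (nat_lit 152) (nat_lit 0) (XT.nd (nat_lit 156) (nat_lit 152) (nat_lit 0) (XT.nd (nat_lit 78) (nat_lit 0) (nat_lit 0) (XT.lf (nat_lit 0) (nat_lit 11644288352) (nat_lit 76) (nat_lit 2542511352) (nat_lit 152) (nat_lit 11908687598) (nat_lit 12) (nat_lit 5) (nat_lit 13) (nat_lit 5) (nat_lit 14) (nat_lit 4) (nat_lit 298) (nat_lit 225) (nat_lit 197)) (XT.lf (nat_lit 0) (nat_lit 19470320921) (nat_lit 152) (nat_lit 5211146142) (nat_lit 0) (nat_lit 2543463449) (nat_lit 12) (nat_lit 5) (nat_lit 14) (nat_lit 4) (nat_lit 12) (nat_lit 4) (nat_lit 299) (nat_lit 225) (nat_lit 196))) (XT.nd (nat_lit 78) (nat_lit 76) (nat_lit 0) (XT.lf (nat_lit 0) (nat_lit 4393666759) (nat_lit 76) (nat_lit 20601727217) (nat_lit 76) (nat_lit 3416202942) (nat_lit 11) (nat_lit 4)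 (nat_lit 12) (nat_lit 5) (nat_lit 12) (nat_lit 4) (nat_lit 300) (nat_lit 225) (nat_lit 195)) (XT.nd (nat_lit 78) (nat_lit 0) (nat_lit 0) (XT.lf (nat_lit 0) (nat_lit 1082455904) (nat_lit 152) (nat_lit 15234488124) (nat_lit 76) (nat_lit 13341424171) (nat_lit 10) (nat_lit 5) (nat_lit 12) (nat_lit 5) (nat_lit 11) (nat_lit 4) (nat_lit 301) (nat_lit 225) (nat_lit 194)) (XT.lf (nat_lit 0) (nat_lit 5651656907) (nat_lit 152) (nat_lit 6193628503) (nat_lit 76) (nat_lit 19123753749) (nat_lit 10) (nat_lit 5) (nat_lit 12) (nat_lit 5) (nat_lit 11) (nat_lit 4) (nat_lit 302) (nat_lit 225) (nat_lit 193))))) (XT.nd (nat_lit 156) (nat_lit 76) (nat_lit 0) (XT.nd (nat_lit 78) (nat_lit 0) (nat_lit 0) (XT.lf (nat_lit 0) (nat_lit 3221883748) (nat_lit 76) (nat_lit 7178028509) (nat_lit 152) (nat_lit 21946874226) (nat_lit 9) (nat_lit 5) (nat_lit 10) (nat_lit 5) (nat_lit 11) (nat_lit 4) (nat_lit 303) (nat_lit 225) (nat_lit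 192)) (XT.lf (nat_lit 0) (nat_lit 13101359877) (nat_lit 76) (nat_lit 2270119842) (nat_lit 152) (nat_lit 18422422230) (nat_lit 9) (nat_lit 5) (nat_lit 10) (nat_lit 5) (nat_lit 11) (nat_lit 4) (nat_lit 304) (nat_lit 225) (nat_lit 191))) (XT.nd (nat_lit 78) (nat_lit 76) (nat_lit 0) (XT.lf (nat_lit 0) (nat_lit 20544654963) (nat_lit 152) (nat_lit 11997776088) (nat_lit 0) (nat_lit 2772406261) (nat_lit 9) (nat_lit 5) (nat_lit 11) (nat_lit 4) (nat_lit 9) (nat_lit 4) (nat_lit 305) (nat_lit 225) (nat_lit 190)) (XT.nd (nat_lit 78) (nat_lit 76) (nat_lit 0) (XT.lf (nat_lit 0) (nat_lit 25928272770) (nat_lit 152) (nat_lit 3016420654) (nat_lit 0) (nat_lit 7968624892) (nat_lit 9) (nat_lit 5) (nat_lit 11) (nat_lit 4) (nat_lit 9) (nat_lit 4) (nat_lit 306) (nat_lit 225) (nat_lit 189)) (XT.lf (nat_lit 0) (nat_lit 6420007662) (nat_lit 76) (nat_lit 25155034875) (nat_lit 76) (nat_lit 7016911592) (nat_lit 8) (nat_lit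 4) (nat_lit 9) (nat_lit 5) (nat_lit 9) (nat_lit 4) (nat_lit 307) (nat_lit 225) (nat_lit 188)))))) (XT.nd (nat_lit 390) (nat_lit 76) (nat_lit 0) (XT.nd (nat_lit 156) (nat_lit 76) (nat_lit 0) (XT.nd (nat_lit 78) (nat_lit 76) (nat_lit 0) (XT.lf (nat_lit 0) (nat_lit 16275438269) (nat_lit 76) (nat_lit 21194134096) (nat_lit 76) (nat_lit 2886034237) (nat_lit 8) (nat_lit 4) (nat_lit 9) (nat_lit 5) (nat_lit 9) (nat_lit 4) (nat_lit 308) (nat_lit 225) (nat_lit 187)) (XT.lf (nat_lit 0) (nat_lit 1359897383) (nat_lit 152) (nat_lit 15709390624) (nat_lit 76) (nat_lit 25139674113) (nat_lit 7) (nat_lit 5) (nat_lit 9) (nat_lit 5) (nat_lit 8) (nat_lit 4) (nat_lit 309) (nat_lit 225) (nat_lit 186))) (XT.nd (nat_lit 78) (nat_lit 76) (nat_lit 0) (XT.lf (nat_lit 0) (nat_lit 5698832992) (nat_lit 152) (nat_lit 7055525103) (nat_lit 76) (nat_lit 31401600074) (nat_lit 7) (nat_lit 5) (nat_lit 9) (nat_lit 5) (nat_lit 8)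 (nat_lit 4) (nat_lit 310) (nat_lit 225) (nat_lit 185)) (XT.nd (nat_lit 78) (nat_lit 0) (nat_lit 0) (XT.lf (nat_lit 0) (nat_lit 1968181303) (nat_lit 76) (nat_lit 8248158371) (nat_lit 152) (nat_lit 35985155468) (nat_lit 6) (nat_lit 5) (nat_lit 7) (nat_lit 5) (nat_lit 8) (nat_lit 4) (nat_lit 311) (nat_lit 225) (nat_lit 184)) (XT.lf (nat_lit 0) (nat_lit 11492156618) (nat_lit 76) (nat_lit 3484683285) (nat_lit 152) (nat_lit 33371993468) (nat_lit 6) (nat_lit 5) (nat_lit 7) (nat_lit 5) (nat_lit 8) (nat_lit 4) (nat_lit 312) (nat_lit 225) (nat_lit 183))))) (XT.nd (nat_lit 234) (nat_lit 76) (nat_lit 0) (XT.nd (nat_lit 78) (nat_lit 0) (nat_lit 0) (XT.lf (nat_lit 0) (nat_lit 19936686160) (nat_lit 152) (nat_lit 29220692302) (nat_lit 0) (nat_lit 1447356565) (nat_lit 6) (nat_lit 5) (nat_lit 8) (nat_lit 4) (nat_lit 6) (nat_lit 4) (nat_lit 313) (nat_lit 225) (nat_lit 182)) (XT.nd (nat_lit 78) (nat_lit 0)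 (nat_lit 0) (XT.lf (nat_lit 0) (nat_lit 25128971733) (nat_lit 152) (nat_lit 21328463703) (nat_lit 0) (nat_lit 6516497343) (nat_lit 6) (nat_lit 5) (nat_lit 8) (nat_lit 4) (nat_lit 6) (nat_lit 4) (nat_lit 314) (nat_lit 225) (nat_lit 181)) (XT.lf (nat_lit 0) (nat_lit 30532562301) (nat_lit 152) (nat_lit 13127703028) (nat_lit 0) (nat_lit 11802807155) (nat_lit 6) (nat_lit 5) (nat_lit 8) (nat_lit 4) (nat_lit 6) (nat_lit 4) (nat_lit 315) (nat_lit 225) (nat_lit 180)))) (XT.nd (nat_lit 78) (nat_lit 76) (nat_lit 0) (XT.lf (nat_lit 0) (nat_lit 36160323555) (nat_lit 152) (nat_lit 4598884656) (nat_lit 0) (nat_lit 17318872450) (nat_lit 6) (nat_lit 5) (nat_lit 8) (nat_lit 4) (nat_lit 6) (nat_lit 4) (nat_lit 316) (nat_lit 225) (nat_lit 179)) (XT.nd (nat_lit 78) (nat_lit 0) (nat_lit 0) (XT.lf (nat_lit 0) (nat_lit 4363444642) (nat_lit 76) (nat_lit 37704154384) (nat_lit 76) (nat_lit 18756326175) (nat_lit 5)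 (nat_lit 4) (nat_lit 6) (nat_lit 5) (nat_lit 6) (nat_lit 4) (nat_lit 317) (nat_lit 225) (nat_lit 178)) (XT.lf (nat_lit 0) (nat_lit 13794155105) (nat_lit 76) (nat_lit 34480964244) (nat_lit 76) (nat_lit 15431824508) (nat_lit 5) (nat_lit 4) (nat_lit 6) (nat_lit 5) (nat_lit 6) (nat_lit 4) (nat_lit 318) (nat_lit 225) (nat_lit 177))))))) (XT.nd (nat_lit 858) (nat_lit 0) (nat_lit 0) (XT.nd (nat_lit 390) (nat_lit 76) (nat_lit 0) (XT.nd (nat_lit 156) (nat_lit 76) (nat_lit 0) (XT.nd (nat_lit 78) (nat_lit 0) (nat_lit 0) (XT.lf (nat_lit 0) (nat_lit 23624173983) (nat_lit 76) (nat_lit 31128403247) (nat_lit 76) (nat_lit 11982776342) (nat_lit 5) (nat_lit 4) (nat_lit 6) (nat_lit 5) (nat_lit 6) (nat_lit 4) (nat_lit 319) (nat_lit 225) (nat_lit 176)) (XT.lf (nat_lit 0) (nat_lit 33876906082) (nat_lit 76) (nat_lit 27638489105) (nat_lit 76) (nat_lit 8400969659) (nat_lit 5) (nat_lit 4) (nat_lit 6) (nat_lit 5) (nat_lit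 6) (nat_lit 4) (nat_lit 320) (nat_lit 225) (nat_lit 175))) (XT.nd (nat_lit 78) (nat_lit 76) (nat_lit 0) (XT.lf (nat_lit 0) (nat_lit 44576762669) (nat_lit 76) (nat_lit 24002912499) (nat_lit 76) (nat_lit 4677876346) (nat_lit 5) (nat_lit 4) (nat_lit 6) (nat_lit 5) (nat_lit 6) (nat_lit 4) (nat_lit 321) (nat_lit 225) (nat_lit 174)) (XT.nd (nat_lit 78) (nat_lit 76) (nat_lit 0) (XT.lf (nat_lit 0) (nat_lit 55749219592) (nat_lit 76) (nat_lit 20213017294) (nat_lit 76) (nat_lit 804631897) (nat_lit 5) (nat_lit 4) (nat_lit 6) (nat_lit 5) (nat_lit 6) (nat_lit 4) (nat_lit 322) (nat_lit 225) (nat_lit 173)) (XT.lf (nat_lit 0) (nat_lit 3164996071) (nat_lit 152) (nat_lit 13062823604) (nat_lit 76) (nat_lit 64223921615) (nat_lit 4) (nat_lit 5) (nat_lit 6) (nat_lit 5) (nat_lit 5) (nat_lit 4) (nat_lit 323) (nat_lit 225) (nat_lit 172))))) (XT.nd (nat_lit 234) (nat_lit 0) (nat_lit 0) (XT.nd (nat_lit 78) (nat_lit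 76) (nat_lit 0) (XT.lf (nat_lit 0) (nat_lit 7284600089) (nat_lit 152) (nat_lit 4775627670) (nat_lit 76) (nat_lit 72261367111) (nat_lit 4) (nat_lit 5) (nat_lit 6) (nat_lit 5) (nat_lit 5) (nat_lit 4) (nat_lit 324) (nat_lit 225) (nat_lit 171)) (XT.nd (nat_lit 78) (nat_lit 0) (nat_lit 0) (XT.lf (nat_lit 0) (nat_lit 3948453184) (nat_lit 76) (nat_lit 7669191765) (nat_lit 152) (nat_lit 76767091903) (nat_lit 3) (nat_lit 5) (nat_lit 4) (nat_lit 5) (nat_lit 5) (nat_lit 4) (nat_lit 325) (nat_lit 225) (nat_lit 170)) (XT.lf (nat_lit 0) (nat_lit 13155574138) (nat_lit 76) (nat_lit 3031377502) (nat_lit 152) (nat_lit 76463514615) (nat_lit 3) (nat_lit 5) (nat_lit 4) (nat_lit 5) (nat_lit 5) (nat_lit 4) (nat_lit 326) (nat_lit 225) (nat_lit 169)))) (XT.nd (nat_lit 78) (nat_lit 0) (nat_lit 0) (XT.lf (nat_lit 0) (nat_lit 20974036406) (nat_lit 152) (nat_lit 74375188441) (nat_lit 0) (nat_lit 1780595624) (nat_lit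 3) (nat_lit 5) (nat_lit 5) (nat_lit 4) (nat_lit 3) (nat_lit 4) (nat_lit 327) (nat_lit 225) (nat_lit 168)) (XT.nd (nat_lit 78) (nat_lit 0) (nat_lit 0) (XT.lf (nat_lit 0) (nat_lit 26004063849) (nat_lit 152) (nat_lit 69078749651) (nat_lit 0) (nat_lit 6750238125) (nat_lit 3) (nat_lit 5) (nat_lit 5) (nat_lit 4) (nat_lit 3) (nat_lit 4) (nat_lit 328) (nat_lit 225) (nat_lit 167)) (XT.lf (nat_lit 0) (nat_lit 31259870768) (nat_lit 152) (nat_lit 63563825723) (nat_lit 0) (nat_lit 11948535577) (nat_lit 3) (nat_lit 5) (nat_lit 5) (nat_lit 4) (nat_lit 3) (nat_lit 4) (nat_lit 329) (nat_lit 225) (nat_lit 166)))))) (XT.nd (nat_lit 32760) (nat_lit 0) (nat_lit 3572) (XT.nd (nat_lit 156) (nat_lit 0) (nat_lit 0) (XT.nd (nat_lit 78) (nat_lit 0) (nat_lit 0) (XT.lf (nat_lit 0) (nat_lit 36753970992) (nat_lit 152) (nat_lit 57817285887) (nat_lit 0) (nat_lit 17387864878) (nat_lit 3) (nat_lit 5) (nat_lit 5) (nat_lit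 4) (nat_lit 3) (nat_lit 4) (nat_lit 330) (nat_lit 225) (nat_lit 165)) (XT.lf (nat_lit 0) (nat_lit 42499445709) (nat_lit 152) (nat_lit 51825447905) (nat_lit 0) (nat_lit 23081176814) (nat_lit 3) (nat_lit 5) (nat_lit 5) (nat_lit 4) (nat_lit 3) (nat_lit 4) (nat_lit 331) (nat_lit 225) (nat_lit 164))) (XT.nd (nat_lit 156) (nat_lit 0) (nat_lit 0) (XT.lf (nat_lit 0) (nat_lit 48509974623) (nat_lit 152) (nat_lit 45574045496) (nat_lit 0) (nat_lit 29042026887) (nat_lit 3) (nat_lit 5) (nat_lit 5) (nat_lit 4) (nat_lit 3) (nat_lit 4) (nat_lit 332) (nat_lit 225) (nat_lit 163)) (XT.nd (nat_lit 32370) (nat_lit 0) (nat_lit 5396) (XT.lf (nat_lit 0) (nat_lit 61384103327) (nat_lit 152) (nat_lit 32232356781) (nat_lit 0) (nat_lit 41823782236) (nat_lit 3) (nat_lit 5) (nat_lit 5) (nat_lit 4) (nat_lit 3) (nat_lit 4) (nat_lit 334) (nat_lit 225) (nat_lit 161)) (XT.lf (nat_lit 0) (nat_lit 971988924) (nat_lit 304) (nat_lit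 1823824073) (nat_lit 304) (nat_lit 1823824073) (nat_lit 74) (nat_lit 4) (nat_lit 78) (nat_lit 5) (nat_lit 78) (nat_lit 4) (nat_lit 268) (nat_lit 226) (nat_lit 226))))) (XT.nd (nat_lit 234) (nat_lit 836) (nat_lit 0) (XT.nd (nat_lit 78) (nat_lit 608) (nat_lit 0) (XT.lf (nat_lit 0) (nat_lit 1924938523) (nat_lit 380) (nat_lit 7124451706) (nat_lit 0) (nat_lit 422516592) (nat_lit 69) (nat_lit 5) (nat_lit 74) (nat_lit 4) (nat_lit 69) (nat_lit 4) (nat_lit 269) (nat_lit 226) (nat_lit 225)) (XT.nd (nat_lit 78) (nat_lit 304) (nat_lit 0) (XT.lf (nat_lit 0) (nat_lit 2561597446) (nat_lit 304) (nat_lit 5045006762) (nat_lit 304) (nat_lit 2111706801) (nat_lit 65) (nat_lit 4) (nat_lit 69) (nat_lit 5) (nat_lit 69) (nat_lit 4) (nat_lit 270) (nat_lit 226) (nat_lit 224)) (XT.lf (nat_lit 0) (nat_lit 2601006292) (nat_lit 228) (nat_lit 796553921) (nat_lit 304) (nat_lit 6582636233) (nat_lit 61) (nat_lit 5) (nat_lit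 64) (nat_lit 5) (nat_lit 65) (nat_lit 4) (nat_lit 271) (nat_lit 226) (nat_lit 223)))) (XT.nd (nat_lit 78) (nat_lit 532) (nat_lit 0) (XT.lf (nat_lit 0) (nat_lit 2415773447) (nat_lit 304) (nat_lit 6636341723) (nat_lit 304) (nat_lit 1205381048) (nat_lit 57) (nat_lit 4) (nat_lit 61) (nat_lit 5) (nat_lit 61) (nat_lit 4) (nat_lit 272) (nat_lit 226) (nat_lit 222)) (XT.nd (nat_lit 78) (nat_lit 228) (nat_lit 0) (XT.lf (nat_lit 0) (nat_lit 1982714106) (nat_lit 228) (nat_lit 2260497556) (nat_lit 304) (nat_lit 6307820515) (nat_lit 53) (nat_lit 5) (nat_lit 56) (nat_lit 5) (nat_lit 57) (nat_lit 4) (nat_lit 273) (nat_lit 226) (nat_lit 221)) (XT.lf (nat_lit 0) (nat_lit 1285662560) (nat_lit 228) (nat_lit 8561884154) (nat_lit 228) (nat_lit 1014403117) (nat_lit 50) (nat_lit 4) (nat_lit 53) (nat_lit 5) (nat_lit 53) (nat_lit 4) (nat_lit 274) (nat_lit 226) (nat_lit 220))))))))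
noncomputable def xc25 : XT := (XT.nd (nat_lit 1716) (nat_lit 608) (nat_lit 0) (XT.nd (nat_lit 858) (nat_lit 988) (nat_lit 0) (XT.nd (nat_lit 390) (nat_lit 760) (nat_lit 0) (XT.nd (nat_lit 156) (nat_lit 760) (nat_lit 0) (XT.nd (nat_lit 78) (nat_lit 0) (nat_lit 0) (XT.lf (nat_lit 0) (nat_lit 258394807) (nat_lit 228) (nat_lit 4107442016) (nat_lit 304) (nat_lit 6824228596) (nat_lit 46) (nat_lit 5) (nat_lit 49) (nat_lit 5) (nat_lit 50) (nat_lit 4) (nat_lit 275) (nat_lit 226) (nat_lit 219)) (XT.lf (nat_lit 0) (nat_lit 9901665908) (nat_lit 304) (nat_lit 1064781024) (nat_lit 0) (nat_lit 570885003) (nat_lit 46) (nat_lit 5) (nat_lit 50) (nat_lit 4) (nat_lit 46) (nat_lit 4) (nat_lit 276) (nat_lit 226) (nat_lit 218))) (XT.nd (nat_lit 78) (nat_lit 456) (nat_lit 0) (XT.lf (nat_lit 0) (nat_lit 3678205570) (nat_lit 304) (nat_lit 2794629596) (nat_lit 76) (nat_lit 5430071597) (nat_lit 42) (nat_lit 5) (nat_lit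 46) (nat_lit 5) (nat_lit 43) (nat_lit 4) (nat_lit 277) (nat_lit 226) (nat_lit 217)) (XT.nd (nat_lit 78) (nat_lit 304) (nat_lit 0) (XT.lf (nat_lit 0) (nat_lit 7370300046) (nat_lit 152) (nat_lit 1751856789) (nat_lit 228) (nat_lit 3167411772) (nat_lit 40) (nat_lit 5) (nat_lit 42) (nat_lit 5) (nat_lit 43) (nat_lit 4) (nat_lit 278) (nat_lit 226) (nat_lit 216)) (XT.lf (nat_lit 0) (nat_lit 2031029690) (nat_lit 304) (nat_lit 7519500412) (nat_lit 76) (nat_lit 3146734932) (nat_lit 36) (nat_lit 5) (nat_lit 40) (nat_lit 5) (nat_lit 37) (nat_lit 4) (nat_lit 279) (nat_lit 226) (nat_lit 215))))) (XT.nd (nat_lit 234) (nat_lit 380) (nat_lit 0) (XT.nd (nat_lit 78) (nat_lit 228) (nat_lit 0) (XT.lf (nat_lit 0) (nat_lit 2481969632) (nat_lit 152) (nat_lit 4860364567) (nat_lit 228) (nat_lit 5784729655) (nat_lit 34) (nat_lit 5) (nat_lit 36) (nat_lit 5) (nat_lit 37) (nat_lit 4) (nat_lit 280) (nat_lit 226) (nat_lit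 214)) (XT.nd (nat_lit 78) (nat_lit 228) (nat_lit 0) (XT.lf (nat_lit 0) (nat_lit 12827970124) (nat_lit 228) (nat_lit 708148474) (nat_lit 0) (nat_lit 45172768) (nat_lit 34) (nat_lit 5) (nat_lit 37) (nat_lit 4) (nat_lit 34) (nat_lit 4) (nat_lit 281) (nat_lit 226) (nat_lit 213)) (XT.lf (nat_lit 0) (nat_lit 4420338781) (nat_lit 228) (nat_lit 4496807348) (nat_lit 76) (nat_lit 5140592271) (nat_lit 31) (nat_lit 5) (nat_lit 34) (nat_lit 5) (nat_lit 32) (nat_lit 4) (nat_lit 282) (nat_lit 226) (nat_lit 212)))) (XT.nd (nat_lit 78) (nat_lit 228) (nat_lit 0) (XT.lf (nat_lit 0) (nat_lit 5648643624) (nat_lit 152) (nat_lit 4091902167) (nat_lit 228) (nat_lit 4820312575) (nat_lit 29) (nat_lit 5) (nat_lit 31) (nat_lit 5) (nat_lit 32) (nat_lit 4) (nat_lit 283) (nat_lit 226) (nat_lit 211)) (XT.nd (nat_lit 78) (nat_lit 0) (nat_lit 0) (XT.lf (nat_lit 0) (nat_lit 144239937) (nat_lit 228) (nat_lit 14025701301) (nat_lit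 76) (nat_lit 921951386) (nat_lit 26) (nat_lit 5) (nat_lit 29) (nat_lit 5) (nat_lit 27) (nat_lit 4) (nat_lit 284) (nat_lit 226) (nat_lit 210)) (XT.lf (nat_lit 0) (nat_lit 5241470350) (nat_lit 228) (nat_lit 4254744544) (nat_lit 76) (nat_lit 6152464114) (nat_lit 26) (nat_lit 5) (nat_lit 29) (nat_lit 5) (nat_lit 27) (nat_lit 4) (nat_lit 285) (nat_lit 226) (nat_lit 209)))))) (XT.nd (nat_lit 390) (nat_lit 532) (nat_lit 0) (XT.nd (nat_lit 156) (nat_lit 304) (nat_lit 0) (XT.nd (nat_lit 78) (nat_lit 0) (nat_lit 0) (XT.lf (nat_lit 0) (nat_lit 5884430751) (nat_lit 152) (nat_lit 4622136968) (nat_lit 228) (nat_lit 5729495823) (nat_lit 24) (nat_lit 5) (nat_lit 26) (nat_lit 5) (nat_lit 27) (nat_lit 4) (nat_lit 286) (nat_lit 226) (nat_lit 208)) (XT.lf (nat_lit 0) (nat_lit 15944137778) (nat_lit 228) (nat_lit 469089190) (nat_lit 0) (nat_lit 442455698) (nat_lit 24) (nat_lit 5) (nat_lit 27) (nat_lit 4) (nat_lit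 24) (nat_lit 4) (nat_lit 287) (nat_lit 226) (nat_lit 207))) (XT.nd (nat_lit 78) (nat_lit 76) (nat_lit 0) (XT.lf (nat_lit 0) (nat_lit 4074362092) (nat_lit 228) (nat_lit 7714158213) (nat_lit 76) (nat_lit 5716458033) (nat_lit 21) (nat_lit 5) (nat_lit 24) (nat_lit 5) (nat_lit 22) (nat_lit 4) (nat_lit 288) (nat_lit 226) (nat_lit 206)) (XT.nd (nat_lit 78) (nat_lit 0) (nat_lit 0) (XT.lf (nat_lit 0) (nat_lit 2203472644) (nat_lit 76) (nat_lit 6983225166) (nat_lit 152) (nat_lit 9003015620) (nat_lit 20) (nat_lit 5) (nat_lit 21) (nat_lit 5) (nat_lit 22) (nat_lit 4) (nat_lit 289) (nat_lit 226) (nat_lit 205)) (XT.lf (nat_lit 0) (nat_lit 12567204202) (nat_lit 76) (nat_lit 1940783209) (nat_lit 152) (nat_lit 4402216758) (nat_lit 20) (nat_lit 5) (nat_lit 21) (nat_lit 5) (nat_lit 22) (nat_lit 4) (nat_lit 290) (nat_lit 226) (nat_lit 204))))) (XT.nd (nat_lit 234) (nat_lit 228) (nat_lit 0) (XT.nd (nat_lit 78)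 (nat_lit 76) (nat_lit 0) (XT.lf (nat_lit 0) (nat_lit 365772802) (nat_lit 228) (nat_lit 16055166915) (nat_lit 76) (nat_lit 3247400721) (nat_lit 17) (nat_lit 5) (nat_lit 20) (nat_lit 5) (nat_lit 18) (nat_lit 4) (nat_lit 291) (nat_lit 226) (nat_lit 203)) (XT.nd (nat_lit 78) (nat_lit 76) (nat_lit 0) (XT.lf (nat_lit 0) (nat_lit 5249234064) (nat_lit 228) (nat_lit 6527876504) (nat_lit 76) (nat_lit 8687026656) (nat_lit 17) (nat_lit 5) (nat_lit 20) (nat_lit 5) (nat_lit 18) (nat_lit 4) (nat_lit 292) (nat_lit 226) (nat_lit 202)) (XT.lf (nat_lit 0) (nat_lit 3350210570) (nat_lit 76) (nat_lit 6946233148) (nat_lit 152) (nat_lit 11005792680) (nat_lit 16) (nat_lit 5) (nat_lit 17) (nat_lit 5) (nat_lit 18) (nat_lit 4) (nat_lit 293) (nat_lit 226) (nat_lit 201)))) (XT.nd (nat_lit 78) (nat_lit 228) (nat_lit 0) (XT.lf (nat_lit 0) (nat_lit 13673146215) (nat_lit 76) (nat_lit 1881017865) (nat_lit 152) (nat_lit 6629426999)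 (nat_lit 16) (nat_lit 5) (nat_lit 17) (nat_lit 5) (nat_lit 18) (nat_lit 4) (nat_lit 294) (nat_lit 226) (nat_lit 200)) (XT.nd (nat_lit 78) (nat_lit 76) (nat_lit 0) (XT.lf (nat_lit 0) (nat_lit 1214732078) (nat_lit 152) (nat_lit 19800202742) (nat_lit 152) (nat_lit 2095964273) (nat_lit 14) (nat_lit 4) (nat_lit 16) (nat_lit 5) (nat_lit 16) (nat_lit 4) (nat_lit 295) (nat_lit 226) (nat_lit 199)) (XT.lf (nat_lit 0) (nat_lit 2617308299) (nat_lit 228) (nat_lit 12699524951) (nat_lit 76) (nat_lit 8766900946) (nat_lit 13) (nat_lit 5) (nat_lit 16) (nat_lit 5) (nat_lit 14) (nat_lit 4) (nat_lit 296) (nat_lit 226) (nat_lit 198))))))) (XT.nd (nat_lit 858) (nat_lit 228) (nat_lit 0) (XT.nd (nat_lit 390) (nat_lit 228) (nat_lit 0) (XT.nd (nat_lit 156) (nat_lit 76) (nat_lit 0) (XT.nd (nat_lit 78) (nat_lit 76) (nat_lit 0) (XT.lf (nat_lit 0) (nat_lit 7425836655) (nat_lit 228) (nat_lit 3231947944) (nat_lit 76) (nat_lit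 14449795416) (nat_lit 13) (nat_lit 5) (nat_lit 16) (nat_lit 5) (nat_lit 14) (nat_lit 4) (nat_lit 297) (nat_lit 226) (nat_lit 197)) (XT.lf (nat_lit 0) (nat_lit 6679596535) (nat_lit 76) (nat_lit 5766581315) (nat_lit 152) (nat_lit 13737374605) (nat_lit 12) (nat_lit 5) (nat_lit 13) (nat_lit 5) (nat_lit 14) (nat_lit 4) (nat_lit 298) (nat_lit 226) (nat_lit 196))) (XT.nd (nat_lit 78) (nat_lit 76) (nat_lit 0) (XT.lf (nat_lit 0) (nat_lit 16999081406) (nat_lit 76) (nat_lit 661831261) (nat_lit 152) (nat_lit 9654181863) (nat_lit 12) (nat_lit 5) (nat_lit 13) (nat_lit 5) (nat_lit 14) (nat_lit 4) (nat_lit 299) (nat_lit 226) (nat_lit 195)) (XT.nd (nat_lit 78) (nat_lit 76) (nat_lit 0) (XT.lf (nat_lit 0) (nat_lit 23095335285) (nat_lit 152) (nat_lit 863660100) (nat_lit 0) (nat_lit 4545518658) (nat_lit 12) (nat_lit 5) (nat_lit 14) (nat_lit 4) (nat_lit 12) (nat_lit 4) (nat_lit 300) (nat_lit 226) (nat_lit 194))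 (XT.lf (nat_lit 0) (nat_lit 9089304809) (nat_lit 76) (nat_lit 19724120975) (nat_lit 76) (nat_lit 939685933) (nat_lit 11) (nat_lit 4) (nat_lit 12) (nat_lit 5) (nat_lit 12) (nat_lit 4) (nat_lit 301) (nat_lit 226) (nat_lit 193))))) (XT.nd (nat_lit 234) (nat_lit 76) (nat_lit 0) (XT.nd (nat_lit 78) (nat_lit 76) (nat_lit 0) (XT.lf (nat_lit 0) (nat_lit 3608643717) (nat_lit 152) (nat_lit 11682334405) (nat_lit 76) (nat_lit 15774281362) (nat_lit 10) (nat_lit 5) (nat_lit 12) (nat_lit 5) (nat_lit 11) (nat_lit 4) (nat_lit 302) (nat_lit 226) (nat_lit 192)) (XT.nd (nat_lit 78) (nat_lit 76) (nat_lit 0) (XT.lf (nat_lit 0) (nat_lit 8288587389) (nat_lit 152) (nat_lit 2394854571) (nat_lit 76) (nat_lit 21761642373) (nat_lit 10) (nat_lit 5) (nat_lit 12) (nat_lit 5) (nat_lit 11) (nat_lit 4) (nat_lit 303) (nat_lit 226) (nat_lit 191)) (XT.lf (nat_lit 0) (nat_lit 7373665245) (nat_lit 76) (nat_lit 5826839397) (nat_lit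 152) (nat_lit 20693511495) (nat_lit 9) (nat_lit 5) (nat_lit 10) (nat_lit 5) (nat_lit 11) (nat_lit 4) (nat_lit 304) (nat_lit 226) (nat_lit 190)))) (XT.nd (nat_lit 78) (nat_lit 76) (nat_lit 0) (XT.lf (nat_lit 0) (nat_lit 17557082451) (nat_lit 76) (nat_lit 754968180) (nat_lit 152) (nat_lit 17104775301) (nat_lit 9) (nat_lit 5) (nat_lit 10) (nat_lit 5) (nat_lit 11) (nat_lit 4) (nat_lit 305) (nat_lit 226) (nat_lit 189)) (XT.nd (nat_lit 78) (nat_lit 76) (nat_lit 0) (XT.lf (nat_lit 0) (nat_lit 23655366358) (nat_lit 152) (nat_lit 8929312472) (nat_lit 0) (nat_lit 4431861505) (nat_lit 9) (nat_lit 5) (nat_lit 11) (nat_lit 4) (nat_lit 9) (nat_lit 4) (nat_lit 306) (nat_lit 226) (nat_lit 188)) (XT.lf (nat_lit 0) (nat_lit 332923827) (nat_lit 76) (nat_lit 28879228226) (nat_lit 76) (nat_lit 9485746797) (nat_lit 8) (nat_lit 4) (nat_lit 9) (nat_lit 5) (nat_lit 9) (nat_lit 4) (nat_lit 307) (nat_lit 226) (nat_lit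 187)))))) (XT.nd (nat_lit 390) (nat_lit 76) (nat_lit 0) (XT.nd (nat_lit 156) (nat_lit 152) (nat_lit 0) (XT.nd (nat_lit 78) (nat_lit 0) (nat_lit 0) (XT.lf (nat_lit 0) (nat_lit 10134531697) (nat_lit 76) (nat_lit 24941660143) (nat_lit 76) (nat_lit 5386296260) (nat_lit 8) (nat_lit 4) (nat_lit 9) (nat_lit 5) (nat_lit 9) (nat_lit 4) (nat_lit 308) (nat_lit 226) (nat_lit 186)) (XT.lf (nat_lit 0) (nat_lit 20321137470) (nat_lit 76) (nat_lit 20852767967) (nat_lit 76) (nat_lit 1143230318) (nat_lit 8) (nat_lit 4) (nat_lit 9) (nat_lit 5) (nat_lit 9) (nat_lit 4) (nat_lit 309) (nat_lit 226) (nat_lit 185))) (XT.nd (nat_lit 78) (nat_lit 76) (nat_lit 0) (XT.lf (nat_lit 0) (nat_lit 3190065017) (nat_lit 152) (nat_lit 13380537821) (nat_lit 76) (nat_lit 27694716553) (nat_lit 7) (nat_lit 5) (nat_lit 9) (nat_lit 5) (nat_lit 8) (nat_lit 4) (nat_lit 310) (nat_lit 226) (nat_lit 184)) (XT.nd (nat_lit 78) (nat_lit 76)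 (nat_lit 0) (XT.lf (nat_lit 0) (nat_lit 7662034418) (nat_lit 152) (nat_lit 4442280087) (nat_lit 76) (nat_lit 34207926491) (nat_lit 7) (nat_lit 5) (nat_lit 9) (nat_lit 5) (nat_lit 8) (nat_lit 4) (nat_lit 311) (nat_lit 226) (nat_lit 183)) (XT.lf (nat_lit 0) (nat_lit 4947591235) (nat_lit 76) (nat_lit 7405602009) (nat_lit 152) (nat_lit 36108483854) (nat_lit 6) (nat_lit 5) (nat_lit 7) (nat_lit 5) (nat_lit 8) (nat_lit 4) (nat_lit 312) (nat_lit 226) (nat_lit 182))))) (XT.nd (nat_lit 234) (nat_lit 76) (nat_lit 0) (XT.nd (nat_lit 78) (nat_lit 0) (nat_lit 0) (XT.lf (nat_lit 0) (nat_lit 14810574798) (nat_lit 76) (nat_lit 2463713373) (nat_lit 152) (nat_lit 33444469915) (nat_lit 6) (nat_lit 5) (nat_lit 7) (nat_lit 5) (nat_lit 8) (nat_lit 4) (nat_lit 313) (nat_lit 226) (nat_lit 181)) (XT.nd (nat_lit 78) (nat_lit 0) (nat_lit 0) (XT.lf (nat_lit 0) (nat_lit 22419325520) (nat_lit 152) (nat_lit 28034261898)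 (nat_lit 0) (nat_lit 2635801860) (nat_lit 6) (nat_lit 5) (nat_lit 8) (nat_lit 4) (nat_lit 6) (nat_lit 4) (nat_lit 314) (nat_lit 226) (nat_lit 180)) (XT.lf (nat_lit 0) (nat_lit 27800472751) (nat_lit 152) (nat_lit 19873491631) (nat_lit 0) (nat_lit 7905253131) (nat_lit 6) (nat_lit 5) (nat_lit 8) (nat_lit 4) (nat_lit 6) (nat_lit 4) (nat_lit 315) (nat_lit 226) (nat_lit 179)))) (XT.nd (nat_lit 78) (nat_lit 76) (nat_lit 0) (XT.lf (nat_lit 0) (nat_lit 33406859398) (nat_lit 152) (nat_lit 11382759363) (nat_lit 0) (nat_lit 13405262675) (nat_lit 6) (nat_lit 5) (nat_lit 8) (nat_lit 4) (nat_lit 6) (nat_lit 4) (nat_lit 316) (nat_lit 226) (nat_lit 178)) (XT.nd (nat_lit 78) (nat_lit 76) (nat_lit 0) (XT.lf (nat_lit 0) (nat_lit 39251834001) (nat_lit 152) (nat_lit 2541849065) (nat_lit 0) (nat_lit 19148925751) (nat_lit 6) (nat_lit 5) (nat_lit 8) (nat_lit 4) (nat_lit 6) (nat_lit 4) (nat_lit 317) (nat_lit 226)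 (nat_lit 177)) (XT.lf (nat_lit 0) (nat_lit 6803040881) (nat_lit 76) (nat_lit 38611667277) (nat_lit 76) (nat_lit 18412271858) (nat_lit 5) (nat_lit 4) (nat_lit 6) (nat_lit 5) (nat_lit 6) (nat_lit 4) (nat_lit 318) (nat_lit 226) (nat_lit 176))))))))
noncomputable def xc26 : XT := (XT.nd (nat_lit 33930) (nat_lit 0) (nat_lit 988) (XT.nd (nat_lit 858) (nat_lit 0) (nat_lit 0) (XT.nd (nat_lit 390) (nat_lit 76) (nat_lit 0) (XT.nd (nat_lit 156) (nat_lit 76) (nat_lit 0) (XT.nd (nat_lit 78) (nat_lit 0) (nat_lit 0) (XT.lf (nat_lit 0) (nat_lit 16599504772) (nat_lit 76) (nat_lit 35273874526) (nat_lit 76) (nat_lit 14982586565) (nat_lit 5) (nat_lit 4) (nat_lit 6) (nat_lit 5) (nat_lit 6) (nat_lit 4) (nat_lit 319) (nat_lit 226) (nat_lit 175)) (XT.lf (nat_lit 0) (nat_lit 26820279740) (nat_lit 76) (nat_lit 31798025381) (nat_lit 76) (nat_lit 11419220714) (nat_lit 5) (nat_lit 4) (nat_lit 6) (nat_lit 5) (nat_lit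 6) (nat_lit 4) (nat_lit 320) (nat_lit 226) (nat_lit 174))) (XT.nd (nat_lit 78) (nat_lit 76) (nat_lit 0) (XT.lf (nat_lit 0) (nat_lit 37489700965) (nat_lit 76) (nat_lit 28175844010) (nat_lit 76) (nat_lit 7713690098) (nat_lit 5) (nat_lit 4) (nat_lit 6) (nat_lit 5) (nat_lit 6) (nat_lit 4) (nat_lit 321) (nat_lit 226) (nat_lit 173)) (XT.nd (nat_lit 78) (nat_lit 76) (nat_lit 0) (XT.lf (nat_lit 0) (nat_lit 48633171830) (nat_lit 76) (nat_lit 24398706171) (nat_lit 76) (nat_lit 3857172027) (nat_lit 5) (nat_lit 4) (nat_lit 6) (nat_lit 5) (nat_lit 6) (nat_lit 4) (nat_lit 322) (nat_lit 226) (nat_lit 172)) (XT.lf (nat_lit 0) (nat_lit 156402960) (nat_lit 152) (nat_lit 20299636357) (nat_lit 76) (nat_lit 60119242085) (nat_lit 4) (nat_lit 5) (nat_lit 6) (nat_lit 5) (nat_lit 5) (nat_lit 4) (nat_lit 323) (nat_lit 226) (nat_lit 171))))) (XT.nd (nat_lit 234) (nat_lit 0) (nat_lit 0) (XT.nd (nat_lit 78) (nat_lit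 76) (nat_lit 0) (XT.lf (nat_lit 0) (nat_lit 4261131706) (nat_lit 152) (nat_lit 12039037213) (nat_lit 76) (nat_lit 68145421853) (nat_lit 4) (nat_lit 5) (nat_lit 6) (nat_lit 5) (nat_lit 5) (nat_lit 4) (nat_lit 324) (nat_lit 226) (nat_lit 170)) (XT.nd (nat_lit 78) (nat_lit 76) (nat_lit 0) (XT.lf (nat_lit 0) (nat_lit 8542054694) (nat_lit 152) (nat_lit 3417335177) (nat_lit 76) (nat_lit 76550915617) (nat_lit 4) (nat_lit 5) (nat_lit 6) (nat_lit 5) (nat_lit 5) (nat_lit 4) (nat_lit 325) (nat_lit 226) (nat_lit 169)) (XT.lf (nat_lit 0) (nat_lit 5697169918) (nat_lit 76) (nat_lit 7366959361) (nat_lit 152) (nat_lit 79713331221) (nat_lit 3) (nat_lit 5) (nat_lit 4) (nat_lit 5) (nat_lit 5) (nat_lit 4) (nat_lit 326) (nat_lit 226) (nat_lit 168)))) (XT.nd (nat_lit 78) (nat_lit 0) (nat_lit 0) (XT.lf (nat_lit 0) (nat_lit 15290775774) (nat_lit 76) (nat_lit 2529906385) (nat_lit 152) (nat_lit 79437056748) (nat_lit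 3) (nat_lit 5) (nat_lit 4) (nat_lit 5) (nat_lit 5) (nat_lit 4) (nat_lit 327) (nat_lit 226) (nat_lit 167)) (XT.nd (nat_lit 78) (nat_lit 0) (nat_lit 0) (XT.lf (nat_lit 0) (nat_lit 22813843328) (nat_lit 152) (nat_lit 76668808653) (nat_lit 0) (nat_lit 2479431909) (nat_lit 3) (nat_lit 5) (nat_lit 5) (nat_lit 4) (nat_lit 3) (nat_lit 4) (nat_lit 328) (nat_lit 226) (nat_lit 166)) (XT.lf (nat_lit 0) (nat_lit 28057700471) (nat_lit 152) (nat_lit 71175411695) (nat_lit 0) (nat_lit 7668518131) (nat_lit 3) (nat_lit 5) (nat_lit 5) (nat_lit 4) (nat_lit 3) (nat_lit 4) (nat_lit 329) (nat_lit 226) (nat_lit 165)))))) (XT.nd (nat_lit 32604) (nat_lit 0) (nat_lit 4104) (XT.nd (nat_lit 156) (nat_lit 0) (nat_lit 0) (XT.nd (nat_lit 78) (nat_lit 0) (nat_lit 0) (XT.lf (nat_lit 0) (nat_lit 33540419954) (nat_lit 152) (nat_lit 65449373735) (nat_lit 0) (nat_lit 13099074831) (nat_lit 3) (nat_lit 5) (nat_lit 5) (nat_lit 4)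 (nat_lit 3) (nat_lit 4) (nat_lit 330) (nat_lit 226) (nat_lit 164)) (XT.lf (nat_lit 0) (nat_lit 39275055872) (nat_lit 152) (nat_lit 59477061349) (nat_lit 0) (nat_lit 18784031909) (nat_lit 3) (nat_lit 5) (nat_lit 5) (nat_lit 4) (nat_lit 3) (nat_lit 4) (nat_lit 331) (nat_lit 226) (nat_lit 163))) (XT.nd (nat_lit 156) (nat_lit 0) (nat_lit 0) (XT.lf (nat_lit 0) (nat_lit 45275262120) (nat_lit 152) (nat_lit 53244254746) (nat_lit 0) (nat_lit 24736924975) (nat_lit 3) (nat_lit 5) (nat_lit 5) (nat_lit 4) (nat_lit 3) (nat_lit 4) (nat_lit 332) (nat_lit 226) (nat_lit 162)) (XT.nd (nat_lit 32214) (nat_lit 0) (nat_lit 6080) (XT.lf (nat_lit 0) (nat_lit 58130196750) (nat_lit 152) (nat_lit 39937143266) (nat_lit 0) (nat_lit 37503884981) (nat_lit 3) (nat_lit 5) (nat_lit 5) (nat_lit 4) (nat_lit 3) (nat_lit 4) (nat_lit 334) (nat_lit 226) (nat_lit 160)) (XT.lf (nat_lit 0) (nat_lit 453269428) (nat_lit 380) (nat_lit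 1976442143) (nat_lit 380) (nat_lit 1976442143) (nat_lit 83) (nat_lit 4) (nat_lit 88) (nat_lit 5) (nat_lit 88) (nat_lit 4) (nat_lit 266) (nat_lit 227) (nat_lit 227))))) (XT.nd (nat_lit 234) (nat_lit 912) (nat_lit 0) (XT.nd (nat_lit 78) (nat_lit 684) (nat_lit 0) (XT.lf (nat_lit 0) (nat_lit 1423783512) (nat_lit 304) (nat_lit 102028758) (nat_lit 380) (nat_lit 7495526070) (nat_lit 78) (nat_lit 5) (nat_lit 82) (nat_lit 5) (nat_lit 83) (nat_lit 4) (nat_lit 267) (nat_lit 227) (nat_lit 226)) (XT.nd (nat_lit 78) (nat_lit 380) (nat_lit 0) (XT.lf (nat_lit 0) (nat_lit 1786614435) (nat_lit 304) (nat_lit 5314350277) (nat_lit 304) (nat_lit 2141986370) (nat_lit 74) (nat_lit 4) (nat_lit 78) (nat_lit 5) (nat_lit 78) (nat_lit 4) (nat_lit 268) (nat_lit 227) (nat_lit 225)) (XT.lf (nat_lit 0) (nat_lit 2017403825) (nat_lit 304) (nat_lit 1265144008) (nat_lit 380) (nat_lit 6196356994) (nat_lit 69) (nat_lit 5) (nat_lit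 73) (nat_lit 5) (nat_lit 74) (nat_lit 4) (nat_lit 269) (nat_lit 227) (nat_lit 224)))) (XT.nd (nat_lit 78) (nat_lit 608) (nat_lit 0) (XT.lf (nat_lit 0) (nat_lit 2076304502) (nat_lit 304) (nat_lit 6763256937) (nat_lit 304) (nat_lit 889672967) (nat_lit 65) (nat_lit 4) (nat_lit 69) (nat_lit 5) (nat_lit 69) (nat_lit 4) (nat_lit 270) (nat_lit 227) (nat_lit 223)) (XT.nd (nat_lit 78) (nat_lit 304) (nat_lit 0) (XT.lf (nat_lit 0) (nat_lit 1931094377) (nat_lit 228) (nat_lit 2552909021) (nat_lit 304) (nat_lit 5510288193) (nat_lit 61) (nat_lit 5) (nat_lit 64) (nat_lit 5) (nat_lit 65) (nat_lit 4) (nat_lit 271) (nat_lit 227) (nat_lit 222)) (XT.lf (nat_lit 0) (nat_lit 1585028590) (nat_lit 304) (nat_lit 8426568005) (nat_lit 304) (nat_lit 263967263) (nat_lit 57) (nat_lit 4) (nat_lit 61) (nat_lit 5) (nat_lit 61) (nat_lit 4) (nat_lit 272) (nat_lit 227) (nat_lit 221))))))) (XT.nd (nat_lit 858) (nat_lit 988)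 (nat_lit 0) (XT.nd (nat_lit 390) (nat_lit 988) (nat_lit 0) (XT.nd (nat_lit 156) (nat_lit 608) (nat_lit 0) (XT.nd (nat_lit 78) (nat_lit 228) (nat_lit 0) (XT.lf (nat_lit 0) (nat_lit 959565937) (nat_lit 228) (nat_lit 4097117105) (nat_lit 304) (nat_lit 5515583763) (nat_lit 53) (nat_lit 5) (nat_lit 56) (nat_lit 5) (nat_lit 57) (nat_lit 4) (nat_lit 273) (nat_lit 227) (nat_lit 220)) (XT.lf (nat_lit 0) (nat_lit 91880471) (nat_lit 228) (nat_lit 10443232399) (nat_lit 228) (nat_lit 351992851) (nat_lit 50) (nat_lit 4) (nat_lit 53) (nat_lit 5) (nat_lit 53) (nat_lit 4) (nat_lit 274) (nat_lit 227) (nat_lit 219))) (XT.nd (nat_lit 78) (nat_lit 532) (nat_lit 0) (XT.lf (nat_lit 0) (nat_lit 4918267736) (nat_lit 304) (nat_lit 1113606432) (nat_lit 76) (nat_lit 5186200963) (nat_lit 49) (nat_lit 5) (nat_lit 53) (nat_lit 5) (nat_lit 50) (nat_lit 4) (nat_lit 275) (nat_lit 227) (nat_lit 218)) (XT.nd (nat_lit 78) (nat_lit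 304) (nat_lit 0) (XT.lf (nat_lit 0) (nat_lit 8946558456) (nat_lit 228) (nat_lit 1399634928) (nat_lit 304) (nat_lit 1222512267) (nat_lit 46) (nat_lit 5) (nat_lit 49) (nat_lit 5) (nat_lit 50) (nat_lit 4) (nat_lit 276) (nat_lit 227) (nat_lit 217)) (XT.lf (nat_lit 0) (nat_lit 3964658902) (nat_lit 304) (nat_lit 4543096103) (nat_lit 76) (nat_lit 3430082816) (nat_lit 42) (nat_lit 5) (nat_lit 46) (nat_lit 5) (nat_lit 43) (nat_lit 4) (nat_lit 277) (nat_lit 227) (nat_lit 216))))) (XT.nd (nat_lit 234) (nat_lit 380) (nat_lit 0) (XT.nd (nat_lit 78) (nat_lit 456) (nat_lit 0) (XT.lf (nat_lit 0) (nat_lit 5453080962) (nat_lit 152) (nat_lit 3851609535) (nat_lit 228) (nat_lit 3023038509) (nat_lit 40) (nat_lit 5) (nat_lit 42) (nat_lit 5) (nat_lit 43) (nat_lit 4) (nat_lit 278) (nat_lit 227) (nat_lit 215)) (XT.nd (nat_lit 78) (nat_lit 152) (nat_lit 0) (XT.lf (nat_lit 0) (nat_lit 2047752595) (nat_lit 304) (nat_lit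 9667657571) (nat_lit 76) (nat_lit 1023821956) (nat_lit 36) (nat_lit 5) (nat_lit 40) (nat_lit 5) (nat_lit 37) (nat_lit 4) (nat_lit 279) (nat_lit 227) (nat_lit 214)) (XT.lf (nat_lit 0) (nat_lit 160791850) (nat_lit 152) (nat_lit 7094725230) (nat_lit 228) (nat_lit 5916718470) (nat_lit 34) (nat_lit 5) (nat_lit 36) (nat_lit 5) (nat_lit 37) (nat_lit 4) (nat_lit 280) (nat_lit 227) (nat_lit 213)))) (XT.nd (nat_lit 78) (nat_lit 380) (nat_lit 0) (XT.lf (nat_lit 0) (nat_lit 10428356425) (nat_lit 152) (nat_lit 2233801654) (nat_lit 228) (nat_lit 966768555) (nat_lit 34) (nat_lit 5) (nat_lit 36) (nat_lit 5) (nat_lit 37) (nat_lit 4) (nat_lit 281) (nat_lit 227) (nat_lit 212)) (XT.nd (nat_lit 78) (nat_lit 152) (nat_lit 0) (XT.lf (nat_lit 0) (nat_lit 4087657136) (nat_lit 228) (nat_lit 7187522818) (nat_lit 76) (nat_lit 2834043910) (nat_lit 31) (nat_lit 5) (nat_lit 34) (nat_lit 5) (nat_lit 32) (nat_lit 4) (nat_lit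 282) (nat_lit 227) (nat_lit 211)) (XT.lf (nat_lit 0) (nat_lit 2783846877) (nat_lit 152) (nat_lit 6522908283) (nat_lit 228) (nat_lit 5308704472) (nat_lit 29) (nat_lit 5) (nat_lit 31) (nat_lit 5) (nat_lit 32) (nat_lit 4) (nat_lit 283) (nat_lit 227) (nat_lit 210)))))) (XT.nd (nat_lit 390) (nat_lit 380) (nat_lit 0) (XT.nd (nat_lit 156) (nat_lit 380) (nat_lit 0) (XT.nd (nat_lit 78) (nat_lit 228) (nat_lit 0) (XT.lf (nat_lit 0) (nat_lit 13168661179) (nat_lit 152) (nat_lit 1546235810) (nat_lit 228) (nat_lit 434428668) (nat_lit 29) (nat_lit 5) (nat_lit 31) (nat_lit 5) (nat_lit 32) (nat_lit 4) (nat_lit 284) (nat_lit 227) (nat_lit 209)) (XT.lf (nat_lit 0) (nat_lit 4566776176) (nat_lit 228) (nat_lit 7494513532) (nat_lit 76) (nat_lit 3648155378) (nat_lit 26) (nat_lit 5) (nat_lit 29) (nat_lit 5) (nat_lit 27) (nat_lit 4) (nat_lit 285) (nat_lit 227) (nat_lit 208))) (XT.nd (nat_lit 78) (nat_lit 228) (nat_lit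 0) (XT.lf (nat_lit 0) (nat_lit 2468762033) (nat_lit 152) (nat_lit 7263583792) (nat_lit 228) (nat_lit 6567538845) (nat_lit 24) (nat_lit 5) (nat_lit 26) (nat_lit 5) (nat_lit 27) (nat_lit 4) (nat_lit 286) (nat_lit 227) (nat_lit 207)) (XT.nd (nat_lit 78) (nat_lit 228) (nat_lit 0) (XT.lf (nat_lit 0) (nat_lit 12869276529) (nat_lit 152) (nat_lit 2231763194) (nat_lit 228) (nat_lit 1820596278) (nat_lit 24) (nat_lit 5) (nat_lit 26) (nat_lit 5) (nat_lit 27) (nat_lit 4) (nat_lit 287) (nat_lit 227) (nat_lit 206)) (XT.lf (nat_lit 0) (nat_lit 3062583202) (nat_lit 228) (nat_lit 11511166854) (nat_lit 76) (nat_lit 3001118713) (nat_lit 21) (nat_lit 5) (nat_lit 24) (nat_lit 5) (nat_lit 22) (nat_lit 4) (nat_lit 288) (nat_lit 227) (nat_lit 205))))) (XT.nd (nat_lit 234) (nat_lit 304) (nat_lit 0) (XT.nd (nat_lit 78) (nat_lit 76) (nat_lit 0) (XT.lf (nat_lit 0) (nat_lit 8093227916) (nat_lit 228) (nat_lit 1737444417)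 (nat_lit 76) (nat_lit 8431440310) (nat_lit 21) (nat_lit 5) (nat_lit 24) (nat_lit 5) (nat_lit 22) (nat_lit 4) (nat_lit 289) (nat_lit 227) (nat_lit 204)) (XT.nd (nat_lit 78) (nat_lit 0) (nat_lit 0) (XT.lf (nat_lit 0) (nat_lit 8493690442) (nat_lit 76) (nat_lit 4845222642) (nat_lit 152) (nat_lit 5646013720) (nat_lit 20) (nat_lit 5) (nat_lit 21) (nat_lit 5) (nat_lit 22) (nat_lit 4) (nat_lit 290) (nat_lit 227) (nat_lit 203)) (XT.lf (nat_lit 0) (nat_lit 18753596580) (nat_lit 152) (nat_lit 668743720) (nat_lit 0) (nat_lit 324447892) (nat_lit 20) (nat_lit 5) (nat_lit 22) (nat_lit 4) (nat_lit 20) (nat_lit 4) (nat_lit 291) (nat_lit 227) (nat_lit 202)))) (XT.nd (nat_lit 78) (nat_lit 76) (nat_lit 0) (XT.lf (nat_lit 0) (nat_lit 3848088221) (nat_lit 228) (nat_lit 10985278123) (nat_lit 76) (nat_lit 5711400602) (nat_lit 17) (nat_lit 5) (nat_lit 20) (nat_lit 5) (nat_lit 18) (nat_lit 4) (nat_lit 292) (nat_lit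 227) (nat_lit 201)) (XT.nd (nat_lit 78) (nat_lit 76) (nat_lit 0) (XT.lf (nat_lit 0) (nat_lit 8810768890) (nat_lit 228) (nat_lit 1261273055) (nat_lit 76) (nat_lit 11313406413) (nat_lit 17) (nat_lit 5) (nat_lit 20) (nat_lit 5) (nat_lit 18) (nat_lit 4) (nat_lit 293) (nat_lit 227) (nat_lit 200)) (XT.lf (nat_lit 0) (nat_lit 8950396228) (nat_lit 76) (nat_lit 5055066275) (nat_lit 152) (nat_lit 8263275499) (nat_lit 16) (nat_lit 5) (nat_lit 17) (nat_lit 5) (nat_lit 18) (nat_lit 4) (nat_lit 294) (nat_lit 227) (nat_lit 199))))))))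
noncomputable def xc27 : XT := (XT.nd (nat_lit 1716) (nat_lit 228) (nat_lit 0) (XT.nd (nat_lit 858) (nat_lit 228) (nat_lit 0) (XT.nd (nat_lit 390) (nat_lit 228) (nat_lit 0) (XT.nd (nat_lit 156) (nat_lit 76) (nat_lit 0) (XT.nd (nat_lit 78) (nat_lit 228) (nat_lit 0) (XT.lf (nat_lit 0) (nat_lit 19375471692) (nat_lit 152) (nat_lit 3669583710) (nat_lit 0) (nat_lit 153755519) (nat_lit 16) (nat_lit 5) (nat_lit 18) (nat_lit 4) (nat_lit 16) (nat_lit 4) (nat_lit 295) (nat_lit 227) (nat_lit 198)) (XT.lf (nat_lit 0) (nat_lit 839765191) (nat_lit 228) (nat_lit 17810728389) (nat_lit 76) (nat_lit 5524205733) (nat_lit 13) (nat_lit 5) (nat_lit 16) (nat_lit 5) (nat_lit 14) (nat_lit 4) (nat_lit 296) (nat_lit 227) (nat_lit 197))) (XT.nd (nat_lit 78) (nat_lit 76) (nat_lit 0) (XT.lf (nat_lit 0) (nat_lit 5603014548) (nat_lit 228) (nat_lit 8421080340) (nat_lit 76) (nat_lit 11175845649) (nat_lit 13) (nat_lit 5) (nat_lit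 16) (nat_lit 5) (nat_lit 14) (nat_lit 4) (nat_lit 297) (nat_lit 227) (nat_lit 196)) (XT.nd (nat_lit 78) (nat_lit 0) (nat_lit 0) (XT.lf (nat_lit 0) (nat_lit 1311495088) (nat_lit 76) (nat_lit 9217136325) (nat_lit 152) (nat_lit 15750158568) (nat_lit 12) (nat_lit 5) (nat_lit 13) (nat_lit 5) (nat_lit 14) (nat_lit 4) (nat_lit 298) (nat_lit 227) (nat_lit 195)) (XT.lf (nat_lit 0) (nat_lit 11558889349) (nat_lit 76) (nat_lit 4142714516) (nat_lit 152) (nat_lit 11710014655) (nat_lit 12) (nat_lit 5) (nat_lit 13) (nat_lit 5) (nat_lit 14) (nat_lit 4) (nat_lit 299) (nat_lit 227) (nat_lit 194))))) (XT.nd (nat_lit 234) (nat_lit 76) (nat_lit 0) (XT.nd (nat_lit 78) (nat_lit 152) (nat_lit 0) (XT.lf (nat_lit 0) (nat_lit 21062514771) (nat_lit 152) (nat_lit 6436521045) (nat_lit 0) (nat_lit 1104239562) (nat_lit 12) (nat_lit 5) (nat_lit 14) (nat_lit 4) (nat_lit 12) (nat_lit 4) (nat_lit 300) (nat_lit 227) (nat_lit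 193)) (XT.nd (nat_lit 78) (nat_lit 76) (nat_lit 0) (XT.lf (nat_lit 0) (nat_lit 3337922948) (nat_lit 76) (nat_lit 23349252395) (nat_lit 76) (nat_lit 3167531075) (nat_lit 11) (nat_lit 4) (nat_lit 12) (nat_lit 5) (nat_lit 12) (nat_lit 4) (nat_lit 301) (nat_lit 227) (nat_lit 192)) (XT.lf (nat_lit 0) (nat_lit 1386930896) (nat_lit 152) (nat_lit 17579057419) (nat_lit 76) (nat_lit 12202656737) (nat_lit 10) (nat_lit 5) (nat_lit 12) (nat_lit 5) (nat_lit 11) (nat_lit 4) (nat_lit 302) (nat_lit 227) (nat_lit 191)))) (XT.nd (nat_lit 78) (nat_lit 76) (nat_lit 0) (XT.lf (nat_lit 0) (nat_lit 6031311747) (nat_lit 152) (nat_lit 8353636500) (nat_lit 76) (nat_lit 18164615370) (nat_lit 10) (nat_lit 5) (nat_lit 12) (nat_lit 5) (nat_lit 11) (nat_lit 4) (nat_lit 303) (nat_lit 227) (nat_lit 190)) (XT.nd (nat_lit 78) (nat_lit 0) (nat_lit 0) (XT.lf (nat_lit 0) (nat_lit 1236011863) (nat_lit 76) (nat_lit 9614348905)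 (nat_lit 152) (nat_lit 23150946254) (nat_lit 9) (nat_lit 5) (nat_lit 10) (nat_lit 5) (nat_lit 11) (nat_lit 4) (nat_lit 304) (nat_lit 227) (nat_lit 189)) (XT.lf (nat_lit 0) (nat_lit 11362019536) (nat_lit 76) (nat_lit 4567078838) (nat_lit 152) (nat_lit 19596027032) (nat_lit 9) (nat_lit 5) (nat_lit 10) (nat_lit 5) (nat_lit 11) (nat_lit 4) (nat_lit 305) (nat_lit 227) (nat_lit 188)))))) (XT.nd (nat_lit 390) (nat_lit 76) (nat_lit 0) (XT.nd (nat_lit 156) (nat_lit 152) (nat_lit 0) (XT.nd (nat_lit 78) (nat_lit 0) (nat_lit 0) (XT.lf (nat_lit 0) (nat_lit 21204298464) (nat_lit 152) (nat_lit 15251441607) (nat_lit 0) (nat_lit 671166386) (nat_lit 9) (nat_lit 5) (nat_lit 11) (nat_lit 4) (nat_lit 9) (nat_lit 4) (nat_lit 306) (nat_lit 227) (nat_lit 187)) (XT.lf (nat_lit 0) (nat_lit 26727911226) (nat_lit 152) (nat_lit 6048474313) (nat_lit 0) (nat_lit 6032896695) (nat_lit 9) (nat_lit 5) (nat_lit 11) (nat_lit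 4) (nat_lit 9) (nat_lit 4) (nat_lit 307) (nat_lit 227) (nat_lit 186))) (XT.nd (nat_lit 78) (nat_lit 76) (nat_lit 0) (XT.lf (nat_lit 0) (nat_lit 3581497306) (nat_lit 76) (nat_lit 28922116803) (nat_lit 76) (nat_lit 8072928506) (nat_lit 8) (nat_lit 4) (nat_lit 9) (nat_lit 5) (nat_lit 9) (nat_lit 4) (nat_lit 308) (nat_lit 227) (nat_lit 185)) (XT.nd (nat_lit 78) (nat_lit 76) (nat_lit 0) (XT.lf (nat_lit 0) (nat_lit 13719284270) (nat_lit 76) (nat_lit 24854388069) (nat_lit 76) (nat_lit 3858367615) (nat_lit 8) (nat_lit 4) (nat_lit 9) (nat_lit 5) (nat_lit 9) (nat_lit 4) (nat_lit 309) (nat_lit 227) (nat_lit 184)) (XT.lf (nat_lit 0) (nat_lit 501291909) (nat_lit 152) (nat_lit 20118238028) (nat_lit 76) (nat_lit 23762293691) (nat_lit 7) (nat_lit 5) (nat_lit 9) (nat_lit 5) (nat_lit 8) (nat_lit 4) (nat_lit 310) (nat_lit 227) (nat_lit 183))))) (XT.nd (nat_lit 234) (nat_lit 0) (nat_lit 0) (XT.nd (nat_lit 78)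 (nat_lit 76) (nat_lit 0) (XT.lf (nat_lit 0) (nat_lit 4947910911) (nat_lit 152) (nat_lit 11224782549) (nat_lit 76) (nat_lit 30256829917) (nat_lit 7) (nat_lit 5) (nat_lit 9) (nat_lit 5) (nat_lit 8) (nat_lit 4) (nat_lit 311) (nat_lit 227) (nat_lit 182)) (XT.nd (nat_lit 78) (nat_lit 76) (nat_lit 0) (XT.lf (nat_lit 0) (nat_lit 9567367228) (nat_lit 152) (nat_lit 1974125365) (nat_lit 76) (nat_lit 37039634755) (nat_lit 7) (nat_lit 5) (nat_lit 9) (nat_lit 5) (nat_lit 8) (nat_lit 4) (nat_lit 312) (nat_lit 227) (nat_lit 181)) (XT.lf (nat_lit 0) (nat_lit 7808123510) (nat_lit 76) (nat_lit 6637592513) (nat_lit 152) (nat_lit 36393790689) (nat_lit 6) (nat_lit 5) (nat_lit 7) (nat_lit 5) (nat_lit 8) (nat_lit 4) (nat_lit 313) (nat_lit 227) (nat_lit 180)))) (XT.nd (nat_lit 78) (nat_lit 0) (nat_lit 0) (XT.lf (nat_lit 0) (nat_lit 18039820408) (nat_lit 76) (nat_lit 1502813711) (nat_lit 152) (nat_lit 33668962593)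 (nat_lit 6) (nat_lit 5) (nat_lit 7) (nat_lit 5) (nat_lit 8) (nat_lit 4) (nat_lit 314) (nat_lit 227) (nat_lit 179)) (XT.nd (nat_lit 78) (nat_lit 0) (nat_lit 0) (XT.lf (nat_lit 0) (nat_lit 24887960778) (nat_lit 152) (nat_lit 27034646177) (nat_lit 0) (nat_lit 3779907116) (nat_lit 6) (nat_lit 5) (nat_lit 8) (nat_lit 4) (nat_lit 6) (nat_lit 4) (nat_lit 315) (nat_lit 227) (nat_lit 178)) (XT.lf (nat_lit 0) (nat_lit 30473990657) (nat_lit 152) (nat_lit 18580186389) (nat_lit 0) (nat_lit 9264625467) (nat_lit 6) (nat_lit 5) (nat_lit 8) (nat_lit 4) (nat_lit 6) (nat_lit 4) (nat_lit 316) (nat_lit 227) (nat_lit 177))))))) (XT.nd (nat_lit 858) (nat_lit 0) (nat_lit 0) (XT.nd (nat_lit 390) (nat_lit 152) (nat_lit 0) (XT.nd (nat_lit 156) (nat_lit 76) (nat_lit 0) (XT.nd (nat_lit 78) (nat_lit 0) (nat_lit 0) (XT.lf (nat_lit 0) (nat_lit 36299577862) (nat_lit 152) (nat_lit 9773821309) (nat_lit 0) (nat_lit 14993725503)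 (nat_lit 6) (nat_lit 5) (nat_lit 8) (nat_lit 4) (nat_lit 6) (nat_lit 4) (nat_lit 317) (nat_lit 227) (nat_lit 176)) (XT.lf (nat_lit 0) (nat_lit 42378592839) (nat_lit 152) (nat_lit 594583401) (nat_lit 0) (nat_lit 20980847938) (nat_lit 6) (nat_lit 5) (nat_lit 8) (nat_lit 4) (nat_lit 6) (nat_lit 4) (nat_lit 318) (nat_lit 227) (nat_lit 175))) (XT.nd (nat_lit 78) (nat_lit 0) (nat_lit 0) (XT.lf (nat_lit 0) (nat_lit 9158089983) (nat_lit 76) (nat_lit 39655452612) (nat_lit 76) (nat_lit 18170191005) (nat_lit 5) (nat_lit 4) (nat_lit 6) (nat_lit 5) (nat_lit 6) (nat_lit 4) (nat_lit 319) (nat_lit 227) (nat_lit 174)) (XT.nd (nat_lit 78) (nat_lit 0) (nat_lit 0) (XT.lf (nat_lit 0) (nat_lit 19348429590) (nat_lit 76) (nat_lit 36192998702) (nat_lit 76) (nat_lit 14624387850) (nat_lit 5) (nat_lit 4) (nat_lit 6) (nat_lit 5) (nat_lit 6) (nat_lit 4) (nat_lit 320) (nat_lit 227) (nat_lit 173)) (XT.lf (nat_lit 0) (nat_lit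 29988864755) (nat_lit 76) (nat_lit 32583574697) (nat_lit 76) (nat_lit 10935583613) (nat_lit 5) (nat_lit 4) (nat_lit 6) (nat_lit 5) (nat_lit 6) (nat_lit 4) (nat_lit 321) (nat_lit 227) (nat_lit 172))))) (XT.nd (nat_lit 234) (nat_lit 76) (nat_lit 0) (XT.nd (nat_lit 78) (nat_lit 76) (nat_lit 0) (XT.lf (nat_lit 0) (nat_lit 41104729850) (nat_lit 76) (nat_lit 28818586731) (nat_lit 76) (nat_lit 7094995425) (nat_lit 5) (nat_lit 4) (nat_lit 6) (nat_lit 5) (nat_lit 6) (nat_lit 4) (nat_lit 322) (nat_lit 227) (nat_lit 171)) (XT.nd (nat_lit 78) (nat_lit 76) (nat_lit 0) (XT.lf (nat_lit 0) (nat_lit 52722491218) (nat_lit 76) (nat_lit 24889070547) (nat_lit 76) (nat_lit 3093479030) (nat_lit 5) (nat_lit 4) (nat_lit 6) (nat_lit 5) (nat_lit 6) (nat_lit 4) (nat_lit 323) (nat_lit 227) (nat_lit 170)) (XT.lf (nat_lit 0) (nat_lit 1057447708) (nat_lit 152) (nat_lit 19717544297) (nat_lit 76) (nat_lit 63801684339) (nat_lit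 4) (nat_lit 5) (nat_lit 6) (nat_lit 5) (nat_lit 5) (nat_lit 4) (nat_lit 324) (nat_lit 227) (nat_lit 169)))) (XT.nd (nat_lit 78) (nat_lit 76) (nat_lit 0) (XT.lf (nat_lit 0) (nat_lit 5324878387) (nat_lit 152) (nat_lit 11119966333) (nat_lit 76) (nat_lit 72196959756) (nat_lit 4) (nat_lit 5) (nat_lit 6) (nat_lit 5) (nat_lit 5) (nat_lit 4) (nat_lit 325) (nat_lit 227) (nat_lit 168)) (XT.nd (nat_lit 78) (nat_lit 76) (nat_lit 0) (XT.lf (nat_lit 0) (nat_lit 9779338472) (nat_lit 152) (nat_lit 2139608849) (nat_lit 76) (nat_lit 80992048836) (nat_lit 4) (nat_lit 5) (nat_lit 6) (nat_lit 5) (nat_lit 5) (nat_lit 4) (nat_lit 326) (nat_lit 227) (nat_lit 167)) (XT.lf (nat_lit 0) (nat_lit 7389097870) (nat_lit 76) (nat_lit 7113364480) (nat_lit 152) (nat_lit 82889822926) (nat_lit 3) (nat_lit 5) (nat_lit 4) (nat_lit 5) (nat_lit 5) (nat_lit 4) (nat_lit 327) (nat_lit 227) (nat_lit 166)))))) (XT.nd (nat_lit 468) (nat_lit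 0) (nat_lit 0) (XT.nd (nat_lit 156) (nat_lit 0) (nat_lit 0) (XT.nd (nat_lit 78) (nat_lit 0) (nat_lit 0) (XT.lf (nat_lit 0) (nat_lit 17395380711) (nat_lit 76) (nat_lit 2064075180) (nat_lit 152) (nat_lit 82638266866) (nat_lit 3) (nat_lit 5) (nat_lit 4) (nat_lit 5) (nat_lit 5) (nat_lit 4) (nat_lit 328) (nat_lit 227) (nat_lit 165)) (XT.lf (nat_lit 0) (nat_lit 24672091142) (nat_lit 152) (nat_lit 79209605811) (nat_lit 0) (nat_lit 3156515980) (nat_lit 3) (nat_lit 5) (nat_lit 5) (nat_lit 4) (nat_lit 3) (nat_lit 4) (nat_lit 329) (nat_lit 227) (nat_lit 164))) (XT.nd (nat_lit 78) (nat_lit 0) (nat_lit 0) (XT.lf (nat_lit 0) (nat_lit 30143971826) (nat_lit 152) (nat_lit 73503093447) (nat_lit 0) (nat_lit 8578717824) (nat_lit 3) (nat_lit 5) (nat_lit 5) (nat_lit 4) (nat_lit 3) (nat_lit 4) (nat_lit 330) (nat_lit 227) (nat_lit 163)) (XT.nd (nat_lit 78) (nat_lit 0) (nat_lit 0) (XT.lf (nat_lit 0) (nat_lit 35868285077)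 (nat_lit 152) (nat_lit 67549376867) (nat_lit 0) (nat_lit 14255717893) (nat_lit 3) (nat_lit 5) (nat_lit 5) (nat_lit 4) (nat_lit 3) (nat_lit 4) (nat_lit 331) (nat_lit 227) (nat_lit 162)) (XT.lf (nat_lit 0) (nat_lit 41858660213) (nat_lit 152) (nat_lit 61334280555) (nat_lit 0) (nat_lit 20201032857) (nat_lit 3) (nat_lit 5) (nat_lit 5) (nat_lit 4) (nat_lit 3) (nat_lit 4) (nat_lit 332) (nat_lit 227) (nat_lit 161))))) (XT.nd (nat_lit 32214) (nat_lit 0) (nat_lit 5396) (XT.nd (nat_lit 32058) (nat_lit 0) (nat_lit 6460) (XT.lf (nat_lit 0) (nat_lit 54695314773) (nat_lit 152) (nat_lit 48060099775) (nat_lit 0) (nat_lit 32953902061) (nat_lit 3) (nat_lit 5) (nat_lit 5) (nat_lit 4) (nat_lit 3) (nat_lit 4) (nat_lit 334) (nat_lit 227) (nat_lit 159)) (XT.nd (nat_lit 78) (nat_lit 836) (nat_lit 0) (XT.lf (nat_lit 0) (nat_lit 2046163386) (nat_lit 456) (nat_lit 122541857) (nat_lit 0) (nat_lit 2046163386) (nat_lit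 99) (nat_lit 5) (nat_lit 105) (nat_lit 4) (nat_lit 99) (nat_lit 4) (nat_lit 264) (nat_lit 228) (nat_lit 228)) (XT.lf (nat_lit 0) (nat_lit 310290179) (nat_lit 380) (nat_lit 734195156) (nat_lit 456) (nat_lit 7572543294) (nat_lit 88) (nat_lit 5) (nat_lit 93) (nat_lit 5) (nat_lit 94) (nat_lit 4) (nat_lit 265) (nat_lit 228) (nat_lit 227)))) (XT.nd (nat_lit 78) (nat_lit 684) (nat_lit 0) (XT.lf (nat_lit 0) (nat_lit 753617034) (nat_lit 380) (nat_lit 5746661700) (nat_lit 380) (nat_lit 2315750134) (nat_lit 83) (nat_lit 4) (nat_lit 88) (nat_lit 5) (nat_lit 88) (nat_lit 4) (nat_lit 266) (nat_lit 228) (nat_lit 226)) (XT.nd (nat_lit 78) (nat_lit 304) (nat_lit 0) (XT.lf (nat_lit 0) (nat_lit 1096941257) (nat_lit 304) (nat_lit 1918710097) (nat_lit 380) (nat_lit 6012607792) (nat_lit 78) (nat_lit 5) (nat_lit 82) (nat_lit 5) (nat_lit 83) (nat_lit 4) (nat_lit 267) (nat_lit 228) (nat_lit 225)) (XT.lf (nat_lit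 0) (nat_lit 1314149518) (nat_lit 304) (nat_lit 7146061101) (nat_lit 304) (nat_lit 793780038) (nat_lit 74) (nat_lit 4) (nat_lit 78) (nat_lit 5) (nat_lit 78) (nat_lit 4) (nat_lit 268) (nat_lit 228) (nat_lit 224))))))))
noncomputable def xc28 : XT := (XT.nd (nat_lit 1716) (nat_lit 988) (nat_lit 0) (XT.nd (nat_lit 858) (nat_lit 1216) (nat_lit 0) (XT.nd (nat_lit 390) (nat_lit 1520) (nat_lit 0) (XT.nd (nat_lit 156) (nat_lit 608) (nat_lit 0) (XT.nd (nat_lit 78) (nat_lit 380) (nat_lit 0) (XT.lf (nat_lit 0) (nat_lit 1363143588) (nat_lit 304) (nat_lit 3128998215) (nat_lit 380) (nat_lit 5000968754) (nat_lit 69) (nat_lit 5) (nat_lit 73) (nat_lit 5) (nat_lit 74) (nat_lit 4) (nat_lit 269) (nat_lit 228) (nat_lit 223)) (XT.lf (nat_lit 0) (nat_lit 169909920) (nat_lit 380) (nat_lit 8482935562) (nat_lit 76) (nat_lit 1094573509) (nat_lit 64) (nat_lit 5) (nat_lit 69) (nat_lit 5) (nat_lit 65) (nat_lit 4) (nat_lit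 270) (nat_lit 228) (nat_lit 222))) (XT.nd (nat_lit 78) (nat_lit 380) (nat_lit 0) (XT.lf (nat_lit 0) (nat_lit 931238962) (nat_lit 228) (nat_lit 4485085129) (nat_lit 304) (nat_lit 4599356210) (nat_lit 61) (nat_lit 5) (nat_lit 64) (nat_lit 5) (nat_lit 65) (nat_lit 4) (nat_lit 271) (nat_lit 228) (nat_lit 221)) (XT.nd (nat_lit 78) (nat_lit 0) (nat_lit 0) (XT.lf (nat_lit 0) (nat_lit 413182076) (nat_lit 304) (nat_lit 93636631) (nat_lit 380) (nat_lit 9793924242) (nat_lit 56) (nat_lit 5) (nat_lit 60) (nat_lit 5) (nat_lit 61) (nat_lit 5) (nat_lit 272) (nat_lit 228) (nat_lit 220)) (XT.lf (nat_lit 0) (nat_lit 5717206508) (nat_lit 380) (nat_lit 396222454) (nat_lit 76) (nat_lit 4487238264) (nat_lit 56) (nat_lit 5) (nat_lit 61) (nat_lit 5) (nat_lit 57) (nat_lit 4) (nat_lit 273) (nat_lit 228) (nat_lit 219))))) (XT.nd (nat_lit 234) (nat_lit 760) (nat_lit 0) (XT.nd (nat_lit 78) (nat_lit 456) (nat_lit 0) (XT.lf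 (nat_lit 0) (nat_lit 172663236) (nat_lit 304) (nat_lit 1436776719) (nat_lit 76) (nat_lit 9309178667) (nat_lit 52) (nat_lit 5) (nat_lit 56) (nat_lit 5) (nat_lit 53) (nat_lit 5) (nat_lit 274) (nat_lit 228) (nat_lit 218)) (XT.nd (nat_lit 78) (nat_lit 228) (nat_lit 0) (XT.lf (nat_lit 0) (nat_lit 5316292556) (nat_lit 304) (nat_lit 2825475110) (nat_lit 76) (nat_lit 3111438638) (nat_lit 49) (nat_lit 5) (nat_lit 53) (nat_lit 5) (nat_lit 50) (nat_lit 4) (nat_lit 275) (nat_lit 228) (nat_lit 217)) (XT.lf (nat_lit 0) (nat_lit 7069579203) (nat_lit 228) (nat_lit 3570819010) (nat_lit 304) (nat_lit 966674069) (nat_lit 46) (nat_lit 5) (nat_lit 49) (nat_lit 5) (nat_lit 50) (nat_lit 4) (nat_lit 276) (nat_lit 228) (nat_lit 216)))) (XT.nd (nat_lit 78) (nat_lit 456) (nat_lit 0) (XT.lf (nat_lit 0) (nat_lit 4090180017) (nat_lit 304) (nat_lit 6648234425) (nat_lit 76) (nat_lit 1241587725) (nat_lit 42) (nat_lit 5)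 (nat_lit 46) (nat_lit 5) (nat_lit 43) (nat_lit 4) (nat_lit 277) (nat_lit 228) (nat_lit 215)) (XT.nd (nat_lit 78) (nat_lit 304) (nat_lit 0) (XT.lf (nat_lit 0) (nat_lit 3178470390) (nat_lit 152) (nat_lit 6148457049) (nat_lit 228) (nat_lit 3046170868) (nat_lit 40) (nat_lit 5) (nat_lit 42) (nat_lit 5) (nat_lit 43) (nat_lit 4) (nat_lit 278) (nat_lit 228) (nat_lit 214)) (XT.lf (nat_lit 0) (nat_lit 590353115) (nat_lit 228) (nat_lit 1321141896) (nat_lit 304) (nat_lit 10876618788) (nat_lit 36) (nat_lit 5) (nat_lit 39) (nat_lit 5) (nat_lit 40) (nat_lit 5) (nat_lit 279) (nat_lit 228) (nat_lit 213)))))) (XT.nd (nat_lit 390) (nat_lit 684) (nat_lit 0) (XT.nd (nat_lit 156) (nat_lit 380) (nat_lit 0) (XT.nd (nat_lit 78) (nat_lit 152) (nat_lit 0) (XT.lf (nat_lit 0) (nat_lit 7027654774) (nat_lit 304) (nat_lit 2481393158) (nat_lit 76) (nat_lit 3714911161) (nat_lit 36) (nat_lit 5) (nat_lit 40) (nat_lit 5) (nat_lit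 37) (nat_lit 4) (nat_lit 280) (nat_lit 228) (nat_lit 212)) (XT.lf (nat_lit 0) (nat_lit 7618629833) (nat_lit 152) (nat_lit 4716527072) (nat_lit 228) (nat_lit 1348556696) (nat_lit 34) (nat_lit 5) (nat_lit 36) (nat_lit 5) (nat_lit 37) (nat_lit 4) (nat_lit 281) (nat_lit 228) (nat_lit 211))) (XT.nd (nat_lit 78) (nat_lit 152) (nat_lit 0) (XT.lf (nat_lit 0) (nat_lit 3587521254) (nat_lit 228) (nat_lit 10255040548) (nat_lit 76) (nat_lit 325415596) (nat_lit 31) (nat_lit 5) (nat_lit 34) (nat_lit 5) (nat_lit 32) (nat_lit 4) (nat_lit 282) (nat_lit 228) (nat_lit 210)) (XT.nd (nat_lit 78) (nat_lit 152) (nat_lit 0) (XT.lf (nat_lit 0) (nat_lit 8709791803) (nat_lit 228) (nat_lit 450544945) (nat_lit 76) (nat_lit 5516859845) (nat_lit 31) (nat_lit 5) (nat_lit 34) (nat_lit 5) (nat_lit 32) (nat_lit 4) (nat_lit 283) (nat_lit 228) (nat_lit 209)) (XT.lf (nat_lit 0) (nat_lit 9815977672) (nat_lit 152) (nat_lit 4229757064)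 (nat_lit 228) (nat_lit 1167568709) (nat_lit 29) (nat_lit 5) (nat_lit 31) (nat_lit 5) (nat_lit 32) (nat_lit 4) (nat_lit 284) (nat_lit 228) (nat_lit 208))))) (XT.nd (nat_lit 234) (nat_lit 304) (nat_lit 0) (XT.nd (nat_lit 78) (nat_lit 152) (nat_lit 0) (XT.lf (nat_lit 0) (nat_lit 3721624137) (nat_lit 228) (nat_lit 11120228815) (nat_lit 76) (nat_lit 935640107) (nat_lit 26) (nat_lit 5) (nat_lit 29) (nat_lit 5) (nat_lit 27) (nat_lit 4) (nat_lit 285) (nat_lit 228) (nat_lit 207)) (XT.nd (nat_lit 78) (nat_lit 152) (nat_lit 0) (XT.lf (nat_lit 0) (nat_lit 8799944229) (nat_lit 228) (nat_lit 1309173146) (nat_lit 76) (nat_lit 6261498678) (nat_lit 26) (nat_lit 5) (nat_lit 29) (nat_lit 5) (nat_lit 27) (nat_lit 4) (nat_lit 286) (nat_lit 228) (nat_lit 206)) (XT.lf (nat_lit 0) (nat_lit 8964223221) (nat_lit 152) (nat_lit 5130114769) (nat_lit 228) (nat_lit 2900321181) (nat_lit 24) (nat_lit 5) (nat_lit 26) (nat_lit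 5) (nat_lit 27) (nat_lit 4) (nat_lit 287) (nat_lit 228) (nat_lit 205)))) (XT.nd (nat_lit 78) (nat_lit 76) (nat_lit 0) (XT.lf (nat_lit 0) (nat_lit 1876170120) (nat_lit 228) (nat_lit 15704892930) (nat_lit 76) (nat_lit 71031037) (nat_lit 21) (nat_lit 5) (nat_lit 24) (nat_lit 5) (nat_lit 22) (nat_lit 4) (nat_lit 288) (nat_lit 228) (nat_lit 204)) (XT.nd (nat_lit 78) (nat_lit 76) (nat_lit 0) (XT.lf (nat_lit 0) (nat_lit 6849186380) (nat_lit 228) (nat_lit 6027275953) (nat_lit 76) (nat_lit 5464659769) (nat_lit 21) (nat_lit 5) (nat_lit 24) (nat_lit 5) (nat_lit 22) (nat_lit 4) (nat_lit 289) (nat_lit 228) (nat_lit 203)) (XT.lf (nat_lit 0) (nat_lit 4025132231) (nat_lit 76) (nat_lit 7971900560) (nat_lit 152) (nat_lit 7069891289) (nat_lit 20) (nat_lit 5) (nat_lit 21) (nat_lit 5) (nat_lit 22) (nat_lit 4) (nat_lit 290) (nat_lit 228) (nat_lit 202))))))) (XT.nd (nat_lit 858) (nat_lit 380) (nat_lit 0) (XT.nd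 (nat_lit 390) (nat_lit 304) (nat_lit 0) (XT.nd (nat_lit 156) (nat_lit 76) (nat_lit 0) (XT.nd (nat_lit 78) (nat_lit 228) (nat_lit 0) (XT.lf (nat_lit 0) (nat_lit 14523857200) (nat_lit 76) (nat_lit 2831552906) (nat_lit 152) (nat_lit 2475114695) (nat_lit 20) (nat_lit 5) (nat_lit 21) (nat_lit 5) (nat_lit 22) (nat_lit 4) (nat_lit 291) (nat_lit 228) (nat_lit 201)) (XT.lf (nat_lit 0) (nat_lit 2269619426) (nat_lit 228) (nat_lit 15847399853) (nat_lit 76) (nat_lit 2515721900) (nat_lit 17) (nat_lit 5) (nat_lit 20) (nat_lit 5) (nat_lit 18) (nat_lit 4) (nat_lit 292) (nat_lit 228) (nat_lit 200))) (XT.nd (nat_lit 78) (nat_lit 76) (nat_lit 0) (XT.lf (nat_lit 0) (nat_lit 7182467035) (nat_lit 228) (nat_lit 6207877958) (nat_lit 76) (nat_lit 8084616750) (nat_lit 17) (nat_lit 5) (nat_lit 20) (nat_lit 5) (nat_lit 18) (nat_lit 4) (nat_lit 293) (nat_lit 228) (nat_lit 199)) (XT.nd (nat_lit 78) (nat_lit 0) (nat_lit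 0) (XT.lf (nat_lit 0) (nat_lit 3823282708) (nat_lit 76) (nat_lit 8457132932) (nat_lit 152) (nat_lit 10080780155) (nat_lit 16) (nat_lit 5) (nat_lit 17) (nat_lit 5) (nat_lit 18) (nat_lit 4) (nat_lit 294) (nat_lit 228) (nat_lit 198)) (XT.lf (nat_lit 0) (nat_lit 14325512530) (nat_lit 76) (nat_lit 3277453575) (nat_lit 152) (nat_lit 5689766425) (nat_lit 16) (nat_lit 5) (nat_lit 17) (nat_lit 5) (nat_lit 18) (nat_lit 4) (nat_lit 295) (nat_lit 228) (nat_lit 197))))) (XT.nd (nat_lit 234) (nat_lit 76) (nat_lit 0) (XT.nd (nat_lit 78) (nat_lit 76) (nat_lit 0) (XT.lf (nat_lit 0) (nat_lit 924522381) (nat_lit 152) (nat_lit 22206464823) (nat_lit 152) (nat_lit 1141756806) (nat_lit 14) (nat_lit 4) (nat_lit 16) (nat_lit 5) (nat_lit 16) (nat_lit 4) (nat_lit 296) (nat_lit 228) (nat_lit 196)) (XT.nd (nat_lit 78) (nat_lit 0) (nat_lit 0) (XT.lf (nat_lit 0) (nat_lit 3600649483) (nat_lit 228) (nat_lit 14021816372)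 (nat_lit 76) (nat_lit 7677177597) (nat_lit 13) (nat_lit 5) (nat_lit 16) (nat_lit 5) (nat_lit 14) (nat_lit 4) (nat_lit 297) (nat_lit 228) (nat_lit 195)) (XT.lf (nat_lit 0) (nat_lit 8472590069) (nat_lit 228) (nat_lit 4385516798) (nat_lit 76) (nat_lit 13522029909) (nat_lit 13) (nat_lit 5) (nat_lit 16) (nat_lit 5) (nat_lit 14) (nat_lit 4) (nat_lit 298) (nat_lit 228) (nat_lit 194)))) (XT.nd (nat_lit 78) (nat_lit 0) (nat_lit 0) (XT.lf (nat_lit 0) (nat_lit 5705939354) (nat_lit 76) (nat_lit 7856854222) (nat_lit 152) (nat_lit 13952686801) (nat_lit 12) (nat_lit 5) (nat_lit 13) (nat_lit 5) (nat_lit 14) (nat_lit 4) (nat_lit 299) (nat_lit 228) (nat_lit 193)) (XT.nd (nat_lit 78) (nat_lit 0) (nat_lit 0) (XT.lf (nat_lit 0) (nat_lit 16259566684) (nat_lit 76) (nat_lit 2615432224) (nat_lit 152) (nat_lit 9833629964) (nat_lit 12) (nat_lit 5) (nat_lit 13) (nat_lit 5) (nat_lit 14) (nat_lit 4) (nat_lit 300) (nat_lit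 228) (nat_lit 192)) (XT.lf (nat_lit 0) (nat_lit 24406104450) (nat_lit 152) (nat_lit 2777745997) (nat_lit 0) (nat_lit 2779045135) (nat_lit 12) (nat_lit 5) (nat_lit 14) (nat_lit 4) (nat_lit 12) (nat_lit 4) (nat_lit 301) (nat_lit 228) (nat_lit 191)))))) (XT.nd (nat_lit 390) (nat_lit 152) (nat_lit 0) (XT.nd (nat_lit 156) (nat_lit 76) (nat_lit 0) (XT.nd (nat_lit 78) (nat_lit 76) (nat_lit 0) (XT.lf (nat_lit 0) (nat_lit 7371317064) (nat_lit 76) (nat_lit 22868778418) (nat_lit 76) (nat_lit 1039046895) (nat_lit 11) (nat_lit 4) (nat_lit 12) (nat_lit 5) (nat_lit 12) (nat_lit 4) (nat_lit 302) (nat_lit 228) (nat_lit 190)) (XT.lf (nat_lit 0) (nat_lit 3591740149) (nat_lit 152) (nat_lit 14731520170) (nat_lit 76) (nat_lit 14338141897) (nat_lit 10) (nat_lit 5) (nat_lit 12) (nat_lit 5) (nat_lit 11) (nat_lit 4) (nat_lit 303) (nat_lit 228) (nat_lit 189))) (XT.nd (nat_lit 78) (nat_lit 76) (nat_lit 0) (XT.lf (nat_lit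 0) (nat_lit 8366651342) (nat_lit 152) (nat_lit 5222280115) (nat_lit 76) (nat_lit 20525562637) (nat_lit 10) (nat_lit 5) (nat_lit 12) (nat_lit 5) (nat_lit 11) (nat_lit 4) (nat_lit 304) (nat_lit 228) (nat_lit 188)) (XT.nd (nat_lit 78) (nat_lit 0) (nat_lit 0) (XT.lf (nat_lit 0) (nat_lit 4745118198) (nat_lit 76) (nat_lit 8617825848) (nat_lit 152) (nat_lit 22277864959) (nat_lit 9) (nat_lit 5) (nat_lit 10) (nat_lit 5) (nat_lit 11) (nat_lit 4) (nat_lit 305) (nat_lit 228) (nat_lit 187)) (XT.lf (nat_lit 0) (nat_lit 15213268838) (nat_lit 76) (nat_lit 3388537063) (nat_lit 152) (nat_lit 18641896376) (nat_lit 9) (nat_lit 5) (nat_lit 10) (nat_lit 5) (nat_lit 11) (nat_lit 4) (nat_lit 306) (nat_lit 228) (nat_lit 186))))) (XT.nd (nat_lit 234) (nat_lit 76) (nat_lit 0) (XT.nd (nat_lit 78) (nat_lit 76) (nat_lit 0) (XT.lf (nat_lit 0) (nat_lit 24064300578) (nat_lit 152) (nat_lit 12845152942) (nat_lit 0) (nat_lit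 2018479100) (nat_lit 9) (nat_lit 5) (nat_lit 11) (nat_lit 4) (nat_lit 9) (nat_lit 4) (nat_lit 307) (nat_lit 228) (nat_lit 185)) (XT.nd (nat_lit 78) (nat_lit 76) (nat_lit 0) (XT.lf (nat_lit 0) (nat_lit 29778389827) (nat_lit 152) (nat_lit 3332935414) (nat_lit 0) (nat_lit 7585736192) (nat_lit 9) (nat_lit 5) (nat_lit 11) (nat_lit 4) (nat_lit 9) (nat_lit 4) (nat_lit 308) (nat_lit 228) (nat_lit 184)) (XT.lf (nat_lit 0) (nat_lit 6692025493) (nat_lit 76) (nat_lit 29097408280) (nat_lit 76) (nat_lit 6764914495) (nat_lit 8) (nat_lit 4) (nat_lit 9) (nat_lit 5) (nat_lit 9) (nat_lit 4) (nat_lit 309) (nat_lit 228) (nat_lit 183)))) (XT.nd (nat_lit 78) (nat_lit 76) (nat_lit 0) (XT.lf (nat_lit 0) (nat_lit 17197108790) (nat_lit 76) (nat_lit 24886808080) (nat_lit 76) (nat_lit 2421133200) (nat_lit 8) (nat_lit 4) (nat_lit 9) (nat_lit 5) (nat_lit 9) (nat_lit 4) (nat_lit 310) (nat_lit 228) (nat_lit 182)) (XT.nd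 (nat_lit 78) (nat_lit 0) (nat_lit 0) (XT.lf (nat_lit 0) (nat_lit 2048587594) (nat_lit 152) (nat_lit 18433881202) (nat_lit 76) (nat_lit 26071720315) (nat_lit 7) (nat_lit 5) (nat_lit 9) (nat_lit 5) (nat_lit 8) (nat_lit 4) (nat_lit 311) (nat_lit 228) (nat_lit 181)) (XT.lf (nat_lit 0) (nat_lit 6645050351) (nat_lit 152) (nat_lit 9223860984) (nat_lit 76) (nat_lit 32837587546) (nat_lit 7) (nat_lit 5) (nat_lit 9) (nat_lit 5) (nat_lit 8) (nat_lit 4) (nat_lit 312) (nat_lit 228) (nat_lit 180))))))))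
noncomputable def xc29 : XT := (XT.nd (nat_lit 33618) (nat_lit 0) (nat_lit 1976) (XT.nd (nat_lit 858) (nat_lit 152) (nat_lit 0) (XT.nd (nat_lit 390) (nat_lit 76) (nat_lit 0) (XT.nd (nat_lit 156) (nat_lit 0) (nat_lit 0) (XT.nd (nat_lit 78) (nat_lit 0) (nat_lit 0) (XT.lf (nat_lit 0) (nat_lit 374631822) (nat_lit 76) (nat_lit 11055413428) (nat_lit 152) (nat_lit 39537648844) (nat_lit 6) (nat_lit 5) (nat_lit 7) (nat_lit 5) (nat_lit 8) (nat_lit 4) (nat_lit 313) (nat_lit 228) (nat_lit 179)) (XT.lf (nat_lit 0) (nat_lit 10568736229) (nat_lit 76) (nat_lit 5937009919) (nat_lit 152) (nat_lit 36834688969) (nat_lit 6) (nat_lit 5) (nat_lit 7) (nat_lit 5) (nat_lit 8) (nat_lit 4) (nat_lit 314) (nat_lit 228) (nat_lit 178))) (XT.nd (nat_lit 78) (nat_lit 0) (nat_lit 0) (XT.lf (nat_lit 0) (nat_lit 21199150993) (nat_lit 76) (nat_lit 594657045) (nat_lit 152) (nat_lit 34039276195) (nat_lit 6) (nat_lit 5) (nat_lit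 7) (nat_lit 5) (nat_lit 8) (nat_lit 4) (nat_lit 315) (nat_lit 228) (nat_lit 177)) (XT.nd (nat_lit 78) (nat_lit 0) (nat_lit 0) (XT.lf (nat_lit 0) (nat_lit 27354734311) (nat_lit 152) (nat_lit 26208302463) (nat_lit 0) (nat_lit 4887102166) (nat_lit 6) (nat_lit 5) (nat_lit 8) (nat_lit 4) (nat_lit 6) (nat_lit 4) (nat_lit 316) (nat_lit 228) (nat_lit 176)) (XT.lf (nat_lit 0) (nat_lit 33161857327) (nat_lit 152) (nat_lit 17434837591) (nat_lit 0) (nat_lit 10602332639) (nat_lit 6) (nat_lit 5) (nat_lit 8) (nat_lit 4) (nat_lit 6) (nat_lit 4) (nat_lit 317) (nat_lit 228) (nat_lit 175))))) (XT.nd (nat_lit 234) (nat_lit 0) (nat_lit 0) (XT.nd (nat_lit 78) (nat_lit 76) (nat_lit 0) (XT.lf (nat_lit 0) (nat_lit 39223287362) (nat_lit 152) (nat_lit 8286933215) (nat_lit 0) (nat_lit 16576245967) (nat_lit 6) (nat_lit 5) (nat_lit 8) (nat_lit 4) (nat_lit 6) (nat_lit 4) (nat_lit 318) (nat_lit 228) (nat_lit 174)) (XT.nd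 (nat_lit 78) (nat_lit 0) (nat_lit 0) (XT.lf (nat_lit 0) (nat_lit 1282211963) (nat_lit 76) (nat_lit 44283569834) (nat_lit 76) (nat_lit 21553179196) (nat_lit 5) (nat_lit 4) (nat_lit 6) (nat_lit 5) (nat_lit 6) (nat_lit 4) (nat_lit 319) (nat_lit 228) (nat_lit 173)) (XT.lf (nat_lit 0) (nat_lit 11443565510) (nat_lit 76) (nat_lit 40833873290) (nat_lit 76) (nat_lit 18024102419) (nat_lit 5) (nat_lit 4) (nat_lit 6) (nat_lit 5) (nat_lit 6) (nat_lit 4) (nat_lit 320) (nat_lit 228) (nat_lit 172)))) (XT.nd (nat_lit 78) (nat_lit 0) (nat_lit 0) (XT.lf (nat_lit 0) (nat_lit 22056394905) (nat_lit 76) (nat_lit 37236599158) (nat_lit 76) (nat_lit 14351228065) (nat_lit 5) (nat_lit 4) (nat_lit 6) (nat_lit 5) (nat_lit 6) (nat_lit 4) (nat_lit 321) (nat_lit 228) (nat_lit 171)) (XT.nd (nat_lit 78) (nat_lit 0) (nat_lit 0) (XT.lf (nat_lit 0) (nat_lit 33145968789) (nat_lit 76) (nat_lit 33483182499) (nat_lit 76) (nat_lit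 10525811196) (nat_lit 5) (nat_lit 4) (nat_lit 6) (nat_lit 5) (nat_lit 6) (nat_lit 4) (nat_lit 322) (nat_lit 228) (nat_lit 170)) (XT.lf (nat_lit 0) (nat_lit 44738690910) (nat_lit 76) (nat_lit 29564686608) (nat_lit 76) (nat_lit 6538743675) (nat_lit 5) (nat_lit 4) (nat_lit 6) (nat_lit 5) (nat_lit 6) (nat_lit 4) (nat_lit 323) (nat_lit 228) (nat_lit 169)))))) (XT.nd (nat_lit 390) (nat_lit 0) (nat_lit 0) (XT.nd (nat_lit 156) (nat_lit 76) (nat_lit 0) (XT.nd (nat_lit 78) (nat_lit 76) (nat_lit 0) (XT.lf (nat_lit 0) (nat_lit 56862162986) (nat_lit 76) (nat_lit 25471781732) (nat_lit 76) (nat_lit 2380532485) (nat_lit 5) (nat_lit 4) (nat_lit 6) (nat_lit 5) (nat_lit 6) (nat_lit 4) (nat_lit 324) (nat_lit 228) (nat_lit 168)) (XT.lf (nat_lit 0) (nat_lit 1920501137) (nat_lit 152) (nat_lit 19254828426) (nat_lit 76) (nat_lit 67605355994) (nat_lit 4) (nat_lit 5) (nat_lit 6) (nat_lit 5) (nat_lit 5) (nat_lit 4)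 (nat_lit 325) (nat_lit 228) (nat_lit 167))) (XT.nd (nat_lit 78) (nat_lit 76) (nat_lit 0) (XT.lf (nat_lit 0) (nat_lit 6362723300) (nat_lit 152) (nat_lit 10296352187) (nat_lit 76) (nat_lit 76391176732) (nat_lit 4) (nat_lit 5) (nat_lit 6) (nat_lit 5) (nat_lit 5) (nat_lit 4) (nat_lit 326) (nat_lit 228) (nat_lit 166)) (XT.nd (nat_lit 78) (nat_lit 76) (nat_lit 0) (XT.lf (nat_lit 0) (nat_lit 11003163485) (nat_lit 152) (nat_lit 932672661) (nat_lit 76) (nat_lit 85598193171) (nat_lit 4) (nat_lit 5) (nat_lit 6) (nat_lit 5) (nat_lit 5) (nat_lit 4) (nat_lit 327) (nat_lit 228) (nat_lit 165)) (XT.lf (nat_lit 0) (nat_lit 9034806238) (nat_lit 76) (nat_lit 6904912205) (nat_lit 152) (nat_lit 86300368626) (nat_lit 3) (nat_lit 5) (nat_lit 4) (nat_lit 5) (nat_lit 5) (nat_lit 4) (nat_lit 328) (nat_lit 228) (nat_lit 164))))) (XT.nd (nat_lit 234) (nat_lit 0) (nat_lit 0) (XT.nd (nat_lit 78) (nat_lit 0) (nat_lit 0)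 (XT.lf (nat_lit 0) (nat_lit 19480629247) (nat_lit 76) (nat_lit 1630021322) (nat_lit 152) (nat_lit 86071184545) (nat_lit 3) (nat_lit 5) (nat_lit 4) (nat_lit 5) (nat_lit 5) (nat_lit 4) (nat_lit 329) (nat_lit 228) (nat_lit 163)) (XT.nd (nat_lit 78) (nat_lit 0) (nat_lit 0) (XT.lf (nat_lit 0) (nat_lit 26556539824) (nat_lit 152) (nat_lit 81997620547) (nat_lit 0) (nat_lit 3816031100) (nat_lit 3) (nat_lit 5) (nat_lit 5) (nat_lit 4) (nat_lit 3) (nat_lit 4) (nat_lit 330) (nat_lit 228) (nat_lit 162)) (XT.lf (nat_lit 0) (nat_lit 32271021965) (nat_lit 152) (nat_lit 76061614258) (nat_lit 0) (nat_lit 9485453067) (nat_lit 3) (nat_lit 5) (nat_lit 5) (nat_lit 4) (nat_lit 3) (nat_lit 4) (nat_lit 331) (nat_lit 228) (nat_lit 161)))) (XT.nd (nat_lit 156) (nat_lit 0) (nat_lit 0) (XT.lf (nat_lit 0) (nat_lit 38252034138) (nat_lit 152) (nat_lit 69863384890) (nat_lit 0) (nat_lit 15423550791) (nat_lit 3) (nat_lit 5)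 (nat_lit 5) (nat_lit 4) (nat_lit 3) (nat_lit 4) (nat_lit 332) (nat_lit 228) (nat_lit 160)) (XT.nd (nat_lit 31902) (nat_lit 0) (nat_lit 8208) (XT.lf (nat_lit 0) (nat_lit 51071279107) (nat_lit 152) (nat_lit 56620566682) (nat_lit 0) (nat_lit 28163000183) (nat_lit 3) (nat_lit 5) (nat_lit 5) (nat_lit 4) (nat_lit 3) (nat_lit 4) (nat_lit 334) (nat_lit 228) (nat_lit 158)) (XT.lf (nat_lit 0) (nat_lit 1676830921) (nat_lit 532) (nat_lit 690308256) (nat_lit 0) (nat_lit 1676830921) (nat_lit 111) (nat_lit 5) (nat_lit 118) (nat_lit 4) (nat_lit 111) (nat_lit 4) (nat_lit 262) (nat_lit 229) (nat_lit 229))))))) (XT.nd (nat_lit 858) (nat_lit 2052) (nat_lit 0) (XT.nd (nat_lit 390) (nat_lit 1672) (nat_lit 0) (XT.nd (nat_lit 156) (nat_lit 1596) (nat_lit 0) (XT.nd (nat_lit 78) (nat_lit 380) (nat_lit 0) (XT.lf (nat_lit 0) (nat_lit 548447478) (nat_lit 532) (nat_lit 844182898) (nat_lit 76) (nat_lit 6862532979) (nat_lit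 104) (nat_lit 5) (nat_lit 111) (nat_lit 5) (nat_lit 105) (nat_lit 4) (nat_lit 263) (nat_lit 229) (nat_lit 228)) (XT.lf (nat_lit 0) (nat_lit 5876755979) (nat_lit 456) (nat_lit 390485576) (nat_lit 0) (nat_lit 2166225120) (nat_lit 99) (nat_lit 5) (nat_lit 105) (nat_lit 4) (nat_lit 99) (nat_lit 4) (nat_lit 264) (nat_lit 229) (nat_lit 227))) (XT.nd (nat_lit 78) (nat_lit 1140) (nat_lit 0) (XT.lf (nat_lit 0) (nat_lit 2672760083) (nat_lit 456) (nat_lit 8651750) (nat_lit 76) (nat_lit 5942591235) (nat_lit 93) (nat_lit 5) (nat_lit 99) (nat_lit 5) (nat_lit 94) (nat_lit 4) (nat_lit 265) (nat_lit 229) (nat_lit 226)) (XT.nd (nat_lit 78) (nat_lit 380) (nat_lit 0) (XT.lf (nat_lit 0) (nat_lit 294487467) (nat_lit 380) (nat_lit 7701353273) (nat_lit 380) (nat_lit 831361303) (nat_lit 83) (nat_lit 4) (nat_lit 88) (nat_lit 5) (nat_lit 88) (nat_lit 4) (nat_lit 266) (nat_lit 229) (nat_lit 225)) (XT.lf (nat_lit 0)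 (nat_lit 458886546) (nat_lit 304) (nat_lit 3899190802) (nat_lit 380) (nat_lit 4684517791) (nat_lit 78) (nat_lit 5) (nat_lit 82) (nat_lit 5) (nat_lit 83) (nat_lit 4) (nat_lit 267) (nat_lit 229) (nat_lit 224))))) (XT.nd (nat_lit 234) (nat_lit 608) (nat_lit 0) (XT.nd (nat_lit 78) (nat_lit 684) (nat_lit 0) (XT.lf (nat_lit 0) (nat_lit 392371893) (nat_lit 380) (nat_lit 8750807753) (nat_lit 76) (nat_lit 129124101) (nat_lit 73) (nat_lit 5) (nat_lit 78) (nat_lit 5) (nat_lit 74) (nat_lit 4) (nat_lit 268) (nat_lit 229) (nat_lit 223)) (XT.nd (nat_lit 78) (nat_lit 380) (nat_lit 0) (XT.lf (nat_lit 0) (nat_lit 387383231) (nat_lit 304) (nat_lit 5165074866) (nat_lit 380) (nat_lit 3962224005) (nat_lit 69) (nat_lit 5) (nat_lit 73) (nat_lit 5) (nat_lit 74) (nat_lit 4) (nat_lit 269) (nat_lit 229) (nat_lit 222)) (XT.lf (nat_lit 0) (nat_lit 109170394) (nat_lit 304) (nat_lit 958693332) (nat_lit 380) (nat_lit 8704606540)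 (nat_lit 64) (nat_lit 5) (nat_lit 68) (nat_lit 5) (nat_lit 69) (nat_lit 5) (nat_lit 270) (nat_lit 229) (nat_lit 221)))) (XT.nd (nat_lit 78) (nat_lit 608) (nat_lit 0) (XT.lf (nat_lit 0) (nat_lit 6200596186) (nat_lit 380) (nat_lit 393116767) (nat_lit 76) (nat_lit 3450584922) (nat_lit 64) (nat_lit 5) (nat_lit 69) (nat_lit 5) (nat_lit 65) (nat_lit 4) (nat_lit 271) (nat_lit 229) (nat_lit 220)) (XT.nd (nat_lit 78) (nat_lit 304) (nat_lit 0) (XT.lf (nat_lit 0) (nat_lit 1146577965) (nat_lit 304) (nat_lit 1096184029) (nat_lit 76) (nat_lit 8089559214) (nat_lit 60) (nat_lit 5) (nat_lit 64) (nat_lit 5) (nat_lit 61) (nat_lit 5) (nat_lit 272) (nat_lit 229) (nat_lit 219)) (XT.lf (nat_lit 0) (nat_lit 6234989438) (nat_lit 380) (nat_lit 2070350684) (nat_lit 76) (nat_lit 2330701896) (nat_lit 56) (nat_lit 5) (nat_lit 61) (nat_lit 5) (nat_lit 57) (nat_lit 4) (nat_lit 273) (nat_lit 229) (nat_lit 218)))))) (XT.nd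 (nat_lit 390) (nat_lit 836) (nat_lit 0) (XT.nd (nat_lit 156) (nat_lit 684) (nat_lit 0) (XT.nd (nat_lit 78) (nat_lit 228) (nat_lit 0) (XT.lf (nat_lit 0) (nat_lit 540701739) (nat_lit 304) (nat_lit 3314483152) (nat_lit 76) (nat_lit 7101944991) (nat_lit 52) (nat_lit 5) (nat_lit 56) (nat_lit 5) (nat_lit 53) (nat_lit 5) (nat_lit 274) (nat_lit 229) (nat_lit 217)) (XT.lf (nat_lit 0) (nat_lit 5558375113) (nat_lit 304) (nat_lit 4886329318) (nat_lit 76) (nat_lit 850912669) (nat_lit 49) (nat_lit 5) (nat_lit 53) (nat_lit 5) (nat_lit 50) (nat_lit 4) (nat_lit 275) (nat_lit 229) (nat_lit 216))) (XT.nd (nat_lit 78) (nat_lit 456) (nat_lit 0) (XT.lf (nat_lit 0) (nat_lit 4842908972) (nat_lit 228) (nat_lit 5936474996) (nat_lit 304) (nat_lit 873307116) (nat_lit 46) (nat_lit 5) (nat_lit 49) (nat_lit 5) (nat_lit 50) (nat_lit 4) (nat_lit 276) (nat_lit 229) (nat_lit 215)) (XT.nd (nat_lit 78) (nat_lit 152) (nat_lit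 0) (XT.lf (nat_lit 0) (nat_lit 2902925328) (nat_lit 228) (nat_lit 1163325038) (nat_lit 304) (nat_lit 7962914348) (nat_lit 42) (nat_lit 5) (nat_lit 45) (nat_lit 5) (nat_lit 46) (nat_lit 5) (nat_lit 277) (nat_lit 229) (nat_lit 214)) (XT.lf (nat_lit 0) (nat_lit 541052589) (nat_lit 152) (nat_lit 8647868015) (nat_lit 228) (nat_lit 3236863927) (nat_lit 40) (nat_lit 5) (nat_lit 42) (nat_lit 5) (nat_lit 43) (nat_lit 4) (nat_lit 278) (nat_lit 229) (nat_lit 213))))) (XT.nd (nat_lit 234) (nat_lit 380) (nat_lit 0) (XT.nd (nat_lit 78) (nat_lit 380) (nat_lit 0) (XT.lf (nat_lit 0) (nat_lit 1643049416) (nat_lit 228) (nat_lit 2226755109) (nat_lit 76) (nat_lit 8973588422) (nat_lit 39) (nat_lit 5) (nat_lit 42) (nat_lit 5) (nat_lit 40) (nat_lit 5) (nat_lit 279) (nat_lit 229) (nat_lit 212)) (XT.nd (nat_lit 78) (nat_lit 152) (nat_lit 0) (XT.lf (nat_lit 0) (nat_lit 6638987108) (nat_lit 304) (nat_lit 5489888123)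 (nat_lit 76) (nat_lit 1154058930) (nat_lit 36) (nat_lit 5) (nat_lit 40) (nat_lit 5) (nat_lit 37) (nat_lit 4) (nat_lit 280) (nat_lit 229) (nat_lit 211)) (XT.lf (nat_lit 0) (nat_lit 4437729451) (nat_lit 152) (nat_lit 7408015709) (nat_lit 228) (nat_lit 1900050841) (nat_lit 34) (nat_lit 5) (nat_lit 36) (nat_lit 5) (nat_lit 37) (nat_lit 4) (nat_lit 281) (nat_lit 229) (nat_lit 210)))) (XT.nd (nat_lit 78) (nat_lit 152) (nat_lit 0) (XT.lf (nat_lit 0) (nat_lit 503327647) (nat_lit 152) (nat_lit 2438856468) (nat_lit 228) (nat_lit 11291251465) (nat_lit 31) (nat_lit 5) (nat_lit 33) (nat_lit 5) (nat_lit 34) (nat_lit 5) (nat_lit 282) (nat_lit 229) (nat_lit 209)) (XT.nd (nat_lit 78) (nat_lit 152) (nat_lit 0) (XT.lf (nat_lit 0) (nat_lit 7974279993) (nat_lit 228) (nat_lit 4009360182) (nat_lit 76) (nat_lit 2761794699) (nat_lit 31) (nat_lit 5) (nat_lit 34) (nat_lit 5) (nat_lit 32) (nat_lit 4) (nat_lit 283)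 (nat_lit 229) (nat_lit 208)) (XT.lf (nat_lit 0) (nat_lit 6082216028) (nat_lit 152) (nat_lit 7128562466) (nat_lit 228) (nat_lit 2073817859) (nat_lit 29) (nat_lit 5) (nat_lit 31) (nat_lit 5) (nat_lit 32) (nat_lit 4) (nat_lit 284) (nat_lit 229) (nat_lit 207))))))))
noncomputable def xc30 : XT := (XT.nd (nat_lit 1716) (nat_lit 456) (nat_lit 0) (XT.nd (nat_lit 858) (nat_lit 532) (nat_lit 0) (XT.nd (nat_lit 390) (nat_lit 380) (nat_lit 0) (XT.nd (nat_lit 156) (nat_lit 380) (nat_lit 0) (XT.nd (nat_lit 78) (nat_lit 0) (nat_lit 0) (XT.lf (nat_lit 0) (nat_lit 692351251) (nat_lit 152) (nat_lit 2031175619) (nat_lit 228) (nat_lit 13128872333) (nat_lit 26) (nat_lit 5) (nat_lit 28) (nat_lit 5) (nat_lit 29) (nat_lit 5) (nat_lit 285) (nat_lit 229) (nat_lit 206)) (XT.lf (nat_lit 0) (nat_lit 7721828434) (nat_lit 228) (nat_lit 5428558292) (nat_lit 76) (nat_lit 3297598809) (nat_lit 26) (nat_lit 5) (nat_lit 29)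 (nat_lit 5) (nat_lit 27) (nat_lit 4) (nat_lit 286) (nat_lit 229) (nat_lit 205))) (XT.nd (nat_lit 78) (nat_lit 228) (nat_lit 0) (XT.lf (nat_lit 0) (nat_lit 4666603743) (nat_lit 152) (nat_lit 8250694128) (nat_lit 228) (nat_lit 4157758306) (nat_lit 24) (nat_lit 5) (nat_lit 26) (nat_lit 5) (nat_lit 27) (nat_lit 4) (nat_lit 287) (nat_lit 229) (nat_lit 204)) (XT.nd (nat_lit 78) (nat_lit 152) (nat_lit 0) (XT.lf (nat_lit 0) (nat_lit 567490673) (nat_lit 228) (nat_lit 2548865766) (nat_lit 76) (nat_lit 14618825942) (nat_lit 23) (nat_lit 5) (nat_lit 26) (nat_lit 5) (nat_lit 24) (nat_lit 5) (nat_lit 288) (nat_lit 229) (nat_lit 203)) (XT.lf (nat_lit 0) (nat_lit 5430430072) (nat_lit 228) (nat_lit 10719233535) (nat_lit 76) (nat_lit 2277901750) (nat_lit 21) (nat_lit 5) (nat_lit 24) (nat_lit 5) (nat_lit 22) (nat_lit 4) (nat_lit 289) (nat_lit 229) (nat_lit 202))))) (XT.nd (nat_lit 234) (nat_lit 228) (nat_lit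 0) (XT.nd (nat_lit 78) (nat_lit 152) (nat_lit 0) (XT.lf (nat_lit 0) (nat_lit 10487313743) (nat_lit 228) (nat_lit 832540663) (nat_lit 76) (nat_lit 7836291958) (nat_lit 21) (nat_lit 5) (nat_lit 24) (nat_lit 5) (nat_lit 22) (nat_lit 4) (nat_lit 290) (nat_lit 229) (nat_lit 201)) (XT.nd (nat_lit 78) (nat_lit 76) (nat_lit 0) (XT.lf (nat_lit 0) (nat_lit 9564943353) (nat_lit 76) (nat_lit 6221989999) (nat_lit 152) (nat_lit 4134624224) (nat_lit 20) (nat_lit 5) (nat_lit 21) (nat_lit 5) (nat_lit 22) (nat_lit 4) (nat_lit 291) (nat_lit 229) (nat_lit 200)) (XT.lf (nat_lit 0) (nat_lit 522877220) (nat_lit 152) (nat_lit 398777497) (nat_lit 76) (nat_lit 19806230435) (nat_lit 19) (nat_lit 5) (nat_lit 21) (nat_lit 5) (nat_lit 20) (nat_lit 5) (nat_lit 292) (nat_lit 229) (nat_lit 199)))) (XT.nd (nat_lit 78) (nat_lit 76) (nat_lit 0) (XT.lf (nat_lit 0) (nat_lit 5375456971) (nat_lit 228) (nat_lit 11566756445) (nat_lit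 76) (nat_lit 4629742393) (nat_lit 17) (nat_lit 5) (nat_lit 20) (nat_lit 5) (nat_lit 18) (nat_lit 4) (nat_lit 293) (nat_lit 229) (nat_lit 198)) (XT.nd (nat_lit 78) (nat_lit 76) (nat_lit 0) (XT.lf (nat_lit 0) (nat_lit 10391453791) (nat_lit 228) (nat_lit 1686830522) (nat_lit 76) (nat_lit 10382404157) (nat_lit 17) (nat_lit 5) (nat_lit 20) (nat_lit 5) (nat_lit 18) (nat_lit 4) (nat_lit 294) (nat_lit 229) (nat_lit 197)) (XT.lf (nat_lit 0) (nat_lit 8707395882) (nat_lit 76) (nat_lit 6946307661) (nat_lit 152) (nat_lit 7740368831) (nat_lit 16) (nat_lit 5) (nat_lit 17) (nat_lit 5) (nat_lit 18) (nat_lit 4) (nat_lit 295) (nat_lit 229) (nat_lit 196)))))) (XT.nd (nat_lit 390) (nat_lit 228) (nat_lit 0) (XT.nd (nat_lit 156) (nat_lit 76) (nat_lit 0) (XT.nd (nat_lit 78) (nat_lit 228) (nat_lit 0) (XT.lf (nat_lit 0) (nat_lit 19511263430) (nat_lit 76) (nat_lit 1599724428) (nat_lit 152) (nat_lit 3265254430) (nat_lit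 16) (nat_lit 5) (nat_lit 17) (nat_lit 5) (nat_lit 18) (nat_lit 4) (nat_lit 296) (nat_lit 229) (nat_lit 195)) (XT.lf (nat_lit 0) (nat_lit 1413973922) (nat_lit 228) (nat_lit 20047491124) (nat_lit 76) (nat_lit 3945461097) (nat_lit 13) (nat_lit 5) (nat_lit 16) (nat_lit 5) (nat_lit 14) (nat_lit 4) (nat_lit 297) (nat_lit 229) (nat_lit 194))) (XT.nd (nat_lit 78) (nat_lit 76) (nat_lit 0) (XT.lf (nat_lit 0) (nat_lit 6246800807) (nat_lit 228) (nat_lit 10478509515) (nat_lit 76) (nat_lit 9763314551) (nat_lit 13) (nat_lit 5) (nat_lit 16) (nat_lit 5) (nat_lit 14) (nat_lit 4) (nat_lit 298) (nat_lit 229) (nat_lit 193)) (XT.nd (nat_lit 78) (nat_lit 76) (nat_lit 0) (XT.lf (nat_lit 0) (nat_lit 11244904192) (nat_lit 228) (nat_lit 562509138) (nat_lit 76) (nat_lit 15819348618) (nat_lit 13) (nat_lit 5) (nat_lit 16) (nat_lit 5) (nat_lit 14) (nat_lit 4) (nat_lit 299) (nat_lit 229) (nat_lit 192)) (XT.lf (nat_lit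 0) (nat_lit 9917648577) (nat_lit 76) (nat_lit 6597870249) (nat_lit 152) (nat_lit 12305668356) (nat_lit 12) (nat_lit 5) (nat_lit 13) (nat_lit 5) (nat_lit 14) (nat_lit 4) (nat_lit 300) (nat_lit 229) (nat_lit 191))))) (XT.nd (nat_lit 234) (nat_lit 76) (nat_lit 0) (XT.nd (nat_lit 78) (nat_lit 152) (nat_lit 0) (XT.lf (nat_lit 0) (nat_lit 20811985262) (nat_lit 76) (nat_lit 1173035565) (nat_lit 152) (nat_lit 8092308810) (nat_lit 12) (nat_lit 5) (nat_lit 13) (nat_lit 5) (nat_lit 14) (nat_lit 4) (nat_lit 301) (nat_lit 229) (nat_lit 190)) (XT.nd (nat_lit 78) (nat_lit 76) (nat_lit 0) (XT.lf (nat_lit 0) (nat_lit 707698998) (nat_lit 76) (nat_lit 27003031822) (nat_lit 76) (nat_lit 3686120363) (nat_lit 11) (nat_lit 4) (nat_lit 12) (nat_lit 5) (nat_lit 12) (nat_lit 4) (nat_lit 302) (nat_lit 229) (nat_lit 189)) (XT.lf (nat_lit 0) (nat_lit 964064092) (nat_lit 152) (nat_lit 21543691018) (nat_lit 76) (nat_lit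 10273111304) (nat_lit 10) (nat_lit 5) (nat_lit 12) (nat_lit 5) (nat_lit 11) (nat_lit 4) (nat_lit 303) (nat_lit 229) (nat_lit 188)))) (XT.nd (nat_lit 78) (nat_lit 76) (nat_lit 0) (XT.lf (nat_lit 0) (nat_lit 5708254783) (nat_lit 152) (nat_lit 12088059788) (nat_lit 76) (nat_lit 16438588514) (nat_lit 10) (nat_lit 5) (nat_lit 12) (nat_lit 5) (nat_lit 11) (nat_lit 4) (nat_lit 304) (nat_lit 229) (nat_lit 187)) (XT.nd (nat_lit 78) (nat_lit 76) (nat_lit 0) (XT.lf (nat_lit 0) (nat_lit 10629676887) (nat_lit 152) (nat_lit 2264311845) (nat_lit 76) (nat_lit 22869497456) (nat_lit 10) (nat_lit 5) (nat_lit 12) (nat_lit 5) (nat_lit 11) (nat_lit 4) (nat_lit 305) (nat_lit 229) (nat_lit 186)) (XT.lf (nat_lit 0) (nat_lit 8109182036) (nat_lit 76) (nat_lit 7708816457) (nat_lit 152) (nat_lit 21549918200) (nat_lit 9) (nat_lit 5) (nat_lit 10) (nat_lit 5) (nat_lit 11) (nat_lit 4) (nat_lit 306) (nat_lit 229) (nat_lit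 185))))))) (XT.nd (nat_lit 858) (nat_lit 228) (nat_lit 0) (XT.nd (nat_lit 390) (nat_lit 152) (nat_lit 0) (XT.nd (nat_lit 156) (nat_lit 76) (nat_lit 0) (XT.nd (nat_lit 78) (nat_lit 0) (nat_lit 0) (XT.lf (nat_lit 0) (nat_lit 18951844593) (nat_lit 76) (nat_lit 2281868028) (nat_lit 152) (nat_lit 17819857854) (nat_lit 9) (nat_lit 5) (nat_lit 10) (nat_lit 5) (nat_lit 11) (nat_lit 4) (nat_lit 307) (nat_lit 229) (nat_lit 184)) (XT.lf (nat_lit 0) (nat_lit 26899975644) (nat_lit 152) (nat_lit 10613160480) (nat_lit 0) (nat_lit 3311017019) (nat_lit 9) (nat_lit 5) (nat_lit 11) (nat_lit 4) (nat_lit 9) (nat_lit 4) (nat_lit 308) (nat_lit 229) (nat_lit 183))) (XT.nd (nat_lit 78) (nat_lit 76) (nat_lit 0) (XT.lf (nat_lit 0) (nat_lit 32822033163) (nat_lit 152) (nat_lit 762201129) (nat_lit 0) (nat_lit 9099893443) (nat_lit 9) (nat_lit 5) (nat_lit 11) (nat_lit 4) (nat_lit 9) (nat_lit 4) (nat_lit 309) (nat_lit 229)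 (nat_lit 182)) (XT.nd (nat_lit 78) (nat_lit 0) (nat_lit 0) (XT.lf (nat_lit 0) (nat_lit 9685541346) (nat_lit 76) (nat_lit 29399612606) (nat_lit 76) (nat_lit 5550633748) (nat_lit 8) (nat_lit 4) (nat_lit 9) (nat_lit 5) (nat_lit 9) (nat_lit 4) (nat_lit 310) (nat_lit 229) (nat_lit 181)) (XT.lf (nat_lit 0) (nat_lit 20589263827) (nat_lit 76) (nat_lit 25033371257) (nat_lit 76) (nat_lit 1063593219) (nat_lit 8) (nat_lit 4) (nat_lit 9) (nat_lit 5) (nat_lit 9) (nat_lit 4) (nat_lit 311) (nat_lit 229) (nat_lit 180))))) (XT.nd (nat_lit 234) (nat_lit 0) (nat_lit 0) (XT.nd (nat_lit 78) (nat_lit 76) (nat_lit 0) (XT.lf (nat_lit 0) (nat_lit 3531725444) (nat_lit 152) (nat_lit 16915422222) (nat_lit 76) (nat_lit 28392369314) (nat_lit 7) (nat_lit 5) (nat_lit 9) (nat_lit 5) (nat_lit 8) (nat_lit 4) (nat_lit 312) (nat_lit 229) (nat_lit 179)) (XT.nd (nat_lit 78) (nat_lit 76) (nat_lit 0) (XT.lf (nat_lit 0) (nat_lit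 8292263317) (nat_lit 152) (nat_lit 7361098757) (nat_lit 76) (nat_lit 35448098336) (nat_lit 7) (nat_lit 5) (nat_lit 9) (nat_lit 5) (nat_lit 8) (nat_lit 4) (nat_lit 313) (nat_lit 229) (nat_lit 178)) (XT.lf (nat_lit 0) (nat_lit 2650702978) (nat_lit 76) (nat_lit 10624886747) (nat_lit 152) (nat_lit 40201396758) (nat_lit 6) (nat_lit 5) (nat_lit 7) (nat_lit 5) (nat_lit 8) (nat_lit 4) (nat_lit 314) (nat_lit 229) (nat_lit 177)))) (XT.nd (nat_lit 78) (nat_lit 0) (nat_lit 0) (XT.lf (nat_lit 0) (nat_lit 13247020245) (nat_lit 76) (nat_lit 5297386747) (nat_lit 152) (nat_lit 37425819104) (nat_lit 6) (nat_lit 5) (nat_lit 7) (nat_lit 5) (nat_lit 8) (nat_lit 4) (nat_lit 315) (nat_lit 229) (nat_lit 176)) (XT.nd (nat_lit 78) (nat_lit 0) (nat_lit 0) (XT.lf (nat_lit 0) (nat_lit 24041663560) (nat_lit 152) (nat_lit 34285269767) (nat_lit 0) (nat_lit 262270097) (nat_lit 6) (nat_lit 5) (nat_lit 8) (nat_lit 4) (nat_lit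 6) (nat_lit 4) (nat_lit 316) (nat_lit 229) (nat_lit 175)) (XT.lf (nat_lit 0) (nat_lit 29831201634) (nat_lit 152) (nat_lit 25543138427) (nat_lit 0) (nat_lit 5964291463) (nat_lit 6) (nat_lit 5) (nat_lit 8) (nat_lit 4) (nat_lit 6) (nat_lit 4) (nat_lit 317) (nat_lit 229) (nat_lit 174)))))) (XT.nd (nat_lit 390) (nat_lit 152) (nat_lit 0) (XT.nd (nat_lit 156) (nat_lit 76) (nat_lit 0) (XT.nd (nat_lit 78) (nat_lit 0) (nat_lit 0) (XT.lf (nat_lit 0) (nat_lit 35875884104) (nat_lit 152) (nat_lit 16425075509) (nat_lit 0) (nat_lit 11925624690) (nat_lit 6) (nat_lit 5) (nat_lit 8) (nat_lit 4) (nat_lit 6) (nat_lit 4) (nat_lit 318) (nat_lit 229) (nat_lit 173)) (XT.lf (nat_lit 0) (nat_lit 42190103074) (nat_lit 152) (nat_lit 6909371341) (nat_lit 0) (nat_lit 18160463427) (nat_lit 6) (nat_lit 5) (nat_lit 8) (nat_lit 4) (nat_lit 6) (nat_lit 4) (nat_lit 319) (nat_lit 229) (nat_lit 172))) (XT.nd (nat_lit 78) (nat_lit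 0) (nat_lit 0) (XT.lf (nat_lit 0) (nat_lit 3086866397) (nat_lit 76) (nat_lit 45731698847) (nat_lit 76) (nat_lit 21626458978) (nat_lit 5) (nat_lit 4) (nat_lit 6) (nat_lit 5) (nat_lit 6) (nat_lit 4) (nat_lit 320) (nat_lit 229) (nat_lit 171)) (XT.nd (nat_lit 78) (nat_lit 0) (nat_lit 0) (XT.lf (nat_lit 0) (nat_lit 13673404582) (nat_lit 76) (nat_lit 42145996022) (nat_lit 76) (nat_lit 17968755942) (nat_lit 5) (nat_lit 4) (nat_lit 6) (nat_lit 5) (nat_lit 6) (nat_lit 4) (nat_lit 321) (nat_lit 229) (nat_lit 170)) (XT.lf (nat_lit 0) (nat_lit 24737939219) (nat_lit 76) (nat_lit 38403599656) (nat_lit 76) (nat_lit 14157787947) (nat_lit 5) (nat_lit 4) (nat_lit 6) (nat_lit 5) (nat_lit 6) (nat_lit 4) (nat_lit 322) (nat_lit 229) (nat_lit 169))))) (XT.nd (nat_lit 234) (nat_lit 152) (nat_lit 0) (XT.nd (nat_lit 78) (nat_lit 0) (nat_lit 0) (XT.lf (nat_lit 0) (nat_lit 36306814437) (nat_lit 76) (nat_lit 34495599282)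 (nat_lit 76) (nat_lit 10184481259) (nat_lit 5) (nat_lit 4) (nat_lit 6) (nat_lit 5) (nat_lit 6) (nat_lit 4) (nat_lit 323) (nat_lit 229) (nat_lit 168)) (XT.nd (nat_lit 78) (nat_lit 0) (nat_lit 0) (XT.lf (nat_lit 0) (nat_lit 48407575177) (nat_lit 76) (nat_lit 30412690136) (nat_lit 76) (nat_lit 6039375624) (nat_lit 5) (nat_lit 4) (nat_lit 6) (nat_lit 5) (nat_lit 6) (nat_lit 4) (nat_lit 324) (nat_lit 229) (nat_lit 167)) (XT.lf (nat_lit 0) (nat_lit 61069032775) (nat_lit 76) (nat_lit 26145151007) (nat_lit 76) (nat_lit 1712601743) (nat_lit 5) (nat_lit 4) (nat_lit 6) (nat_lit 5) (nat_lit 6) (nat_lit 4) (nat_lit 325) (nat_lit 229) (nat_lit 166)))) (XT.nd (nat_lit 78) (nat_lit 76) (nat_lit 0) (XT.lf (nat_lit 0) (nat_lit 2751384284) (nat_lit 152) (nat_lit 18903653216) (nat_lit 76) (nat_lit 71542165687) (nat_lit 4) (nat_lit 5) (nat_lit 6) (nat_lit 5) (nat_lit 5) (nat_lit 4) (nat_lit 326) (nat_lit 229)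 (nat_lit 165)) (XT.nd (nat_lit 78) (nat_lit 76) (nat_lit 0) (XT.lf (nat_lit 0) (nat_lit 7380724313) (nat_lit 152) (nat_lit 9559820623) (nat_lit 76) (nat_lit 80740775467) (nat_lit 4) (nat_lit 5) (nat_lit 6) (nat_lit 5) (nat_lit 5) (nat_lit 4) (nat_lit 327) (nat_lit 229) (nat_lit 164)) (XT.lf (nat_lit 0) (nat_lit 216683090) (nat_lit 76) (nat_lit 12005259409) (nat_lit 152) (nat_lit 90168302533) (nat_lit 3) (nat_lit 5) (nat_lit 4) (nat_lit 5) (nat_lit 5) (nat_lit 4) (nat_lit 328) (nat_lit 229) (nat_lit 163))))))))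
noncomputable def xc31 : XT := (XT.nd (nat_lit 33462) (nat_lit 0) (nat_lit 760) (XT.nd (nat_lit 32604) (nat_lit 0) (nat_lit 3268) (XT.nd (nat_lit 32136) (nat_lit 0) (nat_lit 6840) (XT.nd (nat_lit 156) (nat_lit 0) (nat_lit 0) (XT.nd (nat_lit 78) (nat_lit 0) (nat_lit 0) (XT.lf (nat_lit 0) (nat_lit 10644146074) (nat_lit 76) (nat_lit 6738483894) (nat_lit 152) (nat_lit 89949676901) (nat_lit 3) (nat_lit 5) (nat_lit 4) (nat_lit 5) (nat_lit 5) (nat_lit 4) (nat_lit 329) (nat_lit 229) (nat_lit 162)) (XT.lf (nat_lit 0) (nat_lit 21557136446) (nat_lit 76) (nat_lit 1224213891) (nat_lit 152) (nat_lit 89740734100) (nat_lit 3) (nat_lit 5) (nat_lit 4) (nat_lit 5) (nat_lit 5) (nat_lit 4) (nat_lit 330) (nat_lit 229) (nat_lit 161))) (XT.nd (nat_lit 78) (nat_lit 0) (nat_lit 0) (XT.lf (nat_lit 0) (nat_lit 28474701623) (nat_lit 152) (nat_lit 85034040754) (nat_lit 0) (nat_lit 4461879658) (nat_lit 3) (nat_lit 5)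 (nat_lit 5) (nat_lit 4) (nat_lit 3) (nat_lit 4) (nat_lit 331) (nat_lit 229) (nat_lit 160)) (XT.nd (nat_lit 156) (nat_lit 0) (nat_lit 0) (XT.lf (nat_lit 0) (nat_lit 34446796689) (nat_lit 152) (nat_lit 78851875142) (nat_lit 0) (nat_lit 10393103819) (nat_lit 3) (nat_lit 5) (nat_lit 5) (nat_lit 4) (nat_lit 3) (nat_lit 4) (nat_lit 332) (nat_lit 229) (nat_lit 159)) (XT.lf (nat_lit 0) (nat_lit 47249461095) (nat_lit 152) (nat_lit 65638926049) (nat_lit 0) (nat_lit 23119772438) (nat_lit 3) (nat_lit 5) (nat_lit 5) (nat_lit 4) (nat_lit 3) (nat_lit 4) (nat_lit 334) (nat_lit 229) (nat_lit 157))))) (XT.nd (nat_lit 234) (nat_lit 1368) (nat_lit 0) (XT.nd (nat_lit 78) (nat_lit 1064) (nat_lit 0) (XT.lf (nat_lit 0) (nat_lit 1340991801) (nat_lit 532) (nat_lit 1210136957) (nat_lit 0) (nat_lit 1340991801) (nat_lit 125) (nat_lit 5) (nat_lit 132) (nat_lit 4) (nat_lit 125) (nat_lit 4) (nat_lit 260) (nat_lit 230)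 (nat_lit 230)) (XT.nd (nat_lit 78) (nat_lit 456) (nat_lit 0) (XT.lf (nat_lit 0) (nat_lit 85567655) (nat_lit 608) (nat_lit 1943367738) (nat_lit 76) (nat_lit 5903787950) (nat_lit 117) (nat_lit 5) (nat_lit 125) (nat_lit 5) (nat_lit 118) (nat_lit 4) (nat_lit 261) (nat_lit 230) (nat_lit 229)) (XT.lf (nat_lit 0) (nat_lit 5291691330) (nat_lit 532) (nat_lit 1521284949) (nat_lit 0) (nat_lit 1278752206) (nat_lit 111) (nat_lit 5) (nat_lit 118) (nat_lit 4) (nat_lit 111) (nat_lit 4) (nat_lit 262) (nat_lit 230) (nat_lit 228)))) (XT.nd (nat_lit 78) (nat_lit 836) (nat_lit 0) (XT.lf (nat_lit 0) (nat_lit 2329080478) (nat_lit 532) (nat_lit 1149221257) (nat_lit 76) (nat_lit 4783814860) (nat_lit 104) (nat_lit 5) (nat_lit 111) (nat_lit 5) (nat_lit 105) (nat_lit 4) (nat_lit 263) (nat_lit 230) (nat_lit 227)) (XT.nd (nat_lit 78) (nat_lit 456) (nat_lit 0) (XT.lf (nat_lit 0) (nat_lit 7523761383) (nat_lit 456) (nat_lit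 827037359) (nat_lit 0) (nat_lit 93865068) (nat_lit 99) (nat_lit 5) (nat_lit 105) (nat_lit 4) (nat_lit 99) (nat_lit 4) (nat_lit 264) (nat_lit 230) (nat_lit 226)) (XT.lf (nat_lit 0) (nat_lit 4164463780) (nat_lit 456) (nat_lit 617771850) (nat_lit 76) (nat_lit 3856075715) (nat_lit 93) (nat_lit 5) (nat_lit 99) (nat_lit 5) (nat_lit 94) (nat_lit 4) (nat_lit 265) (nat_lit 230) (nat_lit 225)))))) (XT.nd (nat_lit 390) (nat_lit 1672) (nat_lit 0) (XT.nd (nat_lit 156) (nat_lit 1064) (nat_lit 0) (XT.nd (nat_lit 78) (nat_lit 380) (nat_lit 0) (XT.lf (nat_lit 0) (nat_lit 508182781) (nat_lit 456) (nat_lit 477237679) (nat_lit 76) (nat_lit 7859861877) (nat_lit 87) (nat_lit 5) (nat_lit 93) (nat_lit 5) (nat_lit 88) (nat_lit 5) (nat_lit 266) (nat_lit 230) (nat_lit 224)) (XT.lf (nat_lit 0) (nat_lit 5561014945) (nat_lit 456) (nat_lit 482301063) (nat_lit 76) (nat_lit 3020922591) (nat_lit 82) (nat_lit 5) (nat_lit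 88) (nat_lit 5) (nat_lit 83) (nat_lit 4) (nat_lit 267) (nat_lit 230) (nat_lit 223))) (XT.nd (nat_lit 78) (nat_lit 684) (nat_lit 0) (XT.lf (nat_lit 0) (nat_lit 1440214594) (nat_lit 380) (nat_lit 603902276) (nat_lit 76) (nat_lit 7252978661) (nat_lit 77) (nat_lit 5) (nat_lit 82) (nat_lit 5) (nat_lit 78) (nat_lit 5) (nat_lit 268) (nat_lit 230) (nat_lit 222)) (XT.nd (nat_lit 78) (nat_lit 380) (nat_lit 0) (XT.lf (nat_lit 0) (nat_lit 6474789907) (nat_lit 380) (nat_lit 894400168) (nat_lit 76) (nat_lit 2174217689) (nat_lit 73) (nat_lit 5) (nat_lit 78) (nat_lit 5) (nat_lit 74) (nat_lit 4) (nat_lit 269) (nat_lit 230) (nat_lit 221)) (XT.lf (nat_lit 0) (nat_lit 1840243392) (nat_lit 380) (nat_lit 1359834590) (nat_lit 76) (nat_lit 6604129770) (nat_lit 68) (nat_lit 5) (nat_lit 73) (nat_lit 5) (nat_lit 69) (nat_lit 5) (nat_lit 270) (nat_lit 230) (nat_lit 220))))) (XT.nd (nat_lit 234) (nat_lit 760) (nat_lit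 0) (XT.nd (nat_lit 78) (nat_lit 608) (nat_lit 0) (XT.lf (nat_lit 0) (nat_lit 6847000369) (nat_lit 380) (nat_lit 2028249901) (nat_lit 76) (nat_lit 1204712784) (nat_lit 64) (nat_lit 5) (nat_lit 69) (nat_lit 5) (nat_lit 65) (nat_lit 4) (nat_lit 271) (nat_lit 230) (nat_lit 219)) (XT.nd (nat_lit 78) (nat_lit 304) (nat_lit 0) (XT.lf (nat_lit 0) (nat_lit 1640366274) (nat_lit 304) (nat_lit 2932541561) (nat_lit 76) (nat_lit 5798190660) (nat_lit 60) (nat_lit 5) (nat_lit 64) (nat_lit 5) (nat_lit 61) (nat_lit 5) (nat_lit 272) (nat_lit 230) (nat_lit 218)) (XT.lf (nat_lit 0) (nat_lit 6593133720) (nat_lit 304) (nat_lit 8993443) (nat_lit 380) (nat_lit 4076622366) (nat_lit 56) (nat_lit 5) (nat_lit 60) (nat_lit 5) (nat_lit 61) (nat_lit 5) (nat_lit 273) (nat_lit 230) (nat_lit 217)))) (XT.nd (nat_lit 78) (nat_lit 456) (nat_lit 0) (XT.lf (nat_lit 0) (nat_lit 754589592) (nat_lit 304) (nat_lit 5539724120) (nat_lit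 76) (nat_lit 4708677329) (nat_lit 52) (nat_lit 5) (nat_lit 56) (nat_lit 5) (nat_lit 53) (nat_lit 5) (nat_lit 274) (nat_lit 230) (nat_lit 216)) (XT.nd (nat_lit 78) (nat_lit 228) (nat_lit 0) (XT.lf (nat_lit 0) (nat_lit 4028168116) (nat_lit 228) (nat_lit 1632617394) (nat_lit 304) (nat_lit 5684152174) (nat_lit 49) (nat_lit 5) (nat_lit 52) (nat_lit 5) (nat_lit 53) (nat_lit 5) (nat_lit 275) (nat_lit 230) (nat_lit 215)) (XT.lf (nat_lit 0) (nat_lit 2261246169) (nat_lit 228) (nat_lit 8502235402) (nat_lit 304) (nat_lit 942189105) (nat_lit 46) (nat_lit 5) (nat_lit 49) (nat_lit 5) (nat_lit 50) (nat_lit 4) (nat_lit 276) (nat_lit 230) (nat_lit 214))))))) (XT.nd (nat_lit 858) (nat_lit 988) (nat_lit 0) (XT.nd (nat_lit 390) (nat_lit 608) (nat_lit 0) (XT.nd (nat_lit 156) (nat_lit 608) (nat_lit 0) (XT.nd (nat_lit 78) (nat_lit 0) (nat_lit 0) (XT.lf (nat_lit 0) (nat_lit 99425971) (nat_lit 228) (nat_lit 3796305010)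 (nat_lit 304) (nat_lit 8189623996) (nat_lit 42) (nat_lit 5) (nat_lit 45) (nat_lit 5) (nat_lit 46) (nat_lit 5) (nat_lit 277) (nat_lit 230) (nat_lit 213)) (XT.lf (nat_lit 0) (nat_lit 8914040837) (nat_lit 304) (nat_lit 2417342158) (nat_lit 76) (nat_lit 1153819142) (nat_lit 42) (nat_lit 5) (nat_lit 46) (nat_lit 5) (nat_lit 43) (nat_lit 4) (nat_lit 278) (nat_lit 230) (nat_lit 212))) (XT.nd (nat_lit 78) (nat_lit 380) (nat_lit 0) (XT.lf (nat_lit 0) (nat_lit 1219151965) (nat_lit 228) (nat_lit 5401670979) (nat_lit 76) (nat_lit 6285056977) (nat_lit 39) (nat_lit 5) (nat_lit 42) (nat_lit 5) (nat_lit 40) (nat_lit 5) (nat_lit 279) (nat_lit 230) (nat_lit 211)) (XT.nd (nat_lit 78) (nat_lit 152) (nat_lit 0) (XT.lf (nat_lit 0) (nat_lit 4458068789) (nat_lit 228) (nat_lit 1644784945) (nat_lit 304) (nat_lit 7246019488) (nat_lit 36) (nat_lit 5) (nat_lit 39) (nat_lit 5) (nat_lit 40) (nat_lit 5) (nat_lit 280) (nat_lit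 230) (nat_lit 210)) (XT.lf (nat_lit 0) (nat_lit 878081704) (nat_lit 152) (nat_lit 10314675872) (nat_lit 228) (nat_lit 2622564072) (nat_lit 34) (nat_lit 5) (nat_lit 36) (nat_lit 5) (nat_lit 37) (nat_lit 4) (nat_lit 281) (nat_lit 230) (nat_lit 209))))) (XT.nd (nat_lit 234) (nat_lit 228) (nat_lit 0) (XT.nd (nat_lit 78) (nat_lit 304) (nat_lit 0) (XT.lf (nat_lit 0) (nat_lit 2163591003) (nat_lit 228) (nat_lit 3232165958) (nat_lit 76) (nat_lit 8909592845) (nat_lit 33) (nat_lit 5) (nat_lit 36) (nat_lit 5) (nat_lit 34) (nat_lit 5) (nat_lit 282) (nat_lit 230) (nat_lit 208)) (XT.nd (nat_lit 78) (nat_lit 152) (nat_lit 0) (XT.lf (nat_lit 0) (nat_lit 6863664836) (nat_lit 152) (nat_lit 210062888) (nat_lit 228) (nat_lit 7747351445) (nat_lit 31) (nat_lit 5) (nat_lit 33) (nat_lit 5) (nat_lit 34) (nat_lit 5) (nat_lit 283) (nat_lit 230) (nat_lit 207)) (XT.lf (nat_lit 0) (nat_lit 1958486340) (nat_lit 152) (nat_lit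 10249553936) (nat_lit 228) (nat_lit 3155333852) (nat_lit 29) (nat_lit 5) (nat_lit 31) (nat_lit 5) (nat_lit 32) (nat_lit 4) (nat_lit 284) (nat_lit 230) (nat_lit 206)))) (XT.nd (nat_lit 78) (nat_lit 152) (nat_lit 0) (XT.lf (nat_lit 0) (nat_lit 1597264256) (nat_lit 228) (nat_lit 3608950183) (nat_lit 76) (nat_lit 10727312734) (nat_lit 28) (nat_lit 5) (nat_lit 31) (nat_lit 5) (nat_lit 29) (nat_lit 5) (nat_lit 285) (nat_lit 230) (nat_lit 205)) (XT.nd (nat_lit 78) (nat_lit 0) (nat_lit 0) (XT.lf (nat_lit 0) (nat_lit 6471700247) (nat_lit 228) (nat_lit 9947375903) (nat_lit 76) (nat_lit 113813116) (nat_lit 26) (nat_lit 5) (nat_lit 29) (nat_lit 5) (nat_lit 27) (nat_lit 4) (nat_lit 286) (nat_lit 230) (nat_lit 204)) (XT.lf (nat_lit 0) (nat_lit 11567441933) (nat_lit 228) (nat_lit 33154492) (nat_lit 76) (nat_lit 5562412261) (nat_lit 26) (nat_lit 5) (nat_lit 29) (nat_lit 5) (nat_lit 27) (nat_lit 4) (nat_lit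 287) (nat_lit 230) (nat_lit 203)))))) (XT.nd (nat_lit 390) (nat_lit 532) (nat_lit 0) (XT.nd (nat_lit 156) (nat_lit 76) (nat_lit 0) (XT.nd (nat_lit 78) (nat_lit 228) (nat_lit 0) (XT.lf (nat_lit 0) (nat_lit 10404327051) (nat_lit 152) (nat_lit 6506530239) (nat_lit 228) (nat_lit 914101372) (nat_lit 24) (nat_lit 5) (nat_lit 26) (nat_lit 5) (nat_lit 27) (nat_lit 4) (nat_lit 288) (nat_lit 230) (nat_lit 202)) (XT.lf (nat_lit 0) (nat_lit 2685684109) (nat_lit 152) (nat_lit 1159038275) (nat_lit 228) (nat_lit 14676591599) (nat_lit 21) (nat_lit 5) (nat_lit 23) (nat_lit 5) (nat_lit 24) (nat_lit 5) (nat_lit 289) (nat_lit 230) (nat_lit 201))) (XT.nd (nat_lit 78) (nat_lit 76) (nat_lit 0) (XT.lf (nat_lit 0) (nat_lit 8840683046) (nat_lit 228) (nat_lit 6020815128) (nat_lit 76) (nat_lit 4390272267) (nat_lit 21) (nat_lit 5) (nat_lit 24) (nat_lit 5) (nat_lit 22) (nat_lit 4) (nat_lit 290) (nat_lit 230) (nat_lit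 200)) (XT.nd (nat_lit 78) (nat_lit 0) (nat_lit 0) (XT.lf (nat_lit 0) (nat_lit 4192772281) (nat_lit 76) (nat_lit 9848478707) (nat_lit 152) (nat_lit 5978947700) (nat_lit 20) (nat_lit 5) (nat_lit 21) (nat_lit 5) (nat_lit 22) (nat_lit 4) (nat_lit 291) (nat_lit 230) (nat_lit 199)) (XT.lf (nat_lit 0) (nat_lit 14885416835) (nat_lit 76) (nat_lit 4584331595) (nat_lit 152) (nat_lit 1358351690) (nat_lit 20) (nat_lit 5) (nat_lit 21) (nat_lit 5) (nat_lit 22) (nat_lit 4) (nat_lit 292) (nat_lit 230) (nat_lit 198))))) (XT.nd (nat_lit 234) (nat_lit 228) (nat_lit 0) (XT.nd (nat_lit 78) (nat_lit 76) (nat_lit 0) (XT.lf (nat_lit 0) (nat_lit 3385436294) (nat_lit 228) (nat_lit 17350667749) (nat_lit 76) (nat_lit 940557452) (nat_lit 17) (nat_lit 5) (nat_lit 20) (nat_lit 5) (nat_lit 18) (nat_lit 4) (nat_lit 293) (nat_lit 230) (nat_lit 197)) (XT.nd (nat_lit 78) (nat_lit 76) (nat_lit 0) (XT.lf (nat_lit 0) (nat_lit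 8358385443) (nat_lit 228) (nat_lit 7543721568) (nat_lit 76) (nat_lit 6664616722) (nat_lit 17) (nat_lit 5) (nat_lit 20) (nat_lit 5) (nat_lit 18) (nat_lit 4) (nat_lit 294) (nat_lit 230) (nat_lit 196)) (XT.lf (nat_lit 0) (nat_lit 2663053428) (nat_lit 76) (nat_lit 10858482068) (nat_lit 152) (nat_lit 9981581463) (nat_lit 16) (nat_lit 5) (nat_lit 17) (nat_lit 5) (nat_lit 18) (nat_lit 4) (nat_lit 295) (nat_lit 230) (nat_lit 195)))) (XT.nd (nat_lit 78) (nat_lit 228) (nat_lit 0) (XT.lf (nat_lit 0) (nat_lit 13399408794) (nat_lit 76) (nat_lit 5539716543) (nat_lit 152) (nat_lit 5547386972) (nat_lit 16) (nat_lit 5) (nat_lit 17) (nat_lit 5) (nat_lit 18) (nat_lit 4) (nat_lit 296) (nat_lit 230) (nat_lit 194)) (XT.nd (nat_lit 78) (nat_lit 228) (nat_lit 0) (XT.lf (nat_lit 0) (nat_lit 24540772429) (nat_lit 76) (nat_lit 9323505) (nat_lit 152) (nat_lit 971374008) (nat_lit 16) (nat_lit 5) (nat_lit 17) (nat_lit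 5) (nat_lit 18) (nat_lit 4) (nat_lit 297) (nat_lit 230) (nat_lit 193)) (XT.lf (nat_lit 0) (nat_lit 3833357238) (nat_lit 228) (nat_lit 17007582179) (nat_lit 76) (nat_lit 5763951366) (nat_lit 13) (nat_lit 5) (nat_lit 16) (nat_lit 5) (nat_lit 14) (nat_lit 4) (nat_lit 298) (nat_lit 230) (nat_lit 192))))))))
noncomputable def xc32 : XT := (XT.nd (nat_lit 1638) (nat_lit 228) (nat_lit 0) (XT.nd (nat_lit 780) (nat_lit 228) (nat_lit 0) (XT.nd (nat_lit 390) (nat_lit 152) (nat_lit 0) (XT.nd (nat_lit 156) (nat_lit 76) (nat_lit 0) (XT.nd (nat_lit 78) (nat_lit 76) (nat_lit 0) (XT.lf (nat_lit 0) (nat_lit 8795983343) (nat_lit 228) (nat_lit 7152641181) (nat_lit 76) (nat_lit 11795496672) (nat_lit 13) (nat_lit 5) (nat_lit 16) (nat_lit 5) (nat_lit 14) (nat_lit 4) (nat_lit 299) (nat_lit 230) (nat_lit 191)) (XT.lf (nat_lit 0) (nat_lit 3137050861) (nat_lit 76) (nat_lit 10830579978) (nat_lit 152) (nat_lit 14973912243)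 (nat_lit 12) (nat_lit 5) (nat_lit 13) (nat_lit 5) (nat_lit 14) (nat_lit 4) (nat_lit 300) (nat_lit 230) (nat_lit 190))) (XT.nd (nat_lit 78) (nat_lit 76) (nat_lit 0) (XT.lf (nat_lit 0) (nat_lit 13974902666) (nat_lit 76) (nat_lit 5429508266) (nat_lit 152) (nat_lit 10794282581) (nat_lit 12) (nat_lit 5) (nat_lit 13) (nat_lit 5) (nat_lit 14) (nat_lit 4) (nat_lit 301) (nat_lit 230) (nat_lit 189)) (XT.nd (nat_lit 78) (nat_lit 76) (nat_lit 0) (XT.lf (nat_lit 0) (nat_lit 25051021005) (nat_lit 152) (nat_lit 6278178966) (nat_lit 0) (nat_lit 191413155) (nat_lit 12) (nat_lit 5) (nat_lit 14) (nat_lit 4) (nat_lit 12) (nat_lit 4) (nat_lit 302) (nat_lit 230) (nat_lit 188)) (XT.lf (nat_lit 0) (nat_lit 4083110268) (nat_lit 76) (nat_lit 26929633821) (nat_lit 76) (nat_lit 1894950097) (nat_lit 11) (nat_lit 4) (nat_lit 12) (nat_lit 5) (nat_lit 12) (nat_lit 4) (nat_lit 303) (nat_lit 230) (nat_lit 187))))) (XT.nd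 (nat_lit 156) (nat_lit 76) (nat_lit 0) (XT.nd (nat_lit 78) (nat_lit 0) (nat_lit 0) (XT.lf (nat_lit 0) (nat_lit 2856960274) (nat_lit 152) (nat_lit 19401793293) (nat_lit 76) (nat_lit 12104423557) (nat_lit 10) (nat_lit 5) (nat_lit 12) (nat_lit 5) (nat_lit 11) (nat_lit 4) (nat_lit 304) (nat_lit 230) (nat_lit 186)) (XT.lf (nat_lit 0) (nat_lit 7750517978) (nat_lit 152) (nat_lit 9626670134) (nat_lit 76) (nat_lit 18515429071) (nat_lit 10) (nat_lit 5) (nat_lit 12) (nat_lit 5) (nat_lit 11) (nat_lit 4) (nat_lit 305) (nat_lit 230) (nat_lit 185))) (XT.nd (nat_lit 78) (nat_lit 0) (nat_lit 0) (XT.lf (nat_lit 0) (nat_lit 553067417) (nat_lit 76) (nat_lit 12286600646) (nat_lit 152) (nat_lit 24660374792) (nat_lit 9) (nat_lit 5) (nat_lit 10) (nat_lit 5) (nat_lit 11) (nat_lit 4) (nat_lit 306) (nat_lit 230) (nat_lit 184)) (XT.nd (nat_lit 78) (nat_lit 0) (nat_lit 0) (XT.lf (nat_lit 0) (nat_lit 11350748103) (nat_lit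 76) (nat_lit 6878927862) (nat_lit 152) (nat_lit 20956810929) (nat_lit 9) (nat_lit 5) (nat_lit 10) (nat_lit 5) (nat_lit 11) (nat_lit 4) (nat_lit 307) (nat_lit 230) (nat_lit 183)) (XT.lf (nat_lit 0) (nat_lit 22600491075) (nat_lit 76) (nat_lit 1238504841) (nat_lit 152) (nat_lit 17119800098) (nat_lit 9) (nat_lit 5) (nat_lit 10) (nat_lit 5) (nat_lit 11) (nat_lit 4) (nat_lit 308) (nat_lit 230) (nat_lit 182)))))) (XT.nd (nat_lit 390) (nat_lit 76) (nat_lit 0) (XT.nd (nat_lit 156) (nat_lit 76) (nat_lit 0) (XT.nd (nat_lit 78) (nat_lit 76) (nat_lit 0) (XT.lf (nat_lit 0) (nat_lit 29725663802) (nat_lit 152) (nat_lit 8536788927) (nat_lit 0) (nat_lit 4557396862) (nat_lit 9) (nat_lit 5) (nat_lit 11) (nat_lit 4) (nat_lit 9) (nat_lit 4) (nat_lit 309) (nat_lit 230) (nat_lit 181)) (XT.lf (nat_lit 0) (nat_lit 1716060650) (nat_lit 76) (nat_lit 34173750353) (nat_lit 76) (nat_lit 8884684234) (nat_lit 8) (nat_lit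 4) (nat_lit 9) (nat_lit 5) (nat_lit 9) (nat_lit 4) (nat_lit 310) (nat_lit 230) (nat_lit 180))) (XT.nd (nat_lit 78) (nat_lit 76) (nat_lit 0) (XT.lf (nat_lit 0) (nat_lit 12581532316) (nat_lit 76) (nat_lit 29824091116) (nat_lit 76) (nat_lit 4419978158) (nat_lit 8) (nat_lit 4) (nat_lit 9) (nat_lit 5) (nat_lit 9) (nat_lit 4) (nat_lit 311) (nat_lit 230) (nat_lit 179)) (XT.nd (nat_lit 78) (nat_lit 0) (nat_lit 0) (XT.lf (nat_lit 0) (nat_lit 219979829) (nat_lit 152) (nat_lit 25067122321) (nat_lit 76) (nat_lit 23693396208) (nat_lit 7) (nat_lit 5) (nat_lit 9) (nat_lit 5) (nat_lit 8) (nat_lit 4) (nat_lit 312) (nat_lit 230) (nat_lit 178)) (XT.lf (nat_lit 0) (nat_lit 4960655001) (nat_lit 152) (nat_lit 15547902594) (nat_lit 76) (nat_lit 30734493888) (nat_lit 7) (nat_lit 5) (nat_lit 9) (nat_lit 5) (nat_lit 8) (nat_lit 4) (nat_lit 313) (nat_lit 230) (nat_lit 177))))) (XT.nd (nat_lit 234) (nat_lit 0) (nat_lit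 0) (XT.nd (nat_lit 78) (nat_lit 76) (nat_lit 0) (XT.lf (nat_lit 0) (nat_lit 9899584373) (nat_lit 152) (nat_lit 5621257753) (nat_lit 76) (nat_lit 38099080498) (nat_lit 7) (nat_lit 5) (nat_lit 9) (nat_lit 5) (nat_lit 8) (nat_lit 4) (nat_lit 314) (nat_lit 230) (nat_lit 176)) (XT.nd (nat_lit 78) (nat_lit 0) (nat_lit 0) (XT.lf (nat_lit 0) (nat_lit 4830711655) (nat_lit 76) (nat_lit 10264251401) (nat_lit 152) (nat_lit 41020414870) (nat_lit 6) (nat_lit 5) (nat_lit 7) (nat_lit 5) (nat_lit 8) (nat_lit 4) (nat_lit 315) (nat_lit 230) (nat_lit 175)) (XT.lf (nat_lit 0) (nat_lit 15859346046) (nat_lit 76) (nat_lit 4712846861) (nat_lit 152) (nat_lit 38162775082) (nat_lit 6) (nat_lit 5) (nat_lit 7) (nat_lit 5) (nat_lit 8) (nat_lit 4) (nat_lit 316) (nat_lit 230) (nat_lit 174)))) (XT.nd (nat_lit 78) (nat_lit 0) (nat_lit 0) (XT.lf (nat_lit 0) (nat_lit 26299680650) (nat_lit 152) (nat_lit 34118029295) (nat_lit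 0) (nat_lit 1068559020) (nat_lit 6) (nat_lit 5) (nat_lit 8) (nat_lit 4) (nat_lit 6) (nat_lit 4) (nat_lit 317) (nat_lit 230) (nat_lit 173)) (XT.nd (nat_lit 78) (nat_lit 0) (nat_lit 0) (XT.lf (nat_lit 0) (nat_lit 32328413059) (nat_lit 152) (nat_lit 25028386814) (nat_lit 0) (nat_lit 7017911197) (nat_lit 6) (nat_lit 5) (nat_lit 8) (nat_lit 4) (nat_lit 6) (nat_lit 4) (nat_lit 318) (nat_lit 230) (nat_lit 172)) (XT.lf (nat_lit 0) (nat_lit 38627441494) (nat_lit 152) (nat_lit 15539749728) (nat_lit 0) (nat_lit 13241339411) (nat_lit 6) (nat_lit 5) (nat_lit 8) (nat_lit 4) (nat_lit 6) (nat_lit 4) (nat_lit 319) (nat_lit 230) (nat_lit 171))))))) (XT.nd (nat_lit 858) (nat_lit 0) (nat_lit 0) (XT.nd (nat_lit 390) (nat_lit 152) (nat_lit 0) (XT.nd (nat_lit 156) (nat_lit 0) (nat_lit 0) (XT.nd (nat_lit 78) (nat_lit 76) (nat_lit 0) (XT.lf (nat_lit 0) (nat_lit 45211763641) (nat_lit 152) (nat_lit 5629526044) (nat_lit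 0) (nat_lit 19753661347) (nat_lit 6) (nat_lit 5) (nat_lit 8) (nat_lit 4) (nat_lit 6) (nat_lit 4) (nat_lit 320) (nat_lit 230) (nat_lit 170)) (XT.lf (nat_lit 0) (nat_lit 4819934285) (nat_lit 76) (nat_lit 47323454329) (nat_lit 76) (nat_lit 21796780405) (nat_lit 5) (nat_lit 4) (nat_lit 6) (nat_lit 5) (nat_lit 6) (nat_lit 4) (nat_lit 321) (nat_lit 230) (nat_lit 169))) (XT.nd (nat_lit 78) (nat_lit 0) (nat_lit 0) (XT.lf (nat_lit 0) (nat_lit 15860622019) (nat_lit 76) (nat_lit 43591553480) (nat_lit 76) (nat_lit 17999573242) (nat_lit 5) (nat_lit 4) (nat_lit 6) (nat_lit 5) (nat_lit 6) (nat_lit 4) (nat_lit 322) (nat_lit 230) (nat_lit 168)) (XT.nd (nat_lit 78) (nat_lit 0) (nat_lit 0) (XT.lf (nat_lit 0) (nat_lit 27406785901) (nat_lit 76) (nat_lit 39693548837) (nat_lit 76) (nat_lit 14039372109) (nat_lit 5) (nat_lit 4) (nat_lit 6) (nat_lit 5) (nat_lit 6) (nat_lit 4) (nat_lit 323) (nat_lit 230) (nat_lit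 167)) (XT.lf (nat_lit 0) (nat_lit 39485916798) (nat_lit 76) (nat_lit 35620159434) (nat_lit 76) (nat_lit 9906747955) (nat_lit 5) (nat_lit 4) (nat_lit 6) (nat_lit 5) (nat_lit 6) (nat_lit 4) (nat_lit 324) (nat_lit 230) (nat_lit 166))))) (XT.nd (nat_lit 234) (nat_lit 76) (nat_lit 0) (XT.nd (nat_lit 78) (nat_lit 76) (nat_lit 0) (XT.lf (nat_lit 0) (nat_lit 52126774545) (nat_lit 76) (nat_lit 31361686727) (nat_lit 76) (nat_lit 5591861198) (nat_lit 5) (nat_lit 4) (nat_lit 6) (nat_lit 5) (nat_lit 6) (nat_lit 4) (nat_lit 325) (nat_lit 230) (nat_lit 165)) (XT.nd (nat_lit 78) (nat_lit 76) (nat_lit 0) (XT.lf (nat_lit 0) (nat_lit 65359456422) (nat_lit 76) (nat_lit 26907991494) (nat_lit 76) (nat_lit 1084438300) (nat_lit 5) (nat_lit 4) (nat_lit 6) (nat_lit 5) (nat_lit 6) (nat_lit 4) (nat_lit 326) (nat_lit 230) (nat_lit 164)) (XT.lf (nat_lit 0) (nat_lit 3555491448) (nat_lit 152) (nat_lit 18657074760) (nat_lit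 76) (nat_lit 75624073875) (nat_lit 4) (nat_lit 5) (nat_lit 6) (nat_lit 5) (nat_lit 5) (nat_lit 4) (nat_lit 327) (nat_lit 230) (nat_lit 163)))) (XT.nd (nat_lit 78) (nat_lit 76) (nat_lit 0) (XT.lf (nat_lit 0) (nat_lit 8384558576) (nat_lit 152) (nat_lit 8902801067) (nat_lit 76) (nat_lit 85258576053) (nat_lit 4) (nat_lit 5) (nat_lit 6) (nat_lit 5) (nat_lit 5) (nat_lit 4) (nat_lit 328) (nat_lit 230) (nat_lit 162)) (XT.nd (nat_lit 78) (nat_lit 0) (nat_lit 0) (XT.lf (nat_lit 0) (nat_lit 1329992981) (nat_lit 76) (nat_lit 12118213883) (nat_lit 152) (nat_lit 94042707988) (nat_lit 3) (nat_lit 5) (nat_lit 4) (nat_lit 5) (nat_lit 5) (nat_lit 4) (nat_lit 329) (nat_lit 230) (nat_lit 161)) (XT.lf (nat_lit 0) (nat_lit 12226330270) (nat_lit 76) (nat_lit 6611304758) (nat_lit 152) (nat_lit 93843342010) (nat_lit 3) (nat_lit 5) (nat_lit 4) (nat_lit 5) (nat_lit 5) (nat_lit 4) (nat_lit 330) (nat_lit 230) (nat_lit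 160)))))) (XT.nd (nat_lit 31980) (nat_lit 0) (nat_lit 6840) (XT.nd (nat_lit 234) (nat_lit 0) (nat_lit 0) (XT.nd (nat_lit 78) (nat_lit 0) (nat_lit 0) (XT.lf (nat_lit 0) (nat_lit 23634971261) (nat_lit 76) (nat_lit 843421414) (nat_lit 152) (nat_lit 93652705342) (nat_lit 3) (nat_lit 5) (nat_lit 4) (nat_lit 5) (nat_lit 5) (nat_lit 4) (nat_lit 331) (nat_lit 230) (nat_lit 159)) (XT.lf (nat_lit 0) (nat_lit 30433887776) (nat_lit 152) (nat_lit 88321152478) (nat_lit 0) (nat_lit 5097714686) (nat_lit 3) (nat_lit 5) (nat_lit 5) (nat_lit 4) (nat_lit 3) (nat_lit 4) (nat_lit 332) (nat_lit 230) (nat_lit 158))) (XT.nd (nat_lit 31590) (nat_lit 0) (nat_lit 9804) (XT.lf (nat_lit 0) (nat_lit 43220761170) (nat_lit 152) (nat_lit 75136650163) (nat_lit 0) (nat_lit 17812211140) (nat_lit 3) (nat_lit 5) (nat_lit 5) (nat_lit 4) (nat_lit 3) (nat_lit 4) (nat_lit 334) (nat_lit 230) (nat_lit 156)) (XT.nd (nat_lit 78) (nat_lit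 532) (nat_lit 0) (XT.lf (nat_lit 0) (nat_lit 1058739103) (nat_lit 608) (nat_lit 1640579365) (nat_lit 0) (nat_lit 1058739103) (nat_lit 139) (nat_lit 5) (nat_lit 147) (nat_lit 4) (nat_lit 139) (nat_lit 4) (nat_lit 258) (nat_lit 231) (nat_lit 231)) (XT.lf (nat_lit 0) (nat_lit 4740527091) (nat_lit 532) (nat_lit 2598034224) (nat_lit 532) (nat_lit 308422933) (nat_lit 132) (nat_lit 4) (nat_lit 139) (nat_lit 5) (nat_lit 139) (nat_lit 4) (nat_lit 259) (nat_lit 231) (nat_lit 230))))) (XT.nd (nat_lit 234) (nat_lit 1368) (nat_lit 0) (XT.nd (nat_lit 78) (nat_lit 1064) (nat_lit 0) (XT.lf (nat_lit 0) (nat_lit 4786047858) (nat_lit 532) (nat_lit 2555993535) (nat_lit 0) (nat_lit 446054195) (nat_lit 125) (nat_lit 5) (nat_lit 132) (nat_lit 4) (nat_lit 125) (nat_lit 4) (nat_lit 260) (nat_lit 231) (nat_lit 229)) (XT.nd (nat_lit 78) (nat_lit 456) (nat_lit 0) (XT.lf (nat_lit 0) (nat_lit 2027581530) (nat_lit 608)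 (nat_lit 2240260373) (nat_lit 76) (nat_lit 3671913589) (nat_lit 117) (nat_lit 5) (nat_lit 125) (nat_lit 5) (nat_lit 118) (nat_lit 4) (nat_lit 261) (nat_lit 231) (nat_lit 228)) (XT.lf (nat_lit 0) (nat_lit 6150005445) (nat_lit 456) (nat_lit 956645439) (nat_lit 532) (nat_lit 996175605) (nat_lit 111) (nat_lit 5) (nat_lit 117) (nat_lit 5) (nat_lit 118) (nat_lit 4) (nat_lit 262) (nat_lit 231) (nat_lit 227)))) (XT.nd (nat_lit 78) (nat_lit 836) (nat_lit 0) (XT.lf (nat_lit 0) (nat_lit 3975253286) (nat_lit 532) (nat_lit 1741207268) (nat_lit 76) (nat_lit 2560143584) (nat_lit 104) (nat_lit 5) (nat_lit 111) (nat_lit 5) (nat_lit 105) (nat_lit 4) (nat_lit 263) (nat_lit 231) (nat_lit 226)) (XT.nd (nat_lit 78) (nat_lit 380) (nat_lit 0) (XT.lf (nat_lit 0) (nat_lit 583796085) (nat_lit 456) (nat_lit 1582381252) (nat_lit 76) (nat_lit 6296379899) (nat_lit 98) (nat_lit 5) (nat_lit 104) (nat_lit 5) (nat_lit 99)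 (nat_lit 5) (nat_lit 264) (nat_lit 231) (nat_lit 225)) (XT.lf (nat_lit 0) (nat_lit 5520165405) (nat_lit 456) (nat_lit 1524575284) (nat_lit 76) (nat_lit 1615336319) (nat_lit 93) (nat_lit 5) (nat_lit 99) (nat_lit 5) (nat_lit 94) (nat_lit 4) (nat_lit 265) (nat_lit 231) (nat_lit 224))))))))
noncomputable def xc33 : XT := (XT.nd (nat_lit 1716) (nat_lit 1292) (nat_lit 0) (XT.nd (nat_lit 858) (nat_lit 1748) (nat_lit 0) (XT.nd (nat_lit 390) (nat_lit 1444) (nat_lit 0) (XT.nd (nat_lit 156) (nat_lit 1064) (nat_lit 0) (XT.nd (nat_lit 78) (nat_lit 380) (nat_lit 0) (XT.lf (nat_lit 0) (nat_lit 1706885661) (nat_lit 456) (nat_lit 1565659514) (nat_lit 76) (nat_lit 5597585646) (nat_lit 87) (nat_lit 5) (nat_lit 93) (nat_lit 5) (nat_lit 88) (nat_lit 5) (nat_lit 266) (nat_lit 231) (nat_lit 223)) (XT.lf (nat_lit 0) (nat_lit 6630027611) (nat_lit 456) (nat_lit 1723382859) (nat_lit 76) (nat_lit 739749609) (nat_lit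 82) (nat_lit 5) (nat_lit 88) (nat_lit 5) (nat_lit 83) (nat_lit 4) (nat_lit 267) (nat_lit 231) (nat_lit 222))) (XT.nd (nat_lit 78) (nat_lit 684) (nat_lit 0) (XT.lf (nat_lit 0) (nat_lit 2353118603) (nat_lit 380) (nat_lit 2035153105) (nat_lit 76) (nat_lit 4940820653) (nat_lit 77) (nat_lit 5) (nat_lit 82) (nat_lit 5) (nat_lit 78) (nat_lit 5) (nat_lit 268) (nat_lit 231) (nat_lit 221)) (XT.nd (nat_lit 78) (nat_lit 380) (nat_lit 0) (XT.lf (nat_lit 0) (nat_lit 7088542868) (nat_lit 304) (nat_lit 172525603) (nat_lit 380) (nat_lit 2318295410) (nat_lit 73) (nat_lit 5) (nat_lit 77) (nat_lit 5) (nat_lit 78) (nat_lit 5) (nat_lit 269) (nat_lit 231) (nat_lit 220)) (XT.lf (nat_lit 0) (nat_lit 2469046304) (nat_lit 380) (nat_lit 3153470424) (nat_lit 76) (nat_lit 4220785535) (nat_lit 68) (nat_lit 5) (nat_lit 73) (nat_lit 5) (nat_lit 69) (nat_lit 5) (nat_lit 270) (nat_lit 231) (nat_lit 219))))) (XT.nd (nat_lit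 234) (nat_lit 532) (nat_lit 0) (XT.nd (nat_lit 78) (nat_lit 608) (nat_lit 0) (XT.lf (nat_lit 0) (nat_lit 6114470925) (nat_lit 304) (nat_lit 1245626860) (nat_lit 380) (nat_lit 2762572306) (nat_lit 64) (nat_lit 5) (nat_lit 68) (nat_lit 5) (nat_lit 69) (nat_lit 5) (nat_lit 271) (nat_lit 231) (nat_lit 218)) (XT.nd (nat_lit 78) (nat_lit 304) (nat_lit 0) (XT.lf (nat_lit 0) (nat_lit 1985387562) (nat_lit 304) (nat_lit 5108325470) (nat_lit 76) (nat_lit 3323573260) (nat_lit 60) (nat_lit 5) (nat_lit 64) (nat_lit 5) (nat_lit 61) (nat_lit 5) (nat_lit 272) (nat_lit 231) (nat_lit 217)) (XT.lf (nat_lit 0) (nat_lit 4256725079) (nat_lit 304) (nat_lit 2587380673) (nat_lit 380) (nat_lit 3884047338) (nat_lit 56) (nat_lit 5) (nat_lit 60) (nat_lit 5) (nat_lit 61) (nat_lit 5) (nat_lit 273) (nat_lit 231) (nat_lit 216)))) (XT.nd (nat_lit 78) (nat_lit 228) (nat_lit 0) (XT.lf (nat_lit 0) (nat_lit 814836052) (nat_lit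 304) (nat_lit 8117797814) (nat_lit 76) (nat_lit 2123677426) (nat_lit 52) (nat_lit 5) (nat_lit 56) (nat_lit 5) (nat_lit 53) (nat_lit 5) (nat_lit 274) (nat_lit 231) (nat_lit 215)) (XT.nd (nat_lit 78) (nat_lit 0) (nat_lit 0) (XT.lf (nat_lit 0) (nat_lit 1284324187) (nat_lit 228) (nat_lit 4333985803) (nat_lit 304) (nat_lit 5783139228) (nat_lit 49) (nat_lit 5) (nat_lit 52) (nat_lit 5) (nat_lit 53) (nat_lit 5) (nat_lit 275) (nat_lit 231) (nat_lit 214)) (XT.lf (nat_lit 0) (nat_lit 10599204689) (nat_lit 304) (nat_lit 668256410) (nat_lit 76) (nat_lit 498479551) (nat_lit 49) (nat_lit 5) (nat_lit 53) (nat_lit 5) (nat_lit 50) (nat_lit 4) (nat_lit 276) (nat_lit 231) (nat_lit 213)))))) (XT.nd (nat_lit 390) (nat_lit 760) (nat_lit 0) (XT.nd (nat_lit 156) (nat_lit 456) (nat_lit 0) (XT.nd (nat_lit 78) (nat_lit 228) (nat_lit 0) (XT.lf (nat_lit 0) (nat_lit 3595581717) (nat_lit 304) (nat_lit 3012905008) (nat_lit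 76) (nat_lit 5539699038) (nat_lit 45) (nat_lit 5) (nat_lit 49) (nat_lit 5) (nat_lit 46) (nat_lit 5) (nat_lit 277) (nat_lit 231) (nat_lit 212)) (XT.lf (nat_lit 0) (nat_lit 6801006504) (nat_lit 228) (nat_lit 1702050073) (nat_lit 304) (nat_lit 4048393334) (nat_lit 42) (nat_lit 5) (nat_lit 45) (nat_lit 5) (nat_lit 46) (nat_lit 5) (nat_lit 278) (nat_lit 231) (nat_lit 211))) (XT.nd (nat_lit 78) (nat_lit 228) (nat_lit 0) (XT.lf (nat_lit 0) (nat_lit 633118542) (nat_lit 228) (nat_lit 8953473733) (nat_lit 76) (nat_lit 3389301468) (nat_lit 39) (nat_lit 5) (nat_lit 42) (nat_lit 5) (nat_lit 40) (nat_lit 5) (nat_lit 279) (nat_lit 231) (nat_lit 210)) (XT.nd (nat_lit 78) (nat_lit 0) (nat_lit 0) (XT.lf (nat_lit 0) (nat_lit 732218136) (nat_lit 228) (nat_lit 4683309158) (nat_lit 304) (nat_lit 8006479503) (nat_lit 36) (nat_lit 5) (nat_lit 39) (nat_lit 5) (nat_lit 40) (nat_lit 5) (nat_lit 280) (nat_lit 231)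 (nat_lit 209)) (XT.lf (nat_lit 0) (nat_lit 10404138498) (nat_lit 304) (nat_lit 3008905635) (nat_lit 76) (nat_lit 478526975) (nat_lit 36) (nat_lit 5) (nat_lit 40) (nat_lit 5) (nat_lit 37) (nat_lit 4) (nat_lit 281) (nat_lit 231) (nat_lit 208))))) (XT.nd (nat_lit 234) (nat_lit 380) (nat_lit 0) (XT.nd (nat_lit 78) (nat_lit 152) (nat_lit 0) (XT.lf (nat_lit 0) (nat_lit 1223579045) (nat_lit 228) (nat_lit 7346082961) (nat_lit 76) (nat_lit 5815018568) (nat_lit 33) (nat_lit 5) (nat_lit 36) (nat_lit 5) (nat_lit 34) (nat_lit 5) (nat_lit 282) (nat_lit 231) (nat_lit 207)) (XT.nd (nat_lit 78) (nat_lit 0) (nat_lit 0) (XT.lf (nat_lit 0) (nat_lit 2572178988) (nat_lit 152) (nat_lit 3461018700) (nat_lit 228) (nat_lit 8870295691) (nat_lit 31) (nat_lit 5) (nat_lit 33) (nat_lit 5) (nat_lit 34) (nat_lit 5) (nat_lit 283) (nat_lit 231) (nat_lit 206)) (XT.lf (nat_lit 0) (nat_lit 11059789243) (nat_lit 228) (nat_lit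 2514976826) (nat_lit 76) (nat_lit 1874318566) (nat_lit 31) (nat_lit 5) (nat_lit 34) (nat_lit 5) (nat_lit 32) (nat_lit 4) (nat_lit 284) (nat_lit 231) (nat_lit 205)))) (XT.nd (nat_lit 78) (nat_lit 152) (nat_lit 0) (XT.lf (nat_lit 0) (nat_lit 306104236) (nat_lit 228) (nat_lit 8297934521) (nat_lit 76) (nat_lit 7418052890) (nat_lit 28) (nat_lit 5) (nat_lit 31) (nat_lit 5) (nat_lit 29) (nat_lit 5) (nat_lit 285) (nat_lit 231) (nat_lit 204)) (XT.nd (nat_lit 78) (nat_lit 0) (nat_lit 0) (XT.lf (nat_lit 0) (nat_lit 1715846662) (nat_lit 152) (nat_lit 3363064342) (nat_lit 228) (nat_lit 11545648559) (nat_lit 26) (nat_lit 5) (nat_lit 28) (nat_lit 5) (nat_lit 29) (nat_lit 5) (nat_lit 286) (nat_lit 231) (nat_lit 203)) (XT.lf (nat_lit 0) (nat_lit 10090068190) (nat_lit 228) (nat_lit 5047762114) (nat_lit 76) (nat_lit 2119440449) (nat_lit 26) (nat_lit 5) (nat_lit 29) (nat_lit 5) (nat_lit 27) (nat_lit 4) (nat_lit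 287) (nat_lit 231) (nat_lit 202))))))) (XT.nd (nat_lit 858) (nat_lit 304) (nat_lit 0) (XT.nd (nat_lit 390) (nat_lit 532) (nat_lit 0) (XT.nd (nat_lit 156) (nat_lit 228) (nat_lit 0) (XT.nd (nat_lit 78) (nat_lit 76) (nat_lit 0) (XT.lf (nat_lit 0) (nat_lit 5206774113) (nat_lit 152) (nat_lit 10126979120) (nat_lit 228) (nat_lit 2588511057) (nat_lit 24) (nat_lit 5) (nat_lit 26) (nat_lit 5) (nat_lit 27) (nat_lit 4) (nat_lit 288) (nat_lit 231) (nat_lit 201)) (XT.lf (nat_lit 0) (nat_lit 2128485448) (nat_lit 228) (nat_lit 2725688570) (nat_lit 76) (nat_lit 13767211246) (nat_lit 23) (nat_lit 5) (nat_lit 26) (nat_lit 5) (nat_lit 24) (nat_lit 5) (nat_lit 289) (nat_lit 231) (nat_lit 200))) (XT.nd (nat_lit 78) (nat_lit 76) (nat_lit 0) (XT.lf (nat_lit 0) (nat_lit 7014528117) (nat_lit 228) (nat_lit 11630589025) (nat_lit 76) (nat_lit 710067605) (nat_lit 21) (nat_lit 5) (nat_lit 24) (nat_lit 5) (nat_lit 22)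 (nat_lit 4) (nat_lit 290) (nat_lit 231) (nat_lit 199)) (XT.nd (nat_lit 78) (nat_lit 76) (nat_lit 0) (XT.lf (nat_lit 0) (nat_lit 12129639166) (nat_lit 228) (nat_lit 1574118847) (nat_lit 76) (nat_lit 6422462007) (nat_lit 21) (nat_lit 5) (nat_lit 24) (nat_lit 5) (nat_lit 22) (nat_lit 4) (nat_lit 291) (nat_lit 231) (nat_lit 198)) (XT.lf (nat_lit 0) (nat_lit 9014055004) (nat_lit 76) (nat_lit 8484942735) (nat_lit 152) (nat_lit 3436939137) (nat_lit 20) (nat_lit 5) (nat_lit 21) (nat_lit 5) (nat_lit 22) (nat_lit 4) (nat_lit 292) (nat_lit 231) (nat_lit 197))))) (XT.nd (nat_lit 234) (nat_lit 304) (nat_lit 0) (XT.nd (nat_lit 78) (nat_lit 152) (nat_lit 0) (XT.lf (nat_lit 0) (nat_lit 1254437294) (nat_lit 152) (nat_lit 1778862659) (nat_lit 76) (nat_lit 18754625033) (nat_lit 19) (nat_lit 5) (nat_lit 21) (nat_lit 5) (nat_lit 20) (nat_lit 5) (nat_lit 293) (nat_lit 231) (nat_lit 196)) (XT.nd (nat_lit 78) (nat_lit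 0) (nat_lit 0) (XT.lf (nat_lit 0) (nat_lit 6139618226) (nat_lit 228) (nat_lit 13835941423) (nat_lit 76) (nat_lit 2705096952) (nat_lit 17) (nat_lit 5) (nat_lit 20) (nat_lit 5) (nat_lit 18) (nat_lit 4) (nat_lit 294) (nat_lit 231) (nat_lit 195)) (XT.lf (nat_lit 0) (nat_lit 11238123874) (nat_lit 228) (nat_lit 3747326967) (nat_lit 76) (nat_lit 8633572918) (nat_lit 17) (nat_lit 5) (nat_lit 20) (nat_lit 5) (nat_lit 18) (nat_lit 4) (nat_lit 295) (nat_lit 231) (nat_lit 194)))) (XT.nd (nat_lit 78) (nat_lit 228) (nat_lit 0) (XT.lf (nat_lit 0) (nat_lit 6850151926) (nat_lit 76) (nat_lit 9731019027) (nat_lit 152) (nat_lit 8023517392) (nat_lit 16) (nat_lit 5) (nat_lit 17) (nat_lit 5) (nat_lit 18) (nat_lit 4) (nat_lit 296) (nat_lit 231) (nat_lit 193)) (XT.nd (nat_lit 78) (nat_lit 228) (nat_lit 0) (XT.lf (nat_lit 0) (nat_lit 17930280021) (nat_lit 76) (nat_lit 4225857470) (nat_lit 152) (nat_lit 3484619993)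 (nat_lit 16) (nat_lit 5) (nat_lit 17) (nat_lit 5) (nat_lit 18) (nat_lit 4) (nat_lit 297) (nat_lit 231) (nat_lit 192)) (XT.lf (nat_lit 0) (nat_lit 1226513067) (nat_lit 228) (nat_lit 23988280203) (nat_lit 76) (nat_lit 1514418061) (nat_lit 13) (nat_lit 5) (nat_lit 16) (nat_lit 5) (nat_lit 14) (nat_lit 4) (nat_lit 298) (nat_lit 231) (nat_lit 191)))))) (XT.nd (nat_lit 390) (nat_lit 228) (nat_lit 0) (XT.nd (nat_lit 156) (nat_lit 76) (nat_lit 0) (XT.nd (nat_lit 78) (nat_lit 0) (nat_lit 0) (XT.lf (nat_lit 0) (nat_lit 6155351285) (nat_lit 228) (nat_lit 14191490993) (nat_lit 76) (nat_lit 7522640738) (nat_lit 13) (nat_lit 5) (nat_lit 16) (nat_lit 5) (nat_lit 14) (nat_lit 4) (nat_lit 299) (nat_lit 231) (nat_lit 190)) (XT.lf (nat_lit 0) (nat_lit 11264664591) (nat_lit 228) (nat_lit 4018396768) (nat_lit 76) (nat_lit 13785739890) (nat_lit 13) (nat_lit 5) (nat_lit 16) (nat_lit 5) (nat_lit 14) (nat_lit 4)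 (nat_lit 300) (nat_lit 231) (nat_lit 189))) (XT.nd (nat_lit 78) (nat_lit 0) (nat_lit 0) (XT.lf (nat_lit 0) (nat_lit 6685685937) (nat_lit 76) (nat_lit 9945198981) (nat_lit 152) (nat_lit 13697208624) (nat_lit 12) (nat_lit 5) (nat_lit 13) (nat_lit 5) (nat_lit 14) (nat_lit 4) (nat_lit 301) (nat_lit 231) (nat_lit 188)) (XT.nd (nat_lit 78) (nat_lit 0) (nat_lit 0) (XT.lf (nat_lit 0) (nat_lit 17903916879) (nat_lit 76) (nat_lit 4342021779) (nat_lit 152) (nat_lit 9405045062) (nat_lit 12) (nat_lit 5) (nat_lit 13) (nat_lit 5) (nat_lit 14) (nat_lit 4) (nat_lit 302) (nat_lit 231) (nat_lit 187)) (XT.lf (nat_lit 0) (nat_lit 28098210486) (nat_lit 152) (nat_lit 3473182795) (nat_lit 0) (nat_lit 1469977774) (nat_lit 12) (nat_lit 5) (nat_lit 14) (nat_lit 4) (nat_lit 12) (nat_lit 4) (nat_lit 303) (nat_lit 231) (nat_lit 186))))) (XT.nd (nat_lit 234) (nat_lit 76) (nat_lit 0) (XT.nd (nat_lit 78) (nat_lit 76) (nat_lit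 0) (XT.lf (nat_lit 0) (nat_lit 7316768113) (nat_lit 76) (nat_lit 26984914068) (nat_lit 76) (nat_lit 197882378) (nat_lit 11) (nat_lit 4) (nat_lit 12) (nat_lit 5) (nat_lit 12) (nat_lit 4) (nat_lit 304) (nat_lit 231) (nat_lit 185)) (XT.nd (nat_lit 78) (nat_lit 0) (nat_lit 0) (XT.lf (nat_lit 0) (nat_lit 4672999198) (nat_lit 152) (nat_lit 17452080439) (nat_lit 76) (nat_lit 13904798193) (nat_lit 10) (nat_lit 5) (nat_lit 12) (nat_lit 5) (nat_lit 11) (nat_lit 4) (nat_lit 305) (nat_lit 231) (nat_lit 184)) (XT.lf (nat_lit 0) (nat_lit 9731559029) (nat_lit 152) (nat_lit 7327239338) (nat_lit 76) (nat_lit 20579441914) (nat_lit 10) (nat_lit 5) (nat_lit 12) (nat_lit 5) (nat_lit 11) (nat_lit 4) (nat_lit 306) (nat_lit 231) (nat_lit 183)))) (XT.nd (nat_lit 78) (nat_lit 0) (nat_lit 0) (XT.lf (nat_lit 0) (nat_lit 3281775040) (nat_lit 76) (nat_lit 11743474090) (nat_lit 152) (nat_lit 24302342883) (nat_lit 9) (nat_lit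 5) (nat_lit 10) (nat_lit 5) (nat_lit 11) (nat_lit 4) (nat_lit 307) (nat_lit 231) (nat_lit 182)) (XT.nd (nat_lit 78) (nat_lit 0) (nat_lit 0) (XT.lf (nat_lit 0) (nat_lit 14490718130) (nat_lit 76) (nat_lit 6120534647) (nat_lit 152) (nat_lit 20489365143) (nat_lit 9) (nat_lit 5) (nat_lit 10) (nat_lit 5) (nat_lit 11) (nat_lit 4) (nat_lit 308) (nat_lit 231) (nat_lit 181)) (XT.lf (nat_lit 0) (nat_lit 26180451459) (nat_lit 76) (nat_lit 250582837) (nat_lit 152) (nat_lit 16532660263) (nat_lit 9) (nat_lit 5) (nat_lit 10) (nat_lit 5) (nat_lit 11) (nat_lit 4) (nat_lit 309) (nat_lit 231) (nat_lit 180))))))))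
noncomputable def xc34 : XT := (XT.nd (nat_lit 1716) (nat_lit 0) (nat_lit 0) (XT.nd (nat_lit 858) (nat_lit 228) (nat_lit 0) (XT.nd (nat_lit 390) (nat_lit 76) (nat_lit 0) (XT.nd (nat_lit 156) (nat_lit 76) (nat_lit 0) (XT.nd (nat_lit 78) (nat_lit 76) (nat_lit 0) (XT.lf (nat_lit 0) (nat_lit 32554975904) (nat_lit 152) (nat_lit 6598975696) (nat_lit 0) (nat_lit 5765610462) (nat_lit 9) (nat_lit 5) (nat_lit 11) (nat_lit 4) (nat_lit 9) (nat_lit 4) (nat_lit 310) (nat_lit 231) (nat_lit 179)) (XT.lf (nat_lit 0) (nat_lit 4098734066) (nat_lit 76) (nat_lit 34886721565) (nat_lit 76) (nat_lit 7987787706) (nat_lit 8) (nat_lit 4) (nat_lit 9) (nat_lit 5) (nat_lit 9) (nat_lit 4) (nat_lit 311) (nat_lit 231) (nat_lit 178))) (XT.nd (nat_lit 78) (nat_lit 76) (nat_lit 0) (XT.lf (nat_lit 0) (nat_lit 15398104535) (nat_lit 76) (nat_lit 30366994428) (nat_lit 76) (nat_lit 3363709695) (nat_lit 8) (nat_lit 4) (nat_lit 9)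 (nat_lit 5) (nat_lit 9) (nat_lit 4) (nat_lit 312) (nat_lit 231) (nat_lit 177)) (XT.nd (nat_lit 78) (nat_lit 0) (nat_lit 0) (XT.lf (nat_lit 0) (nat_lit 1423686710) (nat_lit 152) (nat_lit 24212582495) (nat_lit 76) (nat_lit 25756643264) (nat_lit 7) (nat_lit 5) (nat_lit 9) (nat_lit 5) (nat_lit 8) (nat_lit 4) (nat_lit 313) (nat_lit 231) (nat_lit 176)) (XT.lf (nat_lit 0) (nat_lit 6344600027) (nat_lit 152) (nat_lit 14317777779) (nat_lit 76) (nat_lit 33107958816) (nat_lit 7) (nat_lit 5) (nat_lit 9) (nat_lit 5) (nat_lit 8) (nat_lit 4) (nat_lit 314) (nat_lit 231) (nat_lit 175))))) (XT.nd (nat_lit 234) (nat_lit 0) (nat_lit 0) (XT.nd (nat_lit 78) (nat_lit 76) (nat_lit 0) (XT.lf (nat_lit 0) (nat_lit 11476384806) (nat_lit 152) (nat_lit 3990396884) (nat_lit 76) (nat_lit 40800929984) (nat_lit 7) (nat_lit 5) (nat_lit 9) (nat_lit 5) (nat_lit 8) (nat_lit 4) (nat_lit 315) (nat_lit 231) (nat_lit 174)) (XT.nd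 (nat_lit 78) (nat_lit 0) (nat_lit 0) (XT.lf (nat_lit 0) (nat_lit 6929366084) (nat_lit 76) (nat_lit 9968502806) (nat_lit 152) (nat_lit 41991116587) (nat_lit 6) (nat_lit 5) (nat_lit 7) (nat_lit 5) (nat_lit 8) (nat_lit 4) (nat_lit 316) (nat_lit 231) (nat_lit 173)) (XT.lf (nat_lit 0) (nat_lit 18420997964) (nat_lit 76) (nat_lit 4178050000) (nat_lit 152) (nat_lit 39042038573) (nat_lit 6) (nat_lit 5) (nat_lit 7) (nat_lit 5) (nat_lit 8) (nat_lit 4) (nat_lit 317) (nat_lit 231) (nat_lit 172)))) (XT.nd (nat_lit 78) (nat_lit 0) (nat_lit 0) (XT.lf (nat_lit 0) (nat_lit 28572427867) (nat_lit 152) (nat_lit 34117351203) (nat_lit 0) (nat_lit 1841420457) (nat_lit 6) (nat_lit 5) (nat_lit 8) (nat_lit 4) (nat_lit 6) (nat_lit 4) (nat_lit 318) (nat_lit 231) (nat_lit 171)) (XT.nd (nat_lit 78) (nat_lit 0) (nat_lit 0) (XT.lf (nat_lit 0) (nat_lit 34856989126) (nat_lit 152) (nat_lit 24654492291) (nat_lit 0) (nat_lit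 8053981506) (nat_lit 6) (nat_lit 5) (nat_lit 8) (nat_lit 4) (nat_lit 6) (nat_lit 4) (nat_lit 319) (nat_lit 231) (nat_lit 170)) (XT.lf (nat_lit 0) (nat_lit 41427533011) (nat_lit 152) (nat_lit 14768819249) (nat_lit 0) (nat_lit 14555953761) (nat_lit 6) (nat_lit 5) (nat_lit 8) (nat_lit 4) (nat_lit 6) (nat_lit 4) (nat_lit 320) (nat_lit 231) (nat_lit 169)))))) (XT.nd (nat_lit 390) (nat_lit 152) (nat_lit 0) (XT.nd (nat_lit 156) (nat_lit 0) (nat_lit 0) (XT.nd (nat_lit 78) (nat_lit 76) (nat_lit 0) (XT.lf (nat_lit 0) (nat_lit 48299703673) (nat_lit 152) (nat_lit 4436794761) (nat_lit 0) (nat_lit 21362818109) (nat_lit 6) (nat_lit 5) (nat_lit 8) (nat_lit 4) (nat_lit 6) (nat_lit 4) (nat_lit 321) (nat_lit 231) (nat_lit 168)) (XT.lf (nat_lit 0) (nat_lit 6492880721) (nat_lit 76) (nat_lit 49059396243) (nat_lit 76) (nat_lit 22060314190) (nat_lit 5) (nat_lit 4) (nat_lit 6) (nat_lit 5) (nat_lit 6) (nat_lit 4)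 (nat_lit 322) (nat_lit 231) (nat_lit 167))) (XT.nd (nat_lit 78) (nat_lit 0) (nat_lit 0) (XT.lf (nat_lit 0) (nat_lit 18017414759) (nat_lit 76) (nat_lit 45170911343) (nat_lit 76) (nat_lit 18112594538) (nat_lit 5) (nat_lit 4) (nat_lit 6) (nat_lit 5) (nat_lit 6) (nat_lit 4) (nat_lit 323) (nat_lit 231) (nat_lit 166)) (XT.nd (nat_lit 78) (nat_lit 0) (nat_lit 0) (XT.lf (nat_lit 0) (nat_lit 30075945805) (nat_lit 76) (nat_lit 41106588362) (nat_lit 76) (nat_lit 13991857508) (nat_lit 5) (nat_lit 4) (nat_lit 6) (nat_lit 5) (nat_lit 6) (nat_lit 4) (nat_lit 324) (nat_lit 231) (nat_lit 165)) (XT.lf (nat_lit 0) (nat_lit 42697184646) (nat_lit 76) (nat_lit 36856750343) (nat_lit 76) (nat_lit 9688291823) (nat_lit 5) (nat_lit 4) (nat_lit 6) (nat_lit 5) (nat_lit 6) (nat_lit 4) (nat_lit 325) (nat_lit 231) (nat_lit 164))))) (XT.nd (nat_lit 234) (nat_lit 76) (nat_lit 0) (XT.nd (nat_lit 78) (nat_lit 76) (nat_lit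 0) (XT.lf (nat_lit 0) (nat_lit 55911181852) (nat_lit 76) (nat_lit 32411278623) (nat_lit 76) (nat_lit 5191650897) (nat_lit 5) (nat_lit 4) (nat_lit 6) (nat_lit 5) (nat_lit 6) (nat_lit 4) (nat_lit 326) (nat_lit 231) (nat_lit 163)) (XT.nd (nat_lit 78) (nat_lit 76) (nat_lit 0) (XT.lf (nat_lit 0) (nat_lit 69749399319) (nat_lit 76) (nat_lit 27759588745) (nat_lit 76) (nat_lit 491228442) (nat_lit 5) (nat_lit 4) (nat_lit 6) (nat_lit 5) (nat_lit 6) (nat_lit 4) (nat_lit 327) (nat_lit 231) (nat_lit 162)) (XT.lf (nat_lit 0) (nat_lit 4337835589) (nat_lit 152) (nat_lit 18508966033) (nat_lit 76) (nat_lit 79863145962) (nat_lit 4) (nat_lit 5) (nat_lit 6) (nat_lit 5) (nat_lit 5) (nat_lit 4) (nat_lit 328) (nat_lit 231) (nat_lit 161)))) (XT.nd (nat_lit 78) (nat_lit 76) (nat_lit 0) (XT.lf (nat_lit 0) (nat_lit 9379567046) (nat_lit 152) (nat_lit 8318453059) (nat_lit 76) (nat_lit 89957569992) (nat_lit 4) (nat_lit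 5) (nat_lit 6) (nat_lit 5) (nat_lit 5) (nat_lit 4) (nat_lit 329) (nat_lit 231) (nat_lit 160)) (XT.nd (nat_lit 78) (nat_lit 0) (nat_lit 0) (XT.lf (nat_lit 0) (nat_lit 2396470623) (nat_lit 76) (nat_lit 12282121406) (nat_lit 152) (nat_lit 98169777925) (nat_lit 3) (nat_lit 5) (nat_lit 4) (nat_lit 5) (nat_lit 5) (nat_lit 4) (nat_lit 330) (nat_lit 231) (nat_lit 159)) (XT.lf (nat_lit 0) (nat_lit 13790006777) (nat_lit 76) (nat_lit 6520914595) (nat_lit 152) (nat_lit 97987827718) (nat_lit 3) (nat_lit 5) (nat_lit 4) (nat_lit 5) (nat_lit 5) (nat_lit 4) (nat_lit 331) (nat_lit 231) (nat_lit 158))))))) (XT.nd (nat_lit 32292) (nat_lit 0) (nat_lit 3724) (XT.nd (nat_lit 31824) (nat_lit 0) (nat_lit 7220) (XT.nd (nat_lit 31590) (nat_lit 0) (nat_lit 10336) (XT.nd (nat_lit 156) (nat_lit 0) (nat_lit 0) (XT.lf (nat_lit 0) (nat_lit 25723729341) (nat_lit 76) (nat_lit 484682579) (nat_lit 152) (nat_lit 97813739283)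 (nat_lit 3) (nat_lit 5) (nat_lit 4) (nat_lit 5) (nat_lit 5) (nat_lit 4) (nat_lit 332) (nat_lit 231) (nat_lit 157)) (XT.lf (nat_lit 0) (nat_lit 38975587190) (nat_lit 152) (nat_lit 85136352650) (nat_lit 0) (nat_lit 12227679239) (nat_lit 3) (nat_lit 5) (nat_lit 5) (nat_lit 4) (nat_lit 3) (nat_lit 4) (nat_lit 334) (nat_lit 231) (nat_lit 155))) (XT.nd (nat_lit 78) (nat_lit 1444) (nat_lit 0) (XT.lf (nat_lit 0) (nat_lit 847273211) (nat_lit 1140) (nat_lit 1946156156) (nat_lit 0) (nat_lit 847273211) (nat_lit 158) (nat_lit 5) (nat_lit 173) (nat_lit 4) (nat_lit 158) (nat_lit 4) (nat_lit 256) (nat_lit 232) (nat_lit 232)) (XT.nd (nat_lit 78) (nat_lit 608) (nat_lit 0) (XT.lf (nat_lit 0) (nat_lit 3742111303) (nat_lit 836) (nat_lit 3064905205) (nat_lit 836) (nat_lit 588690594) (nat_lit 147) (nat_lit 4) (nat_lit 158) (nat_lit 5) (nat_lit 158) (nat_lit 4) (nat_lit 257) (nat_lit 232) (nat_lit 231)) (XT.lf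 (nat_lit 0) (nat_lit 4105393378) (nat_lit 532) (nat_lit 298502000) (nat_lit 608) (nat_lit 3116062227) (nat_lit 139) (nat_lit 5) (nat_lit 146) (nat_lit 5) (nat_lit 147) (nat_lit 4) (nat_lit 258) (nat_lit 232) (nat_lit 230))))) (XT.nd (nat_lit 234) (nat_lit 1444) (nat_lit 0) (XT.nd (nat_lit 78) (nat_lit 1064) (nat_lit 0) (XT.lf (nat_lit 0) (nat_lit 1813975747) (nat_lit 608) (nat_lit 3191914560) (nat_lit 76) (nat_lit 2648305386) (nat_lit 131) (nat_lit 5) (nat_lit 139) (nat_lit 5) (nat_lit 132) (nat_lit 4) (nat_lit 259) (nat_lit 232) (nat_lit 229)) (XT.nd (nat_lit 78) (nat_lit 608) (nat_lit 0) (XT.lf (nat_lit 0) (nat_lit 4816733071) (nat_lit 456) (nat_lit 1965416354) (nat_lit 532) (nat_lit 1016951971) (nat_lit 125) (nat_lit 5) (nat_lit 131) (nat_lit 5) (nat_lit 132) (nat_lit 4) (nat_lit 260) (nat_lit 232) (nat_lit 228)) (XT.lf (nat_lit 0) (nat_lit 3840474706) (nat_lit 608) (nat_lit 2814401959)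 (nat_lit 76) (nat_lit 1299570388) (nat_lit 117) (nat_lit 5) (nat_lit 125) (nat_lit 5) (nat_lit 118) (nat_lit 4) (nat_lit 261) (nat_lit 232) (nat_lit 227)))) (XT.nd (nat_lit 78) (nat_lit 912) (nat_lit 0) (XT.lf (nat_lit 0) (nat_lit 673109020) (nat_lit 532) (nat_lit 2687612543) (nat_lit 76) (nat_lit 4760198263) (nat_lit 110) (nat_lit 5) (nat_lit 117) (nat_lit 5) (nat_lit 111) (nat_lit 5) (nat_lit 262) (nat_lit 232) (nat_lit 226)) (XT.nd (nat_lit 78) (nat_lit 456) (nat_lit 0) (XT.lf (nat_lit 0) (nat_lit 5490885362) (nat_lit 532) (nat_lit 2621550423) (nat_lit 76) (nat_lit 186224696) (nat_lit 104) (nat_lit 5) (nat_lit 111) (nat_lit 5) (nat_lit 105) (nat_lit 4) (nat_lit 263) (nat_lit 232) (nat_lit 225)) (XT.lf (nat_lit 0) (nat_lit 1938247448) (nat_lit 456) (nat_lit 2641659446) (nat_lit 76) (nat_lit 3907782352) (nat_lit 98) (nat_lit 5) (nat_lit 104) (nat_lit 5) (nat_lit 99) (nat_lit 5) (nat_lit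 264) (nat_lit 232) (nat_lit 224)))))) (XT.nd (nat_lit 390) (nat_lit 1596) (nat_lit 0) (XT.nd (nat_lit 156) (nat_lit 1064) (nat_lit 0) (XT.nd (nat_lit 78) (nat_lit 456) (nat_lit 0) (XT.lf (nat_lit 0) (nat_lit 5950204196) (nat_lit 380) (nat_lit 800584328) (nat_lit 456) (nat_lit 1938332487) (nat_lit 93) (nat_lit 5) (nat_lit 98) (nat_lit 5) (nat_lit 99) (nat_lit 5) (nat_lit 265) (nat_lit 232) (nat_lit 223)) (XT.lf (nat_lit 0) (nat_lit 2769846434) (nat_lit 456) (nat_lit 2959977457) (nat_lit 76) (nat_lit 3172641848) (nat_lit 87) (nat_lit 5) (nat_lit 93) (nat_lit 5) (nat_lit 88) (nat_lit 5) (nat_lit 266) (nat_lit 232) (nat_lit 222))) (XT.nd (nat_lit 78) (nat_lit 684) (nat_lit 0) (XT.lf (nat_lit 0) (nat_lit 5836025230) (nat_lit 380) (nat_lit 1743988569) (nat_lit 456) (nat_lit 1549044044) (nat_lit 82) (nat_lit 5) (nat_lit 87) (nat_lit 5) (nat_lit 88) (nat_lit 5) (nat_lit 267) (nat_lit 232) (nat_lit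 221)) (XT.nd (nat_lit 78) (nat_lit 304) (nat_lit 0) (XT.lf (nat_lit 0) (nat_lit 3126966104) (nat_lit 380) (nat_lit 3784562040) (nat_lit 76) (nat_lit 2457031015) (nat_lit 77) (nat_lit 5) (nat_lit 82) (nat_lit 5) (nat_lit 78) (nat_lit 5) (nat_lit 268) (nat_lit 232) (nat_lit 220)) (XT.lf (nat_lit 0) (nat_lit 5187474849) (nat_lit 304) (nat_lit 2743358901) (nat_lit 380) (nat_lit 1691272279) (nat_lit 73) (nat_lit 5) (nat_lit 77) (nat_lit 5) (nat_lit 78) (nat_lit 5) (nat_lit 269) (nat_lit 232) (nat_lit 219))))) (XT.nd (nat_lit 234) (nat_lit 608) (nat_lit 0) (XT.nd (nat_lit 78) (nat_lit 608) (nat_lit 0) (XT.lf (nat_lit 0) (nat_lit 2954720199) (nat_lit 380) (nat_lit 5278137976) (nat_lit 76) (nat_lit 1657020188) (nat_lit 68) (nat_lit 5) (nat_lit 73) (nat_lit 5) (nat_lit 69) (nat_lit 5) (nat_lit 270) (nat_lit 232) (nat_lit 218)) (XT.nd (nat_lit 78) (nat_lit 304) (nat_lit 0) (XT.lf (nat_lit 0) (nat_lit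 3833161405) (nat_lit 304) (nat_lit 3909580276) (nat_lit 380) (nat_lit 2429730039) (nat_lit 64) (nat_lit 5) (nat_lit 68) (nat_lit 5) (nat_lit 69) (nat_lit 5) (nat_lit 271) (nat_lit 232) (nat_lit 217)) (XT.lf (nat_lit 0) (nat_lit 2182463309) (nat_lit 304) (nat_lit 7628716192) (nat_lit 76) (nat_lit 659815066) (nat_lit 60) (nat_lit 5) (nat_lit 64) (nat_lit 5) (nat_lit 61) (nat_lit 5) (nat_lit 272) (nat_lit 232) (nat_lit 216)))) (XT.nd (nat_lit 78) (nat_lit 304) (nat_lit 0) (XT.lf (nat_lit 0) (nat_lit 1574438053) (nat_lit 304) (nat_lit 5364213273) (nat_lit 380) (nat_lit 3846404502) (nat_lit 56) (nat_lit 5) (nat_lit 60) (nat_lit 5) (nat_lit 61) (nat_lit 5) (nat_lit 273) (nat_lit 232) (nat_lit 215)) (XT.nd (nat_lit 78) (nat_lit 0) (nat_lit 0) (XT.lf (nat_lit 0) (nat_lit 55718360) (nat_lit 228) (nat_lit 672329040) (nat_lit 304) (nat_lit 10388976304) (nat_lit 52) (nat_lit 5) (nat_lit 55) (nat_lit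 5) (nat_lit 56) (nat_lit 5) (nat_lit 274) (nat_lit 232) (nat_lit 214)) (XT.lf (nat_lit 0) (nat_lit 5440001863) (nat_lit 304) (nat_lit 1784666064) (nat_lit 76) (nat_lit 4240343688) (nat_lit 52) (nat_lit 5) (nat_lit 56) (nat_lit 5) (nat_lit 53) (nat_lit 5) (nat_lit 275) (nat_lit 232) (nat_lit 213))))))))
noncomputable def xc35 : XT := (XT.nd (nat_lit 1716) (nat_lit 760) (nat_lit 0) (XT.nd (nat_lit 858) (nat_lit 912) (nat_lit 0) (XT.nd (nat_lit 390) (nat_lit 836) (nat_lit 0) (XT.nd (nat_lit 156) (nat_lit 456) (nat_lit 0) (XT.nd (nat_lit 78) (nat_lit 304) (nat_lit 0) (XT.lf (nat_lit 0) (nat_lit 7894389334) (nat_lit 228) (nat_lit 2433876963) (nat_lit 304) (nat_lit 1504115089) (nat_lit 49) (nat_lit 5) (nat_lit 52) (nat_lit 5) (nat_lit 53) (nat_lit 5) (nat_lit 276) (nat_lit 232) (nat_lit 212)) (XT.lf (nat_lit 0) (nat_lit 3140052744) (nat_lit 304) (nat_lit 6492299355) (nat_lit 76) (nat_lit 2586205629)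 (nat_lit 45) (nat_lit 5) (nat_lit 49) (nat_lit 5) (nat_lit 46) (nat_lit 5) (nat_lit 277) (nat_lit 232) (nat_lit 211))) (XT.nd (nat_lit 78) (nat_lit 228) (nat_lit 0) (XT.lf (nat_lit 0) (nat_lit 3151211969) (nat_lit 228) (nat_lit 4795551775) (nat_lit 304) (nat_lit 4678168607) (nat_lit 42) (nat_lit 5) (nat_lit 45) (nat_lit 5) (nat_lit 46) (nat_lit 5) (nat_lit 278) (nat_lit 232) (nat_lit 210)) (XT.nd (nat_lit 78) (nat_lit 76) (nat_lit 0) (XT.lf (nat_lit 0) (nat_lit 161805194) (nat_lit 152) (nat_lit 12772998000) (nat_lit 228) (nat_lit 118763674) (nat_lit 40) (nat_lit 5) (nat_lit 42) (nat_lit 5) (nat_lit 43) (nat_lit 4) (nat_lit 279) (nat_lit 232) (nat_lit 209)) (XT.lf (nat_lit 0) (nat_lit 4596564187) (nat_lit 228) (nat_lit 3315733656) (nat_lit 76) (nat_lit 5589575384) (nat_lit 39) (nat_lit 5) (nat_lit 42) (nat_lit 5) (nat_lit 40) (nat_lit 5) (nat_lit 280) (nat_lit 232) (nat_lit 208))))) (XT.nd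 (nat_lit 234) (nat_lit 380) (nat_lit 0) (XT.nd (nat_lit 78) (nat_lit 228) (nat_lit 0) (XT.lf (nat_lit 0) (nat_lit 6679805643) (nat_lit 228) (nat_lit 2807879574) (nat_lit 304) (nat_lit 4486750461) (nat_lit 36) (nat_lit 5) (nat_lit 39) (nat_lit 5) (nat_lit 40) (nat_lit 5) (nat_lit 281) (nat_lit 232) (nat_lit 207)) (XT.nd (nat_lit 78) (nat_lit 0) (nat_lit 0) (XT.lf (nat_lit 0) (nat_lit 115071823) (nat_lit 228) (nat_lit 11858040137) (nat_lit 76) (nat_lit 2498649955) (nat_lit 33) (nat_lit 5) (nat_lit 36) (nat_lit 5) (nat_lit 34) (nat_lit 5) (nat_lit 282) (nat_lit 232) (nat_lit 206)) (XT.lf (nat_lit 0) (nat_lit 4843521595) (nat_lit 228) (nat_lit 2079329234) (nat_lit 76) (nat_lit 8070223625) (nat_lit 33) (nat_lit 5) (nat_lit 36) (nat_lit 5) (nat_lit 34) (nat_lit 5) (nat_lit 283) (nat_lit 232) (nat_lit 205)))) (XT.nd (nat_lit 78) (nat_lit 228) (nat_lit 0) (XT.lf (nat_lit 0) (nat_lit 8173346674)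 (nat_lit 152) (nat_lit 1603415146) (nat_lit 228) (nat_lit 5764766016) (nat_lit 31) (nat_lit 5) (nat_lit 33) (nat_lit 5) (nat_lit 34) (nat_lit 5) (nat_lit 284) (nat_lit 232) (nat_lit 204)) (XT.nd (nat_lit 78) (nat_lit 76) (nat_lit 0) (XT.lf (nat_lit 0) (nat_lit 2707516353) (nat_lit 152) (nat_lit 12227883074) (nat_lit 228) (nat_lit 1182762641) (nat_lit 29) (nat_lit 5) (nat_lit 31) (nat_lit 5) (nat_lit 32) (nat_lit 4) (nat_lit 285) (nat_lit 232) (nat_lit 203)) (XT.lf (nat_lit 0) (nat_lit 3545494942) (nat_lit 228) (nat_lit 3501629336) (nat_lit 76) (nat_lit 9675929899) (nat_lit 28) (nat_lit 5) (nat_lit 31) (nat_lit 5) (nat_lit 29) (nat_lit 5) (nat_lit 286) (nat_lit 232) (nat_lit 202)))))) (XT.nd (nat_lit 390) (nat_lit 380) (nat_lit 0) (XT.nd (nat_lit 156) (nat_lit 380) (nat_lit 0) (XT.nd (nat_lit 78) (nat_lit 0) (nat_lit 0) (XT.lf (nat_lit 0) (nat_lit 6863462850) (nat_lit 152) (nat_lit 1588608665)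 (nat_lit 228) (nat_lit 8906882922) (nat_lit 26) (nat_lit 5) (nat_lit 28) (nat_lit 5) (nat_lit 29) (nat_lit 5) (nat_lit 287) (nat_lit 232) (nat_lit 201)) (XT.lf (nat_lit 0) (nat_lit 13583036843) (nat_lit 228) (nat_lit 404927920) (nat_lit 76) (nat_lit 4039413993) (nat_lit 26) (nat_lit 5) (nat_lit 29) (nat_lit 5) (nat_lit 27) (nat_lit 4) (nat_lit 288) (nat_lit 232) (nat_lit 200))) (XT.nd (nat_lit 78) (nat_lit 152) (nat_lit 0) (XT.lf (nat_lit 0) (nat_lit 258493084) (nat_lit 228) (nat_lit 8509187383) (nat_lit 76) (nat_lit 9960911195) (nat_lit 23) (nat_lit 5) (nat_lit 26) (nat_lit 5) (nat_lit 24) (nat_lit 5) (nat_lit 289) (nat_lit 232) (nat_lit 199)) (XT.nd (nat_lit 78) (nat_lit 0) (nat_lit 0) (XT.lf (nat_lit 0) (nat_lit 1758970695) (nat_lit 152) (nat_lit 3277031100) (nat_lit 228) (nat_lit 14429688688) (nat_lit 21) (nat_lit 5) (nat_lit 23) (nat_lit 5) (nat_lit 24) (nat_lit 5) (nat_lit 290) (nat_lit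 232) (nat_lit 198)) (XT.lf (nat_lit 0) (nat_lit 10076608778) (nat_lit 228) (nat_lit 7690464155) (nat_lit 76) (nat_lit 2471929201) (nat_lit 21) (nat_lit 5) (nat_lit 24) (nat_lit 5) (nat_lit 22) (nat_lit 4) (nat_lit 291) (nat_lit 232) (nat_lit 197))))) (XT.nd (nat_lit 234) (nat_lit 76) (nat_lit 0) (XT.nd (nat_lit 78) (nat_lit 228) (nat_lit 0) (XT.lf (nat_lit 0) (nat_lit 2706322763) (nat_lit 76) (nat_lit 12638055339) (nat_lit 152) (nat_lit 5707427856) (nat_lit 20) (nat_lit 5) (nat_lit 21) (nat_lit 5) (nat_lit 22) (nat_lit 4) (nat_lit 292) (nat_lit 232) (nat_lit 196)) (XT.nd (nat_lit 78) (nat_lit 228) (nat_lit 0) (XT.lf (nat_lit 0) (nat_lit 13647654904) (nat_lit 76) (nat_lit 7225779524) (nat_lit 152) (nat_lit 1031955302) (nat_lit 20) (nat_lit 5) (nat_lit 21) (nat_lit 5) (nat_lit 22) (nat_lit 4) (nat_lit 293) (nat_lit 232) (nat_lit 195)) (XT.lf (nat_lit 0) (nat_lit 2209083347) (nat_lit 152) (nat_lit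 1535546625) (nat_lit 228) (nat_lit 19057685552) (nat_lit 17) (nat_lit 5) (nat_lit 19) (nat_lit 5) (nat_lit 20) (nat_lit 5) (nat_lit 294) (nat_lit 232) (nat_lit 194)))) (XT.nd (nat_lit 78) (nat_lit 76) (nat_lit 0) (XT.lf (nat_lit 0) (nat_lit 8791188812) (nat_lit 228) (nat_lit 10552899753) (nat_lit 76) (nat_lit 4398185476) (nat_lit 17) (nat_lit 5) (nat_lit 20) (nat_lit 5) (nat_lit 18) (nat_lit 4) (nat_lit 295) (nat_lit 232) (nat_lit 193)) (XT.nd (nat_lit 78) (nat_lit 76) (nat_lit 0) (XT.lf (nat_lit 0) (nat_lit 14032972616) (nat_lit 228) (nat_lit 149132609) (nat_lit 76) (nat_lit 10548902684) (nat_lit 17) (nat_lit 5) (nat_lit 20) (nat_lit 5) (nat_lit 18) (nat_lit 4) (nat_lit 296) (nat_lit 232) (nat_lit 192)) (XT.lf (nat_lit 0) (nat_lit 10869707892) (nat_lit 76) (nat_lit 8702479598) (nat_lit 152) (nat_lit 6195991997) (nat_lit 16) (nat_lit 5) (nat_lit 17) (nat_lit 5) (nat_lit 18) (nat_lit 4) (nat_lit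 297) (nat_lit 232) (nat_lit 191))))))) (XT.nd (nat_lit 858) (nat_lit 228) (nat_lit 0) (XT.nd (nat_lit 390) (nat_lit 228) (nat_lit 0) (XT.nd (nat_lit 156) (nat_lit 76) (nat_lit 0) (XT.nd (nat_lit 78) (nat_lit 228) (nat_lit 0) (XT.lf (nat_lit 0) (nat_lit 22328744850) (nat_lit 76) (nat_lit 2994207125) (nat_lit 152) (nat_lit 1536278360) (nat_lit 16) (nat_lit 5) (nat_lit 17) (nat_lit 5) (nat_lit 18) (nat_lit 4) (nat_lit 298) (nat_lit 232) (nat_lit 190)) (XT.lf (nat_lit 0) (nat_lit 3316720801) (nat_lit 228) (nat_lit 21695817742) (nat_lit 76) (nat_lit 2990607349) (nat_lit 13) (nat_lit 5) (nat_lit 16) (nat_lit 5) (nat_lit 14) (nat_lit 4) (nat_lit 299) (nat_lit 232) (nat_lit 189))) (XT.nd (nat_lit 78) (nat_lit 76) (nat_lit 0) (XT.lf (nat_lit 0) (nat_lit 8395387499) (nat_lit 228) (nat_lit 11575468904) (nat_lit 76) (nat_lit 9232552189) (nat_lit 13) (nat_lit 5) (nat_lit 16) (nat_lit 5) (nat_lit 14)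 (nat_lit 4) (nat_lit 300) (nat_lit 232) (nat_lit 188)) (XT.nd (nat_lit 78) (nat_lit 76) (nat_lit 0) (XT.lf (nat_lit 0) (nat_lit 13668153677) (nat_lit 228) (nat_lit 1052081712) (nat_lit 76) (nat_lit 15745292993) (nat_lit 13) (nat_lit 5) (nat_lit 16) (nat_lit 5) (nat_lit 14) (nat_lit 4) (nat_lit 301) (nat_lit 232) (nat_lit 187)) (XT.lf (nat_lit 0) (nat_lit 10096416976) (nat_lit 76) (nat_lit 9148209500) (nat_lit 152) (nat_lit 12544972247) (nat_lit 12) (nat_lit 5) (nat_lit 13) (nat_lit 5) (nat_lit 14) (nat_lit 4) (nat_lit 302) (nat_lit 232) (nat_lit 186))))) (XT.nd (nat_lit 234) (nat_lit 76) (nat_lit 0) (XT.nd (nat_lit 78) (nat_lit 152) (nat_lit 0) (XT.lf (nat_lit 0) (nat_lit 21729062001) (nat_lit 76) (nat_lit 3326504364) (nat_lit 152) (nat_lit 8125681307) (nat_lit 12) (nat_lit 5) (nat_lit 13) (nat_lit 5) (nat_lit 14) (nat_lit 4) (nat_lit 303) (nat_lit 232) (nat_lit 185)) (XT.nd (nat_lit 78)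 (nat_lit 152) (nat_lit 0) (XT.lf (nat_lit 0) (nat_lit 31130910969) (nat_lit 152) (nat_lit 817903050) (nat_lit 0) (nat_lit 2694491594) (nat_lit 12) (nat_lit 5) (nat_lit 14) (nat_lit 4) (nat_lit 12) (nat_lit 4) (nat_lit 304) (nat_lit 232) (nat_lit 184)) (XT.lf (nat_lit 0) (nat_lit 1389793122) (nat_lit 152) (nat_lit 25759174691) (nat_lit 76) (nat_lit 9026627130) (nat_lit 10) (nat_lit 5) (nat_lit 12) (nat_lit 5) (nat_lit 11) (nat_lit 4) (nat_lit 305) (nat_lit 232) (nat_lit 183)))) (XT.nd (nat_lit 78) (nat_lit 76) (nat_lit 0) (XT.lf (nat_lit 0) (nat_lit 6424282636) (nat_lit 152) (nat_lit 15676337506) (nat_lit 76) (nat_lit 15684077521) (nat_lit 10) (nat_lit 5) (nat_lit 12) (nat_lit 5) (nat_lit 11) (nat_lit 4) (nat_lit 306) (nat_lit 232) (nat_lit 182)) (XT.nd (nat_lit 78) (nat_lit 76) (nat_lit 0) (XT.lf (nat_lit 0) (nat_lit 11663502197) (nat_lit 152) (nat_lit 5171366109) (nat_lit 76) (nat_lit 22640832503)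 (nat_lit 10) (nat_lit 5) (nat_lit 12) (nat_lit 5) (nat_lit 11) (nat_lit 4) (nat_lit 307) (nat_lit 232) (nat_lit 181)) (XT.lf (nat_lit 0) (nat_lit 5895799622) (nat_lit 76) (nat_lit 11280800549) (nat_lit 152) (nat_lit 24074330187) (nat_lit 9) (nat_lit 5) (nat_lit 10) (nat_lit 5) (nat_lit 11) (nat_lit 4) (nat_lit 308) (nat_lit 232) (nat_lit 180)))))) (XT.nd (nat_lit 390) (nat_lit 152) (nat_lit 0) (XT.nd (nat_lit 156) (nat_lit 76) (nat_lit 0) (XT.nd (nat_lit 78) (nat_lit 0) (nat_lit 0) (XT.lf (nat_lit 0) (nat_lit 17548526255) (nat_lit 76) (nat_lit 5426706859) (nat_lit 152) (nat_lit 20139424029) (nat_lit 9) (nat_lit 5) (nat_lit 10) (nat_lit 5) (nat_lit 11) (nat_lit 4) (nat_lit 309) (nat_lit 232) (nat_lit 179)) (XT.lf (nat_lit 0) (nat_lit 29029131973) (nat_lit 152) (nat_lit 15367825893) (nat_lit 0) (nat_lit 675683003) (nat_lit 9) (nat_lit 5) (nat_lit 11) (nat_lit 4) (nat_lit 9) (nat_lit 4) (nat_lit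 310) (nat_lit 232) (nat_lit 178))) (XT.nd (nat_lit 78) (nat_lit 76) (nat_lit 0) (XT.lf (nat_lit 0) (nat_lit 35400891514) (nat_lit 152) (nat_lit 4784114795) (nat_lit 0) (nat_lit 6943091671) (nat_lit 9) (nat_lit 5) (nat_lit 11) (nat_lit 4) (nat_lit 9) (nat_lit 4) (nat_lit 311) (nat_lit 232) (nat_lit 177)) (XT.nd (nat_lit 78) (nat_lit 0) (nat_lit 0) (XT.lf (nat_lit 0) (nat_lit 6386999916) (nat_lit 76) (nat_lit 35727913602) (nat_lit 76) (nat_lit 7170731976) (nat_lit 8) (nat_lit 4) (nat_lit 9) (nat_lit 5) (nat_lit 9) (nat_lit 4) (nat_lit 312) (nat_lit 232) (nat_lit 176)) (XT.lf (nat_lit 0) (nat_lit 18152132758) (nat_lit 76) (nat_lit 31025206967) (nat_lit 76) (nat_lit 2373376023) (nat_lit 8) (nat_lit 4) (nat_lit 9) (nat_lit 5) (nat_lit 9) (nat_lit 4) (nat_lit 313) (nat_lit 232) (nat_lit 175))))) (XT.nd (nat_lit 234) (nat_lit 76) (nat_lit 0) (XT.nd (nat_lit 78) (nat_lit 0) (nat_lit 0) (XT.lf (nat_lit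 0) (nat_lit 2576692260) (nat_lit 152) (nat_lit 23511287862) (nat_lit 76) (nat_lit 27841370888) (nat_lit 7) (nat_lit 5) (nat_lit 9) (nat_lit 5) (nat_lit 8) (nat_lit 4) (nat_lit 314) (nat_lit 232) (nat_lit 174)) (XT.nd (nat_lit 78) (nat_lit 0) (nat_lit 0) (XT.lf (nat_lit 0) (nat_lit 7692135947) (nat_lit 152) (nat_lit 13212786900) (nat_lit 76) (nat_lit 35522304815) (nat_lit 7) (nat_lit 5) (nat_lit 9) (nat_lit 5) (nat_lit 8) (nat_lit 4) (nat_lit 315) (nat_lit 232) (nat_lit 173)) (XT.lf (nat_lit 0) (nat_lit 13031447779) (nat_lit 152) (nat_lit 2455745520) (nat_lit 76) (nat_lit 43563784157) (nat_lit 7) (nat_lit 5) (nat_lit 9) (nat_lit 5) (nat_lit 8) (nat_lit 4) (nat_lit 316) (nat_lit 232) (nat_lit 172)))) (XT.nd (nat_lit 78) (nat_lit 0) (nat_lit 0) (XT.lf (nat_lit 0) (nat_lit 8960295927) (nat_lit 76) (nat_lit 9733176323) (nat_lit 152) (nat_lit 43110791214) (nat_lit 6) (nat_lit 5) (nat_lit 7) (nat_lit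 5) (nat_lit 8) (nat_lit 4) (nat_lit 317) (nat_lit 232) (nat_lit 171)) (XT.nd (nat_lit 78) (nat_lit 0) (nat_lit 0) (XT.lf (nat_lit 0) (nat_lit 20946296946) (nat_lit 76) (nat_lit 3688141430) (nat_lit 152) (nat_lit 40060920309) (nat_lit 6) (nat_lit 5) (nat_lit 7) (nat_lit 5) (nat_lit 8) (nat_lit 4) (nat_lit 318) (nat_lit 232) (nat_lit 170)) (XT.lf (nat_lit 0) (nat_lit 30869768702) (nat_lit 152) (nat_lit 34275300798) (nat_lit 0) (nat_lit 2586038860) (nat_lit 6) (nat_lit 5) (nat_lit 8) (nat_lit 4) (nat_lit 6) (nat_lit 4) (nat_lit 319) (nat_lit 232) (nat_lit 169))))))))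
noncomputable def xc36 : XT := (XT.nd (nat_lit 33072) (nat_lit 0) (nat_lit 2128) (XT.nd (nat_lit 858) (nat_lit 76) (nat_lit 0) (XT.nd (nat_lit 390) (nat_lit 76) (nat_lit 0) (XT.nd (nat_lit 156) (nat_lit 76) (nat_lit 0) (XT.nd (nat_lit 78) (nat_lit 0) (nat_lit 0) (XT.lf (nat_lit 0) (nat_lit 37427190432) (nat_lit 152) (nat_lit 24413009319) (nat_lit 0) (nat_lit 9078154276) (nat_lit 6) (nat_lit 5) (nat_lit 8) (nat_lit 4) (nat_lit 6) (nat_lit 4) (nat_lit 320) (nat_lit 232) (nat_lit 168)) (XT.lf (nat_lit 0) (nat_lit 44286863804) (nat_lit 152) (nat_lit 14103252987) (nat_lit 0) (nat_lit 15875631159) (nat_lit 6) (nat_lit 5) (nat_lit 8) (nat_lit 4) (nat_lit 6) (nat_lit 4) (nat_lit 321) (nat_lit 232) (nat_lit 167))) (XT.nd (nat_lit 78) (nat_lit 76) (nat_lit 0) (XT.lf (nat_lit 0) (nat_lit 51465121373) (nat_lit 152) (nat_lit 3321484761) (nat_lit 0) (nat_lit 22994653976) (nat_lit 6) (nat_lit 5) (nat_lit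 8) (nat_lit 4) (nat_lit 6) (nat_lit 4) (nat_lit 322) (nat_lit 232) (nat_lit 166)) (XT.nd (nat_lit 78) (nat_lit 0) (nat_lit 0) (XT.lf (nat_lit 0) (nat_lit 8116345366) (nat_lit 76) (nat_lit 50940728140) (nat_lit 76) (nat_lit 22413846693) (nat_lit 5) (nat_lit 4) (nat_lit 6) (nat_lit 5) (nat_lit 6) (nat_lit 4) (nat_lit 323) (nat_lit 232) (nat_lit 165)) (XT.lf (nat_lit 0) (nat_lit 20155257506) (nat_lit 76) (nat_lit 46885039847) (nat_lit 76) (nat_lit 18304430735) (nat_lit 5) (nat_lit 4) (nat_lit 6) (nat_lit 5) (nat_lit 6) (nat_lit 4) (nat_lit 324) (nat_lit 232) (nat_lit 164))))) (XT.nd (nat_lit 234) (nat_lit 76) (nat_lit 0) (XT.nd (nat_lit 78) (nat_lit 0) (nat_lit 0) (XT.lf (nat_lit 0) (nat_lit 32757811675) (nat_lit 76) (nat_lit 42643425340) (nat_lit 76) (nat_lit 14011647022) (nat_lit 5) (nat_lit 4) (nat_lit 6) (nat_lit 5) (nat_lit 6) (nat_lit 4) (nat_lit 325) (nat_lit 232) (nat_lit 163)) (XT.nd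 (nat_lit 78) (nat_lit 0) (nat_lit 0) (XT.lf (nat_lit 0) (nat_lit 45954013955) (nat_lit 76) (nat_lit 38205785536) (nat_lit 76) (nat_lit 9525274641) (nat_lit 5) (nat_lit 4) (nat_lit 6) (nat_lit 5) (nat_lit 6) (nat_lit 4) (nat_lit 326) (nat_lit 232) (nat_lit 162)) (XT.lf (nat_lit 0) (nat_lit 59775283874) (nat_lit 76) (nat_lit 33561554626) (nat_lit 76) (nat_lit 4834631753) (nat_lit 5) (nat_lit 4) (nat_lit 6) (nat_lit 5) (nat_lit 6) (nat_lit 4) (nat_lit 327) (nat_lit 232) (nat_lit 161)))) (XT.nd (nat_lit 78) (nat_lit 0) (nat_lit 0) (XT.lf (nat_lit 0) (nat_lit 70055595) (nat_lit 152) (nat_lit 28628911897) (nat_lit 76) (nat_lit 74183766198) (nat_lit 4) (nat_lit 5) (nat_lit 6) (nat_lit 5) (nat_lit 5) (nat_lit 4) (nat_lit 328) (nat_lit 232) (nat_lit 160)) (XT.nd (nat_lit 78) (nat_lit 0) (nat_lit 0) (XT.lf (nat_lit 0) (nat_lit 5103089789) (nat_lit 152) (nat_lit 18453949515) (nat_lit 76) (nat_lit 84271603390)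 (nat_lit 4) (nat_lit 5) (nat_lit 6) (nat_lit 5) (nat_lit 5) (nat_lit 4) (nat_lit 329) (nat_lit 232) (nat_lit 159)) (XT.lf (nat_lit 0) (nat_lit 10370795323) (nat_lit 152) (nat_lit 7800599693) (nat_lit 76) (nat_lit 94850972425) (nat_lit 4) (nat_lit 5) (nat_lit 6) (nat_lit 5) (nat_lit 5) (nat_lit 4) (nat_lit 330) (nat_lit 232) (nat_lit 158)))))) (XT.nd (nat_lit 31746) (nat_lit 0) (nat_lit 8132) (XT.nd (nat_lit 31512) (nat_lit 0) (nat_lit 11780) (XT.nd (nat_lit 78) (nat_lit 0) (nat_lit 0) (XT.lf (nat_lit 0) (nat_lit 3423303671) (nat_lit 76) (nat_lit 12495317570) (nat_lit 152) (nat_lit 102556665494) (nat_lit 3) (nat_lit 5) (nat_lit 4) (nat_lit 5) (nat_lit 5) (nat_lit 4) (nat_lit 331) (nat_lit 232) (nat_lit 157)) (XT.lf (nat_lit 0) (nat_lit 15343325703) (nat_lit 76) (nat_lit 6465141366) (nat_lit 152) (nat_lit 102390455936) (nat_lit 3) (nat_lit 5) (nat_lit 4) (nat_lit 5) (nat_lit 5) (nat_lit 4)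 (nat_lit 332) (nat_lit 232) (nat_lit 156))) (XT.nd (nat_lit 78) (nat_lit 2128) (nat_lit 0) (XT.lf (nat_lit 0) (nat_lit 721458127) (nat_lit 988) (nat_lit 2096225937) (nat_lit 0) (nat_lit 721458127) (nat_lit 186) (nat_lit 5) (nat_lit 199) (nat_lit 4) (nat_lit 186) (nat_lit 4) (nat_lit 254) (nat_lit 233) (nat_lit 233)) (XT.nd (nat_lit 78) (nat_lit 1140) (nat_lit 0) (XT.lf (nat_lit 0) (nat_lit 3059174418) (nat_lit 988) (nat_lit 3397895371) (nat_lit 988) (nat_lit 719869269) (nat_lit 173) (nat_lit 4) (nat_lit 186) (nat_lit 5) (nat_lit 186) (nat_lit 4) (nat_lit 255) (nat_lit 233) (nat_lit 232)) (XT.lf (nat_lit 0) (nat_lit 3258877104) (nat_lit 1064) (nat_lit 922110213) (nat_lit 1140) (nat_lit 3104163038) (nat_lit 158) (nat_lit 5) (nat_lit 172) (nat_lit 5) (nat_lit 173) (nat_lit 4) (nat_lit 256) (nat_lit 233) (nat_lit 231))))) (XT.nd (nat_lit 234) (nat_lit 1596) (nat_lit 0) (XT.nd (nat_lit 78) (nat_lit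 1140) (nat_lit 0) (XT.lf (nat_lit 0) (nat_lit 1727589003) (nat_lit 912) (nat_lit 3927533904) (nat_lit 76) (nat_lit 1747979141) (nat_lit 146) (nat_lit 5) (nat_lit 158) (nat_lit 5) (nat_lit 147) (nat_lit 4) (nat_lit 257) (nat_lit 233) (nat_lit 230)) (XT.nd (nat_lit 78) (nat_lit 608) (nat_lit 0) (XT.lf (nat_lit 0) (nat_lit 3699594939) (nat_lit 532) (nat_lit 2891604158) (nat_lit 608) (nat_lit 939805692) (nat_lit 139) (nat_lit 5) (nat_lit 146) (nat_lit 5) (nat_lit 147) (nat_lit 4) (nat_lit 258) (nat_lit 233) (nat_lit 229)) (XT.lf (nat_lit 0) (nat_lit 3806842497) (nat_lit 608) (nat_lit 3747436441) (nat_lit 76) (nat_lit 114838994) (nat_lit 131) (nat_lit 5) (nat_lit 139) (nat_lit 5) (nat_lit 132) (nat_lit 4) (nat_lit 259) (nat_lit 233) (nat_lit 228)))) (XT.nd (nat_lit 78) (nat_lit 1064) (nat_lit 0) (XT.lf (nat_lit 0) (nat_lit 827723625) (nat_lit 532) (nat_lit 3695364096) (nat_lit 76) (nat_lit 3294348503)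 (nat_lit 124) (nat_lit 5) (nat_lit 131) (nat_lit 5) (nat_lit 125) (nat_lit 5) (nat_lit 260) (nat_lit 233) (nat_lit 227)) (XT.nd (nat_lit 78) (nat_lit 532) (nat_lit 0) (XT.lf (nat_lit 0) (nat_lit 4297365105) (nat_lit 532) (nat_lit 1243148392) (nat_lit 608) (nat_lit 2435961009) (nat_lit 117) (nat_lit 5) (nat_lit 124) (nat_lit 5) (nat_lit 125) (nat_lit 5) (nat_lit 261) (nat_lit 233) (nat_lit 226)) (XT.lf (nat_lit 0) (nat_lit 2195405900) (nat_lit 532) (nat_lit 3716582715) (nat_lit 76) (nat_lit 2234387747) (nat_lit 110) (nat_lit 5) (nat_lit 117) (nat_lit 5) (nat_lit 111) (nat_lit 5) (nat_lit 262) (nat_lit 233) (nat_lit 225))))))) (XT.nd (nat_lit 858) (nat_lit 2204) (nat_lit 0) (XT.nd (nat_lit 390) (nat_lit 1672) (nat_lit 0) (XT.nd (nat_lit 156) (nat_lit 1216) (nat_lit 0) (XT.nd (nat_lit 78) (nat_lit 456) (nat_lit 0) (XT.lf (nat_lit 0) (nat_lit 4512325657) (nat_lit 456) (nat_lit 2390236107) (nat_lit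 532) (nat_lit 1425087080) (nat_lit 104) (nat_lit 5) (nat_lit 110) (nat_lit 5) (nat_lit 111) (nat_lit 5) (nat_lit 263) (nat_lit 233) (nat_lit 224)) (XT.lf (nat_lit 0) (nat_lit 3162717310) (nat_lit 456) (nat_lit 3997612396) (nat_lit 76) (nat_lit 1360083420) (nat_lit 98) (nat_lit 5) (nat_lit 104) (nat_lit 5) (nat_lit 99) (nat_lit 5) (nat_lit 264) (nat_lit 233) (nat_lit 223))) (XT.nd (nat_lit 78) (nat_lit 836) (nat_lit 0) (XT.lf (nat_lit 0) (nat_lit 4451789550) (nat_lit 380) (nat_lit 3417216577) (nat_lit 456) (nat_lit 856214088) (nat_lit 93) (nat_lit 5) (nat_lit 98) (nat_lit 5) (nat_lit 99) (nat_lit 5) (nat_lit 265) (nat_lit 233) (nat_lit 222)) (XT.nd (nat_lit 78) (nat_lit 380) (nat_lit 0) (XT.lf (nat_lit 0) (nat_lit 3699595959) (nat_lit 456) (nat_lit 4663511312) (nat_lit 76) (nat_lit 579256806) (nat_lit 87) (nat_lit 5) (nat_lit 93) (nat_lit 5) (nat_lit 88) (nat_lit 5) (nat_lit 266) (nat_lit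 233) (nat_lit 221)) (XT.lf (nat_lit 0) (nat_lit 3985107322) (nat_lit 380) (nat_lit 4420285780) (nat_lit 456) (nat_lit 766859527) (nat_lit 82) (nat_lit 5) (nat_lit 87) (nat_lit 5) (nat_lit 88) (nat_lit 5) (nat_lit 267) (nat_lit 233) (nat_lit 220))))) (XT.nd (nat_lit 234) (nat_lit 608) (nat_lit 0) (XT.nd (nat_lit 78) (nat_lit 684) (nat_lit 0) (XT.lf (nat_lit 0) (nat_lit 3557232485) (nat_lit 304) (nat_lit 208370088) (nat_lit 380) (nat_lit 5649927234) (nat_lit 77) (nat_lit 5) (nat_lit 81) (nat_lit 5) (nat_lit 82) (nat_lit 5) (nat_lit 268) (nat_lit 233) (nat_lit 219)) (XT.nd (nat_lit 78) (nat_lit 380) (nat_lit 0) (XT.lf (nat_lit 0) (nat_lit 2963232521) (nat_lit 304) (nat_lit 5501132039) (nat_lit 380) (nat_lit 1208010887) (nat_lit 73) (nat_lit 5) (nat_lit 77) (nat_lit 5) (nat_lit 78) (nat_lit 5) (nat_lit 269) (nat_lit 233) (nat_lit 218)) (XT.lf (nat_lit 0) (nat_lit 2194111081) (nat_lit 304) (nat_lit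 1115028700) (nat_lit 380) (nat_lit 6634585617) (nat_lit 68) (nat_lit 5) (nat_lit 72) (nat_lit 5) (nat_lit 73) (nat_lit 5) (nat_lit 270) (nat_lit 233) (nat_lit 217)))) (XT.nd (nat_lit 78) (nat_lit 304) (nat_lit 0) (XT.lf (nat_lit 0) (nat_lit 1214518144) (nat_lit 304) (nat_lit 6769514061) (nat_lit 380) (nat_lit 2245808641) (nat_lit 64) (nat_lit 5) (nat_lit 68) (nat_lit 5) (nat_lit 69) (nat_lit 5) (nat_lit 271) (nat_lit 233) (nat_lit 216)) (XT.nd (nat_lit 78) (nat_lit 0) (nat_lit 0) (XT.lf (nat_lit 0) (nat_lit 10426649) (nat_lit 228) (nat_lit 2243199096) (nat_lit 304) (nat_lit 8278078564) (nat_lit 60) (nat_lit 5) (nat_lit 63) (nat_lit 5) (nat_lit 64) (nat_lit 5) (nat_lit 272) (nat_lit 233) (nat_lit 215)) (XT.lf (nat_lit 0) (nat_lit 6900024498) (nat_lit 304) (nat_lit 1431621678) (nat_lit 76) (nat_lit 2517525981) (nat_lit 60) (nat_lit 5) (nat_lit 64) (nat_lit 5) (nat_lit 61) (nat_lit 5) (nat_lit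 273) (nat_lit 233) (nat_lit 214)))))) (XT.nd (nat_lit 390) (nat_lit 1064) (nat_lit 0) (XT.nd (nat_lit 156) (nat_lit 532) (nat_lit 0) (XT.nd (nat_lit 78) (nat_lit 228) (nat_lit 0) (XT.lf (nat_lit 0) (nat_lit 541209306) (nat_lit 380) (nat_lit 3146204184) (nat_lit 76) (nat_lit 7496443568) (nat_lit 55) (nat_lit 5) (nat_lit 60) (nat_lit 5) (nat_lit 56) (nat_lit 5) (nat_lit 274) (nat_lit 233) (nat_lit 213)) (XT.lf (nat_lit 0) (nat_lit 5123781893) (nat_lit 304) (nat_lit 5189468783) (nat_lit 76) (nat_lit 1222575180) (nat_lit 52) (nat_lit 5) (nat_lit 56) (nat_lit 5) (nat_lit 53) (nat_lit 5) (nat_lit 275) (nat_lit 233) (nat_lit 212))) (XT.nd (nat_lit 78) (nat_lit 304) (nat_lit 0) (XT.lf (nat_lit 0) (nat_lit 4322948206) (nat_lit 228) (nat_lit 5588816290) (nat_lit 304) (nat_lit 1994534282) (nat_lit 49) (nat_lit 5) (nat_lit 52) (nat_lit 5) (nat_lit 53) (nat_lit 5) (nat_lit 276) (nat_lit 233) (nat_lit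 211)) (XT.nd (nat_lit 78) (nat_lit 0) (nat_lit 0) (XT.lf (nat_lit 0) (nat_lit 1941834610) (nat_lit 228) (nat_lit 590949687) (nat_lit 304) (nat_lit 9763712382) (nat_lit 45) (nat_lit 5) (nat_lit 48) (nat_lit 5) (nat_lit 49) (nat_lit 5) (nat_lit 277) (nat_lit 233) (nat_lit 210)) (XT.lf (nat_lit 0) (nat_lit 7240971157) (nat_lit 304) (nat_lit 861418387) (nat_lit 76) (nat_lit 4603520872) (nat_lit 45) (nat_lit 5) (nat_lit 49) (nat_lit 5) (nat_lit 46) (nat_lit 5) (nat_lit 278) (nat_lit 233) (nat_lit 209))))) (XT.nd (nat_lit 234) (nat_lit 380) (nat_lit 0) (XT.nd (nat_lit 78) (nat_lit 456) (nat_lit 0) (XT.lf (nat_lit 0) (nat_lit 9093555407) (nat_lit 228) (nat_lit 3062263658) (nat_lit 304) (nat_lit 981001032) (nat_lit 42) (nat_lit 5) (nat_lit 45) (nat_lit 5) (nat_lit 46) (nat_lit 5) (nat_lit 279) (nat_lit 233) (nat_lit 208)) (XT.nd (nat_lit 78) (nat_lit 228) (nat_lit 0) (XT.lf (nat_lit 0) (nat_lit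 3622293159) (nat_lit 228) (nat_lit 7739518892) (nat_lit 76) (nat_lit 2227502262) (nat_lit 39) (nat_lit 5) (nat_lit 42) (nat_lit 5) (nat_lit 40) (nat_lit 5) (nat_lit 280) (nat_lit 233) (nat_lit 207)) (XT.lf (nat_lit 0) (nat_lit 2078692102) (nat_lit 228) (nat_lit 6333931130) (nat_lit 304) (nat_lit 5652347197) (nat_lit 36) (nat_lit 5) (nat_lit 39) (nat_lit 5) (nat_lit 40) (nat_lit 5) (nat_lit 281) (nat_lit 233) (nat_lit 206)))) (XT.nd (nat_lit 78) (nat_lit 380) (nat_lit 0) (XT.lf (nat_lit 0) (nat_lit 12375225948) (nat_lit 228) (nat_lit 1034808662) (nat_lit 304) (nat_lit 1155484341) (nat_lit 36) (nat_lit 5) (nat_lit 39) (nat_lit 5) (nat_lit 40) (nat_lit 5) (nat_lit 282) (nat_lit 233) (nat_lit 205)) (XT.nd (nat_lit 78) (nat_lit 152) (nat_lit 0) (XT.lf (nat_lit 0) (nat_lit 3510124079) (nat_lit 228) (nat_lit 7085172739) (nat_lit 76) (nat_lit 4494491147) (nat_lit 33) (nat_lit 5) (nat_lit 36) (nat_lit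 5) (nat_lit 34) (nat_lit 5) (nat_lit 283) (nat_lit 233) (nat_lit 204)) (XT.lf (nat_lit 0) (nat_lit 2985213139) (nat_lit 152) (nat_lit 5357083720) (nat_lit 228) (nat_lit 7299035166) (nat_lit 31) (nat_lit 5) (nat_lit 33) (nat_lit 5) (nat_lit 34) (nat_lit 5) (nat_lit 284) (nat_lit 233) (nat_lit 203))))))))
noncomputable def xc37 : XT := (XT.nd (nat_lit 1716) (nat_lit 380) (nat_lit 0) (XT.nd (nat_lit 858) (nat_lit 532) (nat_lit 0) (XT.nd (nat_lit 390) (nat_lit 532) (nat_lit 0) (XT.nd (nat_lit 156) (nat_lit 304) (nat_lit 0) (XT.nd (nat_lit 78) (nat_lit 228) (nat_lit 0) (XT.lf (nat_lit 0) (nat_lit 13389029987) (nat_lit 228) (nat_lit 2677160253) (nat_lit 76) (nat_lit 155189013) (nat_lit 31) (nat_lit 5) (nat_lit 34) (nat_lit 5) (nat_lit 32) (nat_lit 4) (nat_lit 285) (nat_lit 233) (nat_lit 202)) (XT.lf (nat_lit 0) (nat_lit 1852890796) (nat_lit 228) (nat_lit 9106190652) (nat_lit 76) (nat_lit 5869973476)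 (nat_lit 28) (nat_lit 5) (nat_lit 31) (nat_lit 5) (nat_lit 29) (nat_lit 5) (nat_lit 286) (nat_lit 233) (nat_lit 201))) (XT.nd (nat_lit 78) (nat_lit 152) (nat_lit 0) (XT.lf (nat_lit 0) (nat_lit 1070900066) (nat_lit 152) (nat_lit 5586504353) (nat_lit 228) (nat_lit 10810661848) (nat_lit 26) (nat_lit 5) (nat_lit 28) (nat_lit 5) (nat_lit 29) (nat_lit 5) (nat_lit 287) (nat_lit 233) (nat_lit 200)) (XT.nd (nat_lit 78) (nat_lit 152) (nat_lit 0) (XT.lf (nat_lit 0) (nat_lit 11704798253) (nat_lit 228) (nat_lit 6342115479) (nat_lit 76) (nat_lit 92130849) (nat_lit 26) (nat_lit 5) (nat_lit 29) (nat_lit 5) (nat_lit 27) (nat_lit 4) (nat_lit 288) (nat_lit 233) (nat_lit 199)) (XT.lf (nat_lit 0) (nat_lit 4094841722) (nat_lit 152) (nat_lit 12917335157) (nat_lit 228) (nat_lit 1831257948) (nat_lit 24) (nat_lit 5) (nat_lit 26) (nat_lit 5) (nat_lit 27) (nat_lit 4) (nat_lit 289) (nat_lit 233) (nat_lit 198))))) (XT.nd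 (nat_lit 234) (nat_lit 304) (nat_lit 0) (XT.nd (nat_lit 78) (nat_lit 152) (nat_lit 0) (XT.lf (nat_lit 0) (nat_lit 2923021331) (nat_lit 228) (nat_lit 4566437379) (nat_lit 76) (nat_lit 12093413205) (nat_lit 23) (nat_lit 5) (nat_lit 26) (nat_lit 5) (nat_lit 24) (nat_lit 5) (nat_lit 290) (nat_lit 233) (nat_lit 197)) (XT.nd (nat_lit 78) (nat_lit 0) (nat_lit 0) (XT.lf (nat_lit 0) (nat_lit 6089914758) (nat_lit 152) (nat_lit 1764010150) (nat_lit 228) (nat_lit 12505589053) (nat_lit 21) (nat_lit 5) (nat_lit 23) (nat_lit 5) (nat_lit 24) (nat_lit 5) (nat_lit 291) (nat_lit 233) (nat_lit 196)) (XT.lf (nat_lit 0) (nat_lit 13039717454) (nat_lit 228) (nat_lit 3973713602) (nat_lit 76) (nat_lit 4161383454) (nat_lit 21) (nat_lit 5) (nat_lit 24) (nat_lit 5) (nat_lit 22) (nat_lit 4) (nat_lit 292) (nat_lit 233) (nat_lit 195)))) (XT.nd (nat_lit 78) (nat_lit 228) (nat_lit 0) (XT.lf (nat_lit 0) (nat_lit 6825350473)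 (nat_lit 76) (nat_lit 11666710156) (nat_lit 152) (nat_lit 3538674685) (nat_lit 20) (nat_lit 5) (nat_lit 21) (nat_lit 5) (nat_lit 22) (nat_lit 4) (nat_lit 293) (nat_lit 233) (nat_lit 194)) (XT.nd (nat_lit 78) (nat_lit 152) (nat_lit 0) (XT.lf (nat_lit 0) (nat_lit 1229244054) (nat_lit 152) (nat_lit 4818508681) (nat_lit 76) (nat_lit 16882391661) (nat_lit 19) (nat_lit 5) (nat_lit 21) (nat_lit 5) (nat_lit 20) (nat_lit 5) (nat_lit 294) (nat_lit 233) (nat_lit 193)) (XT.lf (nat_lit 0) (nat_lit 6051113150) (nat_lit 152) (nat_lit 99145270) (nat_lit 228) (nat_lit 17723642210) (nat_lit 17) (nat_lit 5) (nat_lit 19) (nat_lit 5) (nat_lit 20) (nat_lit 5) (nat_lit 295) (nat_lit 233) (nat_lit 192)))))) (XT.nd (nat_lit 390) (nat_lit 228) (nat_lit 0) (XT.nd (nat_lit 156) (nat_lit 228) (nat_lit 0) (XT.nd (nat_lit 78) (nat_lit 76) (nat_lit 0) (XT.lf (nat_lit 0) (nat_lit 11357360203) (nat_lit 228) (nat_lit 7475248829)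 (nat_lit 76) (nat_lit 6031095816) (nat_lit 17) (nat_lit 5) (nat_lit 20) (nat_lit 5) (nat_lit 18) (nat_lit 4) (nat_lit 296) (nat_lit 233) (nat_lit 191)) (XT.lf (nat_lit 0) (nat_lit 3342245154) (nat_lit 76) (nat_lit 13449848512) (nat_lit 152) (nat_lit 9111945669) (nat_lit 16) (nat_lit 5) (nat_lit 17) (nat_lit 5) (nat_lit 18) (nat_lit 4) (nat_lit 297) (nat_lit 233) (nat_lit 190))) (XT.nd (nat_lit 78) (nat_lit 228) (nat_lit 0) (XT.lf (nat_lit 0) (nat_lit 14748384551) (nat_lit 76) (nat_lit 7763371940) (nat_lit 152) (nat_lit 4484293852) (nat_lit 16) (nat_lit 5) (nat_lit 17) (nat_lit 5) (nat_lit 18) (nat_lit 4) (nat_lit 298) (nat_lit 233) (nat_lit 189)) (XT.nd (nat_lit 78) (nat_lit 152) (nat_lit 0) (XT.lf (nat_lit 0) (nat_lit 306052622) (nat_lit 152) (nat_lit 1525982291) (nat_lit 76) (nat_lit 26312411572) (nat_lit 15) (nat_lit 5) (nat_lit 17) (nat_lit 5) (nat_lit 16) (nat_lit 5) (nat_lit 299) (nat_lit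 233) (nat_lit 188)) (XT.lf (nat_lit 0) (nat_lit 5322812697) (nat_lit 228) (nat_lit 19613373734) (nat_lit 76) (nat_lit 4410403825) (nat_lit 13) (nat_lit 5) (nat_lit 16) (nat_lit 5) (nat_lit 14) (nat_lit 4) (nat_lit 300) (nat_lit 233) (nat_lit 187))))) (XT.nd (nat_lit 234) (nat_lit 152) (nat_lit 0) (XT.nd (nat_lit 78) (nat_lit 76) (nat_lit 0) (XT.lf (nat_lit 0) (nat_lit 10567781499) (nat_lit 228) (nat_lit 9137828163) (nat_lit 76) (nat_lit 10903957044) (nat_lit 13) (nat_lit 5) (nat_lit 16) (nat_lit 5) (nat_lit 14) (nat_lit 4) (nat_lit 301) (nat_lit 233) (nat_lit 186)) (XT.nd (nat_lit 78) (nat_lit 0) (nat_lit 0) (XT.lf (nat_lit 0) (nat_lit 1803278066) (nat_lit 76) (nat_lit 14234783815) (nat_lit 152) (nat_lit 15898782594) (nat_lit 12) (nat_lit 5) (nat_lit 13) (nat_lit 5) (nat_lit 14) (nat_lit 4) (nat_lit 302) (nat_lit 233) (nat_lit 185)) (XT.lf (nat_lit 0) (nat_lit 13391665709) (nat_lit 76) (nat_lit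 8431697590) (nat_lit 152) (nat_lit 11505919900) (nat_lit 12) (nat_lit 5) (nat_lit 13) (nat_lit 5) (nat_lit 14) (nat_lit 4) (nat_lit 303) (nat_lit 233) (nat_lit 184)))) (XT.nd (nat_lit 78) (nat_lit 152) (nat_lit 0) (XT.lf (nat_lit 0) (nat_lit 25473065467) (nat_lit 76) (nat_lit 2374808263) (nat_lit 152) (nat_lit 6945012077) (nat_lit 12) (nat_lit 5) (nat_lit 13) (nat_lit 5) (nat_lit 14) (nat_lit 4) (nat_lit 304) (nat_lit 233) (nat_lit 183)) (XT.nd (nat_lit 78) (nat_lit 76) (nat_lit 0) (XT.lf (nat_lit 0) (nat_lit 1741108047) (nat_lit 76) (nat_lit 32439538544) (nat_lit 76) (nat_lit 2148849194) (nat_lit 11) (nat_lit 4) (nat_lit 12) (nat_lit 5) (nat_lit 12) (nat_lit 4) (nat_lit 305) (nat_lit 233) (nat_lit 182)) (XT.lf (nat_lit 0) (nat_lit 2904647995) (nat_lit 152) (nat_lit 24524898231) (nat_lit 76) (nat_lit 10510376980) (nat_lit 10) (nat_lit 5) (nat_lit 12) (nat_lit 5) (nat_lit 11) (nat_lit 4)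 (nat_lit 306) (nat_lit 233) (nat_lit 181))))))) (XT.nd (nat_lit 858) (nat_lit 152) (nat_lit 0) (XT.nd (nat_lit 390) (nat_lit 152) (nat_lit 0) (XT.nd (nat_lit 156) (nat_lit 76) (nat_lit 0) (XT.nd (nat_lit 78) (nat_lit 0) (nat_lit 0) (XT.lf (nat_lit 0) (nat_lit 8122035070) (nat_lit 152) (nat_lit 14058025624) (nat_lit 76) (nat_lit 17451537105) (nat_lit 10) (nat_lit 5) (nat_lit 12) (nat_lit 5) (nat_lit 11) (nat_lit 4) (nat_lit 307) (nat_lit 233) (nat_lit 180)) (XT.lf (nat_lit 0) (nat_lit 13557666167) (nat_lit 152) (nat_lit 3142192741) (nat_lit 76) (nat_lit 24709308135) (nat_lit 10) (nat_lit 5) (nat_lit 12) (nat_lit 5) (nat_lit 11) (nat_lit 4) (nat_lit 308) (nat_lit 233) (nat_lit 179))) (XT.nd (nat_lit 78) (nat_lit 0) (nat_lit 0) (XT.lf (nat_lit 0) (nat_lit 8412753621) (nat_lit 76) (nat_lit 10892598176) (nat_lit 152) (nat_lit 23969085390) (nat_lit 9) (nat_lit 5) (nat_lit 10) (nat_lit 5) (nat_lit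 11) (nat_lit 4) (nat_lit 309) (nat_lit 233) (nat_lit 178)) (XT.nd (nat_lit 78) (nat_lit 0) (nat_lit 0) (XT.lf (nat_lit 0) (nat_lit 20542299252) (nat_lit 76) (nat_lit 4791144679) (nat_lit 152) (nat_lit 19899765415) (nat_lit 9) (nat_lit 5) (nat_lit 10) (nat_lit 5) (nat_lit 11) (nat_lit 4) (nat_lit 310) (nat_lit 233) (nat_lit 177)) (XT.lf (nat_lit 0) (nat_lit 31640747442) (nat_lit 152) (nat_lit 14093541297) (nat_lit 0) (nat_lit 1556324950) (nat_lit 9) (nat_lit 5) (nat_lit 11) (nat_lit 4) (nat_lit 9) (nat_lit 4) (nat_lit 311) (nat_lit 233) (nat_lit 176))))) (XT.nd (nat_lit 234) (nat_lit 76) (nat_lit 0) (XT.nd (nat_lit 78) (nat_lit 76) (nat_lit 0) (XT.lf (nat_lit 0) (nat_lit 38275849299) (nat_lit 152) (nat_lit 3077914925) (nat_lit 0) (nat_lit 8096777490) (nat_lit 9) (nat_lit 5) (nat_lit 11) (nat_lit 4) (nat_lit 9) (nat_lit 4) (nat_lit 312) (nat_lit 233) (nat_lit 175)) (XT.nd (nat_lit 78) (nat_lit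 0) (nat_lit 0) (XT.lf (nat_lit 0) (nat_lit 8595990860) (nat_lit 76) (nat_lit 36695131013) (nat_lit 76) (nat_lit 6425916996) (nat_lit 8) (nat_lit 4) (nat_lit 9) (nat_lit 5) (nat_lit 9) (nat_lit 4) (nat_lit 313) (nat_lit 233) (nat_lit 174)) (XT.lf (nat_lit 0) (nat_lit 20859397443) (nat_lit 76) (nat_lit 31796297536) (nat_lit 76) (nat_lit 1441233797) (nat_lit 8) (nat_lit 4) (nat_lit 9) (nat_lit 5) (nat_lit 9) (nat_lit 4) (nat_lit 314) (nat_lit 233) (nat_lit 173)))) (XT.nd (nat_lit 78) (nat_lit 0) (nat_lit 0) (XT.lf (nat_lit 0) (nat_lit 3686770606) (nat_lit 152) (nat_lit 22952681047) (nat_lit 76) (nat_lit 29956247106) (nat_lit 7) (nat_lit 5) (nat_lit 9) (nat_lit 5) (nat_lit 8) (nat_lit 4) (nat_lit 315) (nat_lit 233) (nat_lit 172)) (XT.nd (nat_lit 78) (nat_lit 0) (nat_lit 0) (XT.lf (nat_lit 0) (nat_lit 9011260585) (nat_lit 152) (nat_lit 12221834618) (nat_lit 76) (nat_lit 37986808316) (nat_lit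 7) (nat_lit 5) (nat_lit 9) (nat_lit 5) (nat_lit 8) (nat_lit 4) (nat_lit 316) (nat_lit 233) (nat_lit 171)) (XT.lf (nat_lit 0) (nat_lit 14573037159) (nat_lit 152) (nat_lit 1005588389) (nat_lit 76) (nat_lit 46397581233) (nat_lit 7) (nat_lit 5) (nat_lit 9) (nat_lit 5) (nat_lit 8) (nat_lit 4) (nat_lit 317) (nat_lit 233) (nat_lit 170)))))) (XT.nd (nat_lit 390) (nat_lit 76) (nat_lit 0) (XT.nd (nat_lit 156) (nat_lit 0) (nat_lit 0) (XT.nd (nat_lit 78) (nat_lit 0) (nat_lit 0) (XT.lf (nat_lit 0) (nat_lit 10936166994) (nat_lit 76) (nat_lit 9554300787) (nat_lit 152) (nat_lit 44377549638) (nat_lit 6) (nat_lit 5) (nat_lit 7) (nat_lit 5) (nat_lit 8) (nat_lit 4) (nat_lit 318) (nat_lit 233) (nat_lit 169)) (XT.lf (nat_lit 0) (nat_lit 23448713004) (nat_lit 76) (nat_lit 3238706261) (nat_lit 152) (nat_lit 41217508099) (nat_lit 6) (nat_lit 5) (nat_lit 7) (nat_lit 5) (nat_lit 8) (nat_lit 4) (nat_lit 319) (nat_lit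 233) (nat_lit 168))) (XT.nd (nat_lit 78) (nat_lit 0) (nat_lit 0) (XT.lf (nat_lit 0) (nat_lit 33201211280) (nat_lit 152) (nat_lit 34585058613) (nat_lit 0) (nat_lit 3307220513) (nat_lit 6) (nat_lit 5) (nat_lit 8) (nat_lit 4) (nat_lit 6) (nat_lit 4) (nat_lit 320) (nat_lit 233) (nat_lit 167)) (XT.nd (nat_lit 78) (nat_lit 0) (nat_lit 0) (XT.lf (nat_lit 0) (nat_lit 40048982470) (nat_lit 152) (nat_lit 24296510048) (nat_lit 0) (nat_lit 10095756952) (nat_lit 6) (nat_lit 5) (nat_lit 8) (nat_lit 4) (nat_lit 6) (nat_lit 4) (nat_lit 321) (nat_lit 233) (nat_lit 166)) (XT.lf (nat_lit 0) (nat_lit 47215904629) (nat_lit 152) (nat_lit 13534939695) (nat_lit 0) (nat_lit 17206265061) (nat_lit 6) (nat_lit 5) (nat_lit 8) (nat_lit 4) (nat_lit 6) (nat_lit 4) (nat_lit 322) (nat_lit 233) (nat_lit 165))))) (XT.nd (nat_lit 234) (nat_lit 0) (nat_lit 0) (XT.nd (nat_lit 78) (nat_lit 76) (nat_lit 0) (XT.lf (nat_lit 0) (nat_lit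 54719041856) (nat_lit 152) (nat_lit 2274724770) (nat_lit 0) (nat_lit 24655674622) (nat_lit 6) (nat_lit 5) (nat_lit 8) (nat_lit 4) (nat_lit 6) (nat_lit 4) (nat_lit 323) (nat_lit 233) (nat_lit 164)) (XT.nd (nat_lit 78) (nat_lit 0) (nat_lit 0) (XT.lf (nat_lit 0) (nat_lit 9700231214) (nat_lit 76) (nat_lit 52969272106) (nat_lit 76) (nat_lit 22854735666) (nat_lit 5) (nat_lit 4) (nat_lit 6) (nat_lit 5) (nat_lit 6) (nat_lit 4) (nat_lit 324) (nat_lit 233) (nat_lit 163)) (XT.lf (nat_lit 0) (nat_lit 22284990457) (nat_lit 76) (nat_lit 48735489515) (nat_lit 76) (nat_lit 18572220498) (nat_lit 5) (nat_lit 4) (nat_lit 6) (nat_lit 5) (nat_lit 6) (nat_lit 4) (nat_lit 325) (nat_lit 233) (nat_lit 162)))) (XT.nd (nat_lit 78) (nat_lit 0) (nat_lit 0) (XT.lf (nat_lit 0) (nat_lit 35464245188) (nat_lit 76) (nat_lit 44305308679) (nat_lit 76) (nat_lit 14095627684) (nat_lit 5) (nat_lit 4) (nat_lit 6) (nat_lit 5) (nat_lit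 6) (nat_lit 4) (nat_lit 326) (nat_lit 233) (nat_lit 161)) (XT.nd (nat_lit 78) (nat_lit 0) (nat_lit 0) (XT.lf (nat_lit 0) (nat_lit 49269374585) (nat_lit 76) (nat_lit 39668181548) (nat_lit 76) (nat_lit 9414298669) (nat_lit 5) (nat_lit 4) (nat_lit 6) (nat_lit 5) (nat_lit 6) (nat_lit 4) (nat_lit 327) (nat_lit 233) (nat_lit 160)) (XT.lf (nat_lit 0) (nat_lit 63733248003) (nat_lit 76) (nat_lit 34813067343) (nat_lit 76) (nat_lit 4517087432) (nat_lit 5) (nat_lit 4) (nat_lit 6) (nat_lit 5) (nat_lit 6) (nat_lit 4) (nat_lit 328) (nat_lit 233) (nat_lit 159))))))))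
noncomputable def xc38 : XT := (XT.nd (nat_lit 32916) (nat_lit 0) (nat_lit 1520) (XT.nd (nat_lit 32058) (nat_lit 0) (nat_lit 5320) (XT.nd (nat_lit 31590) (nat_lit 0) (nat_lit 10260) (XT.nd (nat_lit 156) (nat_lit 76) (nat_lit 0) (XT.nd (nat_lit 78) (nat_lit 0) (nat_lit 0) (XT.lf (nat_lit 0) (nat_lit 595808299) (nat_lit 152) (nat_lit 29126581473) (nat_lit 76) (nat_lit 78288478441) (nat_lit 4) (nat_lit 5) (nat_lit 6) (nat_lit 5) (nat_lit 5) (nat_lit 4) (nat_lit 329) (nat_lit 233) (nat_lit 158)) (XT.lf (nat_lit 0) (nat_lit 5855625159) (nat_lit 152) (nat_lit 18487336496) (nat_lit 76) (nat_lit 88861873020) (nat_lit 4) (nat_lit 5) (nat_lit 6) (nat_lit 5) (nat_lit 5) (nat_lit 4) (nat_lit 330) (nat_lit 233) (nat_lit 157))) (XT.nd (nat_lit 78) (nat_lit 76) (nat_lit 0) (XT.lf (nat_lit 0) (nat_lit 11363031166) (nat_lit 152) (nat_lit 7343667302) (nat_lit 76) (nat_lit 99952272914) (nat_lit 4) (nat_lit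 5) (nat_lit 6) (nat_lit 5) (nat_lit 5) (nat_lit 4) (nat_lit 331) (nat_lit 233) (nat_lit 156)) (XT.nd (nat_lit 31278) (nat_lit 0) (nat_lit 15732) (XT.lf (nat_lit 0) (nat_lit 4417153224) (nat_lit 76) (nat_lit 12756446345) (nat_lit 152) (nat_lit 107211390990) (nat_lit 3) (nat_lit 5) (nat_lit 4) (nat_lit 5) (nat_lit 5) (nat_lit 4) (nat_lit 332) (nat_lit 233) (nat_lit 155)) (XT.lf (nat_lit 0) (nat_lit 694299354) (nat_lit 836) (nat_lit 2064013647) (nat_lit 0) (nat_lit 694299354) (nat_lit 210) (nat_lit 5) (nat_lit 221) (nat_lit 4) (nat_lit 210) (nat_lit 4) (nat_lit 252) (nat_lit 234) (nat_lit 234))))) (XT.nd (nat_lit 234) (nat_lit 2584) (nat_lit 0) (XT.nd (nat_lit 78) (nat_lit 2052) (nat_lit 0) (XT.lf (nat_lit 0) (nat_lit 2747522600) (nat_lit 836) (nat_lit 3568888668) (nat_lit 836) (nat_lit 672603439) (nat_lit 199) (nat_lit 4) (nat_lit 210) (nat_lit 5) (nat_lit 210) (nat_lit 4) (nat_lit 253) (nat_lit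 234) (nat_lit 233)) (XT.nd (nat_lit 78) (nat_lit 1064) (nat_lit 0) (XT.lf (nat_lit 0) (nat_lit 2756825184) (nat_lit 912) (nat_lit 1386759691) (nat_lit 988) (nat_lit 2938402459) (nat_lit 186) (nat_lit 5) (nat_lit 198) (nat_lit 5) (nat_lit 199) (nat_lit 4) (nat_lit 254) (nat_lit 234) (nat_lit 232)) (XT.lf (nat_lit 0) (nat_lit 1802573914) (nat_lit 1064) (nat_lit 4381229511) (nat_lit 76) (nat_lit 1000684362) (nat_lit 172) (nat_lit 5) (nat_lit 186) (nat_lit 5) (nat_lit 173) (nat_lit 4) (nat_lit 255) (nat_lit 234) (nat_lit 231)))) (XT.nd (nat_lit 78) (nat_lit 1520) (nat_lit 0) (XT.lf (nat_lit 0) (nat_lit 2867804388) (nat_lit 1064) (nat_lit 3702297860) (nat_lit 1140) (nat_lit 726289259) (nat_lit 158) (nat_lit 5) (nat_lit 172) (nat_lit 5) (nat_lit 173) (nat_lit 4) (nat_lit 256) (nat_lit 234) (nat_lit 230)) (XT.nd (nat_lit 78) (nat_lit 608) (nat_lit 0) (XT.lf (nat_lit 0) (nat_lit 2944998205) (nat_lit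 836) (nat_lit 979180383) (nat_lit 912) (nat_lit 3493822736) (nat_lit 146) (nat_lit 5) (nat_lit 157) (nat_lit 5) (nat_lit 158) (nat_lit 5) (nat_lit 257) (nat_lit 234) (nat_lit 229)) (XT.lf (nat_lit 0) (nat_lit 1092195028) (nat_lit 608) (nat_lit 4522636294) (nat_lit 76) (nat_lit 1934753233) (nat_lit 138) (nat_lit 5) (nat_lit 146) (nat_lit 5) (nat_lit 139) (nat_lit 5) (nat_lit 258) (nat_lit 234) (nat_lit 228)))))) (XT.nd (nat_lit 390) (nat_lit 2356) (nat_lit 0) (XT.nd (nat_lit 156) (nat_lit 1520) (nat_lit 0) (XT.nd (nat_lit 78) (nat_lit 532) (nat_lit 0) (XT.lf (nat_lit 0) (nat_lit 3094639233) (nat_lit 532) (nat_lit 2611403858) (nat_lit 608) (nat_lit 1985079273) (nat_lit 131) (nat_lit 5) (nat_lit 138) (nat_lit 5) (nat_lit 139) (nat_lit 5) (nat_lit 259) (nat_lit 234) (nat_lit 227)) (XT.lf (nat_lit 0) (nat_lit 2530955095) (nat_lit 532) (nat_lit 4692754528) (nat_lit 76) (nat_lit 619551825) (nat_lit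 124) (nat_lit 5) (nat_lit 131) (nat_lit 5) (nat_lit 125) (nat_lit 5) (nat_lit 260) (nat_lit 234) (nat_lit 226))) (XT.nd (nat_lit 78) (nat_lit 988) (nat_lit 0) (XT.lf (nat_lit 0) (nat_lit 3167127315) (nat_lit 532) (nat_lit 3966872142) (nat_lit 608) (nat_lit 871823226) (nat_lit 117) (nat_lit 5) (nat_lit 124) (nat_lit 5) (nat_lit 125) (nat_lit 5) (nat_lit 261) (nat_lit 234) (nat_lit 225)) (XT.nd (nat_lit 78) (nat_lit 456) (nat_lit 0) (XT.lf (nat_lit 0) (nat_lit 3142426137) (nat_lit 456) (nat_lit 455733173) (nat_lit 532) (nat_lit 4581253251) (nat_lit 110) (nat_lit 5) (nat_lit 116) (nat_lit 5) (nat_lit 117) (nat_lit 5) (nat_lit 262) (nat_lit 234) (nat_lit 224)) (XT.lf (nat_lit 0) (nat_lit 3058476811) (nat_lit 456) (nat_lit 5135548913) (nat_lit 532) (nat_lit 170201062) (nat_lit 104) (nat_lit 5) (nat_lit 110) (nat_lit 5) (nat_lit 111) (nat_lit 5) (nat_lit 263) (nat_lit 234) (nat_lit 223))))) (XT.nd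 (nat_lit 234) (nat_lit 1064) (nat_lit 0) (XT.nd (nat_lit 78) (nat_lit 836) (nat_lit 0) (XT.lf (nat_lit 0) (nat_lit 2893677774) (nat_lit 380) (nat_lit 1379705878) (nat_lit 456) (nat_lit 4287025261) (nat_lit 98) (nat_lit 5) (nat_lit 103) (nat_lit 5) (nat_lit 104) (nat_lit 5) (nat_lit 264) (nat_lit 234) (nat_lit 222)) (XT.nd (nat_lit 78) (nat_lit 380) (nat_lit 0) (XT.lf (nat_lit 0) (nat_lit 90899259) (nat_lit 456) (nat_lit 6116824981) (nat_lit 76) (nat_lit 2561184698) (nat_lit 92) (nat_lit 5) (nat_lit 98) (nat_lit 5) (nat_lit 93) (nat_lit 5) (nat_lit 265) (nat_lit 234) (nat_lit 221)) (XT.lf (nat_lit 0) (nat_lit 2287501697) (nat_lit 380) (nat_lit 2232304504) (nat_lit 456) (nat_lit 4469470885) (nat_lit 87) (nat_lit 5) (nat_lit 92) (nat_lit 5) (nat_lit 93) (nat_lit 5) (nat_lit 266) (nat_lit 234) (nat_lit 220)))) (XT.nd (nat_lit 78) (nat_lit 684) (nat_lit 0) (XT.lf (nat_lit 0) (nat_lit 1820086571)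 (nat_lit 380) (nat_lit 7280791693) (nat_lit 456) (nat_lit 122186595) (nat_lit 82) (nat_lit 5) (nat_lit 87) (nat_lit 5) (nat_lit 88) (nat_lit 5) (nat_lit 267) (nat_lit 234) (nat_lit 219)) (XT.nd (nat_lit 78) (nat_lit 304) (nat_lit 0) (XT.lf (nat_lit 0) (nat_lit 1184219663) (nat_lit 304) (nat_lit 3110212463) (nat_lit 380) (nat_lit 5174967506) (nat_lit 77) (nat_lit 5) (nat_lit 81) (nat_lit 5) (nat_lit 82) (nat_lit 5) (nat_lit 268) (nat_lit 234) (nat_lit 218)) (XT.lf (nat_lit 0) (nat_lit 410520070) (nat_lit 304) (nat_lit 8452411146) (nat_lit 380) (nat_lit 867360612) (nat_lit 73) (nat_lit 5) (nat_lit 77) (nat_lit 5) (nat_lit 78) (nat_lit 5) (nat_lit 269) (nat_lit 234) (nat_lit 217))))))) (XT.nd (nat_lit 858) (nat_lit 1216) (nat_lit 0) (XT.nd (nat_lit 390) (nat_lit 1216) (nat_lit 0) (XT.nd (nat_lit 156) (nat_lit 988) (nat_lit 0) (XT.nd (nat_lit 78) (nat_lit 304) (nat_lit 0) (XT.lf (nat_lit 0)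 (nat_lit 3546084208) (nat_lit 380) (nat_lit 565180288) (nat_lit 76) (nat_lit 5893319020) (nat_lit 72) (nat_lit 5) (nat_lit 77) (nat_lit 5) (nat_lit 73) (nat_lit 5) (nat_lit 270) (nat_lit 234) (nat_lit 216)) (XT.lf (nat_lit 0) (nat_lit 8101343759) (nat_lit 380) (nat_lit 1713589925) (nat_lit 76) (nat_lit 479476379) (nat_lit 68) (nat_lit 5) (nat_lit 73) (nat_lit 5) (nat_lit 69) (nat_lit 5) (nat_lit 271) (nat_lit 234) (nat_lit 215))) (XT.nd (nat_lit 78) (nat_lit 608) (nat_lit 0) (XT.lf (nat_lit 0) (nat_lit 2216447967) (nat_lit 380) (nat_lit 3117730712) (nat_lit 76) (nat_lit 5264859274) (nat_lit 63) (nat_lit 5) (nat_lit 68) (nat_lit 5) (nat_lit 64) (nat_lit 5) (nat_lit 272) (nat_lit 234) (nat_lit 214)) (XT.nd (nat_lit 78) (nat_lit 380) (nat_lit 0) (XT.lf (nat_lit 0) (nat_lit 6155313963) (nat_lit 228) (nat_lit 582944125) (nat_lit 304) (nat_lit 4182092906) (nat_lit 60) (nat_lit 5) (nat_lit 63)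 (nat_lit 5) (nat_lit 64) (nat_lit 5) (nat_lit 273) (nat_lit 234) (nat_lit 213)) (XT.lf (nat_lit 0) (nat_lit 206211691) (nat_lit 380) (nat_lit 6707927867) (nat_lit 76) (nat_lit 4344260884) (nat_lit 55) (nat_lit 5) (nat_lit 60) (nat_lit 5) (nat_lit 56) (nat_lit 5) (nat_lit 274) (nat_lit 234) (nat_lit 212))))) (XT.nd (nat_lit 234) (nat_lit 684) (nat_lit 0) (XT.nd (nat_lit 78) (nat_lit 304) (nat_lit 0) (XT.lf (nat_lit 0) (nat_lit 2630928152) (nat_lit 228) (nat_lit 2045283835) (nat_lit 304) (nat_lit 6937629117) (nat_lit 52) (nat_lit 5) (nat_lit 55) (nat_lit 5) (nat_lit 56) (nat_lit 5) (nat_lit 275) (nat_lit 234) (nat_lit 211)) (XT.nd (nat_lit 78) (nat_lit 76) (nat_lit 0) (XT.lf (nat_lit 0) (nat_lit 379891091) (nat_lit 228) (nat_lit 8963929468) (nat_lit 304) (nat_lit 2644194873) (nat_lit 49) (nat_lit 5) (nat_lit 52) (nat_lit 5) (nat_lit 53) (nat_lit 5) (nat_lit 276) (nat_lit 234) (nat_lit 210))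 (XT.lf (nat_lit 0) (nat_lit 1815768246) (nat_lit 304) (nat_lit 2205574707) (nat_lit 76) (nat_lit 8359542098) (nat_lit 48) (nat_lit 5) (nat_lit 52) (nat_lit 5) (nat_lit 49) (nat_lit 5) (nat_lit 277) (nat_lit 234) (nat_lit 209)))) (XT.nd (nat_lit 78) (nat_lit 456) (nat_lit 0) (XT.lf (nat_lit 0) (nat_lit 6409569177) (nat_lit 304) (nat_lit 5194529683) (nat_lit 76) (nat_lit 1189710925) (nat_lit 45) (nat_lit 5) (nat_lit 49) (nat_lit 5) (nat_lit 46) (nat_lit 5) (nat_lit 278) (nat_lit 234) (nat_lit 208)) (XT.nd (nat_lit 78) (nat_lit 228) (nat_lit 0) (XT.lf (nat_lit 0) (nat_lit 4586826573) (nat_lit 228) (nat_lit 6637532394) (nat_lit 304) (nat_lit 2003437880) (nat_lit 42) (nat_lit 5) (nat_lit 45) (nat_lit 5) (nat_lit 46) (nat_lit 5) (nat_lit 279) (nat_lit 234) (nat_lit 207)) (XT.lf (nat_lit 0) (nat_lit 1107031559) (nat_lit 152) (nat_lit 1389682912) (nat_lit 228) (nat_lit 11187634174) (nat_lit 39)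 (nat_lit 5) (nat_lit 41) (nat_lit 5) (nat_lit 42) (nat_lit 5) (nat_lit 280) (nat_lit 234) (nat_lit 206)))))) (XT.nd (nat_lit 390) (nat_lit 608) (nat_lit 0) (XT.nd (nat_lit 156) (nat_lit 380) (nat_lit 0) (XT.nd (nat_lit 78) (nat_lit 228) (nat_lit 0) (XT.lf (nat_lit 0) (nat_lit 7199835604) (nat_lit 228) (nat_lit 2869685625) (nat_lit 76) (nat_lit 4093166409) (nat_lit 39) (nat_lit 5) (nat_lit 42) (nat_lit 5) (nat_lit 40) (nat_lit 5) (nat_lit 281) (nat_lit 234) (nat_lit 205)) (XT.lf (nat_lit 0) (nat_lit 7288750538) (nat_lit 228) (nat_lit 4828280172) (nat_lit 304) (nat_lit 2548675373) (nat_lit 36) (nat_lit 5) (nat_lit 39) (nat_lit 5) (nat_lit 40) (nat_lit 5) (nat_lit 282) (nat_lit 234) (nat_lit 204))) (XT.nd (nat_lit 78) (nat_lit 152) (nat_lit 0) (XT.lf (nat_lit 0) (nat_lit 2005105028) (nat_lit 228) (nat_lit 12507462678) (nat_lit 76) (nat_lit 682038238) (nat_lit 33) (nat_lit 5) (nat_lit 36) (nat_lit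 5) (nat_lit 34) (nat_lit 5) (nat_lit 283) (nat_lit 234) (nat_lit 203)) (XT.nd (nat_lit 78) (nat_lit 152) (nat_lit 0) (XT.lf (nat_lit 0) (nat_lit 6759824083) (nat_lit 228) (nat_lit 2572520352) (nat_lit 76) (nat_lit 6416185041) (nat_lit 33) (nat_lit 5) (nat_lit 36) (nat_lit 5) (nat_lit 34) (nat_lit 5) (nat_lit 284) (nat_lit 234) (nat_lit 202)) (XT.lf (nat_lit 0) (nat_lit 7861875793) (nat_lit 152) (nat_lit 3870782208) (nat_lit 228) (nat_lit 4598188881) (nat_lit 31) (nat_lit 5) (nat_lit 33) (nat_lit 5) (nat_lit 34) (nat_lit 5) (nat_lit 285) (nat_lit 234) (nat_lit 201))))) (XT.nd (nat_lit 234) (nat_lit 228) (nat_lit 0) (XT.nd (nat_lit 78) (nat_lit 228) (nat_lit 0) (XT.lf (nat_lit 0) (nat_lit 1798449021) (nat_lit 152) (nat_lit 15125042463) (nat_lit 228) (nat_lit 19811807) (nat_lit 29) (nat_lit 5) (nat_lit 31) (nat_lit 5) (nat_lit 32) (nat_lit 4) (nat_lit 286) (nat_lit 234) (nat_lit 200)) (XT.nd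 (nat_lit 78) (nat_lit 152) (nat_lit 0) (XT.lf (nat_lit 0) (nat_lit 4730621606) (nat_lit 228) (nat_lit 5059868040) (nat_lit 76) (nat_lit 7793511554) (nat_lit 28) (nat_lit 5) (nat_lit 31) (nat_lit 5) (nat_lit 29) (nat_lit 5) (nat_lit 287) (nat_lit 234) (nat_lit 199)) (XT.lf (nat_lit 0) (nat_lit 5497038832) (nat_lit 152) (nat_lit 4187730968) (nat_lit 228) (nat_lit 8573051703) (nat_lit 26) (nat_lit 5) (nat_lit 28) (nat_lit 5) (nat_lit 29) (nat_lit 5) (nat_lit 288) (nat_lit 234) (nat_lit 198)))) (XT.nd (nat_lit 78) (nat_lit 228) (nat_lit 0) (XT.lf (nat_lit 0) (nat_lit 14871586805) (nat_lit 228) (nat_lit 2430544178) (nat_lit 76) (nat_lit 1663740109) (nat_lit 26) (nat_lit 5) (nat_lit 29) (nat_lit 5) (nat_lit 27) (nat_lit 4) (nat_lit 289) (nat_lit 234) (nat_lit 197)) (XT.nd (nat_lit 78) (nat_lit 0) (nat_lit 0) (XT.lf (nat_lit 0) (nat_lit 640037069) (nat_lit 228) (nat_lit 11307340028) (nat_lit 76)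 (nat_lit 7760546515) (nat_lit 23) (nat_lit 5) (nat_lit 26) (nat_lit 5) (nat_lit 24) (nat_lit 5) (nat_lit 290) (nat_lit 234) (nat_lit 196)) (XT.lf (nat_lit 0) (nat_lit 5474255021) (nat_lit 228) (nat_lit 832664579) (nat_lit 76) (nat_lit 14180584047) (nat_lit 23) (nat_lit 5) (nat_lit 26) (nat_lit 5) (nat_lit 24) (nat_lit 5) (nat_lit 291) (nat_lit 234) (nat_lit 195))))))))
noncomputable def xc39 : XT := (XT.nd (nat_lit 1716) (nat_lit 380) (nat_lit 0) (XT.nd (nat_lit 858) (nat_lit 304) (nat_lit 0) (XT.nd (nat_lit 390) (nat_lit 304) (nat_lit 0) (XT.nd (nat_lit 156) (nat_lit 304) (nat_lit 0) (XT.nd (nat_lit 78) (nat_lit 0) (nat_lit 0) (XT.lf (nat_lit 0) (nat_lit 10242932517) (nat_lit 152) (nat_lit 331237865) (nat_lit 228) (nat_lit 10731245768) (nat_lit 21) (nat_lit 5) (nat_lit 23) (nat_lit 5) (nat_lit 24) (nat_lit 5) (nat_lit 292) (nat_lit 234) (nat_lit 194)) (XT.lf (nat_lit 0) (nat_lit 15922341182)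 (nat_lit 228) (nat_lit 452423082) (nat_lit 76) (nat_lit 5789731803) (nat_lit 21) (nat_lit 5) (nat_lit 24) (nat_lit 5) (nat_lit 22) (nat_lit 4) (nat_lit 293) (nat_lit 234) (nat_lit 193))) (XT.nd (nat_lit 78) (nat_lit 228) (nat_lit 0) (XT.lf (nat_lit 0) (nat_lit 10779961826) (nat_lit 76) (nat_lit 10795852512) (nat_lit 152) (nat_lit 1489645096) (nat_lit 20) (nat_lit 5) (nat_lit 21) (nat_lit 5) (nat_lit 22) (nat_lit 4) (nat_lit 294) (nat_lit 234) (nat_lit 192)) (XT.nd (nat_lit 78) (nat_lit 152) (nat_lit 0) (XT.lf (nat_lit 0) (nat_lit 3369303172) (nat_lit 152) (nat_lit 1574901588) (nat_lit 76) (nat_lit 19068204413) (nat_lit 19) (nat_lit 5) (nat_lit 21) (nat_lit 5) (nat_lit 20) (nat_lit 5) (nat_lit 295) (nat_lit 234) (nat_lit 191)) (XT.lf (nat_lit 0) (nat_lit 8482115359) (nat_lit 228) (nat_lit 15279311004) (nat_lit 76) (nat_lit 1243644182) (nat_lit 17) (nat_lit 5) (nat_lit 20) (nat_lit 5) (nat_lit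 18) (nat_lit 4) (nat_lit 296) (nat_lit 234) (nat_lit 190))))) (XT.nd (nat_lit 234) (nat_lit 228) (nat_lit 0) (XT.nd (nat_lit 78) (nat_lit 76) (nat_lit 0) (XT.lf (nat_lit 0) (nat_lit 13854127942) (nat_lit 228) (nat_lit 4578901600) (nat_lit 76) (nat_lit 7614284227) (nat_lit 17) (nat_lit 5) (nat_lit 20) (nat_lit 5) (nat_lit 18) (nat_lit 4) (nat_lit 297) (nat_lit 234) (nat_lit 189)) (XT.nd (nat_lit 78) (nat_lit 0) (nat_lit 0) (XT.lf (nat_lit 0) (nat_lit 6685730045) (nat_lit 76) (nat_lit 12813548901) (nat_lit 152) (nat_lit 7642307005) (nat_lit 16) (nat_lit 5) (nat_lit 17) (nat_lit 5) (nat_lit 18) (nat_lit 4) (nat_lit 298) (nat_lit 234) (nat_lit 188)) (XT.lf (nat_lit 0) (nat_lit 18510920572) (nat_lit 76) (nat_lit 6905071932) (nat_lit 152) (nat_lit 2874950499) (nat_lit 16) (nat_lit 5) (nat_lit 17) (nat_lit 5) (nat_lit 18) (nat_lit 4) (nat_lit 299) (nat_lit 234) (nat_lit 187)))) (XT.nd (nat_lit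 78) (nat_lit 0) (nat_lit 0) (XT.lf (nat_lit 0) (nat_lit 1340448300) (nat_lit 152) (nat_lit 705962375) (nat_lit 228) (nat_lit 27452072896) (nat_lit 13) (nat_lit 5) (nat_lit 15) (nat_lit 5) (nat_lit 16) (nat_lit 5) (nat_lit 300) (nat_lit 234) (nat_lit 186)) (XT.nd (nat_lit 78) (nat_lit 0) (nat_lit 0) (XT.lf (nat_lit 0) (nat_lit 7258119642) (nat_lit 228) (nat_lit 17721267006) (nat_lit 76) (nat_lit 5783092822) (nat_lit 13) (nat_lit 5) (nat_lit 16) (nat_lit 5) (nat_lit 14) (nat_lit 4) (nat_lit 301) (nat_lit 234) (nat_lit 185)) (XT.lf (nat_lit 0) (nat_lit 12685852773) (nat_lit 228) (nat_lit 6858742986) (nat_lit 76) (nat_lit 12546458521) (nat_lit 13) (nat_lit 5) (nat_lit 16) (nat_lit 5) (nat_lit 14) (nat_lit 4) (nat_lit 302) (nat_lit 234) (nat_lit 184)))))) (XT.nd (nat_lit 390) (nat_lit 76) (nat_lit 0) (XT.nd (nat_lit 156) (nat_lit 152) (nat_lit 0) (XT.nd (nat_lit 78) (nat_lit 0) (nat_lit 0) (XT.lf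 (nat_lit 0) (nat_lit 4550992335) (nat_lit 76) (nat_lit 13828501687) (nat_lit 152) (nat_lit 15106768428) (nat_lit 12) (nat_lit 5) (nat_lit 13) (nat_lit 5) (nat_lit 14) (nat_lit 4) (nat_lit 303) (nat_lit 234) (nat_lit 183)) (XT.lf (nat_lit 0) (nat_lit 16592249343) (nat_lit 76) (nat_lit 7788500261) (nat_lit 152) (nat_lit 10569831805) (nat_lit 12) (nat_lit 5) (nat_lit 13) (nat_lit 5) (nat_lit 14) (nat_lit 4) (nat_lit 304) (nat_lit 234) (nat_lit 182))) (XT.nd (nat_lit 78) (nat_lit 152) (nat_lit 0) (XT.lf (nat_lit 0) (nat_lit 29157195263) (nat_lit 76) (nat_lit 1479470382) (nat_lit 152) (nat_lit 5852849262) (nat_lit 12) (nat_lit 5) (nat_lit 13) (nat_lit 5) (nat_lit 14) (nat_lit 4) (nat_lit 305) (nat_lit 234) (nat_lit 181)) (XT.nd (nat_lit 78) (nat_lit 76) (nat_lit 0) (XT.lf (nat_lit 0) (nat_lit 4201857797) (nat_lit 76) (nat_lit 33049825353) (nat_lit 76) (nat_lit 852357540) (nat_lit 11) (nat_lit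 4) (nat_lit 12) (nat_lit 5) (nat_lit 12) (nat_lit 4) (nat_lit 306) (nat_lit 234) (nat_lit 180)) (XT.lf (nat_lit 0) (nat_lit 4360869254) (nat_lit 152) (nat_lit 23463401468) (nat_lit 76) (nat_lit 11972329836) (nat_lit 10) (nat_lit 5) (nat_lit 12) (nat_lit 5) (nat_lit 11) (nat_lit 4) (nat_lit 307) (nat_lit 234) (nat_lit 179))))) (XT.nd (nat_lit 234) (nat_lit 0) (nat_lit 0) (XT.nd (nat_lit 78) (nat_lit 76) (nat_lit 0) (XT.lf (nat_lit 0) (nat_lit 9776697642) (nat_lit 152) (nat_lit 12582125311) (nat_lit 76) (nat_lit 19215955872) (nat_lit 10) (nat_lit 5) (nat_lit 12) (nat_lit 5) (nat_lit 11) (nat_lit 4) (nat_lit 308) (nat_lit 234) (nat_lit 178)) (XT.nd (nat_lit 78) (nat_lit 76) (nat_lit 0) (XT.lf (nat_lit 0) (nat_lit 15424655016) (nat_lit 152) (nat_lit 1224253241) (nat_lit 76) (nat_lit 26794146791) (nat_lit 10) (nat_lit 5) (nat_lit 12) (nat_lit 5) (nat_lit 11) (nat_lit 4) (nat_lit 309) (nat_lit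 234) (nat_lit 177)) (XT.lf (nat_lit 0) (nat_lit 10848959573) (nat_lit 76) (nat_lit 10573516158) (nat_lit 152) (nat_lit 23980273169) (nat_lit 9) (nat_lit 5) (nat_lit 10) (nat_lit 5) (nat_lit 11) (nat_lit 4) (nat_lit 310) (nat_lit 234) (nat_lit 176)))) (XT.nd (nat_lit 78) (nat_lit 0) (nat_lit 0) (XT.lf (nat_lit 0) (nat_lit 23489003043) (nat_lit 76) (nat_lit 4208119125) (nat_lit 152) (nat_lit 19764023694) (nat_lit 9) (nat_lit 5) (nat_lit 10) (nat_lit 5) (nat_lit 11) (nat_lit 4) (nat_lit 311) (nat_lit 234) (nat_lit 175)) (XT.nd (nat_lit 78) (nat_lit 0) (nat_lit 0) (XT.lf (nat_lit 0) (nat_lit 34275083109) (nat_lit 152) (nat_lit 12945451114) (nat_lit 0) (nat_lit 2402266183) (nat_lit 9) (nat_lit 5) (nat_lit 11) (nat_lit 4) (nat_lit 9) (nat_lit 4) (nat_lit 312) (nat_lit 234) (nat_lit 174)) (XT.lf (nat_lit 0) (nat_lit 41191830617) (nat_lit 152) (nat_lit 1467270435) (nat_lit 0) (nat_lit 9233163969)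 (nat_lit 9) (nat_lit 5) (nat_lit 11) (nat_lit 4) (nat_lit 9) (nat_lit 4) (nat_lit 313) (nat_lit 234) (nat_lit 173))))))) (XT.nd (nat_lit 858) (nat_lit 152) (nat_lit 0) (XT.nd (nat_lit 390) (nat_lit 0) (nat_lit 0) (XT.nd (nat_lit 156) (nat_lit 152) (nat_lit 0) (XT.nd (nat_lit 78) (nat_lit 0) (nat_lit 0) (XT.lf (nat_lit 0) (nat_lit 10739750447) (nat_lit 76) (nat_lit 37786868726) (nat_lit 76) (nat_lit 5746440439) (nat_lit 8) (nat_lit 4) (nat_lit 9) (nat_lit 5) (nat_lit 9) (nat_lit 4) (nat_lit 314) (nat_lit 234) (nat_lit 172)) (XT.lf (nat_lit 0) (nat_lit 23534710214) (nat_lit 76) (nat_lit 32678475424) (nat_lit 76) (nat_lit 560178909) (nat_lit 8) (nat_lit 4) (nat_lit 9) (nat_lit 5) (nat_lit 9) (nat_lit 4) (nat_lit 315) (nat_lit 234) (nat_lit 171))) (XT.nd (nat_lit 78) (nat_lit 76) (nat_lit 0) (XT.lf (nat_lit 0) (nat_lit 4761126127) (nat_lit 152) (nat_lit 22527370693) (nat_lit 76) (nat_lit 32109667329)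 (nat_lit 7) (nat_lit 5) (nat_lit 9) (nat_lit 5) (nat_lit 8) (nat_lit 4) (nat_lit 316) (nat_lit 234) (nat_lit 170)) (XT.nd (nat_lit 78) (nat_lit 76) (nat_lit 0) (XT.lf (nat_lit 0) (nat_lit 10309458844) (nat_lit 152) (nat_lit 11334884057) (nat_lit 76) (nat_lit 40510537178) (nat_lit 7) (nat_lit 5) (nat_lit 9) (nat_lit 5) (nat_lit 8) (nat_lit 4) (nat_lit 317) (nat_lit 234) (nat_lit 169)) (XT.lf (nat_lit 0) (nat_lit 378219561) (nat_lit 76) (nat_lit 15734376781) (nat_lit 152) (nat_lit 48937532073) (nat_lit 6) (nat_lit 5) (nat_lit 7) (nat_lit 5) (nat_lit 8) (nat_lit 4) (nat_lit 318) (nat_lit 234) (nat_lit 168))))) (XT.nd (nat_lit 234) (nat_lit 0) (nat_lit 0) (XT.nd (nat_lit 78) (nat_lit 0) (nat_lit 0) (XT.lf (nat_lit 0) (nat_lit 12868786020) (nat_lit 76) (nat_lit 9428356550) (nat_lit 152) (nat_lit 45790276429) (nat_lit 6) (nat_lit 5) (nat_lit 7) (nat_lit 5) (nat_lit 8) (nat_lit 4) (nat_lit 319)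 (nat_lit 234) (nat_lit 167)) (XT.nd (nat_lit 78) (nat_lit 0) (nat_lit 0) (XT.lf (nat_lit 0) (nat_lit 25940968346) (nat_lit 76) (nat_lit 2825727978) (nat_lit 152) (nat_lit 42510620942) (nat_lit 6) (nat_lit 5) (nat_lit 7) (nat_lit 5) (nat_lit 8) (nat_lit 4) (nat_lit 320) (nat_lit 234) (nat_lit 166)) (XT.lf (nat_lit 0) (nat_lit 35575969479) (nat_lit 152) (nat_lit 35040835603) (nat_lit 0) (nat_lit 4009433883) (nat_lit 6) (nat_lit 5) (nat_lit 8) (nat_lit 4) (nat_lit 6) (nat_lit 4) (nat_lit 321) (nat_lit 234) (nat_lit 165)))) (XT.nd (nat_lit 78) (nat_lit 0) (nat_lit 0) (XT.lf (nat_lit 0) (nat_lit 42732096008) (nat_lit 152) (nat_lit 24298501321) (nat_lit 0) (nat_lit 11111832746) (nat_lit 6) (nat_lit 5) (nat_lit 8) (nat_lit 4) (nat_lit 6) (nat_lit 4) (nat_lit 322) (nat_lit 234) (nat_lit 164)) (XT.nd (nat_lit 78) (nat_lit 0) (nat_lit 0) (XT.lf (nat_lit 0) (nat_lit 50224951684) (nat_lit 152) (nat_lit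 13056606462) (nat_lit 0) (nat_lit 18553519216) (nat_lit 6) (nat_lit 5) (nat_lit 8) (nat_lit 4) (nat_lit 6) (nat_lit 4) (nat_lit 323) (nat_lit 234) (nat_lit 163)) (XT.lf (nat_lit 0) (nat_lit 58072376637) (nat_lit 152) (nat_lit 1288384610) (nat_lit 0) (nat_lit 26352211593) (nat_lit 6) (nat_lit 5) (nat_lit 8) (nat_lit 4) (nat_lit 6) (nat_lit 4) (nat_lit 324) (nat_lit 234) (nat_lit 162)))))) (XT.nd (nat_lit 390) (nat_lit 76) (nat_lit 0) (XT.nd (nat_lit 156) (nat_lit 0) (nat_lit 0) (XT.nd (nat_lit 78) (nat_lit 0) (nat_lit 0) (XT.lf (nat_lit 0) (nat_lit 11253785704) (nat_lit 76) (nat_lit 55147447783) (nat_lit 76) (nat_lit 23380870761) (nat_lit 5) (nat_lit 4) (nat_lit 6) (nat_lit 5) (nat_lit 6) (nat_lit 4) (nat_lit 325) (nat_lit 234) (nat_lit 161)) (XT.lf (nat_lit 0) (nat_lit 24416899913) (nat_lit 76) (nat_lit 50724370726) (nat_lit 76) (nat_lit 18913591820) (nat_lit 5) (nat_lit 4) (nat_lit 6) (nat_lit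 5) (nat_lit 6) (nat_lit 4) (nat_lit 326) (nat_lit 234) (nat_lit 160))) (XT.nd (nat_lit 78) (nat_lit 0) (nat_lit 0) (XT.lf (nat_lit 0) (nat_lit 38206657384) (nat_lit 76) (nat_lit 46094009098) (nat_lit 76) (nat_lit 14241133160) (nat_lit 5) (nat_lit 4) (nat_lit 6) (nat_lit 5) (nat_lit 6) (nat_lit 4) (nat_lit 327) (nat_lit 234) (nat_lit 159)) (XT.nd (nat_lit 78) (nat_lit 0) (nat_lit 0) (XT.lf (nat_lit 0) (nat_lit 52655890872) (nat_lit 76) (nat_lit 41245338230) (nat_lit 76) (nat_lit 9352369881) (nat_lit 5) (nat_lit 4) (nat_lit 6) (nat_lit 5) (nat_lit 6) (nat_lit 4) (nat_lit 328) (nat_lit 234) (nat_lit 158)) (XT.lf (nat_lit 0) (nat_lit 67799003316) (nat_lit 76) (nat_lit 36166813667) (nat_lit 76) (nat_lit 4235662068) (nat_lit 5) (nat_lit 4) (nat_lit 6) (nat_lit 5) (nat_lit 6) (nat_lit 4) (nat_lit 329) (nat_lit 234) (nat_lit 157))))) (XT.nd (nat_lit 31356) (nat_lit 0) (nat_lit 14744) (XT.nd (nat_lit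 78) (nat_lit 0) (nat_lit 0) (XT.lf (nat_lit 0) (nat_lit 1099294791) (nat_lit 152) (nat_lit 29735948171) (nat_lit 76) (nat_lit 82561654230) (nat_lit 4) (nat_lit 5) (nat_lit 6) (nat_lit 5) (nat_lit 5) (nat_lit 4) (nat_lit 330) (nat_lit 234) (nat_lit 156)) (XT.nd (nat_lit 31200) (nat_lit 0) (nat_lit 17176) (XT.lf (nat_lit 0) (nat_lit 6599545538) (nat_lit 152) (nat_lit 18605072487) (nat_lit 76) (nat_lit 93646635116) (nat_lit 4) (nat_lit 5) (nat_lit 6) (nat_lit 5) (nat_lit 5) (nat_lit 4) (nat_lit 331) (nat_lit 234) (nat_lit 155)) (XT.lf (nat_lit 0) (nat_lit 777355459) (nat_lit 684) (nat_lit 1825774030) (nat_lit 0) (nat_lit 777355459) (nat_lit 230) (nat_lit 5) (nat_lit 239) (nat_lit 4) (nat_lit 230) (nat_lit 4) (nat_lit 250) (nat_lit 235) (nat_lit 235)))) (XT.nd (nat_lit 78) (nat_lit 1748) (nat_lit 0) (XT.lf (nat_lit 0) (nat_lit 2856348341) (nat_lit 684) (nat_lit 3553268252) (nat_lit 684) (nat_lit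 420935777) (nat_lit 221) (nat_lit 4) (nat_lit 230) (nat_lit 5) (nat_lit 230) (nat_lit 4) (nat_lit 251) (nat_lit 235) (nat_lit 234)) (XT.nd (nat_lit 78) (nat_lit 912) (nat_lit 0) (XT.lf (nat_lit 0) (nat_lit 2651534661) (nat_lit 760) (nat_lit 1667204709) (nat_lit 836) (nat_lit 2590209054) (nat_lit 210) (nat_lit 5) (nat_lit 220) (nat_lit 5) (nat_lit 221) (nat_lit 4) (nat_lit 252) (nat_lit 235) (nat_lit 233)) (XT.lf (nat_lit 0) (nat_lit 2068952989) (nat_lit 912) (nat_lit 4495777036) (nat_lit 76) (nat_lit 431950045) (nat_lit 198) (nat_lit 5) (nat_lit 210) (nat_lit 5) (nat_lit 199) (nat_lit 4) (nat_lit 253) (nat_lit 235) (nat_lit 232))))))))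
noncomputable def xc40 : XT := (XT.nd (nat_lit 1638) (nat_lit 2964) (nat_lit 0) (XT.nd (nat_lit 780) (nat_lit 3572) (nat_lit 0) (XT.nd (nat_lit 390) (nat_lit 2660) (nat_lit 0) (XT.nd (nat_lit 156) (nat_lit 2584) (nat_lit 0) (XT.nd (nat_lit 78) (nat_lit 1064) (nat_lit 0) (XT.lf (nat_lit 0) (nat_lit 2381187243) (nat_lit 912) (nat_lit 4369529470) (nat_lit 988) (nat_lit 342728806) (nat_lit 186) (nat_lit 5) (nat_lit 198) (nat_lit 5) (nat_lit 199) (nat_lit 4) (nat_lit 254) (nat_lit 235) (nat_lit 231)) (XT.lf (nat_lit 0) (nat_lit 2283908939) (nat_lit 988) (nat_lit 1934254298) (nat_lit 1064) (nat_lit 2981238786) (nat_lit 172) (nat_lit 5) (nat_lit 185) (nat_lit 5) (nat_lit 186) (nat_lit 5) (nat_lit 255) (nat_lit 235) (nat_lit 230))) (XT.nd (nat_lit 78) (nat_lit 1444) (nat_lit 0) (XT.lf (nat_lit 0) (nat_lit 1505353130) (nat_lit 1140) (nat_lit 5098356970) (nat_lit 76) (nat_lit 711500920) (nat_lit 157)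 (nat_lit 5) (nat_lit 172) (nat_lit 5) (nat_lit 158) (nat_lit 5) (nat_lit 256) (nat_lit 235) (nat_lit 229)) (XT.nd (nat_lit 78) (nat_lit 608) (nat_lit 0) (XT.lf (nat_lit 0) (nat_lit 2145646795) (nat_lit 836) (nat_lit 3881197405) (nat_lit 912) (nat_lit 1413494511) (nat_lit 146) (nat_lit 5) (nat_lit 157) (nat_lit 5) (nat_lit 158) (nat_lit 5) (nat_lit 257) (nat_lit 235) (nat_lit 228)) (XT.lf (nat_lit 0) (nat_lit 2079660760) (nat_lit 532) (nat_lit 919702970) (nat_lit 608) (nat_lit 4576197087) (nat_lit 138) (nat_lit 5) (nat_lit 145) (nat_lit 5) (nat_lit 146) (nat_lit 5) (nat_lit 258) (nat_lit 235) (nat_lit 227))))) (XT.nd (nat_lit 156) (nat_lit 1596) (nat_lit 0) (XT.nd (nat_lit 78) (nat_lit 532) (nat_lit 0) (XT.lf (nat_lit 0) (nat_lit 2002446192) (nat_lit 532) (nat_lit 5491069762) (nat_lit 608) (nat_lit 227422929) (nat_lit 131) (nat_lit 5) (nat_lit 138) (nat_lit 5) (nat_lit 139) (nat_lit 5) (nat_lit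 259) (nat_lit 235) (nat_lit 226)) (XT.lf (nat_lit 0) (nat_lit 1887508175) (nat_lit 456) (nat_lit 2250769744) (nat_lit 532) (nat_lit 3738004826) (nat_lit 124) (nat_lit 5) (nat_lit 130) (nat_lit 5) (nat_lit 131) (nat_lit 5) (nat_lit 260) (nat_lit 235) (nat_lit 225))) (XT.nd (nat_lit 78) (nat_lit 988) (nat_lit 0) (XT.lf (nat_lit 0) (nat_lit 557937966) (nat_lit 608) (nat_lit 6288649873) (nat_lit 76) (nat_lit 1196191749) (nat_lit 116) (nat_lit 5) (nat_lit 124) (nat_lit 5) (nat_lit 117) (nat_lit 5) (nat_lit 261) (nat_lit 235) (nat_lit 224)) (XT.nd (nat_lit 78) (nat_lit 532) (nat_lit 0) (XT.lf (nat_lit 0) (nat_lit 1548465731) (nat_lit 456) (nat_lit 3355344243) (nat_lit 532) (nat_lit 3315724081) (nat_lit 110) (nat_lit 5) (nat_lit 116) (nat_lit 5) (nat_lit 117) (nat_lit 5) (nat_lit 262) (nat_lit 235) (nat_lit 223)) (XT.lf (nat_lit 0) (nat_lit 939296415) (nat_lit 532) (nat_lit 7103762477) (nat_lit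 76) (nat_lit 365201012) (nat_lit 103) (nat_lit 5) (nat_lit 110) (nat_lit 5) (nat_lit 104) (nat_lit 5) (nat_lit 263) (nat_lit 235) (nat_lit 222)))))) (XT.nd (nat_lit 390) (nat_lit 1900) (nat_lit 0) (XT.nd (nat_lit 156) (nat_lit 836) (nat_lit 0) (XT.nd (nat_lit 78) (nat_lit 456) (nat_lit 0) (XT.lf (nat_lit 0) (nat_lit 953007779) (nat_lit 380) (nat_lit 4321605749) (nat_lit 456) (nat_lit 3333106629) (nat_lit 98) (nat_lit 5) (nat_lit 103) (nat_lit 5) (nat_lit 104) (nat_lit 5) (nat_lit 264) (nat_lit 235) (nat_lit 221)) (XT.lf (nat_lit 0) (nat_lit 536983168) (nat_lit 380) (nat_lit 359394749) (nat_lit 456) (nat_lit 7923627285) (nat_lit 92) (nat_lit 5) (nat_lit 97) (nat_lit 5) (nat_lit 98) (nat_lit 5) (nat_lit 265) (nat_lit 235) (nat_lit 220))) (XT.nd (nat_lit 78) (nat_lit 836) (nat_lit 0) (XT.lf (nat_lit 0) (nat_lit 5218586049) (nat_lit 456) (nat_lit 21404778) (nat_lit 76) (nat_lit 3803740955) (nat_lit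 92) (nat_lit 5) (nat_lit 98) (nat_lit 5) (nat_lit 93) (nat_lit 5) (nat_lit 266) (nat_lit 235) (nat_lit 219)) (XT.nd (nat_lit 78) (nat_lit 380) (nat_lit 0) (XT.lf (nat_lit 0) (nat_lit 395755095) (nat_lit 456) (nat_lit 665349413) (nat_lit 76) (nat_lit 8219895913) (nat_lit 86) (nat_lit 5) (nat_lit 92) (nat_lit 5) (nat_lit 87) (nat_lit 5) (nat_lit 267) (nat_lit 235) (nat_lit 218)) (XT.lf (nat_lit 0) (nat_lit 4705196910) (nat_lit 456) (nat_lit 1486299899) (nat_lit 76) (nat_lit 3339085596) (nat_lit 81) (nat_lit 5) (nat_lit 87) (nat_lit 5) (nat_lit 82) (nat_lit 5) (nat_lit 268) (nat_lit 235) (nat_lit 217))))) (XT.nd (nat_lit 234) (nat_lit 912) (nat_lit 0) (XT.nd (nat_lit 78) (nat_lit 684) (nat_lit 0) (XT.lf (nat_lit 0) (nat_lit 7348849399) (nat_lit 304) (nat_lit 1819935562) (nat_lit 380) (nat_lit 625969036) (nat_lit 77) (nat_lit 5) (nat_lit 81) (nat_lit 5) (nat_lit 82) (nat_lit 5) (nat_lit 269)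 (nat_lit 235) (nat_lit 216)) (XT.nd (nat_lit 78) (nat_lit 304) (nat_lit 0) (XT.lf (nat_lit 0) (nat_lit 3668704252) (nat_lit 380) (nat_lit 3617742019) (nat_lit 76) (nat_lit 2786073747) (nat_lit 72) (nat_lit 5) (nat_lit 77) (nat_lit 5) (nat_lit 73) (nat_lit 5) (nat_lit 270) (nat_lit 235) (nat_lit 215)) (XT.lf (nat_lit 0) (nat_lit 5377459875) (nat_lit 304) (nat_lit 2742059309) (nat_lit 380) (nat_lit 2246077016) (nat_lit 68) (nat_lit 5) (nat_lit 72) (nat_lit 5) (nat_lit 73) (nat_lit 5) (nat_lit 271) (nat_lit 235) (nat_lit 214)))) (XT.nd (nat_lit 78) (nat_lit 532) (nat_lit 0) (XT.lf (nat_lit 0) (nat_lit 2037287837) (nat_lit 380) (nat_lit 6597961101) (nat_lit 76) (nat_lit 2038913491) (nat_lit 63) (nat_lit 5) (nat_lit 68) (nat_lit 5) (nat_lit 64) (nat_lit 5) (nat_lit 272) (nat_lit 235) (nat_lit 213)) (XT.nd (nat_lit 78) (nat_lit 304) (nat_lit 0) (XT.lf (nat_lit 0) (nat_lit 2513008474) (nat_lit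 228) (nat_lit 3945930515) (nat_lit 304) (nat_lit 4539643663) (nat_lit 60) (nat_lit 5) (nat_lit 63) (nat_lit 5) (nat_lit 64) (nat_lit 5) (nat_lit 273) (nat_lit 235) (nat_lit 212)) (XT.lf (nat_lit 0) (nat_lit 699017089) (nat_lit 304) (nat_lit 10357931522) (nat_lit 380) (nat_lit 283816947) (nat_lit 56) (nat_lit 5) (nat_lit 60) (nat_lit 5) (nat_lit 61) (nat_lit 5) (nat_lit 274) (nat_lit 235) (nat_lit 211))))))) (XT.nd (nat_lit 858) (nat_lit 1064) (nat_lit 0) (XT.nd (nat_lit 390) (nat_lit 1064) (nat_lit 0) (XT.nd (nat_lit 156) (nat_lit 532) (nat_lit 0) (XT.nd (nat_lit 78) (nat_lit 228) (nat_lit 0) (XT.lf (nat_lit 0) (nat_lit 4104762394) (nat_lit 380) (nat_lit 1440368392) (nat_lit 76) (nat_lit 6153856244) (nat_lit 55) (nat_lit 5) (nat_lit 60) (nat_lit 5) (nat_lit 56) (nat_lit 5) (nat_lit 275) (nat_lit 235) (nat_lit 210)) (XT.lf (nat_lit 0) (nat_lit 8204822822) (nat_lit 228) (nat_lit 460600772)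 (nat_lit 304) (nat_lit 3411032077) (nat_lit 52) (nat_lit 5) (nat_lit 55) (nat_lit 5) (nat_lit 56) (nat_lit 5) (nat_lit 276) (nat_lit 235) (nat_lit 209))) (XT.nd (nat_lit 78) (nat_lit 228) (nat_lit 0) (XT.lf (nat_lit 0) (nat_lit 962689863) (nat_lit 304) (nat_lit 6698211511) (nat_lit 76) (nat_lit 4811760623) (nat_lit 48) (nat_lit 5) (nat_lit 52) (nat_lit 5) (nat_lit 49) (nat_lit 5) (nat_lit 277) (nat_lit 235) (nat_lit 208)) (XT.nd (nat_lit 78) (nat_lit 0) (nat_lit 0) (XT.lf (nat_lit 0) (nat_lit 2945073208) (nat_lit 228) (nat_lit 2499237892) (nat_lit 304) (nat_lit 7444716659) (nat_lit 45) (nat_lit 5) (nat_lit 48) (nat_lit 5) (nat_lit 49) (nat_lit 5) (nat_lit 278) (nat_lit 235) (nat_lit 207)) (XT.lf (nat_lit 0) (nat_lit 10136950368) (nat_lit 304) (nat_lit 309674861) (nat_lit 76) (nat_lit 2880126143) (nat_lit 45) (nat_lit 5) (nat_lit 49) (nat_lit 5) (nat_lit 46) (nat_lit 5) (nat_lit 279) (nat_lit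 235) (nat_lit 206))))) (XT.nd (nat_lit 234) (nat_lit 380) (nat_lit 0) (XT.nd (nat_lit 78) (nat_lit 380) (nat_lit 0) (XT.lf (nat_lit 0) (nat_lit 1266985976) (nat_lit 304) (nat_lit 3985220622) (nat_lit 76) (nat_lit 8533500767) (nat_lit 41) (nat_lit 5) (nat_lit 45) (nat_lit 5) (nat_lit 42) (nat_lit 5) (nat_lit 280) (nat_lit 235) (nat_lit 205)) (XT.nd (nat_lit 78) (nat_lit 228) (nat_lit 0) (XT.lf (nat_lit 0) (nat_lit 5842216919) (nat_lit 228) (nat_lit 8185671571) (nat_lit 76) (nat_lit 240058007) (nat_lit 39) (nat_lit 5) (nat_lit 42) (nat_lit 5) (nat_lit 40) (nat_lit 5) (nat_lit 281) (nat_lit 235) (nat_lit 204)) (XT.lf (nat_lit 0) (nat_lit 1789837181) (nat_lit 228) (nat_lit 8867855337) (nat_lit 304) (nat_lit 4116384426) (nat_lit 36) (nat_lit 5) (nat_lit 39) (nat_lit 5) (nat_lit 40) (nat_lit 5) (nat_lit 282) (nat_lit 235) (nat_lit 203)))) (XT.nd (nat_lit 78) (nat_lit 304) (nat_lit 0) (XT.lf (nat_lit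 0) (nat_lit 387640170) (nat_lit 304) (nat_lit 3025216688) (nat_lit 76) (nat_lit 11893038324) (nat_lit 35) (nat_lit 5) (nat_lit 39) (nat_lit 5) (nat_lit 36) (nat_lit 5) (nat_lit 283) (nat_lit 235) (nat_lit 202)) (XT.nd (nat_lit 78) (nat_lit 152) (nat_lit 0) (XT.lf (nat_lit 0) (nat_lit 5033163898) (nat_lit 228) (nat_lit 8497682455) (nat_lit 76) (nat_lit 2332301423) (nat_lit 33) (nat_lit 5) (nat_lit 36) (nat_lit 5) (nat_lit 34) (nat_lit 5) (nat_lit 284) (nat_lit 235) (nat_lit 201)) (XT.lf (nat_lit 0) (nat_lit 1747383136) (nat_lit 152) (nat_lit 8155613466) (nat_lit 228) (nat_lit 6545609285) (nat_lit 31) (nat_lit 5) (nat_lit 33) (nat_lit 5) (nat_lit 34) (nat_lit 5) (nat_lit 285) (nat_lit 235) (nat_lit 200)))))) (XT.nd (nat_lit 390) (nat_lit 532) (nat_lit 0) (XT.nd (nat_lit 156) (nat_lit 304) (nat_lit 0) (XT.nd (nat_lit 78) (nat_lit 228) (nat_lit 0) (XT.lf (nat_lit 0) (nat_lit 12542862550) (nat_lit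 152) (nat_lit 2473250391) (nat_lit 228) (nat_lit 2047329125) (nat_lit 31) (nat_lit 5) (nat_lit 33) (nat_lit 5) (nat_lit 34) (nat_lit 5) (nat_lit 286) (nat_lit 235) (nat_lit 199)) (XT.lf (nat_lit 0) (nat_lit 2632066645) (nat_lit 228) (nat_lit 11614628310) (nat_lit 76) (nat_lit 3461392385) (nat_lit 28) (nat_lit 5) (nat_lit 31) (nat_lit 5) (nat_lit 29) (nat_lit 5) (nat_lit 287) (nat_lit 235) (nat_lit 198))) (XT.nd (nat_lit 78) (nat_lit 304) (nat_lit 0) (XT.lf (nat_lit 0) (nat_lit 7493308034) (nat_lit 228) (nat_lit 1229748386) (nat_lit 76) (nat_lit 9661680922) (nat_lit 28) (nat_lit 5) (nat_lit 31) (nat_lit 5) (nat_lit 29) (nat_lit 5) (nat_lit 288) (nat_lit 235) (nat_lit 197)) (XT.nd (nat_lit 78) (nat_lit 152) (nat_lit 0) (XT.lf (nat_lit 0) (nat_lit 9737962213) (nat_lit 152) (nat_lit 2875032617) (nat_lit 228) (nat_lit 6481846477) (nat_lit 26) (nat_lit 5) (nat_lit 28) (nat_lit 5) (nat_lit 29)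 (nat_lit 5) (nat_lit 289) (nat_lit 235) (nat_lit 196)) (XT.lf (nat_lit 0) (nat_lit 1309006812) (nat_lit 152) (nat_lit 16660283023) (nat_lit 228) (nat_lit 1871820935) (nat_lit 24) (nat_lit 5) (nat_lit 26) (nat_lit 5) (nat_lit 27) (nat_lit 4) (nat_lit 290) (nat_lit 235) (nat_lit 195))))) (XT.nd (nat_lit 234) (nat_lit 304) (nat_lit 0) (XT.nd (nat_lit 78) (nat_lit 152) (nat_lit 0) (XT.lf (nat_lit 0) (nat_lit 2962593803) (nat_lit 228) (nat_lit 8099283535) (nat_lit 76) (nat_lit 9560478775) (nat_lit 23) (nat_lit 5) (nat_lit 26) (nat_lit 5) (nat_lit 24) (nat_lit 5) (nat_lit 291) (nat_lit 235) (nat_lit 194)) (XT.nd (nat_lit 78) (nat_lit 0) (nat_lit 0) (XT.lf (nat_lit 0) (nat_lit 2773561018) (nat_lit 152) (nat_lit 5182548757) (nat_lit 228) (nat_lit 13487384763) (nat_lit 21) (nat_lit 5) (nat_lit 23) (nat_lit 5) (nat_lit 24) (nat_lit 5) (nat_lit 292) (nat_lit 235) (nat_lit 193)) (XT.lf (nat_lit 0) (nat_lit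 13223952644) (nat_lit 228) (nat_lit 8069430074) (nat_lit 76) (nat_lit 1011633902) (nat_lit 21) (nat_lit 5) (nat_lit 24) (nat_lit 5) (nat_lit 22) (nat_lit 4) (nat_lit 293) (nat_lit 235) (nat_lit 192)))) (XT.nd (nat_lit 78) (nat_lit 228) (nat_lit 0) (XT.lf (nat_lit 0) (nat_lit 2956781288) (nat_lit 76) (nat_lit 15813353635) (nat_lit 152) (nat_lit 4439094576) (nat_lit 20) (nat_lit 5) (nat_lit 21) (nat_lit 5) (nat_lit 22) (nat_lit 4) (nat_lit 294) (nat_lit 235) (nat_lit 191)) (XT.nd (nat_lit 78) (nat_lit 152) (nat_lit 0) (XT.lf (nat_lit 0) (nat_lit 446010516) (nat_lit 152) (nat_lit 9566134733) (nat_lit 76) (nat_lit 14145854939) (nat_lit 19) (nat_lit 5) (nat_lit 21) (nat_lit 5) (nat_lit 20) (nat_lit 5) (nat_lit 295) (nat_lit 235) (nat_lit 190)) (XT.lf (nat_lit 0) (nat_lit 1536917856) (nat_lit 152) (nat_lit 3900972945) (nat_lit 228) (nat_lit 19716425827) (nat_lit 17) (nat_lit 5) (nat_lit 19) (nat_lit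 5) (nat_lit 20) (nat_lit 5) (nat_lit 296) (nat_lit 235) (nat_lit 189))))))))
noncomputable def xc41 : XT := (XT.nd (nat_lit 1716) (nat_lit 228) (nat_lit 0) (XT.nd (nat_lit 858) (nat_lit 228) (nat_lit 0) (XT.nd (nat_lit 390) (nat_lit 228) (nat_lit 0) (XT.nd (nat_lit 156) (nat_lit 304) (nat_lit 0) (XT.nd (nat_lit 78) (nat_lit 0) (nat_lit 0) (XT.lf (nat_lit 0) (nat_lit 10743268487) (nat_lit 228) (nat_lit 12928886392) (nat_lit 76) (nat_lit 2526429839) (nat_lit 17) (nat_lit 5) (nat_lit 20) (nat_lit 5) (nat_lit 18) (nat_lit 4) (nat_lit 297) (nat_lit 235) (nat_lit 188)) (XT.lf (nat_lit 0) (nat_lit 16296403253) (nat_lit 228) (nat_lit 1841760812) (nat_lit 76) (nat_lit 9157477913) (nat_lit 17) (nat_lit 5) (nat_lit 20) (nat_lit 5) (nat_lit 18) (nat_lit 4) (nat_lit 298) (nat_lit 235) (nat_lit 187))) (XT.nd (nat_lit 78) (nat_lit 228) (nat_lit 0) (XT.lf (nat_lit 0) (nat_lit 9901080160) (nat_lit 76) (nat_lit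 12267113389) (nat_lit 152) (nat_lit 6278176597) (nat_lit 16) (nat_lit 5) (nat_lit 17) (nat_lit 5) (nat_lit 18) (nat_lit 4) (nat_lit 299) (nat_lit 235) (nat_lit 186)) (XT.nd (nat_lit 78) (nat_lit 228) (nat_lit 0) (XT.lf (nat_lit 0) (nat_lit 22180336708) (nat_lit 76) (nat_lit 6119741760) (nat_lit 152) (nat_lit 1355606826) (nat_lit 16) (nat_lit 5) (nat_lit 17) (nat_lit 5) (nat_lit 18) (nat_lit 4) (nat_lit 300) (nat_lit 235) (nat_lit 185)) (XT.lf (nat_lit 0) (nat_lit 3731287959) (nat_lit 228) (nat_lit 26822835000) (nat_lit 76) (nat_lit 370507792) (nat_lit 13) (nat_lit 5) (nat_lit 16) (nat_lit 5) (nat_lit 14) (nat_lit 4) (nat_lit 301) (nat_lit 235) (nat_lit 184))))) (XT.nd (nat_lit 234) (nat_lit 152) (nat_lit 0) (XT.nd (nat_lit 78) (nat_lit 76) (nat_lit 0) (XT.lf (nat_lit 0) (nat_lit 9135008671) (nat_lit 228) (nat_lit 16001638370) (nat_lit 76) (nat_lit 7117298534) (nat_lit 13) (nat_lit 5) (nat_lit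 16) (nat_lit 5) (nat_lit 14) (nat_lit 4) (nat_lit 302) (nat_lit 235) (nat_lit 183)) (XT.nd (nat_lit 78) (nat_lit 76) (nat_lit 0) (XT.lf (nat_lit 0) (nat_lit 14762034028) (nat_lit 228) (nat_lit 4720068720) (nat_lit 76) (nat_lit 14169068181) (nat_lit 13) (nat_lit 5) (nat_lit 16) (nat_lit 5) (nat_lit 14) (nat_lit 4) (nat_lit 303) (nat_lit 235) (nat_lit 182)) (XT.lf (nat_lit 0) (nat_lit 7189018475) (nat_lit 76) (nat_lit 13505848478) (nat_lit 152) (nat_lit 14422693430) (nat_lit 12) (nat_lit 5) (nat_lit 13) (nat_lit 5) (nat_lit 14) (nat_lit 4) (nat_lit 304) (nat_lit 235) (nat_lit 181)))) (XT.nd (nat_lit 78) (nat_lit 152) (nat_lit 0) (XT.lf (nat_lit 0) (nat_lit 19717553737) (nat_lit 76) (nat_lit 7212136423) (nat_lit 152) (nat_lit 9727453471) (nat_lit 12) (nat_lit 5) (nat_lit 13) (nat_lit 5) (nat_lit 14) (nat_lit 4) (nat_lit 305) (nat_lit 235) (nat_lit 180)) (XT.nd (nat_lit 78) (nat_lit 152) (nat_lit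 0) (XT.lf (nat_lit 0) (nat_lit 32801428289) (nat_lit 76) (nat_lit 633644995) (nat_lit 152) (nat_lit 4839901322) (nat_lit 12) (nat_lit 5) (nat_lit 13) (nat_lit 5) (nat_lit 14) (nat_lit 4) (nat_lit 306) (nat_lit 235) (nat_lit 179)) (XT.lf (nat_lit 0) (nat_lit 371049594) (nat_lit 152) (nat_lit 33409887394) (nat_lit 76) (nat_lit 6190164965) (nat_lit 10) (nat_lit 5) (nat_lit 12) (nat_lit 5) (nat_lit 11) (nat_lit 4) (nat_lit 307) (nat_lit 235) (nat_lit 178)))))) (XT.nd (nat_lit 390) (nat_lit 152) (nat_lit 0) (XT.nd (nat_lit 156) (nat_lit 76) (nat_lit 0) (XT.nd (nat_lit 78) (nat_lit 0) (nat_lit 0) (XT.lf (nat_lit 0) (nat_lit 5768018258) (nat_lit 152) (nat_lit 22561522404) (nat_lit 76) (nat_lit 13420319578) (nat_lit 10) (nat_lit 5) (nat_lit 12) (nat_lit 5) (nat_lit 11) (nat_lit 4) (nat_lit 308) (nat_lit 235) (nat_lit 177)) (XT.lf (nat_lit 0) (nat_lit 11398013992) (nat_lit 152) (nat_lit 11234994303)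 (nat_lit 76) (nat_lit 20985680570) (nat_lit 10) (nat_lit 5) (nat_lit 12) (nat_lit 5) (nat_lit 11) (nat_lit 4) (nat_lit 309) (nat_lit 235) (nat_lit 176))) (XT.nd (nat_lit 78) (nat_lit 0) (nat_lit 0) (XT.lf (nat_lit 0) (nat_lit 608539633) (nat_lit 76) (nat_lit 16671751567) (nat_lit 152) (nat_lit 28301570728) (nat_lit 9) (nat_lit 5) (nat_lit 10) (nat_lit 5) (nat_lit 11) (nat_lit 4) (nat_lit 310) (nat_lit 235) (nat_lit 175)) (XT.nd (nat_lit 78) (nat_lit 0) (nat_lit 0) (XT.lf (nat_lit 0) (nat_lit 13219587388) (nat_lit 76) (nat_lit 10318779787) (nat_lit 152) (nat_lit 24102401122) (nat_lit 9) (nat_lit 5) (nat_lit 10) (nat_lit 5) (nat_lit 11) (nat_lit 4) (nat_lit 311) (nat_lit 235) (nat_lit 174)) (XT.lf (nat_lit 0) (nat_lit 26404576850) (nat_lit 76) (nat_lit 3672418244) (nat_lit 152) (nat_lit 19726619445) (nat_lit 9) (nat_lit 5) (nat_lit 10) (nat_lit 5) (nat_lit 11) (nat_lit 4) (nat_lit 312) (nat_lit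 235) (nat_lit 173))))) (XT.nd (nat_lit 234) (nat_lit 76) (nat_lit 0) (XT.nd (nat_lit 78) (nat_lit 76) (nat_lit 0) (XT.lf (nat_lit 0) (nat_lit 36943302839) (nat_lit 152) (nat_lit 11912209160) (nat_lit 0) (nat_lit 3219091497) (nat_lit 9) (nat_lit 5) (nat_lit 11) (nat_lit 4) (nat_lit 9) (nat_lit 4) (nat_lit 313) (nat_lit 235) (nat_lit 172)) (XT.nd (nat_lit 78) (nat_lit 0) (nat_lit 0) (XT.lf (nat_lit 0) (nat_lit 61047305) (nat_lit 76) (nat_lit 44099976499) (nat_lit 76) (nat_lit 10297896929) (nat_lit 8) (nat_lit 4) (nat_lit 9) (nat_lit 5) (nat_lit 9) (nat_lit 4) (nat_lit 314) (nat_lit 235) (nat_lit 171)) (XT.lf (nat_lit 0) (nat_lit 12831350255) (nat_lit 76) (nat_lit 39002272173) (nat_lit 76) (nat_lit 5126032387) (nat_lit 8) (nat_lit 4) (nat_lit 9) (nat_lit 5) (nat_lit 9) (nat_lit 4) (nat_lit 315) (nat_lit 235) (nat_lit 170)))) (XT.nd (nat_lit 78) (nat_lit 0) (nat_lit 0) (XT.lf (nat_lit 0) (nat_lit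 270925038) (nat_lit 152) (nat_lit 33396890736) (nat_lit 76) (nat_lit 25918368003) (nat_lit 7) (nat_lit 5) (nat_lit 9) (nat_lit 5) (nat_lit 8) (nat_lit 4) (nat_lit 316) (nat_lit 235) (nat_lit 169)) (XT.nd (nat_lit 78) (nat_lit 0) (nat_lit 0) (XT.lf (nat_lit 0) (nat_lit 5806454081) (nat_lit 152) (nat_lit 22227032283) (nat_lit 76) (nat_lit 34309806358) (nat_lit 7) (nat_lit 5) (nat_lit 9) (nat_lit 5) (nat_lit 8) (nat_lit 4) (nat_lit 317) (nat_lit 235) (nat_lit 168)) (XT.lf (nat_lit 0) (nat_lit 11593761926) (nat_lit 152) (nat_lit 10542859741) (nat_lit 76) (nat_lit 43102402762) (nat_lit 7) (nat_lit 5) (nat_lit 9) (nat_lit 5) (nat_lit 8) (nat_lit 4) (nat_lit 318) (nat_lit 235) (nat_lit 167))))))) (XT.nd (nat_lit 858) (nat_lit 76) (nat_lit 0) (XT.nd (nat_lit 390) (nat_lit 76) (nat_lit 0) (XT.nd (nat_lit 156) (nat_lit 0) (nat_lit 0) (XT.nd (nat_lit 78) (nat_lit 0) (nat_lit 0) (XT.lf (nat_lit 0) (nat_lit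 1716950231) (nat_lit 76) (nat_lit 15946182023) (nat_lit 152) (nat_lit 50616646114) (nat_lit 6) (nat_lit 5) (nat_lit 7) (nat_lit 5) (nat_lit 8) (nat_lit 4) (nat_lit 319) (nat_lit 235) (nat_lit 166)) (XT.lf (nat_lit 0) (nat_lit 14769196456) (nat_lit 76) (nat_lit 9352237619) (nat_lit 152) (nat_lit 47348587811) (nat_lit 6) (nat_lit 5) (nat_lit 7) (nat_lit 5) (nat_lit 8) (nat_lit 4) (nat_lit 320) (nat_lit 235) (nat_lit 165))) (XT.nd (nat_lit 78) (nat_lit 0) (nat_lit 0) (XT.lf (nat_lit 0) (nat_lit 28435132130) (nat_lit 76) (nat_lit 2445550797) (nat_lit 152) (nat_lit 43939768712) (nat_lit 6) (nat_lit 5) (nat_lit 7) (nat_lit 5) (nat_lit 8) (nat_lit 4) (nat_lit 321) (nat_lit 235) (nat_lit 164)) (XT.nd (nat_lit 78) (nat_lit 0) (nat_lit 0) (XT.lf (nat_lit 0) (nat_lit 38003019775) (nat_lit 152) (nat_lit 35637797164) (nat_lit 0) (nat_lit 4696846479) (nat_lit 6) (nat_lit 5) (nat_lit 8) (nat_lit 4) (nat_lit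 6) (nat_lit 4) (nat_lit 322) (nat_lit 235) (nat_lit 163)) (XT.lf (nat_lit 0) (nat_lit 45486083497) (nat_lit 152) (nat_lit 24413349988) (nat_lit 0) (nat_lit 12131177624) (nat_lit 6) (nat_lit 5) (nat_lit 8) (nat_lit 4) (nat_lit 6) (nat_lit 4) (nat_lit 323) (nat_lit 235) (nat_lit 162))))) (XT.nd (nat_lit 234) (nat_lit 0) (nat_lit 0) (XT.nd (nat_lit 78) (nat_lit 76) (nat_lit 0) (XT.lf (nat_lit 0) (nat_lit 53324182781) (nat_lit 152) (nat_lit 12661744977) (nat_lit 0) (nat_lit 19922864929) (nat_lit 6) (nat_lit 5) (nat_lit 8) (nat_lit 4) (nat_lit 6) (nat_lit 4) (nat_lit 324) (nat_lit 235) (nat_lit 161)) (XT.nd (nat_lit 78) (nat_lit 76) (nat_lit 0) (XT.lf (nat_lit 0) (nat_lit 61535979767) (nat_lit 152) (nat_lit 355002118) (nat_lit 0) (nat_lit 28090460032) (nat_lit 6) (nat_lit 5) (nat_lit 8) (nat_lit 4) (nat_lit 6) (nat_lit 4) (nat_lit 325) (nat_lit 235) (nat_lit 160)) (XT.lf (nat_lit 0) (nat_lit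 12785674925) (nat_lit 76) (nat_lit 57478255158) (nat_lit 76) (nat_lit 23990638391) (nat_lit 5) (nat_lit 4) (nat_lit 6) (nat_lit 5) (nat_lit 6) (nat_lit 4) (nat_lit 326) (nat_lit 235) (nat_lit 159)))) (XT.nd (nat_lit 78) (nat_lit 0) (nat_lit 0) (XT.lf (nat_lit 0) (nat_lit 26560792466) (nat_lit 76) (nat_lit 52854336868) (nat_lit 76) (nat_lit 19326627689) (nat_lit 5) (nat_lit 4) (nat_lit 6) (nat_lit 5) (nat_lit 6) (nat_lit 4) (nat_lit 327) (nat_lit 235) (nat_lit 158)) (XT.nd (nat_lit 78) (nat_lit 0) (nat_lit 0) (XT.lf (nat_lit 0) (nat_lit 40996083165) (nat_lit 76) (nat_lit 48011802511) (nat_lit 76) (nat_lit 14445910083) (nat_lit 5) (nat_lit 4) (nat_lit 6) (nat_lit 5) (nat_lit 6) (nat_lit 4) (nat_lit 328) (nat_lit 235) (nat_lit 157)) (XT.lf (nat_lit 0) (nat_lit 56125916761) (nat_lit 76) (nat_lit 42939122245) (nat_lit 76) (nat_lit 9336864817) (nat_lit 5) (nat_lit 4) (nat_lit 6) (nat_lit 5) (nat_lit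 6) (nat_lit 4) (nat_lit 329) (nat_lit 235) (nat_lit 156)))))) (XT.nd (nat_lit 31356) (nat_lit 0) (nat_lit 11628) (XT.nd (nat_lit 31122) (nat_lit 0) (nat_lit 17176) (XT.nd (nat_lit 78) (nat_lit 76) (nat_lit 0) (XT.lf (nat_lit 0) (nat_lit 71986316668) (nat_lit 76) (nat_lit 37624218258) (nat_lit 76) (nat_lit 3987327498) (nat_lit 5) (nat_lit 4) (nat_lit 6) (nat_lit 5) (nat_lit 6) (nat_lit 4) (nat_lit 330) (nat_lit 235) (nat_lit 155)) (XT.lf (nat_lit 0) (nat_lit 1583915836) (nat_lit 152) (nat_lit 30454525737) (nat_lit 76) (nat_lit 87015135461) (nat_lit 4) (nat_lit 5) (nat_lit 6) (nat_lit 5) (nat_lit 5) (nat_lit 4) (nat_lit 331) (nat_lit 235) (nat_lit 154))) (XT.nd (nat_lit 78) (nat_lit 1216) (nat_lit 0) (XT.lf (nat_lit 0) (nat_lit 981093760) (nat_lit 532) (nat_lit 1360069062) (nat_lit 0) (nat_lit 981093760) (nat_lit 246) (nat_lit 5) (nat_lit 253) (nat_lit 4) (nat_lit 246) (nat_lit 4) (nat_lit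 248) (nat_lit 236) (nat_lit 236)) (XT.nd (nat_lit 78) (nat_lit 608) (nat_lit 0) (XT.lf (nat_lit 0) (nat_lit 57336741) (nat_lit 608) (nat_lit 3271223986) (nat_lit 76) (nat_lit 3371852192) (nat_lit 238) (nat_lit 5) (nat_lit 246) (nat_lit 5) (nat_lit 239) (nat_lit 4) (nat_lit 249) (nat_lit 236) (nat_lit 235)) (XT.lf (nat_lit 0) (nat_lit 2989486622) (nat_lit 608) (nat_lit 1741255566) (nat_lit 684) (nat_lit 2034042381) (nat_lit 230) (nat_lit 5) (nat_lit 238) (nat_lit 5) (nat_lit 239) (nat_lit 4) (nat_lit 250) (nat_lit 236) (nat_lit 234))))) (XT.nd (nat_lit 234) (nat_lit 3116) (nat_lit 0) (XT.nd (nat_lit 78) (nat_lit 1672) (nat_lit 0) (XT.lf (nat_lit 0) (nat_lit 2553517887) (nat_lit 760) (nat_lit 4220814047) (nat_lit 76) (nat_lit 63958910) (nat_lit 220) (nat_lit 5) (nat_lit 230) (nat_lit 5) (nat_lit 221) (nat_lit 4) (nat_lit 251) (nat_lit 236) (nat_lit 233)) (XT.nd (nat_lit 78) (nat_lit 836) (nat_lit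 0) (XT.lf (nat_lit 0) (nat_lit 236070286) (nat_lit 836) (nat_lit 4630859545) (nat_lit 76) (nat_lit 2053649248) (nat_lit 209) (nat_lit 5) (nat_lit 220) (nat_lit 5) (nat_lit 210) (nat_lit 5) (nat_lit 252) (nat_lit 236) (nat_lit 232)) (XT.lf (nat_lit 0) (nat_lit 1995455034) (nat_lit 836) (nat_lit 2723266680) (nat_lit 912) (nat_lit 2292968836) (nat_lit 198) (nat_lit 5) (nat_lit 209) (nat_lit 5) (nat_lit 210) (nat_lit 5) (nat_lit 253) (nat_lit 236) (nat_lit 231)))) (XT.nd (nat_lit 78) (nat_lit 2128) (nat_lit 0) (XT.lf (nat_lit 0) (nat_lit 1747839545) (nat_lit 912) (nat_lit 357032076) (nat_lit 988) (nat_lit 5007517954) (nat_lit 185) (nat_lit 5) (nat_lit 197) (nat_lit 5) (nat_lit 198) (nat_lit 5) (nat_lit 254) (nat_lit 236) (nat_lit 230)) (XT.nd (nat_lit 78) (nat_lit 1140) (nat_lit 0) (XT.lf (nat_lit 0) (nat_lit 1514769424) (nat_lit 988) (nat_lit 5024401566) (nat_lit 1064) (nat_lit 682979670) (nat_lit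 172) (nat_lit 5) (nat_lit 185) (nat_lit 5) (nat_lit 186) (nat_lit 5) (nat_lit 255) (nat_lit 236) (nat_lit 229)) (XT.lf (nat_lit 0) (nat_lit 1290390098) (nat_lit 1064) (nat_lit 2346263285) (nat_lit 1140) (nat_lit 3704590045) (nat_lit 157) (nat_lit 5) (nat_lit 171) (nat_lit 5) (nat_lit 172) (nat_lit 5) (nat_lit 256) (nat_lit 236) (nat_lit 228))))))))
noncomputable def xc42 : XT := (XT.nd (nat_lit 1716) (nat_lit 2432) (nat_lit 0) (XT.nd (nat_lit 858) (nat_lit 2888) (nat_lit 0) (XT.nd (nat_lit 390) (nat_lit 2280) (nat_lit 0) (XT.nd (nat_lit 156) (nat_lit 1672) (nat_lit 0) (XT.nd (nat_lit 78) (nat_lit 532) (nat_lit 0) (XT.lf (nat_lit 0) (nat_lit 541987023) (nat_lit 912) (nat_lit 6382733247) (nat_lit 76) (nat_lit 545801828) (nat_lit 145) (nat_lit 5) (nat_lit 157) (nat_lit 5) (nat_lit 146) (nat_lit 5) (nat_lit 257) (nat_lit 236) (nat_lit 227)) (XT.lf (nat_lit 0) (nat_lit 852881460) (nat_lit 532)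 (nat_lit 3963252744) (nat_lit 608) (nat_lit 2792785621) (nat_lit 138) (nat_lit 5) (nat_lit 145) (nat_lit 5) (nat_lit 146) (nat_lit 5) (nat_lit 258) (nat_lit 236) (nat_lit 226))) (XT.nd (nat_lit 78) (nat_lit 1064) (nat_lit 0) (XT.lf (nat_lit 0) (nat_lit 622025502) (nat_lit 532) (nat_lit 771522945) (nat_lit 608) (nat_lit 6364493636) (nat_lit 130) (nat_lit 5) (nat_lit 137) (nat_lit 5) (nat_lit 138) (nat_lit 5) (nat_lit 259) (nat_lit 236) (nat_lit 225)) (XT.nd (nat_lit 78) (nat_lit 608) (nat_lit 0) (XT.lf (nat_lit 0) (nat_lit 344551545) (nat_lit 456) (nat_lit 5294906557) (nat_lit 532) (nat_lit 2277542469) (nat_lit 124) (nat_lit 5) (nat_lit 130) (nat_lit 5) (nat_lit 131) (nat_lit 5) (nat_lit 260) (nat_lit 236) (nat_lit 224)) (XT.lf (nat_lit 0) (nat_lit 35033959) (nat_lit 532) (nat_lit 1835796232) (nat_lit 608) (nat_lit 6216021254) (nat_lit 116) (nat_lit 5) (nat_lit 123) (nat_lit 5) (nat_lit 124)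 (nat_lit 5) (nat_lit 261) (nat_lit 236) (nat_lit 223))))) (XT.nd (nat_lit 234) (nat_lit 1292) (nat_lit 0) (XT.nd (nat_lit 78) (nat_lit 988) (nat_lit 0) (XT.lf (nat_lit 0) (nat_lit 6096764893) (nat_lit 608) (nat_lit 326815508) (nat_lit 76) (nat_lit 1843817019) (nat_lit 116) (nat_lit 5) (nat_lit 124) (nat_lit 5) (nat_lit 117) (nat_lit 5) (nat_lit 262) (nat_lit 236) (nat_lit 222)) (XT.nd (nat_lit 78) (nat_lit 456) (nat_lit 0) (XT.lf (nat_lit 0) (nat_lit 1957464863) (nat_lit 532) (nat_lit 756627826) (nat_lit 76) (nat_lit 5745016526) (nat_lit 109) (nat_lit 5) (nat_lit 116) (nat_lit 5) (nat_lit 110) (nat_lit 5) (nat_lit 263) (nat_lit 236) (nat_lit 221)) (XT.lf (nat_lit 0) (nat_lit 6167857858) (nat_lit 532) (nat_lit 1264921307) (nat_lit 76) (nat_lit 1229708327) (nat_lit 103) (nat_lit 5) (nat_lit 110) (nat_lit 5) (nat_lit 104) (nat_lit 5) (nat_lit 264) (nat_lit 236) (nat_lit 220)))) (XT.nd (nat_lit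 78) (nat_lit 836) (nat_lit 0) (XT.lf (nat_lit 0) (nat_lit 1620678203) (nat_lit 456) (nat_lit 1876851473) (nat_lit 76) (nat_lit 5380092980) (nat_lit 97) (nat_lit 5) (nat_lit 103) (nat_lit 5) (nat_lit 98) (nat_lit 5) (nat_lit 265) (nat_lit 236) (nat_lit 219)) (XT.nd (nat_lit 78) (nat_lit 456) (nat_lit 0) (XT.lf (nat_lit 0) (nat_lit 5816752047) (nat_lit 456) (nat_lit 2597106199) (nat_lit 76) (nat_lit 691424988) (nat_lit 92) (nat_lit 5) (nat_lit 98) (nat_lit 5) (nat_lit 93) (nat_lit 5) (nat_lit 266) (nat_lit 236) (nat_lit 218)) (XT.lf (nat_lit 0) (nat_lit 820913969) (nat_lit 456) (nat_lit 3455090998) (nat_lit 76) (nat_lit 5069560359) (nat_lit 86) (nat_lit 5) (nat_lit 92) (nat_lit 5) (nat_lit 87) (nat_lit 5) (nat_lit 267) (nat_lit 236) (nat_lit 217)))))) (XT.nd (nat_lit 390) (nat_lit 1140) (nat_lit 0) (XT.nd (nat_lit 156) (nat_lit 1064) (nat_lit 0) (XT.nd (nat_lit 78) (nat_lit 304) (nat_lit 0)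 (XT.lf (nat_lit 0) (nat_lit 4998858076) (nat_lit 456) (nat_lit 4460718807) (nat_lit 76) (nat_lit 139647422) (nat_lit 81) (nat_lit 5) (nat_lit 87) (nat_lit 5) (nat_lit 82) (nat_lit 5) (nat_lit 268) (nat_lit 236) (nat_lit 216)) (XT.lf (nat_lit 0) (nat_lit 4223010335) (nat_lit 304) (nat_lit 5139890301) (nat_lit 380) (nat_lit 503607401) (nat_lit 77) (nat_lit 5) (nat_lit 81) (nat_lit 5) (nat_lit 82) (nat_lit 5) (nat_lit 269) (nat_lit 236) (nat_lit 215))) (XT.nd (nat_lit 78) (nat_lit 684) (nat_lit 0) (XT.lf (nat_lit 0) (nat_lit 3129405855) (nat_lit 304) (nat_lit 531907897) (nat_lit 380) (nat_lit 6486862251) (nat_lit 72) (nat_lit 5) (nat_lit 76) (nat_lit 5) (nat_lit 77) (nat_lit 5) (nat_lit 270) (nat_lit 236) (nat_lit 214)) (XT.nd (nat_lit 78) (nat_lit 380) (nat_lit 0) (XT.lf (nat_lit 0) (nat_lit 1823589554) (nat_lit 304) (nat_lit 6183640638) (nat_lit 380) (nat_lit 2437279708) (nat_lit 68) (nat_lit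 5) (nat_lit 72) (nat_lit 5) (nat_lit 73) (nat_lit 5) (nat_lit 271) (nat_lit 236) (nat_lit 213)) (XT.lf (nat_lit 0) (nat_lit 304397264) (nat_lit 304) (nat_lit 1424918478) (nat_lit 380) (nat_lit 9027532951) (nat_lit 63) (nat_lit 5) (nat_lit 67) (nat_lit 5) (nat_lit 68) (nat_lit 5) (nat_lit 272) (nat_lit 236) (nat_lit 212))))) (XT.nd (nat_lit 234) (nat_lit 532) (nat_lit 0) (XT.nd (nat_lit 78) (nat_lit 608) (nat_lit 0) (XT.lf (nat_lit 0) (nat_lit 6051068466) (nat_lit 380) (nat_lit 1463489750) (nat_lit 76) (nat_lit 3569805189) (nat_lit 63) (nat_lit 5) (nat_lit 68) (nat_lit 5) (nat_lit 64) (nat_lit 5) (nat_lit 273) (nat_lit 236) (nat_lit 211)) (XT.nd (nat_lit 78) (nat_lit 380) (nat_lit 0) (XT.lf (nat_lit 0) (nat_lit 7946393252) (nat_lit 228) (nat_lit 2612148388) (nat_lit 304) (nat_lit 870813656) (nat_lit 60) (nat_lit 5) (nat_lit 63) (nat_lit 5) (nat_lit 64) (nat_lit 5) (nat_lit 274) (nat_lit 236)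 (nat_lit 210)) (XT.lf (nat_lit 0) (nat_lit 3410893237) (nat_lit 380) (nat_lit 5834822814) (nat_lit 76) (nat_lit 2545665692) (nat_lit 55) (nat_lit 5) (nat_lit 60) (nat_lit 5) (nat_lit 56) (nat_lit 5) (nat_lit 275) (nat_lit 236) (nat_lit 209)))) (XT.nd (nat_lit 78) (nat_lit 304) (nat_lit 0) (XT.lf (nat_lit 0) (nat_lit 3640702546) (nat_lit 228) (nat_lit 4231043035) (nat_lit 304) (nat_lit 4300180871) (nat_lit 52) (nat_lit 5) (nat_lit 55) (nat_lit 5) (nat_lit 56) (nat_lit 5) (nat_lit 276) (nat_lit 236) (nat_lit 208)) (XT.nd (nat_lit 78) (nat_lit 76) (nat_lit 0) (XT.lf (nat_lit 0) (nat_lit 987465171) (nat_lit 228) (nat_lit 11537040547) (nat_lit 304) (nat_lit 48086430) (nat_lit 49) (nat_lit 5) (nat_lit 52) (nat_lit 5) (nat_lit 53) (nat_lit 5) (nat_lit 277) (nat_lit 236) (nat_lit 207)) (XT.lf (nat_lit 0) (nat_lit 4353152544) (nat_lit 304) (nat_lit 2077448119) (nat_lit 76) (nat_lit 6560882767) (nat_lit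 48) (nat_lit 5) (nat_lit 52) (nat_lit 5) (nat_lit 49) (nat_lit 5) (nat_lit 278) (nat_lit 236) (nat_lit 206))))))) (XT.nd (nat_lit 858) (nat_lit 760) (nat_lit 0) (XT.nd (nat_lit 390) (nat_lit 760) (nat_lit 0) (XT.nd (nat_lit 156) (nat_lit 456) (nat_lit 0) (XT.nd (nat_lit 78) (nat_lit 228) (nat_lit 0) (XT.lf (nat_lit 0) (nat_lit 7905947436) (nat_lit 228) (nat_lit 1040020387) (nat_lit 304) (nat_lit 4486302545) (nat_lit 45) (nat_lit 5) (nat_lit 48) (nat_lit 5) (nat_lit 49) (nat_lit 5) (nat_lit 279) (nat_lit 236) (nat_lit 205)) (XT.lf (nat_lit 0) (nat_lit 4427525260) (nat_lit 228) (nat_lit 9348993916) (nat_lit 304) (nat_lit 118468560) (nat_lit 42) (nat_lit 5) (nat_lit 45) (nat_lit 5) (nat_lit 46) (nat_lit 5) (nat_lit 280) (nat_lit 236) (nat_lit 204))) (XT.nd (nat_lit 78) (nat_lit 228) (nat_lit 0) (XT.lf (nat_lit 0) (nat_lit 420158866) (nat_lit 152) (nat_lit 3934212283) (nat_lit 228) (nat_lit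 10026091387) (nat_lit 39) (nat_lit 5) (nat_lit 41) (nat_lit 5) (nat_lit 42) (nat_lit 5) (nat_lit 281) (nat_lit 236) (nat_lit 203)) (XT.nd (nat_lit 78) (nat_lit 228) (nat_lit 0) (XT.lf (nat_lit 0) (nat_lit 9068289789) (nat_lit 228) (nat_lit 4053925704) (nat_lit 76) (nat_lit 1767481734) (nat_lit 39) (nat_lit 5) (nat_lit 42) (nat_lit 5) (nat_lit 40) (nat_lit 5) (nat_lit 282) (nat_lit 236) (nat_lit 202)) (XT.lf (nat_lit 0) (nat_lit 6290190788) (nat_lit 228) (nat_lit 7737035803) (nat_lit 304) (nat_lit 1396999730) (nat_lit 36) (nat_lit 5) (nat_lit 39) (nat_lit 5) (nat_lit 40) (nat_lit 5) (nat_lit 283) (nat_lit 236) (nat_lit 201))))) (XT.nd (nat_lit 234) (nat_lit 380) (nat_lit 0) (XT.nd (nat_lit 78) (nat_lit 152) (nat_lit 0) (XT.lf (nat_lit 0) (nat_lit 1103432872) (nat_lit 152) (nat_lit 2045741561) (nat_lit 228) (nat_lit 12836556317) (nat_lit 33) (nat_lit 5) (nat_lit 35) (nat_lit 5) (nat_lit 36)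 (nat_lit 5) (nat_lit 284) (nat_lit 236) (nat_lit 200)) (XT.nd (nat_lit 78) (nat_lit 152) (nat_lit 0) (XT.lf (nat_lit 0) (nat_lit 7940426283) (nat_lit 228) (nat_lit 4718345847) (nat_lit 76) (nat_lit 3914822411) (nat_lit 33) (nat_lit 5) (nat_lit 36) (nat_lit 5) (nat_lit 34) (nat_lit 5) (nat_lit 285) (nat_lit 236) (nat_lit 199)) (XT.lf (nat_lit 0) (nat_lit 5918459881) (nat_lit 152) (nat_lit 7048088493) (nat_lit 228) (nat_lit 4224538130) (nat_lit 31) (nat_lit 5) (nat_lit 33) (nat_lit 5) (nat_lit 34) (nat_lit 5) (nat_lit 286) (nat_lit 236) (nat_lit 198)))) (XT.nd (nat_lit 78) (nat_lit 304) (nat_lit 0) (XT.lf (nat_lit 0) (nat_lit 365274379) (nat_lit 228) (nat_lit 784801742) (nat_lit 76) (nat_lit 16690288065) (nat_lit 30) (nat_lit 5) (nat_lit 33) (nat_lit 5) (nat_lit 31) (nat_lit 5) (nat_lit 287) (nat_lit 236) (nat_lit 197)) (XT.nd (nat_lit 78) (nat_lit 152) (nat_lit 0) (XT.lf (nat_lit 0) (nat_lit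 5169532213) (nat_lit 228) (nat_lit 8306680625) (nat_lit 76) (nat_lit 5042551328) (nat_lit 28) (nat_lit 5) (nat_lit 31) (nat_lit 5) (nat_lit 29) (nat_lit 5) (nat_lit 288) (nat_lit 236) (nat_lit 196)) (XT.lf (nat_lit 0) (nat_lit 2460276965) (nat_lit 152) (nat_lit 7722643525) (nat_lit 228) (nat_lit 9049175141) (nat_lit 26) (nat_lit 5) (nat_lit 28) (nat_lit 5) (nat_lit 29) (nat_lit 5) (nat_lit 289) (nat_lit 236) (nat_lit 195)))))) (XT.nd (nat_lit 390) (nat_lit 380) (nat_lit 0) (XT.nd (nat_lit 156) (nat_lit 152) (nat_lit 0) (XT.nd (nat_lit 78) (nat_lit 228) (nat_lit 0) (XT.lf (nat_lit 0) (nat_lit 13822204034) (nat_lit 152) (nat_lit 1638208375) (nat_lit 228) (nat_lit 4520353485) (nat_lit 26) (nat_lit 5) (nat_lit 28) (nat_lit 5) (nat_lit 29) (nat_lit 5) (nat_lit 290) (nat_lit 236) (nat_lit 194)) (XT.lf (nat_lit 0) (nat_lit 254421122) (nat_lit 228) (nat_lit 15846079753) (nat_lit 76) (nat_lit 4665647759)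 (nat_lit 23) (nat_lit 5) (nat_lit 26) (nat_lit 5) (nat_lit 24) (nat_lit 5) (nat_lit 291) (nat_lit 236) (nat_lit 193))) (XT.nd (nat_lit 78) (nat_lit 152) (nat_lit 0) (XT.lf (nat_lit 0) (nat_lit 5188324291) (nat_lit 228) (nat_lit 5081641367) (nat_lit 76) (nat_lit 11319142111) (nat_lit 23) (nat_lit 5) (nat_lit 26) (nat_lit 5) (nat_lit 24) (nat_lit 5) (nat_lit 292) (nat_lit 236) (nat_lit 192)) (XT.nd (nat_lit 78) (nat_lit 0) (nat_lit 0) (XT.lf (nat_lit 0) (nat_lit 6236737089) (nat_lit 152) (nat_lit 4127802710) (nat_lit 228) (nat_lit 12088869658) (nat_lit 21) (nat_lit 5) (nat_lit 23) (nat_lit 5) (nat_lit 24) (nat_lit 5) (nat_lit 293) (nat_lit 236) (nat_lit 191)) (XT.lf (nat_lit 0) (nat_lit 15812059125) (nat_lit 228) (nat_lit 5259446271) (nat_lit 76) (nat_lit 2289106150) (nat_lit 21) (nat_lit 5) (nat_lit 24) (nat_lit 5) (nat_lit 22) (nat_lit 4) (nat_lit 294) (nat_lit 236) (nat_lit 190))))) (XT.nd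 (nat_lit 234) (nat_lit 76) (nat_lit 0) (XT.nd (nat_lit 78) (nat_lit 228) (nat_lit 0) (XT.lf (nat_lit 0) (nat_lit 6225962609) (nat_lit 76) (nat_lit 15347834596) (nat_lit 152) (nat_lit 2738178494) (nat_lit 20) (nat_lit 5) (nat_lit 21) (nat_lit 5) (nat_lit 22) (nat_lit 4) (nat_lit 295) (nat_lit 236) (nat_lit 189)) (XT.nd (nat_lit 78) (nat_lit 152) (nat_lit 0) (XT.lf (nat_lit 0) (nat_lit 2263881209) (nat_lit 152) (nat_lit 7034371259) (nat_lit 76) (nat_lit 16012152691) (nat_lit 19) (nat_lit 5) (nat_lit 21) (nat_lit 5) (nat_lit 20) (nat_lit 5) (nat_lit 296) (nat_lit 236) (nat_lit 188)) (XT.lf (nat_lit 0) (nat_lit 4537550901) (nat_lit 152) (nat_lit 2910406497) (nat_lit 228) (nat_lit 18910379487) (nat_lit 17) (nat_lit 5) (nat_lit 19) (nat_lit 5) (nat_lit 20) (nat_lit 5) (nat_lit 297) (nat_lit 236) (nat_lit 187)))) (XT.nd (nat_lit 78) (nat_lit 76) (nat_lit 0) (XT.lf (nat_lit 0) (nat_lit 12946688021)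 (nat_lit 228) (nat_lit 10750487027) (nat_lit 76) (nat_lit 3759874640) (nat_lit 17) (nat_lit 5) (nat_lit 20) (nat_lit 5) (nat_lit 18) (nat_lit 4) (nat_lit 298) (nat_lit 236) (nat_lit 186)) (XT.nd (nat_lit 78) (nat_lit 0) (nat_lit 0) (XT.lf (nat_lit 0) (nat_lit 771533870) (nat_lit 76) (nat_lit 17934016581) (nat_lit 152) (nat_lit 9905637545) (nat_lit 16) (nat_lit 5) (nat_lit 17) (nat_lit 5) (nat_lit 18) (nat_lit 4) (nat_lit 299) (nat_lit 236) (nat_lit 185)) (XT.lf (nat_lit 0) (nat_lit 13009343794) (nat_lit 76) (nat_lit 11803722612) (nat_lit 152) (nat_lit 5008189048) (nat_lit 16) (nat_lit 5) (nat_lit 17) (nat_lit 5) (nat_lit 18) (nat_lit 4) (nat_lit 300) (nat_lit 236) (nat_lit 184))))))))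
noncomputable def xc43 : XT := (XT.nd (nat_lit 1716) (nat_lit 76) (nat_lit 0) (XT.nd (nat_lit 858) (nat_lit 228) (nat_lit 0) (XT.nd (nat_lit 390) (nat_lit 228) (nat_lit 0) (XT.nd (nat_lit 156) (nat_lit 76) (nat_lit 0) (XT.nd (nat_lit 78) (nat_lit 152) (nat_lit 0) (XT.lf (nat_lit 0) (nat_lit 83425248) (nat_lit 152) (nat_lit 5315988361) (nat_lit 76) (nat_lit 25693856936) (nat_lit 15) (nat_lit 5) (nat_lit 17) (nat_lit 5) (nat_lit 16) (nat_lit 5) (nat_lit 301) (nat_lit 236) (nat_lit 183)) (XT.lf (nat_lit 0) (nat_lit 5359740974) (nat_lit 228) (nat_lit 25682365334) (nat_lit 76) (nat_lit 1384319916) (nat_lit 13) (nat_lit 5) (nat_lit 16) (nat_lit 5) (nat_lit 14) (nat_lit 4) (nat_lit 302) (nat_lit 236) (nat_lit 182))) (XT.nd (nat_lit 78) (nat_lit 76) (nat_lit 0) (XT.lf (nat_lit 0) (nat_lit 10964986358) (nat_lit 228) (nat_lit 14438280846) (nat_lit 76) (nat_lit 8421055588) (nat_lit 13) (nat_lit 5)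 (nat_lit 16) (nat_lit 5) (nat_lit 14) (nat_lit 4) (nat_lit 303) (nat_lit 236) (nat_lit 181)) (XT.nd (nat_lit 78) (nat_lit 76) (nat_lit 0) (XT.lf (nat_lit 0) (nat_lit 16807971209) (nat_lit 228) (nat_lit 2705177448) (nat_lit 76) (nat_lit 15780275998) (nat_lit 13) (nat_lit 5) (nat_lit 16) (nat_lit 5) (nat_lit 14) (nat_lit 4) (nat_lit 304) (nat_lit 236) (nat_lit 180)) (XT.lf (nat_lit 0) (nat_lit 9734842661) (nat_lit 76) (nat_lit 13261341996) (nat_lit 152) (nat_lit 13838237698) (nat_lit 12) (nat_lit 5) (nat_lit 13) (nat_lit 5) (nat_lit 14) (nat_lit 4) (nat_lit 305) (nat_lit 236) (nat_lit 179))))) (XT.nd (nat_lit 234) (nat_lit 76) (nat_lit 0) (XT.nd (nat_lit 78) (nat_lit 152) (nat_lit 0) (XT.lf (nat_lit 0) (nat_lit 22785691674) (nat_lit 76) (nat_lit 6696744286) (nat_lit 152) (nat_lit 8970406713) (nat_lit 12) (nat_lit 5) (nat_lit 13) (nat_lit 5) (nat_lit 14) (nat_lit 4) (nat_lit 306) (nat_lit 236)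 (nat_lit 178)) (XT.nd (nat_lit 78) (nat_lit 152) (nat_lit 0) (XT.lf (nat_lit 0) (nat_lit 36257271350) (nat_lit 152) (nat_lit 3730354052) (nat_lit 0) (nat_lit 165660507) (nat_lit 12) (nat_lit 5) (nat_lit 14) (nat_lit 4) (nat_lit 12) (nat_lit 4) (nat_lit 307) (nat_lit 236) (nat_lit 177)) (XT.lf (nat_lit 0) (nat_lit 1522083542) (nat_lit 152) (nat_lit 33104144490) (nat_lit 76) (nat_lit 7308600118) (nat_lit 10) (nat_lit 5) (nat_lit 12) (nat_lit 5) (nat_lit 11) (nat_lit 4) (nat_lit 308) (nat_lit 236) (nat_lit 176)))) (XT.nd (nat_lit 78) (nat_lit 76) (nat_lit 0) (XT.lf (nat_lit 0) (nat_lit 7134972950) (nat_lit 152) (nat_lit 21807467788) (nat_lit 76) (nat_lit 14861742132) (nat_lit 10) (nat_lit 5) (nat_lit 12) (nat_lit 5) (nat_lit 11) (nat_lit 4) (nat_lit 309) (nat_lit 236) (nat_lit 175)) (XT.nd (nat_lit 78) (nat_lit 76) (nat_lit 0) (XT.lf (nat_lit 0) (nat_lit 12995108766) (nat_lit 152) (nat_lit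 10004238555) (nat_lit 76) (nat_lit 22768685147) (nat_lit 10) (nat_lit 5) (nat_lit 12) (nat_lit 5) (nat_lit 11) (nat_lit 4) (nat_lit 310) (nat_lit 236) (nat_lit 174)) (XT.lf (nat_lit 0) (nat_lit 2380090269) (nat_lit 76) (nat_lit 16759232309) (nat_lit 152) (nat_lit 28691043830) (nat_lit 9) (nat_lit 5) (nat_lit 10) (nat_lit 5) (nat_lit 11) (nat_lit 4) (nat_lit 311) (nat_lit 236) (nat_lit 173)))))) (XT.nd (nat_lit 390) (nat_lit 152) (nat_lit 0) (XT.nd (nat_lit 156) (nat_lit 76) (nat_lit 0) (XT.nd (nat_lit 78) (nat_lit 0) (nat_lit 0) (XT.lf (nat_lit 0) (nat_lit 15538779762) (nat_lit 76) (nat_lit 10124140836) (nat_lit 152) (nat_lit 24330754098) (nat_lit 9) (nat_lit 5) (nat_lit 10) (nat_lit 5) (nat_lit 11) (nat_lit 4) (nat_lit 312) (nat_lit 236) (nat_lit 172)) (XT.lf (nat_lit 0) (nat_lit 29304056172) (nat_lit 76) (nat_lit 3179298261) (nat_lit 152) (nat_lit 19782696055) (nat_lit 9) (nat_lit 5) (nat_lit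 10) (nat_lit 5) (nat_lit 11) (nat_lit 4) (nat_lit 313) (nat_lit 236) (nat_lit 171))) (XT.nd (nat_lit 78) (nat_lit 76) (nat_lit 0) (XT.lf (nat_lit 0) (nat_lit 39656196392) (nat_lit 152) (nat_lit 10983543418) (nat_lit 0) (nat_lit 4011984399) (nat_lit 9) (nat_lit 5) (nat_lit 11) (nat_lit 4) (nat_lit 9) (nat_lit 4) (nat_lit 314) (nat_lit 236) (nat_lit 170)) (XT.nd (nat_lit 78) (nat_lit 0) (nat_lit 0) (XT.lf (nat_lit 0) (nat_lit 1544682799) (nat_lit 76) (nat_lit 45663127715) (nat_lit 76) (nat_lit 9948286943) (nat_lit 8) (nat_lit 4) (nat_lit 9) (nat_lit 5) (nat_lit 9) (nat_lit 4) (nat_lit 315) (nat_lit 236) (nat_lit 169)) (XT.lf (nat_lit 0) (nat_lit 14882996938) (nat_lit 76) (nat_lit 40341102345) (nat_lit 76) (nat_lit 4558996070) (nat_lit 8) (nat_lit 4) (nat_lit 9) (nat_lit 5) (nat_lit 9) (nat_lit 4) (nat_lit 316) (nat_lit 236) (nat_lit 168))))) (XT.nd (nat_lit 234) (nat_lit 76) (nat_lit 0) (XT.nd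 (nat_lit 78) (nat_lit 0) (nat_lit 0) (XT.lf (nat_lit 0) (nat_lit 1053301430) (nat_lit 152) (nat_lit 33707966754) (nat_lit 76) (nat_lit 27780625130) (nat_lit 7) (nat_lit 5) (nat_lit 9) (nat_lit 5) (nat_lit 8) (nat_lit 4) (nat_lit 317) (nat_lit 236) (nat_lit 167)) (XT.nd (nat_lit 78) (nat_lit 0) (nat_lit 0) (XT.lf (nat_lit 0) (nat_lit 6828995966) (nat_lit 152) (nat_lit 22044318641) (nat_lit 76) (nat_lit 36564666891) (nat_lit 7) (nat_lit 5) (nat_lit 9) (nat_lit 5) (nat_lit 8) (nat_lit 4) (nat_lit 318) (nat_lit 236) (nat_lit 166)) (XT.lf (nat_lit 0) (nat_lit 12870801623) (nat_lit 152) (nat_lit 9837559627) (nat_lit 76) (nat_lit 45771208820) (nat_lit 7) (nat_lit 5) (nat_lit 9) (nat_lit 5) (nat_lit 8) (nat_lit 4) (nat_lit 319) (nat_lit 236) (nat_lit 165)))) (XT.nd (nat_lit 78) (nat_lit 0) (nat_lit 0) (XT.lf (nat_lit 0) (nat_lit 2999913109) (nat_lit 76) (nat_lit 16222027545) (nat_lit 152) (nat_lit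 52451095143) (nat_lit 6) (nat_lit 5) (nat_lit 7) (nat_lit 5) (nat_lit 8) (nat_lit 4) (nat_lit 320) (nat_lit 236) (nat_lit 164)) (XT.nd (nat_lit 78) (nat_lit 0) (nat_lit 0) (XT.lf (nat_lit 0) (nat_lit 16647766152) (nat_lit 76) (nat_lit 9323217519) (nat_lit 152) (nat_lit 49052795033) (nat_lit 6) (nat_lit 5) (nat_lit 7) (nat_lit 5) (nat_lit 8) (nat_lit 4) (nat_lit 321) (nat_lit 236) (nat_lit 163)) (XT.lf (nat_lit 0) (nat_lit 30942707664) (nat_lit 76) (nat_lit 2094845498) (nat_lit 152) (nat_lit 45505116988) (nat_lit 6) (nat_lit 5) (nat_lit 7) (nat_lit 5) (nat_lit 8) (nat_lit 4) (nat_lit 322) (nat_lit 236) (nat_lit 162))))))) (XT.nd (nat_lit 31668) (nat_lit 0) (nat_lit 10640) (XT.nd (nat_lit 390) (nat_lit 0) (nat_lit 0) (XT.nd (nat_lit 156) (nat_lit 76) (nat_lit 0) (XT.nd (nat_lit 78) (nat_lit 0) (nat_lit 0) (XT.lf (nat_lit 0) (nat_lit 40491154277) (nat_lit 152) (nat_lit 36371995215) (nat_lit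 0) (nat_lit 5373358555) (nat_lit 6) (nat_lit 5) (nat_lit 8) (nat_lit 4) (nat_lit 6) (nat_lit 4) (nat_lit 323) (nat_lit 236) (nat_lit 161)) (XT.lf (nat_lit 0) (nat_lit 48320371970) (nat_lit 152) (nat_lit 24636215766) (nat_lit 0) (nat_lit 13158374364) (nat_lit 6) (nat_lit 5) (nat_lit 8) (nat_lit 4) (nat_lit 6) (nat_lit 4) (nat_lit 324) (nat_lit 236) (nat_lit 160))) (XT.nd (nat_lit 78) (nat_lit 76) (nat_lit 0) (XT.lf (nat_lit 0) (nat_lit 56523710299) (nat_lit 152) (nat_lit 12344544871) (nat_lit 0) (nat_lit 21319615661) (nat_lit 6) (nat_lit 5) (nat_lit 8) (nat_lit 4) (nat_lit 6) (nat_lit 4) (nat_lit 325) (nat_lit 236) (nat_lit 159)) (XT.nd (nat_lit 78) (nat_lit 0) (nat_lit 0) (XT.lf (nat_lit 0) (nat_lit 542876833) (nat_lit 76) (nat_lit 64583042652) (nat_lit 76) (nat_lit 29338855603) (nat_lit 5) (nat_lit 4) (nat_lit 6) (nat_lit 5) (nat_lit 6) (nat_lit 4) (nat_lit 326) (nat_lit 236) (nat_lit 158))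 (XT.lf (nat_lit 0) (nat_lit 14304051584) (nat_lit 76) (nat_lit 59965260873) (nat_lit 76) (nat_lit 24682890575) (nat_lit 5) (nat_lit 4) (nat_lit 6) (nat_lit 5) (nat_lit 6) (nat_lit 4) (nat_lit 327) (nat_lit 236) (nat_lit 157))))) (XT.nd (nat_lit 234) (nat_lit 0) (nat_lit 0) (XT.nd (nat_lit 78) (nat_lit 0) (nat_lit 0) (XT.lf (nat_lit 0) (nat_lit 28726063435) (nat_lit 76) (nat_lit 55128570813) (nat_lit 76) (nat_lit 19809835516) (nat_lit 5) (nat_lit 4) (nat_lit 6) (nat_lit 5) (nat_lit 6) (nat_lit 4) (nat_lit 328) (nat_lit 236) (nat_lit 156)) (XT.nd (nat_lit 78) (nat_lit 0) (nat_lit 0) (XT.lf (nat_lit 0) (nat_lit 43843250509) (nat_lit 76) (nat_lit 50061456544) (nat_lit 76) (nat_lit 14708087913) (nat_lit 5) (nat_lit 4) (nat_lit 6) (nat_lit 5) (nat_lit 6) (nat_lit 4) (nat_lit 329) (nat_lit 236) (nat_lit 155)) (XT.lf (nat_lit 0) (nat_lit 59691606110) (nat_lit 76) (nat_lit 44751853506) (nat_lit 76)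 (nat_lit 9365500750) (nat_lit 5) (nat_lit 4) (nat_lit 6) (nat_lit 5) (nat_lit 6) (nat_lit 4) (nat_lit 330) (nat_lit 236) (nat_lit 154)))) (XT.nd (nat_lit 30888) (nat_lit 0) (nat_lit 18772) (XT.lf (nat_lit 0) (nat_lit 76308864416) (nat_lit 76) (nat_lit 39187119790) (nat_lit 76) (nat_lit 3769353579) (nat_lit 5) (nat_lit 4) (nat_lit 6) (nat_lit 5) (nat_lit 6) (nat_lit 4) (nat_lit 331) (nat_lit 236) (nat_lit 153)) (XT.nd (nat_lit 78) (nat_lit 456) (nat_lit 0) (XT.lf (nat_lit 0) (nat_lit 1315199040) (nat_lit 380) (nat_lit 647141191) (nat_lit 0) (nat_lit 1315199040) (nat_lit 258) (nat_lit 5) (nat_lit 263) (nat_lit 4) (nat_lit 258) (nat_lit 4) (nat_lit 246) (nat_lit 237) (nat_lit 237)) (XT.lf (nat_lit 0) (nat_lit 771690537) (nat_lit 456) (nat_lit 2097176613) (nat_lit 76) (nat_lit 3728669712) (nat_lit 252) (nat_lit 5) (nat_lit 258) (nat_lit 5) (nat_lit 253) (nat_lit 4) (nat_lit 247) (nat_lit 237)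 (nat_lit 236)))))) (XT.nd (nat_lit 390) (nat_lit 4864) (nat_lit 0) (XT.nd (nat_lit 156) (nat_lit 2204) (nat_lit 0) (XT.nd (nat_lit 78) (nat_lit 608) (nat_lit 0) (XT.lf (nat_lit 0) (nat_lit 3812776181) (nat_lit 456) (nat_lit 1589061594) (nat_lit 532) (nat_lit 1246657786) (nat_lit 246) (nat_lit 5) (nat_lit 252) (nat_lit 5) (nat_lit 253) (nat_lit 4) (nat_lit 248) (nat_lit 237) (nat_lit 235)) (XT.lf (nat_lit 0) (nat_lit 3196061530) (nat_lit 532) (nat_lit 85366396) (nat_lit 608) (nat_lit 3426739783) (nat_lit 238) (nat_lit 5) (nat_lit 245) (nat_lit 5) (nat_lit 246) (nat_lit 5) (nat_lit 249) (nat_lit 237) (nat_lit 234))) (XT.nd (nat_lit 78) (nat_lit 1520) (nat_lit 0) (XT.lf (nat_lit 0) (nat_lit 1030660199) (nat_lit 684) (nat_lit 4139756106) (nat_lit 76) (nat_lit 1606033944) (nat_lit 229) (nat_lit 5) (nat_lit 238) (nat_lit 5) (nat_lit 230) (nat_lit 5) (nat_lit 250) (nat_lit 237) (nat_lit 233)) (XT.nd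 (nat_lit 78) (nat_lit 836) (nat_lit 0) (XT.lf (nat_lit 0) (nat_lit 2128913093) (nat_lit 684) (nat_lit 3324898222) (nat_lit 760) (nat_lit 1399676307) (nat_lit 220) (nat_lit 5) (nat_lit 229) (nat_lit 5) (nat_lit 230) (nat_lit 5) (nat_lit 251) (nat_lit 237) (nat_lit 232)) (XT.lf (nat_lit 0) (nat_lit 1670269040) (nat_lit 760) (nat_lit 1252862972) (nat_lit 836) (nat_lit 4016411729) (nat_lit 209) (nat_lit 5) (nat_lit 219) (nat_lit 5) (nat_lit 220) (nat_lit 5) (nat_lit 252) (nat_lit 237) (nat_lit 231))))) (XT.nd (nat_lit 234) (nat_lit 1976) (nat_lit 0) (XT.nd (nat_lit 78) (nat_lit 1976) (nat_lit 0) (XT.lf (nat_lit 0) (nat_lit 235792688) (nat_lit 912) (nat_lit 5779200190) (nat_lit 76) (nat_lit 1019836205) (nat_lit 197) (nat_lit 5) (nat_lit 209) (nat_lit 5) (nat_lit 198) (nat_lit 5) (nat_lit 253) (nat_lit 237) (nat_lit 230)) (XT.nd (nat_lit 78) (nat_lit 1064) (nat_lit 0) (XT.lf (nat_lit 0) (nat_lit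 848920236) (nat_lit 912) (nat_lit 3623088620) (nat_lit 988) (nat_lit 2666670688) (nat_lit 185) (nat_lit 5) (nat_lit 197) (nat_lit 5) (nat_lit 198) (nat_lit 5) (nat_lit 254) (nat_lit 237) (nat_lit 229)) (XT.lf (nat_lit 0) (nat_lit 479187208) (nat_lit 988) (nat_lit 1009314498) (nat_lit 1064) (nat_lit 5763854471) (nat_lit 171) (nat_lit 5) (nat_lit 184) (nat_lit 5) (nat_lit 185) (nat_lit 5) (nat_lit 255) (nat_lit 237) (nat_lit 228)))) (XT.nd (nat_lit 78) (nat_lit 912) (nat_lit 0) (XT.lf (nat_lit 0) (nat_lit 108049047) (nat_lit 1064) (nat_lit 5564584836) (nat_lit 1140) (nat_lit 1702553016) (nat_lit 157) (nat_lit 5) (nat_lit 171) (nat_lit 5) (nat_lit 172) (nat_lit 5) (nat_lit 256) (nat_lit 237) (nat_lit 227)) (XT.nd (nat_lit 78) (nat_lit 836) (nat_lit 0) (XT.lf (nat_lit 0) (nat_lit 2390688950) (nat_lit 1140) (nat_lit 259620029) (nat_lit 76) (nat_lit 4857256673) (nat_lit 156) (nat_lit 5) (nat_lit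 171) (nat_lit 5) (nat_lit 157) (nat_lit 5) (nat_lit 257) (nat_lit 237) (nat_lit 226)) (XT.lf (nat_lit 0) (nat_lit 6533984980) (nat_lit 912) (nat_lit 624347584) (nat_lit 76) (nat_lit 491793857) (nat_lit 145) (nat_lit 5) (nat_lit 157) (nat_lit 5) (nat_lit 146) (nat_lit 5) (nat_lit 258) (nat_lit 237) (nat_lit 225))))))))
noncomputable def xc44 : XT := (XT.nd (nat_lit 1716) (nat_lit 2280) (nat_lit 0) (XT.nd (nat_lit 858) (nat_lit 2432) (nat_lit 0) (XT.nd (nat_lit 390) (nat_lit 2432) (nat_lit 0) (XT.nd (nat_lit 156) (nat_lit 1596) (nat_lit 0) (XT.nd (nat_lit 78) (nat_lit 532) (nat_lit 0) (XT.lf (nat_lit 0) (nat_lit 2933190704) (nat_lit 608) (nat_lit 1032895890) (nat_lit 76) (nat_lit 3836026722) (nat_lit 137) (nat_lit 5) (nat_lit 145) (nat_lit 5) (nat_lit 138) (nat_lit 5) (nat_lit 259) (nat_lit 237) (nat_lit 224)) (XT.lf (nat_lit 0) (nat_lit 6512955166) (nat_lit 532) (nat_lit 538402230) (nat_lit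 608) (nat_lit 913755849) (nat_lit 130) (nat_lit 5) (nat_lit 137) (nat_lit 5) (nat_lit 138) (nat_lit 5) (nat_lit 260) (nat_lit 237) (nat_lit 223))) (XT.nd (nat_lit 78) (nat_lit 1064) (nat_lit 0) (XT.lf (nat_lit 0) (nat_lit 3101730813) (nat_lit 532) (nat_lit 1942526517) (nat_lit 76) (nat_lit 3093695101) (nat_lit 123) (nat_lit 5) (nat_lit 130) (nat_lit 5) (nat_lit 124) (nat_lit 5) (nat_lit 261) (nat_lit 237) (nat_lit 222)) (XT.nd (nat_lit 78) (nat_lit 532) (nat_lit 0) (XT.lf (nat_lit 0) (nat_lit 5850768035) (nat_lit 532) (nat_lit 1356619980) (nat_lit 608) (nat_lit 1114902897) (nat_lit 116) (nat_lit 5) (nat_lit 123) (nat_lit 5) (nat_lit 124) (nat_lit 5) (nat_lit 262) (nat_lit 237) (nat_lit 221)) (XT.lf (nat_lit 0) (nat_lit 2877187573) (nat_lit 532) (nat_lit 3090314331) (nat_lit 76) (nat_lit 2549828829) (nat_lit 109) (nat_lit 5) (nat_lit 116) (nat_lit 5) (nat_lit 110) (nat_lit 5) (nat_lit 263)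 (nat_lit 237) (nat_lit 220))))) (XT.nd (nat_lit 234) (nat_lit 1140) (nat_lit 0) (XT.nd (nat_lit 78) (nat_lit 836) (nat_lit 0) (XT.lf (nat_lit 0) (nat_lit 4938671700) (nat_lit 456) (nat_lit 2035830048) (nat_lit 532) (nat_lit 1749761820) (nat_lit 103) (nat_lit 5) (nat_lit 109) (nat_lit 5) (nat_lit 110) (nat_lit 5) (nat_lit 264) (nat_lit 237) (nat_lit 219)) (XT.nd (nat_lit 78) (nat_lit 380) (nat_lit 0) (XT.lf (nat_lit 0) (nat_lit 2230170645) (nat_lit 456) (nat_lit 4590100263) (nat_lit 76) (nat_lit 2122688198) (nat_lit 97) (nat_lit 5) (nat_lit 103) (nat_lit 5) (nat_lit 98) (nat_lit 5) (nat_lit 265) (nat_lit 237) (nat_lit 218)) (XT.lf (nat_lit 0) (nat_lit 3658015510) (nat_lit 380) (nat_lit 2661306127) (nat_lit 456) (nat_lit 2854648561) (nat_lit 92) (nat_lit 5) (nat_lit 97) (nat_lit 5) (nat_lit 98) (nat_lit 5) (nat_lit 266) (nat_lit 237) (nat_lit 217)))) (XT.nd (nat_lit 78) (nat_lit 684) (nat_lit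 0) (XT.lf (nat_lit 0) (nat_lit 1119960395) (nat_lit 456) (nat_lit 6570891911) (nat_lit 76) (nat_lit 1727198013) (nat_lit 86) (nat_lit 5) (nat_lit 92) (nat_lit 5) (nat_lit 87) (nat_lit 5) (nat_lit 267) (nat_lit 237) (nat_lit 216)) (XT.nd (nat_lit 78) (nat_lit 304) (nat_lit 0) (XT.lf (nat_lit 0) (nat_lit 1873702157) (nat_lit 380) (nat_lit 3322971651) (nat_lit 456) (nat_lit 4478198187) (nat_lit 81) (nat_lit 5) (nat_lit 86) (nat_lit 5) (nat_lit 87) (nat_lit 5) (nat_lit 268) (nat_lit 237) (nat_lit 215)) (XT.lf (nat_lit 0) (nat_lit 760824135) (nat_lit 304) (nat_lit 8668480563) (nat_lit 380) (nat_lit 516913166) (nat_lit 77) (nat_lit 5) (nat_lit 81) (nat_lit 5) (nat_lit 82) (nat_lit 5) (nat_lit 269) (nat_lit 237) (nat_lit 214)))))) (XT.nd (nat_lit 390) (nat_lit 1140) (nat_lit 0) (XT.nd (nat_lit 156) (nat_lit 912) (nat_lit 0) (XT.nd (nat_lit 78) (nat_lit 304) (nat_lit 0) (XT.lf (nat_lit 0) (nat_lit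 3553601089) (nat_lit 380) (nat_lit 558473702) (nat_lit 76) (nat_lit 6118765633) (nat_lit 76) (nat_lit 5) (nat_lit 81) (nat_lit 5) (nat_lit 77) (nat_lit 5) (nat_lit 270) (nat_lit 237) (nat_lit 213)) (XT.lf (nat_lit 0) (nat_lit 7779545308) (nat_lit 380) (nat_lit 2043736291) (nat_lit 76) (nat_lit 707597374) (nat_lit 72) (nat_lit 5) (nat_lit 77) (nat_lit 5) (nat_lit 73) (nat_lit 5) (nat_lit 271) (nat_lit 237) (nat_lit 212))) (XT.nd (nat_lit 78) (nat_lit 532) (nat_lit 0) (XT.lf (nat_lit 0) (nat_lit 1337223039) (nat_lit 380) (nat_lit 3776575527) (nat_lit 76) (nat_lit 5732132315) (nat_lit 67) (nat_lit 5) (nat_lit 72) (nat_lit 5) (nat_lit 68) (nat_lit 5) (nat_lit 272) (nat_lit 237) (nat_lit 211)) (XT.nd (nat_lit 78) (nat_lit 228) (nat_lit 0) (XT.lf (nat_lit 0) (nat_lit 5419895046) (nat_lit 304) (nat_lit 108178829) (nat_lit 380) (nat_lit 5649391666) (nat_lit 63) (nat_lit 5) (nat_lit 67) (nat_lit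 5) (nat_lit 68) (nat_lit 5) (nat_lit 273) (nat_lit 237) (nat_lit 210)) (XT.lf (nat_lit 0) (nat_lit 3487738229) (nat_lit 228) (nat_lit 6447633278) (nat_lit 304) (nat_lit 1590179659) (nat_lit 60) (nat_lit 5) (nat_lit 63) (nat_lit 5) (nat_lit 64) (nat_lit 5) (nat_lit 274) (nat_lit 237) (nat_lit 209))))) (XT.nd (nat_lit 234) (nat_lit 532) (nat_lit 0) (XT.nd (nat_lit 78) (nat_lit 228) (nat_lit 0) (XT.lf (nat_lit 0) (nat_lit 1264741534) (nat_lit 304) (nat_lit 1315566854) (nat_lit 380) (nat_lit 9311316164) (nat_lit 55) (nat_lit 5) (nat_lit 59) (nat_lit 5) (nat_lit 60) (nat_lit 5) (nat_lit 275) (nat_lit 237) (nat_lit 208)) (XT.nd (nat_lit 78) (nat_lit 228) (nat_lit 0) (XT.lf (nat_lit 0) (nat_lit 6940245906) (nat_lit 380) (nat_lit 1286520013) (nat_lit 76) (nat_lit 4048508692) (nat_lit 55) (nat_lit 5) (nat_lit 60) (nat_lit 5) (nat_lit 56) (nat_lit 5) (nat_lit 276) (nat_lit 237) (nat_lit 207)) (XT.lf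 (nat_lit 0) (nat_lit 8524042727) (nat_lit 228) (nat_lit 2985346721) (nat_lit 304) (nat_lit 1169133553) (nat_lit 52) (nat_lit 5) (nat_lit 55) (nat_lit 5) (nat_lit 56) (nat_lit 5) (nat_lit 277) (nat_lit 237) (nat_lit 206)))) (XT.nd (nat_lit 78) (nat_lit 228) (nat_lit 0) (XT.lf (nat_lit 0) (nat_lit 3133664206) (nat_lit 304) (nat_lit 7444208486) (nat_lit 76) (nat_lit 2523542989) (nat_lit 48) (nat_lit 5) (nat_lit 52) (nat_lit 5) (nat_lit 49) (nat_lit 5) (nat_lit 278) (nat_lit 237) (nat_lit 205)) (XT.nd (nat_lit 78) (nat_lit 0) (nat_lit 0) (XT.lf (nat_lit 0) (nat_lit 2359667459) (nat_lit 228) (nat_lit 5265415471) (nat_lit 304) (nat_lit 5920226923) (nat_lit 45) (nat_lit 5) (nat_lit 48) (nat_lit 5) (nat_lit 49) (nat_lit 5) (nat_lit 279) (nat_lit 237) (nat_lit 204)) (XT.lf (nat_lit 0) (nat_lit 12325779711) (nat_lit 304) (nat_lit 1348059140) (nat_lit 76) (nat_lit 338146235) (nat_lit 45) (nat_lit 5)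 (nat_lit 49) (nat_lit 5) (nat_lit 46) (nat_lit 5) (nat_lit 280) (nat_lit 237) (nat_lit 203))))))) (XT.nd (nat_lit 858) (nat_lit 836) (nat_lit 0) (XT.nd (nat_lit 390) (nat_lit 532) (nat_lit 0) (XT.nd (nat_lit 156) (nat_lit 456) (nat_lit 0) (XT.nd (nat_lit 78) (nat_lit 152) (nat_lit 0) (XT.lf (nat_lit 0) (nat_lit 2754223014) (nat_lit 304) (nat_lit 5562076338) (nat_lit 76) (nat_lit 6183560278) (nat_lit 41) (nat_lit 5) (nat_lit 45) (nat_lit 5) (nat_lit 42) (nat_lit 5) (nat_lit 281) (nat_lit 237) (nat_lit 202)) (XT.lf (nat_lit 0) (nat_lit 4693248360) (nat_lit 152) (nat_lit 2658941305) (nat_lit 228) (nat_lit 7660438014) (nat_lit 39) (nat_lit 5) (nat_lit 41) (nat_lit 5) (nat_lit 42) (nat_lit 5) (nat_lit 282) (nat_lit 237) (nat_lit 201))) (XT.nd (nat_lit 78) (nat_lit 456) (nat_lit 0) (XT.lf (nat_lit 0) (nat_lit 12182894322) (nat_lit 228) (nat_lit 137774420) (nat_lit 76) (nat_lit 3230387183) (nat_lit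 39) (nat_lit 5) (nat_lit 42) (nat_lit 5) (nat_lit 40) (nat_lit 5) (nat_lit 283) (nat_lit 237) (nat_lit 200)) (XT.nd (nat_lit 78) (nat_lit 152) (nat_lit 0) (XT.lf (nat_lit 0) (nat_lit 1163245597) (nat_lit 304) (nat_lit 5521038534) (nat_lit 76) (nat_lit 9430489861) (nat_lit 35) (nat_lit 5) (nat_lit 39) (nat_lit 5) (nat_lit 36) (nat_lit 5) (nat_lit 284) (nat_lit 237) (nat_lit 199)) (XT.lf (nat_lit 0) (nat_lit 5097950118) (nat_lit 152) (nat_lit 724142621) (nat_lit 228) (nat_lit 10884563143) (nat_lit 33) (nat_lit 5) (nat_lit 35) (nat_lit 5) (nat_lit 36) (nat_lit 5) (nat_lit 285) (nat_lit 237) (nat_lit 198))))) (XT.nd (nat_lit 234) (nat_lit 152) (nat_lit 0) (XT.nd (nat_lit 78) (nat_lit 380) (nat_lit 0) (XT.lf (nat_lit 0) (nat_lit 10746158880) (nat_lit 228) (nat_lit 1140911001) (nat_lit 76) (nat_lit 5440183411) (nat_lit 33) (nat_lit 5) (nat_lit 36) (nat_lit 5) (nat_lit 34) (nat_lit 5) (nat_lit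 286) (nat_lit 237) (nat_lit 197)) (XT.nd (nat_lit 78) (nat_lit 228) (nat_lit 0) (XT.lf (nat_lit 0) (nat_lit 9918426039) (nat_lit 152) (nat_lit 6026066029) (nat_lit 228) (nat_lit 2033632049) (nat_lit 31) (nat_lit 5) (nat_lit 33) (nat_lit 5) (nat_lit 34) (nat_lit 5) (nat_lit 287) (nat_lit 237) (nat_lit 196)) (XT.lf (nat_lit 0) (nat_lit 2655068638) (nat_lit 228) (nat_lit 15857874749) (nat_lit 76) (nat_lit 148862926) (nat_lit 28) (nat_lit 5) (nat_lit 31) (nat_lit 5) (nat_lit 29) (nat_lit 5) (nat_lit 288) (nat_lit 237) (nat_lit 195)))) (XT.nd (nat_lit 78) (nat_lit 152) (nat_lit 0) (XT.lf (nat_lit 0) (nat_lit 7610196792) (nat_lit 228) (nat_lit 5194868079) (nat_lit 76) (nat_lit 6571857419) (nat_lit 28) (nat_lit 5) (nat_lit 31) (nat_lit 5) (nat_lit 29) (nat_lit 5) (nat_lit 289) (nat_lit 237) (nat_lit 194)) (XT.nd (nat_lit 78) (nat_lit 0) (nat_lit 0) (XT.lf (nat_lit 0) (nat_lit 6009332441) (nat_lit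 152) (nat_lit 6793941536) (nat_lit 228) (nat_lit 7324885978) (nat_lit 26) (nat_lit 5) (nat_lit 28) (nat_lit 5) (nat_lit 29) (nat_lit 5) (nat_lit 290) (nat_lit 237) (nat_lit 193)) (XT.lf (nat_lit 0) (nat_lit 17776211025) (nat_lit 152) (nat_lit 467895780) (nat_lit 228) (nat_lit 2673277901) (nat_lit 26) (nat_lit 5) (nat_lit 28) (nat_lit 5) (nat_lit 29) (nat_lit 5) (nat_lit 291) (nat_lit 237) (nat_lit 192)))))) (XT.nd (nat_lit 390) (nat_lit 380) (nat_lit 0) (XT.nd (nat_lit 156) (nat_lit 228) (nat_lit 0) (XT.nd (nat_lit 78) (nat_lit 0) (nat_lit 0) (XT.lf (nat_lit 0) (nat_lit 2245809605) (nat_lit 228) (nat_lit 13378758651) (nat_lit 76) (nat_lit 6118586715) (nat_lit 23) (nat_lit 5) (nat_lit 26) (nat_lit 5) (nat_lit 24) (nat_lit 5) (nat_lit 292) (nat_lit 237) (nat_lit 191)) (XT.lf (nat_lit 0) (nat_lit 7332185674) (nat_lit 228) (nat_lit 2231318588) (nat_lit 76) (nat_lit 13046676900) (nat_lit 23)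 (nat_lit 5) (nat_lit 26) (nat_lit 5) (nat_lit 24) (nat_lit 5) (nat_lit 293) (nat_lit 237) (nat_lit 190))) (XT.nd (nat_lit 78) (nat_lit 76) (nat_lit 0) (XT.lf (nat_lit 0) (nat_lit 9563991650) (nat_lit 152) (nat_lit 3142470864) (nat_lit 228) (nat_lit 10813145936) (nat_lit 21) (nat_lit 5) (nat_lit 23) (nat_lit 5) (nat_lit 24) (nat_lit 5) (nat_lit 294) (nat_lit 237) (nat_lit 189)) (XT.nd (nat_lit 78) (nat_lit 76) (nat_lit 0) (XT.lf (nat_lit 0) (nat_lit 18350425209) (nat_lit 228) (nat_lit 2607719893) (nat_lit 76) (nat_lit 3516387356) (nat_lit 21) (nat_lit 5) (nat_lit 24) (nat_lit 5) (nat_lit 22) (nat_lit 4) (nat_lit 295) (nat_lit 237) (nat_lit 188)) (XT.lf (nat_lit 0) (nat_lit 9368410178) (nat_lit 76) (nat_lit 14975827940) (nat_lit 152) (nat_lit 1130986909) (nat_lit 20) (nat_lit 5) (nat_lit 21) (nat_lit 5) (nat_lit 22) (nat_lit 4) (nat_lit 296) (nat_lit 237) (nat_lit 187))))) (XT.nd (nat_lit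 234) (nat_lit 152) (nat_lit 0) (XT.nd (nat_lit 78) (nat_lit 152) (nat_lit 0) (XT.lf (nat_lit 0) (nat_lit 4005710342) (nat_lit 152) (nat_lit 4655867409) (nat_lit 76) (nat_lit 17864012030) (nat_lit 19) (nat_lit 5) (nat_lit 21) (nat_lit 5) (nat_lit 20) (nat_lit 5) (nat_lit 297) (nat_lit 237) (nat_lit 186)) (XT.nd (nat_lit 78) (nat_lit 0) (nat_lit 0) (XT.lf (nat_lit 0) (nat_lit 7416389582) (nat_lit 152) (nat_lit 1980538980) (nat_lit 228) (nat_lit 18230621699) (nat_lit 17) (nat_lit 5) (nat_lit 19) (nat_lit 5) (nat_lit 20) (nat_lit 5) (nat_lit 298) (nat_lit 237) (nat_lit 185)) (XT.lf (nat_lit 0) (nat_lit 15105365832) (nat_lit 228) (nat_lit 8725794885) (nat_lit 76) (nat_lit 4952061849) (nat_lit 17) (nat_lit 5) (nat_lit 20) (nat_lit 5) (nat_lit 18) (nat_lit 4) (nat_lit 299) (nat_lit 237) (nat_lit 184)))) (XT.nd (nat_lit 78) (nat_lit 76) (nat_lit 0) (XT.lf (nat_lit 0) (nat_lit 3298881636) (nat_lit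 76) (nat_lit 17805244604) (nat_lit 152) (nat_lit 8892446681) (nat_lit 16) (nat_lit 5) (nat_lit 17) (nat_lit 5) (nat_lit 18) (nat_lit 4) (nat_lit 300) (nat_lit 237) (nat_lit 183)) (XT.nd (nat_lit 78) (nat_lit 76) (nat_lit 0) (XT.lf (nat_lit 0) (nat_lit 16030069148) (nat_lit 76) (nat_lit 11417267974) (nat_lit 152) (nat_lit 3821957794) (nat_lit 16) (nat_lit 5) (nat_lit 17) (nat_lit 5) (nat_lit 18) (nat_lit 4) (nat_lit 301) (nat_lit 237) (nat_lit 182)) (XT.lf (nat_lit 0) (nat_lit 1429126674) (nat_lit 152) (nat_lit 3296576727) (nat_lit 76) (nat_lit 27880861522) (nat_lit 15) (nat_lit 5) (nat_lit 17) (nat_lit 5) (nat_lit 16) (nat_lit 5) (nat_lit 302) (nat_lit 237) (nat_lit 181))))))))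
noncomputable def xc45 : XT := (XT.nd (nat_lit 1716) (nat_lit 76) (nat_lit 0) (XT.nd (nat_lit 858) (nat_lit 228) (nat_lit 0) (XT.nd (nat_lit 390) (nat_lit 228) (nat_lit 0) (XT.nd (nat_lit 156) (nat_lit 76) (nat_lit 0) (XT.nd (nat_lit 78) (nat_lit 0) (nat_lit 0) (XT.lf (nat_lit 0) (nat_lit 6935563502) (nat_lit 228) (nat_lit 24715588893) (nat_lit 76) (nat_lit 2356290320) (nat_lit 13) (nat_lit 5) (nat_lit 16) (nat_lit 5) (nat_lit 14) (nat_lit 4) (nat_lit 303) (nat_lit 237) (nat_lit 180)) (XT.lf (nat_lit 0) (nat_lit 12758793276) (nat_lit 228) (nat_lit 13016485642) (nat_lit 76) (nat_lit 9701874470) (nat_lit 13) (nat_lit 5) (nat_lit 16) (nat_lit 5) (nat_lit 14) (nat_lit 4) (nat_lit 304) (nat_lit 237) (nat_lit 179))) (XT.nd (nat_lit 78) (nat_lit 76) (nat_lit 0) (XT.lf (nat_lit 0) (nat_lit 18834615102) (nat_lit 228) (nat_lit 798808468) (nat_lit 76) (nat_lit 17388114657) (nat_lit 13) (nat_lit 5)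 (nat_lit 16) (nat_lit 5) (nat_lit 14) (nat_lit 4) (nat_lit 305) (nat_lit 237) (nat_lit 178)) (XT.nd (nat_lit 78) (nat_lit 0) (nat_lit 0) (XT.lf (nat_lit 0) (nat_lit 12204689795) (nat_lit 76) (nat_lit 13090124374) (nat_lit 152) (nat_lit 13345940601) (nat_lit 12) (nat_lit 5) (nat_lit 13) (nat_lit 5) (nat_lit 14) (nat_lit 4) (nat_lit 306) (nat_lit 237) (nat_lit 177)) (XT.lf (nat_lit 0) (nat_lit 25813647687) (nat_lit 76) (nat_lit 6237024623) (nat_lit 152) (nat_lit 8291108970) (nat_lit 12) (nat_lit 5) (nat_lit 13) (nat_lit 5) (nat_lit 14) (nat_lit 4) (nat_lit 307) (nat_lit 237) (nat_lit 176))))) (XT.nd (nat_lit 234) (nat_lit 76) (nat_lit 0) (XT.nd (nat_lit 78) (nat_lit 152) (nat_lit 0) (XT.lf (nat_lit 0) (nat_lit 39119422839) (nat_lit 152) (nat_lit 2093312526) (nat_lit 0) (nat_lit 915898019) (nat_lit 12) (nat_lit 5) (nat_lit 14) (nat_lit 4) (nat_lit 12) (nat_lit 4) (nat_lit 308) (nat_lit 237)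 (nat_lit 175)) (XT.nd (nat_lit 78) (nat_lit 0) (nat_lit 0) (XT.lf (nat_lit 0) (nat_lit 2625381794) (nat_lit 152) (nat_lit 32966846251) (nat_lit 76) (nat_lit 8407750672) (nat_lit 10) (nat_lit 5) (nat_lit 12) (nat_lit 5) (nat_lit 11) (nat_lit 4) (nat_lit 309) (nat_lit 237) (nat_lit 174)) (XT.lf (nat_lit 0) (nat_lit 8470001669) (nat_lit 152) (nat_lit 21190693117) (nat_lit 76) (nat_lit 16303610713) (nat_lit 10) (nat_lit 5) (nat_lit 12) (nat_lit 5) (nat_lit 11) (nat_lit 4) (nat_lit 310) (nat_lit 237) (nat_lit 173)))) (XT.nd (nat_lit 78) (nat_lit 76) (nat_lit 0) (XT.lf (nat_lit 0) (nat_lit 14576559511) (nat_lit 152) (nat_lit 8878595187) (nat_lit 76) (nat_lit 24572625570) (nat_lit 10) (nat_lit 5) (nat_lit 12) (nat_lit 5) (nat_lit 11) (nat_lit 4) (nat_lit 311) (nat_lit 237) (nat_lit 172)) (XT.nd (nat_lit 78) (nat_lit 0) (nat_lit 0) (XT.lf (nat_lit 0) (nat_lit 4078345263) (nat_lit 76) (nat_lit 16920453029)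 (nat_lit 152) (nat_lit 29195341660) (nat_lit 9) (nat_lit 5) (nat_lit 10) (nat_lit 5) (nat_lit 11) (nat_lit 4) (nat_lit 312) (nat_lit 237) (nat_lit 171)) (XT.lf (nat_lit 0) (nat_lit 17819766826) (nat_lit 76) (nat_lit 9985832740) (nat_lit 152) (nat_lit 24661335267) (nat_lit 9) (nat_lit 5) (nat_lit 10) (nat_lit 5) (nat_lit 11) (nat_lit 4) (nat_lit 313) (nat_lit 237) (nat_lit 170)))))) (XT.nd (nat_lit 390) (nat_lit 76) (nat_lit 0) (XT.nd (nat_lit 156) (nat_lit 152) (nat_lit 0) (XT.nd (nat_lit 78) (nat_lit 0) (nat_lit 0) (XT.lf (nat_lit 0) (nat_lit 32201685720) (nat_lit 76) (nat_lit 2724439233) (nat_lit 152) (nat_lit 19928062729) (nat_lit 9) (nat_lit 5) (nat_lit 10) (nat_lit 5) (nat_lit 11) (nat_lit 4) (nat_lit 314) (nat_lit 237) (nat_lit 169)) (XT.lf (nat_lit 0) (nat_lit 42424247402) (nat_lit 152) (nat_lit 10150157142) (nat_lit 0) (nat_lit 4785770310) (nat_lit 9) (nat_lit 5) (nat_lit 11) (nat_lit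 4) (nat_lit 9) (nat_lit 4) (nat_lit 315) (nat_lit 237) (nat_lit 168))) (XT.nd (nat_lit 78) (nat_lit 76) (nat_lit 0) (XT.lf (nat_lit 0) (nat_lit 2964849482) (nat_lit 76) (nat_lit 47364109399) (nat_lit 76) (nat_lit 9661569923) (nat_lit 8) (nat_lit 4) (nat_lit 9) (nat_lit 5) (nat_lit 9) (nat_lit 4) (nat_lit 316) (nat_lit 237) (nat_lit 167)) (XT.nd (nat_lit 78) (nat_lit 76) (nat_lit 0) (XT.lf (nat_lit 0) (nat_lit 16906130159) (nat_lit 76) (nat_lit 41803705366) (nat_lit 76) (nat_lit 4040154095) (nat_lit 8) (nat_lit 4) (nat_lit 9) (nat_lit 5) (nat_lit 9) (nat_lit 4) (nat_lit 317) (nat_lit 237) (nat_lit 166)) (XT.lf (nat_lit 0) (nat_lit 1803318103) (nat_lit 152) (nat_lit 34160921991) (nat_lit 76) (nat_lit 29683342305) (nat_lit 7) (nat_lit 5) (nat_lit 9) (nat_lit 5) (nat_lit 8) (nat_lit 4) (nat_lit 318) (nat_lit 237) (nat_lit 165))))) (XT.nd (nat_lit 234) (nat_lit 0) (nat_lit 0) (XT.nd (nat_lit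 78) (nat_lit 76) (nat_lit 0) (XT.lf (nat_lit 0) (nat_lit 7834590146) (nat_lit 152) (nat_lit 21972779239) (nat_lit 76) (nat_lit 38882124921) (nat_lit 7) (nat_lit 5) (nat_lit 9) (nat_lit 5) (nat_lit 8) (nat_lit 4) (nat_lit 319) (nat_lit 237) (nat_lit 164)) (XT.nd (nat_lit 78) (nat_lit 76) (nat_lit 0) (XT.lf (nat_lit 0) (nat_lit 14146860164) (nat_lit 152) (nat_lit 9211575385) (nat_lit 76) (nat_lit 48525697532) (nat_lit 7) (nat_lit 5) (nat_lit 9) (nat_lit 5) (nat_lit 8) (nat_lit 4) (nat_lit 320) (nat_lit 237) (nat_lit 163)) (XT.lf (nat_lit 0) (nat_lit 4235727691) (nat_lit 76) (nat_lit 16560146083) (nat_lit 152) (nat_lit 54442009741) (nat_lit 6) (nat_lit 5) (nat_lit 7) (nat_lit 5) (nat_lit 8) (nat_lit 4) (nat_lit 321) (nat_lit 237) (nat_lit 162)))) (XT.nd (nat_lit 78) (nat_lit 0) (nat_lit 0) (XT.lf (nat_lit 0) (nat_lit 18514267724) (nat_lit 76) (nat_lit 9338918549) (nat_lit 152) (nat_lit 50903872727)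 (nat_lit 6) (nat_lit 5) (nat_lit 7) (nat_lit 5) (nat_lit 8) (nat_lit 4) (nat_lit 322) (nat_lit 237) (nat_lit 161)) (XT.nd (nat_lit 78) (nat_lit 0) (nat_lit 0) (XT.lf (nat_lit 0) (nat_lit 33474712822) (nat_lit 76) (nat_lit 1770578395) (nat_lit 152) (nat_lit 47207456592) (nat_lit 6) (nat_lit 5) (nat_lit 7) (nat_lit 5) (nat_lit 8) (nat_lit 4) (nat_lit 323) (nat_lit 237) (nat_lit 160)) (XT.lf (nat_lit 0) (nat_lit 43049030370) (nat_lit 152) (nat_lit 37240307621) (nat_lit 0) (nat_lit 6042633968) (nat_lit 6) (nat_lit 5) (nat_lit 8) (nat_lit 4) (nat_lit 6) (nat_lit 4) (nat_lit 324) (nat_lit 237) (nat_lit 159))))))) (XT.nd (nat_lit 31512) (nat_lit 0) (nat_lit 10564) (XT.nd (nat_lit 390) (nat_lit 0) (nat_lit 0) (XT.nd (nat_lit 156) (nat_lit 76) (nat_lit 0) (XT.nd (nat_lit 78) (nat_lit 0) (nat_lit 0) (XT.lf (nat_lit 0) (nat_lit 51244312834) (nat_lit 152) (nat_lit 24962990979) (nat_lit 0) (nat_lit 14197824021)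 (nat_lit 6) (nat_lit 5) (nat_lit 8) (nat_lit 4) (nat_lit 6) (nat_lit 4) (nat_lit 325) (nat_lit 237) (nat_lit 158)) (XT.lf (nat_lit 0) (nat_lit 59833631305) (nat_lit 152) (nat_lit 12099833472) (nat_lit 0) (nat_lit 22748959242) (nat_lit 6) (nat_lit 5) (nat_lit 8) (nat_lit 4) (nat_lit 6) (nat_lit 4) (nat_lit 326) (nat_lit 237) (nat_lit 157))) (XT.nd (nat_lit 78) (nat_lit 0) (nat_lit 0) (XT.lf (nat_lit 0) (nat_lit 1407252020) (nat_lit 76) (nat_lit 67443711888) (nat_lit 76) (nat_lit 30322674826) (nat_lit 5) (nat_lit 4) (nat_lit 6) (nat_lit 5) (nat_lit 6) (nat_lit 4) (nat_lit 327) (nat_lit 237) (nat_lit 156)) (XT.nd (nat_lit 78) (nat_lit 0) (nat_lit 0) (XT.lf (nat_lit 0) (nat_lit 15816617349) (nat_lit 76) (nat_lit 62612587824) (nat_lit 76) (nat_lit 25456917430) (nat_lit 5) (nat_lit 4) (nat_lit 6) (nat_lit 5) (nat_lit 6) (nat_lit 4) (nat_lit 328) (nat_lit 237) (nat_lit 155)) (XT.lf (nat_lit 0)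 (nat_lit 30921760117) (nat_lit 76) (nat_lit 57550774504) (nat_lit 76) (nat_lit 20362119983) (nat_lit 5) (nat_lit 4) (nat_lit 6) (nat_lit 5) (nat_lit 6) (nat_lit 4) (nat_lit 329) (nat_lit 237) (nat_lit 154))))) (XT.nd (nat_lit 30888) (nat_lit 0) (nat_lit 18772) (XT.nd (nat_lit 78) (nat_lit 0) (nat_lit 0) (XT.lf (nat_lit 0) (nat_lit 46758644949) (nat_lit 76) (nat_lit 52246219990) (nat_lit 76) (nat_lit 15026152015) (nat_lit 5) (nat_lit 4) (nat_lit 6) (nat_lit 5) (nat_lit 6) (nat_lit 4) (nat_lit 330) (nat_lit 237) (nat_lit 153)) (XT.nd (nat_lit 30732) (nat_lit 0) (nat_lit 19608) (XT.lf (nat_lit 0) (nat_lit 63364978715) (nat_lit 76) (nat_lit 46686294390) (nat_lit 76) (nat_lit 9436308841) (nat_lit 5) (nat_lit 4) (nat_lit 6) (nat_lit 5) (nat_lit 6) (nat_lit 4) (nat_lit 331) (nat_lit 237) (nat_lit 152)) (XT.lf (nat_lit 0) (nat_lit 338233297) (nat_lit 228) (nat_lit 1453860972) (nat_lit 228) (nat_lit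 1453860972) (nat_lit 263) (nat_lit 4) (nat_lit 266) (nat_lit 5) (nat_lit 266) (nat_lit 4) (nat_lit 244) (nat_lit 238) (nat_lit 238)))) (XT.nd (nat_lit 78) (nat_lit 760) (nat_lit 0) (XT.lf (nat_lit 0) (nat_lit 1750018747) (nat_lit 304) (nat_lit 409762581) (nat_lit 76) (nat_lit 4361597745) (nat_lit 262) (nat_lit 5) (nat_lit 266) (nat_lit 5) (nat_lit 263) (nat_lit 4) (nat_lit 245) (nat_lit 238) (nat_lit 237)) (XT.nd (nat_lit 78) (nat_lit 456) (nat_lit 0) (XT.lf (nat_lit 0) (nat_lit 5160353670) (nat_lit 304) (nat_lit 1192490647) (nat_lit 380) (nat_lit 206467250) (nat_lit 258) (nat_lit 5) (nat_lit 262) (nat_lit 5) (nat_lit 263) (nat_lit 4) (nat_lit 246) (nat_lit 238) (nat_lit 236)) (XT.lf (nat_lit 0) (nat_lit 4272783030) (nat_lit 456) (nat_lit 2326098774) (nat_lit 76) (nat_lit 6614727) (nat_lit 252) (nat_lit 5) (nat_lit 258) (nat_lit 5) (nat_lit 253) (nat_lit 4) (nat_lit 247) (nat_lit 238) (nat_lit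 235)))))) (XT.nd (nat_lit 390) (nat_lit 4940) (nat_lit 0) (XT.nd (nat_lit 156) (nat_lit 2204) (nat_lit 0) (XT.nd (nat_lit 78) (nat_lit 532) (nat_lit 0) (XT.lf (nat_lit 0) (nat_lit 2072035280) (nat_lit 532) (nat_lit 3192725140) (nat_lit 76) (nat_lit 1395392199) (nat_lit 245) (nat_lit 5) (nat_lit 252) (nat_lit 5) (nat_lit 246) (nat_lit 5) (nat_lit 248) (nat_lit 238) (nat_lit 234)) (XT.lf (nat_lit 0) (nat_lit 2728492629) (nat_lit 532) (nat_lit 3720581897) (nat_lit 608) (nat_lit 274599120) (nat_lit 238) (nat_lit 5) (nat_lit 245) (nat_lit 5) (nat_lit 246) (nat_lit 5) (nat_lit 249) (nat_lit 238) (nat_lit 233))) (XT.nd (nat_lit 78) (nat_lit 1520) (nat_lit 0) (XT.lf (nat_lit 0) (nat_lit 2037904346) (nat_lit 608) (nat_lit 1942948846) (nat_lit 684) (nat_lit 2814783268) (nat_lit 229) (nat_lit 5) (nat_lit 237) (nat_lit 5) (nat_lit 238) (nat_lit 5) (nat_lit 250) (nat_lit 238) (nat_lit 232)) (XT.nd (nat_lit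 78) (nat_lit 760) (nat_lit 0) (XT.lf (nat_lit 0) (nat_lit 1360571459) (nat_lit 760) (nat_lit 5465769618) (nat_lit 76) (nat_lit 50465265) (nat_lit 219) (nat_lit 5) (nat_lit 229) (nat_lit 5) (nat_lit 220) (nat_lit 5) (nat_lit 251) (nat_lit 238) (nat_lit 231)) (XT.lf (nat_lit 0) (nat_lit 807770969) (nat_lit 760) (nat_lit 4729451077) (nat_lit 836) (nat_lit 1429133363) (nat_lit 209) (nat_lit 5) (nat_lit 219) (nat_lit 5) (nat_lit 220) (nat_lit 5) (nat_lit 252) (nat_lit 238) (nat_lit 230))))) (XT.nd (nat_lit 234) (nat_lit 3040) (nat_lit 0) (XT.nd (nat_lit 78) (nat_lit 988) (nat_lit 0) (XT.lf (nat_lit 0) (nat_lit 240890124) (nat_lit 836) (nat_lit 2404342434) (nat_lit 912) (nat_lit 4419788892) (nat_lit 197) (nat_lit 5) (nat_lit 208) (nat_lit 5) (nat_lit 209) (nat_lit 5) (nat_lit 253) (nat_lit 238) (nat_lit 229)) (XT.nd (nat_lit 78) (nat_lit 988) (nat_lit 0) (XT.lf (nat_lit 0) (nat_lit 6747091379)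 (nat_lit 912) (nat_lit 281247297) (nat_lit 76) (nat_lit 144855644) (nat_lit 197) (nat_lit 5) (nat_lit 209) (nat_lit 5) (nat_lit 198) (nat_lit 5) (nat_lit 254) (nat_lit 238) (nat_lit 228)) (XT.lf (nat_lit 0) (nat_lit 3577670964) (nat_lit 988) (nat_lit 813453844) (nat_lit 76) (nat_lit 2898600028) (nat_lit 184) (nat_lit 5) (nat_lit 197) (nat_lit 5) (nat_lit 185) (nat_lit 5) (nat_lit 255) (nat_lit 238) (nat_lit 227)))) (XT.nd (nat_lit 78) (nat_lit 1976) (nat_lit 0) (XT.lf (nat_lit 0) (nat_lit 217843046) (nat_lit 1064) (nat_lit 1316837462) (nat_lit 76) (nat_lit 5881761402) (nat_lit 170) (nat_lit 5) (nat_lit 184) (nat_lit 5) (nat_lit 171) (nat_lit 5) (nat_lit 256) (nat_lit 238) (nat_lit 226)) (XT.nd (nat_lit 78) (nat_lit 912) (nat_lit 0) (XT.lf (nat_lit 0) (nat_lit 4156350190) (nat_lit 1140) (nat_lit 1845325091) (nat_lit 76) (nat_lit 1550537266) (nat_lit 156) (nat_lit 5) (nat_lit 171) (nat_lit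 5) (nat_lit 157) (nat_lit 5) (nat_lit 257) (nat_lit 238) (nat_lit 225)) (XT.lf (nat_lit 0) (nat_lit 481273523) (nat_lit 912) (nat_lit 2378411391) (nat_lit 76) (nat_lit 4838487463) (nat_lit 144) (nat_lit 5) (nat_lit 156) (nat_lit 5) (nat_lit 145) (nat_lit 5) (nat_lit 258) (nat_lit 238) (nat_lit 224))))))))
noncomputable def xc46 : XT := (XT.nd (nat_lit 1716) (nat_lit 2204) (nat_lit 0) (XT.nd (nat_lit 858) (nat_lit 2736) (nat_lit 0) (XT.nd (nat_lit 390) (nat_lit 2128) (nat_lit 0) (XT.nd (nat_lit 156) (nat_lit 1520) (nat_lit 0) (XT.nd (nat_lit 78) (nat_lit 608) (nat_lit 0) (XT.lf (nat_lit 0) (nat_lit 4376232951) (nat_lit 608) (nat_lit 2944626397) (nat_lit 76) (nat_lit 533164987) (nat_lit 137) (nat_lit 5) (nat_lit 145) (nat_lit 5) (nat_lit 138) (nat_lit 5) (nat_lit 259) (nat_lit 238) (nat_lit 223)) (XT.lf (nat_lit 0) (nat_lit 363691321) (nat_lit 608) (nat_lit 3549219851) (nat_lit 76) (nat_lit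 4107299880) (nat_lit 129) (nat_lit 5) (nat_lit 137) (nat_lit 5) (nat_lit 130) (nat_lit 5) (nat_lit 260) (nat_lit 238) (nat_lit 222))) (XT.nd (nat_lit 78) (nat_lit 1064) (nat_lit 0) (XT.lf (nat_lit 0) (nat_lit 3991094348) (nat_lit 456) (nat_lit 237060825) (nat_lit 532) (nat_lit 3968811502) (nat_lit 123) (nat_lit 5) (nat_lit 129) (nat_lit 5) (nat_lit 130) (nat_lit 5) (nat_lit 261) (nat_lit 238) (nat_lit 221)) (XT.nd (nat_lit 78) (nat_lit 532) (nat_lit 0) (XT.lf (nat_lit 0) (nat_lit 3456880140) (nat_lit 532) (nat_lit 4773289487) (nat_lit 608) (nat_lit 154420223) (nat_lit 116) (nat_lit 5) (nat_lit 123) (nat_lit 5) (nat_lit 124) (nat_lit 5) (nat_lit 262) (nat_lit 238) (nat_lit 220)) (XT.lf (nat_lit 0) (nat_lit 2851259705) (nat_lit 456) (nat_lit 841326520) (nat_lit 532) (nat_lit 4890718902) (nat_lit 109) (nat_lit 5) (nat_lit 115) (nat_lit 5) (nat_lit 116) (nat_lit 5) (nat_lit 263) (nat_lit 238)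 (nat_lit 219))))) (XT.nd (nat_lit 234) (nat_lit 836) (nat_lit 0) (XT.nd (nat_lit 78) (nat_lit 836) (nat_lit 0) (XT.lf (nat_lit 0) (nat_lit 2165774531) (nat_lit 456) (nat_lit 5515796034) (nat_lit 532) (nat_lit 1112071759) (nat_lit 103) (nat_lit 5) (nat_lit 109) (nat_lit 5) (nat_lit 110) (nat_lit 5) (nat_lit 264) (nat_lit 238) (nat_lit 218)) (XT.nd (nat_lit 78) (nat_lit 380) (nat_lit 0) (XT.lf (nat_lit 0) (nat_lit 1383248108) (nat_lit 380) (nat_lit 1350882001) (nat_lit 456) (nat_lit 6281805296) (nat_lit 97) (nat_lit 5) (nat_lit 102) (nat_lit 5) (nat_lit 103) (nat_lit 5) (nat_lit 265) (nat_lit 238) (nat_lit 217)) (XT.lf (nat_lit 0) (nat_lit 482503922) (nat_lit 380) (nat_lit 6228048085) (nat_lit 456) (nat_lit 2539912390) (nat_lit 92) (nat_lit 5) (nat_lit 97) (nat_lit 5) (nat_lit 98) (nat_lit 5) (nat_lit 266) (nat_lit 238) (nat_lit 216)))) (XT.nd (nat_lit 78) (nat_lit 760) (nat_lit 0) (XT.lf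 (nat_lit 0) (nat_lit 1316591550) (nat_lit 456) (nat_lit 529337335) (nat_lit 76) (nat_lit 7652009546) (nat_lit 91) (nat_lit 5) (nat_lit 97) (nat_lit 5) (nat_lit 92) (nat_lit 5) (nat_lit 267) (nat_lit 238) (nat_lit 215)) (XT.nd (nat_lit 78) (nat_lit 380) (nat_lit 0) (XT.lf (nat_lit 0) (nat_lit 5287104101) (nat_lit 456) (nat_lit 1694688861) (nat_lit 76) (nat_lit 2776272959) (nat_lit 86) (nat_lit 5) (nat_lit 92) (nat_lit 5) (nat_lit 87) (nat_lit 5) (nat_lit 268) (nat_lit 238) (nat_lit 214)) (XT.lf (nat_lit 0) (nat_lit 7022941865) (nat_lit 380) (nat_lit 2397539562) (nat_lit 456) (nat_lit 612022051) (nat_lit 81) (nat_lit 5) (nat_lit 86) (nat_lit 5) (nat_lit 87) (nat_lit 5) (nat_lit 269) (nat_lit 238) (nat_lit 213)))))) (XT.nd (nat_lit 390) (nat_lit 1368) (nat_lit 0) (XT.nd (nat_lit 156) (nat_lit 684) (nat_lit 0) (XT.nd (nat_lit 78) (nat_lit 304) (nat_lit 0) (XT.lf (nat_lit 0) (nat_lit 3345994551)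 (nat_lit 380) (nat_lit 4532669082) (nat_lit 76) (nat_lit 2442025924) (nat_lit 76) (nat_lit 5) (nat_lit 81) (nat_lit 5) (nat_lit 77) (nat_lit 5) (nat_lit 270) (nat_lit 238) (nat_lit 212)) (XT.lf (nat_lit 0) (nat_lit 4362324421) (nat_lit 304) (nat_lit 3104377859) (nat_lit 380) (nat_lit 3157283383) (nat_lit 72) (nat_lit 5) (nat_lit 76) (nat_lit 5) (nat_lit 77) (nat_lit 5) (nat_lit 271) (nat_lit 238) (nat_lit 211))) (XT.nd (nat_lit 78) (nat_lit 304) (nat_lit 0) (XT.lf (nat_lit 0) (nat_lit 809491092) (nat_lit 380) (nat_lit 8217953954) (nat_lit 76) (nat_lit 1915693596) (nat_lit 67) (nat_lit 5) (nat_lit 72) (nat_lit 5) (nat_lit 68) (nat_lit 5) (nat_lit 272) (nat_lit 238) (nat_lit 210)) (XT.nd (nat_lit 78) (nat_lit 0) (nat_lit 0) (XT.lf (nat_lit 0) (nat_lit 813083916) (nat_lit 304) (nat_lit 4087640281) (nat_lit 380) (nat_lit 6377026107) (nat_lit 63) (nat_lit 5) (nat_lit 67) (nat_lit 5) (nat_lit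 68) (nat_lit 5) (nat_lit 273) (nat_lit 238) (nat_lit 209)) (XT.lf (nat_lit 0) (nat_lit 9182646023) (nat_lit 380) (nat_lit 1324029399) (nat_lit 76) (nat_lit 1123006037) (nat_lit 63) (nat_lit 5) (nat_lit 68) (nat_lit 5) (nat_lit 64) (nat_lit 5) (nat_lit 274) (nat_lit 238) (nat_lit 208))))) (XT.nd (nat_lit 234) (nat_lit 532) (nat_lit 0) (XT.nd (nat_lit 78) (nat_lit 532) (nat_lit 0) (XT.lf (nat_lit 0) (nat_lit 1662571961) (nat_lit 304) (nat_lit 3768050958) (nat_lit 76) (nat_lit 6567784961) (nat_lit 59) (nat_lit 5) (nat_lit 63) (nat_lit 5) (nat_lit 60) (nat_lit 5) (nat_lit 275) (nat_lit 238) (nat_lit 207)) (XT.nd (nat_lit 78) (nat_lit 228) (nat_lit 0) (XT.lf (nat_lit 0) (nat_lit 5850129257) (nat_lit 304) (nat_lit 45215624) (nat_lit 380) (nat_lit 6490602191) (nat_lit 55) (nat_lit 5) (nat_lit 59) (nat_lit 5) (nat_lit 60) (nat_lit 5) (nat_lit 276) (nat_lit 238) (nat_lit 206)) (XT.lf (nat_lit 0)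 (nat_lit 3099702885) (nat_lit 228) (nat_lit 7263889430) (nat_lit 304) (nat_lit 2428700693) (nat_lit 52) (nat_lit 5) (nat_lit 55) (nat_lit 5) (nat_lit 56) (nat_lit 5) (nat_lit 277) (nat_lit 238) (nat_lit 205)))) (XT.nd (nat_lit 78) (nat_lit 456) (nat_lit 0) (XT.lf (nat_lit 0) (nat_lit 1772113001) (nat_lit 304) (nat_lit 22838873) (nat_lit 76) (nat_lit 11424459266) (nat_lit 51) (nat_lit 5) (nat_lit 55) (nat_lit 5) (nat_lit 52) (nat_lit 5) (nat_lit 278) (nat_lit 238) (nat_lit 204)) (XT.nd (nat_lit 78) (nat_lit 228) (nat_lit 0) (XT.lf (nat_lit 0) (nat_lit 6177576171) (nat_lit 304) (nat_lit 3535521412) (nat_lit 76) (nat_lit 3952848624) (nat_lit 48) (nat_lit 5) (nat_lit 52) (nat_lit 5) (nat_lit 49) (nat_lit 5) (nat_lit 279) (nat_lit 238) (nat_lit 203)) (XT.lf (nat_lit 0) (nat_lit 6635837263) (nat_lit 228) (nat_lit 4160212516) (nat_lit 304) (nat_lit 3339097618) (nat_lit 45) (nat_lit 5) (nat_lit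 48) (nat_lit 5) (nat_lit 49) (nat_lit 5) (nat_lit 280) (nat_lit 238) (nat_lit 202))))))) (XT.nd (nat_lit 858) (nat_lit 760) (nat_lit 0) (XT.nd (nat_lit 390) (nat_lit 684) (nat_lit 0) (XT.nd (nat_lit 156) (nat_lit 456) (nat_lit 0) (XT.nd (nat_lit 78) (nat_lit 0) (nat_lit 0) (XT.lf (nat_lit 0) (nat_lit 989245366) (nat_lit 304) (nat_lit 11970368421) (nat_lit 76) (nat_lit 1668269790) (nat_lit 41) (nat_lit 5) (nat_lit 45) (nat_lit 5) (nat_lit 42) (nat_lit 5) (nat_lit 281) (nat_lit 238) (nat_lit 201)) (XT.lf (nat_lit 0) (nat_lit 5500721164) (nat_lit 304) (nat_lit 1869600988) (nat_lit 76) (nat_lit 7772976387) (nat_lit 41) (nat_lit 5) (nat_lit 45) (nat_lit 5) (nat_lit 42) (nat_lit 5) (nat_lit 282) (nat_lit 238) (nat_lit 200))) (XT.nd (nat_lit 78) (nat_lit 304) (nat_lit 0) (XT.lf (nat_lit 0) (nat_lit 8784674089) (nat_lit 152) (nat_lit 1456757674) (nat_lit 228) (nat_lit 5443044547) (nat_lit 39) (nat_lit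 5) (nat_lit 41) (nat_lit 5) (nat_lit 42) (nat_lit 5) (nat_lit 283) (nat_lit 238) (nat_lit 199)) (XT.nd (nat_lit 78) (nat_lit 76) (nat_lit 0) (XT.lf (nat_lit 0) (nat_lit 3662725998) (nat_lit 228) (nat_lit 11578299220) (nat_lit 304) (nat_lit 1011129371) (nat_lit 36) (nat_lit 5) (nat_lit 39) (nat_lit 5) (nat_lit 40) (nat_lit 5) (nat_lit 284) (nat_lit 238) (nat_lit 198)) (XT.lf (nat_lit 0) (nat_lit 3581019481) (nat_lit 304) (nat_lit 2118543051) (nat_lit 76) (nat_lit 11147402176) (nat_lit 35) (nat_lit 5) (nat_lit 39) (nat_lit 5) (nat_lit 36) (nat_lit 5) (nat_lit 285) (nat_lit 238) (nat_lit 197))))) (XT.nd (nat_lit 234) (nat_lit 304) (nat_lit 0) (XT.nd (nat_lit 78) (nat_lit 228) (nat_lit 0) (XT.lf (nat_lit 0) (nat_lit 8399899175) (nat_lit 228) (nat_lit 8550068166) (nat_lit 76) (nat_lit 520792056) (nat_lit 33) (nat_lit 5) (nat_lit 36) (nat_lit 5) (nat_lit 34) (nat_lit 5) (nat_lit 286) (nat_lit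 238) (nat_lit 196)) (XT.nd (nat_lit 78) (nat_lit 76) (nat_lit 0) (XT.lf (nat_lit 0) (nat_lit 2305861919) (nat_lit 152) (nat_lit 11184542399) (nat_lit 228) (nat_lit 4634500443) (nat_lit 31) (nat_lit 5) (nat_lit 33) (nat_lit 5) (nat_lit 34) (nat_lit 5) (nat_lit 287) (nat_lit 238) (nat_lit 195)) (XT.lf (nat_lit 0) (nat_lit 42643098) (nat_lit 228) (nat_lit 5037649916) (nat_lit 76) (nat_lit 13730949970) (nat_lit 30) (nat_lit 5) (nat_lit 33) (nat_lit 5) (nat_lit 31) (nat_lit 5) (nat_lit 288) (nat_lit 238) (nat_lit 194)))) (XT.nd (nat_lit 78) (nat_lit 152) (nat_lit 0) (XT.lf (nat_lit 0) (nat_lit 4866096326) (nat_lit 228) (nat_lit 13291581270) (nat_lit 76) (nat_lit 1372666573) (nat_lit 28) (nat_lit 5) (nat_lit 31) (nat_lit 5) (nat_lit 29) (nat_lit 5) (nat_lit 289) (nat_lit 238) (nat_lit 193)) (XT.nd (nat_lit 78) (nat_lit 152) (nat_lit 0) (XT.lf (nat_lit 0) (nat_lit 9970015447) (nat_lit 228) (nat_lit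 2255385563) (nat_lit 76) (nat_lit 8058888862) (nat_lit 28) (nat_lit 5) (nat_lit 31) (nat_lit 5) (nat_lit 29) (nat_lit 5) (nat_lit 290) (nat_lit 238) (nat_lit 192)) (XT.lf (nat_lit 0) (nat_lit 9417319815) (nat_lit 152) (nat_lit 5941045267) (nat_lit 228) (nat_lit 5716755746) (nat_lit 26) (nat_lit 5) (nat_lit 28) (nat_lit 5) (nat_lit 29) (nat_lit 5) (nat_lit 291) (nat_lit 238) (nat_lit 191)))))) (XT.nd (nat_lit 390) (nat_lit 380) (nat_lit 0) (XT.nd (nat_lit 156) (nat_lit 152) (nat_lit 0) (XT.nd (nat_lit 78) (nat_lit 228) (nat_lit 0) (XT.lf (nat_lit 0) (nat_lit 20986247980) (nat_lit 228) (nat_lit 288267932) (nat_lit 76) (nat_lit 631935855) (nat_lit 26) (nat_lit 5) (nat_lit 29) (nat_lit 5) (nat_lit 27) (nat_lit 4) (nat_lit 292) (nat_lit 238) (nat_lit 190)) (XT.lf (nat_lit 0) (nat_lit 4152809769) (nat_lit 228) (nat_lit 11091120538) (nat_lit 76) (nat_lit 7530780512) (nat_lit 23) (nat_lit 5) (nat_lit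 26) (nat_lit 5) (nat_lit 24) (nat_lit 5) (nat_lit 293) (nat_lit 238) (nat_lit 189))) (XT.nd (nat_lit 78) (nat_lit 0) (nat_lit 0) (XT.lf (nat_lit 0) (nat_lit 482313872) (nat_lit 152) (nat_lit 8930364700) (nat_lit 228) (nat_lit 14274918370) (nat_lit 21) (nat_lit 5) (nat_lit 23) (nat_lit 5) (nat_lit 24) (nat_lit 5) (nat_lit 294) (nat_lit 238) (nat_lit 188)) (XT.nd (nat_lit 78) (nat_lit 0) (nat_lit 0) (XT.lf (nat_lit 0) (nat_lit 12777263981) (nat_lit 152) (nat_lit 2218667440) (nat_lit 228) (nat_lit 9648436153) (nat_lit 21) (nat_lit 5) (nat_lit 23) (nat_lit 5) (nat_lit 24) (nat_lit 5) (nat_lit 295) (nat_lit 238) (nat_lit 187)) (XT.lf (nat_lit 0) (nat_lit 20853219149) (nat_lit 228) (nat_lit 94388253) (nat_lit 76) (nat_lit 4701572618) (nat_lit 21) (nat_lit 5) (nat_lit 24) (nat_lit 5) (nat_lit 22) (nat_lit 4) (nat_lit 296) (nat_lit 238) (nat_lit 186))))) (XT.nd (nat_lit 234) (nat_lit 76) (nat_lit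 0) (XT.nd (nat_lit 78) (nat_lit 152) (nat_lit 0) (XT.lf (nat_lit 0) (nat_lit 386717876) (nat_lit 152) (nat_lit 14300528446) (nat_lit 76) (nat_lit 12014143717) (nat_lit 19) (nat_lit 5) (nat_lit 21) (nat_lit 5) (nat_lit 20) (nat_lit 5) (nat_lit 297) (nat_lit 238) (nat_lit 185)) (XT.nd (nat_lit 78) (nat_lit 152) (nat_lit 0) (XT.lf (nat_lit 0) (nat_lit 5683215880) (nat_lit 152) (nat_lit 2412268568) (nat_lit 76) (nat_lit 19710728918) (nat_lit 19) (nat_lit 5) (nat_lit 21) (nat_lit 5) (nat_lit 20) (nat_lit 5) (nat_lit 298) (nat_lit 238) (nat_lit 184)) (XT.lf (nat_lit 0) (nat_lit 10192615987) (nat_lit 152) (nat_lit 1104157456) (nat_lit 228) (nat_lit 17667978849) (nat_lit 17) (nat_lit 5) (nat_lit 19) (nat_lit 5) (nat_lit 20) (nat_lit 5) (nat_lit 299) (nat_lit 238) (nat_lit 183)))) (XT.nd (nat_lit 78) (nat_lit 76) (nat_lit 0) (XT.lf (nat_lit 0) (nat_lit 17231467148) (nat_lit 228) (nat_lit 6838078739)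 (nat_lit 76) (nat_lit 6110498028) (nat_lit 17) (nat_lit 5) (nat_lit 20) (nat_lit 5) (nat_lit 18) (nat_lit 4) (nat_lit 300) (nat_lit 238) (nat_lit 182)) (XT.nd (nat_lit 78) (nat_lit 0) (nat_lit 0) (XT.lf (nat_lit 0) (nat_lit 5721214445) (nat_lit 76) (nat_lit 17765372769) (nat_lit 152) (nat_lit 7968839770) (nat_lit 16) (nat_lit 5) (nat_lit 17) (nat_lit 5) (nat_lit 18) (nat_lit 4) (nat_lit 301) (nat_lit 238) (nat_lit 181)) (XT.lf (nat_lit 0) (nat_lit 18981466631) (nat_lit 76) (nat_lit 11102289406) (nat_lit 152) (nat_lit 2709980213) (nat_lit 16) (nat_lit 5) (nat_lit 17) (nat_lit 5) (nat_lit 18) (nat_lit 4) (nat_lit 302) (nat_lit 238) (nat_lit 180))))))))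
noncomputable def xc47 : XT := (XT.nd (nat_lit 1716) (nat_lit 76) (nat_lit 0) (XT.nd (nat_lit 858) (nat_lit 228) (nat_lit 0) (XT.nd (nat_lit 390) (nat_lit 228) (nat_lit 0) (XT.nd (nat_lit 156) (nat_lit 76) (nat_lit 0) (XT.nd (nat_lit 78) (nat_lit 152) (nat_lit 0) (XT.lf (nat_lit 0) (nat_lit 2717390412) (nat_lit 152) (nat_lit 1388651774) (nat_lit 76) (nat_lit 30093327945) (nat_lit 15) (nat_lit 5) (nat_lit 17) (nat_lit 5) (nat_lit 16) (nat_lit 5) (nat_lit 303) (nat_lit 238) (nat_lit 179)) (XT.lf (nat_lit 0) (nat_lit 8468587010) (nat_lit 228) (nat_lit 23909740485) (nat_lit 76) (nat_lit 3292929695) (nat_lit 13) (nat_lit 5) (nat_lit 16) (nat_lit 5) (nat_lit 14) (nat_lit 4) (nat_lit 304) (nat_lit 238) (nat_lit 178))) (XT.nd (nat_lit 78) (nat_lit 76) (nat_lit 0) (XT.lf (nat_lit 0) (nat_lit 14526490399) (nat_lit 228) (nat_lit 11722902446) (nat_lit 76) (nat_lit 10966801393) (nat_lit 13) (nat_lit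 5) (nat_lit 16) (nat_lit 5) (nat_lit 14) (nat_lit 4) (nat_lit 305) (nat_lit 238) (nat_lit 177)) (XT.nd (nat_lit 78) (nat_lit 0) (nat_lit 0) (XT.lf (nat_lit 0) (nat_lit 1033229789) (nat_lit 76) (nat_lit 19829007590) (nat_lit 152) (nat_lit 17976920922) (nat_lit 12) (nat_lit 5) (nat_lit 13) (nat_lit 5) (nat_lit 14) (nat_lit 4) (nat_lit 306) (nat_lit 238) (nat_lit 176)) (XT.lf (nat_lit 0) (nat_lit 14613658979) (nat_lit 76) (nat_lit 12987909756) (nat_lit 152) (nat_lit 12939125175) (nat_lit 12) (nat_lit 5) (nat_lit 13) (nat_lit 5) (nat_lit 14) (nat_lit 4) (nat_lit 307) (nat_lit 238) (nat_lit 175))))) (XT.nd (nat_lit 234) (nat_lit 76) (nat_lit 0) (XT.nd (nat_lit 78) (nat_lit 152) (nat_lit 0) (XT.lf (nat_lit 0) (nat_lit 28817410732) (nat_lit 76) (nat_lit 5828189343) (nat_lit 152) (nat_lit 7682700175) (nat_lit 12) (nat_lit 5) (nat_lit 13) (nat_lit 5) (nat_lit 14) (nat_lit 4) (nat_lit 308) (nat_lit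 238) (nat_lit 174)) (XT.nd (nat_lit 78) (nat_lit 152) (nat_lit 0) (XT.lf (nat_lit 0) (nat_lit 42027129057) (nat_lit 152) (nat_lit 543956176) (nat_lit 0) (nat_lit 1634667512) (nat_lit 12) (nat_lit 5) (nat_lit 14) (nat_lit 4) (nat_lit 12) (nat_lit 4) (nat_lit 309) (nat_lit 238) (nat_lit 173)) (XT.lf (nat_lit 0) (nat_lit 3688346190) (nat_lit 152) (nat_lit 32989333267) (nat_lit 76) (nat_lit 9493644372) (nat_lit 10) (nat_lit 5) (nat_lit 12) (nat_lit 5) (nat_lit 11) (nat_lit 4) (nat_lit 310) (nat_lit 238) (nat_lit 172)))) (XT.nd (nat_lit 78) (nat_lit 76) (nat_lit 0) (XT.lf (nat_lit 0) (nat_lit 9780830616) (nat_lit 152) (nat_lit 20701794158) (nat_lit 76) (nat_lit 17752606645) (nat_lit 10) (nat_lit 5) (nat_lit 12) (nat_lit 5) (nat_lit 11) (nat_lit 4) (nat_lit 311) (nat_lit 238) (nat_lit 171)) (XT.nd (nat_lit 78) (nat_lit 76) (nat_lit 0) (XT.lf (nat_lit 0) (nat_lit 16150462594) (nat_lit 152) (nat_lit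 7847826265) (nat_lit 76) (nat_lit 26404890559) (nat_lit 10) (nat_lit 5) (nat_lit 12) (nat_lit 5) (nat_lit 11) (nat_lit 4) (nat_lit 312) (nat_lit 238) (nat_lit 170)) (XT.lf (nat_lit 0) (nat_lit 5714689265) (nat_lit 76) (nat_lit 17152651739) (nat_lit 152) (nat_lit 29811340614) (nat_lit 9) (nat_lit 5) (nat_lit 10) (nat_lit 5) (nat_lit 11) (nat_lit 4) (nat_lit 313) (nat_lit 238) (nat_lit 169)))))) (XT.nd (nat_lit 390) (nat_lit 152) (nat_lit 0) (XT.nd (nat_lit 156) (nat_lit 76) (nat_lit 0) (XT.nd (nat_lit 78) (nat_lit 0) (nat_lit 0) (XT.lf (nat_lit 0) (nat_lit 20074971110) (nat_lit 76) (nat_lit 9900530147) (nat_lit 152) (nat_lit 25090813336) (nat_lit 9) (nat_lit 5) (nat_lit 10) (nat_lit 5) (nat_lit 11) (nat_lit 4) (nat_lit 314) (nat_lit 238) (nat_lit 168)) (XT.lf (nat_lit 0) (nat_lit 35111023284) (nat_lit 76) (nat_lit 2303904785) (nat_lit 152) (nat_lit 20159143299) (nat_lit 9) (nat_lit 5) (nat_lit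 10) (nat_lit 5) (nat_lit 11) (nat_lit 4) (nat_lit 315) (nat_lit 238) (nat_lit 167))) (XT.nd (nat_lit 78) (nat_lit 76) (nat_lit 0) (XT.lf (nat_lit 0) (nat_lit 45257696679) (nat_lit 152) (nat_lit 9403639197) (nat_lit 0) (nat_lit 5544956050) (nat_lit 9) (nat_lit 5) (nat_lit 11) (nat_lit 4) (nat_lit 9) (nat_lit 4) (nat_lit 316) (nat_lit 238) (nat_lit 166)) (XT.nd (nat_lit 78) (nat_lit 0) (nat_lit 0) (XT.lf (nat_lit 0) (nat_lit 4331171360) (nat_lit 76) (nat_lit 49204265253) (nat_lit 76) (nat_lit 9433418154) (nat_lit 8) (nat_lit 4) (nat_lit 9) (nat_lit 5) (nat_lit 9) (nat_lit 4) (nat_lit 317) (nat_lit 238) (nat_lit 165)) (XT.lf (nat_lit 0) (nat_lit 18911512290) (nat_lit 76) (nat_lit 43390986238) (nat_lit 76) (nat_lit 3564799643) (nat_lit 8) (nat_lit 4) (nat_lit 9) (nat_lit 5) (nat_lit 9) (nat_lit 4) (nat_lit 318) (nat_lit 238) (nat_lit 164))))) (XT.nd (nat_lit 234) (nat_lit 76) (nat_lit 0) (XT.nd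 (nat_lit 78) (nat_lit 0) (nat_lit 0) (XT.lf (nat_lit 0) (nat_lit 2526002467) (nat_lit 152) (nat_lit 34751105868) (nat_lit 76) (nat_lit 31633437692) (nat_lit 7) (nat_lit 5) (nat_lit 9) (nat_lit 5) (nat_lit 8) (nat_lit 4) (nat_lit 319) (nat_lit 238) (nat_lit 163)) (XT.nd (nat_lit 78) (nat_lit 0) (nat_lit 0) (XT.lf (nat_lit 0) (nat_lit 8828718186) (nat_lit 152) (nat_lit 22006787513) (nat_lit 76) (nat_lit 41269972378) (nat_lit 7) (nat_lit 5) (nat_lit 9) (nat_lit 5) (nat_lit 8) (nat_lit 4) (nat_lit 320) (nat_lit 238) (nat_lit 162)) (XT.lf (nat_lit 0) (nat_lit 15427916060) (nat_lit 152) (nat_lit 8658220166) (nat_lit 76) (nat_lit 51374593086) (nat_lit 7) (nat_lit 5) (nat_lit 9) (nat_lit 5) (nat_lit 8) (nat_lit 4) (nat_lit 321) (nat_lit 238) (nat_lit 161)))) (XT.nd (nat_lit 78) (nat_lit 0) (nat_lit 0) (XT.lf (nat_lit 0) (nat_lit 5432383851) (nat_lit 76) (nat_lit 16959144010) (nat_lit 152) (nat_lit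 56591193982) (nat_lit 6) (nat_lit 5) (nat_lit 7) (nat_lit 5) (nat_lit 8) (nat_lit 4) (nat_lit 322) (nat_lit 238) (nat_lit 160)) (XT.nd (nat_lit 78) (nat_lit 0) (nat_lit 0) (XT.lf (nat_lit 0) (nat_lit 20377952324) (nat_lit 76) (nat_lit 9397284117) (nat_lit 152) (nat_lit 52903431845) (nat_lit 6) (nat_lit 5) (nat_lit 7) (nat_lit 5) (nat_lit 8) (nat_lit 4) (nat_lit 323) (nat_lit 238) (nat_lit 159)) (XT.lf (nat_lit 0) (nat_lit 36041754381) (nat_lit 76) (nat_lit 1469983163) (nat_lit 152) (nat_lit 49048177499) (nat_lit 6) (nat_lit 5) (nat_lit 7) (nat_lit 5) (nat_lit 8) (nat_lit 4) (nat_lit 324) (nat_lit 238) (nat_lit 158))))))) (XT.nd (nat_lit 31356) (nat_lit 0) (nat_lit 12540) (XT.nd (nat_lit 390) (nat_lit 0) (nat_lit 0) (XT.nd (nat_lit 156) (nat_lit 76) (nat_lit 0) (XT.nd (nat_lit 78) (nat_lit 0) (nat_lit 0) (XT.lf (nat_lit 0) (nat_lit 45685217380) (nat_lit 152) (nat_lit 38240384359) (nat_lit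 0) (nat_lit 6708128465) (nat_lit 6) (nat_lit 5) (nat_lit 8) (nat_lit 4) (nat_lit 6) (nat_lit 4) (nat_lit 325) (nat_lit 238) (nat_lit 157)) (XT.lf (nat_lit 0) (nat_lit 54267228944) (nat_lit 152) (nat_lit 25390246581) (nat_lit 0) (nat_lit 15253775030) (nat_lit 6) (nat_lit 5) (nat_lit 8) (nat_lit 4) (nat_lit 6) (nat_lit 4) (nat_lit 326) (nat_lit 238) (nat_lit 156))) (XT.nd (nat_lit 78) (nat_lit 76) (nat_lit 0) (XT.lf (nat_lit 0) (nat_lit 63264075220) (nat_lit 152) (nat_lit 11923021387) (nat_lit 0) (nat_lit 24215987974) (nat_lit 6) (nat_lit 5) (nat_lit 8) (nat_lit 4) (nat_lit 6) (nat_lit 4) (nat_lit 327) (nat_lit 238) (nat_lit 155)) (XT.nd (nat_lit 78) (nat_lit 0) (nat_lit 0) (XT.lf (nat_lit 0) (nat_lit 2237008131) (nat_lit 76) (nat_lit 70481672632) (nat_lit 76) (nat_lit 31400601259) (nat_lit 5) (nat_lit 4) (nat_lit 6) (nat_lit 5) (nat_lit 6) (nat_lit 4) (nat_lit 328) (nat_lit 238) (nat_lit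 154)) (XT.lf (nat_lit 0) (nat_lit 17330680131) (nat_lit 76) (nat_lit 65424907834) (nat_lit 76) (nat_lit 26312423008) (nat_lit 5) (nat_lit 4) (nat_lit 6) (nat_lit 5) (nat_lit 6) (nat_lit 4) (nat_lit 329) (nat_lit 238) (nat_lit 153))))) (XT.nd (nat_lit 30732) (nat_lit 0) (nat_lit 19532) (XT.nd (nat_lit 78) (nat_lit 0) (nat_lit 0) (XT.lf (nat_lit 0) (nat_lit 33156640423) (nat_lit 76) (nat_lit 60125161437) (nat_lit 76) (nat_lit 20982759036) (nat_lit 5) (nat_lit 4) (nat_lit 6) (nat_lit 5) (nat_lit 6) (nat_lit 4) (nat_lit 330) (nat_lit 238) (nat_lit 152)) (XT.nd (nat_lit 30576) (nat_lit 0) (nat_lit 20064) (XT.lf (nat_lit 0) (nat_lit 49752569863) (nat_lit 76) (nat_lit 54569814997) (nat_lit 76) (nat_lit 15398919667) (nat_lit 5) (nat_lit 4) (nat_lit 6) (nat_lit 5) (nat_lit 6) (nat_lit 4) (nat_lit 331) (nat_lit 238) (nat_lit 151)) (XT.lf (nat_lit 0) (nat_lit 1625951295) (nat_lit 76) (nat_lit 800599139)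 (nat_lit 76) (nat_lit 800599139) (nat_lit 269) (nat_lit 4) (nat_lit 270) (nat_lit 5) (nat_lit 270) (nat_lit 4) (nat_lit 242) (nat_lit 239) (nat_lit 239)))) (XT.nd (nat_lit 78) (nat_lit 304) (nat_lit 0) (XT.lf (nat_lit 0) (nat_lit 1863869199) (nat_lit 152) (nat_lit 1165242790) (nat_lit 228) (nat_lit 3441832552) (nat_lit 266) (nat_lit 5) (nat_lit 268) (nat_lit 5) (nat_lit 269) (nat_lit 4) (nat_lit 243) (nat_lit 239) (nat_lit 238)) (XT.nd (nat_lit 78) (nat_lit 0) (nat_lit 0) (XT.lf (nat_lit 0) (nat_lit 572969191) (nat_lit 228) (nat_lit 517955964) (nat_lit 304) (nat_lit 5405268374) (nat_lit 262) (nat_lit 5) (nat_lit 265) (nat_lit 5) (nat_lit 266) (nat_lit 5) (nat_lit 244) (nat_lit 239) (nat_lit 237)) (XT.lf (nat_lit 0) (nat_lit 5551420225) (nat_lit 304) (nat_lit 626952907) (nat_lit 76) (nat_lit 351165225) (nat_lit 262) (nat_lit 5) (nat_lit 266) (nat_lit 5) (nat_lit 263) (nat_lit 4) (nat_lit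 245) (nat_lit 239) (nat_lit 236)))))) (XT.nd (nat_lit 390) (nat_lit 4408) (nat_lit 0) (XT.nd (nat_lit 156) (nat_lit 1748) (nat_lit 0) (XT.nd (nat_lit 78) (nat_lit 456) (nat_lit 0) (XT.lf (nat_lit 0) (nat_lit 3383001169) (nat_lit 380) (nat_lit 1750193041) (nat_lit 76) (nat_lit 1437717727) (nat_lit 257) (nat_lit 5) (nat_lit 262) (nat_lit 5) (nat_lit 258) (nat_lit 5) (nat_lit 246) (nat_lit 239) (nat_lit 235)) (XT.lf (nat_lit 0) (nat_lit 1085544834) (nat_lit 456) (nat_lit 2797343006) (nat_lit 76) (nat_lit 2738161336) (nat_lit 251) (nat_lit 5) (nat_lit 257) (nat_lit 5) (nat_lit 252) (nat_lit 5) (nat_lit 247) (nat_lit 239) (nat_lit 234))) (XT.nd (nat_lit 78) (nat_lit 1292) (nat_lit 0) (XT.lf (nat_lit 0) (nat_lit 2892948797) (nat_lit 456) (nat_lit 2410783500) (nat_lit 532) (nat_lit 1375938310) (nat_lit 245) (nat_lit 5) (nat_lit 251) (nat_lit 5) (nat_lit 252) (nat_lit 5) (nat_lit 248) (nat_lit 239)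 (nat_lit 233)) (XT.nd (nat_lit 78) (nat_lit 684) (nat_lit 0) (XT.lf (nat_lit 0) (nat_lit 2024751331) (nat_lit 532) (nat_lit 714538520) (nat_lit 608) (nat_lit 4007659808) (nat_lit 237) (nat_lit 5) (nat_lit 244) (nat_lit 5) (nat_lit 245) (nat_lit 5) (nat_lit 249) (nat_lit 239) (nat_lit 232)) (XT.lf (nat_lit 0) (nat_lit 37688471) (nat_lit 684) (nat_lit 5609729568) (nat_lit 76) (nat_lit 1175599876) (nat_lit 228) (nat_lit 5) (nat_lit 237) (nat_lit 5) (nat_lit 229) (nat_lit 5) (nat_lit 250) (nat_lit 239) (nat_lit 231))))) (XT.nd (nat_lit 234) (nat_lit 2888) (nat_lit 0) (XT.nd (nat_lit 78) (nat_lit 836) (nat_lit 0) (XT.lf (nat_lit 0) (nat_lit 427860516) (nat_lit 684) (nat_lit 3610361738) (nat_lit 760) (nat_lit 2869081886) (nat_lit 219) (nat_lit 5) (nat_lit 228) (nat_lit 5) (nat_lit 229) (nat_lit 5) (nat_lit 251) (nat_lit 239) (nat_lit 230)) (XT.nd (nat_lit 78) (nat_lit 760) (nat_lit 0) (XT.lf (nat_lit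 0) (nat_lit 1057978928) (nat_lit 760) (nat_lit 297145679) (nat_lit 76) (nat_lit 5645771805) (nat_lit 218) (nat_lit 5) (nat_lit 228) (nat_lit 5) (nat_lit 219) (nat_lit 5) (nat_lit 252) (nat_lit 239) (nat_lit 229)) (XT.lf (nat_lit 0) (nat_lit 4983792741) (nat_lit 836) (nat_lit 996480206) (nat_lit 76) (nat_lit 1122789000) (nat_lit 208) (nat_lit 5) (nat_lit 219) (nat_lit 5) (nat_lit 209) (nat_lit 5) (nat_lit 253) (nat_lit 239) (nat_lit 228)))) (XT.nd (nat_lit 78) (nat_lit 1976) (nat_lit 0) (XT.lf (nat_lit 0) (nat_lit 1726980675) (nat_lit 912) (nat_lit 1679569321) (nat_lit 76) (nat_lit 3807739770) (nat_lit 196) (nat_lit 5) (nat_lit 208) (nat_lit 5) (nat_lit 197) (nat_lit 5) (nat_lit 254) (nat_lit 239) (nat_lit 227)) (XT.nd (nat_lit 78) (nat_lit 1064) (nat_lit 0) (XT.lf (nat_lit 0) (nat_lit 4989924199) (nat_lit 912) (nat_lit 596144926) (nat_lit 988) (nat_lit 1748976263) (nat_lit 184) (nat_lit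 5) (nat_lit 196) (nat_lit 5) (nat_lit 197) (nat_lit 5) (nat_lit 255) (nat_lit 239) (nat_lit 226)) (XT.lf (nat_lit 0) (nat_lit 2028794530) (nat_lit 1064) (nat_lit 3024405697) (nat_lit 76) (nat_lit 2411648214) (nat_lit 170) (nat_lit 5) (nat_lit 184) (nat_lit 5) (nat_lit 171) (nat_lit 5) (nat_lit 256) (nat_lit 239) (nat_lit 225))))))))
noncomputable def xc48 : XT := (XT.nd (nat_lit 1638) (nat_lit 2736) (nat_lit 0) (XT.nd (nat_lit 780) (nat_lit 3192) (nat_lit 0) (XT.nd (nat_lit 390) (nat_lit 1976) (nat_lit 0) (XT.nd (nat_lit 156) (nat_lit 1596) (nat_lit 0) (XT.nd (nat_lit 78) (nat_lit 912) (nat_lit 0) (XT.lf (nat_lit 0) (nat_lit 3896821067) (nat_lit 1064) (nat_lit 1949230357) (nat_lit 1140) (nat_lit 1758431359) (nat_lit 156) (nat_lit 5) (nat_lit 170) (nat_lit 5) (nat_lit 171) (nat_lit 5) (nat_lit 257) (nat_lit 239) (nat_lit 224)) (XT.lf (nat_lit 0) (nat_lit 1962693473) (nat_lit 912) (nat_lit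 4414019394) (nat_lit 76) (nat_lit 1377188464) (nat_lit 144) (nat_lit 5) (nat_lit 156) (nat_lit 5) (nat_lit 145) (nat_lit 5) (nat_lit 258) (nat_lit 239) (nat_lit 223))) (XT.nd (nat_lit 78) (nat_lit 1064) (nat_lit 0) (XT.lf (nat_lit 0) (nat_lit 2754575473) (nat_lit 532) (nat_lit 2994339667) (nat_lit 608) (nat_lit 2164299474) (nat_lit 137) (nat_lit 5) (nat_lit 144) (nat_lit 5) (nat_lit 145) (nat_lit 5) (nat_lit 259) (nat_lit 239) (nat_lit 222)) (XT.nd (nat_lit 78) (nat_lit 456) (nat_lit 0) (XT.lf (nat_lit 0) (nat_lit 1519475816) (nat_lit 608) (nat_lit 5936867411) (nat_lit 76) (nat_lit 626825795) (nat_lit 129) (nat_lit 5) (nat_lit 137) (nat_lit 5) (nat_lit 130) (nat_lit 5) (nat_lit 260) (nat_lit 239) (nat_lit 221)) (XT.lf (nat_lit 0) (nat_lit 1472293619) (nat_lit 456) (nat_lit 3809936545) (nat_lit 532) (nat_lit 2980921178) (nat_lit 123) (nat_lit 5) (nat_lit 129) (nat_lit 5) (nat_lit 130) (nat_lit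 5) (nat_lit 261) (nat_lit 239) (nat_lit 220))))) (XT.nd (nat_lit 156) (nat_lit 1368) (nat_lit 0) (XT.nd (nat_lit 78) (nat_lit 0) (nat_lit 0) (XT.lf (nat_lit 0) (nat_lit 680931549) (nat_lit 608) (nat_lit 7689823234) (nat_lit 76) (nat_lit 84029807) (nat_lit 115) (nat_lit 5) (nat_lit 123) (nat_lit 5) (nat_lit 116) (nat_lit 5) (nat_lit 262) (nat_lit 239) (nat_lit 219)) (XT.lf (nat_lit 0) (nat_lit 4424815731) (nat_lit 608) (nat_lit 49234314) (nat_lit 76) (nat_lit 4182563028) (nat_lit 115) (nat_lit 5) (nat_lit 123) (nat_lit 5) (nat_lit 116) (nat_lit 5) (nat_lit 263) (nat_lit 239) (nat_lit 218))) (XT.nd (nat_lit 78) (nat_lit 912) (nat_lit 0) (XT.lf (nat_lit 0) (nat_lit 7970266540) (nat_lit 456) (nat_lit 320302768) (nat_lit 532) (nat_lit 580224999) (nat_lit 109) (nat_lit 5) (nat_lit 115) (nat_lit 5) (nat_lit 116) (nat_lit 5) (nat_lit 264) (nat_lit 239) (nat_lit 217)) (XT.nd (nat_lit 78) (nat_lit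 380) (nat_lit 0) (XT.lf (nat_lit 0) (nat_lit 3161997852) (nat_lit 532) (nat_lit 1887592348) (nat_lit 76) (nat_lit 4046287864) (nat_lit 102) (nat_lit 5) (nat_lit 109) (nat_lit 5) (nat_lit 103) (nat_lit 5) (nat_lit 265) (nat_lit 239) (nat_lit 216)) (XT.lf (nat_lit 0) (nat_lit 6367798315) (nat_lit 380) (nat_lit 652085773) (nat_lit 456) (nat_lit 2314208585) (nat_lit 97) (nat_lit 5) (nat_lit 102) (nat_lit 5) (nat_lit 103) (nat_lit 5) (nat_lit 266) (nat_lit 239) (nat_lit 215)))))) (XT.nd (nat_lit 390) (nat_lit 1596) (nat_lit 0) (XT.nd (nat_lit 156) (nat_lit 760) (nat_lit 0) (XT.nd (nat_lit 78) (nat_lit 380) (nat_lit 0) (XT.lf (nat_lit 0) (nat_lit 1437973772) (nat_lit 456) (nat_lit 4196339282) (nat_lit 76) (nat_lit 3950305872) (nat_lit 91) (nat_lit 5) (nat_lit 97) (nat_lit 5) (nat_lit 92) (nat_lit 5) (nat_lit 267) (nat_lit 239) (nat_lit 214)) (XT.lf (nat_lit 0) (nat_lit 4274641124) (nat_lit 380)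 (nat_lit 1008718851) (nat_lit 456) (nat_lit 4565254313) (nat_lit 86) (nat_lit 5) (nat_lit 91) (nat_lit 5) (nat_lit 92) (nat_lit 5) (nat_lit 268) (nat_lit 239) (nat_lit 213))) (XT.nd (nat_lit 78) (nat_lit 380) (nat_lit 0) (XT.lf (nat_lit 0) (nat_lit 2999976587) (nat_lit 380) (nat_lit 6309250656) (nat_lit 456) (nat_lit 817158554) (nat_lit 81) (nat_lit 5) (nat_lit 86) (nat_lit 5) (nat_lit 87) (nat_lit 5) (nat_lit 269) (nat_lit 239) (nat_lit 212)) (XT.nd (nat_lit 78) (nat_lit 0) (nat_lit 0) (XT.lf (nat_lit 0) (nat_lit 1540460849) (nat_lit 304) (nat_lit 1481700234) (nat_lit 380) (nat_lit 7396251410) (nat_lit 76) (nat_lit 5) (nat_lit 80) (nat_lit 5) (nat_lit 81) (nat_lit 5) (nat_lit 270) (nat_lit 239) (nat_lit 211)) (XT.lf (nat_lit 0) (nat_lit 7030901713) (nat_lit 380) (nat_lit 127305253) (nat_lit 76) (nat_lit 3566956324) (nat_lit 76) (nat_lit 5) (nat_lit 81) (nat_lit 5) (nat_lit 77) (nat_lit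 5) (nat_lit 271) (nat_lit 239) (nat_lit 210))))) (XT.nd (nat_lit 234) (nat_lit 608) (nat_lit 0) (XT.nd (nat_lit 78) (nat_lit 608) (nat_lit 0) (XT.lf (nat_lit 0) (nat_lit 182125197) (nat_lit 380) (nat_lit 1969762029) (nat_lit 76) (nat_lit 8895698348) (nat_lit 71) (nat_lit 5) (nat_lit 76) (nat_lit 5) (nat_lit 72) (nat_lit 5) (nat_lit 272) (nat_lit 239) (nat_lit 209)) (XT.nd (nat_lit 78) (nat_lit 304) (nat_lit 0) (XT.lf (nat_lit 0) (nat_lit 4172655311) (nat_lit 380) (nat_lit 4093021153) (nat_lit 76) (nat_lit 3119626116) (nat_lit 67) (nat_lit 5) (nat_lit 72) (nat_lit 5) (nat_lit 68) (nat_lit 5) (nat_lit 273) (nat_lit 239) (nat_lit 208)) (XT.lf (nat_lit 0) (nat_lit 5259549941) (nat_lit 304) (nat_lit 3093028171) (nat_lit 380) (nat_lit 3387795837) (nat_lit 63) (nat_lit 5) (nat_lit 67) (nat_lit 5) (nat_lit 68) (nat_lit 5) (nat_lit 274) (nat_lit 239) (nat_lit 207)))) (XT.nd (nat_lit 78) (nat_lit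 304) (nat_lit 0) (XT.lf (nat_lit 0) (nat_lit 609537522) (nat_lit 304) (nat_lit 9170732946) (nat_lit 76) (nat_lit 2333094342) (nat_lit 59) (nat_lit 5) (nat_lit 63) (nat_lit 5) (nat_lit 60) (nat_lit 5) (nat_lit 275) (nat_lit 239) (nat_lit 206)) (XT.nd (nat_lit 78) (nat_lit 0) (nat_lit 0) (XT.lf (nat_lit 0) (nat_lit 271615450) (nat_lit 304) (nat_lit 4469602133) (nat_lit 380) (nat_lit 7762789870) (nat_lit 55) (nat_lit 5) (nat_lit 59) (nat_lit 5) (nat_lit 60) (nat_lit 5) (nat_lit 276) (nat_lit 239) (nat_lit 205)) (XT.lf (nat_lit 0) (nat_lit 9091120396) (nat_lit 380) (nat_lit 2681140399) (nat_lit 76) (nat_lit 1141710231) (nat_lit 55) (nat_lit 5) (nat_lit 60) (nat_lit 5) (nat_lit 56) (nat_lit 5) (nat_lit 277) (nat_lit 239) (nat_lit 204))))))) (XT.nd (nat_lit 858) (nat_lit 912) (nat_lit 0) (XT.nd (nat_lit 390) (nat_lit 760) (nat_lit 0) (XT.nd (nat_lit 156) (nat_lit 532) (nat_lit 0) (XT.nd (nat_lit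 78) (nat_lit 228) (nat_lit 0) (XT.lf (nat_lit 0) (nat_lit 333672820) (nat_lit 304) (nat_lit 6031215625) (nat_lit 76) (nat_lit 6978809836) (nat_lit 51) (nat_lit 5) (nat_lit 55) (nat_lit 5) (nat_lit 52) (nat_lit 5) (nat_lit 278) (nat_lit 239) (nat_lit 203)) (XT.lf (nat_lit 0) (nat_lit 3978890758) (nat_lit 228) (nat_lit 619167059) (nat_lit 304) (nat_lit 9196467139) (nat_lit 48) (nat_lit 5) (nat_lit 51) (nat_lit 5) (nat_lit 52) (nat_lit 5) (nat_lit 279) (nat_lit 239) (nat_lit 202))) (XT.nd (nat_lit 78) (nat_lit 304) (nat_lit 0) (XT.lf (nat_lit 0) (nat_lit 173998072) (nat_lit 228) (nat_lit 8932931075) (nat_lit 304) (nat_lit 5160141510) (nat_lit 45) (nat_lit 5) (nat_lit 48) (nat_lit 5) (nat_lit 49) (nat_lit 5) (nat_lit 280) (nat_lit 239) (nat_lit 201)) (XT.nd (nat_lit 78) (nat_lit 304) (nat_lit 0) (XT.lf (nat_lit 0) (nat_lit 10739226796) (nat_lit 228) (nat_lit 3126977130) (nat_lit 304) (nat_lit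 896401115) (nat_lit 45) (nat_lit 5) (nat_lit 48) (nat_lit 5) (nat_lit 49) (nat_lit 5) (nat_lit 281) (nat_lit 239) (nat_lit 200)) (XT.lf (nat_lit 0) (nat_lit 3523266681) (nat_lit 304) (nat_lit 8787382874) (nat_lit 76) (nat_lit 2970957655) (nat_lit 41) (nat_lit 5) (nat_lit 45) (nat_lit 5) (nat_lit 42) (nat_lit 5) (nat_lit 282) (nat_lit 239) (nat_lit 199))))) (XT.nd (nat_lit 234) (nat_lit 304) (nat_lit 0) (XT.nd (nat_lit 78) (nat_lit 304) (nat_lit 0) (XT.lf (nat_lit 0) (nat_lit 1670957715) (nat_lit 152) (nat_lit 6487108485) (nat_lit 228) (nat_lit 7667943449) (nat_lit 39) (nat_lit 5) (nat_lit 41) (nat_lit 5) (nat_lit 42) (nat_lit 5) (nat_lit 283) (nat_lit 239) (nat_lit 198)) (XT.nd (nat_lit 78) (nat_lit 304) (nat_lit 0) (XT.lf (nat_lit 0) (nat_lit 12722105809) (nat_lit 152) (nat_lit 318592658) (nat_lit 228) (nat_lit 3356543379) (nat_lit 39) (nat_lit 5) (nat_lit 41) (nat_lit 5) (nat_lit 42) (nat_lit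 5) (nat_lit 284) (nat_lit 239) (nat_lit 197)) (XT.lf (nat_lit 0) (nat_lit 1206280621) (nat_lit 304) (nat_lit 9705315962) (nat_lit 76) (nat_lit 6083426204) (nat_lit 35) (nat_lit 5) (nat_lit 39) (nat_lit 5) (nat_lit 36) (nat_lit 5) (nat_lit 285) (nat_lit 239) (nat_lit 196)))) (XT.nd (nat_lit 78) (nat_lit 152) (nat_lit 0) (XT.lf (nat_lit 0) (nat_lit 1134213321) (nat_lit 152) (nat_lit 4776997167) (nat_lit 228) (nat_lit 11711065181) (nat_lit 33) (nat_lit 5) (nat_lit 35) (nat_lit 5) (nat_lit 36) (nat_lit 5) (nat_lit 286) (nat_lit 239) (nat_lit 195)) (XT.nd (nat_lit 78) (nat_lit 152) (nat_lit 0) (XT.lf (nat_lit 0) (nat_lit 10900629504) (nat_lit 228) (nat_lit 5683454621) (nat_lit 76) (nat_lit 1695407302) (nat_lit 33) (nat_lit 5) (nat_lit 36) (nat_lit 5) (nat_lit 34) (nat_lit 5) (nat_lit 287) (nat_lit 239) (nat_lit 194)) (XT.lf (nat_lit 0) (nat_lit 5620846767) (nat_lit 152) (nat_lit 10556487896)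 (nat_lit 228) (nat_lit 2791172674) (nat_lit 31) (nat_lit 5) (nat_lit 33) (nat_lit 5) (nat_lit 34) (nat_lit 5) (nat_lit 288) (nat_lit 239) (nat_lit 193)))))) (XT.nd (nat_lit 390) (nat_lit 304) (nat_lit 0) (XT.nd (nat_lit 156) (nat_lit 380) (nat_lit 0) (XT.nd (nat_lit 78) (nat_lit 152) (nat_lit 0) (XT.lf (nat_lit 0) (nat_lit 1982452432) (nat_lit 228) (nat_lit 2201544089) (nat_lit 76) (nat_lit 15507579028) (nat_lit 30) (nat_lit 5) (nat_lit 33) (nat_lit 5) (nat_lit 31) (nat_lit 5) (nat_lit 289) (nat_lit 239) (nat_lit 192)) (XT.lf (nat_lit 0) (nat_lit 6994457157) (nat_lit 228) (nat_lit 10909278505) (nat_lit 76) (nat_lit 2544574731) (nat_lit 28) (nat_lit 5) (nat_lit 31) (nat_lit 5) (nat_lit 29) (nat_lit 5) (nat_lit 290) (nat_lit 239) (nat_lit 191))) (XT.nd (nat_lit 78) (nat_lit 228) (nat_lit 0) (XT.lf (nat_lit 0) (nat_lit 544257806) (nat_lit 152) (nat_lit 11724781594) (nat_lit 228) (nat_lit 8973545171)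 (nat_lit 26) (nat_lit 5) (nat_lit 28) (nat_lit 5) (nat_lit 29) (nat_lit 5) (nat_lit 291) (nat_lit 239) (nat_lit 190)) (XT.nd (nat_lit 78) (nat_lit 228) (nat_lit 0) (XT.lf (nat_lit 0) (nat_lit 12706798732) (nat_lit 152) (nat_lit 5156380209) (nat_lit 228) (nat_lit 4211777632) (nat_lit 26) (nat_lit 5) (nat_lit 28) (nat_lit 5) (nat_lit 29) (nat_lit 5) (nat_lit 292) (nat_lit 239) (nat_lit 189)) (XT.lf (nat_lit 0) (nat_lit 758890811) (nat_lit 228) (nat_lit 20485464731) (nat_lit 76) (nat_lit 1704833164) (nat_lit 23) (nat_lit 5) (nat_lit 26) (nat_lit 5) (nat_lit 24) (nat_lit 5) (nat_lit 293) (nat_lit 239) (nat_lit 188))))) (XT.nd (nat_lit 234) (nat_lit 152) (nat_lit 0) (XT.nd (nat_lit 78) (nat_lit 152) (nat_lit 0) (XT.lf (nat_lit 0) (nat_lit 5988304847) (nat_lit 228) (nat_lit 8963974937) (nat_lit 76) (nat_lit 8910734015) (nat_lit 23) (nat_lit 5) (nat_lit 26) (nat_lit 5) (nat_lit 24) (nat_lit 5)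 (nat_lit 294) (nat_lit 239) (nat_lit 187)) (XT.nd (nat_lit 78) (nat_lit 0) (nat_lit 0) (XT.lf (nat_lit 0) (nat_lit 3111260755) (nat_lit 152) (nat_lit 8347428680) (nat_lit 228) (nat_lit 13364505165) (nat_lit 21) (nat_lit 5) (nat_lit 23) (nat_lit 5) (nat_lit 24) (nat_lit 5) (nat_lit 295) (nat_lit 239) (nat_lit 186)) (XT.lf (nat_lit 0) (nat_lit 15896918789) (nat_lit 152) (nat_lit 1349168188) (nat_lit 228) (nat_lit 8584039748) (nat_lit 21) (nat_lit 5) (nat_lit 23) (nat_lit 5) (nat_lit 24) (nat_lit 5) (nat_lit 296) (nat_lit 239) (nat_lit 185)))) (XT.nd (nat_lit 78) (nat_lit 76) (nat_lit 0) (XT.lf (nat_lit 0) (nat_lit 2344573228) (nat_lit 76) (nat_lit 21011733400) (nat_lit 152) (nat_lit 3530140114) (nat_lit 20) (nat_lit 5) (nat_lit 21) (nat_lit 5) (nat_lit 22) (nat_lit 4) (nat_lit 297) (nat_lit 239) (nat_lit 184)) (XT.nd (nat_lit 78) (nat_lit 0) (nat_lit 0) (XT.lf (nat_lit 0) (nat_lit 1812929979)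 (nat_lit 152) (nat_lit 12657086095) (nat_lit 76) (nat_lit 13522961651) (nat_lit 19) (nat_lit 5) (nat_lit 21) (nat_lit 5) (nat_lit 20) (nat_lit 5) (nat_lit 298) (nat_lit 239) (nat_lit 183)) (XT.lf (nat_lit 0) (nat_lit 7307258779) (nat_lit 152) (nat_lit 286721260) (nat_lit 76) (nat_lit 21561132743) (nat_lit 19) (nat_lit 5) (nat_lit 21) (nat_lit 5) (nat_lit 20) (nat_lit 5) (nat_lit 299) (nat_lit 239) (nat_lit 182))))))))
noncomputable def xc49 : XT := (XT.nd (nat_lit 1716) (nat_lit 152) (nat_lit 0) (XT.nd (nat_lit 858) (nat_lit 304) (nat_lit 0) (XT.nd (nat_lit 390) (nat_lit 152) (nat_lit 0) (XT.nd (nat_lit 156) (nat_lit 304) (nat_lit 0) (XT.nd (nat_lit 78) (nat_lit 0) (nat_lit 0) (XT.lf (nat_lit 0) (nat_lit 12884021776) (nat_lit 152) (nat_lit 274641090) (nat_lit 228) (nat_lit 17214258577) (nat_lit 17) (nat_lit 5) (nat_lit 19) (nat_lit 5) (nat_lit 20) (nat_lit 5) (nat_lit 300) (nat_lit 239)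 (nat_lit 181)) (XT.lf (nat_lit 0) (nat_lit 19336426469) (nat_lit 228) (nat_lit 5072040826) (nat_lit 76) (nat_lit 7242175389) (nat_lit 17) (nat_lit 5) (nat_lit 20) (nat_lit 5) (nat_lit 18) (nat_lit 4) (nat_lit 301) (nat_lit 239) (nat_lit 180))) (XT.nd (nat_lit 78) (nat_lit 228) (nat_lit 0) (XT.lf (nat_lit 0) (nat_lit 8054793288) (nat_lit 76) (nat_lit 17809982392) (nat_lit 152) (nat_lit 7126257501) (nat_lit 16) (nat_lit 5) (nat_lit 17) (nat_lit 5) (nat_lit 18) (nat_lit 4) (nat_lit 302) (nat_lit 239) (nat_lit 179)) (XT.nd (nat_lit 78) (nat_lit 228) (nat_lit 0) (XT.lf (nat_lit 0) (nat_lit 21880557220) (nat_lit 76) (nat_lit 10853919100) (nat_lit 152) (nat_lit 1663551359) (nat_lit 16) (nat_lit 5) (nat_lit 17) (nat_lit 5) (nat_lit 18) (nat_lit 4) (nat_lit 303) (nat_lit 239) (nat_lit 178)) (XT.lf (nat_lit 0) (nat_lit 430362344) (nat_lit 152) (nat_lit 3530714680) (nat_lit 228) (nat_lit 31914103006)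 (nat_lit 13) (nat_lit 5) (nat_lit 15) (nat_lit 5) (nat_lit 16) (nat_lit 5) (nat_lit 304) (nat_lit 239) (nat_lit 177))))) (XT.nd (nat_lit 234) (nat_lit 76) (nat_lit 0) (XT.nd (nat_lit 78) (nat_lit 76) (nat_lit 0) (XT.lf (nat_lit 0) (nat_lit 9967975846) (nat_lit 228) (nat_lit 23253410863) (nat_lit 76) (nat_lit 4200274465) (nat_lit 13) (nat_lit 5) (nat_lit 16) (nat_lit 5) (nat_lit 14) (nat_lit 4) (nat_lit 305) (nat_lit 239) (nat_lit 176)) (XT.nd (nat_lit 78) (nat_lit 76) (nat_lit 0) (XT.lf (nat_lit 0) (nat_lit 16277538239) (nat_lit 228) (nat_lit 10545412666) (nat_lit 76) (nat_lit 12222473163) (nat_lit 13) (nat_lit 5) (nat_lit 16) (nat_lit 5) (nat_lit 14) (nat_lit 4) (nat_lit 306) (nat_lit 239) (nat_lit 175)) (XT.lf (nat_lit 0) (nat_lit 2797971940) (nat_lit 76) (nat_lit 20099771459) (nat_lit 152) (nat_lit 17852802725) (nat_lit 12) (nat_lit 5) (nat_lit 13) (nat_lit 5) (nat_lit 14) (nat_lit 4)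 (nat_lit 307) (nat_lit 239) (nat_lit 174)))) (XT.nd (nat_lit 78) (nat_lit 76) (nat_lit 0) (XT.lf (nat_lit 0) (nat_lit 16975847319) (nat_lit 76) (nat_lit 12950937138) (nat_lit 152) (nat_lit 12611829773) (nat_lit 12) (nat_lit 5) (nat_lit 13) (nat_lit 5) (nat_lit 14) (nat_lit 4) (nat_lit 308) (nat_lit 239) (nat_lit 173)) (XT.nd (nat_lit 78) (nat_lit 76) (nat_lit 0) (XT.lf (nat_lit 0) (nat_lit 31812095927) (nat_lit 76) (nat_lit 5465914900) (nat_lit 152) (nat_lit 7138976460) (nat_lit 12) (nat_lit 5) (nat_lit 13) (nat_lit 5) (nat_lit 14) (nat_lit 4) (nat_lit 309) (nat_lit 239) (nat_lit 172)) (XT.lf (nat_lit 0) (nat_lit 947583471) (nat_lit 76) (nat_lit 44053262561) (nat_lit 76) (nat_lit 1388333961) (nat_lit 11) (nat_lit 4) (nat_lit 12) (nat_lit 5) (nat_lit 12) (nat_lit 4) (nat_lit 310) (nat_lit 239) (nat_lit 171)))))) (XT.nd (nat_lit 390) (nat_lit 152) (nat_lit 0) (XT.nd (nat_lit 156) (nat_lit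 76) (nat_lit 0) (XT.nd (nat_lit 78) (nat_lit 0) (nat_lit 0) (XT.lf (nat_lit 0) (nat_lit 4717838607) (nat_lit 152) (nat_lit 33164101250) (nat_lit 76) (nat_lit 10571960301) (nat_lit 10) (nat_lit 5) (nat_lit 12) (nat_lit 5) (nat_lit 11) (nat_lit 4) (nat_lit 311) (nat_lit 239) (nat_lit 170)) (XT.lf (nat_lit 0) (nat_lit 11074705583) (nat_lit 152) (nat_lit 20332408931) (nat_lit 76) (nat_lit 19215126225) (nat_lit 10) (nat_lit 5) (nat_lit 12) (nat_lit 5) (nat_lit 11) (nat_lit 4) (nat_lit 312) (nat_lit 239) (nat_lit 169))) (XT.nd (nat_lit 78) (nat_lit 76) (nat_lit 0) (XT.lf (nat_lit 0) (nat_lit 17724493758) (nat_lit 152) (nat_lit 6902622403) (nat_lit 76) (nat_lit 28272648657) (nat_lit 10) (nat_lit 5) (nat_lit 12) (nat_lit 5) (nat_lit 11) (nat_lit 4) (nat_lit 313) (nat_lit 239) (nat_lit 168)) (XT.nd (nat_lit 78) (nat_lit 0) (nat_lit 0) (XT.lf (nat_lit 0) (nat_lit 7299677007) (nat_lit 76) (nat_lit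 17453527917) (nat_lit 152) (nat_lit 30536585078) (nat_lit 9) (nat_lit 5) (nat_lit 10) (nat_lit 5) (nat_lit 11) (nat_lit 4) (nat_lit 314) (nat_lit 239) (nat_lit 167)) (XT.lf (nat_lit 0) (nat_lit 22316103740) (nat_lit 76) (nat_lit 9865312455) (nat_lit 152) (nat_lit 25616475369) (nat_lit 9) (nat_lit 5) (nat_lit 10) (nat_lit 5) (nat_lit 11) (nat_lit 4) (nat_lit 315) (nat_lit 239) (nat_lit 166))))) (XT.nd (nat_lit 234) (nat_lit 76) (nat_lit 0) (XT.nd (nat_lit 78) (nat_lit 76) (nat_lit 0) (XT.lf (nat_lit 0) (nat_lit 38045035472) (nat_lit 76) (nat_lit 1914105549) (nat_lit 152) (nat_lit 20472930337) (nat_lit 9) (nat_lit 5) (nat_lit 10) (nat_lit 5) (nat_lit 11) (nat_lit 4) (nat_lit 316) (nat_lit 239) (nat_lit 165)) (XT.nd (nat_lit 78) (nat_lit 76) (nat_lit 0) (XT.lf (nat_lit 0) (nat_lit 48166601383) (nat_lit 152) (nat_lit 8736382788) (nat_lit 0) (nat_lit 6293765962) (nat_lit 9) (nat_lit 5) (nat_lit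 11) (nat_lit 4) (nat_lit 9) (nat_lit 4) (nat_lit 317) (nat_lit 239) (nat_lit 164)) (XT.lf (nat_lit 0) (nat_lit 5652563854) (nat_lit 76) (nat_lit 51185521948) (nat_lit 76) (nat_lit 9259982245) (nat_lit 8) (nat_lit 4) (nat_lit 9) (nat_lit 5) (nat_lit 9) (nat_lit 4) (nat_lit 318) (nat_lit 239) (nat_lit 163)))) (XT.nd (nat_lit 78) (nat_lit 76) (nat_lit 0) (XT.lf (nat_lit 0) (nat_lit 20909310692) (nat_lit 76) (nat_lit 45104386437) (nat_lit 76) (nat_lit 3128652181) (nat_lit 8) (nat_lit 4) (nat_lit 9) (nat_lit 5) (nat_lit 9) (nat_lit 4) (nat_lit 319) (nat_lit 239) (nat_lit 162)) (XT.nd (nat_lit 78) (nat_lit 0) (nat_lit 0) (XT.lf (nat_lit 0) (nat_lit 3226015478) (nat_lit 152) (nat_lit 35474727172) (nat_lit 76) (nat_lit 33637720254) (nat_lit 7) (nat_lit 5) (nat_lit 9) (nat_lit 5) (nat_lit 8) (nat_lit 4) (nat_lit 320) (nat_lit 239) (nat_lit 161)) (XT.lf (nat_lit 0) (nat_lit 9816547322) (nat_lit 152)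 (nat_lit 22141475470) (nat_lit 76) (nat_lit 43735957356) (nat_lit 7) (nat_lit 5) (nat_lit 9) (nat_lit 5) (nat_lit 8) (nat_lit 4) (nat_lit 321) (nat_lit 239) (nat_lit 160))))))) (XT.nd (nat_lit 31200) (nat_lit 0) (nat_lit 16948) (XT.nd (nat_lit 390) (nat_lit 76) (nat_lit 0) (XT.nd (nat_lit 156) (nat_lit 0) (nat_lit 0) (XT.nd (nat_lit 78) (nat_lit 76) (nat_lit 0) (XT.lf (nat_lit 0) (nat_lit 16719686364) (nat_lit 152) (nat_lit 8171463157) (nat_lit 76) (nat_lit 54326643082) (nat_lit 7) (nat_lit 5) (nat_lit 9) (nat_lit 5) (nat_lit 8) (nat_lit 4) (nat_lit 322) (nat_lit 239) (nat_lit 159)) (XT.lf (nat_lit 0) (nat_lit 6597308962) (nat_lit 76) (nat_lit 17417977059) (nat_lit 152) (nat_lit 58901101759) (nat_lit 6) (nat_lit 5) (nat_lit 7) (nat_lit 5) (nat_lit 8) (nat_lit 4) (nat_lit 323) (nat_lit 239) (nat_lit 158))) (XT.nd (nat_lit 78) (nat_lit 0) (nat_lit 0) (XT.lf (nat_lit 0) (nat_lit 22247617481)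 (nat_lit 76) (nat_lit 9496553892) (nat_lit 152) (nat_lit 55053696843) (nat_lit 6) (nat_lit 5) (nat_lit 7) (nat_lit 5) (nat_lit 8) (nat_lit 4) (nat_lit 324) (nat_lit 239) (nat_lit 157)) (XT.nd (nat_lit 78) (nat_lit 0) (nat_lit 0) (XT.lf (nat_lit 0) (nat_lit 38654096901) (nat_lit 76) (nat_lit 1190535245) (nat_lit 152) (nat_lit 51029246761) (nat_lit 6) (nat_lit 5) (nat_lit 7) (nat_lit 5) (nat_lit 8) (nat_lit 4) (nat_lit 325) (nat_lit 239) (nat_lit 156)) (XT.lf (nat_lit 0) (nat_lit 48408240599) (nat_lit 152) (nat_lit 39370599819) (nat_lit 0) (nat_lit 7373115657) (nat_lit 6) (nat_lit 5) (nat_lit 8) (nat_lit 4) (nat_lit 6) (nat_lit 4) (nat_lit 326) (nat_lit 239) (nat_lit 155))))) (XT.nd (nat_lit 234) (nat_lit 0) (nat_lit 0) (XT.nd (nat_lit 78) (nat_lit 76) (nat_lit 0) (XT.lf (nat_lit 0) (nat_lit 57398459296) (nat_lit 152) (nat_lit 25915183903) (nat_lit 0) (nat_lit 16330350228) (nat_lit 6) (nat_lit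 5) (nat_lit 8) (nat_lit 4) (nat_lit 6) (nat_lit 4) (nat_lit 327) (nat_lit 239) (nat_lit 154)) (XT.nd (nat_lit 78) (nat_lit 76) (nat_lit 0) (XT.lf (nat_lit 0) (nat_lit 66825249367) (nat_lit 152) (nat_lit 11810053402) (nat_lit 0) (nat_lit 25725726846) (nat_lit 6) (nat_lit 5) (nat_lit 8) (nat_lit 4) (nat_lit 6) (nat_lit 4) (nat_lit 328) (nat_lit 239) (nat_lit 153)) (XT.lf (nat_lit 0) (nat_lit 3037650837) (nat_lit 76) (nat_lit 73702604472) (nat_lit 76) (nat_lit 32573164375) (nat_lit 5) (nat_lit 4) (nat_lit 6) (nat_lit 5) (nat_lit 6) (nat_lit 4) (nat_lit 329) (nat_lit 239) (nat_lit 152)))) (XT.nd (nat_lit 78) (nat_lit 0) (nat_lit 0) (XT.lf (nat_lit 0) (nat_lit 18853206804) (nat_lit 76) (nat_lit 68407437234) (nat_lit 76) (nat_lit 27249504209) (nat_lit 5) (nat_lit 4) (nat_lit 6) (nat_lit 5) (nat_lit 6) (nat_lit 4) (nat_lit 330) (nat_lit 239) (nat_lit 151)) (XT.nd (nat_lit 30420) (nat_lit 0) (nat_lit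 20216) (XT.lf (nat_lit 0) (nat_lit 35439227364) (nat_lit 76) (nat_lit 62856451898) (nat_lit 76) (nat_lit 21671382751) (nat_lit 5) (nat_lit 4) (nat_lit 6) (nat_lit 5) (nat_lit 6) (nat_lit 4) (nat_lit 331) (nat_lit 239) (nat_lit 150)) (XT.lf (nat_lit 0) (nat_lit 1073741823) (nat_lit 0) (nat_lit 0) (nat_lit 0) (nat_lit 0) (nat_lit 271) (nat_lit 0) (nat_lit 1) (nat_lit 0) (nat_lit 1) (nat_lit 0) (nat_lit 240) (nat_lit 240) (nat_lit 240)))))) (XT.nd (nat_lit 390) (nat_lit 2508) (nat_lit 0) (XT.nd (nat_lit 156) (nat_lit 532) (nat_lit 0) (XT.nd (nat_lit 78) (nat_lit 152) (nat_lit 0) (XT.lf (nat_lit 0) (nat_lit 4620515422) (nat_lit 76) (nat_lit 1704641672) (nat_lit 0) (nat_lit 121025873) (nat_lit 270) (nat_lit 5) (nat_lit 271) (nat_lit 0) (nat_lit 270) (nat_lit 4) (nat_lit 241) (nat_lit 240) (nat_lit 239)) (XT.lf (nat_lit 0) (nat_lit 2695423322) (nat_lit 152) (nat_lit 3313008344) (nat_lit 76) (nat_lit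 449988360) (nat_lit 268) (nat_lit 5) (nat_lit 270) (nat_lit 5) (nat_lit 269) (nat_lit 4) (nat_lit 242) (nat_lit 240) (nat_lit 238))) (XT.nd (nat_lit 78) (nat_lit 304) (nat_lit 0) (XT.lf (nat_lit 0) (nat_lit 660603966) (nat_lit 228) (nat_lit 4830882656) (nat_lit 76) (nat_lit 987703646) (nat_lit 265) (nat_lit 5) (nat_lit 268) (nat_lit 5) (nat_lit 266) (nat_lit 5) (nat_lit 243) (nat_lit 240) (nat_lit 237)) (XT.nd (nat_lit 78) (nat_lit 76) (nat_lit 0) (XT.lf (nat_lit 0) (nat_lit 229633428) (nat_lit 228) (nat_lit 4757994540) (nat_lit 304) (nat_lit 1520475468) (nat_lit 262) (nat_lit 5) (nat_lit 265) (nat_lit 5) (nat_lit 266) (nat_lit 5) (nat_lit 244) (nat_lit 240) (nat_lit 236)) (XT.lf (nat_lit 0) (nat_lit 2715154855) (nat_lit 304) (nat_lit 1087195863) (nat_lit 76) (nat_lit 2742765279) (nat_lit 261) (nat_lit 5) (nat_lit 265) (nat_lit 5) (nat_lit 262) (nat_lit 5) (nat_lit 245) (nat_lit 240) (nat_lit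 235))))) (XT.nd (nat_lit 234) (nat_lit 1216) (nat_lit 0) (XT.nd (nat_lit 78) (nat_lit 912) (nat_lit 0) (XT.lf (nat_lit 0) (nat_lit 318882705) (nat_lit 380) (nat_lit 2319532219) (nat_lit 76) (nat_lit 3952371104) (nat_lit 256) (nat_lit 5) (nat_lit 261) (nat_lit 5) (nat_lit 257) (nat_lit 5) (nat_lit 246) (nat_lit 240) (nat_lit 234)) (XT.nd (nat_lit 78) (nat_lit 532) (nat_lit 0) (XT.lf (nat_lit 0) (nat_lit 3146051639) (nat_lit 380) (nat_lit 1243261796) (nat_lit 456) (nat_lit 2255321823) (nat_lit 251) (nat_lit 5) (nat_lit 256) (nat_lit 5) (nat_lit 257) (nat_lit 5) (nat_lit 247) (nat_lit 240) (nat_lit 233)) (XT.lf (nat_lit 0) (nat_lit 1729906893) (nat_lit 532) (nat_lit 4615688617) (nat_lit 76) (nat_lit 361603536) (nat_lit 244) (nat_lit 5) (nat_lit 251) (nat_lit 5) (nat_lit 245) (nat_lit 5) (nat_lit 248) (nat_lit 240) (nat_lit 232)))) (XT.nd (nat_lit 78) (nat_lit 684) (nat_lit 0) (XT.lf (nat_lit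 0) (nat_lit 1084503785) (nat_lit 532) (nat_lit 4612091446) (nat_lit 608) (nat_lit 1081495016) (nat_lit 237) (nat_lit 5) (nat_lit 244) (nat_lit 5) (nat_lit 245) (nat_lit 5) (nat_lit 249) (nat_lit 240) (nat_lit 231)) (XT.nd (nat_lit 78) (nat_lit 0) (nat_lit 0) (XT.lf (nat_lit 0) (nat_lit 124229051) (nat_lit 608) (nat_lit 2650979833) (nat_lit 684) (nat_lit 4082383341) (nat_lit 228) (nat_lit 5) (nat_lit 236) (nat_lit 5) (nat_lit 237) (nat_lit 5) (nat_lit 250) (nat_lit 240) (nat_lit 230)) (XT.lf (nat_lit 0) (nat_lit 6181619516) (nat_lit 608) (nat_lit 464282000) (nat_lit 684) (nat_lit 300187629) (nat_lit 228) (nat_lit 5) (nat_lit 236) (nat_lit 5) (nat_lit 237) (nat_lit 5) (nat_lit 251) (nat_lit 240) (nat_lit 229))))))))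
noncomputable def xc50 : XT := (XT.nd (nat_lit 1716) (nat_lit 3344) (nat_lit 0) (XT.nd (nat_lit 858) (nat_lit 4180) (nat_lit 0) (XT.nd (nat_lit 390) (nat_lit 3648) (nat_lit 0) (XT.nd (nat_lit 156) (nat_lit 2812) (nat_lit 0) (XT.nd (nat_lit 78) (nat_lit 836) (nat_lit 0) (XT.lf (nat_lit 0) (nat_lit 3462941355) (nat_lit 760) (nat_lit 1645208814) (nat_lit 76) (nat_lit 1934496226) (nat_lit 218) (nat_lit 5) (nat_lit 228) (nat_lit 5) (nat_lit 219) (nat_lit 5) (nat_lit 252) (nat_lit 240) (nat_lit 228)) (XT.lf (nat_lit 0) (nat_lit 115794778) (nat_lit 836) (nat_lit 2485874902) (nat_lit 76) (nat_lit 4547043256) (nat_lit 207) (nat_lit 5) (nat_lit 218) (nat_lit 5) (nat_lit 208) (nat_lit 5) (nat_lit 253) (nat_lit 240) (nat_lit 227))) (XT.nd (nat_lit 78) (nat_lit 1976) (nat_lit 0) (XT.lf (nat_lit 0) (nat_lit 3786116580) (nat_lit 912) (nat_lit 3322102861) (nat_lit 76) (nat_lit 155404232) (nat_lit 196) (nat_lit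 5) (nat_lit 208) (nat_lit 5) (nat_lit 197) (nat_lit 5) (nat_lit 254) (nat_lit 240) (nat_lit 226)) (XT.nd (nat_lit 78) (nat_lit 988) (nat_lit 0) (XT.lf (nat_lit 0) (nat_lit 147261389) (nat_lit 988) (nat_lit 4154415532) (nat_lit 76) (nat_lit 3086118905) (nat_lit 183) (nat_lit 5) (nat_lit 196) (nat_lit 5) (nat_lit 184) (nat_lit 5) (nat_lit 255) (nat_lit 240) (nat_lit 225)) (XT.lf (nat_lit 0) (nat_lit 2522787438) (nat_lit 988) (nat_lit 1237983598) (nat_lit 1064) (nat_lit 3760453645) (nat_lit 170) (nat_lit 5) (nat_lit 183) (nat_lit 5) (nat_lit 184) (nat_lit 5) (nat_lit 256) (nat_lit 240) (nat_lit 224))))) (XT.nd (nat_lit 234) (nat_lit 1140) (nat_lit 0) (XT.nd (nat_lit 78) (nat_lit 1444) (nat_lit 0) (XT.lf (nat_lit 0) (nat_lit 1815476102) (nat_lit 1064) (nat_lit 5646359715) (nat_lit 1140) (nat_lit 202724394) (nat_lit 156) (nat_lit 5) (nat_lit 170) (nat_lit 5) (nat_lit 171) (nat_lit 5) (nat_lit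 257) (nat_lit 240) (nat_lit 223)) (XT.nd (nat_lit 78) (nat_lit 532) (nat_lit 0) (XT.lf (nat_lit 0) (nat_lit 1074762605) (nat_lit 836) (nat_lit 2295862925) (nat_lit 912) (nat_lit 4446626312) (nat_lit 144) (nat_lit 5) (nat_lit 155) (nat_lit 5) (nat_lit 156) (nat_lit 5) (nat_lit 258) (nat_lit 240) (nat_lit 222)) (XT.lf (nat_lit 0) (nat_lit 322191267) (nat_lit 532) (nat_lit 6710399957) (nat_lit 608) (nat_lit 947891288) (nat_lit 137) (nat_lit 5) (nat_lit 144) (nat_lit 5) (nat_lit 145) (nat_lit 5) (nat_lit 259) (nat_lit 240) (nat_lit 221)))) (XT.nd (nat_lit 78) (nat_lit 1064) (nat_lit 0) (XT.lf (nat_lit 0) (nat_lit 2608596557) (nat_lit 608) (nat_lit 478689675) (nat_lit 76) (nat_lit 5066081841) (nat_lit 136) (nat_lit 5) (nat_lit 144) (nat_lit 5) (nat_lit 137) (nat_lit 5) (nat_lit 260) (nat_lit 240) (nat_lit 220)) (XT.nd (nat_lit 78) (nat_lit 532) (nat_lit 0) (XT.lf (nat_lit 0) (nat_lit 6248975027)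 (nat_lit 608) (nat_lit 1309668199) (nat_lit 76) (nat_lit 778545501) (nat_lit 129) (nat_lit 5) (nat_lit 137) (nat_lit 5) (nat_lit 130) (nat_lit 5) (nat_lit 261) (nat_lit 240) (nat_lit 219)) (XT.lf (nat_lit 0) (nat_lit 1463186148) (nat_lit 532) (nat_lit 2217481115) (nat_lit 76) (nat_lit 4850842730) (nat_lit 122) (nat_lit 5) (nat_lit 129) (nat_lit 5) (nat_lit 123) (nat_lit 5) (nat_lit 262) (nat_lit 240) (nat_lit 218)))))) (XT.nd (nat_lit 390) (nat_lit 1824) (nat_lit 0) (XT.nd (nat_lit 156) (nat_lit 1368) (nat_lit 0) (XT.nd (nat_lit 78) (nat_lit 456) (nat_lit 0) (XT.lf (nat_lit 0) (nat_lit 5080495275) (nat_lit 608) (nat_lit 3194978890) (nat_lit 76) (nat_lit 461808677) (nat_lit 115) (nat_lit 5) (nat_lit 123) (nat_lit 5) (nat_lit 116) (nat_lit 5) (nat_lit 263) (nat_lit 240) (nat_lit 217)) (XT.lf (nat_lit 0) (nat_lit 4686745450) (nat_lit 456) (nat_lit 4161998311) (nat_lit 532) (nat_lit 105785573)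 (nat_lit 109) (nat_lit 5) (nat_lit 115) (nat_lit 5) (nat_lit 116) (nat_lit 5) (nat_lit 264) (nat_lit 240) (nat_lit 216))) (XT.nd (nat_lit 78) (nat_lit 836) (nat_lit 0) (XT.lf (nat_lit 0) (nat_lit 3491855088) (nat_lit 532) (nat_lit 5450332754) (nat_lit 76) (nat_lit 241477705) (nat_lit 102) (nat_lit 5) (nat_lit 109) (nat_lit 5) (nat_lit 103) (nat_lit 5) (nat_lit 265) (nat_lit 240) (nat_lit 215)) (XT.nd (nat_lit 78) (nat_lit 456) (nat_lit 0) (XT.lf (nat_lit 0) (nat_lit 2659904622) (nat_lit 380) (nat_lit 4592235809) (nat_lit 456) (nat_lit 2172791134) (nat_lit 97) (nat_lit 5) (nat_lit 102) (nat_lit 5) (nat_lit 103) (nat_lit 5) (nat_lit 266) (nat_lit 240) (nat_lit 214)) (XT.lf (nat_lit 0) (nat_lit 1439926465) (nat_lit 456) (nat_lit 8201035736) (nat_lit 76) (nat_lit 38670073) (nat_lit 91) (nat_lit 5) (nat_lit 97) (nat_lit 5) (nat_lit 92) (nat_lit 5) (nat_lit 267) (nat_lit 240) (nat_lit 213)))))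 (XT.nd (nat_lit 234) (nat_lit 988) (nat_lit 0) (XT.nd (nat_lit 78) (nat_lit 456) (nat_lit 0) (XT.lf (nat_lit 0) (nat_lit 117111575) (nat_lit 380) (nat_lit 5069932711) (nat_lit 456) (nat_lit 4759640051) (nat_lit 86) (nat_lit 5) (nat_lit 91) (nat_lit 5) (nat_lit 92) (nat_lit 5) (nat_lit 268) (nat_lit 240) (nat_lit 212)) (XT.nd (nat_lit 78) (nat_lit 456) (nat_lit 0) (XT.lf (nat_lit 0) (nat_lit 8879762676) (nat_lit 380) (nat_lit 210974285) (nat_lit 456) (nat_lit 1137487600) (nat_lit 86) (nat_lit 5) (nat_lit 91) (nat_lit 5) (nat_lit 92) (nat_lit 5) (nat_lit 269) (nat_lit 240) (nat_lit 211)) (XT.lf (nat_lit 0) (nat_lit 2622951741) (nat_lit 456) (nat_lit 3032326352) (nat_lit 76) (nat_lit 4867715150) (nat_lit 80) (nat_lit 5) (nat_lit 86) (nat_lit 5) (nat_lit 81) (nat_lit 5) (nat_lit 270) (nat_lit 240) (nat_lit 210)))) (XT.nd (nat_lit 78) (nat_lit 684) (nat_lit 0) (XT.lf (nat_lit 0) (nat_lit 5932305936)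 (nat_lit 304) (nat_lit 581702037) (nat_lit 380) (nat_lit 4319357722) (nat_lit 76) (nat_lit 5) (nat_lit 80) (nat_lit 5) (nat_lit 81) (nat_lit 5) (nat_lit 271) (nat_lit 240) (nat_lit 209)) (XT.nd (nat_lit 78) (nat_lit 380) (nat_lit 0) (XT.lf (nat_lit 0) (nat_lit 4148642521) (nat_lit 304) (nat_lit 6464257204) (nat_lit 380) (nat_lit 546136468) (nat_lit 72) (nat_lit 5) (nat_lit 76) (nat_lit 5) (nat_lit 77) (nat_lit 5) (nat_lit 272) (nat_lit 240) (nat_lit 208)) (XT.lf (nat_lit 0) (nat_lit 2121090136) (nat_lit 304) (nat_lit 1203983853) (nat_lit 380) (nat_lit 8175816249) (nat_lit 67) (nat_lit 5) (nat_lit 71) (nat_lit 5) (nat_lit 72) (nat_lit 5) (nat_lit 273) (nat_lit 240) (nat_lit 207))))))) (XT.nd (nat_lit 858) (nat_lit 1216) (nat_lit 0) (XT.nd (nat_lit 390) (nat_lit 988) (nat_lit 0) (XT.nd (nat_lit 156) (nat_lit 836) (nat_lit 0) (XT.nd (nat_lit 78) (nat_lit 304) (nat_lit 0) (XT.lf (nat_lit 0)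 (nat_lit 7395065549) (nat_lit 380) (nat_lit 183540238) (nat_lit 76) (nat_lit 4280730180) (nat_lit 67) (nat_lit 5) (nat_lit 72) (nat_lit 5) (nat_lit 68) (nat_lit 5) (nat_lit 274) (nat_lit 240) (nat_lit 206)) (XT.lf (nat_lit 0) (nat_lit 9518728643) (nat_lit 304) (nat_lit 2160156565) (nat_lit 380) (nat_lit 556658124) (nat_lit 63) (nat_lit 5) (nat_lit 67) (nat_lit 5) (nat_lit 68) (nat_lit 5) (nat_lit 275) (nat_lit 240) (nat_lit 205))) (XT.nd (nat_lit 78) (nat_lit 532) (nat_lit 0) (XT.lf (nat_lit 0) (nat_lit 3490401151) (nat_lit 304) (nat_lit 5607585060) (nat_lit 76) (nat_lit 3531292085) (nat_lit 59) (nat_lit 5) (nat_lit 63) (nat_lit 5) (nat_lit 60) (nat_lit 5) (nat_lit 276) (nat_lit 240) (nat_lit 204)) (XT.nd (nat_lit 78) (nat_lit 228) (nat_lit 0) (XT.lf (nat_lit 0) (nat_lit 4191599977) (nat_lit 304) (nat_lit 3538883278) (nat_lit 380) (nat_lit 5312117329) (nat_lit 55) (nat_lit 5) (nat_lit 59)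 (nat_lit 5) (nat_lit 60) (nat_lit 5) (nat_lit 277) (nat_lit 240) (nat_lit 203)) (XT.lf (nat_lit 0) (nat_lit 996549934) (nat_lit 228) (nat_lit 11190419890) (nat_lit 304) (nat_lit 1289612286) (nat_lit 52) (nat_lit 5) (nat_lit 55) (nat_lit 5) (nat_lit 56) (nat_lit 5) (nat_lit 278) (nat_lit 240) (nat_lit 202))))) (XT.nd (nat_lit 234) (nat_lit 456) (nat_lit 0) (XT.nd (nat_lit 78) (nat_lit 456) (nat_lit 0) (XT.lf (nat_lit 0) (nat_lit 2920919922) (nat_lit 304) (nat_lit 2594462992) (nat_lit 76) (nat_lit 8414824743) (nat_lit 51) (nat_lit 5) (nat_lit 55) (nat_lit 5) (nat_lit 52) (nat_lit 5) (nat_lit 279) (nat_lit 240) (nat_lit 201)) (XT.nd (nat_lit 78) (nat_lit 228) (nat_lit 0) (XT.lf (nat_lit 0) (nat_lit 7315808059) (nat_lit 304) (nat_lit 6602166290) (nat_lit 76) (nat_lit 488252258) (nat_lit 48) (nat_lit 5) (nat_lit 52) (nat_lit 5) (nat_lit 49) (nat_lit 5) (nat_lit 280) (nat_lit 240) (nat_lit 200))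 (XT.lf (nat_lit 0) (nat_lit 3774695756) (nat_lit 228) (nat_lit 8197438570) (nat_lit 304) (nat_lit 2932766314) (nat_lit 45) (nat_lit 5) (nat_lit 48) (nat_lit 5) (nat_lit 49) (nat_lit 5) (nat_lit 281) (nat_lit 240) (nat_lit 199)))) (XT.nd (nat_lit 78) (nat_lit 380) (nat_lit 0) (XT.lf (nat_lit 0) (nat_lit 1397986882) (nat_lit 304) (nat_lit 745375454) (nat_lit 76) (nat_lit 13285034595) (nat_lit 44) (nat_lit 5) (nat_lit 48) (nat_lit 5) (nat_lit 45) (nat_lit 5) (nat_lit 282) (nat_lit 240) (nat_lit 198)) (XT.nd (nat_lit 78) (nat_lit 152) (nat_lit 0) (XT.lf (nat_lit 0) (nat_lit 5952998312) (nat_lit 304) (nat_lit 5796816446) (nat_lit 76) (nat_lit 4225423338) (nat_lit 41) (nat_lit 5) (nat_lit 45) (nat_lit 5) (nat_lit 42) (nat_lit 5) (nat_lit 283) (nat_lit 240) (nat_lit 197)) (XT.lf (nat_lit 0) (nat_lit 5086122758) (nat_lit 152) (nat_lit 5658127815) (nat_lit 228) (nat_lit 5805004055) (nat_lit 39) (nat_lit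 5) (nat_lit 41) (nat_lit 5) (nat_lit 42) (nat_lit 5) (nat_lit 284) (nat_lit 240) (nat_lit 196)))))) (XT.nd (nat_lit 390) (nat_lit 608) (nat_lit 0) (XT.nd (nat_lit 156) (nat_lit 304) (nat_lit 0) (XT.nd (nat_lit 78) (nat_lit 304) (nat_lit 0) (XT.lf (nat_lit 0) (nat_lit 15774629791) (nat_lit 228) (nat_lit 628452361) (nat_lit 76) (nat_lit 748986731) (nat_lit 39) (nat_lit 5) (nat_lit 42) (nat_lit 5) (nat_lit 40) (nat_lit 5) (nat_lit 285) (nat_lit 240) (nat_lit 195)) (XT.lf (nat_lit 0) (nat_lit 3304915873) (nat_lit 304) (nat_lit 7012914199) (nat_lit 76) (nat_lit 7463410339) (nat_lit 35) (nat_lit 5) (nat_lit 39) (nat_lit 5) (nat_lit 36) (nat_lit 5) (nat_lit 286) (nat_lit 240) (nat_lit 194))) (XT.nd (nat_lit 78) (nat_lit 152) (nat_lit 0) (XT.lf (nat_lit 0) (nat_lit 4277504346) (nat_lit 152) (nat_lit 3900195073) (nat_lit 228) (nat_lit 10264291824) (nat_lit 33) (nat_lit 5) (nat_lit 35) (nat_lit 5)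 (nat_lit 36) (nat_lit 5) (nat_lit 287) (nat_lit 240) (nat_lit 193)) (XT.nd (nat_lit 78) (nat_lit 152) (nat_lit 0) (XT.lf (nat_lit 0) (nat_lit 13332949298) (nat_lit 228) (nat_lit 2979766171) (nat_lit 76) (nat_lit 2821969635) (nat_lit 33) (nat_lit 5) (nat_lit 36) (nat_lit 5) (nat_lit 34) (nat_lit 5) (nat_lit 288) (nat_lit 240) (nat_lit 192)) (XT.lf (nat_lit 0) (nat_lit 8804103846) (nat_lit 152) (nat_lit 10007412859) (nat_lit 228) (nat_lit 1048597256) (nat_lit 31) (nat_lit 5) (nat_lit 33) (nat_lit 5) (nat_lit 34) (nat_lit 5) (nat_lit 289) (nat_lit 240) (nat_lit 191))))) (XT.nd (nat_lit 234) (nat_lit 228) (nat_lit 0) (XT.nd (nat_lit 78) (nat_lit 152) (nat_lit 0) (XT.lf (nat_lit 0) (nat_lit 499012677) (nat_lit 152) (nat_lit 3344889512) (nat_lit 228) (nat_lit 16777478224) (nat_lit 28) (nat_lit 5) (nat_lit 30) (nat_lit 5) (nat_lit 31) (nat_lit 5) (nat_lit 290) (nat_lit 240) (nat_lit 190)) (XT.nd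 (nat_lit 78) (nat_lit 152) (nat_lit 0) (XT.lf (nat_lit 0) (nat_lit 9053981388) (nat_lit 228) (nat_lit 8691130794) (nat_lit 76) (nat_lit 3672506261) (nat_lit 28) (nat_lit 5) (nat_lit 31) (nat_lit 5) (nat_lit 29) (nat_lit 5) (nat_lit 291) (nat_lit 240) (nat_lit 189)) (XT.lf (nat_lit 0) (nat_lit 3255863960) (nat_lit 152) (nat_lit 11280813701) (nat_lit 228) (nat_lit 7716683476) (nat_lit 26) (nat_lit 5) (nat_lit 28) (nat_lit 5) (nat_lit 29) (nat_lit 5) (nat_lit 292) (nat_lit 240) (nat_lit 188)))) (XT.nd (nat_lit 78) (nat_lit 228) (nat_lit 0) (XT.lf (nat_lit 0) (nat_lit 15898703681) (nat_lit 152) (nat_lit 4433049722) (nat_lit 228) (nat_lit 2798043701) (nat_lit 26) (nat_lit 5) (nat_lit 28) (nat_lit 5) (nat_lit 29) (nat_lit 5) (nat_lit 293) (nat_lit 240) (nat_lit 187)) (XT.nd (nat_lit 78) (nat_lit 0) (nat_lit 0) (XT.lf (nat_lit 0) (nat_lit 2347173055) (nat_lit 228) (nat_lit 18955736417) (nat_lit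 76) (nat_lit 2745707658) (nat_lit 23) (nat_lit 5) (nat_lit 26) (nat_lit 5) (nat_lit 24) (nat_lit 5) (nat_lit 294) (nat_lit 240) (nat_lit 186)) (XT.lf (nat_lit 0) (nat_lit 7764232188) (nat_lit 228) (nat_lit 6979791255) (nat_lit 76) (nat_lit 10266397226) (nat_lit 23) (nat_lit 5) (nat_lit 26) (nat_lit 5) (nat_lit 24) (nat_lit 5) (nat_lit 295) (nat_lit 240) (nat_lit 185))))))))
noncomputable def xc51 : XT := (XT.nd (nat_lit 1716) (nat_lit 304) (nat_lit 0) (XT.nd (nat_lit 858) (nat_lit 304) (nat_lit 0) (XT.nd (nat_lit 390) (nat_lit 304) (nat_lit 0) (XT.nd (nat_lit 156) (nat_lit 304) (nat_lit 0) (XT.nd (nat_lit 78) (nat_lit 0) (nat_lit 0) (XT.lf (nat_lit 0) (nat_lit 5629482468) (nat_lit 152) (nat_lit 7831054758) (nat_lit 228) (nat_lit 12559570221) (nat_lit 21) (nat_lit 5) (nat_lit 23) (nat_lit 5) (nat_lit 24) (nat_lit 5) (nat_lit 296) (nat_lit 240) (nat_lit 184)) (XT.lf (nat_lit 0) (nat_lit 18941915848)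 (nat_lit 152) (nat_lit 527345306) (nat_lit 228) (nat_lit 7610232019) (nat_lit 21) (nat_lit 5) (nat_lit 23) (nat_lit 5) (nat_lit 24) (nat_lit 5) (nat_lit 297) (nat_lit 240) (nat_lit 183))) (XT.nd (nat_lit 78) (nat_lit 228) (nat_lit 0) (XT.lf (nat_lit 0) (nat_lit 4680081556) (nat_lit 76) (nat_lit 21169571621) (nat_lit 152) (nat_lit 2340098733) (nat_lit 20) (nat_lit 5) (nat_lit 21) (nat_lit 5) (nat_lit 22) (nat_lit 4) (nat_lit 298) (nat_lit 240) (nat_lit 182)) (XT.nd (nat_lit 78) (nat_lit 152) (nat_lit 0) (XT.lf (nat_lit 0) (nat_lit 3179654673) (nat_lit 152) (nat_lit 11150739699) (nat_lit 76) (nat_lit 15022792953) (nat_lit 19) (nat_lit 5) (nat_lit 21) (nat_lit 5) (nat_lit 20) (nat_lit 5) (nat_lit 299) (nat_lit 240) (nat_lit 181)) (XT.lf (nat_lit 0) (nat_lit 1770831987) (nat_lit 152) (nat_lit 7134124617) (nat_lit 228) (nat_lit 21669839922) (nat_lit 17) (nat_lit 5) (nat_lit 19) (nat_lit 5) (nat_lit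 20) (nat_lit 5) (nat_lit 300) (nat_lit 240) (nat_lit 180))))) (XT.nd (nat_lit 234) (nat_lit 228) (nat_lit 0) (XT.nd (nat_lit 78) (nat_lit 76) (nat_lit 0) (XT.lf (nat_lit 0) (nat_lit 14998001099) (nat_lit 228) (nat_lit 16353008965) (nat_lit 76) (nat_lit 504065919) (nat_lit 17) (nat_lit 5) (nat_lit 20) (nat_lit 5) (nat_lit 18) (nat_lit 4) (nat_lit 301) (nat_lit 240) (nat_lit 179)) (XT.nd (nat_lit 78) (nat_lit 76) (nat_lit 0) (XT.lf (nat_lit 0) (nat_lit 21431035514) (nat_lit 228) (nat_lit 3413677470) (nat_lit 76) (nat_lit 8353628792) (nat_lit 17) (nat_lit 5) (nat_lit 20) (nat_lit 5) (nat_lit 18) (nat_lit 4) (nat_lit 302) (nat_lit 240) (nat_lit 178)) (XT.lf (nat_lit 0) (nat_lit 10314692245) (nat_lit 76) (nat_lit 17935257915) (nat_lit 152) (nat_lit 6356924791) (nat_lit 16) (nat_lit 5) (nat_lit 17) (nat_lit 5) (nat_lit 18) (nat_lit 4) (nat_lit 303) (nat_lit 240) (nat_lit 177)))) (XT.nd (nat_lit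 78) (nat_lit 228) (nat_lit 0) (XT.lf (nat_lit 0) (nat_lit 24743308218) (nat_lit 76) (nat_lit 10667830677) (nat_lit 152) (nat_lit 674685513) (nat_lit 16) (nat_lit 5) (nat_lit 17) (nat_lit 5) (nat_lit 18) (nat_lit 4) (nat_lit 304) (nat_lit 240) (nat_lit 176)) (XT.nd (nat_lit 78) (nat_lit 0) (nat_lit 0) (XT.lf (nat_lit 0) (nat_lit 2191078144) (nat_lit 152) (nat_lit 2985841426) (nat_lit 228) (nat_lit 32460647618) (nat_lit 13) (nat_lit 5) (nat_lit 15) (nat_lit 5) (nat_lit 16) (nat_lit 5) (nat_lit 305) (nat_lit 240) (nat_lit 175)) (XT.lf (nat_lit 0) (nat_lit 11442301610) (nat_lit 228) (nat_lit 22736429118) (nat_lit 76) (nat_lit 5083937426) (nat_lit 13) (nat_lit 5) (nat_lit 16) (nat_lit 5) (nat_lit 14) (nat_lit 4) (nat_lit 306) (nat_lit 240) (nat_lit 174)))))) (XT.nd (nat_lit 390) (nat_lit 152) (nat_lit 0) (XT.nd (nat_lit 156) (nat_lit 76) (nat_lit 0) (XT.nd (nat_lit 78) (nat_lit 76) (nat_lit 0)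 (XT.lf (nat_lit 0) (nat_lit 18020869409) (nat_lit 228) (nat_lit 9473014455) (nat_lit 76) (nat_lit 13475167524) (nat_lit 13) (nat_lit 5) (nat_lit 16) (nat_lit 5) (nat_lit 14) (nat_lit 4) (nat_lit 307) (nat_lit 240) (nat_lit 173)) (XT.lf (nat_lit 0) (nat_lit 4491685196) (nat_lit 76) (nat_lit 20451076122) (nat_lit 152) (nat_lit 17817584136) (nat_lit 12) (nat_lit 5) (nat_lit 13) (nat_lit 5) (nat_lit 14) (nat_lit 4) (nat_lit 308) (nat_lit 240) (nat_lit 172))) (XT.nd (nat_lit 78) (nat_lit 76) (nat_lit 0) (XT.lf (nat_lit 0) (nat_lit 19304463170) (nat_lit 76) (nat_lit 12975927891) (nat_lit 152) (nat_lit 12358746286) (nat_lit 12) (nat_lit 5) (nat_lit 13) (nat_lit 5) (nat_lit 14) (nat_lit 4) (nat_lit 309) (nat_lit 240) (nat_lit 171)) (XT.nd (nat_lit 78) (nat_lit 76) (nat_lit 0) (XT.lf (nat_lit 0) (nat_lit 34812056423) (nat_lit 76) (nat_lit 5146300070) (nat_lit 152) (nat_lit 6654330068) (nat_lit 12)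 (nat_lit 5) (nat_lit 13) (nat_lit 5) (nat_lit 14) (nat_lit 4) (nat_lit 310) (nat_lit 240) (nat_lit 170)) (XT.lf (nat_lit 0) (nat_lit 2382812568) (nat_lit 76) (nat_lit 45664411430) (nat_lit 76) (nat_lit 636899460) (nat_lit 11) (nat_lit 4) (nat_lit 12) (nat_lit 5) (nat_lit 12) (nat_lit 4) (nat_lit 311) (nat_lit 240) (nat_lit 169))))) (XT.nd (nat_lit 234) (nat_lit 76) (nat_lit 0) (XT.nd (nat_lit 78) (nat_lit 0) (nat_lit 0) (XT.lf (nat_lit 0) (nat_lit 5720238572) (nat_lit 152) (nat_lit 33484711137) (nat_lit 76) (nat_lit 11648071886) (nat_lit 10) (nat_lit 5) (nat_lit 12) (nat_lit 5) (nat_lit 11) (nat_lit 4) (nat_lit 312) (nat_lit 240) (nat_lit 168)) (XT.nd (nat_lit 78) (nat_lit 0) (nat_lit 0) (XT.lf (nat_lit 0) (nat_lit 12358448513) (nat_lit 152) (nat_lit 20075129211) (nat_lit 76) (nat_lit 20697324032) (nat_lit 10) (nat_lit 5) (nat_lit 12) (nat_lit 5) (nat_lit 11) (nat_lit 4) (nat_lit 313) (nat_lit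 240) (nat_lit 167)) (XT.lf (nat_lit 0) (nat_lit 19305963829) (nat_lit 152) (nat_lit 6034515269) (nat_lit 76) (nat_lit 30182892037) (nat_lit 10) (nat_lit 5) (nat_lit 12) (nat_lit 5) (nat_lit 11) (nat_lit 4) (nat_lit 314) (nat_lit 240) (nat_lit 166)))) (XT.nd (nat_lit 78) (nat_lit 0) (nat_lit 0) (XT.lf (nat_lit 0) (nat_lit 8843121881) (nat_lit 76) (nat_lit 17821209837) (nat_lit 152) (nat_lit 31369244205) (nat_lit 9) (nat_lit 5) (nat_lit 10) (nat_lit 5) (nat_lit 11) (nat_lit 4) (nat_lit 315) (nat_lit 240) (nat_lit 165)) (XT.nd (nat_lit 78) (nat_lit 0) (nat_lit 0) (XT.lf (nat_lit 0) (nat_lit 24554252759) (nat_lit 76) (nat_lit 9877630958) (nat_lit 152) (nat_lit 26236184730) (nat_lit 9) (nat_lit 5) (nat_lit 10) (nat_lit 5) (nat_lit 11) (nat_lit 4) (nat_lit 316) (nat_lit 240) (nat_lit 164)) (XT.lf (nat_lit 0) (nat_lit 41016186133) (nat_lit 76) (nat_lit 1551765951) (nat_lit 152) (nat_lit 20866944084)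 (nat_lit 9) (nat_lit 5) (nat_lit 10) (nat_lit 5) (nat_lit 11) (nat_lit 4) (nat_lit 317) (nat_lit 240) (nat_lit 163))))))) (XT.nd (nat_lit 858) (nat_lit 76) (nat_lit 0) (XT.nd (nat_lit 390) (nat_lit 76) (nat_lit 0) (XT.nd (nat_lit 156) (nat_lit 76) (nat_lit 0) (XT.nd (nat_lit 78) (nat_lit 76) (nat_lit 0) (XT.lf (nat_lit 0) (nat_lit 51160890518) (nat_lit 152) (nat_lit 8141511797) (nat_lit 0) (nat_lit 7036174994) (nat_lit 9) (nat_lit 5) (nat_lit 11) (nat_lit 4) (nat_lit 9) (nat_lit 4) (nat_lit 318) (nat_lit 240) (nat_lit 162)) (XT.lf (nat_lit 0) (nat_lit 6937308987) (nat_lit 76) (nat_lit 53310370319) (nat_lit 76) (nat_lit 9137850458) (nat_lit 8) (nat_lit 4) (nat_lit 9) (nat_lit 5) (nat_lit 9) (nat_lit 4) (nat_lit 319) (nat_lit 240) (nat_lit 161))) (XT.nd (nat_lit 78) (nat_lit 76) (nat_lit 0) (XT.lf (nat_lit 0) (nat_lit 22909173312) (nat_lit 76) (nat_lit 46945865068) (nat_lit 76) (nat_lit 2727817266)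 (nat_lit 8) (nat_lit 4) (nat_lit 9) (nat_lit 5) (nat_lit 9) (nat_lit 4) (nat_lit 320) (nat_lit 240) (nat_lit 160)) (XT.nd (nat_lit 78) (nat_lit 0) (nat_lit 0) (XT.lf (nat_lit 0) (nat_lit 3907690754) (nat_lit 152) (nat_lit 36328795513) (nat_lit 76) (nat_lit 35702926608) (nat_lit 7) (nat_lit 5) (nat_lit 9) (nat_lit 5) (nat_lit 8) (nat_lit 4) (nat_lit 321) (nat_lit 240) (nat_lit 159)) (XT.lf (nat_lit 0) (nat_lit 10802969451) (nat_lit 152) (nat_lit 22372674941) (nat_lit 76) (nat_lit 46287822216) (nat_lit 7) (nat_lit 5) (nat_lit 9) (nat_lit 5) (nat_lit 8) (nat_lit 4) (nat_lit 322) (nat_lit 240) (nat_lit 158))))) (XT.nd (nat_lit 234) (nat_lit 0) (nat_lit 0) (XT.nd (nat_lit 78) (nat_lit 76) (nat_lit 0) (XT.lf (nat_lit 0) (nat_lit 18027665695) (nat_lit 152) (nat_lit 7745870312) (nat_lit 76) (nat_lit 57390658086) (nat_lit 7) (nat_lit 5) (nat_lit 9) (nat_lit 5) (nat_lit 8) (nat_lit 4) (nat_lit 323)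 (nat_lit 240) (nat_lit 157)) (XT.nd (nat_lit 78) (nat_lit 0) (nat_lit 0) (XT.lf (nat_lit 0) (nat_lit 7737429211) (nat_lit 76) (nat_lit 17935928835) (nat_lit 152) (nat_lit 61374817234) (nat_lit 6) (nat_lit 5) (nat_lit 7) (nat_lit 5) (nat_lit 8) (nat_lit 4) (nat_lit 324) (nat_lit 240) (nat_lit 156)) (XT.lf (nat_lit 0) (nat_lit 24131669595) (nat_lit 76) (nat_lit 9635241514) (nat_lit 152) (nat_lit 57357486816) (nat_lit 6) (nat_lit 5) (nat_lit 7) (nat_lit 5) (nat_lit 8) (nat_lit 4) (nat_lit 325) (nat_lit 240) (nat_lit 155)))) (XT.nd (nat_lit 78) (nat_lit 0) (nat_lit 0) (XT.lf (nat_lit 0) (nat_lit 41321726736) (nat_lit 76) (nat_lit 929928604) (nat_lit 152) (nat_lit 53153190176) (nat_lit 6) (nat_lit 5) (nat_lit 7) (nat_lit 5) (nat_lit 8) (nat_lit 4) (nat_lit 326) (nat_lit 240) (nat_lit 154)) (XT.nd (nat_lit 78) (nat_lit 0) (nat_lit 0) (XT.lf (nat_lit 0) (nat_lit 51226623015) (nat_lit 152) (nat_lit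 40630010755) (nat_lit 0) (nat_lit 8040710914) (nat_lit 6) (nat_lit 5) (nat_lit 8) (nat_lit 4) (nat_lit 6) (nat_lit 4) (nat_lit 327) (nat_lit 240) (nat_lit 153)) (XT.lf (nat_lit 0) (nat_lit 60647401676) (nat_lit 152) (nat_lit 26535591617) (nat_lit 0) (nat_lit 17431572000) (nat_lit 6) (nat_lit 5) (nat_lit 8) (nat_lit 4) (nat_lit 6) (nat_lit 4) (nat_lit 328) (nat_lit 240) (nat_lit 152)))))) (XT.nd (nat_lit 30810) (nat_lit 0) (nat_lit 18164) (XT.nd (nat_lit 156) (nat_lit 0) (nat_lit 0) (XT.nd (nat_lit 78) (nat_lit 76) (nat_lit 0) (XT.lf (nat_lit 0) (nat_lit 70527482707) (nat_lit 152) (nat_lit 11757364185) (nat_lit 0) (nat_lit 27283160103) (nat_lit 6) (nat_lit 5) (nat_lit 8) (nat_lit 4) (nat_lit 6) (nat_lit 4) (nat_lit 329) (nat_lit 240) (nat_lit 151)) (XT.lf (nat_lit 0) (nat_lit 3814288299) (nat_lit 76) (nat_lit 77112767084) (nat_lit 76) (nat_lit 33841308357) (nat_lit 5) (nat_lit 4) (nat_lit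 6) (nat_lit 5) (nat_lit 6) (nat_lit 4) (nat_lit 330) (nat_lit 240) (nat_lit 150))) (XT.nd (nat_lit 30498) (nat_lit 0) (nat_lit 19684) (XT.lf (nat_lit 0) (nat_lit 20390871830) (nat_lit 76) (nat_lit 71565935180) (nat_lit 76) (nat_lit 28268632527) (nat_lit 5) (nat_lit 4) (nat_lit 6) (nat_lit 5) (nat_lit 6) (nat_lit 4) (nat_lit 331) (nat_lit 240) (nat_lit 149)) (XT.nd (nat_lit 78) (nat_lit 228) (nat_lit 0) (XT.lf (nat_lit 0) (nat_lit 1294006078) (nat_lit 228) (nat_lit 966531109) (nat_lit 228) (nat_lit 966531109) (nat_lit 267) (nat_lit 3) (nat_lit 270) (nat_lit 3) (nat_lit 270) (nat_lit 5) (nat_lit 241) (nat_lit 241) (nat_lit 238)) (XT.lf (nat_lit 0) (nat_lit 448180929) (nat_lit 228) (nat_lit 3650713242) (nat_lit 304) (nat_lit 2371730122) (nat_lit 264) (nat_lit 5) (nat_lit 267) (nat_lit 3) (nat_lit 268) (nat_lit 5) (nat_lit 242) (nat_lit 241) (nat_lit 237))))) (XT.nd (nat_lit 234) (nat_lit 1216)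 (nat_lit 0) (XT.nd (nat_lit 78) (nat_lit 304) (nat_lit 0) (XT.lf (nat_lit 76) (nat_lit 1197840197) (nat_lit 0) (nat_lit 3455714735) (nat_lit 304) (nat_lit 1841597945) (nat_lit 265) (nat_lit 5) (nat_lit 264) (nat_lit 5) (nat_lit 268) (nat_lit 5) (nat_lit 243) (nat_lit 241) (nat_lit 236)) (XT.nd (nat_lit 78) (nat_lit 0) (nat_lit 0) (XT.lf (nat_lit 0) (nat_lit 2267683564) (nat_lit 304) (nat_lit 331442237) (nat_lit 380) (nat_lit 3928920604) (nat_lit 260) (nat_lit 5) (nat_lit 264) (nat_lit 5) (nat_lit 265) (nat_lit 5) (nat_lit 244) (nat_lit 241) (nat_lit 235)) (XT.lf (nat_lit 76) (nat_lit 4813389702) (nat_lit 0) (nat_lit 1521544407) (nat_lit 380) (nat_lit 234287629) (nat_lit 261) (nat_lit 5) (nat_lit 260) (nat_lit 5) (nat_lit 265) (nat_lit 5) (nat_lit 245) (nat_lit 241) (nat_lit 234)))) (XT.nd (nat_lit 78) (nat_lit 836) (nat_lit 0) (XT.lf (nat_lit 76) (nat_lit 3493485889) (nat_lit 0) (nat_lit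 210253152) (nat_lit 456) (nat_lit 2914742190) (nat_lit 256) (nat_lit 5) (nat_lit 255) (nat_lit 5) (nat_lit 261) (nat_lit 5) (nat_lit 246) (nat_lit 241) (nat_lit 233)) (XT.nd (nat_lit 78) (nat_lit 456) (nat_lit 0) (XT.lf (nat_lit 0) (nat_lit 952443224) (nat_lit 456) (nat_lit 4434330940) (nat_lit 76) (nat_lit 1289451548) (nat_lit 250) (nat_lit 5) (nat_lit 256) (nat_lit 5) (nat_lit 251) (nat_lit 5) (nat_lit 247) (nat_lit 241) (nat_lit 232)) (XT.lf (nat_lit 0) (nat_lit 1043081847) (nat_lit 456) (nat_lit 3724637254) (nat_lit 532) (nat_lit 1974556545) (nat_lit 244) (nat_lit 5) (nat_lit 250) (nat_lit 5) (nat_lit 251) (nat_lit 5) (nat_lit 248) (nat_lit 241) (nat_lit 231))))))))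
noncomputable def xc52 : XT := (XT.nd (nat_lit 1716) (nat_lit 3952) (nat_lit 0) (XT.nd (nat_lit 858) (nat_lit 4788) (nat_lit 0) (XT.nd (nat_lit 390) (nat_lit 4864) (nat_lit 0) (XT.nd (nat_lit 156) (nat_lit 2204) (nat_lit 0) (XT.nd (nat_lit 78) (nat_lit 532) (nat_lit 0) (XT.lf (nat_lit 0) (nat_lit 1746429689) (nat_lit 532) (nat_lit 95266577) (nat_lit 76) (nat_lit 4975367387) (nat_lit 243) (nat_lit 5) (nat_lit 250) (nat_lit 5) (nat_lit 244) (nat_lit 5) (nat_lit 249) (nat_lit 241) (nat_lit 230)) (XT.lf (nat_lit 0) (nat_lit 5457963999) (nat_lit 608) (nat_lit 1167671081) (nat_lit 76) (nat_lit 274656104) (nat_lit 236) (nat_lit 5) (nat_lit 244) (nat_lit 5) (nat_lit 237) (nat_lit 5) (nat_lit 250) (nat_lit 241) (nat_lit 229))) (XT.nd (nat_lit 78) (nat_lit 1520) (nat_lit 0) (XT.lf (nat_lit 0) (nat_lit 2181391246) (nat_lit 684) (nat_lit 2221279757) (nat_lit 76) (nat_lit 2589118563) (nat_lit 227) (nat_lit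 5) (nat_lit 236) (nat_lit 5) (nat_lit 228) (nat_lit 5) (nat_lit 251) (nat_lit 241) (nat_lit 228)) (XT.nd (nat_lit 78) (nat_lit 836) (nat_lit 0) (XT.lf (nat_lit 0) (nat_lit 3854161607) (nat_lit 684) (nat_lit 1954077381) (nat_lit 760) (nat_lit 1284211763) (nat_lit 218) (nat_lit 5) (nat_lit 227) (nat_lit 5) (nat_lit 228) (nat_lit 5) (nat_lit 252) (nat_lit 241) (nat_lit 227)) (XT.lf (nat_lit 0) (nat_lit 2237724174) (nat_lit 836) (nat_lit 4241450001) (nat_lit 76) (nat_lit 722801128) (nat_lit 207) (nat_lit 5) (nat_lit 218) (nat_lit 5) (nat_lit 208) (nat_lit 5) (nat_lit 253) (nat_lit 241) (nat_lit 226))))) (XT.nd (nat_lit 234) (nat_lit 2052) (nat_lit 0) (XT.nd (nat_lit 78) (nat_lit 1976) (nat_lit 0) (XT.lf (nat_lit 0) (nat_lit 2077404775) (nat_lit 836) (nat_lit 3721456207) (nat_lit 912) (nat_lit 1521545240) (nat_lit 196) (nat_lit 5) (nat_lit 207) (nat_lit 5) (nat_lit 208) (nat_lit 5) (nat_lit 254)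 (nat_lit 241) (nat_lit 225)) (XT.nd (nat_lit 78) (nat_lit 988) (nat_lit 0) (XT.lf (nat_lit 0) (nat_lit 1209653183) (nat_lit 912) (nat_lit 719707819) (nat_lit 988) (nat_lit 5518950344) (nat_lit 183) (nat_lit 5) (nat_lit 195) (nat_lit 5) (nat_lit 196) (nat_lit 5) (nat_lit 255) (nat_lit 241) (nat_lit 224)) (XT.lf (nat_lit 0) (nat_lit 328350202) (nat_lit 988) (nat_lit 5102868912) (nat_lit 1064) (nat_lit 2154086058) (nat_lit 170) (nat_lit 5) (nat_lit 183) (nat_lit 5) (nat_lit 184) (nat_lit 5) (nat_lit 256) (nat_lit 241) (nat_lit 223)))) (XT.nd (nat_lit 78) (nat_lit 1976) (nat_lit 0) (XT.lf (nat_lit 0) (nat_lit 1257472853) (nat_lit 1064) (nat_lit 545958695) (nat_lit 76) (nat_lit 5928566972) (nat_lit 169) (nat_lit 5) (nat_lit 183) (nat_lit 5) (nat_lit 170) (nat_lit 5) (nat_lit 257) (nat_lit 241) (nat_lit 222)) (XT.nd (nat_lit 78) (nat_lit 912) (nat_lit 0) (XT.lf (nat_lit 0) (nat_lit 4715691336)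 (nat_lit 1140) (nat_lit 1445123934) (nat_lit 76) (nat_lit 1727341393) (nat_lit 155) (nat_lit 5) (nat_lit 170) (nat_lit 5) (nat_lit 156) (nat_lit 5) (nat_lit 258) (nat_lit 241) (nat_lit 221)) (XT.lf (nat_lit 0) (nat_lit 213923102) (nat_lit 912) (nat_lit 2368502408) (nat_lit 76) (nat_lit 5472222541) (nat_lit 143) (nat_lit 5) (nat_lit 155) (nat_lit 5) (nat_lit 144) (nat_lit 5) (nat_lit 259) (nat_lit 241) (nat_lit 220)))))) (XT.nd (nat_lit 390) (nat_lit 2128) (nat_lit 0) (XT.nd (nat_lit 156) (nat_lit 1596) (nat_lit 0) (XT.nd (nat_lit 78) (nat_lit 532) (nat_lit 0) (XT.lf (nat_lit 0) (nat_lit 3630579629) (nat_lit 608) (nat_lit 3349698869) (nat_lit 76) (nat_lit 1250788857) (nat_lit 136) (nat_lit 5) (nat_lit 144) (nat_lit 5) (nat_lit 137) (nat_lit 5) (nat_lit 260) (nat_lit 241) (nat_lit 219)) (XT.lf (nat_lit 0) (nat_lit 4035105416) (nat_lit 532) (nat_lit 3129798270) (nat_lit 608) (nat_lit 1253325057)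 (nat_lit 129) (nat_lit 5) (nat_lit 136) (nat_lit 5) (nat_lit 137) (nat_lit 5) (nat_lit 261) (nat_lit 241) (nat_lit 218))) (XT.nd (nat_lit 78) (nat_lit 1064) (nat_lit 0) (XT.lf (nat_lit 0) (nat_lit 2152809538) (nat_lit 532) (nat_lit 5485445602) (nat_lit 76) (nat_lit 978070427) (nat_lit 122) (nat_lit 5) (nat_lit 129) (nat_lit 5) (nat_lit 123) (nat_lit 5) (nat_lit 262) (nat_lit 241) (nat_lit 217)) (XT.nd (nat_lit 78) (nat_lit 532) (nat_lit 0) (XT.lf (nat_lit 0) (nat_lit 2142322116) (nat_lit 532) (nat_lit 3525343590) (nat_lit 608) (nat_lit 3157646404) (nat_lit 115) (nat_lit 5) (nat_lit 122) (nat_lit 5) (nat_lit 123) (nat_lit 5) (nat_lit 263) (nat_lit 241) (nat_lit 216)) (XT.lf (nat_lit 0) (nat_lit 253007876) (nat_lit 532) (nat_lit 7956821987) (nat_lit 76) (nat_lit 836725013) (nat_lit 108) (nat_lit 5) (nat_lit 115) (nat_lit 5) (nat_lit 109) (nat_lit 5) (nat_lit 264) (nat_lit 241) (nat_lit 215)))))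 (XT.nd (nat_lit 234) (nat_lit 1216) (nat_lit 0) (XT.nd (nat_lit 78) (nat_lit 912) (nat_lit 0) (XT.lf (nat_lit 0) (nat_lit 3749116424) (nat_lit 532) (nat_lit 96704696) (nat_lit 76) (nat_lit 5432946878) (nat_lit 108) (nat_lit 5) (nat_lit 115) (nat_lit 5) (nat_lit 109) (nat_lit 5) (nat_lit 265) (nat_lit 241) (nat_lit 214)) (XT.nd (nat_lit 78) (nat_lit 456) (nat_lit 0) (XT.lf (nat_lit 0) (nat_lit 7386899326) (nat_lit 532) (nat_lit 1351447232) (nat_lit 76) (nat_lit 785480036) (nat_lit 102) (nat_lit 5) (nat_lit 109) (nat_lit 5) (nat_lit 103) (nat_lit 5) (nat_lit 266) (nat_lit 241) (nat_lit 213)) (XT.lf (nat_lit 0) (nat_lit 1389595822) (nat_lit 456) (nat_lit 2756225996) (nat_lit 76) (nat_lit 5635368632) (nat_lit 96) (nat_lit 5) (nat_lit 102) (nat_lit 5) (nat_lit 97) (nat_lit 5) (nat_lit 267) (nat_lit 241) (nat_lit 212)))) (XT.nd (nat_lit 78) (nat_lit 836) (nat_lit 0) (XT.lf (nat_lit 0) (nat_lit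 5012919053) (nat_lit 456) (nat_lit 4305389852) (nat_lit 76) (nat_lit 733750922) (nat_lit 91) (nat_lit 5) (nat_lit 97) (nat_lit 5) (nat_lit 92) (nat_lit 5) (nat_lit 268) (nat_lit 241) (nat_lit 211)) (XT.nd (nat_lit 78) (nat_lit 456) (nat_lit 0) (XT.lf (nat_lit 0) (nat_lit 4305242864) (nat_lit 380) (nat_lit 4515638386) (nat_lit 456) (nat_lit 1515689265) (nat_lit 86) (nat_lit 5) (nat_lit 91) (nat_lit 5) (nat_lit 92) (nat_lit 5) (nat_lit 269) (nat_lit 241) (nat_lit 210)) (XT.lf (nat_lit 0) (nat_lit 2112058371) (nat_lit 456) (nat_lit 7939743979) (nat_lit 76) (nat_lit 583939187) (nat_lit 80) (nat_lit 5) (nat_lit 86) (nat_lit 5) (nat_lit 81) (nat_lit 5) (nat_lit 270) (nat_lit 241) (nat_lit 209))))))) (XT.nd (nat_lit 858) (nat_lit 1520) (nat_lit 0) (XT.nd (nat_lit 390) (nat_lit 1140) (nat_lit 0) (XT.nd (nat_lit 156) (nat_lit 988) (nat_lit 0) (XT.nd (nat_lit 78) (nat_lit 0) (nat_lit 0) (XT.lf (nat_lit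 0) (nat_lit 862044955) (nat_lit 304) (nat_lit 5042495282) (nat_lit 380) (nat_lit 5044617766) (nat_lit 76) (nat_lit 5) (nat_lit 80) (nat_lit 5) (nat_lit 81) (nat_lit 5) (nat_lit 271) (nat_lit 241) (nat_lit 208)) (XT.lf (nat_lit 0) (nat_lit 9872478670) (nat_lit 380) (nat_lit 1138948078) (nat_lit 76) (nat_lit 267413003) (nat_lit 76) (nat_lit 5) (nat_lit 81) (nat_lit 5) (nat_lit 77) (nat_lit 5) (nat_lit 272) (nat_lit 241) (nat_lit 207))) (XT.nd (nat_lit 78) (nat_lit 608) (nat_lit 0) (XT.lf (nat_lit 0) (nat_lit 2402940286) (nat_lit 380) (nat_lit 3404972346) (nat_lit 76) (nat_lit 5815466512) (nat_lit 71) (nat_lit 5) (nat_lit 76) (nat_lit 5) (nat_lit 72) (nat_lit 5) (nat_lit 273) (nat_lit 241) (nat_lit 206)) (XT.nd (nat_lit 78) (nat_lit 304) (nat_lit 0) (XT.lf (nat_lit 0) (nat_lit 6064335118) (nat_lit 304) (nat_lit 287871930) (nat_lit 380) (nat_lit 5633312351) (nat_lit 67) (nat_lit 5) (nat_lit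 71) (nat_lit 5) (nat_lit 72) (nat_lit 5) (nat_lit 274) (nat_lit 241) (nat_lit 205)) (XT.lf (nat_lit 0) (nat_lit 3609353208) (nat_lit 304) (nat_lit 6923745938) (nat_lit 380) (nat_lit 1831784762) (nat_lit 63) (nat_lit 5) (nat_lit 67) (nat_lit 5) (nat_lit 68) (nat_lit 5) (nat_lit 275) (nat_lit 241) (nat_lit 204))))) (XT.nd (nat_lit 234) (nat_lit 532) (nat_lit 0) (XT.nd (nat_lit 78) (nat_lit 304) (nat_lit 0) (XT.lf (nat_lit 0) (nat_lit 851397865) (nat_lit 228) (nat_lit 1252160111) (nat_lit 304) (nat_lit 10659590675) (nat_lit 59) (nat_lit 5) (nat_lit 62) (nat_lit 5) (nat_lit 63) (nat_lit 5) (nat_lit 276) (nat_lit 241) (nat_lit 203)) (XT.nd (nat_lit 78) (nat_lit 304) (nat_lit 0) (XT.lf (nat_lit 0) (nat_lit 6250306019) (nat_lit 304) (nat_lit 2240177887) (nat_lit 76) (nat_lit 4688848096) (nat_lit 59) (nat_lit 5) (nat_lit 63) (nat_lit 5) (nat_lit 60) (nat_lit 5) (nat_lit 277) (nat_lit 241) (nat_lit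 202)) (XT.lf (nat_lit 0) (nat_lit 7944403336) (nat_lit 304) (nat_lit 2668934960) (nat_lit 380) (nat_lit 3002836996) (nat_lit 55) (nat_lit 5) (nat_lit 59) (nat_lit 5) (nat_lit 60) (nat_lit 5) (nat_lit 278) (nat_lit 241) (nat_lit 201)))) (XT.nd (nat_lit 78) (nat_lit 228) (nat_lit 0) (XT.lf (nat_lit 0) (nat_lit 1120486005) (nat_lit 304) (nat_lit 9530718926) (nat_lit 76) (nat_lit 3422762929) (nat_lit 51) (nat_lit 5) (nat_lit 55) (nat_lit 5) (nat_lit 52) (nat_lit 5) (nat_lit 279) (nat_lit 241) (nat_lit 200)) (XT.nd (nat_lit 78) (nat_lit 0) (nat_lit 0) (XT.lf (nat_lit 0) (nat_lit 679840461) (nat_lit 228) (nat_lit 4725237334) (nat_lit 304) (nat_lit 9148269101) (nat_lit 48) (nat_lit 5) (nat_lit 51) (nat_lit 5) (nat_lit 52) (nat_lit 5) (nat_lit 280) (nat_lit 241) (nat_lit 199)) (XT.lf (nat_lit 0) (nat_lit 9943817740) (nat_lit 304) (nat_lit 3578079398) (nat_lit 76) (nat_lit 1533700137) (nat_lit 48)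 (nat_lit 5) (nat_lit 52) (nat_lit 5) (nat_lit 49) (nat_lit 5) (nat_lit 281) (nat_lit 241) (nat_lit 198)))))) (XT.nd (nat_lit 390) (nat_lit 532) (nat_lit 0) (XT.nd (nat_lit 156) (nat_lit 456) (nat_lit 0) (XT.nd (nat_lit 78) (nat_lit 304) (nat_lit 0) (XT.lf (nat_lit 0) (nat_lit 7221478418) (nat_lit 228) (nat_lit 7535075524) (nat_lit 304) (nat_lit 825089645) (nat_lit 45) (nat_lit 5) (nat_lit 48) (nat_lit 5) (nat_lit 49) (nat_lit 5) (nat_lit 282) (nat_lit 241) (nat_lit 197)) (XT.lf (nat_lit 0) (nat_lit 2411925997) (nat_lit 228) (nat_lit 1184216737) (nat_lit 304) (nat_lit 12537119277) (nat_lit 41) (nat_lit 5) (nat_lit 44) (nat_lit 5) (nat_lit 45) (nat_lit 5) (nat_lit 283) (nat_lit 241) (nat_lit 196))) (XT.nd (nat_lit 78) (nat_lit 456) (nat_lit 0) (XT.lf (nat_lit 0) (nat_lit 8294701104) (nat_lit 304) (nat_lit 2975604596) (nat_lit 76) (nat_lit 5439794551) (nat_lit 41) (nat_lit 5) (nat_lit 45) (nat_lit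 5) (nat_lit 42) (nat_lit 5) (nat_lit 284) (nat_lit 241) (nat_lit 195)) (XT.nd (nat_lit 78) (nat_lit 304) (nat_lit 0) (XT.lf (nat_lit 0) (nat_lit 8362303869) (nat_lit 152) (nat_lit 4894924370) (nat_lit 228) (nat_lit 4057760773) (nat_lit 39) (nat_lit 5) (nat_lit 41) (nat_lit 5) (nat_lit 42) (nat_lit 5) (nat_lit 285) (nat_lit 241) (nat_lit 194)) (XT.lf (nat_lit 0) (nat_lit 516636580) (nat_lit 304) (nat_lit 15642557257) (nat_lit 76) (nat_lit 1790583469) (nat_lit 35) (nat_lit 5) (nat_lit 39) (nat_lit 5) (nat_lit 36) (nat_lit 5) (nat_lit 286) (nat_lit 241) (nat_lit 193))))) (XT.nd (nat_lit 234) (nat_lit 380) (nat_lit 0) (XT.nd (nat_lit 78) (nat_lit 152) (nat_lit 0) (XT.lf (nat_lit 0) (nat_lit 5318979101) (nat_lit 304) (nat_lit 4481321759) (nat_lit 76) (nat_lit 8812374801) (nat_lit 35) (nat_lit 5) (nat_lit 39) (nat_lit 5) (nat_lit 36) (nat_lit 5) (nat_lit 287) (nat_lit 241) (nat_lit 192)) (XT.nd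 (nat_lit 78) (nat_lit 0) (nat_lit 0) (XT.lf (nat_lit 0) (nat_lit 7290998935) (nat_lit 152) (nat_lit 3083275617) (nat_lit 228) (nat_lit 8934126264) (nat_lit 33) (nat_lit 5) (nat_lit 35) (nat_lit 5) (nat_lit 36) (nat_lit 5) (nat_lit 288) (nat_lit 241) (nat_lit 191)) (XT.lf (nat_lit 0) (nat_lit 15711422901) (nat_lit 228) (nat_lit 418676310) (nat_lit 76) (nat_lit 3908004141) (nat_lit 33) (nat_lit 5) (nat_lit 36) (nat_lit 5) (nat_lit 34) (nat_lit 5) (nat_lit 289) (nat_lit 241) (nat_lit 190)))) (XT.nd (nat_lit 78) (nat_lit 152) (nat_lit 0) (XT.lf (nat_lit 0) (nat_lit 594296286) (nat_lit 228) (nat_lit 8930706459) (nat_lit 76) (nat_lit 11276405847) (nat_lit 30) (nat_lit 5) (nat_lit 33) (nat_lit 5) (nat_lit 31) (nat_lit 5) (nat_lit 290) (nat_lit 241) (nat_lit 189)) (XT.nd (nat_lit 78) (nat_lit 0) (nat_lit 0) (XT.lf (nat_lit 0) (nat_lit 3115019790) (nat_lit 152) (nat_lit 2540116138) (nat_lit 228)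 (nat_lit 15947015272) (nat_lit 28) (nat_lit 5) (nat_lit 30) (nat_lit 5) (nat_lit 31) (nat_lit 5) (nat_lit 291) (nat_lit 241) (nat_lit 188)) (XT.lf (nat_lit 0) (nat_lit 11057520706) (nat_lit 228) (nat_lit 6619010113) (nat_lit 76) (nat_lit 4763798507) (nat_lit 28) (nat_lit 5) (nat_lit 31) (nat_lit 5) (nat_lit 29) (nat_lit 5) (nat_lit 292) (nat_lit 241) (nat_lit 187))))))))
noncomputable def xc53 : XT := (XT.nd (nat_lit 1716) (nat_lit 380) (nat_lit 0) (XT.nd (nat_lit 858) (nat_lit 532) (nat_lit 0) (XT.nd (nat_lit 390) (nat_lit 304) (nat_lit 0) (XT.nd (nat_lit 156) (nat_lit 380) (nat_lit 0) (XT.nd (nat_lit 78) (nat_lit 0) (nat_lit 0) (XT.lf (nat_lit 0) (nat_lit 5853480979) (nat_lit 152) (nat_lit 10910426293) (nat_lit 228) (nat_lit 6555543542) (nat_lit 26) (nat_lit 5) (nat_lit 28) (nat_lit 5) (nat_lit 29) (nat_lit 5) (nat_lit 293) (nat_lit 241) (nat_lit 186)) (XT.lf (nat_lit 0) (nat_lit 19012518695)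 (nat_lit 152) (nat_lit 3764770690) (nat_lit 228) (nat_lit 1464637212) (nat_lit 26) (nat_lit 5) (nat_lit 28) (nat_lit 5) (nat_lit 29) (nat_lit 5) (nat_lit 294) (nat_lit 241) (nat_lit 185))) (XT.nd (nat_lit 78) (nat_lit 152) (nat_lit 0) (XT.lf (nat_lit 0) (nat_lit 3870733706) (nat_lit 228) (nat_lit 17586968543) (nat_lit 76) (nat_lit 3749780193) (nat_lit 23) (nat_lit 5) (nat_lit 26) (nat_lit 5) (nat_lit 24) (nat_lit 5) (nat_lit 295) (nat_lit 241) (nat_lit 184)) (XT.nd (nat_lit 78) (nat_lit 152) (nat_lit 0) (XT.lf (nat_lit 0) (nat_lit 9491683796) (nat_lit 228) (nat_lit 5122538251) (nat_lit 76) (nat_lit 11605228661) (nat_lit 23) (nat_lit 5) (nat_lit 26) (nat_lit 5) (nat_lit 24) (nat_lit 5) (nat_lit 296) (nat_lit 241) (nat_lit 183)) (XT.lf (nat_lit 0) (nat_lit 8053957658) (nat_lit 152) (nat_lit 7375672933) (nat_lit 228) (nat_lit 11851349002) (nat_lit 21) (nat_lit 5) (nat_lit 23) (nat_lit 5) (nat_lit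 24) (nat_lit 5) (nat_lit 297) (nat_lit 241) (nat_lit 182))))) (XT.nd (nat_lit 234) (nat_lit 152) (nat_lit 0) (XT.nd (nat_lit 78) (nat_lit 152) (nat_lit 0) (XT.lf (nat_lit 0) (nat_lit 21679504213) (nat_lit 228) (nat_lit 6467711625) (nat_lit 76) (nat_lit 247956944) (nat_lit 21) (nat_lit 5) (nat_lit 24) (nat_lit 5) (nat_lit 22) (nat_lit 4) (nat_lit 298) (nat_lit 241) (nat_lit 181)) (XT.nd (nat_lit 78) (nat_lit 76) (nat_lit 0) (XT.lf (nat_lit 0) (nat_lit 6926130683) (nat_lit 76) (nat_lit 21418301042) (nat_lit 152) (nat_lit 1217604000) (nat_lit 20) (nat_lit 5) (nat_lit 21) (nat_lit 5) (nat_lit 22) (nat_lit 4) (nat_lit 299) (nat_lit 241) (nat_lit 180)) (XT.lf (nat_lit 0) (nat_lit 4496077947) (nat_lit 152) (nat_lit 9767958588) (nat_lit 76) (nat_lit 16521037561) (nat_lit 19) (nat_lit 5) (nat_lit 21) (nat_lit 5) (nat_lit 20) (nat_lit 5) (nat_lit 300) (nat_lit 241) (nat_lit 179)))) (XT.nd (nat_lit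 78) (nat_lit 0) (nat_lit 0) (XT.lf (nat_lit 0) (nat_lit 3744072854) (nat_lit 152) (nat_lit 6726572787) (nat_lit 228) (nat_lit 21598278066) (nat_lit 17) (nat_lit 5) (nat_lit 19) (nat_lit 5) (nat_lit 20) (nat_lit 5) (nat_lit 301) (nat_lit 241) (nat_lit 178)) (XT.nd (nat_lit 78) (nat_lit 0) (nat_lit 0) (XT.lf (nat_lit 0) (nat_lit 16821984698) (nat_lit 228) (nat_lit 15349739988) (nat_lit 76) (nat_lit 1242930771) (nat_lit 17) (nat_lit 5) (nat_lit 20) (nat_lit 5) (nat_lit 18) (nat_lit 4) (nat_lit 302) (nat_lit 241) (nat_lit 177)) (XT.lf (nat_lit 0) (nat_lit 23525523999) (nat_lit 228) (nat_lit 1850152366) (nat_lit 76) (nat_lit 9450987904) (nat_lit 17) (nat_lit 5) (nat_lit 20) (nat_lit 5) (nat_lit 18) (nat_lit 4) (nat_lit 303) (nat_lit 241) (nat_lit 176)))))) (XT.nd (nat_lit 390) (nat_lit 228) (nat_lit 0) (XT.nd (nat_lit 156) (nat_lit 152) (nat_lit 0) (XT.nd (nat_lit 78) (nat_lit 76) (nat_lit 0)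 (XT.lf (nat_lit 0) (nat_lit 12514925082) (nat_lit 76) (nat_lit 18137940451) (nat_lit 152) (nat_lit 5653777302) (nat_lit 16) (nat_lit 5) (nat_lit 17) (nat_lit 5) (nat_lit 18) (nat_lit 4) (nat_lit 304) (nat_lit 241) (nat_lit 175)) (XT.lf (nat_lit 0) (nat_lit 258804473) (nat_lit 152) (nat_lit 10278775405) (nat_lit 76) (nat_lit 27323339761) (nat_lit 15) (nat_lit 5) (nat_lit 17) (nat_lit 5) (nat_lit 16) (nat_lit 5) (nat_lit 305) (nat_lit 241) (nat_lit 174))) (XT.nd (nat_lit 78) (nat_lit 0) (nat_lit 0) (XT.lf (nat_lit 0) (nat_lit 3878135619) (nat_lit 152) (nat_lit 2480794279) (nat_lit 228) (nat_lit 33132060463) (nat_lit 13) (nat_lit 5) (nat_lit 15) (nat_lit 5) (nat_lit 16) (nat_lit 5) (nat_lit 306) (nat_lit 241) (nat_lit 173)) (XT.nd (nat_lit 78) (nat_lit 0) (nat_lit 0) (XT.lf (nat_lit 0) (nat_lit 12899611222) (nat_lit 228) (nat_lit 22349756436) (nat_lit 76) (nat_lit 5949154015) (nat_lit 13) (nat_lit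 5) (nat_lit 16) (nat_lit 5) (nat_lit 14) (nat_lit 4) (nat_lit 307) (nat_lit 241) (nat_lit 172)) (XT.lf (nat_lit 0) (nat_lit 19764955291) (nat_lit 228) (nat_lit 8495718379) (nat_lit 76) (nat_lit 14730849441) (nat_lit 13) (nat_lit 5) (nat_lit 16) (nat_lit 5) (nat_lit 14) (nat_lit 4) (nat_lit 308) (nat_lit 241) (nat_lit 171))))) (XT.nd (nat_lit 234) (nat_lit 152) (nat_lit 0) (XT.nd (nat_lit 78) (nat_lit 0) (nat_lit 0) (XT.lf (nat_lit 0) (nat_lit 6125625155) (nat_lit 76) (nat_lit 20880719352) (nat_lit 152) (nat_lit 17866868128) (nat_lit 12) (nat_lit 5) (nat_lit 13) (nat_lit 5) (nat_lit 14) (nat_lit 4) (nat_lit 309) (nat_lit 241) (nat_lit 170)) (XT.nd (nat_lit 78) (nat_lit 0) (nat_lit 0) (XT.lf (nat_lit 0) (nat_lit 21611929851) (nat_lit 76) (nat_lit 13060047546) (nat_lit 152) (nat_lit 12175164349) (nat_lit 12) (nat_lit 5) (nat_lit 13) (nat_lit 5) (nat_lit 14) (nat_lit 4) (nat_lit 310) (nat_lit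 241) (nat_lit 169)) (XT.lf (nat_lit 0) (nat_lit 37830986409) (nat_lit 76) (nat_lit 4865827703) (nat_lit 152) (nat_lit 6223694903) (nat_lit 12) (nat_lit 5) (nat_lit 13) (nat_lit 5) (nat_lit 14) (nat_lit 4) (nat_lit 311) (nat_lit 241) (nat_lit 168)))) (XT.nd (nat_lit 78) (nat_lit 0) (nat_lit 0) (XT.lf (nat_lit 0) (nat_lit 74312830) (nat_lit 152) (nat_lit 47336047887) (nat_lit 76) (nat_lit 3685710744) (nat_lit 10) (nat_lit 5) (nat_lit 12) (nat_lit 5) (nat_lit 11) (nat_lit 4) (nat_lit 312) (nat_lit 241) (nat_lit 167)) (XT.nd (nat_lit 78) (nat_lit 0) (nat_lit 0) (XT.lf (nat_lit 0) (nat_lit 6701495883) (nat_lit 152) (nat_lit 33945708440) (nat_lit 76) (nat_lit 12727086428) (nat_lit 10) (nat_lit 5) (nat_lit 12) (nat_lit 5) (nat_lit 11) (nat_lit 4) (nat_lit 313) (nat_lit 241) (nat_lit 166)) (XT.lf (nat_lit 0) (nat_lit 13638509399) (nat_lit 152) (nat_lit 19923420667) (nat_lit 76) (nat_lit 22205153041)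 (nat_lit 10) (nat_lit 5) (nat_lit 12) (nat_lit 5) (nat_lit 11) (nat_lit 4) (nat_lit 314) (nat_lit 241) (nat_lit 165))))))) (XT.nd (nat_lit 858) (nat_lit 76) (nat_lit 0) (XT.nd (nat_lit 390) (nat_lit 228) (nat_lit 0) (XT.nd (nat_lit 156) (nat_lit 0) (nat_lit 0) (XT.nd (nat_lit 78) (nat_lit 76) (nat_lit 0) (XT.lf (nat_lit 0) (nat_lit 20901870077) (nat_lit 152) (nat_lit 5235798171) (nat_lit 76) (nat_lit 32142477408) (nat_lit 10) (nat_lit 5) (nat_lit 12) (nat_lit 5) (nat_lit 11) (nat_lit 4) (nat_lit 315) (nat_lit 241) (nat_lit 164)) (XT.lf (nat_lit 0) (nat_lit 10354176862) (nat_lit 76) (nat_lit 18254225453) (nat_lit 152) (nat_lit 32308073646) (nat_lit 9) (nat_lit 5) (nat_lit 10) (nat_lit 5) (nat_lit 11) (nat_lit 4) (nat_lit 316) (nat_lit 241) (nat_lit 163))) (XT.nd (nat_lit 78) (nat_lit 0) (nat_lit 0) (XT.lf (nat_lit 0) (nat_lit 26799964337) (nat_lit 76) (nat_lit 9935279291) (nat_lit 152) (nat_lit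 26948343710) (nat_lit 9) (nat_lit 5) (nat_lit 10) (nat_lit 5) (nat_lit 11) (nat_lit 4) (nat_lit 317) (nat_lit 241) (nat_lit 162)) (XT.nd (nat_lit 78) (nat_lit 0) (nat_lit 0) (XT.lf (nat_lit 0) (nat_lit 44036518240) (nat_lit 76) (nat_lit 1213894044) (nat_lit 152) (nat_lit 21339195807) (nat_lit 9) (nat_lit 5) (nat_lit 10) (nat_lit 5) (nat_lit 11) (nat_lit 4) (nat_lit 318) (nat_lit 241) (nat_lit 161)) (XT.lf (nat_lit 0) (nat_lit 54250417189) (nat_lit 152) (nat_lit 7612814025) (nat_lit 0) (nat_lit 7775939058) (nat_lit 9) (nat_lit 5) (nat_lit 11) (nat_lit 4) (nat_lit 9) (nat_lit 4) (nat_lit 319) (nat_lit 241) (nat_lit 160))))) (XT.nd (nat_lit 234) (nat_lit 76) (nat_lit 0) (XT.nd (nat_lit 78) (nat_lit 76) (nat_lit 0) (XT.lf (nat_lit 0) (nat_lit 8193124043) (nat_lit 76) (nat_lit 55581850082) (nat_lit 76) (nat_lit 9064012007) (nat_lit 8) (nat_lit 4) (nat_lit 9) (nat_lit 5) (nat_lit 9) (nat_lit 4)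 (nat_lit 320) (nat_lit 241) (nat_lit 159)) (XT.nd (nat_lit 78) (nat_lit 76) (nat_lit 0) (XT.lf (nat_lit 0) (nat_lit 24920298269) (nat_lit 76) (nat_lit 48917883318) (nat_lit 76) (nat_lit 2358750059) (nat_lit 8) (nat_lit 4) (nat_lit 9) (nat_lit 5) (nat_lit 9) (nat_lit 4) (nat_lit 321) (nat_lit 241) (nat_lit 158)) (XT.lf (nat_lit 0) (nat_lit 4575070304) (nat_lit 152) (nat_lit 37311069287) (nat_lit 76) (nat_lit 37835755789) (nat_lit 7) (nat_lit 5) (nat_lit 9) (nat_lit 5) (nat_lit 8) (nat_lit 4) (nat_lit 322) (nat_lit 241) (nat_lit 157)))) (XT.nd (nat_lit 78) (nat_lit 76) (nat_lit 0) (XT.lf (nat_lit 0) (nat_lit 11792636983) (nat_lit 152) (nat_lit 22696864877) (nat_lit 76) (nat_lit 48933339850) (nat_lit 7) (nat_lit 5) (nat_lit 9) (nat_lit 5) (nat_lit 8) (nat_lit 4) (nat_lit 323) (nat_lit 241) (nat_lit 156)) (XT.nd (nat_lit 78) (nat_lit 76) (nat_lit 0) (XT.lf (nat_lit 0) (nat_lit 19357162370) (nat_lit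 152) (nat_lit 7376550674) (nat_lit 76) (nat_lit 60575549585) (nat_lit 7) (nat_lit 5) (nat_lit 9) (nat_lit 5) (nat_lit 8) (nat_lit 4) (nat_lit 324) (nat_lit 241) (nat_lit 155)) (XT.lf (nat_lit 0) (nat_lit 8859225661) (nat_lit 76) (nat_lit 18512591874) (nat_lit 152) (nat_lit 64016039173) (nat_lit 6) (nat_lit 5) (nat_lit 7) (nat_lit 5) (nat_lit 8) (nat_lit 4) (nat_lit 325) (nat_lit 241) (nat_lit 154)))))) (XT.nd (nat_lit 390) (nat_lit 76) (nat_lit 0) (XT.nd (nat_lit 156) (nat_lit 0) (nat_lit 0) (XT.nd (nat_lit 78) (nat_lit 0) (nat_lit 0) (XT.lf (nat_lit 0) (nat_lit 26038181636) (nat_lit 76) (nat_lit 9812114634) (nat_lit 152) (nat_lit 59818200278) (nat_lit 6) (nat_lit 5) (nat_lit 7) (nat_lit 5) (nat_lit 8) (nat_lit 4) (nat_lit 326) (nat_lit 241) (nat_lit 153)) (XT.lf (nat_lit 0) (nat_lit 44054411703) (nat_lit 76) (nat_lit 686054601) (nat_lit 152) (nat_lit 55423077419) (nat_lit 6) (nat_lit 5)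 (nat_lit 7) (nat_lit 5) (nat_lit 8) (nat_lit 4) (nat_lit 327) (nat_lit 241) (nat_lit 152))) (XT.nd (nat_lit 78) (nat_lit 0) (nat_lit 0) (XT.lf (nat_lit 0) (nat_lit 54148925037) (nat_lit 152) (nat_lit 42018319406) (nat_lit 0) (nat_lit 8713893374) (nat_lit 6) (nat_lit 5) (nat_lit 8) (nat_lit 4) (nat_lit 6) (nat_lit 4) (nat_lit 328) (nat_lit 241) (nat_lit 151)) (XT.nd (nat_lit 78) (nat_lit 0) (nat_lit 0) (XT.lf (nat_lit 0) (nat_lit 64023553542) (nat_lit 152) (nat_lit 27249807496) (nat_lit 0) (nat_lit 18561385757) (nat_lit 6) (nat_lit 5) (nat_lit 8) (nat_lit 4) (nat_lit 6) (nat_lit 4) (nat_lit 329) (nat_lit 241) (nat_lit 150)) (XT.lf (nat_lit 0) (nat_lit 74381268064) (nat_lit 152) (nat_lit 11761838393) (nat_lit 0) (nat_lit 28893256352) (nat_lit 6) (nat_lit 5) (nat_lit 8) (nat_lit 4) (nat_lit 6) (nat_lit 4) (nat_lit 330) (nat_lit 241) (nat_lit 149))))) (XT.nd (nat_lit 30732) (nat_lit 0) (nat_lit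 18544) (XT.nd (nat_lit 30576) (nat_lit 0) (nat_lit 19304) (XT.lf (nat_lit 0) (nat_lit 4571673844) (nat_lit 76) (nat_lit 80719001709) (nat_lit 76) (nat_lit 35206376734) (nat_lit 5) (nat_lit 4) (nat_lit 6) (nat_lit 5) (nat_lit 6) (nat_lit 4) (nat_lit 331) (nat_lit 241) (nat_lit 148)) (XT.nd (nat_lit 78) (nat_lit 380) (nat_lit 0) (XT.lf (nat_lit 0) (nat_lit 1135570740) (nat_lit 0) (nat_lit 1135570740) (nat_lit 228) (nat_lit 974278282) (nat_lit 264) (nat_lit 5) (nat_lit 264) (nat_lit 3) (nat_lit 267) (nat_lit 3) (nat_lit 242) (nat_lit 242) (nat_lit 236)) (XT.lf (nat_lit 76) (nat_lit 533305562) (nat_lit 0) (nat_lit 1511348221) (nat_lit 380) (nat_lit 4474854780) (nat_lit 260) (nat_lit 5) (nat_lit 259) (nat_lit 3) (nat_lit 264) (nat_lit 5) (nat_lit 243) (nat_lit 242) (nat_lit 235)))) (XT.nd (nat_lit 78) (nat_lit 760) (nat_lit 0) (XT.lf (nat_lit 76) (nat_lit 5457203084) (nat_lit 0) (nat_lit 526435112)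 (nat_lit 380) (nat_lit 572703596) (nat_lit 260) (nat_lit 5) (nat_lit 259) (nat_lit 3) (nat_lit 264) (nat_lit 5) (nat_lit 244) (nat_lit 242) (nat_lit 234)) (XT.nd (nat_lit 78) (nat_lit 456) (nat_lit 0) (XT.lf (nat_lit 0) (nat_lit 3252122566) (nat_lit 380) (nat_lit 2666756513) (nat_lit 456) (nat_lit 682064805) (nat_lit 255) (nat_lit 5) (nat_lit 260) (nat_lit 5) (nat_lit 261) (nat_lit 5) (nat_lit 245) (nat_lit 242) (nat_lit 233)) (XT.lf (nat_lit 0) (nat_lit 398327667) (nat_lit 456) (nat_lit 4165365998) (nat_lit 532) (nat_lit 2090463846) (nat_lit 249) (nat_lit 5) (nat_lit 255) (nat_lit 5) (nat_lit 256) (nat_lit 5) (nat_lit 246) (nat_lit 242) (nat_lit 232))))))))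
noncomputable def xc54 : XT := (XT.nd (nat_lit 1716) (nat_lit 4560) (nat_lit 0) (XT.nd (nat_lit 858) (nat_lit 5928) (nat_lit 0) (XT.nd (nat_lit 390) (nat_lit 4408) (nat_lit 0) (XT.nd (nat_lit 156) (nat_lit 1140) (nat_lit 0) (XT.nd (nat_lit 78) (nat_lit 532) (nat_lit 0) (XT.lf (nat_lit 76) (nat_lit 1095290156) (nat_lit 0) (nat_lit 2977534035) (nat_lit 532) (nat_lit 2642669835) (nat_lit 250) (nat_lit 5) (nat_lit 249) (nat_lit 5) (nat_lit 256) (nat_lit 5) (nat_lit 247) (nat_lit 242) (nat_lit 231)) (XT.lf (nat_lit 0) (nat_lit 949099305) (nat_lit 532) (nat_lit 225808100) (nat_lit 608) (nat_lit 5610724598) (nat_lit 242) (nat_lit 5) (nat_lit 249) (nat_lit 5) (nat_lit 250) (nat_lit 5) (nat_lit 248) (nat_lit 242) (nat_lit 230))) (XT.nd (nat_lit 78) (nat_lit 1216) (nat_lit 0) (XT.lf (nat_lit 0) (nat_lit 4514186733) (nat_lit 532) (nat_lit 1490690277) (nat_lit 76) (nat_lit 858810085) (nat_lit 243) (nat_lit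 5) (nat_lit 250) (nat_lit 5) (nat_lit 244) (nat_lit 5) (nat_lit 249) (nat_lit 242) (nat_lit 229)) (XT.nd (nat_lit 78) (nat_lit 608) (nat_lit 0) (XT.lf (nat_lit 0) (nat_lit 1136480330) (nat_lit 608) (nat_lit 2718555022) (nat_lit 76) (nat_lit 3095323342) (nat_lit 235) (nat_lit 5) (nat_lit 243) (nat_lit 5) (nat_lit 236) (nat_lit 5) (nat_lit 250) (nat_lit 242) (nat_lit 228)) (XT.lf (nat_lit 0) (nat_lit 3128815863) (nat_lit 608) (nat_lit 1468506681) (nat_lit 684) (nat_lit 2448438331) (nat_lit 227) (nat_lit 5) (nat_lit 235) (nat_lit 5) (nat_lit 236) (nat_lit 5) (nat_lit 251) (nat_lit 242) (nat_lit 227))))) (XT.nd (nat_lit 234) (nat_lit 2812) (nat_lit 0) (XT.nd (nat_lit 78) (nat_lit 836) (nat_lit 0) (XT.lf (nat_lit 0) (nat_lit 932116013) (nat_lit 760) (nat_lit 5090909511) (nat_lit 76) (nat_lit 1127080645) (nat_lit 217) (nat_lit 5) (nat_lit 227) (nat_lit 5) (nat_lit 218) (nat_lit 5) (nat_lit 252)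 (nat_lit 242) (nat_lit 226)) (XT.nd (nat_lit 78) (nat_lit 76) (nat_lit 0) (XT.lf (nat_lit 0) (nat_lit 995166651) (nat_lit 760) (nat_lit 3318542251) (nat_lit 836) (nat_lit 2949254614) (nat_lit 207) (nat_lit 5) (nat_lit 217) (nat_lit 5) (nat_lit 218) (nat_lit 5) (nat_lit 253) (nat_lit 242) (nat_lit 225)) (XT.lf (nat_lit 0) (nat_lit 348668366) (nat_lit 836) (nat_lit 34913531) (nat_lit 76) (nat_lit 7001951052) (nat_lit 206) (nat_lit 5) (nat_lit 217) (nat_lit 5) (nat_lit 207) (nat_lit 5) (nat_lit 254) (nat_lit 242) (nat_lit 224)))) (XT.nd (nat_lit 78) (nat_lit 1976) (nat_lit 0) (XT.lf (nat_lit 0) (nat_lit 3671152381) (nat_lit 912) (nat_lit 1073087921) (nat_lit 76) (nat_lit 2771936358) (nat_lit 195) (nat_lit 5) (nat_lit 207) (nat_lit 5) (nat_lit 196) (nat_lit 5) (nat_lit 255) (nat_lit 242) (nat_lit 223)) (XT.nd (nat_lit 78) (nat_lit 1064) (nat_lit 0) (XT.lf (nat_lit 0) (nat_lit 5560238117) (nat_lit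 912) (nat_lit 1495020037) (nat_lit 988) (nat_lit 601650071) (nat_lit 183) (nat_lit 5) (nat_lit 195) (nat_lit 5) (nat_lit 196) (nat_lit 5) (nat_lit 256) (nat_lit 242) (nat_lit 222)) (XT.lf (nat_lit 0) (nat_lit 2667012158) (nat_lit 1064) (nat_lit 3155732207) (nat_lit 76) (nat_lit 1983977318) (nat_lit 169) (nat_lit 5) (nat_lit 183) (nat_lit 5) (nat_lit 170) (nat_lit 5) (nat_lit 257) (nat_lit 242) (nat_lit 221)))))) (XT.nd (nat_lit 390) (nat_lit 2812) (nat_lit 0) (XT.nd (nat_lit 156) (nat_lit 1140) (nat_lit 0) (XT.nd (nat_lit 78) (nat_lit 912) (nat_lit 0) (XT.lf (nat_lit 0) (nat_lit 3730324775) (nat_lit 1064) (nat_lit 2277943545) (nat_lit 1140) (nat_lit 1958301048) (nat_lit 155) (nat_lit 5) (nat_lit 169) (nat_lit 5) (nat_lit 170) (nat_lit 5) (nat_lit 258) (nat_lit 242) (nat_lit 220)) (XT.lf (nat_lit 0) (nat_lit 1282482281) (nat_lit 912) (nat_lit 5354393040) (nat_lit 76) (nat_lit 1499659725)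 (nat_lit 143) (nat_lit 5) (nat_lit 155) (nat_lit 5) (nat_lit 144) (nat_lit 5) (nat_lit 259) (nat_lit 242) (nat_lit 219))) (XT.nd (nat_lit 78) (nat_lit 608) (nat_lit 0) (XT.lf (nat_lit 0) (nat_lit 1780219504) (nat_lit 532) (nat_lit 2807791268) (nat_lit 608) (nat_lit 3728436521) (nat_lit 136) (nat_lit 5) (nat_lit 143) (nat_lit 5) (nat_lit 144) (nat_lit 5) (nat_lit 260) (nat_lit 242) (nat_lit 218)) (XT.nd (nat_lit 78) (nat_lit 76) (nat_lit 0) (XT.lf (nat_lit 0) (nat_lit 743991411) (nat_lit 532) (nat_lit 7253449280) (nat_lit 608) (nat_lit 510066341) (nat_lit 129) (nat_lit 5) (nat_lit 136) (nat_lit 5) (nat_lit 137) (nat_lit 5) (nat_lit 261) (nat_lit 242) (nat_lit 217)) (XT.lf (nat_lit 0) (nat_lit 2777271196) (nat_lit 608) (nat_lit 374915039) (nat_lit 76) (nat_lit 5556472190) (nat_lit 128) (nat_lit 5) (nat_lit 136) (nat_lit 5) (nat_lit 129) (nat_lit 5) (nat_lit 262) (nat_lit 242) (nat_lit 216)))))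 (XT.nd (nat_lit 234) (nat_lit 1292) (nat_lit 0) (XT.nd (nat_lit 78) (nat_lit 1064) (nat_lit 0) (XT.lf (nat_lit 0) (nat_lit 6175428053) (nat_lit 532) (nat_lit 1541743723) (nat_lit 76) (nat_lit 1204107608) (nat_lit 122) (nat_lit 5) (nat_lit 129) (nat_lit 5) (nat_lit 123) (nat_lit 5) (nat_lit 263) (nat_lit 242) (nat_lit 215)) (XT.nd (nat_lit 78) (nat_lit 456) (nat_lit 0) (XT.lf (nat_lit 0) (nat_lit 562265626) (nat_lit 608) (nat_lit 2804534611) (nat_lit 76) (nat_lit 5778561591) (nat_lit 114) (nat_lit 5) (nat_lit 122) (nat_lit 5) (nat_lit 115) (nat_lit 5) (nat_lit 264) (nat_lit 242) (nat_lit 214)) (XT.lf (nat_lit 0) (nat_lit 3939966657) (nat_lit 532) (nat_lit 4179995787) (nat_lit 76) (nat_lit 1261282237) (nat_lit 108) (nat_lit 5) (nat_lit 115) (nat_lit 5) (nat_lit 109) (nat_lit 5) (nat_lit 265) (nat_lit 242) (nat_lit 213)))) (XT.nd (nat_lit 78) (nat_lit 836) (nat_lit 0) (XT.lf (nat_lit 0) (nat_lit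 3951440523) (nat_lit 456) (nat_lit 3522456707) (nat_lit 532) (nat_lit 2155633527) (nat_lit 102) (nat_lit 5) (nat_lit 108) (nat_lit 5) (nat_lit 109) (nat_lit 5) (nat_lit 266) (nat_lit 242) (nat_lit 212)) (XT.nd (nat_lit 78) (nat_lit 380) (nat_lit 0) (XT.lf (nat_lit 0) (nat_lit 1239777519) (nat_lit 456) (nat_lit 7306826276) (nat_lit 76) (nat_lit 1344344001) (nat_lit 96) (nat_lit 5) (nat_lit 102) (nat_lit 5) (nat_lit 97) (nat_lit 5) (nat_lit 267) (nat_lit 242) (nat_lit 211)) (XT.lf (nat_lit 0) (nat_lit 1049454295) (nat_lit 380) (nat_lit 3709058596) (nat_lit 456) (nat_lit 5406540467) (nat_lit 91) (nat_lit 5) (nat_lit 96) (nat_lit 5) (nat_lit 97) (nat_lit 5) (nat_lit 268) (nat_lit 242) (nat_lit 210))))))) (XT.nd (nat_lit 858) (nat_lit 1824) (nat_lit 0) (XT.nd (nat_lit 390) (nat_lit 1216) (nat_lit 0) (XT.nd (nat_lit 156) (nat_lit 1064) (nat_lit 0) (XT.nd (nat_lit 78) (nat_lit 456) (nat_lit 0)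 (XT.lf (nat_lit 0) (nat_lit 8439071822) (nat_lit 456) (nat_lit 615264633) (nat_lit 76) (nat_lit 1399143543) (nat_lit 91) (nat_lit 5) (nat_lit 97) (nat_lit 5) (nat_lit 92) (nat_lit 5) (nat_lit 269) (nat_lit 242) (nat_lit 209)) (XT.lf (nat_lit 0) (nat_lit 1536169174) (nat_lit 456) (nat_lit 2457048620) (nat_lit 76) (nat_lit 6762270893) (nat_lit 85) (nat_lit 5) (nat_lit 91) (nat_lit 5) (nat_lit 86) (nat_lit 5) (nat_lit 270) (nat_lit 242) (nat_lit 208))) (XT.nd (nat_lit 78) (nat_lit 684) (nat_lit 0) (XT.lf (nat_lit 0) (nat_lit 5210189295) (nat_lit 456) (nat_lit 4499430203) (nat_lit 76) (nat_lit 1362922157) (nat_lit 80) (nat_lit 5) (nat_lit 86) (nat_lit 5) (nat_lit 81) (nat_lit 5) (nat_lit 271) (nat_lit 242) (nat_lit 207)) (XT.nd (nat_lit 78) (nat_lit 380) (nat_lit 0) (XT.lf (nat_lit 0) (nat_lit 4632452716) (nat_lit 304) (nat_lit 4453170346) (nat_lit 380) (nat_lit 2319454197) (nat_lit 76) (nat_lit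 5) (nat_lit 80) (nat_lit 5) (nat_lit 81) (nat_lit 5) (nat_lit 272) (nat_lit 242) (nat_lit 206)) (XT.lf (nat_lit 0) (nat_lit 1364289581) (nat_lit 380) (nat_lit 9286205726) (nat_lit 76) (nat_lit 1103758704) (nat_lit 71) (nat_lit 5) (nat_lit 76) (nat_lit 5) (nat_lit 72) (nat_lit 5) (nat_lit 273) (nat_lit 242) (nat_lit 205))))) (XT.nd (nat_lit 234) (nat_lit 532) (nat_lit 0) (XT.nd (nat_lit 78) (nat_lit 380) (nat_lit 0) (XT.lf (nat_lit 0) (nat_lit 8092248) (nat_lit 304) (nat_lit 5204590875) (nat_lit 380) (nat_lit 6906806656) (nat_lit 67) (nat_lit 5) (nat_lit 71) (nat_lit 5) (nat_lit 72) (nat_lit 5) (nat_lit 274) (nat_lit 242) (nat_lit 204)) (XT.nd (nat_lit 78) (nat_lit 380) (nat_lit 0) (XT.lf (nat_lit 0) (nat_lit 9270326135) (nat_lit 380) (nat_lit 2660396052) (nat_lit 76) (nat_lit 571895591) (nat_lit 67) (nat_lit 5) (nat_lit 72) (nat_lit 5) (nat_lit 68) (nat_lit 5) (nat_lit 275) (nat_lit 242)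 (nat_lit 203)) (XT.lf (nat_lit 0) (nat_lit 655547787) (nat_lit 380) (nat_lit 5668322431) (nat_lit 76) (nat_lit 6579722187) (nat_lit 62) (nat_lit 5) (nat_lit 67) (nat_lit 5) (nat_lit 63) (nat_lit 5) (nat_lit 276) (nat_lit 242) (nat_lit 202)))) (XT.nd (nat_lit 78) (nat_lit 304) (nat_lit 0) (XT.lf (nat_lit 0) (nat_lit 4299950908) (nat_lit 228) (nat_lit 361896631) (nat_lit 304) (nat_lit 8662199800) (nat_lit 59) (nat_lit 5) (nat_lit 62) (nat_lit 5) (nat_lit 63) (nat_lit 5) (nat_lit 277) (nat_lit 242) (nat_lit 201)) (XT.nd (nat_lit 78) (nat_lit 0) (nat_lit 0) (XT.lf (nat_lit 0) (nat_lit 975498526) (nat_lit 304) (nat_lit 7941720117) (nat_lit 380) (nat_lit 4846957187) (nat_lit 55) (nat_lit 5) (nat_lit 59) (nat_lit 5) (nat_lit 60) (nat_lit 5) (nat_lit 278) (nat_lit 242) (nat_lit 200)) (XT.lf (nat_lit 0) (nat_lit 11555431539) (nat_lit 304) (nat_lit 1852819366) (nat_lit 380) (nat_lit 817481160) (nat_lit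 55) (nat_lit 5) (nat_lit 59) (nat_lit 5) (nat_lit 60) (nat_lit 5) (nat_lit 279) (nat_lit 242) (nat_lit 199)))))) (XT.nd (nat_lit 390) (nat_lit 760) (nat_lit 0) (XT.nd (nat_lit 156) (nat_lit 532) (nat_lit 0) (XT.nd (nat_lit 78) (nat_lit 228) (nat_lit 0) (XT.lf (nat_lit 0) (nat_lit 3397059672) (nat_lit 304) (nat_lit 6777959189) (nat_lit 76) (nat_lit 4532956828) (nat_lit 51) (nat_lit 5) (nat_lit 55) (nat_lit 5) (nat_lit 52) (nat_lit 5) (nat_lit 280) (nat_lit 242) (nat_lit 198)) (XT.lf (nat_lit 0) (nat_lit 3850561054) (nat_lit 228) (nat_lit 3969731705) (nat_lit 304) (nat_lit 7393444951) (nat_lit 48) (nat_lit 5) (nat_lit 51) (nat_lit 5) (nat_lit 52) (nat_lit 5) (nat_lit 281) (nat_lit 242) (nat_lit 197))) (XT.nd (nat_lit 78) (nat_lit 532) (nat_lit 0) (XT.lf (nat_lit 0) (nat_lit 12492908198) (nat_lit 304) (nat_lit 714629440) (nat_lit 76) (nat_lit 2536494230) (nat_lit 48) (nat_lit 5) (nat_lit 52)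 (nat_lit 5) (nat_lit 49) (nat_lit 5) (nat_lit 282) (nat_lit 242) (nat_lit 196)) (XT.nd (nat_lit 78) (nat_lit 228) (nat_lit 0) (XT.lf (nat_lit 0) (nat_lit 1155391461) (nat_lit 304) (nat_lit 5772221921) (nat_lit 76) (nat_lit 9370639153) (nat_lit 44) (nat_lit 5) (nat_lit 48) (nat_lit 5) (nat_lit 45) (nat_lit 5) (nat_lit 283) (nat_lit 242) (nat_lit 195)) (XT.lf (nat_lit 0) (nat_lit 5444219693) (nat_lit 228) (nat_lit 269081189) (nat_lit 304) (nat_lit 11166048304) (nat_lit 41) (nat_lit 5) (nat_lit 44) (nat_lit 5) (nat_lit 45) (nat_lit 5) (nat_lit 284) (nat_lit 242) (nat_lit 194))))) (XT.nd (nat_lit 234) (nat_lit 304) (nat_lit 0) (XT.nd (nat_lit 78) (nat_lit 456) (nat_lit 0) (XT.lf (nat_lit 0) (nat_lit 10563452374) (nat_lit 304) (nat_lit 302568342) (nat_lit 76) (nat_lit 6621625591) (nat_lit 41) (nat_lit 5) (nat_lit 45) (nat_lit 5) (nat_lit 42) (nat_lit 5) (nat_lit 285) (nat_lit 242) (nat_lit 193))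 (XT.nd (nat_lit 78) (nat_lit 304) (nat_lit 0) (XT.lf (nat_lit 0) (nat_lit 11521348742) (nat_lit 152) (nat_lit 4190818129) (nat_lit 228) (nat_lit 2412582160) (nat_lit 39) (nat_lit 5) (nat_lit 41) (nat_lit 5) (nat_lit 42) (nat_lit 5) (nat_lit 286) (nat_lit 242) (nat_lit 192)) (XT.lf (nat_lit 0) (nat_lit 2303246918) (nat_lit 304) (nat_lit 13679696405) (nat_lit 76) (nat_lit 2809440209) (nat_lit 35) (nat_lit 5) (nat_lit 39) (nat_lit 5) (nat_lit 36) (nat_lit 5) (nat_lit 287) (nat_lit 242) (nat_lit 191)))) (XT.nd (nat_lit 78) (nat_lit 304) (nat_lit 0) (XT.lf (nat_lit 0) (nat_lit 7261859969) (nat_lit 304) (nat_lit 2091112881) (nat_lit 76) (nat_lit 10138067415) (nat_lit 35) (nat_lit 5) (nat_lit 39) (nat_lit 5) (nat_lit 36) (nat_lit 5) (nat_lit 288) (nat_lit 242) (nat_lit 190)) (XT.nd (nat_lit 78) (nat_lit 152) (nat_lit 0) (XT.lf (nat_lit 0) (nat_lit 10194886181) (nat_lit 152) (nat_lit 2319589775)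 (nat_lit 228) (nat_lit 7708832440) (nat_lit 33) (nat_lit 5) (nat_lit 35) (nat_lit 5) (nat_lit 36) (nat_lit 5) (nat_lit 289) (nat_lit 242) (nat_lit 189)) (XT.lf (nat_lit 0) (nat_lit 2058682982) (nat_lit 152) (nat_lit 16010777154) (nat_lit 228) (nat_lit 2921595515) (nat_lit 31) (nat_lit 5) (nat_lit 33) (nat_lit 5) (nat_lit 34) (nat_lit 5) (nat_lit 290) (nat_lit 242) (nat_lit 188))))))))
noncomputable def xc55 : XT := (XT.nd (nat_lit 1716) (nat_lit 456) (nat_lit 0) (XT.nd (nat_lit 858) (nat_lit 532) (nat_lit 0) (XT.nd (nat_lit 390) (nat_lit 532) (nat_lit 0) (XT.nd (nat_lit 156) (nat_lit 152) (nat_lit 0) (XT.nd (nat_lit 78) (nat_lit 152) (nat_lit 0) (XT.lf (nat_lit 0) (nat_lit 2142231872) (nat_lit 228) (nat_lit 6957722129) (nat_lit 76) (nat_lit 12694333565) (nat_lit 30) (nat_lit 5) (nat_lit 33) (nat_lit 5) (nat_lit 31) (nat_lit 5) (nat_lit 291) (nat_lit 242) (nat_lit 187)) (XT.lf (nat_lit 0)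 (nat_lit 5620935387) (nat_lit 152) (nat_lit 1785473103) (nat_lit 228) (nat_lit 15230228292) (nat_lit 28) (nat_lit 5) (nat_lit 30) (nat_lit 5) (nat_lit 31) (nat_lit 5) (nat_lit 292) (nat_lit 242) (nat_lit 186))) (XT.nd (nat_lit 78) (nat_lit 152) (nat_lit 0) (XT.lf (nat_lit 0) (nat_lit 13017054562) (nat_lit 228) (nat_lit 4676330487) (nat_lit 76) (nat_lit 5825269098) (nat_lit 28) (nat_lit 5) (nat_lit 31) (nat_lit 5) (nat_lit 29) (nat_lit 5) (nat_lit 293) (nat_lit 242) (nat_lit 185)) (XT.nd (nat_lit 78) (nat_lit 0) (nat_lit 0) (XT.lf (nat_lit 0) (nat_lit 8354612009) (nat_lit 152) (nat_lit 10608393782) (nat_lit 228) (nat_lit 5480169601) (nat_lit 26) (nat_lit 5) (nat_lit 28) (nat_lit 5) (nat_lit 29) (nat_lit 5) (nat_lit 294) (nat_lit 242) (nat_lit 184)) (XT.lf (nat_lit 0) (nat_lit 22066436993) (nat_lit 152) (nat_lit 3145815105) (nat_lit 228) (nat_lit 201534675) (nat_lit 26) (nat_lit 5) (nat_lit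 28) (nat_lit 5) (nat_lit 29) (nat_lit 5) (nat_lit 295) (nat_lit 242) (nat_lit 183))))) (XT.nd (nat_lit 234) (nat_lit 152) (nat_lit 0) (XT.nd (nat_lit 78) (nat_lit 152) (nat_lit 0) (XT.lf (nat_lit 0) (nat_lit 5339737057) (nat_lit 228) (nat_lit 16365133574) (nat_lit 76) (nat_lit 4723470701) (nat_lit 23) (nat_lit 5) (nat_lit 26) (nat_lit 5) (nat_lit 24) (nat_lit 5) (nat_lit 296) (nat_lit 242) (nat_lit 182)) (XT.nd (nat_lit 78) (nat_lit 152) (nat_lit 0) (XT.lf (nat_lit 0) (nat_lit 11180998144) (nat_lit 228) (nat_lit 3377538119) (nat_lit 76) (nat_lit 12934253426) (nat_lit 23) (nat_lit 5) (nat_lit 26) (nat_lit 5) (nat_lit 24) (nat_lit 5) (nat_lit 297) (nat_lit 242) (nat_lit 181)) (XT.lf (nat_lit 0) (nat_lit 10400420680) (nat_lit 152) (nat_lit 6976261964) (nat_lit 228) (nat_lit 11231943908) (nat_lit 21) (nat_lit 5) (nat_lit 23) (nat_lit 5) (nat_lit 24) (nat_lit 5) (nat_lit 298) (nat_lit 242) (nat_lit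 180)))) (XT.nd (nat_lit 78) (nat_lit 152) (nat_lit 0) (XT.lf (nat_lit 0) (nat_lit 23890103120) (nat_lit 228) (nat_lit 4912256442) (nat_lit 76) (nat_lit 977692288) (nat_lit 21) (nat_lit 5) (nat_lit 24) (nat_lit 5) (nat_lit 22) (nat_lit 4) (nat_lit 299) (nat_lit 242) (nat_lit 179)) (XT.nd (nat_lit 78) (nat_lit 76) (nat_lit 0) (XT.lf (nat_lit 0) (nat_lit 9097421388) (nat_lit 76) (nat_lit 21754749735) (nat_lit 152) (nat_lit 154221461) (nat_lit 20) (nat_lit 5) (nat_lit 21) (nat_lit 5) (nat_lit 22) (nat_lit 4) (nat_lit 300) (nat_lit 242) (nat_lit 178)) (XT.lf (nat_lit 0) (nat_lit 5770714533) (nat_lit 152) (nat_lit 8496430806) (nat_lit 76) (nat_lit 18024735661) (nat_lit 19) (nat_lit 5) (nat_lit 21) (nat_lit 5) (nat_lit 20) (nat_lit 5) (nat_lit 301) (nat_lit 242) (nat_lit 177)))))) (XT.nd (nat_lit 390) (nat_lit 228) (nat_lit 0) (XT.nd (nat_lit 156) (nat_lit 152) (nat_lit 0) (XT.nd (nat_lit 78) (nat_lit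 0) (nat_lit 0) (XT.lf (nat_lit 0) (nat_lit 5640754290) (nat_lit 152) (nat_lit 6369696835) (nat_lit 228) (nat_lit 21630524077) (nat_lit 17) (nat_lit 5) (nat_lit 19) (nat_lit 5) (nat_lit 20) (nat_lit 5) (nat_lit 302) (nat_lit 242) (nat_lit 176)) (XT.lf (nat_lit 0) (nat_lit 18637309371) (nat_lit 228) (nat_lit 14465599390) (nat_lit 76) (nat_lit 1952389379) (nat_lit 17) (nat_lit 5) (nat_lit 20) (nat_lit 5) (nat_lit 18) (nat_lit 4) (nat_lit 303) (nat_lit 242) (nat_lit 175))) (XT.nd (nat_lit 78) (nat_lit 152) (nat_lit 0) (XT.lf (nat_lit 0) (nat_lit 25629633949) (nat_lit 228) (nat_lit 369681321) (nat_lit 76) (nat_lit 10540024985) (nat_lit 17) (nat_lit 5) (nat_lit 20) (nat_lit 5) (nat_lit 18) (nat_lit 4) (nat_lit 304) (nat_lit 242) (nat_lit 174)) (XT.nd (nat_lit 78) (nat_lit 76) (nat_lit 0) (XT.lf (nat_lit 0) (nat_lit 14668560883) (nat_lit 76) (nat_lit 18415286126) (nat_lit 152) (nat_lit 5010394758)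 (nat_lit 16) (nat_lit 5) (nat_lit 17) (nat_lit 5) (nat_lit 18) (nat_lit 4) (nat_lit 305) (nat_lit 242) (nat_lit 173)) (XT.lf (nat_lit 0) (nat_lit 1136507002) (nat_lit 152) (nat_lit 9319646755) (nat_lit 76) (nat_lit 29271144941) (nat_lit 15) (nat_lit 5) (nat_lit 17) (nat_lit 5) (nat_lit 16) (nat_lit 5) (nat_lit 306) (nat_lit 242) (nat_lit 172))))) (XT.nd (nat_lit 234) (nat_lit 76) (nat_lit 0) (XT.nd (nat_lit 78) (nat_lit 0) (nat_lit 0) (XT.lf (nat_lit 0) (nat_lit 5502884638) (nat_lit 152) (nat_lit 2011329034) (nat_lit 228) (nat_lit 33925516515) (nat_lit 13) (nat_lit 5) (nat_lit 15) (nat_lit 5) (nat_lit 16) (nat_lit 5) (nat_lit 307) (nat_lit 242) (nat_lit 171)) (XT.nd (nat_lit 78) (nat_lit 0) (nat_lit 0) (XT.lf (nat_lit 0) (nat_lit 14347489317) (nat_lit 228) (nat_lit 22085390165) (nat_lit 76) (nat_lit 6800824611) (nat_lit 13) (nat_lit 5) (nat_lit 16) (nat_lit 5) (nat_lit 14) (nat_lit 4) (nat_lit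 308) (nat_lit 242) (nat_lit 170)) (XT.lf (nat_lit 0) (nat_lit 21517867374) (nat_lit 228) (nat_lit 7604452781) (nat_lit 76) (nat_lit 15995213718) (nat_lit 13) (nat_lit 5) (nat_lit 16) (nat_lit 5) (nat_lit 14) (nat_lit 4) (nat_lit 309) (nat_lit 242) (nat_lit 169)))) (XT.nd (nat_lit 78) (nat_lit 0) (nat_lit 0) (XT.lf (nat_lit 0) (nat_lit 7710233578) (nat_lit 76) (nat_lit 21386967949) (nat_lit 152) (nat_lit 17996859866) (nat_lit 12) (nat_lit 5) (nat_lit 13) (nat_lit 5) (nat_lit 14) (nat_lit 4) (nat_lit 310) (nat_lit 242) (nat_lit 168)) (XT.nd (nat_lit 78) (nat_lit 0) (nat_lit 0) (XT.lf (nat_lit 0) (nat_lit 23909980787) (nat_lit 76) (nat_lit 13200871475) (nat_lit 152) (nat_lit 12056920977) (nat_lit 12) (nat_lit 5) (nat_lit 13) (nat_lit 5) (nat_lit 14) (nat_lit 4) (nat_lit 311) (nat_lit 242) (nat_lit 167)) (XT.lf (nat_lit 0) (nat_lit 40882016152) (nat_lit 76) (nat_lit 4621330090) (nat_lit 152)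 (nat_lit 5842497182) (nat_lit 12) (nat_lit 5) (nat_lit 13) (nat_lit 5) (nat_lit 14) (nat_lit 4) (nat_lit 312) (nat_lit 242) (nat_lit 166))))))) (XT.nd (nat_lit 858) (nat_lit 76) (nat_lit 0) (XT.nd (nat_lit 390) (nat_lit 152) (nat_lit 0) (XT.nd (nat_lit 156) (nat_lit 76) (nat_lit 0) (XT.nd (nat_lit 78) (nat_lit 0) (nat_lit 0) (XT.lf (nat_lit 0) (nat_lit 740166932) (nat_lit 152) (nat_lit 48547385278) (nat_lit 76) (nat_lit 4342959089) (nat_lit 10) (nat_lit 5) (nat_lit 12) (nat_lit 5) (nat_lit 11) (nat_lit 4) (nat_lit 313) (nat_lit 242) (nat_lit 165)) (XT.lf (nat_lit 0) (nat_lit 7667178734) (nat_lit 152) (nat_lit 34542551000) (nat_lit 76) (nat_lit 13813881518) (nat_lit 10) (nat_lit 5) (nat_lit 12) (nat_lit 5) (nat_lit 11) (nat_lit 4) (nat_lit 314) (nat_lit 242) (nat_lit 164))) (XT.nd (nat_lit 78) (nat_lit 76) (nat_lit 0) (XT.lf (nat_lit 0) (nat_lit 14921013970) (nat_lit 152) (nat_lit 19871550881)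 (nat_lit 76) (nat_lit 23744401901) (nat_lit 10) (nat_lit 5) (nat_lit 12) (nat_lit 5) (nat_lit 11) (nat_lit 4) (nat_lit 315) (nat_lit 242) (nat_lit 163)) (XT.nd (nat_lit 78) (nat_lit 76) (nat_lit 0) (XT.lf (nat_lit 0) (nat_lit 22518943677) (nat_lit 152) (nat_lit 4499453966) (nat_lit 76) (nat_lit 34158164334) (nat_lit 10) (nat_lit 5) (nat_lit 12) (nat_lit 5) (nat_lit 11) (nat_lit 4) (nat_lit 316) (nat_lit 242) (nat_lit 162)) (XT.lf (nat_lit 0) (nat_lit 11841408505) (nat_lit 76) (nat_lit 18751476521) (nat_lit 152) (nat_lit 33352381846) (nat_lit 9) (nat_lit 5) (nat_lit 10) (nat_lit 5) (nat_lit 11) (nat_lit 4) (nat_lit 317) (nat_lit 242) (nat_lit 161))))) (XT.nd (nat_lit 234) (nat_lit 152) (nat_lit 0) (XT.nd (nat_lit 78) (nat_lit 0) (nat_lit 0) (XT.lf (nat_lit 0) (nat_lit 29063317602) (nat_lit 76) (nat_lit 10036366870) (nat_lit 152) (nat_lit 27751860437) (nat_lit 9) (nat_lit 5) (nat_lit 10) (nat_lit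 5) (nat_lit 11) (nat_lit 4) (nat_lit 318) (nat_lit 242) (nat_lit 160)) (XT.nd (nat_lit 78) (nat_lit 0) (nat_lit 0) (XT.lf (nat_lit 0) (nat_lit 47117729912) (nat_lit 76) (nat_lit 897754093) (nat_lit 152) (nat_lit 21888155160) (nat_lit 9) (nat_lit 5) (nat_lit 10) (nat_lit 5) (nat_lit 11) (nat_lit 4) (nat_lit 319) (nat_lit 242) (nat_lit 159)) (XT.lf (nat_lit 0) (nat_lit 57445008023) (nat_lit 152) (nat_lit 7144680703) (nat_lit 0) (nat_lit 8516622917) (nat_lit 9) (nat_lit 5) (nat_lit 11) (nat_lit 4) (nat_lit 9) (nat_lit 4) (nat_lit 320) (nat_lit 242) (nat_lit 158)))) (XT.nd (nat_lit 78) (nat_lit 76) (nat_lit 0) (XT.lf (nat_lit 0) (nat_lit 9427224331) (nat_lit 76) (nat_lit 58003537820) (nat_lit 76) (nat_lit 9035823968) (nat_lit 8) (nat_lit 4) (nat_lit 9) (nat_lit 5) (nat_lit 9) (nat_lit 4) (nat_lit 321) (nat_lit 242) (nat_lit 157)) (XT.nd (nat_lit 78) (nat_lit 76) (nat_lit 0) (XT.lf (nat_lit 0)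 (nat_lit 26951498027) (nat_lit 76) (nat_lit 51023391993) (nat_lit 76) (nat_lit 2018222191) (nat_lit 8) (nat_lit 4) (nat_lit 9) (nat_lit 5) (nat_lit 9) (nat_lit 4) (nat_lit 322) (nat_lit 242) (nat_lit 156)) (XT.lf (nat_lit 0) (nat_lit 5231937210) (nat_lit 152) (nat_lit 38420009597) (nat_lit 76) (nat_lit 40042902172) (nat_lit 7) (nat_lit 5) (nat_lit 9) (nat_lit 5) (nat_lit 8) (nat_lit 4) (nat_lit 323) (nat_lit 242) (nat_lit 155)))))) (XT.nd (nat_lit 390) (nat_lit 0) (nat_lit 0) (XT.nd (nat_lit 156) (nat_lit 76) (nat_lit 0) (XT.nd (nat_lit 78) (nat_lit 0) (nat_lit 0) (XT.lf (nat_lit 0) (nat_lit 12789995871) (nat_lit 152) (nat_lit 23111124165) (nat_lit 76) (nat_lit 51680348361) (nat_lit 7) (nat_lit 5) (nat_lit 9) (nat_lit 5) (nat_lit 8) (nat_lit 4) (nat_lit 324) (nat_lit 242) (nat_lit 154)) (XT.lf (nat_lit 0) (nat_lit 20713331954) (nat_lit 152) (nat_lit 7059107773) (nat_lit 76) (nat_lit 63890366605)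 (nat_lit 7) (nat_lit 5) (nat_lit 9) (nat_lit 5) (nat_lit 8) (nat_lit 4) (nat_lit 325) (nat_lit 242) (nat_lit 153))) (XT.nd (nat_lit 78) (nat_lit 0) (nat_lit 0) (XT.lf (nat_lit 0) (nat_lit 9968785575) (nat_lit 76) (nat_lit 19147851035) (nat_lit 152) (nat_lit 66829068866) (nat_lit 6) (nat_lit 5) (nat_lit 7) (nat_lit 5) (nat_lit 8) (nat_lit 4) (nat_lit 326) (nat_lit 242) (nat_lit 152)) (XT.nd (nat_lit 78) (nat_lit 0) (nat_lit 0) (XT.lf (nat_lit 0) (nat_lit 27974946556) (nat_lit 76) (nat_lit 10026177096) (nat_lit 152) (nat_lit 62439803372) (nat_lit 6) (nat_lit 5) (nat_lit 7) (nat_lit 5) (nat_lit 8) (nat_lit 4) (nat_lit 327) (nat_lit 242) (nat_lit 151)) (XT.lf (nat_lit 0) (nat_lit 46861756896) (nat_lit 76) (nat_lit 456982789) (nat_lit 152) (nat_lit 57842510414) (nat_lit 6) (nat_lit 5) (nat_lit 7) (nat_lit 5) (nat_lit 8) (nat_lit 4) (nat_lit 328) (nat_lit 242) (nat_lit 150))))) (XT.nd (nat_lit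 30810) (nat_lit 0) (nat_lit 18392) (XT.nd (nat_lit 78) (nat_lit 0) (nat_lit 0) (XT.lf (nat_lit 0) (nat_lit 57183782510) (nat_lit 152) (nat_lit 43535841375) (nat_lit 0) (nat_lit 9395526287) (nat_lit 6) (nat_lit 5) (nat_lit 8) (nat_lit 4) (nat_lit 6) (nat_lit 4) (nat_lit 329) (nat_lit 242) (nat_lit 149)) (XT.nd (nat_lit 78) (nat_lit 0) (nat_lit 0) (XT.lf (nat_lit 0) (nat_lit 67536551430) (nat_lit 152) (nat_lit 28056684537) (nat_lit 0) (nat_lit 19723681944) (nat_lit 6) (nat_lit 5) (nat_lit 8) (nat_lit 4) (nat_lit 6) (nat_lit 4) (nat_lit 330) (nat_lit 242) (nat_lit 148)) (XT.lf (nat_lit 0) (nat_lit 78397303096) (nat_lit 152) (nat_lit 11820774756) (nat_lit 0) (nat_lit 30560992408) (nat_lit 6) (nat_lit 5) (nat_lit 8) (nat_lit 4) (nat_lit 6) (nat_lit 4) (nat_lit 331) (nat_lit 242) (nat_lit 147)))) (XT.nd (nat_lit 78) (nat_lit 836) (nat_lit 0) (XT.lf (nat_lit 0) (nat_lit 2932376693) (nat_lit 380)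 (nat_lit 171838716) (nat_lit 380) (nat_lit 171838716) (nat_lit 259) (nat_lit 3) (nat_lit 264) (nat_lit 3) (nat_lit 264) (nat_lit 5) (nat_lit 243) (nat_lit 243) (nat_lit 234)) (XT.nd (nat_lit 78) (nat_lit 456) (nat_lit 0) (XT.lf (nat_lit 0) (nat_lit 3027575097) (nat_lit 380) (nat_lit 2112008775) (nat_lit 456) (nat_lit 1452571996) (nat_lit 254) (nat_lit 5) (nat_lit 259) (nat_lit 3) (nat_lit 260) (nat_lit 5) (nat_lit 244) (nat_lit 243) (nat_lit 233)) (XT.lf (nat_lit 0) (nat_lit 66344502) (nat_lit 456) (nat_lit 3802777090) (nat_lit 532) (nat_lit 2771817201) (nat_lit 248) (nat_lit 5) (nat_lit 254) (nat_lit 5) (nat_lit 255) (nat_lit 5) (nat_lit 245) (nat_lit 243) (nat_lit 232))))))))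
noncomputable def xc56 : XT := (XT.nd (nat_lit 1716) (nat_lit 5168) (nat_lit 0) (XT.nd (nat_lit 858) (nat_lit 6156) (nat_lit 0) (XT.nd (nat_lit 390) (nat_lit 3952) (nat_lit 0) (XT.nd (nat_lit 156) (nat_lit 532) (nat_lit 0) (XT.nd (nat_lit 78) (nat_lit 532) (nat_lit 0) (XT.lf (nat_lit 76) (nat_lit 1247139131) (nat_lit 0) (nat_lit 2363260748) (nat_lit 532) (nat_lit 3087277426) (nat_lit 249) (nat_lit 5) (nat_lit 248) (nat_lit 5) (nat_lit 255) (nat_lit 5) (nat_lit 246) (nat_lit 243) (nat_lit 231)) (XT.lf (nat_lit 0) (nat_lit 380256363) (nat_lit 532) (nat_lit 263835368) (nat_lit 608) (nat_lit 6119162599) (nat_lit 241) (nat_lit 5) (nat_lit 248) (nat_lit 5) (nat_lit 249) (nat_lit 5) (nat_lit 247) (nat_lit 243) (nat_lit 230))) (XT.nd (nat_lit 78) (nat_lit 608) (nat_lit 0) (XT.lf (nat_lit 0) (nat_lit 3808104904) (nat_lit 532) (nat_lit 1723052696) (nat_lit 608) (nat_lit 1305158658) (nat_lit 242) (nat_lit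 5) (nat_lit 249) (nat_lit 5) (nat_lit 250) (nat_lit 5) (nat_lit 248) (nat_lit 243) (nat_lit 229)) (XT.nd (nat_lit 78) (nat_lit 0) (nat_lit 0) (XT.lf (nat_lit 0) (nat_lit 326030528) (nat_lit 608) (nat_lit 3130868658) (nat_lit 684) (nat_lit 3461346654) (nat_lit 234) (nat_lit 5) (nat_lit 242) (nat_lit 5) (nat_lit 243) (nat_lit 5) (nat_lit 249) (nat_lit 243) (nat_lit 228)) (XT.lf (nat_lit 76) (nat_lit 2494182622) (nat_lit 0) (nat_lit 1137410870) (nat_lit 684) (nat_lit 3376961315) (nat_lit 235) (nat_lit 5) (nat_lit 234) (nat_lit 5) (nat_lit 243) (nat_lit 5) (nat_lit 250) (nat_lit 243) (nat_lit 227))))) (XT.nd (nat_lit 234) (nat_lit 2660) (nat_lit 0) (XT.nd (nat_lit 78) (nat_lit 760) (nat_lit 0) (XT.lf (nat_lit 0) (nat_lit 1242528128) (nat_lit 608) (nat_lit 5729380239) (nat_lit 684) (nat_lit 135929011) (nat_lit 227) (nat_lit 5) (nat_lit 235) (nat_lit 5) (nat_lit 236) (nat_lit 5) (nat_lit 251)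 (nat_lit 243) (nat_lit 226)) (XT.nd (nat_lit 78) (nat_lit 684) (nat_lit 0) (XT.lf (nat_lit 0) (nat_lit 3079721494) (nat_lit 684) (nat_lit 5176553) (nat_lit 76) (nat_lit 4130455733) (nat_lit 226) (nat_lit 5) (nat_lit 235) (nat_lit 5) (nat_lit 227) (nat_lit 5) (nat_lit 252) (nat_lit 243) (nat_lit 225)) (XT.lf (nat_lit 0) (nat_lit 6139974293) (nat_lit 684) (nat_lit 198996133) (nat_lit 760) (nat_lit 993144004) (nat_lit 217) (nat_lit 5) (nat_lit 226) (nat_lit 5) (nat_lit 227) (nat_lit 5) (nat_lit 253) (nat_lit 243) (nat_lit 224)))) (XT.nd (nat_lit 78) (nat_lit 1824) (nat_lit 0) (XT.lf (nat_lit 0) (nat_lit 2170313030) (nat_lit 836) (nat_lit 2398096015) (nat_lit 76) (nat_lit 2888815000) (nat_lit 206) (nat_lit 5) (nat_lit 217) (nat_lit 5) (nat_lit 207) (nat_lit 5) (nat_lit 254) (nat_lit 243) (nat_lit 223)) (XT.nd (nat_lit 78) (nat_lit 988) (nat_lit 0) (XT.lf (nat_lit 0) (nat_lit 3996880180) (nat_lit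 836) (nat_lit 1366310887) (nat_lit 912) (nat_lit 2228770037) (nat_lit 195) (nat_lit 5) (nat_lit 206) (nat_lit 5) (nat_lit 207) (nat_lit 5) (nat_lit 255) (nat_lit 243) (nat_lit 222)) (XT.lf (nat_lit 0) (nat_lit 879787399) (nat_lit 988) (nat_lit 4808279467) (nat_lit 76) (nat_lit 2047973463) (nat_lit 182) (nat_lit 5) (nat_lit 195) (nat_lit 5) (nat_lit 183) (nat_lit 5) (nat_lit 256) (nat_lit 243) (nat_lit 221)))))) (XT.nd (nat_lit 390) (nat_lit 2584) (nat_lit 0) (XT.nd (nat_lit 156) (nat_lit 1520) (nat_lit 0) (XT.nd (nat_lit 78) (nat_lit 1064) (nat_lit 0) (XT.lf (nat_lit 0) (nat_lit 1834933226) (nat_lit 988) (nat_lit 2181811478) (nat_lit 1064) (nat_lit 3872715189) (nat_lit 169) (nat_lit 5) (nat_lit 182) (nat_lit 5) (nat_lit 183) (nat_lit 5) (nat_lit 257) (nat_lit 243) (nat_lit 220)) (XT.lf (nat_lit 0) (nat_lit 730050267) (nat_lit 1064) (nat_lit 6507867008) (nat_lit 1140) (nat_lit 815164882)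 (nat_lit 155) (nat_lit 5) (nat_lit 169) (nat_lit 5) (nat_lit 170) (nat_lit 5) (nat_lit 258) (nat_lit 243) (nat_lit 219))) (XT.nd (nat_lit 78) (nat_lit 1444) (nat_lit 0) (XT.lf (nat_lit 0) (nat_lit 2293370063) (nat_lit 1140) (nat_lit 418669624) (nat_lit 76) (nat_lit 5514135844) (nat_lit 154) (nat_lit 5) (nat_lit 169) (nat_lit 5) (nat_lit 155) (nat_lit 5) (nat_lit 259) (nat_lit 243) (nat_lit 218)) (XT.nd (nat_lit 78) (nat_lit 608) (nat_lit 0) (XT.lf (nat_lit 0) (nat_lit 5485919687) (nat_lit 912) (nat_lit 1591247417) (nat_lit 76) (nat_lit 1332461568) (nat_lit 143) (nat_lit 5) (nat_lit 155) (nat_lit 5) (nat_lit 144) (nat_lit 5) (nat_lit 260) (nat_lit 243) (nat_lit 217)) (XT.lf (nat_lit 0) (nat_lit 189699829) (nat_lit 608) (nat_lit 2821083674) (nat_lit 76) (nat_lit 5592936385) (nat_lit 135) (nat_lit 5) (nat_lit 143) (nat_lit 5) (nat_lit 136) (nat_lit 5) (nat_lit 261) (nat_lit 243) (nat_lit 216)))))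 (XT.nd (nat_lit 234) (nat_lit 988) (nat_lit 0) (XT.nd (nat_lit 78) (nat_lit 1064) (nat_lit 0) (XT.lf (nat_lit 0) (nat_lit 3348769593) (nat_lit 608) (nat_lit 4132529521) (nat_lit 76) (nat_lit 1327107947) (nat_lit 128) (nat_lit 5) (nat_lit 136) (nat_lit 5) (nat_lit 129) (nat_lit 5) (nat_lit 262) (nat_lit 243) (nat_lit 215)) (XT.nd (nat_lit 78) (nat_lit 608) (nat_lit 0) (XT.lf (nat_lit 0) (nat_lit 3497457349) (nat_lit 456) (nat_lit 3141714590) (nat_lit 532) (nat_lit 2385215798) (nat_lit 122) (nat_lit 5) (nat_lit 128) (nat_lit 5) (nat_lit 129) (nat_lit 5) (nat_lit 263) (nat_lit 243) (nat_lit 214)) (XT.lf (nat_lit 0) (nat_lit 788609016) (nat_lit 608) (nat_lit 7009345198) (nat_lit 76) (nat_lit 1454347117) (nat_lit 114) (nat_lit 5) (nat_lit 122) (nat_lit 5) (nat_lit 115) (nat_lit 5) (nat_lit 264) (nat_lit 243) (nat_lit 213)))) (XT.nd (nat_lit 78) (nat_lit 532) (nat_lit 0) (XT.lf (nat_lit 0) (nat_lit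 864150315) (nat_lit 456) (nat_lit 3193126212) (nat_lit 532) (nat_lit 5434290573) (nat_lit 108) (nat_lit 5) (nat_lit 114) (nat_lit 5) (nat_lit 115) (nat_lit 5) (nat_lit 265) (nat_lit 243) (nat_lit 212)) (XT.nd (nat_lit 78) (nat_lit 532) (nat_lit 0) (XT.lf (nat_lit 0) (nat_lit 7469671010) (nat_lit 532) (nat_lit 602449274) (nat_lit 76) (nat_lit 1671485554) (nat_lit 108) (nat_lit 5) (nat_lit 115) (nat_lit 5) (nat_lit 109) (nat_lit 5) (nat_lit 266) (nat_lit 243) (nat_lit 211)) (XT.lf (nat_lit 0) (nat_lit 1028164022) (nat_lit 532) (nat_lit 2191388341) (nat_lit 76) (nat_lit 6788471800) (nat_lit 101) (nat_lit 5) (nat_lit 108) (nat_lit 5) (nat_lit 102) (nat_lit 5) (nat_lit 267) (nat_lit 243) (nat_lit 210))))))) (XT.nd (nat_lit 858) (nat_lit 1976) (nat_lit 0) (XT.nd (nat_lit 390) (nat_lit 1596) (nat_lit 0) (XT.nd (nat_lit 156) (nat_lit 836) (nat_lit 0) (XT.nd (nat_lit 78) (nat_lit 380) (nat_lit 0)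 (XT.lf (nat_lit 0) (nat_lit 4434479997) (nat_lit 456) (nat_lit 3935964772) (nat_lit 76) (nat_lit 1915151393) (nat_lit 96) (nat_lit 5) (nat_lit 102) (nat_lit 5) (nat_lit 97) (nat_lit 5) (nat_lit 268) (nat_lit 243) (nat_lit 209)) (XT.lf (nat_lit 0) (nat_lit 4731032324) (nat_lit 380) (nat_lit 3283828155) (nat_lit 456) (nat_lit 2562257064) (nat_lit 91) (nat_lit 5) (nat_lit 96) (nat_lit 5) (nat_lit 97) (nat_lit 5) (nat_lit 269) (nat_lit 243) (nat_lit 208))) (XT.nd (nat_lit 78) (nat_lit 380) (nat_lit 0) (XT.lf (nat_lit 0) (nat_lit 868879845) (nat_lit 456) (nat_lit 7938122861) (nat_lit 76) (nat_lit 2076268091) (nat_lit 85) (nat_lit 5) (nat_lit 91) (nat_lit 5) (nat_lit 86) (nat_lit 5) (nat_lit 270) (nat_lit 243) (nat_lit 207)) (XT.nd (nat_lit 78) (nat_lit 0) (nat_lit 0) (XT.lf (nat_lit 0) (nat_lit 940073272) (nat_lit 380) (nat_lit 3490637081) (nat_lit 456) (nat_lit 6773057816) (nat_lit 80) (nat_lit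 5) (nat_lit 85) (nat_lit 5) (nat_lit 86) (nat_lit 5) (nat_lit 271) (nat_lit 243) (nat_lit 206)) (XT.lf (nat_lit 0) (nat_lit 8185009876) (nat_lit 456) (nat_lit 1243856612) (nat_lit 76) (nat_lit 2111146279) (nat_lit 80) (nat_lit 5) (nat_lit 86) (nat_lit 5) (nat_lit 81) (nat_lit 5) (nat_lit 272) (nat_lit 243) (nat_lit 205))))) (XT.nd (nat_lit 234) (nat_lit 608) (nat_lit 0) (XT.nd (nat_lit 78) (nat_lit 608) (nat_lit 0) (XT.lf (nat_lit 0) (nat_lit 259983453) (nat_lit 380) (nat_lit 3650000404) (nat_lit 76) (nat_lit 7982242550) (nat_lit 75) (nat_lit 5) (nat_lit 80) (nat_lit 5) (nat_lit 76) (nat_lit 5) (nat_lit 273) (nat_lit 243) (nat_lit 204)) (XT.nd (nat_lit 78) (nat_lit 304) (nat_lit 0) (XT.lf (nat_lit 0) (nat_lit 3993949808) (nat_lit 380) (nat_lit 6337987152) (nat_lit 76) (nat_lit 1929024048) (nat_lit 71) (nat_lit 5) (nat_lit 76) (nat_lit 5) (nat_lit 72) (nat_lit 5) (nat_lit 274) (nat_lit 243)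 (nat_lit 203)) (XT.lf (nat_lit 0) (nat_lit 3323206267) (nat_lit 304) (nat_lit 4621446169) (nat_lit 380) (nat_lit 4702707654) (nat_lit 67) (nat_lit 5) (nat_lit 71) (nat_lit 5) (nat_lit 72) (nat_lit 5) (nat_lit 275) (nat_lit 243) (nat_lit 202)))) (XT.nd (nat_lit 78) (nat_lit 304) (nat_lit 0) (XT.lf (nat_lit 0) (nat_lit 438674313) (nat_lit 304) (nat_lit 11660758444) (nat_lit 380) (nat_lit 953572844) (nat_lit 63) (nat_lit 5) (nat_lit 67) (nat_lit 5) (nat_lit 68) (nat_lit 5) (nat_lit 276) (nat_lit 243) (nat_lit 201)) (XT.nd (nat_lit 78) (nat_lit 228) (nat_lit 0) (XT.lf (nat_lit 0) (nat_lit 2993440671) (nat_lit 380) (nat_lit 2771243171) (nat_lit 76) (nat_lit 7711443865) (nat_lit 62) (nat_lit 5) (nat_lit 67) (nat_lit 5) (nat_lit 63) (nat_lit 5) (nat_lit 277) (nat_lit 243) (nat_lit 200)) (XT.lf (nat_lit 0) (nat_lit 7124639811) (nat_lit 304) (nat_lit 6320553477) (nat_lit 76) (nat_lit 474840800) (nat_lit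 59) (nat_lit 5) (nat_lit 63) (nat_lit 5) (nat_lit 60) (nat_lit 5) (nat_lit 278) (nat_lit 243) (nat_lit 199)))))) (XT.nd (nat_lit 390) (nat_lit 912) (nat_lit 0) (XT.nd (nat_lit 156) (nat_lit 456) (nat_lit 0) (XT.nd (nat_lit 78) (nat_lit 304) (nat_lit 0) (XT.lf (nat_lit 0) (nat_lit 4085043011) (nat_lit 304) (nat_lit 7434461035) (nat_lit 380) (nat_lit 2865021536) (nat_lit 55) (nat_lit 5) (nat_lit 59) (nat_lit 5) (nat_lit 60) (nat_lit 5) (nat_lit 279) (nat_lit 243) (nat_lit 198)) (XT.lf (nat_lit 0) (nat_lit 166977066) (nat_lit 228) (nat_lit 1070050714) (nat_lit 304) (nat_lit 13634951719) (nat_lit 51) (nat_lit 5) (nat_lit 54) (nat_lit 5) (nat_lit 55) (nat_lit 5) (nat_lit 280) (nat_lit 243) (nat_lit 197))) (XT.nd (nat_lit 78) (nat_lit 456) (nat_lit 0) (XT.lf (nat_lit 0) (nat_lit 5581016390) (nat_lit 304) (nat_lit 4187790770) (nat_lit 76) (nat_lit 5611355918) (nat_lit 51) (nat_lit 5) (nat_lit 55)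 (nat_lit 5) (nat_lit 52) (nat_lit 5) (nat_lit 281) (nat_lit 243) (nat_lit 196)) (XT.nd (nat_lit 78) (nat_lit 228) (nat_lit 0) (XT.lf (nat_lit 0) (nat_lit 6888194386) (nat_lit 228) (nat_lit 3268655935) (nat_lit 304) (nat_lit 5756552477) (nat_lit 48) (nat_lit 5) (nat_lit 51) (nat_lit 5) (nat_lit 52) (nat_lit 5) (nat_lit 282) (nat_lit 243) (nat_lit 195)) (XT.lf (nat_lit 0) (nat_lit 2049129685) (nat_lit 228) (nat_lit 12949254809) (nat_lit 304) (nat_lit 1473894984) (nat_lit 45) (nat_lit 5) (nat_lit 48) (nat_lit 5) (nat_lit 49) (nat_lit 5) (nat_lit 283) (nat_lit 243) (nat_lit 194))))) (XT.nd (nat_lit 234) (nat_lit 456) (nat_lit 0) (XT.nd (nat_lit 78) (nat_lit 380) (nat_lit 0) (XT.lf (nat_lit 0) (nat_lit 3031601030) (nat_lit 304) (nat_lit 3341899976) (nat_lit 76) (nat_lit 10682772486) (nat_lit 44) (nat_lit 5) (nat_lit 48) (nat_lit 5) (nat_lit 45) (nat_lit 5) (nat_lit 284) (nat_lit 243) (nat_lit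 193)) (XT.nd (nat_lit 78) (nat_lit 152) (nat_lit 0) (XT.lf (nat_lit 0) (nat_lit 7761979754) (nat_lit 304) (nat_lit 9316725797) (nat_lit 76) (nat_lit 589493565) (nat_lit 41) (nat_lit 5) (nat_lit 45) (nat_lit 5) (nat_lit 42) (nat_lit 5) (nat_lit 285) (nat_lit 243) (nat_lit 192)) (XT.lf (nat_lit 0) (nat_lit 2286389671) (nat_lit 152) (nat_lit 10508860858) (nat_lit 228) (nat_lit 5513548266) (nat_lit 39) (nat_lit 5) (nat_lit 41) (nat_lit 5) (nat_lit 42) (nat_lit 5) (nat_lit 286) (nat_lit 243) (nat_lit 191)))) (XT.nd (nat_lit 78) (nat_lit 456) (nat_lit 0) (XT.lf (nat_lit 0) (nat_lit 14583520198) (nat_lit 152) (nat_lit 3539721884) (nat_lit 228) (nat_lit 856960336) (nat_lit 39) (nat_lit 5) (nat_lit 41) (nat_lit 5) (nat_lit 42) (nat_lit 5) (nat_lit 287) (nat_lit 243) (nat_lit 190)) (XT.nd (nat_lit 78) (nat_lit 152) (nat_lit 0) (XT.lf (nat_lit 0) (nat_lit 4015487277) (nat_lit 304) (nat_lit 11873895543)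 (nat_lit 76) (nat_lit 3792839719) (nat_lit 35) (nat_lit 5) (nat_lit 39) (nat_lit 5) (nat_lit 36) (nat_lit 5) (nat_lit 288) (nat_lit 243) (nat_lit 189)) (XT.lf (nat_lit 0) (nat_lit 179049841) (nat_lit 152) (nat_lit 8968650942) (nat_lit 228) (nat_lit 11270430175) (nat_lit 33) (nat_lit 5) (nat_lit 35) (nat_lit 5) (nat_lit 36) (nat_lit 5) (nat_lit 289) (nat_lit 243) (nat_lit 188))))))))
noncomputable def xc57 : XT := (XT.nd (nat_lit 1716) (nat_lit 456) (nat_lit 0) (XT.nd (nat_lit 858) (nat_lit 684) (nat_lit 0) (XT.nd (nat_lit 390) (nat_lit 532) (nat_lit 0) (XT.nd (nat_lit 156) (nat_lit 228) (nat_lit 0) (XT.nd (nat_lit 78) (nat_lit 152) (nat_lit 0) (XT.lf (nat_lit 0) (nat_lit 13007884276) (nat_lit 152) (nat_lit 1603052599) (nat_lit 228) (nat_lit 6577720650) (nat_lit 33) (nat_lit 5) (nat_lit 35) (nat_lit 5) (nat_lit 36) (nat_lit 5) (nat_lit 290) (nat_lit 243) (nat_lit 187)) (XT.lf (nat_lit 0)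 (nat_lit 4435578321) (nat_lit 152) (nat_lit 15967537128) (nat_lit 228) (nat_lit 1592974013) (nat_lit 31) (nat_lit 5) (nat_lit 33) (nat_lit 5) (nat_lit 34) (nat_lit 5) (nat_lit 291) (nat_lit 243) (nat_lit 186))) (XT.nd (nat_lit 78) (nat_lit 152) (nat_lit 0) (XT.lf (nat_lit 0) (nat_lit 3626414460) (nat_lit 228) (nat_lit 5111032588) (nat_lit 76) (nat_lit 14103750855) (nat_lit 30) (nat_lit 5) (nat_lit 33) (nat_lit 5) (nat_lit 31) (nat_lit 5) (nat_lit 292) (nat_lit 243) (nat_lit 185)) (XT.nd (nat_lit 78) (nat_lit 0) (nat_lit 0) (XT.lf (nat_lit 0) (nat_lit 8033650734) (nat_lit 152) (nat_lit 1075065268) (nat_lit 228) (nat_lit 14618372138) (nat_lit 28) (nat_lit 5) (nat_lit 30) (nat_lit 5) (nat_lit 31) (nat_lit 5) (nat_lit 293) (nat_lit 243) (nat_lit 184)) (XT.lf (nat_lit 0) (nat_lit 14943787401) (nat_lit 228) (nat_lit 2847897458) (nat_lit 76) (nat_lit 6863272385) (nat_lit 28) (nat_lit 5) (nat_lit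 31) (nat_lit 5) (nat_lit 29) (nat_lit 5) (nat_lit 294) (nat_lit 243) (nat_lit 183))))) (XT.nd (nat_lit 234) (nat_lit 152) (nat_lit 0) (XT.nd (nat_lit 78) (nat_lit 228) (nat_lit 0) (XT.lf (nat_lit 0) (nat_lit 10775478193) (nat_lit 152) (nat_lit 10370057166) (nat_lit 228) (nat_lit 4481478655) (nat_lit 26) (nat_lit 5) (nat_lit 28) (nat_lit 5) (nat_lit 29) (nat_lit 5) (nat_lit 295) (nat_lit 243) (nat_lit 182)) (XT.nd (nat_lit 78) (nat_lit 152) (nat_lit 0) (XT.lf (nat_lit 0) (nat_lit 980960250) (nat_lit 228) (nat_lit 1580090974) (nat_lit 76) (nat_lit 24086640992) (nat_lit 25) (nat_lit 5) (nat_lit 28) (nat_lit 5) (nat_lit 26) (nat_lit 5) (nat_lit 296) (nat_lit 243) (nat_lit 181)) (XT.lf (nat_lit 0) (nat_lit 6763609775) (nat_lit 228) (nat_lit 15277554973) (nat_lit 76) (nat_lit 5672752171) (nat_lit 23) (nat_lit 5) (nat_lit 26) (nat_lit 5) (nat_lit 24) (nat_lit 5) (nat_lit 297) (nat_lit 243) (nat_lit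 180)))) (XT.nd (nat_lit 78) (nat_lit 152) (nat_lit 0) (XT.lf (nat_lit 0) (nat_lit 12841844112) (nat_lit 228) (nat_lit 1731333806) (nat_lit 76) (nat_lit 14260116511) (nat_lit 23) (nat_lit 5) (nat_lit 26) (nat_lit 5) (nat_lit 24) (nat_lit 5) (nat_lit 298) (nat_lit 243) (nat_lit 179)) (XT.nd (nat_lit 78) (nat_lit 0) (nat_lit 0) (XT.lf (nat_lit 0) (nat_lit 12683493994) (nat_lit 152) (nat_lit 6628299901) (nat_lit 228) (nat_lit 10694246279) (nat_lit 21) (nat_lit 5) (nat_lit 23) (nat_lit 5) (nat_lit 24) (nat_lit 5) (nat_lit 299) (nat_lit 243) (nat_lit 178)) (XT.lf (nat_lit 0) (nat_lit 26106489179) (nat_lit 228) (nat_lit 3453705305) (nat_lit 76) (nat_lit 1677223157) (nat_lit 21) (nat_lit 5) (nat_lit 24) (nat_lit 5) (nat_lit 22) (nat_lit 4) (nat_lit 300) (nat_lit 243) (nat_lit 177)))))) (XT.nd (nat_lit 390) (nat_lit 304) (nat_lit 0) (XT.nd (nat_lit 156) (nat_lit 228) (nat_lit 0) (XT.nd (nat_lit 78)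 (nat_lit 0) (nat_lit 0) (XT.lf (nat_lit 0) (nat_lit 841068008) (nat_lit 152) (nat_lit 21326743438) (nat_lit 76) (nat_lit 10358045753) (nat_lit 19) (nat_lit 5) (nat_lit 21) (nat_lit 5) (nat_lit 20) (nat_lit 5) (nat_lit 301) (nat_lit 243) (nat_lit 176)) (XT.lf (nat_lit 0) (nat_lit 7011479456) (nat_lit 152) (nat_lit 7324947847) (nat_lit 76) (nat_lit 19540617544) (nat_lit 19) (nat_lit 5) (nat_lit 21) (nat_lit 5) (nat_lit 20) (nat_lit 5) (nat_lit 302) (nat_lit 243) (nat_lit 175))) (XT.nd (nat_lit 78) (nat_lit 76) (nat_lit 0) (XT.lf (nat_lit 0) (nat_lit 7473338756) (nat_lit 152) (nat_lit 6059424678) (nat_lit 228) (nat_lit 21761784619) (nat_lit 17) (nat_lit 5) (nat_lit 19) (nat_lit 5) (nat_lit 20) (nat_lit 5) (nat_lit 303) (nat_lit 243) (nat_lit 174)) (XT.nd (nat_lit 78) (nat_lit 76) (nat_lit 0) (XT.lf (nat_lit 0) (nat_lit 20452826029) (nat_lit 228) (nat_lit 13690804441) (nat_lit 76) (nat_lit 2637139976)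 (nat_lit 17) (nat_lit 5) (nat_lit 20) (nat_lit 5) (nat_lit 18) (nat_lit 4) (nat_lit 304) (nat_lit 243) (nat_lit 173)) (XT.lf (nat_lit 0) (nat_lit 1059242261) (nat_lit 76) (nat_lit 26703628031) (nat_lit 152) (nat_lit 10577138560) (nat_lit 16) (nat_lit 5) (nat_lit 17) (nat_lit 5) (nat_lit 18) (nat_lit 4) (nat_lit 305) (nat_lit 243) (nat_lit 172))))) (XT.nd (nat_lit 234) (nat_lit 76) (nat_lit 0) (XT.nd (nat_lit 78) (nat_lit 228) (nat_lit 0) (XT.lf (nat_lit 0) (nat_lit 16787829785) (nat_lit 76) (nat_lit 18765028802) (nat_lit 152) (nat_lit 4420940429) (nat_lit 16) (nat_lit 5) (nat_lit 17) (nat_lit 5) (nat_lit 18) (nat_lit 4) (nat_lit 306) (nat_lit 243) (nat_lit 171)) (XT.nd (nat_lit 78) (nat_lit 152) (nat_lit 0) (XT.lf (nat_lit 0) (nat_lit 1977697254) (nat_lit 152) (nat_lit 8449513519) (nat_lit 76) (nat_lit 31262265175) (nat_lit 15) (nat_lit 5) (nat_lit 17) (nat_lit 5) (nat_lit 16) (nat_lit 5)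 (nat_lit 307) (nat_lit 243) (nat_lit 170)) (XT.lf (nat_lit 0) (nat_lit 7075844959) (nat_lit 152) (nat_lit 1573568991) (nat_lit 228) (nat_lit 34838892594) (nat_lit 13) (nat_lit 5) (nat_lit 15) (nat_lit 5) (nat_lit 16) (nat_lit 5) (nat_lit 308) (nat_lit 243) (nat_lit 169)))) (XT.nd (nat_lit 78) (nat_lit 76) (nat_lit 0) (XT.lf (nat_lit 0) (nat_lit 15793115515) (nat_lit 228) (nat_lit 21936277275) (nat_lit 76) (nat_lit 7643553275) (nat_lit 13) (nat_lit 5) (nat_lit 16) (nat_lit 5) (nat_lit 14) (nat_lit 4) (nat_lit 309) (nat_lit 243) (nat_lit 168)) (XT.nd (nat_lit 78) (nat_lit 76) (nat_lit 0) (XT.lf (nat_lit 0) (nat_lit 23287333821) (nat_lit 228) (nat_lit 6790977898) (nat_lit 76) (nat_lit 17273724341) (nat_lit 13) (nat_lit 5) (nat_lit 16) (nat_lit 5) (nat_lit 14) (nat_lit 4) (nat_lit 310) (nat_lit 243) (nat_lit 167)) (XT.lf (nat_lit 0) (nat_lit 9255225678) (nat_lit 76) (nat_lit 21968527349) (nat_lit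 152) (nat_lit 18204320393) (nat_lit 12) (nat_lit 5) (nat_lit 13) (nat_lit 5) (nat_lit 14) (nat_lit 4) (nat_lit 311) (nat_lit 243) (nat_lit 166))))))) (XT.nd (nat_lit 858) (nat_lit 152) (nat_lit 0) (XT.nd (nat_lit 390) (nat_lit 152) (nat_lit 0) (XT.nd (nat_lit 156) (nat_lit 152) (nat_lit 0) (XT.nd (nat_lit 78) (nat_lit 0) (nat_lit 0) (XT.lf (nat_lit 0) (nat_lit 26209746895) (nat_lit 76) (nat_lit 13396354099) (nat_lit 152) (nat_lit 12000355153) (nat_lit 12) (nat_lit 5) (nat_lit 13) (nat_lit 5) (nat_lit 14) (nat_lit 4) (nat_lit 312) (nat_lit 243) (nat_lit 165)) (XT.lf (nat_lit 0) (nat_lit 43977799882) (nat_lit 76) (nat_lit 4409957594) (nat_lit 152) (nat_lit 5506610734) (nat_lit 12) (nat_lit 5) (nat_lit 13) (nat_lit 5) (nat_lit 14) (nat_lit 4) (nat_lit 313) (nat_lit 243) (nat_lit 164))) (XT.nd (nat_lit 78) (nat_lit 0) (nat_lit 0) (XT.lf (nat_lit 0) (nat_lit 1377754380) (nat_lit 152) (nat_lit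 49926713721) (nat_lit 76) (nat_lit 4989098251) (nat_lit 10) (nat_lit 5) (nat_lit 12) (nat_lit 5) (nat_lit 11) (nat_lit 4) (nat_lit 314) (nat_lit 243) (nat_lit 163)) (XT.nd (nat_lit 78) (nat_lit 0) (nat_lit 0) (XT.lf (nat_lit 0) (nat_lit 8622517767) (nat_lit 152) (nat_lit 35271544436) (nat_lit 76) (nat_lit 14913138650) (nat_lit 10) (nat_lit 5) (nat_lit 12) (nat_lit 5) (nat_lit 11) (nat_lit 4) (nat_lit 315) (nat_lit 243) (nat_lit 162)) (XT.lf (nat_lit 0) (nat_lit 16211807618) (nat_lit 152) (nat_lit 19914524506) (nat_lit 76) (nat_lit 25320729668) (nat_lit 10) (nat_lit 5) (nat_lit 12) (nat_lit 5) (nat_lit 11) (nat_lit 4) (nat_lit 316) (nat_lit 243) (nat_lit 161))))) (XT.nd (nat_lit 234) (nat_lit 76) (nat_lit 0) (XT.nd (nat_lit 78) (nat_lit 76) (nat_lit 0) (XT.lf (nat_lit 0) (nat_lit 24163693670) (nat_lit 152) (nat_lit 3819089599) (nat_lit 76) (nat_lit 36236651286) (nat_lit 10) (nat_lit 5) (nat_lit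 12) (nat_lit 5) (nat_lit 11) (nat_lit 4) (nat_lit 317) (nat_lit 243) (nat_lit 160)) (XT.nd (nat_lit 78) (nat_lit 0) (nat_lit 0) (XT.lf (nat_lit 0) (nat_lit 13312864691) (nat_lit 76) (nat_lit 19312215694) (nat_lit 152) (nat_lit 34502000501) (nat_lit 9) (nat_lit 5) (nat_lit 10) (nat_lit 5) (nat_lit 11) (nat_lit 4) (nat_lit 318) (nat_lit 243) (nat_lit 159)) (XT.lf (nat_lit 0) (nat_lit 31353993730) (nat_lit 76) (nat_lit 10179295068) (nat_lit 152) (nat_lit 28646119709) (nat_lit 9) (nat_lit 5) (nat_lit 10) (nat_lit 5) (nat_lit 11) (nat_lit 4) (nat_lit 319) (nat_lit 243) (nat_lit 158)))) (XT.nd (nat_lit 78) (nat_lit 76) (nat_lit 0) (XT.lf (nat_lit 0) (nat_lit 50271245215) (nat_lit 76) (nat_lit 600841659) (nat_lit 152) (nat_lit 22512721251) (nat_lit 9) (nat_lit 5) (nat_lit 10) (nat_lit 5) (nat_lit 11) (nat_lit 4) (nat_lit 320) (nat_lit 243) (nat_lit 157)) (XT.nd (nat_lit 78) (nat_lit 76) (nat_lit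 0) (XT.lf (nat_lit 0) (nat_lit 60754510100) (nat_lit 152) (nat_lit 6732051678) (nat_lit 0) (nat_lit 9261625860) (nat_lit 9) (nat_lit 5) (nat_lit 11) (nat_lit 4) (nat_lit 9) (nat_lit 4) (nat_lit 321) (nat_lit 243) (nat_lit 156)) (XT.lf (nat_lit 0) (nat_lit 10646380638) (nat_lit 76) (nat_lit 60579538054) (nat_lit 76) (nat_lit 9050981480) (nat_lit 8) (nat_lit 4) (nat_lit 9) (nat_lit 5) (nat_lit 9) (nat_lit 4) (nat_lit 322) (nat_lit 243) (nat_lit 155)))))) (XT.nd (nat_lit 390) (nat_lit 0) (nat_lit 0) (XT.nd (nat_lit 156) (nat_lit 76) (nat_lit 0) (XT.nd (nat_lit 78) (nat_lit 76) (nat_lit 0) (XT.lf (nat_lit 0) (nat_lit 29011258728) (nat_lit 76) (nat_lit 53265821919) (nat_lit 76) (nat_lit 1703291695) (nat_lit 8) (nat_lit 4) (nat_lit 9) (nat_lit 5) (nat_lit 9) (nat_lit 4) (nat_lit 323) (nat_lit 243) (nat_lit 154)) (XT.lf (nat_lit 0) (nat_lit 5881845535) (nat_lit 152) (nat_lit 39654739643) (nat_lit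 76) (nat_lit 42331086822) (nat_lit 7) (nat_lit 5) (nat_lit 9) (nat_lit 5) (nat_lit 8) (nat_lit 4) (nat_lit 324) (nat_lit 243) (nat_lit 153))) (XT.nd (nat_lit 78) (nat_lit 76) (nat_lit 0) (XT.lf (nat_lit 0) (nat_lit 13799316108) (nat_lit 152) (nat_lit 23613089483) (nat_lit 76) (nat_lit 54536784390) (nat_lit 7) (nat_lit 5) (nat_lit 9) (nat_lit 5) (nat_lit 8) (nat_lit 4) (nat_lit 325) (nat_lit 243) (nat_lit 152)) (XT.nd (nat_lit 78) (nat_lit 76) (nat_lit 0) (XT.lf (nat_lit 0) (nat_lit 22101208497) (nat_lit 152) (nat_lit 6789595648) (nat_lit 76) (nat_lit 67344331231) (nat_lit 7) (nat_lit 5) (nat_lit 9) (nat_lit 5) (nat_lit 8) (nat_lit 4) (nat_lit 326) (nat_lit 243) (nat_lit 151)) (XT.lf (nat_lit 0) (nat_lit 11071849461) (nat_lit 76) (nat_lit 19841869044) (nat_lit 152) (nat_lit 69818801433) (nat_lit 6) (nat_lit 5) (nat_lit 7) (nat_lit 5) (nat_lit 8) (nat_lit 4) (nat_lit 327) (nat_lit 243) (nat_lit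 150))))) (XT.nd (nat_lit 30966) (nat_lit 0) (nat_lit 17784) (XT.nd (nat_lit 78) (nat_lit 0) (nat_lit 0) (XT.lf (nat_lit 0) (nat_lit 29949526844) (nat_lit 76) (nat_lit 10276653053) (nat_lit 152) (nat_lit 65226821278) (nat_lit 6) (nat_lit 5) (nat_lit 7) (nat_lit 5) (nat_lit 8) (nat_lit 4) (nat_lit 328) (nat_lit 243) (nat_lit 149)) (XT.nd (nat_lit 78) (nat_lit 0) (nat_lit 0) (XT.lf (nat_lit 0) (nat_lit 49753257084) (nat_lit 76) (nat_lit 240943454) (nat_lit 152) (nat_lit 60415614732) (nat_lit 6) (nat_lit 5) (nat_lit 7) (nat_lit 5) (nat_lit 8) (nat_lit 4) (nat_lit 329) (nat_lit 243) (nat_lit 148)) (XT.lf (nat_lit 0) (nat_lit 60339943265) (nat_lit 152) (nat_lit 45183477886) (nat_lit 0) (nat_lit 10088375839) (nat_lit 6) (nat_lit 5) (nat_lit 8) (nat_lit 4) (nat_lit 6) (nat_lit 4) (nat_lit 330) (nat_lit 243) (nat_lit 147)))) (XT.nd (nat_lit 78) (nat_lit 1064) (nat_lit 0) (XT.lf (nat_lit 0) (nat_lit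 1647851833) (nat_lit 0) (nat_lit 1647851833) (nat_lit 380) (nat_lit 22557953) (nat_lit 254) (nat_lit 5) (nat_lit 254) (nat_lit 3) (nat_lit 259) (nat_lit 3) (nat_lit 244) (nat_lit 244) (nat_lit 232)) (XT.nd (nat_lit 78) (nat_lit 532) (nat_lit 0) (XT.lf (nat_lit 76) (nat_lit 1504799659) (nat_lit 0) (nat_lit 1874639716) (nat_lit 532) (nat_lit 3309340860) (nat_lit 248) (nat_lit 5) (nat_lit 247) (nat_lit 3) (nat_lit 254) (nat_lit 5) (nat_lit 245) (nat_lit 244) (nat_lit 231)) (XT.lf (nat_lit 0) (nat_lit 38620795) (nat_lit 532) (nat_lit 203236489) (nat_lit 608) (nat_lit 6508017839) (nat_lit 240) (nat_lit 5) (nat_lit 247) (nat_lit 3) (nat_lit 248) (nat_lit 5) (nat_lit 246) (nat_lit 244) (nat_lit 230))))))))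
noncomputable def xc58 : XT := (XT.nd (nat_lit 1716) (nat_lit 4788) (nat_lit 0) (XT.nd (nat_lit 858) (nat_lit 6536) (nat_lit 0) (XT.nd (nat_lit 390) (nat_lit 3268) (nat_lit 0) (XT.nd (nat_lit 156) (nat_lit 1216) (nat_lit 0) (XT.nd (nat_lit 78) (nat_lit 0) (nat_lit 0) (XT.lf (nat_lit 0) (nat_lit 3338217452) (nat_lit 532) (nat_lit 1858642750) (nat_lit 608) (nat_lit 1621247901) (nat_lit 241) (nat_lit 5) (nat_lit 248) (nat_lit 5) (nat_lit 249) (nat_lit 5) (nat_lit 247) (nat_lit 244) (nat_lit 229)) (XT.lf (nat_lit 76) (nat_lit 3440841496) (nat_lit 0) (nat_lit 3197791399) (nat_lit 608) (nat_lit 256660567) (nat_lit 242) (nat_lit 5) (nat_lit 241) (nat_lit 5) (nat_lit 249) (nat_lit 5) (nat_lit 248) (nat_lit 244) (nat_lit 228))) (XT.nd (nat_lit 78) (nat_lit 608) (nat_lit 0) (XT.lf (nat_lit 76) (nat_lit 1956537400) (nat_lit 0) (nat_lit 952511666) (nat_lit 684) (nat_lit 4071686000) (nat_lit 234) (nat_lit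 5) (nat_lit 233) (nat_lit 5) (nat_lit 242) (nat_lit 5) (nat_lit 249) (nat_lit 244) (nat_lit 227)) (XT.nd (nat_lit 78) (nat_lit 684) (nat_lit 0) (XT.lf (nat_lit 76) (nat_lit 511225305) (nat_lit 0) (nat_lit 5584003734) (nat_lit 684) (nat_lit 979661054) (nat_lit 235) (nat_lit 5) (nat_lit 234) (nat_lit 5) (nat_lit 243) (nat_lit 5) (nat_lit 250) (nat_lit 244) (nat_lit 226)) (XT.lf (nat_lit 0) (nat_lit 2103154146) (nat_lit 684) (nat_lit 899473507) (nat_lit 760) (nat_lit 4174560201) (nat_lit 225) (nat_lit 5) (nat_lit 234) (nat_lit 5) (nat_lit 235) (nat_lit 5) (nat_lit 251) (nat_lit 244) (nat_lit 225))))) (XT.nd (nat_lit 234) (nat_lit 1824) (nat_lit 0) (XT.nd (nat_lit 78) (nat_lit 1444) (nat_lit 0) (XT.lf (nat_lit 76) (nat_lit 5018088804) (nat_lit 0) (nat_lit 177404714) (nat_lit 760) (nat_lit 2093024283) (nat_lit 226) (nat_lit 5) (nat_lit 225) (nat_lit 5) (nat_lit 235) (nat_lit 5) (nat_lit 252)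 (nat_lit 244) (nat_lit 224)) (XT.nd (nat_lit 78) (nat_lit 760) (nat_lit 0) (XT.lf (nat_lit 0) (nat_lit 922687940) (nat_lit 760) (nat_lit 3646224445) (nat_lit 76) (nat_lit 2839467766) (nat_lit 216) (nat_lit 5) (nat_lit 226) (nat_lit 5) (nat_lit 217) (nat_lit 5) (nat_lit 253) (nat_lit 244) (nat_lit 223)) (XT.lf (nat_lit 0) (nat_lit 2515651766) (nat_lit 760) (nat_lit 1419810698) (nat_lit 836) (nat_lit 3601885149) (nat_lit 206) (nat_lit 5) (nat_lit 216) (nat_lit 5) (nat_lit 217) (nat_lit 5) (nat_lit 254) (nat_lit 244) (nat_lit 222)))) (XT.nd (nat_lit 78) (nat_lit 988) (nat_lit 0) (XT.lf (nat_lit 0) (nat_lit 1274046962) (nat_lit 836) (nat_lit 5739570377) (nat_lit 912) (nat_lit 662104425) (nat_lit 195) (nat_lit 5) (nat_lit 206) (nat_lit 5) (nat_lit 207) (nat_lit 5) (nat_lit 255) (nat_lit 244) (nat_lit 221)) (XT.nd (nat_lit 78) (nat_lit 0) (nat_lit 0) (XT.lf (nat_lit 0) (nat_lit 9778078) (nat_lit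 912) (nat_lit 2284990295) (nat_lit 988) (nat_lit 5528394897) (nat_lit 182) (nat_lit 5) (nat_lit 194) (nat_lit 5) (nat_lit 195) (nat_lit 5) (nat_lit 256) (nat_lit 244) (nat_lit 220)) (XT.lf (nat_lit 0) (nat_lit 5322359056) (nat_lit 988) (nat_lit 1244352408) (nat_lit 76) (nat_lit 1413324439) (nat_lit 182) (nat_lit 5) (nat_lit 195) (nat_lit 5) (nat_lit 183) (nat_lit 5) (nat_lit 257) (nat_lit 244) (nat_lit 219)))))) (XT.nd (nat_lit 390) (nat_lit 2432) (nat_lit 0) (XT.nd (nat_lit 156) (nat_lit 1976) (nat_lit 0) (XT.nd (nat_lit 78) (nat_lit 1064) (nat_lit 0) (XT.lf (nat_lit 0) (nat_lit 289604510) (nat_lit 1064) (nat_lit 2527730122) (nat_lit 76) (nat_lit 5329441300) (nat_lit 168) (nat_lit 5) (nat_lit 182) (nat_lit 5) (nat_lit 169) (nat_lit 5) (nat_lit 258) (nat_lit 244) (nat_lit 218)) (XT.lf (nat_lit 0) (nat_lit 3265028524) (nat_lit 1140) (nat_lit 3862268598) (nat_lit 76) (nat_lit 1196004760) (nat_lit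 154) (nat_lit 5) (nat_lit 169) (nat_lit 5) (nat_lit 155) (nat_lit 5) (nat_lit 259) (nat_lit 244) (nat_lit 217))) (XT.nd (nat_lit 78) (nat_lit 1140) (nat_lit 0) (XT.lf (nat_lit 0) (nat_lit 3260873257) (nat_lit 836) (nat_lit 3087319872) (nat_lit 912) (nat_lit 2161987754) (nat_lit 143) (nat_lit 5) (nat_lit 154) (nat_lit 5) (nat_lit 155) (nat_lit 5) (nat_lit 260) (nat_lit 244) (nat_lit 216)) (XT.nd (nat_lit 78) (nat_lit 532) (nat_lit 0) (XT.lf (nat_lit 0) (nat_lit 809815392) (nat_lit 608) (nat_lit 6691350392) (nat_lit 76) (nat_lit 1206822340) (nat_lit 135) (nat_lit 5) (nat_lit 143) (nat_lit 5) (nat_lit 136) (nat_lit 5) (nat_lit 261) (nat_lit 244) (nat_lit 215)) (XT.lf (nat_lit 0) (nat_lit 683233946) (nat_lit 532) (nat_lit 3176183109) (nat_lit 608) (nat_lit 5056669366) (nat_lit 128) (nat_lit 5) (nat_lit 135) (nat_lit 5) (nat_lit 136) (nat_lit 5) (nat_lit 262) (nat_lit 244) (nat_lit 214))))) (XT.nd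 (nat_lit 234) (nat_lit 1368) (nat_lit 0) (XT.nd (nat_lit 78) (nat_lit 1064) (nat_lit 0) (XT.lf (nat_lit 0) (nat_lit 7029939010) (nat_lit 608) (nat_lit 698327282) (nat_lit 76) (nat_lit 1407518247) (nat_lit 128) (nat_lit 5) (nat_lit 136) (nat_lit 5) (nat_lit 129) (nat_lit 5) (nat_lit 263) (nat_lit 244) (nat_lit 213)) (XT.nd (nat_lit 78) (nat_lit 532) (nat_lit 0) (XT.lf (nat_lit 0) (nat_lit 965394962) (nat_lit 532) (nat_lit 2167596752) (nat_lit 76) (nat_lit 6233651748) (nat_lit 121) (nat_lit 5) (nat_lit 128) (nat_lit 5) (nat_lit 122) (nat_lit 5) (nat_lit 264) (nat_lit 244) (nat_lit 212)) (XT.lf (nat_lit 0) (nat_lit 4121935542) (nat_lit 608) (nat_lit 3748337246) (nat_lit 76) (nat_lit 1739106831) (nat_lit 114) (nat_lit 5) (nat_lit 122) (nat_lit 5) (nat_lit 115) (nat_lit 5) (nat_lit 265) (nat_lit 244) (nat_lit 211)))) (XT.nd (nat_lit 78) (nat_lit 912) (nat_lit 0) (XT.lf (nat_lit 0) (nat_lit 4415310831)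 (nat_lit 456) (nat_lit 3015593993) (nat_lit 532) (nat_lit 2433717794) (nat_lit 108) (nat_lit 5) (nat_lit 114) (nat_lit 5) (nat_lit 115) (nat_lit 5) (nat_lit 266) (nat_lit 244) (nat_lit 210)) (XT.nd (nat_lit 78) (nat_lit 380) (nat_lit 0) (XT.lf (nat_lit 0) (nat_lit 745469818) (nat_lit 532) (nat_lit 7282788109) (nat_lit 76) (nat_lit 2104703825) (nat_lit 101) (nat_lit 5) (nat_lit 108) (nat_lit 5) (nat_lit 102) (nat_lit 5) (nat_lit 267) (nat_lit 244) (nat_lit 209)) (XT.lf (nat_lit 0) (nat_lit 1121238258) (nat_lit 380) (nat_lit 2914610262) (nat_lit 456) (nat_lit 6378252736) (nat_lit 96) (nat_lit 5) (nat_lit 101) (nat_lit 5) (nat_lit 102) (nat_lit 5) (nat_lit 268) (nat_lit 244) (nat_lit 208))))))) (XT.nd (nat_lit 858) (nat_lit 1976) (nat_lit 0) (XT.nd (nat_lit 390) (nat_lit 1292) (nat_lit 0) (XT.nd (nat_lit 156) (nat_lit 1064) (nat_lit 0) (XT.nd (nat_lit 78) (nat_lit 456) (nat_lit 0) (XT.lf (nat_lit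 0) (nat_lit 7497667581) (nat_lit 456) (nat_lit 743916917) (nat_lit 76) (nat_lit 2467680112) (nat_lit 96) (nat_lit 5) (nat_lit 102) (nat_lit 5) (nat_lit 97) (nat_lit 5) (nat_lit 269) (nat_lit 244) (nat_lit 207)) (XT.lf (nat_lit 0) (nat_lit 132045587) (nat_lit 456) (nat_lit 2760732755) (nat_lit 76) (nat_lit 8125910451) (nat_lit 90) (nat_lit 5) (nat_lit 96) (nat_lit 5) (nat_lit 91) (nat_lit 5) (nat_lit 270) (nat_lit 244) (nat_lit 206))) (XT.nd (nat_lit 78) (nat_lit 684) (nat_lit 0) (XT.lf (nat_lit 0) (nat_lit 3587272562) (nat_lit 456) (nat_lit 5000143187) (nat_lit 76) (nat_lit 2755043488) (nat_lit 85) (nat_lit 5) (nat_lit 91) (nat_lit 5) (nat_lit 86) (nat_lit 5) (nat_lit 271) (nat_lit 244) (nat_lit 205)) (XT.nd (nat_lit 78) (nat_lit 304) (nat_lit 0) (XT.lf (nat_lit 0) (nat_lit 4226368921) (nat_lit 380) (nat_lit 3004585221) (nat_lit 456) (nat_lit 4451139627) (nat_lit 80) (nat_lit 5) (nat_lit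 85) (nat_lit 5) (nat_lit 86) (nat_lit 5) (nat_lit 272) (nat_lit 244) (nat_lit 204)) (XT.lf (nat_lit 0) (nat_lit 1887744255) (nat_lit 304) (nat_lit 9186622463) (nat_lit 380) (nat_lit 963956296) (nat_lit 76) (nat_lit 5) (nat_lit 80) (nat_lit 5) (nat_lit 81) (nat_lit 5) (nat_lit 273) (nat_lit 244) (nat_lit 203))))) (XT.nd (nat_lit 234) (nat_lit 608) (nat_lit 0) (XT.nd (nat_lit 78) (nat_lit 608) (nat_lit 0) (XT.lf (nat_lit 0) (nat_lit 2674693656) (nat_lit 380) (nat_lit 714274072) (nat_lit 76) (nat_lit 9021854545) (nat_lit 75) (nat_lit 5) (nat_lit 80) (nat_lit 5) (nat_lit 76) (nat_lit 5) (nat_lit 274) (nat_lit 244) (nat_lit 202)) (XT.nd (nat_lit 78) (nat_lit 304) (nat_lit 0) (XT.lf (nat_lit 0) (nat_lit 6516954100) (nat_lit 380) (nat_lit 3559622237) (nat_lit 76) (nat_lit 2723958161) (nat_lit 71) (nat_lit 5) (nat_lit 76) (nat_lit 5) (nat_lit 72) (nat_lit 5) (nat_lit 275) (nat_lit 244) (nat_lit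 201)) (XT.lf (nat_lit 0) (nat_lit 6495905724) (nat_lit 304) (nat_lit 4087553172) (nat_lit 380) (nat_lit 2625426407) (nat_lit 67) (nat_lit 5) (nat_lit 71) (nat_lit 5) (nat_lit 72) (nat_lit 5) (nat_lit 276) (nat_lit 244) (nat_lit 200)))) (XT.nd (nat_lit 78) (nat_lit 228) (nat_lit 0) (XT.lf (nat_lit 0) (nat_lit 1213634627) (nat_lit 380) (nat_lit 10206379991) (nat_lit 76) (nat_lit 2216744939) (nat_lit 62) (nat_lit 5) (nat_lit 67) (nat_lit 5) (nat_lit 63) (nat_lit 5) (nat_lit 277) (nat_lit 244) (nat_lit 199)) (XT.nd (nat_lit 78) (nat_lit 228) (nat_lit 0) (XT.lf (nat_lit 0) (nat_lit 5233920411) (nat_lit 380) (nat_lit 25002263) (nat_lit 76) (nat_lit 8825120883) (nat_lit 62) (nat_lit 5) (nat_lit 67) (nat_lit 5) (nat_lit 63) (nat_lit 5) (nat_lit 278) (nat_lit 244) (nat_lit 198)) (XT.lf (nat_lit 0) (nat_lit 9506588451) (nat_lit 304) (nat_lit 3778445037) (nat_lit 76) (nat_lit 1267215276) (nat_lit 59)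 (nat_lit 5) (nat_lit 63) (nat_lit 5) (nat_lit 60) (nat_lit 5) (nat_lit 279) (nat_lit 244) (nat_lit 197)))))) (XT.nd (nat_lit 390) (nat_lit 836) (nat_lit 0) (XT.nd (nat_lit 156) (nat_lit 532) (nat_lit 0) (XT.nd (nat_lit 78) (nat_lit 304) (nat_lit 0) (XT.lf (nat_lit 0) (nat_lit 7065503378) (nat_lit 304) (nat_lit 6985916434) (nat_lit 380) (nat_lit 990781901) (nat_lit 55) (nat_lit 5) (nat_lit 59) (nat_lit 5) (nat_lit 60) (nat_lit 5) (nat_lit 280) (nat_lit 244) (nat_lit 196)) (XT.lf (nat_lit 0) (nat_lit 2912903063) (nat_lit 228) (nat_lit 296217279) (nat_lit 304) (nat_lit 12346495389) (nat_lit 51) (nat_lit 5) (nat_lit 54) (nat_lit 5) (nat_lit 55) (nat_lit 5) (nat_lit 281) (nat_lit 244) (nat_lit 195))) (XT.nd (nat_lit 78) (nat_lit 532) (nat_lit 0) (XT.lf (nat_lit 0) (nat_lit 7686918668) (nat_lit 304) (nat_lit 1740430758) (nat_lit 76) (nat_lit 6664487206) (nat_lit 51) (nat_lit 5) (nat_lit 55) (nat_lit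 5) (nat_lit 52) (nat_lit 5) (nat_lit 282) (nat_lit 244) (nat_lit 194)) (XT.nd (nat_lit 78) (nat_lit 304) (nat_lit 0) (XT.lf (nat_lit 0) (nat_lit 9813198463) (nat_lit 228) (nat_lit 2616159159) (nat_lit 304) (nat_lit 4224366749) (nat_lit 48) (nat_lit 5) (nat_lit 51) (nat_lit 5) (nat_lit 52) (nat_lit 5) (nat_lit 283) (nat_lit 244) (nat_lit 193)) (XT.lf (nat_lit 0) (nat_lit 214456930) (nat_lit 304) (nat_lit 12539970866) (nat_lit 76) (nat_lit 4487729406) (nat_lit 44) (nat_lit 5) (nat_lit 48) (nat_lit 5) (nat_lit 45) (nat_lit 5) (nat_lit 284) (nat_lit 244) (nat_lit 192))))) (XT.nd (nat_lit 234) (nat_lit 456) (nat_lit 0) (XT.nd (nat_lit 78) (nat_lit 380) (nat_lit 0) (XT.lf (nat_lit 0) (nat_lit 4832559762) (nat_lit 304) (nat_lit 1042842557) (nat_lit 76) (nat_lit 11982082425) (nat_lit 44) (nat_lit 5) (nat_lit 48) (nat_lit 5) (nat_lit 45) (nat_lit 5) (nat_lit 285) (nat_lit 244) (nat_lit 191)) (XT.nd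 (nat_lit 78) (nat_lit 152) (nat_lit 0) (XT.lf (nat_lit 0) (nat_lit 9751647656) (nat_lit 304) (nat_lit 7344970913) (nat_lit 76) (nat_lit 1404923377) (nat_lit 41) (nat_lit 5) (nat_lit 45) (nat_lit 5) (nat_lit 42) (nat_lit 5) (nat_lit 286) (nat_lit 244) (nat_lit 190)) (XT.lf (nat_lit 0) (nat_lit 4768427267) (nat_lit 152) (nat_lit 10214649471) (nat_lit 228) (nat_lit 4192796220) (nat_lit 39) (nat_lit 5) (nat_lit 41) (nat_lit 5) (nat_lit 42) (nat_lit 5) (nat_lit 287) (nat_lit 244) (nat_lit 189)))) (XT.nd (nat_lit 78) (nat_lit 380) (nat_lit 0) (XT.lf (nat_lit 0) (nat_lit 608490501) (nat_lit 228) (nat_lit 2321449650) (nat_lit 76) (nat_lit 16953030776) (nat_lit 38) (nat_lit 5) (nat_lit 41) (nat_lit 5) (nat_lit 39) (nat_lit 5) (nat_lit 288) (nat_lit 244) (nat_lit 188)) (XT.nd (nat_lit 78) (nat_lit 152) (nat_lit 0) (XT.lf (nat_lit 0) (nat_lit 5664858477) (nat_lit 304) (nat_lit 10209281311) (nat_lit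 76) (nat_lit 4747041794) (nat_lit 35) (nat_lit 5) (nat_lit 39) (nat_lit 5) (nat_lit 36) (nat_lit 5) (nat_lit 289) (nat_lit 244) (nat_lit 187)) (XT.lf (nat_lit 0) (nat_lit 2381577367) (nat_lit 152) (nat_lit 8624210475) (nat_lit 228) (nat_lit 10389615101) (nat_lit 33) (nat_lit 5) (nat_lit 35) (nat_lit 5) (nat_lit 36) (nat_lit 5) (nat_lit 290) (nat_lit 244) (nat_lit 186))))))))
noncomputable def xc59 : XT := (XT.nd (nat_lit 1716) (nat_lit 456) (nat_lit 0) (XT.nd (nat_lit 858) (nat_lit 684) (nat_lit 0) (XT.nd (nat_lit 390) (nat_lit 532) (nat_lit 0) (XT.nd (nat_lit 156) (nat_lit 228) (nat_lit 0) (XT.nd (nat_lit 78) (nat_lit 152) (nat_lit 0) (XT.lf (nat_lit 0) (nat_lit 15747397571) (nat_lit 152) (nat_lit 928088072) (nat_lit 228) (nat_lit 5531048032) (nat_lit 33) (nat_lit 5) (nat_lit 35) (nat_lit 5) (nat_lit 36) (nat_lit 5) (nat_lit 291) (nat_lit 244) (nat_lit 185)) (XT.lf (nat_lit 0) (nat_lit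 6719907070) (nat_lit 152) (nat_lit 16000581664) (nat_lit 228) (nat_lit 335025182) (nat_lit 31) (nat_lit 5) (nat_lit 33) (nat_lit 5) (nat_lit 34) (nat_lit 5) (nat_lit 292) (nat_lit 244) (nat_lit 184))) (XT.nd (nat_lit 78) (nat_lit 152) (nat_lit 0) (XT.lf (nat_lit 0) (nat_lit 5056779169) (nat_lit 228) (nat_lit 3376039412) (nat_lit 76) (nat_lit 15511614690) (nat_lit 30) (nat_lit 5) (nat_lit 33) (nat_lit 5) (nat_lit 31) (nat_lit 5) (nat_lit 293) (nat_lit 244) (nat_lit 183)) (XT.nd (nat_lit 78) (nat_lit 0) (nat_lit 0) (XT.lf (nat_lit 0) (nat_lit 10368819509) (nat_lit 152) (nat_lit 403483847) (nat_lit 228) (nat_lit 14103605875) (nat_lit 28) (nat_lit 5) (nat_lit 30) (nat_lit 5) (nat_lit 31) (nat_lit 5) (nat_lit 294) (nat_lit 244) (nat_lit 182)) (XT.lf (nat_lit 0) (nat_lit 16848237641) (nat_lit 228) (nat_lit 1119771194) (nat_lit 76) (nat_lit 7883751044) (nat_lit 28) (nat_lit 5) (nat_lit 31) (nat_lit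 5) (nat_lit 29) (nat_lit 5) (nat_lit 295) (nat_lit 244) (nat_lit 181))))) (XT.nd (nat_lit 234) (nat_lit 152) (nat_lit 0) (XT.nd (nat_lit 78) (nat_lit 228) (nat_lit 0) (XT.lf (nat_lit 0) (nat_lit 13131155127) (nat_lit 152) (nat_lit 10191275395) (nat_lit 228) (nat_lit 3551176690) (nat_lit 26) (nat_lit 5) (nat_lit 28) (nat_lit 5) (nat_lit 29) (nat_lit 5) (nat_lit 296) (nat_lit 244) (nat_lit 180)) (XT.nd (nat_lit 78) (nat_lit 0) (nat_lit 0) (XT.lf (nat_lit 0) (nat_lit 95689786) (nat_lit 152) (nat_lit 2013190557) (nat_lit 228) (nat_lit 25837749459) (nat_lit 23) (nat_lit 5) (nat_lit 25) (nat_lit 5) (nat_lit 26) (nat_lit 5) (nat_lit 297) (nat_lit 244) (nat_lit 179)) (XT.lf (nat_lit 0) (nat_lit 8151119846) (nat_lit 228) (nat_lit 14312783941) (nat_lit 76) (nat_lit 6603199699) (nat_lit 23) (nat_lit 5) (nat_lit 26) (nat_lit 5) (nat_lit 24) (nat_lit 5) (nat_lit 298) (nat_lit 244) (nat_lit 178)))) (XT.nd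 (nat_lit 78) (nat_lit 152) (nat_lit 0) (XT.lf (nat_lit 0) (nat_lit 14483297825) (nat_lit 228) (nat_lit 171568325) (nat_lit 76) (nat_lit 15589131783) (nat_lit 23) (nat_lit 5) (nat_lit 26) (nat_lit 5) (nat_lit 24) (nat_lit 5) (nat_lit 299) (nat_lit 244) (nat_lit 177)) (XT.nd (nat_lit 78) (nat_lit 0) (nat_lit 0) (XT.lf (nat_lit 0) (nat_lit 14916809084) (nat_lit 152) (nat_lit 6327719286) (nat_lit 228) (nat_lit 10231865781) (nat_lit 21) (nat_lit 5) (nat_lit 23) (nat_lit 5) (nat_lit 24) (nat_lit 5) (nat_lit 300) (nat_lit 244) (nat_lit 176)) (XT.lf (nat_lit 0) (nat_lit 28338689741) (nat_lit 228) (nat_lit 2080663623) (nat_lit 76) (nat_lit 2351239649) (nat_lit 21) (nat_lit 5) (nat_lit 24) (nat_lit 5) (nat_lit 22) (nat_lit 4) (nat_lit 301) (nat_lit 244) (nat_lit 175)))))) (XT.nd (nat_lit 390) (nat_lit 304) (nat_lit 0) (XT.nd (nat_lit 156) (nat_lit 228) (nat_lit 0) (XT.nd (nat_lit 78) (nat_lit 0) (nat_lit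 0) (XT.lf (nat_lit 0) (nat_lit 1790006357) (nat_lit 152) (nat_lit 20872790610) (nat_lit 76) (nat_lit 11461324326) (nat_lit 19) (nat_lit 5) (nat_lit 21) (nat_lit 5) (nat_lit 20) (nat_lit 5) (nat_lit 302) (nat_lit 244) (nat_lit 174)) (XT.lf (nat_lit 0) (nat_lit 8225753380) (nat_lit 152) (nat_lit 6243300002) (nat_lit 76) (nat_lit 21075149645) (nat_lit 19) (nat_lit 5) (nat_lit 21) (nat_lit 5) (nat_lit 20) (nat_lit 5) (nat_lit 303) (nat_lit 244) (nat_lit 173))) (XT.nd (nat_lit 78) (nat_lit 76) (nat_lit 0) (XT.lf (nat_lit 0) (nat_lit 9253397305) (nat_lit 152) (nat_lit 5792094780) (nat_lit 228) (nat_lit 21987954882) (nat_lit 17) (nat_lit 5) (nat_lit 19) (nat_lit 5) (nat_lit 20) (nat_lit 5) (nat_lit 304) (nat_lit 244) (nat_lit 172)) (XT.nd (nat_lit 78) (nat_lit 76) (nat_lit 0) (XT.lf (nat_lit 0) (nat_lit 22276965009) (nat_lit 228) (nat_lit 13016546552) (nat_lit 76) (nat_lit 3301542216) (nat_lit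 17) (nat_lit 5) (nat_lit 20) (nat_lit 5) (nat_lit 18) (nat_lit 4) (nat_lit 305) (nat_lit 244) (nat_lit 171)) (XT.lf (nat_lit 0) (nat_lit 2432052811) (nat_lit 76) (nat_lit 27494979309) (nat_lit 152) (nat_lit 10306020186) (nat_lit 16) (nat_lit 5) (nat_lit 17) (nat_lit 5) (nat_lit 18) (nat_lit 4) (nat_lit 306) (nat_lit 244) (nat_lit 170))))) (XT.nd (nat_lit 234) (nat_lit 76) (nat_lit 0) (XT.nd (nat_lit 78) (nat_lit 228) (nat_lit 0) (XT.lf (nat_lit 0) (nat_lit 18884219785) (nat_lit 76) (nat_lit 19185346791) (nat_lit 152) (nat_lit 3880106211) (nat_lit 16) (nat_lit 5) (nat_lit 17) (nat_lit 5) (nat_lit 18) (nat_lit 4) (nat_lit 307) (nat_lit 244) (nat_lit 169)) (XT.nd (nat_lit 78) (nat_lit 152) (nat_lit 0) (XT.lf (nat_lit 0) (nat_lit 2788024205) (nat_lit 152) (nat_lit 7660092983) (nat_lit 76) (nat_lit 33303893614) (nat_lit 15) (nat_lit 5) (nat_lit 17) (nat_lit 5) (nat_lit 16) (nat_lit 5) (nat_lit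 308) (nat_lit 244) (nat_lit 168)) (XT.lf (nat_lit 0) (nat_lit 8606794657) (nat_lit 152) (nat_lit 1163969442) (nat_lit 228) (nat_lit 35870724074) (nat_lit 13) (nat_lit 5) (nat_lit 15) (nat_lit 5) (nat_lit 16) (nat_lit 5) (nat_lit 309) (nat_lit 244) (nat_lit 167)))) (XT.nd (nat_lit 78) (nat_lit 76) (nat_lit 0) (XT.lf (nat_lit 0) (nat_lit 17243317079) (nat_lit 228) (nat_lit 21896236357) (nat_lit 76) (nat_lit 8481683260) (nat_lit 13) (nat_lit 5) (nat_lit 16) (nat_lit 5) (nat_lit 14) (nat_lit 4) (nat_lit 310) (nat_lit 244) (nat_lit 166)) (XT.nd (nat_lit 78) (nat_lit 76) (nat_lit 0) (XT.lf (nat_lit 0) (nat_lit 25080791739) (nat_lit 228) (nat_lit 6047807953) (nat_lit 76) (nat_lit 18571650863) (nat_lit 13) (nat_lit 5) (nat_lit 16) (nat_lit 5) (nat_lit 14) (nat_lit 4) (nat_lit 311) (nat_lit 244) (nat_lit 165)) (XT.lf (nat_lit 0) (nat_lit 10769669885) (nat_lit 76) (nat_lit 22624514716) (nat_lit 152)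 (nat_lit 18486525106) (nat_lit 12) (nat_lit 5) (nat_lit 13) (nat_lit 5) (nat_lit 14) (nat_lit 4) (nat_lit 312) (nat_lit 244) (nat_lit 164))))))) (XT.nd (nat_lit 858) (nat_lit 152) (nat_lit 0) (XT.nd (nat_lit 390) (nat_lit 152) (nat_lit 0) (XT.nd (nat_lit 156) (nat_lit 152) (nat_lit 0) (XT.nd (nat_lit 78) (nat_lit 0) (nat_lit 0) (XT.lf (nat_lit 0) (nat_lit 28521837022) (nat_lit 76) (nat_lit 13644801327) (nat_lit 152) (nat_lit 12002266904) (nat_lit 12) (nat_lit 5) (nat_lit 13) (nat_lit 5) (nat_lit 14) (nat_lit 4) (nat_lit 313) (nat_lit 244) (nat_lit 163)) (XT.lf (nat_lit 0) (nat_lit 47130597288) (nat_lit 76) (nat_lit 4229150257) (nat_lit 152) (nat_lit 5212316502) (nat_lit 12) (nat_lit 5) (nat_lit 13) (nat_lit 5) (nat_lit 14) (nat_lit 4) (nat_lit 314) (nat_lit 244) (nat_lit 162))) (XT.nd (nat_lit 78) (nat_lit 0) (nat_lit 0) (XT.lf (nat_lit 0) (nat_lit 1991385048) (nat_lit 152) (nat_lit 51472445489)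 (nat_lit 76) (nat_lit 5627660836) (nat_lit 10) (nat_lit 5) (nat_lit 12) (nat_lit 5) (nat_lit 11) (nat_lit 4) (nat_lit 315) (nat_lit 244) (nat_lit 161)) (XT.nd (nat_lit 78) (nat_lit 0) (nat_lit 0) (XT.lf (nat_lit 0) (nat_lit 9572446464) (nat_lit 152) (nat_lit 36129784593) (nat_lit 76) (nat_lit 16029374317) (nat_lit 10) (nat_lit 5) (nat_lit 12) (nat_lit 5) (nat_lit 11) (nat_lit 4) (nat_lit 316) (nat_lit 244) (nat_lit 160)) (XT.lf (nat_lit 0) (nat_lit 17516495912) (nat_lit 152) (nat_lit 20048024955) (nat_lit 76) (nat_lit 26939698281) (nat_lit 10) (nat_lit 5) (nat_lit 12) (nat_lit 5) (nat_lit 11) (nat_lit 4) (nat_lit 317) (nat_lit 244) (nat_lit 159))))) (XT.nd (nat_lit 234) (nat_lit 76) (nat_lit 0) (XT.nd (nat_lit 78) (nat_lit 76) (nat_lit 0) (XT.lf (nat_lit 0) (nat_lit 25842447795) (nat_lit 152) (nat_lit 3188876672) (nat_lit 76) (nat_lit 38384609688) (nat_lit 10) (nat_lit 5) (nat_lit 12) (nat_lit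 5) (nat_lit 11) (nat_lit 4) (nat_lit 318) (nat_lit 244) (nat_lit 158)) (XT.nd (nat_lit 78) (nat_lit 0) (nat_lit 0) (XT.lf (nat_lit 0) (nat_lit 14776136733) (nat_lit 76) (nat_lit 19936026340) (nat_lit 152) (nat_lit 35757258860) (nat_lit 9) (nat_lit 5) (nat_lit 10) (nat_lit 5) (nat_lit 11) (nat_lit 4) (nat_lit 319) (nat_lit 244) (nat_lit 157)) (XT.lf (nat_lit 0) (nat_lit 33681339899) (nat_lit 76) (nat_lit 10362735880) (nat_lit 152) (nat_lit 29630957440) (nat_lit 9) (nat_lit 5) (nat_lit 10) (nat_lit 5) (nat_lit 11) (nat_lit 4) (nat_lit 320) (nat_lit 244) (nat_lit 156)))) (XT.nd (nat_lit 78) (nat_lit 76) (nat_lit 0) (XT.lf (nat_lit 0) (nat_lit 53508280317) (nat_lit 76) (nat_lit 320860940) (nat_lit 152) (nat_lit 23212197072) (nat_lit 9) (nat_lit 5) (nat_lit 10) (nat_lit 5) (nat_lit 11) (nat_lit 4) (nat_lit 321) (nat_lit 244) (nat_lit 155)) (XT.nd (nat_lit 78) (nat_lit 76) (nat_lit 0) (XT.lf (nat_lit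 0) (nat_lit 64188835766) (nat_lit 152) (nat_lit 6370365772) (nat_lit 0) (nat_lit 10014205381) (nat_lit 9) (nat_lit 5) (nat_lit 11) (nat_lit 4) (nat_lit 9) (nat_lit 4) (nat_lit 322) (nat_lit 244) (nat_lit 154)) (XT.lf (nat_lit 0) (nat_lit 11856971860) (nat_lit 76) (nat_lit 63314477172) (nat_lit 76) (nat_lit 9107490930) (nat_lit 8) (nat_lit 4) (nat_lit 9) (nat_lit 5) (nat_lit 9) (nat_lit 4) (nat_lit 323) (nat_lit 244) (nat_lit 153)))))) (XT.nd (nat_lit 390) (nat_lit 0) (nat_lit 0) (XT.nd (nat_lit 156) (nat_lit 76) (nat_lit 0) (XT.nd (nat_lit 78) (nat_lit 76) (nat_lit 0) (XT.lf (nat_lit 0) (nat_lit 31107795180) (nat_lit 76) (nat_lit 55649077029) (nat_lit 76) (nat_lit 1411275685) (nat_lit 8) (nat_lit 4) (nat_lit 9) (nat_lit 5) (nat_lit 9) (nat_lit 4) (nat_lit 324) (nat_lit 244) (nat_lit 152)) (XT.lf (nat_lit 0) (nat_lit 6528147758) (nat_lit 152) (nat_lit 41015009111) (nat_lit 76) (nat_lit 44707087459)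 (nat_lit 7) (nat_lit 5) (nat_lit 9) (nat_lit 5) (nat_lit 8) (nat_lit 4) (nat_lit 325) (nat_lit 244) (nat_lit 151))) (XT.nd (nat_lit 78) (nat_lit 76) (nat_lit 0) (XT.lf (nat_lit 0) (nat_lit 14824719956) (nat_lit 152) (nat_lit 24200917753) (nat_lit 76) (nat_lit 57510715319) (nat_lit 7) (nat_lit 5) (nat_lit 9) (nat_lit 5) (nat_lit 8) (nat_lit 4) (nat_lit 326) (nat_lit 244) (nat_lit 150)) (XT.nd (nat_lit 78) (nat_lit 76) (nat_lit 0) (XT.lf (nat_lit 0) (nat_lit 23525733726) (nat_lit 152) (nat_lit 6564479046) (nat_lit 76) (nat_lit 70946873231) (nat_lit 7) (nat_lit 5) (nat_lit 9) (nat_lit 5) (nat_lit 8) (nat_lit 4) (nat_lit 327) (nat_lit 244) (nat_lit 149)) (XT.lf (nat_lit 0) (nat_lit 12173854277) (nat_lit 76) (nat_lit 20595074022) (nat_lit 152) (nat_lit 72990720302) (nat_lit 6) (nat_lit 5) (nat_lit 7) (nat_lit 5) (nat_lit 8) (nat_lit 4) (nat_lit 328) (nat_lit 244) (nat_lit 148))))) (XT.nd (nat_lit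 31044) (nat_lit 0) (nat_lit 17176) (XT.nd (nat_lit 78) (nat_lit 0) (nat_lit 0) (XT.lf (nat_lit 0) (nat_lit 31969300655) (nat_lit 76) (nat_lit 10562972873) (nat_lit 152) (nat_lit 68184332625) (nat_lit 6) (nat_lit 5) (nat_lit 7) (nat_lit 5) (nat_lit 8) (nat_lit 4) (nat_lit 329) (nat_lit 244) (nat_lit 147)) (XT.nd (nat_lit 30888) (nat_lit 0) (nat_lit 18316) (XT.lf (nat_lit 0) (nat_lit 52738346099) (nat_lit 76) (nat_lit 36311739) (nat_lit 152) (nat_lit 63147033834) (nat_lit 6) (nat_lit 5) (nat_lit 7) (nat_lit 5) (nat_lit 8) (nat_lit 4) (nat_lit 330) (nat_lit 244) (nat_lit 146)) (XT.lf (nat_lit 0) (nat_lit 3333847500) (nat_lit 532) (nat_lit 19433241) (nat_lit 532) (nat_lit 19433241) (nat_lit 247) (nat_lit 3) (nat_lit 254) (nat_lit 3) (nat_lit 254) (nat_lit 5) (nat_lit 245) (nat_lit 245) (nat_lit 230)))) (XT.nd (nat_lit 78) (nat_lit 608) (nat_lit 0) (XT.lf (nat_lit 0) (nat_lit 3103523835) (nat_lit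 532) (nat_lit 1891201853) (nat_lit 608) (nat_lit 1814290038) (nat_lit 240) (nat_lit 5) (nat_lit 247) (nat_lit 3) (nat_lit 248) (nat_lit 5) (nat_lit 246) (nat_lit 245) (nat_lit 229)) (XT.nd (nat_lit 78) (nat_lit 608) (nat_lit 0) (XT.lf (nat_lit 76) (nat_lit 3200071145) (nat_lit 0) (nat_lit 3071742418) (nat_lit 608) (nat_lit 609674791) (nat_lit 241) (nat_lit 5) (nat_lit 240) (nat_lit 5) (nat_lit 248) (nat_lit 5) (nat_lit 247) (nat_lit 245) (nat_lit 228)) (XT.lf (nat_lit 76) (nat_lit 1522261502) (nat_lit 0) (nat_lit 905925723) (nat_lit 684) (nat_lit 4534041640) (nat_lit 233) (nat_lit 5) (nat_lit 232) (nat_lit 5) (nat_lit 241) (nat_lit 5) (nat_lit 248) (nat_lit 245) (nat_lit 227))))))))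
noncomputable def xc60 : XT := (XT.nd (nat_lit 1716) (nat_lit 4408) (nat_lit 0) (XT.nd (nat_lit 858) (nat_lit 4788) (nat_lit 0) (XT.nd (nat_lit 390) (nat_lit 4636) (nat_lit 0) (XT.nd (nat_lit 156) (nat_lit 684) (nat_lit 0) (XT.nd (nat_lit 78) (nat_lit 684) (nat_lit 0) (XT.lf (nat_lit 0) (nat_lit 5470418681) (nat_lit 608) (nat_lit 116554800) (nat_lit 684) (nat_lit 1464441637) (nat_lit 233) (nat_lit 5) (nat_lit 241) (nat_lit 5) (nat_lit 242) (nat_lit 5) (nat_lit 249) (nat_lit 245) (nat_lit 226)) (XT.lf (nat_lit 0) (nat_lit 1372461162) (nat_lit 684) (nat_lit 1700674104) (nat_lit 760) (nat_lit 4075516215) (nat_lit 224) (nat_lit 5) (nat_lit 233) (nat_lit 5) (nat_lit 234) (nat_lit 5) (nat_lit 250) (nat_lit 245) (nat_lit 225))) (XT.nd (nat_lit 78) (nat_lit 684) (nat_lit 0) (XT.lf (nat_lit 76) (nat_lit 3995025036) (nat_lit 0) (nat_lit 313485407) (nat_lit 760) (nat_lit 2946218745) (nat_lit 225) (nat_lit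 5) (nat_lit 224) (nat_lit 5) (nat_lit 234) (nat_lit 5) (nat_lit 251) (nat_lit 245) (nat_lit 224)) (XT.nd (nat_lit 78) (nat_lit 760) (nat_lit 0) (XT.lf (nat_lit 76) (nat_lit 2558108181) (nat_lit 0) (nat_lit 4735811474) (nat_lit 760) (nat_lit 75569273) (nat_lit 226) (nat_lit 5) (nat_lit 225) (nat_lit 5) (nat_lit 235) (nat_lit 5) (nat_lit 252) (nat_lit 245) (nat_lit 223)) (XT.lf (nat_lit 76) (nat_lit 1123487869) (nat_lit 0) (nat_lit 1645881235) (nat_lit 836) (nat_lit 4723547733) (nat_lit 216) (nat_lit 5) (nat_lit 215) (nat_lit 5) (nat_lit 226) (nat_lit 5) (nat_lit 253) (nat_lit 245) (nat_lit 222))))) (XT.nd (nat_lit 234) (nat_lit 3040) (nat_lit 0) (XT.nd (nat_lit 78) (nat_lit 1672) (nat_lit 0) (XT.lf (nat_lit 0) (nat_lit 5667615555) (nat_lit 760) (nat_lit 296835246) (nat_lit 76) (nat_lit 1661064737) (nat_lit 216) (nat_lit 5) (nat_lit 226) (nat_lit 5) (nat_lit 217) (nat_lit 5) (nat_lit 254)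 (nat_lit 245) (nat_lit 221)) (XT.nd (nat_lit 78) (nat_lit 836) (nat_lit 0) (XT.lf (nat_lit 0) (nat_lit 855975561) (nat_lit 836) (nat_lit 1703733946) (nat_lit 76) (nat_lit 5207280056) (nat_lit 205) (nat_lit 5) (nat_lit 216) (nat_lit 5) (nat_lit 206) (nat_lit 5) (nat_lit 255) (nat_lit 245) (nat_lit 220)) (XT.lf (nat_lit 0) (nat_lit 3689039276) (nat_lit 912) (nat_lit 3132288402) (nat_lit 76) (nat_lit 1096411196) (nat_lit 194) (nat_lit 5) (nat_lit 206) (nat_lit 5) (nat_lit 195) (nat_lit 5) (nat_lit 256) (nat_lit 245) (nat_lit 219)))) (XT.nd (nat_lit 78) (nat_lit 2128) (nat_lit 0) (XT.lf (nat_lit 0) (nat_lit 3490354462) (nat_lit 912) (nat_lit 3115160183) (nat_lit 988) (nat_lit 1472594197) (nat_lit 182) (nat_lit 5) (nat_lit 194) (nat_lit 5) (nat_lit 195) (nat_lit 5) (nat_lit 257) (nat_lit 245) (nat_lit 218)) (XT.nd (nat_lit 78) (nat_lit 1064) (nat_lit 0) (XT.lf (nat_lit 0) (nat_lit 1323915250)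 (nat_lit 1064) (nat_lit 6075106176) (nat_lit 76) (nat_lit 849466620) (nat_lit 168) (nat_lit 5) (nat_lit 182) (nat_lit 5) (nat_lit 169) (nat_lit 5) (nat_lit 258) (nat_lit 245) (nat_lit 217)) (XT.lf (nat_lit 0) (nat_lit 799520844) (nat_lit 1064) (nat_lit 3391257363) (nat_lit 1140) (nat_lit 4237636931) (nat_lit 154) (nat_lit 5) (nat_lit 168) (nat_lit 5) (nat_lit 169) (nat_lit 5) (nat_lit 259) (nat_lit 245) (nat_lit 216)))))) (XT.nd (nat_lit 390) (nat_lit 2280) (nat_lit 0) (XT.nd (nat_lit 156) (nat_lit 1596) (nat_lit 0) (XT.nd (nat_lit 78) (nat_lit 912) (nat_lit 0) (XT.lf (nat_lit 0) (nat_lit 7150955240) (nat_lit 1140) (nat_lit 591720141) (nat_lit 76) (nat_lit 876445824) (nat_lit 154) (nat_lit 5) (nat_lit 169) (nat_lit 5) (nat_lit 155) (nat_lit 5) (nat_lit 260) (nat_lit 245) (nat_lit 215)) (XT.lf (nat_lit 0) (nat_lit 1395470968) (nat_lit 912) (nat_lit 2045492147) (nat_lit 76) (nat_lit 5378731145)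 (nat_lit 142) (nat_lit 5) (nat_lit 154) (nat_lit 5) (nat_lit 143) (nat_lit 5) (nat_lit 261) (nat_lit 245) (nat_lit 214))) (XT.nd (nat_lit 78) (nat_lit 1064) (nat_lit 0) (XT.lf (nat_lit 0) (nat_lit 4329986706) (nat_lit 608) (nat_lit 3566832722) (nat_lit 76) (nat_lit 1134546738) (nat_lit 135) (nat_lit 5) (nat_lit 143) (nat_lit 5) (nat_lit 136) (nat_lit 5) (nat_lit 262) (nat_lit 245) (nat_lit 213)) (XT.nd (nat_lit 78) (nat_lit 532) (nat_lit 0) (XT.lf (nat_lit 0) (nat_lit 4077326850) (nat_lit 532) (nat_lit 3321340243) (nat_lit 608) (nat_lit 1855567706) (nat_lit 128) (nat_lit 5) (nat_lit 135) (nat_lit 5) (nat_lit 136) (nat_lit 5) (nat_lit 263) (nat_lit 245) (nat_lit 212)) (XT.lf (nat_lit 0) (nat_lit 1082845039) (nat_lit 532) (nat_lit 6879675700) (nat_lit 76) (nat_lit 1526445707) (nat_lit 121) (nat_lit 5) (nat_lit 128) (nat_lit 5) (nat_lit 122) (nat_lit 5) (nat_lit 264) (nat_lit 245) (nat_lit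 211))))) (XT.nd (nat_lit 234) (nat_lit 1216) (nat_lit 0) (XT.nd (nat_lit 78) (nat_lit 532) (nat_lit 0) (XT.lf (nat_lit 0) (nat_lit 1019755246) (nat_lit 532) (nat_lit 3106659995) (nat_lit 608) (nat_lit 5608777977) (nat_lit 114) (nat_lit 5) (nat_lit 121) (nat_lit 5) (nat_lit 122) (nat_lit 5) (nat_lit 265) (nat_lit 245) (nat_lit 210)) (XT.nd (nat_lit 78) (nat_lit 532) (nat_lit 0) (XT.lf (nat_lit 0) (nat_lit 7315693159) (nat_lit 608) (nat_lit 660039630) (nat_lit 76) (nat_lit 2018390841) (nat_lit 114) (nat_lit 5) (nat_lit 122) (nat_lit 5) (nat_lit 115) (nat_lit 5) (nat_lit 266) (nat_lit 245) (nat_lit 209)) (XT.lf (nat_lit 0) (nat_lit 404604934) (nat_lit 532) (nat_lit 2451843107) (nat_lit 76) (nat_lit 7409202503) (nat_lit 107) (nat_lit 5) (nat_lit 114) (nat_lit 5) (nat_lit 108) (nat_lit 5) (nat_lit 267) (nat_lit 245) (nat_lit 208)))) (XT.nd (nat_lit 78) (nat_lit 760) (nat_lit 0) (XT.lf (nat_lit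 0) (nat_lit 3587979757) (nat_lit 532) (nat_lit 4408530733) (nat_lit 76) (nat_lit 2553574804) (nat_lit 101) (nat_lit 5) (nat_lit 108) (nat_lit 5) (nat_lit 102) (nat_lit 5) (nat_lit 268) (nat_lit 245) (nat_lit 207)) (XT.nd (nat_lit 78) (nat_lit 380) (nat_lit 0) (XT.lf (nat_lit 0) (nat_lit 4322868958) (nat_lit 380) (nat_lit 2616662879) (nat_lit 456) (nat_lit 3909105896) (nat_lit 96) (nat_lit 5) (nat_lit 101) (nat_lit 5) (nat_lit 102) (nat_lit 5) (nat_lit 269) (nat_lit 245) (nat_lit 206)) (XT.lf (nat_lit 0) (nat_lit 2338299180) (nat_lit 380) (nat_lit 8134020174) (nat_lit 456) (nat_lit 689546997) (nat_lit 91) (nat_lit 5) (nat_lit 96) (nat_lit 5) (nat_lit 97) (nat_lit 5) (nat_lit 270) (nat_lit 245) (nat_lit 205))))))) (XT.nd (nat_lit 858) (nat_lit 1596) (nat_lit 0) (XT.nd (nat_lit 390) (nat_lit 1292) (nat_lit 0) (XT.nd (nat_lit 156) (nat_lit 1064) (nat_lit 0) (XT.nd (nat_lit 78) (nat_lit 0) (nat_lit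 0) (XT.lf (nat_lit 0) (nat_lit 144221989) (nat_lit 380) (nat_lit 2508208325) (nat_lit 456) (nat_lit 8837277885) (nat_lit 85) (nat_lit 5) (nat_lit 90) (nat_lit 5) (nat_lit 91) (nat_lit 5) (nat_lit 271) (nat_lit 245) (nat_lit 204)) (XT.lf (nat_lit 0) (nat_lit 6192893538) (nat_lit 456) (nat_lit 2225310602) (nat_lit 76) (nat_lit 3414303138) (nat_lit 85) (nat_lit 5) (nat_lit 91) (nat_lit 5) (nat_lit 86) (nat_lit 5) (nat_lit 272) (nat_lit 245) (nat_lit 203))) (XT.nd (nat_lit 78) (nat_lit 684) (nat_lit 0) (XT.lf (nat_lit 0) (nat_lit 7375820687) (nat_lit 380) (nat_lit 2555645580) (nat_lit 456) (nat_lit 2260480210) (nat_lit 80) (nat_lit 5) (nat_lit 85) (nat_lit 5) (nat_lit 86) (nat_lit 5) (nat_lit 273) (nat_lit 245) (nat_lit 202)) (XT.nd (nat_lit 78) (nat_lit 304) (nat_lit 0) (XT.lf (nat_lit 0) (nat_lit 1294940498) (nat_lit 380) (nat_lit 7678638870) (nat_lit 76) (nat_lit 3594556009) (nat_lit 75)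 (nat_lit 5) (nat_lit 80) (nat_lit 5) (nat_lit 76) (nat_lit 5) (nat_lit 274) (nat_lit 245) (nat_lit 201)) (XT.lf (nat_lit 0) (nat_lit 2119698397) (nat_lit 304) (nat_lit 2887528482) (nat_lit 380) (nat_lit 7954576974) (nat_lit 71) (nat_lit 5) (nat_lit 75) (nat_lit 5) (nat_lit 76) (nat_lit 5) (nat_lit 275) (nat_lit 245) (nat_lit 200))))) (XT.nd (nat_lit 234) (nat_lit 608) (nat_lit 0) (XT.nd (nat_lit 78) (nat_lit 684) (nat_lit 0) (XT.lf (nat_lit 0) (nat_lit 8950109561) (nat_lit 380) (nat_lit 930107410) (nat_lit 76) (nat_lit 3493700660) (nat_lit 71) (nat_lit 5) (nat_lit 76) (nat_lit 5) (nat_lit 72) (nat_lit 5) (nat_lit 276) (nat_lit 245) (nat_lit 199)) (XT.nd (nat_lit 78) (nat_lit 380) (nat_lit 0) (XT.lf (nat_lit 0) (nat_lit 9547720641) (nat_lit 304) (nat_lit 3598084748) (nat_lit 380) (nat_lit 659267677) (nat_lit 67) (nat_lit 5) (nat_lit 71) (nat_lit 5) (nat_lit 72) (nat_lit 5) (nat_lit 277) (nat_lit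 245) (nat_lit 198)) (XT.lf (nat_lit 0) (nat_lit 3265561792) (nat_lit 380) (nat_lit 7969267498) (nat_lit 76) (nat_lit 3021015352) (nat_lit 62) (nat_lit 5) (nat_lit 67) (nat_lit 5) (nat_lit 63) (nat_lit 5) (nat_lit 278) (nat_lit 245) (nat_lit 197)))) (XT.nd (nat_lit 78) (nat_lit 380) (nat_lit 0) (XT.lf (nat_lit 0) (nat_lit 2641902069) (nat_lit 228) (nat_lit 4775534164) (nat_lit 304) (nat_lit 7310282976) (nat_lit 59) (nat_lit 5) (nat_lit 62) (nat_lit 5) (nat_lit 63) (nat_lit 5) (nat_lit 279) (nat_lit 245) (nat_lit 196)) (XT.nd (nat_lit 78) (nat_lit 380) (nat_lit 0) (XT.lf (nat_lit 0) (nat_lit 11819302589) (nat_lit 304) (nat_lit 1374953580) (nat_lit 76) (nat_lit 2027748318) (nat_lit 59) (nat_lit 5) (nat_lit 63) (nat_lit 5) (nat_lit 60) (nat_lit 5) (nat_lit 280) (nat_lit 245) (nat_lit 195)) (XT.lf (nat_lit 0) (nat_lit 774194562) (nat_lit 380) (nat_lit 5809192905) (nat_lit 76) (nat_lit 9154868827)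 (nat_lit 54) (nat_lit 5) (nat_lit 59) (nat_lit 5) (nat_lit 55) (nat_lit 5) (nat_lit 281) (nat_lit 245) (nat_lit 194)))))) (XT.nd (nat_lit 390) (nat_lit 608) (nat_lit 0) (XT.nd (nat_lit 156) (nat_lit 532) (nat_lit 0) (XT.nd (nat_lit 78) (nat_lit 228) (nat_lit 0) (XT.lf (nat_lit 0) (nat_lit 5106445099) (nat_lit 304) (nat_lit 10741620842) (nat_lit 76) (nat_lit 430815889) (nat_lit 51) (nat_lit 5) (nat_lit 55) (nat_lit 5) (nat_lit 52) (nat_lit 5) (nat_lit 282) (nat_lit 245) (nat_lit 193)) (XT.lf (nat_lit 0) (nat_lit 593886731) (nat_lit 228) (nat_lit 9140094799) (nat_lit 304) (nat_lit 7110271497) (nat_lit 48) (nat_lit 5) (nat_lit 51) (nat_lit 5) (nat_lit 52) (nat_lit 5) (nat_lit 283) (nat_lit 245) (nat_lit 192))) (XT.nd (nat_lit 78) (nat_lit 532) (nat_lit 0) (XT.lf (nat_lit 0) (nat_lit 12644533541) (nat_lit 228) (nat_lit 2006894941) (nat_lit 304) (nat_lit 2784779324) (nat_lit 48) (nat_lit 5) (nat_lit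 51) (nat_lit 5) (nat_lit 52) (nat_lit 5) (nat_lit 284) (nat_lit 245) (nat_lit 191)) (XT.nd (nat_lit 78) (nat_lit 228) (nat_lit 0) (XT.lf (nat_lit 0) (nat_lit 1796016615) (nat_lit 304) (nat_lit 10818252820) (nat_lit 76) (nat_lit 5440850462) (nat_lit 44) (nat_lit 5) (nat_lit 48) (nat_lit 5) (nat_lit 45) (nat_lit 5) (nat_lit 285) (nat_lit 245) (nat_lit 190)) (XT.lf (nat_lit 0) (nat_lit 1164614071) (nat_lit 228) (nat_lit 5416803746) (nat_lit 304) (nat_lit 12121800397) (nat_lit 41) (nat_lit 5) (nat_lit 44) (nat_lit 5) (nat_lit 45) (nat_lit 5) (nat_lit 286) (nat_lit 245) (nat_lit 189))))) (XT.nd (nat_lit 234) (nat_lit 380) (nat_lit 0) (XT.nd (nat_lit 78) (nat_lit 228) (nat_lit 0) (XT.lf (nat_lit 0) (nat_lit 11691900256) (nat_lit 304) (nat_lit 5501252407) (nat_lit 76) (nat_lit 2188054021) (nat_lit 41) (nat_lit 5) (nat_lit 45) (nat_lit 5) (nat_lit 42) (nat_lit 5) (nat_lit 287) (nat_lit 245) (nat_lit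 188)) (XT.nd (nat_lit 78) (nat_lit 76) (nat_lit 0) (XT.lf (nat_lit 0) (nat_lit 7154438755) (nat_lit 152) (nat_lit 9981931215) (nat_lit 228) (nat_lit 2954427451) (nat_lit 39) (nat_lit 5) (nat_lit 41) (nat_lit 5) (nat_lit 42) (nat_lit 5) (nat_lit 288) (nat_lit 245) (nat_lit 187)) (XT.lf (nat_lit 0) (nat_lit 1991060471) (nat_lit 228) (nat_lit 363674356) (nat_lit 76) (nat_lit 18480206781) (nat_lit 38) (nat_lit 5) (nat_lit 41) (nat_lit 5) (nat_lit 39) (nat_lit 5) (nat_lit 289) (nat_lit 245) (nat_lit 186)))) (XT.nd (nat_lit 78) (nat_lit 152) (nat_lit 0) (XT.lf (nat_lit 0) (nat_lit 7262021435) (nat_lit 304) (nat_lit 8671392535) (nat_lit 76) (nat_lit 5677872423) (nat_lit 35) (nat_lit 5) (nat_lit 39) (nat_lit 5) (nat_lit 36) (nat_lit 5) (nat_lit 290) (nat_lit 245) (nat_lit 185)) (XT.nd (nat_lit 78) (nat_lit 0) (nat_lit 0) (XT.lf (nat_lit 0) (nat_lit 4490293455) (nat_lit 152) (nat_lit 8336261802)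 (nat_lit 228) (nat_lit 9599039998) (nat_lit 33) (nat_lit 5) (nat_lit 35) (nat_lit 5) (nat_lit 36) (nat_lit 5) (nat_lit 291) (nat_lit 245) (nat_lit 184)) (XT.lf (nat_lit 0) (nat_lit 18429660039) (nat_lit 152) (nat_lit 289578955) (nat_lit 228) (nat_lit 4559928189) (nat_lit 33) (nat_lit 5) (nat_lit 35) (nat_lit 5) (nat_lit 36) (nat_lit 5) (nat_lit 292) (nat_lit 245) (nat_lit 183))))))))
noncomputable def xc61 : XT := (XT.nd (nat_lit 1716) (nat_lit 456) (nat_lit 0) (XT.nd (nat_lit 858) (nat_lit 532) (nat_lit 0) (XT.nd (nat_lit 390) (nat_lit 532) (nat_lit 0) (XT.nd (nat_lit 156) (nat_lit 304) (nat_lit 0) (XT.nd (nat_lit 78) (nat_lit 0) (nat_lit 0) (XT.lf (nat_lit 0) (nat_lit 844653684) (nat_lit 228) (nat_lit 15253248741) (nat_lit 76) (nat_lit 8073512891) (nat_lit 30) (nat_lit 5) (nat_lit 33) (nat_lit 5) (nat_lit 31) (nat_lit 5) (nat_lit 293) (nat_lit 245) (nat_lit 182)) (XT.lf (nat_lit 0) (nat_lit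 6442537843) (nat_lit 228) (nat_lit 1739358565) (nat_lit 76) (nat_lit 16924543535) (nat_lit 30) (nat_lit 5) (nat_lit 33) (nat_lit 5) (nat_lit 31) (nat_lit 5) (nat_lit 294) (nat_lit 245) (nat_lit 181))) (XT.nd (nat_lit 78) (nat_lit 152) (nat_lit 0) (XT.lf (nat_lit 0) (nat_lit 12408999274) (nat_lit 228) (nat_lit 13446923047) (nat_lit 76) (nat_lit 229670997) (nat_lit 28) (nat_lit 5) (nat_lit 31) (nat_lit 5) (nat_lit 29) (nat_lit 5) (nat_lit 295) (nat_lit 245) (nat_lit 180)) (XT.nd (nat_lit 78) (nat_lit 0) (nat_lit 0) (XT.lf (nat_lit 0) (nat_lit 531224153) (nat_lit 152) (nat_lit 18214201546) (nat_lit 228) (nat_lit 8366165603) (nat_lit 26) (nat_lit 5) (nat_lit 28) (nat_lit 5) (nat_lit 29) (nat_lit 5) (nat_lit 296) (nat_lit 245) (nat_lit 179)) (XT.lf (nat_lit 0) (nat_lit 15435697485) (nat_lit 152) (nat_lit 10068381450) (nat_lit 228) (nat_lit 2681682557) (nat_lit 26) (nat_lit 5) (nat_lit 28) (nat_lit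 5) (nat_lit 29) (nat_lit 5) (nat_lit 297) (nat_lit 245) (nat_lit 178))))) (XT.nd (nat_lit 234) (nat_lit 152) (nat_lit 0) (XT.nd (nat_lit 78) (nat_lit 152) (nat_lit 0) (XT.lf (nat_lit 0) (nat_lit 1722065716) (nat_lit 152) (nat_lit 1485580843) (nat_lit 228) (nat_lit 26105534694) (nat_lit 23) (nat_lit 5) (nat_lit 25) (nat_lit 5) (nat_lit 26) (nat_lit 5) (nat_lit 298) (nat_lit 245) (nat_lit 177)) (XT.nd (nat_lit 78) (nat_lit 152) (nat_lit 0) (XT.lf (nat_lit 0) (nat_lit 9510448702) (nat_lit 228) (nat_lit 13460487737) (nat_lit 76) (nat_lit 7520035347) (nat_lit 23) (nat_lit 5) (nat_lit 26) (nat_lit 5) (nat_lit 24) (nat_lit 5) (nat_lit 299) (nat_lit 245) (nat_lit 176)) (XT.lf (nat_lit 0) (nat_lit 1339258833) (nat_lit 152) (nat_lit 14787528005) (nat_lit 228) (nat_lit 15600942041) (nat_lit 21) (nat_lit 5) (nat_lit 23) (nat_lit 5) (nat_lit 24) (nat_lit 5) (nat_lit 300) (nat_lit 245) (nat_lit 175))))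 (XT.nd (nat_lit 78) (nat_lit 152) (nat_lit 0) (XT.lf (nat_lit 0) (nat_lit 17113117013) (nat_lit 152) (nat_lit 6070866600) (nat_lit 228) (nat_lit 9839066497) (nat_lit 21) (nat_lit 5) (nat_lit 23) (nat_lit 5) (nat_lit 24) (nat_lit 5) (nat_lit 301) (nat_lit 245) (nat_lit 174)) (XT.nd (nat_lit 78) (nat_lit 152) (nat_lit 0) (XT.lf (nat_lit 0) (nat_lit 30596328176) (nat_lit 228) (nat_lit 782676898) (nat_lit 76) (nat_lit 3004089916) (nat_lit 21) (nat_lit 5) (nat_lit 24) (nat_lit 5) (nat_lit 22) (nat_lit 4) (nat_lit 302) (nat_lit 245) (nat_lit 173)) (XT.lf (nat_lit 0) (nat_lit 2702078057) (nat_lit 152) (nat_lit 20537482296) (nat_lit 76) (nat_lit 12565344089) (nat_lit 19) (nat_lit 5) (nat_lit 21) (nat_lit 5) (nat_lit 20) (nat_lit 5) (nat_lit 303) (nat_lit 245) (nat_lit 172)))))) (XT.nd (nat_lit 390) (nat_lit 304) (nat_lit 0) (XT.nd (nat_lit 156) (nat_lit 76) (nat_lit 0) (XT.nd (nat_lit 78) (nat_lit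 152) (nat_lit 0) (XT.lf (nat_lit 0) (nat_lit 9420442366) (nat_lit 152) (nat_lit 5242181340) (nat_lit 76) (nat_lit 22634577172) (nat_lit 19) (nat_lit 5) (nat_lit 21) (nat_lit 5) (nat_lit 20) (nat_lit 5) (nat_lit 304) (nat_lit 245) (nat_lit 171)) (XT.lf (nat_lit 0) (nat_lit 10991705820) (nat_lit 152) (nat_lit 5564419580) (nat_lit 228) (nat_lit 22305566714) (nat_lit 17) (nat_lit 5) (nat_lit 19) (nat_lit 5) (nat_lit 20) (nat_lit 5) (nat_lit 305) (nat_lit 245) (nat_lit 170))) (XT.nd (nat_lit 78) (nat_lit 76) (nat_lit 0) (XT.lf (nat_lit 0) (nat_lit 24117795281) (nat_lit 228) (nat_lit 12434903937) (nat_lit 76) (nat_lit 3949653560) (nat_lit 17) (nat_lit 5) (nat_lit 20) (nat_lit 5) (nat_lit 18) (nat_lit 4) (nat_lit 306) (nat_lit 245) (nat_lit 169)) (XT.nd (nat_lit 78) (nat_lit 0) (nat_lit 0) (XT.lf (nat_lit 0) (nat_lit 3750796890) (nat_lit 76) (nat_lit 28376458321) (nat_lit 152) (nat_lit 10095720015)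 (nat_lit 16) (nat_lit 5) (nat_lit 17) (nat_lit 5) (nat_lit 18) (nat_lit 4) (nat_lit 307) (nat_lit 245) (nat_lit 168)) (XT.lf (nat_lit 0) (nat_lit 20968565478) (nat_lit 76) (nat_lit 19674833223) (nat_lit 152) (nat_lit 3383062778) (nat_lit 16) (nat_lit 5) (nat_lit 17) (nat_lit 5) (nat_lit 18) (nat_lit 4) (nat_lit 308) (nat_lit 245) (nat_lit 167))))) (XT.nd (nat_lit 234) (nat_lit 76) (nat_lit 0) (XT.nd (nat_lit 78) (nat_lit 152) (nat_lit 0) (XT.lf (nat_lit 0) (nat_lit 3572724362) (nat_lit 152) (nat_lit 6943872044) (nat_lit 76) (nat_lit 35403115670) (nat_lit 15) (nat_lit 5) (nat_lit 17) (nat_lit 5) (nat_lit 16) (nat_lit 5) (nat_lit 309) (nat_lit 245) (nat_lit 166)) (XT.nd (nat_lit 78) (nat_lit 0) (nat_lit 0) (XT.lf (nat_lit 0) (nat_lit 10104850898) (nat_lit 152) (nat_lit 779285375) (nat_lit 228) (nat_lit 37020166719) (nat_lit 13) (nat_lit 5) (nat_lit 15) (nat_lit 5) (nat_lit 16) (nat_lit 5)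 (nat_lit 310) (nat_lit 245) (nat_lit 165)) (XT.lf (nat_lit 0) (nat_lit 18704617436) (nat_lit 228) (nat_lit 21959887374) (nat_lit 76) (nat_lit 9319329618) (nat_lit 13) (nat_lit 5) (nat_lit 16) (nat_lit 5) (nat_lit 14) (nat_lit 4) (nat_lit 311) (nat_lit 245) (nat_lit 164)))) (XT.nd (nat_lit 78) (nat_lit 76) (nat_lit 0) (XT.lf (nat_lit 0) (nat_lit 26905435614) (nat_lit 228) (nat_lit 5368140445) (nat_lit 76) (nat_lit 19894102164) (nat_lit 13) (nat_lit 5) (nat_lit 16) (nat_lit 5) (nat_lit 14) (nat_lit 4) (nat_lit 312) (nat_lit 245) (nat_lit 163)) (XT.nd (nat_lit 78) (nat_lit 0) (nat_lit 0) (XT.lf (nat_lit 0) (nat_lit 12262060791) (nat_lit 76) (nat_lit 23354435236) (nat_lit 152) (nat_lit 18841226593) (nat_lit 12) (nat_lit 5) (nat_lit 13) (nat_lit 5) (nat_lit 14) (nat_lit 4) (nat_lit 313) (nat_lit 245) (nat_lit 162)) (XT.lf (nat_lit 0) (nat_lit 30856412124) (nat_lit 76) (nat_lit 13944845949) (nat_lit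 152) (nat_lit 12059880470) (nat_lit 12) (nat_lit 5) (nat_lit 13) (nat_lit 5) (nat_lit 14) (nat_lit 4) (nat_lit 314) (nat_lit 245) (nat_lit 161))))))) (XT.nd (nat_lit 858) (nat_lit 152) (nat_lit 0) (XT.nd (nat_lit 390) (nat_lit 152) (nat_lit 0) (XT.nd (nat_lit 156) (nat_lit 0) (nat_lit 0) (XT.nd (nat_lit 78) (nat_lit 152) (nat_lit 0) (XT.lf (nat_lit 0) (nat_lit 50352349295) (nat_lit 76) (nat_lit 4076612110) (nat_lit 152) (nat_lit 4956265871) (nat_lit 12) (nat_lit 5) (nat_lit 13) (nat_lit 5) (nat_lit 14) (nat_lit 4) (nat_lit 315) (nat_lit 245) (nat_lit 160)) (XT.lf (nat_lit 0) (nat_lit 2585052214) (nat_lit 152) (nat_lit 53183841987) (nat_lit 76) (nat_lit 6261976007) (nat_lit 10) (nat_lit 5) (nat_lit 12) (nat_lit 5) (nat_lit 11) (nat_lit 4) (nat_lit 316) (nat_lit 245) (nat_lit 159))) (XT.nd (nat_lit 78) (nat_lit 0) (nat_lit 0) (XT.lf (nat_lit 0) (nat_lit 10521638229) (nat_lit 152) (nat_lit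 37115106416) (nat_lit 76) (nat_lit 17166968870) (nat_lit 10) (nat_lit 5) (nat_lit 12) (nat_lit 5) (nat_lit 11) (nat_lit 4) (nat_lit 317) (nat_lit 245) (nat_lit 158)) (XT.nd (nat_lit 78) (nat_lit 0) (nat_lit 0) (XT.lf (nat_lit 0) (nat_lit 18840482080) (nat_lit 152) (nat_lit 20268362007) (nat_lit 76) (nat_lit 28606803039) (nat_lit 10) (nat_lit 5) (nat_lit 12) (nat_lit 5) (nat_lit 11) (nat_lit 4) (nat_lit 318) (nat_lit 245) (nat_lit 157)) (XT.lf (nat_lit 0) (nat_lit 27561390539) (nat_lit 152) (nat_lit 2603497462) (nat_lit 76) (nat_lit 40608716215) (nat_lit 10) (nat_lit 5) (nat_lit 12) (nat_lit 5) (nat_lit 11) (nat_lit 4) (nat_lit 319) (nat_lit 245) (nat_lit 156))))) (XT.nd (nat_lit 234) (nat_lit 76) (nat_lit 0) (XT.nd (nat_lit 78) (nat_lit 0) (nat_lit 0) (XT.lf (nat_lit 0) (nat_lit 16238416410) (nat_lit 76) (nat_lit 20622804856) (nat_lit 152) (nat_lit 37118961561) (nat_lit 9) (nat_lit 5) (nat_lit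 10) (nat_lit 5) (nat_lit 11) (nat_lit 4) (nat_lit 320) (nat_lit 245) (nat_lit 155)) (XT.nd (nat_lit 78) (nat_lit 0) (nat_lit 0) (XT.lf (nat_lit 0) (nat_lit 36054428648) (nat_lit 76) (nat_lit 10585612863) (nat_lit 152) (nat_lit 30706638416) (nat_lit 9) (nat_lit 5) (nat_lit 10) (nat_lit 5) (nat_lit 11) (nat_lit 4) (nat_lit 321) (nat_lit 245) (nat_lit 154)) (XT.lf (nat_lit 0) (nat_lit 56839905526) (nat_lit 76) (nat_lit 55704167) (nat_lit 152) (nat_lit 23986267024) (nat_lit 9) (nat_lit 5) (nat_lit 10) (nat_lit 5) (nat_lit 11) (nat_lit 4) (nat_lit 322) (nat_lit 245) (nat_lit 153)))) (XT.nd (nat_lit 78) (nat_lit 76) (nat_lit 0) (XT.lf (nat_lit 0) (nat_lit 67758005591) (nat_lit 152) (nat_lit 6055515816) (nat_lit 0) (nat_lit 10777499078) (nat_lit 9) (nat_lit 5) (nat_lit 11) (nat_lit 4) (nat_lit 9) (nat_lit 4) (nat_lit 323) (nat_lit 245) (nat_lit 152)) (XT.nd (nat_lit 78) (nat_lit 0) (nat_lit 0)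 (XT.lf (nat_lit 0) (nat_lit 13065033325) (nat_lit 76) (nat_lit 66213500091) (nat_lit 76) (nat_lit 9203645862) (nat_lit 8) (nat_lit 4) (nat_lit 9) (nat_lit 5) (nat_lit 9) (nat_lit 4) (nat_lit 324) (nat_lit 245) (nat_lit 151)) (XT.lf (nat_lit 0) (nat_lit 33249101959) (nat_lit 76) (nat_lit 58177529986) (nat_lit 76) (nat_lit 1139725551) (nat_lit 8) (nat_lit 4) (nat_lit 9) (nat_lit 5) (nat_lit 9) (nat_lit 4) (nat_lit 325) (nat_lit 245) (nat_lit 150)))))) (XT.nd (nat_lit 31278) (nat_lit 0) (nat_lit 16492) (XT.nd (nat_lit 156) (nat_lit 76) (nat_lit 0) (XT.nd (nat_lit 78) (nat_lit 0) (nat_lit 0) (XT.lf (nat_lit 0) (nat_lit 7174019949) (nat_lit 152) (nat_lit 42501163182) (nat_lit 76) (nat_lit 47177767270) (nat_lit 7) (nat_lit 5) (nat_lit 9) (nat_lit 5) (nat_lit 8) (nat_lit 4) (nat_lit 326) (nat_lit 245) (nat_lit 149)) (XT.lf (nat_lit 0) (nat_lit 15870208148) (nat_lit 152) (nat_lit 24873252798) (nat_lit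 76) (nat_lit 60610370550) (nat_lit 7) (nat_lit 5) (nat_lit 9) (nat_lit 5) (nat_lit 8) (nat_lit 4) (nat_lit 327) (nat_lit 245) (nat_lit 148))) (XT.nd (nat_lit 78) (nat_lit 76) (nat_lit 0) (XT.lf (nat_lit 0) (nat_lit 24991784406) (nat_lit 152) (nat_lit 6380597433) (nat_lit 76) (nat_lit 74707664002) (nat_lit 7) (nat_lit 5) (nat_lit 9) (nat_lit 5) (nat_lit 8) (nat_lit 4) (nat_lit 328) (nat_lit 245) (nat_lit 147)) (XT.nd (nat_lit 78) (nat_lit 0) (nat_lit 0) (XT.lf (nat_lit 0) (nat_lit 13279973152) (nat_lit 76) (nat_lit 21408148835) (nat_lit 152) (nat_lit 76350894682) (nat_lit 6) (nat_lit 5) (nat_lit 7) (nat_lit 5) (nat_lit 8) (nat_lit 4) (nat_lit 329) (nat_lit 245) (nat_lit 146)) (XT.lf (nat_lit 0) (nat_lit 34041504889) (nat_lit 76) (nat_lit 10884760671) (nat_lit 152) (nat_lit 71317966747) (nat_lit 6) (nat_lit 5) (nat_lit 7) (nat_lit 5) (nat_lit 8) (nat_lit 4) (nat_lit 330) (nat_lit 245) (nat_lit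 145))))) (XT.nd (nat_lit 234) (nat_lit 608) (nat_lit 0) (XT.nd (nat_lit 78) (nat_lit 684) (nat_lit 0) (XT.lf (nat_lit 0) (nat_lit 1537406673) (nat_lit 0) (nat_lit 1537406673) (nat_lit 532) (nat_lit 363631964) (nat_lit 240) (nat_lit 5) (nat_lit 240) (nat_lit 3) (nat_lit 247) (nat_lit 3) (nat_lit 246) (nat_lit 246) (nat_lit 228)) (XT.nd (nat_lit 78) (nat_lit 0) (nat_lit 76) (XT.lf (nat_lit 76) (nat_lit 1197883934) (nat_lit 0) (nat_lit 990122700) (nat_lit 684) (nat_lit 4764981199) (nat_lit 232) (nat_lit 5) (nat_lit 231) (nat_lit 3) (nat_lit 240) (nat_lit 5) (nat_lit 247) (nat_lit 246) (nat_lit 227)) (XT.lf (nat_lit 0) (nat_lit 5098993837) (nat_lit 608) (nat_lit 628711952) (nat_lit 684) (nat_lit 1309560644) (nat_lit 232) (nat_lit 5) (nat_lit 240) (nat_lit 5) (nat_lit 241) (nat_lit 5) (nat_lit 248) (nat_lit 246) (nat_lit 226)))) (XT.nd (nat_lit 78) (nat_lit 0) (nat_lit 0) (XT.lf (nat_lit 0) (nat_lit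 886157593) (nat_lit 684) (nat_lit 2402225575) (nat_lit 760) (nat_lit 3841285905) (nat_lit 223) (nat_lit 5) (nat_lit 232) (nat_lit 5) (nat_lit 233) (nat_lit 5) (nat_lit 249) (nat_lit 246) (nat_lit 225)) (XT.nd (nat_lit 78) (nat_lit 0) (nat_lit 76) (XT.lf (nat_lit 76) (nat_lit 3077399889) (nat_lit 0) (nat_lit 598830560) (nat_lit 760) (nat_lit 3554428061) (nat_lit 224) (nat_lit 5) (nat_lit 223) (nat_lit 5) (nat_lit 233) (nat_lit 5) (nat_lit 250) (nat_lit 246) (nat_lit 224)) (XT.lf (nat_lit 76) (nat_lit 1447653997) (nat_lit 0) (nat_lit 5054335109) (nat_lit 760) (nat_lit 838277717) (nat_lit 225) (nat_lit 5) (nat_lit 224) (nat_lit 5) (nat_lit 234) (nat_lit 5) (nat_lit 251) (nat_lit 246) (nat_lit 223))))))))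
noncomputable def xc62 : XT := (XT.nd (nat_lit 1716) (nat_lit 3800) (nat_lit 0) (XT.nd (nat_lit 858) (nat_lit 4180) (nat_lit 0) (XT.nd (nat_lit 390) (nat_lit 4484) (nat_lit 0) (XT.nd (nat_lit 156) (nat_lit 1520) (nat_lit 0) (XT.nd (nat_lit 78) (nat_lit 0) (nat_lit 76) (XT.lf (nat_lit 0) (nat_lit 1864369766) (nat_lit 760) (nat_lit 169307178) (nat_lit 836) (nat_lit 5424818989) (nat_lit 214) (nat_lit 5) (nat_lit 224) (nat_lit 5) (nat_lit 225) (nat_lit 5) (nat_lit 252) (nat_lit 246) (nat_lit 222)) (XT.lf (nat_lit 0) (nat_lit 4601591465) (nat_lit 760) (nat_lit 1751768360) (nat_lit 836) (nat_lit 1231924883) (nat_lit 215) (nat_lit 5) (nat_lit 225) (nat_lit 5) (nat_lit 226) (nat_lit 5) (nat_lit 253) (nat_lit 246) (nat_lit 221))) (XT.nd (nat_lit 78) (nat_lit 1596) (nat_lit 0) (XT.lf (nat_lit 76) (nat_lit 4384503775) (nat_lit 0) (nat_lit 3010703389) (nat_lit 836) (nat_lit 326001261) (nat_lit 216)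 (nat_lit 5) (nat_lit 215) (nat_lit 5) (nat_lit 226) (nat_lit 5) (nat_lit 254) (nat_lit 246) (nat_lit 220)) (XT.nd (nat_lit 78) (nat_lit 836) (nat_lit 0) (XT.lf (nat_lit 0) (nat_lit 2328049286) (nat_lit 836) (nat_lit 4940502601) (nat_lit 76) (nat_lit 597671451) (nat_lit 205) (nat_lit 5) (nat_lit 216) (nat_lit 5) (nat_lit 206) (nat_lit 5) (nat_lit 255) (nat_lit 246) (nat_lit 219)) (XT.lf (nat_lit 0) (nat_lit 1443503075) (nat_lit 836) (nat_lit 3608970161) (nat_lit 912) (nat_lit 2967922482) (nat_lit 194) (nat_lit 5) (nat_lit 205) (nat_lit 5) (nat_lit 206) (nat_lit 5) (nat_lit 256) (nat_lit 246) (nat_lit 218))))) (XT.nd (nat_lit 234) (nat_lit 2508) (nat_lit 0) (XT.nd (nat_lit 78) (nat_lit 1976) (nat_lit 0) (XT.lf (nat_lit 0) (nat_lit 7837829453) (nat_lit 912) (nat_lit 39209071) (nat_lit 76) (nat_lit 307816808) (nat_lit 194) (nat_lit 5) (nat_lit 206) (nat_lit 5) (nat_lit 195) (nat_lit 5) (nat_lit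 257) (nat_lit 246) (nat_lit 217)) (XT.nd (nat_lit 78) (nat_lit 988) (nat_lit 0) (XT.lf (nat_lit 0) (nat_lit 2336722386) (nat_lit 988) (nat_lit 1559960375) (nat_lit 76) (nat_lit 4461095416) (nat_lit 181) (nat_lit 5) (nat_lit 194) (nat_lit 5) (nat_lit 182) (nat_lit 5) (nat_lit 258) (nat_lit 246) (nat_lit 216)) (XT.lf (nat_lit 0) (nat_lit 5084404334) (nat_lit 1064) (nat_lit 3104541540) (nat_lit 76) (nat_lit 352472262) (nat_lit 168) (nat_lit 5) (nat_lit 182) (nat_lit 5) (nat_lit 169) (nat_lit 5) (nat_lit 259) (nat_lit 246) (nat_lit 215)))) (XT.nd (nat_lit 78) (nat_lit 1444) (nat_lit 0) (XT.lf (nat_lit 0) (nat_lit 4019959107) (nat_lit 1064) (nat_lit 3929305150) (nat_lit 1140) (nat_lit 785850353) (nat_lit 154) (nat_lit 5) (nat_lit 168) (nat_lit 5) (nat_lit 169) (nat_lit 5) (nat_lit 260) (nat_lit 246) (nat_lit 214)) (XT.nd (nat_lit 78) (nat_lit 532) (nat_lit 0) (XT.lf (nat_lit 0) (nat_lit 1931175412)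 (nat_lit 912) (nat_lit 6388614979) (nat_lit 76) (nat_lit 619820443) (nat_lit 142) (nat_lit 5) (nat_lit 154) (nat_lit 5) (nat_lit 143) (nat_lit 5) (nat_lit 261) (nat_lit 246) (nat_lit 213)) (XT.lf (nat_lit 0) (nat_lit 995892910) (nat_lit 532) (nat_lit 3763514791) (nat_lit 608) (nat_lit 4395178808) (nat_lit 135) (nat_lit 5) (nat_lit 142) (nat_lit 5) (nat_lit 143) (nat_lit 5) (nat_lit 262) (nat_lit 246) (nat_lit 212)))))) (XT.nd (nat_lit 390) (nat_lit 2052) (nat_lit 0) (XT.nd (nat_lit 156) (nat_lit 1520) (nat_lit 0) (XT.nd (nat_lit 78) (nat_lit 608) (nat_lit 0) (XT.lf (nat_lit 0) (nat_lit 7702658870) (nat_lit 608) (nat_lit 607682123) (nat_lit 76) (nat_lit 1070986802) (nat_lit 135) (nat_lit 5) (nat_lit 143) (nat_lit 5) (nat_lit 136) (nat_lit 5) (nat_lit 263) (nat_lit 246) (nat_lit 211)) (XT.lf (nat_lit 0) (nat_lit 1161361516) (nat_lit 608) (nat_lit 2301935478) (nat_lit 76) (nat_lit 6155660852)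 (nat_lit 127) (nat_lit 5) (nat_lit 135) (nat_lit 5) (nat_lit 128) (nat_lit 5) (nat_lit 264) (nat_lit 246) (nat_lit 210))) (XT.nd (nat_lit 78) (nat_lit 1064) (nat_lit 0) (XT.lf (nat_lit 0) (nat_lit 4092175881) (nat_lit 532) (nat_lit 4103818781) (nat_lit 76) (nat_lit 1672669303) (nat_lit 121) (nat_lit 5) (nat_lit 128) (nat_lit 5) (nat_lit 122) (nat_lit 5) (nat_lit 265) (nat_lit 246) (nat_lit 209)) (XT.nd (nat_lit 78) (nat_lit 532) (nat_lit 0) (XT.lf (nat_lit 0) (nat_lit 4101154104) (nat_lit 532) (nat_lit 3075177388) (nat_lit 608) (nat_lit 2954508622) (nat_lit 114) (nat_lit 5) (nat_lit 121) (nat_lit 5) (nat_lit 122) (nat_lit 5) (nat_lit 266) (nat_lit 246) (nat_lit 208)) (XT.lf (nat_lit 0) (nat_lit 7230549) (nat_lit 532) (nat_lit 8082938097) (nat_lit 76) (nat_lit 2316163632) (nat_lit 107) (nat_lit 5) (nat_lit 114) (nat_lit 5) (nat_lit 108) (nat_lit 5) (nat_lit 267) (nat_lit 246) (nat_lit 207)))))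 (XT.nd (nat_lit 234) (nat_lit 1216) (nat_lit 0) (XT.nd (nat_lit 78) (nat_lit 380) (nat_lit 0) (XT.lf (nat_lit 0) (nat_lit 376559173) (nat_lit 456) (nat_lit 2691481655) (nat_lit 532) (nat_lit 7626484214) (nat_lit 101) (nat_lit 5) (nat_lit 107) (nat_lit 5) (nat_lit 108) (nat_lit 5) (nat_lit 268) (nat_lit 246) (nat_lit 206)) (XT.nd (nat_lit 78) (nat_lit 380) (nat_lit 0) (XT.lf (nat_lit 0) (nat_lit 6311810896) (nat_lit 532) (nat_lit 1691635927) (nat_lit 76) (nat_lit 2992941333) (nat_lit 101) (nat_lit 5) (nat_lit 108) (nat_lit 5) (nat_lit 102) (nat_lit 5) (nat_lit 269) (nat_lit 246) (nat_lit 205)) (XT.lf (nat_lit 0) (nat_lit 7392136022) (nat_lit 380) (nat_lit 2345067093) (nat_lit 456) (nat_lit 1575709057) (nat_lit 96) (nat_lit 5) (nat_lit 101) (nat_lit 5) (nat_lit 102) (nat_lit 5) (nat_lit 270) (nat_lit 246) (nat_lit 204)))) (XT.nd (nat_lit 78) (nat_lit 760) (nat_lit 0) (XT.lf (nat_lit 0) (nat_lit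 1682862163) (nat_lit 456) (nat_lit 6362379011) (nat_lit 76) (nat_lit 3598857342) (nat_lit 90) (nat_lit 5) (nat_lit 96) (nat_lit 5) (nat_lit 91) (nat_lit 5) (nat_lit 271) (nat_lit 246) (nat_lit 203)) (XT.nd (nat_lit 78) (nat_lit 380) (nat_lit 0) (XT.lf (nat_lit 0) (nat_lit 2963843590) (nat_lit 380) (nat_lit 2127060172) (nat_lit 456) (nat_lit 6900031241) (nat_lit 85) (nat_lit 5) (nat_lit 90) (nat_lit 5) (nat_lit 91) (nat_lit 5) (nat_lit 272) (nat_lit 246) (nat_lit 202)) (XT.lf (nat_lit 0) (nat_lit 415143629) (nat_lit 380) (nat_lit 8292072136) (nat_lit 456) (nat_lit 3646887934) (nat_lit 80) (nat_lit 5) (nat_lit 85) (nat_lit 5) (nat_lit 86) (nat_lit 5) (nat_lit 273) (nat_lit 246) (nat_lit 201))))))) (XT.nd (nat_lit 858) (nat_lit 1368) (nat_lit 0) (XT.nd (nat_lit 390) (nat_lit 1368) (nat_lit 0) (XT.nd (nat_lit 156) (nat_lit 684) (nat_lit 0) (XT.nd (nat_lit 78) (nat_lit 380) (nat_lit 0) (XT.lf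 (nat_lit 0) (nat_lit 10409585254) (nat_lit 380) (nat_lit 2139964003) (nat_lit 456) (nat_lit 184645809) (nat_lit 80) (nat_lit 5) (nat_lit 85) (nat_lit 5) (nat_lit 86) (nat_lit 5) (nat_lit 274) (nat_lit 246) (nat_lit 200)) (XT.lf (nat_lit 0) (nat_lit 3434375811) (nat_lit 380) (nat_lit 5368929650) (nat_lit 76) (nat_lit 4327571677) (nat_lit 75) (nat_lit 5) (nat_lit 80) (nat_lit 5) (nat_lit 76) (nat_lit 5) (nat_lit 275) (nat_lit 246) (nat_lit 199))) (XT.nd (nat_lit 78) (nat_lit 380) (nat_lit 0) (XT.lf (nat_lit 0) (nat_lit 4842111797) (nat_lit 304) (nat_lit 2416520744) (nat_lit 380) (nat_lit 6287968879) (nat_lit 71) (nat_lit 5) (nat_lit 75) (nat_lit 5) (nat_lit 76) (nat_lit 5) (nat_lit 276) (nat_lit 246) (nat_lit 198)) (XT.nd (nat_lit 78) (nat_lit 76) (nat_lit 0) (XT.lf (nat_lit 0) (nat_lit 1601112263) (nat_lit 304) (nat_lit 9723283902) (nat_lit 380) (nat_lit 2657307919) (nat_lit 67) (nat_lit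 5) (nat_lit 71) (nat_lit 5) (nat_lit 72) (nat_lit 5) (nat_lit 277) (nat_lit 246) (nat_lit 197)) (XT.lf (nat_lit 0) (nat_lit 1186584465) (nat_lit 380) (nat_lit 1950083493) (nat_lit 76) (nat_lit 11300027225) (nat_lit 66) (nat_lit 5) (nat_lit 71) (nat_lit 5) (nat_lit 67) (nat_lit 5) (nat_lit 278) (nat_lit 246) (nat_lit 196))))) (XT.nd (nat_lit 234) (nat_lit 532) (nat_lit 0) (XT.nd (nat_lit 78) (nat_lit 532) (nat_lit 0) (XT.lf (nat_lit 0) (nat_lit 5234958189) (nat_lit 380) (nat_lit 5875729520) (nat_lit 76) (nat_lit 3801030443) (nat_lit 62) (nat_lit 5) (nat_lit 67) (nat_lit 5) (nat_lit 63) (nat_lit 5) (nat_lit 279) (nat_lit 246) (nat_lit 195)) (XT.nd (nat_lit 78) (nat_lit 304) (nat_lit 0) (XT.lf (nat_lit 0) (nat_lit 5194565807) (nat_lit 228) (nat_lit 4337122897) (nat_lit 304) (nat_lit 5877510117) (nat_lit 59) (nat_lit 5) (nat_lit 62) (nat_lit 5) (nat_lit 63) (nat_lit 5) (nat_lit 280) (nat_lit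 246) (nat_lit 194)) (XT.lf (nat_lit 0) (nat_lit 925759293) (nat_lit 304) (nat_lit 13159969490) (nat_lit 380) (nat_lit 1844631213) (nat_lit 55) (nat_lit 5) (nat_lit 59) (nat_lit 5) (nat_lit 60) (nat_lit 5) (nat_lit 281) (nat_lit 246) (nat_lit 193)))) (XT.nd (nat_lit 78) (nat_lit 456) (nat_lit 0) (XT.lf (nat_lit 0) (nat_lit 2440310321) (nat_lit 380) (nat_lit 3780976681) (nat_lit 76) (nat_lit 10252765997) (nat_lit 54) (nat_lit 5) (nat_lit 59) (nat_lit 5) (nat_lit 55) (nat_lit 5) (nat_lit 282) (nat_lit 246) (nat_lit 192)) (XT.nd (nat_lit 78) (nat_lit 228) (nat_lit 0) (XT.lf (nat_lit 0) (nat_lit 6939870332) (nat_lit 304) (nat_lit 8983701733) (nat_lit 76) (nat_lit 1119726074) (nat_lit 51) (nat_lit 5) (nat_lit 55) (nat_lit 5) (nat_lit 52) (nat_lit 5) (nat_lit 283) (nat_lit 246) (nat_lit 191)) (XT.lf (nat_lit 0) (nat_lit 2852795500) (nat_lit 228) (nat_lit 8892268896) (nat_lit 304) (nat_lit 5893589108)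 (nat_lit 48) (nat_lit 5) (nat_lit 51) (nat_lit 5) (nat_lit 52) (nat_lit 5) (nat_lit 284) (nat_lit 246) (nat_lit 190)))))) (XT.nd (nat_lit 390) (nat_lit 684) (nat_lit 0) (XT.nd (nat_lit 156) (nat_lit 380) (nat_lit 0) (XT.nd (nat_lit 78) (nat_lit 304) (nat_lit 0) (XT.lf (nat_lit 0) (nat_lit 15399821582) (nat_lit 228) (nat_lit 1435972409) (nat_lit 304) (nat_lit 1426688801) (nat_lit 48) (nat_lit 5) (nat_lit 51) (nat_lit 5) (nat_lit 52) (nat_lit 5) (nat_lit 285) (nat_lit 246) (nat_lit 189)) (XT.lf (nat_lit 0) (nat_lit 3310612765) (nat_lit 304) (nat_lit 9228810279) (nat_lit 76) (nat_lit 6373876736) (nat_lit 44) (nat_lit 5) (nat_lit 48) (nat_lit 5) (nat_lit 45) (nat_lit 5) (nat_lit 286) (nat_lit 246) (nat_lit 188))) (XT.nd (nat_lit 78) (nat_lit 152) (nat_lit 0) (XT.lf (nat_lit 0) (nat_lit 3292133753) (nat_lit 228) (nat_lit 4995194149) (nat_lit 304) (nat_lit 11308001044) (nat_lit 41) (nat_lit 5)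 (nat_lit 44) (nat_lit 5) (nat_lit 45) (nat_lit 5) (nat_lit 287) (nat_lit 246) (nat_lit 187)) (XT.nd (nat_lit 78) (nat_lit 152) (nat_lit 0) (XT.lf (nat_lit 0) (nat_lit 13594109979) (nat_lit 304) (nat_lit 3770902736) (nat_lit 76) (nat_lit 2944063956) (nat_lit 41) (nat_lit 5) (nat_lit 45) (nat_lit 5) (nat_lit 42) (nat_lit 5) (nat_lit 288) (nat_lit 246) (nat_lit 186)) (XT.lf (nat_lit 0) (nat_lit 9460088244) (nat_lit 152) (nat_lit 9806696048) (nat_lit 228) (nat_lit 1788762357) (nat_lit 39) (nat_lit 5) (nat_lit 41) (nat_lit 5) (nat_lit 42) (nat_lit 5) (nat_lit 289) (nat_lit 246) (nat_lit 185))))) (XT.nd (nat_lit 234) (nat_lit 228) (nat_lit 0) (XT.nd (nat_lit 78) (nat_lit 152) (nat_lit 0) (XT.lf (nat_lit 0) (nat_lit 1529019673) (nat_lit 228) (nat_lit 1802727470) (nat_lit 304) (nat_lit 18506244042) (nat_lit 35) (nat_lit 5) (nat_lit 38) (nat_lit 5) (nat_lit 39) (nat_lit 5) (nat_lit 290) (nat_lit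 246) (nat_lit 184)) (XT.nd (nat_lit 78) (nat_lit 152) (nat_lit 0) (XT.lf (nat_lit 0) (nat_lit 8816886709) (nat_lit 304) (nat_lit 7247045751) (nat_lit 76) (nat_lit 6590771522) (nat_lit 35) (nat_lit 5) (nat_lit 39) (nat_lit 5) (nat_lit 36) (nat_lit 5) (nat_lit 291) (nat_lit 246) (nat_lit 183)) (XT.lf (nat_lit 0) (nat_lit 6519467737) (nat_lit 152) (nat_lit 8100776301) (nat_lit 228) (nat_lit 8890732717) (nat_lit 33) (nat_lit 5) (nat_lit 35) (nat_lit 5) (nat_lit 36) (nat_lit 5) (nat_lit 292) (nat_lit 246) (nat_lit 182)))) (XT.nd (nat_lit 78) (nat_lit 228) (nat_lit 0) (XT.lf (nat_lit 0) (nat_lit 20755736546) (nat_lit 228) (nat_lit 3342119160) (nat_lit 76) (nat_lit 310989547) (nat_lit 33) (nat_lit 5) (nat_lit 36) (nat_lit 5) (nat_lit 34) (nat_lit 5) (nat_lit 293) (nat_lit 246) (nat_lit 181)) (XT.nd (nat_lit 78) (nat_lit 0) (nat_lit 0) (XT.lf (nat_lit 0) (nat_lit 1965857526) (nat_lit 228) (nat_lit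 14296403733) (nat_lit 76) (nat_lit 9084186736) (nat_lit 30) (nat_lit 5) (nat_lit 33) (nat_lit 5) (nat_lit 31) (nat_lit 5) (nat_lit 294) (nat_lit 246) (nat_lit 180)) (XT.lf (nat_lit 0) (nat_lit 7792256314) (nat_lit 228) (nat_lit 188700356) (nat_lit 76) (nat_lit 18348864237) (nat_lit 30) (nat_lit 5) (nat_lit 33) (nat_lit 5) (nat_lit 31) (nat_lit 5) (nat_lit 295) (nat_lit 246) (nat_lit 179))))))))
noncomputable def xc63 : XT := (XT.nd (nat_lit 1716) (nat_lit 304) (nat_lit 0) (XT.nd (nat_lit 858) (nat_lit 532) (nat_lit 0) (XT.nd (nat_lit 390) (nat_lit 456) (nat_lit 0) (XT.nd (nat_lit 156) (nat_lit 228) (nat_lit 0) (XT.nd (nat_lit 78) (nat_lit 152) (nat_lit 0) (XT.lf (nat_lit 0) (nat_lit 14029134690) (nat_lit 228) (nat_lit 12503442712) (nat_lit 76) (nat_lit 826244745) (nat_lit 28) (nat_lit 5) (nat_lit 31) (nat_lit 5) (nat_lit 29) (nat_lit 5) (nat_lit 296) (nat_lit 246) (nat_lit 178)) (XT.lf (nat_lit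 0) (nat_lit 2127294505) (nat_lit 152) (nat_lit 18522570943) (nat_lit 228) (nat_lit 7787280580) (nat_lit 26) (nat_lit 5) (nat_lit 28) (nat_lit 5) (nat_lit 29) (nat_lit 5) (nat_lit 297) (nat_lit 246) (nat_lit 177))) (XT.nd (nat_lit 78) (nat_lit 228) (nat_lit 0) (XT.lf (nat_lit 0) (nat_lit 17702252974) (nat_lit 152) (nat_lit 9998142732) (nat_lit 228) (nat_lit 1866058777) (nat_lit 26) (nat_lit 5) (nat_lit 28) (nat_lit 5) (nat_lit 29) (nat_lit 5) (nat_lit 298) (nat_lit 246) (nat_lit 176)) (XT.nd (nat_lit 78) (nat_lit 0) (nat_lit 0) (XT.lf (nat_lit 0) (nat_lit 3279000241) (nat_lit 152) (nat_lit 990001162) (nat_lit 228) (nat_lit 26481920510) (nat_lit 23) (nat_lit 5) (nat_lit 25) (nat_lit 5) (nat_lit 26) (nat_lit 5) (nat_lit 299) (nat_lit 246) (nat_lit 175)) (XT.lf (nat_lit 0) (nat_lit 10849257181) (nat_lit 228) (nat_lit 12711348494) (nat_lit 76) (nat_lit 8428169235) (nat_lit 23) (nat_lit 5) (nat_lit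 26) (nat_lit 5) (nat_lit 24) (nat_lit 5) (nat_lit 300) (nat_lit 246) (nat_lit 174))))) (XT.nd (nat_lit 234) (nat_lit 228) (nat_lit 0) (XT.nd (nat_lit 78) (nat_lit 76) (nat_lit 0) (XT.lf (nat_lit 0) (nat_lit 2787619369) (nat_lit 152) (nat_lit 14980962834) (nat_lit 228) (nat_lit 15519662884) (nat_lit 21) (nat_lit 5) (nat_lit 23) (nat_lit 5) (nat_lit 24) (nat_lit 5) (nat_lit 301) (nat_lit 246) (nat_lit 173)) (XT.nd (nat_lit 78) (nat_lit 76) (nat_lit 0) (XT.lf (nat_lit 0) (nat_lit 19284389620) (nat_lit 152) (nat_lit 5854465577) (nat_lit 228) (nat_lit 9510709098) (nat_lit 21) (nat_lit 5) (nat_lit 23) (nat_lit 5) (nat_lit 24) (nat_lit 5) (nat_lit 302) (nat_lit 246) (nat_lit 172)) (XT.lf (nat_lit 0) (nat_lit 458815789) (nat_lit 76) (nat_lit 32434282477) (nat_lit 152) (nat_lit 3185411294) (nat_lit 20) (nat_lit 5) (nat_lit 21) (nat_lit 5) (nat_lit 22) (nat_lit 4) (nat_lit 303) (nat_lit 246) (nat_lit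 171)))) (XT.nd (nat_lit 78) (nat_lit 152) (nat_lit 0) (XT.lf (nat_lit 0) (nat_lit 3583278452) (nat_lit 152) (nat_lit 20313610065) (nat_lit 76) (nat_lit 13675201812) (nat_lit 19) (nat_lit 5) (nat_lit 21) (nat_lit 5) (nat_lit 20) (nat_lit 5) (nat_lit 304) (nat_lit 246) (nat_lit 170)) (XT.nd (nat_lit 78) (nat_lit 152) (nat_lit 0) (XT.lf (nat_lit 0) (nat_lit 10602032572) (nat_lit 152) (nat_lit 4313103411) (nat_lit 76) (nat_lit 24224963668) (nat_lit 19) (nat_lit 5) (nat_lit 21) (nat_lit 5) (nat_lit 20) (nat_lit 5) (nat_lit 305) (nat_lit 246) (nat_lit 169)) (XT.lf (nat_lit 0) (nat_lit 12698332971) (nat_lit 152) (nat_lit 5373452406) (nat_lit 228) (nat_lit 22711742182) (nat_lit 17) (nat_lit 5) (nat_lit 19) (nat_lit 5) (nat_lit 20) (nat_lit 5) (nat_lit 306) (nat_lit 246) (nat_lit 168)))))) (XT.nd (nat_lit 390) (nat_lit 228) (nat_lit 0) (XT.nd (nat_lit 156) (nat_lit 228) (nat_lit 0) (XT.nd (nat_lit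 78) (nat_lit 76) (nat_lit 0) (XT.lf (nat_lit 0) (nat_lit 25983079168) (nat_lit 228) (nat_lit 11938762565) (nat_lit 76) (nat_lit 4585262525) (nat_lit 17) (nat_lit 5) (nat_lit 20) (nat_lit 5) (nat_lit 18) (nat_lit 4) (nat_lit 307) (nat_lit 246) (nat_lit 167)) (XT.lf (nat_lit 0) (nat_lit 5024179310) (nat_lit 76) (nat_lit 29347870848) (nat_lit 152) (nat_lit 9942364355) (nat_lit 16) (nat_lit 5) (nat_lit 17) (nat_lit 5) (nat_lit 18) (nat_lit 4) (nat_lit 308) (nat_lit 246) (nat_lit 166))) (XT.nd (nat_lit 78) (nat_lit 228) (nat_lit 0) (XT.lf (nat_lit 0) (nat_lit 23051129538) (nat_lit 76) (nat_lit 20232469752) (nat_lit 152) (nat_lit 2925414335) (nat_lit 16) (nat_lit 5) (nat_lit 17) (nat_lit 5) (nat_lit 18) (nat_lit 4) (nat_lit 309) (nat_lit 246) (nat_lit 165)) (XT.nd (nat_lit 78) (nat_lit 152) (nat_lit 0) (XT.lf (nat_lit 0) (nat_lit 4336665747) (nat_lit 152) (nat_lit 6294035633) (nat_lit 76) (nat_lit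 37566947077) (nat_lit 15) (nat_lit 5) (nat_lit 17) (nat_lit 5) (nat_lit 16) (nat_lit 5) (nat_lit 310) (nat_lit 246) (nat_lit 164)) (XT.lf (nat_lit 0) (nat_lit 11578543791) (nat_lit 152) (nat_lit 416542125) (nat_lit 228) (nat_lit 38286963209) (nat_lit 13) (nat_lit 5) (nat_lit 15) (nat_lit 5) (nat_lit 16) (nat_lit 5) (nat_lit 311) (nat_lit 246) (nat_lit 163))))) (XT.nd (nat_lit 234) (nat_lit 152) (nat_lit 0) (XT.nd (nat_lit 78) (nat_lit 76) (nat_lit 0) (XT.lf (nat_lit 0) (nat_lit 20183280962) (nat_lit 228) (nat_lit 22122588500) (nat_lit 76) (nat_lit 10160409202) (nat_lit 13) (nat_lit 5) (nat_lit 16) (nat_lit 5) (nat_lit 14) (nat_lit 4) (nat_lit 312) (nat_lit 246) (nat_lit 162)) (XT.nd (nat_lit 78) (nat_lit 76) (nat_lit 0) (XT.lf (nat_lit 0) (nat_lit 28768262304) (nat_lit 228) (nat_lit 4745791998) (nat_lit 76) (nat_lit 21246057846) (nat_lit 13) (nat_lit 5) (nat_lit 16) (nat_lit 5) (nat_lit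 14) (nat_lit 4) (nat_lit 313) (nat_lit 246) (nat_lit 161)) (XT.lf (nat_lit 0) (nat_lit 13740385974) (nat_lit 76) (nat_lit 24158161337) (nat_lit 152) (nat_lit 19266621466) (nat_lit 12) (nat_lit 5) (nat_lit 13) (nat_lit 5) (nat_lit 14) (nat_lit 4) (nat_lit 314) (nat_lit 246) (nat_lit 160)))) (XT.nd (nat_lit 78) (nat_lit 152) (nat_lit 0) (XT.lf (nat_lit 0) (nat_lit 33223253818) (nat_lit 76) (nat_lit 14295425713) (nat_lit 152) (nat_lit 12170811202) (nat_lit 12) (nat_lit 5) (nat_lit 13) (nat_lit 5) (nat_lit 14) (nat_lit 4) (nat_lit 315) (nat_lit 246) (nat_lit 159)) (XT.nd (nat_lit 78) (nat_lit 152) (nat_lit 0) (XT.lf (nat_lit 0) (nat_lit 53654748749) (nat_lit 76) (nat_lit 3950287921) (nat_lit 152) (nat_lit 4735447458) (nat_lit 12) (nat_lit 5) (nat_lit 13) (nat_lit 5) (nat_lit 14) (nat_lit 4) (nat_lit 316) (nat_lit 246) (nat_lit 158)) (XT.lf (nat_lit 0) (nat_lit 3162466197) (nat_lit 152) (nat_lit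 55060969890) (nat_lit 76) (nat_lit 6895194652) (nat_lit 10) (nat_lit 5) (nat_lit 12) (nat_lit 5) (nat_lit 11) (nat_lit 4) (nat_lit 317) (nat_lit 246) (nat_lit 157))))))) (XT.nd (nat_lit 858) (nat_lit 76) (nat_lit 0) (XT.nd (nat_lit 390) (nat_lit 152) (nat_lit 0) (XT.nd (nat_lit 156) (nat_lit 76) (nat_lit 0) (XT.nd (nat_lit 78) (nat_lit 0) (nat_lit 0) (XT.lf (nat_lit 0) (nat_lit 11474540495) (nat_lit 152) (nat_lit 38226038693) (nat_lit 76) (nat_lit 18330193356) (nat_lit 10) (nat_lit 5) (nat_lit 12) (nat_lit 5) (nat_lit 11) (nat_lit 4) (nat_lit 318) (nat_lit 246) (nat_lit 156)) (XT.lf (nat_lit 0) (nat_lit 20189001760) (nat_lit 152) (nat_lit 20572424827) (nat_lit 76) (nat_lit 30327501327) (nat_lit 10) (nat_lit 5) (nat_lit 12) (nat_lit 5) (nat_lit 11) (nat_lit 4) (nat_lit 319) (nat_lit 246) (nat_lit 155))) (XT.nd (nat_lit 78) (nat_lit 76) (nat_lit 0) (XT.lf (nat_lit 0) (nat_lit 29326598710)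 (nat_lit 152) (nat_lit 2058095878) (nat_lit 76) (nat_lit 42915683583) (nat_lit 10) (nat_lit 5) (nat_lit 12) (nat_lit 5) (nat_lit 11) (nat_lit 4) (nat_lit 320) (nat_lit 246) (nat_lit 154)) (XT.nd (nat_lit 78) (nat_lit 0) (nat_lit 0) (XT.lf (nat_lit 0) (nat_lit 17706548424) (nat_lit 76) (nat_lit 21372745278) (nat_lit 152) (nat_lit 38588369737) (nat_lit 9) (nat_lit 5) (nat_lit 10) (nat_lit 5) (nat_lit 11) (nat_lit 4) (nat_lit 321) (nat_lit 246) (nat_lit 153)) (XT.lf (nat_lit 0) (nat_lit 38482113122) (nat_lit 76) (nat_lit 10847084154) (nat_lit 152) (nat_lit 31873837097) (nat_lit 9) (nat_lit 5) (nat_lit 10) (nat_lit 5) (nat_lit 11) (nat_lit 4) (nat_lit 322) (nat_lit 246) (nat_lit 152))))) (XT.nd (nat_lit 234) (nat_lit 76) (nat_lit 0) (XT.nd (nat_lit 78) (nat_lit 76) (nat_lit 0) (XT.lf (nat_lit 0) (nat_lit 60082426073) (nat_lit 152) (nat_lit 24640299664) (nat_lit 0) (nat_lit 192731416) (nat_lit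 9) (nat_lit 5) (nat_lit 11) (nat_lit 4) (nat_lit 9) (nat_lit 4) (nat_lit 323) (nat_lit 246) (nat_lit 151)) (XT.nd (nat_lit 78) (nat_lit 76) (nat_lit 0) (XT.lf (nat_lit 0) (nat_lit 71472189804) (nat_lit 152) (nat_lit 5783807938) (nat_lit 0) (nat_lit 11554544941) (nat_lit 9) (nat_lit 5) (nat_lit 11) (nat_lit 4) (nat_lit 9) (nat_lit 4) (nat_lit 324) (nat_lit 246) (nat_lit 150)) (XT.lf (nat_lit 0) (nat_lit 14276301201) (nat_lit 76) (nat_lit 69282269483) (nat_lit 76) (nat_lit 9338005376) (nat_lit 8) (nat_lit 4) (nat_lit 9) (nat_lit 5) (nat_lit 9) (nat_lit 4) (nat_lit 325) (nat_lit 246) (nat_lit 149)))) (XT.nd (nat_lit 78) (nat_lit 76) (nat_lit 0) (XT.lf (nat_lit 0) (nat_lit 35443001066) (nat_lit 76) (nat_lit 60856020187) (nat_lit 76) (nat_lit 886404420) (nat_lit 8) (nat_lit 4) (nat_lit 9) (nat_lit 5) (nat_lit 9) (nat_lit 4) (nat_lit 326) (nat_lit 246) (nat_lit 148)) (XT.nd (nat_lit 78) (nat_lit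 0) (nat_lit 0) (XT.lf (nat_lit 0) (nat_lit 7822484940) (nat_lit 152) (nat_lit 44114115776) (nat_lit 76) (nat_lit 49750102743) (nat_lit 7) (nat_lit 5) (nat_lit 9) (nat_lit 5) (nat_lit 8) (nat_lit 4) (nat_lit 327) (nat_lit 246) (nat_lit 147)) (XT.lf (nat_lit 0) (nat_lit 16939684264) (nat_lit 152) (nat_lit 25629195853) (nat_lit 76) (nat_lit 63844172039) (nat_lit 7) (nat_lit 5) (nat_lit 9) (nat_lit 5) (nat_lit 8) (nat_lit 4) (nat_lit 328) (nat_lit 246) (nat_lit 146)))))) (XT.nd (nat_lit 31356) (nat_lit 0) (nat_lit 14972) (XT.nd (nat_lit 31122) (nat_lit 0) (nat_lit 16416) (XT.nd (nat_lit 78) (nat_lit 76) (nat_lit 0) (XT.lf (nat_lit 0) (nat_lit 26504198110) (nat_lit 152) (nat_lit 6235132462) (nat_lit 76) (nat_lit 78636650022) (nat_lit 7) (nat_lit 5) (nat_lit 9) (nat_lit 5) (nat_lit 8) (nat_lit 4) (nat_lit 329) (nat_lit 246) (nat_lit 145)) (XT.lf (nat_lit 0) (nat_lit 14395152001) (nat_lit 76) (nat_lit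 22282022137) (nat_lit 152) (nat_lit 79905979883) (nat_lit 6) (nat_lit 5) (nat_lit 7) (nat_lit 5) (nat_lit 8) (nat_lit 4) (nat_lit 330) (nat_lit 246) (nat_lit 144))) (XT.nd (nat_lit 78) (nat_lit 684) (nat_lit 0) (XT.lf (nat_lit 0) (nat_lit 2487635514) (nat_lit 684) (nat_lit 514320824) (nat_lit 684) (nat_lit 514320824) (nat_lit 231) (nat_lit 3) (nat_lit 240) (nat_lit 3) (nat_lit 240) (nat_lit 5) (nat_lit 247) (nat_lit 247) (nat_lit 226)) (XT.nd (nat_lit 78) (nat_lit 0) (nat_lit 0) (XT.lf (nat_lit 0) (nat_lit 643253350) (nat_lit 684) (nat_lit 2997447682) (nat_lit 760) (nat_lit 3479489371) (nat_lit 222) (nat_lit 5) (nat_lit 231) (nat_lit 3) (nat_lit 232) (nat_lit 5) (nat_lit 248) (nat_lit 247) (nat_lit 225)) (XT.lf (nat_lit 76) (nat_lit 2271952023) (nat_lit 0) (nat_lit 1025422204) (nat_lit 760) (nat_lit 3918867443) (nat_lit 223) (nat_lit 5) (nat_lit 222) (nat_lit 5) (nat_lit 232) (nat_lit 5)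 (nat_lit 249) (nat_lit 247) (nat_lit 224))))) (XT.nd (nat_lit 234) (nat_lit 760) (nat_lit 0) (XT.nd (nat_lit 78) (nat_lit 760) (nat_lit 0) (XT.lf (nat_lit 76) (nat_lit 446907248) (nat_lit 0) (nat_lit 5525497760) (nat_lit 760) (nat_lit 1348499248) (nat_lit 224) (nat_lit 5) (nat_lit 223) (nat_lit 5) (nat_lit 233) (nat_lit 5) (nat_lit 250) (nat_lit 247) (nat_lit 223)) (XT.nd (nat_lit 78) (nat_lit 0) (nat_lit 76) (XT.lf (nat_lit 0) (nat_lit 1226916737) (nat_lit 760) (nat_lit 1339203779) (nat_lit 836) (nat_lit 4867624219) (nat_lit 213) (nat_lit 5) (nat_lit 223) (nat_lit 5) (nat_lit 224) (nat_lit 5) (nat_lit 251) (nat_lit 247) (nat_lit 222)) (XT.lf (nat_lit 0) (nat_lit 3801301764) (nat_lit 760) (nat_lit 3108644164) (nat_lit 836) (nat_lit 645338712) (nat_lit 214) (nat_lit 5) (nat_lit 224) (nat_lit 5) (nat_lit 225) (nat_lit 5) (nat_lit 252) (nat_lit 247) (nat_lit 221)))) (XT.nd (nat_lit 78) (nat_lit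 836) (nat_lit 0) (XT.lf (nat_lit 76) (nat_lit 2800822905) (nat_lit 0) (nat_lit 3625895867) (nat_lit 836) (nat_lit 1258894876) (nat_lit 215) (nat_lit 5) (nat_lit 214) (nat_lit 5) (nat_lit 225) (nat_lit 5) (nat_lit 253) (nat_lit 247) (nat_lit 220)) (XT.nd (nat_lit 78) (nat_lit 0) (nat_lit 76) (XT.lf (nat_lit 76) (nat_lit 1163035728) (nat_lit 0) (nat_lit 74681977) (nat_lit 912) (nat_lit 6587601862) (nat_lit 204) (nat_lit 5) (nat_lit 203) (nat_lit 5) (nat_lit 215) (nat_lit 5) (nat_lit 254) (nat_lit 247) (nat_lit 219)) (XT.lf (nat_lit 0) (nat_lit 3785288153) (nat_lit 836) (nat_lit 501017203) (nat_lit 912) (nat_lit 3687102547) (nat_lit 204) (nat_lit 5) (nat_lit 215) (nat_lit 5) (nat_lit 216) (nat_lit 5) (nat_lit 255) (nat_lit 247) (nat_lit 218))))))))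
noncomputable def xc64 : XT := (XT.nd (nat_lit 1638) (nat_lit 3724) (nat_lit 0) (XT.nd (nat_lit 780) (nat_lit 3496) (nat_lit 0) (XT.nd (nat_lit 390) (nat_lit 3572) (nat_lit 0) (XT.nd (nat_lit 156) (nat_lit 1900) (nat_lit 0) (XT.nd (nat_lit 78) (nat_lit 836) (nat_lit 0) (XT.lf (nat_lit 76) (nat_lit 5991603729) (nat_lit 0) (nat_lit 399375696) (nat_lit 912) (nat_lit 1740318910) (nat_lit 205) (nat_lit 5) (nat_lit 204) (nat_lit 5) (nat_lit 216) (nat_lit 5) (nat_lit 256) (nat_lit 247) (nat_lit 217)) (XT.lf (nat_lit 0) (nat_lit 774575849) (nat_lit 912) (nat_lit 3826259750) (nat_lit 76) (nat_lit 3697477280) (nat_lit 193) (nat_lit 5) (nat_lit 205) (nat_lit 5) (nat_lit 194) (nat_lit 5) (nat_lit 257) (nat_lit 247) (nat_lit 216))) (XT.nd (nat_lit 78) (nat_lit 988) (nat_lit 0) (XT.lf (nat_lit 0) (nat_lit 2926954850) (nat_lit 912) (nat_lit 388412800) (nat_lit 988) (nat_lit 5159990979) (nat_lit 181) (nat_lit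 5) (nat_lit 193) (nat_lit 5) (nat_lit 194) (nat_lit 5) (nat_lit 258) (nat_lit 247) (nat_lit 215)) (XT.nd (nat_lit 78) (nat_lit 0) (nat_lit 0) (XT.lf (nat_lit 0) (nat_lit 1328850704) (nat_lit 988) (nat_lit 4632061023) (nat_lit 1064) (nat_lit 2701281892) (nat_lit 168) (nat_lit 5) (nat_lit 181) (nat_lit 5) (nat_lit 182) (nat_lit 5) (nat_lit 259) (nat_lit 247) (nat_lit 214)) (XT.lf (nat_lit 0) (nat_lit 8569036415) (nat_lit 988) (nat_lit 121589877) (nat_lit 1064) (nat_lit 169442824) (nat_lit 168) (nat_lit 5) (nat_lit 181) (nat_lit 5) (nat_lit 182) (nat_lit 5) (nat_lit 260) (nat_lit 247) (nat_lit 213))))) (XT.nd (nat_lit 156) (nat_lit 1596) (nat_lit 0) (XT.nd (nat_lit 78) (nat_lit 836) (nat_lit 0) (XT.lf (nat_lit 0) (nat_lit 2449169120) (nat_lit 1140) (nat_lit 1986096166) (nat_lit 76) (nat_lit 4631829125) (nat_lit 153) (nat_lit 5) (nat_lit 168) (nat_lit 5) (nat_lit 154) (nat_lit 5) (nat_lit 261)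 (nat_lit 247) (nat_lit 212)) (XT.lf (nat_lit 0) (nat_lit 5155915186) (nat_lit 912) (nat_lit 3732592197) (nat_lit 76) (nat_lit 397317069) (nat_lit 142) (nat_lit 5) (nat_lit 154) (nat_lit 5) (nat_lit 143) (nat_lit 5) (nat_lit 262) (nat_lit 247) (nat_lit 211))) (XT.nd (nat_lit 78) (nat_lit 1064) (nat_lit 0) (XT.lf (nat_lit 0) (nat_lit 3935850309) (nat_lit 532) (nat_lit 4068529793) (nat_lit 608) (nat_lit 1511133773) (nat_lit 135) (nat_lit 5) (nat_lit 142) (nat_lit 5) (nat_lit 143) (nat_lit 5) (nat_lit 263) (nat_lit 247) (nat_lit 210)) (XT.nd (nat_lit 78) (nat_lit 456) (nat_lit 0) (XT.lf (nat_lit 0) (nat_lit 1190892344) (nat_lit 608) (nat_lit 7517590110) (nat_lit 76) (nat_lit 1048751883) (nat_lit 127) (nat_lit 5) (nat_lit 135) (nat_lit 5) (nat_lit 128) (nat_lit 5) (nat_lit 264) (nat_lit 247) (nat_lit 209)) (XT.lf (nat_lit 0) (nat_lit 416574320) (nat_lit 456) (nat_lit 3592971527) (nat_lit 532)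 (nat_lit 6000851504) (nat_lit 121) (nat_lit 5) (nat_lit 127) (nat_lit 5) (nat_lit 128) (nat_lit 5) (nat_lit 265) (nat_lit 247) (nat_lit 208)))))) (XT.nd (nat_lit 390) (nat_lit 1596) (nat_lit 0) (XT.nd (nat_lit 156) (nat_lit 1368) (nat_lit 0) (XT.nd (nat_lit 78) (nat_lit 532) (nat_lit 0) (XT.lf (nat_lit 0) (nat_lit 6977227841) (nat_lit 532) (nat_lit 1479222234) (nat_lit 76) (nat_lit 1819705318) (nat_lit 121) (nat_lit 5) (nat_lit 128) (nat_lit 5) (nat_lit 122) (nat_lit 5) (nat_lit 266) (nat_lit 247) (nat_lit 207)) (XT.lf (nat_lit 0) (nat_lit 7054884006) (nat_lit 532) (nat_lit 3059488995) (nat_lit 608) (nat_lit 440367156) (nat_lit 114) (nat_lit 5) (nat_lit 121) (nat_lit 5) (nat_lit 122) (nat_lit 5) (nat_lit 267) (nat_lit 247) (nat_lit 206))) (XT.nd (nat_lit 78) (nat_lit 836) (nat_lit 0) (XT.lf (nat_lit 0) (nat_lit 2521483439) (nat_lit 532) (nat_lit 5683612230) (nat_lit 76) (nat_lit 2641268045)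 (nat_lit 107) (nat_lit 5) (nat_lit 114) (nat_lit 5) (nat_lit 108) (nat_lit 5) (nat_lit 268) (nat_lit 247) (nat_lit 205)) (XT.nd (nat_lit 78) (nat_lit 380) (nat_lit 0) (XT.lf (nat_lit 0) (nat_lit 3118498918) (nat_lit 456) (nat_lit 2523302416) (nat_lit 532) (nat_lit 5510202598) (nat_lit 101) (nat_lit 5) (nat_lit 107) (nat_lit 5) (nat_lit 108) (nat_lit 5) (nat_lit 269) (nat_lit 247) (nat_lit 204)) (XT.lf (nat_lit 0) (nat_lit 905692647) (nat_lit 380) (nat_lit 8038289833) (nat_lit 456) (nat_lit 2528311837) (nat_lit 96) (nat_lit 5) (nat_lit 101) (nat_lit 5) (nat_lit 102) (nat_lit 5) (nat_lit 270) (nat_lit 247) (nat_lit 203))))) (XT.nd (nat_lit 234) (nat_lit 760) (nat_lit 0) (XT.nd (nat_lit 78) (nat_lit 760) (nat_lit 0) (XT.lf (nat_lit 0) (nat_lit 626774872) (nat_lit 456) (nat_lit 1464201475) (nat_lit 76) (nat_lit 9716505979) (nat_lit 95) (nat_lit 5) (nat_lit 101) (nat_lit 5) (nat_lit 96) (nat_lit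 5) (nat_lit 271) (nat_lit 247) (nat_lit 202)) (XT.nd (nat_lit 78) (nat_lit 380) (nat_lit 0) (XT.lf (nat_lit 0) (nat_lit 3937307483) (nat_lit 456) (nat_lit 4054278683) (nat_lit 76) (nat_lit 4165719592) (nat_lit 90) (nat_lit 5) (nat_lit 96) (nat_lit 5) (nat_lit 91) (nat_lit 5) (nat_lit 272) (nat_lit 247) (nat_lit 201)) (XT.lf (nat_lit 0) (nat_lit 5662974999) (nat_lit 380) (nat_lit 1773949626) (nat_lit 456) (nat_lit 5087109412) (nat_lit 85) (nat_lit 5) (nat_lit 90) (nat_lit 5) (nat_lit 91) (nat_lit 5) (nat_lit 273) (nat_lit 247) (nat_lit 200)))) (XT.nd (nat_lit 78) (nat_lit 380) (nat_lit 0) (XT.lf (nat_lit 0) (nat_lit 2973970842) (nat_lit 380) (nat_lit 8189091117) (nat_lit 456) (nat_lit 1744605272) (nat_lit 80) (nat_lit 5) (nat_lit 85) (nat_lit 5) (nat_lit 86) (nat_lit 5) (nat_lit 274) (nat_lit 247) (nat_lit 199)) (XT.nd (nat_lit 78) (nat_lit 0) (nat_lit 0) (XT.lf (nat_lit 0) (nat_lit 20638457)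 (nat_lit 304) (nat_lit 1736082688) (nat_lit 380) (nat_lit 11552573811) (nat_lit 75) (nat_lit 5) (nat_lit 79) (nat_lit 5) (nat_lit 80) (nat_lit 5) (nat_lit 275) (nat_lit 247) (nat_lit 198)) (XT.lf (nat_lit 0) (nat_lit 5487898038) (nat_lit 380) (nat_lit 3194164192) (nat_lit 76) (nat_lit 5045798666) (nat_lit 75) (nat_lit 5) (nat_lit 80) (nat_lit 5) (nat_lit 76) (nat_lit 5) (nat_lit 276) (nat_lit 247) (nat_lit 197))))))) (XT.nd (nat_lit 858) (nat_lit 1368) (nat_lit 0) (XT.nd (nat_lit 390) (nat_lit 1140) (nat_lit 0) (XT.nd (nat_lit 156) (nat_lit 608) (nat_lit 0) (XT.nd (nat_lit 78) (nat_lit 304) (nat_lit 0) (XT.lf (nat_lit 0) (nat_lit 7457395147) (nat_lit 304) (nat_lit 1979175206) (nat_lit 380) (nat_lit 4729952862) (nat_lit 71) (nat_lit 5) (nat_lit 75) (nat_lit 5) (nat_lit 76) (nat_lit 5) (nat_lit 277) (nat_lit 247) (nat_lit 196)) (XT.lf (nat_lit 0) (nat_lit 4036869966) (nat_lit 304) (nat_lit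 9610077763) (nat_lit 380) (nat_lit 978334377) (nat_lit 67) (nat_lit 5) (nat_lit 71) (nat_lit 5) (nat_lit 72) (nat_lit 5) (nat_lit 278) (nat_lit 247) (nat_lit 195))) (XT.nd (nat_lit 78) (nat_lit 228) (nat_lit 0) (XT.lf (nat_lit 0) (nat_lit 236836500) (nat_lit 304) (nat_lit 2703242791) (nat_lit 380) (nat_lit 12165020757) (nat_lit 62) (nat_lit 5) (nat_lit 66) (nat_lit 5) (nat_lit 67) (nat_lit 5) (nat_lit 279) (nat_lit 247) (nat_lit 194)) (XT.nd (nat_lit 78) (nat_lit 228) (nat_lit 0) (XT.lf (nat_lit 0) (nat_lit 7134908645) (nat_lit 380) (nat_lit 3909197308) (nat_lit 76) (nat_lit 4561571147) (nat_lit 62) (nat_lit 5) (nat_lit 67) (nat_lit 5) (nat_lit 63) (nat_lit 5) (nat_lit 280) (nat_lit 247) (nat_lit 193)) (XT.lf (nat_lit 0) (nat_lit 7649821204) (nat_lit 228) (nat_lit 3939749587) (nat_lit 304) (nat_lit 4540286296) (nat_lit 59) (nat_lit 5) (nat_lit 62) (nat_lit 5) (nat_lit 63) (nat_lit 5) (nat_lit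 281) (nat_lit 247) (nat_lit 192))))) (XT.nd (nat_lit 234) (nat_lit 532) (nat_lit 0) (XT.nd (nat_lit 78) (nat_lit 304) (nat_lit 0) (XT.lf (nat_lit 0) (nat_lit 3147279038) (nat_lit 304) (nat_lit 13175266795) (nat_lit 380) (nat_lit 356106010) (nat_lit 55) (nat_lit 5) (nat_lit 59) (nat_lit 5) (nat_lit 60) (nat_lit 5) (nat_lit 282) (nat_lit 247) (nat_lit 191)) (XT.nd (nat_lit 78) (nat_lit 228) (nat_lit 0) (XT.lf (nat_lit 0) (nat_lit 4038431081) (nat_lit 380) (nat_lit 1866918151) (nat_lit 76) (nat_lit 11346042600) (nat_lit 54) (nat_lit 5) (nat_lit 59) (nat_lit 5) (nat_lit 55) (nat_lit 5) (nat_lit 283) (nat_lit 247) (nat_lit 190)) (XT.lf (nat_lit 0) (nat_lit 8718249769) (nat_lit 304) (nat_lit 7351254029) (nat_lit 76) (nat_lit 1781036089) (nat_lit 51) (nat_lit 5) (nat_lit 55) (nat_lit 5) (nat_lit 52) (nat_lit 5) (nat_lit 284) (nat_lit 247) (nat_lit 189)))) (XT.nd (nat_lit 78) (nat_lit 304) (nat_lit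 0) (XT.lf (nat_lit 0) (nat_lit 5017398480) (nat_lit 228) (nat_lit 8697580170) (nat_lit 304) (nat_lit 4762240479) (nat_lit 48) (nat_lit 5) (nat_lit 51) (nat_lit 5) (nat_lit 52) (nat_lit 5) (nat_lit 285) (nat_lit 247) (nat_lit 188)) (XT.nd (nat_lit 78) (nat_lit 304) (nat_lit 0) (XT.lf (nat_lit 0) (nat_lit 18095491904) (nat_lit 228) (nat_lit 898911820) (nat_lit 304) (nat_lit 139901256) (nat_lit 48) (nat_lit 5) (nat_lit 51) (nat_lit 5) (nat_lit 52) (nat_lit 5) (nat_lit 286) (nat_lit 247) (nat_lit 187)) (XT.lf (nat_lit 0) (nat_lit 4768474758) (nat_lit 304) (nat_lit 7757955843) (nat_lit 76) (nat_lit 7292102320) (nat_lit 44) (nat_lit 5) (nat_lit 48) (nat_lit 5) (nat_lit 45) (nat_lit 5) (nat_lit 287) (nat_lit 247) (nat_lit 186)))))) (XT.nd (nat_lit 390) (nat_lit 684) (nat_lit 0) (XT.nd (nat_lit 156) (nat_lit 456) (nat_lit 0) (XT.nd (nat_lit 78) (nat_lit 0) (nat_lit 0) (XT.lf (nat_lit 0) (nat_lit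 5333646544) (nat_lit 228) (nat_lit 4616881489) (nat_lit 304) (nat_lit 10585519580) (nat_lit 41) (nat_lit 5) (nat_lit 44) (nat_lit 5) (nat_lit 45) (nat_lit 5) (nat_lit 288) (nat_lit 247) (nat_lit 185)) (XT.lf (nat_lit 0) (nat_lit 15468930861) (nat_lit 304) (nat_lit 2140479807) (nat_lit 76) (nat_lit 3677758976) (nat_lit 41) (nat_lit 5) (nat_lit 45) (nat_lit 5) (nat_lit 42) (nat_lit 5) (nat_lit 289) (nat_lit 247) (nat_lit 184))) (XT.nd (nat_lit 78) (nat_lit 304) (nat_lit 0) (XT.lf (nat_lit 0) (nat_lit 11699920367) (nat_lit 152) (nat_lit 9685392095) (nat_lit 228) (nat_lit 686920233) (nat_lit 39) (nat_lit 5) (nat_lit 41) (nat_lit 5) (nat_lit 42) (nat_lit 5) (nat_lit 290) (nat_lit 247) (nat_lit 183)) (XT.nd (nat_lit 78) (nat_lit 0) (nat_lit 0) (XT.lf (nat_lit 0) (nat_lit 3345586278) (nat_lit 228) (nat_lit 1281888682) (nat_lit 304) (nat_lit 18267214139) (nat_lit 35) (nat_lit 5) (nat_lit 38) (nat_lit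 5) (nat_lit 39) (nat_lit 5) (nat_lit 291) (nat_lit 247) (nat_lit 182)) (XT.lf (nat_lit 0) (nat_lit 10338696308) (nat_lit 304) (nat_lit 5924213086) (nat_lit 76) (nat_lit 7490836608) (nat_lit 35) (nat_lit 5) (nat_lit 39) (nat_lit 5) (nat_lit 36) (nat_lit 5) (nat_lit 292) (nat_lit 247) (nat_lit 181))))) (XT.nd (nat_lit 234) (nat_lit 304) (nat_lit 0) (XT.nd (nat_lit 78) (nat_lit 228) (nat_lit 0) (XT.lf (nat_lit 0) (nat_lit 8482320588) (nat_lit 152) (nat_lit 7914161066) (nat_lit 228) (nat_lit 8257483157) (nat_lit 33) (nat_lit 5) (nat_lit 35) (nat_lit 5) (nat_lit 36) (nat_lit 5) (nat_lit 293) (nat_lit 247) (nat_lit 180)) (XT.nd (nat_lit 78) (nat_lit 228) (nat_lit 0) (XT.lf (nat_lit 0) (nat_lit 22794392663) (nat_lit 228) (nat_lit 1924698540) (nat_lit 76) (nat_lit 879023548) (nat_lit 33) (nat_lit 5) (nat_lit 36) (nat_lit 5) (nat_lit 34) (nat_lit 5) (nat_lit 294) (nat_lit 247) (nat_lit 179)) (XT.lf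 (nat_lit 0) (nat_lit 3042809049) (nat_lit 228) (nat_lit 13451579979) (nat_lit 76) (nat_lit 10088961334) (nat_lit 30) (nat_lit 5) (nat_lit 33) (nat_lit 5) (nat_lit 31) (nat_lit 5) (nat_lit 295) (nat_lit 247) (nat_lit 178)))) (XT.nd (nat_lit 78) (nat_lit 152) (nat_lit 0) (XT.lf (nat_lit 0) (nat_lit 1312858403) (nat_lit 152) (nat_lit 7813686578) (nat_lit 228) (nat_lit 18490416911) (nat_lit 28) (nat_lit 5) (nat_lit 30) (nat_lit 5) (nat_lit 31) (nat_lit 5) (nat_lit 296) (nat_lit 247) (nat_lit 177)) (XT.nd (nat_lit 78) (nat_lit 152) (nat_lit 0) (XT.lf (nat_lit 0) (nat_lit 15637335598) (nat_lit 228) (nat_lit 11663012592) (nat_lit 76) (nat_lit 1398251040) (nat_lit 28) (nat_lit 5) (nat_lit 31) (nat_lit 5) (nat_lit 29) (nat_lit 5) (nat_lit 297) (nat_lit 247) (nat_lit 176)) (XT.lf (nat_lit 0) (nat_lit 3657250292) (nat_lit 152) (nat_lit 18902358737) (nat_lit 228) (nat_lit 7272160888) (nat_lit 26) (nat_lit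 5) (nat_lit 28) (nat_lit 5) (nat_lit 29) (nat_lit 5) (nat_lit 298) (nat_lit 247) (nat_lit 175))))))))
noncomputable def xc65 : XT := (XT.nd (nat_lit 1716) (nat_lit 228) (nat_lit 0) (XT.nd (nat_lit 858) (nat_lit 456) (nat_lit 0) (XT.nd (nat_lit 390) (nat_lit 380) (nat_lit 0) (XT.nd (nat_lit 156) (nat_lit 152) (nat_lit 0) (XT.nd (nat_lit 78) (nat_lit 228) (nat_lit 0) (XT.lf (nat_lit 0) (nat_lit 19943166633) (nat_lit 152) (nat_lit 9977725342) (nat_lit 228) (nat_lit 1097948648) (nat_lit 26) (nat_lit 5) (nat_lit 28) (nat_lit 5) (nat_lit 29) (nat_lit 5) (nat_lit 299) (nat_lit 247) (nat_lit 174)) (XT.lf (nat_lit 0) (nat_lit 4777037545) (nat_lit 152) (nat_lit 522622560) (nat_lit 228) (nat_lit 26963485091) (nat_lit 23) (nat_lit 5) (nat_lit 25) (nat_lit 5) (nat_lit 26) (nat_lit 5) (nat_lit 300) (nat_lit 247) (nat_lit 173))) (XT.nd (nat_lit 78) (nat_lit 152) (nat_lit 0) (XT.lf (nat_lit 0) (nat_lit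 12174745931) (nat_lit 228) (nat_lit 12056971583) (nat_lit 76) (nat_lit 9332237217) (nat_lit 23) (nat_lit 5) (nat_lit 26) (nat_lit 5) (nat_lit 24) (nat_lit 5) (nat_lit 301) (nat_lit 247) (nat_lit 172)) (XT.nd (nat_lit 78) (nat_lit 0) (nat_lit 0) (XT.lf (nat_lit 0) (nat_lit 4179968677) (nat_lit 152) (nat_lit 15234825877) (nat_lit 228) (nat_lit 15514397720) (nat_lit 21) (nat_lit 5) (nat_lit 23) (nat_lit 5) (nat_lit 24) (nat_lit 5) (nat_lit 302) (nat_lit 247) (nat_lit 171)) (XT.lf (nat_lit 0) (nat_lit 21441912282) (nat_lit 152) (nat_lit 5675584001) (nat_lit 228) (nat_lit 9242198545) (nat_lit 21) (nat_lit 5) (nat_lit 23) (nat_lit 5) (nat_lit 24) (nat_lit 5) (nat_lit 303) (nat_lit 247) (nat_lit 170))))) (XT.nd (nat_lit 234) (nat_lit 228) (nat_lit 0) (XT.nd (nat_lit 78) (nat_lit 76) (nat_lit 0) (XT.lf (nat_lit 0) (nat_lit 1658157647) (nat_lit 76) (nat_lit 33582553037) (nat_lit 152) (nat_lit 2619972073)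 (nat_lit 20) (nat_lit 5) (nat_lit 21) (nat_lit 5) (nat_lit 22) (nat_lit 4) (nat_lit 304) (nat_lit 247) (nat_lit 169)) (XT.nd (nat_lit 78) (nat_lit 0) (nat_lit 0) (XT.lf (nat_lit 0) (nat_lit 4439173887) (nat_lit 152) (nat_lit 20194826764) (nat_lit 76) (nat_lit 14795778700) (nat_lit 19) (nat_lit 5) (nat_lit 21) (nat_lit 5) (nat_lit 20) (nat_lit 5) (nat_lit 305) (nat_lit 247) (nat_lit 168)) (XT.lf (nat_lit 0) (nat_lit 11776640402) (nat_lit 152) (nat_lit 3448316863) (nat_lit 76) (nat_lit 25852227848) (nat_lit 19) (nat_lit 5) (nat_lit 21) (nat_lit 5) (nat_lit 20) (nat_lit 5) (nat_lit 306) (nat_lit 247) (nat_lit 167)))) (XT.nd (nat_lit 78) (nat_lit 76) (nat_lit 0) (XT.lf (nat_lit 0) (nat_lit 14382720693) (nat_lit 152) (nat_lit 5216557540) (nat_lit 228) (nat_lit 23204152086) (nat_lit 17) (nat_lit 5) (nat_lit 19) (nat_lit 5) (nat_lit 20) (nat_lit 5) (nat_lit 307) (nat_lit 247) (nat_lit 166)) (XT.nd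 (nat_lit 78) (nat_lit 76) (nat_lit 0) (XT.lf (nat_lit 0) (nat_lit 27880323035) (nat_lit 228) (nat_lit 11521744621) (nat_lit 76) (nat_lit 5211919110) (nat_lit 17) (nat_lit 5) (nat_lit 20) (nat_lit 5) (nat_lit 18) (nat_lit 4) (nat_lit 308) (nat_lit 247) (nat_lit 165)) (XT.lf (nat_lit 0) (nat_lit 6260279500) (nat_lit 76) (nat_lit 30409449979) (nat_lit 152) (nat_lit 9842528686) (nat_lit 16) (nat_lit 5) (nat_lit 17) (nat_lit 5) (nat_lit 18) (nat_lit 4) (nat_lit 309) (nat_lit 247) (nat_lit 164)))))) (XT.nd (nat_lit 390) (nat_lit 228) (nat_lit 0) (XT.nd (nat_lit 156) (nat_lit 152) (nat_lit 0) (XT.nd (nat_lit 78) (nat_lit 76) (nat_lit 0) (XT.lf (nat_lit 0) (nat_lit 25141677658) (nat_lit 76) (nat_lit 20857603324) (nat_lit 152) (nat_lit 2503157541) (nat_lit 16) (nat_lit 5) (nat_lit 17) (nat_lit 5) (nat_lit 18) (nat_lit 4) (nat_lit 310) (nat_lit 247) (nat_lit 163)) (XT.lf (nat_lit 0) (nat_lit 5084388074)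 (nat_lit 152) (nat_lit 5704401802) (nat_lit 76) (nat_lit 39802369826) (nat_lit 15) (nat_lit 5) (nat_lit 17) (nat_lit 5) (nat_lit 16) (nat_lit 5) (nat_lit 311) (nat_lit 247) (nat_lit 162))) (XT.nd (nat_lit 78) (nat_lit 0) (nat_lit 0) (XT.lf (nat_lit 0) (nat_lit 13035883994) (nat_lit 152) (nat_lit 73008671) (nat_lit 228) (nat_lit 39671414004) (nat_lit 13) (nat_lit 5) (nat_lit 15) (nat_lit 5) (nat_lit 16) (nat_lit 5) (nat_lit 312) (nat_lit 247) (nat_lit 161)) (XT.nd (nat_lit 78) (nat_lit 0) (nat_lit 0) (XT.lf (nat_lit 0) (nat_lit 21685354448) (nat_lit 228) (nat_lit 22380379382) (nat_lit 76) (nat_lit 11008668304) (nat_lit 13) (nat_lit 5) (nat_lit 16) (nat_lit 5) (nat_lit 14) (nat_lit 4) (nat_lit 313) (nat_lit 247) (nat_lit 160)) (XT.lf (nat_lit 0) (nat_lit 30676112979) (nat_lit 228) (nat_lit 4175140129) (nat_lit 76) (nat_lit 22632397540) (nat_lit 13) (nat_lit 5) (nat_lit 16) (nat_lit 5) (nat_lit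 14) (nat_lit 4) (nat_lit 314) (nat_lit 247) (nat_lit 159))))) (XT.nd (nat_lit 234) (nat_lit 152) (nat_lit 0) (XT.nd (nat_lit 78) (nat_lit 0) (nat_lit 0) (XT.lf (nat_lit 0) (nat_lit 15212187261) (nat_lit 76) (nat_lit 25035914609) (nat_lit 152) (nat_lit 19761320833) (nat_lit 12) (nat_lit 5) (nat_lit 13) (nat_lit 5) (nat_lit 14) (nat_lit 4) (nat_lit 315) (nat_lit 247) (nat_lit 158)) (XT.nd (nat_lit 78) (nat_lit 0) (nat_lit 0) (XT.lf (nat_lit 0) (nat_lit 35631827927) (nat_lit 76) (nat_lit 14695763861) (nat_lit 152) (nat_lit 12333035851) (nat_lit 12) (nat_lit 5) (nat_lit 13) (nat_lit 5) (nat_lit 14) (nat_lit 4) (nat_lit 316) (nat_lit 247) (nat_lit 157)) (XT.lf (nat_lit 0) (nat_lit 57049306585) (nat_lit 76) (nat_lit 3848342186) (nat_lit 152) (nat_lit 4547157058) (nat_lit 12) (nat_lit 5) (nat_lit 13) (nat_lit 5) (nat_lit 14) (nat_lit 4) (nat_lit 317) (nat_lit 247) (nat_lit 156)))) (XT.nd (nat_lit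 78) (nat_lit 0) (nat_lit 0) (XT.lf (nat_lit 0) (nat_lit 3727085083) (nat_lit 152) (nat_lit 57104663105) (nat_lit 76) (nat_lit 7530312520) (nat_lit 10) (nat_lit 5) (nat_lit 12) (nat_lit 5) (nat_lit 11) (nat_lit 4) (nat_lit 318) (nat_lit 247) (nat_lit 155)) (XT.nd (nat_lit 78) (nat_lit 0) (nat_lit 0) (XT.lf (nat_lit 0) (nat_lit 12435406163) (nat_lit 152) (nat_lit 39461764170) (nat_lit 76) (nat_lit 19523234582) (nat_lit 10) (nat_lit 5) (nat_lit 12) (nat_lit 5) (nat_lit 11) (nat_lit 4) (nat_lit 319) (nat_lit 247) (nat_lit 154)) (XT.lf (nat_lit 0) (nat_lit 21567155318) (nat_lit 152) (nat_lit 20957639919) (nat_lit 76) (nat_lit 32107239782) (nat_lit 10) (nat_lit 5) (nat_lit 12) (nat_lit 5) (nat_lit 11) (nat_lit 4) (nat_lit 320) (nat_lit 247) (nat_lit 153))))))) (XT.nd (nat_lit 31902) (nat_lit 0) (nat_lit 13224) (XT.nd (nat_lit 390) (nat_lit 152) (nat_lit 0) (XT.nd (nat_lit 156) (nat_lit 0) (nat_lit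 0) (XT.nd (nat_lit 78) (nat_lit 76) (nat_lit 0) (XT.lf (nat_lit 0) (nat_lit 31144074808) (nat_lit 152) (nat_lit 1548232910) (nat_lit 76) (nat_lit 45312290037) (nat_lit 10) (nat_lit 5) (nat_lit 12) (nat_lit 5) (nat_lit 11) (nat_lit 4) (nat_lit 321) (nat_lit 247) (nat_lit 152)) (XT.lf (nat_lit 0) (nat_lit 19187078742) (nat_lit 76) (nat_lit 22186326016) (nat_lit 152) (nat_lit 40167185139) (nat_lit 9) (nat_lit 5) (nat_lit 10) (nat_lit 5) (nat_lit 11) (nat_lit 4) (nat_lit 322) (nat_lit 247) (nat_lit 151))) (XT.nd (nat_lit 78) (nat_lit 0) (nat_lit 0) (XT.lf (nat_lit 0) (nat_lit 40973078679) (nat_lit 76) (nat_lit 11146527384) (nat_lit 152) (nat_lit 33133621251) (nat_lit 9) (nat_lit 5) (nat_lit 10) (nat_lit 5) (nat_lit 11) (nat_lit 4) (nat_lit 323) (nat_lit 247) (nat_lit 150)) (XT.nd (nat_lit 78) (nat_lit 0) (nat_lit 0) (XT.lf (nat_lit 0) (nat_lit 63397293980) (nat_lit 152) (nat_lit 25325187343)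 (nat_lit 0) (nat_lit 429197424) (nat_lit 9) (nat_lit 5) (nat_lit 11) (nat_lit 4) (nat_lit 9) (nat_lit 4) (nat_lit 324) (nat_lit 247) (nat_lit 149)) (XT.lf (nat_lit 0) (nat_lit 75341748440) (nat_lit 152) (nat_lit 5551924712) (nat_lit 0) (nat_lit 12348300223) (nat_lit 9) (nat_lit 5) (nat_lit 11) (nat_lit 4) (nat_lit 9) (nat_lit 4) (nat_lit 325) (nat_lit 247) (nat_lit 148))))) (XT.nd (nat_lit 234) (nat_lit 0) (nat_lit 0) (XT.nd (nat_lit 78) (nat_lit 76) (nat_lit 0) (XT.lf (nat_lit 0) (nat_lit 15496253412) (nat_lit 76) (nat_lit 72526967435) (nat_lit 76) (nat_lit 9509374779) (nat_lit 8) (nat_lit 4) (nat_lit 9) (nat_lit 5) (nat_lit 9) (nat_lit 4) (nat_lit 326) (nat_lit 247) (nat_lit 147)) (XT.nd (nat_lit 78) (nat_lit 76) (nat_lit 0) (XT.lf (nat_lit 0) (nat_lit 37697186502) (nat_lit 76) (nat_lit 63689854033) (nat_lit 76) (nat_lit 649266673) (nat_lit 8) (nat_lit 4) (nat_lit 9) (nat_lit 5) (nat_lit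 9) (nat_lit 4) (nat_lit 327) (nat_lit 247) (nat_lit 146)) (XT.lf (nat_lit 0) (nat_lit 8476433672) (nat_lit 152) (nat_lit 45855326722) (nat_lit 76) (nat_lit 52431210700) (nat_lit 7) (nat_lit 5) (nat_lit 9) (nat_lit 5) (nat_lit 8) (nat_lit 4) (nat_lit 328) (nat_lit 247) (nat_lit 145)))) (XT.nd (nat_lit 78) (nat_lit 0) (nat_lit 0) (XT.lf (nat_lit 0) (nat_lit 18036977510) (nat_lit 152) (nat_lit 26468279605) (nat_lit 76) (nat_lit 67220764280) (nat_lit 7) (nat_lit 5) (nat_lit 9) (nat_lit 5) (nat_lit 8) (nat_lit 4) (nat_lit 329) (nat_lit 247) (nat_lit 144)) (XT.nd (nat_lit 31122) (nat_lit 0) (nat_lit 16340) (XT.lf (nat_lit 0) (nat_lit 28067797571) (nat_lit 152) (nat_lit 6125578570) (nat_lit 76) (nat_lit 82744085989) (nat_lit 7) (nat_lit 5) (nat_lit 9) (nat_lit 5) (nat_lit 8) (nat_lit 4) (nat_lit 330) (nat_lit 247) (nat_lit 143)) (XT.lf (nat_lit 0) (nat_lit 792793530) (nat_lit 0) (nat_lit 792793530)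 (nat_lit 684) (nat_lit 2020133097) (nat_lit 222) (nat_lit 5) (nat_lit 222) (nat_lit 3) (nat_lit 231) (nat_lit 3) (nat_lit 248) (nat_lit 248) (nat_lit 224)))))) (XT.nd (nat_lit 390) (nat_lit 1596) (nat_lit 0) (XT.nd (nat_lit 156) (nat_lit 760) (nat_lit 0) (XT.nd (nat_lit 78) (nat_lit 760) (nat_lit 0) (XT.lf (nat_lit 0) (nat_lit 5708388868) (nat_lit 684) (nat_lit 428664917) (nat_lit 760) (nat_lit 1174166869) (nat_lit 222) (nat_lit 5) (nat_lit 231) (nat_lit 3) (nat_lit 232) (nat_lit 5) (nat_lit 249) (nat_lit 248) (nat_lit 223)) (XT.lf (nat_lit 0) (nat_lit 844949420) (nat_lit 760) (nat_lit 2401177861) (nat_lit 836) (nat_lit 4172793316) (nat_lit 212) (nat_lit 5) (nat_lit 222) (nat_lit 5) (nat_lit 223) (nat_lit 5) (nat_lit 250) (nat_lit 248) (nat_lit 222))) (XT.nd (nat_lit 78) (nat_lit 760) (nat_lit 0) (XT.lf (nat_lit 76) (nat_lit 3174092668) (nat_lit 0) (nat_lit 92058320) (nat_lit 836) (nat_lit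 4269253617) (nat_lit 213) (nat_lit 5) (nat_lit 212) (nat_lit 5) (nat_lit 223) (nat_lit 5) (nat_lit 251) (nat_lit 248) (nat_lit 221)) (XT.nd (nat_lit 78) (nat_lit 836) (nat_lit 0) (XT.lf (nat_lit 76) (nat_lit 1327996807) (nat_lit 0) (nat_lit 4404993664) (nat_lit 836) (nat_lit 1927366499) (nat_lit 214) (nat_lit 5) (nat_lit 213) (nat_lit 5) (nat_lit 224) (nat_lit 5) (nat_lit 252) (nat_lit 248) (nat_lit 220)) (XT.lf (nat_lit 0) (nat_lit 427727072) (nat_lit 836) (nat_lit 492450605) (nat_lit 912) (nat_lit 6874384135) (nat_lit 202) (nat_lit 5) (nat_lit 213) (nat_lit 5) (nat_lit 214) (nat_lit 5) (nat_lit 253) (nat_lit 248) (nat_lit 219))))) (XT.nd (nat_lit 234) (nat_lit 1672) (nat_lit 0) (XT.nd (nat_lit 78) (nat_lit 0) (nat_lit 0) (XT.lf (nat_lit 0) (nat_lit 2809753477) (nat_lit 836) (nat_lit 2319395177) (nat_lit 912) (nat_lit 2807620533) (nat_lit 203) (nat_lit 5) (nat_lit 214) (nat_lit 5) (nat_lit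 215) (nat_lit 5) (nat_lit 254) (nat_lit 248) (nat_lit 218)) (XT.nd (nat_lit 78) (nat_lit 0) (nat_lit 76) (XT.lf (nat_lit 76) (nat_lit 3937942885) (nat_lit 0) (nat_lit 1298060815) (nat_lit 912) (nat_lit 2852649502) (nat_lit 204) (nat_lit 5) (nat_lit 203) (nat_lit 5) (nat_lit 215) (nat_lit 5) (nat_lit 255) (nat_lit 248) (nat_lit 217)) (XT.lf (nat_lit 76) (nat_lit 2237995367) (nat_lit 0) (nat_lit 5495856972) (nat_lit 912) (nat_lit 516075213) (nat_lit 205) (nat_lit 5) (nat_lit 204) (nat_lit 5) (nat_lit 216) (nat_lit 5) (nat_lit 256) (nat_lit 248) (nat_lit 216)))) (XT.nd (nat_lit 78) (nat_lit 836) (nat_lit 0) (XT.lf (nat_lit 76) (nat_lit 504032806) (nat_lit 0) (nat_lit 1338581046) (nat_lit 988) (nat_lit 6578082127) (nat_lit 193) (nat_lit 5) (nat_lit 192) (nat_lit 5) (nat_lit 205) (nat_lit 5) (nat_lit 257) (nat_lit 248) (nat_lit 215)) (XT.nd (nat_lit 78) (nat_lit 912) (nat_lit 0) (XT.lf (nat_lit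 0) (nat_lit 4287303603) (nat_lit 912) (nat_lit 1251566783) (nat_lit 76) (nat_lit 3061885299) (nat_lit 193) (nat_lit 5) (nat_lit 205) (nat_lit 5) (nat_lit 194) (nat_lit 5) (nat_lit 258) (nat_lit 248) (nat_lit 214)) (XT.lf (nat_lit 0) (nat_lit 5760021541) (nat_lit 912) (nat_lit 1055511317) (nat_lit 988) (nat_lit 1975701922) (nat_lit 181) (nat_lit 5) (nat_lit 193) (nat_lit 5) (nat_lit 194) (nat_lit 5) (nat_lit 259) (nat_lit 248) (nat_lit 213))))))))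
noncomputable def xc66 : XT := (XT.nd (nat_lit 1716) (nat_lit 3116) (nat_lit 0) (XT.nd (nat_lit 858) (nat_lit 2964) (nat_lit 0) (XT.nd (nat_lit 390) (nat_lit 2508) (nat_lit 0) (XT.nd (nat_lit 156) (nat_lit 1444) (nat_lit 0) (XT.nd (nat_lit 78) (nat_lit 1064) (nat_lit 0) (XT.lf (nat_lit 0) (nat_lit 453821048) (nat_lit 1064) (nat_lit 4880547359) (nat_lit 76) (nat_lit 3657440675) (nat_lit 167) (nat_lit 5) (nat_lit 181) (nat_lit 5) (nat_lit 168) (nat_lit 5) (nat_lit 260) (nat_lit 248) (nat_lit 212)) (XT.lf (nat_lit 0) (nat_lit 2402238414) (nat_lit 1064) (nat_lit 527190842) (nat_lit 1140) (nat_lit 6273656955) (nat_lit 153) (nat_lit 5) (nat_lit 167) (nat_lit 5) (nat_lit 168) (nat_lit 5) (nat_lit 261) (nat_lit 248) (nat_lit 211))) (XT.nd (nat_lit 78) (nat_lit 608) (nat_lit 0) (XT.lf (nat_lit 0) (nat_lit 608454324) (nat_lit 836) (nat_lit 4924315042) (nat_lit 912) (nat_lit 3892253614) (nat_lit 142)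 (nat_lit 5) (nat_lit 153) (nat_lit 5) (nat_lit 154) (nat_lit 5) (nat_lit 262) (nat_lit 248) (nat_lit 210)) (XT.nd (nat_lit 78) (nat_lit 608) (nat_lit 0) (XT.lf (nat_lit 0) (nat_lit 8251063329) (nat_lit 912) (nat_lit 1220397742) (nat_lit 76) (nat_lit 187256032) (nat_lit 142) (nat_lit 5) (nat_lit 154) (nat_lit 5) (nat_lit 143) (nat_lit 5) (nat_lit 263) (nat_lit 248) (nat_lit 209)) (XT.lf (nat_lit 0) (nat_lit 1204577778) (nat_lit 608) (nat_lit 3161191286) (nat_lit 76) (nat_lit 5537363987) (nat_lit 134) (nat_lit 5) (nat_lit 142) (nat_lit 5) (nat_lit 135) (nat_lit 5) (nat_lit 264) (nat_lit 248) (nat_lit 208))))) (XT.nd (nat_lit 234) (nat_lit 988) (nat_lit 0) (XT.nd (nat_lit 78) (nat_lit 988) (nat_lit 0) (XT.lf (nat_lit 0) (nat_lit 3903876855) (nat_lit 608) (nat_lit 5202538465) (nat_lit 76) (nat_lit 1053549061) (nat_lit 127) (nat_lit 5) (nat_lit 135) (nat_lit 5) (nat_lit 128) (nat_lit 5) (nat_lit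 265) (nat_lit 248) (nat_lit 207)) (XT.nd (nat_lit 78) (nat_lit 532) (nat_lit 0) (XT.lf (nat_lit 0) (nat_lit 3051199186) (nat_lit 456) (nat_lit 3711034975) (nat_lit 532) (nat_lit 3666851512) (nat_lit 121) (nat_lit 5) (nat_lit 127) (nat_lit 5) (nat_lit 128) (nat_lit 5) (nat_lit 266) (nat_lit 248) (nat_lit 206)) (XT.lf (nat_lit 0) (nat_lit 1033688303) (nat_lit 532) (nat_lit 8733578340) (nat_lit 608) (nat_lit 944446706) (nat_lit 114) (nat_lit 5) (nat_lit 121) (nat_lit 5) (nat_lit 122) (nat_lit 5) (nat_lit 267) (nat_lit 248) (nat_lit 205)))) (XT.nd (nat_lit 78) (nat_lit 912) (nat_lit 0) (XT.lf (nat_lit 0) (nat_lit 1913915556) (nat_lit 608) (nat_lit 1125527433) (nat_lit 76) (nat_lit 7967512564) (nat_lit 113) (nat_lit 5) (nat_lit 121) (nat_lit 5) (nat_lit 114) (nat_lit 5) (nat_lit 268) (nat_lit 248) (nat_lit 204)) (XT.nd (nat_lit 78) (nat_lit 456) (nat_lit 0) (XT.lf (nat_lit 0) (nat_lit 4927731182)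 (nat_lit 532) (nat_lit 3424960396) (nat_lit 76) (nat_lit 2963169298) (nat_lit 107) (nat_lit 5) (nat_lit 114) (nat_lit 5) (nat_lit 108) (nat_lit 5) (nat_lit 269) (nat_lit 248) (nat_lit 203)) (XT.lf (nat_lit 0) (nat_lit 5744366528) (nat_lit 456) (nat_lit 2374861350) (nat_lit 532) (nat_lit 3520310617) (nat_lit 101) (nat_lit 5) (nat_lit 107) (nat_lit 5) (nat_lit 108) (nat_lit 5) (nat_lit 270) (nat_lit 248) (nat_lit 202)))))) (XT.nd (nat_lit 390) (nat_lit 1292) (nat_lit 0) (XT.nd (nat_lit 156) (nat_lit 836) (nat_lit 0) (XT.nd (nat_lit 78) (nat_lit 456) (nat_lit 0) (XT.lf (nat_lit 0) (nat_lit 3415612733) (nat_lit 380) (nat_lit 8092571084) (nat_lit 456) (nat_lit 470209874) (nat_lit 96) (nat_lit 5) (nat_lit 101) (nat_lit 5) (nat_lit 102) (nat_lit 5) (nat_lit 271) (nat_lit 248) (nat_lit 201)) (XT.lf (nat_lit 0) (nat_lit 871161158) (nat_lit 380) (nat_lit 1835221590) (nat_lit 456) (nat_lit 9626322176)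 (nat_lit 90) (nat_lit 5) (nat_lit 95) (nat_lit 5) (nat_lit 96) (nat_lit 5) (nat_lit 272) (nat_lit 248) (nat_lit 200))) (XT.nd (nat_lit 78) (nat_lit 836) (nat_lit 0) (XT.lf (nat_lit 0) (nat_lit 6102700940) (nat_lit 456) (nat_lit 1874934315) (nat_lit 76) (nat_lit 4724952858) (nat_lit 90) (nat_lit 5) (nat_lit 96) (nat_lit 5) (nat_lit 91) (nat_lit 5) (nat_lit 273) (nat_lit 248) (nat_lit 199)) (XT.nd (nat_lit 78) (nat_lit 456) (nat_lit 0) (XT.lf (nat_lit 0) (nat_lit 8259900829) (nat_lit 380) (nat_lit 1445900120) (nat_lit 456) (nat_lit 3384164755) (nat_lit 85) (nat_lit 5) (nat_lit 90) (nat_lit 5) (nat_lit 91) (nat_lit 5) (nat_lit 274) (nat_lit 248) (nat_lit 198)) (XT.lf (nat_lit 0) (nat_lit 57831693) (nat_lit 456) (nat_lit 8070665480) (nat_lit 76) (nat_lit 5366358041) (nat_lit 79) (nat_lit 5) (nat_lit 85) (nat_lit 5) (nat_lit 80) (nat_lit 5) (nat_lit 275) (nat_lit 248) (nat_lit 197))))) (XT.nd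 (nat_lit 234) (nat_lit 684) (nat_lit 0) (XT.nd (nat_lit 78) (nat_lit 304) (nat_lit 0) (XT.lf (nat_lit 0) (nat_lit 2296641357) (nat_lit 304) (nat_lit 1335423800) (nat_lit 380) (nat_lit 10286111217) (nat_lit 75) (nat_lit 5) (nat_lit 79) (nat_lit 5) (nat_lit 80) (nat_lit 5) (nat_lit 276) (nat_lit 248) (nat_lit 196)) (XT.nd (nat_lit 78) (nat_lit 304) (nat_lit 0) (XT.lf (nat_lit 0) (nat_lit 7469144129) (nat_lit 380) (nat_lit 1137807150) (nat_lit 76) (nat_lit 5753279898) (nat_lit 75) (nat_lit 5) (nat_lit 80) (nat_lit 5) (nat_lit 76) (nat_lit 5) (nat_lit 277) (nat_lit 248) (nat_lit 195)) (XT.lf (nat_lit 0) (nat_lit 9982807091) (nat_lit 304) (nat_lit 1571855893) (nat_lit 380) (nat_lit 3268115393) (nat_lit 71) (nat_lit 5) (nat_lit 75) (nat_lit 5) (nat_lit 76) (nat_lit 5) (nat_lit 278) (nat_lit 248) (nat_lit 194)))) (XT.nd (nat_lit 78) (nat_lit 304) (nat_lit 0) (XT.lf (nat_lit 0) (nat_lit 604117114)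 (nat_lit 380) (nat_lit 8936717578) (nat_lit 76) (nat_lit 5765187189) (nat_lit 66) (nat_lit 5) (nat_lit 71) (nat_lit 5) (nat_lit 67) (nat_lit 5) (nat_lit 279) (nat_lit 248) (nat_lit 193)) (XT.nd (nat_lit 78) (nat_lit 0) (nat_lit 0) (XT.lf (nat_lit 0) (nat_lit 2357680754) (nat_lit 304) (nat_lit 2284268706) (nat_lit 380) (nat_lit 11169396857) (nat_lit 62) (nat_lit 5) (nat_lit 66) (nat_lit 5) (nat_lit 67) (nat_lit 5) (nat_lit 280) (nat_lit 248) (nat_lit 192)) (XT.lf (nat_lit 0) (nat_lit 8977552078) (nat_lit 380) (nat_lit 2054481493) (nat_lit 76) (nat_lit 5307100209) (nat_lit 62) (nat_lit 5) (nat_lit 67) (nat_lit 5) (nat_lit 63) (nat_lit 5) (nat_lit 281) (nat_lit 248) (nat_lit 191))))))) (XT.nd (nat_lit 858) (nat_lit 1064) (nat_lit 0) (XT.nd (nat_lit 390) (nat_lit 988) (nat_lit 0) (XT.nd (nat_lit 156) (nat_lit 456) (nat_lit 0) (XT.nd (nat_lit 78) (nat_lit 380) (nat_lit 0) (XT.lf (nat_lit 0) (nat_lit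 10023720070) (nat_lit 228) (nat_lit 3579612843) (nat_lit 304) (nat_lit 3287845440) (nat_lit 59) (nat_lit 5) (nat_lit 62) (nat_lit 5) (nat_lit 63) (nat_lit 5) (nat_lit 282) (nat_lit 248) (nat_lit 190)) (XT.lf (nat_lit 0) (nat_lit 1039199562) (nat_lit 380) (nat_lit 12201387788) (nat_lit 76) (nat_lit 4227948897) (nat_lit 54) (nat_lit 5) (nat_lit 59) (nat_lit 5) (nat_lit 55) (nat_lit 5) (nat_lit 283) (nat_lit 248) (nat_lit 189))) (XT.nd (nat_lit 78) (nat_lit 456) (nat_lit 0) (XT.lf (nat_lit 0) (nat_lit 5579223604) (nat_lit 380) (nat_lit 52683682) (nat_lit 76) (nat_lit 12440000787) (nat_lit 54) (nat_lit 5) (nat_lit 59) (nat_lit 5) (nat_lit 55) (nat_lit 5) (nat_lit 284) (nat_lit 248) (nat_lit 188)) (XT.nd (nat_lit 78) (nat_lit 228) (nat_lit 0) (XT.lf (nat_lit 0) (nat_lit 10452471483) (nat_lit 304) (nat_lit 5830714427) (nat_lit 76) (nat_lit 2419134343) (nat_lit 51) (nat_lit 5) (nat_lit 55) (nat_lit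 5) (nat_lit 52) (nat_lit 5) (nat_lit 285) (nat_lit 248) (nat_lit 187)) (XT.lf (nat_lit 0) (nat_lit 7102248634) (nat_lit 228) (nat_lit 8552593264) (nat_lit 304) (nat_lit 3706902993) (nat_lit 48) (nat_lit 5) (nat_lit 51) (nat_lit 5) (nat_lit 52) (nat_lit 5) (nat_lit 286) (nat_lit 248) (nat_lit 186))))) (XT.nd (nat_lit 234) (nat_lit 456) (nat_lit 0) (XT.nd (nat_lit 78) (nat_lit 228) (nat_lit 0) (XT.lf (nat_lit 0) (nat_lit 696518479) (nat_lit 228) (nat_lit 373965754) (nat_lit 304) (nat_lit 18982560165) (nat_lit 44) (nat_lit 5) (nat_lit 47) (nat_lit 5) (nat_lit 48) (nat_lit 5) (nat_lit 287) (nat_lit 248) (nat_lit 185)) (XT.nd (nat_lit 78) (nat_lit 228) (nat_lit 0) (XT.lf (nat_lit 0) (nat_lit 6179081130) (nat_lit 304) (nat_lit 6393205154) (nat_lit 76) (nat_lit 8200500404) (nat_lit 44) (nat_lit 5) (nat_lit 48) (nat_lit 5) (nat_lit 45) (nat_lit 5) (nat_lit 288) (nat_lit 248) (nat_lit 184)) (XT.lf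 (nat_lit 0) (nat_lit 7302738035) (nat_lit 228) (nat_lit 4278045412) (nat_lit 304) (nat_lit 9946649058) (nat_lit 41) (nat_lit 5) (nat_lit 44) (nat_lit 5) (nat_lit 45) (nat_lit 5) (nat_lit 289) (nat_lit 248) (nat_lit 183)))) (XT.nd (nat_lit 78) (nat_lit 456) (nat_lit 0) (XT.lf (nat_lit 0) (nat_lit 17326382286) (nat_lit 304) (nat_lit 597646143) (nat_lit 76) (nat_lit 4393612296) (nat_lit 41) (nat_lit 5) (nat_lit 45) (nat_lit 5) (nat_lit 42) (nat_lit 5) (nat_lit 290) (nat_lit 248) (nat_lit 182)) (XT.nd (nat_lit 78) (nat_lit 228) (nat_lit 0) (XT.lf (nat_lit 0) (nat_lit 352249593) (nat_lit 228) (nat_lit 9259080695) (nat_lit 76) (nat_lit 13531674578) (nat_lit 38) (nat_lit 5) (nat_lit 41) (nat_lit 5) (nat_lit 39) (nat_lit 5) (nat_lit 291) (nat_lit 248) (nat_lit 181)) (XT.lf (nat_lit 0) (nat_lit 5091201756) (nat_lit 228) (nat_lit 791810633) (nat_lit 304) (nat_lit 18124482233) (nat_lit 35) (nat_lit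 5) (nat_lit 38) (nat_lit 5) (nat_lit 39) (nat_lit 5) (nat_lit 292) (nat_lit 248) (nat_lit 180)))))) (XT.nd (nat_lit 390) (nat_lit 532) (nat_lit 0) (XT.nd (nat_lit 156) (nat_lit 380) (nat_lit 0) (XT.nd (nat_lit 78) (nat_lit 152) (nat_lit 0) (XT.lf (nat_lit 0) (nat_lit 11836098482) (nat_lit 304) (nat_lit 4691911312) (nat_lit 76) (nat_lit 8382862802) (nat_lit 35) (nat_lit 5) (nat_lit 39) (nat_lit 5) (nat_lit 36) (nat_lit 5) (nat_lit 293) (nat_lit 248) (nat_lit 179)) (XT.lf (nat_lit 0) (nat_lit 10391134545) (nat_lit 152) (nat_lit 7773221454) (nat_lit 228) (nat_lit 7692773463) (nat_lit 33) (nat_lit 5) (nat_lit 35) (nat_lit 5) (nat_lit 36) (nat_lit 5) (nat_lit 294) (nat_lit 248) (nat_lit 178))) (XT.nd (nat_lit 78) (nat_lit 380) (nat_lit 0) (XT.lf (nat_lit 0) (nat_lit 24841930246) (nat_lit 228) (nat_lit 583721152) (nat_lit 76) (nat_lit 1424094474) (nat_lit 33) (nat_lit 5) (nat_lit 36) (nat_lit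 5) (nat_lit 34) (nat_lit 5) (nat_lit 295) (nat_lit 248) (nat_lit 177)) (XT.nd (nat_lit 78) (nat_lit 152) (nat_lit 0) (XT.lf (nat_lit 0) (nat_lit 4082621743) (nat_lit 228) (nat_lit 12709515948) (nat_lit 76) (nat_lit 11092788323) (nat_lit 30) (nat_lit 5) (nat_lit 33) (nat_lit 5) (nat_lit 31) (nat_lit 5) (nat_lit 296) (nat_lit 248) (nat_lit 176)) (XT.lf (nat_lit 0) (nat_lit 2752593895) (nat_lit 152) (nat_lit 7688889088) (nat_lit 228) (nat_lit 18529652776) (nat_lit 28) (nat_lit 5) (nat_lit 30) (nat_lit 5) (nat_lit 31) (nat_lit 5) (nat_lit 297) (nat_lit 248) (nat_lit 175))))) (XT.nd (nat_lit 234) (nat_lit 380) (nat_lit 0) (XT.nd (nat_lit 78) (nat_lit 152) (nat_lit 0) (XT.lf (nat_lit 0) (nat_lit 17241646073) (nat_lit 228) (nat_lit 10916818773) (nat_lit 76) (nat_lit 1949518745) (nat_lit 28) (nat_lit 5) (nat_lit 31) (nat_lit 5) (nat_lit 29) (nat_lit 5) (nat_lit 298) (nat_lit 248) (nat_lit 174))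 (XT.nd (nat_lit 78) (nat_lit 0) (nat_lit 0) (XT.lf (nat_lit 0) (nat_lit 5131351864) (nat_lit 152) (nat_lit 19351929505) (nat_lit 228) (nat_lit 6815375534) (nat_lit 26) (nat_lit 5) (nat_lit 28) (nat_lit 5) (nat_lit 29) (nat_lit 5) (nat_lit 299) (nat_lit 248) (nat_lit 173)) (XT.lf (nat_lit 0) (nat_lit 22170076448) (nat_lit 152) (nat_lit 10004661925) (nat_lit 228) (nat_lit 371519035) (nat_lit 26) (nat_lit 5) (nat_lit 28) (nat_lit 5) (nat_lit 29) (nat_lit 5) (nat_lit 300) (nat_lit 248) (nat_lit 172)))) (XT.nd (nat_lit 78) (nat_lit 152) (nat_lit 0) (XT.lf (nat_lit 0) (nat_lit 6225945922) (nat_lit 152) (nat_lit 79929506) (nat_lit 228) (nat_lit 27547458487) (nat_lit 23) (nat_lit 5) (nat_lit 25) (nat_lit 5) (nat_lit 26) (nat_lit 5) (nat_lit 301) (nat_lit 248) (nat_lit 171)) (XT.nd (nat_lit 78) (nat_lit 152) (nat_lit 0) (XT.lf (nat_lit 0) (nat_lit 13493710792) (nat_lit 228) (nat_lit 11489802625)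 (nat_lit 76) (nat_lit 10236635490) (nat_lit 23) (nat_lit 5) (nat_lit 26) (nat_lit 5) (nat_lit 24) (nat_lit 5) (nat_lit 302) (nat_lit 248) (nat_lit 170)) (XT.lf (nat_lit 0) (nat_lit 5525446331) (nat_lit 152) (nat_lit 15547419690) (nat_lit 228) (nat_lit 15581502360) (nat_lit 21) (nat_lit 5) (nat_lit 23) (nat_lit 5) (nat_lit 24) (nat_lit 5) (nat_lit 303) (nat_lit 248) (nat_lit 169))))))))
noncomputable def xc67 : XT := (XT.nd (nat_lit 1716) (nat_lit 152) (nat_lit 0) (XT.nd (nat_lit 858) (nat_lit 304) (nat_lit 0) (XT.nd (nat_lit 390) (nat_lit 304) (nat_lit 0) (XT.nd (nat_lit 156) (nat_lit 228) (nat_lit 0) (XT.nd (nat_lit 78) (nat_lit 76) (nat_lit 0) (XT.lf (nat_lit 0) (nat_lit 23596369058) (nat_lit 152) (nat_lit 5531603695) (nat_lit 228) (nat_lit 9029436810) (nat_lit 21) (nat_lit 5) (nat_lit 23) (nat_lit 5) (nat_lit 24) (nat_lit 5) (nat_lit 304) (nat_lit 248) (nat_lit 168)) (XT.lf (nat_lit 0)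 (nat_lit 2808095977) (nat_lit 76) (nat_lit 34832253421) (nat_lit 152) (nat_lit 2093637537) (nat_lit 20) (nat_lit 5) (nat_lit 21) (nat_lit 5) (nat_lit 22) (nat_lit 4) (nat_lit 305) (nat_lit 248) (nat_lit 167))) (XT.nd (nat_lit 78) (nat_lit 152) (nat_lit 0) (XT.lf (nat_lit 0) (nat_lit 5274948011) (nat_lit 152) (nat_lit 20175575988) (nat_lit 76) (nat_lit 15931773347) (nat_lit 19) (nat_lit 5) (nat_lit 21) (nat_lit 5) (nat_lit 20) (nat_lit 5) (nat_lit 306) (nat_lit 248) (nat_lit 166)) (XT.nd (nat_lit 78) (nat_lit 152) (nat_lit 0) (XT.lf (nat_lit 0) (nat_lit 12950058546) (nat_lit 152) (nat_lit 2640740217) (nat_lit 76) (nat_lit 27522178014) (nat_lit 19) (nat_lit 5) (nat_lit 21) (nat_lit 5) (nat_lit 20) (nat_lit 5) (nat_lit 307) (nat_lit 248) (nat_lit 165)) (XT.lf (nat_lit 0) (nat_lit 16053757929) (nat_lit 152) (nat_lit 5091383162) (nat_lit 228) (nat_lit 23780979006) (nat_lit 17) (nat_lit 5) (nat_lit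 19) (nat_lit 5) (nat_lit 20) (nat_lit 5) (nat_lit 308) (nat_lit 248) (nat_lit 164))))) (XT.nd (nat_lit 234) (nat_lit 228) (nat_lit 0) (XT.nd (nat_lit 78) (nat_lit 76) (nat_lit 0) (XT.lf (nat_lit 0) (nat_lit 29816824364) (nat_lit 228) (nat_lit 11178143805) (nat_lit 76) (nat_lit 5832962647) (nat_lit 17) (nat_lit 5) (nat_lit 20) (nat_lit 5) (nat_lit 18) (nat_lit 4) (nat_lit 309) (nat_lit 248) (nat_lit 163)) (XT.nd (nat_lit 78) (nat_lit 0) (nat_lit 0) (XT.lf (nat_lit 0) (nat_lit 7466618849) (nat_lit 76) (nat_lit 31561836844) (nat_lit 152) (nat_lit 9793200347) (nat_lit 16) (nat_lit 5) (nat_lit 17) (nat_lit 5) (nat_lit 18) (nat_lit 4) (nat_lit 310) (nat_lit 248) (nat_lit 162)) (XT.lf (nat_lit 0) (nat_lit 27249547611) (nat_lit 76) (nat_lit 21549925743) (nat_lit 152) (nat_lit 2112644205) (nat_lit 16) (nat_lit 5) (nat_lit 17) (nat_lit 5) (nat_lit 18) (nat_lit 4) (nat_lit 311) (nat_lit 248) (nat_lit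 161)))) (XT.nd (nat_lit 78) (nat_lit 152) (nat_lit 0) (XT.lf (nat_lit 0) (nat_lit 5820139487) (nat_lit 152) (nat_lit 5169362833) (nat_lit 76) (nat_lit 42116366227) (nat_lit 15) (nat_lit 5) (nat_lit 17) (nat_lit 5) (nat_lit 16) (nat_lit 5) (nat_lit 312) (nat_lit 248) (nat_lit 160)) (XT.nd (nat_lit 78) (nat_lit 0) (nat_lit 0) (XT.lf (nat_lit 0) (nat_lit 14233037964) (nat_lit 228) (nat_lit 40922965446) (nat_lit 76) (nat_lit 248873592) (nat_lit 13) (nat_lit 5) (nat_lit 16) (nat_lit 5) (nat_lit 14) (nat_lit 4) (nat_lit 313) (nat_lit 248) (nat_lit 159)) (XT.lf (nat_lit 0) (nat_lit 23216705561) (nat_lit 228) (nat_lit 22729930286) (nat_lit 76) (nat_lit 11867708197) (nat_lit 13) (nat_lit 5) (nat_lit 16) (nat_lit 5) (nat_lit 14) (nat_lit 4) (nat_lit 314) (nat_lit 248) (nat_lit 158)))))) (XT.nd (nat_lit 390) (nat_lit 76) (nat_lit 0) (XT.nd (nat_lit 156) (nat_lit 152) (nat_lit 0) (XT.nd (nat_lit 78)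 (nat_lit 76) (nat_lit 0) (XT.lf (nat_lit 0) (nat_lit 32635712333) (nat_lit 228) (nat_lit 3651070406) (nat_lit 76) (nat_lit 24057928349) (nat_lit 13) (nat_lit 5) (nat_lit 16) (nat_lit 5) (nat_lit 14) (nat_lit 4) (nat_lit 315) (nat_lit 248) (nat_lit 157)) (XT.lf (nat_lit 0) (nat_lit 16684617023) (nat_lit 76) (nat_lit 25988250209) (nat_lit 152) (nat_lit 20324324102) (nat_lit 12) (nat_lit 5) (nat_lit 13) (nat_lit 5) (nat_lit 14) (nat_lit 4) (nat_lit 316) (nat_lit 248) (nat_lit 156))) (XT.nd (nat_lit 78) (nat_lit 152) (nat_lit 0) (XT.lf (nat_lit 0) (nat_lit 38091343512) (nat_lit 76) (nat_lit 15145351930) (nat_lit 152) (nat_lit 12544865955) (nat_lit 12) (nat_lit 5) (nat_lit 13) (nat_lit 5) (nat_lit 14) (nat_lit 4) (nat_lit 317) (nat_lit 248) (nat_lit 155)) (XT.nd (nat_lit 78) (nat_lit 152) (nat_lit 0) (XT.lf (nat_lit 0) (nat_lit 60547413999) (nat_lit 76) (nat_lit 3769140129) (nat_lit 152) (nat_lit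 4388970447) (nat_lit 12) (nat_lit 5) (nat_lit 13) (nat_lit 5) (nat_lit 14) (nat_lit 4) (nat_lit 318) (nat_lit 248) (nat_lit 154)) (XT.lf (nat_lit 0) (nat_lit 4282142807) (nat_lit 152) (nat_lit 59316490110) (nat_lit 76) (nat_lit 8170191535) (nat_lit 10) (nat_lit 5) (nat_lit 12) (nat_lit 5) (nat_lit 11) (nat_lit 4) (nat_lit 319) (nat_lit 248) (nat_lit 153))))) (XT.nd (nat_lit 234) (nat_lit 76) (nat_lit 0) (XT.nd (nat_lit 78) (nat_lit 0) (nat_lit 0) (XT.lf (nat_lit 0) (nat_lit 13408322634) (nat_lit 152) (nat_lit 40822084617) (nat_lit 76) (nat_lit 20750218586) (nat_lit 10) (nat_lit 5) (nat_lit 12) (nat_lit 5) (nat_lit 11) (nat_lit 4) (nat_lit 320) (nat_lit 248) (nat_lit 152)) (XT.nd (nat_lit 78) (nat_lit 0) (nat_lit 0) (XT.lf (nat_lit 0) (nat_lit 22979938001) (nat_lit 152) (nat_lit 21421933570) (nat_lit 76) (nat_lit 33951480128) (nat_lit 10) (nat_lit 5) (nat_lit 12) (nat_lit 5) (nat_lit 11)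 (nat_lit 4) (nat_lit 321) (nat_lit 248) (nat_lit 151)) (XT.lf (nat_lit 0) (nat_lit 33019778469) (nat_lit 152) (nat_lit 1069846133) (nat_lit 76) (nat_lit 47805407736) (nat_lit 10) (nat_lit 5) (nat_lit 12) (nat_lit 5) (nat_lit 11) (nat_lit 4) (nat_lit 322) (nat_lit 248) (nat_lit 150)))) (XT.nd (nat_lit 78) (nat_lit 0) (nat_lit 0) (XT.lf (nat_lit 0) (nat_lit 20686299253) (nat_lit 76) (nat_lit 23064298529) (nat_lit 152) (nat_lit 41857537062) (nat_lit 9) (nat_lit 5) (nat_lit 10) (nat_lit 5) (nat_lit 11) (nat_lit 4) (nat_lit 323) (nat_lit 248) (nat_lit 149)) (XT.nd (nat_lit 78) (nat_lit 0) (nat_lit 0) (XT.lf (nat_lit 0) (nat_lit 43535891254) (nat_lit 76) (nat_lit 11483526337) (nat_lit 152) (nat_lit 34487438186) (nat_lit 9) (nat_lit 5) (nat_lit 10) (nat_lit 5) (nat_lit 11) (nat_lit 4) (nat_lit 324) (nat_lit 248) (nat_lit 148)) (XT.lf (nat_lit 0) (nat_lit 66849015009) (nat_lit 152) (nat_lit 26095186118)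 (nat_lit 0) (nat_lit 656398282) (nat_lit 9) (nat_lit 5) (nat_lit 11) (nat_lit 4) (nat_lit 9) (nat_lit 4) (nat_lit 325) (nat_lit 248) (nat_lit 147))))))) (XT.nd (nat_lit 31980) (nat_lit 0) (nat_lit 9652) (XT.nd (nat_lit 31512) (nat_lit 0) (nat_lit 14820) (XT.nd (nat_lit 156) (nat_lit 76) (nat_lit 0) (XT.nd (nat_lit 78) (nat_lit 76) (nat_lit 0) (XT.lf (nat_lit 0) (nat_lit 79377270461) (nat_lit 152) (nat_lit 5356891812) (nat_lit 0) (nat_lit 13161659031) (nat_lit 9) (nat_lit 5) (nat_lit 11) (nat_lit 4) (nat_lit 9) (nat_lit 4) (nat_lit 326) (nat_lit 248) (nat_lit 146)) (XT.lf (nat_lit 0) (nat_lit 16730147400) (nat_lit 76) (nat_lit 75954299460) (nat_lit 76) (nat_lit 9716788311) (nat_lit 8) (nat_lit 4) (nat_lit 9) (nat_lit 5) (nat_lit 9) (nat_lit 4) (nat_lit 327) (nat_lit 248) (nat_lit 145))) (XT.nd (nat_lit 78) (nat_lit 76) (nat_lit 0) (XT.lf (nat_lit 0) (nat_lit 40019266129) (nat_lit 76) (nat_lit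 66684807356) (nat_lit 76) (nat_lit 426439334) (nat_lit 8) (nat_lit 4) (nat_lit 9) (nat_lit 5) (nat_lit 9) (nat_lit 4) (nat_lit 328) (nat_lit 248) (nat_lit 144)) (XT.nd (nat_lit 78) (nat_lit 0) (nat_lit 0) (XT.lf (nat_lit 0) (nat_lit 9138644910) (nat_lit 152) (nat_lit 47726782543) (nat_lit 76) (nat_lit 55228374701) (nat_lit 7) (nat_lit 5) (nat_lit 9) (nat_lit 5) (nat_lit 8) (nat_lit 4) (nat_lit 329) (nat_lit 248) (nat_lit 143)) (XT.lf (nat_lit 0) (nat_lit 19165864057) (nat_lit 152) (nat_lit 27390445475) (nat_lit 76) (nat_lit 70749043889) (nat_lit 7) (nat_lit 5) (nat_lit 9) (nat_lit 5) (nat_lit 8) (nat_lit 4) (nat_lit 330) (nat_lit 248) (nat_lit 142))))) (XT.nd (nat_lit 234) (nat_lit 684) (nat_lit 0) (XT.nd (nat_lit 78) (nat_lit 0) (nat_lit 0) (XT.lf (nat_lit 0) (nat_lit 358855537) (nat_lit 836) (nat_lit 1674068142) (nat_lit 836) (nat_lit 1674068142) (nat_lit 211) (nat_lit 3) (nat_lit 222)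 (nat_lit 3) (nat_lit 222) (nat_lit 5) (nat_lit 249) (nat_lit 249) (nat_lit 222)) (XT.nd (nat_lit 78) (nat_lit 0) (nat_lit 76) (XT.lf (nat_lit 76) (nat_lit 2015939043) (nat_lit 0) (nat_lit 986060611) (nat_lit 836) (nat_lit 4523383576) (nat_lit 212) (nat_lit 5) (nat_lit 211) (nat_lit 3) (nat_lit 222) (nat_lit 5) (nat_lit 250) (nat_lit 249) (nat_lit 221)) (XT.lf (nat_lit 0) (nat_lit 5313015900) (nat_lit 760) (nat_lit 26205288) (nat_lit 836) (nat_lit 2306137703) (nat_lit 212) (nat_lit 5) (nat_lit 222) (nat_lit 5) (nat_lit 223) (nat_lit 5) (nat_lit 251) (nat_lit 249) (nat_lit 220)))) (XT.nd (nat_lit 78) (nat_lit 760) (nat_lit 0) (XT.lf (nat_lit 76) (nat_lit 5756309191) (nat_lit 0) (nat_lit 1911511347) (nat_lit 836) (nat_lit 106028993) (nat_lit 213) (nat_lit 5) (nat_lit 212) (nat_lit 5) (nat_lit 223) (nat_lit 5) (nat_lit 252) (nat_lit 249) (nat_lit 219)) (XT.nd (nat_lit 78) (nat_lit 0) (nat_lit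 0) (XT.lf (nat_lit 0) (nat_lit 2110233289) (nat_lit 836) (nat_lit 4032356278) (nat_lit 912) (nat_lit 1768202162) (nat_lit 202) (nat_lit 5) (nat_lit 213) (nat_lit 5) (nat_lit 214) (nat_lit 5) (nat_lit 253) (nat_lit 249) (nat_lit 218)) (XT.lf (nat_lit 76) (nat_lit 1995357296) (nat_lit 0) (nat_lit 2372439351) (nat_lit 912) (nat_lit 3689092419) (nat_lit 203) (nat_lit 5) (nat_lit 202) (nat_lit 5) (nat_lit 214) (nat_lit 5) (nat_lit 254) (nat_lit 249) (nat_lit 217)))))) (XT.nd (nat_lit 390) (nat_lit 3572) (nat_lit 0) (XT.nd (nat_lit 156) (nat_lit 760) (nat_lit 0) (XT.nd (nat_lit 78) (nat_lit 912) (nat_lit 0) (XT.lf (nat_lit 76) (nat_lit 103552594) (nat_lit 0) (nat_lit 6571764916) (nat_lit 912) (nat_lit 1537166094) (nat_lit 204) (nat_lit 5) (nat_lit 203) (nat_lit 5) (nat_lit 215) (nat_lit 5) (nat_lit 255) (nat_lit 249) (nat_lit 216)) (XT.lf (nat_lit 0) (nat_lit 677699812) (nat_lit 912) (nat_lit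 1784674335) (nat_lit 988) (nat_lit 5914473985) (nat_lit 191) (nat_lit 5) (nat_lit 203) (nat_lit 5) (nat_lit 204) (nat_lit 5) (nat_lit 256) (nat_lit 249) (nat_lit 215))) (XT.nd (nat_lit 78) (nat_lit 836) (nat_lit 0) (XT.lf (nat_lit 0) (nat_lit 2925310038) (nat_lit 912) (nat_lit 3713690220) (nat_lit 988) (nat_lit 1911628620) (nat_lit 192) (nat_lit 5) (nat_lit 204) (nat_lit 5) (nat_lit 205) (nat_lit 5) (nat_lit 257) (nat_lit 249) (nat_lit 214)) (XT.nd (nat_lit 78) (nat_lit 836) (nat_lit 0) (XT.lf (nat_lit 76) (nat_lit 3048518275) (nat_lit 0) (nat_lit 2202457455) (nat_lit 988) (nat_lit 3483408237) (nat_lit 193) (nat_lit 5) (nat_lit 192) (nat_lit 5) (nat_lit 205) (nat_lit 5) (nat_lit 258) (nat_lit 249) (nat_lit 213)) (XT.lf (nat_lit 0) (nat_lit 1218480763) (nat_lit 912) (nat_lit 6445920268) (nat_lit 988) (nat_lit 1264024875) (nat_lit 181) (nat_lit 5) (nat_lit 193) (nat_lit 5) (nat_lit 194) (nat_lit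 5) (nat_lit 259) (nat_lit 249) (nat_lit 212))))) (XT.nd (nat_lit 234) (nat_lit 1444) (nat_lit 0) (XT.nd (nat_lit 78) (nat_lit 2052) (nat_lit 0) (XT.lf (nat_lit 0) (nat_lit 1027324449) (nat_lit 988) (nat_lit 658051398) (nat_lit 76) (nat_lit 7447257493) (nat_lit 180) (nat_lit 5) (nat_lit 193) (nat_lit 5) (nat_lit 181) (nat_lit 5) (nat_lit 260) (nat_lit 249) (nat_lit 211)) (XT.nd (nat_lit 78) (nat_lit 1064) (nat_lit 0) (XT.lf (nat_lit 0) (nat_lit 3410588933) (nat_lit 1064) (nat_lit 2591968822) (nat_lit 76) (nat_lit 3344227576) (nat_lit 167) (nat_lit 5) (nat_lit 181) (nat_lit 5) (nat_lit 168) (nat_lit 5) (nat_lit 261) (nat_lit 249) (nat_lit 210)) (XT.lf (nat_lit 0) (nat_lit 4982359599) (nat_lit 1064) (nat_lit 911547122) (nat_lit 1140) (nat_lit 3678515621) (nat_lit 153) (nat_lit 5) (nat_lit 167) (nat_lit 5) (nat_lit 168) (nat_lit 5) (nat_lit 262) (nat_lit 249) (nat_lit 209)))) (XT.nd (nat_lit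 78) (nat_lit 608) (nat_lit 0) (XT.lf (nat_lit 0) (nat_lit 3119928167) (nat_lit 836) (nat_lit 5393866876) (nat_lit 912) (nat_lit 1295368423) (nat_lit 142) (nat_lit 5) (nat_lit 153) (nat_lit 5) (nat_lit 154) (nat_lit 5) (nat_lit 263) (nat_lit 249) (nat_lit 208)) (XT.nd (nat_lit 78) (nat_lit 0) (nat_lit 0) (XT.lf (nat_lit 0) (nat_lit 1166981090) (nat_lit 608) (nat_lit 8880138768) (nat_lit 76) (nat_lit 10945587) (nat_lit 134) (nat_lit 5) (nat_lit 142) (nat_lit 5) (nat_lit 135) (nat_lit 5) (nat_lit 264) (nat_lit 249) (nat_lit 207)) (XT.lf (nat_lit 0) (nat_lit 3768485755) (nat_lit 608) (nat_lit 886413463) (nat_lit 76) (nat_lit 5663014898) (nat_lit 134) (nat_lit 5) (nat_lit 142) (nat_lit 5) (nat_lit 135) (nat_lit 5) (nat_lit 265) (nat_lit 249) (nat_lit 206))))))))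
noncomputable def xc68 : XT := (XT.nd (nat_lit 1716) (nat_lit 2356) (nat_lit 0) (XT.nd (nat_lit 858) (nat_lit 2356) (nat_lit 0) (XT.nd (nat_lit 390) (nat_lit 2128) (nat_lit 0) (XT.nd (nat_lit 156) (nat_lit 1064) (nat_lit 0) (XT.nd (nat_lit 78) (nat_lit 456) (nat_lit 0) (XT.lf (nat_lit 0) (nat_lit 6505818901) (nat_lit 608) (nat_lit 3021911510) (nat_lit 76) (nat_lit 1063015252) (nat_lit 127) (nat_lit 5) (nat_lit 135) (nat_lit 5) (nat_lit 128) (nat_lit 5) (nat_lit 266) (nat_lit 249) (nat_lit 205)) (XT.lf (nat_lit 0) (nat_lit 5574549303) (nat_lit 456) (nat_lit 3840727197) (nat_lit 532) (nat_lit 1461039832) (nat_lit 121) (nat_lit 5) (nat_lit 127) (nat_lit 5) (nat_lit 128) (nat_lit 5) (nat_lit 267) (nat_lit 249) (nat_lit 204))) (XT.nd (nat_lit 78) (nat_lit 456) (nat_lit 0) (XT.lf (nat_lit 0) (nat_lit 1282232720) (nat_lit 608) (nat_lit 7728701584) (nat_lit 76) (nat_lit 2164598350) (nat_lit 113)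 (nat_lit 5) (nat_lit 121) (nat_lit 5) (nat_lit 114) (nat_lit 5) (nat_lit 268) (nat_lit 249) (nat_lit 203)) (XT.nd (nat_lit 78) (nat_lit 0) (nat_lit 0) (XT.lf (nat_lit 0) (nat_lit 1148893517) (nat_lit 456) (nat_lit 3018952852) (nat_lit 532) (nat_lit 7320504370) (nat_lit 107) (nat_lit 5) (nat_lit 113) (nat_lit 5) (nat_lit 114) (nat_lit 5) (nat_lit 269) (nat_lit 249) (nat_lit 202)) (XT.lf (nat_lit 0) (nat_lit 7242302386) (nat_lit 532) (nat_lit 1289784429) (nat_lit 76) (nat_lit 3283516290) (nat_lit 107) (nat_lit 5) (nat_lit 114) (nat_lit 5) (nat_lit 108) (nat_lit 5) (nat_lit 270) (nat_lit 249) (nat_lit 201))))) (XT.nd (nat_lit 234) (nat_lit 836) (nat_lit 0) (XT.nd (nat_lit 78) (nat_lit 836) (nat_lit 0) (XT.lf (nat_lit 0) (nat_lit 8271895661) (nat_lit 456) (nat_lit 2244528511) (nat_lit 532) (nat_lit 1641539653) (nat_lit 101) (nat_lit 5) (nat_lit 107) (nat_lit 5) (nat_lit 108) (nat_lit 5) (nat_lit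 271) (nat_lit 249) (nat_lit 200)) (XT.nd (nat_lit 78) (nat_lit 380) (nat_lit 0) (XT.lf (nat_lit 0) (nat_lit 1458671035) (nat_lit 456) (nat_lit 6708485288) (nat_lit 76) (nat_lit 4348489626) (nat_lit 95) (nat_lit 5) (nat_lit 101) (nat_lit 5) (nat_lit 96) (nat_lit 5) (nat_lit 272) (nat_lit 249) (nat_lit 199)) (XT.lf (nat_lit 0) (nat_lit 3127118500) (nat_lit 380) (nat_lit 1586095216) (nat_lit 456) (nat_lit 8176621965) (nat_lit 90) (nat_lit 5) (nat_lit 95) (nat_lit 5) (nat_lit 96) (nat_lit 5) (nat_lit 273) (nat_lit 249) (nat_lit 198)))) (XT.nd (nat_lit 78) (nat_lit 456) (nat_lit 0) (XT.lf (nat_lit 0) (nat_lit 195735574) (nat_lit 380) (nat_lit 7999494943) (nat_lit 456) (nat_lit 5085665991) (nat_lit 85) (nat_lit 5) (nat_lit 90) (nat_lit 5) (nat_lit 91) (nat_lit 5) (nat_lit 274) (nat_lit 249) (nat_lit 197)) (XT.nd (nat_lit 78) (nat_lit 456) (nat_lit 0) (XT.lf (nat_lit 0) (nat_lit 10771559888) (nat_lit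 380) (nat_lit 1140193322) (nat_lit 456) (nat_lit 1778044079) (nat_lit 85) (nat_lit 5) (nat_lit 90) (nat_lit 5) (nat_lit 91) (nat_lit 5) (nat_lit 275) (nat_lit 249) (nat_lit 196)) (XT.lf (nat_lit 0) (nat_lit 1742284747) (nat_lit 456) (nat_lit 6349838659) (nat_lit 76) (nat_lit 6024210495) (nat_lit 79) (nat_lit 5) (nat_lit 85) (nat_lit 5) (nat_lit 80) (nat_lit 5) (nat_lit 276) (nat_lit 249) (nat_lit 195)))))) (XT.nd (nat_lit 390) (nat_lit 1064) (nat_lit 0) (XT.nd (nat_lit 156) (nat_lit 684) (nat_lit 0) (XT.nd (nat_lit 78) (nat_lit 304) (nat_lit 0) (XT.lf (nat_lit 0) (nat_lit 4474939165) (nat_lit 304) (nat_lit 960051659) (nat_lit 380) (nat_lit 9127771621) (nat_lit 75) (nat_lit 5) (nat_lit 79) (nat_lit 5) (nat_lit 80) (nat_lit 5) (nat_lit 277) (nat_lit 249) (nat_lit 194)) (XT.lf (nat_lit 0) (nat_lit 831565846) (nat_lit 304) (nat_lit 8567193352) (nat_lit 380) (nat_lit 5630243491) (nat_lit 71)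 (nat_lit 5) (nat_lit 75) (nat_lit 5) (nat_lit 76) (nat_lit 5) (nat_lit 278) (nat_lit 249) (nat_lit 193))) (XT.nd (nat_lit 78) (nat_lit 684) (nat_lit 0) (XT.lf (nat_lit 0) (nat_lit 12434366662) (nat_lit 304) (nat_lit 1191239552) (nat_lit 380) (nat_lit 1891081152) (nat_lit 71) (nat_lit 5) (nat_lit 75) (nat_lit 5) (nat_lit 76) (nat_lit 5) (nat_lit 279) (nat_lit 249) (nat_lit 192)) (XT.nd (nat_lit 78) (nat_lit 304) (nat_lit 0) (XT.lf (nat_lit 0) (nat_lit 2095840287) (nat_lit 380) (nat_lit 7414174223) (nat_lit 76) (nat_lit 6515212710) (nat_lit 66) (nat_lit 5) (nat_lit 71) (nat_lit 5) (nat_lit 67) (nat_lit 5) (nat_lit 280) (nat_lit 249) (nat_lit 191)) (XT.lf (nat_lit 0) (nat_lit 4388492164) (nat_lit 304) (nat_lit 1895864251) (nat_lit 380) (nat_lit 10273104852) (nat_lit 62) (nat_lit 5) (nat_lit 66) (nat_lit 5) (nat_lit 67) (nat_lit 5) (nat_lit 281) (nat_lit 249) (nat_lit 190))))) (XT.nd (nat_lit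 234) (nat_lit 456) (nat_lit 0) (XT.nd (nat_lit 78) (nat_lit 608) (nat_lit 0) (XT.lf (nat_lit 0) (nat_lit 10774182971) (nat_lit 380) (nat_lit 297635789) (nat_lit 76) (nat_lit 6041798081) (nat_lit 62) (nat_lit 5) (nat_lit 67) (nat_lit 5) (nat_lit 63) (nat_lit 5) (nat_lit 282) (nat_lit 249) (nat_lit 189)) (XT.nd (nat_lit 78) (nat_lit 380) (nat_lit 0) (XT.lf (nat_lit 0) (nat_lit 12331171658) (nat_lit 228) (nat_lit 3253265392) (nat_lit 304) (nat_lit 2110328259) (nat_lit 59) (nat_lit 5) (nat_lit 62) (nat_lit 5) (nat_lit 63) (nat_lit 5) (nat_lit 283) (nat_lit 249) (nat_lit 188)) (XT.lf (nat_lit 0) (nat_lit 2366274749) (nat_lit 380) (nat_lit 10994713962) (nat_lit 76) (nat_lit 4940923539) (nat_lit 54) (nat_lit 5) (nat_lit 59) (nat_lit 5) (nat_lit 55) (nat_lit 5) (nat_lit 284) (nat_lit 249) (nat_lit 187)))) (XT.nd (nat_lit 78) (nat_lit 228) (nat_lit 0) (XT.lf (nat_lit 0) (nat_lit 1708247834) (nat_lit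 228) (nat_lit 5380753110) (nat_lit 304) (nat_lit 11847866284) (nat_lit 51) (nat_lit 5) (nat_lit 54) (nat_lit 5) (nat_lit 55) (nat_lit 5) (nat_lit 285) (nat_lit 249) (nat_lit 186)) (XT.nd (nat_lit 78) (nat_lit 228) (nat_lit 0) (XT.lf (nat_lit 0) (nat_lit 12152699796) (nat_lit 304) (nat_lit 4409685700) (nat_lit 76) (nat_lit 3038092375) (nat_lit 51) (nat_lit 5) (nat_lit 55) (nat_lit 5) (nat_lit 52) (nat_lit 5) (nat_lit 286) (nat_lit 249) (nat_lit 185)) (XT.lf (nat_lit 0) (nat_lit 9120835198) (nat_lit 228) (nat_lit 8454267450) (nat_lit 304) (nat_lit 2719051308) (nat_lit 48) (nat_lit 5) (nat_lit 51) (nat_lit 5) (nat_lit 52) (nat_lit 5) (nat_lit 287) (nat_lit 249) (nat_lit 184))))))) (XT.nd (nat_lit 858) (nat_lit 836) (nat_lit 0) (XT.nd (nat_lit 390) (nat_lit 760) (nat_lit 0) (XT.nd (nat_lit 156) (nat_lit 456) (nat_lit 0) (XT.nd (nat_lit 78) (nat_lit 0) (nat_lit 0) (XT.lf (nat_lit 0) (nat_lit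 2236598333) (nat_lit 304) (nat_lit 18651388659) (nat_lit 76) (nat_lit 132896311) (nat_lit 44) (nat_lit 5) (nat_lit 48) (nat_lit 5) (nat_lit 45) (nat_lit 5) (nat_lit 288) (nat_lit 249) (nat_lit 183)) (XT.lf (nat_lit 0) (nat_lit 7551239391) (nat_lit 304) (nat_lit 5123161575) (nat_lit 76) (nat_lit 9103761677) (nat_lit 44) (nat_lit 5) (nat_lit 48) (nat_lit 5) (nat_lit 45) (nat_lit 5) (nat_lit 289) (nat_lit 249) (nat_lit 182))) (XT.nd (nat_lit 78) (nat_lit 228) (nat_lit 0) (XT.lf (nat_lit 0) (nat_lit 9212010233) (nat_lit 228) (nat_lit 3975230992) (nat_lit 304) (nat_lit 9384438200) (nat_lit 41) (nat_lit 5) (nat_lit 44) (nat_lit 5) (nat_lit 45) (nat_lit 5) (nat_lit 290) (nat_lit 249) (nat_lit 181)) (XT.nd (nat_lit 78) (nat_lit 76) (nat_lit 0) (XT.lf (nat_lit 0) (nat_lit 886234709) (nat_lit 152) (nat_lit 18298210104) (nat_lit 228) (nat_lit 4218085504) (nat_lit 39) (nat_lit 5) (nat_lit 41) (nat_lit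 5) (nat_lit 42) (nat_lit 5) (nat_lit 291) (nat_lit 249) (nat_lit 180)) (XT.lf (nat_lit 0) (nat_lit 1330806596) (nat_lit 228) (nat_lit 8248189833) (nat_lit 76) (nat_lit 14691183659) (nat_lit 38) (nat_lit 5) (nat_lit 41) (nat_lit 5) (nat_lit 39) (nat_lit 5) (nat_lit 292) (nat_lit 249) (nat_lit 179))))) (XT.nd (nat_lit 234) (nat_lit 380) (nat_lit 0) (XT.nd (nat_lit 78) (nat_lit 152) (nat_lit 0) (XT.lf (nat_lit 0) (nat_lit 6777359272) (nat_lit 228) (nat_lit 328750387) (nat_lit 304) (nat_lit 18072799213) (nat_lit 35) (nat_lit 5) (nat_lit 38) (nat_lit 5) (nat_lit 39) (nat_lit 5) (nat_lit 293) (nat_lit 249) (nat_lit 178)) (XT.nd (nat_lit 78) (nat_lit 152) (nat_lit 0) (XT.lf (nat_lit 0) (nat_lit 13317216203) (nat_lit 304) (nat_lit 3540101046) (nat_lit 76) (nat_lit 9271379514) (nat_lit 35) (nat_lit 5) (nat_lit 39) (nat_lit 5) (nat_lit 36) (nat_lit 5) (nat_lit 294) (nat_lit 249) (nat_lit 177)) (XT.lf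 (nat_lit 0) (nat_lit 12257356058) (nat_lit 152) (nat_lit 7675127275) (nat_lit 228) (nat_lit 7190714765) (nat_lit 33) (nat_lit 5) (nat_lit 35) (nat_lit 5) (nat_lit 36) (nat_lit 5) (nat_lit 295) (nat_lit 249) (nat_lit 176)))) (XT.nd (nat_lit 78) (nat_lit 228) (nat_lit 0) (XT.lf (nat_lit 0) (nat_lit 704432746) (nat_lit 152) (nat_lit 26209783092) (nat_lit 228) (nat_lit 1252168274) (nat_lit 31) (nat_lit 5) (nat_lit 33) (nat_lit 5) (nat_lit 34) (nat_lit 5) (nat_lit 296) (nat_lit 249) (nat_lit 175)) (XT.nd (nat_lit 78) (nat_lit 152) (nat_lit 0) (XT.lf (nat_lit 0) (nat_lit 5091897720) (nat_lit 228) (nat_lit 12061868816) (nat_lit 76) (nat_lit 12100379142) (nat_lit 30) (nat_lit 5) (nat_lit 33) (nat_lit 5) (nat_lit 31) (nat_lit 5) (nat_lit 297) (nat_lit 249) (nat_lit 174)) (XT.lf (nat_lit 0) (nat_lit 4136566059) (nat_lit 152) (nat_lit 7605776338) (nat_lit 228) (nat_lit 18653155842) (nat_lit 28) (nat_lit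 5) (nat_lit 30) (nat_lit 5) (nat_lit 31) (nat_lit 5) (nat_lit 298) (nat_lit 249) (nat_lit 173)))))) (XT.nd (nat_lit 390) (nat_lit 456) (nat_lit 0) (XT.nd (nat_lit 156) (nat_lit 228) (nat_lit 0) (XT.nd (nat_lit 78) (nat_lit 152) (nat_lit 0) (XT.lf (nat_lit 0) (nat_lit 18849709052) (nat_lit 228) (nat_lit 10256905109) (nat_lit 76) (nat_lit 2483597997) (nat_lit 28) (nat_lit 5) (nat_lit 31) (nat_lit 5) (nat_lit 29) (nat_lit 5) (nat_lit 299) (nat_lit 249) (nat_lit 172)) (XT.lf (nat_lit 0) (nat_lit 6559111346) (nat_lit 152) (nat_lit 19870050091) (nat_lit 228) (nat_lit 6412023315) (nat_lit 26) (nat_lit 5) (nat_lit 28) (nat_lit 5) (nat_lit 29) (nat_lit 5) (nat_lit 300) (nat_lit 249) (nat_lit 171))) (XT.nd (nat_lit 78) (nat_lit 152) (nat_lit 0) (XT.lf (nat_lit 0) (nat_lit 312374804) (nat_lit 228) (nat_lit 9761293568) (nat_lit 76) (nat_lit 24078471940) (nat_lit 25) (nat_lit 5) (nat_lit 28) (nat_lit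 5) (nat_lit 26) (nat_lit 5) (nat_lit 301) (nat_lit 249) (nat_lit 170)) (XT.nd (nat_lit 78) (nat_lit 0) (nat_lit 0) (XT.lf (nat_lit 0) (nat_lit 7296769657) (nat_lit 228) (nat_lit 27893648229) (nat_lit 76) (nat_lit 334651156) (nat_lit 23) (nat_lit 5) (nat_lit 26) (nat_lit 5) (nat_lit 24) (nat_lit 5) (nat_lit 302) (nat_lit 249) (nat_lit 169)) (XT.lf (nat_lit 0) (nat_lit 14812593670) (nat_lit 228) (nat_lit 11003052359) (nat_lit 76) (nat_lit 11145552446) (nat_lit 23) (nat_lit 5) (nat_lit 26) (nat_lit 5) (nat_lit 24) (nat_lit 5) (nat_lit 303) (nat_lit 249) (nat_lit 168))))) (XT.nd (nat_lit 234) (nat_lit 228) (nat_lit 0) (XT.nd (nat_lit 78) (nat_lit 76) (nat_lit 0) (XT.lf (nat_lit 0) (nat_lit 6832538801) (nat_lit 152) (nat_lit 15917400669) (nat_lit 228) (nat_lit 15717842561) (nat_lit 21) (nat_lit 5) (nat_lit 23) (nat_lit 5) (nat_lit 24) (nat_lit 5) (nat_lit 304) (nat_lit 249) (nat_lit 167)) (XT.nd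 (nat_lit 78) (nat_lit 76) (nat_lit 0) (XT.lf (nat_lit 0) (nat_lit 25757920991) (nat_lit 152) (nat_lit 5420193398) (nat_lit 228) (nat_lit 8868780159) (nat_lit 21) (nat_lit 5) (nat_lit 23) (nat_lit 5) (nat_lit 24) (nat_lit 5) (nat_lit 305) (nat_lit 249) (nat_lit 166)) (XT.lf (nat_lit 0) (nat_lit 3916328847) (nat_lit 76) (nat_lit 36184362900) (nat_lit 152) (nat_lit 1602098880) (nat_lit 20) (nat_lit 5) (nat_lit 21) (nat_lit 5) (nat_lit 22) (nat_lit 4) (nat_lit 306) (nat_lit 249) (nat_lit 165)))) (XT.nd (nat_lit 78) (nat_lit 152) (nat_lit 0) (XT.lf (nat_lit 0) (nat_lit 6095444101) (nat_lit 152) (nat_lit 20251028608) (nat_lit 76) (nat_lit 17087732274) (nat_lit 19) (nat_lit 5) (nat_lit 21) (nat_lit 5) (nat_lit 20) (nat_lit 5) (nat_lit 307) (nat_lit 249) (nat_lit 164)) (XT.nd (nat_lit 78) (nat_lit 152) (nat_lit 0) (XT.lf (nat_lit 0) (nat_lit 14127798321) (nat_lit 152) (nat_lit 1883895152) (nat_lit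 76) (nat_lit 29240544305) (nat_lit 19) (nat_lit 5) (nat_lit 21) (nat_lit 5) (nat_lit 20) (nat_lit 5) (nat_lit 308) (nat_lit 249) (nat_lit 163)) (XT.lf (nat_lit 0) (nat_lit 17719848275) (nat_lit 152) (nat_lit 4995836897) (nat_lit 228) (nat_lit 24440884478) (nat_lit 17) (nat_lit 5) (nat_lit 19) (nat_lit 5) (nat_lit 20) (nat_lit 5) (nat_lit 309) (nat_lit 249) (nat_lit 162))))))))
noncomputable def xc69 : XT := (XT.nd (nat_lit 32916) (nat_lit 0) (nat_lit 7068) (XT.nd (nat_lit 858) (nat_lit 228) (nat_lit 0) (XT.nd (nat_lit 390) (nat_lit 228) (nat_lit 0) (XT.nd (nat_lit 156) (nat_lit 228) (nat_lit 0) (XT.nd (nat_lit 78) (nat_lit 76) (nat_lit 0) (XT.lf (nat_lit 0) (nat_lit 31799715629) (nat_lit 228) (nat_lit 10902866826) (nat_lit 76) (nat_lit 6451547361) (nat_lit 17) (nat_lit 5) (nat_lit 20) (nat_lit 5) (nat_lit 18) (nat_lit 4) (nat_lit 310) (nat_lit 249) (nat_lit 161)) (XT.lf (nat_lit 0) (nat_lit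 8650222239) (nat_lit 76) (nat_lit 32806064166) (nat_lit 152) (nat_lit 9791744924) (nat_lit 16) (nat_lit 5) (nat_lit 17) (nat_lit 5) (nat_lit 18) (nat_lit 4) (nat_lit 311) (nat_lit 249) (nat_lit 160))) (XT.nd (nat_lit 78) (nat_lit 228) (nat_lit 0) (XT.lf (nat_lit 0) (nat_lit 29383713037) (nat_lit 76) (nat_lit 22309455820) (nat_lit 152) (nat_lit 1750547425) (nat_lit 16) (nat_lit 5) (nat_lit 17) (nat_lit 5) (nat_lit 18) (nat_lit 4) (nat_lit 312) (nat_lit 249) (nat_lit 159)) (XT.nd (nat_lit 78) (nat_lit 152) (nat_lit 0) (XT.lf (nat_lit 0) (nat_lit 6547910189) (nat_lit 152) (nat_lit 4683831829) (nat_lit 76) (nat_lit 44515951350) (nat_lit 15) (nat_lit 5) (nat_lit 17) (nat_lit 5) (nat_lit 16) (nat_lit 5) (nat_lit 313) (nat_lit 249) (nat_lit 158)) (XT.lf (nat_lit 0) (nat_lit 15370483567) (nat_lit 228) (nat_lit 42236286989) (nat_lit 76) (nat_lit 555228203) (nat_lit 13) (nat_lit 5) (nat_lit 16) (nat_lit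 5) (nat_lit 14) (nat_lit 4) (nat_lit 314) (nat_lit 249) (nat_lit 157))))) (XT.nd (nat_lit 234) (nat_lit 152) (nat_lit 0) (XT.nd (nat_lit 78) (nat_lit 76) (nat_lit 0) (XT.lf (nat_lit 0) (nat_lit 24783058653) (nat_lit 228) (nat_lit 23168496582) (nat_lit 76) (nat_lit 12741008780) (nat_lit 13) (nat_lit 5) (nat_lit 16) (nat_lit 5) (nat_lit 14) (nat_lit 4) (nat_lit 315) (nat_lit 249) (nat_lit 156)) (XT.nd (nat_lit 78) (nat_lit 76) (nat_lit 0) (XT.lf (nat_lit 0) (nat_lit 34653705391) (nat_lit 228) (nat_lit 3168928480) (nat_lit 76) (nat_lit 25527410645) (nat_lit 13) (nat_lit 5) (nat_lit 16) (nat_lit 5) (nat_lit 14) (nat_lit 4) (nat_lit 316) (nat_lit 249) (nat_lit 155)) (XT.lf (nat_lit 0) (nat_lit 18164489958) (nat_lit 76) (nat_lit 27016043553) (nat_lit 152) (nat_lit 20954995843) (nat_lit 12) (nat_lit 5) (nat_lit 13) (nat_lit 5) (nat_lit 14) (nat_lit 4) (nat_lit 317) (nat_lit 249) (nat_lit 154))))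 (XT.nd (nat_lit 78) (nat_lit 152) (nat_lit 0) (XT.lf (nat_lit 0) (nat_lit 40610807911) (nat_lit 76) (nat_lit 15643934606) (nat_lit 152) (nat_lit 12804924049) (nat_lit 12) (nat_lit 5) (nat_lit 13) (nat_lit 5) (nat_lit 14) (nat_lit 4) (nat_lit 318) (nat_lit 249) (nat_lit 153)) (XT.nd (nat_lit 78) (nat_lit 152) (nat_lit 0) (XT.lf (nat_lit 0) (nat_lit 64160401102) (nat_lit 76) (nat_lit 3711230545) (nat_lit 152) (nat_lit 4258718774) (nat_lit 12) (nat_lit 5) (nat_lit 13) (nat_lit 5) (nat_lit 14) (nat_lit 4) (nat_lit 319) (nat_lit 249) (nat_lit 152)) (XT.lf (nat_lit 0) (nat_lit 4830674864) (nat_lit 152) (nat_lit 61698726271) (nat_lit 76) (nat_lit 8817579468) (nat_lit 10) (nat_lit 5) (nat_lit 12) (nat_lit 5) (nat_lit 11) (nat_lit 4) (nat_lit 320) (nat_lit 249) (nat_lit 151)))))) (XT.nd (nat_lit 390) (nat_lit 152) (nat_lit 0) (XT.nd (nat_lit 156) (nat_lit 76) (nat_lit 0) (XT.nd (nat_lit 78) (nat_lit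 0) (nat_lit 0) (XT.lf (nat_lit 0) (nat_lit 14397238686) (nat_lit 152) (nat_lit 42307390425) (nat_lit 76) (nat_lit 22015232712) (nat_lit 10) (nat_lit 5) (nat_lit 12) (nat_lit 5) (nat_lit 11) (nat_lit 4) (nat_lit 321) (nat_lit 249) (nat_lit 150)) (XT.lf (nat_lit 0) (nat_lit 24432268158) (nat_lit 152) (nat_lit 21963698417) (nat_lit 76) (nat_lit 35865723846) (nat_lit 10) (nat_lit 5) (nat_lit 12) (nat_lit 5) (nat_lit 11) (nat_lit 4) (nat_lit 322) (nat_lit 249) (nat_lit 149))) (XT.nd (nat_lit 78) (nat_lit 76) (nat_lit 0) (XT.lf (nat_lit 0) (nat_lit 34959656209) (nat_lit 152) (nat_lit 619212885) (nat_lit 76) (nat_lit 50402030229) (nat_lit 10) (nat_lit 5) (nat_lit 12) (nat_lit 5) (nat_lit 11) (nat_lit 4) (nat_lit 323) (nat_lit 249) (nat_lit 148)) (XT.nd (nat_lit 78) (nat_lit 0) (nat_lit 0) (XT.lf (nat_lit 0) (nat_lit 22210289111) (nat_lit 76) (nat_lit 24007677821) (nat_lit 152) (nat_lit 43661971889)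 (nat_lit 9) (nat_lit 5) (nat_lit 10) (nat_lit 5) (nat_lit 11) (nat_lit 4) (nat_lit 324) (nat_lit 249) (nat_lit 147)) (XT.lf (nat_lit 0) (nat_lit 46179042861) (nat_lit 76) (nat_lit 11857859191) (nat_lit 152) (nat_lit 35937103404) (nat_lit 9) (nat_lit 5) (nat_lit 10) (nat_lit 5) (nat_lit 11) (nat_lit 4) (nat_lit 325) (nat_lit 249) (nat_lit 146))))) (XT.nd (nat_lit 234) (nat_lit 76) (nat_lit 0) (XT.nd (nat_lit 78) (nat_lit 76) (nat_lit 0) (XT.lf (nat_lit 0) (nat_lit 70447117759) (nat_lit 152) (nat_lit 26949822437) (nat_lit 0) (nat_lit 875831335) (nat_lit 9) (nat_lit 5) (nat_lit 11) (nat_lit 4) (nat_lit 9) (nat_lit 4) (nat_lit 326) (nat_lit 249) (nat_lit 145)) (XT.nd (nat_lit 78) (nat_lit 76) (nat_lit 0) (XT.lf (nat_lit 0) (nat_lit 83589612079) (nat_lit 152) (nat_lit 5196047844) (nat_lit 0) (nat_lit 13997468782) (nat_lit 9) (nat_lit 5) (nat_lit 11) (nat_lit 4) (nat_lit 9) (nat_lit 4) (nat_lit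 327) (nat_lit 249) (nat_lit 144)) (XT.lf (nat_lit 0) (nat_lit 17983055057) (nat_lit 76) (nat_lit 79571500739) (nat_lit 76) (nat_lit 9959493752) (nat_lit 8) (nat_lit 4) (nat_lit 9) (nat_lit 5) (nat_lit 9) (nat_lit 4) (nat_lit 328) (nat_lit 249) (nat_lit 143)))) (XT.nd (nat_lit 78) (nat_lit 76) (nat_lit 0) (XT.lf (nat_lit 0) (nat_lit 42416801137) (nat_lit 76) (nat_lit 69847129921) (nat_lit 76) (nat_lit 216205135) (nat_lit 8) (nat_lit 4) (nat_lit 9) (nat_lit 5) (nat_lit 9) (nat_lit 4) (nat_lit 329) (nat_lit 249) (nat_lit 142)) (XT.nd (nat_lit 31278) (nat_lit 0) (nat_lit 15504) (XT.lf (nat_lit 0) (nat_lit 9811803509) (nat_lit 152) (nat_lit 49730980613) (nat_lit 76) (nat_lit 58149070955) (nat_lit 7) (nat_lit 5) (nat_lit 9) (nat_lit 5) (nat_lit 8) (nat_lit 4) (nat_lit 330) (nat_lit 249) (nat_lit 141)) (XT.lf (nat_lit 0) (nat_lit 2588684221) (nat_lit 836) (nat_lit 615717016) (nat_lit 836) (nat_lit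 615717016) (nat_lit 211) (nat_lit 3) (nat_lit 222) (nat_lit 3) (nat_lit 222) (nat_lit 5) (nat_lit 250) (nat_lit 250) (nat_lit 220))))))) (XT.nd (nat_lit 858) (nat_lit 5092) (nat_lit 0) (XT.nd (nat_lit 390) (nat_lit 2584) (nat_lit 0) (XT.nd (nat_lit 156) (nat_lit 0) (nat_lit 0) (XT.nd (nat_lit 78) (nat_lit 760) (nat_lit 0) (XT.lf (nat_lit 76) (nat_lit 4335371535) (nat_lit 0) (nat_lit 3051170998) (nat_lit 836) (nat_lit 376902129) (nat_lit 212) (nat_lit 5) (nat_lit 211) (nat_lit 3) (nat_lit 222) (nat_lit 5) (nat_lit 251) (nat_lit 250) (nat_lit 219)) (XT.lf (nat_lit 0) (nat_lit 1685491051) (nat_lit 836) (nat_lit 5632377572) (nat_lit 912) (nat_lit 577532188) (nat_lit 201) (nat_lit 5) (nat_lit 212) (nat_lit 5) (nat_lit 213) (nat_lit 5) (nat_lit 252) (nat_lit 250) (nat_lit 218))) (XT.nd (nat_lit 78) (nat_lit 0) (nat_lit 76) (XT.lf (nat_lit 76) (nat_lit 171501282) (nat_lit 0) (nat_lit 3613308918)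 (nat_lit 912) (nat_lit 4251104529) (nat_lit 202) (nat_lit 5) (nat_lit 201) (nat_lit 5) (nat_lit 213) (nat_lit 5) (nat_lit 253) (nat_lit 250) (nat_lit 217)) (XT.nd (nat_lit 78) (nat_lit 0) (nat_lit 0) (XT.lf (nat_lit 0) (nat_lit 5929556979) (nat_lit 836) (nat_lit 1878265688) (nat_lit 912) (nat_lit 377722536) (nat_lit 202) (nat_lit 5) (nat_lit 213) (nat_lit 5) (nat_lit 214) (nat_lit 5) (nat_lit 254) (nat_lit 250) (nat_lit 216)) (XT.lf (nat_lit 76) (nat_lit 4383307657) (nat_lit 0) (nat_lit 3761838067) (nat_lit 912) (nat_lit 198893541) (nat_lit 203) (nat_lit 5) (nat_lit 202) (nat_lit 5) (nat_lit 214) (nat_lit 5) (nat_lit 255) (nat_lit 250) (nat_lit 215))))) (XT.nd (nat_lit 234) (nat_lit 1824) (nat_lit 0) (XT.nd (nat_lit 78) (nat_lit 0) (nat_lit 0) (XT.lf (nat_lit 0) (nat_lit 1859883459) (nat_lit 912) (nat_lit 6075263509) (nat_lit 988) (nat_lit 576901023) (nat_lit 191) (nat_lit 5) (nat_lit 203)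 (nat_lit 5) (nat_lit 204) (nat_lit 5) (nat_lit 256) (nat_lit 250) (nat_lit 214)) (XT.nd (nat_lit 78) (nat_lit 0) (nat_lit 76) (XT.lf (nat_lit 76) (nat_lit 442924584) (nat_lit 0) (nat_lit 3551405908) (nat_lit 988) (nat_lit 4695017801) (nat_lit 192) (nat_lit 5) (nat_lit 191) (nat_lit 5) (nat_lit 204) (nat_lit 5) (nat_lit 257) (nat_lit 250) (nat_lit 213)) (XT.lf (nat_lit 0) (nat_lit 6206827242) (nat_lit 912) (nat_lit 1546876134) (nat_lit 988) (nat_lit 1122913799) (nat_lit 192) (nat_lit 5) (nat_lit 204) (nat_lit 5) (nat_lit 205) (nat_lit 5) (nat_lit 258) (nat_lit 250) (nat_lit 212)))) (XT.nd (nat_lit 78) (nat_lit 1900) (nat_lit 0) (XT.lf (nat_lit 76) (nat_lit 5486008886) (nat_lit 0) (nat_lit 3035435073) (nat_lit 988) (nat_lit 552292484) (nat_lit 193) (nat_lit 5) (nat_lit 192) (nat_lit 5) (nat_lit 205) (nat_lit 5) (nat_lit 259) (nat_lit 250) (nat_lit 211)) (XT.nd (nat_lit 78) (nat_lit 988) (nat_lit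 0) (XT.lf (nat_lit 0) (nat_lit 1614225942) (nat_lit 988) (nat_lit 5697178323) (nat_lit 76) (nat_lit 1969767187) (nat_lit 180) (nat_lit 5) (nat_lit 193) (nat_lit 5) (nat_lit 181) (nat_lit 5) (nat_lit 260) (nat_lit 250) (nat_lit 210)) (XT.lf (nat_lit 0) (nat_lit 1612420610) (nat_lit 988) (nat_lit 2258486872) (nat_lit 1064) (nat_lit 5628313022) (nat_lit 167) (nat_lit 5) (nat_lit 180) (nat_lit 5) (nat_lit 181) (nat_lit 5) (nat_lit 261) (nat_lit 250) (nat_lit 209)))))) (XT.nd (nat_lit 390) (nat_lit 2052) (nat_lit 0) (XT.nd (nat_lit 156) (nat_lit 1976) (nat_lit 0) (XT.nd (nat_lit 78) (nat_lit 1064) (nat_lit 0) (XT.lf (nat_lit 0) (nat_lit 6242412559) (nat_lit 1064) (nat_lit 424419051) (nat_lit 76) (nat_lit 3061475116) (nat_lit 167) (nat_lit 5) (nat_lit 181) (nat_lit 5) (nat_lit 168) (nat_lit 5) (nat_lit 262) (nat_lit 250) (nat_lit 208)) (XT.lf (nat_lit 0) (nat_lit 7462778499) (nat_lit 1064) (nat_lit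 1281838072) (nat_lit 1140) (nat_lit 1224052122) (nat_lit 153) (nat_lit 5) (nat_lit 167) (nat_lit 5) (nat_lit 168) (nat_lit 5) (nat_lit 263) (nat_lit 250) (nat_lit 207))) (XT.nd (nat_lit 78) (nat_lit 1064) (nat_lit 0) (XT.lf (nat_lit 0) (nat_lit 1148967311) (nat_lit 912) (nat_lit 4705563001) (nat_lit 76) (nat_lit 4365741456) (nat_lit 141) (nat_lit 5) (nat_lit 153) (nat_lit 5) (nat_lit 142) (nat_lit 5) (nat_lit 264) (nat_lit 250) (nat_lit 206)) (XT.nd (nat_lit 78) (nat_lit 532) (nat_lit 0) (XT.lf (nat_lit 0) (nat_lit 3475924592) (nat_lit 532) (nat_lit 135161078) (nat_lit 608) (nat_lit 6873295891) (nat_lit 134) (nat_lit 5) (nat_lit 141) (nat_lit 5) (nat_lit 142) (nat_lit 5) (nat_lit 265) (nat_lit 250) (nat_lit 205)) (XT.lf (nat_lit 0) (nat_lit 1301314421) (nat_lit 532) (nat_lit 4939015390) (nat_lit 608) (nat_lit 4520201713) (nat_lit 127) (nat_lit 5) (nat_lit 134) (nat_lit 5) (nat_lit 135) (nat_lit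 5) (nat_lit 266) (nat_lit 250) (nat_lit 204))))) (XT.nd (nat_lit 234) (nat_lit 988) (nat_lit 0) (XT.nd (nat_lit 78) (nat_lit 1064) (nat_lit 0) (XT.lf (nat_lit 0) (nat_lit 9014101414) (nat_lit 608) (nat_lit 959171369) (nat_lit 76) (nat_lit 1076972126) (nat_lit 127) (nat_lit 5) (nat_lit 135) (nat_lit 5) (nat_lit 128) (nat_lit 5) (nat_lit 267) (nat_lit 250) (nat_lit 203)) (XT.nd (nat_lit 78) (nat_lit 532) (nat_lit 0) (XT.lf (nat_lit 0) (nat_lit 620590545) (nat_lit 532) (nat_lit 3355240026) (nat_lit 76) (nat_lit 7376796035) (nat_lit 120) (nat_lit 5) (nat_lit 127) (nat_lit 5) (nat_lit 121) (nat_lit 5) (nat_lit 268) (nat_lit 250) (nat_lit 202)) (XT.lf (nat_lit 0) (nat_lit 3391288327) (nat_lit 608) (nat_lit 5916776405) (nat_lit 76) (nat_lit 2360890962) (nat_lit 113) (nat_lit 5) (nat_lit 121) (nat_lit 5) (nat_lit 114) (nat_lit 5) (nat_lit 269) (nat_lit 250) (nat_lit 201)))) (XT.nd (nat_lit 78) (nat_lit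 532) (nat_lit 0) (XT.lf (nat_lit 0) (nat_lit 3341682896) (nat_lit 456) (nat_lit 3002647717) (nat_lit 532) (nat_lit 5655580357) (nat_lit 107) (nat_lit 5) (nat_lit 113) (nat_lit 5) (nat_lit 114) (nat_lit 5) (nat_lit 270) (nat_lit 250) (nat_lit 200)) (XT.nd (nat_lit 78) (nat_lit 76) (nat_lit 0) (XT.lf (nat_lit 0) (nat_lit 752402987) (nat_lit 456) (nat_lit 8735151516) (nat_lit 532) (nat_lit 2858701745) (nat_lit 101) (nat_lit 5) (nat_lit 107) (nat_lit 5) (nat_lit 108) (nat_lit 5) (nat_lit 271) (nat_lit 250) (nat_lit 199)) (XT.lf (nat_lit 0) (nat_lit 137400742) (nat_lit 532) (nat_lit 1992047526) (nat_lit 76) (nat_lit 10578730166) (nat_lit 100) (nat_lit 5) (nat_lit 107) (nat_lit 5) (nat_lit 101) (nat_lit 5) (nat_lit 272) (nat_lit 250) (nat_lit 198))))))))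
noncomputable def xc70 : XT := (XT.nd (nat_lit 1716) (nat_lit 1672) (nat_lit 0) (XT.nd (nat_lit 858) (nat_lit 1824) (nat_lit 0) (XT.nd (nat_lit 390) (nat_lit 1520) (nat_lit 0) (XT.nd (nat_lit 156) (nat_lit 836) (nat_lit 0) (XT.nd (nat_lit 78) (nat_lit 380) (nat_lit 0) (XT.lf (nat_lit 0) (nat_lit 3293742583) (nat_lit 456) (nat_lit 4977978690) (nat_lit 76) (nat_lit 4813643659) (nat_lit 95) (nat_lit 5) (nat_lit 101) (nat_lit 5) (nat_lit 96) (nat_lit 5) (nat_lit 273) (nat_lit 250) (nat_lit 197)) (XT.lf (nat_lit 0) (nat_lit 5290185795) (nat_lit 380) (nat_lit 1356205008) (nat_lit 456) (nat_lit 6833964337) (nat_lit 90) (nat_lit 5) (nat_lit 95) (nat_lit 5) (nat_lit 96) (nat_lit 5) (nat_lit 274) (nat_lit 250) (nat_lit 196))) (XT.nd (nat_lit 78) (nat_lit 456) (nat_lit 0) (XT.lf (nat_lit 0) (nat_lit 2204249989) (nat_lit 380) (nat_lit 8039467973) (nat_lit 456) (nat_lit 3649159849) (nat_lit 85) (nat_lit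 5) (nat_lit 90) (nat_lit 5) (nat_lit 91) (nat_lit 5) (nat_lit 275) (nat_lit 250) (nat_lit 195)) (XT.nd (nat_lit 78) (nat_lit 456) (nat_lit 0) (XT.lf (nat_lit 0) (nat_lit 13213688011) (nat_lit 380) (nat_lit 854344210) (nat_lit 456) (nat_lit 256670624) (nat_lit 85) (nat_lit 5) (nat_lit 90) (nat_lit 5) (nat_lit 91) (nat_lit 5) (nat_lit 276) (nat_lit 250) (nat_lit 194)) (XT.lf (nat_lit 0) (nat_lit 3354624807) (nat_lit 456) (nat_lit 4740473363) (nat_lit 76) (nat_lit 6678740342) (nat_lit 79) (nat_lit 5) (nat_lit 85) (nat_lit 5) (nat_lit 80) (nat_lit 5) (nat_lit 277) (nat_lit 250) (nat_lit 193))))) (XT.nd (nat_lit 234) (nat_lit 912) (nat_lit 0) (XT.nd (nat_lit 78) (nat_lit 304) (nat_lit 0) (XT.lf (nat_lit 0) (nat_lit 6570310377) (nat_lit 304) (nat_lit 607017208) (nat_lit 380) (nat_lit 8067021738) (nat_lit 75) (nat_lit 5) (nat_lit 79) (nat_lit 5) (nat_lit 80) (nat_lit 5) (nat_lit 278) (nat_lit 250)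 (nat_lit 192)) (XT.nd (nat_lit 78) (nat_lit 0) (nat_lit 0) (XT.lf (nat_lit 0) (nat_lit 2732591011) (nat_lit 304) (nat_lit 8558210985) (nat_lit 380) (nat_lit 4444669941) (nat_lit 71) (nat_lit 5) (nat_lit 75) (nat_lit 5) (nat_lit 76) (nat_lit 5) (nat_lit 279) (nat_lit 250) (nat_lit 191)) (XT.lf (nat_lit 0) (nat_lit 14826986779) (nat_lit 304) (nat_lit 834285306) (nat_lit 380) (nat_lit 588410710) (nat_lit 71) (nat_lit 5) (nat_lit 75) (nat_lit 5) (nat_lit 76) (nat_lit 5) (nat_lit 280) (nat_lit 250) (nat_lit 190)))) (XT.nd (nat_lit 78) (nat_lit 532) (nat_lit 0) (XT.lf (nat_lit 0) (nat_lit 3526271592) (nat_lit 380) (nat_lit 5998597915) (nat_lit 76) (nat_lit 7259808867) (nat_lit 66) (nat_lit 5) (nat_lit 71) (nat_lit 5) (nat_lit 67) (nat_lit 5) (nat_lit 281) (nat_lit 250) (nat_lit 189)) (XT.nd (nat_lit 78) (nat_lit 228) (nat_lit 0) (XT.lf (nat_lit 0) (nat_lit 6342998290) (nat_lit 304) (nat_lit 1534768221)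 (nat_lit 380) (nat_lit 9467248215) (nat_lit 62) (nat_lit 5) (nat_lit 66) (nat_lit 5) (nat_lit 67) (nat_lit 5) (nat_lit 282) (nat_lit 250) (nat_lit 188)) (XT.lf (nat_lit 0) (nat_lit 1401515645) (nat_lit 228) (nat_lit 11147300663) (nat_lit 304) (nat_lit 5381552377) (nat_lit 59) (nat_lit 5) (nat_lit 62) (nat_lit 5) (nat_lit 63) (nat_lit 5) (nat_lit 283) (nat_lit 250) (nat_lit 187)))))) (XT.nd (nat_lit 390) (nat_lit 988) (nat_lit 0) (XT.nd (nat_lit 156) (nat_lit 456) (nat_lit 0) (XT.nd (nat_lit 78) (nat_lit 380) (nat_lit 0) (XT.lf (nat_lit 0) (nat_lit 14586066371) (nat_lit 228) (nat_lit 2957581185) (nat_lit 304) (nat_lit 998693241) (nat_lit 59) (nat_lit 5) (nat_lit 62) (nat_lit 5) (nat_lit 63) (nat_lit 5) (nat_lit 284) (nat_lit 250) (nat_lit 186)) (XT.lf (nat_lit 0) (nat_lit 3641155569) (nat_lit 380) (nat_lit 9896610009) (nat_lit 76) (nat_lit 5642915020) (nat_lit 54) (nat_lit 5) (nat_lit 59)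 (nat_lit 5) (nat_lit 55) (nat_lit 5) (nat_lit 285) (nat_lit 250) (nat_lit 185))) (XT.nd (nat_lit 78) (nat_lit 228) (nat_lit 0) (XT.lf (nat_lit 0) (nat_lit 3394264884) (nat_lit 228) (nat_lit 5166064559) (nat_lit 304) (nat_lit 11288322173) (nat_lit 51) (nat_lit 5) (nat_lit 54) (nat_lit 5) (nat_lit 55) (nat_lit 5) (nat_lit 286) (nat_lit 250) (nat_lit 184)) (XT.nd (nat_lit 78) (nat_lit 228) (nat_lit 0) (XT.lf (nat_lit 0) (nat_lit 13828456999) (nat_lit 304) (nat_lit 3076823547) (nat_lit 76) (nat_lit 3641698866) (nat_lit 51) (nat_lit 5) (nat_lit 55) (nat_lit 5) (nat_lit 52) (nat_lit 5) (nat_lit 287) (nat_lit 250) (nat_lit 183)) (XT.lf (nat_lit 0) (nat_lit 11085697033) (nat_lit 228) (nat_lit 8399923699) (nat_lit 304) (nat_lit 1790879760) (nat_lit 48) (nat_lit 5) (nat_lit 51) (nat_lit 5) (nat_lit 52) (nat_lit 5) (nat_lit 288) (nat_lit 250) (nat_lit 182))))) (XT.nd (nat_lit 234) (nat_lit 456) (nat_lit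 0) (XT.nd (nat_lit 78) (nat_lit 228) (nat_lit 0) (XT.lf (nat_lit 0) (nat_lit 3361003682) (nat_lit 304) (nat_lit 18069954438) (nat_lit 76) (nat_lit 609289939) (nat_lit 44) (nat_lit 5) (nat_lit 48) (nat_lit 5) (nat_lit 45) (nat_lit 5) (nat_lit 289) (nat_lit 250) (nat_lit 181)) (XT.nd (nat_lit 78) (nat_lit 228) (nat_lit 0) (XT.lf (nat_lit 0) (nat_lit 8893158915) (nat_lit 304) (nat_lit 3937411411) (nat_lit 76) (nat_lit 10006329581) (nat_lit 44) (nat_lit 5) (nat_lit 48) (nat_lit 5) (nat_lit 45) (nat_lit 5) (nat_lit 290) (nat_lit 250) (nat_lit 180)) (XT.lf (nat_lit 0) (nat_lit 11073186977) (nat_lit 228) (nat_lit 3705315271) (nat_lit 304) (nat_lit 8892623093) (nat_lit 41) (nat_lit 5) (nat_lit 44) (nat_lit 5) (nat_lit 45) (nat_lit 5) (nat_lit 291) (nat_lit 250) (nat_lit 179)))) (XT.nd (nat_lit 78) (nat_lit 304) (nat_lit 0) (XT.lf (nat_lit 0) (nat_lit 2314902188) (nat_lit 152) (nat_lit 18733885640)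 (nat_lit 228) (nat_lit 3495590538) (nat_lit 39) (nat_lit 5) (nat_lit 41) (nat_lit 5) (nat_lit 42) (nat_lit 5) (nat_lit 292) (nat_lit 250) (nat_lit 178)) (XT.nd (nat_lit 78) (nat_lit 228) (nat_lit 0) (XT.lf (nat_lit 0) (nat_lit 2268951935) (nat_lit 228) (nat_lit 7323778558) (nat_lit 76) (nat_lit 15863770371) (nat_lit 38) (nat_lit 5) (nat_lit 41) (nat_lit 5) (nat_lit 39) (nat_lit 5) (nat_lit 293) (nat_lit 250) (nat_lit 177)) (XT.lf (nat_lit 0) (nat_lit 8305061554) (nat_lit 304) (nat_lit 17997922418) (nat_lit 76) (nat_lit 108570401) (nat_lit 35) (nat_lit 5) (nat_lit 39) (nat_lit 5) (nat_lit 36) (nat_lit 5) (nat_lit 294) (nat_lit 250) (nat_lit 176))))))) (XT.nd (nat_lit 858) (nat_lit 608) (nat_lit 0) (XT.nd (nat_lit 390) (nat_lit 532) (nat_lit 0) (XT.nd (nat_lit 156) (nat_lit 380) (nat_lit 0) (XT.nd (nat_lit 78) (nat_lit 152) (nat_lit 0) (XT.lf (nat_lit 0) (nat_lit 14789709936) (nat_lit 304)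 (nat_lit 2459595140) (nat_lit 76) (nat_lit 10160684156) (nat_lit 35) (nat_lit 5) (nat_lit 39) (nat_lit 5) (nat_lit 36) (nat_lit 5) (nat_lit 295) (nat_lit 250) (nat_lit 175)) (XT.lf (nat_lit 0) (nat_lit 14091688520) (nat_lit 152) (nat_lit 7617382276) (nat_lit 228) (nat_lit 6745989850) (nat_lit 33) (nat_lit 5) (nat_lit 35) (nat_lit 5) (nat_lit 36) (nat_lit 5) (nat_lit 296) (nat_lit 250) (nat_lit 174))) (XT.nd (nat_lit 78) (nat_lit 228) (nat_lit 0) (XT.lf (nat_lit 0) (nat_lit 1945584553) (nat_lit 152) (nat_lit 27072798290) (nat_lit 228) (nat_lit 532711114) (nat_lit 31) (nat_lit 5) (nat_lit 33) (nat_lit 5) (nat_lit 34) (nat_lit 5) (nat_lit 297) (nat_lit 250) (nat_lit 173)) (XT.nd (nat_lit 78) (nat_lit 152) (nat_lit 0) (XT.lf (nat_lit 0) (nat_lit 6076782756) (nat_lit 228) (nat_lit 11501131934) (nat_lit 76) (nat_lit 13116238375) (nat_lit 30) (nat_lit 5) (nat_lit 33) (nat_lit 5) (nat_lit 31) (nat_lit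 5) (nat_lit 298) (nat_lit 250) (nat_lit 172)) (XT.lf (nat_lit 0) (nat_lit 5473863721) (nat_lit 152) (nat_lit 7561976987) (nat_lit 228) (nat_lit 18857487490) (nat_lit 28) (nat_lit 5) (nat_lit 30) (nat_lit 5) (nat_lit 31) (nat_lit 5) (nat_lit 299) (nat_lit 250) (nat_lit 171))))) (XT.nd (nat_lit 234) (nat_lit 304) (nat_lit 0) (XT.nd (nat_lit 78) (nat_lit 228) (nat_lit 0) (XT.lf (nat_lit 0) (nat_lit 20468820968) (nat_lit 228) (nat_lit 9676095396) (nat_lit 76) (nat_lit 3003789973) (nat_lit 28) (nat_lit 5) (nat_lit 31) (nat_lit 5) (nat_lit 29) (nat_lit 5) (nat_lit 300) (nat_lit 250) (nat_lit 170)) (XT.nd (nat_lit 78) (nat_lit 76) (nat_lit 0) (XT.lf (nat_lit 0) (nat_lit 7949372482) (nat_lit 152) (nat_lit 20455864714) (nat_lit 228) (nat_lit 6057684802) (nat_lit 26) (nat_lit 5) (nat_lit 28) (nat_lit 5) (nat_lit 29) (nat_lit 5) (nat_lit 301) (nat_lit 250) (nat_lit 169)) (XT.lf (nat_lit 0) (nat_lit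 958249901) (nat_lit 228) (nat_lit 9224463363) (nat_lit 76) (nat_lit 25657494415) (nat_lit 25) (nat_lit 5) (nat_lit 28) (nat_lit 5) (nat_lit 26) (nat_lit 5) (nat_lit 302) (nat_lit 250) (nat_lit 168)))) (XT.nd (nat_lit 78) (nat_lit 152) (nat_lit 0) (XT.lf (nat_lit 0) (nat_lit 8275129414) (nat_lit 228) (nat_lit 28277625501) (nat_lit 76) (nat_lit 729560078) (nat_lit 23) (nat_lit 5) (nat_lit 26) (nat_lit 5) (nat_lit 24) (nat_lit 5) (nat_lit 303) (nat_lit 250) (nat_lit 167)) (XT.nd (nat_lit 78) (nat_lit 152) (nat_lit 0) (XT.lf (nat_lit 0) (nat_lit 16137529329) (nat_lit 228) (nat_lit 10590628654) (nat_lit 76) (nat_lit 12062998034) (nat_lit 23) (nat_lit 5) (nat_lit 26) (nat_lit 5) (nat_lit 24) (nat_lit 5) (nat_lit 304) (nat_lit 250) (nat_lit 166)) (XT.lf (nat_lit 0) (nat_lit 8109150008) (nat_lit 152) (nat_lit 16343755957) (nat_lit 228) (nat_lit 15920755173) (nat_lit 21) (nat_lit 5) (nat_lit 23)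 (nat_lit 5) (nat_lit 24) (nat_lit 5) (nat_lit 305) (nat_lit 250) (nat_lit 165)))))) (XT.nd (nat_lit 390) (nat_lit 304) (nat_lit 0) (XT.nd (nat_lit 156) (nat_lit 228) (nat_lit 0) (XT.nd (nat_lit 78) (nat_lit 76) (nat_lit 0) (XT.lf (nat_lit 0) (nat_lit 27936278247) (nat_lit 152) (nat_lit 5339284263) (nat_lit 228) (nat_lit 8757000580) (nat_lit 21) (nat_lit 5) (nat_lit 23) (nat_lit 5) (nat_lit 24) (nat_lit 5) (nat_lit 306) (nat_lit 250) (nat_lit 164)) (XT.lf (nat_lit 0) (nat_lit 4989993880) (nat_lit 76) (nat_lit 37640290169) (nat_lit 152) (nat_lit 1141414224) (nat_lit 20) (nat_lit 5) (nat_lit 21) (nat_lit 5) (nat_lit 22) (nat_lit 4) (nat_lit 307) (nat_lit 250) (nat_lit 163))) (XT.nd (nat_lit 78) (nat_lit 152) (nat_lit 0) (XT.lf (nat_lit 0) (nat_lit 6905203780) (nat_lit 152) (nat_lit 20417025680) (nat_lit 76) (nat_lit 18268078307) (nat_lit 19) (nat_lit 5) (nat_lit 21) (nat_lit 5) (nat_lit 20)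 (nat_lit 5) (nat_lit 308) (nat_lit 250) (nat_lit 162)) (XT.nd (nat_lit 78) (nat_lit 152) (nat_lit 0) (XT.lf (nat_lit 0) (nat_lit 15315128688) (nat_lit 152) (nat_lit 1171847663) (nat_lit 76) (nat_lit 31013009062) (nat_lit 19) (nat_lit 5) (nat_lit 21) (nat_lit 5) (nat_lit 20) (nat_lit 5) (nat_lit 309) (nat_lit 250) (nat_lit 161)) (XT.lf (nat_lit 0) (nat_lit 19388972163) (nat_lit 152) (nat_lit 4928063731) (nat_lit 228) (nat_lit 25182979970) (nat_lit 17) (nat_lit 5) (nat_lit 19) (nat_lit 5) (nat_lit 20) (nat_lit 5) (nat_lit 310) (nat_lit 250) (nat_lit 160))))) (XT.nd (nat_lit 234) (nat_lit 228) (nat_lit 0) (XT.nd (nat_lit 78) (nat_lit 76) (nat_lit 0) (XT.lf (nat_lit 0) (nat_lit 33836005309) (nat_lit 228) (nat_lit 10691380535) (nat_lit 76) (nat_lit 7070665846) (nat_lit 17) (nat_lit 5) (nat_lit 20) (nat_lit 5) (nat_lit 18) (nat_lit 4) (nat_lit 311) (nat_lit 250) (nat_lit 159)) (XT.nd (nat_lit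 78) (nat_lit 0) (nat_lit 0) (XT.lf (nat_lit 0) (nat_lit 9817674347) (nat_lit 76) (nat_lit 34143542412) (nat_lit 152) (nat_lit 9835875988) (nat_lit 16) (nat_lit 5) (nat_lit 17) (nat_lit 5) (nat_lit 18) (nat_lit 4) (nat_lit 312) (nat_lit 250) (nat_lit 158)) (XT.lf (nat_lit 0) (nat_lit 31552842494) (nat_lit 76) (nat_lit 23136523886) (nat_lit 152) (nat_lit 1413830813) (nat_lit 16) (nat_lit 5) (nat_lit 17) (nat_lit 5) (nat_lit 18) (nat_lit 4) (nat_lit 313) (nat_lit 250) (nat_lit 157)))) (XT.nd (nat_lit 78) (nat_lit 152) (nat_lit 0) (XT.lf (nat_lit 0) (nat_lit 7271463274) (nat_lit 152) (nat_lit 4243194262) (nat_lit 76) (nat_lit 47008204075) (nat_lit 15) (nat_lit 5) (nat_lit 17) (nat_lit 5) (nat_lit 16) (nat_lit 5) (nat_lit 314) (nat_lit 250) (nat_lit 156)) (XT.nd (nat_lit 78) (nat_lit 0) (nat_lit 0) (XT.lf (nat_lit 0) (nat_lit 16525215187) (nat_lit 228) (nat_lit 43683405893) (nat_lit 76) (nat_lit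 849575491) (nat_lit 13) (nat_lit 5) (nat_lit 16) (nat_lit 5) (nat_lit 14) (nat_lit 4) (nat_lit 315) (nat_lit 250) (nat_lit 155)) (XT.lf (nat_lit 0) (nat_lit 26390028197) (nat_lit 228) (nat_lit 23693878129) (nat_lit 76) (nat_lit 13631950532) (nat_lit 13) (nat_lit 5) (nat_lit 16) (nat_lit 5) (nat_lit 14) (nat_lit 4) (nat_lit 316) (nat_lit 250) (nat_lit 154))))))))
noncomputable def xc71 : XT := (XT.nd (nat_lit 32994) (nat_lit 0) (nat_lit 4788) (XT.nd (nat_lit 858) (nat_lit 76) (nat_lit 0) (XT.nd (nat_lit 390) (nat_lit 76) (nat_lit 0) (XT.nd (nat_lit 156) (nat_lit 152) (nat_lit 0) (XT.nd (nat_lit 78) (nat_lit 76) (nat_lit 0) (XT.lf (nat_lit 0) (nat_lit 36736692196) (nat_lit 228) (nat_lit 2724476540) (nat_lit 76) (nat_lit 27045582427) (nat_lit 13) (nat_lit 5) (nat_lit 16) (nat_lit 5) (nat_lit 14) (nat_lit 4) (nat_lit 317) (nat_lit 250) (nat_lit 153)) (XT.lf (nat_lit 0) (nat_lit 19658330859)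 (nat_lit 76) (nat_lit 28120479140) (nat_lit 152) (nat_lit 21653045440) (nat_lit 12) (nat_lit 5) (nat_lit 13) (nat_lit 5) (nat_lit 14) (nat_lit 4) (nat_lit 318) (nat_lit 250) (nat_lit 152))) (XT.nd (nat_lit 78) (nat_lit 152) (nat_lit 0) (XT.lf (nat_lit 0) (nat_lit 43199078215) (nat_lit 76) (nat_lit 16191496488) (nat_lit 152) (nat_lit 13112122446) (nat_lit 12) (nat_lit 5) (nat_lit 13) (nat_lit 5) (nat_lit 14) (nat_lit 4) (nat_lit 319) (nat_lit 250) (nat_lit 151)) (XT.nd (nat_lit 78) (nat_lit 152) (nat_lit 0) (XT.lf (nat_lit 0) (nat_lit 67899592498) (nat_lit 76) (nat_lit 3673330311) (nat_lit 152) (nat_lit 4154466328) (nat_lit 12) (nat_lit 5) (nat_lit 13) (nat_lit 5) (nat_lit 14) (nat_lit 4) (nat_lit 320) (nat_lit 250) (nat_lit 150)) (XT.lf (nat_lit 0) (nat_lit 5375541865) (nat_lit 152) (nat_lit 64254330753) (nat_lit 76) (nat_lit 9475128153) (nat_lit 10) (nat_lit 5) (nat_lit 12) (nat_lit 5)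 (nat_lit 11) (nat_lit 4) (nat_lit 321) (nat_lit 250) (nat_lit 149))))) (XT.nd (nat_lit 234) (nat_lit 76) (nat_lit 0) (XT.nd (nat_lit 78) (nat_lit 0) (nat_lit 0) (XT.lf (nat_lit 0) (nat_lit 15405989437) (nat_lit 152) (nat_lit 43918634392) (nat_lit 76) (nat_lit 23322346454) (nat_lit 10) (nat_lit 5) (nat_lit 12) (nat_lit 5) (nat_lit 11) (nat_lit 4) (nat_lit 322) (nat_lit 250) (nat_lit 148)) (XT.nd (nat_lit 78) (nat_lit 0) (nat_lit 0) (XT.lf (nat_lit 0) (nat_lit 25929013773) (nat_lit 152) (nat_lit 22581763763) (nat_lit 76) (nat_lit 37855535854) (nat_lit 10) (nat_lit 5) (nat_lit 12) (nat_lit 5) (nat_lit 11) (nat_lit 4) (nat_lit 323) (nat_lit 250) (nat_lit 147)) (XT.lf (nat_lit 0) (nat_lit 36969669692) (nat_lit 152) (nat_lit 192916791) (nat_lit 76) (nat_lit 53109299184) (nat_lit 10) (nat_lit 5) (nat_lit 12) (nat_lit 5) (nat_lit 11) (nat_lit 4) (nat_lit 324) (nat_lit 250) (nat_lit 146)))) (XT.nd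 (nat_lit 78) (nat_lit 0) (nat_lit 0) (XT.lf (nat_lit 0) (nat_lit 23764953133) (nat_lit 76) (nat_lit 25017734605) (nat_lit 152) (nat_lit 45583445063) (nat_lit 9) (nat_lit 5) (nat_lit 10) (nat_lit 5) (nat_lit 11) (nat_lit 4) (nat_lit 325) (nat_lit 250) (nat_lit 145)) (XT.nd (nat_lit 78) (nat_lit 0) (nat_lit 0) (XT.lf (nat_lit 0) (nat_lit 48910994591) (nat_lit 76) (nat_lit 12269488240) (nat_lit 152) (nat_lit 37484791507) (nat_lit 9) (nat_lit 5) (nat_lit 10) (nat_lit 5) (nat_lit 11) (nat_lit 4) (nat_lit 326) (nat_lit 250) (nat_lit 144)) (XT.lf (nat_lit 0) (nat_lit 74201357547) (nat_lit 152) (nat_lit 27889038741) (nat_lit 0) (nat_lit 1088886520) (nat_lit 9) (nat_lit 5) (nat_lit 11) (nat_lit 4) (nat_lit 9) (nat_lit 4) (nat_lit 327) (nat_lit 250) (nat_lit 143)))))) (XT.nd (nat_lit 31668) (nat_lit 0) (nat_lit 13756) (XT.nd (nat_lit 156) (nat_lit 0) (nat_lit 0) (XT.nd (nat_lit 78) (nat_lit 76) (nat_lit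 0) (XT.lf (nat_lit 0) (nat_lit 87989934492) (nat_lit 152) (nat_lit 5067017076) (nat_lit 0) (nat_lit 14858545667) (nat_lit 9) (nat_lit 5) (nat_lit 11) (nat_lit 4) (nat_lit 9) (nat_lit 4) (nat_lit 328) (nat_lit 250) (nat_lit 142)) (XT.lf (nat_lit 0) (nat_lit 19259895145) (nat_lit 76) (nat_lit 83386344535) (nat_lit 76) (nat_lit 10236938758) (nat_lit 8) (nat_lit 4) (nat_lit 9) (nat_lit 5) (nat_lit 9) (nat_lit 4) (nat_lit 329) (nat_lit 250) (nat_lit 141))) (XT.nd (nat_lit 31356) (nat_lit 0) (nat_lit 14592) (XT.lf (nat_lit 0) (nat_lit 44897343418) (nat_lit 76) (nat_lit 73183551902) (nat_lit 76) (nat_lit 16987123) (nat_lit 8) (nat_lit 4) (nat_lit 9) (nat_lit 5) (nat_lit 9) (nat_lit 4) (nat_lit 330) (nat_lit 250) (nat_lit 140)) (XT.nd (nat_lit 78) (nat_lit 0) (nat_lit 0) (XT.lf (nat_lit 0) (nat_lit 385556866) (nat_lit 0) (nat_lit 385556866) (nat_lit 836) (nat_lit 3174050481) (nat_lit 200) (nat_lit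 5) (nat_lit 200) (nat_lit 3) (nat_lit 211) (nat_lit 3) (nat_lit 251) (nat_lit 251) (nat_lit 218)) (XT.lf (nat_lit 0) (nat_lit 3500704889) (nat_lit 836) (nat_lit 1496071098) (nat_lit 912) (nat_lit 3028452803) (nat_lit 200) (nat_lit 5) (nat_lit 211) (nat_lit 3) (nat_lit 212) (nat_lit 5) (nat_lit 252) (nat_lit 251) (nat_lit 217))))) (XT.nd (nat_lit 234) (nat_lit 0) (nat_lit 76) (XT.nd (nat_lit 78) (nat_lit 836) (nat_lit 0) (XT.lf (nat_lit 76) (nat_lit 4421714807) (nat_lit 0) (nat_lit 1065261803) (nat_lit 912) (nat_lit 2682306161) (nat_lit 201) (nat_lit 5) (nat_lit 200) (nat_lit 5) (nat_lit 212) (nat_lit 5) (nat_lit 253) (nat_lit 251) (nat_lit 216)) (XT.nd (nat_lit 78) (nat_lit 912) (nat_lit 0) (XT.lf (nat_lit 76) (nat_lit 2294351017) (nat_lit 0) (nat_lit 5230472021) (nat_lit 912) (nat_lit 797438779) (nat_lit 202) (nat_lit 5) (nat_lit 201) (nat_lit 5) (nat_lit 213) (nat_lit 5) (nat_lit 254)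 (nat_lit 251) (nat_lit 215)) (XT.lf (nat_lit 76) (nat_lit 147376169) (nat_lit 0) (nat_lit 951054195) (nat_lit 988) (nat_lit 7386192505) (nat_lit 190) (nat_lit 5) (nat_lit 189) (nat_lit 5) (nat_lit 202) (nat_lit 5) (nat_lit 255) (nat_lit 251) (nat_lit 214)))) (XT.nd (nat_lit 78) (nat_lit 0) (nat_lit 0) (XT.lf (nat_lit 0) (nat_lit 3063216807) (nat_lit 912) (nat_lit 2008412651) (nat_lit 988) (nat_lit 3583772724) (nat_lit 190) (nat_lit 5) (nat_lit 202) (nat_lit 5) (nat_lit 203) (nat_lit 5) (nat_lit 256) (nat_lit 251) (nat_lit 213)) (XT.nd (nat_lit 78) (nat_lit 0) (nat_lit 76) (XT.lf (nat_lit 76) (nat_lit 4651506647) (nat_lit 0) (nat_lit 427853323) (nat_lit 988) (nat_lit 3757010355) (nat_lit 191) (nat_lit 5) (nat_lit 190) (nat_lit 5) (nat_lit 203) (nat_lit 5) (nat_lit 257) (nat_lit 251) (nat_lit 212)) (XT.lf (nat_lit 76) (nat_lit 2600333472) (nat_lit 0) (nat_lit 4587924281) (nat_lit 988) (nat_lit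 1838602493) (nat_lit 192) (nat_lit 5) (nat_lit 191) (nat_lit 5) (nat_lit 204) (nat_lit 5) (nat_lit 258) (nat_lit 251) (nat_lit 211))))))) (XT.nd (nat_lit 858) (nat_lit 3724) (nat_lit 0) (XT.nd (nat_lit 390) (nat_lit 2508) (nat_lit 0) (XT.nd (nat_lit 156) (nat_lit 1976) (nat_lit 0) (XT.nd (nat_lit 78) (nat_lit 0) (nat_lit 0) (XT.lf (nat_lit 0) (nat_lit 135046830) (nat_lit 988) (nat_lit 8709812534) (nat_lit 1064) (nat_lit 383296450) (nat_lit 179) (nat_lit 5) (nat_lit 192) (nat_lit 5) (nat_lit 193) (nat_lit 5) (nat_lit 259) (nat_lit 251) (nat_lit 210)) (XT.lf (nat_lit 0) (nat_lit 2193033317) (nat_lit 988) (nat_lit 1627678735) (nat_lit 1064) (nat_lit 5617751716) (nat_lit 179) (nat_lit 5) (nat_lit 192) (nat_lit 5) (nat_lit 193) (nat_lit 5) (nat_lit 260) (nat_lit 251) (nat_lit 209))) (XT.nd (nat_lit 78) (nat_lit 2052) (nat_lit 0) (XT.lf (nat_lit 0) (nat_lit 4339429846) (nat_lit 988) (nat_lit 3818313006)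 (nat_lit 76) (nat_lit 1502173347) (nat_lit 180) (nat_lit 5) (nat_lit 193) (nat_lit 5) (nat_lit 181) (nat_lit 5) (nat_lit 261) (nat_lit 251) (nat_lit 208)) (XT.nd (nat_lit 78) (nat_lit 1064) (nat_lit 0) (XT.lf (nat_lit 0) (nat_lit 3794743153) (nat_lit 988) (nat_lit 2808476932) (nat_lit 1064) (nat_lit 3289104098) (nat_lit 167) (nat_lit 5) (nat_lit 180) (nat_lit 5) (nat_lit 181) (nat_lit 5) (nat_lit 262) (nat_lit 251) (nat_lit 207)) (XT.lf (nat_lit 0) (nat_lit 1670539381) (nat_lit 1064) (nat_lit 7313924324) (nat_lit 1140) (nat_lit 1151937270) (nat_lit 153) (nat_lit 5) (nat_lit 167) (nat_lit 5) (nat_lit 168) (nat_lit 5) (nat_lit 263) (nat_lit 251) (nat_lit 206))))) (XT.nd (nat_lit 234) (nat_lit 1064) (nat_lit 0) (XT.nd (nat_lit 78) (nat_lit 1368) (nat_lit 0) (XT.lf (nat_lit 0) (nat_lit 1086224134) (nat_lit 1140) (nat_lit 543261910) (nat_lit 76) (nat_lit 8762580266) (nat_lit 152) (nat_lit 5)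 (nat_lit 167) (nat_lit 5) (nat_lit 153) (nat_lit 5) (nat_lit 264) (nat_lit 251) (nat_lit 205)) (XT.nd (nat_lit 78) (nat_lit 532) (nat_lit 0) (XT.lf (nat_lit 0) (nat_lit 3458173489) (nat_lit 912) (nat_lit 2850084147) (nat_lit 76) (nat_lit 4350699281) (nat_lit 141) (nat_lit 5) (nat_lit 153) (nat_lit 5) (nat_lit 142) (nat_lit 5) (nat_lit 265) (nat_lit 251) (nat_lit 204)) (XT.lf (nat_lit 0) (nat_lit 5680546695) (nat_lit 532) (nat_lit 275146048) (nat_lit 608) (nat_lit 4983438021) (nat_lit 134) (nat_lit 5) (nat_lit 141) (nat_lit 5) (nat_lit 142) (nat_lit 5) (nat_lit 266) (nat_lit 251) (nat_lit 203)))) (XT.nd (nat_lit 78) (nat_lit 532) (nat_lit 0) (XT.lf (nat_lit 0) (nat_lit 3407715283) (nat_lit 532) (nat_lit 5224036563) (nat_lit 608) (nat_lit 2600092382) (nat_lit 127) (nat_lit 5) (nat_lit 134) (nat_lit 5) (nat_lit 135) (nat_lit 5) (nat_lit 267) (nat_lit 251) (nat_lit 202)) (XT.nd (nat_lit 78)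 (nat_lit 76) (nat_lit 0) (XT.lf (nat_lit 0) (nat_lit 1020803878) (nat_lit 456) (nat_lit 10433852901) (nat_lit 532) (nat_lit 84279433) (nat_lit 121) (nat_lit 5) (nat_lit 127) (nat_lit 5) (nat_lit 128) (nat_lit 5) (nat_lit 268) (nat_lit 251) (nat_lit 201)) (XT.lf (nat_lit 0) (nat_lit 2578827975) (nat_lit 532) (nat_lit 1530377333) (nat_lit 76) (nat_lit 7749421844) (nat_lit 120) (nat_lit 5) (nat_lit 127) (nat_lit 5) (nat_lit 121) (nat_lit 5) (nat_lit 269) (nat_lit 251) (nat_lit 200)))))) (XT.nd (nat_lit 390) (nat_lit 1824) (nat_lit 0) (XT.nd (nat_lit 156) (nat_lit 912) (nat_lit 0) (XT.nd (nat_lit 78) (nat_lit 456) (nat_lit 0) (XT.lf (nat_lit 0) (nat_lit 5415677206) (nat_lit 608) (nat_lit 4218637666) (nat_lit 76) (nat_lit 2558810969) (nat_lit 113) (nat_lit 5) (nat_lit 121) (nat_lit 5) (nat_lit 114) (nat_lit 5) (nat_lit 270) (nat_lit 251) (nat_lit 199)) (XT.lf (nat_lit 0) (nat_lit 5445587634)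 (nat_lit 456) (nat_lit 3001076904) (nat_lit 532) (nat_lit 4096228552) (nat_lit 107) (nat_lit 5) (nat_lit 113) (nat_lit 5) (nat_lit 114) (nat_lit 5) (nat_lit 271) (nat_lit 251) (nat_lit 198))) (XT.nd (nat_lit 78) (nat_lit 456) (nat_lit 0) (XT.lf (nat_lit 0) (nat_lit 2725287843) (nat_lit 456) (nat_lit 8956747959) (nat_lit 532) (nat_lit 1226635001) (nat_lit 101) (nat_lit 5) (nat_lit 107) (nat_lit 5) (nat_lit 108) (nat_lit 5) (nat_lit 272) (nat_lit 251) (nat_lit 197)) (XT.nd (nat_lit 78) (nat_lit 380) (nat_lit 0) (XT.lf (nat_lit 0) (nat_lit 1801761401) (nat_lit 532) (nat_lit 212506511) (nat_lit 76) (nat_lit 11276547892) (nat_lit 100) (nat_lit 5) (nat_lit 107) (nat_lit 5) (nat_lit 101) (nat_lit 5) (nat_lit 273) (nat_lit 251) (nat_lit 196)) (XT.lf (nat_lit 0) (nat_lit 5056740820) (nat_lit 456) (nat_lit 3353017431) (nat_lit 76) (nat_lit 5279023848) (nat_lit 95) (nat_lit 5) (nat_lit 101) (nat_lit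 5) (nat_lit 96) (nat_lit 5) (nat_lit 274) (nat_lit 251) (nat_lit 195))))) (XT.nd (nat_lit 234) (nat_lit 608) (nat_lit 0) (XT.nd (nat_lit 78) (nat_lit 836) (nat_lit 0) (XT.lf (nat_lit 0) (nat_lit 7374841451) (nat_lit 380) (nat_lit 1143566308) (nat_lit 456) (nat_lit 5587010648) (nat_lit 90) (nat_lit 5) (nat_lit 95) (nat_lit 5) (nat_lit 96) (nat_lit 5) (nat_lit 275) (nat_lit 251) (nat_lit 194)) (XT.nd (nat_lit 78) (nat_lit 456) (nat_lit 0) (XT.lf (nat_lit 0) (nat_lit 4127367373) (nat_lit 380) (nat_lit 8114909202) (nat_lit 456) (nat_lit 2298021976) (nat_lit 85) (nat_lit 5) (nat_lit 90) (nat_lit 5) (nat_lit 91) (nat_lit 5) (nat_lit 276) (nat_lit 251) (nat_lit 193)) (XT.lf (nat_lit 0) (nat_lit 605348227) (nat_lit 380) (nat_lit 568292149) (nat_lit 456) (nat_lit 13821805137) (nat_lit 79) (nat_lit 5) (nat_lit 84) (nat_lit 5) (nat_lit 85) (nat_lit 5) (nat_lit 277) (nat_lit 251) (nat_lit 192)))) (XT.nd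 (nat_lit 78) (nat_lit 608) (nat_lit 0) (XT.lf (nat_lit 0) (nat_lit 4905780830) (nat_lit 456) (nat_lit 3229780723) (nat_lit 76) (nat_lit 7333148400) (nat_lit 79) (nat_lit 5) (nat_lit 85) (nat_lit 5) (nat_lit 80) (nat_lit 5) (nat_lit 278) (nat_lit 251) (nat_lit 191)) (XT.nd (nat_lit 78) (nat_lit 304) (nat_lit 0) (XT.lf (nat_lit 0) (nat_lit 8596444267) (nat_lit 304) (nat_lit 273615656) (nat_lit 380) (nat_lit 7094283515) (nat_lit 75) (nat_lit 5) (nat_lit 79) (nat_lit 5) (nat_lit 80) (nat_lit 5) (nat_lit 279) (nat_lit 251) (nat_lit 190)) (XT.lf (nat_lit 0) (nat_lit 4555793689) (nat_lit 304) (nat_lit 8589439417) (nat_lit 380) (nat_lit 3336213439) (nat_lit 71) (nat_lit 5) (nat_lit 75) (nat_lit 5) (nat_lit 76) (nat_lit 5) (nat_lit 280) (nat_lit 251) (nat_lit 189))))))))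
noncomputable def xc72 : XT := (XT.nd (nat_lit 1638) (nat_lit 1368) (nat_lit 0) (XT.nd (nat_lit 780) (nat_lit 1216) (nat_lit 0) (XT.nd (nat_lit 390) (nat_lit 1064) (nat_lit 0) (XT.nd (nat_lit 156) (nat_lit 608) (nat_lit 0) (XT.nd (nat_lit 78) (nat_lit 0) (nat_lit 0) (XT.lf (nat_lit 0) (nat_lit 147928788) (nat_lit 304) (nat_lit 490311817) (nat_lit 380) (nat_lit 16384840190) (nat_lit 66) (nat_lit 5) (nat_lit 70) (nat_lit 5) (nat_lit 71) (nat_lit 5) (nat_lit 281) (nat_lit 251) (nat_lit 188)) (XT.lf (nat_lit 0) (nat_lit 4904979086) (nat_lit 380) (nat_lit 4678314642) (nat_lit 76) (nat_lit 8002695475) (nat_lit 66) (nat_lit 5) (nat_lit 71) (nat_lit 5) (nat_lit 67) (nat_lit 5) (nat_lit 282) (nat_lit 251) (nat_lit 187))) (XT.nd (nat_lit 78) (nat_lit 304) (nat_lit 0) (XT.lf (nat_lit 0) (nat_lit 8233918289) (nat_lit 304) (nat_lit 1198001650) (nat_lit 380) (nat_lit 8743774454) (nat_lit 62) (nat_lit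 5) (nat_lit 66) (nat_lit 5) (nat_lit 67) (nat_lit 5) (nat_lit 283) (nat_lit 251) (nat_lit 186)) (XT.nd (nat_lit 78) (nat_lit 76) (nat_lit 0) (XT.lf (nat_lit 0) (nat_lit 3031911552) (nat_lit 228) (nat_lit 11268144290) (nat_lit 304) (nat_lit 4491438157) (nat_lit 59) (nat_lit 5) (nat_lit 62) (nat_lit 5) (nat_lit 63) (nat_lit 5) (nat_lit 284) (nat_lit 251) (nat_lit 185)) (XT.lf (nat_lit 0) (nat_lit 54283966) (nat_lit 304) (nat_lit 2634893444) (nat_lit 76) (nat_lit 16746556728) (nat_lit 58) (nat_lit 5) (nat_lit 62) (nat_lit 5) (nat_lit 59) (nat_lit 5) (nat_lit 285) (nat_lit 251) (nat_lit 184))))) (XT.nd (nat_lit 156) (nat_lit 532) (nat_lit 0) (XT.nd (nat_lit 78) (nat_lit 228) (nat_lit 0) (XT.lf (nat_lit 0) (nat_lit 4872253786) (nat_lit 380) (nat_lit 8896801371) (nat_lit 76) (nat_lit 6337709573) (nat_lit 54) (nat_lit 5) (nat_lit 59) (nat_lit 5) (nat_lit 55) (nat_lit 5) (nat_lit 286) (nat_lit 251)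 (nat_lit 183)) (XT.lf (nat_lit 0) (nat_lit 5015773736) (nat_lit 228) (nat_lit 4985613857) (nat_lit 304) (nat_lit 10807897080) (nat_lit 51) (nat_lit 5) (nat_lit 54) (nat_lit 5) (nat_lit 55) (nat_lit 5) (nat_lit 287) (nat_lit 251) (nat_lit 182))) (XT.nd (nat_lit 78) (nat_lit 532) (nat_lit 0) (XT.lf (nat_lit 0) (nat_lit 15488698182) (nat_lit 304) (nat_lit 1821733714) (nat_lit 76) (nat_lit 4233490724) (nat_lit 51) (nat_lit 5) (nat_lit 55) (nat_lit 5) (nat_lit 52) (nat_lit 5) (nat_lit 288) (nat_lit 251) (nat_lit 181)) (XT.nd (nat_lit 78) (nat_lit 304) (nat_lit 0) (XT.lf (nat_lit 0) (nat_lit 13008526169) (nat_lit 228) (nat_lit 8387215011) (nat_lit 304) (nat_lit 915231809) (nat_lit 48) (nat_lit 5) (nat_lit 51) (nat_lit 5) (nat_lit 52) (nat_lit 5) (nat_lit 289) (nat_lit 251) (nat_lit 180)) (XT.lf (nat_lit 0) (nat_lit 4447489632) (nat_lit 304) (nat_lit 17600206214) (nat_lit 76) (nat_lit 1065830455)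 (nat_lit 44) (nat_lit 5) (nat_lit 48) (nat_lit 5) (nat_lit 45) (nat_lit 5) (nat_lit 290) (nat_lit 251) (nat_lit 179)))))) (XT.nd (nat_lit 390) (nat_lit 532) (nat_lit 0) (XT.nd (nat_lit 156) (nat_lit 456) (nat_lit 0) (XT.nd (nat_lit 78) (nat_lit 228) (nat_lit 0) (XT.lf (nat_lit 0) (nat_lit 10212517590) (nat_lit 304) (nat_lit 2826428700) (nat_lit 76) (nat_lit 10912432746) (nat_lit 44) (nat_lit 5) (nat_lit 48) (nat_lit 5) (nat_lit 45) (nat_lit 5) (nat_lit 291) (nat_lit 251) (nat_lit 178)) (XT.lf (nat_lit 0) (nat_lit 12897210255) (nat_lit 228) (nat_lit 3465476935) (nat_lit 304) (nat_lit 8465565343) (nat_lit 41) (nat_lit 5) (nat_lit 44) (nat_lit 5) (nat_lit 45) (nat_lit 5) (nat_lit 292) (nat_lit 251) (nat_lit 177))) (XT.nd (nat_lit 78) (nat_lit 304) (nat_lit 0) (XT.lf (nat_lit 0) (nat_lit 3686298765) (nat_lit 152) (nat_lit 19235899678) (nat_lit 228) (nat_lit 2823749439) (nat_lit 39) (nat_lit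 5) (nat_lit 41) (nat_lit 5) (nat_lit 42) (nat_lit 5) (nat_lit 293) (nat_lit 251) (nat_lit 176)) (XT.nd (nat_lit 78) (nat_lit 228) (nat_lit 0) (XT.lf (nat_lit 0) (nat_lit 3172970969) (nat_lit 228) (nat_lit 6477431642) (nat_lit 76) (nat_lit 17054262772) (nat_lit 38) (nat_lit 5) (nat_lit 41) (nat_lit 5) (nat_lit 39) (nat_lit 5) (nat_lit 294) (nat_lit 251) (nat_lit 175)) (XT.lf (nat_lit 0) (nat_lit 9488536463) (nat_lit 304) (nat_lit 17700189055) (nat_lit 76) (nat_lit 519461461) (nat_lit 35) (nat_lit 5) (nat_lit 39) (nat_lit 5) (nat_lit 36) (nat_lit 5) (nat_lit 295) (nat_lit 251) (nat_lit 174))))) (XT.nd (nat_lit 234) (nat_lit 152) (nat_lit 0) (XT.nd (nat_lit 78) (nat_lit 380) (nat_lit 0) (XT.lf (nat_lit 0) (nat_lit 16260835272) (nat_lit 304) (nat_lit 1441975389) (nat_lit 76) (nat_lit 11054873164) (nat_lit 35) (nat_lit 5) (nat_lit 39) (nat_lit 5) (nat_lit 36) (nat_lit 5) (nat_lit 296) (nat_lit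 251) (nat_lit 173)) (XT.nd (nat_lit 78) (nat_lit 228) (nat_lit 0) (XT.lf (nat_lit 0) (nat_lit 15904177398) (nat_lit 152) (nat_lit 7597796640) (nat_lit 228) (nat_lit 6353801221) (nat_lit 33) (nat_lit 5) (nat_lit 35) (nat_lit 5) (nat_lit 36) (nat_lit 5) (nat_lit 297) (nat_lit 251) (nat_lit 172)) (XT.lf (nat_lit 0) (nat_lit 147082626) (nat_lit 228) (nat_lit 27871998262) (nat_lit 76) (nat_lit 2988110121) (nat_lit 30) (nat_lit 5) (nat_lit 33) (nat_lit 5) (nat_lit 31) (nat_lit 5) (nat_lit 298) (nat_lit 251) (nat_lit 171)))) (XT.nd (nat_lit 78) (nat_lit 152) (nat_lit 0) (XT.lf (nat_lit 0) (nat_lit 7043016588) (nat_lit 228) (nat_lit 11020560121) (nat_lit 76) (nat_lit 14144694534) (nat_lit 30) (nat_lit 5) (nat_lit 33) (nat_lit 5) (nat_lit 31) (nat_lit 5) (nat_lit 299) (nat_lit 251) (nat_lit 170)) (XT.nd (nat_lit 78) (nat_lit 0) (nat_lit 0) (XT.lf (nat_lit 0) (nat_lit 6772925940) (nat_lit 152) (nat_lit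 7555415366) (nat_lit 228) (nat_lit 19139748582) (nat_lit 28) (nat_lit 5) (nat_lit 30) (nat_lit 5) (nat_lit 31) (nat_lit 5) (nat_lit 300) (nat_lit 251) (nat_lit 169)) (XT.lf (nat_lit 0) (nat_lit 22105982165) (nat_lit 228) (nat_lit 9167922870) (nat_lit 76) (nat_lit 3513174099) (nat_lit 28) (nat_lit 5) (nat_lit 31) (nat_lit 5) (nat_lit 29) (nat_lit 5) (nat_lit 301) (nat_lit 251) (nat_lit 168))))))) (XT.nd (nat_lit 858) (nat_lit 532) (nat_lit 0) (XT.nd (nat_lit 390) (nat_lit 304) (nat_lit 0) (XT.nd (nat_lit 156) (nat_lit 304) (nat_lit 0) (XT.nd (nat_lit 78) (nat_lit 76) (nat_lit 0) (XT.lf (nat_lit 0) (nat_lit 9310383571) (nat_lit 152) (nat_lit 21108873023) (nat_lit 228) (nat_lit 5748378857) (nat_lit 26) (nat_lit 5) (nat_lit 28) (nat_lit 5) (nat_lit 29) (nat_lit 5) (nat_lit 302) (nat_lit 251) (nat_lit 167)) (XT.lf (nat_lit 0) (nat_lit 1577823491) (nat_lit 228) (nat_lit 8756076659) (nat_lit 76)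 (nat_lit 27280594876) (nat_lit 25) (nat_lit 5) (nat_lit 28) (nat_lit 5) (nat_lit 26) (nat_lit 5) (nat_lit 303) (nat_lit 251) (nat_lit 166))) (XT.nd (nat_lit 78) (nat_lit 152) (nat_lit 0) (XT.lf (nat_lit 0) (nat_lit 9245367766) (nat_lit 228) (nat_lit 28774767420) (nat_lit 76) (nat_lit 1109055191) (nat_lit 23) (nat_lit 5) (nat_lit 26) (nat_lit 5) (nat_lit 24) (nat_lit 5) (nat_lit 304) (nat_lit 251) (nat_lit 165)) (XT.nd (nat_lit 78) (nat_lit 152) (nat_lit 0) (XT.lf (nat_lit 0) (nat_lit 17474388539) (nat_lit 228) (nat_lit 10247074985) (nat_lit 76) (nat_lit 12992830897) (nat_lit 23) (nat_lit 5) (nat_lit 26) (nat_lit 5) (nat_lit 24) (nat_lit 5) (nat_lit 305) (nat_lit 251) (nat_lit 164)) (XT.lf (nat_lit 0) (nat_lit 9362665800) (nat_lit 152) (nat_lit 16825782989) (nat_lit 228) (nat_lit 16188013325) (nat_lit 21) (nat_lit 5) (nat_lit 23) (nat_lit 5) (nat_lit 24) (nat_lit 5) (nat_lit 306) (nat_lit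 251) (nat_lit 163))))) (XT.nd (nat_lit 234) (nat_lit 152) (nat_lit 0) (XT.nd (nat_lit 78) (nat_lit 152) (nat_lit 0) (XT.lf (nat_lit 0) (nat_lit 30140766723) (nat_lit 152) (nat_lit 5287047747) (nat_lit 228) (nat_lit 8691250983) (nat_lit 21) (nat_lit 5) (nat_lit 23) (nat_lit 5) (nat_lit 24) (nat_lit 5) (nat_lit 307) (nat_lit 251) (nat_lit 162)) (XT.nd (nat_lit 78) (nat_lit 76) (nat_lit 0) (XT.lf (nat_lit 0) (nat_lit 6035728122) (nat_lit 76) (nat_lit 39201859438) (nat_lit 152) (nat_lit 707972826) (nat_lit 20) (nat_lit 5) (nat_lit 21) (nat_lit 5) (nat_lit 22) (nat_lit 4) (nat_lit 308) (nat_lit 251) (nat_lit 161)) (XT.lf (nat_lit 0) (nat_lit 7708502494) (nat_lit 152) (nat_lit 20670027206) (nat_lit 76) (nat_lit 19477137025) (nat_lit 19) (nat_lit 5) (nat_lit 21) (nat_lit 5) (nat_lit 20) (nat_lit 5) (nat_lit 309) (nat_lit 251) (nat_lit 160)))) (XT.nd (nat_lit 78) (nat_lit 152) (nat_lit 0) (XT.lf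 (nat_lit 0) (nat_lit 16517112289) (nat_lit 152) (nat_lit 499154563) (nat_lit 76) (nat_lit 32845235518) (nat_lit 19) (nat_lit 5) (nat_lit 21) (nat_lit 5) (nat_lit 20) (nat_lit 5) (nat_lit 310) (nat_lit 251) (nat_lit 159)) (XT.nd (nat_lit 78) (nat_lit 0) (nat_lit 0) (XT.lf (nat_lit 0) (nat_lit 21068744103) (nat_lit 152) (nat_lit 4886426092) (nat_lit 228) (nat_lit 26006801319) (nat_lit 17) (nat_lit 5) (nat_lit 19) (nat_lit 5) (nat_lit 20) (nat_lit 5) (nat_lit 311) (nat_lit 251) (nat_lit 158)) (XT.lf (nat_lit 0) (nat_lit 35932616366) (nat_lit 228) (nat_lit 10539664181) (nat_lit 76) (nat_lit 7693170674) (nat_lit 17) (nat_lit 5) (nat_lit 20) (nat_lit 5) (nat_lit 18) (nat_lit 4) (nat_lit 312) (nat_lit 251) (nat_lit 157)))))) (XT.nd (nat_lit 390) (nat_lit 228) (nat_lit 0) (XT.nd (nat_lit 156) (nat_lit 228) (nat_lit 0) (XT.nd (nat_lit 78) (nat_lit 0) (nat_lit 0) (XT.lf (nat_lit 0) (nat_lit 10975171212)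 (nat_lit 76) (nat_lit 35576048365) (nat_lit 152) (nat_lit 9923627900) (nat_lit 16) (nat_lit 5) (nat_lit 17) (nat_lit 5) (nat_lit 18) (nat_lit 4) (nat_lit 313) (nat_lit 251) (nat_lit 156)) (XT.lf (nat_lit 0) (nat_lit 33765354284) (nat_lit 76) (nat_lit 24031758492) (nat_lit 152) (nat_lit 1099720556) (nat_lit 16) (nat_lit 5) (nat_lit 17) (nat_lit 5) (nat_lit 18) (nat_lit 4) (nat_lit 314) (nat_lit 251) (nat_lit 155))) (XT.nd (nat_lit 78) (nat_lit 152) (nat_lit 0) (XT.lf (nat_lit 0) (nat_lit 7994363037) (nat_lit 152) (nat_lit 3843264037) (nat_lit 76) (nat_lit 49600296961) (nat_lit 15) (nat_lit 5) (nat_lit 17) (nat_lit 5) (nat_lit 16) (nat_lit 5) (nat_lit 315) (nat_lit 251) (nat_lit 154)) (XT.nd (nat_lit 78) (nat_lit 0) (nat_lit 0) (XT.lf (nat_lit 0) (nat_lit 17701777481) (nat_lit 228) (nat_lit 45264677824) (nat_lit 76) (nat_lit 1133855516) (nat_lit 13) (nat_lit 5) (nat_lit 16) (nat_lit 5) (nat_lit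 14) (nat_lit 4) (nat_lit 316) (nat_lit 251) (nat_lit 153)) (XT.lf (nat_lit 0) (nat_lit 28043150116) (nat_lit 228) (nat_lit 24304383117) (nat_lit 76) (nat_lit 14543834963) (nat_lit 13) (nat_lit 5) (nat_lit 16) (nat_lit 5) (nat_lit 14) (nat_lit 4) (nat_lit 317) (nat_lit 251) (nat_lit 152))))) (XT.nd (nat_lit 234) (nat_lit 152) (nat_lit 0) (XT.nd (nat_lit 78) (nat_lit 76) (nat_lit 0) (XT.lf (nat_lit 0) (nat_lit 38891260624) (nat_lit 228) (nat_lit 2313853779) (nat_lit 76) (nat_lit 28617182411) (nat_lit 13) (nat_lit 5) (nat_lit 16) (nat_lit 5) (nat_lit 14) (nat_lit 4) (nat_lit 318) (nat_lit 251) (nat_lit 151)) (XT.nd (nat_lit 78) (nat_lit 0) (nat_lit 0) (XT.lf (nat_lit 0) (nat_lit 21172418743) (nat_lit 76) (nat_lit 29303041337) (nat_lit 152) (nat_lit 22418509327) (nat_lit 12) (nat_lit 5) (nat_lit 13) (nat_lit 5) (nat_lit 14) (nat_lit 4) (nat_lit 319) (nat_lit 251) (nat_lit 150)) (XT.lf (nat_lit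 0) (nat_lit 45864909593) (nat_lit 76) (nat_lit 16788250588) (nat_lit 152) (nat_lit 13465644392) (nat_lit 12) (nat_lit 5) (nat_lit 13) (nat_lit 5) (nat_lit 14) (nat_lit 4) (nat_lit 320) (nat_lit 251) (nat_lit 149)))) (XT.nd (nat_lit 78) (nat_lit 152) (nat_lit 0) (XT.lf (nat_lit 0) (nat_lit 71776360187) (nat_lit 76) (nat_lit 3654310423) (nat_lit 152) (nat_lit 4074490428) (nat_lit 12) (nat_lit 5) (nat_lit 13) (nat_lit 5) (nat_lit 14) (nat_lit 4) (nat_lit 321) (nat_lit 251) (nat_lit 148)) (XT.nd (nat_lit 78) (nat_lit 0) (nat_lit 0) (XT.lf (nat_lit 0) (nat_lit 5919451164) (nat_lit 152) (nat_lit 66986927716) (nat_lit 76) (nat_lit 10145410376) (nat_lit 10) (nat_lit 5) (nat_lit 12) (nat_lit 5) (nat_lit 11) (nat_lit 4) (nat_lit 322) (nat_lit 251) (nat_lit 147)) (XT.lf (nat_lit 0) (nat_lit 16438319581) (nat_lit 152) (nat_lit 45657309374) (nat_lit 76) (nat_lit 24675631220) (nat_lit 10) (nat_lit 5)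 (nat_lit 12) (nat_lit 5) (nat_lit 11) (nat_lit 4) (nat_lit 323) (nat_lit 251) (nat_lit 146))))))))
noncomputable def xc73 : XT := (XT.nd (nat_lit 33150) (nat_lit 0) (nat_lit 3192) (XT.nd (nat_lit 32292) (nat_lit 0) (nat_lit 9500) (XT.nd (nat_lit 390) (nat_lit 0) (nat_lit 0) (XT.nd (nat_lit 156) (nat_lit 0) (nat_lit 0) (XT.nd (nat_lit 78) (nat_lit 76) (nat_lit 0) (XT.lf (nat_lit 0) (nat_lit 27475017483) (nat_lit 152) (nat_lit 23275369343) (nat_lit 76) (nat_lit 39926567354) (nat_lit 10) (nat_lit 5) (nat_lit 12) (nat_lit 5) (nat_lit 11) (nat_lit 4) (nat_lit 324) (nat_lit 251) (nat_lit 145)) (XT.lf (nat_lit 0) (nat_lit 216405561) (nat_lit 76) (nat_lit 38841497382) (nat_lit 152) (nat_lit 55720205193) (nat_lit 9) (nat_lit 5) (nat_lit 10) (nat_lit 5) (nat_lit 11) (nat_lit 4) (nat_lit 325) (nat_lit 251) (nat_lit 144))) (XT.nd (nat_lit 78) (nat_lit 0) (nat_lit 0) (XT.lf (nat_lit 0) (nat_lit 25356057538)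 (nat_lit 76) (nat_lit 26095989039) (nat_lit 152) (nat_lit 47625315348) (nat_lit 9) (nat_lit 5) (nat_lit 10) (nat_lit 5) (nat_lit 11) (nat_lit 4) (nat_lit 326) (nat_lit 251) (nat_lit 143)) (XT.nd (nat_lit 78) (nat_lit 0) (nat_lit 0) (XT.lf (nat_lit 0) (nat_lit 51740217414) (nat_lit 76) (nat_lit 12718550941) (nat_lit 152) (nat_lit 39133029208) (nat_lit 9) (nat_lit 5) (nat_lit 10) (nat_lit 5) (nat_lit 11) (nat_lit 4) (nat_lit 327) (nat_lit 251) (nat_lit 142)) (XT.lf (nat_lit 0) (nat_lit 78121750957) (nat_lit 152) (nat_lit 28913173383) (nat_lit 0) (nat_lit 1296857938) (nat_lit 9) (nat_lit 5) (nat_lit 11) (nat_lit 4) (nat_lit 9) (nat_lit 4) (nat_lit 328) (nat_lit 251) (nat_lit 141))))) (XT.nd (nat_lit 31668) (nat_lit 0) (nat_lit 13604) (XT.nd (nat_lit 31512) (nat_lit 0) (nat_lit 14516) (XT.lf (nat_lit 0) (nat_lit 92589741248) (nat_lit 152) (nat_lit 4967684792) (nat_lit 0) (nat_lit 15747689228)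 (nat_lit 9) (nat_lit 5) (nat_lit 11) (nat_lit 4) (nat_lit 9) (nat_lit 4) (nat_lit 329) (nat_lit 251) (nat_lit 140)) (XT.nd (nat_lit 78) (nat_lit 0) (nat_lit 0) (XT.lf (nat_lit 0) (nat_lit 1335194319) (nat_lit 0) (nat_lit 1335194319) (nat_lit 836) (nat_lit 1411526333) (nat_lit 200) (nat_lit 5) (nat_lit 200) (nat_lit 3) (nat_lit 211) (nat_lit 3) (nat_lit 252) (nat_lit 252) (nat_lit 216)) (XT.lf (nat_lit 76) (nat_lit 340163637) (nat_lit 0) (nat_lit 6866038803) (nat_lit 912) (nat_lit 1105448442) (nat_lit 201) (nat_lit 5) (nat_lit 200) (nat_lit 5) (nat_lit 212) (nat_lit 5) (nat_lit 253) (nat_lit 252) (nat_lit 215)))) (XT.nd (nat_lit 78) (nat_lit 0) (nat_lit 76) (XT.lf (nat_lit 0) (nat_lit 657319823) (nat_lit 912) (nat_lit 1981768631) (nat_lit 988) (nat_lit 5828654298) (nat_lit 188) (nat_lit 5) (nat_lit 200) (nat_lit 5) (nat_lit 201) (nat_lit 5) (nat_lit 254) (nat_lit 252) (nat_lit 214)) (XT.nd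 (nat_lit 78) (nat_lit 0) (nat_lit 0) (XT.lf (nat_lit 0) (nat_lit 2439508773) (nat_lit 912) (nat_lit 4330798314) (nat_lit 988) (nat_lit 1862634992) (nat_lit 189) (nat_lit 5) (nat_lit 201) (nat_lit 5) (nat_lit 202) (nat_lit 5) (nat_lit 255) (nat_lit 252) (nat_lit 213)) (XT.lf (nat_lit 76) (nat_lit 2088148145) (nat_lit 0) (nat_lit 2189008357) (nat_lit 988) (nat_lit 4530497776) (nat_lit 190) (nat_lit 5) (nat_lit 189) (nat_lit 5) (nat_lit 202) (nat_lit 5) (nat_lit 256) (nat_lit 252) (nat_lit 212)))))) (XT.nd (nat_lit 390) (nat_lit 3344) (nat_lit 0) (XT.nd (nat_lit 156) (nat_lit 912) (nat_lit 0) (XT.nd (nat_lit 78) (nat_lit 0) (nat_lit 0) (XT.lf (nat_lit 0) (nat_lit 6180531698) (nat_lit 912) (nat_lit 160218265) (nat_lit 988) (nat_lit 2651368568) (nat_lit 190) (nat_lit 5) (nat_lit 202) (nat_lit 5) (nat_lit 203) (nat_lit 5) (nat_lit 257) (nat_lit 252) (nat_lit 211)) (XT.lf (nat_lit 76) (nat_lit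 6776840339) (nat_lit 0) (nat_lit 1397685837) (nat_lit 988) (nat_lit 1011637062) (nat_lit 191) (nat_lit 5) (nat_lit 190) (nat_lit 5) (nat_lit 203) (nat_lit 5) (nat_lit 258) (nat_lit 252) (nat_lit 210))) (XT.nd (nat_lit 78) (nat_lit 0) (nat_lit 0) (XT.lf (nat_lit 0) (nat_lit 856206066) (nat_lit 988) (nat_lit 4731559654) (nat_lit 1064) (nat_lit 3802244253) (nat_lit 178) (nat_lit 5) (nat_lit 191) (nat_lit 5) (nat_lit 192) (nat_lit 5) (nat_lit 259) (nat_lit 252) (nat_lit 209)) (XT.nd (nat_lit 78) (nat_lit 0) (nat_lit 76) (XT.lf (nat_lit 76) (nat_lit 2488795813) (nat_lit 0) (nat_lit 285869742) (nat_lit 1064) (nat_lit 6829933012) (nat_lit 179) (nat_lit 5) (nat_lit 178) (nat_lit 5) (nat_lit 192) (nat_lit 5) (nat_lit 260) (nat_lit 252) (nat_lit 208)) (XT.lf (nat_lit 76) (nat_lit 230917999) (nat_lit 0) (nat_lit 4578861403) (nat_lit 1064) (nat_lit 5019700392) (nat_lit 180) (nat_lit 5) (nat_lit 179)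 (nat_lit 5) (nat_lit 193) (nat_lit 5) (nat_lit 261) (nat_lit 252) (nat_lit 207))))) (XT.nd (nat_lit 234) (nat_lit 1368) (nat_lit 0) (XT.nd (nat_lit 78) (nat_lit 2128) (nat_lit 0) (XT.lf (nat_lit 0) (nat_lit 6955034089) (nat_lit 988) (nat_lit 2046666994) (nat_lit 76) (nat_lit 1063828773) (nat_lit 180) (nat_lit 5) (nat_lit 193) (nat_lit 5) (nat_lit 181) (nat_lit 5) (nat_lit 262) (nat_lit 252) (nat_lit 206)) (XT.nd (nat_lit 78) (nat_lit 1140) (nat_lit 0) (XT.lf (nat_lit 0) (nat_lit 5890785537) (nat_lit 988) (nat_lit 3345332267) (nat_lit 1064) (nat_lit 1076575561) (nat_lit 167) (nat_lit 5) (nat_lit 180) (nat_lit 5) (nat_lit 181) (nat_lit 5) (nat_lit 263) (nat_lit 252) (nat_lit 205)) (XT.lf (nat_lit 0) (nat_lit 1048733865) (nat_lit 1140) (nat_lit 6900796331) (nat_lit 76) (nat_lit 2622223958) (nat_lit 152) (nat_lit 5) (nat_lit 167) (nat_lit 5) (nat_lit 153) (nat_lit 5) (nat_lit 264) (nat_lit 252)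 (nat_lit 204)))) (XT.nd (nat_lit 78) (nat_lit 532) (nat_lit 0) (XT.lf (nat_lit 0) (nat_lit 1338291365) (nat_lit 836) (nat_lit 1943361433) (nat_lit 912) (nat_lit 7561235013) (nat_lit 141) (nat_lit 5) (nat_lit 152) (nat_lit 5) (nat_lit 153) (nat_lit 5) (nat_lit 265) (nat_lit 252) (nat_lit 203)) (XT.nd (nat_lit 78) (nat_lit 532) (nat_lit 0) (XT.lf (nat_lit 0) (nat_lit 5673492877) (nat_lit 912) (nat_lit 1096210121) (nat_lit 76) (nat_lit 4356597739) (nat_lit 141) (nat_lit 5) (nat_lit 153) (nat_lit 5) (nat_lit 142) (nat_lit 5) (nat_lit 266) (nat_lit 252) (nat_lit 202)) (XT.lf (nat_lit 0) (nat_lit 7806592963) (nat_lit 532) (nat_lit 409744091) (nat_lit 608) (nat_lit 3206739025) (nat_lit 134) (nat_lit 5) (nat_lit 141) (nat_lit 5) (nat_lit 142) (nat_lit 5) (nat_lit 267) (nat_lit 252) (nat_lit 201))))))) (XT.nd (nat_lit 858) (nat_lit 2128) (nat_lit 0) (XT.nd (nat_lit 390) (nat_lit 2128) (nat_lit 0)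 (XT.nd (nat_lit 156) (nat_lit 988) (nat_lit 0) (XT.nd (nat_lit 78) (nat_lit 532) (nat_lit 0) (XT.lf (nat_lit 0) (nat_lit 5429652195) (nat_lit 532) (nat_lit 5519769369) (nat_lit 608) (nat_lit 783503427) (nat_lit 127) (nat_lit 5) (nat_lit 134) (nat_lit 5) (nat_lit 135) (nat_lit 5) (nat_lit 268) (nat_lit 252) (nat_lit 200)) (XT.lf (nat_lit 0) (nat_lit 1748669517) (nat_lit 532) (nat_lit 9145450495) (nat_lit 76) (nat_lit 1163092545) (nat_lit 120) (nat_lit 5) (nat_lit 127) (nat_lit 5) (nat_lit 121) (nat_lit 5) (nat_lit 269) (nat_lit 252) (nat_lit 199))) (XT.nd (nat_lit 78) (nat_lit 456) (nat_lit 0) (XT.lf (nat_lit 0) (nat_lit 204462946) (nat_lit 532) (nat_lit 4253306230) (nat_lit 608) (nat_lit 7937829432) (nat_lit 113) (nat_lit 5) (nat_lit 120) (nat_lit 5) (nat_lit 121) (nat_lit 5) (nat_lit 270) (nat_lit 252) (nat_lit 198)) (XT.nd (nat_lit 78) (nat_lit 456) (nat_lit 0) (XT.lf (nat_lit 0) (nat_lit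 7368841532) (nat_lit 608) (nat_lit 2620973124) (nat_lit 76) (nat_lit 2759200913) (nat_lit 113) (nat_lit 5) (nat_lit 121) (nat_lit 5) (nat_lit 114) (nat_lit 5) (nat_lit 271) (nat_lit 252) (nat_lit 197)) (XT.lf (nat_lit 0) (nat_lit 7474620388) (nat_lit 456) (nat_lit 3013531475) (nat_lit 532) (nat_lit 2630173021) (nat_lit 107) (nat_lit 5) (nat_lit 113) (nat_lit 5) (nat_lit 114) (nat_lit 5) (nat_lit 272) (nat_lit 252) (nat_lit 196))))) (XT.nd (nat_lit 234) (nat_lit 1216) (nat_lit 0) (XT.nd (nat_lit 78) (nat_lit 380) (nat_lit 0) (XT.lf (nat_lit 0) (nat_lit 315728615) (nat_lit 532) (nat_lit 8890511011) (nat_lit 76) (nat_lit 4297977518) (nat_lit 100) (nat_lit 5) (nat_lit 107) (nat_lit 5) (nat_lit 101) (nat_lit 5) (nat_lit 273) (nat_lit 252) (nat_lit 195)) (XT.nd (nat_lit 78) (nat_lit 0) (nat_lit 0) (XT.lf (nat_lit 0) (nat_lit 1510787518) (nat_lit 380) (nat_lit 1898977420) (nat_lit 456) (nat_lit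 10497290625) (nat_lit 95) (nat_lit 5) (nat_lit 100) (nat_lit 5) (nat_lit 101) (nat_lit 5) (nat_lit 274) (nat_lit 252) (nat_lit 194)) (XT.lf (nat_lit 0) (nat_lit 6759293152) (nat_lit 456) (nat_lit 1821021869) (nat_lit 76) (nat_lit 5746782756) (nat_lit 95) (nat_lit 5) (nat_lit 101) (nat_lit 5) (nat_lit 96) (nat_lit 5) (nat_lit 275) (nat_lit 252) (nat_lit 193)))) (XT.nd (nat_lit 78) (nat_lit 836) (nat_lit 0) (XT.lf (nat_lit 0) (nat_lit 9394509934) (nat_lit 380) (nat_lit 946369157) (nat_lit 456) (nat_lit 4425407071) (nat_lit 90) (nat_lit 5) (nat_lit 95) (nat_lit 5) (nat_lit 96) (nat_lit 5) (nat_lit 276) (nat_lit 252) (nat_lit 192)) (XT.nd (nat_lit 78) (nat_lit 456) (nat_lit 0) (XT.lf (nat_lit 0) (nat_lit 5978093914) (nat_lit 380) (nat_lit 8224480358) (nat_lit 456) (nat_lit 1021906416) (nat_lit 85) (nat_lit 5) (nat_lit 90) (nat_lit 5) (nat_lit 91) (nat_lit 5) (nat_lit 277) (nat_lit 252) (nat_lit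 191)) (XT.lf (nat_lit 0) (nat_lit 2261455593) (nat_lit 380) (nat_lit 285421954) (nat_lit 456) (nat_lit 13156696215) (nat_lit 79) (nat_lit 5) (nat_lit 84) (nat_lit 5) (nat_lit 85) (nat_lit 5) (nat_lit 278) (nat_lit 252) (nat_lit 190)))))) (XT.nd (nat_lit 390) (nat_lit 1140) (nat_lit 0) (XT.nd (nat_lit 156) (nat_lit 684) (nat_lit 0) (XT.nd (nat_lit 78) (nat_lit 304) (nat_lit 0) (XT.lf (nat_lit 0) (nat_lit 6405876931) (nat_lit 456) (nat_lit 1806039548) (nat_lit 76) (nat_lit 7990482501) (nat_lit 79) (nat_lit 5) (nat_lit 85) (nat_lit 5) (nat_lit 80) (nat_lit 5) (nat_lit 279) (nat_lit 252) (nat_lit 189)) (XT.lf (nat_lit 0) (nat_lit 10523828523) (nat_lit 380) (nat_lit 6158616260) (nat_lit 76) (nat_lit 41805706) (nat_lit 75) (nat_lit 5) (nat_lit 80) (nat_lit 5) (nat_lit 76) (nat_lit 5) (nat_lit 280) (nat_lit 252) (nat_lit 188))) (XT.nd (nat_lit 78) (nat_lit 380) (nat_lit 0) (XT.lf (nat_lit 0) (nat_lit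 6313354918) (nat_lit 304) (nat_lit 8659109013) (nat_lit 380) (nat_lit 2296049054) (nat_lit 71) (nat_lit 5) (nat_lit 75) (nat_lit 5) (nat_lit 76) (nat_lit 5) (nat_lit 281) (nat_lit 252) (nat_lit 187)) (XT.nd (nat_lit 78) (nat_lit 0) (nat_lit 0) (XT.lf (nat_lit 0) (nat_lit 1665921689) (nat_lit 304) (nat_lit 145820891) (nat_lit 380) (nat_lit 16026481439) (nat_lit 66) (nat_lit 5) (nat_lit 70) (nat_lit 5) (nat_lit 71) (nat_lit 5) (nat_lit 282) (nat_lit 252) (nat_lit 186)) (XT.lf (nat_lit 0) (nat_lit 6240834765) (nat_lit 380) (nat_lit 3442649268) (nat_lit 76) (nat_lit 8747407268) (nat_lit 66) (nat_lit 5) (nat_lit 71) (nat_lit 5) (nat_lit 67) (nat_lit 5) (nat_lit 283) (nat_lit 252) (nat_lit 185))))) (XT.nd (nat_lit 234) (nat_lit 532) (nat_lit 0) (XT.nd (nat_lit 78) (nat_lit 304) (nat_lit 0) (XT.lf (nat_lit 0) (nat_lit 10073070062) (nat_lit 304) (nat_lit 882840524) (nat_lit 380) (nat_lit 8095397487)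 (nat_lit 62) (nat_lit 5) (nat_lit 66) (nat_lit 5) (nat_lit 67) (nat_lit 5) (nat_lit 284) (nat_lit 252) (nat_lit 184)) (XT.nd (nat_lit 78) (nat_lit 76) (nat_lit 0) (XT.lf (nat_lit 0) (nat_lit 4598763478) (nat_lit 228) (nat_lit 11435613721) (nat_lit 304) (nat_lit 3664588895) (nat_lit 59) (nat_lit 5) (nat_lit 62) (nat_lit 5) (nat_lit 63) (nat_lit 5) (nat_lit 285) (nat_lit 252) (nat_lit 183)) (XT.lf (nat_lit 0) (nat_lit 1038811645) (nat_lit 304) (nat_lit 1397826641) (nat_lit 76) (nat_lit 17940019882) (nat_lit 58) (nat_lit 5) (nat_lit 62) (nat_lit 5) (nat_lit 59) (nat_lit 5) (nat_lit 286) (nat_lit 252) (nat_lit 182)))) (XT.nd (nat_lit 78) (nat_lit 228) (nat_lit 0) (XT.lf (nat_lit 0) (nat_lit 6067377076) (nat_lit 380) (nat_lit 7985959680) (nat_lit 76) (nat_lit 7028879678) (nat_lit 54) (nat_lit 5) (nat_lit 59) (nat_lit 5) (nat_lit 55) (nat_lit 5) (nat_lit 287) (nat_lit 252) (nat_lit 181)) (XT.nd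 (nat_lit 78) (nat_lit 0) (nat_lit 0) (XT.lf (nat_lit 0) (nat_lit 6583383836) (nat_lit 228) (nat_lit 4836931802) (nat_lit 304) (nat_lit 10400590163) (nat_lit 51) (nat_lit 5) (nat_lit 54) (nat_lit 5) (nat_lit 55) (nat_lit 5) (nat_lit 288) (nat_lit 252) (nat_lit 180)) (XT.lf (nat_lit 0) (nat_lit 17141879879) (nat_lit 304) (nat_lit 634878441) (nat_lit 76) (nat_lit 4816781509) (nat_lit 51) (nat_lit 5) (nat_lit 55) (nat_lit 5) (nat_lit 52) (nat_lit 5) (nat_lit 289) (nat_lit 252) (nat_lit 179))))))))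
noncomputable def xc74 : XT := (XT.nd (nat_lit 1716) (nat_lit 608) (nat_lit 0) (XT.nd (nat_lit 858) (nat_lit 988) (nat_lit 0) (XT.nd (nat_lit 390) (nat_lit 684) (nat_lit 0) (XT.nd (nat_lit 156) (nat_lit 380) (nat_lit 0) (XT.nd (nat_lit 78) (nat_lit 304) (nat_lit 0) (XT.lf (nat_lit 0) (nat_lit 14900262487) (nat_lit 228) (nat_lit 8414099686) (nat_lit 304) (nat_lit 85535858) (nat_lit 48) (nat_lit 5) (nat_lit 51) (nat_lit 5) (nat_lit 52) (nat_lit 5) (nat_lit 290) (nat_lit 252) (nat_lit 178)) (XT.lf (nat_lit 0) (nat_lit 5502912428) (nat_lit 304) (nat_lit 17234641972) (nat_lit 76) (nat_lit 1505585488) (nat_lit 44) (nat_lit 5) (nat_lit 48) (nat_lit 5) (nat_lit 45) (nat_lit 5) (nat_lit 291) (nat_lit 252) (nat_lit 177))) (XT.nd (nat_lit 78) (nat_lit 380) (nat_lit 0) (XT.lf (nat_lit 0) (nat_lit 11516522817) (nat_lit 304) (nat_lit 1781488656) (nat_lit 76) (nat_lit 11826114869) (nat_lit 44) (nat_lit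 5) (nat_lit 48) (nat_lit 5) (nat_lit 45) (nat_lit 5) (nat_lit 292) (nat_lit 252) (nat_lit 176)) (XT.nd (nat_lit 78) (nat_lit 152) (nat_lit 0) (XT.lf (nat_lit 0) (nat_lit 14694328300) (nat_lit 228) (nat_lit 3253168831) (nat_lit 304) (nat_lit 8098196078) (nat_lit 41) (nat_lit 5) (nat_lit 44) (nat_lit 5) (nat_lit 45) (nat_lit 5) (nat_lit 293) (nat_lit 252) (nat_lit 175)) (XT.lf (nat_lit 0) (nat_lit 5009526598) (nat_lit 152) (nat_lit 19803426866) (nat_lit 228) (nat_lit 2197027045) (nat_lit 39) (nat_lit 5) (nat_lit 41) (nat_lit 5) (nat_lit 42) (nat_lit 5) (nat_lit 294) (nat_lit 252) (nat_lit 174))))) (XT.nd (nat_lit 234) (nat_lit 380) (nat_lit 0) (XT.nd (nat_lit 78) (nat_lit 228) (nat_lit 0) (XT.lf (nat_lit 0) (nat_lit 4048691116) (nat_lit 228) (nat_lit 5701497470) (nat_lit 76) (nat_lit 18267342243) (nat_lit 38) (nat_lit 5) (nat_lit 41) (nat_lit 5) (nat_lit 39) (nat_lit 5) (nat_lit 295) (nat_lit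 252) (nat_lit 173)) (XT.nd (nat_lit 78) (nat_lit 0) (nat_lit 0) (XT.lf (nat_lit 0) (nat_lit 10659763133) (nat_lit 304) (nat_lit 17498913262) (nat_lit 76) (nat_lit 913201009) (nat_lit 35) (nat_lit 5) (nat_lit 39) (nat_lit 5) (nat_lit 36) (nat_lit 5) (nat_lit 296) (nat_lit 252) (nat_lit 172)) (XT.lf (nat_lit 0) (nat_lit 17737495937) (nat_lit 304) (nat_lit 479516782) (nat_lit 76) (nat_lit 11957870608) (nat_lit 35) (nat_lit 5) (nat_lit 39) (nat_lit 5) (nat_lit 36) (nat_lit 5) (nat_lit 297) (nat_lit 252) (nat_lit 171)))) (XT.nd (nat_lit 78) (nat_lit 228) (nat_lit 0) (XT.lf (nat_lit 0) (nat_lit 17704288266) (nat_lit 152) (nat_lit 7614462209) (nat_lit 228) (nat_lit 6009824052) (nat_lit 33) (nat_lit 5) (nat_lit 35) (nat_lit 5) (nat_lit 36) (nat_lit 5) (nat_lit 298) (nat_lit 252) (nat_lit 170)) (XT.nd (nat_lit 78) (nat_lit 0) (nat_lit 0) (XT.lf (nat_lit 0) (nat_lit 785288846) (nat_lit 228) (nat_lit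 28260237785) (nat_lit 76) (nat_lit 3492414904) (nat_lit 30) (nat_lit 5) (nat_lit 33) (nat_lit 5) (nat_lit 31) (nat_lit 5) (nat_lit 299) (nat_lit 252) (nat_lit 169)) (XT.lf (nat_lit 0) (nat_lit 7995978931) (nat_lit 228) (nat_lit 10614102041) (nat_lit 76) (nat_lit 15189928571) (nat_lit 30) (nat_lit 5) (nat_lit 33) (nat_lit 5) (nat_lit 31) (nat_lit 5) (nat_lit 300) (nat_lit 252) (nat_lit 168)))))) (XT.nd (nat_lit 390) (nat_lit 456) (nat_lit 0) (XT.nd (nat_lit 156) (nat_lit 380) (nat_lit 0) (XT.nd (nat_lit 78) (nat_lit 0) (nat_lit 0) (XT.lf (nat_lit 0) (nat_lit 8041612177) (nat_lit 152) (nat_lit 7584287750) (nat_lit 228) (nat_lit 19497540290) (nat_lit 28) (nat_lit 5) (nat_lit 30) (nat_lit 5) (nat_lit 31) (nat_lit 5) (nat_lit 301) (nat_lit 252) (nat_lit 167)) (XT.lf (nat_lit 0) (nat_lit 23767943539) (nat_lit 228) (nat_lit 8726566364) (nat_lit 76) (nat_lit 4014632919) (nat_lit 28) (nat_lit 5)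 (nat_lit 31) (nat_lit 5) (nat_lit 29) (nat_lit 5) (nat_lit 302) (nat_lit 252) (nat_lit 166))) (XT.nd (nat_lit 78) (nat_lit 228) (nat_lit 0) (XT.lf (nat_lit 0) (nat_lit 10649864170) (nat_lit 152) (nat_lit 21828910845) (nat_lit 228) (nat_lit 5480523256) (nat_lit 26) (nat_lit 5) (nat_lit 28) (nat_lit 5) (nat_lit 29) (nat_lit 5) (nat_lit 303) (nat_lit 252) (nat_lit 165)) (XT.nd (nat_lit 78) (nat_lit 152) (nat_lit 0) (XT.lf (nat_lit 0) (nat_lit 2175228130) (nat_lit 228) (nat_lit 8350696935) (nat_lit 76) (nat_lit 28953219396) (nat_lit 25) (nat_lit 5) (nat_lit 28) (nat_lit 5) (nat_lit 26) (nat_lit 5) (nat_lit 304) (nat_lit 252) (nat_lit 164)) (XT.lf (nat_lit 0) (nat_lit 10212381625) (nat_lit 228) (nat_lit 29381996171) (nat_lit 76) (nat_lit 1475634581) (nat_lit 23) (nat_lit 5) (nat_lit 26) (nat_lit 5) (nat_lit 24) (nat_lit 5) (nat_lit 305) (nat_lit 252) (nat_lit 163))))) (XT.nd (nat_lit 234) (nat_lit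 304) (nat_lit 0) (XT.nd (nat_lit 78) (nat_lit 152) (nat_lit 0) (XT.lf (nat_lit 0) (nat_lit 18828817938) (nat_lit 228) (nat_lit 9967514811) (nat_lit 76) (nat_lit 13938783518) (nat_lit 23) (nat_lit 5) (nat_lit 26) (nat_lit 5) (nat_lit 24) (nat_lit 5) (nat_lit 306) (nat_lit 252) (nat_lit 162)) (XT.nd (nat_lit 78) (nat_lit 0) (nat_lit 0) (XT.lf (nat_lit 0) (nat_lit 10600012960) (nat_lit 152) (nat_lit 17363071444) (nat_lit 228) (nat_lit 16517795301) (nat_lit 21) (nat_lit 5) (nat_lit 23) (nat_lit 5) (nat_lit 24) (nat_lit 5) (nat_lit 307) (nat_lit 252) (nat_lit 161)) (XT.lf (nat_lit 0) (nat_lit 32380389697) (nat_lit 152) (nat_lit 5261875663) (nat_lit 228) (nat_lit 8669033827) (nat_lit 21) (nat_lit 5) (nat_lit 23) (nat_lit 5) (nat_lit 24) (nat_lit 5) (nat_lit 308) (nat_lit 252) (nat_lit 160)))) (XT.nd (nat_lit 78) (nat_lit 228) (nat_lit 0) (XT.lf (nat_lit 0) (nat_lit 7059722736) (nat_lit 76) (nat_lit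 40871299132) (nat_lit 152) (nat_lit 298462525) (nat_lit 20) (nat_lit 5) (nat_lit 21) (nat_lit 5) (nat_lit 22) (nat_lit 4) (nat_lit 309) (nat_lit 252) (nat_lit 159)) (XT.nd (nat_lit 78) (nat_lit 152) (nat_lit 0) (XT.lf (nat_lit 0) (nat_lit 8509382063) (nat_lit 152) (nat_lit 21007066201) (nat_lit 76) (nat_lit 20719161497) (nat_lit 19) (nat_lit 5) (nat_lit 21) (nat_lit 5) (nat_lit 20) (nat_lit 5) (nat_lit 310) (nat_lit 252) (nat_lit 158)) (XT.lf (nat_lit 0) (nat_lit 141955258) (nat_lit 152) (nat_lit 17598048106) (nat_lit 228) (nat_lit 34602304331) (nat_lit 17) (nat_lit 5) (nat_lit 19) (nat_lit 5) (nat_lit 20) (nat_lit 5) (nat_lit 311) (nat_lit 252) (nat_lit 157))))))) (XT.nd (nat_lit 858) (nat_lit 228) (nat_lit 0) (XT.nd (nat_lit 390) (nat_lit 228) (nat_lit 0) (XT.nd (nat_lit 156) (nat_lit 152) (nat_lit 0) (XT.nd (nat_lit 78) (nat_lit 0) (nat_lit 0) (XT.lf (nat_lit 0) (nat_lit 22766465510)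 (nat_lit 152) (nat_lit 4869485877) (nat_lit 228) (nat_lit 26912286375) (nat_lit 17) (nat_lit 5) (nat_lit 19) (nat_lit 5) (nat_lit 20) (nat_lit 5) (nat_lit 312) (nat_lit 252) (nat_lit 156)) (XT.lf (nat_lit 0) (nat_lit 38096422505) (nat_lit 228) (nat_lit 10444166319) (nat_lit 76) (nat_lit 8321794318) (nat_lit 17) (nat_lit 5) (nat_lit 20) (nat_lit 5) (nat_lit 18) (nat_lit 4) (nat_lit 313) (nat_lit 252) (nat_lit 155))) (XT.nd (nat_lit 78) (nat_lit 76) (nat_lit 0) (XT.lf (nat_lit 0) (nat_lit 12128567549) (nat_lit 76) (nat_lit 37105715938) (nat_lit 152) (nat_lit 10053331392) (nat_lit 16) (nat_lit 5) (nat_lit 17) (nat_lit 5) (nat_lit 18) (nat_lit 4) (nat_lit 314) (nat_lit 252) (nat_lit 154)) (XT.nd (nat_lit 78) (nat_lit 76) (nat_lit 0) (XT.lf (nat_lit 0) (nat_lit 36029467499) (nat_lit 76) (nat_lit 24996075135) (nat_lit 152) (nat_lit 805680009) (nat_lit 16) (nat_lit 5) (nat_lit 17) (nat_lit 5) (nat_lit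 18) (nat_lit 4) (nat_lit 315) (nat_lit 252) (nat_lit 153)) (XT.lf (nat_lit 0) (nat_lit 8720001006) (nat_lit 152) (nat_lit 3480243620) (nat_lit 76) (nat_lit 52299525127) (nat_lit 15) (nat_lit 5) (nat_lit 17) (nat_lit 5) (nat_lit 16) (nat_lit 5) (nat_lit 316) (nat_lit 252) (nat_lit 152))))) (XT.nd (nat_lit 234) (nat_lit 76) (nat_lit 0) (XT.nd (nat_lit 78) (nat_lit 0) (nat_lit 0) (XT.lf (nat_lit 0) (nat_lit 18904600174) (nat_lit 228) (nat_lit 46981065127) (nat_lit 76) (nat_lit 1409869154) (nat_lit 13) (nat_lit 5) (nat_lit 16) (nat_lit 5) (nat_lit 14) (nat_lit 4) (nat_lit 317) (nat_lit 252) (nat_lit 151)) (XT.nd (nat_lit 78) (nat_lit 0) (nat_lit 0) (XT.lf (nat_lit 0) (nat_lit 29747911258) (nat_lit 228) (nat_lit 24998795999) (nat_lit 76) (nat_lit 15479903723) (nat_lit 13) (nat_lit 5) (nat_lit 16) (nat_lit 5) (nat_lit 14) (nat_lit 4) (nat_lit 318) (nat_lit 252) (nat_lit 150)) (XT.lf (nat_lit 0)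 (nat_lit 41124017594) (nat_lit 228) (nat_lit 1933540492) (nat_lit 76) (nat_lit 30246972019) (nat_lit 13) (nat_lit 5) (nat_lit 16) (nat_lit 5) (nat_lit 14) (nat_lit 4) (nat_lit 319) (nat_lit 252) (nat_lit 149)))) (XT.nd (nat_lit 78) (nat_lit 0) (nat_lit 0) (XT.lf (nat_lit 0) (nat_lit 22712827744) (nat_lit 76) (nat_lit 30565506999) (nat_lit 152) (nat_lit 23251735577) (nat_lit 12) (nat_lit 5) (nat_lit 13) (nat_lit 5) (nat_lit 14) (nat_lit 4) (nat_lit 320) (nat_lit 252) (nat_lit 148)) (XT.nd (nat_lit 78) (nat_lit 0) (nat_lit 0) (XT.lf (nat_lit 0) (nat_lit 48617000848) (nat_lit 76) (nat_lit 17434628447) (nat_lit 152) (nat_lit 13864927359) (nat_lit 12) (nat_lit 5) (nat_lit 13) (nat_lit 5) (nat_lit 14) (nat_lit 4) (nat_lit 321) (nat_lit 252) (nat_lit 147)) (XT.lf (nat_lit 0) (nat_lit 75802174173) (nat_lit 76) (nat_lit 3653183401) (nat_lit 152) (nat_lit 4017263280) (nat_lit 12) (nat_lit 5) (nat_lit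 13) (nat_lit 5) (nat_lit 14) (nat_lit 4) (nat_lit 322) (nat_lit 252) (nat_lit 146)))))) (XT.nd (nat_lit 390) (nat_lit 0) (nat_lit 0) (XT.nd (nat_lit 156) (nat_lit 76) (nat_lit 0) (XT.nd (nat_lit 78) (nat_lit 0) (nat_lit 0) (XT.lf (nat_lit 0) (nat_lit 6464976744) (nat_lit 152) (nat_lit 69900791494) (nat_lit 76) (nat_lit 10830935603) (nat_lit 10) (nat_lit 5) (nat_lit 12) (nat_lit 5) (nat_lit 11) (nat_lit 4) (nat_lit 323) (nat_lit 252) (nat_lit 145)) (XT.lf (nat_lit 0) (nat_lit 17497905105) (nat_lit 152) (nat_lit 47525429502) (nat_lit 76) (nat_lit 26079179170) (nat_lit 10) (nat_lit 5) (nat_lit 12) (nat_lit 5) (nat_lit 11) (nat_lit 4) (nat_lit 324) (nat_lit 252) (nat_lit 144))) (XT.nd (nat_lit 78) (nat_lit 76) (nat_lit 0) (XT.lf (nat_lit 0) (nat_lit 29075120304) (nat_lit 152) (nat_lit 24044142247) (nat_lit 76) (nat_lit 42084577997) (nat_lit 10) (nat_lit 5) (nat_lit 12) (nat_lit 5) (nat_lit 11)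 (nat_lit 4) (nat_lit 325) (nat_lit 252) (nat_lit 143)) (XT.nd (nat_lit 78) (nat_lit 0) (nat_lit 0) (XT.lf (nat_lit 0) (nat_lit 610898933) (nat_lit 76) (nat_lit 40619160540) (nat_lit 152) (nat_lit 58280213577) (nat_lit 9) (nat_lit 5) (nat_lit 10) (nat_lit 5) (nat_lit 11) (nat_lit 4) (nat_lit 326) (nat_lit 252) (nat_lit 142)) (XT.lf (nat_lit 0) (nat_lit 26989263362) (nat_lit 76) (nat_lit 27244205909) (nat_lit 152) (nat_lit 49791341234) (nat_lit 9) (nat_lit 5) (nat_lit 10) (nat_lit 5) (nat_lit 11) (nat_lit 4) (nat_lit 327) (nat_lit 252) (nat_lit 141))))) (XT.nd (nat_lit 31746) (nat_lit 0) (nat_lit 13528) (XT.nd (nat_lit 78) (nat_lit 0) (nat_lit 0) (XT.lf (nat_lit 0) (nat_lit 54675231092) (nat_lit 76) (nat_lit 13205352220) (nat_lit 152) (nat_lit 40884690305) (nat_lit 9) (nat_lit 5) (nat_lit 10) (nat_lit 5) (nat_lit 11) (nat_lit 4) (nat_lit 328) (nat_lit 252) (nat_lit 140)) (XT.nd (nat_lit 31590)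 (nat_lit 0) (nat_lit 13528) (XT.lf (nat_lit 0) (nat_lit 82218609963) (nat_lit 152) (nat_lit 30022943349) (nat_lit 0) (nat_lit 1500954433) (nat_lit 9) (nat_lit 5) (nat_lit 11) (nat_lit 4) (nat_lit 9) (nat_lit 4) (nat_lit 329) (nat_lit 252) (nat_lit 139)) (XT.lf (nat_lit 0) (nat_lit 255423155) (nat_lit 988) (nat_lit 1987815199) (nat_lit 988) (nat_lit 1987815199) (nat_lit 187) (nat_lit 3) (nat_lit 200) (nat_lit 3) (nat_lit 200) (nat_lit 5) (nat_lit 253) (nat_lit 253) (nat_lit 214)))) (XT.nd (nat_lit 78) (nat_lit 0) (nat_lit 76) (XT.lf (nat_lit 76) (nat_lit 2097303996) (nat_lit 0) (nat_lit 20808594) (nat_lit 988) (nat_lit 6503910180) (nat_lit 188) (nat_lit 5) (nat_lit 187) (nat_lit 3) (nat_lit 200) (nat_lit 5) (nat_lit 254) (nat_lit 253) (nat_lit 213)) (XT.nd (nat_lit 78) (nat_lit 0) (nat_lit 76) (XT.lf (nat_lit 0) (nat_lit 3791122562) (nat_lit 912) (nat_lit 333823443) (nat_lit 988) (nat_lit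 4665670185) (nat_lit 188) (nat_lit 5) (nat_lit 200) (nat_lit 5) (nat_lit 201) (nat_lit 5) (nat_lit 255) (nat_lit 253) (nat_lit 212)) (XT.lf (nat_lit 0) (nat_lit 5518836179) (nat_lit 912) (nat_lit 2741932983) (nat_lit 988) (nat_lit 707970322) (nat_lit 189) (nat_lit 5) (nat_lit 201) (nat_lit 5) (nat_lit 202) (nat_lit 5) (nat_lit 256) (nat_lit 253) (nat_lit 211))))))))
noncomputable def xc75 : XT := (XT.nd (nat_lit 1716) (nat_lit 4104) (nat_lit 0) (XT.nd (nat_lit 858) (nat_lit 3800) (nat_lit 0) (XT.nd (nat_lit 390) (nat_lit 3268) (nat_lit 0) (XT.nd (nat_lit 156) (nat_lit 912) (nat_lit 0) (XT.nd (nat_lit 78) (nat_lit 0) (nat_lit 76) (XT.lf (nat_lit 76) (nat_lit 3946209220) (nat_lit 0) (nat_lit 3378187983) (nat_lit 988) (nat_lit 1831848647) (nat_lit 190) (nat_lit 5) (nat_lit 189) (nat_lit 5) (nat_lit 202) (nat_lit 5) (nat_lit 257) (nat_lit 253) (nat_lit 210)) (XT.lf (nat_lit 76) (nat_lit 1631049740)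 (nat_lit 0) (nat_lit 7562762293) (nat_lit 988) (nat_lit 160318473) (nat_lit 191) (nat_lit 5) (nat_lit 190) (nat_lit 5) (nat_lit 203) (nat_lit 5) (nat_lit 258) (nat_lit 253) (nat_lit 209))) (XT.nd (nat_lit 78) (nat_lit 0) (nat_lit 76) (XT.lf (nat_lit 0) (nat_lit 1567112927) (nat_lit 988) (nat_lit 744895335) (nat_lit 1064) (nat_lit 7249532289) (nat_lit 177) (nat_lit 5) (nat_lit 190) (nat_lit 5) (nat_lit 191) (nat_lit 5) (nat_lit 259) (nat_lit 253) (nat_lit 208)) (XT.nd (nat_lit 78) (nat_lit 0) (nat_lit 0) (XT.lf (nat_lit 0) (nat_lit 3392501212) (nat_lit 988) (nat_lit 3156132195) (nat_lit 1064) (nat_lit 3230378189) (nat_lit 178) (nat_lit 5) (nat_lit 191) (nat_lit 5) (nat_lit 192) (nat_lit 5) (nat_lit 260) (nat_lit 253) (nat_lit 207)) (XT.lf (nat_lit 76) (nat_lit 4373300273) (nat_lit 0) (nat_lit 931764848) (nat_lit 1064) (nat_lit 4702590214) (nat_lit 179) (nat_lit 5) (nat_lit 178) (nat_lit 5)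 (nat_lit 192) (nat_lit 5) (nat_lit 261) (nat_lit 253) (nat_lit 206))))) (XT.nd (nat_lit 234) (nat_lit 2432) (nat_lit 0) (XT.nd (nat_lit 78) (nat_lit 988) (nat_lit 0) (XT.lf (nat_lit 76) (nat_lit 2032934982) (nat_lit 0) (nat_lit 5306539681) (nat_lit 1064) (nat_lit 2907638007) (nat_lit 180) (nat_lit 5) (nat_lit 179) (nat_lit 5) (nat_lit 193) (nat_lit 5) (nat_lit 262) (nat_lit 253) (nat_lit 205)) (XT.nd (nat_lit 78) (nat_lit 1064) (nat_lit 0) (XT.lf (nat_lit 0) (nat_lit 9478416406) (nat_lit 988) (nat_lit 368899062) (nat_lit 76) (nat_lit 651302986) (nat_lit 180) (nat_lit 5) (nat_lit 193) (nat_lit 5) (nat_lit 181) (nat_lit 5) (nat_lit 263) (nat_lit 253) (nat_lit 204)) (XT.lf (nat_lit 0) (nat_lit 1005577029) (nat_lit 1064) (nat_lit 2856442540) (nat_lit 76) (nat_lit 6898668463) (nat_lit 166) (nat_lit 5) (nat_lit 180) (nat_lit 5) (nat_lit 167) (nat_lit 5) (nat_lit 264) (nat_lit 253) (nat_lit 203))))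 (XT.nd (nat_lit 78) (nat_lit 1368) (nat_lit 0) (XT.lf (nat_lit 0) (nat_lit 3128078161) (nat_lit 1140) (nat_lit 5452882350) (nat_lit 76) (nat_lit 2454242416) (nat_lit 152) (nat_lit 5) (nat_lit 167) (nat_lit 5) (nat_lit 153) (nat_lit 5) (nat_lit 265) (nat_lit 253) (nat_lit 202)) (XT.nd (nat_lit 78) (nat_lit 532) (nat_lit 0) (XT.lf (nat_lit 0) (nat_lit 3146765070) (nat_lit 836) (nat_lit 2246099493) (nat_lit 912) (nat_lit 5929628331) (nat_lit 141) (nat_lit 5) (nat_lit 152) (nat_lit 5) (nat_lit 153) (nat_lit 5) (nat_lit 266) (nat_lit 253) (nat_lit 201)) (XT.lf (nat_lit 0) (nat_lit 580375551) (nat_lit 532) (nat_lit 7234897619) (nat_lit 608) (nat_lit 3807670450) (nat_lit 134) (nat_lit 5) (nat_lit 141) (nat_lit 5) (nat_lit 142) (nat_lit 5) (nat_lit 267) (nat_lit 253) (nat_lit 200)))))) (XT.nd (nat_lit 390) (nat_lit 2204) (nat_lit 0) (XT.nd (nat_lit 156) (nat_lit 988) (nat_lit 0) (XT.nd (nat_lit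 78) (nat_lit 608) (nat_lit 0) (XT.lf (nat_lit 0) (nat_lit 9867688083) (nat_lit 532) (nat_lit 539837409) (nat_lit 608) (nat_lit 1529551352) (nat_lit 134) (nat_lit 5) (nat_lit 141) (nat_lit 5) (nat_lit 142) (nat_lit 5) (nat_lit 268) (nat_lit 253) (nat_lit 199)) (XT.lf (nat_lit 0) (nat_lit 924539017) (nat_lit 608) (nat_lit 4893203404) (nat_lit 76) (nat_lit 6446671229) (nat_lit 126) (nat_lit 5) (nat_lit 134) (nat_lit 5) (nat_lit 127) (nat_lit 5) (nat_lit 269) (nat_lit 253) (nat_lit 198))) (XT.nd (nat_lit 78) (nat_lit 532) (nat_lit 0) (XT.lf (nat_lit 0) (nat_lit 3500897639) (nat_lit 532) (nat_lit 7881418888) (nat_lit 76) (nat_lit 1224517667) (nat_lit 120) (nat_lit 5) (nat_lit 127) (nat_lit 5) (nat_lit 121) (nat_lit 5) (nat_lit 270) (nat_lit 253) (nat_lit 197)) (XT.nd (nat_lit 78) (nat_lit 0) (nat_lit 0) (XT.lf (nat_lit 0) (nat_lit 1886649386) (nat_lit 532) (nat_lit 4395598893) (nat_lit 608) (nat_lit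 6681944302) (nat_lit 113) (nat_lit 5) (nat_lit 120) (nat_lit 5) (nat_lit 121) (nat_lit 5) (nat_lit 271) (nat_lit 253) (nat_lit 196)) (XT.lf (nat_lit 0) (nat_lit 9263252285) (nat_lit 608) (nat_lit 1111571507) (nat_lit 76) (nat_lit 2962874697) (nat_lit 113) (nat_lit 5) (nat_lit 121) (nat_lit 5) (nat_lit 114) (nat_lit 5) (nat_lit 272) (nat_lit 253) (nat_lit 195))))) (XT.nd (nat_lit 234) (nat_lit 836) (nat_lit 0) (XT.nd (nat_lit 78) (nat_lit 912) (nat_lit 0) (XT.lf (nat_lit 0) (nat_lit 9441778502) (nat_lit 456) (nat_lit 3039401451) (nat_lit 532) (nat_lit 1246156085) (nat_lit 107) (nat_lit 5) (nat_lit 113) (nat_lit 5) (nat_lit 114) (nat_lit 5) (nat_lit 273) (nat_lit 253) (nat_lit 194)) (XT.nd (nat_lit 78) (nat_lit 380) (nat_lit 0) (XT.lf (nat_lit 0) (nat_lit 1763317764) (nat_lit 532) (nat_lit 7711761847) (nat_lit 76) (nat_lit 4658762339) (nat_lit 100) (nat_lit 5) (nat_lit 107) (nat_lit 5) (nat_lit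 101) (nat_lit 5) (nat_lit 274) (nat_lit 253) (nat_lit 193)) (XT.lf (nat_lit 0) (nat_lit 3163070765) (nat_lit 380) (nat_lit 1795960683) (nat_lit 456) (nat_lit 9599506908) (nat_lit 95) (nat_lit 5) (nat_lit 100) (nat_lit 5) (nat_lit 101) (nat_lit 5) (nat_lit 275) (nat_lit 253) (nat_lit 192)))) (XT.nd (nat_lit 78) (nat_lit 836) (nat_lit 0) (XT.lf (nat_lit 0) (nat_lit 8412192314) (nat_lit 456) (nat_lit 370443544) (nat_lit 76) (nat_lit 6218981499) (nat_lit 95) (nat_lit 5) (nat_lit 101) (nat_lit 5) (nat_lit 96) (nat_lit 5) (nat_lit 276) (nat_lit 253) (nat_lit 191)) (XT.nd (nat_lit 78) (nat_lit 456) (nat_lit 0) (XT.lf (nat_lit 0) (nat_lit 11361674351) (nat_lit 380) (nat_lit 762961569) (nat_lit 456) (nat_lit 3339689571) (nat_lit 90) (nat_lit 5) (nat_lit 95) (nat_lit 5) (nat_lit 96) (nat_lit 5) (nat_lit 277) (nat_lit 253) (nat_lit 190)) (XT.lf (nat_lit 0) (nat_lit 185009328) (nat_lit 456) (nat_lit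 8180187992) (nat_lit 76) (nat_lit 7581602386) (nat_lit 84) (nat_lit 5) (nat_lit 90) (nat_lit 5) (nat_lit 85) (nat_lit 5) (nat_lit 278) (nat_lit 253) (nat_lit 189))))))) (XT.nd (nat_lit 858) (nat_lit 1596) (nat_lit 0) (XT.nd (nat_lit 390) (nat_lit 1140) (nat_lit 0) (XT.nd (nat_lit 156) (nat_lit 988) (nat_lit 0) (XT.nd (nat_lit 78) (nat_lit 0) (nat_lit 0) (XT.lf (nat_lit 0) (nat_lit 3849213139) (nat_lit 380) (nat_lit 17348559) (nat_lit 456) (nat_lit 12584418391) (nat_lit 79) (nat_lit 5) (nat_lit 84) (nat_lit 5) (nat_lit 85) (nat_lit 5) (nat_lit 279) (nat_lit 253) (nat_lit 188)) (XT.lf (nat_lit 0) (nat_lit 7864317770) (nat_lit 456) (nat_lit 458490994) (nat_lit 76) (nat_lit 8653658944) (nat_lit 79) (nat_lit 5) (nat_lit 85) (nat_lit 5) (nat_lit 80) (nat_lit 5) (nat_lit 280) (nat_lit 253) (nat_lit 187))) (XT.nd (nat_lit 78) (nat_lit 684) (nat_lit 0) (XT.lf (nat_lit 0) (nat_lit 12150271444) (nat_lit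 380) (nat_lit 5038051653) (nat_lit 76) (nat_lit 337316360) (nat_lit 75) (nat_lit 5) (nat_lit 80) (nat_lit 5) (nat_lit 76) (nat_lit 5) (nat_lit 281) (nat_lit 253) (nat_lit 186)) (XT.nd (nat_lit 78) (nat_lit 380) (nat_lit 0) (XT.lf (nat_lit 0) (nat_lit 8016570549) (nat_lit 304) (nat_lit 8765713104) (nat_lit 380) (nat_lit 1316089551) (nat_lit 71) (nat_lit 5) (nat_lit 75) (nat_lit 5) (nat_lit 76) (nat_lit 5) (nat_lit 282) (nat_lit 253) (nat_lit 185)) (XT.lf (nat_lit 0) (nat_lit 2939530975) (nat_lit 380) (nat_lit 15579844588) (nat_lit 76) (nat_lit 178044419) (nat_lit 66) (nat_lit 5) (nat_lit 71) (nat_lit 5) (nat_lit 67) (nat_lit 5) (nat_lit 283) (nat_lit 253) (nat_lit 184))))) (XT.nd (nat_lit 234) (nat_lit 608) (nat_lit 0) (XT.nd (nat_lit 78) (nat_lit 532) (nat_lit 0) (XT.lf (nat_lit 0) (nat_lit 7542088952) (nat_lit 380) (nat_lit 2281828347) (nat_lit 76) (nat_lit 9497319146) (nat_lit 66) (nat_lit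 5) (nat_lit 71) (nat_lit 5) (nat_lit 67) (nat_lit 5) (nat_lit 284) (nat_lit 253) (nat_lit 183)) (XT.nd (nat_lit 78) (nat_lit 228) (nat_lit 0) (XT.lf (nat_lit 0) (nat_lit 11871468108) (nat_lit 304) (nat_lit 586790978) (nat_lit 380) (nat_lit 7515527281) (nat_lit 62) (nat_lit 5) (nat_lit 66) (nat_lit 5) (nat_lit 67) (nat_lit 5) (nat_lit 285) (nat_lit 253) (nat_lit 182)) (XT.lf (nat_lit 0) (nat_lit 6112380880) (nat_lit 228) (nat_lit 11648267166) (nat_lit 304) (nat_lit 2894148345) (nat_lit 59) (nat_lit 5) (nat_lit 62) (nat_lit 5) (nat_lit 63) (nat_lit 5) (nat_lit 286) (nat_lit 253) (nat_lit 181)))) (XT.nd (nat_lit 78) (nat_lit 532) (nat_lit 0) (XT.lf (nat_lit 0) (nat_lit 1981285997) (nat_lit 304) (nat_lit 226165614) (nat_lit 76) (nat_lit 19160046107) (nat_lit 58) (nat_lit 5) (nat_lit 62) (nat_lit 5) (nat_lit 59) (nat_lit 5) (nat_lit 287) (nat_lit 253) (nat_lit 180)) (XT.nd (nat_lit 78) (nat_lit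 228) (nat_lit 0) (XT.lf (nat_lit 0) (nat_lit 7233794095) (nat_lit 380) (nat_lit 7155614346) (nat_lit 76) (nat_lit 7719810853) (nat_lit 54) (nat_lit 5) (nat_lit 59) (nat_lit 5) (nat_lit 55) (nat_lit 5) (nat_lit 288) (nat_lit 253) (nat_lit 179)) (XT.lf (nat_lit 0) (nat_lit 8106948868) (nat_lit 228) (nat_lit 4717814449) (nat_lit 304) (nat_lit 10061026229) (nat_lit 51) (nat_lit 5) (nat_lit 54) (nat_lit 5) (nat_lit 55) (nat_lit 5) (nat_lit 289) (nat_lit 253) (nat_lit 178)))))) (XT.nd (nat_lit 390) (nat_lit 836) (nat_lit 0) (XT.nd (nat_lit 156) (nat_lit 456) (nat_lit 0) (XT.nd (nat_lit 78) (nat_lit 76) (nat_lit 0) (XT.lf (nat_lit 0) (nat_lit 502310553) (nat_lit 228) (nat_lit 18298541076) (nat_lit 304) (nat_lit 4897205440) (nat_lit 48) (nat_lit 5) (nat_lit 51) (nat_lit 5) (nat_lit 52) (nat_lit 5) (nat_lit 290) (nat_lit 253) (nat_lit 177)) (XT.lf (nat_lit 0) (nat_lit 690510629) (nat_lit 304) (nat_lit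 7781333867) (nat_lit 76) (nat_lit 16073696948) (nat_lit 47) (nat_lit 5) (nat_lit 51) (nat_lit 5) (nat_lit 48) (nat_lit 5) (nat_lit 291) (nat_lit 253) (nat_lit 176))) (XT.nd (nat_lit 78) (nat_lit 228) (nat_lit 0) (XT.lf (nat_lit 0) (nat_lit 6533657427) (nat_lit 304) (nat_lit 16966601232) (nat_lit 76) (nat_lit 1931398558) (nat_lit 44) (nat_lit 5) (nat_lit 48) (nat_lit 5) (nat_lit 45) (nat_lit 5) (nat_lit 292) (nat_lit 253) (nat_lit 175)) (XT.nd (nat_lit 78) (nat_lit 228) (nat_lit 0) (XT.lf (nat_lit 0) (nat_lit 12811967413) (nat_lit 304) (nat_lit 794588958) (nat_lit 76) (nat_lit 12751262322) (nat_lit 44) (nat_lit 5) (nat_lit 48) (nat_lit 5) (nat_lit 45) (nat_lit 5) (nat_lit 293) (nat_lit 253) (nat_lit 174)) (XT.lf (nat_lit 0) (nat_lit 16474176264) (nat_lit 228) (nat_lit 3066093077) (nat_lit 304) (nat_lit 7785965263) (nat_lit 41) (nat_lit 5) (nat_lit 44) (nat_lit 5) (nat_lit 45) (nat_lit 5)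 (nat_lit 294) (nat_lit 253) (nat_lit 173))))) (XT.nd (nat_lit 234) (nat_lit 380) (nat_lit 0) (XT.nd (nat_lit 78) (nat_lit 304) (nat_lit 0) (XT.lf (nat_lit 0) (nat_lit 6293030498) (nat_lit 152) (nat_lit 20435985697) (nat_lit 228) (nat_lit 1610361512) (nat_lit 39) (nat_lit 5) (nat_lit 41) (nat_lit 5) (nat_lit 42) (nat_lit 5) (nat_lit 295) (nat_lit 253) (nat_lit 172)) (XT.nd (nat_lit 78) (nat_lit 228) (nat_lit 0) (XT.lf (nat_lit 0) (nat_lit 4901530749) (nat_lit 228) (nat_lit 4989016105) (nat_lit 76) (nat_lit 19507572242) (nat_lit 38) (nat_lit 5) (nat_lit 41) (nat_lit 5) (nat_lit 39) (nat_lit 5) (nat_lit 296) (nat_lit 253) (nat_lit 171)) (XT.lf (nat_lit 0) (nat_lit 11824769292) (nat_lit 304) (nat_lit 17388566185) (nat_lit 76) (nat_lit 1292436094) (nat_lit 35) (nat_lit 5) (nat_lit 39) (nat_lit 5) (nat_lit 36) (nat_lit 5) (nat_lit 297) (nat_lit 253) (nat_lit 170)))) (XT.nd (nat_lit 78) (nat_lit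 228) (nat_lit 0) (XT.lf (nat_lit 0) (nat_lit 443536409) (nat_lit 152) (nat_lit 18787019774) (nat_lit 228) (nat_lit 12434181781) (nat_lit 33) (nat_lit 5) (nat_lit 35) (nat_lit 5) (nat_lit 36) (nat_lit 5) (nat_lit 298) (nat_lit 253) (nat_lit 169)) (XT.nd (nat_lit 78) (nat_lit 228) (nat_lit 0) (XT.lf (nat_lit 0) (nat_lit 19500978414) (nat_lit 152) (nat_lit 7665730205) (nat_lit 228) (nat_lit 5710163571) (nat_lit 33) (nat_lit 5) (nat_lit 35) (nat_lit 5) (nat_lit 36) (nat_lit 5) (nat_lit 299) (nat_lit 253) (nat_lit 168)) (XT.lf (nat_lit 0) (nat_lit 1396754730) (nat_lit 228) (nat_lit 28761358163) (nat_lit 76) (nat_lit 3988939755) (nat_lit 30) (nat_lit 5) (nat_lit 33) (nat_lit 5) (nat_lit 31) (nat_lit 5) (nat_lit 300) (nat_lit 253) (nat_lit 167))))))))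
noncomputable def xc76 : XT := (XT.nd (nat_lit 1716) (nat_lit 228) (nat_lit 0) (XT.nd (nat_lit 858) (nat_lit 532) (nat_lit 0) (XT.nd (nat_lit 390) (nat_lit 456) (nat_lit 0) (XT.nd (nat_lit 156) (nat_lit 228) (nat_lit 0) (XT.nd (nat_lit 78) (nat_lit 152) (nat_lit 0) (XT.lf (nat_lit 0) (nat_lit 8940731631) (nat_lit 228) (nat_lit 10276339038) (nat_lit 76) (nat_lit 16256000339) (nat_lit 30) (nat_lit 5) (nat_lit 33) (nat_lit 5) (nat_lit 31) (nat_lit 5) (nat_lit 301) (nat_lit 253) (nat_lit 166)) (XT.lf (nat_lit 0) (nat_lit 9287266427) (nat_lit 152) (nat_lit 7647041017) (nat_lit 228) (nat_lit 19928929122) (nat_lit 28) (nat_lit 5) (nat_lit 30) (nat_lit 5) (nat_lit 31) (nat_lit 5) (nat_lit 302) (nat_lit 253) (nat_lit 165))) (XT.nd (nat_lit 78) (nat_lit 228) (nat_lit 0) (XT.lf (nat_lit 0) (nat_lit 25461249801) (nat_lit 228) (nat_lit 8346792507) (nat_lit 76) (nat_lit 4510874874) (nat_lit 28) (nat_lit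 5) (nat_lit 31) (nat_lit 5) (nat_lit 29) (nat_lit 5) (nat_lit 303) (nat_lit 253) (nat_lit 164)) (XT.nd (nat_lit 78) (nat_lit 76) (nat_lit 0) (XT.lf (nat_lit 0) (nat_lit 11975066150) (nat_lit 152) (nat_lit 22616133412) (nat_lit 228) (nat_lit 5250899038) (nat_lit 26) (nat_lit 5) (nat_lit 28) (nat_lit 5) (nat_lit 29) (nat_lit 5) (nat_lit 304) (nat_lit 253) (nat_lit 163)) (XT.lf (nat_lit 0) (nat_lit 2754296534) (nat_lit 228) (nat_lit 8003439440) (nat_lit 76) (nat_lit 30680784924) (nat_lit 25) (nat_lit 5) (nat_lit 28) (nat_lit 5) (nat_lit 26) (nat_lit 5) (nat_lit 305) (nat_lit 253) (nat_lit 162))))) (XT.nd (nat_lit 234) (nat_lit 152) (nat_lit 0) (XT.nd (nat_lit 78) (nat_lit 152) (nat_lit 0) (XT.lf (nat_lit 0) (nat_lit 11180819727) (nat_lit 228) (nat_lit 30096892243) (nat_lit 76) (nat_lit 1831617335) (nat_lit 23) (nat_lit 5) (nat_lit 26) (nat_lit 5) (nat_lit 24) (nat_lit 5) (nat_lit 306) (nat_lit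 253) (nat_lit 161)) (XT.nd (nat_lit 78) (nat_lit 152) (nat_lit 0) (XT.lf (nat_lit 0) (nat_lit 20206276951) (nat_lit 228) (nat_lit 9747601278) (nat_lit 76) (nat_lit 14904485575) (nat_lit 23) (nat_lit 5) (nat_lit 26) (nat_lit 5) (nat_lit 24) (nat_lit 5) (nat_lit 307) (nat_lit 253) (nat_lit 160)) (XT.lf (nat_lit 0) (nat_lit 11827713264) (nat_lit 152) (nat_lit 17955487425) (nat_lit 228) (nat_lit 16908656775) (nat_lit 21) (nat_lit 5) (nat_lit 23) (nat_lit 5) (nat_lit 24) (nat_lit 5) (nat_lit 308) (nat_lit 253) (nat_lit 159)))) (XT.nd (nat_lit 78) (nat_lit 152) (nat_lit 0) (XT.lf (nat_lit 0) (nat_lit 34663885044) (nat_lit 152) (nat_lit 5262362216) (nat_lit 228) (nat_lit 8688172860) (nat_lit 21) (nat_lit 5) (nat_lit 23) (nat_lit 5) (nat_lit 24) (nat_lit 5) (nat_lit 309) (nat_lit 253) (nat_lit 158)) (XT.nd (nat_lit 78) (nat_lit 0) (nat_lit 0) (XT.lf (nat_lit 0) (nat_lit 88400530) (nat_lit 152) (nat_lit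 42561939794) (nat_lit 76) (nat_lit 7978479804) (nat_lit 19) (nat_lit 5) (nat_lit 21) (nat_lit 5) (nat_lit 20) (nat_lit 5) (nat_lit 310) (nat_lit 253) (nat_lit 157)) (XT.lf (nat_lit 0) (nat_lit 9311680594) (nat_lit 152) (nat_lit 21425707615) (nat_lit 76) (nat_lit 21998355509) (nat_lit 19) (nat_lit 5) (nat_lit 21) (nat_lit 5) (nat_lit 20) (nat_lit 5) (nat_lit 311) (nat_lit 253) (nat_lit 156)))))) (XT.nd (nat_lit 390) (nat_lit 304) (nat_lit 0) (XT.nd (nat_lit 156) (nat_lit 76) (nat_lit 0) (XT.nd (nat_lit 78) (nat_lit 0) (nat_lit 0) (XT.lf (nat_lit 0) (nat_lit 762657022) (nat_lit 152) (nat_lit 18229130016) (nat_lit 228) (nat_lit 35956367156) (nat_lit 17) (nat_lit 5) (nat_lit 19) (nat_lit 5) (nat_lit 20) (nat_lit 5) (nat_lit 312) (nat_lit 253) (nat_lit 155)) (XT.lf (nat_lit 0) (nat_lit 24489173549) (nat_lit 152) (nat_lit 4875988271) (nat_lit 228) (nat_lit 27899755560) (nat_lit 17) (nat_lit 5)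 (nat_lit 19) (nat_lit 5) (nat_lit 20) (nat_lit 5) (nat_lit 313) (nat_lit 253) (nat_lit 154))) (XT.nd (nat_lit 78) (nat_lit 76) (nat_lit 0) (XT.lf (nat_lit 0) (nat_lit 40334282471) (nat_lit 228) (nat_lit 10401765954) (nat_lit 76) (nat_lit 8959167582) (nat_lit 17) (nat_lit 5) (nat_lit 20) (nat_lit 5) (nat_lit 18) (nat_lit 4) (nat_lit 314) (nat_lit 253) (nat_lit 153)) (XT.nd (nat_lit 78) (nat_lit 0) (nat_lit 0) (XT.lf (nat_lit 0) (nat_lit 13283420213) (nat_lit 76) (nat_lit 38735029086) (nat_lit 152) (nat_lit 10223591700) (nat_lit 16) (nat_lit 5) (nat_lit 17) (nat_lit 5) (nat_lit 18) (nat_lit 4) (nat_lit 315) (nat_lit 253) (nat_lit 152)) (XT.lf (nat_lit 0) (nat_lit 38353249718) (nat_lit 76) (nat_lit 26030666845) (nat_lit 152) (nat_lit 529386618) (nat_lit 16) (nat_lit 5) (nat_lit 17) (nat_lit 5) (nat_lit 18) (nat_lit 4) (nat_lit 316) (nat_lit 253) (nat_lit 151))))) (XT.nd (nat_lit 234) (nat_lit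 76) (nat_lit 0) (XT.nd (nat_lit 78) (nat_lit 152) (nat_lit 0) (XT.lf (nat_lit 0) (nat_lit 9451619939) (nat_lit 152) (nat_lit 3150687894) (nat_lit 76) (nat_lit 55113334325) (nat_lit 15) (nat_lit 5) (nat_lit 17) (nat_lit 5) (nat_lit 16) (nat_lit 5) (nat_lit 317) (nat_lit 253) (nat_lit 150)) (XT.nd (nat_lit 78) (nat_lit 0) (nat_lit 0) (XT.lf (nat_lit 0) (nat_lit 20138024122) (nat_lit 228) (nat_lit 48834112407) (nat_lit 76) (nat_lit 1679293099) (nat_lit 13) (nat_lit 5) (nat_lit 16) (nat_lit 5) (nat_lit 14) (nat_lit 4) (nat_lit 318) (nat_lit 253) (nat_lit 149)) (XT.lf (nat_lit 0) (nat_lit 31509777240) (nat_lit 228) (nat_lit 25776349155) (nat_lit 76) (nat_lit 16443356516) (nat_lit 13) (nat_lit 5) (nat_lit 16) (nat_lit 5) (nat_lit 14) (nat_lit 4) (nat_lit 319) (nat_lit 253) (nat_lit 148)))) (XT.nd (nat_lit 78) (nat_lit 76) (nat_lit 0) (XT.lf (nat_lit 0) (nat_lit 43441618873) (nat_lit 228) (nat_lit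 1580325475) (nat_lit 76) (nat_lit 31939756436) (nat_lit 13) (nat_lit 5) (nat_lit 16) (nat_lit 5) (nat_lit 14) (nat_lit 4) (nat_lit 320) (nat_lit 253) (nat_lit 147)) (XT.nd (nat_lit 78) (nat_lit 0) (nat_lit 0) (XT.lf (nat_lit 0) (nat_lit 24285465108) (nat_lit 76) (nat_lit 31909939806) (nat_lit 152) (nat_lit 24153370687) (nat_lit 12) (nat_lit 5) (nat_lit 13) (nat_lit 5) (nat_lit 14) (nat_lit 4) (nat_lit 321) (nat_lit 253) (nat_lit 146)) (XT.lf (nat_lit 0) (nat_lit 51464037535) (nat_lit 76) (nat_lit 18131271733) (nat_lit 152) (nat_lit 14309648327) (nat_lit 12) (nat_lit 5) (nat_lit 13) (nat_lit 5) (nat_lit 14) (nat_lit 4) (nat_lit 322) (nat_lit 253) (nat_lit 145))))))) (XT.nd (nat_lit 32448) (nat_lit 0) (nat_lit 9500) (XT.nd (nat_lit 390) (nat_lit 0) (nat_lit 0) (XT.nd (nat_lit 156) (nat_lit 76) (nat_lit 0) (XT.nd (nat_lit 78) (nat_lit 152) (nat_lit 0) (XT.lf (nat_lit 0) (nat_lit 79988651114)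 (nat_lit 76) (nat_lit 3669091965) (nat_lit 152) (nat_lit 3981435587) (nat_lit 12) (nat_lit 5) (nat_lit 13) (nat_lit 5) (nat_lit 14) (nat_lit 4) (nat_lit 323) (nat_lit 253) (nat_lit 144)) (XT.lf (nat_lit 0) (nat_lit 7014577528) (nat_lit 152) (nat_lit 73000835506) (nat_lit 76) (nat_lit 11534164658) (nat_lit 10) (nat_lit 5) (nat_lit 12) (nat_lit 5) (nat_lit 11) (nat_lit 4) (nat_lit 324) (nat_lit 253) (nat_lit 143))) (XT.nd (nat_lit 78) (nat_lit 76) (nat_lit 0) (XT.lf (nat_lit 0) (nat_lit 18588373643) (nat_lit 152) (nat_lit 49525514726) (nat_lit 76) (nat_lit 27537121247) (nat_lit 10) (nat_lit 5) (nat_lit 12) (nat_lit 5) (nat_lit 11) (nat_lit 4) (nat_lit 325) (nat_lit 253) (nat_lit 142)) (XT.nd (nat_lit 78) (nat_lit 76) (nat_lit 0) (XT.lf (nat_lit 0) (nat_lit 30734184208) (nat_lit 152) (nat_lit 24888076740) (nat_lit 76) (nat_lit 44335457486) (nat_lit 10) (nat_lit 5) (nat_lit 12) (nat_lit 5) (nat_lit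 11) (nat_lit 4) (nat_lit 326) (nat_lit 253) (nat_lit 141)) (XT.lf (nat_lit 0) (nat_lit 989446687) (nat_lit 76) (nat_lit 42500992299) (nat_lit 152) (nat_lit 60989233893) (nat_lit 9) (nat_lit 5) (nat_lit 10) (nat_lit 5) (nat_lit 11) (nat_lit 4) (nat_lit 327) (nat_lit 253) (nat_lit 140))))) (XT.nd (nat_lit 31824) (nat_lit 0) (nat_lit 13528) (XT.nd (nat_lit 78) (nat_lit 0) (nat_lit 0) (XT.lf (nat_lit 0) (nat_lit 28670157775) (nat_lit 76) (nat_lit 28464391187) (nat_lit 152) (nat_lit 52085679379) (nat_lit 9) (nat_lit 5) (nat_lit 10) (nat_lit 5) (nat_lit 11) (nat_lit 4) (nat_lit 328) (nat_lit 253) (nat_lit 139)) (XT.nd (nat_lit 31668) (nat_lit 0) (nat_lit 13528) (XT.lf (nat_lit 0) (nat_lit 57724641450) (nat_lit 76) (nat_lit 13730357909) (nat_lit 152) (nat_lit 42742992519) (nat_lit 9) (nat_lit 5) (nat_lit 10) (nat_lit 5) (nat_lit 11) (nat_lit 4) (nat_lit 329) (nat_lit 253) (nat_lit 138)) (XT.lf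 (nat_lit 0) (nat_lit 1817949091) (nat_lit 988) (nat_lit 1287210849) (nat_lit 988) (nat_lit 1287210849) (nat_lit 187) (nat_lit 3) (nat_lit 200) (nat_lit 3) (nat_lit 200) (nat_lit 5) (nat_lit 254) (nat_lit 254) (nat_lit 212)))) (XT.nd (nat_lit 78) (nat_lit 0) (nat_lit 76) (XT.lf (nat_lit 76) (nat_lit 3756296018) (nat_lit 0) (nat_lit 1434575284) (nat_lit 988) (nat_lit 3766117875) (nat_lit 188) (nat_lit 5) (nat_lit 187) (nat_lit 3) (nat_lit 200) (nat_lit 5) (nat_lit 255) (nat_lit 254) (nat_lit 211)) (XT.nd (nat_lit 78) (nat_lit 0) (nat_lit 0) (XT.lf (nat_lit 76) (nat_lit 1258657314) (nat_lit 0) (nat_lit 5546761402) (nat_lit 988) (nat_lit 2333196428) (nat_lit 189) (nat_lit 5) (nat_lit 188) (nat_lit 5) (nat_lit 201) (nat_lit 5) (nat_lit 256) (nat_lit 254) (nat_lit 210)) (XT.lf (nat_lit 76) (nat_lit 8084841831) (nat_lit 0) (nat_lit 396149601) (nat_lit 988) (nat_lit 849132284) (nat_lit 189) (nat_lit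 5) (nat_lit 188) (nat_lit 5) (nat_lit 201) (nat_lit 5) (nat_lit 257) (nat_lit 254) (nat_lit 209)))))) (XT.nd (nat_lit 390) (nat_lit 3192) (nat_lit 0) (XT.nd (nat_lit 156) (nat_lit 0) (nat_lit 76) (XT.nd (nat_lit 78) (nat_lit 0) (nat_lit 76) (XT.lf (nat_lit 0) (nat_lit 715537386) (nat_lit 988) (nat_lit 3803680691) (nat_lit 1064) (nat_lit 5011372341) (nat_lit 176) (nat_lit 5) (nat_lit 189) (nat_lit 5) (nat_lit 190) (nat_lit 5) (nat_lit 258) (nat_lit 254) (nat_lit 208)) (XT.lf (nat_lit 0) (nat_lit 2319335295) (nat_lit 988) (nat_lit 6417442375) (nat_lit 1064) (nat_lit 1004882030) (nat_lit 177) (nat_lit 5) (nat_lit 190) (nat_lit 5) (nat_lit 191) (nat_lit 5) (nat_lit 259) (nat_lit 254) (nat_lit 207))) (XT.nd (nat_lit 78) (nat_lit 0) (nat_lit 76) (XT.lf (nat_lit 76) (nat_lit 844019565) (nat_lit 0) (nat_lit 3175643080) (nat_lit 1064) (nat_lit 5943305940) (nat_lit 178) (nat_lit 5) (nat_lit 177) (nat_lit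 5) (nat_lit 191) (nat_lit 5) (nat_lit 260) (nat_lit 254) (nat_lit 206)) (XT.nd (nat_lit 78) (nat_lit 0) (nat_lit 0) (XT.lf (nat_lit 0) (nat_lit 5823790530) (nat_lit 988) (nat_lit 1670396454) (nat_lit 1064) (nat_lit 2700760339) (nat_lit 178) (nat_lit 5) (nat_lit 191) (nat_lit 5) (nat_lit 192) (nat_lit 5) (nat_lit 261) (nat_lit 254) (nat_lit 205)) (XT.lf (nat_lit 76) (nat_lit 6188395826) (nat_lit 0) (nat_lit 1551234377) (nat_lit 1064) (nat_lit 2698409568) (nat_lit 179) (nat_lit 5) (nat_lit 178) (nat_lit 5) (nat_lit 192) (nat_lit 5) (nat_lit 262) (nat_lit 254) (nat_lit 204))))) (XT.nd (nat_lit 234) (nat_lit 2432) (nat_lit 0) (XT.nd (nat_lit 78) (nat_lit 988) (nat_lit 0) (XT.lf (nat_lit 76) (nat_lit 3758591785) (nat_lit 0) (nat_lit 6024234200) (nat_lit 1064) (nat_lit 909666252) (nat_lit 180) (nat_lit 5) (nat_lit 179) (nat_lit 5) (nat_lit 193) (nat_lit 5) (nat_lit 263) (nat_lit 254) (nat_lit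 203)) (XT.nd (nat_lit 78) (nat_lit 0) (nat_lit 0) (XT.lf (nat_lit 0) (nat_lit 959116069) (nat_lit 1064) (nat_lit 9717243820) (nat_lit 76) (nat_lit 282883946) (nat_lit 166) (nat_lit 5) (nat_lit 180) (nat_lit 5) (nat_lit 167) (nat_lit 5) (nat_lit 264) (nat_lit 254) (nat_lit 202)) (XT.lf (nat_lit 0) (nat_lit 2973246456) (nat_lit 1064) (nat_lit 1388657374) (nat_lit 76) (nat_lit 6875171454) (nat_lit 166) (nat_lit 5) (nat_lit 180) (nat_lit 5) (nat_lit 167) (nat_lit 5) (nat_lit 265) (nat_lit 254) (nat_lit 201)))) (XT.nd (nat_lit 78) (nat_lit 1368) (nat_lit 0) (XT.lf (nat_lit 0) (nat_lit 5122947015) (nat_lit 1140) (nat_lit 4099264519) (nat_lit 76) (nat_lit 2305668606) (nat_lit 152) (nat_lit 5) (nat_lit 167) (nat_lit 5) (nat_lit 153) (nat_lit 5) (nat_lit 266) (nat_lit 254) (nat_lit 200)) (XT.nd (nat_lit 78) (nat_lit 532) (nat_lit 0) (XT.lf (nat_lit 0) (nat_lit 4883748799) (nat_lit 836) (nat_lit 2544862507)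 (nat_lit 912) (nat_lit 4403281237) (nat_lit 141) (nat_lit 5) (nat_lit 152) (nat_lit 5) (nat_lit 153) (nat_lit 5) (nat_lit 267) (nat_lit 254) (nat_lit 199)) (XT.lf (nat_lit 0) (nat_lit 2200599539) (nat_lit 532) (nat_lit 7701029275) (nat_lit 608) (nat_lit 2248030521) (nat_lit 134) (nat_lit 5) (nat_lit 141) (nat_lit 5) (nat_lit 142) (nat_lit 5) (nat_lit 268) (nat_lit 254) (nat_lit 198))))))))
noncomputable def xc77 : XT := (XT.nd (nat_lit 1716) (nat_lit 2432) (nat_lit 0) (XT.nd (nat_lit 858) (nat_lit 2508) (nat_lit 0) (XT.nd (nat_lit 390) (nat_lit 1748) (nat_lit 0) (XT.nd (nat_lit 156) (nat_lit 1444) (nat_lit 0) (XT.nd (nat_lit 78) (nat_lit 532) (nat_lit 0) (XT.lf (nat_lit 0) (nat_lit 59476383) (nat_lit 608) (nat_lit 606168278) (nat_lit 76) (nat_lit 11816429044) (nat_lit 133) (nat_lit 5) (nat_lit 141) (nat_lit 5) (nat_lit 134) (nat_lit 5) (nat_lit 269) (nat_lit 254) (nat_lit 197)) (XT.lf (nat_lit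 0) (nat_lit 2540982923) (nat_lit 608) (nat_lit 3580199228) (nat_lit 76) (nat_lit 6706207435) (nat_lit 126) (nat_lit 5) (nat_lit 134) (nat_lit 5) (nat_lit 127) (nat_lit 5) (nat_lit 270) (nat_lit 254) (nat_lit 196))) (XT.nd (nat_lit 78) (nat_lit 988) (nat_lit 0) (XT.lf (nat_lit 0) (nat_lit 5185960341) (nat_lit 532) (nat_lit 6714216245) (nat_lit 76) (nat_lit 1288709986) (nat_lit 120) (nat_lit 5) (nat_lit 127) (nat_lit 5) (nat_lit 121) (nat_lit 5) (nat_lit 271) (nat_lit 254) (nat_lit 195)) (XT.nd (nat_lit 78) (nat_lit 456) (nat_lit 0) (XT.lf (nat_lit 0) (nat_lit 3497501850) (nat_lit 532) (nat_lit 4551548771) (nat_lit 608) (nat_lit 5516924417) (nat_lit 113) (nat_lit 5) (nat_lit 120) (nat_lit 5) (nat_lit 121) (nat_lit 5) (nat_lit 272) (nat_lit 254) (nat_lit 194)) (XT.lf (nat_lit 0) (nat_lit 327170955) (nat_lit 456) (nat_lit 10786487483) (nat_lit 532) (nat_lit 2846596740) (nat_lit 107) (nat_lit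 5) (nat_lit 113) (nat_lit 5) (nat_lit 114) (nat_lit 5) (nat_lit 273) (nat_lit 254) (nat_lit 193))))) (XT.nd (nat_lit 234) (nat_lit 836) (nat_lit 0) (XT.nd (nat_lit 78) (nat_lit 836) (nat_lit 0) (XT.lf (nat_lit 0) (nat_lit 64871424) (nat_lit 532) (nat_lit 3012641762) (nat_lit 76) (nat_lit 11293626276) (nat_lit 106) (nat_lit 5) (nat_lit 113) (nat_lit 5) (nat_lit 107) (nat_lit 5) (nat_lit 274) (nat_lit 254) (nat_lit 192)) (XT.nd (nat_lit 78) (nat_lit 380) (nat_lit 0) (XT.lf (nat_lit 0) (nat_lit 3150170925) (nat_lit 532) (nat_lit 6624991921) (nat_lit 76) (nat_lit 5024023310) (nat_lit 100) (nat_lit 5) (nat_lit 107) (nat_lit 5) (nat_lit 101) (nat_lit 5) (nat_lit 275) (nat_lit 254) (nat_lit 191)) (XT.lf (nat_lit 0) (nat_lit 4751377474) (nat_lit 380) (nat_lit 1706198075) (nat_lit 456) (nat_lit 8789098356) (nat_lit 95) (nat_lit 5) (nat_lit 100) (nat_lit 5) (nat_lit 101) (nat_lit 5) (nat_lit 276)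 (nat_lit 254) (nat_lit 190)))) (XT.nd (nat_lit 78) (nat_lit 456) (nat_lit 0) (XT.lf (nat_lit 0) (nat_lit 1029425402) (nat_lit 380) (nat_lit 9005956351) (nat_lit 456) (nat_lit 5678073750) (nat_lit 90) (nat_lit 5) (nat_lit 95) (nat_lit 5) (nat_lit 96) (nat_lit 5) (nat_lit 277) (nat_lit 254) (nat_lit 189)) (XT.nd (nat_lit 78) (nat_lit 456) (nat_lit 0) (XT.lf (nat_lit 0) (nat_lit 13287979312) (nat_lit 380) (nat_lit 591834322) (nat_lit 456) (nat_lit 2321197537) (nat_lit 90) (nat_lit 5) (nat_lit 95) (nat_lit 5) (nat_lit 96) (nat_lit 5) (nat_lit 278) (nat_lit 254) (nat_lit 188)) (XT.lf (nat_lit 0) (nat_lit 1316321415) (nat_lit 456) (nat_lit 7212141816) (nat_lit 76) (nat_lit 8180107800) (nat_lit 84) (nat_lit 5) (nat_lit 90) (nat_lit 5) (nat_lit 85) (nat_lit 5) (nat_lit 279) (nat_lit 254) (nat_lit 187)))))) (XT.nd (nat_lit 390) (nat_lit 1140) (nat_lit 0) (XT.nd (nat_lit 156) (nat_lit 684) (nat_lit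 0) (XT.nd (nat_lit 78) (nat_lit 304) (nat_lit 0) (XT.lf (nat_lit 0) (nat_lit 5143664197) (nat_lit 456) (nat_lit 11862298737) (nat_lit 76) (nat_lit 233236917) (nat_lit 79) (nat_lit 5) (nat_lit 85) (nat_lit 5) (nat_lit 80) (nat_lit 5) (nat_lit 280) (nat_lit 254) (nat_lit 186)) (XT.lf (nat_lit 0) (nat_lit 839131756) (nat_lit 304) (nat_lit 8458801022) (nat_lit 380) (nat_lit 8494416807) (nat_lit 75) (nat_lit 5) (nat_lit 79) (nat_lit 5) (nat_lit 80) (nat_lit 5) (nat_lit 281) (nat_lit 254) (nat_lit 185))) (XT.nd (nat_lit 78) (nat_lit 684) (nat_lit 0) (XT.lf (nat_lit 0) (nat_lit 13755745557) (nat_lit 380) (nat_lit 3994266780) (nat_lit 76) (nat_lit 620323103) (nat_lit 75) (nat_lit 5) (nat_lit 80) (nat_lit 5) (nat_lit 76) (nat_lit 5) (nat_lit 282) (nat_lit 254) (nat_lit 184)) (XT.nd (nat_lit 78) (nat_lit 380) (nat_lit 0) (XT.lf (nat_lit 0) (nat_lit 9675945912) (nat_lit 304) (nat_lit 8907988456) (nat_lit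 380) (nat_lit 388912663) (nat_lit 71) (nat_lit 5) (nat_lit 75) (nat_lit 5) (nat_lit 76) (nat_lit 5) (nat_lit 283) (nat_lit 254) (nat_lit 183)) (XT.lf (nat_lit 0) (nat_lit 4028614618) (nat_lit 380) (nat_lit 15089357404) (nat_lit 76) (nat_lit 484605225) (nat_lit 66) (nat_lit 5) (nat_lit 71) (nat_lit 5) (nat_lit 67) (nat_lit 5) (nat_lit 284) (nat_lit 254) (nat_lit 182))))) (XT.nd (nat_lit 234) (nat_lit 608) (nat_lit 0) (XT.nd (nat_lit 78) (nat_lit 532) (nat_lit 0) (XT.lf (nat_lit 0) (nat_lit 8816438251) (nat_lit 380) (nat_lit 1186891752) (nat_lit 76) (nat_lit 10255669471) (nat_lit 66) (nat_lit 5) (nat_lit 71) (nat_lit 5) (nat_lit 67) (nat_lit 5) (nat_lit 285) (nat_lit 254) (nat_lit 181)) (XT.nd (nat_lit 78) (nat_lit 228) (nat_lit 0) (XT.lf (nat_lit 0) (nat_lit 13639412981) (nat_lit 304) (nat_lit 307566743) (nat_lit 380) (nat_lit 6998206066) (nat_lit 62) (nat_lit 5) (nat_lit 66) (nat_lit 5)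 (nat_lit 67) (nat_lit 5) (nat_lit 286) (nat_lit 254) (nat_lit 180)) (XT.lf (nat_lit 0) (nat_lit 7582334824) (nat_lit 228) (nat_lit 11904941529) (nat_lit 304) (nat_lit 2173848965) (nat_lit 59) (nat_lit 5) (nat_lit 62) (nat_lit 5) (nat_lit 63) (nat_lit 5) (nat_lit 287) (nat_lit 254) (nat_lit 179)))) (XT.nd (nat_lit 78) (nat_lit 228) (nat_lit 0) (XT.lf (nat_lit 0) (nat_lit 906336584) (nat_lit 304) (nat_lit 1990466355) (nat_lit 380) (nat_lit 19513417496) (nat_lit 54) (nat_lit 5) (nat_lit 58) (nat_lit 5) (nat_lit 59) (nat_lit 5) (nat_lit 288) (nat_lit 254) (nat_lit 178)) (XT.nd (nat_lit 78) (nat_lit 228) (nat_lit 0) (XT.lf (nat_lit 0) (nat_lit 8378293926) (nat_lit 380) (nat_lit 6398072325) (nat_lit 76) (nat_lit 8413726284) (nat_lit 54) (nat_lit 5) (nat_lit 59) (nat_lit 5) (nat_lit 55) (nat_lit 5) (nat_lit 289) (nat_lit 254) (nat_lit 177)) (XT.lf (nat_lit 0) (nat_lit 9595648547) (nat_lit 228)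 (nat_lit 4626300234) (nat_lit 304) (nat_lit 9784400948) (nat_lit 51) (nat_lit 5) (nat_lit 54) (nat_lit 5) (nat_lit 55) (nat_lit 5) (nat_lit 290) (nat_lit 254) (nat_lit 176))))))) (XT.nd (nat_lit 858) (nat_lit 836) (nat_lit 0) (XT.nd (nat_lit 390) (nat_lit 836) (nat_lit 0) (XT.nd (nat_lit 156) (nat_lit 456) (nat_lit 0) (XT.nd (nat_lit 78) (nat_lit 76) (nat_lit 0) (XT.lf (nat_lit 0) (nat_lit 1599716338) (nat_lit 228) (nat_lit 18874432540) (nat_lit 304) (nat_lit 4385812572) (nat_lit 48) (nat_lit 5) (nat_lit 51) (nat_lit 5) (nat_lit 52) (nat_lit 5) (nat_lit 291) (nat_lit 254) (nat_lit 175)) (XT.lf (nat_lit 0) (nat_lit 1431222749) (nat_lit 304) (nat_lit 7134191833) (nat_lit 76) (nat_lit 17185292925) (nat_lit 47) (nat_lit 5) (nat_lit 51) (nat_lit 5) (nat_lit 48) (nat_lit 5) (nat_lit 292) (nat_lit 254) (nat_lit 174))) (XT.nd (nat_lit 78) (nat_lit 228) (nat_lit 0) (XT.lf (nat_lit 0) (nat_lit 7545691208)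 (nat_lit 304) (nat_lit 16790194026) (nat_lit 76) (nat_lit 2345912972) (nat_lit 44) (nat_lit 5) (nat_lit 48) (nat_lit 5) (nat_lit 45) (nat_lit 5) (nat_lit 293) (nat_lit 254) (nat_lit 173)) (XT.nd (nat_lit 78) (nat_lit 0) (nat_lit 0) (XT.lf (nat_lit 0) (nat_lit 144440401) (nat_lit 228) (nat_lit 13962228983) (nat_lit 304) (nat_lit 13548577759) (nat_lit 41) (nat_lit 5) (nat_lit 44) (nat_lit 5) (nat_lit 45) (nat_lit 5) (nat_lit 294) (nat_lit 254) (nat_lit 172)) (XT.lf (nat_lit 0) (nat_lit 18245850201) (nat_lit 228) (nat_lit 2902178506) (nat_lit 304) (nat_lit 7524795844) (nat_lit 41) (nat_lit 5) (nat_lit 44) (nat_lit 5) (nat_lit 45) (nat_lit 5) (nat_lit 295) (nat_lit 254) (nat_lit 171))))) (XT.nd (nat_lit 234) (nat_lit 380) (nat_lit 0) (XT.nd (nat_lit 78) (nat_lit 304) (nat_lit 0) (XT.lf (nat_lit 0) (nat_lit 7544668481) (nat_lit 152) (nat_lit 21133419891) (nat_lit 228) (nat_lit 1059118241) (nat_lit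 39) (nat_lit 5) (nat_lit 41) (nat_lit 5) (nat_lit 42) (nat_lit 5) (nat_lit 296) (nat_lit 254) (nat_lit 170)) (XT.nd (nat_lit 78) (nat_lit 228) (nat_lit 0) (XT.lf (nat_lit 0) (nat_lit 5736543866) (nat_lit 228) (nat_lit 4333653995) (nat_lit 76) (nat_lit 20779425128) (nat_lit 38) (nat_lit 5) (nat_lit 41) (nat_lit 5) (nat_lit 39) (nat_lit 5) (nat_lit 297) (nat_lit 254) (nat_lit 169)) (XT.lf (nat_lit 0) (nat_lit 12989266714) (nat_lit 304) (nat_lit 17364304934) (nat_lit 76) (nat_lit 1659620289) (nat_lit 35) (nat_lit 5) (nat_lit 39) (nat_lit 5) (nat_lit 36) (nat_lit 5) (nat_lit 298) (nat_lit 254) (nat_lit 168)))) (XT.nd (nat_lit 78) (nat_lit 228) (nat_lit 0) (XT.lf (nat_lit 0) (nat_lit 1333785358) (nat_lit 152) (nat_lit 19412603987) (nat_lit 228) (nat_lit 12484317839) (nat_lit 33) (nat_lit 5) (nat_lit 35) (nat_lit 5) (nat_lit 36) (nat_lit 5) (nat_lit 299) (nat_lit 254) (nat_lit 167)) (XT.nd (nat_lit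 78) (nat_lit 228) (nat_lit 0) (XT.lf (nat_lit 0) (nat_lit 21302762695) (nat_lit 152) (nat_lit 7750191215) (nat_lit 228) (nat_lit 5451316482) (nat_lit 33) (nat_lit 5) (nat_lit 35) (nat_lit 5) (nat_lit 36) (nat_lit 5) (nat_lit 300) (nat_lit 254) (nat_lit 166)) (XT.lf (nat_lit 0) (nat_lit 1985596042) (nat_lit 228) (nat_lit 29372313590) (nat_lit 76) (nat_lit 4480363255) (nat_lit 30) (nat_lit 5) (nat_lit 33) (nat_lit 5) (nat_lit 31) (nat_lit 5) (nat_lit 301) (nat_lit 254) (nat_lit 165)))))) (XT.nd (nat_lit 390) (nat_lit 456) (nat_lit 0) (XT.nd (nat_lit 156) (nat_lit 228) (nat_lit 0) (XT.nd (nat_lit 78) (nat_lit 152) (nat_lit 0) (XT.lf (nat_lit 0) (nat_lit 9882057332) (nat_lit 228) (nat_lit 10002429818) (nat_lit 76) (nat_lit 17346873225) (nat_lit 30) (nat_lit 5) (nat_lit 33) (nat_lit 5) (nat_lit 31) (nat_lit 5) (nat_lit 302) (nat_lit 254) (nat_lit 164)) (XT.lf (nat_lit 0) (nat_lit 10516775908)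 (nat_lit 152) (nat_lit 7742353503) (nat_lit 228) (nat_lit 20432415776) (nat_lit 28) (nat_lit 5) (nat_lit 30) (nat_lit 5) (nat_lit 31) (nat_lit 5) (nat_lit 303) (nat_lit 254) (nat_lit 163))) (XT.nd (nat_lit 78) (nat_lit 228) (nat_lit 0) (XT.lf (nat_lit 0) (nat_lit 27192279714) (nat_lit 228) (nat_lit 8023903401) (nat_lit 76) (nat_lit 5004455178) (nat_lit 28) (nat_lit 5) (nat_lit 31) (nat_lit 5) (nat_lit 29) (nat_lit 5) (nat_lit 304) (nat_lit 254) (nat_lit 162)) (XT.nd (nat_lit 78) (nat_lit 76) (nat_lit 0) (XT.lf (nat_lit 0) (nat_lit 13292829680) (nat_lit 152) (nat_lit 23471000877) (nat_lit 228) (nat_lit 5056618248) (nat_lit 26) (nat_lit 5) (nat_lit 28) (nat_lit 5) (nat_lit 29) (nat_lit 5) (nat_lit 305) (nat_lit 254) (nat_lit 161)) (XT.lf (nat_lit 0) (nat_lit 3318593671) (nat_lit 228) (nat_lit 7709922213) (nat_lit 76) (nat_lit 32468705856) (nat_lit 25) (nat_lit 5) (nat_lit 28) (nat_lit 5) (nat_lit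 26) (nat_lit 5) (nat_lit 306) (nat_lit 254) (nat_lit 160))))) (XT.nd (nat_lit 234) (nat_lit 152) (nat_lit 0) (XT.nd (nat_lit 78) (nat_lit 152) (nat_lit 0) (XT.lf (nat_lit 0) (nat_lit 12155116062) (nat_lit 228) (nat_lit 30917651833) (nat_lit 76) (nat_lit 2179162850) (nat_lit 23) (nat_lit 5) (nat_lit 26) (nat_lit 5) (nat_lit 24) (nat_lit 5) (nat_lit 307) (nat_lit 254) (nat_lit 159)) (XT.nd (nat_lit 78) (nat_lit 152) (nat_lit 0) (XT.lf (nat_lit 0) (nat_lit 21612072082) (nat_lit 228) (nat_lit 9583471797) (nat_lit 76) (nat_lit 15893485709) (nat_lit 23) (nat_lit 5) (nat_lit 26) (nat_lit 5) (nat_lit 24) (nat_lit 5) (nat_lit 308) (nat_lit 254) (nat_lit 158)) (XT.lf (nat_lit 0) (nat_lit 13051933081) (nat_lit 152) (nat_lit 18603159672) (nat_lit 228) (nat_lit 17359506130) (nat_lit 21) (nat_lit 5) (nat_lit 23) (nat_lit 5) (nat_lit 24) (nat_lit 5) (nat_lit 309) (nat_lit 254) (nat_lit 157)))) (XT.nd (nat_lit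 78) (nat_lit 152) (nat_lit 0) (XT.lf (nat_lit 0) (nat_lit 36999778491) (nat_lit 152) (nat_lit 5287287828) (nat_lit 228) (nat_lit 8746787709) (nat_lit 21) (nat_lit 5) (nat_lit 23) (nat_lit 5) (nat_lit 24) (nat_lit 5) (nat_lit 310) (nat_lit 254) (nat_lit 156)) (XT.nd (nat_lit 78) (nat_lit 0) (nat_lit 0) (XT.lf (nat_lit 0) (nat_lit 451705726) (nat_lit 152) (nat_lit 44088406407) (nat_lit 76) (nat_lit 8609057068) (nat_lit 19) (nat_lit 5) (nat_lit 21) (nat_lit 5) (nat_lit 20) (nat_lit 5) (nat_lit 311) (nat_lit 254) (nat_lit 155)) (XT.lf (nat_lit 0) (nat_lit 10119060023) (nat_lit 152) (nat_lit 21924011683) (nat_lit 76) (nat_lit 23318895450) (nat_lit 19) (nat_lit 5) (nat_lit 21) (nat_lit 5) (nat_lit 20) (nat_lit 5) (nat_lit 312) (nat_lit 254) (nat_lit 154))))))))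
noncomputable def xc78 : XT := (XT.nd (nat_lit 33384) (nat_lit 0) (nat_lit 5320) (XT.nd (nat_lit 858) (nat_lit 228) (nat_lit 0) (XT.nd (nat_lit 390) (nat_lit 304) (nat_lit 0) (XT.nd (nat_lit 156) (nat_lit 76) (nat_lit 0) (XT.nd (nat_lit 78) (nat_lit 0) (nat_lit 0) (XT.lf (nat_lit 0) (nat_lit 1357346791) (nat_lit 152) (nat_lit 18914898993) (nat_lit 228) (nat_lit 37413094910) (nat_lit 17) (nat_lit 5) (nat_lit 19) (nat_lit 5) (nat_lit 20) (nat_lit 5) (nat_lit 313) (nat_lit 254) (nat_lit 153)) (XT.lf (nat_lit 0) (nat_lit 26243686434) (nat_lit 152) (nat_lit 4904847186) (nat_lit 228) (nat_lit 28969895144) (nat_lit 17) (nat_lit 5) (nat_lit 19) (nat_lit 5) (nat_lit 20) (nat_lit 5) (nat_lit 314) (nat_lit 254) (nat_lit 152))) (XT.nd (nat_lit 78) (nat_lit 76) (nat_lit 0) (XT.lf (nat_lit 0) (nat_lit 42653072640) (nat_lit 228) (nat_lit 10409737534) (nat_lit 76) (nat_lit 9607836661) (nat_lit 17) (nat_lit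 5) (nat_lit 20) (nat_lit 5) (nat_lit 18) (nat_lit 4) (nat_lit 315) (nat_lit 254) (nat_lit 151)) (XT.nd (nat_lit 78) (nat_lit 0) (nat_lit 0) (XT.lf (nat_lit 0) (nat_lit 14445028218) (nat_lit 76) (nat_lit 40466816686) (nat_lit 152) (nat_lit 10433269007) (nat_lit 16) (nat_lit 5) (nat_lit 17) (nat_lit 5) (nat_lit 18) (nat_lit 4) (nat_lit 316) (nat_lit 254) (nat_lit 150)) (XT.lf (nat_lit 0) (nat_lit 40744661723) (nat_lit 76) (nat_lit 27136996517) (nat_lit 152) (nat_lit 268710923) (nat_lit 16) (nat_lit 5) (nat_lit 17) (nat_lit 5) (nat_lit 18) (nat_lit 4) (nat_lit 317) (nat_lit 254) (nat_lit 149))))) (XT.nd (nat_lit 234) (nat_lit 76) (nat_lit 0) (XT.nd (nat_lit 78) (nat_lit 152) (nat_lit 0) (XT.lf (nat_lit 0) (nat_lit 10192335977) (nat_lit 152) (nat_lit 2851471352) (nat_lit 76) (nat_lit 58049348380) (nat_lit 15) (nat_lit 5) (nat_lit 17) (nat_lit 5) (nat_lit 16) (nat_lit 5) (nat_lit 318) (nat_lit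 254) (nat_lit 148)) (XT.nd (nat_lit 78) (nat_lit 0) (nat_lit 0) (XT.lf (nat_lit 0) (nat_lit 21406325727) (nat_lit 228) (nat_lit 50825925986) (nat_lit 76) (nat_lit 1943693570) (nat_lit 13) (nat_lit 5) (nat_lit 16) (nat_lit 5) (nat_lit 14) (nat_lit 4) (nat_lit 319) (nat_lit 254) (nat_lit 147)) (XT.lf (nat_lit 0) (nat_lit 33334218863) (nat_lit 228) (nat_lit 26636698002) (nat_lit 76) (nat_lit 17437367976) (nat_lit 13) (nat_lit 5) (nat_lit 16) (nat_lit 5) (nat_lit 14) (nat_lit 4) (nat_lit 320) (nat_lit 254) (nat_lit 146)))) (XT.nd (nat_lit 78) (nat_lit 76) (nat_lit 0) (XT.lf (nat_lit 0) (nat_lit 45850797684) (nat_lit 228) (nat_lit 1251276405) (nat_lit 76) (nat_lit 33700404862) (nat_lit 13) (nat_lit 5) (nat_lit 16) (nat_lit 5) (nat_lit 14) (nat_lit 4) (nat_lit 321) (nat_lit 254) (nat_lit 145)) (XT.nd (nat_lit 78) (nat_lit 0) (nat_lit 0) (XT.lf (nat_lit 0) (nat_lit 25896106596) (nat_lit 76) (nat_lit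 33338686190) (nat_lit 152) (nat_lit 25124348364) (nat_lit 12) (nat_lit 5) (nat_lit 13) (nat_lit 5) (nat_lit 14) (nat_lit 4) (nat_lit 322) (nat_lit 254) (nat_lit 144)) (XT.lf (nat_lit 0) (nat_lit 54414732966) (nat_lit 76) (nat_lit 18879025219) (nat_lit 152) (nat_lit 14799710880) (nat_lit 12) (nat_lit 5) (nat_lit 13) (nat_lit 5) (nat_lit 14) (nat_lit 4) (nat_lit 323) (nat_lit 254) (nat_lit 143)))))) (XT.nd (nat_lit 390) (nat_lit 0) (nat_lit 0) (XT.nd (nat_lit 156) (nat_lit 76) (nat_lit 0) (XT.nd (nat_lit 78) (nat_lit 152) (nat_lit 0) (XT.lf (nat_lit 0) (nat_lit 84347601341) (nat_lit 76) (nat_lit 3701298848) (nat_lit 152) (nat_lit 3965821782) (nat_lit 12) (nat_lit 5) (nat_lit 13) (nat_lit 5) (nat_lit 14) (nat_lit 4) (nat_lit 324) (nat_lit 254) (nat_lit 142)) (XT.lf (nat_lit 0) (nat_lit 7570614293) (nat_lit 152) (nat_lit 76292604662) (nat_lit 76) (nat_lit 12257523480) (nat_lit 10) (nat_lit 5)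 (nat_lit 12) (nat_lit 5) (nat_lit 11) (nat_lit 4) (nat_lit 325) (nat_lit 254) (nat_lit 141))) (XT.nd (nat_lit 78) (nat_lit 76) (nat_lit 0) (XT.lf (nat_lit 0) (nat_lit 19713323647) (nat_lit 152) (nat_lit 51660578444) (nat_lit 76) (nat_lit 29053644537) (nat_lit 10) (nat_lit 5) (nat_lit 12) (nat_lit 5) (nat_lit 11) (nat_lit 4) (nat_lit 326) (nat_lit 254) (nat_lit 140)) (XT.nd (nat_lit 78) (nat_lit 76) (nat_lit 0) (XT.lf (nat_lit 0) (nat_lit 32457113725) (nat_lit 152) (nat_lit 25807516751) (nat_lit 76) (nat_lit 46685246768) (nat_lit 10) (nat_lit 5) (nat_lit 12) (nat_lit 5) (nat_lit 11) (nat_lit 4) (nat_lit 327) (nat_lit 254) (nat_lit 139)) (XT.lf (nat_lit 0) (nat_lit 1354567825) (nat_lit 76) (nat_lit 44490779993) (nat_lit 152) (nat_lit 63852763286) (nat_lit 9) (nat_lit 5) (nat_lit 10) (nat_lit 5) (nat_lit 11) (nat_lit 4) (nat_lit 328) (nat_lit 254) (nat_lit 138))))) (XT.nd (nat_lit 31902) (nat_lit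 0) (nat_lit 12616) (XT.nd (nat_lit 31746) (nat_lit 0) (nat_lit 13528) (XT.lf (nat_lit 0) (nat_lit 30404283572) (nat_lit 76) (nat_lit 29758789869) (nat_lit 152) (nat_lit 54512884965) (nat_lit 9) (nat_lit 5) (nat_lit 10) (nat_lit 5) (nat_lit 11) (nat_lit 4) (nat_lit 329) (nat_lit 254) (nat_lit 137)) (XT.nd (nat_lit 78) (nat_lit 0) (nat_lit 0) (XT.lf (nat_lit 0) (nat_lit 3314519815) (nat_lit 988) (nat_lit 625952243) (nat_lit 988) (nat_lit 625952243) (nat_lit 187) (nat_lit 3) (nat_lit 200) (nat_lit 3) (nat_lit 200) (nat_lit 5) (nat_lit 255) (nat_lit 255) (nat_lit 210)) (XT.lf (nat_lit 76) (nat_lit 5353749659) (nat_lit 0) (nat_lit 2787688412) (nat_lit 988) (nat_lit 1176203529) (nat_lit 188) (nat_lit 5) (nat_lit 187) (nat_lit 3) (nat_lit 200) (nat_lit 5) (nat_lit 256) (nat_lit 255) (nat_lit 209)))) (XT.nd (nat_lit 78) (nat_lit 0) (nat_lit 0) (XT.lf (nat_lit 0) (nat_lit 194625328) (nat_lit 988)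 (nat_lit 6726854464) (nat_lit 1064) (nat_lit 2590893265) (nat_lit 175) (nat_lit 5) (nat_lit 188) (nat_lit 5) (nat_lit 189) (nat_lit 5) (nat_lit 257) (nat_lit 255) (nat_lit 208)) (XT.nd (nat_lit 78) (nat_lit 0) (nat_lit 76) (XT.lf (nat_lit 76) (nat_lit 155051793) (nat_lit 0) (nat_lit 1445272689) (nat_lit 1064) (nat_lit 8116632747) (nat_lit 176) (nat_lit 5) (nat_lit 175) (nat_lit 5) (nat_lit 189) (nat_lit 5) (nat_lit 258) (nat_lit 255) (nat_lit 207)) (XT.lf (nat_lit 0) (nat_lit 3110901741) (nat_lit 988) (nat_lit 2498745925) (nat_lit 1064) (nat_lit 4321261478) (nat_lit 176) (nat_lit 5) (nat_lit 189) (nat_lit 5) (nat_lit 190) (nat_lit 5) (nat_lit 259) (nat_lit 255) (nat_lit 206))))))) (XT.nd (nat_lit 858) (nat_lit 3572) (nat_lit 0) (XT.nd (nat_lit 390) (nat_lit 2964) (nat_lit 0) (XT.nd (nat_lit 156) (nat_lit 912) (nat_lit 0) (XT.nd (nat_lit 78) (nat_lit 0) (nat_lit 0) (XT.lf (nat_lit 0) (nat_lit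 4688712383) (nat_lit 988) (nat_lit 5205276582) (nat_lit 1064) (nat_lit 261986483) (nat_lit 177) (nat_lit 5) (nat_lit 190) (nat_lit 5) (nat_lit 191) (nat_lit 5) (nat_lit 260) (nat_lit 255) (nat_lit 205)) (XT.lf (nat_lit 76) (nat_lit 2375314231) (nat_lit 0) (nat_lit 4005750697) (nat_lit 1064) (nat_lit 4010320536) (nat_lit 178) (nat_lit 5) (nat_lit 177) (nat_lit 5) (nat_lit 191) (nat_lit 5) (nat_lit 261) (nat_lit 255) (nat_lit 204))) (XT.nd (nat_lit 78) (nat_lit 988) (nat_lit 0) (XT.lf (nat_lit 0) (nat_lit 8166376208) (nat_lit 988) (nat_lit 263174915) (nat_lit 1064) (nat_lit 2208916942) (nat_lit 178) (nat_lit 5) (nat_lit 191) (nat_lit 5) (nat_lit 192) (nat_lit 5) (nat_lit 262) (nat_lit 255) (nat_lit 203)) (XT.nd (nat_lit 78) (nat_lit 988) (nat_lit 0) (XT.lf (nat_lit 76) (nat_lit 7945825176) (nat_lit 0) (nat_lit 2148416311) (nat_lit 1064) (nat_lit 802209722) (nat_lit 179) (nat_lit 5) (nat_lit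 178) (nat_lit 5) (nat_lit 192) (nat_lit 5) (nat_lit 263) (nat_lit 255) (nat_lit 202)) (XT.lf (nat_lit 0) (nat_lit 969637692) (nat_lit 1064) (nat_lit 5756327468) (nat_lit 1140) (nat_lit 4440117234) (nat_lit 165) (nat_lit 5) (nat_lit 179) (nat_lit 5) (nat_lit 180) (nat_lit 5) (nat_lit 264) (nat_lit 255) (nat_lit 201))))) (XT.nd (nat_lit 234) (nat_lit 1976) (nat_lit 0) (XT.nd (nat_lit 78) (nat_lit 988) (nat_lit 0) (XT.lf (nat_lit 76) (nat_lit 2778756292) (nat_lit 0) (nat_lit 54929862) (nat_lit 1140) (nat_lit 8614792460) (nat_lit 166) (nat_lit 5) (nat_lit 165) (nat_lit 5) (nat_lit 180) (nat_lit 5) (nat_lit 265) (nat_lit 255) (nat_lit 200)) (XT.nd (nat_lit 78) (nat_lit 0) (nat_lit 0) (XT.lf (nat_lit 0) (nat_lit 2833339) (nat_lit 1064) (nat_lit 4858232448) (nat_lit 1140) (nat_lit 6881946660) (nat_lit 152) (nat_lit 5) (nat_lit 166) (nat_lit 5) (nat_lit 167) (nat_lit 5) (nat_lit 266) (nat_lit 255)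 (nat_lit 199)) (XT.lf (nat_lit 0) (nat_lit 7046636267) (nat_lit 1140) (nat_lit 2829160219) (nat_lit 76) (nat_lit 2174887700) (nat_lit 152) (nat_lit 5) (nat_lit 167) (nat_lit 5) (nat_lit 153) (nat_lit 5) (nat_lit 267) (nat_lit 255) (nat_lit 198)))) (XT.nd (nat_lit 78) (nat_lit 1140) (nat_lit 0) (XT.lf (nat_lit 0) (nat_lit 6560721251) (nat_lit 836) (nat_lit 2841228570) (nat_lit 912) (nat_lit 2970086106) (nat_lit 141) (nat_lit 5) (nat_lit 152) (nat_lit 5) (nat_lit 153) (nat_lit 5) (nat_lit 268) (nat_lit 255) (nat_lit 197)) (XT.nd (nat_lit 78) (nat_lit 608) (nat_lit 0) (XT.lf (nat_lit 0) (nat_lit 3753899549) (nat_lit 532) (nat_lit 8180762621) (nat_lit 608) (nat_lit 773109189) (nat_lit 134) (nat_lit 5) (nat_lit 141) (nat_lit 5) (nat_lit 142) (nat_lit 5) (nat_lit 269) (nat_lit 255) (nat_lit 196)) (XT.lf (nat_lit 0) (nat_lit 785889954) (nat_lit 532) (nat_lit 766351343) (nat_lit 608) (nat_lit 11506253562)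 (nat_lit 126) (nat_lit 5) (nat_lit 133) (nat_lit 5) (nat_lit 134) (nat_lit 5) (nat_lit 270) (nat_lit 255) (nat_lit 195)))))) (XT.nd (nat_lit 390) (nat_lit 2052) (nat_lit 0) (XT.nd (nat_lit 156) (nat_lit 1064) (nat_lit 0) (XT.nd (nat_lit 78) (nat_lit 456) (nat_lit 0) (XT.lf (nat_lit 0) (nat_lit 4092265135) (nat_lit 608) (nat_lit 2346361710) (nat_lit 76) (nat_lit 6984558753) (nat_lit 126) (nat_lit 5) (nat_lit 134) (nat_lit 5) (nat_lit 127) (nat_lit 5) (nat_lit 271) (nat_lit 255) (nat_lit 194)) (XT.lf (nat_lit 0) (nat_lit 6814889034) (nat_lit 532) (nat_lit 5633805889) (nat_lit 76) (nat_lit 1355836129) (nat_lit 120) (nat_lit 5) (nat_lit 127) (nat_lit 5) (nat_lit 121) (nat_lit 5) (nat_lit 272) (nat_lit 255) (nat_lit 193))) (XT.nd (nat_lit 78) (nat_lit 532) (nat_lit 0) (XT.lf (nat_lit 0) (nat_lit 5047905282) (nat_lit 532) (nat_lit 4721230457) (nat_lit 608) (nat_lit 4433027236) (nat_lit 113) (nat_lit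 5) (nat_lit 120) (nat_lit 5) (nat_lit 121) (nat_lit 5) (nat_lit 273) (nat_lit 255) (nat_lit 192)) (XT.nd (nat_lit 78) (nat_lit 76) (nat_lit 0) (XT.lf (nat_lit 0) (nat_lit 1719991738) (nat_lit 456) (nat_lit 11217999226) (nat_lit 532) (nat_lit 1679758594) (nat_lit 107) (nat_lit 5) (nat_lit 113) (nat_lit 5) (nat_lit 114) (nat_lit 5) (nat_lit 274) (nat_lit 255) (nat_lit 191)) (XT.lf (nat_lit 0) (nat_lit 1290611567) (nat_lit 532) (nat_lit 1825753763) (nat_lit 76) (nat_lit 11934382613) (nat_lit 106) (nat_lit 5) (nat_lit 113) (nat_lit 5) (nat_lit 107) (nat_lit 5) (nat_lit 275) (nat_lit 255) (nat_lit 190))))) (XT.nd (nat_lit 234) (nat_lit 836) (nat_lit 0) (XT.nd (nat_lit 78) (nat_lit 760) (nat_lit 0) (XT.lf (nat_lit 0) (nat_lit 4485627110) (nat_lit 532) (nat_lit 5620769393) (nat_lit 76) (nat_lit 5395245204) (nat_lit 100) (nat_lit 5) (nat_lit 107) (nat_lit 5) (nat_lit 101) (nat_lit 5) (nat_lit 276)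 (nat_lit 255) (nat_lit 189)) (XT.nd (nat_lit 78) (nat_lit 380) (nat_lit 0) (XT.lf (nat_lit 0) (nat_lit 6286137432) (nat_lit 380) (nat_lit 1628641183) (nat_lit 456) (nat_lit 8058137039) (nat_lit 95) (nat_lit 5) (nat_lit 100) (nat_lit 5) (nat_lit 101) (nat_lit 5) (nat_lit 277) (nat_lit 255) (nat_lit 188)) (XT.lf (nat_lit 0) (nat_lit 2374440713) (nat_lit 380) (nat_lit 9256944335) (nat_lit 456) (nat_lit 4832952188) (nat_lit 90) (nat_lit 5) (nat_lit 95) (nat_lit 5) (nat_lit 96) (nat_lit 5) (nat_lit 278) (nat_lit 255) (nat_lit 187)))) (XT.nd (nat_lit 78) (nat_lit 836) (nat_lit 0) (XT.lf (nat_lit 0) (nat_lit 15184324983) (nat_lit 380) (nat_lit 431607149) (nat_lit 456) (nat_lit 1361995272) (nat_lit 90) (nat_lit 5) (nat_lit 95) (nat_lit 5) (nat_lit 96) (nat_lit 5) (nat_lit 279) (nat_lit 255) (nat_lit 186)) (XT.nd (nat_lit 78) (nat_lit 380) (nat_lit 0) (XT.lf (nat_lit 0) (nat_lit 2399880452) (nat_lit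 456) (nat_lit 6323718906) (nat_lit 76) (nat_lit 8788138401) (nat_lit 84) (nat_lit 5) (nat_lit 90) (nat_lit 5) (nat_lit 85) (nat_lit 5) (nat_lit 280) (nat_lit 255) (nat_lit 185)) (XT.lf (nat_lit 0) (nat_lit 6384021571) (nat_lit 456) (nat_lit 11213344323) (nat_lit 76) (nat_lit 472651548) (nat_lit 79) (nat_lit 5) (nat_lit 85) (nat_lit 5) (nat_lit 80) (nat_lit 5) (nat_lit 281) (nat_lit 255) (nat_lit 184))))))))
noncomputable def xc79 : XT := (XT.nd (nat_lit 1716) (nat_lit 1368) (nat_lit 0) (XT.nd (nat_lit 858) (nat_lit 1368) (nat_lit 0) (XT.nd (nat_lit 390) (nat_lit 1368) (nat_lit 0) (XT.nd (nat_lit 156) (nat_lit 684) (nat_lit 0) (XT.nd (nat_lit 78) (nat_lit 0) (nat_lit 0) (XT.lf (nat_lit 0) (nat_lit 2087554026) (nat_lit 304) (nat_lit 8623229025) (nat_lit 380) (nat_lit 7941176666) (nat_lit 75) (nat_lit 5) (nat_lit 79) (nat_lit 5) (nat_lit 80) (nat_lit 5) (nat_lit 282) (nat_lit 255) (nat_lit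 183)) (XT.lf (nat_lit 0) (nat_lit 15348712462) (nat_lit 380) (nat_lit 3018753401) (nat_lit 76) (nat_lit 892736922) (nat_lit 75) (nat_lit 5) (nat_lit 80) (nat_lit 5) (nat_lit 76) (nat_lit 5) (nat_lit 283) (nat_lit 255) (nat_lit 182))) (XT.nd (nat_lit 78) (nat_lit 304) (nat_lit 0) (XT.lf (nat_lit 0) (nat_lit 482698429) (nat_lit 380) (nat_lit 8597325071) (nat_lit 76) (nat_lit 10813709550) (nat_lit 70) (nat_lit 5) (nat_lit 75) (nat_lit 5) (nat_lit 71) (nat_lit 5) (nat_lit 284) (nat_lit 255) (nat_lit 181)) (XT.nd (nat_lit 78) (nat_lit 0) (nat_lit 0) (XT.lf (nat_lit 0) (nat_lit 5084564255) (nat_lit 380) (nat_lit 14692370024) (nat_lit 76) (nat_lit 778820598) (nat_lit 66) (nat_lit 5) (nat_lit 71) (nat_lit 5) (nat_lit 67) (nat_lit 5) (nat_lit 285) (nat_lit 255) (nat_lit 180)) (XT.lf (nat_lit 0) (nat_lit 10071087694) (nat_lit 380) (nat_lit 149612292) (nat_lit 76) (nat_lit 11025581622) (nat_lit 66)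 (nat_lit 5) (nat_lit 71) (nat_lit 5) (nat_lit 67) (nat_lit 5) (nat_lit 286) (nat_lit 255) (nat_lit 179))))) (XT.nd (nat_lit 234) (nat_lit 456) (nat_lit 0) (XT.nd (nat_lit 78) (nat_lit 608) (nat_lit 0) (XT.lf (nat_lit 0) (nat_lit 15386573169) (nat_lit 304) (nat_lit 43068632) (nat_lit 380) (nat_lit 6538050537) (nat_lit 62) (nat_lit 5) (nat_lit 66) (nat_lit 5) (nat_lit 67) (nat_lit 5) (nat_lit 287) (nat_lit 255) (nat_lit 178)) (XT.nd (nat_lit 78) (nat_lit 380) (nat_lit 0) (XT.lf (nat_lit 0) (nat_lit 9017537643) (nat_lit 228) (nat_lit 12204733736) (nat_lit 304) (nat_lit 1497954748) (nat_lit 59) (nat_lit 5) (nat_lit 62) (nat_lit 5) (nat_lit 63) (nat_lit 5) (nat_lit 288) (nat_lit 255) (nat_lit 177)) (XT.lf (nat_lit 0) (nat_lit 1993410035) (nat_lit 304) (nat_lit 1790891389) (nat_lit 380) (nat_lit 19723099408) (nat_lit 54) (nat_lit 5) (nat_lit 58) (nat_lit 5) (nat_lit 59) (nat_lit 5) (nat_lit 289)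 (nat_lit 255) (nat_lit 176)))) (XT.nd (nat_lit 78) (nat_lit 456) (nat_lit 0) (XT.lf (nat_lit 0) (nat_lit 9507240483) (nat_lit 380) (nat_lit 5706345340) (nat_lit 76) (nat_lit 9113709550) (nat_lit 54) (nat_lit 5) (nat_lit 59) (nat_lit 5) (nat_lit 55) (nat_lit 5) (nat_lit 290) (nat_lit 255) (nat_lit 175)) (XT.nd (nat_lit 78) (nat_lit 228) (nat_lit 0) (XT.lf (nat_lit 0) (nat_lit 11058063387) (nat_lit 228) (nat_lit 4560649316) (nat_lit 304) (nat_lit 9566431343) (nat_lit 51) (nat_lit 5) (nat_lit 54) (nat_lit 5) (nat_lit 55) (nat_lit 5) (nat_lit 291) (nat_lit 255) (nat_lit 174)) (XT.lf (nat_lit 0) (nat_lit 2652301027) (nat_lit 228) (nat_lit 19510638892) (nat_lit 304) (nat_lit 3919159309) (nat_lit 48) (nat_lit 5) (nat_lit 51) (nat_lit 5) (nat_lit 52) (nat_lit 5) (nat_lit 292) (nat_lit 255) (nat_lit 173)))))) (XT.nd (nat_lit 390) (nat_lit 684) (nat_lit 0) (XT.nd (nat_lit 156) (nat_lit 380) (nat_lit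 0) (XT.nd (nat_lit 78) (nat_lit 228) (nat_lit 0) (XT.lf (nat_lit 0) (nat_lit 2143315939) (nat_lit 304) (nat_lit 6551029564) (nat_lit 76) (nat_lit 18323842041) (nat_lit 47) (nat_lit 5) (nat_lit 51) (nat_lit 5) (nat_lit 48) (nat_lit 5) (nat_lit 293) (nat_lit 255) (nat_lit 172)) (XT.lf (nat_lit 0) (nat_lit 8544609246) (nat_lit 304) (nat_lit 16700236818) (nat_lit 76) (nat_lit 2751593642) (nat_lit 44) (nat_lit 5) (nat_lit 48) (nat_lit 5) (nat_lit 45) (nat_lit 5) (nat_lit 294) (nat_lit 255) (nat_lit 171))) (XT.nd (nat_lit 78) (nat_lit 152) (nat_lit 0) (XT.lf (nat_lit 0) (nat_lit 1054486348) (nat_lit 228) (nat_lit 14358226885) (nat_lit 304) (nat_lit 13606513617) (nat_lit 41) (nat_lit 5) (nat_lit 44) (nat_lit 5) (nat_lit 45) (nat_lit 5) (nat_lit 295) (nat_lit 255) (nat_lit 170)) (XT.nd (nat_lit 78) (nat_lit 152) (nat_lit 0) (XT.lf (nat_lit 0) (nat_lit 20017975022) (nat_lit 228) (nat_lit 2759560244)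 (nat_lit 304) (nat_lit 7311042275) (nat_lit 41) (nat_lit 5) (nat_lit 44) (nat_lit 5) (nat_lit 45) (nat_lit 5) (nat_lit 296) (nat_lit 255) (nat_lit 169)) (XT.lf (nat_lit 0) (nat_lit 8771776243) (nat_lit 152) (nat_lit 21895882187) (nat_lit 228) (nat_lit 539047988) (nat_lit 39) (nat_lit 5) (nat_lit 41) (nat_lit 5) (nat_lit 42) (nat_lit 5) (nat_lit 297) (nat_lit 255) (nat_lit 168))))) (XT.nd (nat_lit 234) (nat_lit 228) (nat_lit 0) (XT.nd (nat_lit 78) (nat_lit 380) (nat_lit 0) (XT.lf (nat_lit 0) (nat_lit 6558460926) (nat_lit 228) (nat_lit 3729644708) (nat_lit 76) (nat_lit 22087307291) (nat_lit 38) (nat_lit 5) (nat_lit 41) (nat_lit 5) (nat_lit 39) (nat_lit 5) (nat_lit 298) (nat_lit 255) (nat_lit 167)) (XT.nd (nat_lit 78) (nat_lit 152) (nat_lit 0) (XT.lf (nat_lit 0) (nat_lit 14158692824) (nat_lit 304) (nat_lit 17421917405) (nat_lit 76) (nat_lit 2017034310) (nat_lit 35) (nat_lit 5) (nat_lit 39)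 (nat_lit 5) (nat_lit 36) (nat_lit 5) (nat_lit 299) (nat_lit 255) (nat_lit 166)) (XT.lf (nat_lit 0) (nat_lit 2187841636) (nat_lit 152) (nat_lit 20098638472) (nat_lit 228) (nat_lit 12590100142) (nat_lit 33) (nat_lit 5) (nat_lit 35) (nat_lit 5) (nat_lit 36) (nat_lit 5) (nat_lit 300) (nat_lit 255) (nat_lit 165)))) (XT.nd (nat_lit 78) (nat_lit 228) (nat_lit 0) (XT.lf (nat_lit 0) (nat_lit 23117774173) (nat_lit 152) (nat_lit 7866657238) (nat_lit 228) (nat_lit 5230136032) (nat_lit 33) (nat_lit 5) (nat_lit 35) (nat_lit 5) (nat_lit 36) (nat_lit 5) (nat_lit 301) (nat_lit 255) (nat_lit 164)) (XT.nd (nat_lit 78) (nat_lit 0) (nat_lit 0) (XT.lf (nat_lit 0) (nat_lit 2555627386) (nat_lit 228) (nat_lit 30090713868) (nat_lit 76) (nat_lit 4969212723) (nat_lit 30) (nat_lit 5) (nat_lit 33) (nat_lit 5) (nat_lit 31) (nat_lit 5) (nat_lit 302) (nat_lit 255) (nat_lit 163)) (XT.lf (nat_lit 0) (nat_lit 10824495000)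 (nat_lit 228) (nat_lit 9788060449) (nat_lit 76) (nat_lit 18466437176) (nat_lit 30) (nat_lit 5) (nat_lit 33) (nat_lit 5) (nat_lit 31) (nat_lit 5) (nat_lit 303) (nat_lit 255) (nat_lit 162))))))) (XT.nd (nat_lit 858) (nat_lit 380) (nat_lit 0) (XT.nd (nat_lit 390) (nat_lit 456) (nat_lit 0) (XT.nd (nat_lit 156) (nat_lit 380) (nat_lit 0) (XT.nd (nat_lit 78) (nat_lit 0) (nat_lit 0) (XT.lf (nat_lit 0) (nat_lit 11736624826) (nat_lit 152) (nat_lit 7869117831) (nat_lit 228) (nat_lit 21006907492) (nat_lit 28) (nat_lit 5) (nat_lit 30) (nat_lit 5) (nat_lit 31) (nat_lit 5) (nat_lit 304) (nat_lit 255) (nat_lit 161)) (XT.lf (nat_lit 0) (nat_lit 28967283654) (nat_lit 228) (nat_lit 7753689291) (nat_lit 76) (nat_lit 5497795000) (nat_lit 28) (nat_lit 5) (nat_lit 31) (nat_lit 5) (nat_lit 29) (nat_lit 5) (nat_lit 305) (nat_lit 255) (nat_lit 160))) (XT.nd (nat_lit 78) (nat_lit 228) (nat_lit 0) (XT.lf (nat_lit 0)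 (nat_lit 14609634632) (nat_lit 152) (nat_lit 24394265927) (nat_lit 228) (nat_lit 4895094747) (nat_lit 26) (nat_lit 5) (nat_lit 28) (nat_lit 5) (nat_lit 29) (nat_lit 5) (nat_lit 306) (nat_lit 255) (nat_lit 159)) (XT.nd (nat_lit 78) (nat_lit 152) (nat_lit 0) (XT.lf (nat_lit 0) (nat_lit 3871446085) (nat_lit 228) (nat_lit 7466221771) (nat_lit 76) (nat_lit 34322419322) (nat_lit 25) (nat_lit 5) (nat_lit 28) (nat_lit 5) (nat_lit 26) (nat_lit 5) (nat_lit 307) (nat_lit 255) (nat_lit 158)) (XT.lf (nat_lit 0) (nat_lit 13139520706) (nat_lit 228) (nat_lit 31843049144) (nat_lit 76) (nat_lit 2520288474) (nat_lit 23) (nat_lit 5) (nat_lit 26) (nat_lit 5) (nat_lit 24) (nat_lit 5) (nat_lit 308) (nat_lit 255) (nat_lit 157))))) (XT.nd (nat_lit 234) (nat_lit 304) (nat_lit 0) (XT.nd (nat_lit 78) (nat_lit 152) (nat_lit 0) (XT.lf (nat_lit 0) (nat_lit 23051388868) (nat_lit 228) (nat_lit 9471707025) (nat_lit 76) (nat_lit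 16909271882) (nat_lit 23) (nat_lit 5) (nat_lit 26) (nat_lit 5) (nat_lit 24) (nat_lit 5) (nat_lit 309) (nat_lit 255) (nat_lit 156)) (XT.nd (nat_lit 78) (nat_lit 0) (nat_lit 0) (XT.lf (nat_lit 0) (nat_lit 14278528969) (nat_lit 152) (nat_lit 19306467656) (nat_lit 228) (nat_lit 17869582585) (nat_lit 21) (nat_lit 5) (nat_lit 23) (nat_lit 5) (nat_lit 24) (nat_lit 5) (nat_lit 310) (nat_lit 255) (nat_lit 155)) (XT.lf (nat_lit 0) (nat_lit 39396433352) (nat_lit 152) (nat_lit 5335604601) (nat_lit 228) (nat_lit 8843271046) (nat_lit 21) (nat_lit 5) (nat_lit 23) (nat_lit 5) (nat_lit 24) (nat_lit 5) (nat_lit 311) (nat_lit 255) (nat_lit 154)))) (XT.nd (nat_lit 78) (nat_lit 152) (nat_lit 0) (XT.lf (nat_lit 0) (nat_lit 799810440) (nat_lit 152) (nat_lit 45747130240) (nat_lit 76) (nat_lit 9249626270) (nat_lit 19) (nat_lit 5) (nat_lit 21) (nat_lit 5) (nat_lit 20) (nat_lit 5) (nat_lit 312) (nat_lit 255) (nat_lit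 153)) (XT.nd (nat_lit 78) (nat_lit 152) (nat_lit 0) (XT.lf (nat_lit 0) (nat_lit 10935031527) (nat_lit 152) (nat_lit 22500501327) (nat_lit 76) (nat_lit 24684951030) (nat_lit 19) (nat_lit 5) (nat_lit 21) (nat_lit 5) (nat_lit 20) (nat_lit 5) (nat_lit 313) (nat_lit 255) (nat_lit 152)) (XT.lf (nat_lit 0) (nat_lit 1930027661) (nat_lit 152) (nat_lit 19655938705) (nat_lit 228) (nat_lit 38974370423) (nat_lit 17) (nat_lit 5) (nat_lit 19) (nat_lit 5) (nat_lit 20) (nat_lit 5) (nat_lit 314) (nat_lit 255) (nat_lit 151)))))) (XT.nd (nat_lit 390) (nat_lit 228) (nat_lit 0) (XT.nd (nat_lit 156) (nat_lit 152) (nat_lit 0) (XT.nd (nat_lit 78) (nat_lit 0) (nat_lit 0) (XT.lf (nat_lit 0) (nat_lit 28036645546) (nat_lit 152) (nat_lit 4955132176) (nat_lit 228) (nat_lit 30123743013) (nat_lit 17) (nat_lit 5) (nat_lit 19) (nat_lit 5) (nat_lit 20) (nat_lit 5) (nat_lit 315) (nat_lit 255) (nat_lit 150)) (XT.lf (nat_lit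 0) (nat_lit 45059718150) (nat_lit 228) (nat_lit 10465719451) (nat_lit 76) (nat_lit 10270279017) (nat_lit 17) (nat_lit 5) (nat_lit 20) (nat_lit 5) (nat_lit 18) (nat_lit 4) (nat_lit 316) (nat_lit 255) (nat_lit 149))) (XT.nd (nat_lit 78) (nat_lit 76) (nat_lit 0) (XT.lf (nat_lit 0) (nat_lit 15618469647) (nat_lit 76) (nat_lit 42304249262) (nat_lit 152) (nat_lit 10681461004) (nat_lit 16) (nat_lit 5) (nat_lit 17) (nat_lit 5) (nat_lit 18) (nat_lit 4) (nat_lit 317) (nat_lit 255) (nat_lit 148)) (XT.nd (nat_lit 78) (nat_lit 76) (nat_lit 0) (XT.lf (nat_lit 0) (nat_lit 43211599588) (nat_lit 76) (nat_lit 28316790859) (nat_lit 152) (nat_lit 21697465) (nat_lit 16) (nat_lit 5) (nat_lit 17) (nat_lit 5) (nat_lit 18) (nat_lit 4) (nat_lit 318) (nat_lit 255) (nat_lit 147)) (XT.lf (nat_lit 0) (nat_lit 10945159162) (nat_lit 152) (nat_lit 2579758356) (nat_lit 76) (nat_lit 61115396152) (nat_lit 15) (nat_lit 5) (nat_lit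 17) (nat_lit 5) (nat_lit 16) (nat_lit 5) (nat_lit 319) (nat_lit 255) (nat_lit 146))))) (XT.nd (nat_lit 234) (nat_lit 76) (nat_lit 0) (XT.nd (nat_lit 78) (nat_lit 0) (nat_lit 0) (XT.lf (nat_lit 0) (nat_lit 22713739881) (nat_lit 228) (nat_lit 52959156941) (nat_lit 76) (nat_lit 2204538853) (nat_lit 13) (nat_lit 5) (nat_lit 16) (nat_lit 5) (nat_lit 14) (nat_lit 4) (nat_lit 320) (nat_lit 255) (nat_lit 145)) (XT.nd (nat_lit 78) (nat_lit 0) (nat_lit 0) (XT.lf (nat_lit 0) (nat_lit 35226737298) (nat_lit 228) (nat_lit 27579899241) (nat_lit 76) (nat_lit 18465103617) (nat_lit 13) (nat_lit 5) (nat_lit 16) (nat_lit 5) (nat_lit 14) (nat_lit 4) (nat_lit 321) (nat_lit 255) (nat_lit 144)) (XT.lf (nat_lit 0) (nat_lit 48358392323) (nat_lit 228) (nat_lit 943712929) (nat_lit 76) (nat_lit 35533870097) (nat_lit 13) (nat_lit 5) (nat_lit 16) (nat_lit 5) (nat_lit 14) (nat_lit 4) (nat_lit 322) (nat_lit 255) (nat_lit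 143)))) (XT.nd (nat_lit 78) (nat_lit 0) (nat_lit 0) (XT.lf (nat_lit 0) (nat_lit 27550429598) (nat_lit 76) (nat_lit 34854372785) (nat_lit 152) (nat_lit 26165880198) (nat_lit 12) (nat_lit 5) (nat_lit 13) (nat_lit 5) (nat_lit 14) (nat_lit 4) (nat_lit 323) (nat_lit 255) (nat_lit 142)) (XT.nd (nat_lit 78) (nat_lit 0) (nat_lit 0) (XT.lf (nat_lit 0) (nat_lit 57477867397) (nat_lit 76) (nat_lit 19678931036) (nat_lit 152) (nat_lit 15335233963) (nat_lit 12) (nat_lit 5) (nat_lit 13) (nat_lit 5) (nat_lit 14) (nat_lit 4) (nat_lit 324) (nat_lit 255) (nat_lit 141)) (XT.lf (nat_lit 0) (nat_lit 88891074534) (nat_lit 76) (nat_lit 3749177654) (nat_lit 152) (nat_lit 3969386718) (nat_lit 12) (nat_lit 5) (nat_lit 13) (nat_lit 5) (nat_lit 14) (nat_lit 4) (nat_lit 325) (nat_lit 255) (nat_lit 140))))))))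
noncomputable def xc80 : XT := (XT.nd (nat_lit 33384) (nat_lit 0) (nat_lit 2888) (XT.nd (nat_lit 32526) (nat_lit 0) (nat_lit 8892) (XT.nd (nat_lit 32136) (nat_lit 0) (nat_lit 12540) (XT.nd (nat_lit 156) (nat_lit 76) (nat_lit 0) (XT.nd (nat_lit 78) (nat_lit 0) (nat_lit 0) (XT.lf (nat_lit 0) (nat_lit 8135365315) (nat_lit 152) (nat_lit 79782271068) (nat_lit 76) (nat_lit 13003416062) (nat_lit 10) (nat_lit 5) (nat_lit 12) (nat_lit 5) (nat_lit 11) (nat_lit 4) (nat_lit 326) (nat_lit 255) (nat_lit 139)) (XT.lf (nat_lit 0) (nat_lit 20876342503) (nat_lit 152) (nat_lit 53934118008) (nat_lit 76) (nat_lit 30633009057) (nat_lit 10) (nat_lit 5) (nat_lit 12) (nat_lit 5) (nat_lit 11) (nat_lit 4) (nat_lit 327) (nat_lit 255) (nat_lit 138))) (XT.nd (nat_lit 78) (nat_lit 76) (nat_lit 0) (XT.lf (nat_lit 0) (nat_lit 34248876719) (nat_lit 152) (nat_lit 26803140818) (nat_lit 76) (nat_lit 49140158909) (nat_lit 10)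 (nat_lit 5) (nat_lit 12) (nat_lit 5) (nat_lit 11) (nat_lit 4) (nat_lit 328) (nat_lit 255) (nat_lit 137)) (XT.nd (nat_lit 31824) (nat_lit 0) (nat_lit 12540) (XT.lf (nat_lit 0) (nat_lit 1708598986) (nat_lit 76) (nat_lit 46592632442) (nat_lit 152) (nat_lit 66876755372) (nat_lit 9) (nat_lit 5) (nat_lit 10) (nat_lit 5) (nat_lit 11) (nat_lit 4) (nat_lit 329) (nat_lit 255) (nat_lit 136)) (XT.lf (nat_lit 0) (nat_lit 899197) (nat_lit 0) (nat_lit 899197) (nat_lit 988) (nat_lit 4751617248) (nat_lit 174) (nat_lit 5) (nat_lit 174) (nat_lit 3) (nat_lit 187) (nat_lit 3) (nat_lit 256) (nat_lit 256) (nat_lit 208))))) (XT.nd (nat_lit 156) (nat_lit 0) (nat_lit 76) (XT.nd (nat_lit 78) (nat_lit 0) (nat_lit 76) (XT.lf (nat_lit 0) (nat_lit 1259840649) (nat_lit 988) (nat_lit 2816763654) (nat_lit 1064) (nat_lit 5627458555) (nat_lit 174) (nat_lit 5) (nat_lit 187) (nat_lit 3) (nat_lit 188) (nat_lit 5) (nat_lit 257)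 (nat_lit 256) (nat_lit 207)) (XT.lf (nat_lit 0) (nat_lit 2559618327) (nat_lit 988) (nat_lit 5681290847) (nat_lit 1064) (nat_lit 1671001514) (nat_lit 175) (nat_lit 5) (nat_lit 188) (nat_lit 5) (nat_lit 189) (nat_lit 5) (nat_lit 258) (nat_lit 256) (nat_lit 206))) (XT.nd (nat_lit 78) (nat_lit 0) (nat_lit 76) (XT.lf (nat_lit 76) (nat_lit 1505098656) (nat_lit 0) (nat_lit 2431251415) (nat_lit 1064) (nat_lit 6193609813) (nat_lit 176) (nat_lit 5) (nat_lit 175) (nat_lit 5) (nat_lit 189) (nat_lit 5) (nat_lit 259) (nat_lit 256) (nat_lit 205)) (XT.nd (nat_lit 78) (nat_lit 0) (nat_lit 0) (XT.lf (nat_lit 0) (nat_lit 5406662234) (nat_lit 988) (nat_lit 1267566395) (nat_lit 1064) (nat_lit 3684100533) (nat_lit 176) (nat_lit 5) (nat_lit 189) (nat_lit 5) (nat_lit 190) (nat_lit 5) (nat_lit 260) (nat_lit 256) (nat_lit 204)) (XT.lf (nat_lit 76) (nat_lit 6518255648) (nat_lit 0) (nat_lit 453157977) (nat_lit 1064)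 (nat_lit 3626227889) (nat_lit 177) (nat_lit 5) (nat_lit 176) (nat_lit 5) (nat_lit 190) (nat_lit 5) (nat_lit 261) (nat_lit 256) (nat_lit 203)))))) (XT.nd (nat_lit 390) (nat_lit 2888) (nat_lit 0) (XT.nd (nat_lit 156) (nat_lit 988) (nat_lit 0) (XT.nd (nat_lit 78) (nat_lit 0) (nat_lit 76) (XT.lf (nat_lit 76) (nat_lit 3844731813) (nat_lit 0) (nat_lit 4814950216) (nat_lit 1064) (nat_lit 2188024135) (nat_lit 178) (nat_lit 5) (nat_lit 177) (nat_lit 5) (nat_lit 191) (nat_lit 5) (nat_lit 262) (nat_lit 256) (nat_lit 202)) (XT.lf (nat_lit 76) (nat_lit 1097223479) (nat_lit 0) (nat_lit 9348695503) (nat_lit 1064) (nat_lit 664086570) (nat_lit 179) (nat_lit 5) (nat_lit 178) (nat_lit 5) (nat_lit 192) (nat_lit 5) (nat_lit 263) (nat_lit 256) (nat_lit 201))) (XT.nd (nat_lit 78) (nat_lit 0) (nat_lit 76) (XT.lf (nat_lit 0) (nat_lit 980452864) (nat_lit 1064) (nat_lit 1736794463) (nat_lit 1140) (nat_lit 8666150274)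 (nat_lit 164) (nat_lit 5) (nat_lit 178) (nat_lit 5) (nat_lit 179) (nat_lit 5) (nat_lit 264) (nat_lit 256) (nat_lit 200)) (XT.nd (nat_lit 78) (nat_lit 0) (nat_lit 0) (XT.lf (nat_lit 0) (nat_lit 2747052772) (nat_lit 1064) (nat_lit 4669915701) (nat_lit 1140) (nat_lit 4251808154) (nat_lit 165) (nat_lit 5) (nat_lit 179) (nat_lit 5) (nat_lit 180) (nat_lit 5) (nat_lit 265) (nat_lit 256) (nat_lit 199)) (XT.lf (nat_lit 76) (nat_lit 4252530273) (nat_lit 0) (nat_lit 382274494) (nat_lit 1140) (nat_lit 7332751044) (nat_lit 166) (nat_lit 5) (nat_lit 165) (nat_lit 5) (nat_lit 180) (nat_lit 5) (nat_lit 266) (nat_lit 256) (nat_lit 198))))) (XT.nd (nat_lit 234) (nat_lit 1140) (nat_lit 0) (XT.nd (nat_lit 78) (nat_lit 836) (nat_lit 0) (XT.lf (nat_lit 0) (nat_lit 1354396717) (nat_lit 1064) (nat_lit 5340155022) (nat_lit 1140) (nat_lit 5584504346) (nat_lit 152) (nat_lit 5) (nat_lit 166) (nat_lit 5) (nat_lit 167)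 (nat_lit 5) (nat_lit 267) (nat_lit 256) (nat_lit 197)) (XT.nd (nat_lit 78) (nat_lit 836) (nat_lit 0) (XT.lf (nat_lit 0) (nat_lit 8911477741) (nat_lit 1140) (nat_lit 1632688501) (nat_lit 76) (nat_lit 2060444478) (nat_lit 152) (nat_lit 5) (nat_lit 167) (nat_lit 5) (nat_lit 153) (nat_lit 5) (nat_lit 268) (nat_lit 256) (nat_lit 196)) (XT.lf (nat_lit 0) (nat_lit 8188335556) (nat_lit 836) (nat_lit 3136689489) (nat_lit 912) (nat_lit 1618944885) (nat_lit 141) (nat_lit 5) (nat_lit 152) (nat_lit 5) (nat_lit 153) (nat_lit 5) (nat_lit 269) (nat_lit 256) (nat_lit 195)))) (XT.nd (nat_lit 78) (nat_lit 532) (nat_lit 0) (XT.lf (nat_lit 0) (nat_lit 615729745) (nat_lit 608) (nat_lit 8053732601) (nat_lit 76) (nat_lit 4628735584) (nat_lit 133) (nat_lit 5) (nat_lit 141) (nat_lit 5) (nat_lit 134) (nat_lit 5) (nat_lit 270) (nat_lit 256) (nat_lit 194)) (XT.nd (nat_lit 78) (nat_lit 0) (nat_lit 0) (XT.lf (nat_lit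 0) (nat_lit 2126802393) (nat_lit 532) (nat_lit 859995243) (nat_lit 608) (nat_lit 10681202709) (nat_lit 126) (nat_lit 5) (nat_lit 133) (nat_lit 5) (nat_lit 134) (nat_lit 5) (nat_lit 271) (nat_lit 256) (nat_lit 193)) (XT.lf (nat_lit 0) (nat_lit 5588699766) (nat_lit 608) (nat_lit 1182185483) (nat_lit 76) (nat_lit 7282123151) (nat_lit 126) (nat_lit 5) (nat_lit 134) (nat_lit 5) (nat_lit 127) (nat_lit 5) (nat_lit 272) (nat_lit 256) (nat_lit 192))))))) (XT.nd (nat_lit 858) (nat_lit 2128) (nat_lit 0) (XT.nd (nat_lit 390) (nat_lit 1900) (nat_lit 0) (XT.nd (nat_lit 156) (nat_lit 988) (nat_lit 0) (XT.nd (nat_lit 78) (nat_lit 532) (nat_lit 0) (XT.lf (nat_lit 0) (nat_lit 8397928883) (nat_lit 532) (nat_lit 4631032538) (nat_lit 76) (nat_lit 1426068429) (nat_lit 120) (nat_lit 5) (nat_lit 127) (nat_lit 5) (nat_lit 121) (nat_lit 5) (nat_lit 273) (nat_lit 256) (nat_lit 191)) (XT.lf (nat_lit 0) (nat_lit 6547945298)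 (nat_lit 532) (nat_lit 4904778826) (nat_lit 608) (nat_lit 3421351250) (nat_lit 113) (nat_lit 5) (nat_lit 120) (nat_lit 5) (nat_lit 121) (nat_lit 5) (nat_lit 274) (nat_lit 256) (nat_lit 190))) (XT.nd (nat_lit 78) (nat_lit 532) (nat_lit 0) (XT.lf (nat_lit 0) (nat_lit 3054483148) (nat_lit 456) (nat_lit 11681109952) (nat_lit 532) (nat_lit 576292571) (nat_lit 107) (nat_lit 5) (nat_lit 113) (nat_lit 5) (nat_lit 114) (nat_lit 5) (nat_lit 275) (nat_lit 256) (nat_lit 189)) (XT.nd (nat_lit 78) (nat_lit 456) (nat_lit 0) (XT.lf (nat_lit 0) (nat_lit 2463982573) (nat_lit 532) (nat_lit 703871304) (nat_lit 76) (nat_lit 12600104034) (nat_lit 106) (nat_lit 5) (nat_lit 113) (nat_lit 5) (nat_lit 107) (nat_lit 5) (nat_lit 276) (nat_lit 256) (nat_lit 188)) (XT.lf (nat_lit 0) (nat_lit 5778341699) (nat_lit 532) (nat_lit 4690495278) (nat_lit 76) (nat_lit 5773869803) (nat_lit 100) (nat_lit 5) (nat_lit 107) (nat_lit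 5) (nat_lit 101) (nat_lit 5) (nat_lit 277) (nat_lit 256) (nat_lit 187))))) (XT.nd (nat_lit 234) (nat_lit 1140) (nat_lit 0) (XT.nd (nat_lit 78) (nat_lit 380) (nat_lit 0) (XT.lf (nat_lit 0) (nat_lit 7777034857) (nat_lit 380) (nat_lit 1562348258) (nat_lit 456) (nat_lit 7399441865) (nat_lit 95) (nat_lit 5) (nat_lit 100) (nat_lit 5) (nat_lit 101) (nat_lit 5) (nat_lit 278) (nat_lit 256) (nat_lit 186)) (XT.nd (nat_lit 78) (nat_lit 0) (nat_lit 0) (XT.lf (nat_lit 0) (nat_lit 3666445326) (nat_lit 380) (nat_lit 9539011657) (nat_lit 456) (nat_lit 4050540614) (nat_lit 90) (nat_lit 5) (nat_lit 95) (nat_lit 5) (nat_lit 96) (nat_lit 5) (nat_lit 279) (nat_lit 256) (nat_lit 185)) (XT.lf (nat_lit 0) (nat_lit 17060953210) (nat_lit 380) (nat_lit 281016178) (nat_lit 456) (nat_lit 454800575) (nat_lit 90) (nat_lit 5) (nat_lit 95) (nat_lit 5) (nat_lit 96) (nat_lit 5) (nat_lit 280) (nat_lit 256) (nat_lit 184))))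 (XT.nd (nat_lit 78) (nat_lit 684) (nat_lit 0) (XT.lf (nat_lit 0) (nat_lit 3442997347) (nat_lit 456) (nat_lit 5506997821) (nat_lit 76) (nat_lit 9408067054) (nat_lit 84) (nat_lit 5) (nat_lit 90) (nat_lit 5) (nat_lit 85) (nat_lit 5) (nat_lit 281) (nat_lit 256) (nat_lit 183)) (XT.nd (nat_lit 78) (nat_lit 304) (nat_lit 0) (XT.lf (nat_lit 0) (nat_lit 7594990600) (nat_lit 456) (nat_lit 10647418024) (nat_lit 76) (nat_lit 702862616) (nat_lit 79) (nat_lit 5) (nat_lit 85) (nat_lit 5) (nat_lit 80) (nat_lit 5) (nat_lit 282) (nat_lit 256) (nat_lit 182)) (XT.lf (nat_lit 0) (nat_lit 3286231665) (nat_lit 304) (nat_lit 8819912428) (nat_lit 380) (nat_lit 7451196061) (nat_lit 75) (nat_lit 5) (nat_lit 79) (nat_lit 5) (nat_lit 80) (nat_lit 5) (nat_lit 283) (nat_lit 256) (nat_lit 181)))))) (XT.nd (nat_lit 390) (nat_lit 1140) (nat_lit 0) (XT.nd (nat_lit 156) (nat_lit 608) (nat_lit 0) (XT.nd (nat_lit 78) (nat_lit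 380) (nat_lit 0) (XT.lf (nat_lit 0) (nat_lit 16937172691) (nat_lit 380) (nat_lit 2103725795) (nat_lit 76) (nat_lit 1156328565) (nat_lit 75) (nat_lit 5) (nat_lit 80) (nat_lit 5) (nat_lit 76) (nat_lit 5) (nat_lit 284) (nat_lit 256) (nat_lit 180)) (XT.lf (nat_lit 0) (nat_lit 1307820365) (nat_lit 380) (nat_lit 7974587501) (nat_lit 76) (nat_lit 11580729210) (nat_lit 70) (nat_lit 5) (nat_lit 75) (nat_lit 5) (nat_lit 71) (nat_lit 5) (nat_lit 285) (nat_lit 256) (nat_lit 179))) (XT.nd (nat_lit 78) (nat_lit 304) (nat_lit 0) (XT.lf (nat_lit 0) (nat_lit 6113866306) (nat_lit 380) (nat_lit 14382584670) (nat_lit 76) (nat_lit 1062646083) (nat_lit 66) (nat_lit 5) (nat_lit 71) (nat_lit 5) (nat_lit 67) (nat_lit 5) (nat_lit 286) (nat_lit 256) (nat_lit 178)) (XT.nd (nat_lit 78) (nat_lit 0) (nat_lit 0) (XT.lf (nat_lit 0) (nat_lit 854246864) (nat_lit 304) (nat_lit 10466772317) (nat_lit 380) (nat_lit 10964048672)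 (nat_lit 62) (nat_lit 5) (nat_lit 66) (nat_lit 5) (nat_lit 67) (nat_lit 5) (nat_lit 287) (nat_lit 256) (nat_lit 177)) (XT.lf (nat_lit 0) (nat_lit 16915431534) (nat_lit 380) (nat_lit 5923570870) (nat_lit 76) (nat_lit 204562921) (nat_lit 62) (nat_lit 5) (nat_lit 67) (nat_lit 5) (nat_lit 63) (nat_lit 5) (nat_lit 288) (nat_lit 256) (nat_lit 176))))) (XT.nd (nat_lit 234) (nat_lit 532) (nat_lit 0) (XT.nd (nat_lit 78) (nat_lit 380) (nat_lit 0) (XT.lf (nat_lit 0) (nat_lit 10426315729) (nat_lit 228) (nat_lit 12546984146) (nat_lit 304) (nat_lit 861209252) (nat_lit 59) (nat_lit 5) (nat_lit 62) (nat_lit 5) (nat_lit 63) (nat_lit 5) (nat_lit 289) (nat_lit 256) (nat_lit 175)) (XT.nd (nat_lit 78) (nat_lit 0) (nat_lit 0) (XT.lf (nat_lit 0) (nat_lit 3037984502) (nat_lit 304) (nat_lit 1609144998) (nat_lit 380) (nat_lit 20014479809) (nat_lit 54) (nat_lit 5) (nat_lit 58) (nat_lit 5) (nat_lit 59) (nat_lit 5)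 (nat_lit 290) (nat_lit 256) (nat_lit 174)) (XT.lf (nat_lit 0) (nat_lit 10626622335) (nat_lit 380) (nat_lit 5074083831) (nat_lit 76) (nat_lit 9822725596) (nat_lit 54) (nat_lit 5) (nat_lit 59) (nat_lit 5) (nat_lit 55) (nat_lit 5) (nat_lit 291) (nat_lit 256) (nat_lit 173)))) (XT.nd (nat_lit 78) (nat_lit 304) (nat_lit 0) (XT.lf (nat_lit 0) (nat_lit 12502243122) (nat_lit 228) (nat_lit 4519324930) (nat_lit 304) (nat_lit 9403311048) (nat_lit 51) (nat_lit 5) (nat_lit 54) (nat_lit 5) (nat_lit 55) (nat_lit 5) (nat_lit 292) (nat_lit 256) (nat_lit 172)) (XT.nd (nat_lit 78) (nat_lit 76) (nat_lit 0) (XT.lf (nat_lit 0) (nat_lit 3667091927) (nat_lit 228) (nat_lit 20207245417) (nat_lit 304) (nat_lit 3492945945) (nat_lit 48) (nat_lit 5) (nat_lit 51) (nat_lit 5) (nat_lit 52) (nat_lit 5) (nat_lit 293) (nat_lit 256) (nat_lit 171)) (XT.lf (nat_lit 0) (nat_lit 2831463190) (nat_lit 304) (nat_lit 6026089559) (nat_lit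 76) (nat_lit 19493353391) (nat_lit 47) (nat_lit 5) (nat_lit 51) (nat_lit 5) (nat_lit 48) (nat_lit 5) (nat_lit 294) (nat_lit 256) (nat_lit 170))))))))
noncomputable def xc81 : XT := (XT.nd (nat_lit 1716) (nat_lit 532) (nat_lit 0) (XT.nd (nat_lit 858) (nat_lit 836) (nat_lit 0) (XT.nd (nat_lit 390) (nat_lit 760) (nat_lit 0) (XT.nd (nat_lit 156) (nat_lit 228) (nat_lit 0) (XT.nd (nat_lit 78) (nat_lit 228) (nat_lit 0) (XT.lf (nat_lit 0) (nat_lit 9535679598) (nat_lit 304) (nat_lit 16692194773) (nat_lit 76) (nat_lit 3150747039) (nat_lit 44) (nat_lit 5) (nat_lit 48) (nat_lit 5) (nat_lit 45) (nat_lit 5) (nat_lit 295) (nat_lit 256) (nat_lit 169)) (XT.lf (nat_lit 0) (nat_lit 1926098581) (nat_lit 228) (nat_lit 14802112336) (nat_lit 304) (nat_lit 13724940858) (nat_lit 41) (nat_lit 5) (nat_lit 44) (nat_lit 5) (nat_lit 45) (nat_lit 5) (nat_lit 296) (nat_lit 256) (nat_lit 168))) (XT.nd (nat_lit 78) (nat_lit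 228) (nat_lit 0) (XT.lf (nat_lit 0) (nat_lit 21798767027) (nat_lit 228) (nat_lit 2636561215) (nat_lit 304) (nat_lit 7141453017) (nat_lit 41) (nat_lit 5) (nat_lit 44) (nat_lit 5) (nat_lit 45) (nat_lit 5) (nat_lit 297) (nat_lit 256) (nat_lit 167)) (XT.nd (nat_lit 78) (nat_lit 76) (nat_lit 0) (XT.lf (nat_lit 0) (nat_lit 9981226133) (nat_lit 152) (nat_lit 22723820333) (nat_lit 228) (nat_lit 46248764) (nat_lit 39) (nat_lit 5) (nat_lit 41) (nat_lit 5) (nat_lit 42) (nat_lit 5) (nat_lit 298) (nat_lit 256) (nat_lit 166)) (XT.lf (nat_lit 0) (nat_lit 7371726256) (nat_lit 228) (nat_lit 3171735118) (nat_lit 76) (nat_lit 23435582774) (nat_lit 38) (nat_lit 5) (nat_lit 41) (nat_lit 5) (nat_lit 39) (nat_lit 5) (nat_lit 299) (nat_lit 256) (nat_lit 165))))) (XT.nd (nat_lit 234) (nat_lit 380) (nat_lit 0) (XT.nd (nat_lit 78) (nat_lit 152) (nat_lit 0) (XT.lf (nat_lit 0) (nat_lit 15338249029) (nat_lit 304) (nat_lit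 17557772662) (nat_lit 76) (nat_lit 2366804852) (nat_lit 35) (nat_lit 5) (nat_lit 39) (nat_lit 5) (nat_lit 36) (nat_lit 5) (nat_lit 300) (nat_lit 256) (nat_lit 164)) (XT.nd (nat_lit 78) (nat_lit 0) (nat_lit 0) (XT.lf (nat_lit 0) (nat_lit 3011398806) (nat_lit 152) (nat_lit 20845433693) (nat_lit 228) (nat_lit 12749370602) (nat_lit 33) (nat_lit 5) (nat_lit 35) (nat_lit 5) (nat_lit 36) (nat_lit 5) (nat_lit 301) (nat_lit 256) (nat_lit 163)) (XT.lf (nat_lit 0) (nat_lit 24953820108) (nat_lit 152) (nat_lit 8014145621) (nat_lit 228) (nat_lit 5043800407) (nat_lit 33) (nat_lit 5) (nat_lit 35) (nat_lit 5) (nat_lit 36) (nat_lit 5) (nat_lit 302) (nat_lit 256) (nat_lit 162)))) (XT.nd (nat_lit 78) (nat_lit 152) (nat_lit 0) (XT.lf (nat_lit 0) (nat_lit 3110394281) (nat_lit 228) (nat_lit 30914782076) (nat_lit 76) (nat_lit 5457883159) (nat_lit 30) (nat_lit 5) (nat_lit 33) (nat_lit 5) (nat_lit 31) (nat_lit 5)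 (nat_lit 303) (nat_lit 256) (nat_lit 161)) (XT.nd (nat_lit 78) (nat_lit 152) (nat_lit 0) (XT.lf (nat_lit 0) (nat_lit 11772372632) (nat_lit 228) (nat_lit 9629399200) (nat_lit 76) (nat_lit 19618530273) (nat_lit 30) (nat_lit 5) (nat_lit 33) (nat_lit 5) (nat_lit 31) (nat_lit 5) (nat_lit 304) (nat_lit 256) (nat_lit 160)) (XT.lf (nat_lit 0) (nat_lit 12952943707) (nat_lit 152) (nat_lit 8026425562) (nat_lit 228) (nat_lit 21651693617) (nat_lit 28) (nat_lit 5) (nat_lit 30) (nat_lit 5) (nat_lit 31) (nat_lit 5) (nat_lit 305) (nat_lit 256) (nat_lit 159)))))) (XT.nd (nat_lit 390) (nat_lit 456) (nat_lit 0) (XT.nd (nat_lit 156) (nat_lit 228) (nat_lit 0) (XT.nd (nat_lit 78) (nat_lit 152) (nat_lit 0) (XT.lf (nat_lit 0) (nat_lit 30792418769) (nat_lit 228) (nat_lit 7532385747) (nat_lit 76) (nat_lit 5993199092) (nat_lit 28) (nat_lit 5) (nat_lit 31) (nat_lit 5) (nat_lit 29) (nat_lit 5) (nat_lit 306) (nat_lit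 256) (nat_lit 158)) (XT.lf (nat_lit 0) (nat_lit 15931647853) (nat_lit 152) (nat_lit 25386963356) (nat_lit 228) (nat_lit 4764017816) (nat_lit 26) (nat_lit 5) (nat_lit 28) (nat_lit 5) (nat_lit 29) (nat_lit 5) (nat_lit 307) (nat_lit 256) (nat_lit 157))) (XT.nd (nat_lit 78) (nat_lit 152) (nat_lit 0) (XT.lf (nat_lit 0) (nat_lit 4415968712) (nat_lit 228) (nat_lit 7268833039) (nat_lit 76) (nat_lit 36247409379) (nat_lit 25) (nat_lit 5) (nat_lit 28) (nat_lit 5) (nat_lit 26) (nat_lit 5) (nat_lit 308) (nat_lit 256) (nat_lit 156)) (XT.nd (nat_lit 78) (nat_lit 0) (nat_lit 0) (XT.lf (nat_lit 0) (nat_lit 14138128344) (nat_lit 228) (nat_lit 32872403160) (nat_lit 76) (nat_lit 2856885648) (nat_lit 23) (nat_lit 5) (nat_lit 26) (nat_lit 5) (nat_lit 24) (nat_lit 5) (nat_lit 309) (nat_lit 256) (nat_lit 155)) (XT.lf (nat_lit 0) (nat_lit 24529321743) (nat_lit 228) (nat_lit 9409293861) (nat_lit 76) (nat_lit 17955290476)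 (nat_lit 23) (nat_lit 5) (nat_lit 26) (nat_lit 5) (nat_lit 24) (nat_lit 5) (nat_lit 310) (nat_lit 256) (nat_lit 154))))) (XT.nd (nat_lit 234) (nat_lit 152) (nat_lit 0) (XT.nd (nat_lit 78) (nat_lit 152) (nat_lit 0) (XT.lf (nat_lit 0) (nat_lit 15513089642) (nat_lit 152) (nat_lit 20066031403) (nat_lit 228) (nat_lit 18438436905) (nat_lit 21) (nat_lit 5) (nat_lit 23) (nat_lit 5) (nat_lit 24) (nat_lit 5) (nat_lit 311) (nat_lit 256) (nat_lit 153)) (XT.nd (nat_lit 78) (nat_lit 152) (nat_lit 0) (XT.lf (nat_lit 0) (nat_lit 41862097139) (nat_lit 152) (nat_lit 5406423273) (nat_lit 228) (nat_lit 8976268113) (nat_lit 21) (nat_lit 5) (nat_lit 23) (nat_lit 5) (nat_lit 24) (nat_lit 5) (nat_lit 312) (nat_lit 256) (nat_lit 152)) (XT.lf (nat_lit 0) (nat_lit 1135056679) (nat_lit 152) (nat_lit 47539523951) (nat_lit 76) (nat_lit 9902689305) (nat_lit 19) (nat_lit 5) (nat_lit 21) (nat_lit 5) (nat_lit 20) (nat_lit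 5) (nat_lit 313) (nat_lit 256) (nat_lit 151)))) (XT.nd (nat_lit 78) (nat_lit 152) (nat_lit 0) (XT.lf (nat_lit 0) (nat_lit 11762979025) (nat_lit 152) (nat_lit 23154133251) (nat_lit 76) (nat_lit 26100704984) (nat_lit 19) (nat_lit 5) (nat_lit 21) (nat_lit 5) (nat_lit 20) (nat_lit 5) (nat_lit 314) (nat_lit 256) (nat_lit 150)) (XT.nd (nat_lit 78) (nat_lit 0) (nat_lit 0) (XT.lf (nat_lit 0) (nat_lit 2484409797) (nat_lit 152) (nat_lit 20453061956) (nat_lit 228) (nat_lit 40642472861) (nat_lit 17) (nat_lit 5) (nat_lit 19) (nat_lit 5) (nat_lit 20) (nat_lit 5) (nat_lit 315) (nat_lit 256) (nat_lit 149)) (XT.lf (nat_lit 0) (nat_lit 29874554732) (nat_lit 152) (nat_lit 5026056705) (nat_lit 228) (nat_lit 31362676750) (nat_lit 17) (nat_lit 5) (nat_lit 19) (nat_lit 5) (nat_lit 20) (nat_lit 5) (nat_lit 316) (nat_lit 256) (nat_lit 148))))))) (XT.nd (nat_lit 858) (nat_lit 0) (nat_lit 0) (XT.nd (nat_lit 390) (nat_lit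 228) (nat_lit 0) (XT.nd (nat_lit 156) (nat_lit 228) (nat_lit 0) (XT.nd (nat_lit 78) (nat_lit 76) (nat_lit 0) (XT.lf (nat_lit 0) (nat_lit 47561222768) (nat_lit 228) (nat_lit 10567685733) (nat_lit 76) (nat_lit 10948918158) (nat_lit 17) (nat_lit 5) (nat_lit 20) (nat_lit 5) (nat_lit 18) (nat_lit 4) (nat_lit 317) (nat_lit 256) (nat_lit 147)) (XT.lf (nat_lit 0) (nat_lit 16808635776) (nat_lit 76) (nat_lit 44250837456) (nat_lit 152) (nat_lit 10967487384) (nat_lit 16) (nat_lit 5) (nat_lit 17) (nat_lit 5) (nat_lit 18) (nat_lit 4) (nat_lit 318) (nat_lit 256) (nat_lit 146))) (XT.nd (nat_lit 78) (nat_lit 152) (nat_lit 0) (XT.lf (nat_lit 0) (nat_lit 209287356) (nat_lit 152) (nat_lit 29360635111) (nat_lit 76) (nat_lit 45550533721) (nat_lit 15) (nat_lit 5) (nat_lit 17) (nat_lit 5) (nat_lit 16) (nat_lit 5) (nat_lit 319) (nat_lit 256) (nat_lit 145)) (XT.nd (nat_lit 78) (nat_lit 152) (nat_lit 0) (XT.lf (nat_lit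 0) (nat_lit 11713012482) (nat_lit 152) (nat_lit 2332976148) (nat_lit 76) (nat_lit 64319538162) (nat_lit 15) (nat_lit 5) (nat_lit 17) (nat_lit 5) (nat_lit 16) (nat_lit 5) (nat_lit 320) (nat_lit 256) (nat_lit 144)) (XT.lf (nat_lit 0) (nat_lit 24064481630) (nat_lit 228) (nat_lit 55236987492) (nat_lit 76) (nat_lit 2463210788) (nat_lit 13) (nat_lit 5) (nat_lit 16) (nat_lit 5) (nat_lit 14) (nat_lit 4) (nat_lit 321) (nat_lit 256) (nat_lit 143))))) (XT.nd (nat_lit 234) (nat_lit 152) (nat_lit 0) (XT.nd (nat_lit 78) (nat_lit 76) (nat_lit 0) (XT.lf (nat_lit 0) (nat_lit 37192888216) (nat_lit 228) (nat_lit 28606392016) (nat_lit 76) (nat_lit 19529734981) (nat_lit 13) (nat_lit 5) (nat_lit 16) (nat_lit 5) (nat_lit 14) (nat_lit 4) (nat_lit 322) (nat_lit 256) (nat_lit 142)) (XT.nd (nat_lit 78) (nat_lit 76) (nat_lit 0) (XT.lf (nat_lit 0) (nat_lit 50971372941) (nat_lit 228) (nat_lit 655182207) (nat_lit 76)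 (nat_lit 37445207586) (nat_lit 13) (nat_lit 5) (nat_lit 16) (nat_lit 5) (nat_lit 14) (nat_lit 4) (nat_lit 323) (nat_lit 256) (nat_lit 141)) (XT.lf (nat_lit 0) (nat_lit 29254044204) (nat_lit 76) (nat_lit 36459905288) (nat_lit 152) (nat_lit 27279448055) (nat_lit 12) (nat_lit 5) (nat_lit 13) (nat_lit 5) (nat_lit 14) (nat_lit 4) (nat_lit 324) (nat_lit 256) (nat_lit 140)))) (XT.nd (nat_lit 78) (nat_lit 152) (nat_lit 0) (XT.lf (nat_lit 0) (nat_lit 60662325649) (nat_lit 76) (nat_lit 20532224125) (nat_lit 152) (nat_lit 15916542181) (nat_lit 12) (nat_lit 5) (nat_lit 13) (nat_lit 5) (nat_lit 14) (nat_lit 4) (nat_lit 325) (nat_lit 256) (nat_lit 139)) (XT.nd (nat_lit 78) (nat_lit 152) (nat_lit 0) (XT.lf (nat_lit 0) (nat_lit 93631404339) (nat_lit 76) (nat_lit 3812204667) (nat_lit 152) (nat_lit 3991233692) (nat_lit 12) (nat_lit 5) (nat_lit 13) (nat_lit 5) (nat_lit 14) (nat_lit 4) (nat_lit 326) (nat_lit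 256) (nat_lit 138)) (XT.lf (nat_lit 0) (nat_lit 8711040889) (nat_lit 152) (nat_lit 83476632851) (nat_lit 76) (nat_lit 13774236668) (nat_lit 10) (nat_lit 5) (nat_lit 12) (nat_lit 5) (nat_lit 11) (nat_lit 4) (nat_lit 327) (nat_lit 256) (nat_lit 137)))))) (XT.nd (nat_lit 32214) (nat_lit 0) (nat_lit 11704) (XT.nd (nat_lit 31980) (nat_lit 0) (nat_lit 12464) (XT.nd (nat_lit 78) (nat_lit 0) (nat_lit 0) (XT.lf (nat_lit 0) (nat_lit 22081023731) (nat_lit 152) (nat_lit 56350107936) (nat_lit 76) (nat_lit 32279564084) (nat_lit 10) (nat_lit 5) (nat_lit 12) (nat_lit 5) (nat_lit 11) (nat_lit 4) (nat_lit 328) (nat_lit 256) (nat_lit 136)) (XT.lf (nat_lit 0) (nat_lit 36114524463) (nat_lit 152) (nat_lit 27875949314) (nat_lit 76) (nat_lit 51706599782) (nat_lit 10) (nat_lit 5) (nat_lit 12) (nat_lit 5) (nat_lit 11) (nat_lit 4) (nat_lit 329) (nat_lit 256) (nat_lit 135))) (XT.nd (nat_lit 78) (nat_lit 0) (nat_lit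 0) (XT.lf (nat_lit 0) (nat_lit 592060192) (nat_lit 0) (nat_lit 592060192) (nat_lit 988) (nat_lit 3768787494) (nat_lit 174) (nat_lit 5) (nat_lit 174) (nat_lit 3) (nat_lit 187) (nat_lit 3) (nat_lit 257) (nat_lit 257) (nat_lit 206)) (XT.nd (nat_lit 78) (nat_lit 0) (nat_lit 76) (XT.lf (nat_lit 0) (nat_lit 3563880110) (nat_lit 988) (nat_lit 1748122311) (nat_lit 1064) (nat_lit 4804867232) (nat_lit 174) (nat_lit 5) (nat_lit 187) (nat_lit 3) (nat_lit 188) (nat_lit 5) (nat_lit 258) (nat_lit 257) (nat_lit 205)) (XT.lf (nat_lit 0) (nat_lit 4823891064) (nat_lit 988) (nat_lit 4711925601) (nat_lit 1064) (nat_lit 802681826) (nat_lit 175) (nat_lit 5) (nat_lit 188) (nat_lit 5) (nat_lit 189) (nat_lit 5) (nat_lit 259) (nat_lit 257) (nat_lit 204))))) (XT.nd (nat_lit 234) (nat_lit 836) (nat_lit 0) (XT.nd (nat_lit 78) (nat_lit 0) (nat_lit 76) (XT.lf (nat_lit 76) (nat_lit 2797854064) (nat_lit 0) (nat_lit 3381580510)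 (nat_lit 1064) (nat_lit 4390950556) (nat_lit 176) (nat_lit 5) (nat_lit 175) (nat_lit 5) (nat_lit 189) (nat_lit 5) (nat_lit 260) (nat_lit 257) (nat_lit 203)) (XT.nd (nat_lit 78) (nat_lit 0) (nat_lit 0) (XT.lf (nat_lit 0) (nat_lit 7618233810) (nat_lit 988) (nat_lit 100906776) (nat_lit 1064) (nat_lit 3094406223) (nat_lit 176) (nat_lit 5) (nat_lit 189) (nat_lit 5) (nat_lit 190) (nat_lit 5) (nat_lit 261) (nat_lit 257) (nat_lit 202)) (XT.lf (nat_lit 76) (nat_lit 8038947578) (nat_lit 0) (nat_lit 1141320214) (nat_lit 1064) (nat_lit 1887198096) (nat_lit 177) (nat_lit 5) (nat_lit 176) (nat_lit 5) (nat_lit 190) (nat_lit 5) (nat_lit 262) (nat_lit 257) (nat_lit 201)))) (XT.nd (nat_lit 78) (nat_lit 988) (nat_lit 0) (XT.lf (nat_lit 76) (nat_lit 5262049465) (nat_lit 0) (nat_lit 5607998847) (nat_lit 1064) (nat_lit 462674841) (nat_lit 178) (nat_lit 5) (nat_lit 177) (nat_lit 5) (nat_lit 191) (nat_lit 5) (nat_lit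 263) (nat_lit 257) (nat_lit 200)) (XT.nd (nat_lit 78) (nat_lit 0) (nat_lit 0) (XT.lf (nat_lit 0) (nat_lit 1036636112) (nat_lit 1064) (nat_lit 9217893652) (nat_lit 1140) (nat_lit 1355825649) (nat_lit 164) (nat_lit 5) (nat_lit 178) (nat_lit 5) (nat_lit 179) (nat_lit 5) (nat_lit 264) (nat_lit 257) (nat_lit 199)) (XT.lf (nat_lit 0) (nat_lit 2667875846) (nat_lit 1064) (nat_lit 596182054) (nat_lit 1140) (nat_lit 8635793867) (nat_lit 164) (nat_lit 5) (nat_lit 178) (nat_lit 5) (nat_lit 179) (nat_lit 5) (nat_lit 265) (nat_lit 257) (nat_lit 198))))))))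
noncomputable def xc82 : XT := (XT.nd (nat_lit 1716) (nat_lit 3116) (nat_lit 0) (XT.nd (nat_lit 858) (nat_lit 3040) (nat_lit 0) (XT.nd (nat_lit 390) (nat_lit 2660) (nat_lit 0) (XT.nd (nat_lit 156) (nat_lit 1824) (nat_lit 0) (XT.nd (nat_lit 78) (nat_lit 0) (nat_lit 0) (XT.lf (nat_lit 0) (nat_lit 4452598786) (nat_lit 1064) (nat_lit 3656946052) (nat_lit 1140) (nat_lit 4092230814) (nat_lit 165) (nat_lit 5) (nat_lit 179) (nat_lit 5) (nat_lit 180) (nat_lit 5) (nat_lit 266) (nat_lit 257) (nat_lit 197)) (XT.lf (nat_lit 76) (nat_lit 5675892539) (nat_lit 0) (nat_lit 695808299) (nat_lit 1140) (nat_lit 6145845703) (nat_lit 166) (nat_lit 5) (nat_lit 165) (nat_lit 5) (nat_lit 180) (nat_lit 5) (nat_lit 267) (nat_lit 257) (nat_lit 196))) (XT.nd (nat_lit 78) (nat_lit 836) (nat_lit 0) (XT.lf (nat_lit 0) (nat_lit 2647895883) (nat_lit 1064) (nat_lit 5823952753) (nat_lit 1140) (nat_lit 4374804712) (nat_lit 152)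 (nat_lit 5) (nat_lit 166) (nat_lit 5) (nat_lit 167) (nat_lit 5) (nat_lit 268) (nat_lit 257) (nat_lit 195)) (XT.nd (nat_lit 78) (nat_lit 836) (nat_lit 0) (XT.lf (nat_lit 0) (nat_lit 10728942477) (nat_lit 1140) (nat_lit 500781222) (nat_lit 76) (nat_lit 1961028963) (nat_lit 152) (nat_lit 5) (nat_lit 167) (nat_lit 5) (nat_lit 153) (nat_lit 5) (nat_lit 269) (nat_lit 257) (nat_lit 194)) (XT.lf (nat_lit 0) (nat_lit 9776508109) (nat_lit 836) (nat_lit 3432661823) (nat_lit 912) (nat_lit 339669429) (nat_lit 141) (nat_lit 5) (nat_lit 152) (nat_lit 5) (nat_lit 153) (nat_lit 5) (nat_lit 270) (nat_lit 257) (nat_lit 193))))) (XT.nd (nat_lit 234) (nat_lit 1520) (nat_lit 0) (XT.nd (nat_lit 78) (nat_lit 532) (nat_lit 0) (XT.lf (nat_lit 0) (nat_lit 1926927971) (nat_lit 608) (nat_lit 7240972863) (nat_lit 76) (nat_lit 4754212804) (nat_lit 133) (nat_lit 5) (nat_lit 141) (nat_lit 5) (nat_lit 134) (nat_lit 5) (nat_lit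 271) (nat_lit 257) (nat_lit 192)) (XT.nd (nat_lit 78) (nat_lit 0) (nat_lit 0) (XT.lf (nat_lit 0) (nat_lit 3413748355) (nat_lit 532) (nat_lit 953177620) (nat_lit 608) (nat_lit 9945091842) (nat_lit 126) (nat_lit 5) (nat_lit 133) (nat_lit 5) (nat_lit 134) (nat_lit 5) (nat_lit 272) (nat_lit 257) (nat_lit 191)) (XT.lf (nat_lit 0) (nat_lit 7039854823) (nat_lit 608) (nat_lit 78941640) (nat_lit 76) (nat_lit 7599368955) (nat_lit 126) (nat_lit 5) (nat_lit 134) (nat_lit 5) (nat_lit 127) (nat_lit 5) (nat_lit 273) (nat_lit 257) (nat_lit 190)))) (XT.nd (nat_lit 78) (nat_lit 1064) (nat_lit 0) (XT.lf (nat_lit 0) (nat_lit 9944623874) (nat_lit 532) (nat_lit 3697537775) (nat_lit 76) (nat_lit 1499585451) (nat_lit 120) (nat_lit 5) (nat_lit 127) (nat_lit 5) (nat_lit 121) (nat_lit 5) (nat_lit 274) (nat_lit 257) (nat_lit 189)) (XT.nd (nat_lit 78) (nat_lit 532) (nat_lit 0) (XT.lf (nat_lit 0) (nat_lit 8006993132)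 (nat_lit 532) (nat_lit 5102386789) (nat_lit 608) (nat_lit 2473754552) (nat_lit 113) (nat_lit 5) (nat_lit 120) (nat_lit 5) (nat_lit 121) (nat_lit 5) (nat_lit 275) (nat_lit 257) (nat_lit 188)) (XT.lf (nat_lit 0) (nat_lit 462739123) (nat_lit 532) (nat_lit 11709055849) (nat_lit 76) (nat_lit 3872214311) (nat_lit 106) (nat_lit 5) (nat_lit 113) (nat_lit 5) (nat_lit 107) (nat_lit 5) (nat_lit 276) (nat_lit 257) (nat_lit 187)))))) (XT.nd (nat_lit 390) (nat_lit 1368) (nat_lit 0) (XT.nd (nat_lit 156) (nat_lit 1216) (nat_lit 0) (XT.nd (nat_lit 78) (nat_lit 0) (nat_lit 0) (XT.lf (nat_lit 0) (nat_lit 368507116) (nat_lit 456) (nat_lit 3227967856) (nat_lit 532) (nat_lit 12927731545) (nat_lit 100) (nat_lit 5) (nat_lit 106) (nat_lit 5) (nat_lit 107) (nat_lit 5) (nat_lit 277) (nat_lit 257) (nat_lit 186)) (XT.lf (nat_lit 0) (nat_lit 7036359222) (nat_lit 532) (nat_lit 3826323819) (nat_lit 76) (nat_lit 6161304644)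 (nat_lit 100) (nat_lit 5) (nat_lit 107) (nat_lit 5) (nat_lit 101) (nat_lit 5) (nat_lit 278) (nat_lit 257) (nat_lit 185))) (XT.nd (nat_lit 78) (nat_lit 836) (nat_lit 0) (XT.lf (nat_lit 0) (nat_lit 9233088915) (nat_lit 380) (nat_lit 1506474755) (nat_lit 456) (nat_lit 6806509625) (nat_lit 95) (nat_lit 5) (nat_lit 100) (nat_lit 5) (nat_lit 101) (nat_lit 5) (nat_lit 279) (nat_lit 257) (nat_lit 184)) (XT.nd (nat_lit 78) (nat_lit 456) (nat_lit 0) (XT.lf (nat_lit 0) (nat_lit 4913969476) (nat_lit 380) (nat_lit 9851989547) (nat_lit 456) (nat_lit 3324215778) (nat_lit 90) (nat_lit 5) (nat_lit 95) (nat_lit 5) (nat_lit 96) (nat_lit 5) (nat_lit 280) (nat_lit 257) (nat_lit 183)) (XT.lf (nat_lit 0) (nat_lit 269523982) (nat_lit 380) (nat_lit 132203465) (nat_lit 456) (nat_lit 18257426204) (nat_lit 84) (nat_lit 5) (nat_lit 89) (nat_lit 5) (nat_lit 90) (nat_lit 5) (nat_lit 281) (nat_lit 257) (nat_lit 182)))))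 (XT.nd (nat_lit 234) (nat_lit 684) (nat_lit 0) (XT.nd (nat_lit 78) (nat_lit 684) (nat_lit 0) (XT.lf (nat_lit 0) (nat_lit 4452446872) (nat_lit 456) (nat_lit 4754767640) (nat_lit 76) (nat_lit 10042208940) (nat_lit 84) (nat_lit 5) (nat_lit 90) (nat_lit 5) (nat_lit 85) (nat_lit 5) (nat_lit 282) (nat_lit 257) (nat_lit 181)) (XT.nd (nat_lit 78) (nat_lit 304) (nat_lit 0) (XT.lf (nat_lit 0) (nat_lit 8783599948) (nat_lit 456) (nat_lit 10157935397) (nat_lit 76) (nat_lit 925378527) (nat_lit 79) (nat_lit 5) (nat_lit 85) (nat_lit 5) (nat_lit 80) (nat_lit 5) (nat_lit 283) (nat_lit 257) (nat_lit 180)) (XT.lf (nat_lit 0) (nat_lit 4443105550) (nat_lit 304) (nat_lit 9048229547) (nat_lit 380) (nat_lit 7019184945) (nat_lit 75) (nat_lit 5) (nat_lit 79) (nat_lit 5) (nat_lit 80) (nat_lit 5) (nat_lit 284) (nat_lit 257) (nat_lit 179)))) (XT.nd (nat_lit 78) (nat_lit 684) (nat_lit 0) (XT.lf (nat_lit 0) (nat_lit 18528724846)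 (nat_lit 380) (nat_lit 1242050156) (nat_lit 76) (nat_lit 1412743449) (nat_lit 75) (nat_lit 5) (nat_lit 80) (nat_lit 5) (nat_lit 76) (nat_lit 5) (nat_lit 285) (nat_lit 257) (nat_lit 178)) (XT.nd (nat_lit 78) (nat_lit 304) (nat_lit 0) (XT.lf (nat_lit 0) (nat_lit 2099730218) (nat_lit 380) (nat_lit 7418574180) (nat_lit 76) (nat_lit 12365057447) (nat_lit 70) (nat_lit 5) (nat_lit 75) (nat_lit 5) (nat_lit 71) (nat_lit 5) (nat_lit 286) (nat_lit 257) (nat_lit 177)) (XT.lf (nat_lit 0) (nat_lit 7122574440) (nat_lit 380) (nat_lit 14154408820) (nat_lit 76) (nat_lit 1337895806) (nat_lit 66) (nat_lit 5) (nat_lit 71) (nat_lit 5) (nat_lit 67) (nat_lit 5) (nat_lit 287) (nat_lit 257) (nat_lit 176))))))) (XT.nd (nat_lit 858) (nat_lit 1216) (nat_lit 0) (XT.nd (nat_lit 390) (nat_lit 988) (nat_lit 0) (XT.nd (nat_lit 156) (nat_lit 608) (nat_lit 0) (XT.nd (nat_lit 78) (nat_lit 0) (nat_lit 0) (XT.lf (nat_lit 0) (nat_lit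 1817109981) (nat_lit 304) (nat_lit 10748343134) (nat_lit 380) (nat_lit 10812485783) (nat_lit 62) (nat_lit 5) (nat_lit 66) (nat_lit 5) (nat_lit 67) (nat_lit 5) (nat_lit 288) (nat_lit 257) (nat_lit 175)) (XT.lf (nat_lit 0) (nat_lit 18409495487) (nat_lit 380) (nat_lit 5325264555) (nat_lit 76) (nat_lit 440553008) (nat_lit 62) (nat_lit 5) (nat_lit 67) (nat_lit 5) (nat_lit 63) (nat_lit 5) (nat_lit 289) (nat_lit 257) (nat_lit 174))) (XT.nd (nat_lit 78) (nat_lit 380) (nat_lit 0) (XT.lf (nat_lit 0) (nat_lit 11816476145) (nat_lit 228) (nat_lit 12931261900) (nat_lit 304) (nat_lit 258788324) (nat_lit 59) (nat_lit 5) (nat_lit 62) (nat_lit 5) (nat_lit 63) (nat_lit 5) (nat_lit 290) (nat_lit 257) (nat_lit 173)) (XT.nd (nat_lit 78) (nat_lit 0) (nat_lit 0) (XT.lf (nat_lit 0) (nat_lit 4046939479) (nat_lit 304) (nat_lit 1443533349) (nat_lit 380) (nat_lit 20385022783) (nat_lit 54) (nat_lit 5) (nat_lit 58) (nat_lit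 5) (nat_lit 59) (nat_lit 5) (nat_lit 291) (nat_lit 257) (nat_lit 172)) (XT.lf (nat_lit 0) (nat_lit 11742098421) (nat_lit 380) (nat_lit 4495517023) (nat_lit 76) (nat_lit 10543640169) (nat_lit 54) (nat_lit 5) (nat_lit 59) (nat_lit 5) (nat_lit 55) (nat_lit 5) (nat_lit 292) (nat_lit 257) (nat_lit 171))))) (XT.nd (nat_lit 234) (nat_lit 456) (nat_lit 0) (XT.nd (nat_lit 78) (nat_lit 304) (nat_lit 0) (XT.lf (nat_lit 0) (nat_lit 13935769396) (nat_lit 228) (nat_lit 4500976571) (nat_lit 304) (nat_lit 9291669923) (nat_lit 51) (nat_lit 5) (nat_lit 54) (nat_lit 5) (nat_lit 55) (nat_lit 5) (nat_lit 293) (nat_lit 257) (nat_lit 170)) (XT.nd (nat_lit 78) (nat_lit 76) (nat_lit 0) (XT.lf (nat_lit 0) (nat_lit 4650606023) (nat_lit 228) (nat_lit 20964614110) (nat_lit 304) (nat_lit 3103265505) (nat_lit 48) (nat_lit 5) (nat_lit 51) (nat_lit 5) (nat_lit 52) (nat_lit 5) (nat_lit 294) (nat_lit 257) (nat_lit 169)) (XT.lf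 (nat_lit 0) (nat_lit 3500003654) (nat_lit 304) (nat_lit 5554159131) (nat_lit 76) (nat_lit 20697789086) (nat_lit 47) (nat_lit 5) (nat_lit 51) (nat_lit 5) (nat_lit 48) (nat_lit 5) (nat_lit 295) (nat_lit 257) (nat_lit 168)))) (XT.nd (nat_lit 78) (nat_lit 228) (nat_lit 0) (XT.lf (nat_lit 0) (nat_lit 10523882979) (nat_lit 304) (nat_lit 16762129785) (nat_lit 76) (nat_lit 3545539462) (nat_lit 44) (nat_lit 5) (nat_lit 48) (nat_lit 5) (nat_lit 45) (nat_lit 5) (nat_lit 296) (nat_lit 257) (nat_lit 167)) (XT.nd (nat_lit 78) (nat_lit 0) (nat_lit 0) (XT.lf (nat_lit 0) (nat_lit 2765158990) (nat_lit 228) (nat_lit 15293668390) (nat_lit 304) (nat_lit 13901529452) (nat_lit 41) (nat_lit 5) (nat_lit 44) (nat_lit 5) (nat_lit 45) (nat_lit 5) (nat_lit 297) (nat_lit 257) (nat_lit 166)) (XT.lf (nat_lit 0) (nat_lit 23596091549) (nat_lit 228) (nat_lit 2531675406) (nat_lit 304) (nat_lit 7013136669) (nat_lit 41) (nat_lit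 5) (nat_lit 44) (nat_lit 5) (nat_lit 45) (nat_lit 5) (nat_lit 298) (nat_lit 257) (nat_lit 165)))))) (XT.nd (nat_lit 390) (nat_lit 608) (nat_lit 0) (XT.nd (nat_lit 156) (nat_lit 380) (nat_lit 0) (XT.nd (nat_lit 78) (nat_lit 0) (nat_lit 0) (XT.lf (nat_lit 0) (nat_lit 414617147) (nat_lit 228) (nat_lit 23199161157) (nat_lit 76) (nat_lit 10760677194) (nat_lit 38) (nat_lit 5) (nat_lit 41) (nat_lit 5) (nat_lit 39) (nat_lit 5) (nat_lit 299) (nat_lit 257) (nat_lit 164)) (XT.lf (nat_lit 0) (nat_lit 8180532326) (nat_lit 228) (nat_lit 2655136546) (nat_lit 76) (nat_lit 24828595581) (nat_lit 38) (nat_lit 5) (nat_lit 41) (nat_lit 5) (nat_lit 39) (nat_lit 5) (nat_lit 300) (nat_lit 257) (nat_lit 163))) (XT.nd (nat_lit 78) (nat_lit 152) (nat_lit 0) (XT.lf (nat_lit 0) (nat_lit 16532936142) (nat_lit 304) (nat_lit 17768776386) (nat_lit 76) (nat_lit 2710921808) (nat_lit 35) (nat_lit 5) (nat_lit 39) (nat_lit 5)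 (nat_lit 36) (nat_lit 5) (nat_lit 301) (nat_lit 257) (nat_lit 162)) (XT.nd (nat_lit 78) (nat_lit 0) (nat_lit 0) (XT.lf (nat_lit 0) (nat_lit 3809737534) (nat_lit 152) (nat_lit 21653567779) (nat_lit 228) (nat_lit 12960322536) (nat_lit 33) (nat_lit 5) (nat_lit 35) (nat_lit 5) (nat_lit 36) (nat_lit 5) (nat_lit 302) (nat_lit 257) (nat_lit 161)) (XT.lf (nat_lit 0) (nat_lit 26818433768) (nat_lit 152) (nat_lit 8191864713) (nat_lit 228) (nat_lit 4889784145) (nat_lit 33) (nat_lit 5) (nat_lit 35) (nat_lit 5) (nat_lit 36) (nat_lit 5) (nat_lit 303) (nat_lit 257) (nat_lit 160))))) (XT.nd (nat_lit 234) (nat_lit 228) (nat_lit 0) (XT.nd (nat_lit 78) (nat_lit 152) (nat_lit 0) (XT.lf (nat_lit 0) (nat_lit 3653202454) (nat_lit 228) (nat_lit 31843317111) (nat_lit 76) (nat_lit 5948654686) (nat_lit 30) (nat_lit 5) (nat_lit 33) (nat_lit 5) (nat_lit 31) (nat_lit 5) (nat_lit 304) (nat_lit 257) (nat_lit 159)) (XT.nd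 (nat_lit 78) (nat_lit 152) (nat_lit 0) (XT.lf (nat_lit 0) (nat_lit 12729837415) (nat_lit 228) (nat_lit 9523055762) (nat_lit 76) (nat_lit 20806959044) (nat_lit 30) (nat_lit 5) (nat_lit 33) (nat_lit 5) (nat_lit 31) (nat_lit 5) (nat_lit 305) (nat_lit 257) (nat_lit 158)) (XT.lf (nat_lit 0) (nat_lit 14171554738) (nat_lit 152) (nat_lit 8213553498) (nat_lit 228) (nat_lit 22366424103) (nat_lit 28) (nat_lit 5) (nat_lit 30) (nat_lit 5) (nat_lit 31) (nat_lit 5) (nat_lit 306) (nat_lit 257) (nat_lit 157)))) (XT.nd (nat_lit 78) (nat_lit 228) (nat_lit 0) (XT.lf (nat_lit 0) (nat_lit 32673782050) (nat_lit 228) (nat_lit 7356634958) (nat_lit 76) (nat_lit 6492872055) (nat_lit 28) (nat_lit 5) (nat_lit 31) (nat_lit 5) (nat_lit 29) (nat_lit 5) (nat_lit 307) (nat_lit 257) (nat_lit 156)) (XT.nd (nat_lit 78) (nat_lit 76) (nat_lit 0) (XT.lf (nat_lit 0) (nat_lit 17264766745) (nat_lit 152) (nat_lit 26450401440) (nat_lit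 228) (nat_lit 4661328305) (nat_lit 26) (nat_lit 5) (nat_lit 28) (nat_lit 5) (nat_lit 29) (nat_lit 5) (nat_lit 308) (nat_lit 257) (nat_lit 155)) (XT.lf (nat_lit 0) (nat_lit 4955089436) (nat_lit 228) (nat_lit 7114633130) (nat_lit 76) (nat_lit 38249230271) (nat_lit 25) (nat_lit 5) (nat_lit 28) (nat_lit 5) (nat_lit 26) (nat_lit 5) (nat_lit 309) (nat_lit 257) (nat_lit 154))))))))
noncomputable def xc83 : XT := (XT.nd (nat_lit 33696) (nat_lit 0) (nat_lit 5624) (XT.nd (nat_lit 858) (nat_lit 380) (nat_lit 0) (XT.nd (nat_lit 390) (nat_lit 304) (nat_lit 0) (XT.nd (nat_lit 156) (nat_lit 304) (nat_lit 0) (XT.nd (nat_lit 78) (nat_lit 0) (nat_lit 0) (XT.lf (nat_lit 0) (nat_lit 15154904695) (nat_lit 228) (nat_lit 34005548542) (nat_lit 76) (nat_lit 3190734692) (nat_lit 23) (nat_lit 5) (nat_lit 26) (nat_lit 5) (nat_lit 24) (nat_lit 5) (nat_lit 310) (nat_lit 257) (nat_lit 153)) (XT.lf (nat_lit 0) (nat_lit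 26050902053) (nat_lit 228) (nat_lit 9393592101) (nat_lit 76) (nat_lit 19034964297) (nat_lit 23) (nat_lit 5) (nat_lit 26) (nat_lit 5) (nat_lit 24) (nat_lit 5) (nat_lit 311) (nat_lit 257) (nat_lit 152))) (XT.nd (nat_lit 78) (nat_lit 152) (nat_lit 0) (XT.lf (nat_lit 0) (nat_lit 16760974714) (nat_lit 152) (nat_lit 20882702918) (nat_lit 228) (nat_lit 19065914480) (nat_lit 21) (nat_lit 5) (nat_lit 23) (nat_lit 5) (nat_lit 24) (nat_lit 5) (nat_lit 312) (nat_lit 257) (nat_lit 151)) (XT.nd (nat_lit 78) (nat_lit 152) (nat_lit 0) (XT.lf (nat_lit 0) (nat_lit 44404945415) (nat_lit 152) (nat_lit 5499001526) (nat_lit 228) (nat_lit 9144658404) (nat_lit 21) (nat_lit 5) (nat_lit 23) (nat_lit 5) (nat_lit 24) (nat_lit 5) (nat_lit 313) (nat_lit 257) (nat_lit 150)) (XT.lf (nat_lit 0) (nat_lit 1459615152) (nat_lit 152) (nat_lit 49467554298) (nat_lit 76) (nat_lit 10570687010) (nat_lit 19) (nat_lit 5) (nat_lit 21)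 (nat_lit 5) (nat_lit 20) (nat_lit 5) (nat_lit 314) (nat_lit 257) (nat_lit 149))))) (XT.nd (nat_lit 234) (nat_lit 152) (nat_lit 0) (XT.nd (nat_lit 78) (nat_lit 152) (nat_lit 0) (XT.lf (nat_lit 0) (nat_lit 12606180965) (nat_lit 152) (nat_lit 23884272436) (nat_lit 76) (nat_lit 27570371889) (nat_lit 19) (nat_lit 5) (nat_lit 21) (nat_lit 5) (nat_lit 20) (nat_lit 5) (nat_lit 315) (nat_lit 257) (nat_lit 148)) (XT.nd (nat_lit 78) (nat_lit 0) (nat_lit 0) (XT.lf (nat_lit 0) (nat_lit 3023941628) (nat_lit 152) (nat_lit 21307303549) (nat_lit 228) (nat_lit 42420069444) (nat_lit 17) (nat_lit 5) (nat_lit 19) (nat_lit 5) (nat_lit 20) (nat_lit 5) (nat_lit 316) (nat_lit 257) (nat_lit 147)) (XT.lf (nat_lit 0) (nat_lit 31763817079) (nat_lit 152) (nat_lit 5116967630) (nat_lit 228) (nat_lit 32688403864) (nat_lit 17) (nat_lit 5) (nat_lit 19) (nat_lit 5) (nat_lit 20) (nat_lit 5) (nat_lit 317) (nat_lit 257) (nat_lit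 146)))) (XT.nd (nat_lit 78) (nat_lit 152) (nat_lit 0) (XT.lf (nat_lit 0) (nat_lit 50164697702) (nat_lit 228) (nat_lit 10713920640) (nat_lit 76) (nat_lit 11646137481) (nat_lit 17) (nat_lit 5) (nat_lit 20) (nat_lit 5) (nat_lit 18) (nat_lit 4) (nat_lit 318) (nat_lit 257) (nat_lit 145)) (XT.nd (nat_lit 78) (nat_lit 76) (nat_lit 0) (XT.lf (nat_lit 0) (nat_lit 18020262709) (nat_lit 76) (nat_lit 46310432145) (nat_lit 152) (nat_lit 11290876111) (nat_lit 16) (nat_lit 5) (nat_lit 17) (nat_lit 5) (nat_lit 18) (nat_lit 4) (nat_lit 319) (nat_lit 257) (nat_lit 144)) (XT.lf (nat_lit 0) (nat_lit 429842544) (nat_lit 152) (nat_lit 30470790556) (nat_lit 76) (nat_lit 47969367266) (nat_lit 15) (nat_lit 5) (nat_lit 17) (nat_lit 5) (nat_lit 16) (nat_lit 5) (nat_lit 320) (nat_lit 257) (nat_lit 143)))))) (XT.nd (nat_lit 390) (nat_lit 152) (nat_lit 0) (XT.nd (nat_lit 156) (nat_lit 76) (nat_lit 0) (XT.nd (nat_lit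 78) (nat_lit 152) (nat_lit 0) (XT.lf (nat_lit 0) (nat_lit 12498749601) (nat_lit 152) (nat_lit 2108790374) (nat_lit 76) (nat_lit 67670093031) (nat_lit 15) (nat_lit 5) (nat_lit 17) (nat_lit 5) (nat_lit 16) (nat_lit 5) (nat_lit 321) (nat_lit 257) (nat_lit 142)) (XT.lf (nat_lit 0) (nat_lit 25462766713) (nat_lit 228) (nat_lit 57663120499) (nat_lit 76) (nat_lit 2721015312) (nat_lit 13) (nat_lit 5) (nat_lit 16) (nat_lit 5) (nat_lit 14) (nat_lit 4) (nat_lit 322) (nat_lit 257) (nat_lit 141))) (XT.nd (nat_lit 78) (nat_lit 76) (nat_lit 0) (XT.lf (nat_lit 0) (nat_lit 39238305010) (nat_lit 228) (nat_lit 29716981743) (nat_lit 76) (nat_lit 20634454096) (nat_lit 13) (nat_lit 5) (nat_lit 16) (nat_lit 5) (nat_lit 14) (nat_lit 4) (nat_lit 323) (nat_lit 257) (nat_lit 140)) (XT.nd (nat_lit 78) (nat_lit 76) (nat_lit 0) (XT.lf (nat_lit 0) (nat_lit 53696867668) (nat_lit 228) (nat_lit 383436675) (nat_lit 76) (nat_lit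 39439594028) (nat_lit 13) (nat_lit 5) (nat_lit 16) (nat_lit 5) (nat_lit 14) (nat_lit 4) (nat_lit 324) (nat_lit 257) (nat_lit 139)) (XT.lf (nat_lit 0) (nat_lit 31012522492) (nat_lit 76) (nat_lit 38158468682) (nat_lit 152) (nat_lit 28466798096) (nat_lit 12) (nat_lit 5) (nat_lit 13) (nat_lit 5) (nat_lit 14) (nat_lit 4) (nat_lit 325) (nat_lit 257) (nat_lit 138))))) (XT.nd (nat_lit 32214) (nat_lit 0) (nat_lit 12464) (XT.nd (nat_lit 78) (nat_lit 152) (nat_lit 0) (XT.lf (nat_lit 0) (nat_lit 63977133434) (nat_lit 76) (nat_lit 21440328789) (nat_lit 152) (nat_lit 16544157518) (nat_lit 12) (nat_lit 5) (nat_lit 13) (nat_lit 5) (nat_lit 14) (nat_lit 4) (nat_lit 326) (nat_lit 257) (nat_lit 137)) (XT.nd (nat_lit 78) (nat_lit 152) (nat_lit 0) (XT.lf (nat_lit 0) (nat_lit 98581252178) (nat_lit 76) (nat_lit 3889951527) (nat_lit 152) (nat_lit 4030593688) (nat_lit 12) (nat_lit 5) (nat_lit 13) (nat_lit 5) (nat_lit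 14) (nat_lit 4) (nat_lit 327) (nat_lit 257) (nat_lit 136)) (XT.lf (nat_lit 0) (nat_lit 9299796840) (nat_lit 152) (nat_lit 87383115949) (nat_lit 76) (nat_lit 14572381429) (nat_lit 10) (nat_lit 5) (nat_lit 12) (nat_lit 5) (nat_lit 11) (nat_lit 4) (nat_lit 328) (nat_lit 257) (nat_lit 135)))) (XT.nd (nat_lit 78) (nat_lit 0) (nat_lit 0) (XT.lf (nat_lit 0) (nat_lit 1157822870) (nat_lit 0) (nat_lit 1157822870) (nat_lit 988) (nat_lit 2850278463) (nat_lit 174) (nat_lit 5) (nat_lit 174) (nat_lit 3) (nat_lit 187) (nat_lit 3) (nat_lit 258) (nat_lit 258) (nat_lit 204)) (XT.nd (nat_lit 78) (nat_lit 0) (nat_lit 0) (XT.lf (nat_lit 0) (nat_lit 5774770195) (nat_lit 988) (nat_lit 738494843) (nat_lit 1064) (nat_lit 4043782476) (nat_lit 174) (nat_lit 5) (nat_lit 187) (nat_lit 3) (nat_lit 188) (nat_lit 5) (nat_lit 259) (nat_lit 258) (nat_lit 203)) (XT.lf (nat_lit 76) (nat_lit 6981999659) (nat_lit 0) (nat_lit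 20967162) (nat_lit 1064) (nat_lit 3789858501) (nat_lit 175) (nat_lit 5) (nat_lit 174) (nat_lit 5) (nat_lit 188) (nat_lit 5) (nat_lit 260) (nat_lit 258) (nat_lit 202))))))) (XT.nd (nat_lit 858) (nat_lit 4256) (nat_lit 0) (XT.nd (nat_lit 390) (nat_lit 1748) (nat_lit 0) (XT.nd (nat_lit 156) (nat_lit 912) (nat_lit 0) (XT.nd (nat_lit 78) (nat_lit 0) (nat_lit 76) (XT.lf (nat_lit 76) (nat_lit 4042055587) (nat_lit 0) (nat_lit 4302375203) (nat_lit 1064) (nat_lit 2694543665) (nat_lit 176) (nat_lit 5) (nat_lit 175) (nat_lit 5) (nat_lit 189) (nat_lit 5) (nat_lit 261) (nat_lit 258) (nat_lit 201)) (XT.lf (nat_lit 76) (nat_lit 1029824131) (nat_lit 0) (nat_lit 8739981180) (nat_lit 1064) (nat_lit 1527252190) (nat_lit 177) (nat_lit 5) (nat_lit 176) (nat_lit 5) (nat_lit 190) (nat_lit 5) (nat_lit 262) (nat_lit 258) (nat_lit 200))) (XT.nd (nat_lit 78) (nat_lit 988) (nat_lit 0) (XT.lf (nat_lit 76) (nat_lit 9524594863)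 (nat_lit 0) (nat_lit 1802018277) (nat_lit 1064) (nat_lit 239751936) (nat_lit 177) (nat_lit 5) (nat_lit 176) (nat_lit 5) (nat_lit 190) (nat_lit 5) (nat_lit 263) (nat_lit 258) (nat_lit 199)) (XT.nd (nat_lit 78) (nat_lit 0) (nat_lit 76) (XT.lf (nat_lit 0) (nat_lit 1155370076) (nat_lit 1064) (nat_lit 5222315137) (nat_lit 1140) (nat_lit 5469299527) (nat_lit 163) (nat_lit 5) (nat_lit 177) (nat_lit 5) (nat_lit 178) (nat_lit 5) (nat_lit 264) (nat_lit 258) (nat_lit 198)) (XT.lf (nat_lit 0) (nat_lit 2648849192) (nat_lit 1064) (nat_lit 8509786304) (nat_lit 1140) (nat_lit 982032245) (nat_lit 164) (nat_lit 5) (nat_lit 178) (nat_lit 5) (nat_lit 179) (nat_lit 5) (nat_lit 265) (nat_lit 258) (nat_lit 197))))) (XT.nd (nat_lit 234) (nat_lit 1824) (nat_lit 0) (XT.nd (nat_lit 78) (nat_lit 0) (nat_lit 76) (XT.lf (nat_lit 76) (nat_lit 497043213) (nat_lit 0) (nat_lit 3795081711) (nat_lit 1140) (nat_lit 8154761386)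 (nat_lit 165) (nat_lit 5) (nat_lit 164) (nat_lit 5) (nat_lit 179) (nat_lit 5) (nat_lit 266) (nat_lit 258) (nat_lit 196)) (XT.nd (nat_lit 78) (nat_lit 0) (nat_lit 0) (XT.lf (nat_lit 0) (nat_lit 6097626344) (nat_lit 1064) (nat_lit 2709212463) (nat_lit 1140) (nat_lit 3959275237) (nat_lit 165) (nat_lit 5) (nat_lit 179) (nat_lit 5) (nat_lit 180) (nat_lit 5) (nat_lit 267) (nat_lit 258) (nat_lit 195)) (XT.lf (nat_lit 76) (nat_lit 7057860184) (nat_lit 0) (nat_lit 997646406) (nat_lit 1140) (nat_lit 5044028788) (nat_lit 166) (nat_lit 5) (nat_lit 165) (nat_lit 5) (nat_lit 180) (nat_lit 5) (nat_lit 268) (nat_lit 258) (nat_lit 194)))) (XT.nd (nat_lit 78) (nat_lit 912) (nat_lit 0) (XT.lf (nat_lit 0) (nat_lit 3892108664) (nat_lit 1064) (nat_lit 6311785292) (nat_lit 1140) (nat_lit 3243046217) (nat_lit 152) (nat_lit 5) (nat_lit 166) (nat_lit 5) (nat_lit 167) (nat_lit 5) (nat_lit 269) (nat_lit 258) (nat_lit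 193)) (XT.nd (nat_lit 78) (nat_lit 76) (nat_lit 0) (XT.lf (nat_lit 0) (nat_lit 586339409) (nat_lit 836) (nat_lit 11929031885) (nat_lit 912) (nat_lit 1294760258) (nat_lit 141) (nat_lit 5) (nat_lit 152) (nat_lit 5) (nat_lit 153) (nat_lit 5) (nat_lit 270) (nat_lit 258) (nat_lit 192)) (XT.lf (nat_lit 0) (nat_lit 859993625) (nat_lit 912) (nat_lit 2861819180) (nat_lit 76) (nat_lit 10465821875) (nat_lit 140) (nat_lit 5) (nat_lit 152) (nat_lit 5) (nat_lit 141) (nat_lit 5) (nat_lit 271) (nat_lit 258) (nat_lit 191)))))) (XT.nd (nat_lit 390) (nat_lit 2204) (nat_lit 0) (XT.nd (nat_lit 156) (nat_lit 988) (nat_lit 0) (XT.nd (nat_lit 78) (nat_lit 532) (nat_lit 0) (XT.lf (nat_lit 0) (nat_lit 3184645562) (nat_lit 608) (nat_lit 6500575820) (nat_lit 76) (nat_lit 4895815000) (nat_lit 133) (nat_lit 5) (nat_lit 141) (nat_lit 5) (nat_lit 134) (nat_lit 5) (nat_lit 272) (nat_lit 258) (nat_lit 190)) (XT.lf (nat_lit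 0) (nat_lit 4655280074) (nat_lit 532) (nat_lit 1046353612) (nat_lit 608) (nat_lit 9290263892) (nat_lit 126) (nat_lit 5) (nat_lit 133) (nat_lit 5) (nat_lit 134) (nat_lit 5) (nat_lit 273) (nat_lit 258) (nat_lit 189))) (XT.nd (nat_lit 78) (nat_lit 532) (nat_lit 0) (XT.lf (nat_lit 0) (nat_lit 990732581) (nat_lit 456) (nat_lit 7473423152) (nat_lit 532) (nat_lit 6955624627) (nat_lit 120) (nat_lit 5) (nat_lit 126) (nat_lit 5) (nat_lit 127) (nat_lit 5) (nat_lit 274) (nat_lit 258) (nat_lit 188)) (XT.nd (nat_lit 78) (nat_lit 532) (nat_lit 0) (XT.lf (nat_lit 0) (nat_lit 11463894566) (nat_lit 532) (nat_lit 2825683245) (nat_lit 76) (nat_lit 1576572523) (nat_lit 120) (nat_lit 5) (nat_lit 127) (nat_lit 5) (nat_lit 121) (nat_lit 5) (nat_lit 275) (nat_lit 258) (nat_lit 187)) (XT.lf (nat_lit 0) (nat_lit 9433783214) (nat_lit 532) (nat_lit 5314303427) (nat_lit 608) (nat_lit 1582780818) (nat_lit 113) (nat_lit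 5) (nat_lit 120) (nat_lit 5) (nat_lit 121) (nat_lit 5) (nat_lit 276) (nat_lit 258) (nat_lit 186))))) (XT.nd (nat_lit 234) (nat_lit 1216) (nat_lit 0) (XT.nd (nat_lit 78) (nat_lit 456) (nat_lit 0) (XT.lf (nat_lit 0) (nat_lit 1443734132) (nat_lit 532) (nat_lit 11246526655) (nat_lit 76) (nat_lit 4125431799) (nat_lit 106) (nat_lit 5) (nat_lit 113) (nat_lit 5) (nat_lit 107) (nat_lit 5) (nat_lit 277) (nat_lit 258) (nat_lit 185)) (XT.nd (nat_lit 78) (nat_lit 0) (nat_lit 0) (XT.lf (nat_lit 0) (nat_lit 1404874265) (nat_lit 456) (nat_lit 3293455299) (nat_lit 532) (nat_lit 12622729763) (nat_lit 100) (nat_lit 5) (nat_lit 106) (nat_lit 5) (nat_lit 107) (nat_lit 5) (nat_lit 278) (nat_lit 258) (nat_lit 184)) (XT.lf (nat_lit 0) (nat_lit 8267179848) (nat_lit 532) (nat_lit 3021090149) (nat_lit 76) (nat_lit 6558931192) (nat_lit 100) (nat_lit 5) (nat_lit 107) (nat_lit 5) (nat_lit 101) (nat_lit 5) (nat_lit 279)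 (nat_lit 258) (nat_lit 183)))) (XT.nd (nat_lit 78) (nat_lit 836) (nat_lit 0) (XT.lf (nat_lit 0) (nat_lit 10662727320) (nat_lit 380) (nat_lit 1460264782) (nat_lit 456) (nat_lit 6273452492) (nat_lit 95) (nat_lit 5) (nat_lit 100) (nat_lit 5) (nat_lit 101) (nat_lit 5) (nat_lit 280) (nat_lit 258) (nat_lit 182)) (XT.nd (nat_lit 78) (nat_lit 456) (nat_lit 0) (XT.lf (nat_lit 0) (nat_lit 6124930430) (nat_lit 380) (nat_lit 10195860957) (nat_lit 456) (nat_lit 2647930542) (nat_lit 90) (nat_lit 5) (nat_lit 95) (nat_lit 5) (nat_lit 96) (nat_lit 5) (nat_lit 281) (nat_lit 258) (nat_lit 181)) (XT.lf (nat_lit 0) (nat_lit 1217907704) (nat_lit 456) (nat_lit 18329129104) (nat_lit 76) (nat_lit 19836575) (nat_lit 84) (nat_lit 5) (nat_lit 90) (nat_lit 5) (nat_lit 85) (nat_lit 5) (nat_lit 282) (nat_lit 258) (nat_lit 180))))))))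
noncomputable def xc84 : XT := (XT.nd (nat_lit 1716) (nat_lit 1596) (nat_lit 0) (XT.nd (nat_lit 858) (nat_lit 1596) (nat_lit 0) (XT.nd (nat_lit 390) (nat_lit 1216) (nat_lit 0) (XT.nd (nat_lit 156) (nat_lit 684) (nat_lit 0) (XT.nd (nat_lit 78) (nat_lit 380) (nat_lit 0) (XT.lf (nat_lit 0) (nat_lit 5434524687) (nat_lit 456) (nat_lit 4060460604) (nat_lit 76) (nat_lit 10692835064) (nat_lit 84) (nat_lit 5) (nat_lit 90) (nat_lit 5) (nat_lit 85) (nat_lit 5) (nat_lit 283) (nat_lit 258) (nat_lit 179)) (XT.lf (nat_lit 0) (nat_lit 9956439645) (nat_lit 456) (nat_lit 9738980894) (nat_lit 76) (nat_lit 1141600088) (nat_lit 79) (nat_lit 5) (nat_lit 85) (nat_lit 5) (nat_lit 80) (nat_lit 5) (nat_lit 284) (nat_lit 258) (nat_lit 178))) (XT.nd (nat_lit 78) (nat_lit 380) (nat_lit 0) (XT.lf (nat_lit 0) (nat_lit 5565544095) (nat_lit 304) (nat_lit 9307735354) (nat_lit 380) (nat_lit 6640374651) (nat_lit 75) (nat_lit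 5) (nat_lit 79) (nat_lit 5) (nat_lit 80) (nat_lit 5) (nat_lit 285) (nat_lit 258) (nat_lit 177)) (XT.nd (nat_lit 78) (nat_lit 380) (nat_lit 0) (XT.lf (nat_lit 0) (nat_lit 20130620063) (nat_lit 380) (nat_lit 427180392) (nat_lit 76) (nat_lit 1663515275) (nat_lit 75) (nat_lit 5) (nat_lit 80) (nat_lit 5) (nat_lit 76) (nat_lit 5) (nat_lit 286) (nat_lit 258) (nat_lit 176)) (XT.lf (nat_lit 0) (nat_lit 2863690728) (nat_lit 380) (nat_lit 6923523119) (nat_lit 76) (nat_lit 13169516011) (nat_lit 70) (nat_lit 5) (nat_lit 75) (nat_lit 5) (nat_lit 71) (nat_lit 5) (nat_lit 287) (nat_lit 258) (nat_lit 175))))) (XT.nd (nat_lit 234) (nat_lit 608) (nat_lit 0) (XT.nd (nat_lit 78) (nat_lit 304) (nat_lit 0) (XT.lf (nat_lit 0) (nat_lit 8116358327) (nat_lit 380) (nat_lit 14002895625) (nat_lit 76) (nat_lit 1606257644) (nat_lit 66) (nat_lit 5) (nat_lit 71) (nat_lit 5) (nat_lit 67) (nat_lit 5) (nat_lit 288) (nat_lit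 258) (nat_lit 174)) (XT.nd (nat_lit 78) (nat_lit 0) (nat_lit 0) (XT.lf (nat_lit 0) (nat_lit 2742569357) (nat_lit 304) (nat_lit 11066469770) (nat_lit 380) (nat_lit 10718402297) (nat_lit 62) (nat_lit 5) (nat_lit 66) (nat_lit 5) (nat_lit 67) (nat_lit 5) (nat_lit 289) (nat_lit 258) (nat_lit 173)) (XT.lf (nat_lit 0) (nat_lit 19917990557) (nat_lit 380) (nat_lit 4780203648) (nat_lit 76) (nat_lit 667353395) (nat_lit 62) (nat_lit 5) (nat_lit 67) (nat_lit 5) (nat_lit 63) (nat_lit 5) (nat_lit 290) (nat_lit 258) (nat_lit 172)))) (XT.nd (nat_lit 78) (nat_lit 304) (nat_lit 0) (XT.lf (nat_lit 0) (nat_lit 307620653) (nat_lit 304) (nat_lit 13046625002) (nat_lit 76) (nat_lit 12884640624) (nat_lit 58) (nat_lit 5) (nat_lit 62) (nat_lit 5) (nat_lit 59) (nat_lit 5) (nat_lit 291) (nat_lit 258) (nat_lit 171)) (XT.nd (nat_lit 78) (nat_lit 0) (nat_lit 0) (XT.lf (nat_lit 0) (nat_lit 5026661283) (nat_lit 304) (nat_lit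 1292518272) (nat_lit 380) (nat_lit 20832681165) (nat_lit 54) (nat_lit 5) (nat_lit 58) (nat_lit 5) (nat_lit 59) (nat_lit 5) (nat_lit 292) (nat_lit 258) (nat_lit 170)) (XT.lf (nat_lit 0) (nat_lit 12859040049) (nat_lit 380) (nat_lit 3965398544) (nat_lit 76) (nat_lit 11279237863) (nat_lit 54) (nat_lit 5) (nat_lit 59) (nat_lit 5) (nat_lit 55) (nat_lit 5) (nat_lit 293) (nat_lit 258) (nat_lit 169)))))) (XT.nd (nat_lit 390) (nat_lit 608) (nat_lit 0) (XT.nd (nat_lit 156) (nat_lit 532) (nat_lit 0) (XT.nd (nat_lit 78) (nat_lit 228) (nat_lit 0) (XT.lf (nat_lit 0) (nat_lit 15365813302) (nat_lit 228) (nat_lit 4504424851) (nat_lit 304) (nat_lit 9228537612) (nat_lit 51) (nat_lit 5) (nat_lit 54) (nat_lit 5) (nat_lit 55) (nat_lit 5) (nat_lit 294) (nat_lit 258) (nat_lit 168)) (XT.lf (nat_lit 0) (nat_lit 5608904578) (nat_lit 228) (nat_lit 21783372183) (nat_lit 304) (nat_lit 2746566887) (nat_lit 48) (nat_lit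 5) (nat_lit 51) (nat_lit 5) (nat_lit 52) (nat_lit 5) (nat_lit 295) (nat_lit 258) (nat_lit 167))) (XT.nd (nat_lit 78) (nat_lit 456) (nat_lit 0) (XT.lf (nat_lit 0) (nat_lit 4152978716) (nat_lit 304) (nat_lit 5130520234) (nat_lit 76) (nat_lit 21941084912) (nat_lit 47) (nat_lit 5) (nat_lit 51) (nat_lit 5) (nat_lit 48) (nat_lit 5) (nat_lit 296) (nat_lit 258) (nat_lit 166)) (XT.nd (nat_lit 78) (nat_lit 228) (nat_lit 0) (XT.lf (nat_lit 0) (nat_lit 11513949600) (nat_lit 304) (nat_lit 16906653756) (nat_lit 76) (nat_lit 3938013778) (nat_lit 44) (nat_lit 5) (nat_lit 48) (nat_lit 5) (nat_lit 45) (nat_lit 5) (nat_lit 297) (nat_lit 258) (nat_lit 165)) (XT.lf (nat_lit 0) (nat_lit 3577118054) (nat_lit 228) (nat_lit 15832910029) (nat_lit 304) (nat_lit 14134330687) (nat_lit 41) (nat_lit 5) (nat_lit 44) (nat_lit 5) (nat_lit 45) (nat_lit 5) (nat_lit 298) (nat_lit 258) (nat_lit 164))))) (XT.nd (nat_lit 234)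 (nat_lit 380) (nat_lit 0) (XT.nd (nat_lit 78) (nat_lit 228) (nat_lit 0) (XT.lf (nat_lit 0) (nat_lit 25417516235) (nat_lit 228) (nat_lit 2443552718) (nat_lit 304) (nat_lit 6923531372) (nat_lit 41) (nat_lit 5) (nat_lit 44) (nat_lit 5) (nat_lit 45) (nat_lit 5) (nat_lit 299) (nat_lit 258) (nat_lit 163)) (XT.nd (nat_lit 78) (nat_lit 0) (nat_lit 0) (XT.lf (nat_lit 0) (nat_lit 854604917) (nat_lit 228) (nat_lit 23716085569) (nat_lit 76) (nat_lit 11509409784) (nat_lit 38) (nat_lit 5) (nat_lit 41) (nat_lit 5) (nat_lit 39) (nat_lit 5) (nat_lit 300) (nat_lit 258) (nat_lit 162)) (XT.lf (nat_lit 0) (nat_lit 8988851240) (nat_lit 228) (nat_lit 2175480376) (nat_lit 76) (nat_lit 26270690818) (nat_lit 38) (nat_lit 5) (nat_lit 41) (nat_lit 5) (nat_lit 39) (nat_lit 5) (nat_lit 301) (nat_lit 258) (nat_lit 161)))) (XT.nd (nat_lit 78) (nat_lit 152) (nat_lit 0) (XT.lf (nat_lit 0) (nat_lit 17747587176) (nat_lit 304)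 (nat_lit 18052330933) (nat_lit 76) (nat_lit 3051254033) (nat_lit 35) (nat_lit 5) (nat_lit 39) (nat_lit 5) (nat_lit 36) (nat_lit 5) (nat_lit 302) (nat_lit 258) (nat_lit 160)) (XT.nd (nat_lit 78) (nat_lit 0) (nat_lit 0) (XT.lf (nat_lit 0) (nat_lit 4587769796) (nat_lit 152) (nat_lit 22523876464) (nat_lit 228) (nat_lit 13221475537) (nat_lit 33) (nat_lit 5) (nat_lit 35) (nat_lit 5) (nat_lit 36) (nat_lit 5) (nat_lit 303) (nat_lit 258) (nat_lit 159)) (XT.lf (nat_lit 0) (nat_lit 28718922491) (nat_lit 152) (nat_lit 8399201088) (nat_lit 228) (nat_lit 4765832280) (nat_lit 33) (nat_lit 5) (nat_lit 35) (nat_lit 5) (nat_lit 36) (nat_lit 5) (nat_lit 304) (nat_lit 258) (nat_lit 158))))))) (XT.nd (nat_lit 858) (nat_lit 532) (nat_lit 0) (XT.nd (nat_lit 390) (nat_lit 532) (nat_lit 0) (XT.nd (nat_lit 156) (nat_lit 304) (nat_lit 0) (XT.nd (nat_lit 78) (nat_lit 0) (nat_lit 0) (XT.lf (nat_lit 0) (nat_lit 4187144625)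 (nat_lit 228) (nat_lit 32875660683) (nat_lit 76) (nat_lit 6443708617) (nat_lit 30) (nat_lit 5) (nat_lit 33) (nat_lit 5) (nat_lit 31) (nat_lit 5) (nat_lit 305) (nat_lit 258) (nat_lit 157)) (XT.lf (nat_lit 0) (nat_lit 13700883618) (nat_lit 228) (nat_lit 9466044470) (nat_lit 76) (nat_lit 22035517660) (nat_lit 30) (nat_lit 5) (nat_lit 33) (nat_lit 5) (nat_lit 31) (nat_lit 5) (nat_lit 306) (nat_lit 258) (nat_lit 156))) (XT.nd (nat_lit 78) (nat_lit 152) (nat_lit 0) (XT.lf (nat_lit 0) (nat_lit 15398013513) (nat_lit 152) (nat_lit 8429951496) (nat_lit 228) (nat_lit 23151090710) (nat_lit 28) (nat_lit 5) (nat_lit 30) (nat_lit 5) (nat_lit 31) (nat_lit 5) (nat_lit 307) (nat_lit 258) (nat_lit 155)) (XT.nd (nat_lit 78) (nat_lit 152) (nat_lit 0) (XT.lf (nat_lit 0) (nat_lit 34617441532) (nat_lit 228) (nat_lit 7223450764) (nat_lit 76) (nat_lit 6998933353) (nat_lit 28) (nat_lit 5) (nat_lit 31) (nat_lit 5)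 (nat_lit 29) (nat_lit 5) (nat_lit 308) (nat_lit 258) (nat_lit 154)) (XT.lf (nat_lit 0) (nat_lit 18614659503) (nat_lit 152) (nat_lit 27586154996) (nat_lit 228) (nat_lit 4585197076) (nat_lit 26) (nat_lit 5) (nat_lit 28) (nat_lit 5) (nat_lit 29) (nat_lit 5) (nat_lit 309) (nat_lit 258) (nat_lit 153))))) (XT.nd (nat_lit 234) (nat_lit 304) (nat_lit 0) (XT.nd (nat_lit 78) (nat_lit 152) (nat_lit 0) (XT.lf (nat_lit 0) (nat_lit 5491571606) (nat_lit 228) (nat_lit 7000848632) (nat_lit 76) (nat_lit 40333528902) (nat_lit 25) (nat_lit 5) (nat_lit 28) (nat_lit 5) (nat_lit 26) (nat_lit 5) (nat_lit 310) (nat_lit 258) (nat_lit 152)) (XT.nd (nat_lit 78) (nat_lit 0) (nat_lit 0) (XT.lf (nat_lit 0) (nat_lit 16193711095) (nat_lit 228) (nat_lit 35242810299) (nat_lit 76) (nat_lit 3523518376) (nat_lit 23) (nat_lit 5) (nat_lit 26) (nat_lit 5) (nat_lit 24) (nat_lit 5) (nat_lit 311) (nat_lit 258) (nat_lit 151)) (XT.lf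 (nat_lit 0) (nat_lit 27621124455) (nat_lit 228) (nat_lit 9422304401) (nat_lit 76) (nat_lit 20151709607) (nat_lit 23) (nat_lit 5) (nat_lit 26) (nat_lit 5) (nat_lit 24) (nat_lit 5) (nat_lit 312) (nat_lit 258) (nat_lit 150)))) (XT.nd (nat_lit 78) (nat_lit 152) (nat_lit 0) (XT.lf (nat_lit 0) (nat_lit 18027350515) (nat_lit 152) (nat_lit 21757559101) (nat_lit 228) (nat_lit 19752140570) (nat_lit 21) (nat_lit 5) (nat_lit 23) (nat_lit 5) (nat_lit 24) (nat_lit 5) (nat_lit 313) (nat_lit 258) (nat_lit 149)) (XT.nd (nat_lit 78) (nat_lit 152) (nat_lit 0) (XT.lf (nat_lit 0) (nat_lit 47033123224) (nat_lit 152) (nat_lit 5612733543) (nat_lit 228) (nat_lit 9347539292) (nat_lit 21) (nat_lit 5) (nat_lit 23) (nat_lit 5) (nat_lit 24) (nat_lit 5) (nat_lit 314) (nat_lit 258) (nat_lit 148)) (XT.lf (nat_lit 0) (nat_lit 1775503519) (nat_lit 152) (nat_lit 51533724892) (nat_lit 76) (nat_lit 11256013414) (nat_lit 19)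 (nat_lit 5) (nat_lit 21) (nat_lit 5) (nat_lit 20) (nat_lit 5) (nat_lit 315) (nat_lit 258) (nat_lit 147)))))) (XT.nd (nat_lit 390) (nat_lit 304) (nat_lit 0) (XT.nd (nat_lit 156) (nat_lit 76) (nat_lit 0) (XT.nd (nat_lit 78) (nat_lit 152) (nat_lit 0) (XT.lf (nat_lit 0) (nat_lit 13467830594) (nat_lit 152) (nat_lit 24690669753) (nat_lit 76) (nat_lit 29098216250) (nat_lit 19) (nat_lit 5) (nat_lit 21) (nat_lit 5) (nat_lit 20) (nat_lit 5) (nat_lit 316) (nat_lit 258) (nat_lit 146)) (XT.lf (nat_lit 0) (nat_lit 3551838338) (nat_lit 152) (nat_lit 22219914527) (nat_lit 228) (nat_lit 44310209369) (nat_lit 17) (nat_lit 5) (nat_lit 19) (nat_lit 5) (nat_lit 20) (nat_lit 5) (nat_lit 317) (nat_lit 258) (nat_lit 145))) (XT.nd (nat_lit 78) (nat_lit 76) (nat_lit 0) (XT.lf (nat_lit 0) (nat_lit 33710769484) (nat_lit 152) (nat_lit 5227335822) (nat_lit 228) (nat_lit 34102954012) (nat_lit 17) (nat_lit 5) (nat_lit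 19) (nat_lit 5) (nat_lit 20) (nat_lit 5) (nat_lit 318) (nat_lit 258) (nat_lit 144)) (XT.nd (nat_lit 78) (nat_lit 76) (nat_lit 0) (XT.lf (nat_lit 0) (nat_lit 52877389545) (nat_lit 228) (nat_lit 10902995920) (nat_lit 76) (nat_lit 12364293257) (nat_lit 17) (nat_lit 5) (nat_lit 20) (nat_lit 5) (nat_lit 18) (nat_lit 4) (nat_lit 319) (nat_lit 258) (nat_lit 143)) (XT.lf (nat_lit 0) (nat_lit 19257960783) (nat_lit 76) (nat_lit 48487226148) (nat_lit 152) (nat_lit 11651351307) (nat_lit 16) (nat_lit 5) (nat_lit 17) (nat_lit 5) (nat_lit 18) (nat_lit 4) (nat_lit 320) (nat_lit 258) (nat_lit 142))))) (XT.nd (nat_lit 234) (nat_lit 76) (nat_lit 0) (XT.nd (nat_lit 78) (nat_lit 152) (nat_lit 0) (XT.lf (nat_lit 0) (nat_lit 641893239) (nat_lit 152) (nat_lit 31669725721) (nat_lit 76) (nat_lit 50496005116) (nat_lit 15) (nat_lit 5) (nat_lit 17) (nat_lit 5) (nat_lit 16) (nat_lit 5) (nat_lit 321) (nat_lit 258) (nat_lit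 141)) (XT.nd (nat_lit 78) (nat_lit 152) (nat_lit 0) (XT.lf (nat_lit 0) (nat_lit 13305171431) (nat_lit 152) (nat_lit 1905082880) (nat_lit 76) (nat_lit 71175663860) (nat_lit 15) (nat_lit 5) (nat_lit 17) (nat_lit 5) (nat_lit 16) (nat_lit 5) (nat_lit 322) (nat_lit 258) (nat_lit 140)) (XT.lf (nat_lit 0) (nat_lit 26912831128) (nat_lit 228) (nat_lit 60241771881) (nat_lit 76) (nat_lit 2979192140) (nat_lit 13) (nat_lit 5) (nat_lit 16) (nat_lit 5) (nat_lit 14) (nat_lit 4) (nat_lit 323) (nat_lit 258) (nat_lit 139)))) (XT.nd (nat_lit 78) (nat_lit 76) (nat_lit 0) (XT.lf (nat_lit 0) (nat_lit 41368721288) (nat_lit 228) (nat_lit 30912826408) (nat_lit 76) (nat_lit 21782487337) (nat_lit 13) (nat_lit 5) (nat_lit 16) (nat_lit 5) (nat_lit 14) (nat_lit 4) (nat_lit 324) (nat_lit 258) (nat_lit 138)) (XT.nd (nat_lit 78) (nat_lit 76) (nat_lit 0) (XT.lf (nat_lit 0) (nat_lit 56542188220) (nat_lit 228) (nat_lit 126413822)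 (nat_lit 76) (nat_lit 41522345668) (nat_lit 13) (nat_lit 5) (nat_lit 16) (nat_lit 5) (nat_lit 14) (nat_lit 4) (nat_lit 325) (nat_lit 258) (nat_lit 137)) (XT.lf (nat_lit 0) (nat_lit 32831426238) (nat_lit 76) (nat_lit 39953528743) (nat_lit 152) (nat_lit 29729936312) (nat_lit 12) (nat_lit 5) (nat_lit 13) (nat_lit 5) (nat_lit 14) (nat_lit 4) (nat_lit 326) (nat_lit 258) (nat_lit 136))))))))
noncomputable def xc85 : XT := (XT.nd (nat_lit 33774) (nat_lit 0) (nat_lit 2204) (XT.nd (nat_lit 32916) (nat_lit 0) (nat_lit 7144) (XT.nd (nat_lit 32448) (nat_lit 0) (nat_lit 11400) (XT.nd (nat_lit 32214) (nat_lit 0) (nat_lit 12312) (XT.nd (nat_lit 78) (nat_lit 0) (nat_lit 0) (XT.lf (nat_lit 0) (nat_lit 67431492603) (nat_lit 76) (nat_lit 22404856301) (nat_lit 152) (nat_lit 17218792357) (nat_lit 12) (nat_lit 5) (nat_lit 13) (nat_lit 5) (nat_lit 14) (nat_lit 4) (nat_lit 327) (nat_lit 258) (nat_lit 135)) (XT.lf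 (nat_lit 0) (nat_lit 103753650498) (nat_lit 76) (nat_lit 3982078696) (nat_lit 152) (nat_lit 4086815719) (nat_lit 12) (nat_lit 5) (nat_lit 13) (nat_lit 5) (nat_lit 14) (nat_lit 4) (nat_lit 328) (nat_lit 258) (nat_lit 134))) (XT.nd (nat_lit 78) (nat_lit 0) (nat_lit 0) (XT.lf (nat_lit 0) (nat_lit 1702026638) (nat_lit 0) (nat_lit 1702026638) (nat_lit 988) (nat_lit 1988757552) (nat_lit 174) (nat_lit 5) (nat_lit 174) (nat_lit 3) (nat_lit 187) (nat_lit 3) (nat_lit 259) (nat_lit 259) (nat_lit 202)) (XT.nd (nat_lit 78) (nat_lit 0) (nat_lit 0) (XT.lf (nat_lit 76) (nat_lit 223993126) (nat_lit 0) (nat_lit 7685384003) (nat_lit 1064) (nat_lit 3115897511) (nat_lit 175) (nat_lit 5) (nat_lit 174) (nat_lit 5) (nat_lit 188) (nat_lit 5) (nat_lit 260) (nat_lit 259) (nat_lit 201)) (XT.lf (nat_lit 76) (nat_lit 8297618768) (nat_lit 0) (nat_lit 820706468) (nat_lit 1064) (nat_lit 2157138196) (nat_lit 175) (nat_lit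 5) (nat_lit 174) (nat_lit 5) (nat_lit 188) (nat_lit 5) (nat_lit 261) (nat_lit 259) (nat_lit 200))))) (XT.nd (nat_lit 234) (nat_lit 0) (nat_lit 76) (XT.nd (nat_lit 78) (nat_lit 988) (nat_lit 0) (XT.lf (nat_lit 76) (nat_lit 5245799020) (nat_lit 0) (nat_lit 5199322233) (nat_lit 1064) (nat_lit 1091443710) (nat_lit 176) (nat_lit 5) (nat_lit 175) (nat_lit 5) (nat_lit 189) (nat_lit 5) (nat_lit 262) (nat_lit 259) (nat_lit 199)) (XT.nd (nat_lit 78) (nat_lit 0) (nat_lit 0) (XT.lf (nat_lit 0) (nat_lit 54170028) (nat_lit 1064) (nat_lit 9697150868) (nat_lit 1140) (nat_lit 2058693447) (nat_lit 162) (nat_lit 5) (nat_lit 176) (nat_lit 5) (nat_lit 177) (nat_lit 5) (nat_lit 263) (nat_lit 259) (nat_lit 198)) (XT.lf (nat_lit 0) (nat_lit 1302213314) (nat_lit 1064) (nat_lit 1124268141) (nat_lit 1140) (nat_lit 9668409252) (nat_lit 162) (nat_lit 5) (nat_lit 176) (nat_lit 5) (nat_lit 177) (nat_lit 5) (nat_lit 264)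 (nat_lit 259) (nat_lit 197)))) (XT.nd (nat_lit 78) (nat_lit 0) (nat_lit 76) (XT.lf (nat_lit 0) (nat_lit 2693137477) (nat_lit 1064) (nat_lit 4442866407) (nat_lit 1140) (nat_lit 5255697740) (nat_lit 163) (nat_lit 5) (nat_lit 177) (nat_lit 5) (nat_lit 178) (nat_lit 5) (nat_lit 265) (nat_lit 259) (nat_lit 196)) (XT.nd (nat_lit 78) (nat_lit 0) (nat_lit 0) (XT.lf (nat_lit 0) (nat_lit 4196603465) (nat_lit 1064) (nat_lit 7874956317) (nat_lit 1140) (nat_lit 630603530) (nat_lit 164) (nat_lit 5) (nat_lit 178) (nat_lit 5) (nat_lit 179) (nat_lit 5) (nat_lit 266) (nat_lit 259) (nat_lit 195)) (XT.lf (nat_lit 76) (nat_lit 1551820836) (nat_lit 0) (nat_lit 4312726621) (nat_lit 1140) (nat_lit 7161016811) (nat_lit 165) (nat_lit 5) (nat_lit 164) (nat_lit 5) (nat_lit 179) (nat_lit 5) (nat_lit 267) (nat_lit 259) (nat_lit 194)))))) (XT.nd (nat_lit 390) (nat_lit 2584) (nat_lit 0) (XT.nd (nat_lit 156) (nat_lit 1900)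 (nat_lit 0) (XT.nd (nat_lit 78) (nat_lit 0) (nat_lit 0) (XT.lf (nat_lit 0) (nat_lit 7692664232) (nat_lit 1064) (nat_lit 1819202889) (nat_lit 1140) (nat_lit 3851055672) (nat_lit 165) (nat_lit 5) (nat_lit 179) (nat_lit 5) (nat_lit 180) (nat_lit 5) (nat_lit 268) (nat_lit 259) (nat_lit 193)) (XT.lf (nat_lit 76) (nat_lit 8406828493) (nat_lit 0) (nat_lit 1289748855) (nat_lit 1140) (nat_lit 4018126645) (nat_lit 166) (nat_lit 5) (nat_lit 165) (nat_lit 5) (nat_lit 180) (nat_lit 5) (nat_lit 269) (nat_lit 259) (nat_lit 192))) (XT.nd (nat_lit 78) (nat_lit 912) (nat_lit 0) (XT.lf (nat_lit 0) (nat_lit 5095165786) (nat_lit 1064) (nat_lit 6805728209) (nat_lit 1140) (nat_lit 2180256369) (nat_lit 152) (nat_lit 5) (nat_lit 166) (nat_lit 5) (nat_lit 167) (nat_lit 5) (nat_lit 270) (nat_lit 259) (nat_lit 191)) (XT.nd (nat_lit 78) (nat_lit 76) (nat_lit 0) (XT.lf (nat_lit 0) (nat_lit 1633909938) (nat_lit 836) (nat_lit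 12645675994) (nat_lit 912) (nat_lit 184486761) (nat_lit 141) (nat_lit 5) (nat_lit 152) (nat_lit 5) (nat_lit 153) (nat_lit 5) (nat_lit 271) (nat_lit 259) (nat_lit 190)) (XT.lf (nat_lit 0) (nat_lit 2000215024) (nat_lit 912) (nat_lit 2011077695) (nat_lit 76) (nat_lit 10850576756) (nat_lit 140) (nat_lit 5) (nat_lit 152) (nat_lit 5) (nat_lit 141) (nat_lit 5) (nat_lit 272) (nat_lit 259) (nat_lit 189))))) (XT.nd (nat_lit 234) (nat_lit 1064) (nat_lit 0) (XT.nd (nat_lit 78) (nat_lit 988) (nat_lit 0) (XT.lf (nat_lit 0) (nat_lit 4397275747) (nat_lit 608) (nat_lit 5825653876) (nat_lit 76) (nat_lit 5053432558) (nat_lit 133) (nat_lit 5) (nat_lit 141) (nat_lit 5) (nat_lit 134) (nat_lit 5) (nat_lit 273) (nat_lit 259) (nat_lit 188)) (XT.nd (nat_lit 78) (nat_lit 456) (nat_lit 0) (XT.lf (nat_lit 0) (nat_lit 5859331426) (nat_lit 532) (nat_lit 1139956655) (nat_lit 608) (nat_lit 8709804259) (nat_lit 126) (nat_lit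 5) (nat_lit 133) (nat_lit 5) (nat_lit 134) (nat_lit 5) (nat_lit 274) (nat_lit 259) (nat_lit 187)) (XT.lf (nat_lit 0) (nat_lit 2015571660) (nat_lit 456) (nat_lit 7845144063) (nat_lit 532) (nat_lit 6298926483) (nat_lit 120) (nat_lit 5) (nat_lit 126) (nat_lit 5) (nat_lit 127) (nat_lit 5) (nat_lit 275) (nat_lit 259) (nat_lit 186)))) (XT.nd (nat_lit 78) (nat_lit 1064) (nat_lit 0) (XT.lf (nat_lit 0) (nat_lit 12964109247) (nat_lit 532) (nat_lit 2008480859) (nat_lit 76) (nat_lit 1657222283) (nat_lit 120) (nat_lit 5) (nat_lit 127) (nat_lit 5) (nat_lit 121) (nat_lit 5) (nat_lit 276) (nat_lit 259) (nat_lit 185)) (XT.nd (nat_lit 78) (nat_lit 532) (nat_lit 0) (XT.lf (nat_lit 0) (nat_lit 10836484098) (nat_lit 532) (nat_lit 5540832475) (nat_lit 608) (nat_lit 741592002) (nat_lit 113) (nat_lit 5) (nat_lit 120) (nat_lit 5) (nat_lit 121) (nat_lit 5) (nat_lit 277) (nat_lit 259) (nat_lit 184)) (XT.lf (nat_lit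 0) (nat_lit 2384726329) (nat_lit 532) (nat_lit 10858302434) (nat_lit 76) (nat_lit 4385768488) (nat_lit 106) (nat_lit 5) (nat_lit 113) (nat_lit 5) (nat_lit 107) (nat_lit 5) (nat_lit 278) (nat_lit 259) (nat_lit 183))))))) (XT.nd (nat_lit 858) (nat_lit 1900) (nat_lit 0) (XT.nd (nat_lit 390) (nat_lit 1368) (nat_lit 0) (XT.nd (nat_lit 156) (nat_lit 1216) (nat_lit 0) (XT.nd (nat_lit 78) (nat_lit 0) (nat_lit 0) (XT.lf (nat_lit 0) (nat_lit 2398421192) (nat_lit 456) (nat_lit 3371134006) (nat_lit 532) (nat_lit 12390928964) (nat_lit 100) (nat_lit 5) (nat_lit 106) (nat_lit 5) (nat_lit 107) (nat_lit 5) (nat_lit 279) (nat_lit 259) (nat_lit 182)) (XT.lf (nat_lit 0) (nat_lit 9477820169) (nat_lit 532) (nat_lit 2268244555) (nat_lit 76) (nat_lit 6968112505) (nat_lit 100) (nat_lit 5) (nat_lit 107) (nat_lit 5) (nat_lit 101) (nat_lit 5) (nat_lit 280) (nat_lit 259) (nat_lit 181))) (XT.nd (nat_lit 78) (nat_lit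 836) (nat_lit 0) (XT.lf (nat_lit 0) (nat_lit 12073853672) (nat_lit 380) (nat_lit 1423043363) (nat_lit 456) (nat_lit 5794941339) (nat_lit 95) (nat_lit 5) (nat_lit 100) (nat_lit 5) (nat_lit 101) (nat_lit 5) (nat_lit 281) (nat_lit 259) (nat_lit 180)) (XT.nd (nat_lit 78) (nat_lit 456) (nat_lit 0) (XT.lf (nat_lit 0) (nat_lit 7306698475) (nat_lit 380) (nat_lit 10570753264) (nat_lit 456) (nat_lit 2016158340) (nat_lit 90) (nat_lit 5) (nat_lit 95) (nat_lit 5) (nat_lit 96) (nat_lit 5) (nat_lit 282) (nat_lit 259) (nat_lit 179)) (XT.lf (nat_lit 0) (nat_lit 2002094015) (nat_lit 456) (nat_lit 18357923257) (nat_lit 76) (nat_lit 162271905) (nat_lit 84) (nat_lit 5) (nat_lit 90) (nat_lit 5) (nat_lit 85) (nat_lit 5) (nat_lit 283) (nat_lit 259) (nat_lit 178))))) (XT.nd (nat_lit 234) (nat_lit 684) (nat_lit 0) (XT.nd (nat_lit 78) (nat_lit 684) (nat_lit 0) (XT.lf (nat_lit 0) (nat_lit 6395099422) (nat_lit 456)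 (nat_lit 3418090966) (nat_lit 76) (nat_lit 11362184914) (nat_lit 84) (nat_lit 5) (nat_lit 90) (nat_lit 5) (nat_lit 85) (nat_lit 5) (nat_lit 284) (nat_lit 259) (nat_lit 177)) (XT.nd (nat_lit 78) (nat_lit 304) (nat_lit 0) (XT.lf (nat_lit 0) (nat_lit 11119712601) (nat_lit 456) (nat_lit 9385248512) (nat_lit 76) (nat_lit 1352832142) (nat_lit 79) (nat_lit 5) (nat_lit 85) (nat_lit 5) (nat_lit 80) (nat_lit 5) (nat_lit 285) (nat_lit 259) (nat_lit 176)) (XT.lf (nat_lit 0) (nat_lit 6660404762) (nat_lit 304) (nat_lit 9598150992) (nat_lit 380) (nat_lit 6310470897) (nat_lit 75) (nat_lit 5) (nat_lit 79) (nat_lit 5) (nat_lit 80) (nat_lit 5) (nat_lit 286) (nat_lit 259) (nat_lit 175)))) (XT.nd (nat_lit 78) (nat_lit 380) (nat_lit 0) (XT.lf (nat_lit 0) (nat_lit 353804285) (nat_lit 304) (nat_lit 21399408967) (nat_lit 380) (nat_lit 1559675178) (nat_lit 71) (nat_lit 5) (nat_lit 75) (nat_lit 5) (nat_lit 76) (nat_lit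 5) (nat_lit 287) (nat_lit 259) (nat_lit 174)) (XT.nd (nat_lit 78) (nat_lit 304) (nat_lit 0) (XT.lf (nat_lit 0) (nat_lit 3604584108) (nat_lit 380) (nat_lit 6484230096) (nat_lit 76) (nat_lit 13996885864) (nat_lit 70) (nat_lit 5) (nat_lit 75) (nat_lit 5) (nat_lit 71) (nat_lit 5) (nat_lit 288) (nat_lit 259) (nat_lit 173)) (XT.lf (nat_lit 0) (nat_lit 9100548274) (nat_lit 380) (nat_lit 13923690169) (nat_lit 76) (nat_lit 1869307076) (nat_lit 66) (nat_lit 5) (nat_lit 71) (nat_lit 5) (nat_lit 67) (nat_lit 5) (nat_lit 289) (nat_lit 259) (nat_lit 172)))))) (XT.nd (nat_lit 390) (nat_lit 988) (nat_lit 0) (XT.nd (nat_lit 156) (nat_lit 608) (nat_lit 0) (XT.nd (nat_lit 78) (nat_lit 0) (nat_lit 0) (XT.lf (nat_lit 0) (nat_lit 3636708143) (nat_lit 304) (nat_lit 11420890292) (nat_lit 380) (nat_lit 10678623749) (nat_lit 62) (nat_lit 5) (nat_lit 66) (nat_lit 5) (nat_lit 67) (nat_lit 5) (nat_lit 290) (nat_lit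 259) (nat_lit 171)) (XT.lf (nat_lit 0) (nat_lit 21447241827) (nat_lit 380) (nat_lit 4283318924) (nat_lit 76) (nat_lit 886455972) (nat_lit 62) (nat_lit 5) (nat_lit 67) (nat_lit 5) (nat_lit 63) (nat_lit 5) (nat_lit 291) (nat_lit 259) (nat_lit 170))) (XT.nd (nat_lit 78) (nat_lit 304) (nat_lit 0) (XT.lf (nat_lit 0) (nat_lit 843678337) (nat_lit 304) (nat_lit 12973046302) (nat_lit 76) (nat_lit 13717738818) (nat_lit 58) (nat_lit 5) (nat_lit 62) (nat_lit 5) (nat_lit 59) (nat_lit 5) (nat_lit 292) (nat_lit 259) (nat_lit 169)) (XT.nd (nat_lit 78) (nat_lit 0) (nat_lit 0) (XT.lf (nat_lit 0) (nat_lit 5983096235) (nat_lit 304) (nat_lit 1154702694) (nat_lit 380) (nat_lit 21355863742) (nat_lit 54) (nat_lit 5) (nat_lit 58) (nat_lit 5) (nat_lit 59) (nat_lit 5) (nat_lit 293) (nat_lit 259) (nat_lit 168)) (XT.lf (nat_lit 0) (nat_lit 13982569563) (nat_lit 380) (nat_lit 3478957060) (nat_lit 76) (nat_lit 12032238926)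 (nat_lit 54) (nat_lit 5) (nat_lit 59) (nat_lit 5) (nat_lit 55) (nat_lit 5) (nat_lit 294) (nat_lit 259) (nat_lit 167))))) (XT.nd (nat_lit 234) (nat_lit 456) (nat_lit 0) (XT.nd (nat_lit 78) (nat_lit 304) (nat_lit 0) (XT.lf (nat_lit 0) (nat_lit 16799188263) (nat_lit 228) (nat_lit 4528647863) (nat_lit 304) (nat_lit 9211310700) (nat_lit 51) (nat_lit 5) (nat_lit 54) (nat_lit 5) (nat_lit 55) (nat_lit 5) (nat_lit 295) (nat_lit 259) (nat_lit 166)) (XT.nd (nat_lit 78) (nat_lit 76) (nat_lit 0) (XT.lf (nat_lit 0) (nat_lit 6547643008) (nat_lit 228) (nat_lit 22664402349) (nat_lit 304) (nat_lit 2419621406) (nat_lit 48) (nat_lit 5) (nat_lit 51) (nat_lit 5) (nat_lit 52) (nat_lit 5) (nat_lit 296) (nat_lit 259) (nat_lit 165)) (XT.lf (nat_lit 0) (nat_lit 4794164958) (nat_lit 304) (nat_lit 4750903975) (nat_lit 76) (nat_lit 23227169881) (nat_lit 47) (nat_lit 5) (nat_lit 51) (nat_lit 5) (nat_lit 48) (nat_lit 5)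 (nat_lit 297) (nat_lit 259) (nat_lit 164)))) (XT.nd (nat_lit 78) (nat_lit 228) (nat_lit 0) (XT.lf (nat_lit 0) (nat_lit 12510393087) (nat_lit 304) (nat_lit 17122886653) (nat_lit 76) (nat_lit 4330104801) (nat_lit 44) (nat_lit 5) (nat_lit 48) (nat_lit 5) (nat_lit 45) (nat_lit 5) (nat_lit 298) (nat_lit 259) (nat_lit 163)) (XT.nd (nat_lit 78) (nat_lit 0) (nat_lit 0) (XT.lf (nat_lit 0) (nat_lit 4367040728) (nat_lit 228) (nat_lit 16420073189) (nat_lit 304) (nat_lit 14421749955) (nat_lit 41) (nat_lit 5) (nat_lit 44) (nat_lit 5) (nat_lit 45) (nat_lit 5) (nat_lit 299) (nat_lit 259) (nat_lit 162)) (XT.lf (nat_lit 0) (nat_lit 27270360400) (nat_lit 228) (nat_lit 2370985268) (nat_lit 304) (nat_lit 6870377210) (nat_lit 41) (nat_lit 5) (nat_lit 44) (nat_lit 5) (nat_lit 45) (nat_lit 5) (nat_lit 300) (nat_lit 259) (nat_lit 161))))))))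
noncomputable def xc86 : XT := (XT.nd (nat_lit 1716) (nat_lit 228) (nat_lit 0) (XT.nd (nat_lit 858) (nat_lit 760) (nat_lit 0) (XT.nd (nat_lit 390) (nat_lit 608) (nat_lit 0) (XT.nd (nat_lit 156) (nat_lit 380) (nat_lit 0) (XT.nd (nat_lit 78) (nat_lit 0) (nat_lit 0) (XT.lf (nat_lit 0) (nat_lit 1277613541) (nat_lit 228) (nat_lit 24318639375) (nat_lit 76) (nat_lit 12275990234) (nat_lit 38) (nat_lit 5) (nat_lit 41) (nat_lit 5) (nat_lit 39) (nat_lit 5) (nat_lit 301) (nat_lit 259) (nat_lit 160)) (XT.lf (nat_lit 0) (nat_lit 9800463687) (nat_lit 228) (nat_lit 1728777755) (nat_lit 76) (nat_lit 27766234845) (nat_lit 38) (nat_lit 5) (nat_lit 41) (nat_lit 5) (nat_lit 39) (nat_lit 5) (nat_lit 302) (nat_lit 259) (nat_lit 159))) (XT.nd (nat_lit 78) (nat_lit 152) (nat_lit 0) (XT.lf (nat_lit 0) (nat_lit 18986897808) (nat_lit 304) (nat_lit 18406299614) (nat_lit 76) (nat_lit 3389563796) (nat_lit 35) (nat_lit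 5) (nat_lit 39) (nat_lit 5) (nat_lit 36) (nat_lit 5) (nat_lit 303) (nat_lit 259) (nat_lit 158)) (XT.nd (nat_lit 78) (nat_lit 0) (nat_lit 0) (XT.lf (nat_lit 0) (nat_lit 5350079271) (nat_lit 152) (nat_lit 23457444706) (nat_lit 228) (nat_lit 13531653054) (nat_lit 33) (nat_lit 5) (nat_lit 35) (nat_lit 5) (nat_lit 36) (nat_lit 5) (nat_lit 304) (nat_lit 259) (nat_lit 157)) (XT.lf (nat_lit 0) (nat_lit 30662412410) (nat_lit 152) (nat_lit 8635708207) (nat_lit 228) (nat_lit 4669936981) (nat_lit 33) (nat_lit 5) (nat_lit 35) (nat_lit 5) (nat_lit 36) (nat_lit 5) (nat_lit 305) (nat_lit 259) (nat_lit 156))))) (XT.nd (nat_lit 234) (nat_lit 228) (nat_lit 0) (XT.nd (nat_lit 78) (nat_lit 152) (nat_lit 0) (XT.lf (nat_lit 0) (nat_lit 4715125030) (nat_lit 228) (nat_lit 34011668403) (nat_lit 76) (nat_lit 6945142299) (nat_lit 30) (nat_lit 5) (nat_lit 33) (nat_lit 5) (nat_lit 31) (nat_lit 5) (nat_lit 306) (nat_lit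 259) (nat_lit 155)) (XT.nd (nat_lit 78) (nat_lit 152) (nat_lit 0) (XT.lf (nat_lit 0) (nat_lit 14689378440) (nat_lit 228) (nat_lit 9455751156) (nat_lit 76) (nat_lit 23308006163) (nat_lit 30) (nat_lit 5) (nat_lit 33) (nat_lit 5) (nat_lit 31) (nat_lit 5) (nat_lit 307) (nat_lit 259) (nat_lit 154)) (XT.lf (nat_lit 0) (nat_lit 16637647557) (nat_lit 152) (nat_lit 8675231678) (nat_lit 228) (nat_lit 24006010689) (nat_lit 28) (nat_lit 5) (nat_lit 30) (nat_lit 5) (nat_lit 31) (nat_lit 5) (nat_lit 308) (nat_lit 259) (nat_lit 153)))) (XT.nd (nat_lit 78) (nat_lit 228) (nat_lit 0) (XT.lf (nat_lit 0) (nat_lit 36629465880) (nat_lit 228) (nat_lit 7130187073) (nat_lit 76) (nat_lit 7513431218) (nat_lit 28) (nat_lit 5) (nat_lit 31) (nat_lit 5) (nat_lit 29) (nat_lit 5) (nat_lit 309) (nat_lit 259) (nat_lit 152)) (XT.nd (nat_lit 78) (nat_lit 76) (nat_lit 0) (XT.lf (nat_lit 0) (nat_lit 19986802384) (nat_lit 152)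 (nat_lit 28796060010) (nat_lit 228) (nat_lit 4534005553) (nat_lit 26) (nat_lit 5) (nat_lit 28) (nat_lit 5) (nat_lit 29) (nat_lit 5) (nat_lit 310) (nat_lit 259) (nat_lit 151)) (XT.lf (nat_lit 0) (nat_lit 6028034721) (nat_lit 228) (nat_lit 6925026070) (nat_lit 76) (nat_lit 42506066679) (nat_lit 25) (nat_lit 5) (nat_lit 28) (nat_lit 5) (nat_lit 26) (nat_lit 5) (nat_lit 311) (nat_lit 259) (nat_lit 150)))))) (XT.nd (nat_lit 390) (nat_lit 304) (nat_lit 0) (XT.nd (nat_lit 156) (nat_lit 304) (nat_lit 0) (XT.nd (nat_lit 78) (nat_lit 0) (nat_lit 0) (XT.lf (nat_lit 0) (nat_lit 17258327411) (nat_lit 228) (nat_lit 36584981953) (nat_lit 76) (nat_lit 3856834385) (nat_lit 23) (nat_lit 5) (nat_lit 26) (nat_lit 5) (nat_lit 24) (nat_lit 5) (nat_lit 312) (nat_lit 259) (nat_lit 149)) (XT.lf (nat_lit 0) (nat_lit 29244971879) (nat_lit 228) (nat_lit 9493449277) (nat_lit 76) (nat_lit 21308952316) (nat_lit 23) (nat_lit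 5) (nat_lit 26) (nat_lit 5) (nat_lit 24) (nat_lit 5) (nat_lit 313) (nat_lit 259) (nat_lit 148))) (XT.nd (nat_lit 78) (nat_lit 152) (nat_lit 0) (XT.lf (nat_lit 0) (nat_lit 19317223316) (nat_lit 152) (nat_lit 22691896048) (nat_lit 228) (nat_lit 20497507569) (nat_lit 21) (nat_lit 5) (nat_lit 23) (nat_lit 5) (nat_lit 24) (nat_lit 5) (nat_lit 314) (nat_lit 259) (nat_lit 147)) (XT.nd (nat_lit 78) (nat_lit 152) (nat_lit 0) (XT.lf (nat_lit 0) (nat_lit 49754784409) (nat_lit 152) (nat_lit 5747140689) (nat_lit 228) (nat_lit 9584211466) (nat_lit 21) (nat_lit 5) (nat_lit 23) (nat_lit 5) (nat_lit 24) (nat_lit 5) (nat_lit 315) (nat_lit 259) (nat_lit 146)) (XT.lf (nat_lit 0) (nat_lit 2084603057) (nat_lit 152) (nat_lit 53741062274) (nat_lit 76) (nat_lit 11961029100) (nat_lit 19) (nat_lit 5) (nat_lit 21) (nat_lit 5) (nat_lit 20) (nat_lit 5) (nat_lit 316) (nat_lit 259) (nat_lit 145))))) (XT.nd (nat_lit 234)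 (nat_lit 152) (nat_lit 0) (XT.nd (nat_lit 78) (nat_lit 152) (nat_lit 0) (XT.lf (nat_lit 0) (nat_lit 14351054849) (nat_lit 152) (nat_lit 25573442419) (nat_lit 76) (nat_lit 30688569934) (nat_lit 19) (nat_lit 5) (nat_lit 21) (nat_lit 5) (nat_lit 20) (nat_lit 5) (nat_lit 317) (nat_lit 259) (nat_lit 144)) (XT.nd (nat_lit 78) (nat_lit 0) (nat_lit 0) (XT.lf (nat_lit 0) (nat_lit 4071107923) (nat_lit 152) (nat_lit 23192357691) (nat_lit 228) (nat_lit 46316319795) (nat_lit 17) (nat_lit 5) (nat_lit 19) (nat_lit 5) (nat_lit 20) (nat_lit 5) (nat_lit 318) (nat_lit 259) (nat_lit 143)) (XT.lf (nat_lit 0) (nat_lit 35721715261) (nat_lit 152) (nat_lit 5356747792) (nat_lit 228) (nat_lit 35608673101) (nat_lit 17) (nat_lit 5) (nat_lit 19) (nat_lit 5) (nat_lit 20) (nat_lit 5) (nat_lit 319) (nat_lit 259) (nat_lit 142)))) (XT.nd (nat_lit 78) (nat_lit 152) (nat_lit 0) (XT.lf (nat_lit 0) (nat_lit 55706707510) (nat_lit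 228) (nat_lit 11133750475) (nat_lit 76) (nat_lit 13105726879) (nat_lit 17) (nat_lit 5) (nat_lit 20) (nat_lit 5) (nat_lit 18) (nat_lit 4) (nat_lit 320) (nat_lit 259) (nat_lit 141)) (XT.nd (nat_lit 78) (nat_lit 76) (nat_lit 0) (XT.lf (nat_lit 0) (nat_lit 20526241986) (nat_lit 76) (nat_lit 50785757429) (nat_lit 152) (nat_lit 12048822628) (nat_lit 16) (nat_lit 5) (nat_lit 17) (nat_lit 5) (nat_lit 18) (nat_lit 4) (nat_lit 321) (nat_lit 259) (nat_lit 140)) (XT.lf (nat_lit 0) (nat_lit 846830139) (nat_lit 152) (nat_lit 32958786281) (nat_lit 76) (nat_lit 53137058875) (nat_lit 15) (nat_lit 5) (nat_lit 17) (nat_lit 5) (nat_lit 16) (nat_lit 5) (nat_lit 322) (nat_lit 259) (nat_lit 139))))))) (XT.nd (nat_lit 32994) (nat_lit 0) (nat_lit 8664) (XT.nd (nat_lit 390) (nat_lit 0) (nat_lit 0) (XT.nd (nat_lit 156) (nat_lit 76) (nat_lit 0) (XT.nd (nat_lit 78) (nat_lit 152) (nat_lit 0) (XT.lf (nat_lit 0) (nat_lit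 14135041658) (nat_lit 152) (nat_lit 1719931570) (nat_lit 76) (nat_lit 74845164675) (nat_lit 15) (nat_lit 5) (nat_lit 17) (nat_lit 5) (nat_lit 16) (nat_lit 5) (nat_lit 323) (nat_lit 259) (nat_lit 138)) (XT.lf (nat_lit 0) (nat_lit 28418949854) (nat_lit 228) (nat_lit 62977665788) (nat_lit 76) (nat_lit 3238923686) (nat_lit 13) (nat_lit 5) (nat_lit 16) (nat_lit 5) (nat_lit 14) (nat_lit 4) (nat_lit 324) (nat_lit 259) (nat_lit 137))) (XT.nd (nat_lit 78) (nat_lit 76) (nat_lit 0) (XT.lf (nat_lit 0) (nat_lit 43589992751) (nat_lit 228) (nat_lit 32195425170) (nat_lit 76) (nat_lit 22977108788) (nat_lit 13) (nat_lit 5) (nat_lit 16) (nat_lit 5) (nat_lit 14) (nat_lit 4) (nat_lit 325) (nat_lit 259) (nat_lit 136)) (XT.nd (nat_lit 78) (nat_lit 0) (nat_lit 0) (XT.lf (nat_lit 0) (nat_lit 120126305) (nat_lit 76) (nat_lit 59395883576) (nat_lit 152) (nat_lit 43579964787) (nat_lit 12) (nat_lit 5) (nat_lit 13) (nat_lit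 5) (nat_lit 14) (nat_lit 4) (nat_lit 326) (nat_lit 259) (nat_lit 135)) (XT.lf (nat_lit 0) (nat_lit 34716333261) (nat_lit 76) (nat_lit 41848834773) (nat_lit 152) (nat_lit 31071125474) (nat_lit 12) (nat_lit 5) (nat_lit 13) (nat_lit 5) (nat_lit 14) (nat_lit 4) (nat_lit 327) (nat_lit 259) (nat_lit 134))))) (XT.nd (nat_lit 32370) (nat_lit 0) (nat_lit 11324) (XT.nd (nat_lit 32214) (nat_lit 0) (nat_lit 12312) (XT.lf (nat_lit 0) (nat_lit 71034815529) (nat_lit 76) (nat_lit 23427603490) (nat_lit 152) (nat_lit 17941343733) (nat_lit 12) (nat_lit 5) (nat_lit 13) (nat_lit 5) (nat_lit 14) (nat_lit 4) (nat_lit 328) (nat_lit 259) (nat_lit 133)) (XT.nd (nat_lit 78) (nat_lit 0) (nat_lit 0) (XT.lf (nat_lit 0) (nat_lit 2228227856) (nat_lit 0) (nat_lit 2228227856) (nat_lit 988) (nat_lit 1177506237) (nat_lit 174) (nat_lit 5) (nat_lit 174) (nat_lit 3) (nat_lit 187) (nat_lit 3) (nat_lit 260) (nat_lit 260) (nat_lit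 200)) (XT.lf (nat_lit 76) (nat_lit 1155687188) (nat_lit 0) (nat_lit 8830311248) (nat_lit 1064) (nat_lit 1536251215) (nat_lit 175) (nat_lit 5) (nat_lit 174) (nat_lit 5) (nat_lit 188) (nat_lit 5) (nat_lit 261) (nat_lit 260) (nat_lit 199)))) (XT.nd (nat_lit 78) (nat_lit 988) (nat_lit 0) (XT.lf (nat_lit 76) (nat_lit 9589161045) (nat_lit 0) (nat_lit 1586178025) (nat_lit 1064) (nat_lit 612193990) (nat_lit 175) (nat_lit 5) (nat_lit 174) (nat_lit 5) (nat_lit 188) (nat_lit 5) (nat_lit 262) (nat_lit 260) (nat_lit 198)) (XT.nd (nat_lit 78) (nat_lit 0) (nat_lit 76) (XT.lf (nat_lit 0) (nat_lit 421848925) (nat_lit 1064) (nat_lit 5651617912) (nat_lit 1140) (nat_lit 5990497798) (nat_lit 161) (nat_lit 5) (nat_lit 175) (nat_lit 5) (nat_lit 176) (nat_lit 5) (nat_lit 263) (nat_lit 260) (nat_lit 197)) (XT.lf (nat_lit 0) (nat_lit 1532155199) (nat_lit 1064) (nat_lit 9213274403) (nat_lit 1140) (nat_lit 1607594773)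 (nat_lit 162) (nat_lit 5) (nat_lit 176) (nat_lit 5) (nat_lit 177) (nat_lit 5) (nat_lit 264) (nat_lit 260) (nat_lit 196)))))) (XT.nd (nat_lit 390) (nat_lit 2736) (nat_lit 0) (XT.nd (nat_lit 156) (nat_lit 0) (nat_lit 152) (XT.nd (nat_lit 78) (nat_lit 0) (nat_lit 76) (XT.lf (nat_lit 0) (nat_lit 2772349380) (nat_lit 1064) (nat_lit 257877730) (nat_lit 1140) (nat_lit 9624178909) (nat_lit 162) (nat_lit 5) (nat_lit 176) (nat_lit 5) (nat_lit 177) (nat_lit 5) (nat_lit 265) (nat_lit 260) (nat_lit 195)) (XT.lf (nat_lit 0) (nat_lit 4170196979) (nat_lit 1064) (nat_lit 3721187064) (nat_lit 1140) (nat_lit 5076698715) (nat_lit 163) (nat_lit 5) (nat_lit 177) (nat_lit 5) (nat_lit 178) (nat_lit 5) (nat_lit 266) (nat_lit 260) (nat_lit 194))) (XT.nd (nat_lit 78) (nat_lit 0) (nat_lit 0) (XT.lf (nat_lit 0) (nat_lit 5690163174) (nat_lit 1064) (nat_lit 7306963270) (nat_lit 1140) (nat_lit 298840892) (nat_lit 164)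 (nat_lit 5) (nat_lit 178) (nat_lit 5) (nat_lit 179) (nat_lit 5) (nat_lit 267) (nat_lit 260) (nat_lit 193)) (XT.nd (nat_lit 78) (nat_lit 0) (nat_lit 76) (XT.lf (nat_lit 76) (nat_lit 2563584633) (nat_lit 0) (nat_lit 4825769595) (nat_lit 1140) (nat_lit 6247881581) (nat_lit 165) (nat_lit 5) (nat_lit 164) (nat_lit 5) (nat_lit 179) (nat_lit 5) (nat_lit 268) (nat_lit 260) (nat_lit 192)) (XT.lf (nat_lit 0) (nat_lit 9247507485) (nat_lit 1064) (nat_lit 980031335) (nat_lit 1140) (nat_lit 3765891153) (nat_lit 165) (nat_lit 5) (nat_lit 179) (nat_lit 5) (nat_lit 180) (nat_lit 5) (nat_lit 269) (nat_lit 260) (nat_lit 191))))) (XT.nd (nat_lit 234) (nat_lit 1064) (nat_lit 0) (XT.nd (nat_lit 78) (nat_lit 1900) (nat_lit 0) (XT.lf (nat_lit 76) (nat_lit 9730639577) (nat_lit 0) (nat_lit 1573937095) (nat_lit 1140) (nat_lit 3059755351) (nat_lit 166) (nat_lit 5) (nat_lit 165) (nat_lit 5) (nat_lit 180) (nat_lit 5)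 (nat_lit 270) (nat_lit 260) (nat_lit 190)) (XT.nd (nat_lit 78) (nat_lit 912) (nat_lit 0) (XT.lf (nat_lit 0) (nat_lit 6264619484) (nat_lit 1064) (nat_lit 7307786639) (nat_lit 1140) (nat_lit 1178210539) (nat_lit 152) (nat_lit 5) (nat_lit 166) (nat_lit 5) (nat_lit 167) (nat_lit 5) (nat_lit 271) (nat_lit 260) (nat_lit 189)) (XT.lf (nat_lit 0) (nat_lit 855041966) (nat_lit 912) (nat_lit 12523301734) (nat_lit 76) (nat_lit 1775515214) (nat_lit 140) (nat_lit 5) (nat_lit 152) (nat_lit 5) (nat_lit 141) (nat_lit 5) (nat_lit 272) (nat_lit 260) (nat_lit 188)))) (XT.nd (nat_lit 78) (nat_lit 1064) (nat_lit 0) (XT.lf (nat_lit 0) (nat_lit 3095438218) (nat_lit 912) (nat_lit 1210196256) (nat_lit 76) (nat_lit 11267449165) (nat_lit 140) (nat_lit 5) (nat_lit 152) (nat_lit 5) (nat_lit 141) (nat_lit 5) (nat_lit 273) (nat_lit 260) (nat_lit 187)) (XT.nd (nat_lit 78) (nat_lit 532) (nat_lit 0) (XT.lf (nat_lit 0) (nat_lit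 5572602488) (nat_lit 608) (nat_lit 5209951776) (nat_lit 76) (nat_lit 5227035532) (nat_lit 133) (nat_lit 5) (nat_lit 141) (nat_lit 5) (nat_lit 134) (nat_lit 5) (nat_lit 274) (nat_lit 260) (nat_lit 186)) (XT.lf (nat_lit 0) (nat_lit 7033284254) (nat_lit 532) (nat_lit 1234401527) (nat_lit 608) (nat_lit 8197473313) (nat_lit 126) (nat_lit 5) (nat_lit 133) (nat_lit 5) (nat_lit 134) (nat_lit 5) (nat_lit 275) (nat_lit 260) (nat_lit 185))))))))
noncomputable def xc87 : XT := (XT.nd (nat_lit 1716) (nat_lit 2356) (nat_lit 0) (XT.nd (nat_lit 858) (nat_lit 2356) (nat_lit 0) (XT.nd (nat_lit 390) (nat_lit 1596) (nat_lit 0) (XT.nd (nat_lit 156) (nat_lit 1520) (nat_lit 0) (XT.nd (nat_lit 78) (nat_lit 0) (nat_lit 0) (XT.lf (nat_lit 0) (nat_lit 3000978316) (nat_lit 456) (nat_lit 8235632335) (nat_lit 532) (nat_lit 5702780403) (nat_lit 120) (nat_lit 5) (nat_lit 126) (nat_lit 5) (nat_lit 127) (nat_lit 5) (nat_lit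 276) (nat_lit 260) (nat_lit 184)) (XT.lf (nat_lit 0) (nat_lit 14453149134) (nat_lit 532) (nat_lit 1239529348) (nat_lit 76) (nat_lit 1741735220) (nat_lit 120) (nat_lit 5) (nat_lit 127) (nat_lit 5) (nat_lit 121) (nat_lit 5) (nat_lit 277) (nat_lit 260) (nat_lit 183))) (XT.nd (nat_lit 78) (nat_lit 912) (nat_lit 0) (XT.lf (nat_lit 0) (nat_lit 54998318) (nat_lit 608) (nat_lit 5726777436) (nat_lit 76) (nat_lit 12167209688) (nat_lit 112) (nat_lit 5) (nat_lit 120) (nat_lit 5) (nat_lit 113) (nat_lit 5) (nat_lit 278) (nat_lit 260) (nat_lit 182)) (XT.nd (nat_lit 78) (nat_lit 456) (nat_lit 0) (XT.lf (nat_lit 0) (nat_lit 3291994835) (nat_lit 532) (nat_lit 10539040182) (nat_lit 76) (nat_lit 4654095551) (nat_lit 106) (nat_lit 5) (nat_lit 113) (nat_lit 5) (nat_lit 107) (nat_lit 5) (nat_lit 279) (nat_lit 260) (nat_lit 181)) (XT.lf (nat_lit 0) (nat_lit 3355805484) (nat_lit 456) (nat_lit 3460784530) (nat_lit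 532) (nat_lit 12227765854) (nat_lit 100) (nat_lit 5) (nat_lit 106) (nat_lit 5) (nat_lit 107) (nat_lit 5) (nat_lit 280) (nat_lit 260) (nat_lit 180))))) (XT.nd (nat_lit 234) (nat_lit 836) (nat_lit 0) (XT.nd (nat_lit 78) (nat_lit 760) (nat_lit 0) (XT.lf (nat_lit 0) (nat_lit 10674868846) (nat_lit 532) (nat_lit 1561792746) (nat_lit 76) (nat_lit 7390200446) (nat_lit 100) (nat_lit 5) (nat_lit 107) (nat_lit 5) (nat_lit 101) (nat_lit 5) (nat_lit 281) (nat_lit 260) (nat_lit 179)) (XT.nd (nat_lit 78) (nat_lit 380) (nat_lit 0) (XT.lf (nat_lit 0) (nat_lit 13473909155) (nat_lit 380) (nat_lit 1394209447) (nat_lit 456) (nat_lit 5366154368) (nat_lit 95) (nat_lit 5) (nat_lit 100) (nat_lit 5) (nat_lit 101) (nat_lit 5) (nat_lit 282) (nat_lit 260) (nat_lit 178)) (XT.lf (nat_lit 0) (nat_lit 8466157229) (nat_lit 380) (nat_lit 10976931979) (nat_lit 456) (nat_lit 1423842693) (nat_lit 90) (nat_lit 5) (nat_lit 95)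 (nat_lit 5) (nat_lit 96) (nat_lit 5) (nat_lit 283) (nat_lit 260) (nat_lit 177)))) (XT.nd (nat_lit 78) (nat_lit 380) (nat_lit 0) (XT.lf (nat_lit 0) (nat_lit 2758244906) (nat_lit 456) (nat_lit 18470683545) (nat_lit 76) (nat_lit 298678926) (nat_lit 84) (nat_lit 5) (nat_lit 90) (nat_lit 5) (nat_lit 85) (nat_lit 5) (nat_lit 284) (nat_lit 260) (nat_lit 176)) (XT.nd (nat_lit 78) (nat_lit 380) (nat_lit 0) (XT.lf (nat_lit 0) (nat_lit 7339660289) (nat_lit 456) (nat_lit 2822199443) (nat_lit 76) (nat_lit 12052478374) (nat_lit 84) (nat_lit 5) (nat_lit 90) (nat_lit 5) (nat_lit 85) (nat_lit 5) (nat_lit 285) (nat_lit 260) (nat_lit 175)) (XT.lf (nat_lit 0) (nat_lit 12279281881) (nat_lit 456) (nat_lit 9091988102) (nat_lit 76) (nat_lit 1560294203) (nat_lit 79) (nat_lit 5) (nat_lit 85) (nat_lit 5) (nat_lit 80) (nat_lit 5) (nat_lit 286) (nat_lit 260) (nat_lit 174)))))) (XT.nd (nat_lit 390) (nat_lit 1064) (nat_lit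 0) (XT.nd (nat_lit 156) (nat_lit 684) (nat_lit 0) (XT.nd (nat_lit 78) (nat_lit 304) (nat_lit 0) (XT.lf (nat_lit 0) (nat_lit 7734090272) (nat_lit 304) (nat_lit 9919354569) (nat_lit 380) (nat_lit 6025611234) (nat_lit 75) (nat_lit 5) (nat_lit 79) (nat_lit 5) (nat_lit 80) (nat_lit 5) (nat_lit 287) (nat_lit 260) (nat_lit 173)) (XT.lf (nat_lit 0) (nat_lit 1107340768) (nat_lit 304) (nat_lit 22296308321) (nat_lit 380) (nat_lit 1057083298) (nat_lit 71) (nat_lit 5) (nat_lit 75) (nat_lit 5) (nat_lit 76) (nat_lit 5) (nat_lit 288) (nat_lit 260) (nat_lit 172))) (XT.nd (nat_lit 78) (nat_lit 608) (nat_lit 0) (XT.lf (nat_lit 0) (nat_lit 4326952854) (nat_lit 380) (nat_lit 6095997901) (nat_lit 76) (nat_lit 14849922041) (nat_lit 70) (nat_lit 5) (nat_lit 75) (nat_lit 5) (nat_lit 71) (nat_lit 5) (nat_lit 289) (nat_lit 260) (nat_lit 171)) (XT.nd (nat_lit 78) (nat_lit 304) (nat_lit 0) (XT.lf (nat_lit 0) (nat_lit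 10080176170) (nat_lit 380) (nat_lit 13912981038) (nat_lit 76) (nat_lit 2128519868) (nat_lit 66) (nat_lit 5) (nat_lit 71) (nat_lit 5) (nat_lit 67) (nat_lit 5) (nat_lit 290) (nat_lit 260) (nat_lit 170)) (XT.lf (nat_lit 0) (nat_lit 4505174225) (nat_lit 304) (nat_lit 11811523953) (nat_lit 380) (nat_lit 10690379279) (nat_lit 62) (nat_lit 5) (nat_lit 66) (nat_lit 5) (nat_lit 67) (nat_lit 5) (nat_lit 291) (nat_lit 260) (nat_lit 169))))) (XT.nd (nat_lit 234) (nat_lit 456) (nat_lit 0) (XT.nd (nat_lit 78) (nat_lit 608) (nat_lit 0) (XT.lf (nat_lit 0) (nat_lit 23003369671) (nat_lit 380) (nat_lit 3830006496) (nat_lit 76) (nat_lit 1099245808) (nat_lit 62) (nat_lit 5) (nat_lit 67) (nat_lit 5) (nat_lit 63) (nat_lit 5) (nat_lit 292) (nat_lit 260) (nat_lit 168)) (XT.nd (nat_lit 78) (nat_lit 304) (nat_lit 0) (XT.lf (nat_lit 0) (nat_lit 1358131326) (nat_lit 304) (nat_lit 12963276894) (nat_lit 76) (nat_lit 14574932936)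 (nat_lit 58) (nat_lit 5) (nat_lit 62) (nat_lit 5) (nat_lit 59) (nat_lit 5) (nat_lit 293) (nat_lit 260) (nat_lit 167)) (XT.lf (nat_lit 0) (nat_lit 6921799244) (nat_lit 304) (nat_lit 1028817428) (nat_lit 380) (nat_lit 21953406152) (nat_lit 54) (nat_lit 5) (nat_lit 58) (nat_lit 5) (nat_lit 59) (nat_lit 5) (nat_lit 294) (nat_lit 260) (nat_lit 166)))) (XT.nd (nat_lit 78) (nat_lit 456) (nat_lit 0) (XT.lf (nat_lit 0) (nat_lit 15117596011) (nat_lit 380) (nat_lit 3031851479) (nat_lit 76) (nat_lit 12805314973) (nat_lit 54) (nat_lit 5) (nat_lit 59) (nat_lit 5) (nat_lit 55) (nat_lit 5) (nat_lit 295) (nat_lit 260) (nat_lit 165)) (XT.nd (nat_lit 78) (nat_lit 228) (nat_lit 0) (XT.lf (nat_lit 0) (nat_lit 18242398738) (nat_lit 228) (nat_lit 4572768936) (nat_lit 304) (nat_lit 9237723134) (nat_lit 51) (nat_lit 5) (nat_lit 54) (nat_lit 5) (nat_lit 55) (nat_lit 5) (nat_lit 296) (nat_lit 260) (nat_lit 164)) (XT.lf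 (nat_lit 0) (nat_lit 7472116497) (nat_lit 228) (nat_lit 23608834764) (nat_lit 304) (nat_lit 2119492430) (nat_lit 48) (nat_lit 5) (nat_lit 51) (nat_lit 5) (nat_lit 52) (nat_lit 5) (nat_lit 297) (nat_lit 260) (nat_lit 163))))))) (XT.nd (nat_lit 858) (nat_lit 988) (nat_lit 0) (XT.nd (nat_lit 390) (nat_lit 608) (nat_lit 0) (XT.nd (nat_lit 156) (nat_lit 456) (nat_lit 0) (XT.nd (nat_lit 78) (nat_lit 228) (nat_lit 0) (XT.lf (nat_lit 0) (nat_lit 5427104323) (nat_lit 304) (nat_lit 4411449382) (nat_lit 76) (nat_lit 24559984813) (nat_lit 47) (nat_lit 5) (nat_lit 51) (nat_lit 5) (nat_lit 48) (nat_lit 5) (nat_lit 298) (nat_lit 260) (nat_lit 162)) (XT.lf (nat_lit 0) (nat_lit 13517541772) (nat_lit 304) (nat_lit 17408418932) (nat_lit 76) (nat_lit 4723653428) (nat_lit 44) (nat_lit 5) (nat_lit 48) (nat_lit 5) (nat_lit 45) (nat_lit 5) (nat_lit 299) (nat_lit 260) (nat_lit 161))) (XT.nd (nat_lit 78) (nat_lit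 228) (nat_lit 0) (XT.lf (nat_lit 0) (nat_lit 5139648338) (nat_lit 228) (nat_lit 17055605338) (nat_lit 304) (nat_lit 14762522471) (nat_lit 41) (nat_lit 5) (nat_lit 44) (nat_lit 5) (nat_lit 45) (nat_lit 5) (nat_lit 300) (nat_lit 260) (nat_lit 160)) (XT.nd (nat_lit 78) (nat_lit 228) (nat_lit 0) (XT.lf (nat_lit 0) (nat_lit 29161740872) (nat_lit 228) (nat_lit 2312894997) (nat_lit 304) (nat_lit 6851691326) (nat_lit 41) (nat_lit 5) (nat_lit 44) (nat_lit 5) (nat_lit 45) (nat_lit 5) (nat_lit 301) (nat_lit 260) (nat_lit 159)) (XT.lf (nat_lit 0) (nat_lit 1686417917) (nat_lit 228) (nat_lit 25005545971) (nat_lit 76) (nat_lit 13063132113) (nat_lit 38) (nat_lit 5) (nat_lit 41) (nat_lit 5) (nat_lit 39) (nat_lit 5) (nat_lit 302) (nat_lit 260) (nat_lit 158))))) (XT.nd (nat_lit 234) (nat_lit 228) (nat_lit 0) (XT.nd (nat_lit 78) (nat_lit 380) (nat_lit 0) (XT.lf (nat_lit 0) (nat_lit 10618985632) (nat_lit 228)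 (nat_lit 1311382955) (nat_lit 76) (nat_lit 29319634556) (nat_lit 38) (nat_lit 5) (nat_lit 41) (nat_lit 5) (nat_lit 39) (nat_lit 5) (nat_lit 303) (nat_lit 260) (nat_lit 157)) (XT.nd (nat_lit 78) (nat_lit 152) (nat_lit 0) (XT.lf (nat_lit 0) (nat_lit 20255454736) (nat_lit 304) (nat_lit 18828974808) (nat_lit 76) (nat_lit 3727520046) (nat_lit 35) (nat_lit 5) (nat_lit 39) (nat_lit 5) (nat_lit 36) (nat_lit 5) (nat_lit 304) (nat_lit 260) (nat_lit 156)) (XT.lf (nat_lit 0) (nat_lit 6100958277) (nat_lit 152) (nat_lit 24455599860) (nat_lit 228) (nat_lit 13889962456) (nat_lit 33) (nat_lit 5) (nat_lit 35) (nat_lit 5) (nat_lit 36) (nat_lit 5) (nat_lit 305) (nat_lit 260) (nat_lit 155)))) (XT.nd (nat_lit 78) (nat_lit 228) (nat_lit 0) (XT.lf (nat_lit 0) (nat_lit 32655890214) (nat_lit 152) (nat_lit 8901096398) (nat_lit 228) (nat_lit 4600316448) (nat_lit 33) (nat_lit 5) (nat_lit 35) (nat_lit 5) (nat_lit 36)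 (nat_lit 5) (nat_lit 306) (nat_lit 260) (nat_lit 154)) (XT.nd (nat_lit 78) (nat_lit 0) (nat_lit 0) (XT.lf (nat_lit 0) (nat_lit 5239881892) (nat_lit 228) (nat_lit 35251684644) (nat_lit 76) (nat_lit 7454982862) (nat_lit 30) (nat_lit 5) (nat_lit 33) (nat_lit 5) (nat_lit 31) (nat_lit 5) (nat_lit 307) (nat_lit 260) (nat_lit 153)) (XT.lf (nat_lit 0) (nat_lit 15699086039) (nat_lit 228) (nat_lit 9489903305) (nat_lit 76) (nat_lit 24628247850) (nat_lit 30) (nat_lit 5) (nat_lit 33) (nat_lit 5) (nat_lit 31) (nat_lit 5) (nat_lit 308) (nat_lit 260) (nat_lit 152)))))) (XT.nd (nat_lit 390) (nat_lit 456) (nat_lit 0) (XT.nd (nat_lit 156) (nat_lit 380) (nat_lit 0) (XT.nd (nat_lit 78) (nat_lit 0) (nat_lit 0) (XT.lf (nat_lit 0) (nat_lit 17895591948) (nat_lit 152) (nat_lit 8949158892) (nat_lit 228) (nat_lit 24931812760) (nat_lit 28) (nat_lit 5) (nat_lit 30) (nat_lit 5) (nat_lit 31) (nat_lit 5) (nat_lit 309) (nat_lit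 260) (nat_lit 151)) (XT.lf (nat_lit 0) (nat_lit 38715952571) (nat_lit 228) (nat_lit 7074509372) (nat_lit 76) (nat_lit 8038355565) (nat_lit 28) (nat_lit 5) (nat_lit 31) (nat_lit 5) (nat_lit 29) (nat_lit 5) (nat_lit 310) (nat_lit 260) (nat_lit 150))) (XT.nd (nat_lit 78) (nat_lit 228) (nat_lit 0) (XT.lf (nat_lit 0) (nat_lit 21386514299) (nat_lit 152) (nat_lit 30082209736) (nat_lit 228) (nat_lit 4506328164) (nat_lit 26) (nat_lit 5) (nat_lit 28) (nat_lit 5) (nat_lit 29) (nat_lit 5) (nat_lit 311) (nat_lit 260) (nat_lit 149)) (XT.nd (nat_lit 78) (nat_lit 152) (nat_lit 0) (XT.lf (nat_lit 0) (nat_lit 6566973449) (nat_lit 228) (nat_lit 6885005271) (nat_lit 76) (nat_lit 44772740835) (nat_lit 25) (nat_lit 5) (nat_lit 28) (nat_lit 5) (nat_lit 26) (nat_lit 5) (nat_lit 312) (nat_lit 260) (nat_lit 148)) (XT.lf (nat_lit 0) (nat_lit 18352473497) (nat_lit 228) (nat_lit 38033306913) (nat_lit 76) (nat_lit 4192206799)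 (nat_lit 23) (nat_lit 5) (nat_lit 26) (nat_lit 5) (nat_lit 24) (nat_lit 5) (nat_lit 313) (nat_lit 260) (nat_lit 147))))) (XT.nd (nat_lit 234) (nat_lit 304) (nat_lit 0) (XT.nd (nat_lit 78) (nat_lit 152) (nat_lit 0) (XT.lf (nat_lit 0) (nat_lit 30927439250) (nat_lit 228) (nat_lit 9605336848) (nat_lit 76) (nat_lit 22510143450) (nat_lit 23) (nat_lit 5) (nat_lit 26) (nat_lit 5) (nat_lit 24) (nat_lit 5) (nat_lit 314) (nat_lit 260) (nat_lit 146)) (XT.nd (nat_lit 78) (nat_lit 0) (nat_lit 0) (XT.lf (nat_lit 0) (nat_lit 20635470218) (nat_lit 152) (nat_lit 23687224629) (nat_lit 228) (nat_lit 21302664099) (nat_lit 21) (nat_lit 5) (nat_lit 23) (nat_lit 5) (nat_lit 24) (nat_lit 5) (nat_lit 315) (nat_lit 260) (nat_lit 145)) (XT.lf (nat_lit 0) (nat_lit 52578129093) (nat_lit 152) (nat_lit 5901863227) (nat_lit 228) (nat_lit 9854165993) (nat_lit 21) (nat_lit 5) (nat_lit 23) (nat_lit 5) (nat_lit 24) (nat_lit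 5) (nat_lit 316) (nat_lit 260) (nat_lit 144)))) (XT.nd (nat_lit 78) (nat_lit 152) (nat_lit 0) (XT.lf (nat_lit 0) (nat_lit 2388673901) (nat_lit 152) (nat_lit 56093105082) (nat_lit 76) (nat_lit 12688073766) (nat_lit 19) (nat_lit 5) (nat_lit 21) (nat_lit 5) (nat_lit 20) (nat_lit 5) (nat_lit 317) (nat_lit 260) (nat_lit 143)) (XT.nd (nat_lit 78) (nat_lit 152) (nat_lit 0) (XT.lf (nat_lit 0) (nat_lit 15258932059) (nat_lit 152) (nat_lit 26533057106) (nat_lit 76) (nat_lit 32345849107) (nat_lit 19) (nat_lit 5) (nat_lit 21) (nat_lit 5) (nat_lit 20) (nat_lit 5) (nat_lit 318) (nat_lit 260) (nat_lit 142)) (XT.lf (nat_lit 0) (nat_lit 4584575037) (nat_lit 152) (nat_lit 24226304317) (nat_lit 228) (nat_lit 48442203774) (nat_lit 17) (nat_lit 5) (nat_lit 19) (nat_lit 5) (nat_lit 20) (nat_lit 5) (nat_lit 319) (nat_lit 260) (nat_lit 141))))))))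
noncomputable def xc88 : XT := (XT.nd (nat_lit 33852) (nat_lit 0) (nat_lit 3496) (XT.nd (nat_lit 32994) (nat_lit 0) (nat_lit 10640) (XT.nd (nat_lit 390) (nat_lit 228) (nat_lit 0) (XT.nd (nat_lit 156) (nat_lit 152) (nat_lit 0) (XT.nd (nat_lit 78) (nat_lit 0) (nat_lit 0) (XT.lf (nat_lit 0) (nat_lit 37802955040) (nat_lit 152) (nat_lit 5504898269) (nat_lit 228) (nat_lit 37208219127) (nat_lit 17) (nat_lit 5) (nat_lit 19) (nat_lit 5) (nat_lit 20) (nat_lit 5) (nat_lit 320) (nat_lit 260) (nat_lit 140)) (XT.lf (nat_lit 0) (nat_lit 58660250131) (nat_lit 228) (nat_lit 11405272248) (nat_lit 76) (nat_lit 13872776452) (nat_lit 17) (nat_lit 5) (nat_lit 20) (nat_lit 5) (nat_lit 18) (nat_lit 4) (nat_lit 321) (nat_lit 260) (nat_lit 139))) (XT.nd (nat_lit 78) (nat_lit 76) (nat_lit 0) (XT.lf (nat_lit 0) (nat_lit 21829545617) (nat_lit 76) (nat_lit 53210913757) (nat_lit 152) (nat_lit 12483376010) (nat_lit 16)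 (nat_lit 5) (nat_lit 17) (nat_lit 5) (nat_lit 18) (nat_lit 4) (nat_lit 322) (nat_lit 260) (nat_lit 138)) (XT.nd (nat_lit 78) (nat_lit 0) (nat_lit 0) (XT.lf (nat_lit 0) (nat_lit 1045944651) (nat_lit 152) (nat_lit 34339672782) (nat_lit 76) (nat_lit 55899357172) (nat_lit 15) (nat_lit 5) (nat_lit 17) (nat_lit 5) (nat_lit 16) (nat_lit 5) (nat_lit 323) (nat_lit 260) (nat_lit 137)) (XT.lf (nat_lit 0) (nat_lit 14991101365) (nat_lit 152) (nat_lit 1551592137) (nat_lit 76) (nat_lit 78687847055) (nat_lit 15) (nat_lit 5) (nat_lit 17) (nat_lit 5) (nat_lit 16) (nat_lit 5) (nat_lit 324) (nat_lit 260) (nat_lit 136))))) (XT.nd (nat_lit 156) (nat_lit 76) (nat_lit 0) (XT.nd (nat_lit 78) (nat_lit 0) (nat_lit 0) (XT.lf (nat_lit 0) (nat_lit 29985454870) (nat_lit 228) (nat_lit 65876032355) (nat_lit 76) (nat_lit 3501343284) (nat_lit 13) (nat_lit 5) (nat_lit 16) (nat_lit 5) (nat_lit 14) (nat_lit 4) (nat_lit 325)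 (nat_lit 260) (nat_lit 135)) (XT.lf (nat_lit 0) (nat_lit 45908118602) (nat_lit 228) (nat_lit 33566609073) (nat_lit 76) (nat_lit 24221653194) (nat_lit 13) (nat_lit 5) (nat_lit 16) (nat_lit 5) (nat_lit 14) (nat_lit 4) (nat_lit 326) (nat_lit 260) (nat_lit 134))) (XT.nd (nat_lit 78) (nat_lit 0) (nat_lit 0) (XT.lf (nat_lit 0) (nat_lit 357880917) (nat_lit 76) (nat_lit 62268182129) (nat_lit 152) (nat_lit 45620574785) (nat_lit 12) (nat_lit 5) (nat_lit 13) (nat_lit 5) (nat_lit 14) (nat_lit 4) (nat_lit 327) (nat_lit 260) (nat_lit 133)) (XT.nd (nat_lit 32292) (nat_lit 0) (nat_lit 12312) (XT.lf (nat_lit 0) (nat_lit 36672862588) (nat_lit 76) (nat_lit 43848423534) (nat_lit 152) (nat_lit 32492883422) (nat_lit 12) (nat_lit 5) (nat_lit 13) (nat_lit 5) (nat_lit 14) (nat_lit 4) (nat_lit 328) (nat_lit 260) (nat_lit 132)) (XT.lf (nat_lit 0) (nat_lit 2739729848) (nat_lit 0) (nat_lit 2739729848) (nat_lit 988)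 (nat_lit 410359605) (nat_lit 174) (nat_lit 5) (nat_lit 174) (nat_lit 3) (nat_lit 187) (nat_lit 3) (nat_lit 261) (nat_lit 261) (nat_lit 198)))))) (XT.nd (nat_lit 390) (nat_lit 608) (nat_lit 0) (XT.nd (nat_lit 156) (nat_lit 0) (nat_lit 76) (XT.nd (nat_lit 78) (nat_lit 1064) (nat_lit 0) (XT.lf (nat_lit 76) (nat_lit 2048387109) (nat_lit 0) (nat_lit 9961766081) (nat_lit 1064) (nat_lit 38967475) (nat_lit 175) (nat_lit 5) (nat_lit 174) (nat_lit 5) (nat_lit 188) (nat_lit 5) (nat_lit 262) (nat_lit 261) (nat_lit 197)) (XT.lf (nat_lit 0) (nat_lit 839625450) (nat_lit 1064) (nat_lit 1474467924) (nat_lit 1140) (nat_lit 10015672753) (nat_lit 160) (nat_lit 5) (nat_lit 174) (nat_lit 5) (nat_lit 175) (nat_lit 5) (nat_lit 263) (nat_lit 261) (nat_lit 196))) (XT.nd (nat_lit 78) (nat_lit 0) (nat_lit 76) (XT.lf (nat_lit 0) (nat_lit 1844757175) (nat_lit 1064) (nat_lit 5079169218) (nat_lit 1140) (nat_lit 5698103538)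 (nat_lit 161) (nat_lit 5) (nat_lit 175) (nat_lit 5) (nat_lit 176) (nat_lit 5) (nat_lit 264) (nat_lit 261) (nat_lit 195)) (XT.nd (nat_lit 78) (nat_lit 0) (nat_lit 0) (XT.lf (nat_lit 0) (nat_lit 2946882388) (nat_lit 1064) (nat_lit 8795267820) (nat_lit 1140) (nat_lit 1185449935) (nat_lit 162) (nat_lit 5) (nat_lit 176) (nat_lit 5) (nat_lit 177) (nat_lit 5) (nat_lit 265) (nat_lit 261) (nat_lit 194)) (XT.lf (nat_lit 76) (nat_lit 577322892) (nat_lit 0) (nat_lit 3613592993) (nat_lit 1140) (nat_lit 9055019707) (nat_lit 163) (nat_lit 5) (nat_lit 162) (nat_lit 5) (nat_lit 177) (nat_lit 5) (nat_lit 266) (nat_lit 261) (nat_lit 193))))) (XT.nd (nat_lit 234) (nat_lit 836) (nat_lit 0) (XT.nd (nat_lit 78) (nat_lit 0) (nat_lit 0) (XT.lf (nat_lit 0) (nat_lit 5596305584) (nat_lit 1064) (nat_lit 3051171439) (nat_lit 1140) (nat_lit 4929822619) (nat_lit 163) (nat_lit 5) (nat_lit 177) (nat_lit 5) (nat_lit 178)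 (nat_lit 5) (nat_lit 267) (nat_lit 261) (nat_lit 192)) (XT.nd (nat_lit 78) (nat_lit 0) (nat_lit 76) (XT.lf (nat_lit 76) (nat_lit 7123158623) (nat_lit 0) (nat_lit 16047499) (nat_lit 1140) (nat_lit 6784090878) (nat_lit 164) (nat_lit 5) (nat_lit 163) (nat_lit 5) (nat_lit 178) (nat_lit 5) (nat_lit 268) (nat_lit 261) (nat_lit 191)) (XT.lf (nat_lit 76) (nat_lit 3539086091) (nat_lit 0) (nat_lit 5336814668) (nat_lit 1140) (nat_lit 5407272420) (nat_lit 165) (nat_lit 5) (nat_lit 164) (nat_lit 5) (nat_lit 179) (nat_lit 5) (nat_lit 269) (nat_lit 261) (nat_lit 190)))) (XT.nd (nat_lit 78) (nat_lit 988) (nat_lit 0) (XT.lf (nat_lit 0) (nat_lit 10771297863) (nat_lit 1064) (nat_lit 185376033) (nat_lit 1140) (nat_lit 3702287930) (nat_lit 165) (nat_lit 5) (nat_lit 179) (nat_lit 5) (nat_lit 180) (nat_lit 5) (nat_lit 270) (nat_lit 261) (nat_lit 189)) (XT.nd (nat_lit 78) (nat_lit 988) (nat_lit 0) (XT.lf (nat_lit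 76) (nat_lit 11036645170) (nat_lit 0) (nat_lit 1851909050) (nat_lit 1140) (nat_lit 2161244138) (nat_lit 166) (nat_lit 5) (nat_lit 165) (nat_lit 5) (nat_lit 180) (nat_lit 5) (nat_lit 271) (nat_lit 261) (nat_lit 188)) (XT.lf (nat_lit 0) (nat_lit 7407506158) (nat_lit 1064) (nat_lit 7819907962) (nat_lit 1140) (nat_lit 229358120) (nat_lit 152) (nat_lit 5) (nat_lit 166) (nat_lit 5) (nat_lit 167) (nat_lit 5) (nat_lit 272) (nat_lit 261) (nat_lit 187))))))) (XT.nd (nat_lit 858) (nat_lit 2812) (nat_lit 0) (XT.nd (nat_lit 390) (nat_lit 1900) (nat_lit 0) (XT.nd (nat_lit 156) (nat_lit 1520) (nat_lit 0) (XT.nd (nat_lit 78) (nat_lit 0) (nat_lit 0) (XT.lf (nat_lit 0) (nat_lit 1845615438) (nat_lit 912) (nat_lit 12290956989) (nat_lit 76) (nat_lit 1744618186) (nat_lit 140) (nat_lit 5) (nat_lit 152) (nat_lit 5) (nat_lit 141) (nat_lit 5) (nat_lit 273) (nat_lit 261) (nat_lit 186)) (XT.lf (nat_lit 0) (nat_lit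 4152897152) (nat_lit 912) (nat_lit 453077657) (nat_lit 76) (nat_lit 11716847539) (nat_lit 140) (nat_lit 5) (nat_lit 152) (nat_lit 5) (nat_lit 141) (nat_lit 5) (nat_lit 274) (nat_lit 261) (nat_lit 185))) (XT.nd (nat_lit 78) (nat_lit 988) (nat_lit 0) (XT.lf (nat_lit 0) (nat_lit 6717865678) (nat_lit 608) (nat_lit 4647787420) (nat_lit 76) (nat_lit 5416669708) (nat_lit 133) (nat_lit 5) (nat_lit 141) (nat_lit 5) (nat_lit 134) (nat_lit 5) (nat_lit 275) (nat_lit 261) (nat_lit 184)) (XT.nd (nat_lit 78) (nat_lit 456) (nat_lit 0) (XT.lf (nat_lit 0) (nat_lit 8184028972) (nat_lit 532) (nat_lit 1330087173) (nat_lit 608) (nat_lit 7747645248) (nat_lit 126) (nat_lit 5) (nat_lit 133) (nat_lit 5) (nat_lit 134) (nat_lit 5) (nat_lit 276) (nat_lit 261) (nat_lit 183)) (XT.lf (nat_lit 0) (nat_lit 3953410972) (nat_lit 456) (nat_lit 8645809478) (nat_lit 532) (nat_lit 5161531754) (nat_lit 120) (nat_lit 5) (nat_lit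 126) (nat_lit 5) (nat_lit 127) (nat_lit 5) (nat_lit 277) (nat_lit 261) (nat_lit 182))))) (XT.nd (nat_lit 234) (nat_lit 836) (nat_lit 0) (XT.nd (nat_lit 78) (nat_lit 1064) (nat_lit 0) (XT.lf (nat_lit 0) (nat_lit 15938468200) (nat_lit 532) (nat_lit 512956560) (nat_lit 76) (nat_lit 1830320232) (nat_lit 120) (nat_lit 5) (nat_lit 127) (nat_lit 5) (nat_lit 121) (nat_lit 5) (nat_lit 278) (nat_lit 261) (nat_lit 181)) (XT.nd (nat_lit 78) (nat_lit 456) (nat_lit 0) (XT.lf (nat_lit 0) (nat_lit 800129398) (nat_lit 608) (nat_lit 5231000028) (nat_lit 76) (nat_lit 12791638064) (nat_lit 112) (nat_lit 5) (nat_lit 120) (nat_lit 5) (nat_lit 113) (nat_lit 5) (nat_lit 279) (nat_lit 261) (nat_lit 180)) (XT.lf (nat_lit 0) (nat_lit 4171363004) (nat_lit 532) (nat_lit 10283971897) (nat_lit 76) (nat_lit 4931279820) (nat_lit 106) (nat_lit 5) (nat_lit 113) (nat_lit 5) (nat_lit 107) (nat_lit 5) (nat_lit 280) (nat_lit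 261) (nat_lit 179)))) (XT.nd (nat_lit 78) (nat_lit 380) (nat_lit 0) (XT.lf (nat_lit 0) (nat_lit 4283199597) (nat_lit 456) (nat_lit 3562253530) (nat_lit 532) (nat_lit 12129213504) (nat_lit 100) (nat_lit 5) (nat_lit 106) (nat_lit 5) (nat_lit 107) (nat_lit 5) (nat_lit 281) (nat_lit 261) (nat_lit 178)) (XT.nd (nat_lit 78) (nat_lit 380) (nat_lit 0) (XT.lf (nat_lit 0) (nat_lit 11864537610) (nat_lit 532) (nat_lit 896241533) (nat_lit 76) (nat_lit 7826542501) (nat_lit 100) (nat_lit 5) (nat_lit 107) (nat_lit 5) (nat_lit 101) (nat_lit 5) (nat_lit 282) (nat_lit 261) (nat_lit 177)) (XT.lf (nat_lit 0) (nat_lit 14869929147) (nat_lit 380) (nat_lit 1373229594) (nat_lit 456) (nat_lit 4982730532) (nat_lit 95) (nat_lit 5) (nat_lit 100) (nat_lit 5) (nat_lit 101) (nat_lit 5) (nat_lit 283) (nat_lit 261) (nat_lit 176)))))) (XT.nd (nat_lit 390) (nat_lit 1292) (nat_lit 0) (XT.nd (nat_lit 156) (nat_lit 684) (nat_lit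 0) (XT.nd (nat_lit 78) (nat_lit 456) (nat_lit 0) (XT.lf (nat_lit 0) (nat_lit 9609758815) (nat_lit 380) (nat_lit 11414795405) (nat_lit 456) (nat_lit 866351323) (nat_lit 90) (nat_lit 5) (nat_lit 95) (nat_lit 5) (nat_lit 96) (nat_lit 5) (nat_lit 284) (nat_lit 261) (nat_lit 175)) (XT.lf (nat_lit 0) (nat_lit 3491210386) (nat_lit 456) (nat_lit 18663935749) (nat_lit 76) (nat_lit 429978791) (nat_lit 84) (nat_lit 5) (nat_lit 90) (nat_lit 5) (nat_lit 85) (nat_lit 5) (nat_lit 285) (nat_lit 261) (nat_lit 174))) (XT.nd (nat_lit 78) (nat_lit 684) (nat_lit 0) (XT.lf (nat_lit 0) (nat_lit 8273360669) (nat_lit 456) (nat_lit 2267802774) (nat_lit 76) (nat_lit 12765926977) (nat_lit 84) (nat_lit 5) (nat_lit 90) (nat_lit 5) (nat_lit 85) (nat_lit 5) (nat_lit 286) (nat_lit 261) (nat_lit 173)) (XT.nd (nat_lit 78) (nat_lit 304) (nat_lit 0) (XT.lf (nat_lit 0) (nat_lit 13440714139) (nat_lit 456) (nat_lit 8854956817)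 (nat_lit 76) (nat_lit 1765130186) (nat_lit 79) (nat_lit 5) (nat_lit 85) (nat_lit 5) (nat_lit 80) (nat_lit 5) (nat_lit 287) (nat_lit 261) (nat_lit 172)) (XT.lf (nat_lit 0) (nat_lit 8792600021) (nat_lit 304) (nat_lit 10271373116) (nat_lit 380) (nat_lit 5782326528) (nat_lit 75) (nat_lit 5) (nat_lit 79) (nat_lit 5) (nat_lit 80) (nat_lit 5) (nat_lit 288) (nat_lit 261) (nat_lit 171))))) (XT.nd (nat_lit 234) (nat_lit 608) (nat_lit 0) (XT.nd (nat_lit 78) (nat_lit 380) (nat_lit 0) (XT.lf (nat_lit 0) (nat_lit 1830142064) (nat_lit 304) (nat_lit 23254143153) (nat_lit 380) (nat_lit 583338244) (nat_lit 71) (nat_lit 5) (nat_lit 75) (nat_lit 5) (nat_lit 76) (nat_lit 5) (nat_lit 289) (nat_lit 261) (nat_lit 170)) (XT.nd (nat_lit 78) (nat_lit 304) (nat_lit 0) (XT.lf (nat_lit 0) (nat_lit 5035037041) (nat_lit 380) (nat_lit 5754590359) (nat_lit 76) (nat_lit 15731367697) (nat_lit 70) (nat_lit 5) (nat_lit 75) (nat_lit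 5) (nat_lit 71) (nat_lit 5) (nat_lit 290) (nat_lit 261) (nat_lit 169)) (XT.lf (nat_lit 0) (nat_lit 11060013080) (nat_lit 380) (nat_lit 13967456722) (nat_lit 76) (nat_lit 2385283674) (nat_lit 66) (nat_lit 5) (nat_lit 71) (nat_lit 5) (nat_lit 67) (nat_lit 5) (nat_lit 291) (nat_lit 261) (nat_lit 168)))) (XT.nd (nat_lit 78) (nat_lit 304) (nat_lit 0) (XT.lf (nat_lit 0) (nat_lit 5353227199) (nat_lit 304) (nat_lit 12238462188) (nat_lit 380) (nat_lit 10751269529) (nat_lit 62) (nat_lit 5) (nat_lit 66) (nat_lit 5) (nat_lit 67) (nat_lit 5) (nat_lit 292) (nat_lit 261) (nat_lit 167)) (XT.nd (nat_lit 78) (nat_lit 304) (nat_lit 0) (XT.lf (nat_lit 0) (nat_lit 24592327953) (nat_lit 380) (nat_lit 3416084260) (nat_lit 76) (nat_lit 1307012666) (nat_lit 62) (nat_lit 5) (nat_lit 67) (nat_lit 5) (nat_lit 63) (nat_lit 5) (nat_lit 293) (nat_lit 261) (nat_lit 166)) (XT.lf (nat_lit 0) (nat_lit 1854399862) (nat_lit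 304) (nat_lit 13014232826) (nat_lit 76) (nat_lit 15459060242) (nat_lit 58) (nat_lit 5) (nat_lit 62) (nat_lit 5) (nat_lit 59) (nat_lit 5) (nat_lit 294) (nat_lit 261) (nat_lit 165))))))))
noncomputable def xc89 : XT := (XT.nd (nat_lit 1716) (nat_lit 684) (nat_lit 0) (XT.nd (nat_lit 858) (nat_lit 1064) (nat_lit 0) (XT.nd (nat_lit 390) (nat_lit 912) (nat_lit 0) (XT.nd (nat_lit 156) (nat_lit 532) (nat_lit 0) (XT.nd (nat_lit 78) (nat_lit 0) (nat_lit 0) (XT.lf (nat_lit 0) (nat_lit 7847978274) (nat_lit 304) (nat_lit 913709183) (nat_lit 380) (nat_lit 22624545144) (nat_lit 54) (nat_lit 5) (nat_lit 58) (nat_lit 5) (nat_lit 59) (nat_lit 5) (nat_lit 295) (nat_lit 261) (nat_lit 164)) (XT.lf (nat_lit 0) (nat_lit 16268848120) (nat_lit 380) (nat_lit 2620130281) (nat_lit 76) (nat_lit 13601103715) (nat_lit 54) (nat_lit 5) (nat_lit 59) (nat_lit 5) (nat_lit 55) (nat_lit 5) (nat_lit 296) (nat_lit 261) (nat_lit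 163))) (XT.nd (nat_lit 78) (nat_lit 304) (nat_lit 0) (XT.lf (nat_lit 0) (nat_lit 19701685171) (nat_lit 228) (nat_lit 4636045642) (nat_lit 304) (nat_lit 9305819631) (nat_lit 51) (nat_lit 5) (nat_lit 54) (nat_lit 5) (nat_lit 55) (nat_lit 5) (nat_lit 297) (nat_lit 261) (nat_lit 162)) (XT.nd (nat_lit 78) (nat_lit 76) (nat_lit 0) (XT.lf (nat_lit 0) (nat_lit 8387301767) (nat_lit 228) (nat_lit 24618040490) (nat_lit 304) (nat_lit 1843507826) (nat_lit 48) (nat_lit 5) (nat_lit 51) (nat_lit 5) (nat_lit 52) (nat_lit 5) (nat_lit 298) (nat_lit 261) (nat_lit 161)) (XT.lf (nat_lit 0) (nat_lit 6055131753) (nat_lit 304) (nat_lit 4108666031) (nat_lit 76) (nat_lit 25943500097) (nat_lit 47) (nat_lit 5) (nat_lit 51) (nat_lit 5) (nat_lit 48) (nat_lit 5) (nat_lit 299) (nat_lit 261) (nat_lit 160))))) (XT.nd (nat_lit 234) (nat_lit 456) (nat_lit 0) (XT.nd (nat_lit 78) (nat_lit 228) (nat_lit 0) (XT.lf (nat_lit 0) (nat_lit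 14539567642) (nat_lit 304) (nat_lit 17761277924) (nat_lit 76) (nat_lit 5120419670) (nat_lit 44) (nat_lit 5) (nat_lit 48) (nat_lit 5) (nat_lit 45) (nat_lit 5) (nat_lit 300) (nat_lit 261) (nat_lit 159)) (XT.nd (nat_lit 78) (nat_lit 0) (nat_lit 0) (XT.lf (nat_lit 0) (nat_lit 5899356900) (nat_lit 228) (nat_lit 17740157477) (nat_lit 304) (nat_lit 15155691695) (nat_lit 41) (nat_lit 5) (nat_lit 44) (nat_lit 5) (nat_lit 45) (nat_lit 5) (nat_lit 301) (nat_lit 261) (nat_lit 158)) (XT.lf (nat_lit 0) (nat_lit 31098614720) (nat_lit 228) (nat_lit 2268322483) (nat_lit 304) (nat_lit 6865745512) (nat_lit 41) (nat_lit 5) (nat_lit 44) (nat_lit 5) (nat_lit 45) (nat_lit 5) (nat_lit 302) (nat_lit 261) (nat_lit 157)))) (XT.nd (nat_lit 78) (nat_lit 228) (nat_lit 0) (XT.lf (nat_lit 0) (nat_lit 2083594776) (nat_lit 228) (nat_lit 25775981662) (nat_lit 76) (nat_lit 13873515356) (nat_lit 38) (nat_lit 5) (nat_lit 41)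 (nat_lit 5) (nat_lit 39) (nat_lit 5) (nat_lit 303) (nat_lit 261) (nat_lit 156)) (XT.nd (nat_lit 78) (nat_lit 228) (nat_lit 0) (XT.lf (nat_lit 0) (nat_lit 11447892974) (nat_lit 228) (nat_lit 919960095) (nat_lit 76) (nat_lit 30935355939) (nat_lit 38) (nat_lit 5) (nat_lit 41) (nat_lit 5) (nat_lit 39) (nat_lit 5) (nat_lit 304) (nat_lit 261) (nat_lit 155)) (XT.lf (nat_lit 0) (nat_lit 21557762202) (nat_lit 304) (nat_lit 19319049591) (nat_lit 76) (nat_lit 4066710615) (nat_lit 35) (nat_lit 5) (nat_lit 39) (nat_lit 5) (nat_lit 36) (nat_lit 5) (nat_lit 305) (nat_lit 261) (nat_lit 154)))))) (XT.nd (nat_lit 390) (nat_lit 532) (nat_lit 0) (XT.nd (nat_lit 156) (nat_lit 380) (nat_lit 0) (XT.nd (nat_lit 78) (nat_lit 0) (nat_lit 0) (XT.lf (nat_lit 0) (nat_lit 6844441604) (nat_lit 152) (nat_lit 25519906310) (nat_lit 228) (nat_lit 14295777358) (nat_lit 33) (nat_lit 5) (nat_lit 35) (nat_lit 5) (nat_lit 36)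 (nat_lit 5) (nat_lit 306) (nat_lit 261) (nat_lit 153)) (XT.lf (nat_lit 0) (nat_lit 34706242261) (nat_lit 152) (nat_lit 9195224034) (nat_lit 228) (nat_lit 4555395870) (nat_lit 33) (nat_lit 5) (nat_lit 35) (nat_lit 5) (nat_lit 36) (nat_lit 5) (nat_lit 307) (nat_lit 261) (nat_lit 152))) (XT.nd (nat_lit 78) (nat_lit 152) (nat_lit 0) (XT.lf (nat_lit 0) (nat_lit 5764008060) (nat_lit 228) (nat_lit 36596520869) (nat_lit 76) (nat_lit 7975199985) (nat_lit 30) (nat_lit 5) (nat_lit 33) (nat_lit 5) (nat_lit 31) (nat_lit 5) (nat_lit 308) (nat_lit 261) (nat_lit 151)) (XT.nd (nat_lit 78) (nat_lit 152) (nat_lit 0) (XT.lf (nat_lit 0) (nat_lit 16733689934) (nat_lit 228) (nat_lit 9566543225) (nat_lit 76) (nat_lit 26000105937) (nat_lit 30) (nat_lit 5) (nat_lit 33) (nat_lit 5) (nat_lit 31) (nat_lit 5) (nat_lit 309) (nat_lit 261) (nat_lit 150)) (XT.lf (nat_lit 0) (nat_lit 19176822350) (nat_lit 152) (nat_lit 9251642351)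 (nat_lit 228) (nat_lit 25929425200) (nat_lit 28) (nat_lit 5) (nat_lit 30) (nat_lit 5) (nat_lit 31) (nat_lit 5) (nat_lit 310) (nat_lit 261) (nat_lit 149))))) (XT.nd (nat_lit 234) (nat_lit 304) (nat_lit 0) (XT.nd (nat_lit 78) (nat_lit 228) (nat_lit 0) (XT.lf (nat_lit 0) (nat_lit 40883054869) (nat_lit 228) (nat_lit 7054369030) (nat_lit 76) (nat_lit 8575650021) (nat_lit 28) (nat_lit 5) (nat_lit 31) (nat_lit 5) (nat_lit 29) (nat_lit 5) (nat_lit 311) (nat_lit 261) (nat_lit 148)) (XT.nd (nat_lit 78) (nat_lit 76) (nat_lit 0) (XT.lf (nat_lit 0) (nat_lit 22818989036) (nat_lit 152) (nat_lit 31446952173) (nat_lit 228) (nat_lit 4500916530) (nat_lit 26) (nat_lit 5) (nat_lit 28) (nat_lit 5) (nat_lit 29) (nat_lit 5) (nat_lit 312) (nat_lit 261) (nat_lit 147)) (XT.lf (nat_lit 0) (nat_lit 7110775176) (nat_lit 228) (nat_lit 6878895351) (nat_lit 76) (nat_lit 47139605381) (nat_lit 25) (nat_lit 5) (nat_lit 28)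 (nat_lit 5) (nat_lit 26) (nat_lit 5) (nat_lit 313) (nat_lit 261) (nat_lit 146)))) (XT.nd (nat_lit 78) (nat_lit 152) (nat_lit 0) (XT.lf (nat_lit 0) (nat_lit 19479829341) (nat_lit 228) (nat_lit 39589462837) (nat_lit 76) (nat_lit 4531096680) (nat_lit 23) (nat_lit 5) (nat_lit 26) (nat_lit 5) (nat_lit 24) (nat_lit 5) (nat_lit 314) (nat_lit 261) (nat_lit 145)) (XT.nd (nat_lit 78) (nat_lit 152) (nat_lit 0) (XT.lf (nat_lit 0) (nat_lit 32673556135) (nat_lit 228) (nat_lit 9756547098) (nat_lit 76) (nat_lit 23758773994) (nat_lit 23) (nat_lit 5) (nat_lit 26) (nat_lit 5) (nat_lit 24) (nat_lit 5) (nat_lit 315) (nat_lit 261) (nat_lit 144)) (XT.lf (nat_lit 0) (nat_lit 21986867980) (nat_lit 152) (nat_lit 24745267293) (nat_lit 228) (nat_lit 22168505831) (nat_lit 21) (nat_lit 5) (nat_lit 23) (nat_lit 5) (nat_lit 24) (nat_lit 5) (nat_lit 316) (nat_lit 261) (nat_lit 143))))))) (XT.nd (nat_lit 858) (nat_lit 76)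 (nat_lit 0) (XT.nd (nat_lit 390) (nat_lit 304) (nat_lit 0) (XT.nd (nat_lit 156) (nat_lit 152) (nat_lit 0) (XT.nd (nat_lit 78) (nat_lit 152) (nat_lit 0) (XT.lf (nat_lit 0) (nat_lit 55511439596) (nat_lit 152) (nat_lit 6076652990) (nat_lit 228) (nat_lit 10157072891) (nat_lit 21) (nat_lit 5) (nat_lit 23) (nat_lit 5) (nat_lit 24) (nat_lit 5) (nat_lit 317) (nat_lit 261) (nat_lit 142)) (XT.lf (nat_lit 0) (nat_lit 2689368994) (nat_lit 152) (nat_lit 58593896113) (nat_lit 76) (nat_lit 13439478099) (nat_lit 19) (nat_lit 5) (nat_lit 21) (nat_lit 5) (nat_lit 20) (nat_lit 5) (nat_lit 318) (nat_lit 261) (nat_lit 141))) (XT.nd (nat_lit 78) (nat_lit 152) (nat_lit 0) (XT.lf (nat_lit 0) (nat_lit 16194508565) (nat_lit 152) (nat_lit 27570315463) (nat_lit 76) (nat_lit 34074570748) (nat_lit 19) (nat_lit 5) (nat_lit 21) (nat_lit 5) (nat_lit 20) (nat_lit 5) (nat_lit 319) (nat_lit 261) (nat_lit 140)) (XT.nd (nat_lit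 78) (nat_lit 0) (nat_lit 0) (XT.lf (nat_lit 0) (nat_lit 5094902851) (nat_lit 152) (nat_lit 25323631998) (nat_lit 228) (nat_lit 50692040029) (nat_lit 17) (nat_lit 5) (nat_lit 19) (nat_lit 5) (nat_lit 20) (nat_lit 5) (nat_lit 320) (nat_lit 261) (nat_lit 139)) (XT.lf (nat_lit 0) (nat_lit 39960816186) (nat_lit 152) (nat_lit 5671583624) (nat_lit 228) (nat_lit 38904559671) (nat_lit 17) (nat_lit 5) (nat_lit 19) (nat_lit 5) (nat_lit 20) (nat_lit 5) (nat_lit 321) (nat_lit 261) (nat_lit 138))))) (XT.nd (nat_lit 234) (nat_lit 152) (nat_lit 0) (XT.nd (nat_lit 78) (nat_lit 152) (nat_lit 0) (XT.lf (nat_lit 0) (nat_lit 61745831568) (nat_lit 228) (nat_lit 11716882118) (nat_lit 76) (nat_lit 14667787817) (nat_lit 17) (nat_lit 5) (nat_lit 20) (nat_lit 5) (nat_lit 18) (nat_lit 4) (nat_lit 322) (nat_lit 261) (nat_lit 137)) (XT.nd (nat_lit 78) (nat_lit 76) (nat_lit 0) (XT.lf (nat_lit 0) (nat_lit 23172262383)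 (nat_lit 76) (nat_lit 55767938770) (nat_lit 152) (nat_lit 12955265672) (nat_lit 16) (nat_lit 5) (nat_lit 17) (nat_lit 5) (nat_lit 18) (nat_lit 4) (nat_lit 323) (nat_lit 261) (nat_lit 136)) (XT.lf (nat_lit 0) (nat_lit 1240439620) (nat_lit 152) (nat_lit 35814431647) (nat_lit 76) (nat_lit 58789967075) (nat_lit 15) (nat_lit 5) (nat_lit 17) (nat_lit 5) (nat_lit 16) (nat_lit 5) (nat_lit 324) (nat_lit 261) (nat_lit 135)))) (XT.nd (nat_lit 78) (nat_lit 152) (nat_lit 0) (XT.lf (nat_lit 0) (nat_lit 15876082849) (nat_lit 152) (nat_lit 1398481483) (nat_lit 76) (nat_lit 82713327069) (nat_lit 15) (nat_lit 5) (nat_lit 17) (nat_lit 5) (nat_lit 16) (nat_lit 5) (nat_lit 325) (nat_lit 261) (nat_lit 134)) (XT.nd (nat_lit 78) (nat_lit 0) (nat_lit 0) (XT.lf (nat_lit 0) (nat_lit 31616752577) (nat_lit 228) (nat_lit 68942607920) (nat_lit 76) (nat_lit 3767542797) (nat_lit 13) (nat_lit 5) (nat_lit 16) (nat_lit 5)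 (nat_lit 14) (nat_lit 4) (nat_lit 326) (nat_lit 261) (nat_lit 133)) (XT.lf (nat_lit 0) (nat_lit 48329262593) (nat_lit 228) (nat_lit 35028533762) (nat_lit 76) (nat_lit 25519528566) (nat_lit 13) (nat_lit 5) (nat_lit 16) (nat_lit 5) (nat_lit 14) (nat_lit 4) (nat_lit 327) (nat_lit 261) (nat_lit 132)))))) (XT.nd (nat_lit 32682) (nat_lit 0) (nat_lit 11400) (XT.nd (nat_lit 32448) (nat_lit 0) (nat_lit 11248) (XT.nd (nat_lit 32370) (nat_lit 0) (nat_lit 11172) (XT.lf (nat_lit 0) (nat_lit 585977500) (nat_lit 76) (nat_lit 65293159829) (nat_lit 152) (nat_lit 47776081309) (nat_lit 12) (nat_lit 5) (nat_lit 13) (nat_lit 5) (nat_lit 14) (nat_lit 4) (nat_lit 328) (nat_lit 261) (nat_lit 131)) (XT.lf (nat_lit 0) (nat_lit 312136537) (nat_lit 1140) (nat_lit 2924321804) (nat_lit 1140) (nat_lit 2924321804) (nat_lit 159) (nat_lit 3) (nat_lit 174) (nat_lit 3) (nat_lit 174) (nat_lit 5) (nat_lit 262) (nat_lit 262)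 (nat_lit 196))) (XT.nd (nat_lit 78) (nat_lit 0) (nat_lit 0) (XT.lf (nat_lit 0) (nat_lit 1359773733) (nat_lit 1064) (nat_lit 9712144859) (nat_lit 1140) (nat_lit 1534594707) (nat_lit 160) (nat_lit 5) (nat_lit 174) (nat_lit 5) (nat_lit 175) (nat_lit 5) (nat_lit 263) (nat_lit 262) (nat_lit 195)) (XT.nd (nat_lit 78) (nat_lit 0) (nat_lit 76) (XT.lf (nat_lit 0) (nat_lit 2214836406) (nat_lit 1064) (nat_lit 797494114) (nat_lit 1140) (nat_lit 9890995155) (nat_lit 160) (nat_lit 5) (nat_lit 174) (nat_lit 5) (nat_lit 175) (nat_lit 5) (nat_lit 264) (nat_lit 262) (nat_lit 194)) (XT.lf (nat_lit 0) (nat_lit 3208483291) (nat_lit 1064) (nat_lit 4557590636) (nat_lit 1140) (nat_lit 5446120596) (nat_lit 161) (nat_lit 5) (nat_lit 175) (nat_lit 5) (nat_lit 176) (nat_lit 5) (nat_lit 265) (nat_lit 262) (nat_lit 193))))) (XT.nd (nat_lit 234) (nat_lit 0) (nat_lit 76) (XT.nd (nat_lit 78) (nat_lit 0) (nat_lit 0) (XT.lf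 (nat_lit 0) (nat_lit 4307940274) (nat_lit 1064) (nat_lit 8438051345) (nat_lit 1140) (nat_lit 788917826) (nat_lit 162) (nat_lit 5) (nat_lit 176) (nat_lit 5) (nat_lit 177) (nat_lit 5) (nat_lit 266) (nat_lit 262) (nat_lit 192)) (XT.nd (nat_lit 78) (nat_lit 0) (nat_lit 76) (XT.lf (nat_lit 76) (nat_lit 1380323635) (nat_lit 0) (nat_lit 4183497373) (nat_lit 1140) (nat_lit 8306977926) (nat_lit 163) (nat_lit 5) (nat_lit 162) (nat_lit 5) (nat_lit 177) (nat_lit 5) (nat_lit 267) (nat_lit 262) (nat_lit 191)) (XT.lf (nat_lit 0) (nat_lit 6980518828) (nat_lit 1064) (nat_lit 2427244770) (nat_lit 1140) (nat_lit 4812857032) (nat_lit 163) (nat_lit 5) (nat_lit 177) (nat_lit 5) (nat_lit 178) (nat_lit 5) (nat_lit 268) (nat_lit 262) (nat_lit 190)))) (XT.nd (nat_lit 78) (nat_lit 0) (nat_lit 76) (XT.lf (nat_lit 76) (nat_lit 8233544002) (nat_lit 0) (nat_lit 321680107) (nat_lit 1140) (nat_lit 6030168815) (nat_lit 164)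 (nat_lit 5) (nat_lit 163) (nat_lit 5) (nat_lit 178) (nat_lit 5) (nat_lit 269) (nat_lit 262) (nat_lit 189)) (XT.nd (nat_lit 78) (nat_lit 0) (nat_lit 76) (XT.lf (nat_lit 76) (nat_lit 4484586633) (nat_lit 0) (nat_lit 5848332582) (nat_lit 1140) (nat_lit 4631828115) (nat_lit 165) (nat_lit 5) (nat_lit 164) (nat_lit 5) (nat_lit 179) (nat_lit 5) (nat_lit 270) (nat_lit 262) (nat_lit 188)) (XT.lf (nat_lit 76) (nat_lit 581932411) (nat_lit 0) (nat_lit 11696258932) (nat_lit 1140) (nat_lit 3082585093) (nat_lit 166) (nat_lit 5) (nat_lit 165) (nat_lit 5) (nat_lit 180) (nat_lit 5) (nat_lit 271) (nat_lit 262) (nat_lit 187))))))))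
noncomputable def xc90 : XT := (XT.nd (nat_lit 1716) (nat_lit 2964) (nat_lit 0) (XT.nd (nat_lit 858) (nat_lit 2888) (nat_lit 0) (XT.nd (nat_lit 390) (nat_lit 2508) (nat_lit 0) (XT.nd (nat_lit 156) (nat_lit 1368) (nat_lit 0) (XT.nd (nat_lit 78) (nat_lit 1064) (nat_lit 0) (XT.lf (nat_lit 76) (nat_lit 12331764153) (nat_lit 0) (nat_lit 2125252892) (nat_lit 1140) (nat_lit 1315565773) (nat_lit 166) (nat_lit 5) (nat_lit 165) (nat_lit 5) (nat_lit 180) (nat_lit 5) (nat_lit 272) (nat_lit 262) (nat_lit 186)) (XT.lf (nat_lit 0) (nat_lit 660107244) (nat_lit 1140) (nat_lit 7677220568) (nat_lit 76) (nat_lit 7863630609) (nat_lit 151) (nat_lit 5) (nat_lit 166) (nat_lit 5) (nat_lit 152) (nat_lit 5) (nat_lit 273) (nat_lit 262) (nat_lit 185))) (XT.nd (nat_lit 78) (nat_lit 532) (nat_lit 0) (XT.lf (nat_lit 0) (nat_lit 2797598136) (nat_lit 912) (nat_lit 12126811113) (nat_lit 76) (nat_lit 1723302348) (nat_lit 140)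 (nat_lit 5) (nat_lit 152) (nat_lit 5) (nat_lit 141) (nat_lit 5) (nat_lit 274) (nat_lit 262) (nat_lit 184)) (XT.nd (nat_lit 78) (nat_lit 0) (nat_lit 0) (XT.lf (nat_lit 0) (nat_lit 271173094) (nat_lit 532) (nat_lit 4910739336) (nat_lit 608) (nat_lit 11930745648) (nat_lit 133) (nat_lit 5) (nat_lit 140) (nat_lit 5) (nat_lit 141) (nat_lit 5) (nat_lit 275) (nat_lit 262) (nat_lit 183)) (XT.lf (nat_lit 0) (nat_lit 7839820698) (nat_lit 608) (nat_lit 4133998156) (nat_lit 76) (nat_lit 5622453215) (nat_lit 133) (nat_lit 5) (nat_lit 141) (nat_lit 5) (nat_lit 134) (nat_lit 5) (nat_lit 276) (nat_lit 262) (nat_lit 182))))) (XT.nd (nat_lit 234) (nat_lit 988) (nat_lit 0) (XT.nd (nat_lit 78) (nat_lit 988) (nat_lit 0) (XT.lf (nat_lit 0) (nat_lit 9318019994) (nat_lit 532) (nat_lit 1427399304) (nat_lit 608) (nat_lit 7355252697) (nat_lit 126) (nat_lit 5) (nat_lit 133) (nat_lit 5) (nat_lit 134) (nat_lit 5) (nat_lit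 277) (nat_lit 262) (nat_lit 181)) (XT.nd (nat_lit 78) (nat_lit 532) (nat_lit 0) (XT.lf (nat_lit 0) (nat_lit 4878867225) (nat_lit 456) (nat_lit 9076644648) (nat_lit 532) (nat_lit 4670050367) (nat_lit 120) (nat_lit 5) (nat_lit 126) (nat_lit 5) (nat_lit 127) (nat_lit 5) (nat_lit 278) (nat_lit 262) (nat_lit 180)) (XT.lf (nat_lit 0) (nat_lit 180148374) (nat_lit 532) (nat_lit 17248731493) (nat_lit 608) (nat_lit 1744778523) (nat_lit 113) (nat_lit 5) (nat_lit 120) (nat_lit 5) (nat_lit 121) (nat_lit 5) (nat_lit 279) (nat_lit 262) (nat_lit 179)))) (XT.nd (nat_lit 78) (nat_lit 912) (nat_lit 0) (XT.lf (nat_lit 0) (nat_lit 1513497468) (nat_lit 608) (nat_lit 4783147508) (nat_lit 76) (nat_lit 13445794018) (nat_lit 112) (nat_lit 5) (nat_lit 120) (nat_lit 5) (nat_lit 113) (nat_lit 5) (nat_lit 280) (nat_lit 262) (nat_lit 178)) (XT.nd (nat_lit 78) (nat_lit 456) (nat_lit 0) (XT.lf (nat_lit 0) (nat_lit 5028247187)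 (nat_lit 532) (nat_lit 10088855033) (nat_lit 76) (nat_lit 5218188020) (nat_lit 106) (nat_lit 5) (nat_lit 113) (nat_lit 5) (nat_lit 107) (nat_lit 5) (nat_lit 281) (nat_lit 262) (nat_lit 177)) (XT.lf (nat_lit 0) (nat_lit 5186342651) (nat_lit 456) (nat_lit 3675449900) (nat_lit 532) (nat_lit 12091737089) (nat_lit 100) (nat_lit 5) (nat_lit 106) (nat_lit 5) (nat_lit 107) (nat_lit 5) (nat_lit 282) (nat_lit 262) (nat_lit 176)))))) (XT.nd (nat_lit 390) (nat_lit 1672) (nat_lit 0) (XT.nd (nat_lit 156) (nat_lit 836) (nat_lit 0) (XT.nd (nat_lit 78) (nat_lit 380) (nat_lit 0) (XT.lf (nat_lit 0) (nat_lit 13052708094) (nat_lit 532) (nat_lit 266549438) (nat_lit 76) (nat_lit 8278488250) (nat_lit 100) (nat_lit 5) (nat_lit 107) (nat_lit 5) (nat_lit 101) (nat_lit 5) (nat_lit 283) (nat_lit 262) (nat_lit 175)) (XT.lf (nat_lit 0) (nat_lit 16268595250) (nat_lit 380) (nat_lit 1359632274) (nat_lit 456) (nat_lit 4640727327)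 (nat_lit 95) (nat_lit 5) (nat_lit 100) (nat_lit 5) (nat_lit 101) (nat_lit 5) (nat_lit 284) (nat_lit 262) (nat_lit 174))) (XT.nd (nat_lit 78) (nat_lit 456) (nat_lit 0) (XT.lf (nat_lit 0) (nat_lit 10743574396) (nat_lit 380) (nat_lit 11884870166) (nat_lit 456) (nat_lit 339434417) (nat_lit 90) (nat_lit 5) (nat_lit 95) (nat_lit 5) (nat_lit 96) (nat_lit 5) (nat_lit 285) (nat_lit 262) (nat_lit 173)) (XT.nd (nat_lit 78) (nat_lit 0) (nat_lit 0) (XT.lf (nat_lit 0) (nat_lit 4205501730) (nat_lit 456) (nat_lit 18934745260) (nat_lit 76) (nat_lit 557025049) (nat_lit 84) (nat_lit 5) (nat_lit 90) (nat_lit 5) (nat_lit 85) (nat_lit 5) (nat_lit 286) (nat_lit 262) (nat_lit 172)) (XT.lf (nat_lit 0) (nat_lit 9201058060) (nat_lit 456) (nat_lit 1750347887) (nat_lit 76) (nat_lit 13504744582) (nat_lit 84) (nat_lit 5) (nat_lit 90) (nat_lit 5) (nat_lit 85) (nat_lit 5) (nat_lit 287) (nat_lit 262) (nat_lit 171))))) (XT.nd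 (nat_lit 234) (nat_lit 684) (nat_lit 0) (XT.nd (nat_lit 78) (nat_lit 608) (nat_lit 0) (XT.lf (nat_lit 0) (nat_lit 14609319609) (nat_lit 456) (nat_lit 8670375233) (nat_lit 76) (nat_lit 1968417328) (nat_lit 79) (nat_lit 5) (nat_lit 85) (nat_lit 5) (nat_lit 80) (nat_lit 5) (nat_lit 288) (nat_lit 262) (nat_lit 170)) (XT.nd (nat_lit 78) (nat_lit 304) (nat_lit 0) (XT.lf (nat_lit 0) (nat_lit 9841577175) (nat_lit 304) (nat_lit 10654375621) (nat_lit 380) (nat_lit 5577506104) (nat_lit 75) (nat_lit 5) (nat_lit 79) (nat_lit 5) (nat_lit 80) (nat_lit 5) (nat_lit 289) (nat_lit 262) (nat_lit 169)) (XT.lf (nat_lit 0) (nat_lit 2527031713) (nat_lit 304) (nat_lit 24274464294) (nat_lit 380) (nat_lit 134864141) (nat_lit 71) (nat_lit 5) (nat_lit 75) (nat_lit 5) (nat_lit 76) (nat_lit 5) (nat_lit 290) (nat_lit 262) (nat_lit 168)))) (XT.nd (nat_lit 78) (nat_lit 608) (nat_lit 0) (XT.lf (nat_lit 0) (nat_lit 5732808434)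 (nat_lit 380) (nat_lit 5456190682) (nat_lit 76) (nat_lit 16643967424) (nat_lit 70) (nat_lit 5) (nat_lit 75) (nat_lit 5) (nat_lit 71) (nat_lit 5) (nat_lit 291) (nat_lit 262) (nat_lit 167)) (XT.nd (nat_lit 78) (nat_lit 304) (nat_lit 0) (XT.lf (nat_lit 0) (nat_lit 12044603849) (nat_lit 380) (nat_lit 14084266412) (nat_lit 76) (nat_lit 2640908686) (nat_lit 66) (nat_lit 5) (nat_lit 71) (nat_lit 5) (nat_lit 67) (nat_lit 5) (nat_lit 292) (nat_lit 262) (nat_lit 166)) (XT.lf (nat_lit 0) (nat_lit 6185781315) (nat_lit 304) (nat_lit 12701960841) (nat_lit 380) (nat_lit 10859237800) (nat_lit 62) (nat_lit 5) (nat_lit 66) (nat_lit 5) (nat_lit 67) (nat_lit 5) (nat_lit 293) (nat_lit 262) (nat_lit 165))))))) (XT.nd (nat_lit 858) (nat_lit 1140) (nat_lit 0) (XT.nd (nat_lit 390) (nat_lit 988) (nat_lit 0) (XT.nd (nat_lit 156) (nat_lit 532) (nat_lit 0) (XT.nd (nat_lit 78) (nat_lit 304) (nat_lit 0) (XT.lf (nat_lit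 0) (nat_lit 26219939633) (nat_lit 380) (nat_lit 3037752364) (nat_lit 76) (nat_lit 1510961548) (nat_lit 62) (nat_lit 5) (nat_lit 67) (nat_lit 5) (nat_lit 63) (nat_lit 5) (nat_lit 294) (nat_lit 262) (nat_lit 164)) (XT.lf (nat_lit 0) (nat_lit 2335656789) (nat_lit 304) (nat_lit 13123259285) (nat_lit 76) (nat_lit 16372948092) (nat_lit 58) (nat_lit 5) (nat_lit 62) (nat_lit 5) (nat_lit 59) (nat_lit 5) (nat_lit 295) (nat_lit 262) (nat_lit 163))) (XT.nd (nat_lit 78) (nat_lit 228) (nat_lit 0) (XT.lf (nat_lit 0) (nat_lit 8766535072) (nat_lit 304) (nat_lit 808329684) (nat_lit 380) (nat_lit 23368895923) (nat_lit 54) (nat_lit 5) (nat_lit 58) (nat_lit 5) (nat_lit 59) (nat_lit 5) (nat_lit 296) (nat_lit 262) (nat_lit 162)) (XT.nd (nat_lit 78) (nat_lit 228) (nat_lit 0) (XT.lf (nat_lit 0) (nat_lit 17440904864) (nat_lit 380) (nat_lit 2240194598) (nat_lit 76) (nat_lit 14422222840) (nat_lit 54) (nat_lit 5) (nat_lit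 59) (nat_lit 5) (nat_lit 55) (nat_lit 5) (nat_lit 297) (nat_lit 262) (nat_lit 161)) (XT.lf (nat_lit 0) (nat_lit 21183065571) (nat_lit 228) (nat_lit 4717859949) (nat_lit 304) (nat_lit 9413931782) (nat_lit 51) (nat_lit 5) (nat_lit 54) (nat_lit 5) (nat_lit 55) (nat_lit 5) (nat_lit 298) (nat_lit 262) (nat_lit 160))))) (XT.nd (nat_lit 234) (nat_lit 456) (nat_lit 0) (XT.nd (nat_lit 78) (nat_lit 304) (nat_lit 0) (XT.lf (nat_lit 0) (nat_lit 9297895377) (nat_lit 228) (nat_lit 25693626405) (nat_lit 304) (nat_lit 1589234941) (nat_lit 48) (nat_lit 5) (nat_lit 51) (nat_lit 5) (nat_lit 52) (nat_lit 5) (nat_lit 299) (nat_lit 262) (nat_lit 159)) (XT.nd (nat_lit 78) (nat_lit 228) (nat_lit 0) (XT.lf (nat_lit 0) (nat_lit 6681400553) (nat_lit 304) (nat_lit 3839400175) (nat_lit 76) (nat_lit 27381732737) (nat_lit 47) (nat_lit 5) (nat_lit 51) (nat_lit 5) (nat_lit 48) (nat_lit 5) (nat_lit 300) (nat_lit 262) (nat_lit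 158)) (XT.lf (nat_lit 0) (nat_lit 15580513172) (nat_lit 304) (nat_lit 18179897871) (nat_lit 76) (nat_lit 5522094686) (nat_lit 44) (nat_lit 5) (nat_lit 48) (nat_lit 5) (nat_lit 45) (nat_lit 5) (nat_lit 301) (nat_lit 262) (nat_lit 157)))) (XT.nd (nat_lit 78) (nat_lit 228) (nat_lit 0) (XT.lf (nat_lit 0) (nat_lit 6650312178) (nat_lit 228) (nat_lit 18474577480) (nat_lit 304) (nat_lit 15600590203) (nat_lit 41) (nat_lit 5) (nat_lit 44) (nat_lit 5) (nat_lit 45) (nat_lit 5) (nat_lit 302) (nat_lit 262) (nat_lit 156)) (XT.nd (nat_lit 78) (nat_lit 228) (nat_lit 0) (XT.lf (nat_lit 0) (nat_lit 33087819202) (nat_lit 228) (nat_lit 2236416825) (nat_lit 304) (nat_lit 6911046048) (nat_lit 41) (nat_lit 5) (nat_lit 44) (nat_lit 5) (nat_lit 45) (nat_lit 5) (nat_lit 303) (nat_lit 262) (nat_lit 155)) (XT.lf (nat_lit 0) (nat_lit 2471544096) (nat_lit 228) (nat_lit 26629550263) (nat_lit 76) (nat_lit 14709800319) (nat_lit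 38) (nat_lit 5) (nat_lit 41) (nat_lit 5) (nat_lit 39) (nat_lit 5) (nat_lit 304) (nat_lit 262) (nat_lit 154)))))) (XT.nd (nat_lit 390) (nat_lit 532) (nat_lit 0) (XT.nd (nat_lit 156) (nat_lit 380) (nat_lit 0) (XT.nd (nat_lit 78) (nat_lit 228) (nat_lit 0) (XT.lf (nat_lit 0) (nat_lit 12290544367) (nat_lit 228) (nat_lit 551452878) (nat_lit 76) (nat_lit 32617942016) (nat_lit 38) (nat_lit 5) (nat_lit 41) (nat_lit 5) (nat_lit 39) (nat_lit 5) (nat_lit 305) (nat_lit 262) (nat_lit 153)) (XT.lf (nat_lit 0) (nat_lit 22898266846) (nat_lit 304) (nat_lit 19875592586) (nat_lit 76) (nat_lit 4408653462) (nat_lit 35) (nat_lit 5) (nat_lit 39) (nat_lit 5) (nat_lit 36) (nat_lit 5) (nat_lit 306) (nat_lit 262) (nat_lit 152))) (XT.nd (nat_lit 78) (nat_lit 228) (nat_lit 0) (XT.lf (nat_lit 0) (nat_lit 7584337528) (nat_lit 152) (nat_lit 26652161450) (nat_lit 228) (nat_lit 14748722035) (nat_lit 33) (nat_lit 5) (nat_lit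 35) (nat_lit 5) (nat_lit 36) (nat_lit 5) (nat_lit 307) (nat_lit 262) (nat_lit 151)) (XT.nd (nat_lit 78) (nat_lit 228) (nat_lit 0) (XT.lf (nat_lit 0) (nat_lit 36820291368) (nat_lit 152) (nat_lit 9518089831) (nat_lit 228) (nat_lit 4533790243) (nat_lit 33) (nat_lit 5) (nat_lit 35) (nat_lit 5) (nat_lit 36) (nat_lit 5) (nat_lit 308) (nat_lit 262) (nat_lit 150)) (XT.lf (nat_lit 0) (nat_lit 6289969981) (nat_lit 228) (nat_lit 38047437155) (nat_lit 76) (nat_lit 8507717789) (nat_lit 30) (nat_lit 5) (nat_lit 33) (nat_lit 5) (nat_lit 31) (nat_lit 5) (nat_lit 309) (nat_lit 262) (nat_lit 149))))) (XT.nd (nat_lit 234) (nat_lit 380) (nat_lit 0) (XT.nd (nat_lit 78) (nat_lit 152) (nat_lit 0) (XT.lf (nat_lit 0) (nat_lit 17796813972) (nat_lit 228) (nat_lit 9684003951) (nat_lit 76) (nat_lit 27427499619) (nat_lit 30) (nat_lit 5) (nat_lit 33) (nat_lit 5) (nat_lit 31) (nat_lit 5) (nat_lit 310) (nat_lit 262) (nat_lit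 148)) (XT.nd (nat_lit 78) (nat_lit 0) (nat_lit 0) (XT.lf (nat_lit 0) (nat_lit 20486185739) (nat_lit 152) (nat_lit 9582728336) (nat_lit 228) (nat_lit 27000065894) (nat_lit 28) (nat_lit 5) (nat_lit 30) (nat_lit 5) (nat_lit 31) (nat_lit 5) (nat_lit 311) (nat_lit 262) (nat_lit 147)) (XT.lf (nat_lit 0) (nat_lit 43137007766) (nat_lit 228) (nat_lit 7067980171) (nat_lit 76) (nat_lit 9127223159) (nat_lit 28) (nat_lit 5) (nat_lit 31) (nat_lit 5) (nat_lit 29) (nat_lit 5) (nat_lit 312) (nat_lit 262) (nat_lit 146)))) (XT.nd (nat_lit 78) (nat_lit 228) (nat_lit 0) (XT.lf (nat_lit 0) (nat_lit 24289325355) (nat_lit 152) (nat_lit 32892888852) (nat_lit 228) (nat_lit 4516685221) (nat_lit 26) (nat_lit 5) (nat_lit 28) (nat_lit 5) (nat_lit 29) (nat_lit 5) (nat_lit 313) (nat_lit 262) (nat_lit 145)) (XT.nd (nat_lit 78) (nat_lit 152) (nat_lit 0) (XT.lf (nat_lit 0) (nat_lit 7661736206) (nat_lit 228) (nat_lit 6905053104)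 (nat_lit 76) (nat_lit 49612891775) (nat_lit 25) (nat_lit 5) (nat_lit 28) (nat_lit 5) (nat_lit 26) (nat_lit 5) (nat_lit 314) (nat_lit 262) (nat_lit 144)) (XT.lf (nat_lit 0) (nat_lit 20644054067) (nat_lit 228) (nat_lit 41255548748) (nat_lit 76) (nat_lit 4874911868) (nat_lit 23) (nat_lit 5) (nat_lit 26) (nat_lit 5) (nat_lit 24) (nat_lit 5) (nat_lit 315) (nat_lit 262) (nat_lit 143))))))))
noncomputable def xc91 : XT := (XT.nd (nat_lit 34164) (nat_lit 0) (nat_lit 3724) (XT.nd (nat_lit 858) (nat_lit 152) (nat_lit 0) (XT.nd (nat_lit 390) (nat_lit 304) (nat_lit 0) (XT.nd (nat_lit 156) (nat_lit 152) (nat_lit 0) (XT.nd (nat_lit 78) (nat_lit 152) (nat_lit 0) (XT.lf (nat_lit 0) (nat_lit 34488408475) (nat_lit 228) (nat_lit 9945910424) (nat_lit 76) (nat_lit 25058389223) (nat_lit 23) (nat_lit 5) (nat_lit 26) (nat_lit 5) (nat_lit 24) (nat_lit 5) (nat_lit 316) (nat_lit 262) (nat_lit 142)) (XT.lf (nat_lit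 0) (nat_lit 23376119997) (nat_lit 152) (nat_lit 25867955993) (nat_lit 228) (nat_lit 23096167882) (nat_lit 21) (nat_lit 5) (nat_lit 23) (nat_lit 5) (nat_lit 24) (nat_lit 5) (nat_lit 317) (nat_lit 262) (nat_lit 141))) (XT.nd (nat_lit 78) (nat_lit 152) (nat_lit 0) (XT.lf (nat_lit 0) (nat_lit 58563115021) (nat_lit 152) (nat_lit 6271366912) (nat_lit 228) (nat_lit 10492771068) (nat_lit 21) (nat_lit 5) (nat_lit 23) (nat_lit 5) (nat_lit 24) (nat_lit 5) (nat_lit 318) (nat_lit 262) (nat_lit 140)) (XT.nd (nat_lit 78) (nat_lit 0) (nat_lit 0) (XT.lf (nat_lit 0) (nat_lit 2988246875) (nat_lit 152) (nat_lit 61247977111) (nat_lit 76) (nat_lit 14217575038) (nat_lit 19) (nat_lit 5) (nat_lit 21) (nat_lit 5) (nat_lit 20) (nat_lit 5) (nat_lit 319) (nat_lit 262) (nat_lit 139)) (XT.lf (nat_lit 0) (nat_lit 17160814404) (nat_lit 152) (nat_lit 28686341895) (nat_lit 76) (nat_lit 35879368842) (nat_lit 19) (nat_lit 5)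 (nat_lit 21) (nat_lit 5) (nat_lit 20) (nat_lit 5) (nat_lit 320) (nat_lit 262) (nat_lit 138))))) (XT.nd (nat_lit 234) (nat_lit 152) (nat_lit 0) (XT.nd (nat_lit 78) (nat_lit 0) (nat_lit 0) (XT.lf (nat_lit 0) (nat_lit 5604613131) (nat_lit 152) (nat_lit 26486423542) (nat_lit 228) (nat_lit 53070384495) (nat_lit 17) (nat_lit 5) (nat_lit 19) (nat_lit 5) (nat_lit 20) (nat_lit 5) (nat_lit 321) (nat_lit 262) (nat_lit 137)) (XT.nd (nat_lit 78) (nat_lit 0) (nat_lit 0) (XT.lf (nat_lit 0) (nat_lit 42201680935) (nat_lit 152) (nat_lit 5856696087) (nat_lit 228) (nat_lit 40700970954) (nat_lit 17) (nat_lit 5) (nat_lit 19) (nat_lit 5) (nat_lit 20) (nat_lit 5) (nat_lit 322) (nat_lit 262) (nat_lit 136)) (XT.lf (nat_lit 0) (nat_lit 64971507663) (nat_lit 228) (nat_lit 12068119655) (nat_lit 76) (nat_lit 15493125092) (nat_lit 17) (nat_lit 5) (nat_lit 20) (nat_lit 5) (nat_lit 18) (nat_lit 4) (nat_lit 323) (nat_lit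 262) (nat_lit 135)))) (XT.nd (nat_lit 78) (nat_lit 76) (nat_lit 0) (XT.lf (nat_lit 0) (nat_lit 24558757121) (nat_lit 76) (nat_lit 58462439406) (nat_lit 152) (nat_lit 13464907288) (nat_lit 16) (nat_lit 5) (nat_lit 17) (nat_lit 5) (nat_lit 18) (nat_lit 4) (nat_lit 324) (nat_lit 262) (nat_lit 134)) (XT.nd (nat_lit 78) (nat_lit 0) (nat_lit 0) (XT.lf (nat_lit 0) (nat_lit 1431439141) (nat_lit 152) (nat_lit 37385448220) (nat_lit 76) (nat_lit 61816215583) (nat_lit 15) (nat_lit 5) (nat_lit 17) (nat_lit 5) (nat_lit 16) (nat_lit 5) (nat_lit 325) (nat_lit 262) (nat_lit 133)) (XT.lf (nat_lit 0) (nat_lit 16792722744) (nat_lit 152) (nat_lit 1259162690) (nat_lit 76) (nat_lit 86931612617) (nat_lit 15) (nat_lit 5) (nat_lit 17) (nat_lit 5) (nat_lit 16) (nat_lit 5) (nat_lit 326) (nat_lit 262) (nat_lit 132)))))) (XT.nd (nat_lit 32838) (nat_lit 0) (nat_lit 11324) (XT.nd (nat_lit 32604) (nat_lit 0) (nat_lit 11172)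 (XT.nd (nat_lit 32526) (nat_lit 0) (nat_lit 11096) (XT.lf (nat_lit 0) (nat_lit 33317340741) (nat_lit 228) (nat_lit 72183637588) (nat_lit 76) (nat_lit 4038579663) (nat_lit 13) (nat_lit 5) (nat_lit 16) (nat_lit 5) (nat_lit 14) (nat_lit 4) (nat_lit 327) (nat_lit 262) (nat_lit 131)) (XT.lf (nat_lit 0) (nat_lit 994052796) (nat_lit 1140) (nat_lit 2726655570) (nat_lit 1140) (nat_lit 2726655570) (nat_lit 159) (nat_lit 3) (nat_lit 174) (nat_lit 3) (nat_lit 174) (nat_lit 5) (nat_lit 263) (nat_lit 263) (nat_lit 194))) (XT.nd (nat_lit 78) (nat_lit 0) (nat_lit 0) (XT.lf (nat_lit 0) (nat_lit 2697504975) (nat_lit 1064) (nat_lit 9482802382) (nat_lit 1140) (nat_lit 1015647075) (nat_lit 160) (nat_lit 5) (nat_lit 174) (nat_lit 5) (nat_lit 175) (nat_lit 5) (nat_lit 264) (nat_lit 263) (nat_lit 193)) (XT.nd (nat_lit 78) (nat_lit 0) (nat_lit 76) (XT.lf (nat_lit 0) (nat_lit 3534856851) (nat_lit 1064) (nat_lit 156464324)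 (nat_lit 1140) (nat_lit 9818233134) (nat_lit 160) (nat_lit 5) (nat_lit 174) (nat_lit 5) (nat_lit 175) (nat_lit 5) (nat_lit 265) (nat_lit 263) (nat_lit 192)) (XT.lf (nat_lit 0) (nat_lit 4522184787) (nat_lit 1064) (nat_lit 4082035208) (nat_lit 1140) (nat_lit 5231453276) (nat_lit 161) (nat_lit 5) (nat_lit 175) (nat_lit 5) (nat_lit 176) (nat_lit 5) (nat_lit 266) (nat_lit 263) (nat_lit 191))))) (XT.nd (nat_lit 234) (nat_lit 0) (nat_lit 76) (XT.nd (nat_lit 78) (nat_lit 0) (nat_lit 0) (XT.lf (nat_lit 0) (nat_lit 5624211453) (nat_lit 1064) (nat_lit 8137069680) (nat_lit 1140) (nat_lit 414935504) (nat_lit 162) (nat_lit 5) (nat_lit 176) (nat_lit 5) (nat_lit 177) (nat_lit 5) (nat_lit 267) (nat_lit 263) (nat_lit 190)) (XT.nd (nat_lit 78) (nat_lit 0) (nat_lit 76) (XT.lf (nat_lit 76) (nat_lit 2151502718) (nat_lit 0) (nat_lit 4745710546) (nat_lit 1140) (nat_lit 7633172384) (nat_lit 163) (nat_lit 5) (nat_lit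 162) (nat_lit 5) (nat_lit 177) (nat_lit 5) (nat_lit 268) (nat_lit 263) (nat_lit 189)) (XT.lf (nat_lit 0) (nat_lit 8331266279) (nat_lit 1064) (nat_lit 1844312005) (nat_lit 1140) (nat_lit 4723833926) (nat_lit 163) (nat_lit 5) (nat_lit 177) (nat_lit 5) (nat_lit 178) (nat_lit 5) (nat_lit 269) (nat_lit 263) (nat_lit 188)))) (XT.nd (nat_lit 78) (nat_lit 0) (nat_lit 76) (XT.lf (nat_lit 76) (nat_lit 9329327730) (nat_lit 0) (nat_lit 614254120) (nat_lit 1140) (nat_lit 5340179199) (nat_lit 164) (nat_lit 5) (nat_lit 163) (nat_lit 5) (nat_lit 178) (nat_lit 5) (nat_lit 270) (nat_lit 263) (nat_lit 187)) (XT.nd (nat_lit 78) (nat_lit 0) (nat_lit 76) (XT.lf (nat_lit 76) (nat_lit 5405910058) (nat_lit 0) (nat_lit 6362678628) (nat_lit 1140) (nat_lit 3914840902) (nat_lit 165) (nat_lit 5) (nat_lit 164) (nat_lit 5) (nat_lit 179) (nat_lit 5) (nat_lit 271) (nat_lit 263) (nat_lit 186)) (XT.lf (nat_lit 76) (nat_lit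 1318921150) (nat_lit 0) (nat_lit 12453213202) (nat_lit 1140) (nat_lit 2328389993) (nat_lit 166) (nat_lit 5) (nat_lit 165) (nat_lit 5) (nat_lit 180) (nat_lit 5) (nat_lit 272) (nat_lit 263) (nat_lit 185))))))) (XT.nd (nat_lit 858) (nat_lit 2888) (nat_lit 0) (XT.nd (nat_lit 390) (nat_lit 2508) (nat_lit 0) (XT.nd (nat_lit 156) (nat_lit 1368) (nat_lit 0) (XT.nd (nat_lit 78) (nat_lit 1064) (nat_lit 0) (XT.lf (nat_lit 76) (nat_lit 13622535331) (nat_lit 0) (nat_lit 2395459654) (nat_lit 1140) (nat_lit 516273248) (nat_lit 166) (nat_lit 5) (nat_lit 165) (nat_lit 5) (nat_lit 180) (nat_lit 5) (nat_lit 273) (nat_lit 263) (nat_lit 184)) (XT.lf (nat_lit 0) (nat_lit 1506023162) (nat_lit 1140) (nat_lit 7360679011) (nat_lit 76) (nat_lit 8118252579) (nat_lit 151) (nat_lit 5) (nat_lit 166) (nat_lit 5) (nat_lit 152) (nat_lit 5) (nat_lit 274) (nat_lit 263) (nat_lit 183))) (XT.nd (nat_lit 78) (nat_lit 532) (nat_lit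 0) (XT.lf (nat_lit 0) (nat_lit 3717253033) (nat_lit 912) (nat_lit 12026853505) (nat_lit 76) (nat_lit 1711012365) (nat_lit 140) (nat_lit 5) (nat_lit 152) (nat_lit 5) (nat_lit 141) (nat_lit 5) (nat_lit 275) (nat_lit 263) (nat_lit 182)) (XT.nd (nat_lit 78) (nat_lit 0) (nat_lit 0) (XT.lf (nat_lit 0) (nat_lit 970784017) (nat_lit 532) (nat_lit 5219461636) (nat_lit 608) (nat_lit 11754058655) (nat_lit 133) (nat_lit 5) (nat_lit 140) (nat_lit 5) (nat_lit 141) (nat_lit 5) (nat_lit 276) (nat_lit 263) (nat_lit 181)) (XT.lf (nat_lit 0) (nat_lit 8944792900) (nat_lit 608) (nat_lit 3663892047) (nat_lit 76) (nat_lit 5844573629) (nat_lit 133) (nat_lit 5) (nat_lit 141) (nat_lit 5) (nat_lit 134) (nat_lit 5) (nat_lit 277) (nat_lit 263) (nat_lit 180))))) (XT.nd (nat_lit 234) (nat_lit 988) (nat_lit 0) (XT.nd (nat_lit 78) (nat_lit 988) (nat_lit 0) (XT.lf (nat_lit 0) (nat_lit 10441326503) (nat_lit 532) (nat_lit 1526712827)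 (nat_lit 608) (nat_lit 7015736590) (nat_lit 126) (nat_lit 5) (nat_lit 133) (nat_lit 5) (nat_lit 134) (nat_lit 5) (nat_lit 278) (nat_lit 263) (nat_lit 179)) (XT.nd (nat_lit 78) (nat_lit 532) (nat_lit 0) (XT.lf (nat_lit 0) (nat_lit 5782933675) (nat_lit 456) (nat_lit 9529156877) (nat_lit 532) (nat_lit 4223681705) (nat_lit 120) (nat_lit 5) (nat_lit 126) (nat_lit 5) (nat_lit 127) (nat_lit 5) (nat_lit 279) (nat_lit 263) (nat_lit 178)) (XT.lf (nat_lit 0) (nat_lit 850808443) (nat_lit 532) (nat_lit 18083319221) (nat_lit 608) (nat_lit 1177957625) (nat_lit 113) (nat_lit 5) (nat_lit 120) (nat_lit 5) (nat_lit 121) (nat_lit 5) (nat_lit 280) (nat_lit 263) (nat_lit 177)))) (XT.nd (nat_lit 78) (nat_lit 912) (nat_lit 0) (XT.lf (nat_lit 0) (nat_lit 2199931162) (nat_lit 608) (nat_lit 4378855885) (nat_lit 76) (nat_lit 14131302812) (nat_lit 112) (nat_lit 5) (nat_lit 120) (nat_lit 5) (nat_lit 113) (nat_lit 5)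 (nat_lit 281) (nat_lit 263) (nat_lit 176)) (XT.nd (nat_lit 78) (nat_lit 456) (nat_lit 0) (XT.lf (nat_lit 0) (nat_lit 5867701300) (nat_lit 532) (nat_lit 9949927754) (nat_lit 76) (nat_lit 5515690809) (nat_lit 106) (nat_lit 5) (nat_lit 113) (nat_lit 5) (nat_lit 107) (nat_lit 5) (nat_lit 282) (nat_lit 263) (nat_lit 175)) (XT.lf (nat_lit 0) (nat_lit 6070587741) (nat_lit 456) (nat_lit 3800341392) (nat_lit 532) (nat_lit 12112254021) (nat_lit 100) (nat_lit 5) (nat_lit 106) (nat_lit 5) (nat_lit 107) (nat_lit 5) (nat_lit 283) (nat_lit 263) (nat_lit 174)))))) (XT.nd (nat_lit 390) (nat_lit 1672) (nat_lit 0) (XT.nd (nat_lit 156) (nat_lit 836) (nat_lit 0) (XT.nd (nat_lit 78) (nat_lit 0) (nat_lit 0) (XT.lf (nat_lit 0) (nat_lit 338524081) (nat_lit 380) (nat_lit 13909704903) (nat_lit 456) (nat_lit 8412125560) (nat_lit 95) (nat_lit 5) (nat_lit 100) (nat_lit 5) (nat_lit 101) (nat_lit 5) (nat_lit 284) (nat_lit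 263) (nat_lit 173)) (XT.lf (nat_lit 0) (nat_lit 17676283195) (nat_lit 380) (nat_lit 1353002733) (nat_lit 456) (nat_lit 4336582531) (nat_lit 95) (nat_lit 5) (nat_lit 100) (nat_lit 5) (nat_lit 101) (nat_lit 5) (nat_lit 285) (nat_lit 263) (nat_lit 172))) (XT.nd (nat_lit 78) (nat_lit 380) (nat_lit 0) (XT.lf (nat_lit 0) (nat_lit 157675289) (nat_lit 456) (nat_lit 12228540042) (nat_lit 76) (nat_lit 11714073045) (nat_lit 89) (nat_lit 5) (nat_lit 95) (nat_lit 5) (nat_lit 90) (nat_lit 5) (nat_lit 286) (nat_lit 263) (nat_lit 171)) (XT.nd (nat_lit 78) (nat_lit 0) (nat_lit 0) (XT.lf (nat_lit 0) (nat_lit 4905328585) (nat_lit 456) (nat_lit 19280677736) (nat_lit 76) (nat_lit 680610831) (nat_lit 84) (nat_lit 5) (nat_lit 90) (nat_lit 5) (nat_lit 85) (nat_lit 5) (nat_lit 287) (nat_lit 263) (nat_lit 170)) (XT.lf (nat_lit 0) (nat_lit 10127350742) (nat_lit 456) (nat_lit 1265670247) (nat_lit 76) (nat_lit 14271157553)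 (nat_lit 84) (nat_lit 5) (nat_lit 90) (nat_lit 5) (nat_lit 85) (nat_lit 5) (nat_lit 288) (nat_lit 263) (nat_lit 169))))) (XT.nd (nat_lit 234) (nat_lit 608) (nat_lit 0) (XT.nd (nat_lit 78) (nat_lit 684) (nat_lit 0) (XT.lf (nat_lit 0) (nat_lit 15790189002) (nat_lit 456) (nat_lit 8534887715) (nat_lit 76) (nat_lit 2171174370) (nat_lit 79) (nat_lit 5) (nat_lit 85) (nat_lit 5) (nat_lit 80) (nat_lit 5) (nat_lit 289) (nat_lit 263) (nat_lit 168)) (XT.nd (nat_lit 78) (nat_lit 380) (nat_lit 0) (XT.lf (nat_lit 0) (nat_lit 10886351863) (nat_lit 304) (nat_lit 11068667054) (nat_lit 380) (nat_lit 5408366215) (nat_lit 75) (nat_lit 5) (nat_lit 79) (nat_lit 5) (nat_lit 80) (nat_lit 5) (nat_lit 290) (nat_lit 263) (nat_lit 167)) (XT.lf (nat_lit 0) (nat_lit 285936436) (nat_lit 380) (nat_lit 25070215359) (nat_lit 76) (nat_lit 2913659280) (nat_lit 70) (nat_lit 5) (nat_lit 75) (nat_lit 5) (nat_lit 71) (nat_lit 5)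 (nat_lit 291) (nat_lit 263) (nat_lit 166)))) (XT.nd (nat_lit 78) (nat_lit 608) (nat_lit 0) (XT.lf (nat_lit 0) (nat_lit 6424001728) (nat_lit 380) (nat_lit 5197363758) (nat_lit 76) (nat_lit 17590479937) (nat_lit 70) (nat_lit 5) (nat_lit 75) (nat_lit 5) (nat_lit 71) (nat_lit 5) (nat_lit 292) (nat_lit 263) (nat_lit 165)) (XT.nd (nat_lit 78) (nat_lit 304) (nat_lit 0) (XT.lf (nat_lit 0) (nat_lit 13038298998) (nat_lit 380) (nat_lit 14260984815) (nat_lit 76) (nat_lit 2896637410) (nat_lit 66) (nat_lit 5) (nat_lit 71) (nat_lit 5) (nat_lit 67) (nat_lit 5) (nat_lit 293) (nat_lit 263) (nat_lit 164)) (XT.lf (nat_lit 0) (nat_lit 7007444762) (nat_lit 304) (nat_lit 13202433526) (nat_lit 380) (nat_lit 11012544174) (nat_lit 62) (nat_lit 5) (nat_lit 66) (nat_lit 5) (nat_lit 67) (nat_lit 5) (nat_lit 294) (nat_lit 263) (nat_lit 163))))))))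
noncomputable def xc92 : XT := (XT.nd (nat_lit 1716) (nat_lit 608) (nat_lit 0) (XT.nd (nat_lit 858) (nat_lit 1140) (nat_lit 0) (XT.nd (nat_lit 390) (nat_lit 988) (nat_lit 0) (XT.nd (nat_lit 156) (nat_lit 532) (nat_lit 0) (XT.nd (nat_lit 78) (nat_lit 304) (nat_lit 0) (XT.lf (nat_lit 0) (nat_lit 27891930067) (nat_lit 380) (nat_lit 2691557343) (nat_lit 76) (nat_lit 1712222322) (nat_lit 62) (nat_lit 5) (nat_lit 67) (nat_lit 5) (nat_lit 63) (nat_lit 5) (nat_lit 295) (nat_lit 263) (nat_lit 162)) (XT.lf (nat_lit 0) (nat_lit 2804854081) (nat_lit 304) (nat_lit 13288097822) (nat_lit 76) (nat_lit 17319427550) (nat_lit 58) (nat_lit 5) (nat_lit 62) (nat_lit 5) (nat_lit 59) (nat_lit 5) (nat_lit 296) (nat_lit 263) (nat_lit 161))) (XT.nd (nat_lit 78) (nat_lit 228) (nat_lit 0) (XT.lf (nat_lit 0) (nat_lit 9682102538) (nat_lit 304) (nat_lit 711725799) (nat_lit 380) (nat_lit 24186432350) (nat_lit 54) (nat_lit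 5) (nat_lit 58) (nat_lit 5) (nat_lit 59) (nat_lit 5) (nat_lit 297) (nat_lit 263) (nat_lit 160)) (XT.nd (nat_lit 78) (nat_lit 228) (nat_lit 0) (XT.lf (nat_lit 0) (nat_lit 18638223884) (nat_lit 380) (nat_lit 1888764693) (nat_lit 76) (nat_lit 15271283134) (nat_lit 54) (nat_lit 5) (nat_lit 59) (nat_lit 5) (nat_lit 55) (nat_lit 5) (nat_lit 298) (nat_lit 263) (nat_lit 159)) (XT.lf (nat_lit 0) (nat_lit 22692374080) (nat_lit 228) (nat_lit 4817709433) (nat_lit 304) (nat_lit 9560656643) (nat_lit 51) (nat_lit 5) (nat_lit 54) (nat_lit 5) (nat_lit 55) (nat_lit 5) (nat_lit 299) (nat_lit 263) (nat_lit 158))))) (XT.nd (nat_lit 234) (nat_lit 456) (nat_lit 0) (XT.nd (nat_lit 78) (nat_lit 304) (nat_lit 0) (XT.lf (nat_lit 0) (nat_lit 10208348896) (nat_lit 228) (nat_lit 26837431434) (nat_lit 304) (nat_lit 1354457888) (nat_lit 48) (nat_lit 5) (nat_lit 51) (nat_lit 5) (nat_lit 52) (nat_lit 5) (nat_lit 300) (nat_lit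 263) (nat_lit 157)) (XT.nd (nat_lit 78) (nat_lit 228) (nat_lit 0) (XT.lf (nat_lit 0) (nat_lit 7308905695) (nat_lit 304) (nat_lit 3600804056) (nat_lit 76) (nat_lit 28878762808) (nat_lit 47) (nat_lit 5) (nat_lit 51) (nat_lit 5) (nat_lit 48) (nat_lit 5) (nat_lit 301) (nat_lit 263) (nat_lit 156)) (XT.lf (nat_lit 0) (nat_lit 16644316290) (nat_lit 304) (nat_lit 18663093264) (nat_lit 76) (nat_lit 5930311921) (nat_lit 44) (nat_lit 5) (nat_lit 48) (nat_lit 5) (nat_lit 45) (nat_lit 5) (nat_lit 302) (nat_lit 263) (nat_lit 155)))) (XT.nd (nat_lit 78) (nat_lit 228) (nat_lit 0) (XT.lf (nat_lit 0) (nat_lit 7396421830) (nat_lit 228) (nat_lit 19259904657) (nat_lit 304) (nat_lit 16096822818) (nat_lit 41) (nat_lit 5) (nat_lit 44) (nat_lit 5) (nat_lit 45) (nat_lit 5) (nat_lit 303) (nat_lit 263) (nat_lit 154)) (XT.nd (nat_lit 78) (nat_lit 228) (nat_lit 0) (XT.lf (nat_lit 0) (nat_lit 35136109251) (nat_lit 228)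 (nat_lit 2216426526) (nat_lit 304) (nat_lit 6986315593) (nat_lit 41) (nat_lit 5) (nat_lit 44) (nat_lit 5) (nat_lit 45) (nat_lit 5) (nat_lit 304) (nat_lit 263) (nat_lit 153)) (XT.lf (nat_lit 0) (nat_lit 2852508676) (nat_lit 228) (nat_lit 27566260898) (nat_lit 76) (nat_lit 15574641079) (nat_lit 38) (nat_lit 5) (nat_lit 41) (nat_lit 5) (nat_lit 39) (nat_lit 5) (nat_lit 305) (nat_lit 263) (nat_lit 152)))))) (XT.nd (nat_lit 390) (nat_lit 532) (nat_lit 0) (XT.nd (nat_lit 156) (nat_lit 380) (nat_lit 0) (XT.nd (nat_lit 78) (nat_lit 228) (nat_lit 0) (XT.lf (nat_lit 0) (nat_lit 13150202418) (nat_lit 228) (nat_lit 203057067) (nat_lit 76) (nat_lit 34372030302) (nat_lit 38) (nat_lit 5) (nat_lit 41) (nat_lit 5) (nat_lit 39) (nat_lit 5) (nat_lit 306) (nat_lit 263) (nat_lit 151)) (XT.lf (nat_lit 0) (nat_lit 24281381126) (nat_lit 304) (nat_lit 20498025744) (nat_lit 76) (nat_lit 4754807058) (nat_lit 35) (nat_lit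 5) (nat_lit 39) (nat_lit 5) (nat_lit 36) (nat_lit 5) (nat_lit 307) (nat_lit 263) (nat_lit 150))) (XT.nd (nat_lit 78) (nat_lit 228) (nat_lit 0) (XT.lf (nat_lit 0) (nat_lit 8324256304) (nat_lit 152) (nat_lit 27854392947) (nat_lit 228) (nat_lit 15248657736) (nat_lit 33) (nat_lit 5) (nat_lit 35) (nat_lit 5) (nat_lit 36) (nat_lit 5) (nat_lit 308) (nat_lit 263) (nat_lit 149)) (XT.nd (nat_lit 78) (nat_lit 228) (nat_lit 0) (XT.lf (nat_lit 0) (nat_lit 39004831555) (nat_lit 152) (nat_lit 9869826155) (nat_lit 228) (nat_lit 4534288898) (nat_lit 33) (nat_lit 5) (nat_lit 35) (nat_lit 5) (nat_lit 36) (nat_lit 5) (nat_lit 309) (nat_lit 263) (nat_lit 148)) (XT.lf (nat_lit 0) (nat_lit 6820125185) (nat_lit 228) (nat_lit 39606126692) (nat_lit 76) (nat_lit 9054425950) (nat_lit 30) (nat_lit 5) (nat_lit 33) (nat_lit 5) (nat_lit 31) (nat_lit 5) (nat_lit 310) (nat_lit 263) (nat_lit 147))))) (XT.nd (nat_lit 234)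 (nat_lit 380) (nat_lit 0) (XT.nd (nat_lit 78) (nat_lit 152) (nat_lit 0) (XT.lf (nat_lit 0) (nat_lit 18892042009) (nat_lit 228) (nat_lit 9840887653) (nat_lit 76) (nat_lit 28914419621) (nat_lit 30) (nat_lit 5) (nat_lit 33) (nat_lit 5) (nat_lit 31) (nat_lit 5) (nat_lit 311) (nat_lit 263) (nat_lit 146)) (XT.nd (nat_lit 78) (nat_lit 0) (nat_lit 0) (XT.lf (nat_lit 0) (nat_lit 21828429060) (nat_lit 152) (nat_lit 9942593885) (nat_lit 228) (nat_lit 28145234209) (nat_lit 28) (nat_lit 5) (nat_lit 30) (nat_lit 5) (nat_lit 31) (nat_lit 5) (nat_lit 312) (nat_lit 263) (nat_lit 145)) (XT.lf (nat_lit 0) (nat_lit 45484153078) (nat_lit 228) (nat_lit 7113798853) (nat_lit 76) (nat_lit 9694959044) (nat_lit 28) (nat_lit 5) (nat_lit 31) (nat_lit 5) (nat_lit 29) (nat_lit 5) (nat_lit 313) (nat_lit 263) (nat_lit 144)))) (XT.nd (nat_lit 78) (nat_lit 228) (nat_lit 0) (XT.lf (nat_lit 0) (nat_lit 25802555222) (nat_lit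 152) (nat_lit 34422874855) (nat_lit 228) (nat_lit 4552698950) (nat_lit 26) (nat_lit 5) (nat_lit 28) (nat_lit 5) (nat_lit 29) (nat_lit 5) (nat_lit 314) (nat_lit 263) (nat_lit 143)) (XT.nd (nat_lit 78) (nat_lit 152) (nat_lit 0) (XT.lf (nat_lit 0) (nat_lit 8222076778) (nat_lit 228) (nat_lit 6962063569) (nat_lit 76) (nat_lit 52199029448) (nat_lit 25) (nat_lit 5) (nat_lit 28) (nat_lit 5) (nat_lit 26) (nat_lit 5) (nat_lit 315) (nat_lit 263) (nat_lit 142)) (XT.lf (nat_lit 0) (nat_lit 21848803945) (nat_lit 228) (nat_lit 43034074729) (nat_lit 76) (nat_lit 5225016060) (nat_lit 23) (nat_lit 5) (nat_lit 26) (nat_lit 5) (nat_lit 24) (nat_lit 5) (nat_lit 316) (nat_lit 263) (nat_lit 141))))))) (XT.nd (nat_lit 33384) (nat_lit 0) (nat_lit 10260) (XT.nd (nat_lit 390) (nat_lit 304) (nat_lit 0) (XT.nd (nat_lit 156) (nat_lit 152) (nat_lit 0) (XT.nd (nat_lit 78) (nat_lit 152) (nat_lit 0) (XT.lf (nat_lit 0) (nat_lit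 36377159540) (nat_lit 228) (nat_lit 10172490272) (nat_lit 76) (nat_lit 26412602587) (nat_lit 23) (nat_lit 5) (nat_lit 26) (nat_lit 5) (nat_lit 24) (nat_lit 5) (nat_lit 317) (nat_lit 263) (nat_lit 140)) (XT.lf (nat_lit 0) (nat_lit 24807881659) (nat_lit 152) (nat_lit 27057431194) (nat_lit 228) (nat_lit 24087018689) (nat_lit 21) (nat_lit 5) (nat_lit 23) (nat_lit 5) (nat_lit 24) (nat_lit 5) (nat_lit 318) (nat_lit 263) (nat_lit 139))) (XT.nd (nat_lit 78) (nat_lit 152) (nat_lit 0) (XT.lf (nat_lit 0) (nat_lit 61741704736) (nat_lit 152) (nat_lit 6485961354) (nat_lit 228) (nat_lit 10861259538) (nat_lit 21) (nat_lit 5) (nat_lit 23) (nat_lit 5) (nat_lit 24) (nat_lit 5) (nat_lit 319) (nat_lit 263) (nat_lit 138)) (XT.nd (nat_lit 78) (nat_lit 0) (nat_lit 0) (XT.lf (nat_lit 0) (nat_lit 3286783420) (nat_lit 152) (nat_lit 64060386118) (nat_lit 76) (nat_lit 15024710510) (nat_lit 19) (nat_lit 5) (nat_lit 21)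 (nat_lit 5) (nat_lit 20) (nat_lit 5) (nat_lit 320) (nat_lit 263) (nat_lit 137)) (XT.lf (nat_lit 0) (nat_lit 18160878173) (nat_lit 152) (nat_lit 29882573420) (nat_lit 76) (nat_lit 37765010351) (nat_lit 19) (nat_lit 5) (nat_lit 21) (nat_lit 5) (nat_lit 20) (nat_lit 5) (nat_lit 321) (nat_lit 263) (nat_lit 136))))) (XT.nd (nat_lit 234) (nat_lit 152) (nat_lit 0) (XT.nd (nat_lit 78) (nat_lit 0) (nat_lit 0) (XT.lf (nat_lit 0) (nat_lit 6116104682) (nat_lit 152) (nat_lit 27716966892) (nat_lit 228) (nat_lit 55582173529) (nat_lit 17) (nat_lit 5) (nat_lit 19) (nat_lit 5) (nat_lit 20) (nat_lit 5) (nat_lit 322) (nat_lit 263) (nat_lit 135)) (XT.nd (nat_lit 78) (nat_lit 0) (nat_lit 0) (XT.lf (nat_lit 0) (nat_lit 44532013453) (nat_lit 152) (nat_lit 6060218674) (nat_lit 228) (nat_lit 42601038367) (nat_lit 17) (nat_lit 5) (nat_lit 19) (nat_lit 5) (nat_lit 20) (nat_lit 5) (nat_lit 323) (nat_lit 263) (nat_lit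 134)) (XT.lf (nat_lit 0) (nat_lit 68345601882) (nat_lit 228) (nat_lit 12458730564) (nat_lit 76) (nat_lit 16351180789) (nat_lit 17) (nat_lit 5) (nat_lit 20) (nat_lit 5) (nat_lit 18) (nat_lit 4) (nat_lit 324) (nat_lit 263) (nat_lit 133)))) (XT.nd (nat_lit 78) (nat_lit 76) (nat_lit 0) (XT.lf (nat_lit 0) (nat_lit 25993390323) (nat_lit 76) (nat_lit 61300394661) (nat_lit 152) (nat_lit 14012872229) (nat_lit 16) (nat_lit 5) (nat_lit 17) (nat_lit 5) (nat_lit 18) (nat_lit 4) (nat_lit 325) (nat_lit 263) (nat_lit 132)) (XT.nd (nat_lit 78) (nat_lit 0) (nat_lit 0) (XT.lf (nat_lit 0) (nat_lit 1619997528) (nat_lit 152) (nat_lit 39055441710) (nat_lit 76) (nat_lit 64985711309) (nat_lit 15) (nat_lit 5) (nat_lit 17) (nat_lit 5) (nat_lit 16) (nat_lit 5) (nat_lit 326) (nat_lit 263) (nat_lit 131)) (XT.lf (nat_lit 0) (nat_lit 17743774529) (nat_lit 152) (nat_lit 1132331377) (nat_lit 76) (nat_lit 91353131292) (nat_lit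 15) (nat_lit 5) (nat_lit 17) (nat_lit 5) (nat_lit 16) (nat_lit 5) (nat_lit 327) (nat_lit 263) (nat_lit 130)))))) (XT.nd (nat_lit 390) (nat_lit 684) (nat_lit 0) (XT.nd (nat_lit 156) (nat_lit 0) (nat_lit 76) (XT.nd (nat_lit 78) (nat_lit 0) (nat_lit 76) (XT.lf (nat_lit 0) (nat_lit 1648117733) (nat_lit 1140) (nat_lit 2551076942) (nat_lit 1140) (nat_lit 2551076942) (nat_lit 159) (nat_lit 3) (nat_lit 174) (nat_lit 3) (nat_lit 174) (nat_lit 5) (nat_lit 264) (nat_lit 264) (nat_lit 192)) (XT.lf (nat_lit 0) (nat_lit 3984074152) (nat_lit 1064) (nat_lit 9308462029) (nat_lit 1140) (nat_lit 526132497) (nat_lit 160) (nat_lit 5) (nat_lit 174) (nat_lit 5) (nat_lit 175) (nat_lit 5) (nat_lit 265) (nat_lit 264) (nat_lit 191))) (XT.nd (nat_lit 78) (nat_lit 0) (nat_lit 76) (XT.lf (nat_lit 76) (nat_lit 462334724) (nat_lit 0) (nat_lit 4350560573) (nat_lit 1140) (nat_lit 9336685803) (nat_lit 161) (nat_lit 5) (nat_lit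 160) (nat_lit 5) (nat_lit 175) (nat_lit 5) (nat_lit 266) (nat_lit 264) (nat_lit 190)) (XT.nd (nat_lit 78) (nat_lit 0) (nat_lit 76) (XT.lf (nat_lit 0) (nat_lit 5794350562) (nat_lit 1064) (nat_lit 3648100724) (nat_lit 1140) (nat_lit 5051326756) (nat_lit 161) (nat_lit 5) (nat_lit 175) (nat_lit 5) (nat_lit 176) (nat_lit 5) (nat_lit 267) (nat_lit 264) (nat_lit 189)) (XT.lf (nat_lit 0) (nat_lit 6903947346) (nat_lit 1064) (nat_lit 7888245855) (nat_lit 1140) (nat_lit 60690703) (nat_lit 162) (nat_lit 5) (nat_lit 176) (nat_lit 5) (nat_lit 177) (nat_lit 5) (nat_lit 268) (nat_lit 264) (nat_lit 188))))) (XT.nd (nat_lit 234) (nat_lit 912) (nat_lit 0) (XT.nd (nat_lit 78) (nat_lit 0) (nat_lit 76) (XT.lf (nat_lit 76) (nat_lit 2895960304) (nat_lit 0) (nat_lit 5303212222) (nat_lit 1140) (nat_lit 7026935822) (nat_lit 163) (nat_lit 5) (nat_lit 162) (nat_lit 5) (nat_lit 177) (nat_lit 5) (nat_lit 269) (nat_lit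 264) (nat_lit 187)) (XT.nd (nat_lit 78) (nat_lit 0) (nat_lit 0) (XT.lf (nat_lit 0) (nat_lit 9656420531) (nat_lit 1064) (nat_lit 1297711276) (nat_lit 1140) (nat_lit 4661008881) (nat_lit 163) (nat_lit 5) (nat_lit 177) (nat_lit 5) (nat_lit 178) (nat_lit 5) (nat_lit 270) (nat_lit 264) (nat_lit 186)) (XT.lf (nat_lit 76) (nat_lit 10416298904) (nat_lit 0) (nat_lit 895751413) (nat_lit 1140) (nat_lit 4707870194) (nat_lit 164) (nat_lit 5) (nat_lit 163) (nat_lit 5) (nat_lit 178) (nat_lit 5) (nat_lit 271) (nat_lit 264) (nat_lit 185)))) (XT.nd (nat_lit 78) (nat_lit 1064) (nat_lit 0) (XT.lf (nat_lit 76) (nat_lit 6308490452) (nat_lit 0) (nat_lit 6882109082) (nat_lit 1140) (nat_lit 3250194177) (nat_lit 165) (nat_lit 5) (nat_lit 164) (nat_lit 5) (nat_lit 179) (nat_lit 5) (nat_lit 272) (nat_lit 264) (nat_lit 184)) (XT.nd (nat_lit 78) (nat_lit 1140) (nat_lit 0) (XT.lf (nat_lit 76) (nat_lit 2026946227) (nat_lit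 0) (nat_lit 13232011117) (nat_lit 1140) (nat_lit 1620932527) (nat_lit 166) (nat_lit 5) (nat_lit 165) (nat_lit 5) (nat_lit 180) (nat_lit 5) (nat_lit 273) (nat_lit 264) (nat_lit 183)) (XT.lf (nat_lit 0) (nat_lit 237824641) (nat_lit 1140) (nat_lit 2423708580) (nat_lit 1216) (nat_lit 14674939722) (nat_lit 150) (nat_lit 5) (nat_lit 165) (nat_lit 5) (nat_lit 166) (nat_lit 5) (nat_lit 274) (nat_lit 264) (nat_lit 182))))))))
noncomputable def xc93 : XT := (XT.nd (nat_lit 1716) (nat_lit 2964) (nat_lit 0) (XT.nd (nat_lit 858) (nat_lit 2508) (nat_lit 0) (XT.nd (nat_lit 390) (nat_lit 2356) (nat_lit 0) (XT.nd (nat_lit 156) (nat_lit 1064) (nat_lit 0) (XT.nd (nat_lit 78) (nat_lit 836) (nat_lit 0) (XT.lf (nat_lit 0) (nat_lit 2318658157) (nat_lit 1140) (nat_lit 7093427169) (nat_lit 76) (nat_lit 8398487602) (nat_lit 151) (nat_lit 5) (nat_lit 166) (nat_lit 5) (nat_lit 152) (nat_lit 5) (nat_lit 275) (nat_lit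 264) (nat_lit 181)) (XT.lf (nat_lit 0) (nat_lit 4610394587) (nat_lit 912) (nat_lit 11987562926) (nat_lit 76) (nat_lit 1707261306) (nat_lit 140) (nat_lit 5) (nat_lit 152) (nat_lit 5) (nat_lit 141) (nat_lit 5) (nat_lit 276) (nat_lit 264) (nat_lit 180))) (XT.nd (nat_lit 78) (nat_lit 532) (nat_lit 0) (XT.lf (nat_lit 0) (nat_lit 1641592849) (nat_lit 532) (nat_lit 5537745677) (nat_lit 608) (nat_lit 11640424376) (nat_lit 133) (nat_lit 5) (nat_lit 140) (nat_lit 5) (nat_lit 141) (nat_lit 5) (nat_lit 277) (nat_lit 264) (nat_lit 179)) (XT.nd (nat_lit 78) (nat_lit 532) (nat_lit 0) (XT.lf (nat_lit 0) (nat_lit 10038727482) (nat_lit 608) (nat_lit 3233203640) (nat_lit 76) (nat_lit 6083285532) (nat_lit 133) (nat_lit 5) (nat_lit 141) (nat_lit 5) (nat_lit 134) (nat_lit 5) (nat_lit 278) (nat_lit 264) (nat_lit 178)) (XT.lf (nat_lit 0) (nat_lit 11559679004) (nat_lit 532) (nat_lit 1628394099) (nat_lit 608) (nat_lit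 6725000751) (nat_lit 126) (nat_lit 5) (nat_lit 133) (nat_lit 5) (nat_lit 134) (nat_lit 5) (nat_lit 279) (nat_lit 264) (nat_lit 177))))) (XT.nd (nat_lit 234) (nat_lit 1292) (nat_lit 0) (XT.nd (nat_lit 78) (nat_lit 608) (nat_lit 0) (XT.lf (nat_lit 0) (nat_lit 6670831459) (nat_lit 456) (nat_lit 10004417438) (nat_lit 532) (nat_lit 3818202589) (nat_lit 120) (nat_lit 5) (nat_lit 126) (nat_lit 5) (nat_lit 127) (nat_lit 5) (nat_lit 280) (nat_lit 264) (nat_lit 176)) (XT.nd (nat_lit 78) (nat_lit 76) (nat_lit 0) (XT.lf (nat_lit 0) (nat_lit 1493487324) (nat_lit 532) (nat_lit 18962225457) (nat_lit 608) (nat_lit 643603964) (nat_lit 113) (nat_lit 5) (nat_lit 120) (nat_lit 5) (nat_lit 121) (nat_lit 5) (nat_lit 281) (nat_lit 264) (nat_lit 175)) (XT.lf (nat_lit 0) (nat_lit 2863903975) (nat_lit 608) (nat_lit 4014171470) (nat_lit 76) (nat_lit 14849858060) (nat_lit 112) (nat_lit 5) (nat_lit 120) (nat_lit 5)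 (nat_lit 113) (nat_lit 5) (nat_lit 282) (nat_lit 264) (nat_lit 174)))) (XT.nd (nat_lit 78) (nat_lit 836) (nat_lit 0) (XT.lf (nat_lit 0) (nat_lit 6694457570) (nat_lit 532) (nat_lit 9863868558) (nat_lit 76) (nat_lit 5824666630) (nat_lit 106) (nat_lit 5) (nat_lit 113) (nat_lit 5) (nat_lit 107) (nat_lit 5) (nat_lit 283) (nat_lit 264) (nat_lit 173)) (XT.nd (nat_lit 78) (nat_lit 380) (nat_lit 0) (XT.lf (nat_lit 0) (nat_lit 6940945208) (nat_lit 456) (nat_lit 3936951656) (nat_lit 532) (nat_lit 12188098084) (nat_lit 100) (nat_lit 5) (nat_lit 106) (nat_lit 5) (nat_lit 107) (nat_lit 5) (nat_lit 284) (nat_lit 264) (nat_lit 172)) (XT.lf (nat_lit 0) (nat_lit 921410459) (nat_lit 380) (nat_lit 14534131905) (nat_lit 456) (nat_lit 8322083112) (nat_lit 95) (nat_lit 5) (nat_lit 100) (nat_lit 5) (nat_lit 101) (nat_lit 5) (nat_lit 285) (nat_lit 264) (nat_lit 171)))))) (XT.nd (nat_lit 390) (nat_lit 1292) (nat_lit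 0) (XT.nd (nat_lit 156) (nat_lit 760) (nat_lit 0) (XT.nd (nat_lit 78) (nat_lit 456) (nat_lit 0) (XT.lf (nat_lit 0) (nat_lit 19099107043) (nat_lit 380) (nat_lit 1352978352) (nat_lit 456) (nat_lit 4067079538) (nat_lit 95) (nat_lit 5) (nat_lit 100) (nat_lit 5) (nat_lit 101) (nat_lit 5) (nat_lit 286) (nat_lit 264) (nat_lit 170)) (XT.lf (nat_lit 0) (nat_lit 625537884) (nat_lit 456) (nat_lit 12292525977) (nat_lit 76) (nat_lit 12372647250) (nat_lit 89) (nat_lit 5) (nat_lit 95) (nat_lit 5) (nat_lit 90) (nat_lit 5) (nat_lit 287) (nat_lit 264) (nat_lit 169))) (XT.nd (nat_lit 78) (nat_lit 380) (nat_lit 0) (XT.lf (nat_lit 0) (nat_lit 5594632899) (nat_lit 456) (nat_lit 19699763971) (nat_lit 76) (nat_lit 801475412) (nat_lit 84) (nat_lit 5) (nat_lit 90) (nat_lit 5) (nat_lit 85) (nat_lit 5) (nat_lit 288) (nat_lit 264) (nat_lit 168)) (XT.nd (nat_lit 78) (nat_lit 380) (nat_lit 0) (XT.lf (nat_lit 0) (nat_lit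 11056611503) (nat_lit 456) (nat_lit 809955995) (nat_lit 76) (nat_lit 15067414517) (nat_lit 84) (nat_lit 5) (nat_lit 90) (nat_lit 5) (nat_lit 85) (nat_lit 5) (nat_lit 289) (nat_lit 264) (nat_lit 167)) (XT.lf (nat_lit 0) (nat_lit 16988227625) (nat_lit 456) (nat_lit 8445526631) (nat_lit 76) (nat_lit 2374369075) (nat_lit 79) (nat_lit 5) (nat_lit 85) (nat_lit 5) (nat_lit 80) (nat_lit 5) (nat_lit 290) (nat_lit 264) (nat_lit 166))))) (XT.nd (nat_lit 234) (nat_lit 608) (nat_lit 0) (XT.nd (nat_lit 78) (nat_lit 380) (nat_lit 0) (XT.lf (nat_lit 0) (nat_lit 11931980866) (nat_lit 304) (nat_lit 11514683311) (nat_lit 380) (nat_lit 5272421539) (nat_lit 75) (nat_lit 5) (nat_lit 79) (nat_lit 5) (nat_lit 80) (nat_lit 5) (nat_lit 291) (nat_lit 264) (nat_lit 165)) (XT.nd (nat_lit 78) (nat_lit 0) (nat_lit 0) (XT.lf (nat_lit 0) (nat_lit 685521708) (nat_lit 380) (nat_lit 25817405691) (nat_lit 76) (nat_lit 3168212856)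 (nat_lit 70) (nat_lit 5) (nat_lit 75) (nat_lit 5) (nat_lit 71) (nat_lit 5) (nat_lit 292) (nat_lit 264) (nat_lit 164)) (XT.lf (nat_lit 0) (nat_lit 7112143195) (nat_lit 380) (nat_lit 4975022006) (nat_lit 76) (nat_lit 18573690231) (nat_lit 70) (nat_lit 5) (nat_lit 75) (nat_lit 5) (nat_lit 71) (nat_lit 5) (nat_lit 293) (nat_lit 264) (nat_lit 163)))) (XT.nd (nat_lit 78) (nat_lit 304) (nat_lit 0) (XT.lf (nat_lit 0) (nat_lit 14045284203) (nat_lit 380) (nat_lit 14495580616) (nat_lit 76) (nat_lit 3153653671) (nat_lit 66) (nat_lit 5) (nat_lit 71) (nat_lit 5) (nat_lit 67) (nat_lit 5) (nat_lit 294) (nat_lit 264) (nat_lit 162)) (XT.nd (nat_lit 78) (nat_lit 0) (nat_lit 0) (XT.lf (nat_lit 0) (nat_lit 7822555668) (nat_lit 304) (nat_lit 13740446035) (nat_lit 380) (nat_lit 11209742344) (nat_lit 62) (nat_lit 5) (nat_lit 66) (nat_lit 5) (nat_lit 67) (nat_lit 5) (nat_lit 295) (nat_lit 264) (nat_lit 161)) (XT.lf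 (nat_lit 0) (nat_lit 29613958274) (nat_lit 380) (nat_lit 2374359573) (nat_lit 76) (nat_lit 1911858559) (nat_lit 62) (nat_lit 5) (nat_lit 67) (nat_lit 5) (nat_lit 63) (nat_lit 5) (nat_lit 296) (nat_lit 264) (nat_lit 160))))))) (XT.nd (nat_lit 858) (nat_lit 912) (nat_lit 0) (XT.nd (nat_lit 390) (nat_lit 988) (nat_lit 0) (XT.nd (nat_lit 156) (nat_lit 456) (nat_lit 0) (XT.nd (nat_lit 78) (nat_lit 304) (nat_lit 0) (XT.lf (nat_lit 0) (nat_lit 3264747082) (nat_lit 304) (nat_lit 13506856973) (nat_lit 76) (nat_lit 18301346367) (nat_lit 58) (nat_lit 5) (nat_lit 62) (nat_lit 5) (nat_lit 59) (nat_lit 5) (nat_lit 297) (nat_lit 264) (nat_lit 159)) (XT.lf (nat_lit 0) (nat_lit 10599079058) (nat_lit 304) (nat_lit 623030574) (nat_lit 380) (nat_lit 25077469731) (nat_lit 54) (nat_lit 5) (nat_lit 58) (nat_lit 5) (nat_lit 59) (nat_lit 5) (nat_lit 298) (nat_lit 264) (nat_lit 158))) (XT.nd (nat_lit 78) (nat_lit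 456) (nat_lit 0) (XT.lf (nat_lit 0) (nat_lit 19865167982) (nat_lit 380) (nat_lit 1562849518) (nat_lit 76) (nat_lit 16150900943) (nat_lit 54) (nat_lit 5) (nat_lit 59) (nat_lit 5) (nat_lit 55) (nat_lit 5) (nat_lit 299) (nat_lit 264) (nat_lit 157)) (XT.nd (nat_lit 78) (nat_lit 228) (nat_lit 0) (XT.lf (nat_lit 0) (nat_lit 24235296848) (nat_lit 228) (nat_lit 4935199427) (nat_lit 304) (nat_lit 9744837568) (nat_lit 51) (nat_lit 5) (nat_lit 54) (nat_lit 5) (nat_lit 55) (nat_lit 5) (nat_lit 300) (nat_lit 264) (nat_lit 156)) (XT.lf (nat_lit 0) (nat_lit 11122901262) (nat_lit 228) (nat_lit 28051524057) (nat_lit 304) (nat_lit 1137156927) (nat_lit 48) (nat_lit 5) (nat_lit 51) (nat_lit 5) (nat_lit 52) (nat_lit 5) (nat_lit 301) (nat_lit 264) (nat_lit 155))))) (XT.nd (nat_lit 234) (nat_lit 456) (nat_lit 0) (XT.nd (nat_lit 78) (nat_lit 456) (nat_lit 0) (XT.lf (nat_lit 0) (nat_lit 7940505277) (nat_lit 304)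 (nat_lit 3390308087) (nat_lit 76) (nat_lit 30438749415) (nat_lit 47) (nat_lit 5) (nat_lit 51) (nat_lit 5) (nat_lit 48) (nat_lit 5) (nat_lit 302) (nat_lit 264) (nat_lit 154)) (XT.nd (nat_lit 78) (nat_lit 228) (nat_lit 0) (XT.lf (nat_lit 0) (nat_lit 17734833654) (nat_lit 304) (nat_lit 19210035228) (nat_lit 76) (nat_lit 6346657450) (nat_lit 44) (nat_lit 5) (nat_lit 48) (nat_lit 5) (nat_lit 45) (nat_lit 5) (nat_lit 303) (nat_lit 264) (nat_lit 153)) (XT.lf (nat_lit 0) (nat_lit 8141384911) (nat_lit 228) (nat_lit 20097365471) (nat_lit 304) (nat_lit 16644251810) (nat_lit 41) (nat_lit 5) (nat_lit 44) (nat_lit 5) (nat_lit 45) (nat_lit 5) (nat_lit 304) (nat_lit 264) (nat_lit 152)))) (XT.nd (nat_lit 78) (nat_lit 456) (nat_lit 0) (XT.lf (nat_lit 0) (nat_lit 37250192799) (nat_lit 228) (nat_lit 2207691263) (nat_lit 304) (nat_lit 7090476945) (nat_lit 41) (nat_lit 5) (nat_lit 44) (nat_lit 5) (nat_lit 45)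 (nat_lit 5) (nat_lit 305) (nat_lit 264) (nat_lit 151)) (XT.nd (nat_lit 78) (nat_lit 228) (nat_lit 0) (XT.lf (nat_lit 0) (nat_lit 3228592047) (nat_lit 228) (nat_lit 28586508747) (nat_lit 76) (nat_lit 16470698070) (nat_lit 38) (nat_lit 5) (nat_lit 41) (nat_lit 5) (nat_lit 39) (nat_lit 5) (nat_lit 306) (nat_lit 264) (nat_lit 150)) (XT.lf (nat_lit 0) (nat_lit 130348111) (nat_lit 228) (nat_lit 13900958305) (nat_lit 304) (nat_lit 36073274726) (nat_lit 35) (nat_lit 5) (nat_lit 38) (nat_lit 5) (nat_lit 39) (nat_lit 5) (nat_lit 307) (nat_lit 264) (nat_lit 149)))))) (XT.nd (nat_lit 390) (nat_lit 532) (nat_lit 0) (XT.nd (nat_lit 156) (nat_lit 228) (nat_lit 0) (XT.nd (nat_lit 78) (nat_lit 152) (nat_lit 0) (XT.lf (nat_lit 0) (nat_lit 25711505455) (nat_lit 304) (nat_lit 21186104835) (nat_lit 76) (nat_lit 5106579993) (nat_lit 35) (nat_lit 5) (nat_lit 39) (nat_lit 5) (nat_lit 36) (nat_lit 5) (nat_lit 308)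 (nat_lit 264) (nat_lit 148)) (XT.lf (nat_lit 0) (nat_lit 9067636375) (nat_lit 152) (nat_lit 29128857197) (nat_lit 228) (nat_lit 15795670759) (nat_lit 33) (nat_lit 5) (nat_lit 35) (nat_lit 5) (nat_lit 36) (nat_lit 5) (nat_lit 309) (nat_lit 264) (nat_lit 147))) (XT.nd (nat_lit 78) (nat_lit 228) (nat_lit 0) (XT.lf (nat_lit 0) (nat_lit 41266660995) (nat_lit 152) (nat_lit 10250693274) (nat_lit 228) (nat_lit 4555841567) (nat_lit 33) (nat_lit 5) (nat_lit 35) (nat_lit 5) (nat_lit 36) (nat_lit 5) (nat_lit 310) (nat_lit 264) (nat_lit 146)) (XT.nd (nat_lit 78) (nat_lit 0) (nat_lit 0) (XT.lf (nat_lit 0) (nat_lit 7356738434) (nat_lit 228) (nat_lit 41274703032) (nat_lit 76) (nat_lit 9617190125) (nat_lit 30) (nat_lit 5) (nat_lit 33) (nat_lit 5) (nat_lit 31) (nat_lit 5) (nat_lit 311) (nat_lit 264) (nat_lit 145)) (XT.lf (nat_lit 0) (nat_lit 20022936480) (nat_lit 228) (nat_lit 10036046326) (nat_lit 76) (nat_lit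 30464943342) (nat_lit 30) (nat_lit 5) (nat_lit 33) (nat_lit 5) (nat_lit 31) (nat_lit 5) (nat_lit 312) (nat_lit 264) (nat_lit 144))))) (XT.nd (nat_lit 234) (nat_lit 228) (nat_lit 0) (XT.nd (nat_lit 78) (nat_lit 152) (nat_lit 0) (XT.lf (nat_lit 0) (nat_lit 23208226053) (nat_lit 152) (nat_lit 10331541386) (nat_lit 228) (nat_lit 29366704554) (nat_lit 28) (nat_lit 5) (nat_lit 30) (nat_lit 5) (nat_lit 31) (nat_lit 5) (nat_lit 313) (nat_lit 264) (nat_lit 143)) (XT.nd (nat_lit 78) (nat_lit 152) (nat_lit 0) (XT.lf (nat_lit 0) (nat_lit 47930963838) (nat_lit 228) (nat_lit 7190504372) (nat_lit 76) (nat_lit 10280727157) (nat_lit 28) (nat_lit 5) (nat_lit 31) (nat_lit 5) (nat_lit 29) (nat_lit 5) (nat_lit 314) (nat_lit 264) (nat_lit 142)) (XT.lf (nat_lit 0) (nat_lit 27363670374) (nat_lit 152) (nat_lit 36040020013) (nat_lit 228) (nat_lit 4608161080) (nat_lit 26) (nat_lit 5) (nat_lit 28) (nat_lit 5) (nat_lit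 29) (nat_lit 5) (nat_lit 315) (nat_lit 264) (nat_lit 141)))) (XT.nd (nat_lit 78) (nat_lit 152) (nat_lit 0) (XT.lf (nat_lit 0) (nat_lit 8793955003) (nat_lit 228) (nat_lit 7048722584) (nat_lit 76) (nat_lit 54904666258) (nat_lit 25) (nat_lit 5) (nat_lit 28) (nat_lit 5) (nat_lit 26) (nat_lit 5) (nat_lit 316) (nat_lit 264) (nat_lit 140)) (XT.nd (nat_lit 78) (nat_lit 0) (nat_lit 0) (XT.lf (nat_lit 0) (nat_lit 23097749515) (nat_lit 228) (nat_lit 44927954015) (nat_lit 76) (nat_lit 5582737247) (nat_lit 23) (nat_lit 5) (nat_lit 26) (nat_lit 5) (nat_lit 24) (nat_lit 5) (nat_lit 317) (nat_lit 264) (nat_lit 139)) (XT.lf (nat_lit 0) (nat_lit 38345070254) (nat_lit 228) (nat_lit 10435567690) (nat_lit 76) (nat_lit 27825109272) (nat_lit 23) (nat_lit 5) (nat_lit 26) (nat_lit 5) (nat_lit 24) (nat_lit 5) (nat_lit 318) (nat_lit 264) (nat_lit 138))))))))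
noncomputable def xc94 : XT := (XT.nd (nat_lit 34320) (nat_lit 0) (nat_lit 2964) (XT.nd (nat_lit 33462) (nat_lit 0) (nat_lit 9500) (XT.nd (nat_lit 390) (nat_lit 152) (nat_lit 0) (XT.nd (nat_lit 156) (nat_lit 304) (nat_lit 0) (XT.nd (nat_lit 78) (nat_lit 0) (nat_lit 0) (XT.lf (nat_lit 0) (nat_lit 26286784279) (nat_lit 152) (nat_lit 28316041894) (nat_lit 228) (nat_lit 25142655258) (nat_lit 21) (nat_lit 5) (nat_lit 23) (nat_lit 5) (nat_lit 24) (nat_lit 5) (nat_lit 319) (nat_lit 264) (nat_lit 137)) (XT.lf (nat_lit 0) (nat_lit 65055940961) (nat_lit 152) (nat_lit 6720487174) (nat_lit 228) (nat_lit 11262689787) (nat_lit 21) (nat_lit 5) (nat_lit 23) (nat_lit 5) (nat_lit 24) (nat_lit 5) (nat_lit 320) (nat_lit 264) (nat_lit 136))) (XT.nd (nat_lit 78) (nat_lit 152) (nat_lit 0) (XT.lf (nat_lit 0) (nat_lit 3586382636) (nat_lit 152) (nat_lit 67036657262) (nat_lit 76) (nat_lit 15863253718) (nat_lit 19)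 (nat_lit 5) (nat_lit 21) (nat_lit 5) (nat_lit 20) (nat_lit 5) (nat_lit 321) (nat_lit 264) (nat_lit 135)) (XT.nd (nat_lit 78) (nat_lit 152) (nat_lit 0) (XT.lf (nat_lit 0) (nat_lit 19197741173) (nat_lit 152) (nat_lit 31160751461) (nat_lit 76) (nat_lit 39736411042) (nat_lit 19) (nat_lit 5) (nat_lit 21) (nat_lit 5) (nat_lit 20) (nat_lit 5) (nat_lit 322) (nat_lit 264) (nat_lit 134)) (XT.lf (nat_lit 0) (nat_lit 6631670365) (nat_lit 152) (nat_lit 29017755982) (nat_lit 228) (nat_lit 58232728744) (nat_lit 17) (nat_lit 5) (nat_lit 19) (nat_lit 5) (nat_lit 20) (nat_lit 5) (nat_lit 323) (nat_lit 264) (nat_lit 133))))) (XT.nd (nat_lit 234) (nat_lit 76) (nat_lit 0) (XT.nd (nat_lit 78) (nat_lit 76) (nat_lit 0) (XT.lf (nat_lit 0) (nat_lit 46958385981) (nat_lit 152) (nat_lit 6282220794) (nat_lit 228) (nat_lit 44608658417) (nat_lit 17) (nat_lit 5) (nat_lit 19) (nat_lit 5) (nat_lit 20) (nat_lit 5) (nat_lit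 324) (nat_lit 264) (nat_lit 132)) (XT.nd (nat_lit 78) (nat_lit 76) (nat_lit 0) (XT.lf (nat_lit 0) (nat_lit 71876731261) (nat_lit 228) (nat_lit 12888655688) (nat_lit 76) (nat_lit 17244385580) (nat_lit 17) (nat_lit 5) (nat_lit 20) (nat_lit 5) (nat_lit 18) (nat_lit 4) (nat_lit 325) (nat_lit 264) (nat_lit 131)) (XT.lf (nat_lit 0) (nat_lit 27480538610) (nat_lit 76) (nat_lit 64288165673) (nat_lit 152) (nat_lit 14599882803) (nat_lit 16) (nat_lit 5) (nat_lit 17) (nat_lit 5) (nat_lit 18) (nat_lit 4) (nat_lit 326) (nat_lit 264) (nat_lit 130)))) (XT.nd (nat_lit 32682) (nat_lit 0) (nat_lit 10944) (XT.lf (nat_lit 0) (nat_lit 1807107545) (nat_lit 152) (nat_lit 40827461940) (nat_lit 76) (nat_lit 68306366440) (nat_lit 15) (nat_lit 5) (nat_lit 17) (nat_lit 5) (nat_lit 16) (nat_lit 5) (nat_lit 327) (nat_lit 264) (nat_lit 129)) (XT.nd (nat_lit 78) (nat_lit 0) (nat_lit 76) (XT.lf (nat_lit 0) (nat_lit 2278698039)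 (nat_lit 1140) (nat_lit 2395717949) (nat_lit 1140) (nat_lit 2395717949) (nat_lit 159) (nat_lit 3) (nat_lit 174) (nat_lit 3) (nat_lit 174) (nat_lit 5) (nat_lit 265) (nat_lit 265) (nat_lit 190)) (XT.lf (nat_lit 0) (nat_lit 5227898203) (nat_lit 1064) (nat_lit 9185694226) (nat_lit 1140) (nat_lit 62373877) (nat_lit 160) (nat_lit 5) (nat_lit 174) (nat_lit 5) (nat_lit 175) (nat_lit 5) (nat_lit 266) (nat_lit 265) (nat_lit 189)))))) (XT.nd (nat_lit 390) (nat_lit 1520) (nat_lit 0) (XT.nd (nat_lit 156) (nat_lit 0) (nat_lit 76) (XT.nd (nat_lit 78) (nat_lit 0) (nat_lit 76) (XT.lf (nat_lit 76) (nat_lit 1056781991) (nat_lit 0) (nat_lit 4997126566) (nat_lit 1140) (nat_lit 8770952738) (nat_lit 161) (nat_lit 5) (nat_lit 160) (nat_lit 5) (nat_lit 175) (nat_lit 5) (nat_lit 267) (nat_lit 265) (nat_lit 188)) (XT.lf (nat_lit 0) (nat_lit 7032872205) (nat_lit 1064) (nat_lit 3251788078) (nat_lit 1140) (nat_lit 4903258914)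 (nat_lit 161) (nat_lit 5) (nat_lit 175) (nat_lit 5) (nat_lit 176) (nat_lit 5) (nat_lit 268) (nat_lit 265) (nat_lit 187))) (XT.nd (nat_lit 78) (nat_lit 0) (nat_lit 76) (XT.lf (nat_lit 76) (nat_lit 7875642308) (nat_lit 0) (nat_lit 281904141) (nat_lit 1140) (nat_lit 7408745195) (nat_lit 162) (nat_lit 5) (nat_lit 161) (nat_lit 5) (nat_lit 176) (nat_lit 5) (nat_lit 269) (nat_lit 265) (nat_lit 186)) (XT.nd (nat_lit 78) (nat_lit 0) (nat_lit 76) (XT.lf (nat_lit 76) (nat_lit 3618429475) (nat_lit 0) (nat_lit 5858818320) (nat_lit 1140) (nat_lit 6482232562) (nat_lit 163) (nat_lit 5) (nat_lit 162) (nat_lit 5) (nat_lit 177) (nat_lit 5) (nat_lit 270) (nat_lit 265) (nat_lit 185)) (XT.lf (nat_lit 0) (nat_lit 10963360323) (nat_lit 1064) (nat_lit 783171597) (nat_lit 1140) (nat_lit 4622842326) (nat_lit 163) (nat_lit 5) (nat_lit 177) (nat_lit 5) (nat_lit 178) (nat_lit 5) (nat_lit 271) (nat_lit 265) (nat_lit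 184))))) (XT.nd (nat_lit 234) (nat_lit 1748) (nat_lit 0) (XT.nd (nat_lit 78) (nat_lit 0) (nat_lit 76) (XT.lf (nat_lit 76) (nat_lit 11499929984) (nat_lit 0) (nat_lit 1168007997) (nat_lit 1140) (nat_lit 4127555799) (nat_lit 164) (nat_lit 5) (nat_lit 163) (nat_lit 5) (nat_lit 178) (nat_lit 5) (nat_lit 272) (nat_lit 265) (nat_lit 183)) (XT.nd (nat_lit 78) (nat_lit 0) (nat_lit 76) (XT.lf (nat_lit 76) (nat_lit 7197416010) (nat_lit 0) (nat_lit 7408796416) (nat_lit 1140) (nat_lit 2632305909) (nat_lit 165) (nat_lit 5) (nat_lit 164) (nat_lit 5) (nat_lit 179) (nat_lit 5) (nat_lit 273) (nat_lit 265) (nat_lit 182)) (XT.lf (nat_lit 76) (nat_lit 2710678137) (nat_lit 0) (nat_lit 14035232765) (nat_lit 1140) (nat_lit 954698459) (nat_lit 166) (nat_lit 5) (nat_lit 165) (nat_lit 5) (nat_lit 180) (nat_lit 5) (nat_lit 274) (nat_lit 265) (nat_lit 181)))) (XT.nd (nat_lit 78) (nat_lit 760) (nat_lit 0) (XT.lf (nat_lit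 0) (nat_lit 947524022) (nat_lit 1140) (nat_lit 1974916598) (nat_lit 1216) (nat_lit 15258484063) (nat_lit 150) (nat_lit 5) (nat_lit 165) (nat_lit 5) (nat_lit 166) (nat_lit 5) (nat_lit 275) (nat_lit 265) (nat_lit 180)) (XT.nd (nat_lit 78) (nat_lit 836) (nat_lit 0) (XT.lf (nat_lit 0) (nat_lit 3103374591) (nat_lit 1140) (nat_lit 6871875586) (nat_lit 76) (nat_lit 8704418688) (nat_lit 151) (nat_lit 5) (nat_lit 166) (nat_lit 5) (nat_lit 152) (nat_lit 5) (nat_lit 276) (nat_lit 265) (nat_lit 179)) (XT.lf (nat_lit 0) (nat_lit 5482437131) (nat_lit 912) (nat_lit 12005867825) (nat_lit 76) (nat_lit 1711625117) (nat_lit 140) (nat_lit 5) (nat_lit 152) (nat_lit 5) (nat_lit 141) (nat_lit 5) (nat_lit 277) (nat_lit 265) (nat_lit 178))))))) (XT.nd (nat_lit 858) (nat_lit 2660) (nat_lit 0) (XT.nd (nat_lit 390) (nat_lit 1824) (nat_lit 0) (XT.nd (nat_lit 156) (nat_lit 1520) (nat_lit 0) (XT.nd (nat_lit 78) (nat_lit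 0) (nat_lit 0) (XT.lf (nat_lit 0) (nat_lit 2288089391) (nat_lit 532) (nat_lit 5866615691) (nat_lit 608) (nat_lit 11586312069) (nat_lit 133) (nat_lit 5) (nat_lit 140) (nat_lit 5) (nat_lit 141) (nat_lit 5) (nat_lit 278) (nat_lit 265) (nat_lit 177)) (XT.lf (nat_lit 0) (nat_lit 11127235226) (nat_lit 608) (nat_lit 2838053836) (nat_lit 76) (nat_lit 6338908514) (nat_lit 133) (nat_lit 5) (nat_lit 141) (nat_lit 5) (nat_lit 134) (nat_lit 5) (nat_lit 279) (nat_lit 265) (nat_lit 176))) (XT.nd (nat_lit 78) (nat_lit 988) (nat_lit 0) (XT.lf (nat_lit 0) (nat_lit 12678512094) (nat_lit 532) (nat_lit 1732803038) (nat_lit 608) (nat_lit 6479370818) (nat_lit 126) (nat_lit 5) (nat_lit 133) (nat_lit 5) (nat_lit 134) (nat_lit 5) (nat_lit 280) (nat_lit 265) (nat_lit 175)) (XT.nd (nat_lit 78) (nat_lit 532) (nat_lit 0) (XT.lf (nat_lit 0) (nat_lit 7547457931) (nat_lit 456) (nat_lit 10503552339) (nat_lit 532) (nat_lit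 3449781016) (nat_lit 120) (nat_lit 5) (nat_lit 126) (nat_lit 5) (nat_lit 127) (nat_lit 5) (nat_lit 281) (nat_lit 265) (nat_lit 174)) (XT.lf (nat_lit 0) (nat_lit 2112504962) (nat_lit 532) (nat_lit 19887425415) (nat_lit 608) (nat_lit 137687526) (nat_lit 113) (nat_lit 5) (nat_lit 120) (nat_lit 5) (nat_lit 121) (nat_lit 5) (nat_lit 282) (nat_lit 265) (nat_lit 173))))) (XT.nd (nat_lit 234) (nat_lit 836) (nat_lit 0) (XT.nd (nat_lit 78) (nat_lit 912) (nat_lit 0) (XT.lf (nat_lit 0) (nat_lit 3509571967) (nat_lit 608) (nat_lit 3685512960) (nat_lit 76) (nat_lit 15603226344) (nat_lit 112) (nat_lit 5) (nat_lit 120) (nat_lit 5) (nat_lit 113) (nat_lit 5) (nat_lit 283) (nat_lit 265) (nat_lit 172)) (XT.nd (nat_lit 78) (nat_lit 456) (nat_lit 0) (XT.lf (nat_lit 0) (nat_lit 7512963854) (nat_lit 532) (nat_lit 9827759869) (nat_lit 76) (nat_lit 6146005432) (nat_lit 106) (nat_lit 5) (nat_lit 113) (nat_lit 5) (nat_lit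 107) (nat_lit 5) (nat_lit 284) (nat_lit 265) (nat_lit 171)) (XT.lf (nat_lit 0) (nat_lit 7802122246) (nat_lit 456) (nat_lit 4085357692) (nat_lit 532) (nat_lit 12316987217) (nat_lit 100) (nat_lit 5) (nat_lit 106) (nat_lit 5) (nat_lit 107) (nat_lit 5) (nat_lit 285) (nat_lit 265) (nat_lit 170)))) (XT.nd (nat_lit 78) (nat_lit 456) (nat_lit 0) (XT.lf (nat_lit 0) (nat_lit 1480823543) (nat_lit 380) (nat_lit 15196386579) (nat_lit 456) (nat_lit 8275013820) (nat_lit 95) (nat_lit 5) (nat_lit 100) (nat_lit 5) (nat_lit 101) (nat_lit 5) (nat_lit 286) (nat_lit 265) (nat_lit 169)) (XT.nd (nat_lit 78) (nat_lit 456) (nat_lit 0) (XT.lf (nat_lit 0) (nat_lit 20542960073) (nat_lit 380) (nat_lit 1359244487) (nat_lit 456) (nat_lit 3829315946) (nat_lit 95) (nat_lit 5) (nat_lit 100) (nat_lit 5) (nat_lit 101) (nat_lit 5) (nat_lit 287) (nat_lit 265) (nat_lit 168)) (XT.lf (nat_lit 0) (nat_lit 1074029136) (nat_lit 456)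 (nat_lit 12410607090) (nat_lit 76) (nat_lit 13057375351) (nat_lit 89) (nat_lit 5) (nat_lit 95) (nat_lit 5) (nat_lit 90) (nat_lit 5) (nat_lit 288) (nat_lit 265) (nat_lit 167)))))) (XT.nd (nat_lit 390) (nat_lit 1216) (nat_lit 0) (XT.nd (nat_lit 156) (nat_lit 1064) (nat_lit 0) (XT.nd (nat_lit 78) (nat_lit 0) (nat_lit 0) (XT.lf (nat_lit 0) (nat_lit 6277119996) (nat_lit 456) (nat_lit 20190468585) (nat_lit 76) (nat_lit 920310217) (nat_lit 84) (nat_lit 5) (nat_lit 90) (nat_lit 5) (nat_lit 85) (nat_lit 5) (nat_lit 289) (nat_lit 265) (nat_lit 166)) (XT.lf (nat_lit 0) (nat_lit 11993018699) (nat_lit 456) (nat_lit 379707524) (nat_lit 76) (nat_lit 15895795751) (nat_lit 84) (nat_lit 5) (nat_lit 90) (nat_lit 5) (nat_lit 85) (nat_lit 5) (nat_lit 290) (nat_lit 265) (nat_lit 165))) (XT.nd (nat_lit 78) (nat_lit 684) (nat_lit 0) (XT.lf (nat_lit 0) (nat_lit 18208187009) (nat_lit 456) (nat_lit 8399680087) (nat_lit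 76) (nat_lit 2578925158) (nat_lit 79) (nat_lit 5) (nat_lit 85) (nat_lit 5) (nat_lit 80) (nat_lit 5) (nat_lit 291) (nat_lit 265) (nat_lit 164)) (XT.nd (nat_lit 78) (nat_lit 380) (nat_lit 0) (XT.lf (nat_lit 0) (nat_lit 12983284137) (nat_lit 304) (nat_lit 11992987004) (nat_lit 380) (nat_lit 5167459408) (nat_lit 75) (nat_lit 5) (nat_lit 79) (nat_lit 5) (nat_lit 80) (nat_lit 5) (nat_lit 292) (nat_lit 265) (nat_lit 163)) (XT.lf (nat_lit 0) (nat_lit 1069265775) (nat_lit 380) (nat_lit 26649028414) (nat_lit 76) (nat_lit 3425372353) (nat_lit 70) (nat_lit 5) (nat_lit 75) (nat_lit 5) (nat_lit 71) (nat_lit 5) (nat_lit 293) (nat_lit 265) (nat_lit 162))))) (XT.nd (nat_lit 234) (nat_lit 608) (nat_lit 0) (XT.nd (nat_lit 78) (nat_lit 608) (nat_lit 0) (XT.lf (nat_lit 0) (nat_lit 7800577004) (nat_lit 380) (nat_lit 4786394477) (nat_lit 76) (nat_lit 19596421270) (nat_lit 70) (nat_lit 5) (nat_lit 75) (nat_lit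 5) (nat_lit 71) (nat_lit 5) (nat_lit 294) (nat_lit 265) (nat_lit 161)) (XT.nd (nat_lit 78) (nat_lit 304) (nat_lit 0) (XT.lf (nat_lit 0) (nat_lit 15069607602) (nat_lit 380) (nat_lit 14786388273) (nat_lit 76) (nat_lit 3413090904) (nat_lit 66) (nat_lit 5) (nat_lit 71) (nat_lit 5) (nat_lit 67) (nat_lit 5) (nat_lit 295) (nat_lit 265) (nat_lit 160)) (XT.lf (nat_lit 0) (nat_lit 8635215123) (nat_lit 304) (nat_lit 14316711722) (nat_lit 380) (nat_lit 11449658904) (nat_lit 62) (nat_lit 5) (nat_lit 66) (nat_lit 5) (nat_lit 67) (nat_lit 5) (nat_lit 296) (nat_lit 265) (nat_lit 159)))) (XT.nd (nat_lit 78) (nat_lit 608) (nat_lit 0) (XT.lf (nat_lit 0) (nat_lit 31391646395) (nat_lit 380) (nat_lit 2083303732) (nat_lit 76) (nat_lit 2110875634) (nat_lit 62) (nat_lit 5) (nat_lit 67) (nat_lit 5) (nat_lit 63) (nat_lit 5) (nat_lit 297) (nat_lit 265) (nat_lit 158)) (XT.nd (nat_lit 78) (nat_lit 304) (nat_lit 0) (XT.lf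 (nat_lit 0) (nat_lit 3717916678) (nat_lit 304) (nat_lit 13777986000) (nat_lit 76) (nat_lit 19321581432) (nat_lit 58) (nat_lit 5) (nat_lit 62) (nat_lit 5) (nat_lit 59) (nat_lit 5) (nat_lit 298) (nat_lit 265) (nat_lit 157)) (XT.lf (nat_lit 0) (nat_lit 11521660126) (nat_lit 304) (nat_lit 541455105) (nat_lit 380) (nat_lit 26042650034) (nat_lit 54) (nat_lit 5) (nat_lit 58) (nat_lit 5) (nat_lit 59) (nat_lit 5) (nat_lit 299) (nat_lit 265) (nat_lit 156))))))))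
noncomputable def xc95 : XT := (XT.nd (nat_lit 1716) (nat_lit 380) (nat_lit 0) (XT.nd (nat_lit 858) (nat_lit 912) (nat_lit 0) (XT.nd (nat_lit 390) (nat_lit 836) (nat_lit 0) (XT.nd (nat_lit 156) (nat_lit 532) (nat_lit 0) (XT.nd (nat_lit 78) (nat_lit 228) (nat_lit 0) (XT.lf (nat_lit 0) (nat_lit 21126029921) (nat_lit 380) (nat_lit 1259719060) (nat_lit 76) (nat_lit 17063710074) (nat_lit 54) (nat_lit 5) (nat_lit 59) (nat_lit 5) (nat_lit 55) (nat_lit 5) (nat_lit 300) (nat_lit 265) (nat_lit 155)) (XT.lf (nat_lit 0) (nat_lit 25817405512) (nat_lit 228) (nat_lit 5070036063) (nat_lit 304) (nat_lit 9965547103) (nat_lit 51) (nat_lit 5) (nat_lit 54) (nat_lit 5) (nat_lit 55) (nat_lit 5) (nat_lit 301) (nat_lit 265) (nat_lit 154))) (XT.nd (nat_lit 78) (nat_lit 304) (nat_lit 0) (XT.lf (nat_lit 0) (nat_lit 12045608611) (nat_lit 228) (nat_lit 29338200987) (nat_lit 304) (nat_lit 935489735) (nat_lit 48) (nat_lit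 5) (nat_lit 51) (nat_lit 5) (nat_lit 52) (nat_lit 5) (nat_lit 302) (nat_lit 265) (nat_lit 153)) (XT.nd (nat_lit 78) (nat_lit 228) (nat_lit 0) (XT.lf (nat_lit 0) (nat_lit 8578940335) (nat_lit 304) (nat_lit 3205595672) (nat_lit 76) (nat_lit 32065946265) (nat_lit 47) (nat_lit 5) (nat_lit 51) (nat_lit 5) (nat_lit 48) (nat_lit 5) (nat_lit 303) (nat_lit 265) (nat_lit 152)) (XT.lf (nat_lit 0) (nat_lit 18855862457) (nat_lit 304) (nat_lit 19820230687) (nat_lit 76) (nat_lit 6772679604) (nat_lit 44) (nat_lit 5) (nat_lit 48) (nat_lit 5) (nat_lit 45) (nat_lit 5) (nat_lit 304) (nat_lit 265) (nat_lit 151))))) (XT.nd (nat_lit 234) (nat_lit 380) (nat_lit 0) (XT.nd (nat_lit 78) (nat_lit 228) (nat_lit 0) (XT.lf (nat_lit 0) (nat_lit 8888719000) (nat_lit 228) (nat_lit 20988370326) (nat_lit 304) (nat_lit 17242983993) (nat_lit 41) (nat_lit 5) (nat_lit 44) (nat_lit 5) (nat_lit 45) (nat_lit 5) (nat_lit 305) (nat_lit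 265) (nat_lit 150)) (XT.nd (nat_lit 78) (nat_lit 228) (nat_lit 0) (XT.lf (nat_lit 0) (nat_lit 39436764194) (nat_lit 228) (nat_lit 2209634475) (nat_lit 304) (nat_lit 7222638499) (nat_lit 41) (nat_lit 5) (nat_lit 44) (nat_lit 5) (nat_lit 45) (nat_lit 5) (nat_lit 306) (nat_lit 265) (nat_lit 149)) (XT.lf (nat_lit 0) (nat_lit 3601774880) (nat_lit 228) (nat_lit 29691058497) (nat_lit 76) (nat_lit 17400650151) (nat_lit 38) (nat_lit 5) (nat_lit 41) (nat_lit 5) (nat_lit 39) (nat_lit 5) (nat_lit 307) (nat_lit 265) (nat_lit 148)))) (XT.nd (nat_lit 78) (nat_lit 152) (nat_lit 0) (XT.lf (nat_lit 0) (nat_lit 452331575) (nat_lit 228) (nat_lit 14485242359) (nat_lit 304) (nat_lit 37665854550) (nat_lit 35) (nat_lit 5) (nat_lit 38) (nat_lit 5) (nat_lit 39) (nat_lit 5) (nat_lit 308) (nat_lit 265) (nat_lit 147)) (XT.nd (nat_lit 78) (nat_lit 152) (nat_lit 0) (XT.lf (nat_lit 0) (nat_lit 27193049228) (nat_lit 304)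 (nat_lit 21939902416) (nat_lit 76) (nat_lit 5465339907) (nat_lit 35) (nat_lit 5) (nat_lit 39) (nat_lit 5) (nat_lit 36) (nat_lit 5) (nat_lit 309) (nat_lit 265) (nat_lit 146)) (XT.lf (nat_lit 0) (nat_lit 9817768539) (nat_lit 152) (nat_lit 30478038925) (nat_lit 228) (nat_lit 16390062130) (nat_lit 33) (nat_lit 5) (nat_lit 35) (nat_lit 5) (nat_lit 36) (nat_lit 5) (nat_lit 310) (nat_lit 265) (nat_lit 145)))))) (XT.nd (nat_lit 390) (nat_lit 532) (nat_lit 0) (XT.nd (nat_lit 156) (nat_lit 152) (nat_lit 0) (XT.nd (nat_lit 78) (nat_lit 228) (nat_lit 0) (XT.lf (nat_lit 0) (nat_lit 43612613422) (nat_lit 152) (nat_lit 10661074479) (nat_lit 228) (nat_lit 4597545867) (nat_lit 33) (nat_lit 5) (nat_lit 35) (nat_lit 5) (nat_lit 36) (nat_lit 5) (nat_lit 311) (nat_lit 265) (nat_lit 144)) (XT.lf (nat_lit 0) (nat_lit 7901996661) (nat_lit 228) (nat_lit 43055689888) (nat_lit 76) (nat_lit 10197861764) (nat_lit 30)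 (nat_lit 5) (nat_lit 33) (nat_lit 5) (nat_lit 31) (nat_lit 5) (nat_lit 312) (nat_lit 265) (nat_lit 143))) (XT.nd (nat_lit 78) (nat_lit 152) (nat_lit 0) (XT.lf (nat_lit 0) (nat_lit 21193055976) (nat_lit 228) (nat_lit 10268564552) (nat_lit 76) (nat_lit 32083249684) (nat_lit 30) (nat_lit 5) (nat_lit 33) (nat_lit 5) (nat_lit 31) (nat_lit 5) (nat_lit 313) (nat_lit 265) (nat_lit 142)) (XT.nd (nat_lit 78) (nat_lit 0) (nat_lit 0) (XT.lf (nat_lit 0) (nat_lit 24630202472) (nat_lit 152) (nat_lit 10749994017) (nat_lit 228) (nat_lit 30666521537) (nat_lit 28) (nat_lit 5) (nat_lit 30) (nat_lit 5) (nat_lit 31) (nat_lit 5) (nat_lit 314) (nat_lit 265) (nat_lit 141)) (XT.lf (nat_lit 0) (nat_lit 50484068135) (nat_lit 228) (nat_lit 7296982494) (nat_lit 76) (nat_lit 10886391779) (nat_lit 28) (nat_lit 5) (nat_lit 31) (nat_lit 5) (nat_lit 29) (nat_lit 5) (nat_lit 315) (nat_lit 265) (nat_lit 140))))) (XT.nd (nat_lit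 234) (nat_lit 152) (nat_lit 0) (XT.nd (nat_lit 78) (nat_lit 228) (nat_lit 0) (XT.lf (nat_lit 0) (nat_lit 28977647445) (nat_lit 152) (nat_lit 37747691232) (nat_lit 228) (nat_lit 4682403314) (nat_lit 26) (nat_lit 5) (nat_lit 28) (nat_lit 5) (nat_lit 29) (nat_lit 5) (nat_lit 316) (nat_lit 265) (nat_lit 139)) (XT.nd (nat_lit 78) (nat_lit 152) (nat_lit 0) (XT.lf (nat_lit 0) (nat_lit 9379479861) (nat_lit 228) (nat_lit 7164021150) (nat_lit 76) (nat_lit 57736688992) (nat_lit 25) (nat_lit 5) (nat_lit 28) (nat_lit 5) (nat_lit 26) (nat_lit 5) (nat_lit 317) (nat_lit 265) (nat_lit 138)) (XT.lf (nat_lit 0) (nat_lit 24394591978) (nat_lit 228) (nat_lit 46940497340) (nat_lit 76) (nat_lit 5949375592) (nat_lit 23) (nat_lit 5) (nat_lit 26) (nat_lit 5) (nat_lit 24) (nat_lit 5) (nat_lit 318) (nat_lit 265) (nat_lit 137)))) (XT.nd (nat_lit 78) (nat_lit 152) (nat_lit 0) (XT.lf (nat_lit 0) (nat_lit 40397518992) (nat_lit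 228) (nat_lit 10734627621) (nat_lit 76) (nat_lit 29299699481) (nat_lit 23) (nat_lit 5) (nat_lit 26) (nat_lit 5) (nat_lit 24) (nat_lit 5) (nat_lit 319) (nat_lit 265) (nat_lit 136)) (XT.nd (nat_lit 78) (nat_lit 0) (nat_lit 0) (XT.lf (nat_lit 0) (nat_lit 27817457767) (nat_lit 152) (nat_lit 29646346610) (nat_lit 228) (nat_lit 26264899708) (nat_lit 21) (nat_lit 5) (nat_lit 23) (nat_lit 5) (nat_lit 24) (nat_lit 5) (nat_lit 320) (nat_lit 265) (nat_lit 135)) (XT.lf (nat_lit 0) (nat_lit 68514770651) (nat_lit 152) (nat_lit 6975085458) (nat_lit 228) (nat_lit 11697359216) (nat_lit 21) (nat_lit 5) (nat_lit 23) (nat_lit 5) (nat_lit 24) (nat_lit 5) (nat_lit 321) (nat_lit 265) (nat_lit 134))))))) (XT.nd (nat_lit 33540) (nat_lit 0) (nat_lit 8360) (XT.nd (nat_lit 390) (nat_lit 76) (nat_lit 0) (XT.nd (nat_lit 156) (nat_lit 152) (nat_lit 0) (XT.nd (nat_lit 78) (nat_lit 0) (nat_lit 0) (XT.lf (nat_lit 0) (nat_lit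 3888386617) (nat_lit 152) (nat_lit 70182822859) (nat_lit 76) (nat_lit 16735607046) (nat_lit 19) (nat_lit 5) (nat_lit 21) (nat_lit 5) (nat_lit 20) (nat_lit 5) (nat_lit 322) (nat_lit 265) (nat_lit 133)) (XT.lf (nat_lit 0) (nat_lit 20274470944) (nat_lit 152) (nat_lit 32522915446) (nat_lit 76) (nat_lit 41798651253) (nat_lit 19) (nat_lit 5) (nat_lit 21) (nat_lit 5) (nat_lit 20) (nat_lit 5) (nat_lit 323) (nat_lit 265) (nat_lit 132))) (XT.nd (nat_lit 78) (nat_lit 0) (nat_lit 0) (XT.lf (nat_lit 0) (nat_lit 7153512794) (nat_lit 152) (nat_lit 30391492530) (nat_lit 228) (nat_lit 61027763402) (nat_lit 17) (nat_lit 5) (nat_lit 19) (nat_lit 5) (nat_lit 20) (nat_lit 5) (nat_lit 324) (nat_lit 265) (nat_lit 131)) (XT.nd (nat_lit 78) (nat_lit 0) (nat_lit 0) (XT.lf (nat_lit 0) (nat_lit 49487504243) (nat_lit 152) (nat_lit 6522854452) (nat_lit 228) (nat_lit 46728042025) (nat_lit 17) (nat_lit 5) (nat_lit 19)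 (nat_lit 5) (nat_lit 20) (nat_lit 5) (nat_lit 325) (nat_lit 265) (nat_lit 130)) (XT.lf (nat_lit 0) (nat_lit 75573832481) (nat_lit 228) (nat_lit 13358021438) (nat_lit 76) (nat_lit 18175217786) (nat_lit 17) (nat_lit 5) (nat_lit 20) (nat_lit 5) (nat_lit 18) (nat_lit 4) (nat_lit 326) (nat_lit 265) (nat_lit 129))))) (XT.nd (nat_lit 32916) (nat_lit 0) (nat_lit 10944) (XT.nd (nat_lit 32760) (nat_lit 0) (nat_lit 10868) (XT.lf (nat_lit 0) (nat_lit 29024614313) (nat_lit 76) (nat_lit 67432507090) (nat_lit 152) (nat_lit 15226808428) (nat_lit 16) (nat_lit 5) (nat_lit 17) (nat_lit 5) (nat_lit 18) (nat_lit 4) (nat_lit 327) (nat_lit 265) (nat_lit 128)) (XT.nd (nat_lit 78) (nat_lit 0) (nat_lit 0) (XT.lf (nat_lit 0) (nat_lit 2889843299) (nat_lit 1140) (nat_lit 2258893561) (nat_lit 1140) (nat_lit 2258893561) (nat_lit 159) (nat_lit 3) (nat_lit 174) (nat_lit 3) (nat_lit 174) (nat_lit 5) (nat_lit 266) (nat_lit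 266) (nat_lit 188)) (XT.lf (nat_lit 76) (nat_lit 6053956238) (nat_lit 0) (nat_lit 386554114) (nat_lit 1140) (nat_lit 8728634128) (nat_lit 160) (nat_lit 5) (nat_lit 159) (nat_lit 3) (nat_lit 174) (nat_lit 5) (nat_lit 267) (nat_lit 266) (nat_lit 187)))) (XT.nd (nat_lit 78) (nat_lit 0) (nat_lit 76) (XT.lf (nat_lit 76) (nat_lit 1627834723) (nat_lit 0) (nat_lit 5636132977) (nat_lit 1140) (nat_lit 8272931344) (nat_lit 161) (nat_lit 5) (nat_lit 160) (nat_lit 5) (nat_lit 175) (nat_lit 5) (nat_lit 268) (nat_lit 266) (nat_lit 186)) (XT.nd (nat_lit 78) (nat_lit 0) (nat_lit 0) (XT.lf (nat_lit 0) (nat_lit 8245109116) (nat_lit 1064) (nat_lit 2889463485) (nat_lit 1140) (nat_lit 4785034848) (nat_lit 161) (nat_lit 5) (nat_lit 175) (nat_lit 5) (nat_lit 176) (nat_lit 5) (nat_lit 269) (nat_lit 266) (nat_lit 185)) (XT.lf (nat_lit 76) (nat_lit 8779291866) (nat_lit 0) (nat_lit 610645730) (nat_lit 1140) (nat_lit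 6928133301) (nat_lit 162) (nat_lit 5) (nat_lit 161) (nat_lit 5) (nat_lit 176) (nat_lit 5) (nat_lit 270) (nat_lit 266) (nat_lit 184)))))) (XT.nd (nat_lit 390) (nat_lit 2736) (nat_lit 0) (XT.nd (nat_lit 156) (nat_lit 0) (nat_lit 76) (XT.nd (nat_lit 78) (nat_lit 0) (nat_lit 76) (XT.lf (nat_lit 76) (nat_lit 4323315717) (nat_lit 0) (nat_lit 6415201854) (nat_lit 1140) (nat_lit 5993600380) (nat_lit 163) (nat_lit 5) (nat_lit 162) (nat_lit 5) (nat_lit 177) (nat_lit 5) (nat_lit 271) (nat_lit 266) (nat_lit 183)) (XT.lf (nat_lit 0) (nat_lit 12259028353) (nat_lit 1064) (nat_lit 296774402) (nat_lit 1140) (nat_lit 4607982629) (nat_lit 163) (nat_lit 5) (nat_lit 177) (nat_lit 5) (nat_lit 178) (nat_lit 5) (nat_lit 272) (nat_lit 266) (nat_lit 182))) (XT.nd (nat_lit 78) (nat_lit 0) (nat_lit 76) (XT.lf (nat_lit 76) (nat_lit 12585417307) (nat_lit 0) (nat_lit 1432729498) (nat_lit 1140) (nat_lit 3594062474) (nat_lit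 164) (nat_lit 5) (nat_lit 163) (nat_lit 5) (nat_lit 178) (nat_lit 5) (nat_lit 273) (nat_lit 266) (nat_lit 181)) (XT.nd (nat_lit 78) (nat_lit 0) (nat_lit 76) (XT.lf (nat_lit 76) (nat_lit 8077469155) (nat_lit 0) (nat_lit 7944843384) (nat_lit 1140) (nat_lit 2056077235) (nat_lit 165) (nat_lit 5) (nat_lit 164) (nat_lit 5) (nat_lit 179) (nat_lit 5) (nat_lit 274) (nat_lit 266) (nat_lit 180)) (XT.lf (nat_lit 76) (nat_lit 3374452042) (nat_lit 0) (nat_lit 14865448910) (nat_lit 1140) (nat_lit 324627764) (nat_lit 166) (nat_lit 5) (nat_lit 165) (nat_lit 5) (nat_lit 180) (nat_lit 5) (nat_lit 275) (nat_lit 266) (nat_lit 179))))) (XT.nd (nat_lit 234) (nat_lit 1064) (nat_lit 0) (XT.nd (nat_lit 78) (nat_lit 760) (nat_lit 0) (XT.lf (nat_lit 0) (nat_lit 1627832784) (nat_lit 1140) (nat_lit 1556676113) (nat_lit 1216) (nat_lit 15885170040) (nat_lit 150) (nat_lit 5) (nat_lit 165) (nat_lit 5) (nat_lit 166) (nat_lit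 5) (nat_lit 276) (nat_lit 266) (nat_lit 178)) (XT.nd (nat_lit 78) (nat_lit 836) (nat_lit 0) (XT.lf (nat_lit 0) (nat_lit 3865149694) (nat_lit 1140) (nat_lit 6692818172) (nat_lit 76) (nat_lit 9036244345) (nat_lit 151) (nat_lit 5) (nat_lit 166) (nat_lit 5) (nat_lit 152) (nat_lit 5) (nat_lit 277) (nat_lit 266) (nat_lit 177)) (XT.lf (nat_lit 0) (nat_lit 6338439090) (nat_lit 912) (nat_lit 12079110653) (nat_lit 76) (nat_lit 1723737662) (nat_lit 140) (nat_lit 5) (nat_lit 152) (nat_lit 5) (nat_lit 141) (nat_lit 5) (nat_lit 278) (nat_lit 266) (nat_lit 176)))) (XT.nd (nat_lit 78) (nat_lit 532) (nat_lit 0) (XT.lf (nat_lit 0) (nat_lit 2914436626) (nat_lit 532) (nat_lit 6207096344) (nat_lit 608) (nat_lit 11588635813) (nat_lit 133) (nat_lit 5) (nat_lit 140) (nat_lit 5) (nat_lit 141) (nat_lit 5) (nat_lit 279) (nat_lit 266) (nat_lit 175)) (XT.nd (nat_lit 78) (nat_lit 532) (nat_lit 0) (XT.lf (nat_lit 0) (nat_lit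 12215634512) (nat_lit 608) (nat_lit 2474913457) (nat_lit 76) (nat_lit 6611825554) (nat_lit 133) (nat_lit 5) (nat_lit 141) (nat_lit 5) (nat_lit 134) (nat_lit 5) (nat_lit 280) (nat_lit 266) (nat_lit 174)) (XT.lf (nat_lit 0) (nat_lit 13803003812) (nat_lit 532) (nat_lit 1840295103) (nat_lit 608) (nat_lit 6275557072) (nat_lit 126) (nat_lit 5) (nat_lit 133) (nat_lit 5) (nat_lit 134) (nat_lit 5) (nat_lit 281) (nat_lit 266) (nat_lit 173))))))))
noncomputable def xc96 : XT := (XT.nd (nat_lit 1638) (nat_lit 2432) (nat_lit 0) (XT.nd (nat_lit 780) (nat_lit 2128) (nat_lit 0) (XT.nd (nat_lit 390) (nat_lit 1596) (nat_lit 0) (XT.nd (nat_lit 156) (nat_lit 912) (nat_lit 0) (XT.nd (nat_lit 78) (nat_lit 608) (nat_lit 0) (XT.lf (nat_lit 0) (nat_lit 8417424839) (nat_lit 456) (nat_lit 11027744949) (nat_lit 532) (nat_lit 3114939725) (nat_lit 120) (nat_lit 5) (nat_lit 126) (nat_lit 5) (nat_lit 127) (nat_lit 5) (nat_lit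 282) (nat_lit 266) (nat_lit 172)) (XT.lf (nat_lit 0) (nat_lit 336794733) (nat_lit 608) (nat_lit 20520819747) (nat_lit 76) (nat_lit 2371669905) (nat_lit 112) (nat_lit 5) (nat_lit 120) (nat_lit 5) (nat_lit 113) (nat_lit 5) (nat_lit 283) (nat_lit 266) (nat_lit 171))) (XT.nd (nat_lit 78) (nat_lit 912) (nat_lit 0) (XT.lf (nat_lit 0) (nat_lit 4140808201) (nat_lit 608) (nat_lit 3389637058) (nat_lit 76) (nat_lit 16393251953) (nat_lit 112) (nat_lit 5) (nat_lit 120) (nat_lit 5) (nat_lit 113) (nat_lit 5) (nat_lit 284) (nat_lit 266) (nat_lit 170)) (XT.nd (nat_lit 78) (nat_lit 456) (nat_lit 0) (XT.lf (nat_lit 0) (nat_lit 8327417857) (nat_lit 532) (nat_lit 9839055240) (nat_lit 76) (nat_lit 6480612253) (nat_lit 106) (nat_lit 5) (nat_lit 113) (nat_lit 5) (nat_lit 107) (nat_lit 5) (nat_lit 285) (nat_lit 266) (nat_lit 169)) (XT.lf (nat_lit 0) (nat_lit 8658559223) (nat_lit 456) (nat_lit 4245687666) (nat_lit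 532) (nat_lit 12496994608) (nat_lit 100) (nat_lit 5) (nat_lit 106) (nat_lit 5) (nat_lit 107) (nat_lit 5) (nat_lit 286) (nat_lit 266) (nat_lit 168))))) (XT.nd (nat_lit 156) (nat_lit 1216) (nat_lit 0) (XT.nd (nat_lit 78) (nat_lit 0) (nat_lit 0) (XT.lf (nat_lit 0) (nat_lit 2020481555) (nat_lit 380) (nat_lit 15897746115) (nat_lit 456) (nat_lit 8268652541) (nat_lit 95) (nat_lit 5) (nat_lit 100) (nat_lit 5) (nat_lit 101) (nat_lit 5) (nat_lit 287) (nat_lit 266) (nat_lit 167)) (XT.lf (nat_lit 0) (nat_lit 22013552681) (nat_lit 380) (nat_lit 1371530718) (nat_lit 456) (nat_lit 3620675104) (nat_lit 95) (nat_lit 5) (nat_lit 100) (nat_lit 5) (nat_lit 101) (nat_lit 5) (nat_lit 288) (nat_lit 266) (nat_lit 166))) (XT.nd (nat_lit 78) (nat_lit 760) (nat_lit 0) (XT.lf (nat_lit 0) (nat_lit 1506156315) (nat_lit 456) (nat_lit 12580756324) (nat_lit 76) (nat_lit 13770194903) (nat_lit 89) (nat_lit 5) (nat_lit 95)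 (nat_lit 5) (nat_lit 90) (nat_lit 5) (nat_lit 289) (nat_lit 266) (nat_lit 165)) (XT.nd (nat_lit 78) (nat_lit 380) (nat_lit 0) (XT.lf (nat_lit 0) (nat_lit 6956287063) (nat_lit 456) (nat_lit 20751662233) (nat_lit 76) (nat_lit 1037764308) (nat_lit 84) (nat_lit 5) (nat_lit 90) (nat_lit 5) (nat_lit 85) (nat_lit 5) (nat_lit 290) (nat_lit 266) (nat_lit 164)) (XT.lf (nat_lit 0) (nat_lit 28850827) (nat_lit 380) (nat_lit 12912011440) (nat_lit 456) (nat_lit 16730048786) (nat_lit 79) (nat_lit 5) (nat_lit 84) (nat_lit 5) (nat_lit 85) (nat_lit 5) (nat_lit 291) (nat_lit 266) (nat_lit 163)))))) (XT.nd (nat_lit 390) (nat_lit 1140) (nat_lit 0) (XT.nd (nat_lit 156) (nat_lit 684) (nat_lit 0) (XT.nd (nat_lit 78) (nat_lit 304) (nat_lit 0) (XT.lf (nat_lit 0) (nat_lit 19454694320) (nat_lit 456) (nat_lit 8395062844) (nat_lit 76) (nat_lit 2785728676) (nat_lit 79) (nat_lit 5) (nat_lit 85) (nat_lit 5) (nat_lit 80)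 (nat_lit 5) (nat_lit 292) (nat_lit 266) (nat_lit 162)) (XT.lf (nat_lit 0) (nat_lit 14044878481) (nat_lit 304) (nat_lit 12504264044) (nat_lit 380) (nat_lit 5091516543) (nat_lit 75) (nat_lit 5) (nat_lit 79) (nat_lit 5) (nat_lit 80) (nat_lit 5) (nat_lit 293) (nat_lit 266) (nat_lit 161))) (XT.nd (nat_lit 78) (nat_lit 304) (nat_lit 0) (XT.lf (nat_lit 0) (nat_lit 1439706824) (nat_lit 380) (nat_lit 27564928759) (nat_lit 76) (nat_lit 3686209092) (nat_lit 70) (nat_lit 5) (nat_lit 75) (nat_lit 5) (nat_lit 71) (nat_lit 5) (nat_lit 294) (nat_lit 266) (nat_lit 160)) (XT.nd (nat_lit 78) (nat_lit 304) (nat_lit 0) (XT.lf (nat_lit 0) (nat_lit 8492489436) (nat_lit 380) (nat_lit 4628998890) (nat_lit 76) (nat_lit 20661545307) (nat_lit 70) (nat_lit 5) (nat_lit 75) (nat_lit 5) (nat_lit 71) (nat_lit 5) (nat_lit 295) (nat_lit 266) (nat_lit 159)) (XT.lf (nat_lit 0) (nat_lit 16115205160) (nat_lit 380) (nat_lit 15132082858)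 (nat_lit 76) (nat_lit 3676039824) (nat_lit 66) (nat_lit 5) (nat_lit 71) (nat_lit 5) (nat_lit 67) (nat_lit 5) (nat_lit 296) (nat_lit 266) (nat_lit 158))))) (XT.nd (nat_lit 234) (nat_lit 532) (nat_lit 0) (XT.nd (nat_lit 78) (nat_lit 304) (nat_lit 0) (XT.lf (nat_lit 0) (nat_lit 9449317531) (nat_lit 304) (nat_lit 14932087794) (nat_lit 380) (nat_lit 11731374904) (nat_lit 62) (nat_lit 5) (nat_lit 66) (nat_lit 5) (nat_lit 67) (nat_lit 5) (nat_lit 297) (nat_lit 266) (nat_lit 157)) (XT.nd (nat_lit 78) (nat_lit 304) (nat_lit 0) (XT.lf (nat_lit 0) (nat_lit 33230607587) (nat_lit 380) (nat_lit 1815791985) (nat_lit 76) (nat_lit 2310228165) (nat_lit 62) (nat_lit 5) (nat_lit 67) (nat_lit 5) (nat_lit 63) (nat_lit 5) (nat_lit 298) (nat_lit 266) (nat_lit 156)) (XT.lf (nat_lit 0) (nat_lit 4166789603) (nat_lit 304) (nat_lit 14100251447) (nat_lit 76) (nat_lit 20383050750) (nat_lit 58) (nat_lit 5) (nat_lit 62)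 (nat_lit 5) (nat_lit 59) (nat_lit 5) (nat_lit 299) (nat_lit 266) (nat_lit 155)))) (XT.nd (nat_lit 78) (nat_lit 228) (nat_lit 0) (XT.lf (nat_lit 0) (nat_lit 12453867499) (nat_lit 304) (nat_lit 466281150) (nat_lit 380) (nat_lit 27082929307) (nat_lit 54) (nat_lit 5) (nat_lit 58) (nat_lit 5) (nat_lit 59) (nat_lit 5) (nat_lit 300) (nat_lit 266) (nat_lit 154)) (XT.nd (nat_lit 78) (nat_lit 228) (nat_lit 0) (XT.lf (nat_lit 0) (nat_lit 22425055718) (nat_lit 380) (nat_lit 976879222) (nat_lit 76) (nat_lit 18012373204) (nat_lit 54) (nat_lit 5) (nat_lit 59) (nat_lit 5) (nat_lit 55) (nat_lit 5) (nat_lit 301) (nat_lit 266) (nat_lit 153)) (XT.lf (nat_lit 0) (nat_lit 27444188552) (nat_lit 228) (nat_lit 5222020101) (nat_lit 304) (nat_lit 10222071767) (nat_lit 51) (nat_lit 5) (nat_lit 54) (nat_lit 5) (nat_lit 55) (nat_lit 5) (nat_lit 302) (nat_lit 266) (nat_lit 152))))))) (XT.nd (nat_lit 858) (nat_lit 836)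 (nat_lit 0) (XT.nd (nat_lit 390) (nat_lit 836) (nat_lit 0) (XT.nd (nat_lit 156) (nat_lit 456) (nat_lit 0) (XT.nd (nat_lit 78) (nat_lit 76) (nat_lit 0) (XT.lf (nat_lit 0) (nat_lit 12980371841) (nat_lit 228) (nat_lit 30699986980) (nat_lit 304) (nat_lit 747774391) (nat_lit 48) (nat_lit 5) (nat_lit 51) (nat_lit 5) (nat_lit 52) (nat_lit 5) (nat_lit 303) (nat_lit 266) (nat_lit 151)) (XT.lf (nat_lit 0) (nat_lit 9226853152) (nat_lit 304) (nat_lit 3044580381) (nat_lit 76) (nat_lit 33764716939) (nat_lit 47) (nat_lit 5) (nat_lit 51) (nat_lit 5) (nat_lit 48) (nat_lit 5) (nat_lit 304) (nat_lit 266) (nat_lit 150))) (XT.nd (nat_lit 78) (nat_lit 228) (nat_lit 0) (XT.lf (nat_lit 0) (nat_lit 20011160904) (nat_lit 304) (nat_lit 20493504078) (nat_lit 76) (nat_lit 7209897967) (nat_lit 44) (nat_lit 5) (nat_lit 48) (nat_lit 5) (nat_lit 45) (nat_lit 5) (nat_lit 305) (nat_lit 266) (nat_lit 149)) (XT.nd (nat_lit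 78) (nat_lit 0) (nat_lit 0) (XT.lf (nat_lit 0) (nat_lit 9641785193) (nat_lit 228) (nat_lit 21934511365) (nat_lit 304) (nat_lit 17893359580) (nat_lit 41) (nat_lit 5) (nat_lit 44) (nat_lit 5) (nat_lit 45) (nat_lit 5) (nat_lit 306) (nat_lit 266) (nat_lit 148)) (XT.lf (nat_lit 0) (nat_lit 41702535969) (nat_lit 228) (nat_lit 2221756697) (nat_lit 304) (nat_lit 7382081269) (nat_lit 41) (nat_lit 5) (nat_lit 44) (nat_lit 5) (nat_lit 45) (nat_lit 5) (nat_lit 307) (nat_lit 266) (nat_lit 147))))) (XT.nd (nat_lit 234) (nat_lit 380) (nat_lit 0) (XT.nd (nat_lit 78) (nat_lit 228) (nat_lit 0) (XT.lf (nat_lit 0) (nat_lit 3973930046) (nat_lit 228) (nat_lit 30881030300) (nat_lit 76) (nat_lit 18367206175) (nat_lit 38) (nat_lit 5) (nat_lit 41) (nat_lit 5) (nat_lit 39) (nat_lit 5) (nat_lit 308) (nat_lit 266) (nat_lit 146)) (XT.nd (nat_lit 78) (nat_lit 0) (nat_lit 0) (XT.lf (nat_lit 0) (nat_lit 761085167) (nat_lit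 228) (nat_lit 15109038389) (nat_lit 304) (nat_lit 39357687947) (nat_lit 35) (nat_lit 5) (nat_lit 38) (nat_lit 5) (nat_lit 39) (nat_lit 5) (nat_lit 309) (nat_lit 266) (nat_lit 145)) (XT.lf (nat_lit 0) (nat_lit 28730450897) (nat_lit 304) (nat_lit 22759793083) (nat_lit 76) (nat_lit 5832421790) (nat_lit 35) (nat_lit 5) (nat_lit 39) (nat_lit 5) (nat_lit 36) (nat_lit 5) (nat_lit 310) (nat_lit 266) (nat_lit 144)))) (XT.nd (nat_lit 78) (nat_lit 228) (nat_lit 0) (XT.lf (nat_lit 0) (nat_lit 10577818276) (nat_lit 152) (nat_lit 31904651863) (nat_lit 228) (nat_lit 17032338781) (nat_lit 33) (nat_lit 5) (nat_lit 35) (nat_lit 5) (nat_lit 36) (nat_lit 5) (nat_lit 311) (nat_lit 266) (nat_lit 143)) (XT.nd (nat_lit 78) (nat_lit 228) (nat_lit 0) (XT.lf (nat_lit 0) (nat_lit 46049588198) (nat_lit 152) (nat_lit 11101472005) (nat_lit 228) (nat_lit 4658636060) (nat_lit 33) (nat_lit 5) (nat_lit 35) (nat_lit 5) (nat_lit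 36) (nat_lit 5) (nat_lit 312) (nat_lit 266) (nat_lit 142)) (XT.lf (nat_lit 0) (nat_lit 8458022848) (nat_lit 228) (nat_lit 44952013344) (nat_lit 76) (nat_lit 10798287400) (nat_lit 30) (nat_lit 5) (nat_lit 33) (nat_lit 5) (nat_lit 31) (nat_lit 5) (nat_lit 313) (nat_lit 266) (nat_lit 141)))))) (XT.nd (nat_lit 390) (nat_lit 456) (nat_lit 0) (XT.nd (nat_lit 156) (nat_lit 228) (nat_lit 0) (XT.nd (nat_lit 78) (nat_lit 152) (nat_lit 0) (XT.lf (nat_lit 0) (nat_lit 22405971969) (nat_lit 228) (nat_lit 10537744171) (nat_lit 76) (nat_lit 33773633642) (nat_lit 30) (nat_lit 5) (nat_lit 33) (nat_lit 5) (nat_lit 31) (nat_lit 5) (nat_lit 314) (nat_lit 266) (nat_lit 140)) (XT.lf (nat_lit 0) (nat_lit 26098959866) (nat_lit 152) (nat_lit 11198491960) (nat_lit 228) (nat_lit 32046996598) (nat_lit 28) (nat_lit 5) (nat_lit 30) (nat_lit 5) (nat_lit 31) (nat_lit 5) (nat_lit 315) (nat_lit 266) (nat_lit 139))) (XT.nd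 (nat_lit 78) (nat_lit 228) (nat_lit 0) (XT.lf (nat_lit 0) (nat_lit 53150272543) (nat_lit 228) (nat_lit 7432310443) (nat_lit 76) (nat_lit 11513820905) (nat_lit 28) (nat_lit 5) (nat_lit 31) (nat_lit 5) (nat_lit 29) (nat_lit 5) (nat_lit 316) (nat_lit 266) (nat_lit 138)) (XT.nd (nat_lit 78) (nat_lit 76) (nat_lit 0) (XT.lf (nat_lit 0) (nat_lit 30649471814) (nat_lit 152) (nat_lit 39549515900) (nat_lit 228) (nat_lit 4774876476) (nat_lit 26) (nat_lit 5) (nat_lit 28) (nat_lit 5) (nat_lit 29) (nat_lit 5) (nat_lit 317) (nat_lit 266) (nat_lit 137)) (XT.lf (nat_lit 0) (nat_lit 9980723340) (nat_lit 228) (nat_lit 7307131447) (nat_lit 76) (nat_lit 60702244005) (nat_lit 25) (nat_lit 5) (nat_lit 28) (nat_lit 5) (nat_lit 26) (nat_lit 5) (nat_lit 318) (nat_lit 266) (nat_lit 136))))) (XT.nd (nat_lit 234) (nat_lit 152) (nat_lit 0) (XT.nd (nat_lit 78) (nat_lit 152) (nat_lit 0) (XT.lf (nat_lit 0) (nat_lit 25743078935)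 (nat_lit 228) (nat_lit 49075409393) (nat_lit 76) (nat_lit 6326210795) (nat_lit 23) (nat_lit 5) (nat_lit 26) (nat_lit 5) (nat_lit 24) (nat_lit 5) (nat_lit 319) (nat_lit 266) (nat_lit 135)) (XT.nd (nat_lit 78) (nat_lit 152) (nat_lit 0) (XT.lf (nat_lit 0) (nat_lit 42540020997) (nat_lit 228) (nat_lit 11069346799) (nat_lit 76) (nat_lit 30840271525) (nat_lit 23) (nat_lit 5) (nat_lit 26) (nat_lit 5) (nat_lit 24) (nat_lit 5) (nat_lit 320) (nat_lit 266) (nat_lit 134)) (XT.lf (nat_lit 0) (nat_lit 29404552220) (nat_lit 152) (nat_lit 31051115297) (nat_lit 228) (nat_lit 27455797017) (nat_lit 21) (nat_lit 5) (nat_lit 23) (nat_lit 5) (nat_lit 24) (nat_lit 5) (nat_lit 321) (nat_lit 266) (nat_lit 133)))) (XT.nd (nat_lit 78) (nat_lit 152) (nat_lit 0) (XT.lf (nat_lit 0) (nat_lit 72127386864) (nat_lit 152) (nat_lit 7249983880) (nat_lit 228) (nat_lit 12165705580) (nat_lit 21) (nat_lit 5) (nat_lit 23) (nat_lit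 5) (nat_lit 24) (nat_lit 5) (nat_lit 322) (nat_lit 266) (nat_lit 132)) (XT.nd (nat_lit 78) (nat_lit 0) (nat_lit 0) (XT.lf (nat_lit 0) (nat_lit 4194084723) (nat_lit 152) (nat_lit 73505417728) (nat_lit 76) (nat_lit 17644215645) (nat_lit 19) (nat_lit 5) (nat_lit 21) (nat_lit 5) (nat_lit 20) (nat_lit 5) (nat_lit 323) (nat_lit 266) (nat_lit 131)) (XT.lf (nat_lit 0) (nat_lit 21394174277) (nat_lit 152) (nat_lit 33971398100) (nat_lit 76) (nat_lit 43956991669) (nat_lit 19) (nat_lit 5) (nat_lit 21) (nat_lit 5) (nat_lit 20) (nat_lit 5) (nat_lit 324) (nat_lit 266) (nat_lit 130))))))))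
noncomputable def xc97 : XT := (XT.nd (nat_lit 34476) (nat_lit 0) (nat_lit 1824) (XT.nd (nat_lit 33618) (nat_lit 0) (nat_lit 7220) (XT.nd (nat_lit 33150) (nat_lit 0) (nat_lit 10868) (XT.nd (nat_lit 156) (nat_lit 0) (nat_lit 0) (XT.nd (nat_lit 78) (nat_lit 0) (nat_lit 0) (XT.lf (nat_lit 0) (nat_lit 7683758874) (nat_lit 152) (nat_lit 31841088698) (nat_lit 228) (nat_lit 63973390322) (nat_lit 17) (nat_lit 5) (nat_lit 19) (nat_lit 5) (nat_lit 20) (nat_lit 5) (nat_lit 325) (nat_lit 266) (nat_lit 129)) (XT.lf (nat_lit 0) (nat_lit 52126232255) (nat_lit 152) (nat_lit 6782351023) (nat_lit 228) (nat_lit 48963719126) (nat_lit 17) (nat_lit 5) (nat_lit 19) (nat_lit 5) (nat_lit 20) (nat_lit 5) (nat_lit 326) (nat_lit 266) (nat_lit 128))) (XT.nd (nat_lit 32838) (nat_lit 0) (nat_lit 10792) (XT.lf (nat_lit 0) (nat_lit 79446188194) (nat_lit 228) (nat_lit 13867131550) (nat_lit 76) (nat_lit 19146212623) (nat_lit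 17) (nat_lit 5) (nat_lit 20) (nat_lit 5) (nat_lit 18) (nat_lit 4) (nat_lit 327) (nat_lit 266) (nat_lit 127)) (XT.nd (nat_lit 78) (nat_lit 0) (nat_lit 0) (XT.lf (nat_lit 0) (nat_lit 3485319915) (nat_lit 1140) (nat_lit 2139085146) (nat_lit 1140) (nat_lit 2139085146) (nat_lit 159) (nat_lit 3) (nat_lit 174) (nat_lit 3) (nat_lit 174) (nat_lit 5) (nat_lit 267) (nat_lit 267) (nat_lit 186)) (XT.lf (nat_lit 76) (nat_lit 6808816595) (nat_lit 0) (nat_lit 817083740) (nat_lit 1140) (nat_lit 8273910526) (nat_lit 160) (nat_lit 5) (nat_lit 159) (nat_lit 3) (nat_lit 174) (nat_lit 5) (nat_lit 268) (nat_lit 267) (nat_lit 185))))) (XT.nd (nat_lit 234) (nat_lit 0) (nat_lit 152) (XT.nd (nat_lit 78) (nat_lit 0) (nat_lit 76) (XT.lf (nat_lit 76) (nat_lit 2179261501) (nat_lit 0) (nat_lit 6270910221) (nat_lit 1140) (nat_lit 7837082192) (nat_lit 161) (nat_lit 5) (nat_lit 160) (nat_lit 5) (nat_lit 175) (nat_lit 5) (nat_lit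 269) (nat_lit 267) (nat_lit 184)) (XT.nd (nat_lit 78) (nat_lit 0) (nat_lit 0) (XT.lf (nat_lit 0) (nat_lit 9437948065) (nat_lit 1064) (nat_lit 2557824190) (nat_lit 1140) (nat_lit 4694683859) (nat_lit 161) (nat_lit 5) (nat_lit 175) (nat_lit 5) (nat_lit 176) (nat_lit 5) (nat_lit 270) (nat_lit 267) (nat_lit 183)) (XT.lf (nat_lit 76) (nat_lit 9680721260) (nat_lit 0) (nat_lit 926571561) (nat_lit 1140) (nat_lit 6502613297) (nat_lit 162) (nat_lit 5) (nat_lit 161) (nat_lit 5) (nat_lit 176) (nat_lit 5) (nat_lit 271) (nat_lit 267) (nat_lit 182)))) (XT.nd (nat_lit 78) (nat_lit 0) (nat_lit 76) (XT.lf (nat_lit 76) (nat_lit 5014732993) (nat_lit 0) (nat_lit 6974912167) (nat_lit 1140) (nat_lit 5556097804) (nat_lit 163) (nat_lit 5) (nat_lit 162) (nat_lit 5) (nat_lit 177) (nat_lit 5) (nat_lit 272) (nat_lit 267) (nat_lit 181)) (XT.nd (nat_lit 78) (nat_lit 0) (nat_lit 0) (XT.lf (nat_lit 76) (nat_lit 168366902)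 (nat_lit 0) (nat_lit 13383235861) (nat_lit 1140) (nat_lit 4448502407) (nat_lit 164) (nat_lit 5) (nat_lit 163) (nat_lit 5) (nat_lit 178) (nat_lit 5) (nat_lit 273) (nat_lit 267) (nat_lit 180)) (XT.lf (nat_lit 76) (nat_lit 13677718399) (nat_lit 0) (nat_lit 1691505293) (nat_lit 1140) (nat_lit 3102680686) (nat_lit 164) (nat_lit 5) (nat_lit 163) (nat_lit 5) (nat_lit 178) (nat_lit 5) (nat_lit 274) (nat_lit 267) (nat_lit 179)))))) (XT.nd (nat_lit 390) (nat_lit 2128) (nat_lit 0) (XT.nd (nat_lit 156) (nat_lit 760) (nat_lit 0) (XT.nd (nat_lit 78) (nat_lit 1064) (nat_lit 0) (XT.lf (nat_lit 76) (nat_lit 8953163334) (nat_lit 0) (nat_lit 8492296118) (nat_lit 1140) (nat_lit 1516845750) (nat_lit 165) (nat_lit 5) (nat_lit 164) (nat_lit 5) (nat_lit 179) (nat_lit 5) (nat_lit 275) (nat_lit 267) (nat_lit 178)) (XT.lf (nat_lit 0) (nat_lit 268585152) (nat_lit 1140) (nat_lit 15453936043) (nat_lit 1216) (nat_lit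 3751006558) (nat_lit 150) (nat_lit 5) (nat_lit 165) (nat_lit 5) (nat_lit 166) (nat_lit 5) (nat_lit 276) (nat_lit 267) (nat_lit 177))) (XT.nd (nat_lit 78) (nat_lit 760) (nat_lit 0) (XT.lf (nat_lit 0) (nat_lit 2283312914) (nat_lit 1140) (nat_lit 1165588092) (nat_lit 1216) (nat_lit 16555856454) (nat_lit 150) (nat_lit 5) (nat_lit 165) (nat_lit 5) (nat_lit 166) (nat_lit 5) (nat_lit 277) (nat_lit 267) (nat_lit 176)) (XT.nd (nat_lit 78) (nat_lit 836) (nat_lit 0) (XT.lf (nat_lit 0) (nat_lit 4608617040) (nat_lit 1140) (nat_lit 6553399041) (nat_lit 76) (nat_lit 9394273997) (nat_lit 151) (nat_lit 5) (nat_lit 166) (nat_lit 5) (nat_lit 152) (nat_lit 5) (nat_lit 278) (nat_lit 267) (nat_lit 175)) (XT.lf (nat_lit 0) (nat_lit 7183143452) (nat_lit 912) (nat_lit 12205015787) (nat_lit 76) (nat_lit 1743286258) (nat_lit 140) (nat_lit 5) (nat_lit 152) (nat_lit 5) (nat_lit 141) (nat_lit 5) (nat_lit 279) (nat_lit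 267) (nat_lit 174))))) (XT.nd (nat_lit 234) (nat_lit 1064) (nat_lit 0) (XT.nd (nat_lit 78) (nat_lit 532) (nat_lit 0) (XT.lf (nat_lit 0) (nat_lit 3524505637) (nat_lit 532) (nat_lit 6560217482) (nat_lit 608) (nat_lit 11644718978) (nat_lit 133) (nat_lit 5) (nat_lit 140) (nat_lit 5) (nat_lit 141) (nat_lit 5) (nat_lit 280) (nat_lit 267) (nat_lit 173)) (XT.nd (nat_lit 78) (nat_lit 532) (nat_lit 0) (XT.lf (nat_lit 0) (nat_lit 13308989956) (nat_lit 608) (nat_lit 2140570176) (nat_lit 76) (nat_lit 6902481788) (nat_lit 133) (nat_lit 5) (nat_lit 141) (nat_lit 5) (nat_lit 134) (nat_lit 5) (nat_lit 281) (nat_lit 267) (nat_lit 172)) (XT.lf (nat_lit 0) (nat_lit 14938111928) (nat_lit 532) (nat_lit 1951223158) (nat_lit 608) (nat_lit 6110620833) (nat_lit 126) (nat_lit 5) (nat_lit 133) (nat_lit 5) (nat_lit 134) (nat_lit 5) (nat_lit 282) (nat_lit 267) (nat_lit 171)))) (XT.nd (nat_lit 78) (nat_lit 608) (nat_lit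 0) (XT.lf (nat_lit 0) (nat_lit 9285093371) (nat_lit 456) (nat_lit 11578238766) (nat_lit 532) (nat_lit 2810523136) (nat_lit 120) (nat_lit 5) (nat_lit 126) (nat_lit 5) (nat_lit 127) (nat_lit 5) (nat_lit 283) (nat_lit 267) (nat_lit 170)) (XT.nd (nat_lit 78) (nat_lit 0) (nat_lit 0) (XT.lf (nat_lit 0) (nat_lit 787689361) (nat_lit 608) (nat_lit 21089573545) (nat_lit 76) (nat_lit 2499647963) (nat_lit 112) (nat_lit 5) (nat_lit 120) (nat_lit 5) (nat_lit 113) (nat_lit 5) (nat_lit 284) (nat_lit 267) (nat_lit 169)) (XT.lf (nat_lit 0) (nat_lit 4761234222) (nat_lit 608) (nat_lit 3123607302) (nat_lit 76) (nat_lit 17221861753) (nat_lit 112) (nat_lit 5) (nat_lit 120) (nat_lit 5) (nat_lit 113) (nat_lit 5) (nat_lit 285) (nat_lit 267) (nat_lit 168))))))) (XT.nd (nat_lit 858) (nat_lit 2204) (nat_lit 0) (XT.nd (nat_lit 390) (nat_lit 1444) (nat_lit 0) (XT.nd (nat_lit 156) (nat_lit 836) (nat_lit 0) (XT.nd (nat_lit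 78) (nat_lit 456) (nat_lit 0) (XT.lf (nat_lit 0) (nat_lit 9141798555) (nat_lit 532) (nat_lit 9895549841) (nat_lit 76) (nat_lit 6829410710) (nat_lit 106) (nat_lit 5) (nat_lit 113) (nat_lit 5) (nat_lit 107) (nat_lit 5) (nat_lit 286) (nat_lit 267) (nat_lit 167)) (XT.lf (nat_lit 0) (nat_lit 9514463025) (nat_lit 456) (nat_lit 4418119069) (nat_lit 532) (nat_lit 12726522825) (nat_lit 100) (nat_lit 5) (nat_lit 106) (nat_lit 5) (nat_lit 107) (nat_lit 5) (nat_lit 287) (nat_lit 267) (nat_lit 166))) (XT.nd (nat_lit 78) (nat_lit 456) (nat_lit 0) (XT.lf (nat_lit 0) (nat_lit 2543833828) (nat_lit 380) (nat_lit 16639608666) (nat_lit 456) (nat_lit 8301031226) (nat_lit 95) (nat_lit 5) (nat_lit 100) (nat_lit 5) (nat_lit 101) (nat_lit 5) (nat_lit 288) (nat_lit 267) (nat_lit 165)) (XT.nd (nat_lit 78) (nat_lit 456) (nat_lit 0) (XT.lf (nat_lit 0) (nat_lit 23516447644) (nat_lit 380) (nat_lit 1389607487) (nat_lit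 456) (nat_lit 3438800343) (nat_lit 95) (nat_lit 5) (nat_lit 100) (nat_lit 5) (nat_lit 101) (nat_lit 5) (nat_lit 289) (nat_lit 267) (nat_lit 164)) (XT.lf (nat_lit 0) (nat_lit 1924707417) (nat_lit 456) (nat_lit 12801285187) (nat_lit 76) (nat_lit 14513081776) (nat_lit 89) (nat_lit 5) (nat_lit 95) (nat_lit 5) (nat_lit 90) (nat_lit 5) (nat_lit 290) (nat_lit 267) (nat_lit 163))))) (XT.nd (nat_lit 234) (nat_lit 684) (nat_lit 0) (XT.nd (nat_lit 78) (nat_lit 380) (nat_lit 0) (XT.lf (nat_lit 0) (nat_lit 7635449322) (nat_lit 456) (nat_lit 21382597016) (nat_lit 76) (nat_lit 1154449421) (nat_lit 84) (nat_lit 5) (nat_lit 90) (nat_lit 5) (nat_lit 85) (nat_lit 5) (nat_lit 291) (nat_lit 267) (nat_lit 162)) (XT.nd (nat_lit 78) (nat_lit 0) (nat_lit 0) (XT.lf (nat_lit 0) (nat_lit 425285204) (nat_lit 380) (nat_lit 13481986515) (nat_lit 456) (nat_lit 17237067624) (nat_lit 79) (nat_lit 5) (nat_lit 84) (nat_lit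 5) (nat_lit 85) (nat_lit 5) (nat_lit 292) (nat_lit 267) (nat_lit 161)) (XT.lf (nat_lit 0) (nat_lit 20732279795) (nat_lit 456) (nat_lit 8429690138) (nat_lit 76) (nat_lit 2995633940) (nat_lit 79) (nat_lit 5) (nat_lit 85) (nat_lit 5) (nat_lit 80) (nat_lit 5) (nat_lit 293) (nat_lit 267) (nat_lit 160)))) (XT.nd (nat_lit 78) (nat_lit 380) (nat_lit 0) (XT.lf (nat_lit 0) (nat_lit 15121208698) (nat_lit 304) (nat_lit 13049320956) (nat_lit 380) (nat_lit 5042858052) (nat_lit 75) (nat_lit 5) (nat_lit 79) (nat_lit 5) (nat_lit 80) (nat_lit 5) (nat_lit 294) (nat_lit 267) (nat_lit 159)) (XT.nd (nat_lit 78) (nat_lit 0) (nat_lit 0) (XT.lf (nat_lit 0) (nat_lit 1799200339) (nat_lit 380) (nat_lit 28565351092) (nat_lit 76) (nat_lit 3951760474) (nat_lit 70) (nat_lit 5) (nat_lit 75) (nat_lit 5) (nat_lit 71) (nat_lit 5) (nat_lit 295) (nat_lit 267) (nat_lit 158)) (XT.lf (nat_lit 0) (nat_lit 9190931215) (nat_lit 380)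 (nat_lit 4500616354) (nat_lit 76) (nat_lit 21771994884) (nat_lit 70) (nat_lit 5) (nat_lit 75) (nat_lit 5) (nat_lit 71) (nat_lit 5) (nat_lit 296) (nat_lit 267) (nat_lit 157)))))) (XT.nd (nat_lit 390) (nat_lit 988) (nat_lit 0) (XT.nd (nat_lit 156) (nat_lit 608) (nat_lit 0) (XT.nd (nat_lit 78) (nat_lit 304) (nat_lit 0) (XT.lf (nat_lit 0) (nat_lit 17185924310) (nat_lit 380) (nat_lit 15531657678) (nat_lit 76) (nat_lit 3943555535) (nat_lit 66) (nat_lit 5) (nat_lit 71) (nat_lit 5) (nat_lit 67) (nat_lit 5) (nat_lit 297) (nat_lit 267) (nat_lit 156)) (XT.lf (nat_lit 0) (nat_lit 10268578557) (nat_lit 304) (nat_lit 15587572443) (nat_lit 380) (nat_lit 12054209459) (nat_lit 62) (nat_lit 5) (nat_lit 66) (nat_lit 5) (nat_lit 67) (nat_lit 5) (nat_lit 298) (nat_lit 267) (nat_lit 155))) (XT.nd (nat_lit 78) (nat_lit 608) (nat_lit 0) (XT.lf (nat_lit 0) (nat_lit 35136472545) (nat_lit 380) (nat_lit 1569459648)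 (nat_lit 76) (nat_lit 2510826875) (nat_lit 62) (nat_lit 5) (nat_lit 67) (nat_lit 5) (nat_lit 63) (nat_lit 5) (nat_lit 299) (nat_lit 267) (nat_lit 154)) (XT.nd (nat_lit 78) (nat_lit 304) (nat_lit 0) (XT.lf (nat_lit 0) (nat_lit 4613657056) (nat_lit 304) (nat_lit 14472716307) (nat_lit 76) (nat_lit 21488725052) (nat_lit 58) (nat_lit 5) (nat_lit 62) (nat_lit 5) (nat_lit 59) (nat_lit 5) (nat_lit 300) (nat_lit 267) (nat_lit 153)) (XT.lf (nat_lit 0) (nat_lit 13399576173) (nat_lit 304) (nat_lit 396854428) (nat_lit 380) (nat_lit 28199567176) (nat_lit 54) (nat_lit 5) (nat_lit 58) (nat_lit 5) (nat_lit 59) (nat_lit 5) (nat_lit 301) (nat_lit 267) (nat_lit 152))))) (XT.nd (nat_lit 234) (nat_lit 532) (nat_lit 0) (XT.nd (nat_lit 78) (nat_lit 456) (nat_lit 0) (XT.lf (nat_lit 0) (nat_lit 23766466599) (nat_lit 380) (nat_lit 712048997) (nat_lit 76) (nat_lit 18999592887) (nat_lit 54) (nat_lit 5) (nat_lit 59)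 (nat_lit 5) (nat_lit 55) (nat_lit 5) (nat_lit 302) (nat_lit 267) (nat_lit 151)) (XT.nd (nat_lit 78) (nat_lit 228) (nat_lit 0) (XT.lf (nat_lit 0) (nat_lit 29121080758) (nat_lit 228) (nat_lit 5391041501) (nat_lit 304) (nat_lit 10513898538) (nat_lit 51) (nat_lit 5) (nat_lit 54) (nat_lit 5) (nat_lit 55) (nat_lit 5) (nat_lit 303) (nat_lit 267) (nat_lit 150)) (XT.lf (nat_lit 0) (nat_lit 13930962133) (nat_lit 228) (nat_lit 32139635710) (nat_lit 304) (nat_lit 572473922) (nat_lit 48) (nat_lit 5) (nat_lit 51) (nat_lit 5) (nat_lit 52) (nat_lit 5) (nat_lit 304) (nat_lit 267) (nat_lit 149)))) (XT.nd (nat_lit 78) (nat_lit 456) (nat_lit 0) (XT.lf (nat_lit 0) (nat_lit 9886804244) (nat_lit 304) (nat_lit 2905385296) (nat_lit 76) (nat_lit 35539549938) (nat_lit 47) (nat_lit 5) (nat_lit 51) (nat_lit 5) (nat_lit 48) (nat_lit 5) (nat_lit 305) (nat_lit 267) (nat_lit 148)) (XT.nd (nat_lit 78) (nat_lit 228) (nat_lit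 0) (XT.lf (nat_lit 0) (nat_lit 21204467543) (nat_lit 304) (nat_lit 21229981420) (nat_lit 76) (nat_lit 7659811806) (nat_lit 44) (nat_lit 5) (nat_lit 48) (nat_lit 5) (nat_lit 45) (nat_lit 5) (nat_lit 306) (nat_lit 267) (nat_lit 147)) (XT.lf (nat_lit 0) (nat_lit 10403811181) (nat_lit 228) (nat_lit 22937561217) (nat_lit 304) (nat_lit 18595942650) (nat_lit 41) (nat_lit 5) (nat_lit 44) (nat_lit 5) (nat_lit 45) (nat_lit 5) (nat_lit 307) (nat_lit 267) (nat_lit 146))))))))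
noncomputable def xc98 : XT := (XT.nd (nat_lit 34632) (nat_lit 0) (nat_lit 5092) (XT.nd (nat_lit 858) (nat_lit 684) (nat_lit 0) (XT.nd (nat_lit 390) (nat_lit 532) (nat_lit 0) (XT.nd (nat_lit 156) (nat_lit 380) (nat_lit 0) (XT.nd (nat_lit 78) (nat_lit 228) (nat_lit 0) (XT.lf (nat_lit 0) (nat_lit 44054269175) (nat_lit 228) (nat_lit 2243629564) (nat_lit 304) (nat_lit 7568247324) (nat_lit 41) (nat_lit 5) (nat_lit 44) (nat_lit 5) (nat_lit 45) (nat_lit 5) (nat_lit 308) (nat_lit 267) (nat_lit 145)) (XT.lf (nat_lit 0) (nat_lit 4346836455) (nat_lit 228) (nat_lit 32157888053) (nat_lit 76) (nat_lit 19373116158) (nat_lit 38) (nat_lit 5) (nat_lit 41) (nat_lit 5) (nat_lit 39) (nat_lit 5) (nat_lit 309) (nat_lit 267) (nat_lit 144))) (XT.nd (nat_lit 78) (nat_lit 152) (nat_lit 0) (XT.lf (nat_lit 0) (nat_lit 1058674132) (nat_lit 228) (nat_lit 15773364606) (nat_lit 304) (nat_lit 41151913087) (nat_lit 35) (nat_lit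 5) (nat_lit 38) (nat_lit 5) (nat_lit 39) (nat_lit 5) (nat_lit 310) (nat_lit 267) (nat_lit 143)) (XT.nd (nat_lit 78) (nat_lit 152) (nat_lit 0) (XT.lf (nat_lit 0) (nat_lit 30328197213) (nat_lit 304) (nat_lit 23646440828) (nat_lit 76) (nat_lit 6209135748) (nat_lit 35) (nat_lit 5) (nat_lit 39) (nat_lit 5) (nat_lit 36) (nat_lit 5) (nat_lit 311) (nat_lit 267) (nat_lit 142)) (XT.lf (nat_lit 0) (nat_lit 11350846434) (nat_lit 152) (nat_lit 33411640458) (nat_lit 228) (nat_lit 17723206101) (nat_lit 33) (nat_lit 5) (nat_lit 35) (nat_lit 5) (nat_lit 36) (nat_lit 5) (nat_lit 312) (nat_lit 267) (nat_lit 141))))) (XT.nd (nat_lit 234) (nat_lit 304) (nat_lit 0) (XT.nd (nat_lit 78) (nat_lit 228) (nat_lit 0) (XT.lf (nat_lit 0) (nat_lit 48584579268) (nat_lit 152) (nat_lit 11572503702) (nat_lit 228) (nat_lit 4738472988) (nat_lit 33) (nat_lit 5) (nat_lit 35) (nat_lit 5) (nat_lit 36) (nat_lit 5) (nat_lit 313) (nat_lit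 267) (nat_lit 140)) (XT.nd (nat_lit 78) (nat_lit 0) (nat_lit 0) (XT.lf (nat_lit 0) (nat_lit 9026888937) (nat_lit 228) (nat_lit 46966996289) (nat_lit 76) (nat_lit 11420317459) (nat_lit 30) (nat_lit 5) (nat_lit 33) (nat_lit 5) (nat_lit 31) (nat_lit 5) (nat_lit 314) (nat_lit 267) (nat_lit 139)) (XT.lf (nat_lit 0) (nat_lit 23665284802) (nat_lit 228) (nat_lit 10843090692) (nat_lit 76) (nat_lit 35540520742) (nat_lit 30) (nat_lit 5) (nat_lit 33) (nat_lit 5) (nat_lit 31) (nat_lit 5) (nat_lit 315) (nat_lit 267) (nat_lit 138)))) (XT.nd (nat_lit 78) (nat_lit 152) (nat_lit 0) (XT.lf (nat_lit 0) (nat_lit 27619098128) (nat_lit 152) (nat_lit 11677689340) (nat_lit 228) (nat_lit 33510706051) (nat_lit 28) (nat_lit 5) (nat_lit 30) (nat_lit 5) (nat_lit 31) (nat_lit 5) (nat_lit 316) (nat_lit 267) (nat_lit 137)) (XT.nd (nat_lit 78) (nat_lit 152) (nat_lit 0) (XT.lf (nat_lit 0) (nat_lit 55936585265) (nat_lit 228)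 (nat_lit 7595743493) (nat_lit 76) (nat_lit 12164894749) (nat_lit 28) (nat_lit 5) (nat_lit 31) (nat_lit 5) (nat_lit 29) (nat_lit 5) (nat_lit 317) (nat_lit 267) (nat_lit 136)) (XT.lf (nat_lit 0) (nat_lit 32384160369) (nat_lit 152) (nat_lit 41449386350) (nat_lit 228) (nat_lit 4885142293) (nat_lit 26) (nat_lit 5) (nat_lit 28) (nat_lit 5) (nat_lit 29) (nat_lit 5) (nat_lit 318) (nat_lit 267) (nat_lit 135)))))) (XT.nd (nat_lit 390) (nat_lit 304) (nat_lit 0) (XT.nd (nat_lit 156) (nat_lit 152) (nat_lit 0) (XT.nd (nat_lit 78) (nat_lit 152) (nat_lit 0) (XT.lf (nat_lit 0) (nat_lit 10599731829) (nat_lit 228) (nat_lit 7477394359) (nat_lit 76) (nat_lit 63808758078) (nat_lit 25) (nat_lit 5) (nat_lit 28) (nat_lit 5) (nat_lit 26) (nat_lit 5) (nat_lit 319) (nat_lit 267) (nat_lit 134)) (XT.lf (nat_lit 0) (nat_lit 27147019601) (nat_lit 228) (nat_lit 51336787289) (nat_lit 76) (nat_lit 6714509021) (nat_lit 23)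 (nat_lit 5) (nat_lit 26) (nat_lit 5) (nat_lit 24) (nat_lit 5) (nat_lit 320) (nat_lit 267) (nat_lit 133))) (XT.nd (nat_lit 78) (nat_lit 152) (nat_lit 0) (XT.lf (nat_lit 0) (nat_lit 44778247494) (nat_lit 228) (nat_lit 11439583116) (nat_lit 76) (nat_lit 32450844802) (nat_lit 23) (nat_lit 5) (nat_lit 26) (nat_lit 5) (nat_lit 24) (nat_lit 5) (nat_lit 321) (nat_lit 267) (nat_lit 132)) (XT.nd (nat_lit 78) (nat_lit 0) (nat_lit 0) (XT.lf (nat_lit 0) (nat_lit 31052758573) (nat_lit 152) (nat_lit 32533332157) (nat_lit 228) (nat_lit 28717613919) (nat_lit 21) (nat_lit 5) (nat_lit 23) (nat_lit 5) (nat_lit 24) (nat_lit 5) (nat_lit 322) (nat_lit 267) (nat_lit 131)) (XT.lf (nat_lit 0) (nat_lit 75903259771) (nat_lit 152) (nat_lit 7545493641) (nat_lit 228) (nat_lit 12668302336) (nat_lit 21) (nat_lit 5) (nat_lit 23) (nat_lit 5) (nat_lit 24) (nat_lit 5) (nat_lit 323) (nat_lit 267) (nat_lit 130))))) (XT.nd (nat_lit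 33150) (nat_lit 0) (nat_lit 10792) (XT.nd (nat_lit 78) (nat_lit 152) (nat_lit 0) (XT.lf (nat_lit 0) (nat_lit 4504722088) (nat_lit 152) (nat_lit 77011485645) (nat_lit 76) (nat_lit 18591576764) (nat_lit 19) (nat_lit 5) (nat_lit 21) (nat_lit 5) (nat_lit 20) (nat_lit 5) (nat_lit 324) (nat_lit 267) (nat_lit 129)) (XT.nd (nat_lit 78) (nat_lit 152) (nat_lit 0) (XT.lf (nat_lit 0) (nat_lit 22560009780) (nat_lit 152) (nat_lit 35508822320) (nat_lit 76) (nat_lit 46216889193) (nat_lit 19) (nat_lit 5) (nat_lit 21) (nat_lit 5) (nat_lit 20) (nat_lit 5) (nat_lit 325) (nat_lit 267) (nat_lit 128)) (XT.lf (nat_lit 0) (nat_lit 8224473294) (nat_lit 152) (nat_lit 33369670608) (nat_lit 228) (nat_lit 67076131266) (nat_lit 17) (nat_lit 5) (nat_lit 19) (nat_lit 5) (nat_lit 20) (nat_lit 5) (nat_lit 326) (nat_lit 267) (nat_lit 127)))) (XT.nd (nat_lit 78) (nat_lit 0) (nat_lit 0) (XT.lf (nat_lit 0) (nat_lit 4068642103)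 (nat_lit 1140) (nat_lit 2034925486) (nat_lit 1140) (nat_lit 2034925486) (nat_lit 159) (nat_lit 3) (nat_lit 174) (nat_lit 3) (nat_lit 174) (nat_lit 5) (nat_lit 268) (nat_lit 268) (nat_lit 184)) (XT.nd (nat_lit 78) (nat_lit 0) (nat_lit 76) (XT.lf (nat_lit 76) (nat_lit 7559382183) (nat_lit 0) (nat_lit 1230910190) (nat_lit 1140) (nat_lit 7879301917) (nat_lit 160) (nat_lit 5) (nat_lit 159) (nat_lit 3) (nat_lit 174) (nat_lit 5) (nat_lit 269) (nat_lit 268) (nat_lit 183)) (XT.lf (nat_lit 76) (nat_lit 2714560214) (nat_lit 0) (nat_lit 6904610468) (nat_lit 1140) (nat_lit 7458418643) (nat_lit 161) (nat_lit 5) (nat_lit 160) (nat_lit 5) (nat_lit 175) (nat_lit 5) (nat_lit 270) (nat_lit 268) (nat_lit 182))))))) (XT.nd (nat_lit 858) (nat_lit 3724) (nat_lit 0) (XT.nd (nat_lit 390) (nat_lit 2128) (nat_lit 0) (XT.nd (nat_lit 156) (nat_lit 0) (nat_lit 76) (XT.nd (nat_lit 78) (nat_lit 0) (nat_lit 0) (XT.lf (nat_lit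 0) (nat_lit 10617857707) (nat_lit 1064) (nat_lit 2253867355) (nat_lit 1140) (nat_lit 4630458658) (nat_lit 161) (nat_lit 5) (nat_lit 175) (nat_lit 5) (nat_lit 176) (nat_lit 5) (nat_lit 271) (nat_lit 268) (nat_lit 181)) (XT.lf (nat_lit 76) (nat_lit 10584226531) (nat_lit 0) (nat_lit 1231760496) (nat_lit 1140) (nat_lit 6127583717) (nat_lit 162) (nat_lit 5) (nat_lit 161) (nat_lit 5) (nat_lit 176) (nat_lit 5) (nat_lit 272) (nat_lit 268) (nat_lit 180))) (XT.nd (nat_lit 78) (nat_lit 0) (nat_lit 76) (XT.lf (nat_lit 76) (nat_lit 5696536754) (nat_lit 0) (nat_lit 7540392669) (nat_lit 1140) (nat_lit 5165256350) (nat_lit 163) (nat_lit 5) (nat_lit 162) (nat_lit 5) (nat_lit 177) (nat_lit 5) (nat_lit 273) (nat_lit 268) (nat_lit 179)) (XT.nd (nat_lit 78) (nat_lit 0) (nat_lit 0) (XT.lf (nat_lit 76) (nat_lit 617766415) (nat_lit 0) (nat_lit 14230625578) (nat_lit 1140) (nat_lit 4031799040) (nat_lit 164) (nat_lit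 5) (nat_lit 163) (nat_lit 5) (nat_lit 178) (nat_lit 5) (nat_lit 274) (nat_lit 268) (nat_lit 178)) (XT.lf (nat_lit 76) (nat_lit 14781586383) (nat_lit 0) (nat_lit 1945821438) (nat_lit 1140) (nat_lit 2649120922) (nat_lit 164) (nat_lit 5) (nat_lit 163) (nat_lit 5) (nat_lit 178) (nat_lit 5) (nat_lit 275) (nat_lit 268) (nat_lit 177))))) (XT.nd (nat_lit 234) (nat_lit 1292) (nat_lit 0) (XT.nd (nat_lit 78) (nat_lit 1064) (nat_lit 0) (XT.lf (nat_lit 76) (nat_lit 9828776803) (nat_lit 0) (nat_lit 9053156333) (nat_lit 1140) (nat_lit 1010343051) (nat_lit 165) (nat_lit 5) (nat_lit 164) (nat_lit 5) (nat_lit 179) (nat_lit 5) (nat_lit 276) (nat_lit 268) (nat_lit 176)) (XT.nd (nat_lit 78) (nat_lit 0) (nat_lit 0) (XT.lf (nat_lit 0) (nat_lit 828765353) (nat_lit 1140) (nat_lit 15780040629) (nat_lit 1216) (nat_lit 3820869184) (nat_lit 150) (nat_lit 5) (nat_lit 165) (nat_lit 5) (nat_lit 166) (nat_lit 5) (nat_lit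 277) (nat_lit 268) (nat_lit 175)) (XT.lf (nat_lit 0) (nat_lit 2918193745) (nat_lit 1140) (nat_lit 798541576) (nat_lit 1216) (nat_lit 17271565751) (nat_lit 150) (nat_lit 5) (nat_lit 165) (nat_lit 5) (nat_lit 166) (nat_lit 5) (nat_lit 278) (nat_lit 268) (nat_lit 174)))) (XT.nd (nat_lit 78) (nat_lit 1368) (nat_lit 0) (XT.lf (nat_lit 0) (nat_lit 5338104456) (nat_lit 1140) (nat_lit 6451082563) (nat_lit 76) (nat_lit 9778924146) (nat_lit 151) (nat_lit 5) (nat_lit 166) (nat_lit 5) (nat_lit 152) (nat_lit 5) (nat_lit 279) (nat_lit 268) (nat_lit 173)) (XT.nd (nat_lit 78) (nat_lit 532) (nat_lit 0) (XT.lf (nat_lit 0) (nat_lit 8021014825) (nat_lit 912) (nat_lit 12381660773) (nat_lit 76) (nat_lit 1770007680) (nat_lit 140) (nat_lit 5) (nat_lit 152) (nat_lit 5) (nat_lit 141) (nat_lit 5) (nat_lit 280) (nat_lit 268) (nat_lit 172)) (XT.lf (nat_lit 0) (nat_lit 4121907498) (nat_lit 532) (nat_lit 6927018670) (nat_lit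 608) (nat_lit 11752262296) (nat_lit 133) (nat_lit 5) (nat_lit 140) (nat_lit 5) (nat_lit 141) (nat_lit 5) (nat_lit 281) (nat_lit 268) (nat_lit 171)))))) (XT.nd (nat_lit 390) (nat_lit 2128) (nat_lit 0) (XT.nd (nat_lit 156) (nat_lit 1064) (nat_lit 0) (XT.nd (nat_lit 78) (nat_lit 532) (nat_lit 0) (XT.lf (nat_lit 0) (nat_lit 14412148042) (nat_lit 608) (nat_lit 1832098501) (nat_lit 76) (nat_lit 7211383616) (nat_lit 133) (nat_lit 5) (nat_lit 141) (nat_lit 5) (nat_lit 134) (nat_lit 5) (nat_lit 282) (nat_lit 268) (nat_lit 170)) (XT.lf (nat_lit 0) (nat_lit 16088607479) (nat_lit 532) (nat_lit 2065939236) (nat_lit 608) (nat_lit 5981944081) (nat_lit 126) (nat_lit 5) (nat_lit 133) (nat_lit 5) (nat_lit 134) (nat_lit 5) (nat_lit 283) (nat_lit 268) (nat_lit 169))) (XT.nd (nat_lit 78) (nat_lit 608) (nat_lit 0) (XT.lf (nat_lit 0) (nat_lit 10154606353) (nat_lit 456) (nat_lit 12156340336) (nat_lit 532) (nat_lit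 2533667365) (nat_lit 120) (nat_lit 5) (nat_lit 126) (nat_lit 5) (nat_lit 127) (nat_lit 5) (nat_lit 284) (nat_lit 268) (nat_lit 168)) (XT.nd (nat_lit 78) (nat_lit 0) (nat_lit 0) (XT.lf (nat_lit 0) (nat_lit 1220774411) (nat_lit 608) (nat_lit 21729279260) (nat_lit 76) (nat_lit 2633151507) (nat_lit 112) (nat_lit 5) (nat_lit 120) (nat_lit 5) (nat_lit 113) (nat_lit 5) (nat_lit 285) (nat_lit 268) (nat_lit 167)) (XT.lf (nat_lit 0) (nat_lit 5374248868) (nat_lit 608) (nat_lit 2884765798) (nat_lit 76) (nat_lit 18091070218) (nat_lit 112) (nat_lit 5) (nat_lit 120) (nat_lit 5) (nat_lit 113) (nat_lit 5) (nat_lit 286) (nat_lit 268) (nat_lit 166))))) (XT.nd (nat_lit 234) (nat_lit 836) (nat_lit 0) (XT.nd (nat_lit 78) (nat_lit 836) (nat_lit 0) (XT.lf (nat_lit 0) (nat_lit 9959895109) (nat_lit 532) (nat_lit 9995353944) (nat_lit 76) (nat_lit 7193346411) (nat_lit 106) (nat_lit 5) (nat_lit 113) (nat_lit 5) (nat_lit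 107) (nat_lit 5) (nat_lit 287) (nat_lit 268) (nat_lit 165)) (XT.nd (nat_lit 78) (nat_lit 380) (nat_lit 0) (XT.lf (nat_lit 0) (nat_lit 10373837732) (nat_lit 456) (nat_lit 4602877194) (nat_lit 532) (nat_lit 13004280699) (nat_lit 100) (nat_lit 5) (nat_lit 106) (nat_lit 5) (nat_lit 107) (nat_lit 5) (nat_lit 288) (nat_lit 268) (nat_lit 164)) (XT.lf (nat_lit 0) (nat_lit 3054089642) (nat_lit 380) (nat_lit 17423494083) (nat_lit 456) (nat_lit 8370455629) (nat_lit 95) (nat_lit 5) (nat_lit 100) (nat_lit 5) (nat_lit 101) (nat_lit 5) (nat_lit 289) (nat_lit 268) (nat_lit 163)))) (XT.nd (nat_lit 78) (nat_lit 836) (nat_lit 0) (XT.lf (nat_lit 0) (nat_lit 25057093000) (nat_lit 380) (nat_lit 1413283084) (nat_lit 456) (nat_lit 3281571639) (nat_lit 95) (nat_lit 5) (nat_lit 100) (nat_lit 5) (nat_lit 101) (nat_lit 5) (nat_lit 290) (nat_lit 268) (nat_lit 162)) (XT.nd (nat_lit 78) (nat_lit 380) (nat_lit 0) (XT.lf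 (nat_lit 0) (nat_lit 2332274565) (nat_lit 456) (nat_lit 13070819784) (nat_lit 76) (nat_lit 15288057523) (nat_lit 89) (nat_lit 5) (nat_lit 95) (nat_lit 5) (nat_lit 90) (nat_lit 5) (nat_lit 291) (nat_lit 268) (nat_lit 161)) (XT.lf (nat_lit 0) (nat_lit 8317764108) (nat_lit 456) (nat_lit 22082884846) (nat_lit 76) (nat_lit 1270944588) (nat_lit 84) (nat_lit 5) (nat_lit 90) (nat_lit 5) (nat_lit 85) (nat_lit 5) (nat_lit 292) (nat_lit 268) (nat_lit 160))))))))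
noncomputable def xc99 : XT := (XT.nd (nat_lit 1716) (nat_lit 1064) (nat_lit 0) (XT.nd (nat_lit 858) (nat_lit 1596) (nat_lit 0) (XT.nd (nat_lit 390) (nat_lit 1216) (nat_lit 0) (XT.nd (nat_lit 156) (nat_lit 684) (nat_lit 0) (XT.nd (nat_lit 78) (nat_lit 0) (nat_lit 0) (XT.lf (nat_lit 0) (nat_lit 804818703) (nat_lit 380) (nat_lit 14087491285) (nat_lit 456) (nat_lit 17800069666) (nat_lit 79) (nat_lit 5) (nat_lit 84) (nat_lit 5) (nat_lit 85) (nat_lit 5) (nat_lit 293) (nat_lit 268) (nat_lit 159)) (XT.lf (nat_lit 0) (nat_lit 22045402409) (nat_lit 456) (nat_lit 8501854148) (nat_lit 76) (nat_lit 3209468998) (nat_lit 79) (nat_lit 5) (nat_lit 85) (nat_lit 5) (nat_lit 80) (nat_lit 5) (nat_lit 294) (nat_lit 268) (nat_lit 158))) (XT.nd (nat_lit 78) (nat_lit 380) (nat_lit 0) (XT.lf (nat_lit 0) (nat_lit 16216576428) (nat_lit 304) (nat_lit 13629082885) (nat_lit 380) (nat_lit 5019958490) (nat_lit 75) (nat_lit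 5) (nat_lit 79) (nat_lit 5) (nat_lit 80) (nat_lit 5) (nat_lit 295) (nat_lit 268) (nat_lit 157)) (XT.nd (nat_lit 78) (nat_lit 0) (nat_lit 0) (XT.lf (nat_lit 0) (nat_lit 2149938744) (nat_lit 380) (nat_lit 29650921045) (nat_lit 76) (nat_lit 4223036413) (nat_lit 70) (nat_lit 5) (nat_lit 75) (nat_lit 5) (nat_lit 71) (nat_lit 5) (nat_lit 296) (nat_lit 268) (nat_lit 156)) (XT.lf (nat_lit 0) (nat_lit 9898838146) (nat_lit 380) (nat_lit 4399268504) (nat_lit 76) (nat_lit 22930773595) (nat_lit 70) (nat_lit 5) (nat_lit 75) (nat_lit 5) (nat_lit 71) (nat_lit 5) (nat_lit 297) (nat_lit 268) (nat_lit 155))))) (XT.nd (nat_lit 234) (nat_lit 608) (nat_lit 0) (XT.nd (nat_lit 78) (nat_lit 304) (nat_lit 0) (XT.lf (nat_lit 0) (nat_lit 18285546051) (nat_lit 380) (nat_lit 15984404441) (nat_lit 76) (nat_lit 4216664123) (nat_lit 66) (nat_lit 5) (nat_lit 71) (nat_lit 5) (nat_lit 67) (nat_lit 5) (nat_lit 298) (nat_lit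 268) (nat_lit 154)) (XT.nd (nat_lit 78) (nat_lit 0) (nat_lit 0) (XT.lf (nat_lit 0) (nat_lit 11096560908) (nat_lit 304) (nat_lit 16284302775) (nat_lit 380) (nat_lit 12417705247) (nat_lit 62) (nat_lit 5) (nat_lit 66) (nat_lit 5) (nat_lit 67) (nat_lit 5) (nat_lit 299) (nat_lit 268) (nat_lit 153)) (XT.lf (nat_lit 0) (nat_lit 37114914838) (nat_lit 380) (nat_lit 1342153097) (nat_lit 76) (nat_lit 2713544909) (nat_lit 62) (nat_lit 5) (nat_lit 67) (nat_lit 5) (nat_lit 63) (nat_lit 5) (nat_lit 300) (nat_lit 268) (nat_lit 152)))) (XT.nd (nat_lit 78) (nat_lit 304) (nat_lit 0) (XT.lf (nat_lit 0) (nat_lit 5060691812) (nat_lit 304) (nat_lit 14894721544) (nat_lit 76) (nat_lit 22641639096) (nat_lit 58) (nat_lit 5) (nat_lit 62) (nat_lit 5) (nat_lit 59) (nat_lit 5) (nat_lit 301) (nat_lit 268) (nat_lit 151)) (XT.nd (nat_lit 78) (nat_lit 0) (nat_lit 0) (XT.lf (nat_lit 0) (nat_lit 14362539380) (nat_lit 304) (nat_lit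 332578528) (nat_lit 380) (nat_lit 29394118235) (nat_lit 54) (nat_lit 5) (nat_lit 58) (nat_lit 5) (nat_lit 59) (nat_lit 5) (nat_lit 302) (nat_lit 268) (nat_lit 150)) (XT.lf (nat_lit 0) (nat_lit 25154479811) (nat_lit 380) (nat_lit 463139713) (nat_lit 76) (nat_lit 20028122211) (nat_lit 54) (nat_lit 5) (nat_lit 59) (nat_lit 5) (nat_lit 55) (nat_lit 5) (nat_lit 303) (nat_lit 268) (nat_lit 149)))))) (XT.nd (nat_lit 390) (nat_lit 608) (nat_lit 0) (XT.nd (nat_lit 156) (nat_lit 532) (nat_lit 0) (XT.nd (nat_lit 78) (nat_lit 228) (nat_lit 0) (XT.lf (nat_lit 0) (nat_lit 30853491058) (nat_lit 228) (nat_lit 5577074660) (nat_lit 304) (nat_lit 10840702927) (nat_lit 51) (nat_lit 5) (nat_lit 54) (nat_lit 5) (nat_lit 55) (nat_lit 5) (nat_lit 304) (nat_lit 268) (nat_lit 148)) (XT.lf (nat_lit 0) (nat_lit 14901044662) (nat_lit 228) (nat_lit 33660131674) (nat_lit 304) (nat_lit 408182254) (nat_lit 48) (nat_lit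 5) (nat_lit 51) (nat_lit 5) (nat_lit 52) (nat_lit 5) (nat_lit 305) (nat_lit 268) (nat_lit 147))) (XT.nd (nat_lit 78) (nat_lit 456) (nat_lit 0) (XT.lf (nat_lit 0) (nat_lit 10561288162) (nat_lit 304) (nat_lit 2786324308) (nat_lit 76) (nat_lit 37395073604) (nat_lit 47) (nat_lit 5) (nat_lit 51) (nat_lit 5) (nat_lit 48) (nat_lit 5) (nat_lit 306) (nat_lit 268) (nat_lit 146)) (XT.nd (nat_lit 78) (nat_lit 228) (nat_lit 0) (XT.lf (nat_lit 0) (nat_lit 22439519576) (nat_lit 304) (nat_lit 22030076534) (nat_lit 76) (nat_lit 8123908012) (nat_lit 44) (nat_lit 5) (nat_lit 48) (nat_lit 5) (nat_lit 45) (nat_lit 5) (nat_lit 307) (nat_lit 268) (nat_lit 145)) (XT.lf (nat_lit 0) (nat_lit 11177912605) (nat_lit 228) (nat_lit 23999472642) (nat_lit 304) (nat_lit 19351513107) (nat_lit 41) (nat_lit 5) (nat_lit 44) (nat_lit 5) (nat_lit 45) (nat_lit 5) (nat_lit 308) (nat_lit 268) (nat_lit 144))))) (XT.nd (nat_lit 234)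 (nat_lit 152) (nat_lit 0) (XT.nd (nat_lit 78) (nat_lit 456) (nat_lit 0) (XT.lf (nat_lit 0) (nat_lit 46498802505) (nat_lit 228) (nat_lit 2274890436) (nat_lit 304) (nat_lit 7780729524) (nat_lit 41) (nat_lit 5) (nat_lit 44) (nat_lit 5) (nat_lit 45) (nat_lit 5) (nat_lit 309) (nat_lit 268) (nat_lit 143)) (XT.nd (nat_lit 78) (nat_lit 228) (nat_lit 0) (XT.lf (nat_lit 0) (nat_lit 4722191799) (nat_lit 228) (nat_lit 33523429837) (nat_lit 76) (nat_lit 20421182102) (nat_lit 38) (nat_lit 5) (nat_lit 41) (nat_lit 5) (nat_lit 39) (nat_lit 5) (nat_lit 310) (nat_lit 268) (nat_lit 142)) (XT.lf (nat_lit 0) (nat_lit 1347013467) (nat_lit 228) (nat_lit 16479379138) (nat_lit 304) (nat_lit 43051994676) (nat_lit 35) (nat_lit 5) (nat_lit 38) (nat_lit 5) (nat_lit 39) (nat_lit 5) (nat_lit 311) (nat_lit 268) (nat_lit 141)))) (XT.nd (nat_lit 78) (nat_lit 152) (nat_lit 0) (XT.lf (nat_lit 0) (nat_lit 31990841786) (nat_lit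 304) (nat_lit 24600788349) (nat_lit 76) (nat_lit 6596774276) (nat_lit 35) (nat_lit 5) (nat_lit 39) (nat_lit 5) (nat_lit 36) (nat_lit 5) (nat_lit 312) (nat_lit 268) (nat_lit 140)) (XT.nd (nat_lit 78) (nat_lit 0) (nat_lit 0) (XT.lf (nat_lit 0) (nat_lit 12139828432) (nat_lit 152) (nat_lit 35002182573) (nat_lit 228) (nat_lit 18463561762) (nat_lit 33) (nat_lit 5) (nat_lit 35) (nat_lit 5) (nat_lit 36) (nat_lit 5) (nat_lit 313) (nat_lit 268) (nat_lit 139)) (XT.lf (nat_lit 0) (nat_lit 51224703162) (nat_lit 152) (nat_lit 12074900403) (nat_lit 228) (nat_lit 4836535072) (nat_lit 33) (nat_lit 5) (nat_lit 35) (nat_lit 5) (nat_lit 36) (nat_lit 5) (nat_lit 314) (nat_lit 268) (nat_lit 138))))))) (XT.nd (nat_lit 858) (nat_lit 0) (nat_lit 0) (XT.nd (nat_lit 390) (nat_lit 532) (nat_lit 0) (XT.nd (nat_lit 156) (nat_lit 304) (nat_lit 0) (XT.nd (nat_lit 78) (nat_lit 0) (nat_lit 0) (XT.lf (nat_lit 0) (nat_lit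 9610627894) (nat_lit 228) (nat_lit 49104354973) (nat_lit 76) (nat_lit 12065814683) (nat_lit 30) (nat_lit 5) (nat_lit 33) (nat_lit 5) (nat_lit 31) (nat_lit 5) (nat_lit 315) (nat_lit 268) (nat_lit 137)) (XT.lf (nat_lit 0) (nat_lit 24974639052) (nat_lit 228) (nat_lit 11184301292) (nat_lit 76) (nat_lit 37388481399) (nat_lit 30) (nat_lit 5) (nat_lit 33) (nat_lit 5) (nat_lit 31) (nat_lit 5) (nat_lit 316) (nat_lit 268) (nat_lit 136))) (XT.nd (nat_lit 78) (nat_lit 152) (nat_lit 0) (XT.lf (nat_lit 0) (nat_lit 29195236952) (nat_lit 152) (nat_lit 12188351841) (nat_lit 228) (nat_lit 35060490444) (nat_lit 28) (nat_lit 5) (nat_lit 30) (nat_lit 5) (nat_lit 31) (nat_lit 5) (nat_lit 317) (nat_lit 268) (nat_lit 135)) (XT.nd (nat_lit 78) (nat_lit 152) (nat_lit 0) (XT.lf (nat_lit 0) (nat_lit 58850239104) (nat_lit 228) (nat_lit 7786703028) (nat_lit 76) (nat_lit 12841513908) (nat_lit 28) (nat_lit 5) (nat_lit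 31) (nat_lit 5) (nat_lit 29) (nat_lit 5) (nat_lit 318) (nat_lit 268) (nat_lit 134)) (XT.lf (nat_lit 0) (nat_lit 34186783320) (nat_lit 152) (nat_lit 43451465332) (nat_lit 228) (nat_lit 5012866067) (nat_lit 26) (nat_lit 5) (nat_lit 28) (nat_lit 5) (nat_lit 29) (nat_lit 5) (nat_lit 319) (nat_lit 268) (nat_lit 133))))) (XT.nd (nat_lit 234) (nat_lit 304) (nat_lit 0) (XT.nd (nat_lit 78) (nat_lit 152) (nat_lit 0) (XT.lf (nat_lit 0) (nat_lit 11238536854) (nat_lit 228) (nat_lit 7674308376) (nat_lit 76) (nat_lit 67063959584) (nat_lit 25) (nat_lit 5) (nat_lit 28) (nat_lit 5) (nat_lit 26) (nat_lit 5) (nat_lit 320) (nat_lit 268) (nat_lit 132)) (XT.nd (nat_lit 78) (nat_lit 0) (nat_lit 0) (XT.lf (nat_lit 0) (nat_lit 28610299578) (nat_lit 228) (nat_lit 53729120917) (nat_lit 76) (nat_lit 7115529425) (nat_lit 23) (nat_lit 5) (nat_lit 26) (nat_lit 5) (nat_lit 24) (nat_lit 5) (nat_lit 321) (nat_lit 268) (nat_lit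 131)) (XT.lf (nat_lit 0) (nat_lit 47118044628) (nat_lit 228) (nat_lit 11845366332) (nat_lit 76) (nat_lit 34135572712) (nat_lit 23) (nat_lit 5) (nat_lit 26) (nat_lit 5) (nat_lit 24) (nat_lit 5) (nat_lit 322) (nat_lit 268) (nat_lit 130)))) (XT.nd (nat_lit 78) (nat_lit 152) (nat_lit 0) (XT.lf (nat_lit 0) (nat_lit 32766828468) (nat_lit 152) (nat_lit 34096199305) (nat_lit 228) (nat_lit 30052838879) (nat_lit 21) (nat_lit 5) (nat_lit 23) (nat_lit 5) (nat_lit 24) (nat_lit 5) (nat_lit 323) (nat_lit 268) (nat_lit 129)) (XT.nd (nat_lit 78) (nat_lit 152) (nat_lit 0) (XT.lf (nat_lit 0) (nat_lit 79852167490) (nat_lit 152) (nat_lit 7862006932) (nat_lit 228) (nat_lit 13205854847) (nat_lit 21) (nat_lit 5) (nat_lit 23) (nat_lit 5) (nat_lit 24) (nat_lit 5) (nat_lit 324) (nat_lit 268) (nat_lit 128)) (XT.lf (nat_lit 0) (nat_lit 4821507515) (nat_lit 152) (nat_lit 80708587846) (nat_lit 76) (nat_lit 19580248878)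 (nat_lit 19) (nat_lit 5) (nat_lit 21) (nat_lit 5) (nat_lit 20) (nat_lit 5) (nat_lit 325) (nat_lit 268) (nat_lit 127)))))) (XT.nd (nat_lit 33384) (nat_lit 0) (nat_lit 9956) (XT.nd (nat_lit 33150) (nat_lit 0) (nat_lit 10640) (XT.nd (nat_lit 33072) (nat_lit 0) (nat_lit 10640) (XT.lf (nat_lit 0) (nat_lit 23775200101) (nat_lit 152) (nat_lit 37138099549) (nat_lit 76) (nat_lit 48584012963) (nat_lit 19) (nat_lit 5) (nat_lit 21) (nat_lit 5) (nat_lit 20) (nat_lit 5) (nat_lit 326) (nat_lit 268) (nat_lit 126)) (XT.lf (nat_lit 0) (nat_lit 4643100232) (nat_lit 1140) (nat_lit 1945185214) (nat_lit 1140) (nat_lit 1945185214) (nat_lit 159) (nat_lit 3) (nat_lit 174) (nat_lit 3) (nat_lit 174) (nat_lit 5) (nat_lit 269) (nat_lit 269) (nat_lit 182))) (XT.nd (nat_lit 78) (nat_lit 0) (nat_lit 76) (XT.lf (nat_lit 76) (nat_lit 8309346537) (nat_lit 0) (nat_lit 1630752536) (nat_lit 1140) (nat_lit 7540111336) (nat_lit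 160) (nat_lit 5) (nat_lit 159) (nat_lit 3) (nat_lit 174) (nat_lit 5) (nat_lit 270) (nat_lit 269) (nat_lit 181)) (XT.nd (nat_lit 78) (nat_lit 0) (nat_lit 76) (XT.lf (nat_lit 76) (nat_lit 3236987216) (nat_lit 0) (nat_lit 7540230774) (nat_lit 1140) (nat_lit 7132457344) (nat_lit 161) (nat_lit 5) (nat_lit 160) (nat_lit 5) (nat_lit 175) (nat_lit 5) (nat_lit 271) (nat_lit 269) (nat_lit 180)) (XT.lf (nat_lit 0) (nat_lit 11790938564) (nat_lit 1064) (nat_lit 1974861816) (nat_lit 1140) (nat_lit 4590816608) (nat_lit 161) (nat_lit 5) (nat_lit 175) (nat_lit 5) (nat_lit 176) (nat_lit 5) (nat_lit 272) (nat_lit 269) (nat_lit 179))))) (XT.nd (nat_lit 234) (nat_lit 836) (nat_lit 0) (XT.nd (nat_lit 78) (nat_lit 0) (nat_lit 76) (XT.lf (nat_lit 76) (nat_lit 11493908793) (nat_lit 0) (nat_lit 1528142496) (nat_lit 1140) (nat_lit 5798896921) (nat_lit 162) (nat_lit 5) (nat_lit 161) (nat_lit 5) (nat_lit 176) (nat_lit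 5) (nat_lit 273) (nat_lit 269) (nat_lit 178)) (XT.nd (nat_lit 78) (nat_lit 0) (nat_lit 76) (XT.lf (nat_lit 76) (nat_lit 6372354169) (nat_lit 0) (nat_lit 8113997241) (nat_lit 1140) (nat_lit 4817037223) (nat_lit 163) (nat_lit 5) (nat_lit 162) (nat_lit 5) (nat_lit 177) (nat_lit 5) (nat_lit 274) (nat_lit 269) (nat_lit 177)) (XT.lf (nat_lit 76) (nat_lit 1048637655) (nat_lit 0) (nat_lit 15103814838) (nat_lit 1140) (nat_lit 3653680614) (nat_lit 164) (nat_lit 5) (nat_lit 163) (nat_lit 5) (nat_lit 178) (nat_lit 5) (nat_lit 275) (nat_lit 269) (nat_lit 176)))) (XT.nd (nat_lit 78) (nat_lit 988) (nat_lit 0) (XT.lf (nat_lit 76) (nat_lit 15901601816) (nat_lit 0) (nat_lit 2197072492) (nat_lit 1140) (nat_lit 2229473751) (nat_lit 164) (nat_lit 5) (nat_lit 163) (nat_lit 5) (nat_lit 178) (nat_lit 5) (nat_lit 276) (nat_lit 269) (nat_lit 175)) (XT.nd (nat_lit 78) (nat_lit 1064) (nat_lit 0) (XT.lf (nat_lit 76)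 (nat_lit 10708383718) (nat_lit 0) (nat_lit 9629392753) (nat_lit 1140) (nat_lit 532656135) (nat_lit 165) (nat_lit 5) (nat_lit 164) (nat_lit 5) (nat_lit 179) (nat_lit 5) (nat_lit 277) (nat_lit 269) (nat_lit 174)) (XT.lf (nat_lit 0) (nat_lit 1366122844) (nat_lit 1140) (nat_lit 16163970355) (nat_lit 1216) (nat_lit 3905166428) (nat_lit 150) (nat_lit 5) (nat_lit 165) (nat_lit 5) (nat_lit 166) (nat_lit 5) (nat_lit 278) (nat_lit 269) (nat_lit 173))))))))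
noncomputable def xc100 : XT := (XT.nd (nat_lit 1716) (nat_lit 2964) (nat_lit 0) (XT.nd (nat_lit 858) (nat_lit 2888) (nat_lit 0) (XT.nd (nat_lit 390) (nat_lit 2508) (nat_lit 0) (XT.nd (nat_lit 156) (nat_lit 1292) (nat_lit 0) (XT.nd (nat_lit 78) (nat_lit 0) (nat_lit 76) (XT.lf (nat_lit 0) (nat_lit 3536407454) (nat_lit 1140) (nat_lit 452685507) (nat_lit 1216) (nat_lit 18033480976) (nat_lit 150) (nat_lit 5) (nat_lit 165) (nat_lit 5) (nat_lit 166) (nat_lit 5) (nat_lit 279) (nat_lit 269) (nat_lit 172)) (XT.lf (nat_lit 0) (nat_lit 6057668694) (nat_lit 1140) (nat_lit 6383626323) (nat_lit 76) (nat_lit 10190715205) (nat_lit 151) (nat_lit 5) (nat_lit 166) (nat_lit 5) (nat_lit 152) (nat_lit 5) (nat_lit 280) (nat_lit 269) (nat_lit 171))) (XT.nd (nat_lit 78) (nat_lit 532) (nat_lit 0) (XT.lf (nat_lit 0) (nat_lit 8856273459) (nat_lit 912) (nat_lit 12607450566) (nat_lit 76) (nat_lit 1803684581) (nat_lit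 140) (nat_lit 5) (nat_lit 152) (nat_lit 5) (nat_lit 141) (nat_lit 5) (nat_lit 281) (nat_lit 269) (nat_lit 170)) (XT.nd (nat_lit 78) (nat_lit 0) (nat_lit 0) (XT.lf (nat_lit 0) (nat_lit 4710022447) (nat_lit 532) (nat_lit 7308553561) (nat_lit 608) (nat_lit 11909315202) (nat_lit 133) (nat_lit 5) (nat_lit 140) (nat_lit 5) (nat_lit 141) (nat_lit 5) (nat_lit 282) (nat_lit 269) (nat_lit 169)) (XT.lf (nat_lit 0) (nat_lit 15529770037) (nat_lit 608) (nat_lit 1546832510) (nat_lit 76) (nat_lit 7539098138) (nat_lit 133) (nat_lit 5) (nat_lit 141) (nat_lit 5) (nat_lit 134) (nat_lit 5) (nat_lit 283) (nat_lit 269) (nat_lit 168))))) (XT.nd (nat_lit 234) (nat_lit 912) (nat_lit 0) (XT.nd (nat_lit 78) (nat_lit 1064) (nat_lit 0) (XT.lf (nat_lit 0) (nat_lit 17259105839) (nat_lit 532) (nat_lit 2184796217) (nat_lit 608) (nat_lit 5887202017) (nat_lit 126) (nat_lit 5) (nat_lit 133) (nat_lit 5) (nat_lit 134) (nat_lit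 5) (nat_lit 284) (nat_lit 269) (nat_lit 167)) (XT.nd (nat_lit 78) (nat_lit 608) (nat_lit 0) (XT.lf (nat_lit 0) (nat_lit 11029917907) (nat_lit 456) (nat_lit 12763422326) (nat_lit 532) (nat_lit 2281773020) (nat_lit 120) (nat_lit 5) (nat_lit 126) (nat_lit 5) (nat_lit 127) (nat_lit 5) (nat_lit 285) (nat_lit 269) (nat_lit 166)) (XT.lf (nat_lit 0) (nat_lit 1638911165) (nat_lit 608) (nat_lit 22439531920) (nat_lit 76) (nat_lit 2772538013) (nat_lit 112) (nat_lit 5) (nat_lit 120) (nat_lit 5) (nat_lit 113) (nat_lit 5) (nat_lit 286) (nat_lit 269) (nat_lit 165)))) (XT.nd (nat_lit 78) (nat_lit 912) (nat_lit 0) (XT.lf (nat_lit 0) (nat_lit 5983054677) (nat_lit 608) (nat_lit 2670707609) (nat_lit 76) (nat_lit 19002984615) (nat_lit 112) (nat_lit 5) (nat_lit 120) (nat_lit 5) (nat_lit 113) (nat_lit 5) (nat_lit 287) (nat_lit 269) (nat_lit 164)) (XT.nd (nat_lit 78) (nat_lit 456) (nat_lit 0) (XT.lf (nat_lit 0)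 (nat_lit 10785333516) (nat_lit 532) (nat_lit 10136869134) (nat_lit 76) (nat_lit 7573390299) (nat_lit 106) (nat_lit 5) (nat_lit 113) (nat_lit 5) (nat_lit 107) (nat_lit 5) (nat_lit 288) (nat_lit 269) (nat_lit 163)) (XT.lf (nat_lit 0) (nat_lit 11240512889) (nat_lit 456) (nat_lit 4800233908) (nat_lit 532) (nat_lit 13329262746) (nat_lit 100) (nat_lit 5) (nat_lit 106) (nat_lit 5) (nat_lit 107) (nat_lit 5) (nat_lit 289) (nat_lit 269) (nat_lit 162)))))) (XT.nd (nat_lit 390) (nat_lit 1292) (nat_lit 0) (XT.nd (nat_lit 156) (nat_lit 1216) (nat_lit 0) (XT.nd (nat_lit 78) (nat_lit 0) (nat_lit 0) (XT.lf (nat_lit 0) (nat_lit 3554244576) (nat_lit 380) (nat_lit 18251045190) (nat_lit 456) (nat_lit 8475484390) (nat_lit 95) (nat_lit 5) (nat_lit 100) (nat_lit 5) (nat_lit 101) (nat_lit 5) (nat_lit 290) (nat_lit 269) (nat_lit 161)) (XT.lf (nat_lit 0) (nat_lit 26640852842) (nat_lit 380) (nat_lit 1442400955) (nat_lit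 456) (nat_lit 3147084486) (nat_lit 95) (nat_lit 5) (nat_lit 100) (nat_lit 5) (nat_lit 101) (nat_lit 5) (nat_lit 291) (nat_lit 269) (nat_lit 160))) (XT.nd (nat_lit 78) (nat_lit 760) (nat_lit 0) (XT.lf (nat_lit 0) (nat_lit 2731275394) (nat_lit 456) (nat_lit 13388279446) (nat_lit 76) (nat_lit 16097196597) (nat_lit 89) (nat_lit 5) (nat_lit 95) (nat_lit 5) (nat_lit 90) (nat_lit 5) (nat_lit 292) (nat_lit 269) (nat_lit 159)) (XT.nd (nat_lit 78) (nat_lit 380) (nat_lit 0) (XT.lf (nat_lit 0) (nat_lit 9006253056) (nat_lit 456) (nat_lit 22852478502) (nat_lit 76) (nat_lit 1387800386) (nat_lit 84) (nat_lit 5) (nat_lit 90) (nat_lit 5) (nat_lit 85) (nat_lit 5) (nat_lit 293) (nat_lit 269) (nat_lit 158)) (XT.lf (nat_lit 0) (nat_lit 1170020399) (nat_lit 380) (nat_lit 14729648565) (nat_lit 456) (nat_lit 18419006175) (nat_lit 79) (nat_lit 5) (nat_lit 84) (nat_lit 5) (nat_lit 85) (nat_lit 5) (nat_lit 294) (nat_lit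 269) (nat_lit 157))))) (XT.nd (nat_lit 234) (nat_lit 608) (nat_lit 0) (XT.nd (nat_lit 78) (nat_lit 684) (nat_lit 0) (XT.lf (nat_lit 0) (nat_lit 23398474004) (nat_lit 456) (nat_lit 8610102868) (nat_lit 76) (nat_lit 3428040735) (nat_lit 79) (nat_lit 5) (nat_lit 85) (nat_lit 5) (nat_lit 80) (nat_lit 5) (nat_lit 295) (nat_lit 269) (nat_lit 156)) (XT.nd (nat_lit 78) (nat_lit 380) (nat_lit 0) (XT.lf (nat_lit 0) (nat_lit 17335166968) (nat_lit 304) (nat_lit 14244592251) (nat_lit 380) (nat_lit 5021484791) (nat_lit 75) (nat_lit 5) (nat_lit 79) (nat_lit 5) (nat_lit 80) (nat_lit 5) (nat_lit 296) (nat_lit 269) (nat_lit 155)) (XT.lf (nat_lit 0) (nat_lit 2493969367) (nat_lit 380) (nat_lit 30822630271) (nat_lit 76) (nat_lit 4501025345) (nat_lit 70) (nat_lit 5) (nat_lit 75) (nat_lit 5) (nat_lit 71) (nat_lit 5) (nat_lit 297) (nat_lit 269) (nat_lit 154)))) (XT.nd (nat_lit 78) (nat_lit 608) (nat_lit 0) (XT.lf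 (nat_lit 0) (nat_lit 10619050230) (nat_lit 380) (nat_lit 4323196856) (nat_lit 76) (nat_lit 24140966666) (nat_lit 70) (nat_lit 5) (nat_lit 75) (nat_lit 5) (nat_lit 71) (nat_lit 5) (nat_lit 298) (nat_lit 269) (nat_lit 153)) (XT.nd (nat_lit 78) (nat_lit 304) (nat_lit 0) (XT.lf (nat_lit 0) (nat_lit 19417805689) (nat_lit 380) (nat_lit 16489895755) (nat_lit 76) (nat_lit 4496368813) (nat_lit 66) (nat_lit 5) (nat_lit 71) (nat_lit 5) (nat_lit 67) (nat_lit 5) (nat_lit 299) (nat_lit 269) (nat_lit 152)) (XT.lf (nat_lit 0) (nat_lit 11936698181) (nat_lit 304) (nat_lit 17023553477) (nat_lit 380) (nat_lit 12821615738) (nat_lit 62) (nat_lit 5) (nat_lit 66) (nat_lit 5) (nat_lit 67) (nat_lit 5) (nat_lit 300) (nat_lit 269) (nat_lit 151))))))) (XT.nd (nat_lit 858) (nat_lit 1140) (nat_lit 0) (XT.nd (nat_lit 390) (nat_lit 988) (nat_lit 0) (XT.nd (nat_lit 156) (nat_lit 532) (nat_lit 0) (XT.nd (nat_lit 78) (nat_lit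 304) (nat_lit 0) (XT.lf (nat_lit 0) (nat_lit 39171675242) (nat_lit 380) (nat_lit 1131909701) (nat_lit 76) (nat_lit 2919223688) (nat_lit 62) (nat_lit 5) (nat_lit 67) (nat_lit 5) (nat_lit 63) (nat_lit 5) (nat_lit 301) (nat_lit 269) (nat_lit 150)) (XT.lf (nat_lit 0) (nat_lit 5509963956) (nat_lit 304) (nat_lit 15365869796) (nat_lit 76) (nat_lit 23844902722) (nat_lit 58) (nat_lit 5) (nat_lit 62) (nat_lit 5) (nat_lit 59) (nat_lit 5) (nat_lit 302) (nat_lit 269) (nat_lit 149))) (XT.nd (nat_lit 78) (nat_lit 228) (nat_lit 0) (XT.lf (nat_lit 0) (nat_lit 15346411834) (nat_lit 304) (nat_lit 272909385) (nat_lit 380) (nat_lit 30668425237) (nat_lit 54) (nat_lit 5) (nat_lit 58) (nat_lit 5) (nat_lit 59) (nat_lit 5) (nat_lit 303) (nat_lit 269) (nat_lit 148)) (XT.nd (nat_lit 78) (nat_lit 228) (nat_lit 0) (XT.lf (nat_lit 0) (nat_lit 26593328412) (nat_lit 380) (nat_lit 228236169) (nat_lit 76) (nat_lit 21100775197)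 (nat_lit 54) (nat_lit 5) (nat_lit 59) (nat_lit 5) (nat_lit 55) (nat_lit 5) (nat_lit 304) (nat_lit 269) (nat_lit 147)) (XT.lf (nat_lit 0) (nat_lit 32646828887) (nat_lit 228) (nat_lit 5780174274) (nat_lit 304) (nat_lit 11202338493) (nat_lit 51) (nat_lit 5) (nat_lit 54) (nat_lit 5) (nat_lit 55) (nat_lit 5) (nat_lit 305) (nat_lit 269) (nat_lit 146))))) (XT.nd (nat_lit 234) (nat_lit 456) (nat_lit 0) (XT.nd (nat_lit 78) (nat_lit 304) (nat_lit 0) (XT.lf (nat_lit 0) (nat_lit 15894200679) (nat_lit 228) (nat_lit 35264693067) (nat_lit 304) (nat_lit 253611445) (nat_lit 48) (nat_lit 5) (nat_lit 51) (nat_lit 5) (nat_lit 52) (nat_lit 5) (nat_lit 306) (nat_lit 269) (nat_lit 145)) (XT.nd (nat_lit 78) (nat_lit 228) (nat_lit 0) (XT.lf (nat_lit 0) (nat_lit 11252748221) (nat_lit 304) (nat_lit 2685885192) (nat_lit 76) (nat_lit 39336070976) (nat_lit 47) (nat_lit 5) (nat_lit 51) (nat_lit 5) (nat_lit 48) (nat_lit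 5) (nat_lit 307) (nat_lit 269) (nat_lit 144)) (XT.lf (nat_lit 0) (nat_lit 23720070300) (nat_lit 304) (nat_lit 22894479266) (nat_lit 76) (nat_lit 8603668596) (nat_lit 44) (nat_lit 5) (nat_lit 48) (nat_lit 5) (nat_lit 45) (nat_lit 5) (nat_lit 308) (nat_lit 269) (nat_lit 143)))) (XT.nd (nat_lit 78) (nat_lit 228) (nat_lit 0) (XT.lf (nat_lit 0) (nat_lit 11967112874) (nat_lit 228) (nat_lit 25122379030) (nat_lit 304) (nat_lit 20161060032) (nat_lit 41) (nat_lit 5) (nat_lit 44) (nat_lit 5) (nat_lit 45) (nat_lit 5) (nat_lit 309) (nat_lit 269) (nat_lit 142)) (XT.nd (nat_lit 78) (nat_lit 228) (nat_lit 0) (XT.lf (nat_lit 0) (nat_lit 49043080382) (nat_lit 228) (nat_lit 2315237583) (nat_lit 304) (nat_lit 8019262447) (nat_lit 41) (nat_lit 5) (nat_lit 44) (nat_lit 5) (nat_lit 45) (nat_lit 5) (nat_lit 310) (nat_lit 269) (nat_lit 141)) (XT.lf (nat_lit 0) (nat_lit 5101624310) (nat_lit 228) (nat_lit 34979780360)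 (nat_lit 76) (nat_lit 21514268541) (nat_lit 38) (nat_lit 5) (nat_lit 41) (nat_lit 5) (nat_lit 39) (nat_lit 5) (nat_lit 311) (nat_lit 269) (nat_lit 140)))))) (XT.nd (nat_lit 390) (nat_lit 532) (nat_lit 0) (XT.nd (nat_lit 156) (nat_lit 380) (nat_lit 0) (XT.nd (nat_lit 78) (nat_lit 0) (nat_lit 0) (XT.lf (nat_lit 0) (nat_lit 1627883986) (nat_lit 228) (nat_lit 17228378753) (nat_lit 304) (nat_lit 45061724509) (nat_lit 35) (nat_lit 5) (nat_lit 38) (nat_lit 5) (nat_lit 39) (nat_lit 5) (nat_lit 312) (nat_lit 269) (nat_lit 139)) (XT.lf (nat_lit 0) (nat_lit 33723023071) (nat_lit 304) (nat_lit 25624048156) (nat_lit 76) (nat_lit 6996619104) (nat_lit 35) (nat_lit 5) (nat_lit 39) (nat_lit 5) (nat_lit 36) (nat_lit 5) (nat_lit 313) (nat_lit 269) (nat_lit 138))) (XT.nd (nat_lit 78) (nat_lit 228) (nat_lit 0) (XT.lf (nat_lit 0) (nat_lit 12947672168) (nat_lit 152) (nat_lit 36679693145) (nat_lit 228) (nat_lit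 19254490741) (nat_lit 33) (nat_lit 5) (nat_lit 35) (nat_lit 5) (nat_lit 36) (nat_lit 5) (nat_lit 314) (nat_lit 269) (nat_lit 137)) (XT.nd (nat_lit 78) (nat_lit 228) (nat_lit 0) (XT.lf (nat_lit 0) (nat_lit 53977226238) (nat_lit 152) (nat_lit 12609503941) (nat_lit 228) (nat_lit 4952410293) (nat_lit 33) (nat_lit 5) (nat_lit 35) (nat_lit 5) (nat_lit 36) (nat_lit 5) (nat_lit 315) (nat_lit 269) (nat_lit 136)) (XT.lf (nat_lit 0) (nat_lit 10211245011) (nat_lit 228) (nat_lit 51368197546) (nat_lit 76) (nat_lit 12736662198) (nat_lit 30) (nat_lit 5) (nat_lit 33) (nat_lit 5) (nat_lit 31) (nat_lit 5) (nat_lit 316) (nat_lit 269) (nat_lit 135))))) (XT.nd (nat_lit 234) (nat_lit 380) (nat_lit 0) (XT.nd (nat_lit 78) (nat_lit 152) (nat_lit 0) (XT.lf (nat_lit 0) (nat_lit 26337738359) (nat_lit 228) (nat_lit 11561254285) (nat_lit 76) (nat_lit 39322245260) (nat_lit 30) (nat_lit 5) (nat_lit 33) (nat_lit 5) (nat_lit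 31) (nat_lit 5) (nat_lit 317) (nat_lit 269) (nat_lit 134)) (XT.nd (nat_lit 78) (nat_lit 0) (nat_lit 0) (XT.lf (nat_lit 0) (nat_lit 30832036365) (nat_lit 152) (nat_lit 12731354950) (nat_lit 228) (nat_lit 36699455185) (nat_lit 28) (nat_lit 5) (nat_lit 30) (nat_lit 5) (nat_lit 31) (nat_lit 5) (nat_lit 318) (nat_lit 269) (nat_lit 133)) (XT.lf (nat_lit 0) (nat_lit 61898714394) (nat_lit 228) (nat_lit 8004765944) (nat_lit 76) (nat_lit 13545607219) (nat_lit 28) (nat_lit 5) (nat_lit 31) (nat_lit 5) (nat_lit 29) (nat_lit 5) (nat_lit 319) (nat_lit 269) (nat_lit 132)))) (XT.nd (nat_lit 78) (nat_lit 228) (nat_lit 0) (XT.lf (nat_lit 0) (nat_lit 36062485237) (nat_lit 152) (nat_lit 45560192490) (nat_lit 228) (nat_lit 5157810196) (nat_lit 26) (nat_lit 5) (nat_lit 28) (nat_lit 5) (nat_lit 29) (nat_lit 5) (nat_lit 320) (nat_lit 269) (nat_lit 131)) (XT.nd (nat_lit 78) (nat_lit 152) (nat_lit 0) (XT.lf (nat_lit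 0) (nat_lit 11899165223) (nat_lit 228) (nat_lit 7897519758) (nat_lit 76) (nat_lit 70475900060) (nat_lit 25) (nat_lit 5) (nat_lit 28) (nat_lit 5) (nat_lit 26) (nat_lit 5) (nat_lit 321) (nat_lit 269) (nat_lit 130)) (XT.lf (nat_lit 0) (nat_lit 30136895280) (nat_lit 228) (nat_lit 56257295115) (nat_lit 76) (nat_lit 7530530343) (nat_lit 23) (nat_lit 5) (nat_lit 26) (nat_lit 5) (nat_lit 24) (nat_lit 5) (nat_lit 322) (nat_lit 269) (nat_lit 129))))))))
noncomputable def xc101 : XT := (XT.nd (nat_lit 34788) (nat_lit 0) (nat_lit 1900) (XT.nd (nat_lit 33930) (nat_lit 0) (nat_lit 7068) (XT.nd (nat_lit 33462) (nat_lit 0) (nat_lit 10640) (XT.nd (nat_lit 156) (nat_lit 152) (nat_lit 0) (XT.nd (nat_lit 78) (nat_lit 152) (nat_lit 0) (XT.lf (nat_lit 0) (nat_lit 49565452310) (nat_lit 228) (nat_lit 12286890033) (nat_lit 76) (nat_lit 35898755583) (nat_lit 23) (nat_lit 5) (nat_lit 26) (nat_lit 5) (nat_lit 24) (nat_lit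 5) (nat_lit 323) (nat_lit 269) (nat_lit 128)) (XT.lf (nat_lit 0) (nat_lit 34551593444) (nat_lit 152) (nat_lit 35743141278) (nat_lit 228) (nat_lit 31464183103) (nat_lit 21) (nat_lit 5) (nat_lit 23) (nat_lit 5) (nat_lit 24) (nat_lit 5) (nat_lit 324) (nat_lit 269) (nat_lit 127))) (XT.nd (nat_lit 78) (nat_lit 152) (nat_lit 0) (XT.lf (nat_lit 0) (nat_lit 83984226866) (nat_lit 152) (nat_lit 8199994906) (nat_lit 228) (nat_lit 13779197381) (nat_lit 21) (nat_lit 5) (nat_lit 23) (nat_lit 5) (nat_lit 24) (nat_lit 5) (nat_lit 325) (nat_lit 269) (nat_lit 126)) (XT.nd (nat_lit 33150) (nat_lit 0) (nat_lit 10640) (XT.lf (nat_lit 0) (nat_lit 5145620826) (nat_lit 152) (nat_lit 84604813536) (nat_lit 76) (nat_lit 20612860666) (nat_lit 19) (nat_lit 5) (nat_lit 21) (nat_lit 5) (nat_lit 20) (nat_lit 5) (nat_lit 326) (nat_lit 269) (nat_lit 125)) (XT.lf (nat_lit 0) (nat_lit 5211786785) (nat_lit 1140) (nat_lit 1868760533)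 (nat_lit 1140) (nat_lit 1868760533) (nat_lit 159) (nat_lit 3) (nat_lit 174) (nat_lit 3) (nat_lit 174) (nat_lit 5) (nat_lit 270) (nat_lit 270) (nat_lit 180))))) (XT.nd (nat_lit 234) (nat_lit 0) (nat_lit 152) (XT.nd (nat_lit 78) (nat_lit 0) (nat_lit 76) (XT.lf (nat_lit 76) (nat_lit 9062224517) (nat_lit 0) (nat_lit 2019135367) (nat_lit 1140) (nat_lit 7252123091) (nat_lit 160) (nat_lit 5) (nat_lit 159) (nat_lit 3) (nat_lit 174) (nat_lit 5) (nat_lit 271) (nat_lit 270) (nat_lit 179)) (XT.nd (nat_lit 78) (nat_lit 0) (nat_lit 76) (XT.lf (nat_lit 76) (nat_lit 3749583962) (nat_lit 0) (nat_lit 8180634406) (nat_lit 1140) (nat_lit 6855173427) (nat_lit 161) (nat_lit 5) (nat_lit 160) (nat_lit 5) (nat_lit 175) (nat_lit 5) (nat_lit 272) (nat_lit 270) (nat_lit 178)) (XT.lf (nat_lit 0) (nat_lit 12962968913) (nat_lit 1064) (nat_lit 1718322452) (nat_lit 1140) (nat_lit 4574402806) (nat_lit 161) (nat_lit 5) (nat_lit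 175) (nat_lit 5) (nat_lit 176) (nat_lit 5) (nat_lit 273) (nat_lit 270) (nat_lit 177)))) (XT.nd (nat_lit 78) (nat_lit 0) (nat_lit 76) (XT.lf (nat_lit 76) (nat_lit 12413702588) (nat_lit 0) (nat_lit 1817514678) (nat_lit 1140) (nat_lit 5512818201) (nat_lit 162) (nat_lit 5) (nat_lit 161) (nat_lit 5) (nat_lit 176) (nat_lit 5) (nat_lit 274) (nat_lit 270) (nat_lit 176)) (XT.nd (nat_lit 78) (nat_lit 0) (nat_lit 76) (XT.lf (nat_lit 76) (nat_lit 7045611856) (nat_lit 0) (nat_lit 8698005436) (nat_lit 1140) (nat_lit 4507792082) (nat_lit 163) (nat_lit 5) (nat_lit 162) (nat_lit 5) (nat_lit 177) (nat_lit 5) (nat_lit 275) (nat_lit 270) (nat_lit 175)) (XT.lf (nat_lit 76) (nat_lit 1463865836) (nat_lit 0) (nat_lit 16005634134) (nat_lit 1140) (nat_lit 3310552056) (nat_lit 164) (nat_lit 5) (nat_lit 163) (nat_lit 5) (nat_lit 178) (nat_lit 5) (nat_lit 276) (nat_lit 270) (nat_lit 174)))))) (XT.nd (nat_lit 390) (nat_lit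 2888) (nat_lit 0) (XT.nd (nat_lit 156) (nat_lit 988) (nat_lit 0) (XT.nd (nat_lit 78) (nat_lit 0) (nat_lit 76) (XT.lf (nat_lit 76) (nat_lit 17042202190) (nat_lit 0) (nat_lit 2446572358) (nat_lit 1140) (nat_lit 1840173544) (nat_lit 164) (nat_lit 5) (nat_lit 163) (nat_lit 5) (nat_lit 178) (nat_lit 5) (nat_lit 277) (nat_lit 270) (nat_lit 173)) (XT.lf (nat_lit 76) (nat_lit 11595882791) (nat_lit 0) (nat_lit 10222951827) (nat_lit 1140) (nat_lit 80192281) (nat_lit 165) (nat_lit 5) (nat_lit 164) (nat_lit 5) (nat_lit 179) (nat_lit 5) (nat_lit 278) (nat_lit 270) (nat_lit 172))) (XT.nd (nat_lit 78) (nat_lit 0) (nat_lit 0) (XT.lf (nat_lit 0) (nat_lit 1884242341) (nat_lit 1140) (nat_lit 16604756351) (nat_lit 1216) (nat_lit 4003602785) (nat_lit 150) (nat_lit 5) (nat_lit 165) (nat_lit 5) (nat_lit 166) (nat_lit 5) (nat_lit 279) (nat_lit 270) (nat_lit 171)) (XT.nd (nat_lit 78) (nat_lit 0) (nat_lit 76) (XT.lf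 (nat_lit 0) (nat_lit 4141621498) (nat_lit 1140) (nat_lit 125403095) (nat_lit 1216) (nat_lit 18842943631) (nat_lit 150) (nat_lit 5) (nat_lit 165) (nat_lit 5) (nat_lit 166) (nat_lit 5) (nat_lit 280) (nat_lit 270) (nat_lit 170)) (XT.lf (nat_lit 0) (nat_lit 6771127199) (nat_lit 1140) (nat_lit 6349056739) (nat_lit 76) (nat_lit 10630268972) (nat_lit 151) (nat_lit 5) (nat_lit 166) (nat_lit 5) (nat_lit 152) (nat_lit 5) (nat_lit 281) (nat_lit 270) (nat_lit 169))))) (XT.nd (nat_lit 234) (nat_lit 1596) (nat_lit 0) (XT.nd (nat_lit 78) (nat_lit 532) (nat_lit 0) (XT.lf (nat_lit 0) (nat_lit 9692926490) (nat_lit 912) (nat_lit 12881094526) (nat_lit 76) (nat_lit 1844142294) (nat_lit 140) (nat_lit 5) (nat_lit 152) (nat_lit 5) (nat_lit 141) (nat_lit 5) (nat_lit 282) (nat_lit 270) (nat_lit 168)) (XT.nd (nat_lit 78) (nat_lit 0) (nat_lit 0) (XT.lf (nat_lit 0) (nat_lit 5292026584) (nat_lit 532) (nat_lit 7705894126)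 (nat_lit 608) (nat_lit 12114250160) (nat_lit 133) (nat_lit 5) (nat_lit 140) (nat_lit 5) (nat_lit 141) (nat_lit 5) (nat_lit 283) (nat_lit 270) (nat_lit 167)) (XT.lf (nat_lit 0) (nat_lit 16666362477) (nat_lit 608) (nat_lit 1282341106) (nat_lit 76) (nat_lit 7886252900) (nat_lit 133) (nat_lit 5) (nat_lit 141) (nat_lit 5) (nat_lit 134) (nat_lit 5) (nat_lit 284) (nat_lit 270) (nat_lit 166)))) (XT.nd (nat_lit 78) (nat_lit 1064) (nat_lit 0) (XT.lf (nat_lit 0) (nat_lit 18454095586) (nat_lit 532) (nat_lit 2308149423) (nat_lit 608) (nat_lit 5824338291) (nat_lit 126) (nat_lit 5) (nat_lit 133) (nat_lit 5) (nat_lit 134) (nat_lit 5) (nat_lit 285) (nat_lit 270) (nat_lit 165)) (XT.nd (nat_lit 78) (nat_lit 608) (nat_lit 0) (XT.lf (nat_lit 0) (nat_lit 11914820819) (nat_lit 456) (nat_lit 13400926750) (nat_lit 532) (nat_lit 2052480526) (nat_lit 120) (nat_lit 5) (nat_lit 126) (nat_lit 5) (nat_lit 127) (nat_lit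 5) (nat_lit 286) (nat_lit 270) (nat_lit 164)) (XT.lf (nat_lit 0) (nat_lit 2044755166) (nat_lit 608) (nat_lit 23220273774) (nat_lit 76) (nat_lit 2918175281) (nat_lit 112) (nat_lit 5) (nat_lit 120) (nat_lit 5) (nat_lit 113) (nat_lit 5) (nat_lit 287) (nat_lit 270) (nat_lit 163))))))) (XT.nd (nat_lit 858) (nat_lit 1976) (nat_lit 0) (XT.nd (nat_lit 390) (nat_lit 1900) (nat_lit 0) (XT.nd (nat_lit 156) (nat_lit 836) (nat_lit 0) (XT.nd (nat_lit 78) (nat_lit 456) (nat_lit 0) (XT.lf (nat_lit 0) (nat_lit 6590682118) (nat_lit 608) (nat_lit 2479257521) (nat_lit 76) (nat_lit 19959810386) (nat_lit 112) (nat_lit 5) (nat_lit 120) (nat_lit 5) (nat_lit 113) (nat_lit 5) (nat_lit 288) (nat_lit 270) (nat_lit 162)) (XT.lf (nat_lit 0) (nat_lit 11621601237) (nat_lit 532) (nat_lit 10318767006) (nat_lit 76) (nat_lit 7970541961) (nat_lit 106) (nat_lit 5) (nat_lit 113) (nat_lit 5) (nat_lit 107) (nat_lit 5) (nat_lit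 289) (nat_lit 270) (nat_lit 161))) (XT.nd (nat_lit 78) (nat_lit 380) (nat_lit 0) (XT.lf (nat_lit 0) (nat_lit 12118169618) (nat_lit 456) (nat_lit 5010506695) (nat_lit 532) (nat_lit 13700730883) (nat_lit 100) (nat_lit 5) (nat_lit 106) (nat_lit 5) (nat_lit 107) (nat_lit 5) (nat_lit 290) (nat_lit 270) (nat_lit 160)) (XT.nd (nat_lit 78) (nat_lit 0) (nat_lit 0) (XT.lf (nat_lit 0) (nat_lit 4047104606) (nat_lit 380) (nat_lit 19124029560) (nat_lit 456) (nat_lit 8614910291) (nat_lit 95) (nat_lit 5) (nat_lit 100) (nat_lit 5) (nat_lit 101) (nat_lit 5) (nat_lit 291) (nat_lit 270) (nat_lit 159)) (XT.lf (nat_lit 0) (nat_lit 28273036248) (nat_lit 380) (nat_lit 1476837300) (nat_lit 456) (nat_lit 3033630789) (nat_lit 95) (nat_lit 5) (nat_lit 100) (nat_lit 5) (nat_lit 101) (nat_lit 5) (nat_lit 292) (nat_lit 270) (nat_lit 158))))) (XT.nd (nat_lit 234) (nat_lit 684) (nat_lit 0) (XT.nd (nat_lit 78) (nat_lit 760)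 (nat_lit 0) (XT.lf (nat_lit 0) (nat_lit 3123972588) (nat_lit 456) (nat_lit 13752857748) (nat_lit 76) (nat_lit 16942633477) (nat_lit 89) (nat_lit 5) (nat_lit 95) (nat_lit 5) (nat_lit 90) (nat_lit 5) (nat_lit 293) (nat_lit 270) (nat_lit 157)) (XT.nd (nat_lit 78) (nat_lit 380) (nat_lit 0) (XT.lf (nat_lit 0) (nat_lit 9703822618) (nat_lit 456) (nat_lit 23691655183) (nat_lit 76) (nat_lit 1505542848) (nat_lit 84) (nat_lit 5) (nat_lit 90) (nat_lit 5) (nat_lit 85) (nat_lit 5) (nat_lit 294) (nat_lit 270) (nat_lit 156)) (XT.lf (nat_lit 0) (nat_lit 1523270408) (nat_lit 380) (nat_lit 15409698083) (nat_lit 456) (nat_lit 19094090748) (nat_lit 79) (nat_lit 5) (nat_lit 84) (nat_lit 5) (nat_lit 85) (nat_lit 5) (nat_lit 295) (nat_lit 270) (nat_lit 155)))) (XT.nd (nat_lit 78) (nat_lit 684) (nat_lit 0) (XT.lf (nat_lit 0) (nat_lit 24795882034) (nat_lit 456) (nat_lit 8753221174) (nat_lit 76) (nat_lit 3652139630)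 (nat_lit 79) (nat_lit 5) (nat_lit 85) (nat_lit 5) (nat_lit 80) (nat_lit 5) (nat_lit 296) (nat_lit 270) (nat_lit 154)) (XT.nd (nat_lit 78) (nat_lit 380) (nat_lit 0) (XT.lf (nat_lit 0) (nat_lit 18481074268) (nat_lit 304) (nat_lit 14897008005) (nat_lit 380) (nat_lit 5046280913) (nat_lit 75) (nat_lit 5) (nat_lit 79) (nat_lit 5) (nat_lit 80) (nat_lit 5) (nat_lit 297) (nat_lit 270) (nat_lit 153)) (XT.lf (nat_lit 0) (nat_lit 2833210861) (nat_lit 380) (nat_lit 32081823620) (nat_lit 76) (nat_lit 4786699842) (nat_lit 70) (nat_lit 5) (nat_lit 75) (nat_lit 5) (nat_lit 71) (nat_lit 5) (nat_lit 298) (nat_lit 270) (nat_lit 152)))))) (XT.nd (nat_lit 390) (nat_lit 1064) (nat_lit 0) (XT.nd (nat_lit 156) (nat_lit 608) (nat_lit 0) (XT.nd (nat_lit 78) (nat_lit 304) (nat_lit 0) (XT.lf (nat_lit 0) (nat_lit 11354329433) (nat_lit 380) (nat_lit 4270844161) (nat_lit 76) (nat_lit 25405751410) (nat_lit 70) (nat_lit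 5) (nat_lit 75) (nat_lit 5) (nat_lit 71) (nat_lit 5) (nat_lit 299) (nat_lit 270) (nat_lit 151)) (XT.lf (nat_lit 0) (nat_lit 20586412378) (nat_lit 380) (nat_lit 17047969765) (nat_lit 76) (nat_lit 4783655720) (nat_lit 66) (nat_lit 5) (nat_lit 71) (nat_lit 5) (nat_lit 67) (nat_lit 5) (nat_lit 300) (nat_lit 270) (nat_lit 150))) (XT.nd (nat_lit 78) (nat_lit 304) (nat_lit 0) (XT.lf (nat_lit 0) (nat_lit 12792316970) (nat_lit 304) (nat_lit 17806736198) (nat_lit 380) (nat_lit 13265894012) (nat_lit 62) (nat_lit 5) (nat_lit 66) (nat_lit 5) (nat_lit 67) (nat_lit 5) (nat_lit 301) (nat_lit 270) (nat_lit 149)) (XT.nd (nat_lit 78) (nat_lit 304) (nat_lit 0) (XT.lf (nat_lit 0) (nat_lit 41312585228) (nat_lit 380) (nat_lit 936939607) (nat_lit 76) (nat_lit 3128678327) (nat_lit 62) (nat_lit 5) (nat_lit 67) (nat_lit 5) (nat_lit 63) (nat_lit 5) (nat_lit 302) (nat_lit 270) (nat_lit 148)) (XT.lf (nat_lit 0) (nat_lit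 5963455400) (nat_lit 304) (nat_lit 15886011063) (nat_lit 76) (nat_lit 25101711731) (nat_lit 58) (nat_lit 5) (nat_lit 62) (nat_lit 5) (nat_lit 59) (nat_lit 5) (nat_lit 303) (nat_lit 270) (nat_lit 147))))) (XT.nd (nat_lit 234) (nat_lit 532) (nat_lit 0) (XT.nd (nat_lit 78) (nat_lit 228) (nat_lit 0) (XT.lf (nat_lit 0) (nat_lit 16354771416) (nat_lit 304) (nat_lit 217350257) (nat_lit 380) (nat_lit 32024613926) (nat_lit 54) (nat_lit 5) (nat_lit 58) (nat_lit 5) (nat_lit 59) (nat_lit 5) (nat_lit 304) (nat_lit 270) (nat_lit 146)) (XT.nd (nat_lit 78) (nat_lit 228) (nat_lit 0) (XT.lf (nat_lit 0) (nat_lit 28087280193) (nat_lit 380) (nat_lit 5579470) (nat_lit 76) (nat_lit 22220436973) (nat_lit 54) (nat_lit 5) (nat_lit 59) (nat_lit 5) (nat_lit 55) (nat_lit 5) (nat_lit 305) (nat_lit 270) (nat_lit 145)) (XT.lf (nat_lit 0) (nat_lit 34506529313) (nat_lit 228) (nat_lit 6000471768) (nat_lit 304) (nat_lit 11598827680)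 (nat_lit 51) (nat_lit 5) (nat_lit 54) (nat_lit 5) (nat_lit 55) (nat_lit 5) (nat_lit 306) (nat_lit 270) (nat_lit 144)))) (XT.nd (nat_lit 78) (nat_lit 304) (nat_lit 0) (XT.lf (nat_lit 0) (nat_lit 16913948159) (nat_lit 228) (nat_lit 36956775621) (nat_lit 304) (nat_lit 107580069) (nat_lit 48) (nat_lit 5) (nat_lit 51) (nat_lit 5) (nat_lit 52) (nat_lit 5) (nat_lit 307) (nat_lit 270) (nat_lit 143)) (XT.nd (nat_lit 78) (nat_lit 228) (nat_lit 0) (XT.lf (nat_lit 0) (nat_lit 11963590304) (nat_lit 304) (nat_lit 2602714299) (nat_lit 76) (nat_lit 41367494653) (nat_lit 47) (nat_lit 5) (nat_lit 51) (nat_lit 5) (nat_lit 48) (nat_lit 5) (nat_lit 308) (nat_lit 270) (nat_lit 142)) (XT.lf (nat_lit 0) (nat_lit 25049905783) (nat_lit 304) (nat_lit 23824145547) (nat_lit 76) (nat_lit 9100577817) (nat_lit 44) (nat_lit 5) (nat_lit 48) (nat_lit 5) (nat_lit 45) (nat_lit 5) (nat_lit 309) (nat_lit 270) (nat_lit 141))))))))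
noncomputable def xc102 : XT := (XT.nd (nat_lit 34866) (nat_lit 0) (nat_lit 4408) (XT.nd (nat_lit 858) (nat_lit 532) (nat_lit 0) (XT.nd (nat_lit 390) (nat_lit 532) (nat_lit 0) (XT.nd (nat_lit 156) (nat_lit 456) (nat_lit 0) (XT.nd (nat_lit 78) (nat_lit 0) (nat_lit 0) (XT.lf (nat_lit 0) (nat_lit 12774361615) (nat_lit 228) (nat_lit 26308595720) (nat_lit 304) (nat_lit 21025776317) (nat_lit 41) (nat_lit 5) (nat_lit 44) (nat_lit 5) (nat_lit 45) (nat_lit 5) (nat_lit 310) (nat_lit 270) (nat_lit 140)) (XT.lf (nat_lit 0) (nat_lit 51694180208) (nat_lit 228) (nat_lit 2364425880) (nat_lit 304) (nat_lit 8283714411) (nat_lit 41) (nat_lit 5) (nat_lit 44) (nat_lit 5) (nat_lit 45) (nat_lit 5) (nat_lit 311) (nat_lit 270) (nat_lit 139))) (XT.nd (nat_lit 78) (nat_lit 228) (nat_lit 0) (XT.lf (nat_lit 0) (nat_lit 5486703640) (nat_lit 228) (nat_lit 36529385279) (nat_lit 76) (nat_lit 22655312884) (nat_lit 38) (nat_lit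 5) (nat_lit 41) (nat_lit 5) (nat_lit 39) (nat_lit 5) (nat_lit 312) (nat_lit 270) (nat_lit 138)) (XT.nd (nat_lit 78) (nat_lit 0) (nat_lit 0) (XT.lf (nat_lit 0) (nat_lit 1902946979) (nat_lit 228) (nat_lit 18021798288) (nat_lit 304) (nat_lit 47185223523) (nat_lit 35) (nat_lit 5) (nat_lit 38) (nat_lit 5) (nat_lit 39) (nat_lit 5) (nat_lit 313) (nat_lit 270) (nat_lit 137)) (XT.lf (nat_lit 0) (nat_lit 35529481884) (nat_lit 304) (nat_lit 26717695362) (nat_lit 76) (nat_lit 7409947668) (nat_lit 35) (nat_lit 5) (nat_lit 39) (nat_lit 5) (nat_lit 36) (nat_lit 5) (nat_lit 314) (nat_lit 270) (nat_lit 136))))) (XT.nd (nat_lit 234) (nat_lit 152) (nat_lit 0) (XT.nd (nat_lit 78) (nat_lit 228) (nat_lit 0) (XT.lf (nat_lit 0) (nat_lit 13777234746) (nat_lit 152) (nat_lit 38447828772) (nat_lit 228) (nat_lit 20097261437) (nat_lit 33) (nat_lit 5) (nat_lit 35) (nat_lit 5) (nat_lit 36) (nat_lit 5) (nat_lit 315) (nat_lit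 270) (nat_lit 135)) (XT.nd (nat_lit 78) (nat_lit 228) (nat_lit 0) (XT.lf (nat_lit 0) (nat_lit 56849591331) (nat_lit 152) (nat_lit 13177265776) (nat_lit 228) (nat_lit 5085789054) (nat_lit 33) (nat_lit 5) (nat_lit 35) (nat_lit 5) (nat_lit 36) (nat_lit 5) (nat_lit 316) (nat_lit 270) (nat_lit 134)) (XT.lf (nat_lit 0) (nat_lit 10830728553) (nat_lit 228) (nat_lit 53763024497) (nat_lit 76) (nat_lit 13434771299) (nat_lit 30) (nat_lit 5) (nat_lit 33) (nat_lit 5) (nat_lit 31) (nat_lit 5) (nat_lit 317) (nat_lit 270) (nat_lit 133)))) (XT.nd (nat_lit 78) (nat_lit 152) (nat_lit 0) (XT.lf (nat_lit 0) (nat_lit 27758359840) (nat_lit 228) (nat_lit 11973999927) (nat_lit 76) (nat_lit 41346715611) (nat_lit 30) (nat_lit 5) (nat_lit 33) (nat_lit 5) (nat_lit 31) (nat_lit 5) (nat_lit 318) (nat_lit 270) (nat_lit 132)) (XT.nd (nat_lit 78) (nat_lit 0) (nat_lit 0) (XT.lf (nat_lit 0) (nat_lit 32534216475) (nat_lit 152)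 (nat_lit 13307682805) (nat_lit 228) (nat_lit 38430972360) (nat_lit 28) (nat_lit 5) (nat_lit 30) (nat_lit 5) (nat_lit 31) (nat_lit 5) (nat_lit 319) (nat_lit 270) (nat_lit 131)) (XT.lf (nat_lit 0) (nat_lit 65089761981) (nat_lit 228) (nat_lit 8249655275) (nat_lit 76) (nat_lit 14279139386) (nat_lit 28) (nat_lit 5) (nat_lit 31) (nat_lit 5) (nat_lit 29) (nat_lit 5) (nat_lit 320) (nat_lit 270) (nat_lit 130)))))) (XT.nd (nat_lit 390) (nat_lit 0) (nat_lit 0) (XT.nd (nat_lit 156) (nat_lit 304) (nat_lit 0) (XT.nd (nat_lit 78) (nat_lit 76) (nat_lit 0) (XT.lf (nat_lit 0) (nat_lit 38016505418) (nat_lit 152) (nat_lit 47780291811) (nat_lit 228) (nat_lit 5319828439) (nat_lit 26) (nat_lit 5) (nat_lit 28) (nat_lit 5) (nat_lit 29) (nat_lit 5) (nat_lit 321) (nat_lit 270) (nat_lit 129)) (XT.lf (nat_lit 0) (nat_lit 12583648679) (nat_lit 228) (nat_lit 8146813853) (nat_lit 76) (nat_lit 74052976239) (nat_lit 25)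 (nat_lit 5) (nat_lit 28) (nat_lit 5) (nat_lit 26) (nat_lit 5) (nat_lit 322) (nat_lit 270) (nat_lit 128))) (XT.nd (nat_lit 78) (nat_lit 152) (nat_lit 0) (XT.lf (nat_lit 0) (nat_lit 31730888092) (nat_lit 228) (nat_lit 58926593570) (nat_lit 76) (nat_lit 7960775180) (nat_lit 23) (nat_lit 5) (nat_lit 26) (nat_lit 5) (nat_lit 24) (nat_lit 5) (nat_lit 323) (nat_lit 270) (nat_lit 127)) (XT.nd (nat_lit 78) (nat_lit 152) (nat_lit 0) (XT.lf (nat_lit 0) (nat_lit 52126723066) (nat_lit 228) (nat_lit 12764504724) (nat_lit 76) (nat_lit 37744853667) (nat_lit 23) (nat_lit 5) (nat_lit 26) (nat_lit 5) (nat_lit 24) (nat_lit 5) (nat_lit 324) (nat_lit 270) (nat_lit 126)) (XT.lf (nat_lit 0) (nat_lit 36411983594) (nat_lit 152) (nat_lit 37477810368) (nat_lit 228) (nat_lit 32954582535) (nat_lit 21) (nat_lit 5) (nat_lit 23) (nat_lit 5) (nat_lit 24) (nat_lit 5) (nat_lit 325) (nat_lit 270) (nat_lit 125))))) (XT.nd (nat_lit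 33384) (nat_lit 0) (nat_lit 10564) (XT.nd (nat_lit 33228) (nat_lit 0) (nat_lit 10488) (XT.lf (nat_lit 0) (nat_lit 88309924379) (nat_lit 152) (nat_lit 8560006104) (nat_lit 228) (nat_lit 14389290847) (nat_lit 21) (nat_lit 5) (nat_lit 23) (nat_lit 5) (nat_lit 24) (nat_lit 5) (nat_lit 326) (nat_lit 270) (nat_lit 124)) (XT.nd (nat_lit 78) (nat_lit 0) (nat_lit 0) (XT.lf (nat_lit 0) (nat_lit 5777620153) (nat_lit 1140) (nat_lit 1804662105) (nat_lit 1140) (nat_lit 1804662105) (nat_lit 159) (nat_lit 3) (nat_lit 174) (nat_lit 3) (nat_lit 174) (nat_lit 5) (nat_lit 271) (nat_lit 271) (nat_lit 178)) (XT.lf (nat_lit 76) (nat_lit 9821377152) (nat_lit 0) (nat_lit 2398409781) (nat_lit 1140) (nat_lit 7011560255) (nat_lit 160) (nat_lit 5) (nat_lit 159) (nat_lit 3) (nat_lit 174) (nat_lit 5) (nat_lit 272) (nat_lit 271) (nat_lit 177)))) (XT.nd (nat_lit 78) (nat_lit 0) (nat_lit 76) (XT.lf (nat_lit 76) (nat_lit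 4255201377) (nat_lit 0) (nat_lit 8828570519) (nat_lit 1140) (nat_lit 6622959957) (nat_lit 161) (nat_lit 5) (nat_lit 160) (nat_lit 5) (nat_lit 175) (nat_lit 5) (nat_lit 273) (nat_lit 271) (nat_lit 176)) (XT.nd (nat_lit 78) (nat_lit 0) (nat_lit 0) (XT.lf (nat_lit 0) (nat_lit 14139446992) (nat_lit 1064) (nat_lit 1481986914) (nat_lit 1140) (nat_lit 4580034844) (nat_lit 161) (nat_lit 5) (nat_lit 175) (nat_lit 5) (nat_lit 176) (nat_lit 5) (nat_lit 274) (nat_lit 271) (nat_lit 175)) (XT.lf (nat_lit 76) (nat_lit 13347402098) (nat_lit 0) (nat_lit 2101555996) (nat_lit 1140) (nat_lit 5265988757) (nat_lit 162) (nat_lit 5) (nat_lit 161) (nat_lit 5) (nat_lit 176) (nat_lit 5) (nat_lit 275) (nat_lit 271) (nat_lit 174))))))) (XT.nd (nat_lit 858) (nat_lit 3572) (nat_lit 0) (XT.nd (nat_lit 390) (nat_lit 1748) (nat_lit 0) (XT.nd (nat_lit 156) (nat_lit 988) (nat_lit 0) (XT.nd (nat_lit 78) (nat_lit 0) (nat_lit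 76) (XT.lf (nat_lit 76) (nat_lit 7719561365) (nat_lit 0) (nat_lit 9294636623) (nat_lit 1140) (nat_lit 4234227489) (nat_lit 163) (nat_lit 5) (nat_lit 162) (nat_lit 5) (nat_lit 177) (nat_lit 5) (nat_lit 276) (nat_lit 271) (nat_lit 173)) (XT.lf (nat_lit 76) (nat_lit 1866126064) (nat_lit 0) (nat_lit 16938912262) (nat_lit 1140) (nat_lit 2999152141) (nat_lit 164) (nat_lit 5) (nat_lit 163) (nat_lit 5) (nat_lit 178) (nat_lit 5) (nat_lit 277) (nat_lit 271) (nat_lit 172))) (XT.nd (nat_lit 78) (nat_lit 1064) (nat_lit 0) (XT.lf (nat_lit 76) (nat_lit 18207709383) (nat_lit 0) (nat_lit 2695564234) (nat_lit 1140) (nat_lit 1477965538) (nat_lit 164) (nat_lit 5) (nat_lit 163) (nat_lit 5) (nat_lit 178) (nat_lit 5) (nat_lit 278) (nat_lit 271) (nat_lit 171)) (XT.nd (nat_lit 78) (nat_lit 0) (nat_lit 76) (XT.lf (nat_lit 0) (nat_lit 343516252) (nat_lit 1140) (nat_lit 10488782748) (nat_lit 1216) (nat_lit 12148038673)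 (nat_lit 149) (nat_lit 5) (nat_lit 164) (nat_lit 5) (nat_lit 165) (nat_lit 5) (nat_lit 279) (nat_lit 271) (nat_lit 170)) (XT.lf (nat_lit 0) (nat_lit 2386448431) (nat_lit 1140) (nat_lit 17101740181) (nat_lit 1216) (nat_lit 4115962549) (nat_lit 150) (nat_lit 5) (nat_lit 165) (nat_lit 5) (nat_lit 166) (nat_lit 5) (nat_lit 280) (nat_lit 271) (nat_lit 169))))) (XT.nd (nat_lit 234) (nat_lit 1064) (nat_lit 0) (XT.nd (nat_lit 78) (nat_lit 760) (nat_lit 0) (XT.lf (nat_lit 76) (nat_lit 189407522) (nat_lit 0) (nat_lit 4549681439) (nat_lit 1216) (nat_lit 19513865537) (nat_lit 151) (nat_lit 5) (nat_lit 150) (nat_lit 5) (nat_lit 166) (nat_lit 5) (nat_lit 281) (nat_lit 271) (nat_lit 168)) (XT.nd (nat_lit 78) (nat_lit 836) (nat_lit 0) (XT.lf (nat_lit 0) (nat_lit 7482087251) (nat_lit 1140) (nat_lit 6345647081) (nat_lit 76) (nat_lit 11098306689) (nat_lit 151) (nat_lit 5) (nat_lit 166) (nat_lit 5) (nat_lit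 152) (nat_lit 5) (nat_lit 282) (nat_lit 271) (nat_lit 167)) (XT.lf (nat_lit 0) (nat_lit 10534796722) (nat_lit 912) (nat_lit 13201585926) (nat_lit 76) (nat_lit 1891245993) (nat_lit 140) (nat_lit 5) (nat_lit 152) (nat_lit 5) (nat_lit 141) (nat_lit 5) (nat_lit 283) (nat_lit 271) (nat_lit 166)))) (XT.nd (nat_lit 78) (nat_lit 532) (nat_lit 0) (XT.lf (nat_lit 0) (nat_lit 5870916363) (nat_lit 532) (nat_lit 8120134762) (nat_lit 608) (nat_lit 12365739718) (nat_lit 133) (nat_lit 5) (nat_lit 140) (nat_lit 5) (nat_lit 141) (nat_lit 5) (nat_lit 284) (nat_lit 271) (nat_lit 165)) (XT.nd (nat_lit 78) (nat_lit 532) (nat_lit 0) (XT.lf (nat_lit 0) (nat_lit 17826305488) (nat_lit 608) (nat_lit 1036405526) (nat_lit 76) (nat_lit 8253535936) (nat_lit 133) (nat_lit 5) (nat_lit 141) (nat_lit 5) (nat_lit 134) (nat_lit 5) (nat_lit 285) (nat_lit 271) (nat_lit 164)) (XT.lf (nat_lit 0) (nat_lit 19677965404) (nat_lit 532)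 (nat_lit 2436358160) (nat_lit 608) (nat_lit 5791542665) (nat_lit 126) (nat_lit 5) (nat_lit 133) (nat_lit 5) (nat_lit 134) (nat_lit 5) (nat_lit 286) (nat_lit 271) (nat_lit 163)))))) (XT.nd (nat_lit 390) (nat_lit 1596) (nat_lit 0) (XT.nd (nat_lit 156) (nat_lit 912) (nat_lit 0) (XT.nd (nat_lit 78) (nat_lit 608) (nat_lit 0) (XT.lf (nat_lit 0) (nat_lit 12812971853) (nat_lit 456) (nat_lit 14070368379) (nat_lit 532) (nat_lit 1843647732) (nat_lit 120) (nat_lit 5) (nat_lit 126) (nat_lit 5) (nat_lit 127) (nat_lit 5) (nat_lit 287) (nat_lit 271) (nat_lit 162)) (XT.lf (nat_lit 0) (nat_lit 2440778360) (nat_lit 608) (nat_lit 24071777493) (nat_lit 76) (nat_lit 3070442655) (nat_lit 112) (nat_lit 5) (nat_lit 120) (nat_lit 5) (nat_lit 113) (nat_lit 5) (nat_lit 288) (nat_lit 271) (nat_lit 161))) (XT.nd (nat_lit 78) (nat_lit 912) (nat_lit 0) (XT.lf (nat_lit 0) (nat_lit 7200011877) (nat_lit 608) (nat_lit 2308448997)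 (nat_lit 76) (nat_lit 20963856725) (nat_lit 112) (nat_lit 5) (nat_lit 120) (nat_lit 5) (nat_lit 113) (nat_lit 5) (nat_lit 289) (nat_lit 271) (nat_lit 160)) (XT.nd (nat_lit 78) (nat_lit 456) (nat_lit 0) (XT.lf (nat_lit 0) (nat_lit 12472070001) (nat_lit 532) (nat_lit 10539970132) (nat_lit 76) (nat_lit 8385832912) (nat_lit 106) (nat_lit 5) (nat_lit 113) (nat_lit 5) (nat_lit 107) (nat_lit 5) (nat_lit 290) (nat_lit 271) (nat_lit 159)) (XT.lf (nat_lit 0) (nat_lit 13010364797) (nat_lit 456) (nat_lit 5234057964) (nat_lit 532) (nat_lit 14118198265) (nat_lit 100) (nat_lit 5) (nat_lit 106) (nat_lit 5) (nat_lit 107) (nat_lit 5) (nat_lit 291) (nat_lit 271) (nat_lit 158))))) (XT.nd (nat_lit 234) (nat_lit 760) (nat_lit 0) (XT.nd (nat_lit 78) (nat_lit 456) (nat_lit 0) (XT.lf (nat_lit 0) (nat_lit 4535308183) (nat_lit 380) (nat_lit 20044341797) (nat_lit 456) (nat_lit 8787743499) (nat_lit 95) (nat_lit 5) (nat_lit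 100) (nat_lit 5) (nat_lit 101) (nat_lit 5) (nat_lit 292) (nat_lit 271) (nat_lit 157)) (XT.nd (nat_lit 78) (nat_lit 456) (nat_lit 0) (XT.lf (nat_lit 0) (nat_lit 29958924581) (nat_lit 380) (nat_lit 1516498934) (nat_lit 456) (nat_lit 2939681560) (nat_lit 95) (nat_lit 5) (nat_lit 100) (nat_lit 5) (nat_lit 101) (nat_lit 5) (nat_lit 293) (nat_lit 271) (nat_lit 156)) (XT.lf (nat_lit 0) (nat_lit 3512491784) (nat_lit 456) (nat_lit 14164005696) (nat_lit 76) (nat_lit 17826569732) (nat_lit 89) (nat_lit 5) (nat_lit 95) (nat_lit 5) (nat_lit 90) (nat_lit 5) (nat_lit 294) (nat_lit 271) (nat_lit 155)))) (XT.nd (nat_lit 78) (nat_lit 380) (nat_lit 0) (XT.lf (nat_lit 0) (nat_lit 10413283055) (nat_lit 456) (nat_lit 24601002348) (nat_lit 76) (nat_lit 1624677081) (nat_lit 84) (nat_lit 5) (nat_lit 90) (nat_lit 5) (nat_lit 85) (nat_lit 5) (nat_lit 295) (nat_lit 271) (nat_lit 154)) (XT.nd (nat_lit 78) (nat_lit 0)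 (nat_lit 0) (XT.lf (nat_lit 0) (nat_lit 1866779950) (nat_lit 380) (nat_lit 16128996673) (nat_lit 456) (nat_lit 19825787815) (nat_lit 79) (nat_lit 5) (nat_lit 84) (nat_lit 5) (nat_lit 85) (nat_lit 5) (nat_lit 296) (nat_lit 271) (nat_lit 153)) (XT.lf (nat_lit 0) (nat_lit 26242011128) (nat_lit 456) (nat_lit 8930213899) (nat_lit 76) (nat_lit 3882544215) (nat_lit 79) (nat_lit 5) (nat_lit 85) (nat_lit 5) (nat_lit 80) (nat_lit 5) (nat_lit 297) (nat_lit 271) (nat_lit 152))))))))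
noncomputable def xc103 : XT := (XT.nd (nat_lit 1716) (nat_lit 532) (nat_lit 0) (XT.nd (nat_lit 858) (nat_lit 1292) (nat_lit 0) (XT.nd (nat_lit 390) (nat_lit 1140) (nat_lit 0) (XT.nd (nat_lit 156) (nat_lit 608) (nat_lit 0) (XT.nd (nat_lit 78) (nat_lit 380) (nat_lit 0) (XT.lf (nat_lit 0) (nat_lit 19658324309) (nat_lit 304) (nat_lit 15587605473) (nat_lit 380) (nat_lit 5093354037) (nat_lit 75) (nat_lit 5) (nat_lit 79) (nat_lit 5) (nat_lit 80) (nat_lit 5) (nat_lit 298) (nat_lit 271) (nat_lit 151)) (XT.lf (nat_lit 0) (nat_lit 3169468252) (nat_lit 380) (nat_lit 33430188575) (nat_lit 76) (nat_lit 5081021892) (nat_lit 70) (nat_lit 5) (nat_lit 75) (nat_lit 5) (nat_lit 71) (nat_lit 5) (nat_lit 299) (nat_lit 271) (nat_lit 150))) (XT.nd (nat_lit 78) (nat_lit 608) (nat_lit 0) (XT.lf (nat_lit 0) (nat_lit 12107376236) (nat_lit 380) (nat_lit 4240837583) (nat_lit 76) (nat_lit 26728407606) (nat_lit 70) (nat_lit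 5) (nat_lit 75) (nat_lit 5) (nat_lit 71) (nat_lit 5) (nat_lit 300) (nat_lit 271) (nat_lit 149)) (XT.nd (nat_lit 78) (nat_lit 304) (nat_lit 0) (XT.lf (nat_lit 0) (nat_lit 21795067604) (nat_lit 380) (nat_lit 17658716754) (nat_lit 76) (nat_lit 5079499246) (nat_lit 66) (nat_lit 5) (nat_lit 71) (nat_lit 5) (nat_lit 67) (nat_lit 5) (nat_lit 301) (nat_lit 271) (nat_lit 148)) (XT.lf (nat_lit 0) (nat_lit 13666657426) (nat_lit 304) (nat_lit 18635399580) (nat_lit 380) (nat_lit 13750683031) (nat_lit 62) (nat_lit 5) (nat_lit 66) (nat_lit 5) (nat_lit 67) (nat_lit 5) (nat_lit 302) (nat_lit 271) (nat_lit 147))))) (XT.nd (nat_lit 234) (nat_lit 532) (nat_lit 0) (XT.nd (nat_lit 78) (nat_lit 608) (nat_lit 0) (XT.lf (nat_lit 0) (nat_lit 43543589750) (nat_lit 380) (nat_lit 755609192) (nat_lit 76) (nat_lit 3342702678) (nat_lit 62) (nat_lit 5) (nat_lit 67) (nat_lit 5) (nat_lit 63) (nat_lit 5) (nat_lit 303) (nat_lit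 271) (nat_lit 146)) (XT.nd (nat_lit 78) (nat_lit 304) (nat_lit 0) (XT.lf (nat_lit 0) (nat_lit 6423073292) (nat_lit 304) (nat_lit 16455230234) (nat_lit 76) (nat_lit 26415358654) (nat_lit 58) (nat_lit 5) (nat_lit 62) (nat_lit 5) (nat_lit 59) (nat_lit 5) (nat_lit 304) (nat_lit 271) (nat_lit 145)) (XT.lf (nat_lit 0) (nat_lit 17391139455) (nat_lit 304) (nat_lit 165447160) (nat_lit 380) (nat_lit 33465089455) (nat_lit 54) (nat_lit 5) (nat_lit 58) (nat_lit 5) (nat_lit 59) (nat_lit 5) (nat_lit 305) (nat_lit 271) (nat_lit 144)))) (XT.nd (nat_lit 78) (nat_lit 304) (nat_lit 0) (XT.lf (nat_lit 0) (nat_lit 210557324) (nat_lit 228) (nat_lit 29432122549) (nat_lit 304) (nat_lit 23181540484) (nat_lit 51) (nat_lit 5) (nat_lit 54) (nat_lit 5) (nat_lit 55) (nat_lit 5) (nat_lit 306) (nat_lit 271) (nat_lit 143)) (XT.nd (nat_lit 78) (nat_lit 304) (nat_lit 0) (XT.lf (nat_lit 0) (nat_lit 36438077076) (nat_lit 228)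 (nat_lit 6238172256) (nat_lit 304) (nat_lit 12030353882) (nat_lit 51) (nat_lit 5) (nat_lit 54) (nat_lit 5) (nat_lit 55) (nat_lit 5) (nat_lit 307) (nat_lit 271) (nat_lit 142)) (XT.lf (nat_lit 0) (nat_lit 30392471) (nat_lit 304) (nat_lit 38709377974) (nat_lit 76) (nat_lit 17933061788) (nat_lit 47) (nat_lit 5) (nat_lit 51) (nat_lit 5) (nat_lit 48) (nat_lit 5) (nat_lit 308) (nat_lit 271) (nat_lit 141)))))) (XT.nd (nat_lit 390) (nat_lit 608) (nat_lit 0) (XT.nd (nat_lit 156) (nat_lit 456) (nat_lit 0) (XT.nd (nat_lit 78) (nat_lit 228) (nat_lit 0) (XT.lf (nat_lit 0) (nat_lit 12696195826) (nat_lit 304) (nat_lit 2535602709) (nat_lit 76) (nat_lit 43494481747) (nat_lit 47) (nat_lit 5) (nat_lit 51) (nat_lit 5) (nat_lit 48) (nat_lit 5) (nat_lit 309) (nat_lit 271) (nat_lit 140)) (XT.lf (nat_lit 0) (nat_lit 26432860908) (nat_lit 304) (nat_lit 24820289167) (nat_lit 76) (nat_lit 9616128967) (nat_lit 44) (nat_lit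 5) (nat_lit 48) (nat_lit 5) (nat_lit 45) (nat_lit 5) (nat_lit 310) (nat_lit 271) (nat_lit 139))) (XT.nd (nat_lit 78) (nat_lit 228) (nat_lit 0) (XT.lf (nat_lit 0) (nat_lit 13602551892) (nat_lit 228) (nat_lit 27560622094) (nat_lit 304) (nat_lit 21947054506) (nat_lit 41) (nat_lit 5) (nat_lit 44) (nat_lit 5) (nat_lit 45) (nat_lit 5) (nat_lit 311) (nat_lit 271) (nat_lit 138)) (XT.nd (nat_lit 78) (nat_lit 228) (nat_lit 0) (XT.lf (nat_lit 0) (nat_lit 54459338929) (nat_lit 228) (nat_lit 2422262972) (nat_lit 304) (nat_lit 8574080486) (nat_lit 41) (nat_lit 5) (nat_lit 44) (nat_lit 5) (nat_lit 45) (nat_lit 5) (nat_lit 312) (nat_lit 271) (nat_lit 137)) (XT.lf (nat_lit 0) (nat_lit 5878950945) (nat_lit 228) (nat_lit 38175007288) (nat_lit 76) (nat_lit 23847335594) (nat_lit 38) (nat_lit 5) (nat_lit 41) (nat_lit 5) (nat_lit 39) (nat_lit 5) (nat_lit 313) (nat_lit 271) (nat_lit 136))))) (XT.nd (nat_lit 234)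 (nat_lit 228) (nat_lit 0) (XT.nd (nat_lit 78) (nat_lit 152) (nat_lit 0) (XT.lf (nat_lit 0) (nat_lit 2173757633) (nat_lit 228) (nat_lit 18861210740) (nat_lit 304) (nat_lit 49426945278) (nat_lit 35) (nat_lit 5) (nat_lit 38) (nat_lit 5) (nat_lit 39) (nat_lit 5) (nat_lit 314) (nat_lit 271) (nat_lit 135)) (XT.nd (nat_lit 78) (nat_lit 152) (nat_lit 0) (XT.lf (nat_lit 0) (nat_lit 37415078573) (nat_lit 304) (nat_lit 27883462033) (nat_lit 76) (nat_lit 7838039254) (nat_lit 35) (nat_lit 5) (nat_lit 39) (nat_lit 5) (nat_lit 36) (nat_lit 5) (nat_lit 315) (nat_lit 271) (nat_lit 134)) (XT.lf (nat_lit 0) (nat_lit 14631338179) (nat_lit 152) (nat_lit 40310493199) (nat_lit 228) (nat_lit 20993322839) (nat_lit 33) (nat_lit 5) (nat_lit 35) (nat_lit 5) (nat_lit 36) (nat_lit 5) (nat_lit 316) (nat_lit 271) (nat_lit 133)))) (XT.nd (nat_lit 78) (nat_lit 228) (nat_lit 0) (XT.lf (nat_lit 0) (nat_lit 59849443942) (nat_lit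 152) (nat_lit 13779246197) (nat_lit 228) (nat_lit 5236457869) (nat_lit 33) (nat_lit 5) (nat_lit 35) (nat_lit 5) (nat_lit 36) (nat_lit 5) (nat_lit 317) (nat_lit 271) (nat_lit 132)) (XT.nd (nat_lit 78) (nat_lit 0) (nat_lit 0) (XT.lf (nat_lit 0) (nat_lit 11471059802) (nat_lit 228) (nat_lit 56293730891) (nat_lit 76) (nat_lit 14162088995) (nat_lit 30) (nat_lit 5) (nat_lit 33) (nat_lit 5) (nat_lit 31) (nat_lit 5) (nat_lit 318) (nat_lit 271) (nat_lit 131)) (XT.lf (nat_lit 0) (nat_lit 29240368138) (nat_lit 228) (nat_lit 12422752466) (nat_lit 76) (nat_lit 43466983897) (nat_lit 30) (nat_lit 5) (nat_lit 33) (nat_lit 5) (nat_lit 31) (nat_lit 5) (nat_lit 319) (nat_lit 271) (nat_lit 130))))))) (XT.nd (nat_lit 34164) (nat_lit 0) (nat_lit 7828) (XT.nd (nat_lit 390) (nat_lit 0) (nat_lit 0) (XT.nd (nat_lit 156) (nat_lit 380) (nat_lit 0) (XT.nd (nat_lit 78) (nat_lit 0) (nat_lit 0) (XT.lf (nat_lit 0) (nat_lit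 34306576543) (nat_lit 152) (nat_lit 13918427586) (nat_lit 228) (nat_lit 40258683714) (nat_lit 28) (nat_lit 5) (nat_lit 30) (nat_lit 5) (nat_lit 31) (nat_lit 5) (nat_lit 320) (nat_lit 271) (nat_lit 129)) (XT.lf (nat_lit 0) (nat_lit 68431426377) (nat_lit 228) (nat_lit 8521231947) (nat_lit 76) (nat_lit 15044118401) (nat_lit 28) (nat_lit 5) (nat_lit 31) (nat_lit 5) (nat_lit 29) (nat_lit 5) (nat_lit 321) (nat_lit 271) (nat_lit 128))) (XT.nd (nat_lit 78) (nat_lit 228) (nat_lit 0) (XT.lf (nat_lit 0) (nat_lit 40054197736) (nat_lit 152) (nat_lit 50116780049) (nat_lit 228) (nat_lit 5498860888) (nat_lit 26) (nat_lit 5) (nat_lit 28) (nat_lit 5) (nat_lit 29) (nat_lit 5) (nat_lit 322) (nat_lit 271) (nat_lit 127)) (XT.nd (nat_lit 78) (nat_lit 152) (nat_lit 0) (XT.lf (nat_lit 0) (nat_lit 13294033103) (nat_lit 228) (nat_lit 8422107477) (nat_lit 76) (nat_lit 77803952649) (nat_lit 25) (nat_lit 5) (nat_lit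 28) (nat_lit 5) (nat_lit 26) (nat_lit 5) (nat_lit 323) (nat_lit 271) (nat_lit 126)) (XT.lf (nat_lit 0) (nat_lit 33396478345) (nat_lit 228) (nat_lit 61742704381) (nat_lit 76) (nat_lit 8407538039) (nat_lit 23) (nat_lit 5) (nat_lit 26) (nat_lit 5) (nat_lit 24) (nat_lit 5) (nat_lit 324) (nat_lit 271) (nat_lit 125))))) (XT.nd (nat_lit 33540) (nat_lit 0) (nat_lit 10412) (XT.nd (nat_lit 33384) (nat_lit 0) (nat_lit 10336) (XT.lf (nat_lit 0) (nat_lit 54808340980) (nat_lit 228) (nat_lit 13278711991) (nat_lit 76) (nat_lit 39678500254) (nat_lit 23) (nat_lit 5) (nat_lit 26) (nat_lit 5) (nat_lit 24) (nat_lit 5) (nat_lit 325) (nat_lit 271) (nat_lit 124)) (XT.nd (nat_lit 78) (nat_lit 0) (nat_lit 0) (XT.lf (nat_lit 0) (nat_lit 6343366492) (nat_lit 1140) (nat_lit 1752005001) (nat_lit 1140) (nat_lit 1752005001) (nat_lit 159) (nat_lit 3) (nat_lit 174) (nat_lit 3) (nat_lit 174) (nat_lit 5) (nat_lit 272) (nat_lit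 272) (nat_lit 176)) (XT.lf (nat_lit 76) (nat_lit 10590034589) (nat_lit 0) (nat_lit 2770772578) (nat_lit 1140) (nat_lit 6815046213) (nat_lit 160) (nat_lit 5) (nat_lit 159) (nat_lit 3) (nat_lit 174) (nat_lit 5) (nat_lit 273) (nat_lit 272) (nat_lit 175)))) (XT.nd (nat_lit 78) (nat_lit 0) (nat_lit 76) (XT.lf (nat_lit 76) (nat_lit 4756522188) (nat_lit 0) (nat_lit 9486692371) (nat_lit 1140) (nat_lit 6432591274) (nat_lit 161) (nat_lit 5) (nat_lit 160) (nat_lit 5) (nat_lit 175) (nat_lit 5) (nat_lit 274) (nat_lit 272) (nat_lit 174)) (XT.nd (nat_lit 78) (nat_lit 0) (nat_lit 0) (XT.lf (nat_lit 0) (nat_lit 15325629893) (nat_lit 1064) (nat_lit 1263794505) (nat_lit 1140) (nat_lit 4606689101) (nat_lit 161) (nat_lit 5) (nat_lit 175) (nat_lit 5) (nat_lit 176) (nat_lit 5) (nat_lit 275) (nat_lit 272) (nat_lit 173)) (XT.lf (nat_lit 76) (nat_lit 14298685473) (nat_lit 0) (nat_lit 2381840675) (nat_lit 1140) (nat_lit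 5055392181) (nat_lit 162) (nat_lit 5) (nat_lit 161) (nat_lit 5) (nat_lit 176) (nat_lit 5) (nat_lit 276) (nat_lit 272) (nat_lit 172)))))) (XT.nd (nat_lit 390) (nat_lit 1748) (nat_lit 0) (XT.nd (nat_lit 156) (nat_lit 988) (nat_lit 0) (XT.nd (nat_lit 78) (nat_lit 0) (nat_lit 76) (XT.lf (nat_lit 76) (nat_lit 8397302621) (nat_lit 0) (nat_lit 9906063161) (nat_lit 1140) (nat_lit 3993372698) (nat_lit 163) (nat_lit 5) (nat_lit 162) (nat_lit 5) (nat_lit 177) (nat_lit 5) (nat_lit 277) (nat_lit 272) (nat_lit 171)) (XT.lf (nat_lit 76) (nat_lit 2257905780) (nat_lit 0) (nat_lit 17906489550) (nat_lit 1140) (nat_lit 2716522430) (nat_lit 164) (nat_lit 5) (nat_lit 163) (nat_lit 5) (nat_lit 178) (nat_lit 5) (nat_lit 278) (nat_lit 272) (nat_lit 170))) (XT.nd (nat_lit 78) (nat_lit 1064) (nat_lit 0) (XT.lf (nat_lit 76) (nat_lit 19402355245) (nat_lit 0) (nat_lit 2945229755) (nat_lit 1140) (nat_lit 1139875893) (nat_lit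 164) (nat_lit 5) (nat_lit 163) (nat_lit 5) (nat_lit 178) (nat_lit 5) (nat_lit 279) (nat_lit 272) (nat_lit 169)) (XT.nd (nat_lit 78) (nat_lit 0) (nat_lit 76) (XT.lf (nat_lit 0) (nat_lit 747154709) (nat_lit 1140) (nat_lit 10715072983) (nat_lit 1216) (nat_lit 12654732442) (nat_lit 149) (nat_lit 5) (nat_lit 164) (nat_lit 5) (nat_lit 165) (nat_lit 5) (nat_lit 280) (nat_lit 272) (nat_lit 168)) (XT.lf (nat_lit 0) (nat_lit 2875833412) (nat_lit 1140) (nat_lit 17654555999) (nat_lit 1216) (nat_lit 4242105007) (nat_lit 150) (nat_lit 5) (nat_lit 165) (nat_lit 5) (nat_lit 166) (nat_lit 5) (nat_lit 281) (nat_lit 272) (nat_lit 167))))) (XT.nd (nat_lit 234) (nat_lit 1064) (nat_lit 0) (XT.nd (nat_lit 78) (nat_lit 760) (nat_lit 0) (XT.lf (nat_lit 76) (nat_lit 492484546) (nat_lit 0) (nat_lit 4838821723) (nat_lit 1216) (nat_lit 20122911951) (nat_lit 151) (nat_lit 5) (nat_lit 150) (nat_lit 5) (nat_lit 166) (nat_lit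 5) (nat_lit 282) (nat_lit 272) (nat_lit 166)) (XT.nd (nat_lit 78) (nat_lit 836) (nat_lit 0) (XT.lf (nat_lit 0) (nat_lit 8193972740) (nat_lit 1140) (nat_lit 6371897694) (nat_lit 76) (nat_lit 11595647664) (nat_lit 151) (nat_lit 5) (nat_lit 166) (nat_lit 5) (nat_lit 152) (nat_lit 5) (nat_lit 283) (nat_lit 272) (nat_lit 165)) (XT.lf (nat_lit 0) (nat_lit 11385549172) (nat_lit 912) (nat_lit 13568183747) (nat_lit 76) (nat_lit 1944898165) (nat_lit 140) (nat_lit 5) (nat_lit 152) (nat_lit 5) (nat_lit 141) (nat_lit 5) (nat_lit 284) (nat_lit 272) (nat_lit 164)))) (XT.nd (nat_lit 78) (nat_lit 532) (nat_lit 0) (XT.lf (nat_lit 0) (nat_lit 6449531068) (nat_lit 532) (nat_lit 8552396311) (nat_lit 608) (nat_lit 12662736046) (nat_lit 133) (nat_lit 5) (nat_lit 140) (nat_lit 5) (nat_lit 141) (nat_lit 5) (nat_lit 285) (nat_lit 272) (nat_lit 163)) (XT.nd (nat_lit 78) (nat_lit 532) (nat_lit 0) (XT.lf (nat_lit 0)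 (nat_lit 19013879164) (nat_lit 608) (nat_lit 806998923) (nat_lit 76) (nat_lit 8641696080) (nat_lit 133) (nat_lit 5) (nat_lit 141) (nat_lit 5) (nat_lit 134) (nat_lit 5) (nat_lit 286) (nat_lit 272) (nat_lit 162)) (XT.lf (nat_lit 0) (nat_lit 20935029242) (nat_lit 532) (nat_lit 2569787194) (nat_lit 608) (nat_lit 5787230872) (nat_lit 126) (nat_lit 5) (nat_lit 133) (nat_lit 5) (nat_lit 134) (nat_lit 5) (nat_lit 287) (nat_lit 272) (nat_lit 161))))))))
noncomputable def xc104 : XT := (XT.nd (nat_lit 1638) (nat_lit 2128) (nat_lit 0) (XT.nd (nat_lit 780) (nat_lit 2128) (nat_lit 0) (XT.nd (nat_lit 390) (nat_lit 1596) (nat_lit 0) (XT.nd (nat_lit 156) (nat_lit 912) (nat_lit 0) (XT.nd (nat_lit 78) (nat_lit 608) (nat_lit 0) (XT.lf (nat_lit 0) (nat_lit 13727915223) (nat_lit 456) (nat_lit 14773338309) (nat_lit 532) (nat_lit 1653329601) (nat_lit 120) (nat_lit 5) (nat_lit 126) (nat_lit 5) (nat_lit 127) (nat_lit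 5) (nat_lit 288) (nat_lit 272) (nat_lit 160)) (XT.lf (nat_lit 0) (nat_lit 2829289328) (nat_lit 608) (nat_lit 24994631701) (nat_lit 76) (nat_lit 3229732235) (nat_lit 112) (nat_lit 5) (nat_lit 120) (nat_lit 5) (nat_lit 113) (nat_lit 5) (nat_lit 289) (nat_lit 272) (nat_lit 159))) (XT.nd (nat_lit 78) (nat_lit 912) (nat_lit 0) (XT.lf (nat_lit 0) (nat_lit 7813795376) (nat_lit 608) (nat_lit 2156505098) (nat_lit 76) (nat_lit 22017542367) (nat_lit 112) (nat_lit 5) (nat_lit 120) (nat_lit 5) (nat_lit 113) (nat_lit 5) (nat_lit 290) (nat_lit 272) (nat_lit 158)) (XT.nd (nat_lit 78) (nat_lit 456) (nat_lit 0) (XT.lf (nat_lit 0) (nat_lit 13340016996) (nat_lit 532) (nat_lit 10799635103) (nat_lit 76) (nat_lit 8820329866) (nat_lit 106) (nat_lit 5) (nat_lit 113) (nat_lit 5) (nat_lit 107) (nat_lit 5) (nat_lit 291) (nat_lit 272) (nat_lit 157)) (XT.lf (nat_lit 0) (nat_lit 13920553511) (nat_lit 456) (nat_lit 5471294590)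 (nat_lit 532) (nat_lit 14581415062) (nat_lit 100) (nat_lit 5) (nat_lit 106) (nat_lit 5) (nat_lit 107) (nat_lit 5) (nat_lit 292) (nat_lit 272) (nat_lit 156))))) (XT.nd (nat_lit 156) (nat_lit 1216) (nat_lit 0) (XT.nd (nat_lit 78) (nat_lit 0) (nat_lit 0) (XT.lf (nat_lit 0) (nat_lit 5021346468) (nat_lit 380) (nat_lit 21014006287) (nat_lit 456) (nat_lit 8993196609) (nat_lit 95) (nat_lit 5) (nat_lit 100) (nat_lit 5) (nat_lit 101) (nat_lit 5) (nat_lit 293) (nat_lit 272) (nat_lit 155)) (XT.lf (nat_lit 0) (nat_lit 31703797359) (nat_lit 380) (nat_lit 1561321405) (nat_lit 456) (nat_lit 2863871290) (nat_lit 95) (nat_lit 5) (nat_lit 100) (nat_lit 5) (nat_lit 101) (nat_lit 5) (nat_lit 294) (nat_lit 272) (nat_lit 154))) (XT.nd (nat_lit 78) (nat_lit 760) (nat_lit 0) (XT.lf (nat_lit 0) (nat_lit 3898837975) (nat_lit 456) (nat_lit 14621416920) (nat_lit 76) (nat_lit 18751281058) (nat_lit 89) (nat_lit 5) (nat_lit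 95) (nat_lit 5) (nat_lit 90) (nat_lit 5) (nat_lit 295) (nat_lit 272) (nat_lit 153)) (XT.nd (nat_lit 78) (nat_lit 380) (nat_lit 0) (XT.lf (nat_lit 0) (nat_lit 11137366079) (nat_lit 456) (nat_lit 25581405667) (nat_lit 76) (nat_lit 1745690610) (nat_lit 84) (nat_lit 5) (nat_lit 90) (nat_lit 5) (nat_lit 85) (nat_lit 5) (nat_lit 296) (nat_lit 272) (nat_lit 152)) (XT.lf (nat_lit 0) (nat_lit 2202609671) (nat_lit 380) (nat_lit 16889019012) (nat_lit 456) (nat_lit 20614802856) (nat_lit 79) (nat_lit 5) (nat_lit 84) (nat_lit 5) (nat_lit 85) (nat_lit 5) (nat_lit 297) (nat_lit 272) (nat_lit 151)))))) (XT.nd (nat_lit 390) (nat_lit 1140) (nat_lit 0) (XT.nd (nat_lit 156) (nat_lit 684) (nat_lit 0) (XT.nd (nat_lit 78) (nat_lit 304) (nat_lit 0) (XT.lf (nat_lit 0) (nat_lit 27741263606) (nat_lit 456) (nat_lit 9140290732) (nat_lit 76) (nat_lit 4120025262) (nat_lit 79) (nat_lit 5) (nat_lit 85) (nat_lit 5) (nat_lit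 80) (nat_lit 5) (nat_lit 298) (nat_lit 272) (nat_lit 150)) (XT.lf (nat_lit 0) (nat_lit 20870897058) (nat_lit 304) (nat_lit 16317776738) (nat_lit 380) (nat_lit 5161862172) (nat_lit 75) (nat_lit 5) (nat_lit 79) (nat_lit 5) (nat_lit 80) (nat_lit 5) (nat_lit 299) (nat_lit 272) (nat_lit 149))) (XT.nd (nat_lit 78) (nat_lit 304) (nat_lit 0) (XT.lf (nat_lit 0) (nat_lit 3504446743) (nat_lit 380) (nat_lit 34869746778) (nat_lit 76) (nat_lit 5384947868) (nat_lit 70) (nat_lit 5) (nat_lit 75) (nat_lit 5) (nat_lit 71) (nat_lit 5) (nat_lit 300) (nat_lit 272) (nat_lit 148)) (XT.nd (nat_lit 78) (nat_lit 304) (nat_lit 0) (XT.lf (nat_lit 0) (nat_lit 12880845123) (nat_lit 380) (nat_lit 4231973533) (nat_lit 76) (nat_lit 28112327873) (nat_lit 70) (nat_lit 5) (nat_lit 75) (nat_lit 5) (nat_lit 71) (nat_lit 5) (nat_lit 301) (nat_lit 272) (nat_lit 147)) (XT.lf (nat_lit 0) (nat_lit 23047482759) (nat_lit 380) (nat_lit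 18322467558) (nat_lit 76) (nat_lit 5384867170) (nat_lit 66) (nat_lit 5) (nat_lit 71) (nat_lit 5) (nat_lit 67) (nat_lit 5) (nat_lit 302) (nat_lit 272) (nat_lit 146))))) (XT.nd (nat_lit 234) (nat_lit 532) (nat_lit 0) (XT.nd (nat_lit 78) (nat_lit 304) (nat_lit 0) (XT.lf (nat_lit 0) (nat_lit 14562892436) (nat_lit 304) (nat_lit 19511229943) (nat_lit 380) (nat_lit 14276307267) (nat_lit 62) (nat_lit 5) (nat_lit 66) (nat_lit 5) (nat_lit 67) (nat_lit 5) (nat_lit 303) (nat_lit 272) (nat_lit 145)) (XT.nd (nat_lit 78) (nat_lit 304) (nat_lit 0) (XT.lf (nat_lit 0) (nat_lit 45870769473) (nat_lit 380) (nat_lit 586426027) (nat_lit 76) (nat_lit 3562074034) (nat_lit 62) (nat_lit 5) (nat_lit 67) (nat_lit 5) (nat_lit 63) (nat_lit 5) (nat_lit 304) (nat_lit 272) (nat_lit 144)) (XT.lf (nat_lit 0) (nat_lit 6890662440) (nat_lit 304) (nat_lit 17073836298) (nat_lit 76) (nat_lit 27789243445) (nat_lit 58) (nat_lit 5)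 (nat_lit 62) (nat_lit 5) (nat_lit 59) (nat_lit 5) (nat_lit 305) (nat_lit 272) (nat_lit 143)))) (XT.nd (nat_lit 78) (nat_lit 228) (nat_lit 0) (XT.lf (nat_lit 0) (nat_lit 18458999801) (nat_lit 304) (nat_lit 116784724) (nat_lit 380) (nat_lit 34992534253) (nat_lit 54) (nat_lit 5) (nat_lit 58) (nat_lit 5) (nat_lit 59) (nat_lit 5) (nat_lit 306) (nat_lit 272) (nat_lit 142)) (XT.nd (nat_lit 78) (nat_lit 0) (nat_lit 0) (XT.lf (nat_lit 0) (nat_lit 417486426) (nat_lit 228) (nat_lit 30844373342) (nat_lit 304) (nat_lit 24199269716) (nat_lit 51) (nat_lit 5) (nat_lit 54) (nat_lit 5) (nat_lit 55) (nat_lit 5) (nat_lit 307) (nat_lit 272) (nat_lit 141)) (XT.lf (nat_lit 0) (nat_lit 38447029726) (nat_lit 228) (nat_lit 6493551978) (nat_lit 304) (nat_lit 12497254632) (nat_lit 51) (nat_lit 5) (nat_lit 54) (nat_lit 5) (nat_lit 55) (nat_lit 5) (nat_lit 308) (nat_lit 272) (nat_lit 140))))))) (XT.nd (nat_lit 858) (nat_lit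 532) (nat_lit 0) (XT.nd (nat_lit 390) (nat_lit 836) (nat_lit 0) (XT.nd (nat_lit 156) (nat_lit 456) (nat_lit 0) (XT.nd (nat_lit 78) (nat_lit 0) (nat_lit 0) (XT.lf (nat_lit 0) (nat_lit 159936863) (nat_lit 304) (nat_lit 40456992297) (nat_lit 76) (nat_lit 18885536173) (nat_lit 47) (nat_lit 5) (nat_lit 51) (nat_lit 5) (nat_lit 48) (nat_lit 5) (nat_lit 309) (nat_lit 272) (nat_lit 139)) (XT.lf (nat_lit 0) (nat_lit 13452933968) (nat_lit 304) (nat_lit 2483473725) (nat_lit 76) (nat_lit 45722368974) (nat_lit 47) (nat_lit 5) (nat_lit 51) (nat_lit 5) (nat_lit 48) (nat_lit 5) (nat_lit 310) (nat_lit 272) (nat_lit 138))) (XT.nd (nat_lit 78) (nat_lit 228) (nat_lit 0) (XT.lf (nat_lit 0) (nat_lit 27872834869) (nat_lit 304) (nat_lit 25884375139) (nat_lit 76) (nat_lit 10151830888) (nat_lit 44) (nat_lit 5) (nat_lit 48) (nat_lit 5) (nat_lit 45) (nat_lit 5) (nat_lit 311) (nat_lit 272) (nat_lit 137)) (XT.nd (nat_lit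 78) (nat_lit 0) (nat_lit 0) (XT.lf (nat_lit 0) (nat_lit 14454536355) (nat_lit 228) (nat_lit 28881144435) (nat_lit 304) (nat_lit 22926483759) (nat_lit 41) (nat_lit 5) (nat_lit 44) (nat_lit 5) (nat_lit 45) (nat_lit 5) (nat_lit 312) (nat_lit 272) (nat_lit 136)) (XT.lf (nat_lit 0) (nat_lit 57345979083) (nat_lit 228) (nat_lit 2488605869) (nat_lit 304) (nat_lit 8890476442) (nat_lit 41) (nat_lit 5) (nat_lit 44) (nat_lit 5) (nat_lit 45) (nat_lit 5) (nat_lit 313) (nat_lit 272) (nat_lit 135))))) (XT.nd (nat_lit 234) (nat_lit 380) (nat_lit 0) (XT.nd (nat_lit 78) (nat_lit 228) (nat_lit 0) (XT.lf (nat_lit 0) (nat_lit 6279848263) (nat_lit 228) (nat_lit 39919723861) (nat_lit 76) (nat_lit 25093450279) (nat_lit 38) (nat_lit 5) (nat_lit 41) (nat_lit 5) (nat_lit 39) (nat_lit 5) (nat_lit 314) (nat_lit 272) (nat_lit 134)) (XT.nd (nat_lit 78) (nat_lit 0) (nat_lit 0) (XT.lf (nat_lit 0) (nat_lit 2441777311) (nat_lit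 228) (nat_lit 19748328000) (nat_lit 304) (nat_lit 51791680822) (nat_lit 35) (nat_lit 5) (nat_lit 38) (nat_lit 5) (nat_lit 39) (nat_lit 5) (nat_lit 315) (nat_lit 272) (nat_lit 133)) (XT.lf (nat_lit 0) (nat_lit 39384809911) (nat_lit 304) (nat_lit 29123333006) (nat_lit 76) (nat_lit 8282180857) (nat_lit 35) (nat_lit 5) (nat_lit 39) (nat_lit 5) (nat_lit 36) (nat_lit 5) (nat_lit 316) (nat_lit 272) (nat_lit 132)))) (XT.nd (nat_lit 78) (nat_lit 228) (nat_lit 0) (XT.lf (nat_lit 0) (nat_lit 15512784178) (nat_lit 152) (nat_lit 42271843699) (nat_lit 228) (nat_lit 21944302659) (nat_lit 33) (nat_lit 5) (nat_lit 35) (nat_lit 5) (nat_lit 36) (nat_lit 5) (nat_lit 317) (nat_lit 272) (nat_lit 131)) (XT.nd (nat_lit 78) (nat_lit 228) (nat_lit 0) (XT.lf (nat_lit 0) (nat_lit 62984658129) (nat_lit 152) (nat_lit 14416614068) (nat_lit 228) (nat_lit 5404293789) (nat_lit 33) (nat_lit 5) (nat_lit 35) (nat_lit 5) (nat_lit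 36) (nat_lit 5) (nat_lit 318) (nat_lit 272) (nat_lit 130)) (XT.lf (nat_lit 0) (nat_lit 12134222607) (nat_lit 228) (nat_lit 58965610333) (nat_lit 76) (nat_lit 14920605354) (nat_lit 30) (nat_lit 5) (nat_lit 33) (nat_lit 5) (nat_lit 31) (nat_lit 5) (nat_lit 319) (nat_lit 272) (nat_lit 129)))))) (XT.nd (nat_lit 390) (nat_lit 152) (nat_lit 0) (XT.nd (nat_lit 156) (nat_lit 228) (nat_lit 0) (XT.nd (nat_lit 78) (nat_lit 152) (nat_lit 0) (XT.lf (nat_lit 0) (nat_lit 30787729227) (nat_lit 228) (nat_lit 12907883325) (nat_lit 76) (nat_lit 45688344434) (nat_lit 30) (nat_lit 5) (nat_lit 33) (nat_lit 5) (nat_lit 31) (nat_lit 5) (nat_lit 320) (nat_lit 272) (nat_lit 128)) (XT.lf (nat_lit 0) (nat_lit 36154013528) (nat_lit 152) (nat_lit 14564789456) (nat_lit 228) (nat_lit 42186504735) (nat_lit 28) (nat_lit 5) (nat_lit 30) (nat_lit 5) (nat_lit 31) (nat_lit 5) (nat_lit 321) (nat_lit 272) (nat_lit 127))) (XT.nd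 (nat_lit 78) (nat_lit 228) (nat_lit 0) (XT.lf (nat_lit 0) (nat_lit 71932069168) (nat_lit 228) (nat_lit 8819487566) (nat_lit 76) (nat_lit 15842602821) (nat_lit 28) (nat_lit 5) (nat_lit 31) (nat_lit 5) (nat_lit 29) (nat_lit 5) (nat_lit 322) (nat_lit 272) (nat_lit 126)) (XT.nd (nat_lit 78) (nat_lit 76) (nat_lit 0) (XT.lf (nat_lit 0) (nat_lit 42181050069) (nat_lit 152) (nat_lit 52574976102) (nat_lit 228) (nat_lit 5694929581) (nat_lit 26) (nat_lit 5) (nat_lit 28) (nat_lit 5) (nat_lit 29) (nat_lit 5) (nat_lit 323) (nat_lit 272) (nat_lit 125)) (XT.lf (nat_lit 0) (nat_lit 14032387357) (nat_lit 228) (nat_lit 8723442267) (nat_lit 76) (nat_lit 81737984837) (nat_lit 25) (nat_lit 5) (nat_lit 28) (nat_lit 5) (nat_lit 26) (nat_lit 5) (nat_lit 324) (nat_lit 272) (nat_lit 124))))) (XT.nd (nat_lit 33618) (nat_lit 0) (nat_lit 10412) (XT.nd (nat_lit 33462) (nat_lit 0) (nat_lit 10336) (XT.lf (nat_lit 0) (nat_lit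 35137999177) (nat_lit 228) (nat_lit 64711727249) (nat_lit 76) (nat_lit 8872109135) (nat_lit 23) (nat_lit 5) (nat_lit 26) (nat_lit 5) (nat_lit 24) (nat_lit 5) (nat_lit 325) (nat_lit 272) (nat_lit 123)) (XT.nd (nat_lit 78) (nat_lit 0) (nat_lit 0) (XT.lf (nat_lit 0) (nat_lit 6911659834) (nat_lit 1140) (nat_lit 1709999619) (nat_lit 1140) (nat_lit 1709999619) (nat_lit 159) (nat_lit 3) (nat_lit 174) (nat_lit 3) (nat_lit 174) (nat_lit 5) (nat_lit 273) (nat_lit 273) (nat_lit 174)) (XT.lf (nat_lit 76) (nat_lit 11371317343) (nat_lit 0) (nat_lit 3138283823) (nat_lit 1140) (nat_lit 6659569902) (nat_lit 160) (nat_lit 5) (nat_lit 159) (nat_lit 3) (nat_lit 174) (nat_lit 5) (nat_lit 274) (nat_lit 273) (nat_lit 173)))) (XT.nd (nat_lit 78) (nat_lit 0) (nat_lit 76) (XT.lf (nat_lit 76) (nat_lit 5256081396) (nat_lit 0) (nat_lit 10157574225) (nat_lit 1140) (nat_lit 6281189835) (nat_lit 161) (nat_lit 5) (nat_lit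 160) (nat_lit 5) (nat_lit 175) (nat_lit 5) (nat_lit 275) (nat_lit 273) (nat_lit 172)) (XT.nd (nat_lit 78) (nat_lit 0) (nat_lit 0) (XT.lf (nat_lit 0) (nat_lit 16526569485) (nat_lit 1064) (nat_lit 1061866992) (nat_lit 1140) (nat_lit 4653488422) (nat_lit 161) (nat_lit 5) (nat_lit 175) (nat_lit 5) (nat_lit 176) (nat_lit 5) (nat_lit 276) (nat_lit 273) (nat_lit 171)) (XT.lf (nat_lit 76) (nat_lit 15271137453) (nat_lit 0) (nat_lit 2659850513) (nat_lit 1140) (nat_lit 4878324137) (nat_lit 162) (nat_lit 5) (nat_lit 161) (nat_lit 5) (nat_lit 176) (nat_lit 5) (nat_lit 277) (nat_lit 273) (nat_lit 170))))))))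
noncomputable def xc105 : XT := (XT.nd (nat_lit 1716) (nat_lit 3724) (nat_lit 0) (XT.nd (nat_lit 858) (nat_lit 3572) (nat_lit 0) (XT.nd (nat_lit 390) (nat_lit 1748) (nat_lit 0) (XT.nd (nat_lit 156) (nat_lit 988) (nat_lit 0) (XT.nd (nat_lit 78) (nat_lit 0) (nat_lit 76) (XT.lf (nat_lit 76) (nat_lit 9081805565) (nat_lit 0) (nat_lit 10534422743) (nat_lit 1140) (nat_lit 3782550481) (nat_lit 163) (nat_lit 5) (nat_lit 162) (nat_lit 5) (nat_lit 177) (nat_lit 5) (nat_lit 278) (nat_lit 273) (nat_lit 169)) (XT.lf (nat_lit 76) (nat_lit 2641525253) (nat_lit 0) (nat_lit 18911230512) (nat_lit 1140) (nat_lit 2459979102) (nat_lit 164) (nat_lit 5) (nat_lit 163) (nat_lit 5) (nat_lit 178) (nat_lit 5) (nat_lit 279) (nat_lit 273) (nat_lit 168))) (XT.nd (nat_lit 78) (nat_lit 1064) (nat_lit 0) (XT.lf (nat_lit 76) (nat_lit 20630305563) (nat_lit 0) (nat_lit 3196697419) (nat_lit 1140) (nat_lit 823184498) (nat_lit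 164) (nat_lit 5) (nat_lit 163) (nat_lit 5) (nat_lit 178) (nat_lit 5) (nat_lit 280) (nat_lit 273) (nat_lit 167)) (XT.nd (nat_lit 78) (nat_lit 0) (nat_lit 76) (XT.lf (nat_lit 0) (nat_lit 1135045455) (nat_lit 1140) (nat_lit 10980396788) (nat_lit 1216) (nat_lit 13196123789) (nat_lit 149) (nat_lit 5) (nat_lit 164) (nat_lit 5) (nat_lit 165) (nat_lit 5) (nat_lit 281) (nat_lit 273) (nat_lit 166)) (XT.lf (nat_lit 0) (nat_lit 3355282733) (nat_lit 1140) (nat_lit 18263114919) (nat_lit 1216) (nat_lit 4381960217) (nat_lit 150) (nat_lit 5) (nat_lit 165) (nat_lit 5) (nat_lit 166) (nat_lit 5) (nat_lit 282) (nat_lit 273) (nat_lit 165))))) (XT.nd (nat_lit 234) (nat_lit 1064) (nat_lit 0) (XT.nd (nat_lit 78) (nat_lit 760) (nat_lit 0) (XT.lf (nat_lit 76) (nat_lit 783418658) (nat_lit 0) (nat_lit 5136686811) (nat_lit 1216) (nat_lit 20796498035) (nat_lit 151) (nat_lit 5) (nat_lit 150) (nat_lit 5) (nat_lit 166) (nat_lit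 5) (nat_lit 283) (nat_lit 273) (nat_lit 164)) (XT.nd (nat_lit 78) (nat_lit 836) (nat_lit 0) (XT.lf (nat_lit 0) (nat_lit 8910048816) (nat_lit 1140) (nat_lit 6426518210) (nat_lit 76) (nat_lit 12123208406) (nat_lit 151) (nat_lit 5) (nat_lit 166) (nat_lit 5) (nat_lit 152) (nat_lit 5) (nat_lit 284) (nat_lit 273) (nat_lit 163)) (XT.lf (nat_lit 0) (nat_lit 12248715623) (nat_lit 912) (nat_lit 13980396585) (nat_lit 76) (nat_lit 2005036382) (nat_lit 140) (nat_lit 5) (nat_lit 152) (nat_lit 5) (nat_lit 141) (nat_lit 5) (nat_lit 285) (nat_lit 273) (nat_lit 162)))) (XT.nd (nat_lit 78) (nat_lit 532) (nat_lit 0) (XT.lf (nat_lit 0) (nat_lit 7030573507) (nat_lit 532) (nat_lit 9003830014) (nat_lit 608) (nat_lit 13004452751) (nat_lit 133) (nat_lit 5) (nat_lit 140) (nat_lit 5) (nat_lit 141) (nat_lit 5) (nat_lit 286) (nat_lit 273) (nat_lit 161)) (XT.nd (nat_lit 78) (nat_lit 532) (nat_lit 0) (XT.lf (nat_lit 0)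 (nat_lit 20233288226) (nat_lit 608) (nat_lit 592267799) (nat_lit 76) (nat_lit 9051543558) (nat_lit 133) (nat_lit 5) (nat_lit 141) (nat_lit 5) (nat_lit 134) (nat_lit 5) (nat_lit 287) (nat_lit 273) (nat_lit 160)) (XT.lf (nat_lit 0) (nat_lit 22229549926) (nat_lit 532) (nat_lit 2708808186) (nat_lit 608) (nat_lit 5810026496) (nat_lit 126) (nat_lit 5) (nat_lit 133) (nat_lit 5) (nat_lit 134) (nat_lit 5) (nat_lit 288) (nat_lit 273) (nat_lit 159)))))) (XT.nd (nat_lit 390) (nat_lit 1596) (nat_lit 0) (XT.nd (nat_lit 156) (nat_lit 912) (nat_lit 0) (XT.nd (nat_lit 78) (nat_lit 608) (nat_lit 0) (XT.lf (nat_lit 0) (nat_lit 14663104434) (nat_lit 456) (nat_lit 15511507729) (nat_lit 532) (nat_lit 1479759783) (nat_lit 120) (nat_lit 5) (nat_lit 126) (nat_lit 5) (nat_lit 127) (nat_lit 5) (nat_lit 289) (nat_lit 273) (nat_lit 158)) (XT.lf (nat_lit 0) (nat_lit 3212451800) (nat_lit 608) (nat_lit 25989728667) (nat_lit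 76) (nat_lit 3396450091) (nat_lit 112) (nat_lit 5) (nat_lit 120) (nat_lit 5) (nat_lit 113) (nat_lit 5) (nat_lit 290) (nat_lit 273) (nat_lit 157))) (XT.nd (nat_lit 78) (nat_lit 912) (nat_lit 0) (XT.lf (nat_lit 0) (nat_lit 8434673721) (nat_lit 608) (nat_lit 2021821192) (nat_lit 76) (nat_lit 23123401623) (nat_lit 112) (nat_lit 5) (nat_lit 120) (nat_lit 5) (nat_lit 113) (nat_lit 5) (nat_lit 291) (nat_lit 273) (nat_lit 156)) (XT.nd (nat_lit 78) (nat_lit 456) (nat_lit 0) (XT.lf (nat_lit 0) (nat_lit 14228644598) (nat_lit 532) (nat_lit 11097137460) (nat_lit 76) (nat_lit 9275138022) (nat_lit 106) (nat_lit 5) (nat_lit 113) (nat_lit 5) (nat_lit 107) (nat_lit 5) (nat_lit 292) (nat_lit 273) (nat_lit 155)) (XT.lf (nat_lit 0) (nat_lit 14852109962) (nat_lit 456) (nat_lit 5722667688) (nat_lit 532) (nat_lit 15090356004) (nat_lit 100) (nat_lit 5) (nat_lit 106) (nat_lit 5) (nat_lit 107) (nat_lit 5) (nat_lit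 293) (nat_lit 273) (nat_lit 154))))) (XT.nd (nat_lit 234) (nat_lit 760) (nat_lit 0) (XT.nd (nat_lit 78) (nat_lit 456) (nat_lit 0) (XT.lf (nat_lit 0) (nat_lit 5507581933) (nat_lit 380) (nat_lit 22035180433) (nat_lit 456) (nat_lit 9230671346) (nat_lit 95) (nat_lit 5) (nat_lit 100) (nat_lit 5) (nat_lit 101) (nat_lit 5) (nat_lit 294) (nat_lit 273) (nat_lit 153)) (XT.nd (nat_lit 78) (nat_lit 456) (nat_lit 0) (XT.lf (nat_lit 0) (nat_lit 33512956886) (nat_lit 380) (nat_lit 1611267315) (nat_lit 456) (nat_lit 2804983813) (nat_lit 95) (nat_lit 5) (nat_lit 100) (nat_lit 5) (nat_lit 101) (nat_lit 5) (nat_lit 295) (nat_lit 273) (nat_lit 152)) (XT.lf (nat_lit 0) (nat_lit 4284910579) (nat_lit 456) (nat_lit 15125014696) (nat_lit 76) (nat_lit 19719124331) (nat_lit 89) (nat_lit 5) (nat_lit 95) (nat_lit 5) (nat_lit 90) (nat_lit 5) (nat_lit 296) (nat_lit 273) (nat_lit 151)))) (XT.nd (nat_lit 78) (nat_lit 380)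 (nat_lit 0) (XT.lf (nat_lit 0) (nat_lit 11878741296) (nat_lit 456) (nat_lit 26634038945) (nat_lit 76) (nat_lit 1869056478) (nat_lit 84) (nat_lit 5) (nat_lit 90) (nat_lit 5) (nat_lit 85) (nat_lit 5) (nat_lit 297) (nat_lit 273) (nat_lit 150)) (XT.nd (nat_lit 78) (nat_lit 0) (nat_lit 0) (XT.lf (nat_lit 0) (nat_lit 2532686388) (nat_lit 380) (nat_lit 17691358855) (nat_lit 456) (nat_lit 21462074201) (nat_lit 79) (nat_lit 5) (nat_lit 84) (nat_lit 5) (nat_lit 85) (nat_lit 5) (nat_lit 298) (nat_lit 273) (nat_lit 149)) (XT.lf (nat_lit 0) (nat_lit 29298079096) (nat_lit 456) (nat_lit 9382852786) (nat_lit 76) (nat_lit 4365349732) (nat_lit 79) (nat_lit 5) (nat_lit 85) (nat_lit 5) (nat_lit 80) (nat_lit 5) (nat_lit 299) (nat_lit 273) (nat_lit 148))))))) (XT.nd (nat_lit 858) (nat_lit 1292) (nat_lit 0) (XT.nd (nat_lit 390) (nat_lit 1140) (nat_lit 0) (XT.nd (nat_lit 156) (nat_lit 608) (nat_lit 0) (XT.nd (nat_lit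 78) (nat_lit 380) (nat_lit 0) (XT.lf (nat_lit 0) (nat_lit 22122747156) (nat_lit 304) (nat_lit 17089031553) (nat_lit 380) (nat_lit 5251103066) (nat_lit 75) (nat_lit 5) (nat_lit 79) (nat_lit 5) (nat_lit 80) (nat_lit 5) (nat_lit 300) (nat_lit 273) (nat_lit 147)) (XT.lf (nat_lit 0) (nat_lit 3839764389) (nat_lit 380) (nat_lit 36402847518) (nat_lit 76) (nat_lit 5699433249) (nat_lit 70) (nat_lit 5) (nat_lit 75) (nat_lit 5) (nat_lit 71) (nat_lit 5) (nat_lit 301) (nat_lit 273) (nat_lit 146))) (XT.nd (nat_lit 78) (nat_lit 608) (nat_lit 0) (XT.lf (nat_lit 0) (nat_lit 13677359101) (nat_lit 380) (nat_lit 4243204019) (nat_lit 76) (nat_lit 29561028065) (nat_lit 70) (nat_lit 5) (nat_lit 75) (nat_lit 5) (nat_lit 71) (nat_lit 5) (nat_lit 302) (nat_lit 273) (nat_lit 145)) (XT.nd (nat_lit 78) (nat_lit 304) (nat_lit 0) (XT.lf (nat_lit 0) (nat_lit 24347395922) (nat_lit 380) (nat_lit 19039783649) (nat_lit 76)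 (nat_lit 5700725460) (nat_lit 66) (nat_lit 5) (nat_lit 71) (nat_lit 5) (nat_lit 67) (nat_lit 5) (nat_lit 303) (nat_lit 273) (nat_lit 144)) (XT.lf (nat_lit 0) (nat_lit 15484145573) (nat_lit 304) (nat_lit 20436052559) (nat_lit 380) (nat_lit 14843265565) (nat_lit 62) (nat_lit 5) (nat_lit 66) (nat_lit 5) (nat_lit 67) (nat_lit 5) (nat_lit 304) (nat_lit 273) (nat_lit 143))))) (XT.nd (nat_lit 234) (nat_lit 532) (nat_lit 0) (XT.nd (nat_lit 78) (nat_lit 608) (nat_lit 0) (XT.lf (nat_lit 0) (nat_lit 48300362583) (nat_lit 380) (nat_lit 428025220) (nat_lit 76) (nat_lit 3787557529) (nat_lit 62) (nat_lit 5) (nat_lit 67) (nat_lit 5) (nat_lit 63) (nat_lit 5) (nat_lit 305) (nat_lit 273) (nat_lit 142)) (XT.nd (nat_lit 78) (nat_lit 304) (nat_lit 0) (XT.lf (nat_lit 0) (nat_lit 7368016863) (nat_lit 304) (nat_lit 17742353104) (nat_lit 76) (nat_lit 29226884173) (nat_lit 58) (nat_lit 5) (nat_lit 62) (nat_lit 5)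 (nat_lit 59) (nat_lit 5) (nat_lit 306) (nat_lit 273) (nat_lit 141)) (XT.lf (nat_lit 0) (nat_lit 19561816796) (nat_lit 304) (nat_lit 70982423) (nat_lit 380) (nat_lit 36609907291) (nat_lit 54) (nat_lit 5) (nat_lit 58) (nat_lit 5) (nat_lit 59) (nat_lit 5) (nat_lit 307) (nat_lit 273) (nat_lit 140)))) (XT.nd (nat_lit 78) (nat_lit 304) (nat_lit 0) (XT.lf (nat_lit 0) (nat_lit 616502458) (nat_lit 228) (nat_lit 32332754971) (nat_lit 304) (nat_lit 25281026588) (nat_lit 51) (nat_lit 5) (nat_lit 54) (nat_lit 5) (nat_lit 55) (nat_lit 5) (nat_lit 308) (nat_lit 273) (nat_lit 139)) (XT.nd (nat_lit 78) (nat_lit 304) (nat_lit 0) (XT.lf (nat_lit 0) (nat_lit 40539039984) (nat_lit 228) (nat_lit 6766956208) (nat_lit 304) (nat_lit 13000015826) (nat_lit 51) (nat_lit 5) (nat_lit 54) (nat_lit 5) (nat_lit 55) (nat_lit 5) (nat_lit 309) (nat_lit 273) (nat_lit 138)) (XT.lf (nat_lit 0) (nat_lit 284055945) (nat_lit 304)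 (nat_lit 42309452274) (nat_lit 76) (nat_lit 19880444543) (nat_lit 47) (nat_lit 5) (nat_lit 51) (nat_lit 5) (nat_lit 48) (nat_lit 5) (nat_lit 310) (nat_lit 273) (nat_lit 137)))))) (XT.nd (nat_lit 390) (nat_lit 608) (nat_lit 0) (XT.nd (nat_lit 156) (nat_lit 456) (nat_lit 0) (XT.nd (nat_lit 78) (nat_lit 228) (nat_lit 0) (XT.lf (nat_lit 0) (nat_lit 14236173274) (nat_lit 304) (nat_lit 2445371566) (nat_lit 76) (nat_lit 48056707957) (nat_lit 47) (nat_lit 5) (nat_lit 51) (nat_lit 5) (nat_lit 48) (nat_lit 5) (nat_lit 311) (nat_lit 273) (nat_lit 136)) (XT.lf (nat_lit 0) (nat_lit 29373806242) (nat_lit 304) (nat_lit 27018114542) (nat_lit 76) (nat_lit 10709214244) (nat_lit 44) (nat_lit 5) (nat_lit 48) (nat_lit 5) (nat_lit 45) (nat_lit 5) (nat_lit 312) (nat_lit 273) (nat_lit 135))) (XT.nd (nat_lit 78) (nat_lit 228) (nat_lit 0) (XT.lf (nat_lit 0) (nat_lit 15333142418) (nat_lit 228) (nat_lit 30273039513)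 (nat_lit 304) (nat_lit 23965847882) (nat_lit 41) (nat_lit 5) (nat_lit 44) (nat_lit 5) (nat_lit 45) (nat_lit 5) (nat_lit 313) (nat_lit 273) (nat_lit 134)) (XT.nd (nat_lit 78) (nat_lit 228) (nat_lit 0) (XT.lf (nat_lit 0) (nat_lit 60361734461) (nat_lit 228) (nat_lit 2563357930) (nat_lit 304) (nat_lit 9233133536) (nat_lit 41) (nat_lit 5) (nat_lit 44) (nat_lit 5) (nat_lit 45) (nat_lit 5) (nat_lit 314) (nat_lit 273) (nat_lit 133)) (XT.lf (nat_lit 0) (nat_lit 6690847270) (nat_lit 228) (nat_lit 41766926569) (nat_lit 76) (nat_lit 26396873728) (nat_lit 38) (nat_lit 5) (nat_lit 41) (nat_lit 5) (nat_lit 39) (nat_lit 5) (nat_lit 315) (nat_lit 273) (nat_lit 132))))) (XT.nd (nat_lit 234) (nat_lit 228) (nat_lit 0) (XT.nd (nat_lit 78) (nat_lit 152) (nat_lit 0) (XT.lf (nat_lit 0) (nat_lit 2708384812) (nat_lit 228) (nat_lit 20685002199) (nat_lit 304) (nat_lit 54284564891) (nat_lit 35) (nat_lit 5) (nat_lit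 38) (nat_lit 5) (nat_lit 39) (nat_lit 5) (nat_lit 316) (nat_lit 273) (nat_lit 131)) (XT.nd (nat_lit 78) (nat_lit 152) (nat_lit 0) (XT.lf (nat_lit 0) (nat_lit 41443825835) (nat_lit 304) (nat_lit 30439543076) (nat_lit 76) (nat_lit 8743672793) (nat_lit 35) (nat_lit 5) (nat_lit 39) (nat_lit 5) (nat_lit 36) (nat_lit 5) (nat_lit 317) (nat_lit 273) (nat_lit 130)) (XT.lf (nat_lit 0) (nat_lit 16424368139) (nat_lit 152) (nat_lit 44336298324) (nat_lit 228) (nat_lit 22952006389) (nat_lit 33) (nat_lit 5) (nat_lit 35) (nat_lit 5) (nat_lit 36) (nat_lit 5) (nat_lit 318) (nat_lit 273) (nat_lit 129)))) (XT.nd (nat_lit 78) (nat_lit 228) (nat_lit 0) (XT.lf (nat_lit 0) (nat_lit 66263362228) (nat_lit 152) (nat_lit 15090647095) (nat_lit 228) (nat_lit 5589259523) (nat_lit 33) (nat_lit 5) (nat_lit 35) (nat_lit 5) (nat_lit 36) (nat_lit 5) (nat_lit 319) (nat_lit 273) (nat_lit 128)) (XT.nd (nat_lit 78) (nat_lit 0)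 (nat_lit 0) (XT.lf (nat_lit 0) (nat_lit 12822212482) (nat_lit 228) (nat_lit 61784360598) (nat_lit 76) (nat_lit 15712360710) (nat_lit 30) (nat_lit 5) (nat_lit 33) (nat_lit 5) (nat_lit 31) (nat_lit 5) (nat_lit 320) (nat_lit 273) (nat_lit 127)) (XT.lf (nat_lit 0) (nat_lit 32404524016) (nat_lit 228) (nat_lit 13429915346) (nat_lit 76) (nat_lit 48016309359) (nat_lit 30) (nat_lit 5) (nat_lit 33) (nat_lit 5) (nat_lit 31) (nat_lit 5) (nat_lit 321) (nat_lit 273) (nat_lit 126))))))))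
noncomputable def xc106 : XT := (XT.nd (nat_lit 35178) (nat_lit 0) (nat_lit 1444) (XT.nd (nat_lit 34320) (nat_lit 0) (nat_lit 6612) (XT.nd (nat_lit 33852) (nat_lit 0) (nat_lit 10184) (XT.nd (nat_lit 156) (nat_lit 228) (nat_lit 0) (XT.nd (nat_lit 78) (nat_lit 0) (nat_lit 0) (XT.lf (nat_lit 0) (nat_lit 38081540198) (nat_lit 152) (nat_lit 15248076993) (nat_lit 228) (nat_lit 44218629822) (nat_lit 28) (nat_lit 5) (nat_lit 30) (nat_lit 5) (nat_lit 31) (nat_lit 5) (nat_lit 322) (nat_lit 273) (nat_lit 125)) (XT.lf (nat_lit 0) (nat_lit 75600392781) (nat_lit 228) (nat_lit 9144538153) (nat_lit 76) (nat_lit 16676708925) (nat_lit 28) (nat_lit 5) (nat_lit 31) (nat_lit 5) (nat_lit 29) (nat_lit 5) (nat_lit 323) (nat_lit 273) (nat_lit 124))) (XT.nd (nat_lit 78) (nat_lit 76) (nat_lit 0) (XT.lf (nat_lit 0) (nat_lit 44402703431) (nat_lit 152) (nat_lit 55160511347) (nat_lit 228) (nat_lit 5908134698) (nat_lit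 26) (nat_lit 5) (nat_lit 28) (nat_lit 5) (nat_lit 29) (nat_lit 5) (nat_lit 324) (nat_lit 273) (nat_lit 123)) (XT.nd (nat_lit 33540) (nat_lit 0) (nat_lit 10184) (XT.lf (nat_lit 0) (nat_lit 14800811803) (nat_lit 228) (nat_lit 9050978931) (nat_lit 76) (nat_lit 85864643312) (nat_lit 25) (nat_lit 5) (nat_lit 28) (nat_lit 5) (nat_lit 26) (nat_lit 5) (nat_lit 325) (nat_lit 273) (nat_lit 122)) (XT.lf (nat_lit 0) (nat_lit 7485020620) (nat_lit 1140) (nat_lit 1677943472) (nat_lit 1140) (nat_lit 1677943472) (nat_lit 159) (nat_lit 3) (nat_lit 174) (nat_lit 3) (nat_lit 174) (nat_lit 5) (nat_lit 274) (nat_lit 274) (nat_lit 172))))) (XT.nd (nat_lit 234) (nat_lit 0) (nat_lit 152) (XT.nd (nat_lit 78) (nat_lit 0) (nat_lit 76) (XT.lf (nat_lit 76) (nat_lit 12168256022) (nat_lit 0) (nat_lit 3502882926) (nat_lit 1140) (nat_lit 6542454410) (nat_lit 160) (nat_lit 5) (nat_lit 159) (nat_lit 3) (nat_lit 174) (nat_lit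 5) (nat_lit 275) (nat_lit 274) (nat_lit 171)) (XT.nd (nat_lit 78) (nat_lit 0) (nat_lit 76) (XT.lf (nat_lit 76) (nat_lit 5756285102) (nat_lit 0) (nat_lit 10843727073) (nat_lit 1140) (nat_lit 6166196263) (nat_lit 161) (nat_lit 5) (nat_lit 160) (nat_lit 5) (nat_lit 175) (nat_lit 5) (nat_lit 276) (nat_lit 274) (nat_lit 170)) (XT.lf (nat_lit 0) (nat_lit 17747145666) (nat_lit 1064) (nat_lit 874491192) (nat_lit 1140) (nat_lit 4719691066) (nat_lit 161) (nat_lit 5) (nat_lit 175) (nat_lit 5) (nat_lit 176) (nat_lit 5) (nat_lit 277) (nat_lit 274) (nat_lit 169)))) (XT.nd (nat_lit 78) (nat_lit 0) (nat_lit 76) (XT.lf (nat_lit 76) (nat_lit 16268270476) (nat_lit 0) (nat_lit 2936986172) (nat_lit 1140) (nat_lit 4732364921) (nat_lit 162) (nat_lit 5) (nat_lit 161) (nat_lit 5) (nat_lit 176) (nat_lit 5) (nat_lit 278) (nat_lit 274) (nat_lit 168)) (XT.nd (nat_lit 78) (nat_lit 0) (nat_lit 76) (XT.lf (nat_lit 76)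 (nat_lit 9775930141) (nat_lit 0) (nat_lit 11181829979) (nat_lit 1140) (nat_lit 3599350701) (nat_lit 163) (nat_lit 5) (nat_lit 162) (nat_lit 5) (nat_lit 177) (nat_lit 5) (nat_lit 279) (nat_lit 274) (nat_lit 167)) (XT.lf (nat_lit 76) (nat_lit 3019156330) (nat_lit 0) (nat_lit 19956036015) (nat_lit 1140) (nat_lit 2227087401) (nat_lit 164) (nat_lit 5) (nat_lit 163) (nat_lit 5) (nat_lit 178) (nat_lit 5) (nat_lit 280) (nat_lit 274) (nat_lit 166)))))) (XT.nd (nat_lit 390) (nat_lit 2812) (nat_lit 0) (XT.nd (nat_lit 156) (nat_lit 0) (nat_lit 76) (XT.nd (nat_lit 78) (nat_lit 1064) (nat_lit 0) (XT.lf (nat_lit 76) (nat_lit 21895682569) (nat_lit 0) (nat_lit 3451050363) (nat_lit 1140) (nat_lit 525400240) (nat_lit 164) (nat_lit 5) (nat_lit 163) (nat_lit 5) (nat_lit 178) (nat_lit 5) (nat_lit 281) (nat_lit 274) (nat_lit 165)) (XT.lf (nat_lit 0) (nat_lit 1509741502) (nat_lit 1140) (nat_lit 11284128787) (nat_lit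 1216) (nat_lit 13773077122) (nat_lit 149) (nat_lit 5) (nat_lit 164) (nat_lit 5) (nat_lit 165) (nat_lit 5) (nat_lit 282) (nat_lit 274) (nat_lit 164))) (XT.nd (nat_lit 78) (nat_lit 0) (nat_lit 0) (XT.lf (nat_lit 0) (nat_lit 3827498254) (nat_lit 1140) (nat_lit 18927591408) (nat_lit 1216) (nat_lit 4535525311) (nat_lit 150) (nat_lit 5) (nat_lit 165) (nat_lit 5) (nat_lit 166) (nat_lit 5) (nat_lit 283) (nat_lit 274) (nat_lit 163)) (XT.nd (nat_lit 78) (nat_lit 0) (nat_lit 76) (XT.lf (nat_lit 76) (nat_lit 1064140507) (nat_lit 0) (nat_lit 5444245870) (nat_lit 1216) (nat_lit 21534681655) (nat_lit 151) (nat_lit 5) (nat_lit 150) (nat_lit 5) (nat_lit 166) (nat_lit 5) (nat_lit 284) (nat_lit 274) (nat_lit 162)) (XT.lf (nat_lit 0) (nat_lit 9633444626) (nat_lit 1140) (nat_lit 6508411586) (nat_lit 76) (nat_lit 12682002259) (nat_lit 151) (nat_lit 5) (nat_lit 166) (nat_lit 5) (nat_lit 152) (nat_lit 5) (nat_lit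 285) (nat_lit 274) (nat_lit 161))))) (XT.nd (nat_lit 234) (nat_lit 1596) (nat_lit 0) (XT.nd (nat_lit 78) (nat_lit 532) (nat_lit 0) (XT.lf (nat_lit 0) (nat_lit 13127717384) (nat_lit 912) (nat_lit 14437968478) (nat_lit 76) (nat_lit 2071631338) (nat_lit 140) (nat_lit 5) (nat_lit 152) (nat_lit 5) (nat_lit 141) (nat_lit 5) (nat_lit 286) (nat_lit 274) (nat_lit 160)) (XT.nd (nat_lit 78) (nat_lit 0) (nat_lit 0) (XT.lf (nat_lit 0) (nat_lit 7616629061) (nat_lit 532) (nat_lit 9475621413) (nat_lit 608) (nat_lit 13390348770) (nat_lit 133) (nat_lit 5) (nat_lit 140) (nat_lit 5) (nat_lit 141) (nat_lit 5) (nat_lit 287) (nat_lit 274) (nat_lit 159)) (XT.lf (nat_lit 0) (nat_lit 21488685157) (nat_lit 608) (nat_lit 390515139) (nat_lit 76) (nat_lit 9483950825) (nat_lit 133) (nat_lit 5) (nat_lit 141) (nat_lit 5) (nat_lit 134) (nat_lit 5) (nat_lit 288) (nat_lit 274) (nat_lit 158)))) (XT.nd (nat_lit 78) (nat_lit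 1064) (nat_lit 0) (XT.lf (nat_lit 0) (nat_lit 23565761411) (nat_lit 532) (nat_lit 2853801097) (nat_lit 608) (nat_lit 5858744674) (nat_lit 126) (nat_lit 5) (nat_lit 133) (nat_lit 5) (nat_lit 134) (nat_lit 5) (nat_lit 289) (nat_lit 274) (nat_lit 157)) (XT.nd (nat_lit 78) (nat_lit 608) (nat_lit 0) (XT.lf (nat_lit 0) (nat_lit 15621922648) (nat_lit 456) (nat_lit 16286631872) (nat_lit 532) (nat_lit 1321333897) (nat_lit 120) (nat_lit 5) (nat_lit 126) (nat_lit 5) (nat_lit 127) (nat_lit 5) (nat_lit 290) (nat_lit 274) (nat_lit 156)) (XT.lf (nat_lit 0) (nat_lit 3592301605) (nat_lit 608) (nat_lit 27058253996) (nat_lit 76) (nat_lit 3571017488) (nat_lit 112) (nat_lit 5) (nat_lit 120) (nat_lit 5) (nat_lit 113) (nat_lit 5) (nat_lit 291) (nat_lit 274) (nat_lit 155))))))) (XT.nd (nat_lit 858) (nat_lit 1976) (nat_lit 0) (XT.nd (nat_lit 390) (nat_lit 1900) (nat_lit 0) (XT.nd (nat_lit 156) (nat_lit 836) (nat_lit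 0) (XT.nd (nat_lit 78) (nat_lit 456) (nat_lit 0) (XT.lf (nat_lit 0) (nat_lit 9065195231) (nat_lit 608) (nat_lit 1902949295) (nat_lit 76) (nat_lit 24284090650) (nat_lit 112) (nat_lit 5) (nat_lit 120) (nat_lit 5) (nat_lit 113) (nat_lit 5) (nat_lit 292) (nat_lit 274) (nat_lit 154)) (XT.lf (nat_lit 0) (nat_lit 15141098825) (nat_lit 532) (nat_lit 11432058370) (nat_lit 76) (nat_lit 9751404368) (nat_lit 106) (nat_lit 5) (nat_lit 113) (nat_lit 5) (nat_lit 107) (nat_lit 5) (nat_lit 293) (nat_lit 274) (nat_lit 153))) (XT.nd (nat_lit 78) (nat_lit 380) (nat_lit 0) (XT.lf (nat_lit 0) (nat_lit 15808347002) (nat_lit 456) (nat_lit 5988672609) (nat_lit 532) (nat_lit 15645209576) (nat_lit 100) (nat_lit 5) (nat_lit 106) (nat_lit 5) (nat_lit 107) (nat_lit 5) (nat_lit 294) (nat_lit 274) (nat_lit 152)) (XT.nd (nat_lit 78) (nat_lit 0) (nat_lit 0) (XT.lf (nat_lit 0) (nat_lit 5996265467) (nat_lit 380) (nat_lit 23110158350)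 (nat_lit 456) (nat_lit 9499746779) (nat_lit 95) (nat_lit 5) (nat_lit 100) (nat_lit 5) (nat_lit 101) (nat_lit 5) (nat_lit 295) (nat_lit 274) (nat_lit 151)) (XT.lf (nat_lit 0) (nat_lit 35391751813) (nat_lit 380) (nat_lit 1666324867) (nat_lit 456) (nat_lit 2761939543) (nat_lit 95) (nat_lit 5) (nat_lit 100) (nat_lit 5) (nat_lit 101) (nat_lit 5) (nat_lit 296) (nat_lit 274) (nat_lit 150))))) (XT.nd (nat_lit 234) (nat_lit 684) (nat_lit 0) (XT.nd (nat_lit 78) (nat_lit 760) (nat_lit 0) (XT.lf (nat_lit 0) (nat_lit 4672517291) (nat_lit 456) (nat_lit 15674940650) (nat_lit 76) (nat_lit 20732544692) (nat_lit 89) (nat_lit 5) (nat_lit 95) (nat_lit 5) (nat_lit 90) (nat_lit 5) (nat_lit 297) (nat_lit 274) (nat_lit 149)) (XT.nd (nat_lit 78) (nat_lit 380) (nat_lit 0) (XT.lf (nat_lit 0) (nat_lit 12640031570) (nat_lit 456) (nat_lit 27760355853) (nat_lit 76) (nat_lit 1995236138) (nat_lit 84) (nat_lit 5) (nat_lit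 90) (nat_lit 5) (nat_lit 85) (nat_lit 5) (nat_lit 298) (nat_lit 274) (nat_lit 148)) (XT.lf (nat_lit 0) (nat_lit 2858818425) (nat_lit 380) (nat_lit 18537730783) (nat_lit 456) (nat_lit 22368766303) (nat_lit 79) (nat_lit 5) (nat_lit 84) (nat_lit 5) (nat_lit 85) (nat_lit 5) (nat_lit 299) (nat_lit 274) (nat_lit 147)))) (XT.nd (nat_lit 78) (nat_lit 684) (nat_lit 0) (XT.lf (nat_lit 0) (nat_lit 30916953399) (nat_lit 456) (nat_lit 9657480702) (nat_lit 76) (nat_lit 4619284527) (nat_lit 79) (nat_lit 5) (nat_lit 85) (nat_lit 5) (nat_lit 80) (nat_lit 5) (nat_lit 300) (nat_lit 274) (nat_lit 146)) (XT.nd (nat_lit 78) (nat_lit 380) (nat_lit 0) (XT.lf (nat_lit 0) (nat_lit 23417823512) (nat_lit 304) (nat_lit 17902998757) (nat_lit 380) (nat_lit 5360504284) (nat_lit 75) (nat_lit 5) (nat_lit 79) (nat_lit 5) (nat_lit 80) (nat_lit 5) (nat_lit 301) (nat_lit 274) (nat_lit 145)) (XT.lf (nat_lit 0) (nat_lit 4176963773)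 (nat_lit 380) (nat_lit 38032163047) (nat_lit 76) (nat_lit 6025437100) (nat_lit 70) (nat_lit 5) (nat_lit 75) (nat_lit 5) (nat_lit 71) (nat_lit 5) (nat_lit 302) (nat_lit 274) (nat_lit 144)))))) (XT.nd (nat_lit 390) (nat_lit 1064) (nat_lit 0) (XT.nd (nat_lit 156) (nat_lit 608) (nat_lit 0) (XT.nd (nat_lit 78) (nat_lit 304) (nat_lit 0) (XT.lf (nat_lit 0) (nat_lit 14499523404) (nat_lit 380) (nat_lit 4273624366) (nat_lit 76) (nat_lit 31078157743) (nat_lit 70) (nat_lit 5) (nat_lit 75) (nat_lit 5) (nat_lit 71) (nat_lit 5) (nat_lit 303) (nat_lit 274) (nat_lit 143)) (XT.lf (nat_lit 0) (nat_lit 25698587963) (nat_lit 380) (nat_lit 19811448762) (nat_lit 76) (nat_lit 6028042850) (nat_lit 66) (nat_lit 5) (nat_lit 71) (nat_lit 5) (nat_lit 67) (nat_lit 5) (nat_lit 304) (nat_lit 274) (nat_lit 142))) (XT.nd (nat_lit 78) (nat_lit 304) (nat_lit 0) (XT.lf (nat_lit 0) (nat_lit 16433507968) (nat_lit 304) (nat_lit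 21411833526) (nat_lit 380) (nat_lit 15452225156) (nat_lit 62) (nat_lit 5) (nat_lit 66) (nat_lit 5) (nat_lit 67) (nat_lit 5) (nat_lit 305) (nat_lit 274) (nat_lit 141)) (XT.nd (nat_lit 78) (nat_lit 304) (nat_lit 0) (XT.lf (nat_lit 0) (nat_lit 50838786277) (nat_lit 380) (nat_lit 279156995) (nat_lit 76) (nat_lit 4019910275) (nat_lit 62) (nat_lit 5) (nat_lit 67) (nat_lit 5) (nat_lit 63) (nat_lit 5) (nat_lit 306) (nat_lit 274) (nat_lit 140)) (XT.lf (nat_lit 0) (nat_lit 7856890542) (nat_lit 304) (nat_lit 18461511566) (nat_lit 76) (nat_lit 30731927753) (nat_lit 58) (nat_lit 5) (nat_lit 62) (nat_lit 5) (nat_lit 59) (nat_lit 5) (nat_lit 307) (nat_lit 274) (nat_lit 139))))) (XT.nd (nat_lit 234) (nat_lit 532) (nat_lit 0) (XT.nd (nat_lit 78) (nat_lit 228) (nat_lit 0) (XT.lf (nat_lit 0) (nat_lit 20703052312) (nat_lit 304) (nat_lit 27691149) (nat_lit 380) (nat_lit 38320444675) (nat_lit 54) (nat_lit 5)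 (nat_lit 58) (nat_lit 5) (nat_lit 59) (nat_lit 5) (nat_lit 308) (nat_lit 274) (nat_lit 138)) (XT.nd (nat_lit 78) (nat_lit 0) (nat_lit 0) (XT.lf (nat_lit 0) (nat_lit 808907363) (nat_lit 228) (nat_lit 33900560939) (nat_lit 304) (nat_lit 26428790739) (nat_lit 51) (nat_lit 5) (nat_lit 54) (nat_lit 5) (nat_lit 55) (nat_lit 5) (nat_lit 309) (nat_lit 274) (nat_lit 137)) (XT.lf (nat_lit 0) (nat_lit 42719877491) (nat_lit 228) (nat_lit 7058797560) (nat_lit 304) (nat_lit 13539266924) (nat_lit 51) (nat_lit 5) (nat_lit 54) (nat_lit 5) (nat_lit 55) (nat_lit 5) (nat_lit 310) (nat_lit 274) (nat_lit 136)))) (XT.nd (nat_lit 78) (nat_lit 228) (nat_lit 0) (XT.lf (nat_lit 0) (nat_lit 403585035) (nat_lit 304) (nat_lit 44270376464) (nat_lit 76) (nat_lit 20920391089) (nat_lit 47) (nat_lit 5) (nat_lit 51) (nat_lit 5) (nat_lit 48) (nat_lit 5) (nat_lit 311) (nat_lit 274) (nat_lit 135)) (XT.nd (nat_lit 78) (nat_lit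 228) (nat_lit 0) (XT.lf (nat_lit 0) (nat_lit 15048292694) (nat_lit 304) (nat_lit 2420451169) (nat_lit 76) (nat_lit 50503280801) (nat_lit 47) (nat_lit 5) (nat_lit 51) (nat_lit 5) (nat_lit 48) (nat_lit 5) (nat_lit 312) (nat_lit 274) (nat_lit 134)) (XT.lf (nat_lit 0) (nat_lit 30939847692) (nat_lit 304) (nat_lit 28223460765) (nat_lit 76) (nat_lit 11289837598) (nat_lit 44) (nat_lit 5) (nat_lit 48) (nat_lit 5) (nat_lit 45) (nat_lit 5) (nat_lit 313) (nat_lit 274) (nat_lit 133))))))))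
noncomputable def xc107 : XT := (XT.nd (nat_lit 35256) (nat_lit 0) (nat_lit 2736) (XT.nd (nat_lit 858) (nat_lit 152) (nat_lit 0) (XT.nd (nat_lit 390) (nat_lit 532) (nat_lit 0) (XT.nd (nat_lit 156) (nat_lit 456) (nat_lit 0) (XT.nd (nat_lit 78) (nat_lit 0) (nat_lit 0) (XT.lf (nat_lit 0) (nat_lit 16241186609) (nat_lit 228) (nat_lit 31739378886) (nat_lit 304) (nat_lit 25067124345) (nat_lit 41) (nat_lit 5) (nat_lit 44) (nat_lit 5) (nat_lit 45) (nat_lit 5) (nat_lit 314) (nat_lit 274) (nat_lit 132)) (XT.lf (nat_lit 0) (nat_lit 63514475537) (nat_lit 228) (nat_lit 2646466206) (nat_lit 304) (nat_lit 9602394087) (nat_lit 41) (nat_lit 5) (nat_lit 44) (nat_lit 5) (nat_lit 45) (nat_lit 5) (nat_lit 315) (nat_lit 274) (nat_lit 131))) (XT.nd (nat_lit 78) (nat_lit 228) (nat_lit 0) (XT.lf (nat_lit 0) (nat_lit 7113377475) (nat_lit 228) (nat_lit 43720321892) (nat_lit 76) (nat_lit 27760935949) (nat_lit 38) (nat_lit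 5) (nat_lit 41) (nat_lit 5) (nat_lit 39) (nat_lit 5) (nat_lit 316) (nat_lit 274) (nat_lit 130)) (XT.nd (nat_lit 78) (nat_lit 0) (nat_lit 0) (XT.lf (nat_lit 0) (nat_lit 2974886715) (nat_lit 228) (nat_lit 21673227637) (nat_lit 304) (nat_lit 56911083410) (nat_lit 35) (nat_lit 5) (nat_lit 38) (nat_lit 5) (nat_lit 39) (nat_lit 5) (nat_lit 317) (nat_lit 274) (nat_lit 129)) (XT.lf (nat_lit 0) (nat_lit 43597446086) (nat_lit 304) (nat_lit 31834575487) (nat_lit 76) (nat_lit 9223834114) (nat_lit 35) (nat_lit 5) (nat_lit 39) (nat_lit 5) (nat_lit 36) (nat_lit 5) (nat_lit 318) (nat_lit 274) (nat_lit 128))))) (XT.nd (nat_lit 234) (nat_lit 152) (nat_lit 0) (XT.nd (nat_lit 78) (nat_lit 228) (nat_lit 0) (XT.lf (nat_lit 0) (nat_lit 17368892444) (nat_lit 152) (nat_lit 46508544024) (nat_lit 228) (nat_lit 24018417227) (nat_lit 33) (nat_lit 5) (nat_lit 35) (nat_lit 5) (nat_lit 36) (nat_lit 5) (nat_lit 319) (nat_lit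 274) (nat_lit 127)) (XT.nd (nat_lit 78) (nat_lit 228) (nat_lit 0) (XT.lf (nat_lit 0) (nat_lit 69693964528) (nat_lit 152) (nat_lit 15802732578) (nat_lit 228) (nat_lit 5791399184) (nat_lit 33) (nat_lit 5) (nat_lit 35) (nat_lit 5) (nat_lit 36) (nat_lit 5) (nat_lit 320) (nat_lit 274) (nat_lit 126)) (XT.lf (nat_lit 0) (nat_lit 13537045323) (nat_lit 228) (nat_lit 64756090872) (nat_lit 76) (nat_lit 16539452749) (nat_lit 30) (nat_lit 5) (nat_lit 33) (nat_lit 5) (nat_lit 31) (nat_lit 5) (nat_lit 321) (nat_lit 274) (nat_lit 125)))) (XT.nd (nat_lit 78) (nat_lit 152) (nat_lit 0) (XT.lf (nat_lit 0) (nat_lit 34094961852) (nat_lit 228) (nat_lit 13989518012) (nat_lit 76) (nat_lit 50456623877) (nat_lit 30) (nat_lit 5) (nat_lit 33) (nat_lit 5) (nat_lit 31) (nat_lit 5) (nat_lit 322) (nat_lit 274) (nat_lit 124)) (XT.nd (nat_lit 78) (nat_lit 0) (nat_lit 0) (XT.lf (nat_lit 0) (nat_lit 40094302916) (nat_lit 152)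 (nat_lit 15969708112) (nat_lit 228) (nat_lit 46359538501) (nat_lit 28) (nat_lit 5) (nat_lit 30) (nat_lit 5) (nat_lit 31) (nat_lit 5) (nat_lit 323) (nat_lit 274) (nat_lit 123)) (XT.lf (nat_lit 0) (nat_lit 79445464716) (nat_lit 228) (nat_lit 9496618766) (nat_lit 76) (nat_lit 17548617807) (nat_lit 28) (nat_lit 5) (nat_lit 31) (nat_lit 5) (nat_lit 29) (nat_lit 5) (nat_lit 324) (nat_lit 274) (nat_lit 122)))))) (XT.nd (nat_lit 33930) (nat_lit 0) (nat_lit 9348) (XT.nd (nat_lit 33696) (nat_lit 0) (nat_lit 10108) (XT.nd (nat_lit 33618) (nat_lit 0) (nat_lit 10108) (XT.lf (nat_lit 0) (nat_lit 46724970900) (nat_lit 152) (nat_lit 57879340941) (nat_lit 228) (nat_lit 6138651309) (nat_lit 26) (nat_lit 5) (nat_lit 28) (nat_lit 5) (nat_lit 29) (nat_lit 5) (nat_lit 325) (nat_lit 274) (nat_lit 121)) (XT.lf (nat_lit 0) (nat_lit 8065872824) (nat_lit 1140) (nat_lit 1655213772) (nat_lit 1140) (nat_lit 1655213772)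 (nat_lit 159) (nat_lit 3) (nat_lit 174) (nat_lit 3) (nat_lit 174) (nat_lit 5) (nat_lit 275) (nat_lit 275) (nat_lit 170))) (XT.nd (nat_lit 78) (nat_lit 0) (nat_lit 76) (XT.lf (nat_lit 76) (nat_lit 12983809695) (nat_lit 0) (nat_lit 3866403410) (nat_lit 1140) (nat_lit 6461328616) (nat_lit 160) (nat_lit 5) (nat_lit 159) (nat_lit 3) (nat_lit 174) (nat_lit 5) (nat_lit 276) (nat_lit 275) (nat_lit 169)) (XT.nd (nat_lit 78) (nat_lit 0) (nat_lit 76) (XT.lf (nat_lit 76) (nat_lit 6259427825) (nat_lit 0) (nat_lit 11547613323) (nat_lit 1140) (nat_lit 6085342299) (nat_lit 161) (nat_lit 5) (nat_lit 160) (nat_lit 5) (nat_lit 175) (nat_lit 5) (nat_lit 277) (nat_lit 275) (nat_lit 168)) (XT.lf (nat_lit 0) (nat_lit 18992097241) (nat_lit 1064) (nat_lit 700103143) (nat_lit 1140) (nat_lit 4804680810) (nat_lit 161) (nat_lit 5) (nat_lit 175) (nat_lit 5) (nat_lit 176) (nat_lit 5) (nat_lit 278) (nat_lit 275) (nat_lit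 167))))) (XT.nd (nat_lit 234) (nat_lit 912) (nat_lit 0) (XT.nd (nat_lit 78) (nat_lit 0) (nat_lit 76) (XT.lf (nat_lit 76) (nat_lit 17293544454) (nat_lit 0) (nat_lit 3214577552) (nat_lit 1140) (nat_lit 4615354665) (nat_lit 162) (nat_lit 5) (nat_lit 161) (nat_lit 5) (nat_lit 176) (nat_lit 5) (nat_lit 279) (nat_lit 275) (nat_lit 166)) (XT.nd (nat_lit 78) (nat_lit 0) (nat_lit 76) (XT.lf (nat_lit 76) (nat_lit 10482444831) (nat_lit 0) (nat_lit 11850387328) (nat_lit 1140) (nat_lit 3441606395) (nat_lit 163) (nat_lit 5) (nat_lit 162) (nat_lit 5) (nat_lit 177) (nat_lit 5) (nat_lit 280) (nat_lit 275) (nat_lit 165)) (XT.lf (nat_lit 76) (nat_lit 3392839602) (nat_lit 0) (nat_lit 21043855028) (nat_lit 1140) (nat_lit 2015638454) (nat_lit 164) (nat_lit 5) (nat_lit 163) (nat_lit 5) (nat_lit 178) (nat_lit 5) (nat_lit 281) (nat_lit 275) (nat_lit 164)))) (XT.nd (nat_lit 78) (nat_lit 1064) (nat_lit 0) (XT.lf (nat_lit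 76) (nat_lit 23202586180) (nat_lit 0) (nat_lit 3709333560) (nat_lit 1140) (nat_lit 244238522) (nat_lit 164) (nat_lit 5) (nat_lit 163) (nat_lit 5) (nat_lit 178) (nat_lit 5) (nat_lit 282) (nat_lit 275) (nat_lit 163)) (XT.nd (nat_lit 78) (nat_lit 0) (nat_lit 76) (XT.lf (nat_lit 0) (nat_lit 1873612952) (nat_lit 1140) (nat_lit 11625851924) (nat_lit 1216) (nat_lit 14386580994) (nat_lit 149) (nat_lit 5) (nat_lit 164) (nat_lit 5) (nat_lit 165) (nat_lit 5) (nat_lit 283) (nat_lit 275) (nat_lit 162)) (XT.lf (nat_lit 0) (nat_lit 4295019547) (nat_lit 1140) (nat_lit 19648411562) (nat_lit 1216) (nat_lit 4702861290) (nat_lit 150) (nat_lit 5) (nat_lit 165) (nat_lit 5) (nat_lit 166) (nat_lit 5) (nat_lit 284) (nat_lit 275) (nat_lit 161))))))) (XT.nd (nat_lit 858) (nat_lit 2888) (nat_lit 0) (XT.nd (nat_lit 390) (nat_lit 2508) (nat_lit 0) (XT.nd (nat_lit 156) (nat_lit 1292) (nat_lit 0) (XT.nd (nat_lit 78) (nat_lit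 0) (nat_lit 76) (XT.lf (nat_lit 76) (nat_lit 1336441333) (nat_lit 0) (nat_lit 5762466979) (nat_lit 1216) (nat_lit 22337818203) (nat_lit 151) (nat_lit 5) (nat_lit 150) (nat_lit 5) (nat_lit 166) (nat_lit 5) (nat_lit 285) (nat_lit 275) (nat_lit 160)) (XT.lf (nat_lit 0) (nat_lit 10367174334) (nat_lit 1140) (nat_lit 6616659799) (nat_lit 76) (nat_lit 13273139498) (nat_lit 151) (nat_lit 5) (nat_lit 166) (nat_lit 5) (nat_lit 152) (nat_lit 5) (nat_lit 286) (nat_lit 275) (nat_lit 159))) (XT.nd (nat_lit 78) (nat_lit 532) (nat_lit 0) (XT.lf (nat_lit 0) (nat_lit 14025886455) (nat_lit 912) (nat_lit 14940866507) (nat_lit 76) (nat_lit 2144685138) (nat_lit 140) (nat_lit 5) (nat_lit 152) (nat_lit 5) (nat_lit 141) (nat_lit 5) (nat_lit 287) (nat_lit 275) (nat_lit 158)) (XT.nd (nat_lit 78) (nat_lit 0) (nat_lit 0) (XT.lf (nat_lit 0) (nat_lit 8210183308) (nat_lit 532) (nat_lit 9968994228) (nat_lit 608) (nat_lit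 13820114173) (nat_lit 133) (nat_lit 5) (nat_lit 140) (nat_lit 5) (nat_lit 141) (nat_lit 5) (nat_lit 288) (nat_lit 275) (nat_lit 157)) (XT.lf (nat_lit 0) (nat_lit 22784191996) (nat_lit 608) (nat_lit 200185068) (nat_lit 76) (nat_lit 9939853663) (nat_lit 133) (nat_lit 5) (nat_lit 141) (nat_lit 5) (nat_lit 134) (nat_lit 5) (nat_lit 289) (nat_lit 275) (nat_lit 156))))) (XT.nd (nat_lit 234) (nat_lit 912) (nat_lit 0) (XT.nd (nat_lit 78) (nat_lit 1064) (nat_lit 0) (XT.lf (nat_lit 0) (nat_lit 24947889834) (nat_lit 532) (nat_lit 3005155553) (nat_lit 608) (nat_lit 5932377467) (nat_lit 126) (nat_lit 5) (nat_lit 133) (nat_lit 5) (nat_lit 134) (nat_lit 5) (nat_lit 290) (nat_lit 275) (nat_lit 155)) (XT.nd (nat_lit 78) (nat_lit 608) (nat_lit 0) (XT.lf (nat_lit 0) (nat_lit 16607701767) (nat_lit 456) (nat_lit 17100554175) (nat_lit 532) (nat_lit 1176594356) (nat_lit 120) (nat_lit 5) (nat_lit 126) (nat_lit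 5) (nat_lit 127) (nat_lit 5) (nat_lit 291) (nat_lit 275) (nat_lit 154)) (XT.lf (nat_lit 0) (nat_lit 3970762233) (nat_lit 608) (nat_lit 28201678165) (nat_lit 76) (nat_lit 3753872120) (nat_lit 112) (nat_lit 5) (nat_lit 120) (nat_lit 5) (nat_lit 113) (nat_lit 5) (nat_lit 292) (nat_lit 275) (nat_lit 153)))) (XT.nd (nat_lit 78) (nat_lit 912) (nat_lit 0) (XT.lf (nat_lit 0) (nat_lit 9707831704) (nat_lit 608) (nat_lit 1798583873) (nat_lit 76) (nat_lit 25502393999) (nat_lit 112) (nat_lit 5) (nat_lit 120) (nat_lit 5) (nat_lit 113) (nat_lit 5) (nat_lit 293) (nat_lit 275) (nat_lit 152)) (XT.nd (nat_lit 78) (nat_lit 456) (nat_lit 0) (XT.lf (nat_lit 0) (nat_lit 16080486644) (nat_lit 532) (nat_lit 11804172888) (nat_lit 76) (nat_lit 10250321021) (nat_lit 106) (nat_lit 5) (nat_lit 113) (nat_lit 5) (nat_lit 107) (nat_lit 5) (nat_lit 294) (nat_lit 275) (nat_lit 151)) (XT.lf (nat_lit 0) (nat_lit 16792534458)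 (nat_lit 456) (nat_lit 6269849130) (nat_lit 532) (nat_lit 16246368714) (nat_lit 100) (nat_lit 5) (nat_lit 106) (nat_lit 5) (nat_lit 107) (nat_lit 5) (nat_lit 295) (nat_lit 275) (nat_lit 150)))))) (XT.nd (nat_lit 390) (nat_lit 1292) (nat_lit 0) (XT.nd (nat_lit 156) (nat_lit 1216) (nat_lit 0) (XT.nd (nat_lit 78) (nat_lit 0) (nat_lit 0) (XT.lf (nat_lit 0) (nat_lit 6489552153) (nat_lit 380) (nat_lit 24241375016) (nat_lit 456) (nat_lit 9800168917) (nat_lit 95) (nat_lit 5) (nat_lit 100) (nat_lit 5) (nat_lit 101) (nat_lit 5) (nat_lit 296) (nat_lit 275) (nat_lit 149)) (XT.lf (nat_lit 0) (nat_lit 37345599796) (nat_lit 380) (nat_lit 1726506586) (nat_lit 456) (nat_lit 2733783947) (nat_lit 95) (nat_lit 5) (nat_lit 100) (nat_lit 5) (nat_lit 101) (nat_lit 5) (nat_lit 297) (nat_lit 275) (nat_lit 148))) (XT.nd (nat_lit 78) (nat_lit 760) (nat_lit 0) (XT.lf (nat_lit 0) (nat_lit 5063386860) (nat_lit 456) (nat_lit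 16271545024) (nat_lit 76) (nat_lit 21794082716) (nat_lit 89) (nat_lit 5) (nat_lit 95) (nat_lit 5) (nat_lit 90) (nat_lit 5) (nat_lit 298) (nat_lit 275) (nat_lit 147)) (XT.nd (nat_lit 78) (nat_lit 380) (nat_lit 0) (XT.lf (nat_lit 0) (nat_lit 13423827442) (nat_lit 456) (nat_lit 28962083361) (nat_lit 76) (nat_lit 2124682150) (nat_lit 84) (nat_lit 5) (nat_lit 90) (nat_lit 5) (nat_lit 85) (nat_lit 5) (nat_lit 299) (nat_lit 275) (nat_lit 146)) (XT.lf (nat_lit 0) (nat_lit 3182709658) (nat_lit 380) (nat_lit 19429972410) (nat_lit 456) (nat_lit 23336264384) (nat_lit 79) (nat_lit 5) (nat_lit 84) (nat_lit 5) (nat_lit 85) (nat_lit 5) (nat_lit 300) (nat_lit 275) (nat_lit 145))))) (XT.nd (nat_lit 234) (nat_lit 608) (nat_lit 0) (XT.nd (nat_lit 78) (nat_lit 684) (nat_lit 0) (XT.lf (nat_lit 0) (nat_lit 32602456714) (nat_lit 456) (nat_lit 9963924148) (nat_lit 76) (nat_lit 4882600053) (nat_lit 79) (nat_lit 5)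 (nat_lit 85) (nat_lit 5) (nat_lit 80) (nat_lit 5) (nat_lit 301) (nat_lit 275) (nat_lit 144)) (XT.nd (nat_lit 78) (nat_lit 380) (nat_lit 0) (XT.lf (nat_lit 0) (nat_lit 24760087928) (nat_lit 304) (nat_lit 18761428174) (nat_lit 380) (nat_lit 5489614363) (nat_lit 75) (nat_lit 5) (nat_lit 79) (nat_lit 5) (nat_lit 80) (nat_lit 5) (nat_lit 302) (nat_lit 275) (nat_lit 143)) (XT.lf (nat_lit 0) (nat_lit 4517522769) (nat_lit 380) (nat_lit 39760685623) (nat_lit 76) (nat_lit 6363926360) (nat_lit 70) (nat_lit 5) (nat_lit 75) (nat_lit 5) (nat_lit 71) (nat_lit 5) (nat_lit 303) (nat_lit 275) (nat_lit 142)))) (XT.nd (nat_lit 78) (nat_lit 608) (nat_lit 0) (XT.lf (nat_lit 0) (nat_lit 15349938438) (nat_lit 380) (nat_lit 4322462178) (nat_lit 76) (nat_lit 32667510778) (nat_lit 70) (nat_lit 5) (nat_lit 75) (nat_lit 5) (nat_lit 71) (nat_lit 5) (nat_lit 304) (nat_lit 275) (nat_lit 141)) (XT.nd (nat_lit 78) (nat_lit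 304) (nat_lit 0) (XT.lf (nat_lit 0) (nat_lit 27104898083) (nat_lit 380) (nat_lit 20638461954) (nat_lit 76) (nat_lit 6367795212) (nat_lit 66) (nat_lit 5) (nat_lit 71) (nat_lit 5) (nat_lit 67) (nat_lit 5) (nat_lit 305) (nat_lit 275) (nat_lit 140)) (XT.lf (nat_lit 0) (nat_lit 17414054220) (nat_lit 304) (nat_lit 22440682199) (nat_lit 380) (nat_lit 16104016742) (nat_lit 62) (nat_lit 5) (nat_lit 66) (nat_lit 5) (nat_lit 67) (nat_lit 5) (nat_lit 306) (nat_lit 275) (nat_lit 139))))))))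
noncomputable def xc108 : XT := (XT.nd (nat_lit 35412) (nat_lit 0) (nat_lit 3876) (XT.nd (nat_lit 858) (nat_lit 760) (nat_lit 0) (XT.nd (nat_lit 390) (nat_lit 988) (nat_lit 0) (XT.nd (nat_lit 156) (nat_lit 532) (nat_lit 0) (XT.nd (nat_lit 78) (nat_lit 304) (nat_lit 0) (XT.lf (nat_lit 0) (nat_lit 53492658077) (nat_lit 380) (nat_lit 138675402) (nat_lit 76) (nat_lit 4259885261) (nat_lit 62) (nat_lit 5) (nat_lit 67) (nat_lit 5) (nat_lit 63) (nat_lit 5) (nat_lit 307) (nat_lit 275) (nat_lit 138)) (XT.lf (nat_lit 0) (nat_lit 8359007481) (nat_lit 304) (nat_lit 19232243206) (nat_lit 76) (nat_lit 32308160758) (nat_lit 58) (nat_lit 5) (nat_lit 62) (nat_lit 5) (nat_lit 59) (nat_lit 5) (nat_lit 308) (nat_lit 275) (nat_lit 137))) (XT.nd (nat_lit 78) (nat_lit 228) (nat_lit 0) (XT.lf (nat_lit 0) (nat_lit 21872900949) (nat_lit 380) (nat_lit 40114380475) (nat_lit 76) (nat_lit 13148237) (nat_lit 54) (nat_lit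 5) (nat_lit 59) (nat_lit 5) (nat_lit 55) (nat_lit 5) (nat_lit 309) (nat_lit 275) (nat_lit 136)) (XT.nd (nat_lit 78) (nat_lit 0) (nat_lit 0) (XT.lf (nat_lit 0) (nat_lit 995910358) (nat_lit 228) (nat_lit 35551297121) (nat_lit 304) (nat_lit 27644754378) (nat_lit 51) (nat_lit 5) (nat_lit 54) (nat_lit 5) (nat_lit 55) (nat_lit 5) (nat_lit 310) (nat_lit 275) (nat_lit 135)) (XT.lf (nat_lit 0) (nat_lit 44995450057) (nat_lit 228) (nat_lit 7369554710) (nat_lit 304) (nat_lit 14115777034) (nat_lit 51) (nat_lit 5) (nat_lit 54) (nat_lit 5) (nat_lit 55) (nat_lit 5) (nat_lit 311) (nat_lit 275) (nat_lit 134))))) (XT.nd (nat_lit 234) (nat_lit 456) (nat_lit 0) (XT.nd (nat_lit 78) (nat_lit 228) (nat_lit 0) (XT.lf (nat_lit 0) (nat_lit 519298340) (nat_lit 304) (nat_lit 46343715310) (nat_lit 76) (nat_lit 22008065355) (nat_lit 47) (nat_lit 5) (nat_lit 51) (nat_lit 5) (nat_lit 48) (nat_lit 5) (nat_lit 312) (nat_lit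 275) (nat_lit 133)) (XT.nd (nat_lit 78) (nat_lit 228) (nat_lit 0) (XT.lf (nat_lit 0) (nat_lit 15891692141) (nat_lit 304) (nat_lit 2407968987) (nat_lit 76) (nat_lit 53068115995) (nat_lit 47) (nat_lit 5) (nat_lit 51) (nat_lit 5) (nat_lit 48) (nat_lit 5) (nat_lit 313) (nat_lit 275) (nat_lit 132)) (XT.lf (nat_lit 0) (nat_lit 32575140428) (nat_lit 304) (nat_lit 29502607042) (nat_lit 76) (nat_lit 11895293325) (nat_lit 44) (nat_lit 5) (nat_lit 48) (nat_lit 5) (nat_lit 45) (nat_lit 5) (nat_lit 314) (nat_lit 275) (nat_lit 131)))) (XT.nd (nat_lit 78) (nat_lit 228) (nat_lit 0) (XT.lf (nat_lit 0) (nat_lit 17181488180) (nat_lit 228) (nat_lit 33283433905) (nat_lit 304) (nat_lit 26232484252) (nat_lit 41) (nat_lit 5) (nat_lit 44) (nat_lit 5) (nat_lit 45) (nat_lit 5) (nat_lit 315) (nat_lit 275) (nat_lit 130)) (XT.nd (nat_lit 78) (nat_lit 228) (nat_lit 0) (XT.lf (nat_lit 0) (nat_lit 66812334781) (nat_lit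 228) (nat_lit 2737919111) (nat_lit 304) (nat_lit 9998707782) (nat_lit 41) (nat_lit 5) (nat_lit 44) (nat_lit 5) (nat_lit 45) (nat_lit 5) (nat_lit 316) (nat_lit 275) (nat_lit 129)) (XT.lf (nat_lit 0) (nat_lit 7548853914) (nat_lit 228) (nat_lit 45783933445) (nat_lit 76) (nat_lit 29189090262) (nat_lit 38) (nat_lit 5) (nat_lit 41) (nat_lit 5) (nat_lit 39) (nat_lit 5) (nat_lit 317) (nat_lit 275) (nat_lit 128)))))) (XT.nd (nat_lit 390) (nat_lit 152) (nat_lit 0) (XT.nd (nat_lit 156) (nat_lit 380) (nat_lit 0) (XT.nd (nat_lit 78) (nat_lit 0) (nat_lit 0) (XT.lf (nat_lit 0) (nat_lit 3242526890) (nat_lit 228) (nat_lit 22715143284) (nat_lit 304) (nat_lit 59677082274) (nat_lit 35) (nat_lit 5) (nat_lit 38) (nat_lit 5) (nat_lit 39) (nat_lit 5) (nat_lit 318) (nat_lit 275) (nat_lit 127)) (XT.lf (nat_lit 0) (nat_lit 45851176858) (nat_lit 304) (nat_lit 33311161637) (nat_lit 76) (nat_lit 9724007843) (nat_lit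 35) (nat_lit 5) (nat_lit 39) (nat_lit 5) (nat_lit 36) (nat_lit 5) (nat_lit 319) (nat_lit 275) (nat_lit 126))) (XT.nd (nat_lit 78) (nat_lit 228) (nat_lit 0) (XT.lf (nat_lit 0) (nat_lit 18349179150) (nat_lit 152) (nat_lit 48793545633) (nat_lit 228) (nat_lit 25145696836) (nat_lit 33) (nat_lit 5) (nat_lit 35) (nat_lit 5) (nat_lit 36) (nat_lit 5) (nat_lit 320) (nat_lit 275) (nat_lit 125)) (XT.nd (nat_lit 78) (nat_lit 228) (nat_lit 0) (XT.lf (nat_lit 0) (nat_lit 73285179025) (nat_lit 152) (nat_lit 16554368643) (nat_lit 228) (nat_lit 6010834617) (nat_lit 33) (nat_lit 5) (nat_lit 35) (nat_lit 5) (nat_lit 36) (nat_lit 5) (nat_lit 321) (nat_lit 275) (nat_lit 124)) (XT.lf (nat_lit 0) (nat_lit 14280765813) (nat_lit 228) (nat_lit 67887330556) (nat_lit 76) (nat_lit 17404043530) (nat_lit 30) (nat_lit 5) (nat_lit 33) (nat_lit 5) (nat_lit 31) (nat_lit 5) (nat_lit 322) (nat_lit 275) (nat_lit 123))))) (XT.nd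 (nat_lit 33930) (nat_lit 0) (nat_lit 9956) (XT.nd (nat_lit 78) (nat_lit 152) (nat_lit 0) (XT.lf (nat_lit 0) (nat_lit 35863393967) (nat_lit 228) (nat_lit 14587503571) (nat_lit 76) (nat_lit 53015281875) (nat_lit 30) (nat_lit 5) (nat_lit 33) (nat_lit 5) (nat_lit 31) (nat_lit 5) (nat_lit 323) (nat_lit 275) (nat_lit 122)) (XT.nd (nat_lit 33774) (nat_lit 0) (nat_lit 9956) (XT.lf (nat_lit 0) (nat_lit 42197599203) (nat_lit 152) (nat_lit 16731211449) (nat_lit 228) (nat_lit 48614002672) (nat_lit 28) (nat_lit 5) (nat_lit 30) (nat_lit 5) (nat_lit 31) (nat_lit 5) (nat_lit 324) (nat_lit 275) (nat_lit 121)) (XT.lf (nat_lit 0) (nat_lit 8656559820) (nat_lit 1140) (nat_lit 1641260742) (nat_lit 1140) (nat_lit 1641260742) (nat_lit 159) (nat_lit 3) (nat_lit 174) (nat_lit 3) (nat_lit 174) (nat_lit 5) (nat_lit 276) (nat_lit 276) (nat_lit 168)))) (XT.nd (nat_lit 78) (nat_lit 0) (nat_lit 76) (XT.lf (nat_lit 76)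 (nat_lit 13820883057) (nat_lit 0) (nat_lit 4230586471) (nat_lit 1140) (nat_lit 6414101610) (nat_lit 160) (nat_lit 5) (nat_lit 159) (nat_lit 3) (nat_lit 174) (nat_lit 5) (nat_lit 277) (nat_lit 276) (nat_lit 167)) (XT.nd (nat_lit 78) (nat_lit 0) (nat_lit 76) (XT.lf (nat_lit 76) (nat_lit 6767708484) (nat_lit 0) (nat_lit 12271660563) (nat_lit 1140) (nat_lit 6036626397) (nat_lit 161) (nat_lit 5) (nat_lit 160) (nat_lit 5) (nat_lit 175) (nat_lit 5) (nat_lit 278) (nat_lit 276) (nat_lit 166)) (XT.lf (nat_lit 0) (nat_lit 20266050668) (nat_lit 1064) (nat_lit 537273736) (nat_lit 1140) (nat_lit 4907958108) (nat_lit 161) (nat_lit 5) (nat_lit 175) (nat_lit 5) (nat_lit 176) (nat_lit 5) (nat_lit 279) (nat_lit 276) (nat_lit 165))))))) (XT.nd (nat_lit 858) (nat_lit 4104) (nat_lit 0) (XT.nd (nat_lit 390) (nat_lit 1140) (nat_lit 0) (XT.nd (nat_lit 156) (nat_lit 988) (nat_lit 0) (XT.nd (nat_lit 78) (nat_lit 0)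 (nat_lit 76) (XT.lf (nat_lit 76) (nat_lit 18350385353) (nat_lit 0) (nat_lit 3493893341) (nat_lit 1140) (nat_lit 4525370923) (nat_lit 162) (nat_lit 5) (nat_lit 161) (nat_lit 5) (nat_lit 176) (nat_lit 5) (nat_lit 280) (nat_lit 276) (nat_lit 164)) (XT.lf (nat_lit 76) (nat_lit 11204043883) (nat_lit 0) (nat_lit 12542195446) (nat_lit 1140) (nat_lit 3307372121) (nat_lit 163) (nat_lit 5) (nat_lit 162) (nat_lit 5) (nat_lit 177) (nat_lit 5) (nat_lit 281) (nat_lit 276) (nat_lit 163))) (XT.nd (nat_lit 78) (nat_lit 1140) (nat_lit 0) (XT.lf (nat_lit 76) (nat_lit 3764500137) (nat_lit 0) (nat_lit 22177696045) (nat_lit 1140) (nat_lit 1823628252) (nat_lit 164) (nat_lit 5) (nat_lit 163) (nat_lit 5) (nat_lit 178) (nat_lit 5) (nat_lit 282) (nat_lit 276) (nat_lit 162)) (XT.nd (nat_lit 78) (nat_lit 0) (nat_lit 76) (XT.lf (nat_lit 0) (nat_lit 21962104) (nat_lit 1140) (nat_lit 3950376612) (nat_lit 1216) (nat_lit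 24532930233) (nat_lit 148) (nat_lit 5) (nat_lit 163) (nat_lit 5) (nat_lit 164) (nat_lit 5) (nat_lit 283) (nat_lit 276) (nat_lit 161)) (XT.lf (nat_lit 0) (nat_lit 2228866729) (nat_lit 1140) (nat_lit 12005345607) (nat_lit 1216) (nat_lit 15037746793) (nat_lit 149) (nat_lit 5) (nat_lit 164) (nat_lit 5) (nat_lit 165) (nat_lit 5) (nat_lit 284) (nat_lit 276) (nat_lit 160))))) (XT.nd (nat_lit 234) (nat_lit 1292) (nat_lit 0) (XT.nd (nat_lit 78) (nat_lit 0) (nat_lit 0) (XT.lf (nat_lit 0) (nat_lit 4760243431) (nat_lit 1140) (nat_lit 20426243100) (nat_lit 1216) (nat_lit 4884090262) (nat_lit 150) (nat_lit 5) (nat_lit 165) (nat_lit 5) (nat_lit 166) (nat_lit 5) (nat_lit 285) (nat_lit 276) (nat_lit 159)) (XT.nd (nat_lit 78) (nat_lit 0) (nat_lit 76) (XT.lf (nat_lit 76) (nat_lit 1601987936) (nat_lit 0) (nat_lit 6092321679) (nat_lit 1216) (nat_lit 23206548085) (nat_lit 151) (nat_lit 5) (nat_lit 150) (nat_lit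 5) (nat_lit 166) (nat_lit 5) (nat_lit 286) (nat_lit 276) (nat_lit 158)) (XT.lf (nat_lit 0) (nat_lit 11114156613) (nat_lit 1140) (nat_lit 6750511051) (nat_lit 76) (nat_lit 13897827880) (nat_lit 151) (nat_lit 5) (nat_lit 166) (nat_lit 5) (nat_lit 152) (nat_lit 5) (nat_lit 287) (nat_lit 276) (nat_lit 157)))) (XT.nd (nat_lit 78) (nat_lit 532) (nat_lit 0) (XT.lf (nat_lit 0) (nat_lit 14946485269) (nat_lit 912) (nat_lit 15489270017) (nat_lit 76) (nat_lit 2224229810) (nat_lit 140) (nat_lit 5) (nat_lit 152) (nat_lit 5) (nat_lit 141) (nat_lit 5) (nat_lit 288) (nat_lit 276) (nat_lit 156)) (XT.nd (nat_lit 78) (nat_lit 0) (nat_lit 0) (XT.lf (nat_lit 0) (nat_lit 8813638317) (nat_lit 532) (nat_lit 10485214229) (nat_lit 608) (nat_lit 14293657718) (nat_lit 133) (nat_lit 5) (nat_lit 140) (nat_lit 5) (nat_lit 141) (nat_lit 5) (nat_lit 289) (nat_lit 276) (nat_lit 155)) (XT.lf (nat_lit 0) (nat_lit 24123920943)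 (nat_lit 608) (nat_lit 19848900) (nat_lit 76) (nat_lit 10420252511) (nat_lit 133) (nat_lit 5) (nat_lit 141) (nat_lit 5) (nat_lit 134) (nat_lit 5) (nat_lit 290) (nat_lit 276) (nat_lit 154)))))) (XT.nd (nat_lit 390) (nat_lit 2052) (nat_lit 0) (XT.nd (nat_lit 156) (nat_lit 1064) (nat_lit 0) (XT.nd (nat_lit 78) (nat_lit 456) (nat_lit 0) (XT.lf (nat_lit 0) (nat_lit 26380173534) (nat_lit 532) (nat_lit 3163272197) (nat_lit 608) (nat_lit 6030080747) (nat_lit 126) (nat_lit 5) (nat_lit 133) (nat_lit 5) (nat_lit 134) (nat_lit 5) (nat_lit 291) (nat_lit 276) (nat_lit 153)) (XT.lf (nat_lit 0) (nat_lit 17623740358) (nat_lit 456) (nat_lit 17955210645) (nat_lit 532) (nat_lit 1044216604) (nat_lit 120) (nat_lit 5) (nat_lit 126) (nat_lit 5) (nat_lit 127) (nat_lit 5) (nat_lit 292) (nat_lit 276) (nat_lit 152))) (XT.nd (nat_lit 78) (nat_lit 456) (nat_lit 0) (XT.lf (nat_lit 0) (nat_lit 4349659117) (nat_lit 608)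 (nat_lit 29421749800) (nat_lit 76) (nat_lit 3945469361) (nat_lit 112) (nat_lit 5) (nat_lit 120) (nat_lit 5) (nat_lit 113) (nat_lit 5) (nat_lit 293) (nat_lit 276) (nat_lit 151)) (XT.nd (nat_lit 78) (nat_lit 456) (nat_lit 0) (XT.lf (nat_lit 0) (nat_lit 10364993549) (nat_lit 608) (nat_lit 1707548998) (nat_lit 76) (nat_lit 26781231446) (nat_lit 112) (nat_lit 5) (nat_lit 120) (nat_lit 5) (nat_lit 113) (nat_lit 5) (nat_lit 294) (nat_lit 276) (nat_lit 150)) (XT.lf (nat_lit 0) (nat_lit 17049892272) (nat_lit 532) (nat_lit 12213439672) (nat_lit 76) (nat_lit 10773128624) (nat_lit 106) (nat_lit 5) (nat_lit 113) (nat_lit 5) (nat_lit 107) (nat_lit 5) (nat_lit 295) (nat_lit 276) (nat_lit 149))))) (XT.nd (nat_lit 234) (nat_lit 1216) (nat_lit 0) (XT.nd (nat_lit 78) (nat_lit 380) (nat_lit 0) (XT.lf (nat_lit 0) (nat_lit 17807916379) (nat_lit 456) (nat_lit 6566781850) (nat_lit 532) (nat_lit 16894422895) (nat_lit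 100) (nat_lit 5) (nat_lit 106) (nat_lit 5) (nat_lit 107) (nat_lit 5) (nat_lit 296) (nat_lit 276) (nat_lit 148)) (XT.nd (nat_lit 78) (nat_lit 0) (nat_lit 0) (XT.lf (nat_lit 0) (nat_lit 6989515849) (nat_lit 380) (nat_lit 25431410886) (nat_lit 456) (nat_lit 10131841579) (nat_lit 95) (nat_lit 5) (nat_lit 100) (nat_lit 5) (nat_lit 101) (nat_lit 5) (nat_lit 297) (nat_lit 276) (nat_lit 147)) (XT.lf (nat_lit 0) (nat_lit 39380009394) (nat_lit 380) (nat_lit 1791848219) (nat_lit 456) (nat_lit 2719677161) (nat_lit 95) (nat_lit 5) (nat_lit 100) (nat_lit 5) (nat_lit 101) (nat_lit 5) (nat_lit 298) (nat_lit 276) (nat_lit 146)))) (XT.nd (nat_lit 78) (nat_lit 760) (nat_lit 0) (XT.lf (nat_lit 0) (nat_lit 5459180877) (nat_lit 456) (nat_lit 16915378368) (nat_lit 76) (nat_lit 22906381672) (nat_lit 89) (nat_lit 5) (nat_lit 95) (nat_lit 5) (nat_lit 90) (nat_lit 5) (nat_lit 299) (nat_lit 276) (nat_lit 145)) (XT.nd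 (nat_lit 78) (nat_lit 380) (nat_lit 0) (XT.lf (nat_lit 0) (nat_lit 14232700713) (nat_lit 456) (nat_lit 30241216750) (nat_lit 76) (nat_lit 2257840707) (nat_lit 84) (nat_lit 5) (nat_lit 90) (nat_lit 5) (nat_lit 85) (nat_lit 5) (nat_lit 300) (nat_lit 276) (nat_lit 144)) (XT.lf (nat_lit 0) (nat_lit 3505972407) (nat_lit 380) (nat_lit 20370047075) (nat_lit 456) (nat_lit 24366170362) (nat_lit 79) (nat_lit 5) (nat_lit 84) (nat_lit 5) (nat_lit 85) (nat_lit 5) (nat_lit 301) (nat_lit 276) (nat_lit 143))))))))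
noncomputable def xc109 : XT := (XT.nd (nat_lit 1716) (nat_lit 0) (nat_lit 0) (XT.nd (nat_lit 858) (nat_lit 1596) (nat_lit 0) (XT.nd (nat_lit 390) (nat_lit 1140) (nat_lit 0) (XT.nd (nat_lit 156) (nat_lit 684) (nat_lit 0) (XT.nd (nat_lit 78) (nat_lit 304) (nat_lit 0) (XT.lf (nat_lit 0) (nat_lit 34359251337) (nat_lit 456) (nat_lit 10302092611) (nat_lit 76) (nat_lit 5156073638) (nat_lit 79) (nat_lit 5) (nat_lit 85) (nat_lit 5) (nat_lit 80) (nat_lit 5) (nat_lit 302) (nat_lit 276) (nat_lit 142)) (XT.lf (nat_lit 0) (nat_lit 26153532906) (nat_lit 304) (nat_lit 19666192989) (nat_lit 380) (nat_lit 5638094959) (nat_lit 75) (nat_lit 5) (nat_lit 79) (nat_lit 5) (nat_lit 80) (nat_lit 5) (nat_lit 303) (nat_lit 276) (nat_lit 141))) (XT.nd (nat_lit 78) (nat_lit 304) (nat_lit 0) (XT.lf (nat_lit 0) (nat_lit 4862864492) (nat_lit 380) (nat_lit 41591726185) (nat_lit 76) (nat_lit 6715879961) (nat_lit 70) (nat_lit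 5) (nat_lit 75) (nat_lit 5) (nat_lit 71) (nat_lit 5) (nat_lit 304) (nat_lit 276) (nat_lit 140)) (XT.nd (nat_lit 78) (nat_lit 304) (nat_lit 0) (XT.lf (nat_lit 0) (nat_lit 16231212107) (nat_lit 380) (nat_lit 4389067459) (nat_lit 76) (nat_lit 34333036110) (nat_lit 70) (nat_lit 5) (nat_lit 75) (nat_lit 5) (nat_lit 71) (nat_lit 5) (nat_lit 305) (nat_lit 276) (nat_lit 139)) (XT.lf (nat_lit 0) (nat_lit 28570238879) (nat_lit 380) (nat_lit 21522031993) (nat_lit 76) (nat_lit 6720969752) (nat_lit 66) (nat_lit 5) (nat_lit 71) (nat_lit 5) (nat_lit 67) (nat_lit 5) (nat_lit 306) (nat_lit 276) (nat_lit 138))))) (XT.nd (nat_lit 234) (nat_lit 532) (nat_lit 0) (XT.nd (nat_lit 78) (nat_lit 304) (nat_lit 0) (XT.lf (nat_lit 0) (nat_lit 18428857479) (nat_lit 304) (nat_lit 23524854175) (nat_lit 380) (nat_lit 16799630576) (nat_lit 62) (nat_lit 5) (nat_lit 66) (nat_lit 5) (nat_lit 67) (nat_lit 5) (nat_lit 307) (nat_lit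 276) (nat_lit 137)) (XT.nd (nat_lit 78) (nat_lit 304) (nat_lit 0) (XT.lf (nat_lit 0) (nat_lit 56268817045) (nat_lit 380) (nat_lit 5528044) (nat_lit 76) (nat_lit 4508235056) (nat_lit 62) (nat_lit 5) (nat_lit 67) (nat_lit 5) (nat_lit 63) (nat_lit 5) (nat_lit 308) (nat_lit 276) (nat_lit 136)) (XT.lf (nat_lit 0) (nat_lit 8876071155) (nat_lit 304) (nat_lit 20055674923) (nat_lit 76) (nat_lit 33959520377) (nat_lit 58) (nat_lit 5) (nat_lit 62) (nat_lit 5) (nat_lit 59) (nat_lit 5) (nat_lit 309) (nat_lit 276) (nat_lit 135)))) (XT.nd (nat_lit 78) (nat_lit 228) (nat_lit 0) (XT.lf (nat_lit 0) (nat_lit 23062600244) (nat_lit 380) (nat_lit 41983244490) (nat_lit 76) (nat_lit 51589388) (nat_lit 54) (nat_lit 5) (nat_lit 59) (nat_lit 5) (nat_lit 55) (nat_lit 5) (nat_lit 310) (nat_lit 276) (nat_lit 134)) (XT.nd (nat_lit 78) (nat_lit 0) (nat_lit 0) (XT.lf (nat_lit 0) (nat_lit 1178637963) (nat_lit 228) (nat_lit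 37288687950) (nat_lit 304) (nat_lit 28931322347) (nat_lit 51) (nat_lit 5) (nat_lit 54) (nat_lit 5) (nat_lit 55) (nat_lit 5) (nat_lit 311) (nat_lit 276) (nat_lit 133)) (XT.lf (nat_lit 0) (nat_lit 47371824548) (nat_lit 228) (nat_lit 7699771468) (nat_lit 304) (nat_lit 14730451839) (nat_lit 51) (nat_lit 5) (nat_lit 54) (nat_lit 5) (nat_lit 55) (nat_lit 5) (nat_lit 312) (nat_lit 276) (nat_lit 132)))))) (XT.nd (nat_lit 390) (nat_lit 836) (nat_lit 0) (XT.nd (nat_lit 156) (nat_lit 456) (nat_lit 0) (XT.nd (nat_lit 78) (nat_lit 0) (nat_lit 0) (XT.lf (nat_lit 0) (nat_lit 631915460) (nat_lit 304) (nat_lit 48533753704) (nat_lit 76) (nat_lit 23146250673) (nat_lit 47) (nat_lit 5) (nat_lit 51) (nat_lit 5) (nat_lit 48) (nat_lit 5) (nat_lit 313) (nat_lit 276) (nat_lit 131)) (XT.lf (nat_lit 0) (nat_lit 16768802655) (nat_lit 304) (nat_lit 2407274702) (nat_lit 76) (nat_lit 55757504700) (nat_lit 47) (nat_lit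 5) (nat_lit 51) (nat_lit 5) (nat_lit 48) (nat_lit 5) (nat_lit 314) (nat_lit 276) (nat_lit 130))) (XT.nd (nat_lit 78) (nat_lit 228) (nat_lit 0) (XT.lf (nat_lit 0) (nat_lit 34283988471) (nat_lit 304) (nat_lit 30857985229) (nat_lit 76) (nat_lit 12527213408) (nat_lit 44) (nat_lit 5) (nat_lit 48) (nat_lit 5) (nat_lit 45) (nat_lit 5) (nat_lit 315) (nat_lit 276) (nat_lit 129)) (XT.nd (nat_lit 78) (nat_lit 0) (nat_lit 0) (XT.lf (nat_lit 0) (nat_lit 18156882082) (nat_lit 228) (nat_lit 34908681406) (nat_lit 304) (nat_lit 27464293217) (nat_lit 41) (nat_lit 5) (nat_lit 44) (nat_lit 5) (nat_lit 45) (nat_lit 5) (nat_lit 316) (nat_lit 276) (nat_lit 128)) (XT.lf (nat_lit 0) (nat_lit 70263731990) (nat_lit 228) (nat_lit 2837744405) (nat_lit 304) (nat_lit 10422628650) (nat_lit 41) (nat_lit 5) (nat_lit 44) (nat_lit 5) (nat_lit 45) (nat_lit 5) (nat_lit 317) (nat_lit 276) (nat_lit 127))))) (XT.nd (nat_lit 234)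 (nat_lit 380) (nat_lit 0) (XT.nd (nat_lit 78) (nat_lit 228) (nat_lit 0) (XT.lf (nat_lit 0) (nat_lit 7998684425) (nat_lit 228) (nat_lit 47962105591) (nat_lit 76) (nat_lit 30684923473) (nat_lit 38) (nat_lit 5) (nat_lit 41) (nat_lit 5) (nat_lit 39) (nat_lit 5) (nat_lit 318) (nat_lit 276) (nat_lit 126)) (XT.nd (nat_lit 78) (nat_lit 0) (nat_lit 0) (XT.lf (nat_lit 0) (nat_lit 3512495266) (nat_lit 228) (nat_lit 23813035837) (nat_lit 304) (nat_lit 62588777379) (nat_lit 35) (nat_lit 5) (nat_lit 38) (nat_lit 5) (nat_lit 39) (nat_lit 5) (nat_lit 319) (nat_lit 276) (nat_lit 125)) (XT.lf (nat_lit 0) (nat_lit 48210727507) (nat_lit 304) (nat_lit 34872281964) (nat_lit 76) (nat_lit 10245566080) (nat_lit 35) (nat_lit 5) (nat_lit 39) (nat_lit 5) (nat_lit 36) (nat_lit 5) (nat_lit 320) (nat_lit 276) (nat_lit 124)))) (XT.nd (nat_lit 78) (nat_lit 228) (nat_lit 0) (XT.lf (nat_lit 0) (nat_lit 19368082175) (nat_lit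 152) (nat_lit 51196555711) (nat_lit 228) (nat_lit 26336186890) (nat_lit 33) (nat_lit 5) (nat_lit 35) (nat_lit 5) (nat_lit 36) (nat_lit 5) (nat_lit 321) (nat_lit 276) (nat_lit 123)) (XT.nd (nat_lit 78) (nat_lit 228) (nat_lit 0) (XT.lf (nat_lit 0) (nat_lit 77046051373) (nat_lit 152) (nat_lit 17347165928) (nat_lit 228) (nat_lit 6247762265) (nat_lit 33) (nat_lit 5) (nat_lit 35) (nat_lit 5) (nat_lit 36) (nat_lit 5) (nat_lit 322) (nat_lit 276) (nat_lit 122)) (XT.lf (nat_lit 0) (nat_lit 15055455554) (nat_lit 228) (nat_lit 71185039616) (nat_lit 76) (nat_lit 18308366471) (nat_lit 30) (nat_lit 5) (nat_lit 33) (nat_lit 5) (nat_lit 31) (nat_lit 5) (nat_lit 323) (nat_lit 276) (nat_lit 121))))))) (XT.nd (nat_lit 34632) (nat_lit 0) (nat_lit 5320) (XT.nd (nat_lit 34164) (nat_lit 0) (nat_lit 8968) (XT.nd (nat_lit 33930) (nat_lit 0) (nat_lit 9804) (XT.nd (nat_lit 33852) (nat_lit 0) (nat_lit 9804) (XT.lf (nat_lit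 0) (nat_lit 37714326952) (nat_lit 228) (nat_lit 15224824018) (nat_lit 76) (nat_lit 55698541935) (nat_lit 30) (nat_lit 5) (nat_lit 33) (nat_lit 5) (nat_lit 31) (nat_lit 5) (nat_lit 324) (nat_lit 276) (nat_lit 120)) (XT.lf (nat_lit 0) (nat_lit 9259359108) (nat_lit 1140) (nat_lit 1635601586) (nat_lit 1140) (nat_lit 1635601586) (nat_lit 159) (nat_lit 3) (nat_lit 174) (nat_lit 3) (nat_lit 174) (nat_lit 5) (nat_lit 277) (nat_lit 277) (nat_lit 166))) (XT.nd (nat_lit 78) (nat_lit 0) (nat_lit 76) (XT.lf (nat_lit 76) (nat_lit 14682342518) (nat_lit 0) (nat_lit 4597093474) (nat_lit 1140) (nat_lit 6398939627) (nat_lit 160) (nat_lit 5) (nat_lit 159) (nat_lit 3) (nat_lit 174) (nat_lit 5) (nat_lit 278) (nat_lit 277) (nat_lit 165)) (XT.nd (nat_lit 78) (nat_lit 0) (nat_lit 76) (XT.lf (nat_lit 76) (nat_lit 7283245172) (nat_lit 0) (nat_lit 13018274496) (nat_lit 1140) (nat_lit 6018291714) (nat_lit 161) (nat_lit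 5) (nat_lit 160) (nat_lit 5) (nat_lit 175) (nat_lit 5) (nat_lit 279) (nat_lit 277) (nat_lit 164)) (XT.lf (nat_lit 0) (nat_lit 21573546910) (nat_lit 1064) (nat_lit 384695640) (nat_lit 1140) (nat_lit 5029132210) (nat_lit 161) (nat_lit 5) (nat_lit 175) (nat_lit 5) (nat_lit 176) (nat_lit 5) (nat_lit 280) (nat_lit 277) (nat_lit 163))))) (XT.nd (nat_lit 234) (nat_lit 988) (nat_lit 0) (XT.nd (nat_lit 78) (nat_lit 0) (nat_lit 76) (XT.lf (nat_lit 76) (nat_lit 19442202740) (nat_lit 0) (nat_lit 3776149834) (nat_lit 1140) (nat_lit 4460708426) (nat_lit 162) (nat_lit 5) (nat_lit 161) (nat_lit 5) (nat_lit 176) (nat_lit 5) (nat_lit 281) (nat_lit 277) (nat_lit 162)) (XT.nd (nat_lit 78) (nat_lit 0) (nat_lit 76) (XT.lf (nat_lit 76) (nat_lit 11943363366) (nat_lit 0) (nat_lit 13259363043) (nat_lit 1140) (nat_lit 3194904360) (nat_lit 163) (nat_lit 5) (nat_lit 162) (nat_lit 5) (nat_lit 177) (nat_lit 5) (nat_lit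 282) (nat_lit 277) (nat_lit 161)) (XT.lf (nat_lit 76) (nat_lit 4135961927) (nat_lit 0) (nat_lit 23360638231) (nat_lit 1140) (nat_lit 1649238577) (nat_lit 164) (nat_lit 5) (nat_lit 163) (nat_lit 5) (nat_lit 178) (nat_lit 5) (nat_lit 283) (nat_lit 277) (nat_lit 160)))) (XT.nd (nat_lit 78) (nat_lit 0) (nat_lit 76) (XT.lf (nat_lit 0) (nat_lit 271049580) (nat_lit 1140) (nat_lit 3967932708) (nat_lit 1216) (nat_lit 25683594390) (nat_lit 148) (nat_lit 5) (nat_lit 163) (nat_lit 5) (nat_lit 164) (nat_lit 5) (nat_lit 284) (nat_lit 277) (nat_lit 159)) (XT.nd (nat_lit 78) (nat_lit 0) (nat_lit 76) (XT.lf (nat_lit 0) (nat_lit 2577564605) (nat_lit 1140) (nat_lit 12422575325) (nat_lit 1216) (nat_lit 15727808056) (nat_lit 149) (nat_lit 5) (nat_lit 164) (nat_lit 5) (nat_lit 165) (nat_lit 5) (nat_lit 285) (nat_lit 277) (nat_lit 158)) (XT.lf (nat_lit 0) (nat_lit 5225441913) (nat_lit 1140) (nat_lit 21261986965)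 (nat_lit 1216) (nat_lit 5079393104) (nat_lit 150) (nat_lit 5) (nat_lit 165) (nat_lit 5) (nat_lit 166) (nat_lit 5) (nat_lit 286) (nat_lit 277) (nat_lit 157)))))) (XT.nd (nat_lit 390) (nat_lit 1976) (nat_lit 0) (XT.nd (nat_lit 156) (nat_lit 1824) (nat_lit 0) (XT.nd (nat_lit 78) (nat_lit 0) (nat_lit 76) (XT.lf (nat_lit 76) (nat_lit 1862336345) (nat_lit 0) (nat_lit 6434789329) (nat_lit 1216) (nat_lit 24141786120) (nat_lit 151) (nat_lit 5) (nat_lit 150) (nat_lit 5) (nat_lit 166) (nat_lit 5) (nat_lit 287) (nat_lit 277) (nat_lit 156)) (XT.lf (nat_lit 0) (nat_lit 11877232754) (nat_lit 1140) (nat_lit 6909368361) (nat_lit 76) (nat_lit 14557373612) (nat_lit 151) (nat_lit 5) (nat_lit 166) (nat_lit 5) (nat_lit 152) (nat_lit 5) (nat_lit 288) (nat_lit 277) (nat_lit 155))) (XT.nd (nat_lit 78) (nat_lit 1064) (nat_lit 0) (XT.lf (nat_lit 0) (nat_lit 15892725171) (nat_lit 912) (nat_lit 16083561351) (nat_lit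 76) (nat_lit 2310326031) (nat_lit 140) (nat_lit 5) (nat_lit 152) (nat_lit 5) (nat_lit 141) (nat_lit 5) (nat_lit 289) (nat_lit 277) (nat_lit 154)) (XT.nd (nat_lit 78) (nat_lit 532) (nat_lit 0) (XT.lf (nat_lit 0) (nat_lit 9429327801) (nat_lit 532) (nat_lit 11025593117) (nat_lit 608) (nat_lit 14811096011) (nat_lit 133) (nat_lit 5) (nat_lit 140) (nat_lit 5) (nat_lit 141) (nat_lit 5) (nat_lit 290) (nat_lit 277) (nat_lit 153)) (XT.lf (nat_lit 0) (nat_lit 154828831) (nat_lit 532) (nat_lit 25358653427) (nat_lit 608) (nat_lit 10772873516) (nat_lit 126) (nat_lit 5) (nat_lit 133) (nat_lit 5) (nat_lit 134) (nat_lit 5) (nat_lit 291) (nat_lit 277) (nat_lit 152))))) (XT.nd (nat_lit 234) (nat_lit 912) (nat_lit 0) (XT.nd (nat_lit 78) (nat_lit 1064) (nat_lit 0) (XT.lf (nat_lit 0) (nat_lit 27866882174) (nat_lit 532) (nat_lit 3328564031) (nat_lit 608) (nat_lit 6151162478) (nat_lit 126) (nat_lit 5) (nat_lit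 133) (nat_lit 5) (nat_lit 134) (nat_lit 5) (nat_lit 292) (nat_lit 277) (nat_lit 151)) (XT.nd (nat_lit 78) (nat_lit 608) (nat_lit 0) (XT.lf (nat_lit 0) (nat_lit 18673320576) (nat_lit 456) (nat_lit 18852634453) (nat_lit 532) (nat_lit 922996622) (nat_lit 120) (nat_lit 5) (nat_lit 126) (nat_lit 5) (nat_lit 127) (nat_lit 5) (nat_lit 293) (nat_lit 277) (nat_lit 150)) (XT.lf (nat_lit 0) (nat_lit 4730732796) (nat_lit 608) (nat_lit 30720490558) (nat_lit 76) (nat_lit 4146283541) (nat_lit 112) (nat_lit 5) (nat_lit 120) (nat_lit 5) (nat_lit 113) (nat_lit 5) (nat_lit 294) (nat_lit 277) (nat_lit 149)))) (XT.nd (nat_lit 78) (nat_lit 912) (nat_lit 0) (XT.lf (nat_lit 0) (nat_lit 11039043916) (nat_lit 608) (nat_lit 1628786702) (nat_lit 76) (nat_lit 28123665125) (nat_lit 112) (nat_lit 5) (nat_lit 120) (nat_lit 5) (nat_lit 113) (nat_lit 5) (nat_lit 295) (nat_lit 277) (nat_lit 148)) (XT.nd (nat_lit 78) (nat_lit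 456) (nat_lit 0) (XT.lf (nat_lit 0) (nat_lit 18052392595) (nat_lit 532) (nat_lit 12659992054) (nat_lit 76) (nat_lit 11321119795) (nat_lit 106) (nat_lit 5) (nat_lit 113) (nat_lit 5) (nat_lit 107) (nat_lit 5) (nat_lit 296) (nat_lit 277) (nat_lit 147)) (XT.lf (nat_lit 0) (nat_lit 18857727344) (nat_lit 456) (nat_lit 6880100774) (nat_lit 532) (nat_lit 17590151519) (nat_lit 100) (nat_lit 5) (nat_lit 106) (nat_lit 5) (nat_lit 107) (nat_lit 5) (nat_lit 297) (nat_lit 277) (nat_lit 146))))))))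
noncomputable def xc110 : XT := (XT.nd (nat_lit 1716) (nat_lit 608) (nat_lit 0) (XT.nd (nat_lit 858) (nat_lit 1824) (nat_lit 0) (XT.nd (nat_lit 390) (nat_lit 1292) (nat_lit 0) (XT.nd (nat_lit 156) (nat_lit 1216) (nat_lit 0) (XT.nd (nat_lit 78) (nat_lit 0) (nat_lit 0) (XT.lf (nat_lit 0) (nat_lit 7498162696) (nat_lit 380) (nat_lit 26682996958) (nat_lit 456) (nat_lit 10494818435) (nat_lit 95) (nat_lit 5) (nat_lit 100) (nat_lit 5) (nat_lit 101) (nat_lit 5) (nat_lit 298) (nat_lit 277) (nat_lit 145)) (XT.lf (nat_lit 0) (nat_lit 41500601345) (nat_lit 380) (nat_lit 1862407799) (nat_lit 456) (nat_lit 2718884616) (nat_lit 95) (nat_lit 5) (nat_lit 100) (nat_lit 5) (nat_lit 101) (nat_lit 5) (nat_lit 299) (nat_lit 277) (nat_lit 144))) (XT.nd (nat_lit 78) (nat_lit 760) (nat_lit 0) (XT.lf (nat_lit 0) (nat_lit 5861504706) (nat_lit 456) (nat_lit 17607184558) (nat_lit 76) (nat_lit 24072194923) (nat_lit 89)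 (nat_lit 5) (nat_lit 95) (nat_lit 5) (nat_lit 90) (nat_lit 5) (nat_lit 300) (nat_lit 277) (nat_lit 143)) (XT.nd (nat_lit 78) (nat_lit 380) (nat_lit 0) (XT.lf (nat_lit 0) (nat_lit 15069217290) (nat_lit 456) (nat_lit 31600016109) (nat_lit 76) (nat_lit 2395154012) (nat_lit 84) (nat_lit 5) (nat_lit 90) (nat_lit 5) (nat_lit 85) (nat_lit 5) (nat_lit 301) (nat_lit 277) (nat_lit 142)) (XT.lf (nat_lit 0) (nat_lit 3830139296) (nat_lit 380) (nat_lit 21360046974) (nat_lit 456) (nat_lit 25460299976) (nat_lit 79) (nat_lit 5) (nat_lit 84) (nat_lit 5) (nat_lit 85) (nat_lit 5) (nat_lit 302) (nat_lit 277) (nat_lit 141))))) (XT.nd (nat_lit 234) (nat_lit 608) (nat_lit 0) (XT.nd (nat_lit 78) (nat_lit 684) (nat_lit 0) (XT.lf (nat_lit 0) (nat_lit 36192108948) (nat_lit 456) (nat_lit 10672047360) (nat_lit 76) (nat_lit 5440492814) (nat_lit 79) (nat_lit 5) (nat_lit 85) (nat_lit 5) (nat_lit 80) (nat_lit 5) (nat_lit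 303) (nat_lit 277) (nat_lit 140)) (XT.nd (nat_lit 78) (nat_lit 380) (nat_lit 0) (XT.lf (nat_lit 0) (nat_lit 27602198741) (nat_lit 304) (nat_lit 20619292575) (nat_lit 380) (nat_lit 5805713882) (nat_lit 75) (nat_lit 5) (nat_lit 79) (nat_lit 5) (nat_lit 80) (nat_lit 5) (nat_lit 304) (nat_lit 277) (nat_lit 139)) (XT.lf (nat_lit 0) (nat_lit 5214366523) (nat_lit 380) (nat_lit 43528914562) (nat_lit 76) (nat_lit 7082292810) (nat_lit 70) (nat_lit 5) (nat_lit 75) (nat_lit 5) (nat_lit 71) (nat_lit 5) (nat_lit 305) (nat_lit 277) (nat_lit 138)))) (XT.nd (nat_lit 78) (nat_lit 608) (nat_lit 0) (XT.lf (nat_lit 0) (nat_lit 17145971575) (nat_lit 380) (nat_lit 4472903755) (nat_lit 76) (nat_lit 36078848726) (nat_lit 70) (nat_lit 5) (nat_lit 75) (nat_lit 5) (nat_lit 71) (nat_lit 5) (nat_lit 306) (nat_lit 277) (nat_lit 137)) (XT.nd (nat_lit 78) (nat_lit 304) (nat_lit 0) (XT.lf (nat_lit 0) (nat_lit 30098611042)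 (nat_lit 380) (nat_lit 22463572996) (nat_lit 76) (nat_lit 7088569060) (nat_lit 66) (nat_lit 5) (nat_lit 71) (nat_lit 5) (nat_lit 67) (nat_lit 5) (nat_lit 307) (nat_lit 277) (nat_lit 136)) (XT.lf (nat_lit 0) (nat_lit 19481003798) (nat_lit 304) (nat_lit 24666754811) (nat_lit 380) (nat_lit 17540213462) (nat_lit 62) (nat_lit 5) (nat_lit 66) (nat_lit 5) (nat_lit 67) (nat_lit 5) (nat_lit 308) (nat_lit 277) (nat_lit 135)))))) (XT.nd (nat_lit 390) (nat_lit 988) (nat_lit 0) (XT.nd (nat_lit 156) (nat_lit 532) (nat_lit 0) (XT.nd (nat_lit 78) (nat_lit 76) (nat_lit 0) (XT.lf (nat_lit 0) (nat_lit 123666442) (nat_lit 228) (nat_lit 59051867345) (nat_lit 304) (nat_lit 4643237632) (nat_lit 59) (nat_lit 5) (nat_lit 62) (nat_lit 5) (nat_lit 63) (nat_lit 5) (nat_lit 309) (nat_lit 277) (nat_lit 134)) (XT.lf (nat_lit 0) (nat_lit 9409773397) (nat_lit 304) (nat_lit 20933124934) (nat_lit 76) (nat_lit 35690105539)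 (nat_lit 58) (nat_lit 5) (nat_lit 62) (nat_lit 5) (nat_lit 59) (nat_lit 5) (nat_lit 310) (nat_lit 277) (nat_lit 133))) (XT.nd (nat_lit 78) (nat_lit 228) (nat_lit 0) (XT.lf (nat_lit 0) (nat_lit 24302854290) (nat_lit 380) (nat_lit 43958275188) (nat_lit 76) (nat_lit 88439822) (nat_lit 54) (nat_lit 5) (nat_lit 59) (nat_lit 5) (nat_lit 55) (nat_lit 5) (nat_lit 311) (nat_lit 277) (nat_lit 132)) (XT.nd (nat_lit 78) (nat_lit 0) (nat_lit 0) (XT.lf (nat_lit 0) (nat_lit 1358143183) (nat_lit 228) (nat_lit 39116683321) (nat_lit 304) (nat_lit 30291113182) (nat_lit 51) (nat_lit 5) (nat_lit 54) (nat_lit 5) (nat_lit 55) (nat_lit 5) (nat_lit 312) (nat_lit 277) (nat_lit 131)) (XT.lf (nat_lit 0) (nat_lit 49855247510) (nat_lit 228) (nat_lit 8050056207) (nat_lit 304) (nat_lit 15384331304) (nat_lit 51) (nat_lit 5) (nat_lit 54) (nat_lit 5) (nat_lit 55) (nat_lit 5) (nat_lit 313) (nat_lit 277) (nat_lit 130))))) (XT.nd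 (nat_lit 234) (nat_lit 456) (nat_lit 0) (XT.nd (nat_lit 78) (nat_lit 228) (nat_lit 0) (XT.lf (nat_lit 0) (nat_lit 742107335) (nat_lit 304) (nat_lit 50845114976) (nat_lit 76) (nat_lit 24337832640) (nat_lit 47) (nat_lit 5) (nat_lit 51) (nat_lit 5) (nat_lit 48) (nat_lit 5) (nat_lit 314) (nat_lit 277) (nat_lit 129)) (XT.nd (nat_lit 78) (nat_lit 228) (nat_lit 0) (XT.lf (nat_lit 0) (nat_lit 17682096218) (nat_lit 304) (nat_lit 2417803758) (nat_lit 76) (nat_lit 58578017491) (nat_lit 47) (nat_lit 5) (nat_lit 51) (nat_lit 5) (nat_lit 48) (nat_lit 5) (nat_lit 315) (nat_lit 277) (nat_lit 128)) (XT.lf (nat_lit 0) (nat_lit 36070832812) (nat_lit 304) (nat_lit 32292265747) (nat_lit 76) (nat_lit 13187275137) (nat_lit 44) (nat_lit 5) (nat_lit 48) (nat_lit 5) (nat_lit 45) (nat_lit 5) (nat_lit 316) (nat_lit 277) (nat_lit 127)))) (XT.nd (nat_lit 78) (nat_lit 228) (nat_lit 0) (XT.lf (nat_lit 0) (nat_lit 19170231395)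 (nat_lit 228) (nat_lit 36618810084) (nat_lit 304) (nat_lit 28765113096) (nat_lit 41) (nat_lit 5) (nat_lit 44) (nat_lit 5) (nat_lit 45) (nat_lit 5) (nat_lit 317) (nat_lit 277) (nat_lit 126)) (XT.nd (nat_lit 78) (nat_lit 228) (nat_lit 0) (XT.lf (nat_lit 0) (nat_lit 73877399740) (nat_lit 228) (nat_lit 2946007442) (nat_lit 304) (nat_lit 10874812671) (nat_lit 41) (nat_lit 5) (nat_lit 44) (nat_lit 5) (nat_lit 45) (nat_lit 5) (nat_lit 318) (nat_lit 277) (nat_lit 125)) (XT.lf (nat_lit 0) (nat_lit 8464276528) (nat_lit 228) (nat_lit 50259508352) (nat_lit 76) (nat_lit 32252166198) (nat_lit 38) (nat_lit 5) (nat_lit 41) (nat_lit 5) (nat_lit 39) (nat_lit 5) (nat_lit 319) (nat_lit 277) (nat_lit 124))))))) (XT.nd (nat_lit 34710) (nat_lit 0) (nat_lit 6840) (XT.nd (nat_lit 34242) (nat_lit 0) (nat_lit 9804) (XT.nd (nat_lit 156) (nat_lit 380) (nat_lit 0) (XT.nd (nat_lit 78) (nat_lit 0) (nat_lit 0) (XT.lf (nat_lit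 0) (nat_lit 3785935931) (nat_lit 228) (nat_lit 24969343310) (nat_lit 304) (nat_lit 65652765901) (nat_lit 35) (nat_lit 5) (nat_lit 38) (nat_lit 5) (nat_lit 39) (nat_lit 5) (nat_lit 320) (nat_lit 277) (nat_lit 123)) (XT.lf (nat_lit 0) (nat_lit 50682027426) (nat_lit 304) (nat_lit 36521167941) (nat_lit 76) (nat_lit 10789914991) (nat_lit 35) (nat_lit 5) (nat_lit 39) (nat_lit 5) (nat_lit 36) (nat_lit 5) (nat_lit 321) (nat_lit 277) (nat_lit 122))) (XT.nd (nat_lit 78) (nat_lit 228) (nat_lit 0) (XT.lf (nat_lit 0) (nat_lit 20428499043) (nat_lit 152) (nat_lit 53723125261) (nat_lit 228) (nat_lit 27592411394) (nat_lit 33) (nat_lit 5) (nat_lit 35) (nat_lit 5) (nat_lit 36) (nat_lit 5) (nat_lit 322) (nat_lit 277) (nat_lit 121)) (XT.nd (nat_lit 78) (nat_lit 228) (nat_lit 0) (XT.lf (nat_lit 0) (nat_lit 80985985141) (nat_lit 152) (nat_lit 18182849715) (nat_lit 228) (nat_lit 6502450529) (nat_lit 33) (nat_lit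 5) (nat_lit 35) (nat_lit 5) (nat_lit 36) (nat_lit 5) (nat_lit 323) (nat_lit 277) (nat_lit 120)) (XT.lf (nat_lit 0) (nat_lit 15863240985) (nat_lit 228) (nat_lit 74656620424) (nat_lit 76) (nat_lit 19254733334) (nat_lit 30) (nat_lit 5) (nat_lit 33) (nat_lit 5) (nat_lit 31) (nat_lit 5) (nat_lit 324) (nat_lit 277) (nat_lit 119))))) (XT.nd (nat_lit 234) (nat_lit 0) (nat_lit 152) (XT.nd (nat_lit 78) (nat_lit 0) (nat_lit 0) (XT.lf (nat_lit 0) (nat_lit 9876496040) (nat_lit 1140) (nat_lit 1637815051) (nat_lit 1140) (nat_lit 1637815051) (nat_lit 159) (nat_lit 3) (nat_lit 174) (nat_lit 3) (nat_lit 174) (nat_lit 5) (nat_lit 278) (nat_lit 278) (nat_lit 164)) (XT.nd (nat_lit 78) (nat_lit 0) (nat_lit 76) (XT.lf (nat_lit 76) (nat_lit 15571031352) (nat_lit 0) (nat_lit 4967517471) (nat_lit 1140) (nat_lit 6414245281) (nat_lit 160) (nat_lit 5) (nat_lit 159) (nat_lit 3) (nat_lit 174) (nat_lit 5) (nat_lit 279)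 (nat_lit 278) (nat_lit 163)) (XT.lf (nat_lit 76) (nat_lit 7808088849) (nat_lit 0) (nat_lit 13789851174) (nat_lit 1140) (nat_lit 6028806298) (nat_lit 161) (nat_lit 5) (nat_lit 160) (nat_lit 5) (nat_lit 175) (nat_lit 5) (nat_lit 280) (nat_lit 278) (nat_lit 162)))) (XT.nd (nat_lit 78) (nat_lit 0) (nat_lit 0) (XT.lf (nat_lit 0) (nat_lit 22919066622) (nat_lit 1064) (nat_lit 241171436) (nat_lit 1140) (nat_lit 5167914169) (nat_lit 161) (nat_lit 5) (nat_lit 175) (nat_lit 5) (nat_lit 176) (nat_lit 5) (nat_lit 281) (nat_lit 278) (nat_lit 161)) (XT.nd (nat_lit 78) (nat_lit 0) (nat_lit 76) (XT.lf (nat_lit 76) (nat_lit 20572406410) (nat_lit 0) (nat_lit 4062519072) (nat_lit 1140) (nat_lit 4419860815) (nat_lit 162) (nat_lit 5) (nat_lit 161) (nat_lit 5) (nat_lit 176) (nat_lit 5) (nat_lit 282) (nat_lit 278) (nat_lit 160)) (XT.lf (nat_lit 76) (nat_lit 12702996195) (nat_lit 0) (nat_lit 14004016298) (nat_lit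 1140) (nat_lit 3102643803) (nat_lit 163) (nat_lit 5) (nat_lit 162) (nat_lit 5) (nat_lit 177) (nat_lit 5) (nat_lit 283) (nat_lit 278) (nat_lit 159)))))) (XT.nd (nat_lit 390) (nat_lit 2128) (nat_lit 0) (XT.nd (nat_lit 156) (nat_lit 0) (nat_lit 76) (XT.nd (nat_lit 78) (nat_lit 1140) (nat_lit 0) (XT.lf (nat_lit 76) (nat_lit 4508961188) (nat_lit 0) (nat_lit 24595842373) (nat_lit 1140) (nat_lit 1490819701) (nat_lit 164) (nat_lit 5) (nat_lit 163) (nat_lit 5) (nat_lit 178) (nat_lit 5) (nat_lit 284) (nat_lit 278) (nat_lit 158)) (XT.lf (nat_lit 0) (nat_lit 509535729) (nat_lit 1140) (nat_lit 4003097837) (nat_lit 1216) (nat_lit 26898855874) (nat_lit 148) (nat_lit 5) (nat_lit 163) (nat_lit 5) (nat_lit 164) (nat_lit 5) (nat_lit 285) (nat_lit 278) (nat_lit 157))) (XT.nd (nat_lit 78) (nat_lit 0) (nat_lit 76) (XT.lf (nat_lit 0) (nat_lit 2921639697) (nat_lit 1140) (nat_lit 12877683626) (nat_lit 1216) (nat_lit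 16458120384) (nat_lit 149) (nat_lit 5) (nat_lit 164) (nat_lit 5) (nat_lit 165) (nat_lit 5) (nat_lit 286) (nat_lit 278) (nat_lit 156)) (XT.nd (nat_lit 78) (nat_lit 0) (nat_lit 0) (XT.lf (nat_lit 0) (nat_lit 5692778689) (nat_lit 1140) (nat_lit 22156770404) (nat_lit 1216) (nat_lit 5289007502) (nat_lit 150) (nat_lit 5) (nat_lit 165) (nat_lit 5) (nat_lit 166) (nat_lit 5) (nat_lit 287) (nat_lit 278) (nat_lit 155)) (XT.lf (nat_lit 76) (nat_lit 2118944330) (nat_lit 0) (nat_lit 6790861281) (nat_lit 1216) (nat_lit 25144712733) (nat_lit 151) (nat_lit 5) (nat_lit 150) (nat_lit 5) (nat_lit 166) (nat_lit 5) (nat_lit 288) (nat_lit 278) (nat_lit 154))))) (XT.nd (nat_lit 234) (nat_lit 988) (nat_lit 0) (XT.nd (nat_lit 78) (nat_lit 1368) (nat_lit 0) (XT.lf (nat_lit 0) (nat_lit 12659183562) (nat_lit 1140) (nat_lit 7092779415) (nat_lit 76) (nat_lit 15253182735) (nat_lit 151) (nat_lit 5) (nat_lit 166) (nat_lit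 5) (nat_lit 152) (nat_lit 5) (nat_lit 289) (nat_lit 278) (nat_lit 153)) (XT.nd (nat_lit 78) (nat_lit 532) (nat_lit 0) (XT.lf (nat_lit 0) (nat_lit 16867783777) (nat_lit 912) (nat_lit 16724317951) (nat_lit 76) (nat_lit 2403062043) (nat_lit 140) (nat_lit 5) (nat_lit 152) (nat_lit 5) (nat_lit 141) (nat_lit 5) (nat_lit 290) (nat_lit 278) (nat_lit 152)) (XT.lf (nat_lit 0) (nat_lit 10059531215) (nat_lit 532) (nat_lit 11591492434) (nat_lit 608) (nat_lit 15372744151) (nat_lit 133) (nat_lit 5) (nat_lit 140) (nat_lit 5) (nat_lit 141) (nat_lit 5) (nat_lit 291) (nat_lit 278) (nat_lit 151)))) (XT.nd (nat_lit 78) (nat_lit 456) (nat_lit 0) (XT.lf (nat_lit 0) (nat_lit 322284523) (nat_lit 532) (nat_lit 26633374883) (nat_lit 608) (nat_lit 11139686424) (nat_lit 126) (nat_lit 5) (nat_lit 133) (nat_lit 5) (nat_lit 134) (nat_lit 5) (nat_lit 292) (nat_lit 278) (nat_lit 150)) (XT.nd (nat_lit 78) (nat_lit 456) (nat_lit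 0) (XT.lf (nat_lit 0) (nat_lit 29412335092) (nat_lit 532) (nat_lit 3501457742) (nat_lit 608) (nat_lit 6295072251) (nat_lit 126) (nat_lit 5) (nat_lit 133) (nat_lit 5) (nat_lit 134) (nat_lit 5) (nat_lit 293) (nat_lit 278) (nat_lit 149)) (XT.lf (nat_lit 0) (nat_lit 19759724200) (nat_lit 456) (nat_lit 19794960756) (nat_lit 532) (nat_lit 811839594) (nat_lit 120) (nat_lit 5) (nat_lit 126) (nat_lit 5) (nat_lit 127) (nat_lit 5) (nat_lit 294) (nat_lit 278) (nat_lit 148))))))))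
noncomputable def xc111 : XT := (XT.nd (nat_lit 1716) (nat_lit 1064) (nat_lit 0) (XT.nd (nat_lit 858) (nat_lit 2128) (nat_lit 0) (XT.nd (nat_lit 390) (nat_lit 1520) (nat_lit 0) (XT.nd (nat_lit 156) (nat_lit 1292) (nat_lit 0) (XT.nd (nat_lit 78) (nat_lit 0) (nat_lit 0) (XT.lf (nat_lit 0) (nat_lit 5115651045) (nat_lit 608) (nat_lit 32100191519) (nat_lit 76) (nat_lit 4356809249) (nat_lit 112) (nat_lit 5) (nat_lit 120) (nat_lit 5) (nat_lit 113) (nat_lit 5) (nat_lit 295) (nat_lit 278) (nat_lit 147)) (XT.lf (nat_lit 0) (nat_lit 11732311929) (nat_lit 608) (nat_lit 1561346450) (nat_lit 76) (nat_lit 29532906982) (nat_lit 112) (nat_lit 5) (nat_lit 120) (nat_lit 5) (nat_lit 113) (nat_lit 5) (nat_lit 296) (nat_lit 278) (nat_lit 146))) (XT.nd (nat_lit 78) (nat_lit 836) (nat_lit 0) (XT.lf (nat_lit 0) (nat_lit 19091071825) (nat_lit 532) (nat_lit 13144130341) (nat_lit 76) (nat_lit 11895642669) (nat_lit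 106) (nat_lit 5) (nat_lit 113) (nat_lit 5) (nat_lit 107) (nat_lit 5) (nat_lit 297) (nat_lit 278) (nat_lit 145)) (XT.nd (nat_lit 78) (nat_lit 380) (nat_lit 0) (XT.lf (nat_lit 0) (nat_lit 19945207948) (nat_lit 456) (nat_lit 7210482076) (nat_lit 532) (nat_lit 18334518486) (nat_lit 100) (nat_lit 5) (nat_lit 106) (nat_lit 5) (nat_lit 107) (nat_lit 5) (nat_lit 298) (nat_lit 278) (nat_lit 144)) (XT.lf (nat_lit 0) (nat_lit 8017443670) (nat_lit 380) (nat_lit 27999020300) (nat_lit 456) (nat_lit 10889296116) (nat_lit 95) (nat_lit 5) (nat_lit 100) (nat_lit 5) (nat_lit 101) (nat_lit 5) (nat_lit 299) (nat_lit 278) (nat_lit 143))))) (XT.nd (nat_lit 234) (nat_lit 684) (nat_lit 0) (XT.nd (nat_lit 78) (nat_lit 836) (nat_lit 0) (XT.lf (nat_lit 0) (nat_lit 43713129354) (nat_lit 380) (nat_lit 1938264850) (nat_lit 456) (nat_lit 2730768617) (nat_lit 95) (nat_lit 5) (nat_lit 100) (nat_lit 5) (nat_lit 101) (nat_lit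 5) (nat_lit 300) (nat_lit 278) (nat_lit 142)) (XT.nd (nat_lit 78) (nat_lit 380) (nat_lit 0) (XT.lf (nat_lit 0) (nat_lit 6271917614) (nat_lit 456) (nat_lit 18347895053) (nat_lit 76) (nat_lit 25294393484) (nat_lit 89) (nat_lit 5) (nat_lit 95) (nat_lit 5) (nat_lit 90) (nat_lit 5) (nat_lit 301) (nat_lit 278) (nat_lit 141)) (XT.lf (nat_lit 0) (nat_lit 15935949394) (nat_lit 456) (nat_lit 33041004236) (nat_lit 76) (nat_lit 2537062524) (nat_lit 84) (nat_lit 5) (nat_lit 90) (nat_lit 5) (nat_lit 85) (nat_lit 5) (nat_lit 302) (nat_lit 278) (nat_lit 140)))) (XT.nd (nat_lit 78) (nat_lit 304) (nat_lit 0) (XT.lf (nat_lit 0) (nat_lit 4156674169) (nat_lit 380) (nat_lit 22402196756) (nat_lit 456) (nat_lit 26620681048) (nat_lit 79) (nat_lit 5) (nat_lit 84) (nat_lit 5) (nat_lit 85) (nat_lit 5) (nat_lit 303) (nat_lit 278) (nat_lit 139)) (XT.nd (nat_lit 78) (nat_lit 304) (nat_lit 0) (XT.lf (nat_lit 0) (nat_lit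 38105927588) (nat_lit 456) (nat_lit 11073994507) (nat_lit 76) (nat_lit 5736658493) (nat_lit 79) (nat_lit 5) (nat_lit 85) (nat_lit 5) (nat_lit 80) (nat_lit 5) (nat_lit 304) (nat_lit 278) (nat_lit 138)) (XT.lf (nat_lit 0) (nat_lit 29110190029) (nat_lit 304) (nat_lit 21622855786) (nat_lit 380) (nat_lit 5992338963) (nat_lit 75) (nat_lit 5) (nat_lit 79) (nat_lit 5) (nat_lit 80) (nat_lit 5) (nat_lit 305) (nat_lit 278) (nat_lit 137)))))) (XT.nd (nat_lit 390) (nat_lit 912) (nat_lit 0) (XT.nd (nat_lit 156) (nat_lit 836) (nat_lit 0) (XT.nd (nat_lit 78) (nat_lit 0) (nat_lit 0) (XT.lf (nat_lit 0) (nat_lit 5573369481) (nat_lit 380) (nat_lit 45576201169) (nat_lit 76) (nat_lit 7464179651) (nat_lit 70) (nat_lit 5) (nat_lit 75) (nat_lit 5) (nat_lit 71) (nat_lit 5) (nat_lit 306) (nat_lit 278) (nat_lit 136)) (XT.lf (nat_lit 0) (nat_lit 18096874566) (nat_lit 380) (nat_lit 4573540255) (nat_lit 76) (nat_lit 37909240877)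 (nat_lit 70) (nat_lit 5) (nat_lit 75) (nat_lit 5) (nat_lit 71) (nat_lit 5) (nat_lit 307) (nat_lit 278) (nat_lit 135))) (XT.nd (nat_lit 78) (nat_lit 532) (nat_lit 0) (XT.lf (nat_lit 0) (nat_lit 31694117757) (nat_lit 380) (nat_lit 23464701218) (nat_lit 76) (nat_lit 7471615037) (nat_lit 66) (nat_lit 5) (nat_lit 71) (nat_lit 5) (nat_lit 67) (nat_lit 5) (nat_lit 308) (nat_lit 278) (nat_lit 134)) (XT.nd (nat_lit 78) (nat_lit 228) (nat_lit 0) (XT.lf (nat_lit 0) (nat_lit 20573605865) (nat_lit 304) (nat_lit 25868943280) (nat_lit 380) (nat_lit 18327066636) (nat_lit 62) (nat_lit 5) (nat_lit 66) (nat_lit 5) (nat_lit 67) (nat_lit 5) (nat_lit 309) (nat_lit 278) (nat_lit 133)) (XT.lf (nat_lit 0) (nat_lit 247388458) (nat_lit 228) (nat_lit 61971577616) (nat_lit 304) (nat_lit 4788077757) (nat_lit 59) (nat_lit 5) (nat_lit 62) (nat_lit 5) (nat_lit 63) (nat_lit 5) (nat_lit 310) (nat_lit 278) (nat_lit 132)))))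 (XT.nd (nat_lit 234) (nat_lit 304) (nat_lit 0) (XT.nd (nat_lit 78) (nat_lit 532) (nat_lit 0) (XT.lf (nat_lit 0) (nat_lit 9961802824) (nat_lit 304) (nat_lit 21866099788) (nat_lit 76) (nat_lit 37504188270) (nat_lit 58) (nat_lit 5) (nat_lit 62) (nat_lit 5) (nat_lit 59) (nat_lit 5) (nat_lit 311) (nat_lit 278) (nat_lit 131)) (XT.nd (nat_lit 78) (nat_lit 228) (nat_lit 0) (XT.lf (nat_lit 0) (nat_lit 25597021072) (nat_lit 380) (nat_lit 46043597993) (nat_lit 76) (nat_lit 123946589) (nat_lit 54) (nat_lit 5) (nat_lit 59) (nat_lit 5) (nat_lit 55) (nat_lit 5) (nat_lit 312) (nat_lit 278) (nat_lit 130)) (XT.lf (nat_lit 0) (nat_lit 1535413899) (nat_lit 228) (nat_lit 41039466216) (nat_lit 304) (nat_lit 31726961101) (nat_lit 51) (nat_lit 5) (nat_lit 54) (nat_lit 5) (nat_lit 55) (nat_lit 5) (nat_lit 313) (nat_lit 278) (nat_lit 129)))) (XT.nd (nat_lit 78) (nat_lit 304) (nat_lit 0) (XT.lf (nat_lit 0) (nat_lit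 52452165655) (nat_lit 228) (nat_lit 8421081616) (nat_lit 304) (nat_lit 16078588117) (nat_lit 51) (nat_lit 5) (nat_lit 54) (nat_lit 5) (nat_lit 55) (nat_lit 5) (nat_lit 314) (nat_lit 278) (nat_lit 128)) (XT.nd (nat_lit 78) (nat_lit 0) (nat_lit 0) (XT.lf (nat_lit 0) (nat_lit 850501683) (nat_lit 304) (nat_lit 53282766268) (nat_lit 76) (nat_lit 25585807659) (nat_lit 47) (nat_lit 5) (nat_lit 51) (nat_lit 5) (nat_lit 48) (nat_lit 5) (nat_lit 315) (nat_lit 278) (nat_lit 127)) (XT.lf (nat_lit 0) (nat_lit 18634095297) (nat_lit 304) (nat_lit 2439070653) (nat_lit 76) (nat_lit 61536521590) (nat_lit 47) (nat_lit 5) (nat_lit 51) (nat_lit 5) (nat_lit 48) (nat_lit 5) (nat_lit 316) (nat_lit 278) (nat_lit 126))))))) (XT.nd (nat_lit 34788) (nat_lit 0) (nat_lit 7600) (XT.nd (nat_lit 390) (nat_lit 152) (nat_lit 0) (XT.nd (nat_lit 156) (nat_lit 456) (nat_lit 0) (XT.nd (nat_lit 78) (nat_lit 228) (nat_lit 0) (XT.lf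 (nat_lit 0) (nat_lit 37940265535) (nat_lit 304) (nat_lit 33808358633) (nat_lit 76) (nat_lit 13877206747) (nat_lit 44) (nat_lit 5) (nat_lit 48) (nat_lit 5) (nat_lit 45) (nat_lit 5) (nat_lit 317) (nat_lit 278) (nat_lit 125)) (XT.lf (nat_lit 0) (nat_lit 20224439299) (nat_lit 228) (nat_lit 38417727556) (nat_lit 304) (nat_lit 30137704549) (nat_lit 41) (nat_lit 5) (nat_lit 44) (nat_lit 5) (nat_lit 45) (nat_lit 5) (nat_lit 318) (nat_lit 278) (nat_lit 124))) (XT.nd (nat_lit 78) (nat_lit 456) (nat_lit 0) (XT.lf (nat_lit 0) (nat_lit 77662409094) (nat_lit 228) (nat_lit 3062809689) (nat_lit 304) (nat_lit 11356015970) (nat_lit 41) (nat_lit 5) (nat_lit 44) (nat_lit 5) (nat_lit 45) (nat_lit 5) (nat_lit 319) (nat_lit 278) (nat_lit 123)) (XT.nd (nat_lit 78) (nat_lit 228) (nat_lit 0) (XT.lf (nat_lit 0) (nat_lit 8947043988) (nat_lit 228) (nat_lit 52681143616) (nat_lit 76) (nat_lit 33894703353) (nat_lit 38)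 (nat_lit 5) (nat_lit 41) (nat_lit 5) (nat_lit 39) (nat_lit 5) (nat_lit 320) (nat_lit 278) (nat_lit 122)) (XT.lf (nat_lit 0) (nat_lit 4063954633) (nat_lit 228) (nat_lit 26186659165) (nat_lit 304) (nat_lit 68876038801) (nat_lit 35) (nat_lit 5) (nat_lit 38) (nat_lit 5) (nat_lit 39) (nat_lit 5) (nat_lit 321) (nat_lit 278) (nat_lit 121))))) (XT.nd (nat_lit 34164) (nat_lit 0) (nat_lit 9576) (XT.nd (nat_lit 78) (nat_lit 152) (nat_lit 0) (XT.lf (nat_lit 0) (nat_lit 53271243123) (nat_lit 304) (nat_lit 38261305138) (nat_lit 76) (nat_lit 11358499727) (nat_lit 35) (nat_lit 5) (nat_lit 39) (nat_lit 5) (nat_lit 36) (nat_lit 5) (nat_lit 322) (nat_lit 278) (nat_lit 120)) (XT.nd (nat_lit 78) (nat_lit 0) (nat_lit 0) (XT.lf (nat_lit 0) (nat_lit 21533382280) (nat_lit 152) (nat_lit 56379115325) (nat_lit 228) (nat_lit 28917079727) (nat_lit 33) (nat_lit 5) (nat_lit 35) (nat_lit 5) (nat_lit 36) (nat_lit 5) (nat_lit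 323) (nat_lit 278) (nat_lit 119)) (XT.lf (nat_lit 0) (nat_lit 85114768480) (nat_lit 152) (nat_lit 19063262487) (nat_lit 228) (nat_lit 6775237592) (nat_lit 33) (nat_lit 5) (nat_lit 35) (nat_lit 5) (nat_lit 36) (nat_lit 5) (nat_lit 324) (nat_lit 278) (nat_lit 118)))) (XT.nd (nat_lit 78) (nat_lit 0) (nat_lit 0) (XT.lf (nat_lit 0) (nat_lit 10510156648) (nat_lit 1140) (nat_lit 1647536538) (nat_lit 1140) (nat_lit 1647536538) (nat_lit 159) (nat_lit 3) (nat_lit 174) (nat_lit 3) (nat_lit 174) (nat_lit 5) (nat_lit 279) (nat_lit 279) (nat_lit 162)) (XT.nd (nat_lit 78) (nat_lit 0) (nat_lit 76) (XT.lf (nat_lit 76) (nat_lit 16489784015) (nat_lit 0) (nat_lit 5343393864) (nat_lit 1140) (nat_lit 6458638881) (nat_lit 160) (nat_lit 5) (nat_lit 159) (nat_lit 3) (nat_lit 174) (nat_lit 5) (nat_lit 280) (nat_lit 279) (nat_lit 161)) (XT.lf (nat_lit 76) (nat_lit 8344236075) (nat_lit 0) (nat_lit 14588788587) (nat_lit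 1140) (nat_lit 6066845251) (nat_lit 161) (nat_lit 5) (nat_lit 160) (nat_lit 5) (nat_lit 175) (nat_lit 5) (nat_lit 281) (nat_lit 279) (nat_lit 160)))))) (XT.nd (nat_lit 390) (nat_lit 1140) (nat_lit 0) (XT.nd (nat_lit 156) (nat_lit 988) (nat_lit 0) (XT.nd (nat_lit 78) (nat_lit 0) (nat_lit 0) (XT.lf (nat_lit 0) (nat_lit 24307053846) (nat_lit 1064) (nat_lit 105602809) (nat_lit 1140) (nat_lit 5324110648) (nat_lit 161) (nat_lit 5) (nat_lit 175) (nat_lit 5) (nat_lit 176) (nat_lit 5) (nat_lit 282) (nat_lit 279) (nat_lit 159)) (XT.lf (nat_lit 76) (nat_lit 21744422225) (nat_lit 0) (nat_lit 4354136405) (nat_lit 1140) (nat_lit 4401504166) (nat_lit 162) (nat_lit 5) (nat_lit 161) (nat_lit 5) (nat_lit 176) (nat_lit 5) (nat_lit 283) (nat_lit 279) (nat_lit 158))) (XT.nd (nat_lit 78) (nat_lit 1064) (nat_lit 0) (XT.lf (nat_lit 76) (nat_lit 13485506241) (nat_lit 0) (nat_lit 14778307908) (nat_lit 1140) (nat_lit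 3029199326) (nat_lit 163) (nat_lit 5) (nat_lit 162) (nat_lit 5) (nat_lit 177) (nat_lit 5) (nat_lit 284) (nat_lit 279) (nat_lit 157)) (XT.nd (nat_lit 78) (nat_lit 1140) (nat_lit 0) (XT.lf (nat_lit 76) (nat_lit 4885158603) (nat_lit 0) (nat_lit 25886561684) (nat_lit 1140) (nat_lit 1346874695) (nat_lit 164) (nat_lit 5) (nat_lit 163) (nat_lit 5) (nat_lit 178) (nat_lit 5) (nat_lit 285) (nat_lit 279) (nat_lit 156)) (XT.lf (nat_lit 0) (nat_lit 739033984) (nat_lit 1140) (nat_lit 4055196941) (nat_lit 1216) (nat_lit 28181287796) (nat_lit 148) (nat_lit 5) (nat_lit 163) (nat_lit 5) (nat_lit 164) (nat_lit 5) (nat_lit 286) (nat_lit 279) (nat_lit 155))))) (XT.nd (nat_lit 234) (nat_lit 1216) (nat_lit 0) (XT.nd (nat_lit 78) (nat_lit 0) (nat_lit 76) (XT.lf (nat_lit 0) (nat_lit 3262911578) (nat_lit 1140) (nat_lit 13370982351) (nat_lit 1216) (nat_lit 17230161936) (nat_lit 149) (nat_lit 5) (nat_lit 164) (nat_lit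 5) (nat_lit 165) (nat_lit 5) (nat_lit 287) (nat_lit 279) (nat_lit 154)) (XT.nd (nat_lit 78) (nat_lit 0) (nat_lit 0) (XT.lf (nat_lit 0) (nat_lit 6164324363) (nat_lit 1140) (nat_lit 23111941433) (nat_lit 1216) (nat_lit 5513226351) (nat_lit 150) (nat_lit 5) (nat_lit 165) (nat_lit 5) (nat_lit 166) (nat_lit 5) (nat_lit 288) (nat_lit 279) (nat_lit 153)) (XT.lf (nat_lit 76) (nat_lit 2373182855) (nat_lit 0) (nat_lit 7161544922) (nat_lit 1216) (nat_lit 26216766789) (nat_lit 151) (nat_lit 5) (nat_lit 150) (nat_lit 5) (nat_lit 166) (nat_lit 5) (nat_lit 289) (nat_lit 279) (nat_lit 152)))) (XT.nd (nat_lit 78) (nat_lit 1368) (nat_lit 0) (XT.lf (nat_lit 0) (nat_lit 13462745163) (nat_lit 1140) (nat_lit 7300427580) (nat_lit 76) (nat_lit 15986762908) (nat_lit 151) (nat_lit 5) (nat_lit 166) (nat_lit 5) (nat_lit 152) (nat_lit 5) (nat_lit 290) (nat_lit 279) (nat_lit 151)) (XT.nd (nat_lit 78) (nat_lit 532) (nat_lit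 0) (XT.lf (nat_lit 0) (nat_lit 17874821354) (nat_lit 912) (nat_lit 17412305761) (nat_lit 76) (nat_lit 2502552751) (nat_lit 140) (nat_lit 5) (nat_lit 152) (nat_lit 5) (nat_lit 141) (nat_lit 5) (nat_lit 291) (nat_lit 279) (nat_lit 150)) (XT.lf (nat_lit 0) (nat_lit 10706486935) (nat_lit 532) (nat_lit 12184327519) (nat_lit 608) (nat_lit 15979107744) (nat_lit 133) (nat_lit 5) (nat_lit 140) (nat_lit 5) (nat_lit 141) (nat_lit 5) (nat_lit 292) (nat_lit 279) (nat_lit 149))))))))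
noncomputable def xc112 : XT := (XT.nd (nat_lit 1638) (nat_lit 1444) (nat_lit 0) (XT.nd (nat_lit 780) (nat_lit 2660) (nat_lit 0) (XT.nd (nat_lit 390) (nat_lit 1748) (nat_lit 0) (XT.nd (nat_lit 156) (nat_lit 1064) (nat_lit 0) (XT.nd (nat_lit 78) (nat_lit 0) (nat_lit 0) (XT.lf (nat_lit 0) (nat_lit 483264282) (nat_lit 532) (nat_lit 27971201255) (nat_lit 608) (nat_lit 11540815173) (nat_lit 126) (nat_lit 5) (nat_lit 133) (nat_lit 5) (nat_lit 134) (nat_lit 5) (nat_lit 293) (nat_lit 279) (nat_lit 148)) (XT.lf (nat_lit 0) (nat_lit 31020919020) (nat_lit 532) (nat_lit 3682395036) (nat_lit 608) (nat_lit 6461391985) (nat_lit 126) (nat_lit 5) (nat_lit 133) (nat_lit 5) (nat_lit 134) (nat_lit 5) (nat_lit 294) (nat_lit 279) (nat_lit 147))) (XT.nd (nat_lit 78) (nat_lit 608) (nat_lit 0) (XT.lf (nat_lit 0) (nat_lit 20886247912) (nat_lit 456) (nat_lit 20784431770) (nat_lit 532) (nat_lit 709749615) (nat_lit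 120) (nat_lit 5) (nat_lit 126) (nat_lit 5) (nat_lit 127) (nat_lit 5) (nat_lit 295) (nat_lit 279) (nat_lit 146)) (XT.nd (nat_lit 78) (nat_lit 0) (nat_lit 0) (XT.lf (nat_lit 0) (nat_lit 5506020090) (nat_lit 608) (nat_lit 33563411011) (nat_lit 76) (nat_lit 4577562664) (nat_lit 112) (nat_lit 5) (nat_lit 120) (nat_lit 5) (nat_lit 113) (nat_lit 5) (nat_lit 296) (nat_lit 279) (nat_lit 145)) (XT.lf (nat_lit 0) (nat_lit 12447105138) (nat_lit 608) (nat_lit 1504375598) (nat_lit 76) (nat_lit 31012326572) (nat_lit 112) (nat_lit 5) (nat_lit 120) (nat_lit 5) (nat_lit 113) (nat_lit 5) (nat_lit 297) (nat_lit 279) (nat_lit 144))))) (XT.nd (nat_lit 156) (nat_lit 836) (nat_lit 0) (XT.nd (nat_lit 78) (nat_lit 456) (nat_lit 0) (XT.lf (nat_lit 0) (nat_lit 20169035485) (nat_lit 532) (nat_lit 13666315256) (nat_lit 76) (nat_lit 12498104517) (nat_lit 106) (nat_lit 5) (nat_lit 113) (nat_lit 5) (nat_lit 107) (nat_lit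 5) (nat_lit 298) (nat_lit 279) (nat_lit 143)) (XT.lf (nat_lit 0) (nat_lit 21073619580) (nat_lit 456) (nat_lit 7558649049) (nat_lit 532) (nat_lit 19128667895) (nat_lit 100) (nat_lit 5) (nat_lit 106) (nat_lit 5) (nat_lit 107) (nat_lit 5) (nat_lit 299) (nat_lit 279) (nat_lit 142))) (XT.nd (nat_lit 78) (nat_lit 456) (nat_lit 0) (XT.lf (nat_lit 0) (nat_lit 8549266275) (nat_lit 380) (nat_lit 29382530040) (nat_lit 456) (nat_lit 11315608322) (nat_lit 95) (nat_lit 5) (nat_lit 100) (nat_lit 5) (nat_lit 101) (nat_lit 5) (nat_lit 300) (nat_lit 279) (nat_lit 141)) (XT.nd (nat_lit 78) (nat_lit 456) (nat_lit 0) (XT.lf (nat_lit 0) (nat_lit 46023500508) (nat_lit 380) (nat_lit 2019519735) (nat_lit 456) (nat_lit 2754780763) (nat_lit 95) (nat_lit 5) (nat_lit 100) (nat_lit 5) (nat_lit 101) (nat_lit 5) (nat_lit 301) (nat_lit 279) (nat_lit 140)) (XT.lf (nat_lit 0) (nat_lit 6691942223) (nat_lit 456) (nat_lit 19138624288)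 (nat_lit 76) (nat_lit 26575973760) (nat_lit 89) (nat_lit 5) (nat_lit 95) (nat_lit 5) (nat_lit 90) (nat_lit 5) (nat_lit 302) (nat_lit 279) (nat_lit 139)))))) (XT.nd (nat_lit 390) (nat_lit 1216) (nat_lit 0) (XT.nd (nat_lit 156) (nat_lit 684) (nat_lit 0) (XT.nd (nat_lit 78) (nat_lit 380) (nat_lit 0) (XT.lf (nat_lit 0) (nat_lit 16835487216) (nat_lit 456) (nat_lit 34566965850) (nat_lit 76) (nat_lit 2684007089) (nat_lit 84) (nat_lit 5) (nat_lit 90) (nat_lit 5) (nat_lit 85) (nat_lit 5) (nat_lit 303) (nat_lit 279) (nat_lit 138)) (XT.lf (nat_lit 0) (nat_lit 4486982170) (nat_lit 380) (nat_lit 23498857554) (nat_lit 456) (nat_lit 27849552809) (nat_lit 79) (nat_lit 5) (nat_lit 84) (nat_lit 5) (nat_lit 85) (nat_lit 5) (nat_lit 304) (nat_lit 279) (nat_lit 137))) (XT.nd (nat_lit 78) (nat_lit 684) (nat_lit 0) (XT.lf (nat_lit 0) (nat_lit 40105748405) (nat_lit 456) (nat_lit 11508279065) (nat_lit 76) (nat_lit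 6045388051) (nat_lit 79) (nat_lit 5) (nat_lit 85) (nat_lit 5) (nat_lit 80) (nat_lit 5) (nat_lit 305) (nat_lit 279) (nat_lit 136)) (XT.nd (nat_lit 78) (nat_lit 380) (nat_lit 0) (XT.lf (nat_lit 0) (nat_lit 30681691686) (nat_lit 304) (nat_lit 22679144682) (nat_lit 380) (nat_lit 6197932680) (nat_lit 75) (nat_lit 5) (nat_lit 79) (nat_lit 5) (nat_lit 80) (nat_lit 5) (nat_lit 306) (nat_lit 279) (nat_lit 135)) (XT.lf (nat_lit 0) (nat_lit 5941185014) (nat_lit 380) (nat_lit 47737860097) (nat_lit 76) (nat_lit 7862578838) (nat_lit 70) (nat_lit 5) (nat_lit 75) (nat_lit 5) (nat_lit 71) (nat_lit 5) (nat_lit 307) (nat_lit 279) (nat_lit 134))))) (XT.nd (nat_lit 234) (nat_lit 608) (nat_lit 0) (XT.nd (nat_lit 78) (nat_lit 608) (nat_lit 0) (XT.lf (nat_lit 0) (nat_lit 19086620254) (nat_lit 380) (nat_lit 4690644762) (nat_lit 76) (nat_lit 39828693591) (nat_lit 70) (nat_lit 5) (nat_lit 75) (nat_lit 5) (nat_lit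 71) (nat_lit 5) (nat_lit 308) (nat_lit 279) (nat_lit 133)) (XT.nd (nat_lit 78) (nat_lit 304) (nat_lit 0) (XT.lf (nat_lit 0) (nat_lit 33360978895) (nat_lit 380) (nat_lit 24527232943) (nat_lit 76) (nat_lit 7871152727) (nat_lit 66) (nat_lit 5) (nat_lit 71) (nat_lit 5) (nat_lit 67) (nat_lit 5) (nat_lit 309) (nat_lit 279) (nat_lit 132)) (XT.lf (nat_lit 0) (nat_lit 21709816205) (nat_lit 304) (nat_lit 27134137137) (nat_lit 380) (nat_lit 19161644458) (nat_lit 62) (nat_lit 5) (nat_lit 66) (nat_lit 5) (nat_lit 67) (nat_lit 5) (nat_lit 310) (nat_lit 279) (nat_lit 131)))) (XT.nd (nat_lit 78) (nat_lit 380) (nat_lit 0) (XT.lf (nat_lit 0) (nat_lit 366368941) (nat_lit 228) (nat_lit 65040330560) (nat_lit 304) (nat_lit 4948278237) (nat_lit 59) (nat_lit 5) (nat_lit 62) (nat_lit 5) (nat_lit 63) (nat_lit 5) (nat_lit 311) (nat_lit 279) (nat_lit 130)) (XT.nd (nat_lit 78) (nat_lit 304) (nat_lit 0) (XT.lf (nat_lit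 0) (nat_lit 10533852836) (nat_lit 304) (nat_lit 22856292404) (nat_lit 76) (nat_lit 39406225306) (nat_lit 58) (nat_lit 5) (nat_lit 62) (nat_lit 5) (nat_lit 59) (nat_lit 5) (nat_lit 312) (nat_lit 279) (nat_lit 129)) (XT.lf (nat_lit 0) (nat_lit 26948549284) (nat_lit 380) (nat_lit 48243654578) (nat_lit 76) (nat_lit 158338727) (nat_lit 54) (nat_lit 5) (nat_lit 59) (nat_lit 5) (nat_lit 55) (nat_lit 5) (nat_lit 313) (nat_lit 279) (nat_lit 128))))))) (XT.nd (nat_lit 34944) (nat_lit 0) (nat_lit 8588) (XT.nd (nat_lit 390) (nat_lit 684) (nat_lit 0) (XT.nd (nat_lit 156) (nat_lit 532) (nat_lit 0) (XT.nd (nat_lit 78) (nat_lit 0) (nat_lit 0) (XT.lf (nat_lit 0) (nat_lit 1711380564) (nat_lit 228) (nat_lit 43061461050) (nat_lit 304) (nat_lit 33241918917) (nat_lit 51) (nat_lit 5) (nat_lit 54) (nat_lit 5) (nat_lit 55) (nat_lit 5) (nat_lit 314) (nat_lit 279) (nat_lit 127)) (XT.lf (nat_lit 0) (nat_lit 55169246290)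 (nat_lit 228) (nat_lit 8813584766) (nat_lit 304) (nat_lit 16814526819) (nat_lit 51) (nat_lit 5) (nat_lit 54) (nat_lit 5) (nat_lit 55) (nat_lit 5) (nat_lit 315) (nat_lit 279) (nat_lit 126))) (XT.nd (nat_lit 78) (nat_lit 228) (nat_lit 0) (XT.lf (nat_lit 0) (nat_lit 957687974) (nat_lit 304) (nat_lit 55852025255) (nat_lit 76) (nat_lit 26893291590) (nat_lit 47) (nat_lit 5) (nat_lit 51) (nat_lit 5) (nat_lit 48) (nat_lit 5) (nat_lit 316) (nat_lit 279) (nat_lit 125)) (XT.nd (nat_lit 78) (nat_lit 228) (nat_lit 0) (XT.lf (nat_lit 0) (nat_lit 19627382164) (nat_lit 304) (nat_lit 2470662923) (nat_lit 76) (nat_lit 64640198668) (nat_lit 47) (nat_lit 5) (nat_lit 51) (nat_lit 5) (nat_lit 48) (nat_lit 5) (nat_lit 317) (nat_lit 279) (nat_lit 124)) (XT.lf (nat_lit 0) (nat_lit 39897043965) (nat_lit 304) (nat_lit 35409415656) (nat_lit 76) (nat_lit 14598793029) (nat_lit 44) (nat_lit 5) (nat_lit 48) (nat_lit 5)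 (nat_lit 45) (nat_lit 5) (nat_lit 318) (nat_lit 279) (nat_lit 123))))) (XT.nd (nat_lit 234) (nat_lit 228) (nat_lit 0) (XT.nd (nat_lit 78) (nat_lit 228) (nat_lit 0) (XT.lf (nat_lit 0) (nat_lit 21322460661) (nat_lit 228) (nat_lit 40309568101) (nat_lit 304) (nat_lit 31585030410) (nat_lit 41) (nat_lit 5) (nat_lit 44) (nat_lit 5) (nat_lit 45) (nat_lit 5) (nat_lit 319) (nat_lit 279) (nat_lit 122)) (XT.nd (nat_lit 78) (nat_lit 228) (nat_lit 0) (XT.lf (nat_lit 0) (nat_lit 81628195640) (nat_lit 228) (nat_lit 3188287475) (nat_lit 304) (nat_lit 11867093562) (nat_lit 41) (nat_lit 5) (nat_lit 44) (nat_lit 5) (nat_lit 45) (nat_lit 5) (nat_lit 320) (nat_lit 279) (nat_lit 121)) (XT.lf (nat_lit 0) (nat_lit 9448413089) (nat_lit 228) (nat_lit 55232352586) (nat_lit 76) (nat_lit 35616584866) (nat_lit 38) (nat_lit 5) (nat_lit 41) (nat_lit 5) (nat_lit 39) (nat_lit 5) (nat_lit 321) (nat_lit 279) (nat_lit 120))))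 (XT.nd (nat_lit 78) (nat_lit 0) (nat_lit 0) (XT.lf (nat_lit 0) (nat_lit 4347625749) (nat_lit 228) (nat_lit 27467736967) (nat_lit 304) (nat_lit 72265994578) (nat_lit 35) (nat_lit 5) (nat_lit 38) (nat_lit 5) (nat_lit 39) (nat_lit 5) (nat_lit 322) (nat_lit 279) (nat_lit 119)) (XT.nd (nat_lit 34164) (nat_lit 0) (nat_lit 9424) (XT.lf (nat_lit 0) (nat_lit 55984795597) (nat_lit 304) (nat_lit 40096437335) (nat_lit 76) (nat_lit 11952809281) (nat_lit 35) (nat_lit 5) (nat_lit 39) (nat_lit 5) (nat_lit 36) (nat_lit 5) (nat_lit 323) (nat_lit 279) (nat_lit 118)) (XT.lf (nat_lit 0) (nat_lit 11162499679) (nat_lit 1140) (nat_lit 1664453714) (nat_lit 1140) (nat_lit 1664453714) (nat_lit 159) (nat_lit 3) (nat_lit 174) (nat_lit 3) (nat_lit 174) (nat_lit 5) (nat_lit 280) (nat_lit 280) (nat_lit 160)))))) (XT.nd (nat_lit 390) (nat_lit 836) (nat_lit 0) (XT.nd (nat_lit 156) (nat_lit 0) (nat_lit 152) (XT.nd (nat_lit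 78) (nat_lit 0) (nat_lit 76) (XT.lf (nat_lit 76) (nat_lit 17441439742) (nat_lit 0) (nat_lit 5726210288) (nat_lit 1140) (nat_lit 6530941651) (nat_lit 160) (nat_lit 5) (nat_lit 159) (nat_lit 3) (nat_lit 174) (nat_lit 5) (nat_lit 281) (nat_lit 280) (nat_lit 159)) (XT.lf (nat_lit 76) (nat_lit 8893640879) (nat_lit 0) (nat_lit 15417497726) (nat_lit 1140) (nat_lit 6131274713) (nat_lit 161) (nat_lit 5) (nat_lit 160) (nat_lit 5) (nat_lit 175) (nat_lit 5) (nat_lit 282) (nat_lit 280) (nat_lit 158))) (XT.nd (nat_lit 78) (nat_lit 0) (nat_lit 0) (XT.lf (nat_lit 76) (nat_lit 23477399) (nat_lit 0) (nat_lit 25718686693) (nat_lit 1140) (nat_lit 5474366746) (nat_lit 162) (nat_lit 5) (nat_lit 161) (nat_lit 5) (nat_lit 176) (nat_lit 5) (nat_lit 283) (nat_lit 280) (nat_lit 157)) (XT.nd (nat_lit 78) (nat_lit 0) (nat_lit 76) (XT.lf (nat_lit 76) (nat_lit 22961707277) (nat_lit 0) (nat_lit 4652107516) (nat_lit 1140)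 (nat_lit 4404482151) (nat_lit 162) (nat_lit 5) (nat_lit 161) (nat_lit 5) (nat_lit 176) (nat_lit 5) (nat_lit 284) (nat_lit 280) (nat_lit 156)) (XT.lf (nat_lit 76) (nat_lit 14293441631) (nat_lit 0) (nat_lit 15584425839) (nat_lit 1140) (nat_lit 2973333518) (nat_lit 163) (nat_lit 5) (nat_lit 162) (nat_lit 5) (nat_lit 177) (nat_lit 5) (nat_lit 285) (nat_lit 280) (nat_lit 155))))) (XT.nd (nat_lit 234) (nat_lit 0) (nat_lit 152) (XT.nd (nat_lit 78) (nat_lit 1140) (nat_lit 0) (XT.lf (nat_lit 76) (nat_lit 5266150642) (nat_lit 0) (nat_lit 27236152529) (nat_lit 1140) (nat_lit 1216045195) (nat_lit 164) (nat_lit 5) (nat_lit 163) (nat_lit 5) (nat_lit 178) (nat_lit 5) (nat_lit 286) (nat_lit 280) (nat_lit 154)) (XT.nd (nat_lit 78) (nat_lit 0) (nat_lit 76) (XT.lf (nat_lit 0) (nat_lit 961039170) (nat_lit 1140) (nat_lit 4123665824) (nat_lit 1216) (nat_lit 29533652983) (nat_lit 148) (nat_lit 5) (nat_lit 163)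 (nat_lit 5) (nat_lit 164) (nat_lit 5) (nat_lit 287) (nat_lit 280) (nat_lit 153)) (XT.lf (nat_lit 0) (nat_lit 3603100147) (nat_lit 1140) (nat_lit 13902946021) (nat_lit 1216) (nat_lit 18045534462) (nat_lit 149) (nat_lit 5) (nat_lit 164) (nat_lit 5) (nat_lit 165) (nat_lit 5) (nat_lit 288) (nat_lit 280) (nat_lit 152)))) (XT.nd (nat_lit 78) (nat_lit 0) (nat_lit 0) (XT.lf (nat_lit 0) (nat_lit 6642070504) (nat_lit 1140) (nat_lit 24129064589) (nat_lit 1216) (nat_lit 5752396489) (nat_lit 150) (nat_lit 5) (nat_lit 165) (nat_lit 5) (nat_lit 166) (nat_lit 5) (nat_lit 289) (nat_lit 280) (nat_lit 151)) (XT.nd (nat_lit 78) (nat_lit 0) (nat_lit 76) (XT.lf (nat_lit 76) (nat_lit 2626346587) (nat_lit 0) (nat_lit 7547867590) (nat_lit 1216) (nat_lit 27359639976) (nat_lit 151) (nat_lit 5) (nat_lit 150) (nat_lit 5) (nat_lit 166) (nat_lit 5) (nat_lit 290) (nat_lit 280) (nat_lit 150)) (XT.lf (nat_lit 0) (nat_lit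 14290623847) (nat_lit 1140) (nat_lit 7532123966) (nat_lit 76) (nat_lit 16759725576) (nat_lit 151) (nat_lit 5) (nat_lit 166) (nat_lit 5) (nat_lit 152) (nat_lit 5) (nat_lit 291) (nat_lit 280) (nat_lit 149))))))))
noncomputable def xc113 : XT := (XT.nd (nat_lit 1716) (nat_lit 1748) (nat_lit 0) (XT.nd (nat_lit 858) (nat_lit 2812) (nat_lit 0) (XT.nd (nat_lit 390) (nat_lit 1900) (nat_lit 0) (XT.nd (nat_lit 156) (nat_lit 988) (nat_lit 0) (XT.nd (nat_lit 78) (nat_lit 532) (nat_lit 0) (XT.lf (nat_lit 0) (nat_lit 18916996334) (nat_lit 912) (nat_lit 18148473804) (nat_lit 76) (nat_lit 2608938988) (nat_lit 140) (nat_lit 5) (nat_lit 152) (nat_lit 5) (nat_lit 141) (nat_lit 5) (nat_lit 292) (nat_lit 280) (nat_lit 148)) (XT.lf (nat_lit 0) (nat_lit 11372404624) (nat_lit 532) (nat_lit 12805571527) (nat_lit 608) (nat_lit 16630876179) (nat_lit 133) (nat_lit 5) (nat_lit 140) (nat_lit 5) (nat_lit 141) (nat_lit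 5) (nat_lit 293) (nat_lit 280) (nat_lit 147))) (XT.nd (nat_lit 78) (nat_lit 456) (nat_lit 0) (XT.lf (nat_lit 0) (nat_lit 638824804) (nat_lit 532) (nat_lit 29375346468) (nat_lit 608) (nat_lit 11976490333) (nat_lit 126) (nat_lit 5) (nat_lit 133) (nat_lit 5) (nat_lit 134) (nat_lit 5) (nat_lit 294) (nat_lit 280) (nat_lit 146)) (XT.nd (nat_lit 78) (nat_lit 456) (nat_lit 0) (XT.lf (nat_lit 0) (nat_lit 32697105265) (nat_lit 532) (nat_lit 3871833978) (nat_lit 608) (nat_lit 6649827681) (nat_lit 126) (nat_lit 5) (nat_lit 133) (nat_lit 5) (nat_lit 134) (nat_lit 5) (nat_lit 295) (nat_lit 280) (nat_lit 145)) (XT.lf (nat_lit 0) (nat_lit 22056217906) (nat_lit 456) (nat_lit 21823402089) (nat_lit 532) (nat_lit 615820354) (nat_lit 120) (nat_lit 5) (nat_lit 126) (nat_lit 5) (nat_lit 127) (nat_lit 5) (nat_lit 296) (nat_lit 280) (nat_lit 144))))) (XT.nd (nat_lit 234) (nat_lit 836) (nat_lit 0) (XT.nd (nat_lit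 78) (nat_lit 456) (nat_lit 0) (XT.lf (nat_lit 0) (nat_lit 5903395011) (nat_lit 608) (nat_lit 35112973776) (nat_lit 76) (nat_lit 4809082931) (nat_lit 112) (nat_lit 5) (nat_lit 120) (nat_lit 5) (nat_lit 113) (nat_lit 5) (nat_lit 297) (nat_lit 280) (nat_lit 143)) (XT.nd (nat_lit 78) (nat_lit 456) (nat_lit 0) (XT.lf (nat_lit 0) (nat_lit 13185721268) (nat_lit 608) (nat_lit 1457110772) (nat_lit 76) (nat_lit 32565459218) (nat_lit 112) (nat_lit 5) (nat_lit 120) (nat_lit 5) (nat_lit 113) (nat_lit 5) (nat_lit 298) (nat_lit 280) (nat_lit 142)) (XT.lf (nat_lit 0) (nat_lit 21289423830) (nat_lit 532) (nat_lit 14227162445) (nat_lit 76) (nat_lit 13129975470) (nat_lit 106) (nat_lit 5) (nat_lit 113) (nat_lit 5) (nat_lit 107) (nat_lit 5) (nat_lit 299) (nat_lit 280) (nat_lit 141)))) (XT.nd (nat_lit 78) (nat_lit 380) (nat_lit 0) (XT.lf (nat_lit 0) (nat_lit 22246258596) (nat_lit 456) (nat_lit 7925373220) (nat_lit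 532) (nat_lit 19973920777) (nat_lit 100) (nat_lit 5) (nat_lit 106) (nat_lit 5) (nat_lit 107) (nat_lit 5) (nat_lit 300) (nat_lit 280) (nat_lit 140)) (XT.nd (nat_lit 78) (nat_lit 0) (nat_lit 0) (XT.lf (nat_lit 0) (nat_lit 9095505481) (nat_lit 380) (nat_lit 30836743821) (nat_lit 456) (nat_lit 11774220848) (nat_lit 95) (nat_lit 5) (nat_lit 100) (nat_lit 5) (nat_lit 101) (nat_lit 5) (nat_lit 301) (nat_lit 280) (nat_lit 139)) (XT.lf (nat_lit 0) (nat_lit 48437795431) (nat_lit 380) (nat_lit 2106293130) (nat_lit 456) (nat_lit 2790455143) (nat_lit 95) (nat_lit 5) (nat_lit 100) (nat_lit 5) (nat_lit 101) (nat_lit 5) (nat_lit 302) (nat_lit 280) (nat_lit 138)))))) (XT.nd (nat_lit 390) (nat_lit 1292) (nat_lit 0) (XT.nd (nat_lit 156) (nat_lit 684) (nat_lit 0) (XT.nd (nat_lit 78) (nat_lit 380) (nat_lit 0) (XT.lf (nat_lit 0) (nat_lit 7123073328) (nat_lit 456) (nat_lit 19980666144) (nat_lit 76) (nat_lit 27920065512)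 (nat_lit 89) (nat_lit 5) (nat_lit 95) (nat_lit 5) (nat_lit 90) (nat_lit 5) (nat_lit 303) (nat_lit 280) (nat_lit 137)) (XT.lf (nat_lit 0) (nat_lit 17770450106) (nat_lit 456) (nat_lit 36180948068) (nat_lit 76) (nat_lit 2836430970) (nat_lit 84) (nat_lit 5) (nat_lit 90) (nat_lit 5) (nat_lit 85) (nat_lit 5) (nat_lit 304) (nat_lit 280) (nat_lit 136))) (XT.nd (nat_lit 78) (nat_lit 304) (nat_lit 0) (XT.lf (nat_lit 0) (nat_lit 4822419073) (nat_lit 380) (nat_lit 24652531461) (nat_lit 456) (nat_lit 29149366239) (nat_lit 79) (nat_lit 5) (nat_lit 84) (nat_lit 5) (nat_lit 85) (nat_lit 5) (nat_lit 305) (nat_lit 280) (nat_lit 135)) (XT.nd (nat_lit 78) (nat_lit 304) (nat_lit 0) (XT.lf (nat_lit 0) (nat_lit 42196772277) (nat_lit 456) (nat_lit 11975379942) (nat_lit 76) (nat_lit 6367518345) (nat_lit 79) (nat_lit 5) (nat_lit 85) (nat_lit 5) (nat_lit 80) (nat_lit 5) (nat_lit 306) (nat_lit 280) (nat_lit 134)) (XT.lf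 (nat_lit 0) (nat_lit 32320984574) (nat_lit 304) (nat_lit 23790558702) (nat_lit 380) (nat_lit 6422547472) (nat_lit 75) (nat_lit 5) (nat_lit 79) (nat_lit 5) (nat_lit 80) (nat_lit 5) (nat_lit 307) (nat_lit 280) (nat_lit 133))))) (XT.nd (nat_lit 234) (nat_lit 608) (nat_lit 0) (XT.nd (nat_lit 78) (nat_lit 304) (nat_lit 0) (XT.lf (nat_lit 0) (nat_lit 6319103274) (nat_lit 380) (nat_lit 50018493572) (nat_lit 76) (nat_lit 8278556037) (nat_lit 70) (nat_lit 5) (nat_lit 75) (nat_lit 5) (nat_lit 71) (nat_lit 5) (nat_lit 308) (nat_lit 280) (nat_lit 132)) (XT.nd (nat_lit 78) (nat_lit 304) (nat_lit 0) (XT.lf (nat_lit 0) (nat_lit 20117959848) (nat_lit 380) (nat_lit 4823977449) (nat_lit 76) (nat_lit 41841888517) (nat_lit 70) (nat_lit 5) (nat_lit 75) (nat_lit 5) (nat_lit 71) (nat_lit 5) (nat_lit 309) (nat_lit 280) (nat_lit 131)) (XT.lf (nat_lit 0) (nat_lit 35103545073) (nat_lit 380) (nat_lit 25653183401) (nat_lit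 76) (nat_lit 8288254072) (nat_lit 66) (nat_lit 5) (nat_lit 71) (nat_lit 5) (nat_lit 67) (nat_lit 5) (nat_lit 310) (nat_lit 280) (nat_lit 130)))) (XT.nd (nat_lit 78) (nat_lit 304) (nat_lit 0) (XT.lf (nat_lit 0) (nat_lit 22892839938) (nat_lit 304) (nat_lit 28465217411) (nat_lit 380) (nat_lit 20045553884) (nat_lit 62) (nat_lit 5) (nat_lit 66) (nat_lit 5) (nat_lit 67) (nat_lit 5) (nat_lit 311) (nat_lit 280) (nat_lit 129)) (XT.nd (nat_lit 78) (nat_lit 76) (nat_lit 0) (XT.lf (nat_lit 0) (nat_lit 481386762) (nat_lit 228) (nat_lit 68265294084) (nat_lit 304) (nat_lit 5123852324) (nat_lit 59) (nat_lit 5) (nat_lit 62) (nat_lit 5) (nat_lit 63) (nat_lit 5) (nat_lit 312) (nat_lit 280) (nat_lit 128)) (XT.lf (nat_lit 0) (nat_lit 11127629260) (nat_lit 304) (nat_lit 23905581061) (nat_lit 76) (nat_lit 41400870016) (nat_lit 58) (nat_lit 5) (nat_lit 62) (nat_lit 5) (nat_lit 59) (nat_lit 5) (nat_lit 313) (nat_lit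 280) (nat_lit 127))))))) (XT.nd (nat_lit 35022) (nat_lit 0) (nat_lit 8588) (XT.nd (nat_lit 390) (nat_lit 912) (nat_lit 0) (XT.nd (nat_lit 156) (nat_lit 304) (nat_lit 0) (XT.nd (nat_lit 78) (nat_lit 228) (nat_lit 0) (XT.lf (nat_lit 0) (nat_lit 28360990044) (nat_lit 380) (nat_lit 50563208450) (nat_lit 76) (nat_lit 191829185) (nat_lit 54) (nat_lit 5) (nat_lit 59) (nat_lit 5) (nat_lit 55) (nat_lit 5) (nat_lit 314) (nat_lit 280) (nat_lit 126)) (XT.lf (nat_lit 0) (nat_lit 1886923262) (nat_lit 228) (nat_lit 45187342740) (nat_lit 304) (nat_lit 34839261810) (nat_lit 51) (nat_lit 5) (nat_lit 54) (nat_lit 5) (nat_lit 55) (nat_lit 5) (nat_lit 315) (nat_lit 280) (nat_lit 125))) (XT.nd (nat_lit 78) (nat_lit 304) (nat_lit 0) (XT.lf (nat_lit 0) (nat_lit 58013397813) (nat_lit 228) (nat_lit 9228367468) (nat_lit 304) (nat_lit 17593583586) (nat_lit 51) (nat_lit 5) (nat_lit 54) (nat_lit 5) (nat_lit 55) (nat_lit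 5) (nat_lit 316) (nat_lit 280) (nat_lit 124)) (XT.nd (nat_lit 78) (nat_lit 0) (nat_lit 0) (XT.lf (nat_lit 0) (nat_lit 1064221994) (nat_lit 304) (nat_lit 58558568172) (nat_lit 76) (nat_lit 28263528548) (nat_lit 47) (nat_lit 5) (nat_lit 51) (nat_lit 5) (nat_lit 48) (nat_lit 5) (nat_lit 317) (nat_lit 280) (nat_lit 123)) (XT.lf (nat_lit 0) (nat_lit 20664608055) (nat_lit 304) (nat_lit 2512235740) (nat_lit 76) (nat_lit 67896563248) (nat_lit 47) (nat_lit 5) (nat_lit 51) (nat_lit 5) (nat_lit 48) (nat_lit 5) (nat_lit 318) (nat_lit 280) (nat_lit 122))))) (XT.nd (nat_lit 234) (nat_lit 456) (nat_lit 0) (XT.nd (nat_lit 78) (nat_lit 228) (nat_lit 0) (XT.lf (nat_lit 0) (nat_lit 41946104919) (nat_lit 304) (nat_lit 37098833460) (nat_lit 76) (nat_lit 15353880929) (nat_lit 44) (nat_lit 5) (nat_lit 48) (nat_lit 5) (nat_lit 45) (nat_lit 5) (nat_lit 319) (nat_lit 280) (nat_lit 121)) (XT.nd (nat_lit 78) (nat_lit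 0) (nat_lit 0) (XT.lf (nat_lit 0) (nat_lit 22467313305) (nat_lit 228) (nat_lit 42298701078) (nat_lit 304) (nat_lit 33110259830) (nat_lit 41) (nat_lit 5) (nat_lit 44) (nat_lit 5) (nat_lit 45) (nat_lit 5) (nat_lit 320) (nat_lit 280) (nat_lit 120)) (XT.lf (nat_lit 0) (nat_lit 85784586004) (nat_lit 228) (nat_lit 3322610965) (nat_lit 304) (nat_lit 12408998620) (nat_lit 41) (nat_lit 5) (nat_lit 44) (nat_lit 5) (nat_lit 45) (nat_lit 5) (nat_lit 321) (nat_lit 280) (nat_lit 119)))) (XT.nd (nat_lit 78) (nat_lit 228) (nat_lit 0) (XT.lf (nat_lit 0) (nat_lit 9969828666) (nat_lit 228) (nat_lit 57918824445) (nat_lit 76) (nat_lit 37422036644) (nat_lit 38) (nat_lit 5) (nat_lit 41) (nat_lit 5) (nat_lit 39) (nat_lit 5) (nat_lit 322) (nat_lit 280) (nat_lit 118)) (XT.nd (nat_lit 34242) (nat_lit 0) (nat_lit 9424) (XT.lf (nat_lit 0) (nat_lit 4637998768) (nat_lit 228) (nat_lit 28815495556) (nat_lit 304) (nat_lit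 75830454250) (nat_lit 35) (nat_lit 5) (nat_lit 38) (nat_lit 5) (nat_lit 39) (nat_lit 5) (nat_lit 323) (nat_lit 280) (nat_lit 117)) (XT.lf (nat_lit 0) (nat_lit 11835667927) (nat_lit 1140) (nat_lit 1688302566) (nat_lit 1140) (nat_lit 1688302566) (nat_lit 159) (nat_lit 3) (nat_lit 174) (nat_lit 3) (nat_lit 174) (nat_lit 5) (nat_lit 281) (nat_lit 281) (nat_lit 158)))))) (XT.nd (nat_lit 390) (nat_lit 836) (nat_lit 0) (XT.nd (nat_lit 156) (nat_lit 0) (nat_lit 152) (XT.nd (nat_lit 78) (nat_lit 0) (nat_lit 76) (XT.lf (nat_lit 76) (nat_lit 18428855518) (nat_lit 0) (nat_lit 6117415796) (nat_lit 1140) (nat_lit 6630160685) (nat_lit 160) (nat_lit 5) (nat_lit 159) (nat_lit 3) (nat_lit 174) (nat_lit 5) (nat_lit 282) (nat_lit 281) (nat_lit 157)) (XT.lf (nat_lit 76) (nat_lit 9458225871) (nat_lit 0) (nat_lit 16278413166) (nat_lit 1140) (nat_lit 6221137496) (nat_lit 161) (nat_lit 5) (nat_lit 160) (nat_lit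 5) (nat_lit 175) (nat_lit 5) (nat_lit 283) (nat_lit 281) (nat_lit 156))) (XT.nd (nat_lit 78) (nat_lit 0) (nat_lit 0) (XT.lf (nat_lit 76) (nat_lit 148521688) (nat_lit 0) (nat_lit 27081063209) (nat_lit 1140) (nat_lit 5541325822) (nat_lit 162) (nat_lit 5) (nat_lit 161) (nat_lit 5) (nat_lit 176) (nat_lit 5) (nat_lit 284) (nat_lit 281) (nat_lit 155)) (XT.nd (nat_lit 78) (nat_lit 0) (nat_lit 76) (XT.lf (nat_lit 76) (nat_lit 24227764469) (nat_lit 0) (nat_lit 4957514969) (nat_lit 1140) (nat_lit 4427792676) (nat_lit 162) (nat_lit 5) (nat_lit 161) (nat_lit 5) (nat_lit 176) (nat_lit 5) (nat_lit 285) (nat_lit 281) (nat_lit 154)) (XT.lf (nat_lit 76) (nat_lit 15129347344) (nat_lit 0) (nat_lit 16424601812) (nat_lit 1140) (nat_lit 2933949605) (nat_lit 163) (nat_lit 5) (nat_lit 162) (nat_lit 5) (nat_lit 177) (nat_lit 5) (nat_lit 286) (nat_lit 281) (nat_lit 153))))) (XT.nd (nat_lit 234) (nat_lit 0) (nat_lit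 152) (XT.nd (nat_lit 78) (nat_lit 1140) (nat_lit 0) (XT.lf (nat_lit 76) (nat_lit 5653480042) (nat_lit 0) (nat_lit 28648085107) (nat_lit 1140) (nat_lit 1097098490) (nat_lit 164) (nat_lit 5) (nat_lit 163) (nat_lit 5) (nat_lit 178) (nat_lit 5) (nat_lit 287) (nat_lit 281) (nat_lit 152)) (XT.nd (nat_lit 78) (nat_lit 0) (nat_lit 76) (XT.lf (nat_lit 0) (nat_lit 1176940096) (nat_lit 1140) (nat_lit 4208043252) (nat_lit 1216) (nat_lit 30958907784) (nat_lit 148) (nat_lit 5) (nat_lit 163) (nat_lit 5) (nat_lit 164) (nat_lit 5) (nat_lit 288) (nat_lit 281) (nat_lit 151)) (XT.lf (nat_lit 0) (nat_lit 3943838366) (nat_lit 1140) (nat_lit 14474206295) (nat_lit 1216) (nat_lit 18905964862) (nat_lit 149) (nat_lit 5) (nat_lit 164) (nat_lit 5) (nat_lit 165) (nat_lit 5) (nat_lit 289) (nat_lit 281) (nat_lit 150)))) (XT.nd (nat_lit 78) (nat_lit 0) (nat_lit 0) (XT.lf (nat_lit 0) (nat_lit 7127942666) (nat_lit 1140) (nat_lit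 25209917895) (nat_lit 1216) (nat_lit 6006917737) (nat_lit 150) (nat_lit 5) (nat_lit 165) (nat_lit 5) (nat_lit 166) (nat_lit 5) (nat_lit 290) (nat_lit 281) (nat_lit 149)) (XT.nd (nat_lit 78) (nat_lit 0) (nat_lit 76) (XT.lf (nat_lit 76) (nat_lit 2879663542) (nat_lit 0) (nat_lit 7950880399) (nat_lit 1216) (nat_lit 28575272630) (nat_lit 151) (nat_lit 5) (nat_lit 150) (nat_lit 5) (nat_lit 166) (nat_lit 5) (nat_lit 291) (nat_lit 281) (nat_lit 148)) (XT.lf (nat_lit 0) (nat_lit 15145510074) (nat_lit 1140) (nat_lit 7787800464) (nat_lit 76) (nat_lit 17573788519) (nat_lit 151) (nat_lit 5) (nat_lit 166) (nat_lit 5) (nat_lit 152) (nat_lit 5) (nat_lit 292) (nat_lit 281) (nat_lit 147))))))))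
noncomputable def xc114 : XT := (XT.nd (nat_lit 1716) (nat_lit 1520) (nat_lit 0) (XT.nd (nat_lit 858) (nat_lit 2812) (nat_lit 0) (XT.nd (nat_lit 390) (nat_lit 1900) (nat_lit 0) (XT.nd (nat_lit 156) (nat_lit 988) (nat_lit 0) (XT.nd (nat_lit 78) (nat_lit 532) (nat_lit 0) (XT.lf (nat_lit 0) (nat_lit 19997480084) (nat_lit 912) (nat_lit 18933949879) (nat_lit 76) (nat_lit 2722386934) (nat_lit 140) (nat_lit 5) (nat_lit 152) (nat_lit 5) (nat_lit 141) (nat_lit 5) (nat_lit 293) (nat_lit 281) (nat_lit 146)) (XT.lf (nat_lit 0) (nat_lit 12059476866) (nat_lit 532) (nat_lit 13456759520) (nat_lit 608) (nat_lit 17328917084) (nat_lit 133) (nat_lit 5) (nat_lit 140) (nat_lit 5) (nat_lit 141) (nat_lit 5) (nat_lit 294) (nat_lit 281) (nat_lit 145))) (XT.nd (nat_lit 78) (nat_lit 456) (nat_lit 0) (XT.lf (nat_lit 0) (nat_lit 789947277) (nat_lit 532) (nat_lit 30849179687) (nat_lit 608) (nat_lit 12447092085) (nat_lit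 126) (nat_lit 5) (nat_lit 133) (nat_lit 5) (nat_lit 134) (nat_lit 5) (nat_lit 295) (nat_lit 281) (nat_lit 144)) (XT.nd (nat_lit 78) (nat_lit 456) (nat_lit 0) (XT.lf (nat_lit 0) (nat_lit 34445466464) (nat_lit 532) (nat_lit 4070250340) (nat_lit 608) (nat_lit 6860202146) (nat_lit 126) (nat_lit 5) (nat_lit 133) (nat_lit 5) (nat_lit 134) (nat_lit 5) (nat_lit 296) (nat_lit 281) (nat_lit 143)) (XT.lf (nat_lit 0) (nat_lit 23273003947) (nat_lit 456) (nat_lit 22914344285) (nat_lit 532) (nat_lit 529226572) (nat_lit 120) (nat_lit 5) (nat_lit 126) (nat_lit 5) (nat_lit 127) (nat_lit 5) (nat_lit 297) (nat_lit 281) (nat_lit 142))))) (XT.nd (nat_lit 234) (nat_lit 836) (nat_lit 0) (XT.nd (nat_lit 78) (nat_lit 456) (nat_lit 0) (XT.lf (nat_lit 0) (nat_lit 6309289403) (nat_lit 608) (nat_lit 36751971413) (nat_lit 76) (nat_lit 5051933570) (nat_lit 112) (nat_lit 5) (nat_lit 120) (nat_lit 5) (nat_lit 113) (nat_lit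 5) (nat_lit 298) (nat_lit 281) (nat_lit 141)) (XT.nd (nat_lit 78) (nat_lit 456) (nat_lit 0) (XT.lf (nat_lit 0) (nat_lit 13950459370) (nat_lit 608) (nat_lit 1418870070) (nat_lit 76) (nat_lit 34196014554) (nat_lit 112) (nat_lit 5) (nat_lit 120) (nat_lit 5) (nat_lit 113) (nat_lit 5) (nat_lit 299) (nat_lit 281) (nat_lit 140)) (XT.lf (nat_lit 0) (nat_lit 22455424790) (nat_lit 532) (nat_lit 14827437962) (nat_lit 76) (nat_lit 13792792363) (nat_lit 106) (nat_lit 5) (nat_lit 113) (nat_lit 5) (nat_lit 107) (nat_lit 5) (nat_lit 300) (nat_lit 281) (nat_lit 139)))) (XT.nd (nat_lit 78) (nat_lit 380) (nat_lit 0) (XT.lf (nat_lit 0) (nat_lit 23466469971) (nat_lit 456) (nat_lit 8311475640) (nat_lit 532) (nat_lit 20871772813) (nat_lit 100) (nat_lit 5) (nat_lit 106) (nat_lit 5) (nat_lit 107) (nat_lit 5) (nat_lit 301) (nat_lit 281) (nat_lit 138)) (XT.nd (nat_lit 78) (nat_lit 0) (nat_lit 0) (XT.lf (nat_lit 0)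 (nat_lit 9658013990) (nat_lit 380) (nat_lit 32365054734) (nat_lit 456) (nat_lit 12265727454) (nat_lit 95) (nat_lit 5) (nat_lit 100) (nat_lit 5) (nat_lit 101) (nat_lit 5) (nat_lit 302) (nat_lit 281) (nat_lit 137)) (XT.lf (nat_lit 0) (nat_lit 50962288284) (nat_lit 380) (nat_lit 2198725618) (nat_lit 456) (nat_lit 2837402247) (nat_lit 95) (nat_lit 5) (nat_lit 100) (nat_lit 5) (nat_lit 101) (nat_lit 5) (nat_lit 303) (nat_lit 281) (nat_lit 136)))))) (XT.nd (nat_lit 390) (nat_lit 1292) (nat_lit 0) (XT.nd (nat_lit 156) (nat_lit 684) (nat_lit 0) (XT.nd (nat_lit 78) (nat_lit 380) (nat_lit 0) (XT.lf (nat_lit 0) (nat_lit 7566786172) (nat_lit 456) (nat_lit 20875491417) (nat_lit 76) (nat_lit 29329940047) (nat_lit 89) (nat_lit 5) (nat_lit 95) (nat_lit 5) (nat_lit 90) (nat_lit 5) (nat_lit 304) (nat_lit 281) (nat_lit 135)) (XT.lf (nat_lit 0) (nat_lit 18743497354) (nat_lit 456) (nat_lit 37886262071) (nat_lit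 76) (nat_lit 2994781795) (nat_lit 84) (nat_lit 5) (nat_lit 90) (nat_lit 5) (nat_lit 85) (nat_lit 5) (nat_lit 305) (nat_lit 281) (nat_lit 134))) (XT.nd (nat_lit 78) (nat_lit 304) (nat_lit 0) (XT.lf (nat_lit 0) (nat_lit 5164299931) (nat_lit 380) (nat_lit 25865866451) (nat_lit 456) (nat_lit 30522785381) (nat_lit 79) (nat_lit 5) (nat_lit 84) (nat_lit 5) (nat_lit 85) (nat_lit 5) (nat_lit 306) (nat_lit 281) (nat_lit 133)) (XT.nd (nat_lit 78) (nat_lit 304) (nat_lit 0) (XT.lf (nat_lit 0) (nat_lit 44384376380) (nat_lit 456) (nat_lit 12475905786) (nat_lit 76) (nat_lit 6703908677) (nat_lit 79) (nat_lit 5) (nat_lit 85) (nat_lit 5) (nat_lit 80) (nat_lit 5) (nat_lit 307) (nat_lit 281) (nat_lit 132)) (XT.lf (nat_lit 0) (nat_lit 34032460836) (nat_lit 304) (nat_lit 24959639278) (nat_lit 380) (nat_lit 6666321701) (nat_lit 75) (nat_lit 5) (nat_lit 79) (nat_lit 5) (nat_lit 80) (nat_lit 5) (nat_lit 308) (nat_lit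 281) (nat_lit 131))))) (XT.nd (nat_lit 234) (nat_lit 608) (nat_lit 0) (XT.nd (nat_lit 78) (nat_lit 304) (nat_lit 0) (XT.lf (nat_lit 0) (nat_lit 6708399944) (nat_lit 380) (nat_lit 52423037726) (nat_lit 76) (nat_lit 8713207883) (nat_lit 70) (nat_lit 5) (nat_lit 75) (nat_lit 5) (nat_lit 71) (nat_lit 5) (nat_lit 309) (nat_lit 281) (nat_lit 130)) (XT.nd (nat_lit 78) (nat_lit 304) (nat_lit 0) (XT.lf (nat_lit 0) (nat_lit 21193706893) (nat_lit 380) (nat_lit 4973385345) (nat_lit 76) (nat_lit 43953720127) (nat_lit 70) (nat_lit 5) (nat_lit 75) (nat_lit 5) (nat_lit 71) (nat_lit 5) (nat_lit 310) (nat_lit 281) (nat_lit 129)) (XT.lf (nat_lit 0) (nat_lit 36926311654) (nat_lit 380) (nat_lit 26844766662) (nat_lit 76) (nat_lit 8724021612) (nat_lit 66) (nat_lit 5) (nat_lit 71) (nat_lit 5) (nat_lit 67) (nat_lit 5) (nat_lit 311) (nat_lit 281) (nat_lit 128)))) (XT.nd (nat_lit 78) (nat_lit 304) (nat_lit 0) (XT.lf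 (nat_lit 0) (nat_lit 24125947171) (nat_lit 304) (nat_lit 29865234215) (nat_lit 380) (nat_lit 20980554664) (nat_lit 62) (nat_lit 5) (nat_lit 66) (nat_lit 5) (nat_lit 67) (nat_lit 5) (nat_lit 312) (nat_lit 281) (nat_lit 127)) (XT.nd (nat_lit 78) (nat_lit 76) (nat_lit 0) (XT.lf (nat_lit 0) (nat_lit 593165283) (nat_lit 228) (nat_lit 71654020916) (nat_lit 304) (nat_lit 5314884101) (nat_lit 59) (nat_lit 5) (nat_lit 62) (nat_lit 5) (nat_lit 63) (nat_lit 5) (nat_lit 313) (nat_lit 281) (nat_lit 126)) (XT.lf (nat_lit 0) (nat_lit 11744857691) (nat_lit 304) (nat_lit 25016029309) (nat_lit 76) (nat_lit 43492984669) (nat_lit 58) (nat_lit 5) (nat_lit 62) (nat_lit 5) (nat_lit 59) (nat_lit 5) (nat_lit 314) (nat_lit 281) (nat_lit 125))))))) (XT.nd (nat_lit 35100) (nat_lit 0) (nat_lit 7752) (XT.nd (nat_lit 390) (nat_lit 684) (nat_lit 0) (XT.nd (nat_lit 156) (nat_lit 304) (nat_lit 0) (XT.nd (nat_lit 78) (nat_lit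 228) (nat_lit 0) (XT.lf (nat_lit 0) (nat_lit 29838008522) (nat_lit 380) (nat_lit 53007351769) (nat_lit 76) (nat_lit 224616582) (nat_lit 54) (nat_lit 5) (nat_lit 59) (nat_lit 5) (nat_lit 55) (nat_lit 5) (nat_lit 315) (nat_lit 281) (nat_lit 124)) (XT.lf (nat_lit 0) (nat_lit 2062878195) (nat_lit 228) (nat_lit 47422046509) (nat_lit 304) (nat_lit 36522491974) (nat_lit 51) (nat_lit 5) (nat_lit 54) (nat_lit 5) (nat_lit 55) (nat_lit 5) (nat_lit 316) (nat_lit 281) (nat_lit 123))) (XT.nd (nat_lit 78) (nat_lit 304) (nat_lit 0) (XT.lf (nat_lit 0) (nat_lit 60991790342) (nat_lit 228) (nat_lit 9666296920) (nat_lit 304) (nat_lit 18417326645) (nat_lit 51) (nat_lit 5) (nat_lit 54) (nat_lit 5) (nat_lit 55) (nat_lit 5) (nat_lit 317) (nat_lit 281) (nat_lit 122)) (XT.nd (nat_lit 78) (nat_lit 0) (nat_lit 0) (XT.lf (nat_lit 0) (nat_lit 1170630030) (nat_lit 304) (nat_lit 61408439125) (nat_lit 76) (nat_lit 29699899877)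 (nat_lit 47) (nat_lit 5) (nat_lit 51) (nat_lit 5) (nat_lit 48) (nat_lit 5) (nat_lit 318) (nat_lit 281) (nat_lit 121)) (XT.lf (nat_lit 0) (nat_lit 21748502205) (nat_lit 304) (nat_lit 2563507092) (nat_lit 76) (nat_lit 71313481793) (nat_lit 47) (nat_lit 5) (nat_lit 51) (nat_lit 5) (nat_lit 48) (nat_lit 5) (nat_lit 319) (nat_lit 281) (nat_lit 120))))) (XT.nd (nat_lit 234) (nat_lit 228) (nat_lit 0) (XT.nd (nat_lit 78) (nat_lit 228) (nat_lit 0) (XT.lf (nat_lit 0) (nat_lit 44092579105) (nat_lit 304) (nat_lit 38880257692) (nat_lit 76) (nat_lit 16144385179) (nat_lit 44) (nat_lit 5) (nat_lit 48) (nat_lit 5) (nat_lit 45) (nat_lit 5) (nat_lit 320) (nat_lit 281) (nat_lit 119)) (XT.nd (nat_lit 78) (nat_lit 0) (nat_lit 0) (XT.lf (nat_lit 0) (nat_lit 23662089048) (nat_lit 228) (nat_lit 44389740053) (nat_lit 304) (nat_lit 34716773183) (nat_lit 41) (nat_lit 5) (nat_lit 44) (nat_lit 5) (nat_lit 45) (nat_lit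 5) (nat_lit 321) (nat_lit 281) (nat_lit 118)) (XT.lf (nat_lit 0) (nat_lit 90141824903) (nat_lit 228) (nat_lit 3465983343) (nat_lit 304) (nat_lit 12982782229) (nat_lit 41) (nat_lit 5) (nat_lit 44) (nat_lit 5) (nat_lit 45) (nat_lit 5) (nat_lit 322) (nat_lit 281) (nat_lit 117)))) (XT.nd (nat_lit 34320) (nat_lit 0) (nat_lit 9196) (XT.lf (nat_lit 0) (nat_lit 10512759938) (nat_lit 228) (nat_lit 60746606239) (nat_lit 76) (nat_lit 39315471841) (nat_lit 38) (nat_lit 5) (nat_lit 41) (nat_lit 5) (nat_lit 39) (nat_lit 5) (nat_lit 323) (nat_lit 281) (nat_lit 116)) (XT.nd (nat_lit 78) (nat_lit 0) (nat_lit 0) (XT.lf (nat_lit 0) (nat_lit 12531798955) (nat_lit 1140) (nat_lit 1718863878) (nat_lit 1140) (nat_lit 1718863878) (nat_lit 159) (nat_lit 3) (nat_lit 174) (nat_lit 3) (nat_lit 174) (nat_lit 5) (nat_lit 282) (nat_lit 282) (nat_lit 156)) (XT.lf (nat_lit 76) (nat_lit 19454918510) (nat_lit 0) (nat_lit 6518429437)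 (nat_lit 1140) (nat_lit 6755475477) (nat_lit 160) (nat_lit 5) (nat_lit 159) (nat_lit 3) (nat_lit 174) (nat_lit 5) (nat_lit 283) (nat_lit 282) (nat_lit 155)))))) (XT.nd (nat_lit 390) (nat_lit 1520) (nat_lit 0) (XT.nd (nat_lit 156) (nat_lit 0) (nat_lit 76) (XT.nd (nat_lit 78) (nat_lit 0) (nat_lit 76) (XT.lf (nat_lit 76) (nat_lit 10039892673) (nat_lit 0) (nat_lit 17174003260) (nat_lit 1140) (nat_lit 6335640218) (nat_lit 161) (nat_lit 5) (nat_lit 160) (nat_lit 5) (nat_lit 175) (nat_lit 5) (nat_lit 284) (nat_lit 282) (nat_lit 154)) (XT.lf (nat_lit 76) (nat_lit 268301895) (nat_lit 0) (nat_lit 28504451681) (nat_lit 1140) (nat_lit 5630855369) (nat_lit 162) (nat_lit 5) (nat_lit 161) (nat_lit 5) (nat_lit 176) (nat_lit 5) (nat_lit 285) (nat_lit 282) (nat_lit 153))) (XT.nd (nat_lit 78) (nat_lit 0) (nat_lit 76) (XT.lf (nat_lit 76) (nat_lit 25546156618) (nat_lit 0) (nat_lit 5271424347) (nat_lit 1140)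 (nat_lit 4470575887) (nat_lit 162) (nat_lit 5) (nat_lit 161) (nat_lit 5) (nat_lit 176) (nat_lit 5) (nat_lit 286) (nat_lit 282) (nat_lit 152)) (XT.nd (nat_lit 78) (nat_lit 0) (nat_lit 76) (XT.lf (nat_lit 76) (nat_lit 15995777189) (nat_lit 0) (nat_lit 17301119595) (nat_lit 1140) (nat_lit 2910079657) (nat_lit 163) (nat_lit 5) (nat_lit 162) (nat_lit 5) (nat_lit 177) (nat_lit 5) (nat_lit 287) (nat_lit 282) (nat_lit 151)) (XT.lf (nat_lit 76) (nat_lit 6048645534) (nat_lit 0) (nat_lit 30125954172) (nat_lit 1140) (nat_lit 988915804) (nat_lit 164) (nat_lit 5) (nat_lit 163) (nat_lit 5) (nat_lit 178) (nat_lit 5) (nat_lit 288) (nat_lit 282) (nat_lit 150))))) (XT.nd (nat_lit 234) (nat_lit 608) (nat_lit 0) (XT.nd (nat_lit 78) (nat_lit 0) (nat_lit 76) (XT.lf (nat_lit 0) (nat_lit 1388031062) (nat_lit 1140) (nat_lit 4307963906) (nat_lit 1216) (nat_lit 32460206599) (nat_lit 148) (nat_lit 5) (nat_lit 163) (nat_lit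 5) (nat_lit 164) (nat_lit 5) (nat_lit 289) (nat_lit 282) (nat_lit 149)) (XT.nd (nat_lit 78) (nat_lit 0) (nat_lit 76) (XT.lf (nat_lit 0) (nat_lit 4286683990) (nat_lit 1140) (nat_lit 15085547423) (nat_lit 1216) (nat_lit 19813307257) (nat_lit 149) (nat_lit 5) (nat_lit 164) (nat_lit 5) (nat_lit 165) (nat_lit 5) (nat_lit 290) (nat_lit 282) (nat_lit 148)) (XT.lf (nat_lit 0) (nat_lit 7623812487) (nat_lit 1140) (nat_lit 26356490957) (nat_lit 1216) (nat_lit 6277242240) (nat_lit 150) (nat_lit 5) (nat_lit 165) (nat_lit 5) (nat_lit 166) (nat_lit 5) (nat_lit 291) (nat_lit 282) (nat_lit 147)))) (XT.nd (nat_lit 78) (nat_lit 760) (nat_lit 0) (XT.lf (nat_lit 76) (nat_lit 3134303977) (nat_lit 0) (nat_lit 8371661997) (nat_lit 1216) (nat_lit 29865850915) (nat_lit 151) (nat_lit 5) (nat_lit 150) (nat_lit 5) (nat_lit 166) (nat_lit 5) (nat_lit 292) (nat_lit 282) (nat_lit 146)) (XT.nd (nat_lit 78) (nat_lit 836)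 (nat_lit 0) (XT.lf (nat_lit 0) (nat_lit 16030091732) (nat_lit 1140) (nat_lit 8067503685) (nat_lit 76) (nat_lit 18430778774) (nat_lit 151) (nat_lit 5) (nat_lit 166) (nat_lit 5) (nat_lit 152) (nat_lit 5) (nat_lit 293) (nat_lit 282) (nat_lit 145)) (XT.lf (nat_lit 0) (nat_lit 21119471035) (nat_lit 912) (nat_lit 19770037292) (nat_lit 76) (nat_lit 2843087684) (nat_lit 140) (nat_lit 5) (nat_lit 152) (nat_lit 5) (nat_lit 141) (nat_lit 5) (nat_lit 294) (nat_lit 282) (nat_lit 144))))))))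
noncomputable def xc115 : XT := (XT.nd (nat_lit 1716) (nat_lit 988) (nat_lit 0) (XT.nd (nat_lit 858) (nat_lit 2660) (nat_lit 0) (XT.nd (nat_lit 390) (nat_lit 1748) (nat_lit 0) (XT.nd (nat_lit 156) (nat_lit 1064) (nat_lit 0) (XT.nd (nat_lit 78) (nat_lit 532) (nat_lit 0) (XT.lf (nat_lit 0) (nat_lit 12769890176) (nat_lit 532) (nat_lit 14139492658) (nat_lit 608) (nat_lit 18074271868) (nat_lit 133) (nat_lit 5) (nat_lit 140) (nat_lit 5) (nat_lit 141) (nat_lit 5) (nat_lit 295) (nat_lit 282) (nat_lit 143)) (XT.lf (nat_lit 0) (nat_lit 937545532) (nat_lit 532) (nat_lit 32396233588) (nat_lit 608) (nat_lit 12953144861) (nat_lit 126) (nat_lit 5) (nat_lit 133) (nat_lit 5) (nat_lit 134) (nat_lit 5) (nat_lit 296) (nat_lit 282) (nat_lit 142))) (XT.nd (nat_lit 78) (nat_lit 1064) (nat_lit 0) (XT.lf (nat_lit 0) (nat_lit 36270693017) (nat_lit 532) (nat_lit 4278138968) (nat_lit 608) (nat_lit 7092448608) (nat_lit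 126) (nat_lit 5) (nat_lit 133) (nat_lit 5) (nat_lit 134) (nat_lit 5) (nat_lit 297) (nat_lit 282) (nat_lit 141)) (XT.nd (nat_lit 78) (nat_lit 608) (nat_lit 0) (XT.lf (nat_lit 0) (nat_lit 24540032962) (nat_lit 456) (nat_lit 24059854780) (nat_lit 532) (nat_lit 449216426) (nat_lit 120) (nat_lit 5) (nat_lit 126) (nat_lit 5) (nat_lit 127) (nat_lit 5) (nat_lit 298) (nat_lit 282) (nat_lit 140)) (XT.lf (nat_lit 0) (nat_lit 6725184386) (nat_lit 608) (nat_lit 38483764040) (nat_lit 76) (nat_lit 5306703939) (nat_lit 112) (nat_lit 5) (nat_lit 120) (nat_lit 5) (nat_lit 113) (nat_lit 5) (nat_lit 299) (nat_lit 282) (nat_lit 139))))) (XT.nd (nat_lit 234) (nat_lit 836) (nat_lit 0) (XT.nd (nat_lit 78) (nat_lit 912) (nat_lit 0) (XT.lf (nat_lit 0) (nat_lit 14743630447) (nat_lit 608) (nat_lit 1389046009) (nat_lit 76) (nat_lit 35907885462) (nat_lit 112) (nat_lit 5) (nat_lit 120) (nat_lit 5) (nat_lit 113) (nat_lit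 5) (nat_lit 300) (nat_lit 282) (nat_lit 138)) (XT.nd (nat_lit 78) (nat_lit 456) (nat_lit 0) (XT.lf (nat_lit 0) (nat_lit 23670286523) (nat_lit 532) (nat_lit 15468054661) (nat_lit 76) (nat_lit 14488162702) (nat_lit 106) (nat_lit 5) (nat_lit 113) (nat_lit 5) (nat_lit 107) (nat_lit 5) (nat_lit 301) (nat_lit 282) (nat_lit 137)) (XT.lf (nat_lit 0) (nat_lit 24737660540) (nat_lit 456) (nat_lit 8717828341) (nat_lit 532) (nat_lit 21823892970) (nat_lit 100) (nat_lit 5) (nat_lit 106) (nat_lit 5) (nat_lit 107) (nat_lit 5) (nat_lit 302) (nat_lit 282) (nat_lit 136)))) (XT.nd (nat_lit 78) (nat_lit 456) (nat_lit 0) (XT.lf (nat_lit 0) (nat_lit 10238631910) (nat_lit 380) (nat_lit 33971038738) (nat_lit 456) (nat_lit 12790846538) (nat_lit 95) (nat_lit 5) (nat_lit 100) (nat_lit 5) (nat_lit 101) (nat_lit 5) (nat_lit 303) (nat_lit 282) (nat_lit 135)) (XT.nd (nat_lit 78) (nat_lit 456) (nat_lit 0) (XT.lf (nat_lit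 0) (nat_lit 53603466717) (nat_lit 380) (nat_lit 2296977391) (nat_lit 456) (nat_lit 2895303513) (nat_lit 95) (nat_lit 5) (nat_lit 100) (nat_lit 5) (nat_lit 101) (nat_lit 5) (nat_lit 304) (nat_lit 282) (nat_lit 134)) (XT.lf (nat_lit 0) (nat_lit 8024544236) (nat_lit 456) (nat_lit 21824746228) (nat_lit 76) (nat_lit 30809018690) (nat_lit 89) (nat_lit 5) (nat_lit 95) (nat_lit 5) (nat_lit 90) (nat_lit 5) (nat_lit 305) (nat_lit 282) (nat_lit 133)))))) (XT.nd (nat_lit 390) (nat_lit 1216) (nat_lit 0) (XT.nd (nat_lit 156) (nat_lit 684) (nat_lit 0) (XT.nd (nat_lit 78) (nat_lit 380) (nat_lit 0) (XT.lf (nat_lit 0) (nat_lit 19757338655) (nat_lit 456) (nat_lit 39686485922) (nat_lit 76) (nat_lit 3159513426) (nat_lit 84) (nat_lit 5) (nat_lit 90) (nat_lit 5) (nat_lit 85) (nat_lit 5) (nat_lit 306) (nat_lit 282) (nat_lit 132)) (XT.lf (nat_lit 0) (nat_lit 5513907130) (nat_lit 380) (nat_lit 27141661739) (nat_lit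 456) (nat_lit 31972689575) (nat_lit 79) (nat_lit 5) (nat_lit 84) (nat_lit 5) (nat_lit 85) (nat_lit 5) (nat_lit 307) (nat_lit 282) (nat_lit 131))) (XT.nd (nat_lit 78) (nat_lit 684) (nat_lit 0) (XT.lf (nat_lit 0) (nat_lit 46674130789) (nat_lit 456) (nat_lit 13010591639) (nat_lit 76) (nat_lit 7055443715) (nat_lit 79) (nat_lit 5) (nat_lit 85) (nat_lit 5) (nat_lit 80) (nat_lit 5) (nat_lit 308) (nat_lit 282) (nat_lit 130)) (XT.nd (nat_lit 78) (nat_lit 380) (nat_lit 0) (XT.lf (nat_lit 0) (nat_lit 35820639009) (nat_lit 304) (nat_lit 26189074883) (nat_lit 380) (nat_lit 6929476203) (nat_lit 75) (nat_lit 5) (nat_lit 79) (nat_lit 5) (nat_lit 80) (nat_lit 5) (nat_lit 309) (nat_lit 282) (nat_lit 129)) (XT.lf (nat_lit 0) (nat_lit 7110342848) (nat_lit 380) (nat_lit 54956769635) (nat_lit 76) (nat_lit 9167665595) (nat_lit 70) (nat_lit 5) (nat_lit 75) (nat_lit 5) (nat_lit 71) (nat_lit 5) (nat_lit 310) (nat_lit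 282) (nat_lit 128))))) (XT.nd (nat_lit 234) (nat_lit 608) (nat_lit 0) (XT.nd (nat_lit 78) (nat_lit 608) (nat_lit 0) (XT.lf (nat_lit 0) (nat_lit 22316747388) (nat_lit 380) (nat_lit 5138797491) (nat_lit 76) (nat_lit 46169308341) (nat_lit 70) (nat_lit 5) (nat_lit 75) (nat_lit 5) (nat_lit 71) (nat_lit 5) (nat_lit 311) (nat_lit 282) (nat_lit 127)) (XT.nd (nat_lit 78) (nat_lit 304) (nat_lit 0) (XT.lf (nat_lit 0) (nat_lit 38833932749) (nat_lit 380) (nat_lit 28104396461) (nat_lit 76) (nat_lit 9179592160) (nat_lit 66) (nat_lit 5) (nat_lit 71) (nat_lit 5) (nat_lit 67) (nat_lit 5) (nat_lit 312) (nat_lit 282) (nat_lit 126)) (XT.lf (nat_lit 0) (nat_lit 25412485106) (nat_lit 304) (nat_lit 31337412873) (nat_lit 380) (nat_lit 21968560253) (nat_lit 62) (nat_lit 5) (nat_lit 66) (nat_lit 5) (nat_lit 67) (nat_lit 5) (nat_lit 313) (nat_lit 282) (nat_lit 125)))) (XT.nd (nat_lit 78) (nat_lit 380) (nat_lit 0) (XT.lf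 (nat_lit 0) (nat_lit 702378361) (nat_lit 228) (nat_lit 75214465388) (nat_lit 304) (nat_lit 5521525504) (nat_lit 59) (nat_lit 5) (nat_lit 62) (nat_lit 5) (nat_lit 63) (nat_lit 5) (nat_lit 314) (nat_lit 282) (nat_lit 124)) (XT.nd (nat_lit 78) (nat_lit 304) (nat_lit 0) (XT.lf (nat_lit 0) (nat_lit 12387290570) (nat_lit 304) (nat_lit 26189886733) (nat_lit 76) (nat_lit 45687653088) (nat_lit 58) (nat_lit 5) (nat_lit 62) (nat_lit 5) (nat_lit 59) (nat_lit 5) (nat_lit 315) (nat_lit 282) (nat_lit 123)) (XT.lf (nat_lit 0) (nat_lit 31383395548) (nat_lit 380) (nat_lit 55581513368) (nat_lit 76) (nat_lit 256886811) (nat_lit 54) (nat_lit 5) (nat_lit 59) (nat_lit 5) (nat_lit 55) (nat_lit 5) (nat_lit 316) (nat_lit 282) (nat_lit 122))))))) (XT.nd (nat_lit 35256) (nat_lit 0) (nat_lit 6460) (XT.nd (nat_lit 390) (nat_lit 228) (nat_lit 0) (XT.nd (nat_lit 156) (nat_lit 532) (nat_lit 0) (XT.nd (nat_lit 78) (nat_lit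 0) (nat_lit 0) (XT.lf (nat_lit 0) (nat_lit 2240043665) (nat_lit 228) (nat_lit 49770778433) (nat_lit 304) (nat_lit 38295344076) (nat_lit 51) (nat_lit 5) (nat_lit 54) (nat_lit 5) (nat_lit 55) (nat_lit 5) (nat_lit 317) (nat_lit 282) (nat_lit 121)) (XT.lf (nat_lit 0) (nat_lit 64111876583) (nat_lit 228) (nat_lit 10128306622) (nat_lit 304) (nat_lit 19287457266) (nat_lit 51) (nat_lit 5) (nat_lit 54) (nat_lit 5) (nat_lit 55) (nat_lit 5) (nat_lit 318) (nat_lit 282) (nat_lit 120))) (XT.nd (nat_lit 78) (nat_lit 228) (nat_lit 0) (XT.lf (nat_lit 0) (nat_lit 1277412720) (nat_lit 304) (nat_lit 64408060667) (nat_lit 76) (nat_lit 31205933331) (nat_lit 47) (nat_lit 5) (nat_lit 51) (nat_lit 5) (nat_lit 48) (nat_lit 5) (nat_lit 319) (nat_lit 282) (nat_lit 119)) (XT.nd (nat_lit 78) (nat_lit 228) (nat_lit 0) (XT.lf (nat_lit 0) (nat_lit 22881880829) (nat_lit 304) (nat_lit 2624253481) (nat_lit 76) (nat_lit 74899192511)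 (nat_lit 47) (nat_lit 5) (nat_lit 51) (nat_lit 5) (nat_lit 48) (nat_lit 5) (nat_lit 320) (nat_lit 282) (nat_lit 118)) (XT.lf (nat_lit 0) (nat_lit 46341805738) (nat_lit 304) (nat_lit 40757588090) (nat_lit 76) (nat_lit 16972293964) (nat_lit 44) (nat_lit 5) (nat_lit 48) (nat_lit 5) (nat_lit 45) (nat_lit 5) (nat_lit 321) (nat_lit 282) (nat_lit 117))))) (XT.nd (nat_lit 34632) (nat_lit 0) (nat_lit 9044) (XT.nd (nat_lit 34476) (nat_lit 0) (nat_lit 8968) (XT.lf (nat_lit 0) (nat_lit 24909964547) (nat_lit 228) (nat_lit 46587552608) (nat_lit 304) (nat_lit 36408167726) (nat_lit 41) (nat_lit 5) (nat_lit 44) (nat_lit 5) (nat_lit 45) (nat_lit 5) (nat_lit 322) (nat_lit 282) (nat_lit 116)) (XT.nd (nat_lit 78) (nat_lit 0) (nat_lit 0) (XT.lf (nat_lit 0) (nat_lit 13253035281) (nat_lit 1140) (nat_lit 1755960072) (nat_lit 1140) (nat_lit 1755960072) (nat_lit 159) (nat_lit 3) (nat_lit 174) (nat_lit 3) (nat_lit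 174) (nat_lit 5) (nat_lit 283) (nat_lit 283) (nat_lit 154)) (XT.lf (nat_lit 76) (nat_lit 20522558055) (nat_lit 0) (nat_lit 6930648279) (nat_lit 1140) (nat_lit 6906225903) (nat_lit 160) (nat_lit 5) (nat_lit 159) (nat_lit 3) (nat_lit 174) (nat_lit 5) (nat_lit 284) (nat_lit 283) (nat_lit 153)))) (XT.nd (nat_lit 78) (nat_lit 0) (nat_lit 76) (XT.lf (nat_lit 76) (nat_lit 10640531759) (nat_lit 0) (nat_lit 18106780009) (nat_lit 1140) (nat_lit 6474141819) (nat_lit 161) (nat_lit 5) (nat_lit 160) (nat_lit 5) (nat_lit 175) (nat_lit 5) (nat_lit 285) (nat_lit 283) (nat_lit 152)) (XT.nd (nat_lit 78) (nat_lit 0) (nat_lit 0) (XT.lf (nat_lit 76) (nat_lit 383625490) (nat_lit 0) (nat_lit 29992563436) (nat_lit 1140) (nat_lit 5742296781) (nat_lit 162) (nat_lit 5) (nat_lit 161) (nat_lit 5) (nat_lit 176) (nat_lit 5) (nat_lit 286) (nat_lit 283) (nat_lit 151)) (XT.lf (nat_lit 76) (nat_lit 26920520164) (nat_lit 0)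 (nat_lit 5594890014) (nat_lit 1140) (nat_lit 4532103390) (nat_lit 162) (nat_lit 5) (nat_lit 161) (nat_lit 5) (nat_lit 176) (nat_lit 5) (nat_lit 287) (nat_lit 283) (nat_lit 150)))))) (XT.nd (nat_lit 390) (nat_lit 1672) (nat_lit 0) (XT.nd (nat_lit 156) (nat_lit 1064) (nat_lit 0) (XT.nd (nat_lit 78) (nat_lit 0) (nat_lit 76) (XT.lf (nat_lit 76) (nat_lit 16895305257) (nat_lit 0) (nat_lit 18216323142) (nat_lit 1140) (nat_lit 2900873955) (nat_lit 163) (nat_lit 5) (nat_lit 162) (nat_lit 5) (nat_lit 177) (nat_lit 5) (nat_lit 288) (nat_lit 283) (nat_lit 149)) (XT.lf (nat_lit 76) (nat_lit 6453110908) (nat_lit 0) (nat_lit 31673489803) (nat_lit 1140) (nat_lit 890481675) (nat_lit 164) (nat_lit 5) (nat_lit 163) (nat_lit 5) (nat_lit 178) (nat_lit 5) (nat_lit 289) (nat_lit 283) (nat_lit 148))) (XT.nd (nat_lit 78) (nat_lit 0) (nat_lit 76) (XT.lf (nat_lit 0) (nat_lit 1595522376) (nat_lit 1140) (nat_lit 4423152117)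 (nat_lit 1216) (nat_lit 34040907111) (nat_lit 148) (nat_lit 5) (nat_lit 163) (nat_lit 5) (nat_lit 164) (nat_lit 5) (nat_lit 290) (nat_lit 283) (nat_lit 147)) (XT.nd (nat_lit 78) (nat_lit 0) (nat_lit 76) (XT.lf (nat_lit 0) (nat_lit 4633130395) (nat_lit 1140) (nat_lit 15737902631) (nat_lit 1216) (nat_lit 20769545547) (nat_lit 149) (nat_lit 5) (nat_lit 164) (nat_lit 5) (nat_lit 165) (nat_lit 5) (nat_lit 291) (nat_lit 283) (nat_lit 146)) (XT.lf (nat_lit 0) (nat_lit 8131508949) (nat_lit 1140) (nat_lit 27570984138) (nat_lit 1216) (nat_lit 6563874072) (nat_lit 150) (nat_lit 5) (nat_lit 165) (nat_lit 5) (nat_lit 166) (nat_lit 5) (nat_lit 292) (nat_lit 283) (nat_lit 145))))) (XT.nd (nat_lit 234) (nat_lit 1064) (nat_lit 0) (XT.nd (nat_lit 78) (nat_lit 760) (nat_lit 0) (XT.lf (nat_lit 76) (nat_lit 3391388571) (nat_lit 0) (nat_lit 8811322265) (nat_lit 1216) (nat_lit 31233805278) (nat_lit 151) (nat_lit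 5) (nat_lit 150) (nat_lit 5) (nat_lit 166) (nat_lit 5) (nat_lit 293) (nat_lit 283) (nat_lit 144)) (XT.nd (nat_lit 78) (nat_lit 836) (nat_lit 0) (XT.lf (nat_lit 0) (nat_lit 16947066753) (nat_lit 1140) (nat_lit 8371389706) (nat_lit 76) (nat_lit 19332635926) (nat_lit 151) (nat_lit 5) (nat_lit 166) (nat_lit 5) (nat_lit 152) (nat_lit 5) (nat_lit 294) (nat_lit 283) (nat_lit 143)) (XT.lf (nat_lit 0) (nat_lit 22286208257) (nat_lit 912) (nat_lit 20658212552) (nat_lit 76) (nat_lit 2971256946) (nat_lit 140) (nat_lit 5) (nat_lit 152) (nat_lit 5) (nat_lit 141) (nat_lit 5) (nat_lit 295) (nat_lit 283) (nat_lit 142)))) (XT.nd (nat_lit 78) (nat_lit 532) (nat_lit 0) (XT.lf (nat_lit 0) (nat_lit 13505835447) (nat_lit 532) (nat_lit 14855442494) (nat_lit 608) (nat_lit 18868152292) (nat_lit 133) (nat_lit 5) (nat_lit 140) (nat_lit 5) (nat_lit 141) (nat_lit 5) (nat_lit 296) (nat_lit 283) (nat_lit 141)) (XT.nd (nat_lit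 78) (nat_lit 0) (nat_lit 0) (XT.lf (nat_lit 0) (nat_lit 1082473503) (nat_lit 532) (nat_lit 34020212992) (nat_lit 608) (nat_lit 13495312918) (nat_lit 126) (nat_lit 5) (nat_lit 133) (nat_lit 5) (nat_lit 134) (nat_lit 5) (nat_lit 297) (nat_lit 283) (nat_lit 140)) (XT.lf (nat_lit 0) (nat_lit 38177609282) (nat_lit 532) (nat_lit 4496015178) (nat_lit 608) (nat_lit 7346605147) (nat_lit 126) (nat_lit 5) (nat_lit 133) (nat_lit 5) (nat_lit 134) (nat_lit 5) (nat_lit 298) (nat_lit 283) (nat_lit 139))))))))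
noncomputable def xc116 : XT := (XT.nd (nat_lit 1716) (nat_lit 228) (nat_lit 0) (XT.nd (nat_lit 858) (nat_lit 2432) (nat_lit 0) (XT.nd (nat_lit 390) (nat_lit 1596) (nat_lit 0) (XT.nd (nat_lit 156) (nat_lit 912) (nat_lit 0) (XT.nd (nat_lit 78) (nat_lit 608) (nat_lit 0) (XT.lf (nat_lit 0) (nat_lit 25860802244) (nat_lit 456) (nat_lit 25262660018) (nat_lit 532) (nat_lit 375104482) (nat_lit 120) (nat_lit 5) (nat_lit 126) (nat_lit 5) (nat_lit 127) (nat_lit 5) (nat_lit 299) (nat_lit 283) (nat_lit 138)) (XT.lf (nat_lit 0) (nat_lit 7152537042) (nat_lit 608) (nat_lit 40311983132) (nat_lit 76) (nat_lit 5574010737) (nat_lit 112) (nat_lit 5) (nat_lit 120) (nat_lit 5) (nat_lit 113) (nat_lit 5) (nat_lit 300) (nat_lit 283) (nat_lit 137))) (XT.nd (nat_lit 78) (nat_lit 912) (nat_lit 0) (XT.lf (nat_lit 0) (nat_lit 15567567623) (nat_lit 608) (nat_lit 1367099157) (nat_lit 76) (nat_lit 37705157451) (nat_lit 112)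 (nat_lit 5) (nat_lit 120) (nat_lit 5) (nat_lit 113) (nat_lit 5) (nat_lit 301) (nat_lit 283) (nat_lit 136)) (XT.nd (nat_lit 78) (nat_lit 456) (nat_lit 0) (XT.lf (nat_lit 0) (nat_lit 24937329641) (nat_lit 532) (nat_lit 16150069459) (nat_lit 76) (nat_lit 15217768770) (nat_lit 106) (nat_lit 5) (nat_lit 113) (nat_lit 5) (nat_lit 107) (nat_lit 5) (nat_lit 302) (nat_lit 283) (nat_lit 135)) (XT.lf (nat_lit 0) (nat_lit 26063311886) (nat_lit 456) (nat_lit 9145355966) (nat_lit 532) (nat_lit 22832123008) (nat_lit 100) (nat_lit 5) (nat_lit 106) (nat_lit 5) (nat_lit 107) (nat_lit 5) (nat_lit 303) (nat_lit 283) (nat_lit 134))))) (XT.nd (nat_lit 234) (nat_lit 760) (nat_lit 0) (XT.nd (nat_lit 78) (nat_lit 456) (nat_lit 0) (XT.lf (nat_lit 0) (nat_lit 10839195905) (nat_lit 380) (nat_lit 35658462573) (nat_lit 456) (nat_lit 13350418535) (nat_lit 95) (nat_lit 5) (nat_lit 100) (nat_lit 5) (nat_lit 101) (nat_lit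 5) (nat_lit 304) (nat_lit 283) (nat_lit 133)) (XT.nd (nat_lit 78) (nat_lit 456) (nat_lit 0) (XT.lf (nat_lit 0) (nat_lit 56368051862) (nat_lit 380) (nat_lit 2401228068) (nat_lit 456) (nat_lit 2963906470) (nat_lit 95) (nat_lit 5) (nat_lit 100) (nat_lit 5) (nat_lit 101) (nat_lit 5) (nat_lit 305) (nat_lit 283) (nat_lit 132)) (XT.lf (nat_lit 0) (nat_lit 8497806601) (nat_lit 456) (nat_lit 22830251332) (nat_lit 76) (nat_lit 32360881544) (nat_lit 89) (nat_lit 5) (nat_lit 95) (nat_lit 5) (nat_lit 90) (nat_lit 5) (nat_lit 306) (nat_lit 283) (nat_lit 131)))) (XT.nd (nat_lit 78) (nat_lit 380) (nat_lit 0) (XT.lf (nat_lit 0) (nat_lit 20814744303) (nat_lit 456) (nat_lit 41585468492) (nat_lit 76) (nat_lit 3331087773) (nat_lit 84) (nat_lit 5) (nat_lit 90) (nat_lit 5) (nat_lit 85) (nat_lit 5) (nat_lit 307) (nat_lit 283) (nat_lit 130)) (XT.nd (nat_lit 78) (nat_lit 0) (nat_lit 0) (XT.lf (nat_lit 0) (nat_lit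 5872497909) (nat_lit 380) (nat_lit 28482873592) (nat_lit 456) (nat_lit 33502176593) (nat_lit 79) (nat_lit 5) (nat_lit 84) (nat_lit 5) (nat_lit 85) (nat_lit 5) (nat_lit 308) (nat_lit 283) (nat_lit 129)) (XT.lf (nat_lit 0) (nat_lit 49071815189) (nat_lit 456) (nat_lit 13580296336) (nat_lit 76) (nat_lit 7423036404) (nat_lit 79) (nat_lit 5) (nat_lit 85) (nat_lit 5) (nat_lit 80) (nat_lit 5) (nat_lit 309) (nat_lit 283) (nat_lit 128)))))) (XT.nd (nat_lit 390) (nat_lit 1140) (nat_lit 0) (XT.nd (nat_lit 156) (nat_lit 608) (nat_lit 0) (XT.nd (nat_lit 78) (nat_lit 380) (nat_lit 0) (XT.lf (nat_lit 0) (nat_lit 37690179016) (nat_lit 304) (nat_lit 27481706534) (nat_lit 380) (nat_lit 7212311389) (nat_lit 75) (nat_lit 5) (nat_lit 79) (nat_lit 5) (nat_lit 80) (nat_lit 5) (nat_lit 310) (nat_lit 283) (nat_lit 127)) (XT.lf (nat_lit 0) (nat_lit 7526198229) (nat_lit 380) (nat_lit 57625315620) (nat_lit 76) (nat_lit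 9643098597) (nat_lit 70) (nat_lit 5) (nat_lit 75) (nat_lit 5) (nat_lit 71) (nat_lit 5) (nat_lit 311) (nat_lit 283) (nat_lit 126))) (XT.nd (nat_lit 78) (nat_lit 608) (nat_lit 0) (XT.lf (nat_lit 0) (nat_lit 23490049746) (nat_lit 380) (nat_lit 5320220702) (nat_lit 76) (nat_lit 48494011589) (nat_lit 70) (nat_lit 5) (nat_lit 75) (nat_lit 5) (nat_lit 71) (nat_lit 5) (nat_lit 312) (nat_lit 283) (nat_lit 125)) (XT.nd (nat_lit 78) (nat_lit 304) (nat_lit 0) (XT.lf (nat_lit 0) (nat_lit 40831235294) (nat_lit 380) (nat_lit 29434687909) (nat_lit 76) (nat_lit 9656140445) (nat_lit 66) (nat_lit 5) (nat_lit 71) (nat_lit 5) (nat_lit 67) (nat_lit 5) (nat_lit 313) (nat_lit 283) (nat_lit 124)) (XT.lf (nat_lit 0) (nat_lit 26755889930) (nat_lit 304) (nat_lit 32885160566) (nat_lit 380) (nat_lit 23011639382) (nat_lit 62) (nat_lit 5) (nat_lit 66) (nat_lit 5) (nat_lit 67) (nat_lit 5) (nat_lit 314) (nat_lit 283) (nat_lit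 123))))) (XT.nd (nat_lit 234) (nat_lit 532) (nat_lit 0) (XT.nd (nat_lit 78) (nat_lit 380) (nat_lit 0) (XT.lf (nat_lit 0) (nat_lit 809655841) (nat_lit 228) (nat_lit 78955001289) (nat_lit 304) (nat_lit 5743993795) (nat_lit 59) (nat_lit 5) (nat_lit 62) (nat_lit 5) (nat_lit 63) (nat_lit 5) (nat_lit 315) (nat_lit 283) (nat_lit 122)) (XT.nd (nat_lit 78) (nat_lit 304) (nat_lit 0) (XT.lf (nat_lit 0) (nat_lit 13056714050) (nat_lit 304) (nat_lit 27429590556) (nat_lit 76) (nat_lit 47990193733) (nat_lit 58) (nat_lit 5) (nat_lit 62) (nat_lit 5) (nat_lit 59) (nat_lit 5) (nat_lit 316) (nat_lit 283) (nat_lit 121)) (XT.lf (nat_lit 0) (nat_lit 33001079247) (nat_lit 380) (nat_lit 58291467957) (nat_lit 76) (nat_lit 288814507) (nat_lit 54) (nat_lit 5) (nat_lit 59) (nat_lit 5) (nat_lit 55) (nat_lit 5) (nat_lit 317) (nat_lit 283) (nat_lit 120)))) (XT.nd (nat_lit 78) (nat_lit 304) (nat_lit 0) (XT.lf (nat_lit 0)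 (nat_lit 2419185585) (nat_lit 228) (nat_lit 52239026741) (nat_lit 304) (nat_lit 40161791556) (nat_lit 51) (nat_lit 5) (nat_lit 54) (nat_lit 5) (nat_lit 55) (nat_lit 5) (nat_lit 318) (nat_lit 283) (nat_lit 119)) (XT.nd (nat_lit 78) (nat_lit 304) (nat_lit 0) (XT.lf (nat_lit 0) (nat_lit 67381413019) (nat_lit 228) (nat_lit 10615397560) (nat_lit 304) (nat_lit 20205811344) (nat_lit 51) (nat_lit 5) (nat_lit 54) (nat_lit 5) (nat_lit 55) (nat_lit 5) (nat_lit 319) (nat_lit 283) (nat_lit 118)) (XT.lf (nat_lit 0) (nat_lit 1385048606) (nat_lit 304) (nat_lit 67564245638) (nat_lit 76) (nat_lit 32785312500) (nat_lit 47) (nat_lit 5) (nat_lit 51) (nat_lit 5) (nat_lit 48) (nat_lit 5) (nat_lit 320) (nat_lit 283) (nat_lit 117))))))) (XT.nd (nat_lit 35334) (nat_lit 0) (nat_lit 4712) (XT.nd (nat_lit 34866) (nat_lit 0) (nat_lit 7904) (XT.nd (nat_lit 34632) (nat_lit 0) (nat_lit 8740) (XT.nd (nat_lit 78) (nat_lit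 228) (nat_lit 0) (XT.lf (nat_lit 0) (nat_lit 24067656061) (nat_lit 304) (nat_lit 2694306096) (nat_lit 76) (nat_lit 78662325949) (nat_lit 47) (nat_lit 5) (nat_lit 51) (nat_lit 5) (nat_lit 48) (nat_lit 5) (nat_lit 321) (nat_lit 283) (nat_lit 116)) (XT.lf (nat_lit 0) (nat_lit 48699347434) (nat_lit 304) (nat_lit 42734984514) (nat_lit 76) (nat_lit 17839674672) (nat_lit 44) (nat_lit 5) (nat_lit 48) (nat_lit 5) (nat_lit 45) (nat_lit 5) (nat_lit 322) (nat_lit 283) (nat_lit 115))) (XT.nd (nat_lit 78) (nat_lit 0) (nat_lit 0) (XT.lf (nat_lit 0) (nat_lit 14001534100) (nat_lit 1140) (nat_lit 1799452407) (nat_lit 1140) (nat_lit 1799452407) (nat_lit 159) (nat_lit 3) (nat_lit 174) (nat_lit 3) (nat_lit 174) (nat_lit 5) (nat_lit 284) (nat_lit 284) (nat_lit 152)) (XT.nd (nat_lit 78) (nat_lit 0) (nat_lit 76) (XT.lf (nat_lit 76) (nat_lit 21634757269) (nat_lit 0) (nat_lit 7355454952) (nat_lit 1140) (nat_lit 7081901508)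 (nat_lit 160) (nat_lit 5) (nat_lit 159) (nat_lit 3) (nat_lit 174) (nat_lit 5) (nat_lit 285) (nat_lit 284) (nat_lit 151)) (XT.lf (nat_lit 76) (nat_lit 11262031773) (nat_lit 0) (nat_lit 19079308656) (nat_lit 1140) (nat_lit 6636143323) (nat_lit 161) (nat_lit 5) (nat_lit 160) (nat_lit 5) (nat_lit 175) (nat_lit 5) (nat_lit 286) (nat_lit 284) (nat_lit 150))))) (XT.nd (nat_lit 234) (nat_lit 988) (nat_lit 0) (XT.nd (nat_lit 78) (nat_lit 0) (nat_lit 0) (XT.lf (nat_lit 76) (nat_lit 495240779) (nat_lit 0) (nat_lit 31549233941) (nat_lit 1140) (nat_lit 5875124677) (nat_lit 162) (nat_lit 5) (nat_lit 161) (nat_lit 5) (nat_lit 176) (nat_lit 5) (nat_lit 287) (nat_lit 284) (nat_lit 149)) (XT.nd (nat_lit 78) (nat_lit 0) (nat_lit 76) (XT.lf (nat_lit 76) (nat_lit 28354578567) (nat_lit 0) (nat_lit 5928960545) (nat_lit 1140) (nat_lit 4611768613) (nat_lit 162) (nat_lit 5) (nat_lit 161) (nat_lit 5) (nat_lit 176)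 (nat_lit 5) (nat_lit 288) (nat_lit 284) (nat_lit 148)) (XT.lf (nat_lit 76) (nat_lit 17830536922) (nat_lit 0) (nat_lit 19172624620) (nat_lit 1140) (nat_lit 2905591407) (nat_lit 163) (nat_lit 5) (nat_lit 162) (nat_lit 5) (nat_lit 177) (nat_lit 5) (nat_lit 289) (nat_lit 284) (nat_lit 147)))) (XT.nd (nat_lit 78) (nat_lit 1140) (nat_lit 0) (XT.lf (nat_lit 76) (nat_lit 6868313481) (nat_lit 0) (nat_lit 33294568305) (nat_lit 1140) (nat_lit 800874313) (nat_lit 164) (nat_lit 5) (nat_lit 163) (nat_lit 5) (nat_lit 178) (nat_lit 5) (nat_lit 290) (nat_lit 284) (nat_lit 146)) (XT.nd (nat_lit 78) (nat_lit 0) (nat_lit 76) (XT.lf (nat_lit 0) (nat_lit 1800549979) (nat_lit 1140) (nat_lit 4553416312) (nat_lit 1216) (nat_lit 35704576214) (nat_lit 148) (nat_lit 5) (nat_lit 163) (nat_lit 5) (nat_lit 164) (nat_lit 5) (nat_lit 291) (nat_lit 284) (nat_lit 145)) (XT.lf (nat_lit 0) (nat_lit 4984616579) (nat_lit 1140)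 (nat_lit 16432351355) (nat_lit 1216) (nat_lit 21776796454) (nat_lit 149) (nat_lit 5) (nat_lit 164) (nat_lit 5) (nat_lit 165) (nat_lit 5) (nat_lit 292) (nat_lit 284) (nat_lit 144)))))) (XT.nd (nat_lit 390) (nat_lit 2052) (nat_lit 0) (XT.nd (nat_lit 156) (nat_lit 1292) (nat_lit 0) (XT.nd (nat_lit 78) (nat_lit 0) (nat_lit 0) (XT.lf (nat_lit 0) (nat_lit 8652828922) (nat_lit 1140) (nat_lit 28855808748) (nat_lit 1216) (nat_lit 6867369108) (nat_lit 150) (nat_lit 5) (nat_lit 165) (nat_lit 5) (nat_lit 166) (nat_lit 5) (nat_lit 293) (nat_lit 284) (nat_lit 143)) (XT.lf (nat_lit 76) (nat_lit 3651995999) (nat_lit 0) (nat_lit 9271005991) (nat_lit 1216) (nat_lit 32681810115) (nat_lit 151) (nat_lit 5) (nat_lit 150) (nat_lit 5) (nat_lit 166) (nat_lit 5) (nat_lit 294) (nat_lit 284) (nat_lit 142))) (XT.nd (nat_lit 78) (nat_lit 1368) (nat_lit 0) (XT.lf (nat_lit 0) (nat_lit 17899155179) (nat_lit 1140) (nat_lit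 8699719587) (nat_lit 76) (nat_lit 20281415761) (nat_lit 151) (nat_lit 5) (nat_lit 166) (nat_lit 5) (nat_lit 152) (nat_lit 5) (nat_lit 295) (nat_lit 284) (nat_lit 141)) (XT.nd (nat_lit 78) (nat_lit 532) (nat_lit 0) (XT.lf (nat_lit 0) (nat_lit 23500984585) (nat_lit 912) (nat_lit 21600123991) (nat_lit 76) (nat_lit 3107134876) (nat_lit 140) (nat_lit 5) (nat_lit 152) (nat_lit 5) (nat_lit 141) (nat_lit 5) (nat_lit 296) (nat_lit 284) (nat_lit 140)) (XT.lf (nat_lit 0) (nat_lit 14269517934) (nat_lit 532) (nat_lit 15606355394) (nat_lit 608) (nat_lit 19711937984) (nat_lit 133) (nat_lit 5) (nat_lit 140) (nat_lit 5) (nat_lit 141) (nat_lit 5) (nat_lit 297) (nat_lit 284) (nat_lit 139))))) (XT.nd (nat_lit 234) (nat_lit 1064) (nat_lit 0) (XT.nd (nat_lit 78) (nat_lit 456) (nat_lit 0) (XT.lf (nat_lit 0) (nat_lit 1225532049) (nat_lit 532) (nat_lit 35725003891) (nat_lit 608) (nat_lit 14074396763) (nat_lit 126)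 (nat_lit 5) (nat_lit 133) (nat_lit 5) (nat_lit 134) (nat_lit 5) (nat_lit 298) (nat_lit 284) (nat_lit 138)) (XT.nd (nat_lit 78) (nat_lit 456) (nat_lit 0) (XT.lf (nat_lit 0) (nat_lit 40171189623) (nat_lit 532) (nat_lit 4724416174) (nat_lit 608) (nat_lit 7622809879) (nat_lit 126) (nat_lit 5) (nat_lit 133) (nat_lit 5) (nat_lit 134) (nat_lit 5) (nat_lit 299) (nat_lit 284) (nat_lit 137)) (XT.lf (nat_lit 0) (nat_lit 27238892365) (nat_lit 456) (nat_lit 26525622950) (nat_lit 532) (nat_lit 306265361) (nat_lit 120) (nat_lit 5) (nat_lit 126) (nat_lit 5) (nat_lit 127) (nat_lit 5) (nat_lit 300) (nat_lit 284) (nat_lit 136)))) (XT.nd (nat_lit 78) (nat_lit 456) (nat_lit 0) (XT.lf (nat_lit 0) (nat_lit 7592788326) (nat_lit 608) (nat_lit 42240535478) (nat_lit 76) (nat_lit 5854499574) (nat_lit 112) (nat_lit 5) (nat_lit 120) (nat_lit 5) (nat_lit 113) (nat_lit 5) (nat_lit 301) (nat_lit 284) (nat_lit 135)) (XT.nd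 (nat_lit 78) (nat_lit 456) (nat_lit 0) (XT.lf (nat_lit 0) (nat_lit 16424635939) (nat_lit 608) (nat_lit 1352552390) (nat_lit 76) (nat_lit 39592118466) (nat_lit 112) (nat_lit 5) (nat_lit 120) (nat_lit 5) (nat_lit 113) (nat_lit 5) (nat_lit 302) (nat_lit 284) (nat_lit 134)) (XT.lf (nat_lit 0) (nat_lit 26259959200) (nat_lit 532) (nat_lit 16874681381) (nat_lit 76) (nat_lit 15983371886) (nat_lit 106) (nat_lit 5) (nat_lit 113) (nat_lit 5) (nat_lit 107) (nat_lit 5) (nat_lit 303) (nat_lit 284) (nat_lit 133))))))))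
noncomputable def xc117 : XT := (XT.nd (nat_lit 36348) (nat_lit 0) (nat_lit 2432) (XT.nd (nat_lit 858) (nat_lit 1444) (nat_lit 0) (XT.nd (nat_lit 390) (nat_lit 1368) (nat_lit 0) (XT.nd (nat_lit 156) (nat_lit 836) (nat_lit 0) (XT.nd (nat_lit 78) (nat_lit 380) (nat_lit 0) (XT.lf (nat_lit 0) (nat_lit 27446992961) (nat_lit 456) (nat_lit 9595037558) (nat_lit 532) (nat_lit 23898477810) (nat_lit 100) (nat_lit 5) (nat_lit 106) (nat_lit 5) (nat_lit 107) (nat_lit 5) (nat_lit 304) (nat_lit 284) (nat_lit 132)) (XT.lf (nat_lit 0) (nat_lit 11461547899) (nat_lit 380) (nat_lit 37431292185) (nat_lit 456) (nat_lit 13945404015) (nat_lit 95) (nat_lit 5) (nat_lit 100) (nat_lit 5) (nat_lit 101) (nat_lit 5) (nat_lit 305) (nat_lit 284) (nat_lit 131))) (XT.nd (nat_lit 78) (nat_lit 836) (nat_lit 0) (XT.lf (nat_lit 0) (nat_lit 59263018454) (nat_lit 380) (nat_lit 2511676599) (nat_lit 456) (nat_lit 3043020415) (nat_lit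 95) (nat_lit 5) (nat_lit 100) (nat_lit 5) (nat_lit 101) (nat_lit 5) (nat_lit 306) (nat_lit 284) (nat_lit 130)) (XT.nd (nat_lit 78) (nat_lit 380) (nat_lit 0) (XT.lf (nat_lit 0) (nat_lit 8988034937) (nat_lit 456) (nat_lit 23894002259) (nat_lit 76) (nat_lit 33989276569) (nat_lit 89) (nat_lit 5) (nat_lit 95) (nat_lit 5) (nat_lit 90) (nat_lit 5) (nat_lit 307) (nat_lit 284) (nat_lit 129)) (XT.lf (nat_lit 0) (nat_lit 21918555182) (nat_lit 456) (nat_lit 43587334455) (nat_lit 76) (nat_lit 3509976563) (nat_lit 84) (nat_lit 5) (nat_lit 90) (nat_lit 5) (nat_lit 85) (nat_lit 5) (nat_lit 308) (nat_lit 284) (nat_lit 128))))) (XT.nd (nat_lit 234) (nat_lit 684) (nat_lit 0) (XT.nd (nat_lit 78) (nat_lit 304) (nat_lit 0) (XT.lf (nat_lit 0) (nat_lit 6241311396) (nat_lit 380) (nat_lit 29892621595) (nat_lit 456) (nat_lit 35114566638) (nat_lit 79) (nat_lit 5) (nat_lit 84) (nat_lit 5) (nat_lit 85) (nat_lit 5) (nat_lit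 309) (nat_lit 284) (nat_lit 127)) (XT.nd (nat_lit 78) (nat_lit 304) (nat_lit 0) (XT.lf (nat_lit 0) (nat_lit 51583435754) (nat_lit 456) (nat_lit 14186000599) (nat_lit 76) (nat_lit 7807630858) (nat_lit 79) (nat_lit 5) (nat_lit 85) (nat_lit 5) (nat_lit 80) (nat_lit 5) (nat_lit 310) (nat_lit 284) (nat_lit 126)) (XT.lf (nat_lit 0) (nat_lit 39645897088) (nat_lit 304) (nat_lit 28840533726) (nat_lit 380) (nat_lit 7515204851) (nat_lit 75) (nat_lit 5) (nat_lit 79) (nat_lit 5) (nat_lit 80) (nat_lit 5) (nat_lit 311) (nat_lit 284) (nat_lit 125)))) (XT.nd (nat_lit 78) (nat_lit 304) (nat_lit 0) (XT.lf (nat_lit 0) (nat_lit 7957236701) (nat_lit 380) (nat_lit 60434660769) (nat_lit 76) (nat_lit 10140718127) (nat_lit 70) (nat_lit 5) (nat_lit 75) (nat_lit 5) (nat_lit 71) (nat_lit 5) (nat_lit 312) (nat_lit 284) (nat_lit 124)) (XT.nd (nat_lit 78) (nat_lit 304) (nat_lit 0) (XT.lf (nat_lit 0) (nat_lit 24716674672)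 (nat_lit 380) (nat_lit 5517735897) (nat_lit 76) (nat_lit 50933440359) (nat_lit 70) (nat_lit 5) (nat_lit 75) (nat_lit 5) (nat_lit 71) (nat_lit 5) (nat_lit 313) (nat_lit 284) (nat_lit 123)) (XT.lf (nat_lit 0) (nat_lit 42923233255) (nat_lit 380) (nat_lit 30838460059) (nat_lit 76) (nat_lit 10154882776) (nat_lit 66) (nat_lit 5) (nat_lit 71) (nat_lit 5) (nat_lit 67) (nat_lit 5) (nat_lit 314) (nat_lit 284) (nat_lit 122)))))) (XT.nd (nat_lit 390) (nat_lit 304) (nat_lit 0) (XT.nd (nat_lit 156) (nat_lit 608) (nat_lit 0) (XT.nd (nat_lit 78) (nat_lit 228) (nat_lit 0) (XT.lf (nat_lit 0) (nat_lit 28159698548) (nat_lit 304) (nat_lit 34512073514) (nat_lit 380) (nat_lit 24112018283) (nat_lit 62) (nat_lit 5) (nat_lit 66) (nat_lit 5) (nat_lit 67) (nat_lit 5) (nat_lit 315) (nat_lit 284) (nat_lit 121)) (XT.lf (nat_lit 0) (nat_lit 915588576) (nat_lit 228) (nat_lit 82884440816) (nat_lit 304) (nat_lit 5982569463)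 (nat_lit 59) (nat_lit 5) (nat_lit 62) (nat_lit 5) (nat_lit 63) (nat_lit 5) (nat_lit 316) (nat_lit 284) (nat_lit 120))) (XT.nd (nat_lit 78) (nat_lit 532) (nat_lit 0) (XT.lf (nat_lit 0) (nat_lit 13754954697) (nat_lit 304) (nat_lit 28737768031) (nat_lit 76) (nat_lit 50406173253) (nat_lit 58) (nat_lit 5) (nat_lit 62) (nat_lit 5) (nat_lit 59) (nat_lit 5) (nat_lit 317) (nat_lit 284) (nat_lit 119)) (XT.nd (nat_lit 78) (nat_lit 228) (nat_lit 0) (XT.lf (nat_lit 0) (nat_lit 34695136767) (nat_lit 380) (nat_lit 61143346499) (nat_lit 76) (nat_lit 320564399) (nat_lit 54) (nat_lit 5) (nat_lit 59) (nat_lit 5) (nat_lit 55) (nat_lit 5) (nat_lit 318) (nat_lit 284) (nat_lit 118)) (XT.lf (nat_lit 0) (nat_lit 2601042586) (nat_lit 228) (nat_lit 54832573894) (nat_lit 304) (nat_lit 42126053719) (nat_lit 51) (nat_lit 5) (nat_lit 54) (nat_lit 5) (nat_lit 55) (nat_lit 5) (nat_lit 319) (nat_lit 284) (nat_lit 117)))))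 (XT.nd (nat_lit 34866) (nat_lit 0) (nat_lit 8512) (XT.nd (nat_lit 78) (nat_lit 304) (nat_lit 0) (XT.lf (nat_lit 0) (nat_lit 70808481499) (nat_lit 228) (nat_lit 11128639643) (nat_lit 304) (nat_lit 21174361517) (nat_lit 51) (nat_lit 5) (nat_lit 54) (nat_lit 5) (nat_lit 55) (nat_lit 5) (nat_lit 320) (nat_lit 284) (nat_lit 116)) (XT.nd (nat_lit 34710) (nat_lit 0) (nat_lit 8512) (XT.lf (nat_lit 0) (nat_lit 1493997409) (nat_lit 304) (nat_lit 70884210244) (nat_lit 76) (nat_lit 34441886518) (nat_lit 47) (nat_lit 5) (nat_lit 51) (nat_lit 5) (nat_lit 48) (nat_lit 5) (nat_lit 321) (nat_lit 284) (nat_lit 115)) (XT.lf (nat_lit 0) (nat_lit 14779476614) (nat_lit 1140) (nat_lit 1849238480) (nat_lit 1140) (nat_lit 1849238480) (nat_lit 159) (nat_lit 3) (nat_lit 174) (nat_lit 3) (nat_lit 174) (nat_lit 5) (nat_lit 285) (nat_lit 285) (nat_lit 150)))) (XT.nd (nat_lit 78) (nat_lit 0) (nat_lit 76) (XT.lf (nat_lit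 76) (nat_lit 22794564348) (nat_lit 0) (nat_lit 7794224760) (nat_lit 1140) (nat_lit 7282132012) (nat_lit 160) (nat_lit 5) (nat_lit 159) (nat_lit 3) (nat_lit 174) (nat_lit 5) (nat_lit 286) (nat_lit 285) (nat_lit 149)) (XT.nd (nat_lit 78) (nat_lit 0) (nat_lit 76) (XT.lf (nat_lit 76) (nat_lit 11906288397) (nat_lit 0) (nat_lit 20094217080) (nat_lit 1140) (nat_lit 6821278754) (nat_lit 161) (nat_lit 5) (nat_lit 160) (nat_lit 5) (nat_lit 175) (nat_lit 5) (nat_lit 287) (nat_lit 285) (nat_lit 148)) (XT.lf (nat_lit 76) (nat_lit 603843194) (nat_lit 0) (nat_lit 33178434715) (nat_lit 1140) (nat_lit 6028938104) (nat_lit 162) (nat_lit 5) (nat_lit 161) (nat_lit 5) (nat_lit 176) (nat_lit 5) (nat_lit 288) (nat_lit 285) (nat_lit 147))))))) (XT.nd (nat_lit 858) (nat_lit 3572) (nat_lit 0) (XT.nd (nat_lit 390) (nat_lit 1672) (nat_lit 0) (XT.nd (nat_lit 156) (nat_lit 988) (nat_lit 0) (XT.nd (nat_lit 78) (nat_lit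 0) (nat_lit 76) (XT.lf (nat_lit 76) (nat_lit 29852155472) (nat_lit 0) (nat_lit 6274683884) (nat_lit 1140) (nat_lit 4709078181) (nat_lit 162) (nat_lit 5) (nat_lit 161) (nat_lit 5) (nat_lit 176) (nat_lit 5) (nat_lit 289) (nat_lit 285) (nat_lit 146)) (XT.lf (nat_lit 76) (nat_lit 18804119461) (nat_lit 0) (nat_lit 20172512378) (nat_lit 1140) (nat_lit 2923590937) (nat_lit 163) (nat_lit 5) (nat_lit 162) (nat_lit 5) (nat_lit 177) (nat_lit 5) (nat_lit 290) (nat_lit 285) (nat_lit 145))) (XT.nd (nat_lit 78) (nat_lit 1140) (nat_lit 0) (XT.lf (nat_lit 76) (nat_lit 7295672037) (nat_lit 0) (nat_lit 34993223261) (nat_lit 1140) (nat_lit 719256854) (nat_lit 164) (nat_lit 5) (nat_lit 163) (nat_lit 5) (nat_lit 178) (nat_lit 5) (nat_lit 291) (nat_lit 285) (nat_lit 144)) (XT.nd (nat_lit 78) (nat_lit 0) (nat_lit 76) (XT.lf (nat_lit 0) (nat_lit 2004184266) (nat_lit 1140) (nat_lit 4698644125) (nat_lit 1216) (nat_lit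 37454996633) (nat_lit 148) (nat_lit 5) (nat_lit 163) (nat_lit 5) (nat_lit 164) (nat_lit 5) (nat_lit 292) (nat_lit 285) (nat_lit 143)) (XT.lf (nat_lit 0) (nat_lit 5342536446) (nat_lit 1140) (nat_lit 17170117306) (nat_lit 1216) (nat_lit 22837313038) (nat_lit 149) (nat_lit 5) (nat_lit 164) (nat_lit 5) (nat_lit 165) (nat_lit 5) (nat_lit 293) (nat_lit 285) (nat_lit 142))))) (XT.nd (nat_lit 234) (nat_lit 1824) (nat_lit 0) (XT.nd (nat_lit 78) (nat_lit 0) (nat_lit 0) (XT.lf (nat_lit 0) (nat_lit 9189547034) (nat_lit 1140) (nat_lit 30213588214) (nat_lit 1216) (nat_lit 7188335145) (nat_lit 150) (nat_lit 5) (nat_lit 165) (nat_lit 5) (nat_lit 166) (nat_lit 5) (nat_lit 294) (nat_lit 285) (nat_lit 141)) (XT.nd (nat_lit 78) (nat_lit 0) (nat_lit 76) (XT.lf (nat_lit 76) (nat_lit 3917169948) (nat_lit 0) (nat_lit 9751896529) (nat_lit 1216) (nat_lit 34212784587) (nat_lit 151) (nat_lit 5) (nat_lit 150) (nat_lit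 5) (nat_lit 166) (nat_lit 5) (nat_lit 295) (nat_lit 285) (nat_lit 140)) (XT.lf (nat_lit 0) (nat_lit 18889110750) (nat_lit 1140) (nat_lit 9052855586) (nat_lit 76) (nat_lit 21279294294) (nat_lit 151) (nat_lit 5) (nat_lit 166) (nat_lit 5) (nat_lit 152) (nat_lit 5) (nat_lit 296) (nat_lit 285) (nat_lit 139)))) (XT.nd (nat_lit 78) (nat_lit 1064) (nat_lit 0) (XT.lf (nat_lit 0) (nat_lit 24767159360) (nat_lit 912) (nat_lit 22597591245) (nat_lit 76) (nat_lit 3250986025) (nat_lit 140) (nat_lit 5) (nat_lit 152) (nat_lit 5) (nat_lit 141) (nat_lit 5) (nat_lit 297) (nat_lit 285) (nat_lit 138)) (XT.nd (nat_lit 78) (nat_lit 532) (nat_lit 0) (XT.lf (nat_lit 0) (nat_lit 15063166814) (nat_lit 532) (nat_lit 16394057086) (nat_lit 608) (nat_lit 20607174862) (nat_lit 133) (nat_lit 5) (nat_lit 140) (nat_lit 5) (nat_lit 141) (nat_lit 5) (nat_lit 298) (nat_lit 285) (nat_lit 137)) (XT.lf (nat_lit 0) (nat_lit 1367475201)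 (nat_lit 532) (nat_lit 37514682883) (nat_lit 608) (nat_lit 14691330387) (nat_lit 126) (nat_lit 5) (nat_lit 133) (nat_lit 5) (nat_lit 134) (nat_lit 5) (nat_lit 299) (nat_lit 285) (nat_lit 136)))))) (XT.nd (nat_lit 390) (nat_lit 2052) (nat_lit 0) (XT.nd (nat_lit 156) (nat_lit 1064) (nat_lit 0) (XT.nd (nat_lit 78) (nat_lit 456) (nat_lit 0) (XT.lf (nat_lit 0) (nat_lit 42256574389) (nat_lit 532) (nat_lit 4963902504) (nat_lit 608) (nat_lit 7921296836) (nat_lit 126) (nat_lit 5) (nat_lit 133) (nat_lit 5) (nat_lit 134) (nat_lit 5) (nat_lit 300) (nat_lit 285) (nat_lit 135)) (XT.lf (nat_lit 0) (nat_lit 28677979848) (nat_lit 456) (nat_lit 27851749840) (nat_lit 532) (nat_lit 242127976) (nat_lit 120) (nat_lit 5) (nat_lit 126) (nat_lit 5) (nat_lit 127) (nat_lit 5) (nat_lit 301) (nat_lit 285) (nat_lit 134))) (XT.nd (nat_lit 78) (nat_lit 456) (nat_lit 0) (XT.lf (nat_lit 0) (nat_lit 8047370537) (nat_lit 608)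 (nat_lit 44273608228) (nat_lit 76) (nat_lit 6148846594) (nat_lit 112) (nat_lit 5) (nat_lit 120) (nat_lit 5) (nat_lit 113) (nat_lit 5) (nat_lit 302) (nat_lit 285) (nat_lit 133)) (XT.nd (nat_lit 78) (nat_lit 456) (nat_lit 0) (XT.lf (nat_lit 0) (nat_lit 17317241827) (nat_lit 608) (nat_lit 1344985701) (nat_lit 76) (nat_lit 41573269190) (nat_lit 112) (nat_lit 5) (nat_lit 120) (nat_lit 5) (nat_lit 113) (nat_lit 5) (nat_lit 303) (nat_lit 285) (nat_lit 132)) (XT.lf (nat_lit 0) (nat_lit 27641676504) (nat_lit 532) (nat_lit 17643230370) (nat_lit 76) (nat_lit 16786816833) (nat_lit 106) (nat_lit 5) (nat_lit 113) (nat_lit 5) (nat_lit 107) (nat_lit 5) (nat_lit 304) (nat_lit 285) (nat_lit 131))))) (XT.nd (nat_lit 234) (nat_lit 1216) (nat_lit 0) (XT.nd (nat_lit 78) (nat_lit 380) (nat_lit 0) (XT.lf (nat_lit 0) (nat_lit 28892372524) (nat_lit 456) (nat_lit 10067908523) (nat_lit 532) (nat_lit 25025146510) (nat_lit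 100) (nat_lit 5) (nat_lit 106) (nat_lit 5) (nat_lit 107) (nat_lit 5) (nat_lit 305) (nat_lit 285) (nat_lit 130)) (XT.nd (nat_lit 78) (nat_lit 0) (nat_lit 0) (XT.lf (nat_lit 0) (nat_lit 12107543388) (nat_lit 380) (nat_lit 39293701677) (nat_lit 456) (nat_lit 14576882428) (nat_lit 95) (nat_lit 5) (nat_lit 100) (nat_lit 5) (nat_lit 101) (nat_lit 5) (nat_lit 306) (nat_lit 285) (nat_lit 129)) (XT.lf (nat_lit 0) (nat_lit 62295615181) (nat_lit 380) (nat_lit 2628541270) (nat_lit 456) (nat_lit 3132512590) (nat_lit 95) (nat_lit 5) (nat_lit 100) (nat_lit 5) (nat_lit 101) (nat_lit 5) (nat_lit 307) (nat_lit 285) (nat_lit 128)))) (XT.nd (nat_lit 78) (nat_lit 760) (nat_lit 0) (XT.lf (nat_lit 0) (nat_lit 9496700183) (nat_lit 456) (nat_lit 25018170272) (nat_lit 76) (nat_lit 35698129012) (nat_lit 89) (nat_lit 5) (nat_lit 95) (nat_lit 5) (nat_lit 90) (nat_lit 5) (nat_lit 308) (nat_lit 285) (nat_lit 127)) (XT.nd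 (nat_lit 78) (nat_lit 380) (nat_lit 0) (XT.lf (nat_lit 0) (nat_lit 23071692614) (nat_lit 456) (nat_lit 45696490329) (nat_lit 76) (nat_lit 3696663056) (nat_lit 84) (nat_lit 5) (nat_lit 90) (nat_lit 5) (nat_lit 85) (nat_lit 5) (nat_lit 309) (nat_lit 285) (nat_lit 126)) (XT.lf (nat_lit 0) (nat_lit 6621575235) (nat_lit 380) (nat_lit 31374195372) (nat_lit 456) (nat_lit 36813407183) (nat_lit 79) (nat_lit 5) (nat_lit 84) (nat_lit 5) (nat_lit 85) (nat_lit 5) (nat_lit 310) (nat_lit 285) (nat_lit 125))))))))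
noncomputable def xc118 : XT := (XT.nd (nat_lit 36426) (nat_lit 0) (nat_lit 608) (XT.nd (nat_lit 35568) (nat_lit 0) (nat_lit 7372) (XT.nd (nat_lit 390) (nat_lit 1140) (nat_lit 0) (XT.nd (nat_lit 156) (nat_lit 684) (nat_lit 0) (XT.nd (nat_lit 78) (nat_lit 304) (nat_lit 0) (XT.lf (nat_lit 0) (nat_lit 54215242285) (nat_lit 456) (nat_lit 14828805796) (nat_lit 76) (nat_lit 8210205265) (nat_lit 79) (nat_lit 5) (nat_lit 85) (nat_lit 5) (nat_lit 80) (nat_lit 5) (nat_lit 311) (nat_lit 285) (nat_lit 124)) (XT.lf (nat_lit 0) (nat_lit 41692780715) (nat_lit 304) (nat_lit 30268720835) (nat_lit 380) (nat_lit 7838609440) (nat_lit 75) (nat_lit 5) (nat_lit 79) (nat_lit 5) (nat_lit 80) (nat_lit 5) (nat_lit 312) (nat_lit 285) (nat_lit 123))) (XT.nd (nat_lit 78) (nat_lit 304) (nat_lit 0) (XT.lf (nat_lit 0) (nat_lit 8404738954) (nat_lit 380) (nat_lit 63391159674) (nat_lit 76) (nat_lit 10661780882) (nat_lit 70)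 (nat_lit 5) (nat_lit 75) (nat_lit 5) (nat_lit 71) (nat_lit 5) (nat_lit 313) (nat_lit 285) (nat_lit 122)) (XT.nd (nat_lit 78) (nat_lit 304) (nat_lit 0) (XT.lf (nat_lit 0) (nat_lit 25999784995) (nat_lit 380) (nat_lit 5731494946) (nat_lit 76) (nat_lit 53493471280) (nat_lit 70) (nat_lit 5) (nat_lit 75) (nat_lit 5) (nat_lit 71) (nat_lit 5) (nat_lit 314) (nat_lit 285) (nat_lit 121)) (XT.lf (nat_lit 0) (nat_lit 45115142035) (nat_lit 380) (nat_lit 32318739302) (nat_lit 76) (nat_lit 10677080709) (nat_lit 66) (nat_lit 5) (nat_lit 71) (nat_lit 5) (nat_lit 67) (nat_lit 5) (nat_lit 315) (nat_lit 285) (nat_lit 120))))) (XT.nd (nat_lit 234) (nat_lit 532) (nat_lit 0) (XT.nd (nat_lit 78) (nat_lit 304) (nat_lit 0) (XT.lf (nat_lit 0) (nat_lit 29627560229) (nat_lit 304) (nat_lit 36221944691) (nat_lit 380) (nat_lit 25272083533) (nat_lit 62) (nat_lit 5) (nat_lit 66) (nat_lit 5) (nat_lit 67) (nat_lit 5) (nat_lit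 316) (nat_lit 285) (nat_lit 119)) (XT.nd (nat_lit 78) (nat_lit 76) (nat_lit 0) (XT.lf (nat_lit 0) (nat_lit 1020733032) (nat_lit 228) (nat_lit 87012054659) (nat_lit 304) (nat_lit 6237594516) (nat_lit 59) (nat_lit 5) (nat_lit 62) (nat_lit 5) (nat_lit 63) (nat_lit 5) (nat_lit 317) (nat_lit 285) (nat_lit 118)) (XT.lf (nat_lit 0) (nat_lit 14483886055) (nat_lit 304) (nat_lit 30117239604) (nat_lit 76) (nat_lit 52941420540) (nat_lit 58) (nat_lit 5) (nat_lit 62) (nat_lit 5) (nat_lit 59) (nat_lit 5) (nat_lit 318) (nat_lit 285) (nat_lit 117)))) (XT.nd (nat_lit 78) (nat_lit 228) (nat_lit 0) (XT.lf (nat_lit 0) (nat_lit 36469806130) (nat_lit 380) (nat_lit 64143647741) (nat_lit 76) (nat_lit 352292543) (nat_lit 54) (nat_lit 5) (nat_lit 59) (nat_lit 5) (nat_lit 55) (nat_lit 5) (nat_lit 319) (nat_lit 285) (nat_lit 116)) (XT.nd (nat_lit 78) (nat_lit 0) (nat_lit 0) (XT.lf (nat_lit 0) (nat_lit 2786330743) (nat_lit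 228) (nat_lit 57557509451) (nat_lit 304) (nat_lit 44192603648) (nat_lit 51) (nat_lit 5) (nat_lit 54) (nat_lit 5) (nat_lit 55) (nat_lit 5) (nat_lit 320) (nat_lit 285) (nat_lit 115)) (XT.lf (nat_lit 0) (nat_lit 74401511315) (nat_lit 228) (nat_lit 11669173399) (nat_lit 304) (nat_lit 22195219824) (nat_lit 51) (nat_lit 5) (nat_lit 54) (nat_lit 5) (nat_lit 55) (nat_lit 5) (nat_lit 321) (nat_lit 285) (nat_lit 114)))))) (XT.nd (nat_lit 390) (nat_lit 836) (nat_lit 0) (XT.nd (nat_lit 156) (nat_lit 0) (nat_lit 76) (XT.nd (nat_lit 78) (nat_lit 0) (nat_lit 0) (XT.lf (nat_lit 0) (nat_lit 15589077030) (nat_lit 1140) (nat_lit 1905250021) (nat_lit 1140) (nat_lit 1905250021) (nat_lit 159) (nat_lit 3) (nat_lit 174) (nat_lit 3) (nat_lit 174) (nat_lit 5) (nat_lit 286) (nat_lit 286) (nat_lit 148)) (XT.lf (nat_lit 76) (nat_lit 24005103646) (nat_lit 0) (nat_lit 8248332425) (nat_lit 1140) (nat_lit 7506678910) (nat_lit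 160) (nat_lit 5) (nat_lit 159) (nat_lit 3) (nat_lit 174) (nat_lit 5) (nat_lit 287) (nat_lit 286) (nat_lit 147))) (XT.nd (nat_lit 78) (nat_lit 0) (nat_lit 76) (XT.lf (nat_lit 76) (nat_lit 12575212826) (nat_lit 0) (nat_lit 21154205023) (nat_lit 1140) (nat_lit 7029307105) (nat_lit 161) (nat_lit 5) (nat_lit 160) (nat_lit 5) (nat_lit 175) (nat_lit 5) (nat_lit 288) (nat_lit 286) (nat_lit 146)) (XT.nd (nat_lit 78) (nat_lit 0) (nat_lit 0) (XT.lf (nat_lit 76) (nat_lit 710081046) (nat_lit 0) (nat_lit 34884285319) (nat_lit 1140) (nat_lit 6203452759) (nat_lit 162) (nat_lit 5) (nat_lit 161) (nat_lit 5) (nat_lit 176) (nat_lit 5) (nat_lit 289) (nat_lit 286) (nat_lit 145)) (XT.lf (nat_lit 76) (nat_lit 31417187714) (nat_lit 0) (nat_lit 6633112238) (nat_lit 1140) (nat_lit 4823644232) (nat_lit 162) (nat_lit 5) (nat_lit 161) (nat_lit 5) (nat_lit 176) (nat_lit 5) (nat_lit 290) (nat_lit 286) (nat_lit 144)))))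 (XT.nd (nat_lit 234) (nat_lit 0) (nat_lit 76) (XT.nd (nat_lit 78) (nat_lit 1064) (nat_lit 0) (XT.lf (nat_lit 76) (nat_lit 19818752367) (nat_lit 0) (nat_lit 21218558884) (nat_lit 1140) (nat_lit 2954323735) (nat_lit 163) (nat_lit 5) (nat_lit 162) (nat_lit 5) (nat_lit 177) (nat_lit 5) (nat_lit 291) (nat_lit 286) (nat_lit 143)) (XT.nd (nat_lit 78) (nat_lit 1140) (nat_lit 0) (XT.lf (nat_lit 76) (nat_lit 7736594307) (nat_lit 0) (nat_lit 36773656796) (nat_lit 1140) (nat_lit 644869424) (nat_lit 164) (nat_lit 5) (nat_lit 163) (nat_lit 5) (nat_lit 178) (nat_lit 5) (nat_lit 292) (nat_lit 286) (nat_lit 142)) (XT.lf (nat_lit 0) (nat_lit 2207438185) (nat_lit 1140) (nat_lit 4858798098) (nat_lit 1216) (nat_lit 39296174227) (nat_lit 148) (nat_lit 5) (nat_lit 163) (nat_lit 5) (nat_lit 164) (nat_lit 5) (nat_lit 293) (nat_lit 286) (nat_lit 141)))) (XT.nd (nat_lit 78) (nat_lit 0) (nat_lit 76) (XT.lf (nat_lit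 0) (nat_lit 5708247430) (nat_lit 1140) (nat_lit 17952567283) (nat_lit 1216) (nat_lit 23953488678) (nat_lit 149) (nat_lit 5) (nat_lit 164) (nat_lit 5) (nat_lit 165) (nat_lit 5) (nat_lit 294) (nat_lit 286) (nat_lit 140)) (XT.nd (nat_lit 78) (nat_lit 0) (nat_lit 0) (XT.lf (nat_lit 0) (nat_lit 9743424990) (nat_lit 1140) (nat_lit 31647160167) (nat_lit 1216) (nat_lit 7527432248) (nat_lit 150) (nat_lit 5) (nat_lit 165) (nat_lit 5) (nat_lit 166) (nat_lit 5) (nat_lit 295) (nat_lit 286) (nat_lit 139)) (XT.lf (nat_lit 76) (nat_lit 4187925634) (nat_lit 0) (nat_lit 10255219463) (nat_lit 1216) (nat_lit 35829894535) (nat_lit 151) (nat_lit 5) (nat_lit 150) (nat_lit 5) (nat_lit 166) (nat_lit 5) (nat_lit 296) (nat_lit 286) (nat_lit 138))))))) (XT.nd (nat_lit 858) (nat_lit 2736) (nat_lit 0) (XT.nd (nat_lit 390) (nat_lit 2356) (nat_lit 0) (XT.nd (nat_lit 156) (nat_lit 1064) (nat_lit 0) (XT.nd (nat_lit 78) (nat_lit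 836) (nat_lit 0) (XT.lf (nat_lit 0) (nat_lit 19919732103) (nat_lit 1140) (nat_lit 9431258020) (nat_lit 76) (nat_lit 22328572155) (nat_lit 151) (nat_lit 5) (nat_lit 166) (nat_lit 5) (nat_lit 152) (nat_lit 5) (nat_lit 297) (nat_lit 286) (nat_lit 137)) (XT.lf (nat_lit 0) (nat_lit 26088170884) (nat_lit 912) (nat_lit 23652605551) (nat_lit 76) (nat_lit 3403099413) (nat_lit 140) (nat_lit 5) (nat_lit 152) (nat_lit 5) (nat_lit 141) (nat_lit 5) (nat_lit 298) (nat_lit 286) (nat_lit 136))) (XT.nd (nat_lit 78) (nat_lit 532) (nat_lit 0) (XT.lf (nat_lit 0) (nat_lit 15889044414) (nat_lit 532) (nat_lit 17220457375) (nat_lit 608) (nat_lit 21555574403) (nat_lit 133) (nat_lit 5) (nat_lit 140) (nat_lit 5) (nat_lit 141) (nat_lit 5) (nat_lit 299) (nat_lit 286) (nat_lit 135)) (XT.nd (nat_lit 78) (nat_lit 0) (nat_lit 0) (XT.lf (nat_lit 0) (nat_lit 1509015899) (nat_lit 532) (nat_lit 39393527048) (nat_lit 608) (nat_lit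 15347179251) (nat_lit 126) (nat_lit 5) (nat_lit 133) (nat_lit 5) (nat_lit 134) (nat_lit 5) (nat_lit 300) (nat_lit 286) (nat_lit 134)) (XT.lf (nat_lit 0) (nat_lit 44439085907) (nat_lit 532) (nat_lit 5215059554) (nat_lit 608) (nat_lit 8242392483) (nat_lit 126) (nat_lit 5) (nat_lit 133) (nat_lit 5) (nat_lit 134) (nat_lit 5) (nat_lit 301) (nat_lit 286) (nat_lit 133))))) (XT.nd (nat_lit 234) (nat_lit 1292) (nat_lit 0) (XT.nd (nat_lit 78) (nat_lit 608) (nat_lit 0) (XT.lf (nat_lit 0) (nat_lit 30181849693) (nat_lit 456) (nat_lit 29244197416) (nat_lit 532) (nat_lit 182170290) (nat_lit 120) (nat_lit 5) (nat_lit 126) (nat_lit 5) (nat_lit 127) (nat_lit 5) (nat_lit 302) (nat_lit 286) (nat_lit 132)) (XT.nd (nat_lit 78) (nat_lit 0) (nat_lit 0) (XT.lf (nat_lit 0) (nat_lit 8517714389) (nat_lit 608) (nat_lit 46415675012) (nat_lit 76) (nat_lit 6457760162) (nat_lit 112) (nat_lit 5) (nat_lit 120) (nat_lit 5)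 (nat_lit 113) (nat_lit 5) (nat_lit 303) (nat_lit 286) (nat_lit 131)) (XT.lf (nat_lit 0) (nat_lit 18247842323) (nat_lit 608) (nat_lit 1344031531) (nat_lit 76) (nat_lit 43653333830) (nat_lit 112) (nat_lit 5) (nat_lit 120) (nat_lit 5) (nat_lit 113) (nat_lit 5) (nat_lit 304) (nat_lit 286) (nat_lit 130)))) (XT.nd (nat_lit 78) (nat_lit 836) (nat_lit 0) (XT.lf (nat_lit 0) (nat_lit 29086090800) (nat_lit 532) (nat_lit 18457196804) (nat_lit 76) (nat_lit 17630036452) (nat_lit 106) (nat_lit 5) (nat_lit 113) (nat_lit 5) (nat_lit 107) (nat_lit 5) (nat_lit 305) (nat_lit 286) (nat_lit 129)) (XT.nd (nat_lit 78) (nat_lit 380) (nat_lit 0) (XT.lf (nat_lit 0) (nat_lit 30403231436) (nat_lit 456) (nat_lit 10565062759) (nat_lit 532) (nat_lit 26214494366) (nat_lit 100) (nat_lit 5) (nat_lit 106) (nat_lit 5) (nat_lit 107) (nat_lit 5) (nat_lit 306) (nat_lit 286) (nat_lit 128)) (XT.lf (nat_lit 0) (nat_lit 12779059419)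 (nat_lit 380) (nat_lit 41250082800) (nat_lit 456) (nat_lit 15246051458) (nat_lit 95) (nat_lit 5) (nat_lit 100) (nat_lit 5) (nat_lit 101) (nat_lit 5) (nat_lit 307) (nat_lit 286) (nat_lit 127)))))) (XT.nd (nat_lit 390) (nat_lit 1520) (nat_lit 0) (XT.nd (nat_lit 156) (nat_lit 760) (nat_lit 0) (XT.nd (nat_lit 78) (nat_lit 456) (nat_lit 0) (XT.lf (nat_lit 0) (nat_lit 65473385331) (nat_lit 380) (nat_lit 2752059799) (nat_lit 456) (nat_lit 3232304799) (nat_lit 95) (nat_lit 5) (nat_lit 100) (nat_lit 5) (nat_lit 101) (nat_lit 5) (nat_lit 308) (nat_lit 286) (nat_lit 126)) (XT.lf (nat_lit 0) (nat_lit 10025288932) (nat_lit 456) (nat_lit 26205104092) (nat_lit 76) (nat_lit 37491551212) (nat_lit 89) (nat_lit 5) (nat_lit 95) (nat_lit 5) (nat_lit 90) (nat_lit 5) (nat_lit 309) (nat_lit 286) (nat_lit 125))) (XT.nd (nat_lit 78) (nat_lit 380) (nat_lit 0) (XT.lf (nat_lit 0) (nat_lit 24277168105) (nat_lit 456)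 (nat_lit 47917631536) (nat_lit 76) (nat_lit 3891643750) (nat_lit 84) (nat_lit 5) (nat_lit 90) (nat_lit 5) (nat_lit 85) (nat_lit 5) (nat_lit 310) (nat_lit 286) (nat_lit 124)) (XT.nd (nat_lit 78) (nat_lit 0) (nat_lit 0) (XT.lf (nat_lit 0) (nat_lit 7014511838) (nat_lit 380) (nat_lit 32931061782) (nat_lit 456) (nat_lit 38602478643) (nat_lit 79) (nat_lit 5) (nat_lit 84) (nat_lit 5) (nat_lit 85) (nat_lit 5) (nat_lit 311) (nat_lit 286) (nat_lit 123)) (XT.lf (nat_lit 0) (nat_lit 56973745664) (nat_lit 456) (nat_lit 15509933312) (nat_lit 76) (nat_lit 8631774816) (nat_lit 79) (nat_lit 5) (nat_lit 85) (nat_lit 5) (nat_lit 80) (nat_lit 5) (nat_lit 312) (nat_lit 286) (nat_lit 122))))) (XT.nd (nat_lit 234) (nat_lit 836) (nat_lit 0) (XT.nd (nat_lit 78) (nat_lit 380) (nat_lit 0) (XT.lf (nat_lit 0) (nat_lit 43836003671) (nat_lit 304) (nat_lit 31769603971) (nat_lit 380) (nat_lit 8183051791) (nat_lit 75) (nat_lit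 5) (nat_lit 79) (nat_lit 5) (nat_lit 80) (nat_lit 5) (nat_lit 313) (nat_lit 286) (nat_lit 121)) (XT.nd (nat_lit 78) (nat_lit 0) (nat_lit 0) (XT.lf (nat_lit 0) (nat_lit 8870001224) (nat_lit 380) (nat_lit 66501548376) (nat_lit 76) (nat_lit 11207592691) (nat_lit 70) (nat_lit 5) (nat_lit 75) (nat_lit 5) (nat_lit 71) (nat_lit 5) (nat_lit 314) (nat_lit 286) (nat_lit 120)) (XT.lf (nat_lit 0) (nat_lit 27342655504) (nat_lit 380) (nat_lit 5961717997) (nat_lit 76) (nat_lit 56180261763) (nat_lit 70) (nat_lit 5) (nat_lit 75) (nat_lit 5) (nat_lit 71) (nat_lit 5) (nat_lit 315) (nat_lit 286) (nat_lit 119)))) (XT.nd (nat_lit 78) (nat_lit 532) (nat_lit 0) (XT.lf (nat_lit 0) (nat_lit 47412393121) (nat_lit 380) (nat_lit 33878763560) (nat_lit 76) (nat_lit 11224044762) (nat_lit 66) (nat_lit 5) (nat_lit 71) (nat_lit 5) (nat_lit 67) (nat_lit 5) (nat_lit 316) (nat_lit 286) (nat_lit 118)) (XT.nd (nat_lit 78) (nat_lit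 228) (nat_lit 0) (XT.lf (nat_lit 0) (nat_lit 31163248222) (nat_lit 304) (nat_lit 38018772086) (nat_lit 380) (nat_lit 26494385521) (nat_lit 62) (nat_lit 5) (nat_lit 66) (nat_lit 5) (nat_lit 67) (nat_lit 5) (nat_lit 317) (nat_lit 286) (nat_lit 117)) (XT.lf (nat_lit 0) (nat_lit 1125615514) (nat_lit 228) (nat_lit 91347593267) (nat_lit 304) (nat_lit 6509471139) (nat_lit 59) (nat_lit 5) (nat_lit 62) (nat_lit 5) (nat_lit 63) (nat_lit 5) (nat_lit 318) (nat_lit 286) (nat_lit 116))))))))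
noncomputable def xc119 : XT := (XT.nd (nat_lit 36504) (nat_lit 0) (nat_lit 532) (XT.nd (nat_lit 35646) (nat_lit 0) (nat_lit 4636) (XT.nd (nat_lit 35178) (nat_lit 0) (nat_lit 7372) (XT.nd (nat_lit 156) (nat_lit 228) (nat_lit 0) (XT.nd (nat_lit 78) (nat_lit 304) (nat_lit 0) (XT.lf (nat_lit 0) (nat_lit 15245435118) (nat_lit 304) (nat_lit 31571022828) (nat_lit 76) (nat_lit 55602041340) (nat_lit 58) (nat_lit 5) (nat_lit 62) (nat_lit 5) (nat_lit 59) (nat_lit 5) (nat_lit 319) (nat_lit 286) (nat_lit 115)) (XT.lf (nat_lit 0) (nat_lit 38329498272) (nat_lit 380) (nat_lit 67299250915) (nat_lit 76) (nat_lit 384147464) (nat_lit 54) (nat_lit 5) (nat_lit 59) (nat_lit 5) (nat_lit 55) (nat_lit 5) (nat_lit 320) (nat_lit 286) (nat_lit 114))) (XT.nd (nat_lit 34866) (nat_lit 0) (nat_lit 8208) (XT.lf (nat_lit 0) (nat_lit 2975747986) (nat_lit 228) (nat_lit 60420243755) (nat_lit 304) (nat_lit 46366176909) (nat_lit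 51) (nat_lit 5) (nat_lit 54) (nat_lit 5) (nat_lit 55) (nat_lit 5) (nat_lit 321) (nat_lit 286) (nat_lit 113)) (XT.nd (nat_lit 78) (nat_lit 0) (nat_lit 0) (XT.lf (nat_lit 0) (nat_lit 16432591275) (nat_lit 1140) (nat_lit 1967450950) (nat_lit 1140) (nat_lit 1967450950) (nat_lit 159) (nat_lit 3) (nat_lit 174) (nat_lit 3) (nat_lit 174) (nat_lit 5) (nat_lit 287) (nat_lit 287) (nat_lit 146)) (XT.lf (nat_lit 76) (nat_lit 25269586566) (nat_lit 0) (nat_lit 8719158503) (nat_lit 1140) (nat_lit 7755428092) (nat_lit 160) (nat_lit 5) (nat_lit 159) (nat_lit 3) (nat_lit 174) (nat_lit 5) (nat_lit 288) (nat_lit 287) (nat_lit 145))))) (XT.nd (nat_lit 234) (nat_lit 912) (nat_lit 0) (XT.nd (nat_lit 78) (nat_lit 0) (nat_lit 76) (XT.lf (nat_lit 76) (nat_lit 13270739915) (nat_lit 0) (nat_lit 22262053223) (nat_lit 1140) (nat_lit 7260105261) (nat_lit 161) (nat_lit 5) (nat_lit 160) (nat_lit 5) (nat_lit 175) (nat_lit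 5) (nat_lit 289) (nat_lit 287) (nat_lit 144)) (XT.nd (nat_lit 78) (nat_lit 0) (nat_lit 0) (XT.lf (nat_lit 76) (nat_lit 814560782) (nat_lit 0) (nat_lit 36671065451) (nat_lit 1140) (nat_lit 6398494104) (nat_lit 162) (nat_lit 5) (nat_lit 161) (nat_lit 5) (nat_lit 176) (nat_lit 5) (nat_lit 290) (nat_lit 287) (nat_lit 143)) (XT.lf (nat_lit 76) (nat_lit 33053738228) (nat_lit 0) (nat_lit 7005306771) (nat_lit 1140) (nat_lit 4955177594) (nat_lit 162) (nat_lit 5) (nat_lit 161) (nat_lit 5) (nat_lit 176) (nat_lit 5) (nat_lit 291) (nat_lit 287) (nat_lit 142)))) (XT.nd (nat_lit 78) (nat_lit 1064) (nat_lit 0) (XT.lf (nat_lit 76) (nat_lit 20877197408) (nat_lit 0) (nat_lit 22313428675) (nat_lit 1140) (nat_lit 2997326317) (nat_lit 163) (nat_lit 5) (nat_lit 162) (nat_lit 5) (nat_lit 177) (nat_lit 5) (nat_lit 292) (nat_lit 287) (nat_lit 141)) (XT.nd (nat_lit 78) (nat_lit 1140) (nat_lit 0) (XT.lf (nat_lit 76)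 (nat_lit 8192484039) (nat_lit 0) (nat_lit 38640251085) (nat_lit 1140) (nat_lit 577021945) (nat_lit 164) (nat_lit 5) (nat_lit 163) (nat_lit 5) (nat_lit 178) (nat_lit 5) (nat_lit 293) (nat_lit 287) (nat_lit 140)) (XT.lf (nat_lit 0) (nat_lit 2411274680) (nat_lit 1140) (nat_lit 5033911940) (nat_lit 1216) (nat_lit 41232345988) (nat_lit 148) (nat_lit 5) (nat_lit 163) (nat_lit 5) (nat_lit 164) (nat_lit 5) (nat_lit 294) (nat_lit 287) (nat_lit 139)))))) (XT.nd (nat_lit 390) (nat_lit 2128) (nat_lit 0) (XT.nd (nat_lit 156) (nat_lit 684) (nat_lit 0) (XT.nd (nat_lit 78) (nat_lit 0) (nat_lit 76) (XT.lf (nat_lit 0) (nat_lit 6083078542) (nat_lit 1140) (nat_lit 18781210715) (nat_lit 1216) (nat_lit 25127861513) (nat_lit 149) (nat_lit 5) (nat_lit 164) (nat_lit 5) (nat_lit 165) (nat_lit 5) (nat_lit 295) (nat_lit 287) (nat_lit 138)) (XT.lf (nat_lit 0) (nat_lit 10316220371) (nat_lit 1140) (nat_lit 33159579438)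 (nat_lit 1216) (nat_lit 7885373335) (nat_lit 150) (nat_lit 5) (nat_lit 165) (nat_lit 5) (nat_lit 166) (nat_lit 5) (nat_lit 296) (nat_lit 287) (nat_lit 137))) (XT.nd (nat_lit 78) (nat_lit 760) (nat_lit 0) (XT.lf (nat_lit 76) (nat_lit 4465255872) (nat_lit 0) (nat_lit 10782246293) (nat_lit 1216) (nat_lit 37536555446) (nat_lit 151) (nat_lit 5) (nat_lit 150) (nat_lit 5) (nat_lit 166) (nat_lit 5) (nat_lit 297) (nat_lit 287) (nat_lit 136)) (XT.nd (nat_lit 78) (nat_lit 836) (nat_lit 0) (XT.lf (nat_lit 0) (nat_lit 20993873644) (nat_lit 1140) (nat_lit 9835482739) (nat_lit 76) (nat_lit 23431679355) (nat_lit 151) (nat_lit 5) (nat_lit 166) (nat_lit 5) (nat_lit 152) (nat_lit 5) (nat_lit 298) (nat_lit 287) (nat_lit 135)) (XT.lf (nat_lit 0) (nat_lit 27467548640) (nat_lit 912) (nat_lit 24767330833) (nat_lit 76) (nat_lit 3563788703) (nat_lit 140) (nat_lit 5) (nat_lit 152) (nat_lit 5) (nat_lit 141) (nat_lit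 5) (nat_lit 299) (nat_lit 287) (nat_lit 134))))) (XT.nd (nat_lit 234) (nat_lit 1064) (nat_lit 0) (XT.nd (nat_lit 78) (nat_lit 532) (nat_lit 0) (XT.lf (nat_lit 0) (nat_lit 16749455147) (nat_lit 532) (nat_lit 18087555015) (nat_lit 608) (nat_lit 22559013711) (nat_lit 133) (nat_lit 5) (nat_lit 140) (nat_lit 5) (nat_lit 141) (nat_lit 5) (nat_lit 300) (nat_lit 287) (nat_lit 133)) (XT.nd (nat_lit 78) (nat_lit 0) (nat_lit 0) (XT.lf (nat_lit 0) (nat_lit 1650831264) (nat_lit 532) (nat_lit 41366024280) (nat_lit 608) (nat_lit 16043138980) (nat_lit 126) (nat_lit 5) (nat_lit 133) (nat_lit 5) (nat_lit 134) (nat_lit 5) (nat_lit 301) (nat_lit 287) (nat_lit 132)) (XT.lf (nat_lit 0) (nat_lit 46724244554) (nat_lit 532) (nat_lit 5478499084) (nat_lit 608) (nat_lit 8586512837) (nat_lit 126) (nat_lit 5) (nat_lit 133) (nat_lit 5) (nat_lit 134) (nat_lit 5) (nat_lit 302) (nat_lit 287) (nat_lit 131)))) (XT.nd (nat_lit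 78) (nat_lit 608) (nat_lit 0) (XT.lf (nat_lit 0) (nat_lit 31754407804) (nat_lit 456) (nat_lit 30706280379) (nat_lit 532) (nat_lit 125914555) (nat_lit 120) (nat_lit 5) (nat_lit 126) (nat_lit 5) (nat_lit 127) (nat_lit 5) (nat_lit 303) (nat_lit 287) (nat_lit 130)) (XT.nd (nat_lit 78) (nat_lit 0) (nat_lit 0) (XT.lf (nat_lit 0) (nat_lit 9005255731) (nat_lit 608) (nat_lit 48671503091) (nat_lit 76) (nat_lit 6781982627) (nat_lit 112) (nat_lit 5) (nat_lit 120) (nat_lit 5) (nat_lit 113) (nat_lit 5) (nat_lit 304) (nat_lit 287) (nat_lit 129)) (XT.lf (nat_lit 0) (nat_lit 19218954080) (nat_lit 608) (nat_lit 1349370564) (nat_lit 76) (nat_lit 45837271433) (nat_lit 112) (nat_lit 5) (nat_lit 120) (nat_lit 5) (nat_lit 113) (nat_lit 5) (nat_lit 305) (nat_lit 287) (nat_lit 128))))))) (XT.nd (nat_lit 858) (nat_lit 912) (nat_lit 0) (XT.nd (nat_lit 390) (nat_lit 1444) (nat_lit 0) (XT.nd (nat_lit 156) (nat_lit 836)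 (nat_lit 0) (XT.nd (nat_lit 78) (nat_lit 456) (nat_lit 0) (XT.lf (nat_lit 0) (nat_lit 30596930914) (nat_lit 532) (nat_lit 19318201693) (nat_lit 76) (nat_lit 18515056440) (nat_lit 106) (nat_lit 5) (nat_lit 113) (nat_lit 5) (nat_lit 107) (nat_lit 5) (nat_lit 306) (nat_lit 287) (nat_lit 127)) (XT.lf (nat_lit 0) (nat_lit 31983474900) (nat_lit 456) (nat_lit 11087654953) (nat_lit 532) (nat_lit 27469065370) (nat_lit 100) (nat_lit 5) (nat_lit 106) (nat_lit 5) (nat_lit 107) (nat_lit 5) (nat_lit 307) (nat_lit 287) (nat_lit 126))) (XT.nd (nat_lit 78) (nat_lit 456) (nat_lit 0) (XT.lf (nat_lit 0) (nat_lit 13478002286) (nat_lit 380) (nat_lit 43305055003) (nat_lit 456) (nat_lit 15954226963) (nat_lit 95) (nat_lit 5) (nat_lit 100) (nat_lit 5) (nat_lit 101) (nat_lit 5) (nat_lit 308) (nat_lit 287) (nat_lit 125)) (XT.nd (nat_lit 78) (nat_lit 456) (nat_lit 0) (XT.lf (nat_lit 0) (nat_lit 68804187833) (nat_lit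 380) (nat_lit 2882489515) (nat_lit 456) (nat_lit 3342370451) (nat_lit 95) (nat_lit 5) (nat_lit 100) (nat_lit 5) (nat_lit 101) (nat_lit 5) (nat_lit 309) (nat_lit 287) (nat_lit 124)) (XT.lf (nat_lit 0) (nat_lit 10575309605) (nat_lit 456) (nat_lit 27457332364) (nat_lit 76) (nat_lit 39373852809) (nat_lit 89) (nat_lit 5) (nat_lit 95) (nat_lit 5) (nat_lit 90) (nat_lit 5) (nat_lit 310) (nat_lit 287) (nat_lit 123))))) (XT.nd (nat_lit 234) (nat_lit 684) (nat_lit 0) (XT.nd (nat_lit 78) (nat_lit 380) (nat_lit 0) (XT.lf (nat_lit 0) (nat_lit 25538093050) (nat_lit 456) (nat_lit 50255750473) (nat_lit 76) (nat_lit 4095430057) (nat_lit 84) (nat_lit 5) (nat_lit 90) (nat_lit 5) (nat_lit 85) (nat_lit 5) (nat_lit 311) (nat_lit 287) (nat_lit 122)) (XT.nd (nat_lit 78) (nat_lit 0) (nat_lit 0) (XT.lf (nat_lit 0) (nat_lit 7421344314) (nat_lit 380) (nat_lit 34566872596) (nat_lit 456) (nat_lit 40485800852) (nat_lit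 79) (nat_lit 5) (nat_lit 84) (nat_lit 5) (nat_lit 85) (nat_lit 5) (nat_lit 312) (nat_lit 287) (nat_lit 121)) (XT.lf (nat_lit 0) (nat_lit 59865735681) (nat_lit 456) (nat_lit 16230724514) (nat_lit 76) (nat_lit 9073394657) (nat_lit 79) (nat_lit 5) (nat_lit 85) (nat_lit 5) (nat_lit 80) (nat_lit 5) (nat_lit 313) (nat_lit 287) (nat_lit 120)))) (XT.nd (nat_lit 78) (nat_lit 380) (nat_lit 0) (XT.lf (nat_lit 0) (nat_lit 46080941197) (nat_lit 304) (nat_lit 33346698315) (nat_lit 380) (nat_lit 8549131255) (nat_lit 75) (nat_lit 5) (nat_lit 79) (nat_lit 5) (nat_lit 80) (nat_lit 5) (nat_lit 314) (nat_lit 287) (nat_lit 119)) (XT.nd (nat_lit 78) (nat_lit 0) (nat_lit 0) (XT.lf (nat_lit 0) (nat_lit 9354340580) (nat_lit 380) (nat_lit 69772957512) (nat_lit 76) (nat_lit 11779512248) (nat_lit 70) (nat_lit 5) (nat_lit 75) (nat_lit 5) (nat_lit 71) (nat_lit 5) (nat_lit 315) (nat_lit 287) (nat_lit 118)) (XT.lf (nat_lit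 0) (nat_lit 28748682845) (nat_lit 380) (nat_lit 6208691246) (nat_lit 76) (nat_lit 59000265254) (nat_lit 70) (nat_lit 5) (nat_lit 75) (nat_lit 5) (nat_lit 71) (nat_lit 5) (nat_lit 316) (nat_lit 287) (nat_lit 117)))))) (XT.nd (nat_lit 35334) (nat_lit 0) (nat_lit 7676) (XT.nd (nat_lit 156) (nat_lit 304) (nat_lit 0) (XT.nd (nat_lit 78) (nat_lit 304) (nat_lit 0) (XT.lf (nat_lit 0) (nat_lit 49820649043) (nat_lit 380) (nat_lit 35521987264) (nat_lit 76) (nat_lit 11797138172) (nat_lit 66) (nat_lit 5) (nat_lit 71) (nat_lit 5) (nat_lit 67) (nat_lit 5) (nat_lit 317) (nat_lit 287) (nat_lit 116)) (XT.lf (nat_lit 0) (nat_lit 32770671386) (nat_lit 304) (nat_lit 39906767524) (nat_lit 380) (nat_lit 27781642494) (nat_lit 62) (nat_lit 5) (nat_lit 66) (nat_lit 5) (nat_lit 67) (nat_lit 5) (nat_lit 318) (nat_lit 287) (nat_lit 115))) (XT.nd (nat_lit 78) (nat_lit 76) (nat_lit 0) (XT.lf (nat_lit 0) (nat_lit 1230736044)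 (nat_lit 228) (nat_lit 95901309325) (nat_lit 304) (nat_lit 6798660702) (nat_lit 59) (nat_lit 5) (nat_lit 62) (nat_lit 5) (nat_lit 63) (nat_lit 5) (nat_lit 319) (nat_lit 287) (nat_lit 114)) (XT.nd (nat_lit 35022) (nat_lit 0) (nat_lit 7676) (XT.lf (nat_lit 0) (nat_lit 16041588742) (nat_lit 304) (nat_lit 33102337003) (nat_lit 76) (nat_lit 58394433450) (nat_lit 58) (nat_lit 5) (nat_lit 62) (nat_lit 5) (nat_lit 59) (nat_lit 5) (nat_lit 320) (nat_lit 287) (nat_lit 113)) (XT.lf (nat_lit 0) (nat_lit 17312325505) (nat_lit 1140) (nat_lit 2035835678) (nat_lit 1140) (nat_lit 2035835678) (nat_lit 159) (nat_lit 3) (nat_lit 174) (nat_lit 3) (nat_lit 174) (nat_lit 5) (nat_lit 288) (nat_lit 288) (nat_lit 144))))) (XT.nd (nat_lit 234) (nat_lit 0) (nat_lit 152) (XT.nd (nat_lit 78) (nat_lit 0) (nat_lit 76) (XT.lf (nat_lit 76) (nat_lit 26591322345) (nat_lit 0) (nat_lit 9208095528) (nat_lit 1140) (nat_lit 8028383384)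 (nat_lit 160) (nat_lit 5) (nat_lit 159) (nat_lit 3) (nat_lit 174) (nat_lit 5) (nat_lit 289) (nat_lit 288) (nat_lit 143)) (XT.nd (nat_lit 78) (nat_lit 0) (nat_lit 76) (XT.lf (nat_lit 76) (nat_lit 13994836048) (nat_lit 0) (nat_lit 23420632482) (nat_lit 1140) (nat_lit 7513661818) (nat_lit 161) (nat_lit 5) (nat_lit 160) (nat_lit 5) (nat_lit 175) (nat_lit 5) (nat_lit 290) (nat_lit 288) (nat_lit 142)) (XT.lf (nat_lit 76) (nat_lit 917851801) (nat_lit 0) (nat_lit 38543227220) (nat_lit 1140) (nat_lit 6613991333) (nat_lit 162) (nat_lit 5) (nat_lit 161) (nat_lit 5) (nat_lit 176) (nat_lit 5) (nat_lit 291) (nat_lit 288) (nat_lit 141)))) (XT.nd (nat_lit 78) (nat_lit 0) (nat_lit 76) (XT.lf (nat_lit 76) (nat_lit 34766008929) (nat_lit 0) (nat_lit 7392342106) (nat_lit 1140) (nat_lit 5103481734) (nat_lit 162) (nat_lit 5) (nat_lit 161) (nat_lit 5) (nat_lit 176) (nat_lit 5) (nat_lit 292) (nat_lit 288) (nat_lit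 140)) (XT.nd (nat_lit 78) (nat_lit 0) (nat_lit 76) (XT.lf (nat_lit 76) (nat_lit 21982288500) (nat_lit 0) (nat_lit 23459886365) (nat_lit 1140) (nat_lit 3052214307) (nat_lit 163) (nat_lit 5) (nat_lit 162) (nat_lit 5) (nat_lit 177) (nat_lit 5) (nat_lit 293) (nat_lit 288) (nat_lit 139)) (XT.lf (nat_lit 76) (nat_lit 8664747712) (nat_lit 0) (nat_lit 40597580146) (nat_lit 1140) (nat_lit 515087600) (nat_lit 164) (nat_lit 5) (nat_lit 163) (nat_lit 5) (nat_lit 178) (nat_lit 5) (nat_lit 294) (nat_lit 288) (nat_lit 138))))))))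
noncomputable def xc120 : XT := (XT.nd (nat_lit 1716) (nat_lit 836) (nat_lit 0) (XT.nd (nat_lit 858) (nat_lit 3192) (nat_lit 0) (XT.nd (nat_lit 390) (nat_lit 2736) (nat_lit 0) (XT.nd (nat_lit 156) (nat_lit 0) (nat_lit 152) (XT.nd (nat_lit 78) (nat_lit 0) (nat_lit 76) (XT.lf (nat_lit 0) (nat_lit 2616613548) (nat_lit 1140) (nat_lit 5224087300) (nat_lit 1216) (nat_lit 43267988729) (nat_lit 148) (nat_lit 5) (nat_lit 163) (nat_lit 5) (nat_lit 164) (nat_lit 5) (nat_lit 295) (nat_lit 288) (nat_lit 137)) (XT.lf (nat_lit 0) (nat_lit 6468337903) (nat_lit 1140) (nat_lit 19657699883) (nat_lit 1216) (nat_lit 26363119352) (nat_lit 149) (nat_lit 5) (nat_lit 164) (nat_lit 5) (nat_lit 165) (nat_lit 5) (nat_lit 296) (nat_lit 288) (nat_lit 136))) (XT.nd (nat_lit 78) (nat_lit 0) (nat_lit 0) (XT.lf (nat_lit 0) (nat_lit 10909695000) (nat_lit 1140) (nat_lit 34754121914) (nat_lit 1216) (nat_lit 8262924971) (nat_lit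 150) (nat_lit 5) (nat_lit 165) (nat_lit 5) (nat_lit 166) (nat_lit 5) (nat_lit 297) (nat_lit 288) (nat_lit 135)) (XT.nd (nat_lit 78) (nat_lit 0) (nat_lit 76) (XT.lf (nat_lit 76) (nat_lit 4750136768) (nat_lit 0) (nat_lit 11334298161) (nat_lit 1216) (nat_lit 39336436446) (nat_lit 151) (nat_lit 5) (nat_lit 150) (nat_lit 5) (nat_lit 166) (nat_lit 5) (nat_lit 298) (nat_lit 288) (nat_lit 134)) (XT.lf (nat_lit 0) (nat_lit 22114456156) (nat_lit 1140) (nat_lit 10266179160) (nat_lit 76) (nat_lit 24591180412) (nat_lit 151) (nat_lit 5) (nat_lit 166) (nat_lit 5) (nat_lit 152) (nat_lit 5) (nat_lit 299) (nat_lit 288) (nat_lit 133))))) (XT.nd (nat_lit 234) (nat_lit 1064) (nat_lit 0) (XT.nd (nat_lit 78) (nat_lit 1064) (nat_lit 0) (XT.lf (nat_lit 0) (nat_lit 28908925358) (nat_lit 912) (nat_lit 25944105543) (nat_lit 76) (nat_lit 3733392487) (nat_lit 140) (nat_lit 5) (nat_lit 152) (nat_lit 5) (nat_lit 141) (nat_lit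 5) (nat_lit 300) (nat_lit 288) (nat_lit 132)) (XT.nd (nat_lit 78) (nat_lit 532) (nat_lit 0) (XT.lf (nat_lit 0) (nat_lit 17646754219) (nat_lit 532) (nat_lit 18997442762) (nat_lit 608) (nat_lit 23619536358) (nat_lit 133) (nat_lit 5) (nat_lit 140) (nat_lit 5) (nat_lit 141) (nat_lit 5) (nat_lit 301) (nat_lit 288) (nat_lit 131)) (XT.lf (nat_lit 0) (nat_lit 1793567448) (nat_lit 532) (nat_lit 43436884116) (nat_lit 608) (nat_lit 16780534720) (nat_lit 126) (nat_lit 5) (nat_lit 133) (nat_lit 5) (nat_lit 134) (nat_lit 5) (nat_lit 302) (nat_lit 288) (nat_lit 130)))) (XT.nd (nat_lit 78) (nat_lit 1064) (nat_lit 0) (XT.lf (nat_lit 0) (nat_lit 49117784992) (nat_lit 532) (nat_lit 5754860821) (nat_lit 608) (nat_lit 8954161136) (nat_lit 126) (nat_lit 5) (nat_lit 133) (nat_lit 5) (nat_lit 134) (nat_lit 5) (nat_lit 303) (nat_lit 288) (nat_lit 129)) (XT.nd (nat_lit 78) (nat_lit 608) (nat_lit 0) (XT.lf (nat_lit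 0) (nat_lit 33399693388) (nat_lit 456) (nat_lit 32241479289) (nat_lit 532) (nat_lit 72922982) (nat_lit 120) (nat_lit 5) (nat_lit 126) (nat_lit 5) (nat_lit 127) (nat_lit 5) (nat_lit 304) (nat_lit 288) (nat_lit 128)) (XT.lf (nat_lit 0) (nat_lit 9511441986) (nat_lit 608) (nat_lit 51046161538) (nat_lit 76) (nat_lit 7122292151) (nat_lit 112) (nat_lit 5) (nat_lit 120) (nat_lit 5) (nat_lit 113) (nat_lit 5) (nat_lit 305) (nat_lit 288) (nat_lit 127)))))) (XT.nd (nat_lit 390) (nat_lit 1900) (nat_lit 0) (XT.nd (nat_lit 156) (nat_lit 836) (nat_lit 0) (XT.nd (nat_lit 78) (nat_lit 456) (nat_lit 0) (XT.lf (nat_lit 0) (nat_lit 20233162229) (nat_lit 608) (nat_lit 1360727942) (nat_lit 76) (nat_lit 48130287759) (nat_lit 112) (nat_lit 5) (nat_lit 120) (nat_lit 5) (nat_lit 113) (nat_lit 5) (nat_lit 306) (nat_lit 288) (nat_lit 126)) (XT.lf (nat_lit 0) (nat_lit 32178056892) (nat_lit 532) (nat_lit 20228007513)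 (nat_lit 76) (nat_lit 19444000341) (nat_lit 106) (nat_lit 5) (nat_lit 113) (nat_lit 5) (nat_lit 107) (nat_lit 5) (nat_lit 307) (nat_lit 288) (nat_lit 125))) (XT.nd (nat_lit 78) (nat_lit 380) (nat_lit 0) (XT.lf (nat_lit 0) (nat_lit 33637144692) (nat_lit 456) (nat_lit 11636903058) (nat_lit 532) (nat_lit 28791585565) (nat_lit 100) (nat_lit 5) (nat_lit 106) (nat_lit 5) (nat_lit 107) (nat_lit 5) (nat_lit 308) (nat_lit 288) (nat_lit 124)) (XT.nd (nat_lit 78) (nat_lit 0) (nat_lit 0) (XT.lf (nat_lit 0) (nat_lit 14206315005) (nat_lit 380) (nat_lit 45463476063) (nat_lit 456) (nat_lit 16702843466) (nat_lit 95) (nat_lit 5) (nat_lit 100) (nat_lit 5) (nat_lit 101) (nat_lit 5) (nat_lit 309) (nat_lit 288) (nat_lit 123)) (XT.lf (nat_lit 0) (nat_lit 72296218753) (nat_lit 380) (nat_lit 3020107620) (nat_lit 456) (nat_lit 3462731978) (nat_lit 95) (nat_lit 5) (nat_lit 100) (nat_lit 5) (nat_lit 101) (nat_lit 5)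 (nat_lit 310) (nat_lit 288) (nat_lit 122))))) (XT.nd (nat_lit 234) (nat_lit 684) (nat_lit 0) (XT.nd (nat_lit 78) (nat_lit 760) (nat_lit 0) (XT.lf (nat_lit 0) (nat_lit 11148298420) (nat_lit 456) (nat_lit 28777566843) (nat_lit 76) (nat_lit 41349551378) (nat_lit 89) (nat_lit 5) (nat_lit 95) (nat_lit 5) (nat_lit 90) (nat_lit 5) (nat_lit 311) (nat_lit 288) (nat_lit 121)) (XT.nd (nat_lit 78) (nat_lit 380) (nat_lit 0) (XT.lf (nat_lit 0) (nat_lit 26857688441) (nat_lit 456) (nat_lit 52716145581) (nat_lit 76) (nat_lit 4308549968) (nat_lit 84) (nat_lit 5) (nat_lit 90) (nat_lit 5) (nat_lit 85) (nat_lit 5) (nat_lit 312) (nat_lit 288) (nat_lit 120)) (XT.lf (nat_lit 0) (nat_lit 7843302129) (nat_lit 380) (nat_lit 36285472666) (nat_lit 456) (nat_lit 42467640352) (nat_lit 79) (nat_lit 5) (nat_lit 84) (nat_lit 5) (nat_lit 85) (nat_lit 5) (nat_lit 313) (nat_lit 288) (nat_lit 119)))) (XT.nd (nat_lit 78) (nat_lit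 684) (nat_lit 0) (XT.lf (nat_lit 0) (nat_lit 62898299321) (nat_lit 456) (nat_lit 16992641271) (nat_lit 76) (nat_lit 9536162893) (nat_lit 79) (nat_lit 5) (nat_lit 85) (nat_lit 5) (nat_lit 80) (nat_lit 5) (nat_lit 314) (nat_lit 288) (nat_lit 118)) (XT.nd (nat_lit 78) (nat_lit 380) (nat_lit 0) (XT.lf (nat_lit 0) (nat_lit 48433185393) (nat_lit 304) (nat_lit 35003705925) (nat_lit 380) (nat_lit 8937519224) (nat_lit 75) (nat_lit 5) (nat_lit 79) (nat_lit 5) (nat_lit 80) (nat_lit 5) (nat_lit 315) (nat_lit 288) (nat_lit 117)) (XT.lf (nat_lit 0) (nat_lit 9859100053) (nat_lit 380) (nat_lit 73212926673) (nat_lit 76) (nat_lit 12378954911) (nat_lit 70) (nat_lit 5) (nat_lit 75) (nat_lit 5) (nat_lit 71) (nat_lit 5) (nat_lit 316) (nat_lit 288) (nat_lit 116))))))) (XT.nd (nat_lit 35880) (nat_lit 0) (nat_lit 4028) (XT.nd (nat_lit 35412) (nat_lit 0) (nat_lit 7600) (XT.nd (nat_lit 156) (nat_lit 532) (nat_lit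 0) (XT.nd (nat_lit 78) (nat_lit 304) (nat_lit 0) (XT.lf (nat_lit 0) (nat_lit 30221395506) (nat_lit 380) (nat_lit 6472765128) (nat_lit 76) (nat_lit 61960247136) (nat_lit 70) (nat_lit 5) (nat_lit 75) (nat_lit 5) (nat_lit 71) (nat_lit 5) (nat_lit 317) (nat_lit 288) (nat_lit 115)) (XT.lf (nat_lit 0) (nat_lit 52345818699) (nat_lit 380) (nat_lit 37252087105) (nat_lit 76) (nat_lit 12397780725) (nat_lit 66) (nat_lit 5) (nat_lit 71) (nat_lit 5) (nat_lit 67) (nat_lit 5) (nat_lit 318) (nat_lit 288) (nat_lit 114))) (XT.nd (nat_lit 78) (nat_lit 228) (nat_lit 0) (XT.lf (nat_lit 0) (nat_lit 34453885911) (nat_lit 304) (nat_lit 41890366068) (nat_lit 380) (nat_lit 29136745205) (nat_lit 62) (nat_lit 5) (nat_lit 66) (nat_lit 5) (nat_lit 67) (nat_lit 5) (nat_lit 319) (nat_lit 288) (nat_lit 113)) (XT.nd (nat_lit 35100) (nat_lit 0) (nat_lit 7600) (XT.lf (nat_lit 0) (nat_lit 1336571944) (nat_lit 228) (nat_lit 100683981498)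 (nat_lit 304) (nat_lit 7105683085) (nat_lit 59) (nat_lit 5) (nat_lit 62) (nat_lit 5) (nat_lit 63) (nat_lit 5) (nat_lit 320) (nat_lit 288) (nat_lit 112)) (XT.lf (nat_lit 0) (nat_lit 18230644425) (nat_lit 1140) (nat_lit 2110427624) (nat_lit 1140) (nat_lit 2110427624) (nat_lit 159) (nat_lit 3) (nat_lit 174) (nat_lit 3) (nat_lit 174) (nat_lit 5) (nat_lit 289) (nat_lit 289) (nat_lit 142))))) (XT.nd (nat_lit 234) (nat_lit 0) (nat_lit 152) (XT.nd (nat_lit 78) (nat_lit 0) (nat_lit 76) (XT.lf (nat_lit 76) (nat_lit 27973728781) (nat_lit 0) (nat_lit 9716553910) (nat_lit 1140) (nat_lit 8325660955) (nat_lit 160) (nat_lit 5) (nat_lit 159) (nat_lit 3) (nat_lit 174) (nat_lit 5) (nat_lit 290) (nat_lit 289) (nat_lit 141)) (XT.nd (nat_lit 78) (nat_lit 0) (nat_lit 76) (XT.lf (nat_lit 76) (nat_lit 14749506772) (nat_lit 0) (nat_lit 24632912721) (nat_lit 1140) (nat_lit 7790071705) (nat_lit 161) (nat_lit 5) (nat_lit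 160) (nat_lit 5) (nat_lit 175) (nat_lit 5) (nat_lit 291) (nat_lit 289) (nat_lit 140)) (XT.lf (nat_lit 76) (nat_lit 1020490857) (nat_lit 0) (nat_lit 40505407625) (nat_lit 1140) (nat_lit 6849972100) (nat_lit 162) (nat_lit 5) (nat_lit 161) (nat_lit 5) (nat_lit 176) (nat_lit 5) (nat_lit 292) (nat_lit 289) (nat_lit 139)))) (XT.nd (nat_lit 78) (nat_lit 0) (nat_lit 76) (XT.lf (nat_lit 76) (nat_lit 36558353630) (nat_lit 0) (nat_lit 7795310681) (nat_lit 1140) (nat_lit 5268447440) (nat_lit 162) (nat_lit 5) (nat_lit 161) (nat_lit 5) (nat_lit 176) (nat_lit 5) (nat_lit 293) (nat_lit 289) (nat_lit 138)) (XT.nd (nat_lit 78) (nat_lit 0) (nat_lit 76) (XT.lf (nat_lit 76) (nat_lit 23136941448) (nat_lit 0) (nat_lit 24660804725) (nat_lit 1140) (nat_lit 3118676880) (nat_lit 163) (nat_lit 5) (nat_lit 162) (nat_lit 5) (nat_lit 177) (nat_lit 5) (nat_lit 294) (nat_lit 289) (nat_lit 137)) (XT.lf (nat_lit 76) (nat_lit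 9154800944) (nat_lit 0) (nat_lit 42650421972) (nat_lit 1140) (nat_lit 458496908) (nat_lit 164) (nat_lit 5) (nat_lit 163) (nat_lit 5) (nat_lit 178) (nat_lit 5) (nat_lit 295) (nat_lit 289) (nat_lit 136)))))) (XT.nd (nat_lit 390) (nat_lit 2736) (nat_lit 0) (XT.nd (nat_lit 156) (nat_lit 0) (nat_lit 152) (XT.nd (nat_lit 78) (nat_lit 0) (nat_lit 76) (XT.lf (nat_lit 0) (nat_lit 2824337772) (nat_lit 1140) (nat_lit 5429490995) (nat_lit 1216) (nat_lit 45407828476) (nat_lit 148) (nat_lit 5) (nat_lit 163) (nat_lit 5) (nat_lit 164) (nat_lit 5) (nat_lit 296) (nat_lit 289) (nat_lit 135)) (XT.lf (nat_lit 0) (nat_lit 6865319818) (nat_lit 1140) (nat_lit 20583830803) (nat_lit 1216) (nat_lit 27662105037) (nat_lit 149) (nat_lit 5) (nat_lit 164) (nat_lit 5) (nat_lit 165) (nat_lit 5) (nat_lit 297) (nat_lit 289) (nat_lit 134))) (XT.nd (nat_lit 78) (nat_lit 0) (nat_lit 0) (XT.lf (nat_lit 0) (nat_lit 11525622934)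 (nat_lit 1140) (nat_lit 36434289238) (nat_lit 1216) (nat_lit 8660908381) (nat_lit 150) (nat_lit 5) (nat_lit 165) (nat_lit 5) (nat_lit 166) (nat_lit 5) (nat_lit 298) (nat_lit 289) (nat_lit 133)) (XT.nd (nat_lit 78) (nat_lit 0) (nat_lit 76) (XT.lf (nat_lit 76) (nat_lit 5043533041) (nat_lit 0) (nat_lit 11912749625) (nat_lit 1216) (nat_lit 41233465279) (nat_lit 151) (nat_lit 5) (nat_lit 150) (nat_lit 5) (nat_lit 166) (nat_lit 5) (nat_lit 299) (nat_lit 289) (nat_lit 132)) (XT.lf (nat_lit 0) (nat_lit 23284477223) (nat_lit 1140) (nat_lit 10724088829) (nat_lit 76) (nat_lit 25809779877) (nat_lit 151) (nat_lit 5) (nat_lit 166) (nat_lit 5) (nat_lit 152) (nat_lit 5) (nat_lit 300) (nat_lit 289) (nat_lit 131))))) (XT.nd (nat_lit 234) (nat_lit 1064) (nat_lit 0) (XT.nd (nat_lit 78) (nat_lit 1064) (nat_lit 0) (XT.lf (nat_lit 0) (nat_lit 30416048982) (nat_lit 912) (nat_lit 27185445212) (nat_lit 76) (nat_lit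 3912274672) (nat_lit 140) (nat_lit 5) (nat_lit 152) (nat_lit 5) (nat_lit 141) (nat_lit 5) (nat_lit 301) (nat_lit 289) (nat_lit 130)) (XT.nd (nat_lit 78) (nat_lit 532) (nat_lit 0) (XT.lf (nat_lit 0) (nat_lit 18583356161) (nat_lit 532) (nat_lit 19952312630) (nat_lit 608) (nat_lit 24739353957) (nat_lit 133) (nat_lit 5) (nat_lit 140) (nat_lit 5) (nat_lit 141) (nat_lit 5) (nat_lit 302) (nat_lit 289) (nat_lit 129)) (XT.lf (nat_lit 0) (nat_lit 1937844116) (nat_lit 532) (nat_lit 45611049067) (nat_lit 608) (nat_lit 17560821130) (nat_lit 126) (nat_lit 5) (nat_lit 133) (nat_lit 5) (nat_lit 134) (nat_lit 5) (nat_lit 303) (nat_lit 289) (nat_lit 128)))) (XT.nd (nat_lit 78) (nat_lit 1064) (nat_lit 0) (XT.lf (nat_lit 0) (nat_lit 51625672619) (nat_lit 532) (nat_lit 6044814095) (nat_lit 608) (nat_lit 9345926026) (nat_lit 126) (nat_lit 5) (nat_lit 133) (nat_lit 5) (nat_lit 134) (nat_lit 5) (nat_lit 304) (nat_lit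 289) (nat_lit 127)) (XT.nd (nat_lit 78) (nat_lit 608) (nat_lit 0) (XT.lf (nat_lit 0) (nat_lit 35121891385) (nat_lit 456) (nat_lit 33853448846) (nat_lit 532) (nat_lit 22793802) (nat_lit 120) (nat_lit 5) (nat_lit 126) (nat_lit 5) (nat_lit 127) (nat_lit 5) (nat_lit 305) (nat_lit 289) (nat_lit 126)) (XT.lf (nat_lit 0) (nat_lit 10037738319) (nat_lit 608) (nat_lit 53545030423) (nat_lit 76) (nat_lit 7479504619) (nat_lit 112) (nat_lit 5) (nat_lit 120) (nat_lit 5) (nat_lit 113) (nat_lit 5) (nat_lit 306) (nat_lit 289) (nat_lit 125))))))))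
noncomputable def xc121 : XT := (XT.nd (nat_lit 36894) (nat_lit 0) (nat_lit 304) (XT.nd (nat_lit 858) (nat_lit 304) (nat_lit 0) (XT.nd (nat_lit 390) (nat_lit 1900) (nat_lit 0) (XT.nd (nat_lit 156) (nat_lit 836) (nat_lit 0) (XT.nd (nat_lit 78) (nat_lit 456) (nat_lit 0) (XT.lf (nat_lit 0) (nat_lit 21293129135) (nat_lit 608) (nat_lit 1377869871) (nat_lit 76) (nat_lit 50537847729) (nat_lit 112) (nat_lit 5) (nat_lit 120) (nat_lit 5) (nat_lit 113) (nat_lit 5) (nat_lit 307) (nat_lit 289) (nat_lit 124)) (XT.lf (nat_lit 0) (nat_lit 33833471694) (nat_lit 532) (nat_lit 21188519667) (nat_lit 76) (nat_lit 20419094762) (nat_lit 106) (nat_lit 5) (nat_lit 113) (nat_lit 5) (nat_lit 107) (nat_lit 5) (nat_lit 308) (nat_lit 289) (nat_lit 123))) (XT.nd (nat_lit 78) (nat_lit 380) (nat_lit 0) (XT.lf (nat_lit 0) (nat_lit 35368431448) (nat_lit 456) (nat_lit 12214090938) (nat_lit 532) (nat_lit 30184967043) (nat_lit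 100) (nat_lit 5) (nat_lit 106) (nat_lit 5) (nat_lit 107) (nat_lit 5) (nat_lit 309) (nat_lit 289) (nat_lit 122)) (XT.nd (nat_lit 78) (nat_lit 0) (nat_lit 0) (XT.lf (nat_lit 0) (nat_lit 14965984592) (nat_lit 380) (nat_lit 47730453323) (nat_lit 456) (nat_lit 17493455167) (nat_lit 95) (nat_lit 5) (nat_lit 100) (nat_lit 5) (nat_lit 101) (nat_lit 5) (nat_lit 310) (nat_lit 289) (nat_lit 121)) (XT.lf (nat_lit 0) (nat_lit 75958033344) (nat_lit 380) (nat_lit 3165211530) (nat_lit 456) (nat_lit 3593458604) (nat_lit 95) (nat_lit 5) (nat_lit 100) (nat_lit 5) (nat_lit 101) (nat_lit 5) (nat_lit 311) (nat_lit 289) (nat_lit 120))))) (XT.nd (nat_lit 234) (nat_lit 684) (nat_lit 0) (XT.nd (nat_lit 78) (nat_lit 760) (nat_lit 0) (XT.lf (nat_lit 0) (nat_lit 11745825209) (nat_lit 456) (nat_lit 30168706284) (nat_lit 76) (nat_lit 43423383531) (nat_lit 89) (nat_lit 5) (nat_lit 95) (nat_lit 5) (nat_lit 90) (nat_lit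 5) (nat_lit 312) (nat_lit 289) (nat_lit 119)) (XT.nd (nat_lit 78) (nat_lit 380) (nat_lit 0) (XT.lf (nat_lit 0) (nat_lit 28239294621) (nat_lit 456) (nat_lit 55304431393) (nat_lit 76) (nat_lit 4531549718) (nat_lit 84) (nat_lit 5) (nat_lit 90) (nat_lit 5) (nat_lit 85) (nat_lit 5) (nat_lit 313) (nat_lit 289) (nat_lit 118)) (XT.lf (nat_lit 0) (nat_lit 8281626508) (nat_lit 380) (nat_lit 38090908602) (nat_lit 456) (nat_lit 44552518477) (nat_lit 79) (nat_lit 5) (nat_lit 84) (nat_lit 5) (nat_lit 85) (nat_lit 5) (nat_lit 314) (nat_lit 289) (nat_lit 117)))) (XT.nd (nat_lit 78) (nat_lit 684) (nat_lit 0) (XT.lf (nat_lit 0) (nat_lit 66078839554) (nat_lit 456) (nat_lit 17797267014) (nat_lit 76) (nat_lit 10021223649) (nat_lit 79) (nat_lit 5) (nat_lit 85) (nat_lit 5) (nat_lit 80) (nat_lit 5) (nat_lit 315) (nat_lit 289) (nat_lit 116)) (XT.nd (nat_lit 78) (nat_lit 380) (nat_lit 0) (XT.lf (nat_lit 0) (nat_lit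 50898560886) (nat_lit 304) (nat_lit 36744524050) (nat_lit 380) (nat_lit 9348958818) (nat_lit 75) (nat_lit 5) (nat_lit 79) (nat_lit 5) (nat_lit 80) (nat_lit 5) (nat_lit 316) (nat_lit 289) (nat_lit 115)) (XT.lf (nat_lit 0) (nat_lit 10385653645) (nat_lit 380) (nat_lit 76829419978) (nat_lit 76) (nat_lit 13007396580) (nat_lit 70) (nat_lit 5) (nat_lit 75) (nat_lit 5) (nat_lit 71) (nat_lit 5) (nat_lit 317) (nat_lit 289) (nat_lit 114)))))) (XT.nd (nat_lit 35568) (nat_lit 0) (nat_lit 6232) (XT.nd (nat_lit 35334) (nat_lit 0) (nat_lit 7068) (XT.nd (nat_lit 78) (nat_lit 304) (nat_lit 0) (XT.lf (nat_lit 0) (nat_lit 31764463937) (nat_lit 380) (nat_lit 6754352881) (nat_lit 76) (nat_lit 65067301324) (nat_lit 70) (nat_lit 5) (nat_lit 75) (nat_lit 5) (nat_lit 71) (nat_lit 5) (nat_lit 318) (nat_lit 289) (nat_lit 113)) (XT.lf (nat_lit 0) (nat_lit 54994073083) (nat_lit 380) (nat_lit 39072968537) (nat_lit 76)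 (nat_lit 13027452658) (nat_lit 66) (nat_lit 5) (nat_lit 71) (nat_lit 5) (nat_lit 67) (nat_lit 5) (nat_lit 319) (nat_lit 289) (nat_lit 112))) (XT.nd (nat_lit 78) (nat_lit 0) (nat_lit 0) (XT.lf (nat_lit 0) (nat_lit 19189979498) (nat_lit 1140) (nat_lit 2191277952) (nat_lit 1140) (nat_lit 2191277952) (nat_lit 159) (nat_lit 3) (nat_lit 174) (nat_lit 3) (nat_lit 174) (nat_lit 5) (nat_lit 290) (nat_lit 290) (nat_lit 140)) (XT.nd (nat_lit 78) (nat_lit 0) (nat_lit 76) (XT.lf (nat_lit 76) (nat_lit 29420342947) (nat_lit 0) (nat_lit 10245967642) (nat_lit 1140) (nat_lit 8647484503) (nat_lit 160) (nat_lit 5) (nat_lit 159) (nat_lit 3) (nat_lit 174) (nat_lit 5) (nat_lit 291) (nat_lit 290) (nat_lit 139)) (XT.lf (nat_lit 76) (nat_lit 15536804262) (nat_lit 0) (nat_lit 25901972067) (nat_lit 1140) (nat_lit 8089531569) (nat_lit 161) (nat_lit 5) (nat_lit 160) (nat_lit 5) (nat_lit 175) (nat_lit 5) (nat_lit 292)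 (nat_lit 290) (nat_lit 138))))) (XT.nd (nat_lit 234) (nat_lit 988) (nat_lit 0) (XT.nd (nat_lit 78) (nat_lit 0) (nat_lit 0) (XT.lf (nat_lit 76) (nat_lit 1122986118) (nat_lit 0) (nat_lit 42562441311) (nat_lit 1140) (nat_lit 7106557961) (nat_lit 162) (nat_lit 5) (nat_lit 161) (nat_lit 5) (nat_lit 176) (nat_lit 5) (nat_lit 293) (nat_lit 290) (nat_lit 137)) (XT.nd (nat_lit 78) (nat_lit 0) (nat_lit 76) (XT.lf (nat_lit 76) (nat_lit 38435291042) (nat_lit 0) (nat_lit 8215326982) (nat_lit 1140) (nat_lit 5450048151) (nat_lit 162) (nat_lit 5) (nat_lit 161) (nat_lit 5) (nat_lit 176) (nat_lit 5) (nat_lit 294) (nat_lit 290) (nat_lit 136)) (XT.lf (nat_lit 76) (nat_lit 24344163599) (nat_lit 0) (nat_lit 25919172890) (nat_lit 1140) (nat_lit 3196471820) (nat_lit 163) (nat_lit 5) (nat_lit 162) (nat_lit 5) (nat_lit 177) (nat_lit 5) (nat_lit 295) (nat_lit 290) (nat_lit 135)))) (XT.nd (nat_lit 78) (nat_lit 1140)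 (nat_lit 0) (XT.lf (nat_lit 76) (nat_lit 9664074639) (nat_lit 0) (nat_lit 44803771024) (nat_lit 1140) (nat_lit 406732346) (nat_lit 164) (nat_lit 5) (nat_lit 163) (nat_lit 5) (nat_lit 178) (nat_lit 5) (nat_lit 296) (nat_lit 290) (nat_lit 134)) (XT.nd (nat_lit 78) (nat_lit 0) (nat_lit 76) (XT.lf (nat_lit 0) (nat_lit 3035299373) (nat_lit 1140) (nat_lit 5650352693) (nat_lit 1216) (nat_lit 47656850566) (nat_lit 148) (nat_lit 5) (nat_lit 163) (nat_lit 5) (nat_lit 164) (nat_lit 5) (nat_lit 297) (nat_lit 290) (nat_lit 133)) (XT.lf (nat_lit 0) (nat_lit 7275311449) (nat_lit 1140) (nat_lit 21561544724) (nat_lit 1216) (nat_lit 29027822278) (nat_lit 149) (nat_lit 5) (nat_lit 164) (nat_lit 5) (nat_lit 165) (nat_lit 5) (nat_lit 298) (nat_lit 290) (nat_lit 132))))))) (XT.nd (nat_lit 858) (nat_lit 2736) (nat_lit 0) (XT.nd (nat_lit 390) (nat_lit 2052) (nat_lit 0) (XT.nd (nat_lit 156) (nat_lit 1292) (nat_lit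 0) (XT.nd (nat_lit 78) (nat_lit 0) (nat_lit 0) (XT.lf (nat_lit 0) (nat_lit 12165798126) (nat_lit 1140) (nat_lit 38203814338) (nat_lit 1216) (nat_lit 9080200658) (nat_lit 150) (nat_lit 5) (nat_lit 165) (nat_lit 5) (nat_lit 166) (nat_lit 5) (nat_lit 299) (nat_lit 290) (nat_lit 131)) (XT.lf (nat_lit 76) (nat_lit 5346403057) (nat_lit 0) (nat_lit 12519032508) (nat_lit 1216) (nat_lit 43231834243) (nat_lit 151) (nat_lit 5) (nat_lit 150) (nat_lit 5) (nat_lit 166) (nat_lit 5) (nat_lit 300) (nat_lit 290) (nat_lit 130))) (XT.nd (nat_lit 78) (nat_lit 1368) (nat_lit 0) (XT.lf (nat_lit 0) (nat_lit 24507021500) (nat_lit 1140) (nat_lit 11210044483) (nat_lit 76) (nat_lit 27090328231) (nat_lit 151) (nat_lit 5) (nat_lit 166) (nat_lit 5) (nat_lit 152) (nat_lit 5) (nat_lit 301) (nat_lit 290) (nat_lit 129)) (XT.nd (nat_lit 78) (nat_lit 532) (nat_lit 0) (XT.lf (nat_lit 0) (nat_lit 31992794611) (nat_lit 912) (nat_lit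 28494045720) (nat_lit 76) (nat_lit 4100824969) (nat_lit 140) (nat_lit 5) (nat_lit 152) (nat_lit 5) (nat_lit 141) (nat_lit 5) (nat_lit 302) (nat_lit 290) (nat_lit 128)) (XT.lf (nat_lit 0) (nat_lit 19561743226) (nat_lit 532) (nat_lit 20954461349) (nat_lit 608) (nat_lit 25920848441) (nat_lit 133) (nat_lit 5) (nat_lit 140) (nat_lit 5) (nat_lit 141) (nat_lit 5) (nat_lit 303) (nat_lit 290) (nat_lit 127))))) (XT.nd (nat_lit 234) (nat_lit 988) (nat_lit 0) (XT.nd (nat_lit 78) (nat_lit 532) (nat_lit 0) (XT.lf (nat_lit 0) (nat_lit 2084258586) (nat_lit 532) (nat_lit 47893706504) (nat_lit 608) (nat_lit 18385582979) (nat_lit 126) (nat_lit 5) (nat_lit 133) (nat_lit 5) (nat_lit 134) (nat_lit 5) (nat_lit 304) (nat_lit 290) (nat_lit 126)) (XT.nd (nat_lit 78) (nat_lit 532) (nat_lit 0) (XT.lf (nat_lit 0) (nat_lit 54254120311) (nat_lit 532) (nat_lit 6349059547) (nat_lit 608) (nat_lit 9762480225) (nat_lit 126)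 (nat_lit 5) (nat_lit 133) (nat_lit 5) (nat_lit 134) (nat_lit 5) (nat_lit 305) (nat_lit 290) (nat_lit 125)) (XT.lf (nat_lit 0) (nat_lit 24357553) (nat_lit 532) (nat_lit 35521423071) (nat_lit 76) (nat_lit 36900741464) (nat_lit 119) (nat_lit 5) (nat_lit 126) (nat_lit 5) (nat_lit 120) (nat_lit 5) (nat_lit 306) (nat_lit 290) (nat_lit 124)))) (XT.nd (nat_lit 78) (nat_lit 456) (nat_lit 0) (XT.lf (nat_lit 0) (nat_lit 10585633610) (nat_lit 608) (nat_lit 56173811023) (nat_lit 76) (nat_lit 7854475643) (nat_lit 112) (nat_lit 5) (nat_lit 120) (nat_lit 5) (nat_lit 113) (nat_lit 5) (nat_lit 307) (nat_lit 290) (nat_lit 123)) (XT.nd (nat_lit 78) (nat_lit 456) (nat_lit 0) (XT.lf (nat_lit 0) (nat_lit 22401603092) (nat_lit 608) (nat_lit 1400600582) (nat_lit 76) (nat_lit 53065688489) (nat_lit 112) (nat_lit 5) (nat_lit 120) (nat_lit 5) (nat_lit 113) (nat_lit 5) (nat_lit 308) (nat_lit 290) (nat_lit 122)) (XT.lf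 (nat_lit 0) (nat_lit 35567332995) (nat_lit 532) (nat_lit 22201788533) (nat_lit 76) (nat_lit 21442674809) (nat_lit 106) (nat_lit 5) (nat_lit 113) (nat_lit 5) (nat_lit 107) (nat_lit 5) (nat_lit 309) (nat_lit 290) (nat_lit 121)))))) (XT.nd (nat_lit 390) (nat_lit 1064) (nat_lit 0) (XT.nd (nat_lit 156) (nat_lit 836) (nat_lit 0) (XT.nd (nat_lit 78) (nat_lit 380) (nat_lit 0) (XT.lf (nat_lit 0) (nat_lit 37181687053) (nat_lit 456) (nat_lit 12820571201) (nat_lit 532) (nat_lit 31652312629) (nat_lit 100) (nat_lit 5) (nat_lit 106) (nat_lit 5) (nat_lit 107) (nat_lit 5) (nat_lit 310) (nat_lit 290) (nat_lit 120)) (XT.lf (nat_lit 0) (nat_lit 15759049206) (nat_lit 380) (nat_lit 50111355541) (nat_lit 456) (nat_lit 18327737475) (nat_lit 95) (nat_lit 5) (nat_lit 100) (nat_lit 5) (nat_lit 101) (nat_lit 5) (nat_lit 311) (nat_lit 290) (nat_lit 119))) (XT.nd (nat_lit 78) (nat_lit 836) (nat_lit 0) (XT.lf (nat_lit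 0) (nat_lit 79798568711) (nat_lit 380) (nat_lit 3318119300) (nat_lit 456) (nat_lit 3734664438) (nat_lit 95) (nat_lit 5) (nat_lit 100) (nat_lit 5) (nat_lit 101) (nat_lit 5) (nat_lit 312) (nat_lit 290) (nat_lit 118)) (XT.nd (nat_lit 78) (nat_lit 380) (nat_lit 0) (XT.lf (nat_lit 0) (nat_lit 12369499117) (nat_lit 456) (nat_lit 31633841007) (nat_lit 76) (nat_lit 45600316502) (nat_lit 89) (nat_lit 5) (nat_lit 95) (nat_lit 5) (nat_lit 90) (nat_lit 5) (nat_lit 313) (nat_lit 290) (nat_lit 117)) (XT.lf (nat_lit 0) (nat_lit 29686381129) (nat_lit 456) (nat_lit 58026549592) (nat_lit 76) (nat_lit 4764995460) (nat_lit 84) (nat_lit 5) (nat_lit 90) (nat_lit 5) (nat_lit 85) (nat_lit 5) (nat_lit 314) (nat_lit 290) (nat_lit 116))))) (XT.nd (nat_lit 234) (nat_lit 380) (nat_lit 0) (XT.nd (nat_lit 78) (nat_lit 304) (nat_lit 0) (XT.lf (nat_lit 0) (nat_lit 8737575655) (nat_lit 380) (nat_lit 39987437981) (nat_lit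 456) (nat_lit 46745220234) (nat_lit 79) (nat_lit 5) (nat_lit 84) (nat_lit 5) (nat_lit 85) (nat_lit 5) (nat_lit 315) (nat_lit 290) (nat_lit 115)) (XT.nd (nat_lit 78) (nat_lit 304) (nat_lit 0) (XT.lf (nat_lit 0) (nat_lit 69415094698) (nat_lit 456) (nat_lit 18646308305) (nat_lit 76) (nat_lit 10529770192) (nat_lit 79) (nat_lit 5) (nat_lit 85) (nat_lit 5) (nat_lit 80) (nat_lit 5) (nat_lit 316) (nat_lit 290) (nat_lit 114)) (XT.lf (nat_lit 0) (nat_lit 53483140834) (nat_lit 304) (nat_lit 38573253952) (nat_lit 380) (nat_lit 9784264929) (nat_lit 75) (nat_lit 5) (nat_lit 79) (nat_lit 5) (nat_lit 80) (nat_lit 5) (nat_lit 317) (nat_lit 290) (nat_lit 113)))) (XT.nd (nat_lit 78) (nat_lit 0) (nat_lit 0) (XT.lf (nat_lit 0) (nat_lit 10935411237) (nat_lit 380) (nat_lit 80630842878) (nat_lit 76) (nat_lit 13666377677) (nat_lit 70) (nat_lit 5) (nat_lit 75) (nat_lit 5) (nat_lit 71) (nat_lit 5) (nat_lit 318) (nat_lit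 290) (nat_lit 112)) (XT.nd (nat_lit 35334) (nat_lit 0) (nat_lit 6764) (XT.lf (nat_lit 0) (nat_lit 33381710858) (nat_lit 380) (nat_lit 7053929478) (nat_lit 76) (nat_lit 68328867598) (nat_lit 70) (nat_lit 5) (nat_lit 75) (nat_lit 5) (nat_lit 71) (nat_lit 5) (nat_lit 319) (nat_lit 290) (nat_lit 111)) (XT.lf (nat_lit 0) (nat_lit 20192837070) (nat_lit 1140) (nat_lit 2278464476) (nat_lit 1140) (nat_lit 2278464476) (nat_lit 159) (nat_lit 3) (nat_lit 174) (nat_lit 3) (nat_lit 174) (nat_lit 5) (nat_lit 291) (nat_lit 291) (nat_lit 138))))))))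
noncomputable def xc122 : XT := (XT.nd (nat_lit 1716) (nat_lit 1520) (nat_lit 0) (XT.nd (nat_lit 858) (nat_lit 4028) (nat_lit 0) (XT.nd (nat_lit 390) (nat_lit 836) (nat_lit 0) (XT.nd (nat_lit 156) (nat_lit 0) (nat_lit 152) (XT.nd (nat_lit 78) (nat_lit 0) (nat_lit 76) (XT.lf (nat_lit 76) (nat_lit 30934831955) (nat_lit 0) (nat_lit 10797799843) (nat_lit 1140) (nat_lit 8994181177) (nat_lit 160) (nat_lit 5) (nat_lit 159) (nat_lit 3) (nat_lit 174) (nat_lit 5) (nat_lit 292) (nat_lit 291) (nat_lit 137)) (XT.lf (nat_lit 76) (nat_lit 16358834636) (nat_lit 0) (nat_lit 27231006007) (nat_lit 1140) (nat_lit 8412335837) (nat_lit 161) (nat_lit 5) (nat_lit 160) (nat_lit 5) (nat_lit 175) (nat_lit 5) (nat_lit 293) (nat_lit 291) (nat_lit 136))) (XT.nd (nat_lit 78) (nat_lit 0) (nat_lit 0) (XT.lf (nat_lit 76) (nat_lit 1225820882) (nat_lit 0) (nat_lit 44719373631) (nat_lit 1140) (nat_lit 7383960468) (nat_lit 162)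 (nat_lit 5) (nat_lit 161) (nat_lit 5) (nat_lit 176) (nat_lit 5) (nat_lit 294) (nat_lit 291) (nat_lit 135)) (XT.nd (nat_lit 78) (nat_lit 0) (nat_lit 76) (XT.lf (nat_lit 76) (nat_lit 40401517936) (nat_lit 0) (nat_lit 8653531669) (nat_lit 1140) (nat_lit 5648335901) (nat_lit 162) (nat_lit 5) (nat_lit 161) (nat_lit 5) (nat_lit 176) (nat_lit 5) (nat_lit 295) (nat_lit 291) (nat_lit 134)) (XT.lf (nat_lit 76) (nat_lit 25607063459) (nat_lit 0) (nat_lit 27238104713) (nat_lit 1140) (nat_lit 3285421122) (nat_lit 163) (nat_lit 5) (nat_lit 162) (nat_lit 5) (nat_lit 177) (nat_lit 5) (nat_lit 296) (nat_lit 291) (nat_lit 133))))) (XT.nd (nat_lit 234) (nat_lit 0) (nat_lit 152) (XT.nd (nat_lit 78) (nat_lit 1140) (nat_lit 0) (XT.lf (nat_lit 76) (nat_lit 10194020908) (nat_lit 0) (nat_lit 47062851142) (nat_lit 1140) (nat_lit 359323469) (nat_lit 164) (nat_lit 5) (nat_lit 163) (nat_lit 5) (nat_lit 178) (nat_lit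 5) (nat_lit 297) (nat_lit 291) (nat_lit 132)) (XT.nd (nat_lit 78) (nat_lit 0) (nat_lit 76) (XT.lf (nat_lit 0) (nat_lit 3250324852) (nat_lit 1140) (nat_lit 5886962979) (nat_lit 1216) (nat_lit 50020310479) (nat_lit 148) (nat_lit 5) (nat_lit 163) (nat_lit 5) (nat_lit 164) (nat_lit 5) (nat_lit 298) (nat_lit 291) (nat_lit 131)) (XT.lf (nat_lit 0) (nat_lit 7699599145) (nat_lit 1140) (nat_lit 22592930243) (nat_lit 1216) (nat_lit 30463441953) (nat_lit 149) (nat_lit 5) (nat_lit 164) (nat_lit 5) (nat_lit 165) (nat_lit 5) (nat_lit 299) (nat_lit 291) (nat_lit 130)))) (XT.nd (nat_lit 78) (nat_lit 0) (nat_lit 0) (XT.lf (nat_lit 0) (nat_lit 12832041815) (nat_lit 1140) (nat_lit 40066667764) (nat_lit 1216) (nat_lit 9521736186) (nat_lit 150) (nat_lit 5) (nat_lit 165) (nat_lit 5) (nat_lit 166) (nat_lit 5) (nat_lit 300) (nat_lit 291) (nat_lit 129)) (XT.nd (nat_lit 78) (nat_lit 0) (nat_lit 76) (XT.lf (nat_lit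 76) (nat_lit 5659703586) (nat_lit 0) (nat_lit 13154639828) (nat_lit 1216) (nat_lit 45336007089) (nat_lit 151) (nat_lit 5) (nat_lit 150) (nat_lit 5) (nat_lit 166) (nat_lit 5) (nat_lit 301) (nat_lit 291) (nat_lit 128)) (XT.lf (nat_lit 0) (nat_lit 25785270911) (nat_lit 1140) (nat_lit 11724969575) (nat_lit 76) (nat_lit 28435828189) (nat_lit 151) (nat_lit 5) (nat_lit 166) (nat_lit 5) (nat_lit 152) (nat_lit 5) (nat_lit 302) (nat_lit 291) (nat_lit 127)))))) (XT.nd (nat_lit 390) (nat_lit 1824) (nat_lit 0) (XT.nd (nat_lit 156) (nat_lit 1064) (nat_lit 0) (XT.nd (nat_lit 78) (nat_lit 532) (nat_lit 0) (XT.lf (nat_lit 0) (nat_lit 33643176455) (nat_lit 912) (nat_lit 29872787233) (nat_lit 76) (nat_lit 4299459472) (nat_lit 140) (nat_lit 5) (nat_lit 152) (nat_lit 5) (nat_lit 141) (nat_lit 5) (nat_lit 303) (nat_lit 291) (nat_lit 126)) (XT.lf (nat_lit 0) (nat_lit 20584473704) (nat_lit 532) (nat_lit 22006296061)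 (nat_lit 608) (nat_lit 27166575022) (nat_lit 133) (nat_lit 5) (nat_lit 140) (nat_lit 5) (nat_lit 141) (nat_lit 5) (nat_lit 304) (nat_lit 291) (nat_lit 125))) (XT.nd (nat_lit 78) (nat_lit 532) (nat_lit 0) (XT.lf (nat_lit 0) (nat_lit 2233389668) (nat_lit 532) (nat_lit 50290301112) (nat_lit 608) (nat_lit 19256536317) (nat_lit 126) (nat_lit 5) (nat_lit 133) (nat_lit 5) (nat_lit 134) (nat_lit 5) (nat_lit 305) (nat_lit 291) (nat_lit 124)) (XT.nd (nat_lit 78) (nat_lit 532) (nat_lit 0) (XT.lf (nat_lit 0) (nat_lit 57009605520) (nat_lit 532) (nat_lit 6668330889) (nat_lit 608) (nat_lit 10204579654) (nat_lit 126) (nat_lit 5) (nat_lit 133) (nat_lit 5) (nat_lit 134) (nat_lit 5) (nat_lit 306) (nat_lit 291) (nat_lit 123)) (XT.lf (nat_lit 0) (nat_lit 68953224) (nat_lit 532) (nat_lit 37253592504) (nat_lit 76) (nat_lit 38744918747) (nat_lit 119) (nat_lit 5) (nat_lit 126) (nat_lit 5) (nat_lit 120) (nat_lit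 5) (nat_lit 307) (nat_lit 291) (nat_lit 122))))) (XT.nd (nat_lit 234) (nat_lit 836) (nat_lit 0) (XT.nd (nat_lit 78) (nat_lit 456) (nat_lit 0) (XT.lf (nat_lit 0) (nat_lit 11156646243) (nat_lit 608) (nat_lit 58938537019) (nat_lit 76) (nat_lit 8248102638) (nat_lit 112) (nat_lit 5) (nat_lit 120) (nat_lit 5) (nat_lit 113) (nat_lit 5) (nat_lit 308) (nat_lit 291) (nat_lit 121)) (XT.nd (nat_lit 78) (nat_lit 456) (nat_lit 0) (XT.lf (nat_lit 0) (nat_lit 23561427011) (nat_lit 608) (nat_lit 1428759606) (nat_lit 76) (nat_lit 55719833116) (nat_lit 112) (nat_lit 5) (nat_lit 120) (nat_lit 5) (nat_lit 113) (nat_lit 5) (nat_lit 309) (nat_lit 291) (nat_lit 120)) (XT.lf (nat_lit 0) (nat_lit 37383965146) (nat_lit 532) (nat_lit 23270012094) (nat_lit 76) (nat_lit 22517189783) (nat_lit 106) (nat_lit 5) (nat_lit 113) (nat_lit 5) (nat_lit 107) (nat_lit 5) (nat_lit 310) (nat_lit 291) (nat_lit 119)))) (XT.nd (nat_lit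 78) (nat_lit 380) (nat_lit 0) (XT.lf (nat_lit 0) (nat_lit 39081437195) (nat_lit 456) (nat_lit 13457768212) (nat_lit 532) (nat_lit 33196921217) (nat_lit 100) (nat_lit 5) (nat_lit 106) (nat_lit 5) (nat_lit 107) (nat_lit 5) (nat_lit 311) (nat_lit 291) (nat_lit 118)) (XT.nd (nat_lit 78) (nat_lit 0) (nat_lit 0) (XT.lf (nat_lit 0) (nat_lit 16587605190) (nat_lit 380) (nat_lit 52611825407) (nat_lit 456) (nat_lit 19207489019) (nat_lit 95) (nat_lit 5) (nat_lit 100) (nat_lit 5) (nat_lit 101) (nat_lit 5) (nat_lit 312) (nat_lit 291) (nat_lit 117)) (XT.lf (nat_lit 0) (nat_lit 83827167169) (nat_lit 380) (nat_lit 3479170111) (nat_lit 456) (nat_lit 3886506870) (nat_lit 95) (nat_lit 5) (nat_lit 100) (nat_lit 5) (nat_lit 101) (nat_lit 5) (nat_lit 313) (nat_lit 291) (nat_lit 116))))))) (XT.nd (nat_lit 36270) (nat_lit 0) (nat_lit 3344) (XT.nd (nat_lit 35802) (nat_lit 0) (nat_lit 6384) (XT.nd (nat_lit 156) (nat_lit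 684) (nat_lit 0) (XT.nd (nat_lit 78) (nat_lit 380) (nat_lit 0) (XT.lf (nat_lit 0) (nat_lit 13020974206) (nat_lit 456) (nat_lit 33176258145) (nat_lit 76) (nat_lit 47885560259) (nat_lit 89) (nat_lit 5) (nat_lit 95) (nat_lit 5) (nat_lit 90) (nat_lit 5) (nat_lit 314) (nat_lit 291) (nat_lit 115)) (XT.lf (nat_lit 0) (nat_lit 31202556672) (nat_lit 456) (nat_lit 60888781044) (nat_lit 76) (nat_lit 5009474943) (nat_lit 84) (nat_lit 5) (nat_lit 90) (nat_lit 5) (nat_lit 85) (nat_lit 5) (nat_lit 315) (nat_lit 291) (nat_lit 114))) (XT.nd (nat_lit 78) (nat_lit 304) (nat_lit 0) (XT.lf (nat_lit 0) (nat_lit 9212429786) (nat_lit 380) (nat_lit 41979539085) (nat_lit 456) (nat_lit 49050803998) (nat_lit 79) (nat_lit 5) (nat_lit 84) (nat_lit 5) (nat_lit 85) (nat_lit 5) (nat_lit 316) (nat_lit 291) (nat_lit 113)) (XT.nd (nat_lit 78) (nat_lit 304) (nat_lit 0) (XT.lf (nat_lit 0) (nat_lit 72915158428) (nat_lit 456)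 (nat_lit 19541596910) (nat_lit 76) (nat_lit 11063048145) (nat_lit 79) (nat_lit 5) (nat_lit 85) (nat_lit 5) (nat_lit 80) (nat_lit 5) (nat_lit 317) (nat_lit 291) (nat_lit 112)) (XT.lf (nat_lit 0) (nat_lit 56193263321) (nat_lit 304) (nat_lit 40494210255) (nat_lit 380) (nat_lit 10244324589) (nat_lit 75) (nat_lit 5) (nat_lit 79) (nat_lit 5) (nat_lit 80) (nat_lit 5) (nat_lit 318) (nat_lit 291) (nat_lit 111))))) (XT.nd (nat_lit 234) (nat_lit 0) (nat_lit 152) (XT.nd (nat_lit 78) (nat_lit 0) (nat_lit 0) (XT.lf (nat_lit 0) (nat_lit 21241806448) (nat_lit 1140) (nat_lit 2372090763) (nat_lit 1140) (nat_lit 2372090763) (nat_lit 159) (nat_lit 3) (nat_lit 174) (nat_lit 3) (nat_lit 174) (nat_lit 5) (nat_lit 292) (nat_lit 292) (nat_lit 136)) (XT.nd (nat_lit 78) (nat_lit 0) (nat_lit 76) (XT.lf (nat_lit 76) (nat_lit 32521003812) (nat_lit 0) (nat_lit 11373548176) (nat_lit 1140) (nat_lit 9366178172) (nat_lit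 160) (nat_lit 5) (nat_lit 159) (nat_lit 3) (nat_lit 174) (nat_lit 5) (nat_lit 293) (nat_lit 292) (nat_lit 135)) (XT.lf (nat_lit 76) (nat_lit 17217765175) (nat_lit 0) (nat_lit 28623336659) (nat_lit 1140) (nat_lit 8758873436) (nat_lit 161) (nat_lit 5) (nat_lit 160) (nat_lit 5) (nat_lit 175) (nat_lit 5) (nat_lit 294) (nat_lit 292) (nat_lit 134)))) (XT.nd (nat_lit 78) (nat_lit 0) (nat_lit 0) (XT.lf (nat_lit 76) (nat_lit 1329457013) (nat_lit 0) (nat_lit 46981474062) (nat_lit 1140) (nat_lit 7682477865) (nat_lit 162) (nat_lit 5) (nat_lit 161) (nat_lit 5) (nat_lit 176) (nat_lit 5) (nat_lit 295) (nat_lit 292) (nat_lit 133)) (XT.nd (nat_lit 78) (nat_lit 0) (nat_lit 76) (XT.lf (nat_lit 76) (nat_lit 42461922487) (nat_lit 0) (nat_lit 9111095633) (nat_lit 1140) (nat_lit 5863437813) (nat_lit 162) (nat_lit 5) (nat_lit 161) (nat_lit 5) (nat_lit 176) (nat_lit 5) (nat_lit 296) (nat_lit 292) (nat_lit 132))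 (XT.lf (nat_lit 76) (nat_lit 26928860333) (nat_lit 0) (nat_lit 28620847298) (nat_lit 1140) (nat_lit 3385407108) (nat_lit 163) (nat_lit 5) (nat_lit 162) (nat_lit 5) (nat_lit 177) (nat_lit 5) (nat_lit 297) (nat_lit 292) (nat_lit 131)))))) (XT.nd (nat_lit 390) (nat_lit 2204) (nat_lit 0) (XT.nd (nat_lit 156) (nat_lit 0) (nat_lit 76) (XT.nd (nat_lit 78) (nat_lit 1140) (nat_lit 0) (XT.lf (nat_lit 76) (nat_lit 10746118813) (nat_lit 0) (nat_lit 49433128908) (nat_lit 1140) (nat_lit 315842481) (nat_lit 164) (nat_lit 5) (nat_lit 163) (nat_lit 5) (nat_lit 178) (nat_lit 5) (nat_lit 298) (nat_lit 292) (nat_lit 130)) (XT.lf (nat_lit 0) (nat_lit 3470220243) (nat_lit 1140) (nat_lit 6139671809) (nat_lit 1216) (nat_lit 52503745400) (nat_lit 148) (nat_lit 5) (nat_lit 163) (nat_lit 5) (nat_lit 164) (nat_lit 5) (nat_lit 299) (nat_lit 292) (nat_lit 129))) (XT.nd (nat_lit 78) (nat_lit 0) (nat_lit 76) (XT.lf (nat_lit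 0) (nat_lit 8139474453) (nat_lit 1140) (nat_lit 23680225991) (nat_lit 1216) (nat_lit 31972308890) (nat_lit 149) (nat_lit 5) (nat_lit 164) (nat_lit 5) (nat_lit 165) (nat_lit 5) (nat_lit 300) (nat_lit 292) (nat_lit 128)) (XT.nd (nat_lit 78) (nat_lit 0) (nat_lit 0) (XT.lf (nat_lit 0) (nat_lit 13526209694) (nat_lit 1140) (nat_lit 42027064835) (nat_lit 1216) (nat_lit 9986508251) (nat_lit 150) (nat_lit 5) (nat_lit 165) (nat_lit 5) (nat_lit 166) (nat_lit 5) (nat_lit 301) (nat_lit 292) (nat_lit 127)) (XT.lf (nat_lit 76) (nat_lit 5984394322) (nat_lit 0) (nat_lit 13821129818) (nat_lit 1216) (nat_lit 47550726840) (nat_lit 151) (nat_lit 5) (nat_lit 150) (nat_lit 5) (nat_lit 166) (nat_lit 5) (nat_lit 302) (nat_lit 292) (nat_lit 126))))) (XT.nd (nat_lit 234) (nat_lit 1064) (nat_lit 0) (XT.nd (nat_lit 78) (nat_lit 1368) (nat_lit 0) (XT.lf (nat_lit 0) (nat_lit 27122514807) (nat_lit 1140) (nat_lit 12269878252)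 (nat_lit 76) (nat_lit 29849441410) (nat_lit 151) (nat_lit 5) (nat_lit 166) (nat_lit 5) (nat_lit 152) (nat_lit 5) (nat_lit 303) (nat_lit 292) (nat_lit 125)) (XT.nd (nat_lit 78) (nat_lit 532) (nat_lit 0) (XT.lf (nat_lit 0) (nat_lit 35371359871) (nat_lit 912) (nat_lit 31324738818) (nat_lit 76) (nat_lit 4508621338) (nat_lit 140) (nat_lit 5) (nat_lit 152) (nat_lit 5) (nat_lit 141) (nat_lit 5) (nat_lit 304) (nat_lit 292) (nat_lit 124)) (XT.lf (nat_lit 0) (nat_lit 21654190194) (nat_lit 532) (nat_lit 23110340247) (nat_lit 608) (nat_lit 28479265822) (nat_lit 133) (nat_lit 5) (nat_lit 140) (nat_lit 5) (nat_lit 141) (nat_lit 5) (nat_lit 305) (nat_lit 292) (nat_lit 123)))) (XT.nd (nat_lit 78) (nat_lit 532) (nat_lit 0) (XT.lf (nat_lit 0) (nat_lit 2385801240) (nat_lit 532) (nat_lit 52806547944) (nat_lit 608) (nat_lit 20175530197) (nat_lit 126) (nat_lit 5) (nat_lit 133) (nat_lit 5) (nat_lit 134) (nat_lit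 5) (nat_lit 306) (nat_lit 292) (nat_lit 122)) (XT.nd (nat_lit 78) (nat_lit 532) (nat_lit 0) (XT.lf (nat_lit 0) (nat_lit 59898887785) (nat_lit 532) (nat_lit 7003396743) (nat_lit 608) (nat_lit 10673062983) (nat_lit 126) (nat_lit 5) (nat_lit 133) (nat_lit 5) (nat_lit 134) (nat_lit 5) (nat_lit 307) (nat_lit 292) (nat_lit 121)) (XT.lf (nat_lit 0) (nat_lit 111745823) (nat_lit 532) (nat_lit 39076451974) (nat_lit 76) (nat_lit 40681384829) (nat_lit 119) (nat_lit 5) (nat_lit 126) (nat_lit 5) (nat_lit 120) (nat_lit 5) (nat_lit 308) (nat_lit 292) (nat_lit 120))))))))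
noncomputable def xc123 : XT := (XT.nd (nat_lit 37206) (nat_lit 0) (nat_lit 380) (XT.nd (nat_lit 36348) (nat_lit 0) (nat_lit 5244) (XT.nd (nat_lit 390) (nat_lit 1216) (nat_lit 0) (XT.nd (nat_lit 156) (nat_lit 1292) (nat_lit 0) (XT.nd (nat_lit 78) (nat_lit 0) (nat_lit 0) (XT.lf (nat_lit 0) (nat_lit 11752329760) (nat_lit 608) (nat_lit 61845586723) (nat_lit 76) (nat_lit 8661327011) (nat_lit 112) (nat_lit 5) (nat_lit 120) (nat_lit 5) (nat_lit 113) (nat_lit 5) (nat_lit 309) (nat_lit 292) (nat_lit 119)) (XT.lf (nat_lit 0) (nat_lit 24775547127) (nat_lit 608) (nat_lit 1462219351) (nat_lit 76) (nat_lit 58506605002) (nat_lit 112) (nat_lit 5) (nat_lit 120) (nat_lit 5) (nat_lit 113) (nat_lit 5) (nat_lit 310) (nat_lit 292) (nat_lit 118))) (XT.nd (nat_lit 78) (nat_lit 836) (nat_lit 0) (XT.lf (nat_lit 0) (nat_lit 39287871342) (nat_lit 532) (nat_lit 24395539124) (nat_lit 76) (nat_lit 23645209120) (nat_lit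 106) (nat_lit 5) (nat_lit 113) (nat_lit 5) (nat_lit 107) (nat_lit 5) (nat_lit 311) (nat_lit 292) (nat_lit 117)) (XT.nd (nat_lit 78) (nat_lit 380) (nat_lit 0) (XT.lf (nat_lit 0) (nat_lit 41072394125) (nat_lit 456) (nat_lit 14127181294) (nat_lit 532) (nat_lit 34822293768) (nat_lit 100) (nat_lit 5) (nat_lit 106) (nat_lit 5) (nat_lit 107) (nat_lit 5) (nat_lit 312) (nat_lit 292) (nat_lit 116)) (XT.lf (nat_lit 0) (nat_lit 17453814042) (nat_lit 380) (nat_lit 55237792721) (nat_lit 456) (nat_lit 20134634146) (nat_lit 95) (nat_lit 5) (nat_lit 100) (nat_lit 5) (nat_lit 101) (nat_lit 5) (nat_lit 313) (nat_lit 292) (nat_lit 115))))) (XT.nd (nat_lit 234) (nat_lit 380) (nat_lit 0) (XT.nd (nat_lit 78) (nat_lit 836) (nat_lit 0) (XT.lf (nat_lit 0) (nat_lit 88053600378) (nat_lit 380) (nat_lit 3648724848) (nat_lit 456) (nat_lit 4049185238) (nat_lit 95) (nat_lit 5) (nat_lit 100) (nat_lit 5) (nat_lit 101) (nat_lit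 5) (nat_lit 314) (nat_lit 292) (nat_lit 114)) (XT.nd (nat_lit 78) (nat_lit 380) (nat_lit 0) (XT.lf (nat_lit 0) (nat_lit 13701955010) (nat_lit 456) (nat_lit 34799447549) (nat_lit 76) (nat_lit 50284580160) (nat_lit 89) (nat_lit 5) (nat_lit 95) (nat_lit 5) (nat_lit 90) (nat_lit 5) (nat_lit 315) (nat_lit 292) (nat_lit 113)) (XT.lf (nat_lit 0) (nat_lit 32791579278) (nat_lit 456) (nat_lit 63897758846) (nat_lit 76) (nat_lit 5265599222) (nat_lit 84) (nat_lit 5) (nat_lit 90) (nat_lit 5) (nat_lit 85) (nat_lit 5) (nat_lit 316) (nat_lit 292) (nat_lit 112)))) (XT.nd (nat_lit 78) (nat_lit 0) (nat_lit 0) (XT.lf (nat_lit 0) (nat_lit 9707496035) (nat_lit 380) (nat_lit 44071921214) (nat_lit 456) (nat_lit 51474612000) (nat_lit 79) (nat_lit 5) (nat_lit 84) (nat_lit 5) (nat_lit 85) (nat_lit 5) (nat_lit 317) (nat_lit 292) (nat_lit 111)) (XT.nd (nat_lit 35568) (nat_lit 0) (nat_lit 6080) (XT.lf (nat_lit 0) (nat_lit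 76587500472) (nat_lit 456) (nat_lit 20485092346) (nat_lit 76) (nat_lit 11622358778) (nat_lit 79) (nat_lit 5) (nat_lit 85) (nat_lit 5) (nat_lit 80) (nat_lit 5) (nat_lit 318) (nat_lit 292) (nat_lit 110)) (XT.lf (nat_lit 0) (nat_lit 22339567995) (nat_lit 1140) (nat_lit 2472285380) (nat_lit 1140) (nat_lit 2472285380) (nat_lit 159) (nat_lit 3) (nat_lit 174) (nat_lit 3) (nat_lit 174) (nat_lit 5) (nat_lit 293) (nat_lit 293) (nat_lit 134)))))) (XT.nd (nat_lit 390) (nat_lit 836) (nat_lit 0) (XT.nd (nat_lit 156) (nat_lit 0) (nat_lit 152) (XT.nd (nat_lit 78) (nat_lit 0) (nat_lit 76) (XT.lf (nat_lit 76) (nat_lit 34182818410) (nat_lit 0) (nat_lit 11974750156) (nat_lit 1140) (nat_lit 9763999948) (nat_lit 160) (nat_lit 5) (nat_lit 159) (nat_lit 3) (nat_lit 174) (nat_lit 5) (nat_lit 294) (nat_lit 293) (nat_lit 133)) (XT.lf (nat_lit 76) (nat_lit 18115831490) (nat_lit 0) (nat_lit 30082422178) (nat_lit 1140)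 (nat_lit 9129625097) (nat_lit 161) (nat_lit 5) (nat_lit 160) (nat_lit 5) (nat_lit 175) (nat_lit 5) (nat_lit 295) (nat_lit 293) (nat_lit 132))) (XT.nd (nat_lit 78) (nat_lit 0) (nat_lit 0) (XT.lf (nat_lit 76) (nat_lit 1434338106) (nat_lit 0) (nat_lit 49354250033) (nat_lit 1140) (nat_lit 8002492346) (nat_lit 162) (nat_lit 5) (nat_lit 161) (nat_lit 5) (nat_lit 176) (nat_lit 5) (nat_lit 296) (nat_lit 293) (nat_lit 131)) (XT.nd (nat_lit 78) (nat_lit 0) (nat_lit 76) (XT.lf (nat_lit 76) (nat_lit 44621597889) (nat_lit 0) (nat_lit 9589224003) (nat_lit 1140) (nat_lit 6095553121) (nat_lit 162) (nat_lit 5) (nat_lit 161) (nat_lit 5) (nat_lit 176) (nat_lit 5) (nat_lit 297) (nat_lit 293) (nat_lit 130)) (XT.lf (nat_lit 76) (nat_lit 28312894009) (nat_lit 0) (nat_lit 30070789753) (nat_lit 1140) (nat_lit 3496369011) (nat_lit 163) (nat_lit 5) (nat_lit 162) (nat_lit 5) (nat_lit 177) (nat_lit 5) (nat_lit 298)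 (nat_lit 293) (nat_lit 129))))) (XT.nd (nat_lit 234) (nat_lit 0) (nat_lit 152) (XT.nd (nat_lit 78) (nat_lit 1140) (nat_lit 0) (XT.lf (nat_lit 76) (nat_lit 11321879955) (nat_lit 0) (nat_lit 51920327493) (nat_lit 1140) (nat_lit 275900219) (nat_lit 164) (nat_lit 5) (nat_lit 163) (nat_lit 5) (nat_lit 178) (nat_lit 5) (nat_lit 299) (nat_lit 293) (nat_lit 128)) (XT.nd (nat_lit 78) (nat_lit 0) (nat_lit 76) (XT.lf (nat_lit 0) (nat_lit 3695775834) (nat_lit 1140) (nat_lit 6408887311) (nat_lit 1216) (nat_lit 55112986544) (nat_lit 148) (nat_lit 5) (nat_lit 163) (nat_lit 5) (nat_lit 164) (nat_lit 5) (nat_lit 300) (nat_lit 293) (nat_lit 127)) (XT.lf (nat_lit 0) (nat_lit 8596239876) (nat_lit 1140) (nat_lit 24825823899) (nat_lit 1216) (nat_lit 33557949133) (nat_lit 149) (nat_lit 5) (nat_lit 164) (nat_lit 5) (nat_lit 165) (nat_lit 5) (nat_lit 301) (nat_lit 293) (nat_lit 126)))) (XT.nd (nat_lit 78) (nat_lit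 0) (nat_lit 0) (XT.lf (nat_lit 0) (nat_lit 14250198899) (nat_lit 1140) (nat_lit 44089473571) (nat_lit 1216) (nat_lit 10475570858) (nat_lit 150) (nat_lit 5) (nat_lit 165) (nat_lit 5) (nat_lit 166) (nat_lit 5) (nat_lit 302) (nat_lit 293) (nat_lit 125)) (XT.nd (nat_lit 78) (nat_lit 0) (nat_lit 76) (XT.lf (nat_lit 76) (nat_lit 6321442208) (nat_lit 0) (nat_lit 14520130072) (nat_lit 1216) (nat_lit 49881024539) (nat_lit 151) (nat_lit 5) (nat_lit 150) (nat_lit 5) (nat_lit 166) (nat_lit 5) (nat_lit 303) (nat_lit 293) (nat_lit 124)) (XT.lf (nat_lit 0) (nat_lit 28522160140) (nat_lit 1140) (nat_lit 12845875745) (nat_lit 76) (nat_lit 31334495621) (nat_lit 151) (nat_lit 5) (nat_lit 166) (nat_lit 5) (nat_lit 152) (nat_lit 5) (nat_lit 304) (nat_lit 293) (nat_lit 123))))))) (XT.nd (nat_lit 858) (nat_lit 836) (nat_lit 0) (XT.nd (nat_lit 390) (nat_lit 1824) (nat_lit 0) (XT.nd (nat_lit 156) (nat_lit 1064) (nat_lit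 0) (XT.nd (nat_lit 78) (nat_lit 532) (nat_lit 0) (XT.lf (nat_lit 0) (nat_lit 37181673527) (nat_lit 912) (nat_lit 32853163717) (nat_lit 76) (nat_lit 4728781560) (nat_lit 140) (nat_lit 5) (nat_lit 152) (nat_lit 5) (nat_lit 141) (nat_lit 5) (nat_lit 305) (nat_lit 293) (nat_lit 122)) (XT.lf (nat_lit 0) (nat_lit 22773627871) (nat_lit 532) (nat_lit 24269239919) (nat_lit 608) (nat_lit 29861834147) (nat_lit 133) (nat_lit 5) (nat_lit 140) (nat_lit 5) (nat_lit 141) (nat_lit 5) (nat_lit 306) (nat_lit 293) (nat_lit 121))) (XT.nd (nat_lit 78) (nat_lit 532) (nat_lit 0) (XT.lf (nat_lit 0) (nat_lit 2542045578) (nat_lit 532) (nat_lit 55448446112) (nat_lit 608) (nat_lit 21144548942) (nat_lit 126) (nat_lit 5) (nat_lit 133) (nat_lit 5) (nat_lit 134) (nat_lit 5) (nat_lit 307) (nat_lit 293) (nat_lit 120)) (XT.nd (nat_lit 78) (nat_lit 532) (nat_lit 0) (XT.lf (nat_lit 0) (nat_lit 62929026722) (nat_lit 532) (nat_lit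 7355062554) (nat_lit 608) (nat_lit 11168851595) (nat_lit 126) (nat_lit 5) (nat_lit 133) (nat_lit 5) (nat_lit 134) (nat_lit 5) (nat_lit 308) (nat_lit 293) (nat_lit 119)) (XT.lf (nat_lit 0) (nat_lit 153020132) (nat_lit 532) (nat_lit 40994156519) (nat_lit 76) (nat_lit 42714746719) (nat_lit 119) (nat_lit 5) (nat_lit 126) (nat_lit 5) (nat_lit 120) (nat_lit 5) (nat_lit 309) (nat_lit 293) (nat_lit 118))))) (XT.nd (nat_lit 234) (nat_lit 836) (nat_lit 0) (XT.nd (nat_lit 78) (nat_lit 456) (nat_lit 0) (XT.lf (nat_lit 0) (nat_lit 12374278406) (nat_lit 608) (nat_lit 64901696311) (nat_lit 76) (nat_lit 9095136437) (nat_lit 112) (nat_lit 5) (nat_lit 120) (nat_lit 5) (nat_lit 113) (nat_lit 5) (nat_lit 310) (nat_lit 293) (nat_lit 117)) (XT.nd (nat_lit 78) (nat_lit 456) (nat_lit 0) (XT.lf (nat_lit 0) (nat_lit 26047021777) (nat_lit 608) (nat_lit 1500882940) (nat_lit 76) (nat_lit 61432642943) (nat_lit 112) (nat_lit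 5) (nat_lit 120) (nat_lit 5) (nat_lit 113) (nat_lit 5) (nat_lit 311) (nat_lit 293) (nat_lit 116)) (XT.lf (nat_lit 0) (nat_lit 41283746032) (nat_lit 532) (nat_lit 25580872929) (nat_lit 76) (nat_lit 24829428622) (nat_lit 106) (nat_lit 5) (nat_lit 113) (nat_lit 5) (nat_lit 107) (nat_lit 5) (nat_lit 312) (nat_lit 293) (nat_lit 115)))) (XT.nd (nat_lit 78) (nat_lit 380) (nat_lit 0) (XT.lf (nat_lit 0) (nat_lit 43159469676) (nat_lit 456) (nat_lit 14830388134) (nat_lit 532) (nat_lit 36532139967) (nat_lit 100) (nat_lit 5) (nat_lit 106) (nat_lit 5) (nat_lit 107) (nat_lit 5) (nat_lit 313) (nat_lit 293) (nat_lit 114)) (XT.nd (nat_lit 78) (nat_lit 0) (nat_lit 0) (XT.lf (nat_lit 0) (nat_lit 18359909364) (nat_lit 380) (nat_lit 57995488292) (nat_lit 456) (nat_lit 21111225877) (nat_lit 95) (nat_lit 5) (nat_lit 100) (nat_lit 5) (nat_lit 101) (nat_lit 5) (nat_lit 314) (nat_lit 293) (nat_lit 113)) (XT.lf (nat_lit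 0) (nat_lit 92488094319) (nat_lit 380) (nat_lit 3827166743) (nat_lit 456) (nat_lit 4222939761) (nat_lit 95) (nat_lit 5) (nat_lit 100) (nat_lit 5) (nat_lit 101) (nat_lit 5) (nat_lit 315) (nat_lit 293) (nat_lit 112)))))) (XT.nd (nat_lit 36036) (nat_lit 0) (nat_lit 4864) (XT.nd (nat_lit 35802) (nat_lit 0) (nat_lit 5700) (XT.nd (nat_lit 78) (nat_lit 380) (nat_lit 0) (XT.lf (nat_lit 0) (nat_lit 14414202052) (nat_lit 456) (nat_lit 36507108359) (nat_lit 76) (nat_lit 52803110201) (nat_lit 89) (nat_lit 5) (nat_lit 95) (nat_lit 5) (nat_lit 90) (nat_lit 5) (nat_lit 316) (nat_lit 293) (nat_lit 111)) (XT.lf (nat_lit 0) (nat_lit 34457366652) (nat_lit 456) (nat_lit 67060482390) (nat_lit 76) (nat_lit 5534004381) (nat_lit 84) (nat_lit 5) (nat_lit 90) (nat_lit 5) (nat_lit 85) (nat_lit 5) (nat_lit 317) (nat_lit 293) (nat_lit 110))) (XT.nd (nat_lit 78) (nat_lit 0) (nat_lit 0) (XT.lf (nat_lit 0) (nat_lit 23488901247)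 (nat_lit 1140) (nat_lit 2579201309) (nat_lit 1140) (nat_lit 2579201309) (nat_lit 159) (nat_lit 3) (nat_lit 174) (nat_lit 3) (nat_lit 174) (nat_lit 5) (nat_lit 294) (nat_lit 294) (nat_lit 132)) (XT.nd (nat_lit 78) (nat_lit 0) (nat_lit 76) (XT.lf (nat_lit 76) (nat_lit 35924398702) (nat_lit 0) (nat_lit 12602988409) (nat_lit 1140) (nat_lit 10188266037) (nat_lit 160) (nat_lit 5) (nat_lit 159) (nat_lit 3) (nat_lit 174) (nat_lit 5) (nat_lit 295) (nat_lit 294) (nat_lit 131)) (XT.lf (nat_lit 76) (nat_lit 19055344658) (nat_lit 0) (nat_lit 31611866359) (nat_lit 1140) (nat_lit 9525161216) (nat_lit 161) (nat_lit 5) (nat_lit 160) (nat_lit 5) (nat_lit 175) (nat_lit 5) (nat_lit 296) (nat_lit 294) (nat_lit 130))))) (XT.nd (nat_lit 234) (nat_lit 988) (nat_lit 0) (XT.nd (nat_lit 78) (nat_lit 0) (nat_lit 0) (XT.lf (nat_lit 76) (nat_lit 1540892419) (nat_lit 0) (nat_lit 51843461190) (nat_lit 1140) (nat_lit 8344467837)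 (nat_lit 162) (nat_lit 5) (nat_lit 161) (nat_lit 5) (nat_lit 176) (nat_lit 5) (nat_lit 297) (nat_lit 294) (nat_lit 129)) (XT.nd (nat_lit 78) (nat_lit 0) (nat_lit 76) (XT.lf (nat_lit 76) (nat_lit 46885856267) (nat_lit 0) (nat_lit 10089160112) (nat_lit 1140) (nat_lit 6344950657) (nat_lit 162) (nat_lit 5) (nat_lit 161) (nat_lit 5) (nat_lit 176) (nat_lit 5) (nat_lit 298) (nat_lit 294) (nat_lit 128)) (XT.lf (nat_lit 76) (nat_lit 29762634545) (nat_lit 0) (nat_lit 31591472180) (nat_lit 1140) (nat_lit 3618299975) (nat_lit 163) (nat_lit 5) (nat_lit 162) (nat_lit 5) (nat_lit 177) (nat_lit 5) (nat_lit 299) (nat_lit 294) (nat_lit 127)))) (XT.nd (nat_lit 78) (nat_lit 1140) (nat_lit 0) (XT.lf (nat_lit 76) (nat_lit 11922853954) (nat_lit 0) (nat_lit 54530441046) (nat_lit 1140) (nat_lit 239142499) (nat_lit 164) (nat_lit 5) (nat_lit 163) (nat_lit 5) (nat_lit 178) (nat_lit 5) (nat_lit 300) (nat_lit 294) (nat_lit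 126)) (XT.nd (nat_lit 78) (nat_lit 0) (nat_lit 76) (XT.lf (nat_lit 0) (nat_lit 3927770592) (nat_lit 1140) (nat_lit 6695074906) (nat_lit 1216) (nat_lit 57854172266) (nat_lit 148) (nat_lit 5) (nat_lit 163) (nat_lit 5) (nat_lit 164) (nat_lit 5) (nat_lit 301) (nat_lit 294) (nat_lit 125)) (XT.lf (nat_lit 0) (nat_lit 9071214410) (nat_lit 1140) (nat_lit 26032273015) (nat_lit 1216) (nat_lit 35224077699) (nat_lit 149) (nat_lit 5) (nat_lit 164) (nat_lit 5) (nat_lit 165) (nat_lit 5) (nat_lit 302) (nat_lit 294) (nat_lit 124))))))))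
noncomputable def xc124 : XT := (XT.nd (nat_lit 37440) (nat_lit 0) (nat_lit 456) (XT.nd (nat_lit 858) (nat_lit 1292) (nat_lit 0) (XT.nd (nat_lit 390) (nat_lit 2052) (nat_lit 0) (XT.nd (nat_lit 156) (nat_lit 1292) (nat_lit 0) (XT.nd (nat_lit 78) (nat_lit 0) (nat_lit 0) (XT.lf (nat_lit 0) (nat_lit 15005954848) (nat_lit 1140) (nat_lit 46258623435) (nat_lit 1216) (nat_lit 10990040733) (nat_lit 150) (nat_lit 5) (nat_lit 165) (nat_lit 5) (nat_lit 166) (nat_lit 5) (nat_lit 303) (nat_lit 294) (nat_lit 123)) (XT.lf (nat_lit 76) (nat_lit 6671825583) (nat_lit 0) (nat_lit 15253341802) (nat_lit 1216) (nat_lit 52332228924) (nat_lit 151) (nat_lit 5) (nat_lit 150) (nat_lit 5) (nat_lit 166) (nat_lit 5) (nat_lit 304) (nat_lit 294) (nat_lit 122))) (XT.nd (nat_lit 78) (nat_lit 1368) (nat_lit 0) (XT.lf (nat_lit 0) (nat_lit 29987741700) (nat_lit 1140) (nat_lit 13454159175) (nat_lit 76) (nat_lit 32894492186) (nat_lit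 151) (nat_lit 5) (nat_lit 166) (nat_lit 5) (nat_lit 152) (nat_lit 5) (nat_lit 305) (nat_lit 294) (nat_lit 121)) (XT.nd (nat_lit 78) (nat_lit 532) (nat_lit 0) (XT.lf (nat_lit 0) (nat_lit 39078621750) (nat_lit 912) (nat_lit 34461525266) (nat_lit 76) (nat_lit 4960439826) (nat_lit 140) (nat_lit 5) (nat_lit 152) (nat_lit 5) (nat_lit 141) (nat_lit 5) (nat_lit 306) (nat_lit 294) (nat_lit 120)) (XT.lf (nat_lit 0) (nat_lit 23945622796) (nat_lit 532) (nat_lit 25485770087) (nat_lit 608) (nat_lit 31317379399) (nat_lit 133) (nat_lit 5) (nat_lit 140) (nat_lit 5) (nat_lit 141) (nat_lit 5) (nat_lit 307) (nat_lit 294) (nat_lit 119))))) (XT.nd (nat_lit 234) (nat_lit 988) (nat_lit 0) (XT.nd (nat_lit 78) (nat_lit 532) (nat_lit 0) (XT.lf (nat_lit 0) (nat_lit 2702666474) (nat_lit 532) (nat_lit 58222293154) (nat_lit 608) (nat_lit 22165714925) (nat_lit 126) (nat_lit 5) (nat_lit 133) (nat_lit 5) (nat_lit 134) (nat_lit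 5) (nat_lit 308) (nat_lit 294) (nat_lit 118)) (XT.nd (nat_lit 78) (nat_lit 532) (nat_lit 0) (XT.lf (nat_lit 0) (nat_lit 66107400551) (nat_lit 532) (nat_lit 7724172573) (nat_lit 608) (nat_lit 11692949922) (nat_lit 126) (nat_lit 5) (nat_lit 133) (nat_lit 5) (nat_lit 134) (nat_lit 5) (nat_lit 309) (nat_lit 294) (nat_lit 117)) (XT.lf (nat_lit 0) (nat_lit 193040316) (nat_lit 532) (nat_lit 43011104205) (nat_lit 76) (nat_lit 44849842466) (nat_lit 119) (nat_lit 5) (nat_lit 126) (nat_lit 5) (nat_lit 120) (nat_lit 5) (nat_lit 310) (nat_lit 294) (nat_lit 116)))) (XT.nd (nat_lit 78) (nat_lit 456) (nat_lit 0) (XT.lf (nat_lit 0) (nat_lit 13024132605) (nat_lit 608) (nat_lit 68113974099) (nat_lit 76) (nat_lit 9550567251) (nat_lit 112) (nat_lit 5) (nat_lit 120) (nat_lit 5) (nat_lit 113) (nat_lit 5) (nat_lit 311) (nat_lit 294) (nat_lit 115)) (XT.nd (nat_lit 78) (nat_lit 456) (nat_lit 0) (XT.lf (nat_lit 0)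 (nat_lit 27379030275) (nat_lit 608) (nat_lit 1544682298) (nat_lit 76) (nat_lit 64504916987) (nat_lit 112) (nat_lit 5) (nat_lit 120) (nat_lit 5) (nat_lit 113) (nat_lit 5) (nat_lit 312) (nat_lit 294) (nat_lit 114)) (XT.lf (nat_lit 0) (nat_lit 43376487641) (nat_lit 532) (nat_lit 26828675621) (nat_lit 76) (nat_lit 26072676966) (nat_lit 106) (nat_lit 5) (nat_lit 113) (nat_lit 5) (nat_lit 107) (nat_lit 5) (nat_lit 313) (nat_lit 294) (nat_lit 113)))))) (XT.nd (nat_lit 36114) (nat_lit 0) (nat_lit 5320) (XT.nd (nat_lit 156) (nat_lit 456) (nat_lit 0) (XT.nd (nat_lit 78) (nat_lit 380) (nat_lit 0) (XT.lf (nat_lit 0) (nat_lit 45347788598) (nat_lit 456) (nat_lit 15569048379) (nat_lit 532) (nat_lit 38330385524) (nat_lit 100) (nat_lit 5) (nat_lit 106) (nat_lit 5) (nat_lit 107) (nat_lit 5) (nat_lit 314) (nat_lit 294) (nat_lit 112)) (XT.lf (nat_lit 0) (nat_lit 19308203806) (nat_lit 380) (nat_lit 60891458566)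 (nat_lit 456) (nat_lit 22139449324) (nat_lit 95) (nat_lit 5) (nat_lit 100) (nat_lit 5) (nat_lit 101) (nat_lit 5) (nat_lit 315) (nat_lit 294) (nat_lit 111))) (XT.nd (nat_lit 78) (nat_lit 456) (nat_lit 0) (XT.lf (nat_lit 0) (nat_lit 97141355201) (nat_lit 380) (nat_lit 4014902090) (nat_lit 456) (nat_lit 4408050704) (nat_lit 95) (nat_lit 5) (nat_lit 100) (nat_lit 5) (nat_lit 101) (nat_lit 5) (nat_lit 316) (nat_lit 294) (nat_lit 110)) (XT.nd (nat_lit 35802) (nat_lit 0) (nat_lit 5320) (XT.lf (nat_lit 0) (nat_lit 15159537362) (nat_lit 456) (nat_lit 38303156233) (nat_lit 76) (nat_lit 55447166874) (nat_lit 89) (nat_lit 5) (nat_lit 95) (nat_lit 5) (nat_lit 90) (nat_lit 5) (nat_lit 317) (nat_lit 294) (nat_lit 109)) (XT.lf (nat_lit 0) (nat_lit 24692693114) (nat_lit 1140) (nat_lit 2693015487) (nat_lit 1140) (nat_lit 2693015487) (nat_lit 159) (nat_lit 3) (nat_lit 174) (nat_lit 3) (nat_lit 174) (nat_lit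 5) (nat_lit 295) (nat_lit 295) (nat_lit 130))))) (XT.nd (nat_lit 234) (nat_lit 0) (nat_lit 152) (XT.nd (nat_lit 78) (nat_lit 0) (nat_lit 76) (XT.lf (nat_lit 76) (nat_lit 37750042104) (nat_lit 0) (nat_lit 13259895875) (nat_lit 1140) (nat_lit 10639689401) (nat_lit 160) (nat_lit 5) (nat_lit 159) (nat_lit 3) (nat_lit 174) (nat_lit 5) (nat_lit 296) (nat_lit 295) (nat_lit 129)) (XT.nd (nat_lit 78) (nat_lit 0) (nat_lit 76) (XT.lf (nat_lit 76) (nat_lit 20038698370) (nat_lit 0) (nat_lit 33215428449) (nat_lit 1140) (nat_lit 9946140243) (nat_lit 161) (nat_lit 5) (nat_lit 160) (nat_lit 5) (nat_lit 175) (nat_lit 5) (nat_lit 297) (nat_lit 295) (nat_lit 128)) (XT.lf (nat_lit 76) (nat_lit 1649535596) (nat_lit 0) (nat_lit 54455134163) (nat_lit 1140) (nat_lit 8708948257) (nat_lit 162) (nat_lit 5) (nat_lit 161) (nat_lit 5) (nat_lit 176) (nat_lit 5) (nat_lit 298) (nat_lit 295) (nat_lit 127)))) (XT.nd (nat_lit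 78) (nat_lit 0) (nat_lit 76) (XT.lf (nat_lit 76) (nat_lit 49260242944) (nat_lit 0) (nat_lit 10612189465) (nat_lit 1140) (nat_lit 6611966788) (nat_lit 162) (nat_lit 5) (nat_lit 161) (nat_lit 5) (nat_lit 176) (nat_lit 5) (nat_lit 299) (nat_lit 295) (nat_lit 126)) (XT.nd (nat_lit 78) (nat_lit 0) (nat_lit 76) (XT.lf (nat_lit 76) (nat_lit 31281692200) (nat_lit 0) (nat_lit 33186594941) (nat_lit 1140) (nat_lit 3751244465) (nat_lit 163) (nat_lit 5) (nat_lit 162) (nat_lit 5) (nat_lit 177) (nat_lit 5) (nat_lit 300) (nat_lit 295) (nat_lit 125)) (XT.lf (nat_lit 76) (nat_lit 12550633842) (nat_lit 0) (nat_lit 57269749654) (nat_lit 1140) (nat_lit 205246807) (nat_lit 164) (nat_lit 5) (nat_lit 163) (nat_lit 5) (nat_lit 178) (nat_lit 5) (nat_lit 301) (nat_lit 295) (nat_lit 124))))))) (XT.nd (nat_lit 858) (nat_lit 1292) (nat_lit 0) (XT.nd (nat_lit 390) (nat_lit 2736) (nat_lit 0) (XT.nd (nat_lit 156) (nat_lit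 0) (nat_lit 152) (XT.nd (nat_lit 78) (nat_lit 0) (nat_lit 76) (XT.lf (nat_lit 0) (nat_lit 4166976326) (nat_lit 1140) (nat_lit 6998756750) (nat_lit 1216) (nat_lit 60733761962) (nat_lit 148) (nat_lit 5) (nat_lit 163) (nat_lit 5) (nat_lit 164) (nat_lit 5) (nat_lit 302) (nat_lit 295) (nat_lit 123)) (XT.lf (nat_lit 0) (nat_lit 9565738886) (nat_lit 1140) (nat_lit 27302283873) (nat_lit 1216) (nat_lit 36974606853) (nat_lit 149) (nat_lit 5) (nat_lit 164) (nat_lit 5) (nat_lit 165) (nat_lit 5) (nat_lit 303) (nat_lit 295) (nat_lit 122))) (XT.nd (nat_lit 78) (nat_lit 0) (nat_lit 0) (XT.lf (nat_lit 0) (nat_lit 15795477992) (nat_lit 1140) (nat_lit 48539514866) (nat_lit 1216) (nat_lit 11531099533) (nat_lit 150) (nat_lit 5) (nat_lit 165) (nat_lit 5) (nat_lit 166) (nat_lit 5) (nat_lit 304) (nat_lit 295) (nat_lit 121)) (XT.nd (nat_lit 78) (nat_lit 0) (nat_lit 76) (XT.lf (nat_lit 76) (nat_lit 7036538191) (nat_lit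 0) (nat_lit 16022544246) (nat_lit 1216) (nat_lit 54909977022) (nat_lit 151) (nat_lit 5) (nat_lit 150) (nat_lit 5) (nat_lit 166) (nat_lit 5) (nat_lit 305) (nat_lit 295) (nat_lit 120)) (XT.lf (nat_lit 0) (nat_lit 31522932462) (nat_lit 1140) (nat_lit 14096018736) (nat_lit 76) (nat_lit 34533114105) (nat_lit 151) (nat_lit 5) (nat_lit 166) (nat_lit 5) (nat_lit 152) (nat_lit 5) (nat_lit 306) (nat_lit 295) (nat_lit 119))))) (XT.nd (nat_lit 234) (nat_lit 1064) (nat_lit 0) (XT.nd (nat_lit 78) (nat_lit 1064) (nat_lit 0) (XT.lf (nat_lit 0) (nat_lit 41066897097) (nat_lit 912) (nat_lit 36153493469) (nat_lit 76) (nat_lit 5204125480) (nat_lit 140) (nat_lit 5) (nat_lit 152) (nat_lit 5) (nat_lit 141) (nat_lit 5) (nat_lit 307) (nat_lit 295) (nat_lit 118)) (XT.nd (nat_lit 78) (nat_lit 532) (nat_lit 0) (XT.lf (nat_lit 0) (nat_lit 25173120290) (nat_lit 532) (nat_lit 26762841514) (nat_lit 608) (nat_lit 32849192628)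 (nat_lit 133) (nat_lit 5) (nat_lit 140) (nat_lit 5) (nat_lit 141) (nat_lit 5) (nat_lit 308) (nat_lit 295) (nat_lit 117)) (XT.lf (nat_lit 0) (nat_lit 2868202172) (nat_lit 532) (nat_lit 61134700090) (nat_lit 608) (nat_lit 23241291859) (nat_lit 126) (nat_lit 5) (nat_lit 133) (nat_lit 5) (nat_lit 134) (nat_lit 5) (nat_lit 309) (nat_lit 295) (nat_lit 116)))) (XT.nd (nat_lit 78) (nat_lit 1064) (nat_lit 0) (XT.lf (nat_lit 0) (nat_lit 69441725221) (nat_lit 532) (nat_lit 8111611942) (nat_lit 608) (nat_lit 12246446170) (nat_lit 126) (nat_lit 5) (nat_lit 133) (nat_lit 5) (nat_lit 134) (nat_lit 5) (nat_lit 310) (nat_lit 295) (nat_lit 115)) (XT.nd (nat_lit 78) (nat_lit 532) (nat_lit 0) (XT.lf (nat_lit 0) (nat_lit 232052130) (nat_lit 532) (nat_lit 45131945003) (nat_lit 76) (nat_lit 47091752650) (nat_lit 119) (nat_lit 5) (nat_lit 126) (nat_lit 5) (nat_lit 120) (nat_lit 5) (nat_lit 311) (nat_lit 295) (nat_lit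 114)) (XT.lf (nat_lit 0) (nat_lit 13703584387) (nat_lit 608) (nat_lit 71489915862) (nat_lit 76) (nat_lit 10028706943) (nat_lit 112) (nat_lit 5) (nat_lit 120) (nat_lit 5) (nat_lit 113) (nat_lit 5) (nat_lit 312) (nat_lit 295) (nat_lit 113)))))) (XT.nd (nat_lit 36270) (nat_lit 0) (nat_lit 4864) (XT.nd (nat_lit 156) (nat_lit 836) (nat_lit 0) (XT.nd (nat_lit 78) (nat_lit 456) (nat_lit 0) (XT.lf (nat_lit 0) (nat_lit 28774881933) (nat_lit 608) (nat_lit 1593576469) (nat_lit 76) (nat_lit 67730745055) (nat_lit 112) (nat_lit 5) (nat_lit 120) (nat_lit 5) (nat_lit 113) (nat_lit 5) (nat_lit 313) (nat_lit 295) (nat_lit 112)) (XT.lf (nat_lit 0) (nat_lit 45571211621) (nat_lit 532) (nat_lit 28141772936) (nat_lit 76) (nat_lit 27377922527) (nat_lit 106) (nat_lit 5) (nat_lit 113) (nat_lit 5) (nat_lit 107) (nat_lit 5) (nat_lit 314) (nat_lit 295) (nat_lit 111))) (XT.nd (nat_lit 78) (nat_lit 380) (nat_lit 0) (XT.lf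 (nat_lit 0) (nat_lit 47642702235) (nat_lit 456) (nat_lit 16344907454) (nat_lit 532) (nat_lit 40221180137) (nat_lit 100) (nat_lit 5) (nat_lit 106) (nat_lit 5) (nat_lit 107) (nat_lit 5) (nat_lit 315) (nat_lit 295) (nat_lit 110)) (XT.nd (nat_lit 35958) (nat_lit 0) (nat_lit 4864) (XT.lf (nat_lit 0) (nat_lit 20301096059) (nat_lit 380) (nat_lit 63932581027) (nat_lit 456) (nat_lit 23221625557) (nat_lit 95) (nat_lit 5) (nat_lit 100) (nat_lit 5) (nat_lit 101) (nat_lit 5) (nat_lit 316) (nat_lit 295) (nat_lit 109)) (XT.lf (nat_lit 0) (nat_lit 25953946187) (nat_lit 1140) (nat_lit 2813928496) (nat_lit 1140) (nat_lit 2813928496) (nat_lit 159) (nat_lit 3) (nat_lit 174) (nat_lit 3) (nat_lit 174) (nat_lit 5) (nat_lit 296) (nat_lit 296) (nat_lit 128))))) (XT.nd (nat_lit 234) (nat_lit 0) (nat_lit 152) (XT.nd (nat_lit 78) (nat_lit 0) (nat_lit 76) (XT.lf (nat_lit 76) (nat_lit 39664232160) (nat_lit 0) (nat_lit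 13947161004) (nat_lit 1140) (nat_lit 11119075287) (nat_lit 160) (nat_lit 5) (nat_lit 159) (nat_lit 3) (nat_lit 174) (nat_lit 5) (nat_lit 297) (nat_lit 296) (nat_lit 127)) (XT.nd (nat_lit 78) (nat_lit 0) (nat_lit 76) (XT.lf (nat_lit 76) (nat_lit 21068376127) (nat_lit 0) (nat_lit 34897033225) (nat_lit 1140) (nat_lit 10393307542) (nat_lit 161) (nat_lit 5) (nat_lit 160) (nat_lit 5) (nat_lit 175) (nat_lit 5) (nat_lit 298) (nat_lit 296) (nat_lit 126)) (XT.lf (nat_lit 76) (nat_lit 1760673198) (nat_lit 0) (nat_lit 57195577868) (nat_lit 1140) (nat_lit 9096556240) (nat_lit 162) (nat_lit 5) (nat_lit 161) (nat_lit 5) (nat_lit 176) (nat_lit 5) (nat_lit 299) (nat_lit 296) (nat_lit 125)))) (XT.nd (nat_lit 78) (nat_lit 0) (nat_lit 76) (XT.lf (nat_lit 76) (nat_lit 51750551111) (nat_lit 0) (nat_lit 11159643697) (nat_lit 1140) (nat_lit 6897003765) (nat_lit 162) (nat_lit 5) (nat_lit 161) (nat_lit 5) (nat_lit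 176) (nat_lit 5) (nat_lit 300) (nat_lit 296) (nat_lit 124)) (XT.nd (nat_lit 78) (nat_lit 0) (nat_lit 76) (XT.lf (nat_lit 76) (nat_lit 32873827538) (nat_lit 0) (nat_lit 34860028226) (nat_lit 1140) (nat_lit 3895296023) (nat_lit 163) (nat_lit 5) (nat_lit 162) (nat_lit 5) (nat_lit 177) (nat_lit 5) (nat_lit 301) (nat_lit 296) (nat_lit 123)) (XT.lf (nat_lit 76) (nat_lit 13206861397) (nat_lit 0) (nat_lit 60144834921) (nat_lit 1140) (nat_lit 173919290) (nat_lit 164) (nat_lit 5) (nat_lit 163) (nat_lit 5) (nat_lit 178) (nat_lit 5) (nat_lit 302) (nat_lit 296) (nat_lit 122))))))))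
noncomputable def xc125 : XT := (XT.nd (nat_lit 37674) (nat_lit 0) (nat_lit 912) (XT.nd (nat_lit 858) (nat_lit 912) (nat_lit 0) (XT.nd (nat_lit 390) (nat_lit 2736) (nat_lit 0) (XT.nd (nat_lit 156) (nat_lit 0) (nat_lit 152) (XT.nd (nat_lit 78) (nat_lit 0) (nat_lit 76) (XT.lf (nat_lit 0) (nat_lit 4414161608) (nat_lit 1140) (nat_lit 7320511458) (nat_lit 1216) (nat_lit 63758550816) (nat_lit 148) (nat_lit 5) (nat_lit 163) (nat_lit 5) (nat_lit 164) (nat_lit 5) (nat_lit 303) (nat_lit 296) (nat_lit 121)) (XT.lf (nat_lit 0) (nat_lit 10081181164) (nat_lit 1140) (nat_lit 28638733403) (nat_lit 1216) (nat_lit 38813654901) (nat_lit 149) (nat_lit 5) (nat_lit 164) (nat_lit 5) (nat_lit 165) (nat_lit 5) (nat_lit 304) (nat_lit 296) (nat_lit 120))) (XT.nd (nat_lit 78) (nat_lit 0) (nat_lit 0) (XT.lf (nat_lit 0) (nat_lit 16620830486) (nat_lit 1140) (nat_lit 50937429619) (nat_lit 1216) (nat_lit 12099996246) (nat_lit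 150) (nat_lit 5) (nat_lit 165) (nat_lit 5) (nat_lit 166) (nat_lit 5) (nat_lit 305) (nat_lit 296) (nat_lit 119)) (XT.nd (nat_lit 78) (nat_lit 0) (nat_lit 76) (XT.lf (nat_lit 76) (nat_lit 7416593062) (nat_lit 0) (nat_lit 16829599217) (nat_lit 1216) (nat_lit 57620225671) (nat_lit 151) (nat_lit 5) (nat_lit 150) (nat_lit 5) (nat_lit 166) (nat_lit 5) (nat_lit 306) (nat_lit 296) (nat_lit 118)) (XT.lf (nat_lit 0) (nat_lit 33131554075) (nat_lit 1140) (nat_lit 14772839268) (nat_lit 76) (nat_lit 36254234490) (nat_lit 151) (nat_lit 5) (nat_lit 166) (nat_lit 5) (nat_lit 152) (nat_lit 5) (nat_lit 307) (nat_lit 296) (nat_lit 117))))) (XT.nd (nat_lit 234) (nat_lit 1064) (nat_lit 0) (XT.nd (nat_lit 78) (nat_lit 1064) (nat_lit 0) (XT.lf (nat_lit 0) (nat_lit 43151393208) (nat_lit 912) (nat_lit 37932952214) (nat_lit 76) (nat_lit 5460398568) (nat_lit 140) (nat_lit 5) (nat_lit 152) (nat_lit 5) (nat_lit 141) (nat_lit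 5) (nat_lit 308) (nat_lit 296) (nat_lit 116)) (XT.nd (nat_lit 78) (nat_lit 532) (nat_lit 0) (XT.lf (nat_lit 0) (nat_lit 26459183428) (nat_lit 532) (nat_lit 28103507783) (nat_lit 608) (nat_lit 34460762698) (nat_lit 133) (nat_lit 5) (nat_lit 140) (nat_lit 5) (nat_lit 141) (nat_lit 5) (nat_lit 309) (nat_lit 296) (nat_lit 115)) (XT.lf (nat_lit 0) (nat_lit 3039188130) (nat_lit 532) (nat_lit 64192607228) (nat_lit 608) (nat_lit 24373688596) (nat_lit 126) (nat_lit 5) (nat_lit 133) (nat_lit 5) (nat_lit 134) (nat_lit 5) (nat_lit 310) (nat_lit 296) (nat_lit 114)))) (XT.nd (nat_lit 78) (nat_lit 1064) (nat_lit 0) (XT.lf (nat_lit 0) (nat_lit 72940074196) (nat_lit 532) (nat_lit 8518308858) (nat_lit 608) (nat_lit 12830513377) (nat_lit 126) (nat_lit 5) (nat_lit 133) (nat_lit 5) (nat_lit 134) (nat_lit 5) (nat_lit 311) (nat_lit 296) (nat_lit 113)) (XT.nd (nat_lit 78) (nat_lit 532) (nat_lit 0) (XT.lf (nat_lit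 0) (nat_lit 270284939) (nat_lit 532) (nat_lit 47361590405) (nat_lit 76) (nat_lit 49445812445) (nat_lit 119) (nat_lit 5) (nat_lit 126) (nat_lit 5) (nat_lit 120) (nat_lit 5) (nat_lit 312) (nat_lit 296) (nat_lit 112)) (XT.lf (nat_lit 0) (nat_lit 14414382791) (nat_lit 608) (nat_lit 75037421232) (nat_lit 76) (nat_lit 10530696785) (nat_lit 112) (nat_lit 5) (nat_lit 120) (nat_lit 5) (nat_lit 113) (nat_lit 5) (nat_lit 313) (nat_lit 296) (nat_lit 111)))))) (XT.nd (nat_lit 36348) (nat_lit 0) (nat_lit 3648) (XT.nd (nat_lit 156) (nat_lit 456) (nat_lit 0) (XT.nd (nat_lit 78) (nat_lit 456) (nat_lit 0) (XT.lf (nat_lit 0) (nat_lit 30238025253) (nat_lit 608) (nat_lit 1647550128) (nat_lit 76) (nat_lit 71117810398) (nat_lit 112) (nat_lit 5) (nat_lit 120) (nat_lit 5) (nat_lit 113) (nat_lit 5) (nat_lit 314) (nat_lit 296) (nat_lit 110)) (XT.lf (nat_lit 0) (nat_lit 47873263901) (nat_lit 532) (nat_lit 29523159573)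 (nat_lit 76) (nat_lit 28748280523) (nat_lit 106) (nat_lit 5) (nat_lit 113) (nat_lit 5) (nat_lit 107) (nat_lit 5) (nat_lit 315) (nat_lit 296) (nat_lit 109))) (XT.nd (nat_lit 36036) (nat_lit 0) (nat_lit 4484) (XT.lf (nat_lit 0) (nat_lit 50049802614) (nat_lit 456) (nat_lit 17159800588) (nat_lit 532) (nat_lit 42208906116) (nat_lit 100) (nat_lit 5) (nat_lit 106) (nat_lit 5) (nat_lit 107) (nat_lit 5) (nat_lit 316) (nat_lit 296) (nat_lit 108)) (XT.nd (nat_lit 78) (nat_lit 0) (nat_lit 0) (XT.lf (nat_lit 0) (nat_lit 27275787185) (nat_lit 1140) (nat_lit 2942164362) (nat_lit 1140) (nat_lit 2942164362) (nat_lit 159) (nat_lit 3) (nat_lit 174) (nat_lit 3) (nat_lit 174) (nat_lit 5) (nat_lit 297) (nat_lit 297) (nat_lit 126)) (XT.lf (nat_lit 76) (nat_lit 41671650527) (nat_lit 0) (nat_lit 14666532965) (nat_lit 1140) (nat_lit 11627320585) (nat_lit 160) (nat_lit 5) (nat_lit 159) (nat_lit 3) (nat_lit 174) (nat_lit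 5) (nat_lit 298) (nat_lit 297) (nat_lit 125))))) (XT.nd (nat_lit 234) (nat_lit 912) (nat_lit 0) (XT.nd (nat_lit 78) (nat_lit 0) (nat_lit 76) (XT.lf (nat_lit 76) (nat_lit 22146958505) (nat_lit 0) (nat_lit 36660781352) (nat_lit 1140) (nat_lit 10867494721) (nat_lit 161) (nat_lit 5) (nat_lit 160) (nat_lit 5) (nat_lit 175) (nat_lit 5) (nat_lit 299) (nat_lit 297) (nat_lit 124)) (XT.nd (nat_lit 78) (nat_lit 0) (nat_lit 0) (XT.lf (nat_lit 76) (nat_lit 1874703068) (nat_lit 0) (nat_lit 60071399389) (nat_lit 1140) (nat_lit 9507992278) (nat_lit 162) (nat_lit 5) (nat_lit 161) (nat_lit 5) (nat_lit 176) (nat_lit 5) (nat_lit 300) (nat_lit 297) (nat_lit 123)) (XT.lf (nat_lit 76) (nat_lit 54362836962) (nat_lit 0) (nat_lit 11732904575) (nat_lit 1140) (nat_lit 7200528455) (nat_lit 162) (nat_lit 5) (nat_lit 161) (nat_lit 5) (nat_lit 176) (nat_lit 5) (nat_lit 301) (nat_lit 297) (nat_lit 122)))) (XT.nd (nat_lit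 78) (nat_lit 1064) (nat_lit 0) (XT.lf (nat_lit 76) (nat_lit 34542961753) (nat_lit 0) (nat_lit 36615821963) (nat_lit 1140) (nat_lit 4050595368) (nat_lit 163) (nat_lit 5) (nat_lit 162) (nat_lit 5) (nat_lit 177) (nat_lit 5) (nat_lit 302) (nat_lit 297) (nat_lit 121)) (XT.nd (nat_lit 78) (nat_lit 1140) (nat_lit 0) (XT.lf (nat_lit 76) (nat_lit 13893232461) (nat_lit 0) (nat_lit 63162596198) (nat_lit 1140) (nat_lit 144892028) (nat_lit 164) (nat_lit 5) (nat_lit 163) (nat_lit 5) (nat_lit 178) (nat_lit 5) (nat_lit 303) (nat_lit 297) (nat_lit 120)) (XT.lf (nat_lit 0) (nat_lit 4670095508) (nat_lit 1140) (nat_lit 7660974101) (nat_lit 1216) (nat_lit 66935685392) (nat_lit 148) (nat_lit 5) (nat_lit 163) (nat_lit 5) (nat_lit 164) (nat_lit 5) (nat_lit 304) (nat_lit 297) (nat_lit 119))))))) (XT.nd (nat_lit 36972) (nat_lit 0) (nat_lit 2736) (XT.nd (nat_lit 390) (nat_lit 2128) (nat_lit 0) (XT.nd (nat_lit 156)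 (nat_lit 684) (nat_lit 0) (XT.nd (nat_lit 78) (nat_lit 0) (nat_lit 76) (XT.lf (nat_lit 0) (nat_lit 10618941205) (nat_lit 1140) (nat_lit 30044670377) (nat_lit 1216) (nat_lit 40745555518) (nat_lit 149) (nat_lit 5) (nat_lit 164) (nat_lit 5) (nat_lit 165) (nat_lit 5) (nat_lit 305) (nat_lit 297) (nat_lit 118)) (XT.lf (nat_lit 0) (nat_lit 17484142845) (nat_lit 1140) (nat_lit 53457941926) (nat_lit 1216) (nat_lit 12698049787) (nat_lit 150) (nat_lit 5) (nat_lit 165) (nat_lit 5) (nat_lit 166) (nat_lit 5) (nat_lit 306) (nat_lit 297) (nat_lit 117))) (XT.nd (nat_lit 78) (nat_lit 760) (nat_lit 0) (XT.lf (nat_lit 76) (nat_lit 7813026310) (nat_lit 0) (nat_lit 17676455829) (nat_lit 1216) (nat_lit 60469263981) (nat_lit 151) (nat_lit 5) (nat_lit 150) (nat_lit 5) (nat_lit 166) (nat_lit 5) (nat_lit 307) (nat_lit 297) (nat_lit 116)) (XT.nd (nat_lit 78) (nat_lit 836) (nat_lit 0) (XT.lf (nat_lit 0) (nat_lit 34817587552)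 (nat_lit 1140) (nat_lit 15486102179) (nat_lit 76) (nat_lit 38061925515) (nat_lit 151) (nat_lit 5) (nat_lit 166) (nat_lit 5) (nat_lit 152) (nat_lit 5) (nat_lit 308) (nat_lit 297) (nat_lit 115)) (XT.lf (nat_lit 0) (nat_lit 45337217976) (nat_lit 912) (nat_lit 39804007146) (nat_lit 76) (nat_lit 5729850981) (nat_lit 140) (nat_lit 5) (nat_lit 152) (nat_lit 5) (nat_lit 141) (nat_lit 5) (nat_lit 309) (nat_lit 297) (nat_lit 114))))) (XT.nd (nat_lit 234) (nat_lit 1064) (nat_lit 0) (XT.nd (nat_lit 78) (nat_lit 532) (nat_lit 0) (XT.lf (nat_lit 0) (nat_lit 27807001669) (nat_lit 532) (nat_lit 29510972689) (nat_lit 608) (nat_lit 36155783090) (nat_lit 133) (nat_lit 5) (nat_lit 140) (nat_lit 5) (nat_lit 141) (nat_lit 5) (nat_lit 310) (nat_lit 297) (nat_lit 113)) (XT.nd (nat_lit 78) (nat_lit 0) (nat_lit 0) (XT.lf (nat_lit 0) (nat_lit 3216159645) (nat_lit 532) (nat_lit 67403300750) (nat_lit 608) (nat_lit 25565463406)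 (nat_lit 126) (nat_lit 5) (nat_lit 133) (nat_lit 5) (nat_lit 134) (nat_lit 5) (nat_lit 311) (nat_lit 297) (nat_lit 112)) (XT.lf (nat_lit 0) (nat_lit 76610898961) (nat_lit 532) (nat_lit 8945236834) (nat_lit 608) (nat_lit 13446410836) (nat_lit 126) (nat_lit 5) (nat_lit 133) (nat_lit 5) (nat_lit 134) (nat_lit 5) (nat_lit 312) (nat_lit 297) (nat_lit 111)))) (XT.nd (nat_lit 78) (nat_lit 532) (nat_lit 0) (XT.lf (nat_lit 0) (nat_lit 307953564) (nat_lit 532) (nat_lit 49705223805) (nat_lit 76) (nat_lit 51917624304) (nat_lit 119) (nat_lit 5) (nat_lit 126) (nat_lit 5) (nat_lit 120) (nat_lit 5) (nat_lit 313) (nat_lit 297) (nat_lit 110)) (XT.nd (nat_lit 78) (nat_lit 0) (nat_lit 0) (XT.lf (nat_lit 0) (nat_lit 15158339287) (nat_lit 608) (nat_lit 78764811185) (nat_lit 76) (nat_lit 11057734567) (nat_lit 112) (nat_lit 5) (nat_lit 120) (nat_lit 5) (nat_lit 113) (nat_lit 5) (nat_lit 314) (nat_lit 297) (nat_lit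 109)) (XT.lf (nat_lit 0) (nat_lit 31772057331) (nat_lit 608) (nat_lit 1706612292) (nat_lit 76) (nat_lit 74674179911) (nat_lit 112) (nat_lit 5) (nat_lit 120) (nat_lit 5) (nat_lit 113) (nat_lit 5) (nat_lit 315) (nat_lit 297) (nat_lit 108)))))) (XT.nd (nat_lit 390) (nat_lit 836) (nat_lit 0) (XT.nd (nat_lit 156) (nat_lit 0) (nat_lit 76) (XT.nd (nat_lit 78) (nat_lit 0) (nat_lit 0) (XT.lf (nat_lit 0) (nat_lit 28661475581) (nat_lit 1140) (nat_lit 3077970486) (nat_lit 1140) (nat_lit 3077970486) (nat_lit 159) (nat_lit 3) (nat_lit 174) (nat_lit 3) (nat_lit 174) (nat_lit 5) (nat_lit 298) (nat_lit 298) (nat_lit 124)) (XT.lf (nat_lit 76) (nat_lit 43777189297) (nat_lit 0) (nat_lit 15419826878) (nat_lit 1140) (nat_lit 12165413629) (nat_lit 160) (nat_lit 5) (nat_lit 159) (nat_lit 3) (nat_lit 174) (nat_lit 5) (nat_lit 299) (nat_lit 298) (nat_lit 123))) (XT.nd (nat_lit 78) (nat_lit 0) (nat_lit 76) (XT.lf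 (nat_lit 76) (nat_lit 23277130532) (nat_lit 0) (nat_lit 38510960071) (nat_lit 1140) (nat_lit 11369619390) (nat_lit 161) (nat_lit 5) (nat_lit 160) (nat_lit 5) (nat_lit 175) (nat_lit 5) (nat_lit 300) (nat_lit 298) (nat_lit 122)) (XT.nd (nat_lit 78) (nat_lit 0) (nat_lit 0) (XT.lf (nat_lit 76) (nat_lit 1992017550) (nat_lit 0) (nat_lit 63089520495) (nat_lit 1140) (nat_lit 9944034275) (nat_lit 162) (nat_lit 5) (nat_lit 161) (nat_lit 5) (nat_lit 176) (nat_lit 5) (nat_lit 301) (nat_lit 298) (nat_lit 121)) (XT.lf (nat_lit 76) (nat_lit 57103435314) (nat_lit 0) (nat_lit 12333408028) (nat_lit 1140) (nat_lit 7523071432) (nat_lit 162) (nat_lit 5) (nat_lit 161) (nat_lit 5) (nat_lit 176) (nat_lit 5) (nat_lit 302) (nat_lit 298) (nat_lit 120))))) (XT.nd (nat_lit 234) (nat_lit 0) (nat_lit 76) (XT.nd (nat_lit 78) (nat_lit 1064) (nat_lit 0) (XT.lf (nat_lit 76) (nat_lit 36293187244) (nat_lit 0) (nat_lit 38458216077)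 (nat_lit 1140) (nat_lit 4217328804) (nat_lit 163) (nat_lit 5) (nat_lit 162) (nat_lit 5) (nat_lit 177) (nat_lit 5) (nat_lit 303) (nat_lit 298) (nat_lit 119)) (XT.nd (nat_lit 78) (nat_lit 1140) (nat_lit 0) (XT.lf (nat_lit 76) (nat_lit 14611502242) (nat_lit 0) (nat_lit 66330267534) (nat_lit 1140) (nat_lit 117920551) (nat_lit 164) (nat_lit 5) (nat_lit 163) (nat_lit 5) (nat_lit 178) (nat_lit 5) (nat_lit 304) (nat_lit 298) (nat_lit 118)) (XT.lf (nat_lit 0) (nat_lit 4935551140) (nat_lit 1140) (nat_lit 8020836476) (nat_lit 1216) (nat_lit 70272680123) (nat_lit 148) (nat_lit 5) (nat_lit 163) (nat_lit 5) (nat_lit 164) (nat_lit 5) (nat_lit 305) (nat_lit 298) (nat_lit 117)))) (XT.nd (nat_lit 78) (nat_lit 0) (nat_lit 76) (XT.lf (nat_lit 0) (nat_lit 11180456050) (nat_lit 1140) (nat_lit 31523321406) (nat_lit 1216) (nat_lit 42774867646) (nat_lit 149) (nat_lit 5) (nat_lit 164) (nat_lit 5) (nat_lit 165) (nat_lit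 5) (nat_lit 306) (nat_lit 298) (nat_lit 116)) (XT.nd (nat_lit 78) (nat_lit 0) (nat_lit 0) (XT.lf (nat_lit 0) (nat_lit 18387620586) (nat_lit 1140) (nat_lit 56106930474) (nat_lit 1216) (nat_lit 13326651804) (nat_lit 150) (nat_lit 5) (nat_lit 165) (nat_lit 5) (nat_lit 166) (nat_lit 5) (nat_lit 307) (nat_lit 298) (nat_lit 115)) (XT.lf (nat_lit 76) (nat_lit 8226900839) (nat_lit 0) (nat_lit 18565155402) (nat_lit 1216) (nat_lit 63463726751) (nat_lit 151) (nat_lit 5) (nat_lit 150) (nat_lit 5) (nat_lit 166) (nat_lit 5) (nat_lit 308) (nat_lit 298) (nat_lit 114))))))))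
noncomputable def xc126 : XT := (XT.nd (nat_lit 37908) (nat_lit 0) (nat_lit 1064) (XT.nd (nat_lit 37050) (nat_lit 0) (nat_lit 1064) (XT.nd (nat_lit 390) (nat_lit 1064) (nat_lit 0) (XT.nd (nat_lit 156) (nat_lit 1064) (nat_lit 0) (XT.nd (nat_lit 78) (nat_lit 836) (nat_lit 0) (XT.lf (nat_lit 0) (nat_lit 36585184184) (nat_lit 1140) (nat_lit 16237387739) (nat_lit 76) (nat_lit 39960467870) (nat_lit 151) (nat_lit 5) (nat_lit 166) (nat_lit 5) (nat_lit 152) (nat_lit 5) (nat_lit 309) (nat_lit 298) (nat_lit 113)) (XT.lf (nat_lit 0) (nat_lit 47629707091) (nat_lit 912) (nat_lit 41770994190) (nat_lit 76) (nat_lit 6013107688) (nat_lit 140) (nat_lit 5) (nat_lit 152) (nat_lit 5) (nat_lit 141) (nat_lit 5) (nat_lit 310) (nat_lit 298) (nat_lit 112))) (XT.nd (nat_lit 78) (nat_lit 532) (nat_lit 0) (XT.lf (nat_lit 0) (nat_lit 29219899662) (nat_lit 532) (nat_lit 30988597984) (nat_lit 608) (nat_lit 37938159326)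 (nat_lit 133) (nat_lit 5) (nat_lit 140) (nat_lit 5) (nat_lit 141) (nat_lit 5) (nat_lit 311) (nat_lit 298) (nat_lit 111)) (XT.nd (nat_lit 78) (nat_lit 0) (nat_lit 0) (XT.lf (nat_lit 0) (nat_lit 3399654347) (nat_lit 532) (nat_lit 70774430105) (nat_lit 608) (nat_lit 26819328757) (nat_lit 126) (nat_lit 5) (nat_lit 133) (nat_lit 5) (nat_lit 134) (nat_lit 5) (nat_lit 312) (nat_lit 298) (nat_lit 110)) (XT.lf (nat_lit 0) (nat_lit 80463050309) (nat_lit 532) (nat_lit 9393417073) (nat_lit 608) (nat_lit 14095485836) (nat_lit 126) (nat_lit 5) (nat_lit 133) (nat_lit 5) (nat_lit 134) (nat_lit 5) (nat_lit 313) (nat_lit 298) (nat_lit 109))))) (XT.nd (nat_lit 36426) (nat_lit 0) (nat_lit 3572) (XT.nd (nat_lit 78) (nat_lit 532) (nat_lit 0) (XT.lf (nat_lit 0) (nat_lit 345259976) (nat_lit 532) (nat_lit 52168311643) (nat_lit 76) (nat_lit 54513071267) (nat_lit 119) (nat_lit 5) (nat_lit 126) (nat_lit 5) (nat_lit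 120) (nat_lit 5) (nat_lit 314) (nat_lit 298) (nat_lit 108)) (XT.nd (nat_lit 36270) (nat_lit 0) (nat_lit 3572) (XT.lf (nat_lit 0) (nat_lit 15937333218) (nat_lit 608) (nat_lit 82680846656) (nat_lit 76) (nat_lit 11611077480) (nat_lit 112) (nat_lit 5) (nat_lit 120) (nat_lit 5) (nat_lit 113) (nat_lit 5) (nat_lit 315) (nat_lit 298) (nat_lit 107)) (XT.lf (nat_lit 0) (nat_lit 30114412433) (nat_lit 1140) (nat_lit 3221617677) (nat_lit 1140) (nat_lit 3221617677) (nat_lit 159) (nat_lit 3) (nat_lit 174) (nat_lit 3) (nat_lit 174) (nat_lit 5) (nat_lit 299) (nat_lit 299) (nat_lit 122)))) (XT.nd (nat_lit 78) (nat_lit 0) (nat_lit 76) (XT.lf (nat_lit 76) (nat_lit 45985963722) (nat_lit 0) (nat_lit 16208929121) (nat_lit 1140) (nat_lit 12734434437) (nat_lit 160) (nat_lit 5) (nat_lit 159) (nat_lit 3) (nat_lit 174) (nat_lit 5) (nat_lit 300) (nat_lit 299) (nat_lit 121)) (XT.nd (nat_lit 78) (nat_lit 0) (nat_lit 76)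 (XT.lf (nat_lit 76) (nat_lit 24461689192) (nat_lit 0) (nat_lit 40452054243) (nat_lit 1140) (nat_lit 11900685333) (nat_lit 161) (nat_lit 5) (nat_lit 160) (nat_lit 5) (nat_lit 175) (nat_lit 5) (nat_lit 301) (nat_lit 299) (nat_lit 120)) (XT.lf (nat_lit 76) (nat_lit 2113005574) (nat_lit 0) (nat_lit 66257194829) (nat_lit 1140) (nat_lit 10405537469) (nat_lit 162) (nat_lit 5) (nat_lit 161) (nat_lit 5) (nat_lit 176) (nat_lit 5) (nat_lit 302) (nat_lit 299) (nat_lit 119)))))) (XT.nd (nat_lit 390) (nat_lit 1672) (nat_lit 0) (XT.nd (nat_lit 156) (nat_lit 988) (nat_lit 0) (XT.nd (nat_lit 78) (nat_lit 0) (nat_lit 76) (XT.lf (nat_lit 76) (nat_lit 59978975791) (nat_lit 0) (nat_lit 12962648248) (nat_lit 1140) (nat_lit 7865226414) (nat_lit 162) (nat_lit 5) (nat_lit 161) (nat_lit 5) (nat_lit 176) (nat_lit 5) (nat_lit 303) (nat_lit 299) (nat_lit 118)) (XT.lf (nat_lit 76) (nat_lit 38128778491) (nat_lit 0) (nat_lit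 40391651159) (nat_lit 1140) (nat_lit 4395726916) (nat_lit 163) (nat_lit 5) (nat_lit 162) (nat_lit 5) (nat_lit 177) (nat_lit 5) (nat_lit 304) (nat_lit 299) (nat_lit 117))) (XT.nd (nat_lit 78) (nat_lit 1140) (nat_lit 0) (XT.lf (nat_lit 76) (nat_lit 15363490649) (nat_lit 0) (nat_lit 69655435355) (nat_lit 1140) (nat_lit 92781587) (nat_lit 164) (nat_lit 5) (nat_lit 163) (nat_lit 5) (nat_lit 178) (nat_lit 5) (nat_lit 305) (nat_lit 299) (nat_lit 116)) (XT.nd (nat_lit 78) (nat_lit 0) (nat_lit 76) (XT.lf (nat_lit 0) (nat_lit 5211309065) (nat_lit 1140) (nat_lit 8400847614) (nat_lit 1216) (nat_lit 73777434730) (nat_lit 148) (nat_lit 5) (nat_lit 163) (nat_lit 5) (nat_lit 164) (nat_lit 5) (nat_lit 306) (nat_lit 299) (nat_lit 115)) (XT.lf (nat_lit 0) (nat_lit 11767204735) (nat_lit 1140) (nat_lit 33078097462) (nat_lit 1216) (nat_lit 44906385950) (nat_lit 149) (nat_lit 5) (nat_lit 164) (nat_lit 5) (nat_lit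 165) (nat_lit 5) (nat_lit 307) (nat_lit 299) (nat_lit 114))))) (XT.nd (nat_lit 234) (nat_lit 1824) (nat_lit 0) (XT.nd (nat_lit 78) (nat_lit 0) (nat_lit 0) (XT.lf (nat_lit 0) (nat_lit 19333550910) (nat_lit 1140) (nat_lit 58890591240) (nat_lit 1216) (nat_lit 13987269679) (nat_lit 150) (nat_lit 5) (nat_lit 165) (nat_lit 5) (nat_lit 166) (nat_lit 5) (nat_lit 308) (nat_lit 299) (nat_lit 113)) (XT.nd (nat_lit 78) (nat_lit 0) (nat_lit 76) (XT.lf (nat_lit 76) (nat_lit 8659310022) (nat_lit 0) (nat_lit 19497836557) (nat_lit 1216) (nat_lit 66610608845) (nat_lit 151) (nat_lit 5) (nat_lit 150) (nat_lit 5) (nat_lit 166) (nat_lit 5) (nat_lit 309) (nat_lit 299) (nat_lit 112)) (XT.lf (nat_lit 0) (nat_lit 38438676731) (nat_lit 1140) (nat_lit 17028377717) (nat_lit 76) (nat_lit 41954360722) (nat_lit 151) (nat_lit 5) (nat_lit 166) (nat_lit 5) (nat_lit 152) (nat_lit 5) (nat_lit 310) (nat_lit 299) (nat_lit 111))))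 (XT.nd (nat_lit 78) (nat_lit 1064) (nat_lit 0) (XT.lf (nat_lit 0) (nat_lit 50034437992) (nat_lit 912) (nat_lit 43838488739) (nat_lit 76) (nat_lit 6310828068) (nat_lit 140) (nat_lit 5) (nat_lit 152) (nat_lit 5) (nat_lit 141) (nat_lit 5) (nat_lit 311) (nat_lit 299) (nat_lit 110)) (XT.nd (nat_lit 78) (nat_lit 532) (nat_lit 0) (XT.lf (nat_lit 0) (nat_lit 30701346263) (nat_lit 532) (nat_lit 32539911474) (nat_lit 608) (nat_lit 39812017026) (nat_lit 133) (nat_lit 5) (nat_lit 140) (nat_lit 5) (nat_lit 141) (nat_lit 5) (nat_lit 312) (nat_lit 299) (nat_lit 109)) (XT.lf (nat_lit 0) (nat_lit 3590214588) (nat_lit 532) (nat_lit 74314026274) (nat_lit 608) (nat_lit 28138156584) (nat_lit 126) (nat_lit 5) (nat_lit 133) (nat_lit 5) (nat_lit 134) (nat_lit 5) (nat_lit 313) (nat_lit 299) (nat_lit 108))))))) (XT.nd (nat_lit 37206) (nat_lit 0) (nat_lit 532) (XT.nd (nat_lit 36738) (nat_lit 0) (nat_lit 1672) (XT.nd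 (nat_lit 36504) (nat_lit 0) (nat_lit 2508) (XT.nd (nat_lit 36426) (nat_lit 0) (nat_lit 2508) (XT.lf (nat_lit 0) (nat_lit 84505800466) (nat_lit 532) (nat_lit 9863920941) (nat_lit 608) (nat_lit 14779175737) (nat_lit 126) (nat_lit 5) (nat_lit 133) (nat_lit 5) (nat_lit 134) (nat_lit 5) (nat_lit 314) (nat_lit 299) (nat_lit 107)) (XT.lf (nat_lit 0) (nat_lit 31638149447) (nat_lit 1140) (nat_lit 3373400301) (nat_lit 1140) (nat_lit 3373400301) (nat_lit 159) (nat_lit 3) (nat_lit 174) (nat_lit 3) (nat_lit 174) (nat_lit 5) (nat_lit 300) (nat_lit 300) (nat_lit 120))) (XT.nd (nat_lit 78) (nat_lit 0) (nat_lit 76) (XT.lf (nat_lit 76) (nat_lit 48303325364) (nat_lit 0) (nat_lit 17035802695) (nat_lit 1140) (nat_lit 13335555367) (nat_lit 160) (nat_lit 5) (nat_lit 159) (nat_lit 3) (nat_lit 174) (nat_lit 5) (nat_lit 301) (nat_lit 300) (nat_lit 119)) (XT.nd (nat_lit 78) (nat_lit 0) (nat_lit 76) (XT.lf (nat_lit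 76) (nat_lit 25703551097) (nat_lit 0) (nat_lit 42488757789) (nat_lit 1140) (nat_lit 12461783068) (nat_lit 161) (nat_lit 5) (nat_lit 160) (nat_lit 5) (nat_lit 175) (nat_lit 5) (nat_lit 302) (nat_lit 300) (nat_lit 118)) (XT.lf (nat_lit 76) (nat_lit 2238054625) (nat_lit 0) (nat_lit 69582025826) (nat_lit 1140) (nat_lit 10893434733) (nat_lit 162) (nat_lit 5) (nat_lit 161) (nat_lit 5) (nat_lit 176) (nat_lit 5) (nat_lit 303) (nat_lit 300) (nat_lit 117))))) (XT.nd (nat_lit 234) (nat_lit 988) (nat_lit 0) (XT.nd (nat_lit 78) (nat_lit 0) (nat_lit 76) (XT.lf (nat_lit 76) (nat_lit 62996399601) (nat_lit 0) (nat_lit 13622181856) (nat_lit 1140) (nat_lit 8227650011) (nat_lit 162) (nat_lit 5) (nat_lit 161) (nat_lit 5) (nat_lit 176) (nat_lit 5) (nat_lit 304) (nat_lit 300) (nat_lit 116)) (XT.nd (nat_lit 78) (nat_lit 0) (nat_lit 76) (XT.lf (nat_lit 76) (nat_lit 40054203253) (nat_lit 0) (nat_lit 42420779547)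 (nat_lit 1140) (nat_lit 4586063530) (nat_lit 163) (nat_lit 5) (nat_lit 162) (nat_lit 5) (nat_lit 177) (nat_lit 5) (nat_lit 305) (nat_lit 300) (nat_lit 115)) (XT.lf (nat_lit 76) (nat_lit 16151087671) (nat_lit 0) (nat_lit 73146056959) (nat_lit 1140) (nat_lit 69271014) (nat_lit 164) (nat_lit 5) (nat_lit 163) (nat_lit 5) (nat_lit 178) (nat_lit 5) (nat_lit 306) (nat_lit 300) (nat_lit 114)))) (XT.nd (nat_lit 78) (nat_lit 0) (nat_lit 76) (XT.lf (nat_lit 0) (nat_lit 5498160567) (nat_lit 1140) (nat_lit 8801814543) (nat_lit 1216) (nat_lit 77458252590) (nat_lit 148) (nat_lit 5) (nat_lit 163) (nat_lit 5) (nat_lit 164) (nat_lit 5) (nat_lit 307) (nat_lit 300) (nat_lit 113)) (XT.nd (nat_lit 78) (nat_lit 0) (nat_lit 76) (XT.lf (nat_lit 0) (nat_lit 12380713164) (nat_lit 1140) (nat_lit 34712600963) (nat_lit 1216) (nat_lit 47145151889) (nat_lit 149) (nat_lit 5) (nat_lit 164) (nat_lit 5) (nat_lit 165) (nat_lit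 5) (nat_lit 308) (nat_lit 300) (nat_lit 112)) (XT.lf (nat_lit 0) (nat_lit 20324309449) (nat_lit 1140) (nat_lit 61815451180) (nat_lit 1216) (nat_lit 14681449749) (nat_lit 150) (nat_lit 5) (nat_lit 165) (nat_lit 5) (nat_lit 166) (nat_lit 5) (nat_lit 309) (nat_lit 300) (nat_lit 111)))))) (XT.nd (nat_lit 36894) (nat_lit 0) (nat_lit 1976) (XT.nd (nat_lit 156) (nat_lit 1292) (nat_lit 0) (XT.nd (nat_lit 78) (nat_lit 0) (nat_lit 76) (XT.lf (nat_lit 76) (nat_lit 9111381319) (nat_lit 0) (nat_lit 20476740525) (nat_lit 1216) (nat_lit 69917280563) (nat_lit 151) (nat_lit 5) (nat_lit 150) (nat_lit 5) (nat_lit 166) (nat_lit 5) (nat_lit 310) (nat_lit 300) (nat_lit 110)) (XT.lf (nat_lit 0) (nat_lit 40382590918) (nat_lit 1140) (nat_lit 17860858363) (nat_lit 76) (nat_lit 44048332235) (nat_lit 151) (nat_lit 5) (nat_lit 166) (nat_lit 5) (nat_lit 152) (nat_lit 5) (nat_lit 311) (nat_lit 300) (nat_lit 109))) (XT.nd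 (nat_lit 78) (nat_lit 532) (nat_lit 0) (XT.lf (nat_lit 0) (nat_lit 52557244288) (nat_lit 912) (nat_lit 46011315526) (nat_lit 76) (nat_lit 6623707337) (nat_lit 140) (nat_lit 5) (nat_lit 152) (nat_lit 5) (nat_lit 141) (nat_lit 5) (nat_lit 312) (nat_lit 300) (nat_lit 108)) (XT.nd (nat_lit 36582) (nat_lit 0) (nat_lit 1976) (XT.lf (nat_lit 0) (nat_lit 32254963796) (nat_lit 532) (nat_lit 34168615521) (nat_lit 608) (nat_lit 41781710606) (nat_lit 133) (nat_lit 5) (nat_lit 140) (nat_lit 5) (nat_lit 141) (nat_lit 5) (nat_lit 313) (nat_lit 300) (nat_lit 107)) (XT.lf (nat_lit 0) (nat_lit 33236398318) (nat_lit 1140) (nat_lit 3533636519) (nat_lit 1140) (nat_lit 3533636519) (nat_lit 159) (nat_lit 3) (nat_lit 174) (nat_lit 3) (nat_lit 174) (nat_lit 5) (nat_lit 301) (nat_lit 301) (nat_lit 118))))) (XT.nd (nat_lit 234) (nat_lit 0) (nat_lit 152) (XT.nd (nat_lit 78) (nat_lit 0) (nat_lit 76) (XT.lf (nat_lit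 76) (nat_lit 50734875720) (nat_lit 0) (nat_lit 17902492711) (nat_lit 1140) (nat_lit 13970042168) (nat_lit 160) (nat_lit 5) (nat_lit 159) (nat_lit 3) (nat_lit 174) (nat_lit 5) (nat_lit 302) (nat_lit 301) (nat_lit 117)) (XT.nd (nat_lit 78) (nat_lit 0) (nat_lit 76) (XT.lf (nat_lit 76) (nat_lit 27005760348) (nat_lit 0) (nat_lit 44625985550) (nat_lit 1140) (nat_lit 13054090787) (nat_lit 161) (nat_lit 5) (nat_lit 160) (nat_lit 5) (nat_lit 175) (nat_lit 5) (nat_lit 303) (nat_lit 301) (nat_lit 116)) (XT.lf (nat_lit 76) (nat_lit 2367552614) (nat_lit 0) (nat_lit 73071985399) (nat_lit 1140) (nat_lit 11408737210) (nat_lit 162) (nat_lit 5) (nat_lit 161) (nat_lit 5) (nat_lit 176) (nat_lit 5) (nat_lit 304) (nat_lit 301) (nat_lit 115)))) (XT.nd (nat_lit 78) (nat_lit 0) (nat_lit 76) (XT.lf (nat_lit 76) (nat_lit 66162976970) (nat_lit 0) (nat_lit 14313632170) (nat_lit 1140) (nat_lit 8611061788) (nat_lit 162)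 (nat_lit 5) (nat_lit 161) (nat_lit 5) (nat_lit 176) (nat_lit 5) (nat_lit 305) (nat_lit 301) (nat_lit 114)) (XT.nd (nat_lit 78) (nat_lit 0) (nat_lit 76) (XT.lf (nat_lit 76) (nat_lit 42074134130) (nat_lit 0) (nat_lit 44550476873) (nat_lit 1140) (nat_lit 4788654933) (nat_lit 163) (nat_lit 5) (nat_lit 162) (nat_lit 5) (nat_lit 177) (nat_lit 5) (nat_lit 306) (nat_lit 301) (nat_lit 113)) (XT.lf (nat_lit 76) (nat_lit 16976258826) (nat_lit 0) (nat_lit 76810479840) (nat_lit 1140) (nat_lit 47202000) (nat_lit 164) (nat_lit 5) (nat_lit 163) (nat_lit 5) (nat_lit 178) (nat_lit 5) (nat_lit 307) (nat_lit 301) (nat_lit 112))))))))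
noncomputable def xc127 : XT := (XT.nd (nat_lit 75036) (nat_lit 0) (nat_lit 608) (XT.nd (nat_lit 37440) (nat_lit 0) (nat_lit 608) (XT.nd (nat_lit 390) (nat_lit 608) (nat_lit 0) (XT.nd (nat_lit 156) (nat_lit 0) (nat_lit 152) (XT.nd (nat_lit 78) (nat_lit 0) (nat_lit 76) (XT.lf (nat_lit 0) (nat_lit 5796910817) (nat_lit 1140) (nat_lit 9224603274) (nat_lit 1216) (nat_lit 81323860115) (nat_lit 148) (nat_lit 5) (nat_lit 163) (nat_lit 5) (nat_lit 164) (nat_lit 5) (nat_lit 308) (nat_lit 301) (nat_lit 111)) (XT.lf (nat_lit 0) (nat_lit 13022558974) (nat_lit 1140) (nat_lit 36430633393) (nat_lit 1216) (nat_lit 49496465394) (nat_lit 149) (nat_lit 5) (nat_lit 164) (nat_lit 5) (nat_lit 165) (nat_lit 5) (nat_lit 309) (nat_lit 301) (nat_lit 110))) (XT.nd (nat_lit 78) (nat_lit 0) (nat_lit 0) (XT.lf (nat_lit 0) (nat_lit 21362367093) (nat_lit 1140) (nat_lit 64888382812) (nat_lit 1216) (nat_lit 15410820726) (nat_lit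 150) (nat_lit 5) (nat_lit 165) (nat_lit 5) (nat_lit 166) (nat_lit 5) (nat_lit 310) (nat_lit 301) (nat_lit 109)) (XT.nd (nat_lit 78) (nat_lit 0) (nat_lit 76) (XT.lf (nat_lit 76) (nat_lit 9584279905) (nat_lit 0) (nat_lit 21504216680) (nat_lit 1216) (nat_lit 73391504024) (nat_lit 151) (nat_lit 5) (nat_lit 150) (nat_lit 5) (nat_lit 166) (nat_lit 5) (nat_lit 311) (nat_lit 301) (nat_lit 108)) (XT.lf (nat_lit 0) (nat_lit 42421657291) (nat_lit 1140) (nat_lit 18736723739) (nat_lit 76) (nat_lit 46247350640) (nat_lit 151) (nat_lit 5) (nat_lit 166) (nat_lit 5) (nat_lit 152) (nat_lit 5) (nat_lit 312) (nat_lit 301) (nat_lit 107))))) (XT.nd (nat_lit 36816) (nat_lit 0) (nat_lit 1520) (XT.nd (nat_lit 36660) (nat_lit 0) (nat_lit 1444) (XT.lf (nat_lit 0) (nat_lit 55204230672) (nat_lit 912) (nat_lit 48294559170) (nat_lit 76) (nat_lit 6952478069) (nat_lit 140) (nat_lit 5) (nat_lit 152) (nat_lit 5) (nat_lit 141)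 (nat_lit 5) (nat_lit 313) (nat_lit 301) (nat_lit 106)) (XT.nd (nat_lit 78) (nat_lit 0) (nat_lit 0) (XT.lf (nat_lit 0) (nat_lit 34913040365) (nat_lit 1140) (nat_lit 3702668643) (nat_lit 1140) (nat_lit 3702668643) (nat_lit 159) (nat_lit 3) (nat_lit 174) (nat_lit 3) (nat_lit 174) (nat_lit 5) (nat_lit 302) (nat_lit 302) (nat_lit 116)) (XT.lf (nat_lit 76) (nat_lit 53286480356) (nat_lit 0) (nat_lit 18811131978) (nat_lit 1140) (nat_lit 14639255416) (nat_lit 160) (nat_lit 5) (nat_lit 159) (nat_lit 3) (nat_lit 174) (nat_lit 5) (nat_lit 303) (nat_lit 302) (nat_lit 115)))) (XT.nd (nat_lit 78) (nat_lit 0) (nat_lit 76) (XT.lf (nat_lit 76) (nat_lit 28371496615) (nat_lit 0) (nat_lit 46868885619) (nat_lit 1140) (nat_lit 13678875658) (nat_lit 161) (nat_lit 5) (nat_lit 160) (nat_lit 5) (nat_lit 175) (nat_lit 5) (nat_lit 304) (nat_lit 302) (nat_lit 114)) (XT.nd (nat_lit 78) (nat_lit 0) (nat_lit 0) (XT.lf (nat_lit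 76) (nat_lit 2501889663) (nat_lit 0) (nat_lit 76735433450) (nat_lit 1140) (nat_lit 11952535285) (nat_lit 162) (nat_lit 5) (nat_lit 161) (nat_lit 5) (nat_lit 176) (nat_lit 5) (nat_lit 305) (nat_lit 302) (nat_lit 113)) (XT.lf (nat_lit 76) (nat_lit 69486325265) (nat_lit 0) (nat_lit 15038693570) (nat_lit 1140) (nat_lit 9016244606) (nat_lit 162) (nat_lit 5) (nat_lit 161) (nat_lit 5) (nat_lit 176) (nat_lit 5) (nat_lit 306) (nat_lit 302) (nat_lit 112)))))) (XT.nd (nat_lit 390) (nat_lit 0) (nat_lit 152) (XT.nd (nat_lit 156) (nat_lit 1064) (nat_lit 0) (XT.nd (nat_lit 78) (nat_lit 0) (nat_lit 76) (XT.lf (nat_lit 76) (nat_lit 44193460531) (nat_lit 0) (nat_lit 46785854095) (nat_lit 1140) (nat_lit 5003859313) (nat_lit 163) (nat_lit 5) (nat_lit 162) (nat_lit 5) (nat_lit 177) (nat_lit 5) (nat_lit 307) (nat_lit 302) (nat_lit 111)) (XT.lf (nat_lit 76) (nat_lit 17841050697) (nat_lit 0) (nat_lit 80657461912)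 (nat_lit 1140) (nat_lit 26403312) (nat_lit 164) (nat_lit 5) (nat_lit 163) (nat_lit 5) (nat_lit 178) (nat_lit 5) (nat_lit 308) (nat_lit 302) (nat_lit 110))) (XT.nd (nat_lit 78) (nat_lit 0) (nat_lit 76) (XT.lf (nat_lit 0) (nat_lit 6108381955) (nat_lit 1140) (nat_lit 9670140016) (nat_lit 1216) (nat_lit 85383427177) (nat_lit 148) (nat_lit 5) (nat_lit 163) (nat_lit 5) (nat_lit 164) (nat_lit 5) (nat_lit 309) (nat_lit 302) (nat_lit 109)) (XT.nd (nat_lit 78) (nat_lit 0) (nat_lit 76) (XT.lf (nat_lit 0) (nat_lit 13694376403) (nat_lit 1140) (nat_lit 38236203505) (nat_lit 1216) (nat_lit 51965897199) (nat_lit 149) (nat_lit 5) (nat_lit 164) (nat_lit 5) (nat_lit 165) (nat_lit 5) (nat_lit 310) (nat_lit 302) (nat_lit 108)) (XT.lf (nat_lit 0) (nat_lit 22450296940) (nat_lit 1140) (nat_lit 68116619706) (nat_lit 1216) (nat_lit 16177097355) (nat_lit 150) (nat_lit 5) (nat_lit 165) (nat_lit 5) (nat_lit 166) (nat_lit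 5) (nat_lit 311) (nat_lit 302) (nat_lit 107))))) (XT.nd (nat_lit 36972) (nat_lit 0) (nat_lit 760) (XT.nd (nat_lit 36816) (nat_lit 0) (nat_lit 684) (XT.lf (nat_lit 76) (nat_lit 10079212286) (nat_lit 0) (nat_lit 22582728312) (nat_lit 1216) (nat_lit 77041450593) (nat_lit 151) (nat_lit 5) (nat_lit 150) (nat_lit 5) (nat_lit 166) (nat_lit 5) (nat_lit 312) (nat_lit 302) (nat_lit 106)) (XT.nd (nat_lit 78) (nat_lit 0) (nat_lit 0) (XT.lf (nat_lit 0) (nat_lit 36672136492) (nat_lit 1140) (nat_lit 3880863570) (nat_lit 1140) (nat_lit 3880863570) (nat_lit 159) (nat_lit 3) (nat_lit 174) (nat_lit 3) (nat_lit 174) (nat_lit 5) (nat_lit 303) (nat_lit 303) (nat_lit 114)) (XT.lf (nat_lit 76) (nat_lit 55964283603) (nat_lit 0) (nat_lit 19763946746) (nat_lit 1140) (nat_lit 15344652328) (nat_lit 160) (nat_lit 5) (nat_lit 159) (nat_lit 3) (nat_lit 174) (nat_lit 5) (nat_lit 304) (nat_lit 303) (nat_lit 113)))) (XT.nd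 (nat_lit 78) (nat_lit 0) (nat_lit 76) (XT.lf (nat_lit 76) (nat_lit 29804083465) (nat_lit 0) (nat_lit 49222852159) (nat_lit 1140) (nat_lit 14337495478) (nat_lit 161) (nat_lit 5) (nat_lit 160) (nat_lit 5) (nat_lit 175) (nat_lit 5) (nat_lit 305) (nat_lit 303) (nat_lit 112)) (XT.nd (nat_lit 78) (nat_lit 0) (nat_lit 0) (XT.lf (nat_lit 76) (nat_lit 2641459809) (nat_lit 0) (nat_lit 80581138258) (nat_lit 1140) (nat_lit 12525999886) (nat_lit 162) (nat_lit 5) (nat_lit 161) (nat_lit 5) (nat_lit 176) (nat_lit 5) (nat_lit 306) (nat_lit 303) (nat_lit 111)) (XT.lf (nat_lit 76) (nat_lit 72974427873) (nat_lit 0) (nat_lit 15799135997) (nat_lit 1140) (nat_lit 9444045252) (nat_lit 162) (nat_lit 5) (nat_lit 161) (nat_lit 5) (nat_lit 176) (nat_lit 5) (nat_lit 307) (nat_lit 303) (nat_lit 110))))))) (XT.nd (nat_lit 74802) (nat_lit 0) (nat_lit 836) (XT.nd (nat_lit 37284) (nat_lit 0) (nat_lit 0) (XT.nd (nat_lit 156)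 (nat_lit 1064) (nat_lit 0) (XT.nd (nat_lit 78) (nat_lit 0) (nat_lit 76) (XT.lf (nat_lit 76) (nat_lit 46417301082) (nat_lit 0) (nat_lit 49132270045) (nat_lit 1140) (nat_lit 5232076435) (nat_lit 163) (nat_lit 5) (nat_lit 162) (nat_lit 5) (nat_lit 177) (nat_lit 5) (nat_lit 308) (nat_lit 303) (nat_lit 109)) (XT.lf (nat_lit 76) (nat_lit 18747596593) (nat_lit 0) (nat_lit 84696192676) (nat_lit 1140) (nat_lit 6717774) (nat_lit 164) (nat_lit 5) (nat_lit 163) (nat_lit 5) (nat_lit 178) (nat_lit 5) (nat_lit 309) (nat_lit 303) (nat_lit 108))) (XT.nd (nat_lit 78) (nat_lit 0) (nat_lit 76) (XT.lf (nat_lit 0) (nat_lit 6433416107) (nat_lit 1140) (nat_lit 10139412621) (nat_lit 1216) (nat_lit 89646588609) (nat_lit 148) (nat_lit 5) (nat_lit 163) (nat_lit 5) (nat_lit 164) (nat_lit 5) (nat_lit 310) (nat_lit 303) (nat_lit 107)) (XT.nd (nat_lit 36972) (nat_lit 0) (nat_lit 760) (XT.lf (nat_lit 0) (nat_lit 14397861191)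 (nat_lit 1140) (nat_lit 40133536077) (nat_lit 1216) (nat_lit 54559301842) (nat_lit 149) (nat_lit 5) (nat_lit 164) (nat_lit 5) (nat_lit 165) (nat_lit 5) (nat_lit 311) (nat_lit 303) (nat_lit 106)) (XT.lf (nat_lit 0) (nat_lit 38517937521) (nat_lit 1140) (nat_lit 4068613319) (nat_lit 1140) (nat_lit 4068613319) (nat_lit 159) (nat_lit 3) (nat_lit 174) (nat_lit 3) (nat_lit 174) (nat_lit 5) (nat_lit 304) (nat_lit 304) (nat_lit 112))))) (XT.nd (nat_lit 234) (nat_lit 836) (nat_lit 0) (XT.nd (nat_lit 78) (nat_lit 0) (nat_lit 76) (XT.lf (nat_lit 76) (nat_lit 58774723841) (nat_lit 0) (nat_lit 20763262604) (nat_lit 1140) (nat_lit 16087788927) (nat_lit 160) (nat_lit 5) (nat_lit 159) (nat_lit 3) (nat_lit 174) (nat_lit 5) (nat_lit 305) (nat_lit 304) (nat_lit 111)) (XT.nd (nat_lit 78) (nat_lit 0) (nat_lit 76) (XT.lf (nat_lit 76) (nat_lit 31306996952) (nat_lit 0) (nat_lit 51693538766) (nat_lit 1140) (nat_lit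 15031400672) (nat_lit 161) (nat_lit 5) (nat_lit 160) (nat_lit 5) (nat_lit 175) (nat_lit 5) (nat_lit 306) (nat_lit 304) (nat_lit 110)) (XT.lf (nat_lit 76) (nat_lit 2786662652) (nat_lit 0) (nat_lit 84618297788) (nat_lit 1140) (nat_lit 13130384086) (nat_lit 162) (nat_lit 5) (nat_lit 161) (nat_lit 5) (nat_lit 176) (nat_lit 5) (nat_lit 307) (nat_lit 304) (nat_lit 109)))) (XT.nd (nat_lit 78) (nat_lit 988) (nat_lit 0) (XT.lf (nat_lit 76) (nat_lit 76635653888) (nat_lit 0) (nat_lit 16596809575) (nat_lit 1140) (nat_lit 9895375330) (nat_lit 162) (nat_lit 5) (nat_lit 161) (nat_lit 5) (nat_lit 176) (nat_lit 5) (nat_lit 308) (nat_lit 304) (nat_lit 108)) (XT.nd (nat_lit 78) (nat_lit 1064) (nat_lit 0) (XT.lf (nat_lit 76) (nat_lit 48751016498) (nat_lit 0) (nat_lit 51595344541) (nat_lit 1140) (nat_lit 5473747520) (nat_lit 163) (nat_lit 5) (nat_lit 162) (nat_lit 5) (nat_lit 177) (nat_lit 5) (nat_lit 309) (nat_lit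 304) (nat_lit 107)) (XT.lf (nat_lit 0) (nat_lit 11764983) (nat_lit 1140) (nat_lit 88924431602) (nat_lit 1216) (nat_lit 19686238541) (nat_lit 148) (nat_lit 5) (nat_lit 163) (nat_lit 5) (nat_lit 164) (nat_lit 5) (nat_lit 310) (nat_lit 304) (nat_lit 106)))))) (XT.nd (nat_lit 390) (nat_lit 0) (nat_lit 0) (XT.nd (nat_lit 156) (nat_lit 0) (nat_lit 76) (XT.nd (nat_lit 78) (nat_lit 0) (nat_lit 0) (XT.lf (nat_lit 0) (nat_lit 40454894899) (nat_lit 1140) (nat_lit 4266335660) (nat_lit 1140) (nat_lit 4266335660) (nat_lit 159) (nat_lit 3) (nat_lit 174) (nat_lit 3) (nat_lit 174) (nat_lit 5) (nat_lit 305) (nat_lit 305) (nat_lit 110)) (XT.lf (nat_lit 76) (nat_lit 61724549428) (nat_lit 0) (nat_lit 21811510560) (nat_lit 1140) (nat_lit 16870322575) (nat_lit 160) (nat_lit 5) (nat_lit 159) (nat_lit 3) (nat_lit 174) (nat_lit 5) (nat_lit 306) (nat_lit 305) (nat_lit 109))) (XT.nd (nat_lit 78) (nat_lit 0) (nat_lit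 76) (XT.lf (nat_lit 76) (nat_lit 32883874522) (nat_lit 0) (nat_lit 54286872393) (nat_lit 1140) (nat_lit 15762136619) (nat_lit 161) (nat_lit 5) (nat_lit 160) (nat_lit 5) (nat_lit 175) (nat_lit 5) (nat_lit 307) (nat_lit 305) (nat_lit 108)) (XT.nd (nat_lit 78) (nat_lit 0) (nat_lit 0) (XT.lf (nat_lit 76) (nat_lit 2937904948) (nat_lit 0) (nat_lit 88856561990) (nat_lit 1140) (nat_lit 13767025019) (nat_lit 162) (nat_lit 5) (nat_lit 161) (nat_lit 5) (nat_lit 176) (nat_lit 5) (nat_lit 308) (nat_lit 305) (nat_lit 107)) (XT.lf (nat_lit 76) (nat_lit 80478778643) (nat_lit 0) (nat_lit 17433649399) (nat_lit 1140) (nat_lit 10371212410) (nat_lit 162) (nat_lit 5) (nat_lit 161) (nat_lit 5) (nat_lit 176) (nat_lit 5) (nat_lit 309) (nat_lit 305) (nat_lit 106))))) (XT.nd (nat_lit 37362) (nat_lit 0) (nat_lit 0) (XT.nd (nat_lit 37206) (nat_lit 228) (nat_lit 0) (XT.lf (nat_lit 76) (nat_lit 51200222979) (nat_lit 0)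 (nat_lit 54180972079) (nat_lit 1140) (nat_lit 5729355316) (nat_lit 163) (nat_lit 5) (nat_lit 162) (nat_lit 5) (nat_lit 177) (nat_lit 5) (nat_lit 310) (nat_lit 305) (nat_lit 105)) (XT.nd (nat_lit 78) (nat_lit 0) (nat_lit 0) (XT.lf (nat_lit 0) (nat_lit 42487671845) (nat_lit 1140) (nat_lit 4474474823) (nat_lit 1140) (nat_lit 4474474823) (nat_lit 159) (nat_lit 3) (nat_lit 174) (nat_lit 3) (nat_lit 174) (nat_lit 5) (nat_lit 306) (nat_lit 306) (nat_lit 108)) (XT.lf (nat_lit 76) (nat_lit 64820835308) (nat_lit 0) (nat_lit 22911233322) (nat_lit 1140) (nat_lit 17694014851) (nat_lit 160) (nat_lit 5) (nat_lit 159) (nat_lit 3) (nat_lit 174) (nat_lit 5) (nat_lit 307) (nat_lit 306) (nat_lit 107)))) (XT.nd (nat_lit 78) (nat_lit 76) (nat_lit 0) (XT.lf (nat_lit 76) (nat_lit 34538524232) (nat_lit 0) (nat_lit 57009067885) (nat_lit 1140) (nat_lit 16531346319) (nat_lit 161) (nat_lit 5) (nat_lit 160) (nat_lit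 5) (nat_lit 175) (nat_lit 5) (nat_lit 308) (nat_lit 306) (nat_lit 106)) (XT.nd (nat_lit 37440) (nat_lit 152) (nat_lit 0) (XT.lf (nat_lit 76) (nat_lit 3095602157) (nat_lit 0) (nat_lit 93306056133) (nat_lit 1140) (nat_lit 14437346092) (nat_lit 162) (nat_lit 5) (nat_lit 161) (nat_lit 5) (nat_lit 176) (nat_lit 5) (nat_lit 309) (nat_lit 306) (nat_lit 105)) (XT.lf (nat_lit 76) (nat_lit 68071000346) (nat_lit 0) (nat_lit 24065091799) (nat_lit 1140) (nat_lit 18560734775) (nat_lit 160) (nat_lit 5) (nat_lit 159) (nat_lit 3) (nat_lit 174) (nat_lit 5) (nat_lit 308) (nat_lit 307) (nat_lit 105))))))))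

set_option maxRecDepth 10000000 in
noncomputable def Tp : PT := (PT.nd (nat_lit 4623528) (PT.nd (nat_lit 4286490) (PT.nd (nat_lit 3986658) (PT.nd (nat_lit 3724344) pc0 pc1) (PT.nd (nat_lit 150228) pc2 pc3)) (PT.nd (nat_lit 187512) (PT.nd (nat_lit 112086) pc4 pc5) (PT.nd (nat_lit 75036) pc6 pc7))) (PT.nd (nat_lit 188604) (PT.nd (nat_lit 112398) (PT.nd (nat_lit 38610) pc8 pc9) (PT.nd (nat_lit 38142) pc10 pc11)) (PT.nd (nat_lit 112476) (PT.nd (nat_lit 37830) pc12 pc13) (PT.nd (nat_lit 75738) pc14 pc15))))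

set_option maxRecDepth 10000000 in
noncomputable def Tx : XT := (XT.nd (nat_lit 7267104) (nat_lit 0) (nat_lit 152) XT.nil (XT.nd (nat_lit 4275024) (nat_lit 0) (nat_lit 0) (XT.nd (nat_lit 2019810) (nat_lit 0) (nat_lit 380) (XT.nd (nat_lit 1385358) (nat_lit 0) (nat_lit 76) (XT.nd (nat_lit 973050) (nat_lit 0) (nat_lit 0) (XT.nd (nat_lit 674154) (nat_lit 0) (nat_lit 0) (XT.nd (nat_lit 485706) (nat_lit 0) (nat_lit 0) (XT.nd (nat_lit 336258) (nat_lit 0) (nat_lit 0) (XT.nd (nat_lit 224250) (nat_lit 0) (nat_lit 0) xc0 xc1) (XT.nd (nat_lit 75036) (nat_lit 0) (nat_lit 0) xc2 xc3)) (XT.nd (nat_lit 112164) (nat_lit 0) (nat_lit 0) (XT.nd (nat_lit 38688) (nat_lit 0) (nat_lit 0) xc4 xc5) (XT.nd (nat_lit 38220) (nat_lit 0) (nat_lit 0) xc6 xc7))) (XT.nd (nat_lit 150618) (nat_lit 0) (nat_lit 0) (XT.nd (nat_lit 75582) (nat_lit 0) (nat_lit 0) (XT.nd (nat_lit 37830) (nat_lit 0) (nat_lit 0) xc8 xc9) (XT.nd (nat_lit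 37596) (nat_lit 0) (nat_lit 0) xc10 xc11)) (XT.nd (nat_lit 74412) (nat_lit 0) (nat_lit 0) (XT.nd (nat_lit 37284) (nat_lit 0) (nat_lit 0) xc12 xc13) (XT.nd (nat_lit 36972) (nat_lit 0) (nat_lit 0) xc14 xc15)))) (XT.nd (nat_lit 224640) (nat_lit 0) (nat_lit 76) (XT.nd (nat_lit 112866) (nat_lit 0) (nat_lit 76) (XT.nd (nat_lit 73086) (nat_lit 0) (nat_lit 76) (XT.nd (nat_lit 36582) (nat_lit 0) (nat_lit 0) xc16 xc17) (XT.nd (nat_lit 3432) (nat_lit 0) (nat_lit 0) xc18 xc19)) (XT.nd (nat_lit 72384) (nat_lit 0) (nat_lit 0) (XT.nd (nat_lit 36270) (nat_lit 0) (nat_lit 0) xc20 xc21) (XT.nd (nat_lit 3432) (nat_lit 152) (nat_lit 0) xc22 xc23))) (XT.nd (nat_lit 110292) (nat_lit 0) (nat_lit 0) (XT.nd (nat_lit 39156) (nat_lit 0) (nat_lit 0) (XT.nd (nat_lit 35724) (nat_lit 0) (nat_lit 152) xc24 xc25) (XT.nd (nat_lit 35646) (nat_lit 0) (nat_lit 0) xc26 xc27)) (XT.nd (nat_lit 38766) (nat_lit 0) (nat_lit 0) (XT.nd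 (nat_lit 3432) (nat_lit 304) (nat_lit 0) xc28 xc29) (XT.nd (nat_lit 3432) (nat_lit 0) (nat_lit 0) xc30 xc31))))) (XT.nd (nat_lit 334386) (nat_lit 0) (nat_lit 152) (XT.nd (nat_lit 184080) (nat_lit 0) (nat_lit 76) (XT.nd (nat_lit 76674) (nat_lit 0) (nat_lit 0) (XT.nd (nat_lit 38376) (nat_lit 0) (nat_lit 0) (XT.nd (nat_lit 34944) (nat_lit 0) (nat_lit 456) xc32 xc33) (XT.nd (nat_lit 34866) (nat_lit 0) (nat_lit 228) xc34 xc35)) (XT.nd (nat_lit 38220) (nat_lit 0) (nat_lit 0) (XT.nd (nat_lit 34788) (nat_lit 0) (nat_lit 152) xc36 xc37) (XT.nd (nat_lit 34632) (nat_lit 0) (nat_lit 76) xc38 xc39))) (XT.nd (nat_lit 75426) (nat_lit 0) (nat_lit 76) (XT.nd (nat_lit 37752) (nat_lit 0) (nat_lit 76) (XT.nd (nat_lit 3354) (nat_lit 988) (nat_lit 0) xc40 xc41) (XT.nd (nat_lit 3432) (nat_lit 836) (nat_lit 0) xc42 xc43)) (XT.nd (nat_lit 37518) (nat_lit 0) (nat_lit 0) (XT.nd (nat_lit 3432) (nat_lit 760) (nat_lit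 0) xc44 xc45) (XT.nd (nat_lit 3432) (nat_lit 836) (nat_lit 0) xc46 xc47)))) (XT.nd (nat_lit 149214) (nat_lit 0) (nat_lit 76) (XT.nd (nat_lit 74412) (nat_lit 0) (nat_lit 0) (XT.nd (nat_lit 37128) (nat_lit 0) (nat_lit 0) (XT.nd (nat_lit 3354) (nat_lit 1064) (nat_lit 0) xc48 xc49) (XT.nd (nat_lit 3432) (nat_lit 1368) (nat_lit 0) xc50 xc51)) (XT.nd (nat_lit 37362) (nat_lit 0) (nat_lit 76) (XT.nd (nat_lit 3432) (nat_lit 1748) (nat_lit 0) xc52 xc53) (XT.nd (nat_lit 3432) (nat_lit 1900) (nat_lit 0) xc54 xc55))) (XT.nd (nat_lit 75270) (nat_lit 0) (nat_lit 0) (XT.nd (nat_lit 37596) (nat_lit 0) (nat_lit 0) (XT.nd (nat_lit 3432) (nat_lit 2052) (nat_lit 0) xc56 xc57) (XT.nd (nat_lit 3432) (nat_lit 2052) (nat_lit 0) xc58 xc59)) (XT.nd (nat_lit 37752) (nat_lit 0) (nat_lit 0) (XT.nd (nat_lit 3432) (nat_lit 2052) (nat_lit 0) xc60 xc61) (XT.nd (nat_lit 3432) (nat_lit 1824) (nat_lit 0) xc62 xc63)))))) (XT.nd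 (nat_lit 714870) (nat_lit 0) (nat_lit 760) (XT.nd (nat_lit 305604) (nat_lit 0) (nat_lit 152) (XT.nd (nat_lit 152022) (nat_lit 0) (nat_lit 152) (XT.nd (nat_lit 75816) (nat_lit 0) (nat_lit 0) (XT.nd (nat_lit 37830) (nat_lit 0) (nat_lit 0) (XT.nd (nat_lit 3354) (nat_lit 1444) (nat_lit 0) xc64 xc65) (XT.nd (nat_lit 3432) (nat_lit 1064) (nat_lit 0) xc66 xc67)) (XT.nd (nat_lit 38064) (nat_lit 0) (nat_lit 76) (XT.nd (nat_lit 3432) (nat_lit 760) (nat_lit 0) xc68 xc69) (XT.nd (nat_lit 3432) (nat_lit 380) (nat_lit 0) xc70 xc71))) (XT.nd (nat_lit 76596) (nat_lit 0) (nat_lit 0) (XT.nd (nat_lit 38220) (nat_lit 0) (nat_lit 0) (XT.nd (nat_lit 3354) (nat_lit 76) (nat_lit 0) xc72 xc73) (XT.nd (nat_lit 34944) (nat_lit 0) (nat_lit 1596) xc74 xc75)) (XT.nd (nat_lit 38454) (nat_lit 0) (nat_lit 0) (XT.nd (nat_lit 35022) (nat_lit 0) (nat_lit 760) xc76 xc77) (XT.nd (nat_lit 35100) (nat_lit 0) (nat_lit 228) xc78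 xc79)))) (XT.nd (nat_lit 187122) (nat_lit 0) (nat_lit 228) (XT.nd (nat_lit 109200) (nat_lit 0) (nat_lit 228) (XT.nd (nat_lit 70356) (nat_lit 0) (nat_lit 76) (XT.nd (nat_lit 35100) (nat_lit 0) (nat_lit 76) xc80 xc81) (XT.nd (nat_lit 3432) (nat_lit 1140) (nat_lit 0) xc82 xc83)) (XT.nd (nat_lit 38922) (nat_lit 0) (nat_lit 0) (XT.nd (nat_lit 3432) (nat_lit 0) (nat_lit 0) xc84 xc85) (XT.nd (nat_lit 35568) (nat_lit 0) (nat_lit 380) xc86 xc87))) (XT.nd (nat_lit 110604) (nat_lit 0) (nat_lit 228) (XT.nd (nat_lit 71292) (nat_lit 0) (nat_lit 76) (XT.nd (nat_lit 35568) (nat_lit 0) (nat_lit 0) xc88 xc89) (XT.nd (nat_lit 3432) (nat_lit 760) (nat_lit 0) xc90 xc91)) (XT.nd (nat_lit 39390) (nat_lit 0) (nat_lit 0) (XT.nd (nat_lit 35958) (nat_lit 0) (nat_lit 608) xc92 xc93) (XT.nd (nat_lit 36036) (nat_lit 0) (nat_lit 76) xc94 xc95))))) (XT.nd (nat_lit 488592) (nat_lit 0) (nat_lit 1368) (XT.nd (nat_lit 225576)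 (nat_lit 0) (nat_lit 456) (XT.nd (nat_lit 112320) (nat_lit 0) (nat_lit 152) (XT.nd (nat_lit 39546) (nat_lit 0) (nat_lit 0) (XT.nd (nat_lit 3354) (nat_lit 152) (nat_lit 0) xc96 xc97) (XT.nd (nat_lit 36348) (nat_lit 0) (nat_lit 152) xc98 xc99)) (XT.nd (nat_lit 39936) (nat_lit 0) (nat_lit 152) (XT.nd (nat_lit 3432) (nat_lit 304) (nat_lit 0) xc100 xc101) (XT.nd (nat_lit 36582) (nat_lit 0) (nat_lit 152) xc102 xc103))) (XT.nd (nat_lit 114036) (nat_lit 0) (nat_lit 380) (XT.nd (nat_lit 40170) (nat_lit 0) (nat_lit 152) (XT.nd (nat_lit 36738) (nat_lit 0) (nat_lit 532) xc104 xc105) (XT.nd (nat_lit 36894) (nat_lit 0) (nat_lit 76) xc106 xc107)) (XT.nd (nat_lit 74334) (nat_lit 0) (nat_lit 152) (XT.nd (nat_lit 37128) (nat_lit 0) (nat_lit 152) xc108 xc109) (XT.nd (nat_lit 37284) (nat_lit 0) (nat_lit 228) xc110 xc111)))) (XT.nd (nat_lit 337818) (nat_lit 0) (nat_lit 1824) (XT.nd (nat_lit 150540) (nat_lit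 0) (nat_lit 684) (XT.nd (nat_lit 75036) (nat_lit 0) (nat_lit 228) (XT.nd (nat_lit 37440) (nat_lit 0) (nat_lit 0) xc112 xc113) (XT.nd (nat_lit 37674) (nat_lit 0) (nat_lit 228) xc114 xc115)) (XT.nd (nat_lit 75972) (nat_lit 0) (nat_lit 532) (XT.nd (nat_lit 37908) (nat_lit 0) (nat_lit 228) xc116 xc117) (XT.nd (nat_lit 38142) (nat_lit 0) (nat_lit 0) xc118 xc119))) (XT.nd (nat_lit 225732) (nat_lit 0) (nat_lit 2280) (XT.nd (nat_lit 112320) (nat_lit 0) (nat_lit 1216) (XT.nd (nat_lit 38454) (nat_lit 0) (nat_lit 532) xc120 xc121) (XT.nd (nat_lit 38844) (nat_lit 0) (nat_lit 304) xc122 xc123)) (XT.nd (nat_lit 150540) (nat_lit 0) (nat_lit 1748) (XT.nd (nat_lit 75036) (nat_lit 0) (nat_lit 836) xc124 xc125) (XT.nd (nat_lit 112476) (nat_lit 0) (nat_lit 2128) xc126 xc127))))))) XT.nil))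

set_option maxRecDepth 10000000 in
noncomputable def Te : XT := XT.nil

set_option maxRecDepth 10000000 in
noncomputable def Tz : ZL := (ZL.cons (nat_lit 76) (nat_lit 3) (nat_lit 88071976913256066796) (ZL.cons (nat_lit 152) (nat_lit 6) (nat_lit 172468403566003189466) (ZL.cons (nat_lit 228) (nat_lit 6) (nat_lit 169002157717219348504) (ZL.cons (nat_lit 304) (nat_lit 3) (nat_lit 84405205218426613186) (ZL.cons (nat_lit 380) (nat_lit 6) (nat_lit 165362599575996315494) (ZL.cons (nat_lit 456) (nat_lit 6) (nat_lit 162116761909954226092) (ZL.cons (nat_lit 532) (nat_lit 3) (nat_lit 80967072726231340602) (ZL.cons (nat_lit 608) (nat_lit 6) (nat_lit 158708632360610032220) (ZL.cons (nat_lit 684) (nat_lit 6) (nat_lit 155678380507362528902) (ZL.cons (nat_lit 760) (nat_lit 3) (nat_lit 77752230035828147838) (ZL.cons (nat_lit 836) (nat_lit 6) (nat_lit 152836175007355296240) (ZL.cons (nat_lit 912) (nat_lit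 6) (nat_lit 152496616061452650416) (ZL.cons (nat_lit 988) (nat_lit 6) (nat_lit 149677938796641468720) (ZL.cons (nat_lit 1064) (nat_lit 3) (nat_lit 74756150143222528061) (ZL.cons (nat_lit 1140) (nat_lit 6) (nat_lit 147041717140877962052) (ZL.cons (nat_lit 1216) (nat_lit 6) (nat_lit 146718327668589727936) (ZL.cons (nat_lit 1292) (nat_lit 6) (nat_lit 144108045892129867456) (ZL.cons (nat_lit 1368) (nat_lit 3) (nat_lit 71975147465019022969) (ZL.cons (nat_lit 1444) (nat_lit 6) (nat_lit 141675240000454855970) (ZL.cons (nat_lit 1520) (nat_lit 6) (nat_lit 141367250026847013954) (ZL.cons (nat_lit 1596) (nat_lit 6) (nat_lit 139414117598584514880) (ZL.cons (nat_lit 1672) (nat_lit 6) (nat_lit 138963042852104272392) (ZL.cons (nat_lit 1748) (nat_lit 3) (nat_lit 69406401920294125947) (ZL.cons (nat_lit 1824) (nat_lit 6) (nat_lit 136731949103012814718) (ZL.cons (nat_lit 1900) (nat_lit 6) (nat_lit 136438625318624393748)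 (ZL.cons (nat_lit 1976) (nat_lit 6) (nat_lit 134668656651598613652) (ZL.cons (nat_lit 2052) (nat_lit 6) (nat_lit 134239061654950763662) (ZL.cons (nat_lit 2128) (nat_lit 3) (nat_lit 67047988441039181595) (ZL.cons (nat_lit 2204) (nat_lit 6) (nat_lit 132768252896786873480) (ZL.cons (nat_lit 2280) (nat_lit 6) (nat_lit 132208875793225281564) (ZL.cons (nat_lit 2356) (nat_lit 6) (nat_lit 131929519808093452072) (ZL.cons (nat_lit 2432) (nat_lit 6) (nat_lit 130343233957586696308) (ZL.cons (nat_lit 2508) (nat_lit 6) (nat_lit 129934095865541124890) (ZL.cons (nat_lit 2584) (nat_lit 3) (nat_lit 64898912326640847935) (ZL.cons (nat_lit 2660) (nat_lit 6) (nat_lit 128637694143664439834) (ZL.cons (nat_lit 2736) (nat_lit 6) (nat_lit 128104954045034352296) (ZL.cons (nat_lit 2812) (nat_lit 6) (nat_lit 127838900725861181350) (ZL.cons (nat_lit 2888) (nat_lit 6) (nat_lit 127088195542377744862) (ZL.cons (nat_lit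 2964) (nat_lit 6) (nat_lit 126437739247000499118) (ZL.cons (nat_lit 3040) (nat_lit 6) (nat_lit 126048083921242812052) (ZL.cons (nat_lit 3116) (nat_lit 3) (nat_lit 62959150907164535063) (ZL.cons (nat_lit 3192) (nat_lit 6) (nat_lit 124928481912396627606) (ZL.cons (nat_lit 3268) (nat_lit 6) (nat_lit 124421110389891782334) (ZL.cons (nat_lit 3344) (nat_lit 6) (nat_lit 124167726276393524288) (ZL.cons (nat_lit 3420) (nat_lit 6) (nat_lit 123573588571378442832) (ZL.cons (nat_lit 3496) (nat_lit 6) (nat_lit 122954106385304875456) (ZL.cons (nat_lit 3572) (nat_lit 6) (nat_lit 122583006075059459204) (ZL.cons (nat_lit 3648) (nat_lit 3) (nat_lit 61229702034237471542) (ZL.cons (nat_lit 3724) (nat_lit 6) (nat_lit 122369833287419711020) (ZL.cons (nat_lit 3800) (nat_lit 6) (nat_lit 121643579040804503544) (ZL.cons (nat_lit 3876) (nat_lit 6) (nat_lit 121160368066990365188) (ZL.cons (nat_lit 3952) (nat_lit 6)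 (nat_lit 120919049863658690862) (ZL.cons (nat_lit 4028) (nat_lit 6) (nat_lit 121314349976511006620) (ZL.cons (nat_lit 4104) (nat_lit 6) (nat_lit 120486408053189475242) (ZL.cons (nat_lit 4180) (nat_lit 6) (nat_lit 119896425018833696786) (ZL.cons (nat_lit 4256) (nat_lit 6) (nat_lit 119542996151933300356) (ZL.cons (nat_lit 4332) (nat_lit 3) (nat_lit 59712639977593071075) (ZL.cons (nat_lit 4408) (nat_lit 6) (nat_lit 120404625583150166048) (ZL.cons (nat_lit 4484) (nat_lit 6) (nat_lit 119479838253441659524) (ZL.cons (nat_lit 4560) (nat_lit 6) (nat_lit 118788167542379557166) (ZL.cons (nat_lit 4636) (nat_lit 6) (nat_lit 118327966614937520636) (ZL.cons (nat_lit 4712) (nat_lit 6) (nat_lit 118098139754621640326) (ZL.cons (nat_lit 4788) (nat_lit 6) (nat_lit 118621473046799752072) (ZL.cons (nat_lit 4864) (nat_lit 6) (nat_lit 117832956929350674568) (ZL.cons (nat_lit 4940) (nat_lit 6) (nat_lit 117271068325202314136)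 (ZL.cons (nat_lit 5016) (nat_lit 6) (nat_lit 116934469404344793726) (ZL.cons (nat_lit 5092) (nat_lit 3) (nat_lit 58411179370388035811) (ZL.cons (nat_lit 5168) (nat_lit 6) (nat_lit 116493286487343670884) (ZL.cons (nat_lit 5244) (nat_lit 6) (nat_lit 116634380242911250604) (ZL.cons (nat_lit 5320) (nat_lit 6) (nat_lit 116916903691559666186) (ZL.cons (nat_lit 5396) (nat_lit 6) (nat_lit 117341529508166651950) (ZL.cons (nat_lit 5472) (nat_lit 6) (nat_lit 117909268706581272150) (ZL.cons (nat_lit 5548) (nat_lit 6) (nat_lit 117028518868763646886) (ZL.cons (nat_lit 5624) (nat_lit 6) (nat_lit 116369784858228311308) (ZL.cons (nat_lit 5700) (nat_lit 6) (nat_lit 115931498260664466996) (ZL.cons (nat_lit 5776) (nat_lit 6) (nat_lit 115712615536554104792) (ZL.cons (nat_lit 5852) (nat_lit 3) (nat_lit 57606606454472465742) (ZL.cons (nat_lit 5928) (nat_lit 6) (nat_lit 115285480442284423536) (ZL.cons (nat_lit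 6004) (nat_lit 6) (nat_lit 115502455107858469910) (ZL.cons (nat_lit 6080) (nat_lit 6) (nat_lit 115864653512013675478) (ZL.cons (nat_lit 6156) (nat_lit 6) (nat_lit 116372938031902790728) (ZL.cons (nat_lit 6232) (nat_lit 6) (nat_lit 115621970300998907390) (ZL.cons (nat_lit 6308) (nat_lit 6) (nat_lit 115086838297048087932) (ZL.cons (nat_lit 6384) (nat_lit 6) (nat_lit 114766267896231401826) (ZL.cons (nat_lit 6460) (nat_lit 3) (nat_lit 57329747917844880863) (ZL.cons (nat_lit 6536) (nat_lit 6) (nat_lit 114135188970799426062) (ZL.cons (nat_lit 6612) (nat_lit 6) (nat_lit 114283337414145384768) (ZL.cons (nat_lit 6688) (nat_lit 6) (nat_lit 114579987035226221128) (ZL.cons (nat_lit 6764) (nat_lit 6) (nat_lit 115025844142663556182) (ZL.cons (nat_lit 6840) (nat_lit 6) (nat_lit 114398478418344188964) (ZL.cons (nat_lit 6916) (nat_lit 6) (nat_lit 113981062611140527712) (ZL.cons (nat_lit 6992) (nat_lit 6)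 (nat_lit 113772602873892563710) (ZL.cons (nat_lit 7068) (nat_lit 3) (nat_lit 56590383519619218380) (ZL.cons (nat_lit 7144) (nat_lit 6) (nat_lit 113256647949244903414) (ZL.cons (nat_lit 7220) (nat_lit 6) (nat_lit 113484471348097652106) (ZL.cons (nat_lit 7296) (nat_lit 6) (nat_lit 113864779672460617952) (ZL.cons (nat_lit 7372) (nat_lit 6) (nat_lit 113355130144888408940) (ZL.cons (nat_lit 7448) (nat_lit 6) (nat_lit 113049825001253469792) (ZL.cons (nat_lit 7524) (nat_lit 3) (nat_lit 56474068662273572945) (ZL.cons (nat_lit 7600) (nat_lit 6) (nat_lit 112419942214431072318) (ZL.cons (nat_lit 7676) (nat_lit 6) (nat_lit 112575498079944328958) (ZL.cons (nat_lit 7752) (nat_lit 6) (nat_lit 112886980182079207136) (ZL.cons (nat_lit 7828) (nat_lit 6) (nat_lit 112489441318075720228) (ZL.cons (nat_lit 7904) (nat_lit 6) (nat_lit 112290908234982421180) (ZL.cons (nat_lit 7980) (nat_lit 3) (nat_lit 55885614026596214990)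 (ZL.cons (nat_lit 8056) (nat_lit 6) (nat_lit 111850903008699219966) (ZL.cons (nat_lit 8132) (nat_lit 6) (nat_lit 112090117577494606092) (ZL.cons (nat_lit 8208) (nat_lit 6) (nat_lit 111799350774032759284) (ZL.cons (nat_lit 8284) (nat_lit 3) (nat_lit 55851252683822892069) (ZL.cons (nat_lit 8360) (nat_lit 6) (nat_lit 111308960908002217728) (ZL.cons (nat_lit 8436) (nat_lit 6) (nat_lit 111472294566791137200) (ZL.cons (nat_lit 8512) (nat_lit 6) (nat_lit 111283215440035614294) (ZL.cons (nat_lit 8588) (nat_lit 3) (nat_lit 55474190719759164689) (ZL.cons (nat_lit 8664) (nat_lit 6) (nat_lit 111032040142800458864) (ZL.cons (nat_lit 8740) (nat_lit 3) (nat_lit 55469903211215955552) (ZL.cons (nat_lit 8816) (nat_lit 6) (nat_lit 110768306080703545660) (ZL.cons (nat_lit 8892) (nat_lit 1) (nat_lit 18446744073709551617) ZL.nil)))))))))))))))))))))))))))))))))))))))))))))))))))))))))))))))))))))))))))))))))))))))))))))))))))))))))))))))))))))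

noncomputable def vl : XL := ⟨(nat_lit 0), (nat_lit 76), (nat_lit 15049718), (nat_lit 152), (nat_lit 645252000), (nat_lit 76), (nat_lit 15049718), (nat_lit 1), (nat_lit 5), (nat_lit 2), (nat_lit 4), (nat_lit 1), (nat_lit 4), (nat_lit 0), (nat_lit 0), (nat_lit 0)⟩

noncomputable def cp0 : Nat := (nat_lit 17295264742525319156227611355947851881472329330779834235114784465108409253288992585110830614967536249288753095002111037902709626288338951733776744554207638010267804665465802832246301037648099791848118272898715994146772515861859338971060548365701066195794611966061621581848626259158389588748199860155261933062831595830234473022630066165055022735549297048877721051637998676983161364786287426184967125065317162690965502601627658894113707929168160727117667050925429053504786518468943187783938127815634027381513157673173736398678364014237557707218135089971302775678065210016033659262219610163033522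024063474654956372416492755957951075470994126151707399969872419940716442237306901200593823317695363675008361099825730623090458451084099008504982540110481386961727382469226613324425129312492446067812699485204367382931582369010974680932259672402513869517463015751170881660688625803431249723002321466680381795331616593161052627846845414724848634845493461752082341403429921344887123329979109300439430351939107482026210695093857725836656323763847204670531256175989890974739711779385023609793701857355441957737446201892056852465242128421116898634772890793121661396244827228215298759223928054669185097066660938522432156112873831390504476489894833816098454605624633095111568715749285122490636841482528322665237924859180206076858668410952870545685464793559310950050419735153863566514092518776956074432401219877875812814444529079382159611627727910154806735322846636501978535845921924457397604773741238649931968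012036951949452264104675502510873299060902420831095460384505878802418304095196743175431861406151916024008905566581049573196552464540648756846274373772497144903319160828145605077660313121450158666138243560591577756468414293229952743300759897548788121393955626026088858450848753904121373636304387741125351103595712407421085498297965675809505315627618604731203989218575076672388528468993890125590077074166800940156038652041215903359960657265237024843939578971352109557122753132051018983671179171861852490227550563851306344974110960617567880800943447660394670672328772067382076997609512830630960089604201908742057126463664581743940716878684808923603064652723777188302548628798704081484549872676258840855736354919295043471941692569117983975818115122571606122403028013975563080346319054994828477604806679105812396250142497053144481161239637565921030000752068712815781609982451753676084871959474250632816192018956700137798490551740708073024326727878385228492415497308232982182733569145699273226111222703815329184479527303607887493361494651093427071788615716049154800081390936176945325843579309425219396544219470023653680613890620273592792486670838073491972703179638271623486691197639474617920321067653554765824)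

noncomputable def cp1 : Nat := (nat_lit 237897319169149153698131762060524552023344787032371840683145499860711518359150762742930332514665016306377573580464528956656795537859220376924431078532145476242673083747770266862128909337985065864044885182707457301215627151220978570369163410763459498154572897823599875421765968689172461148042455691335210180064217214991366390384097737971414102639905499921458179466827414108238507610822149573760346338748094142962059215006488777765471693012731857534237999699977283330384064306196643551507544817065109627873809032851619788468821483442228261312603874367383779319691687946794905512955961524007007537209058424521141188893236610520082454191807521883991657969013004656424220462153389507056510731712060103906117886606829081950938695029965352772328697700637677214272521374698433468002253811888892859787630874936301241716449940468703150440298247060507031385360704885561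527885434198951950675579891028804769107988630293759066589225328116993550188354811043089222106818641158603449055618581980387219772279115511972280083704964006297398596551929828034992750117855167954807480486607537494093661060520076417509293927080625651459513578473057420806694984606052864052446062942537012827830868546680655807417373423708378517486515684216297613084908754224855666085189555124792463944834259995966743278172661120732189280024841581021860530765688664138551897183757442788208402621848407310440703431187720909847079079318570665506270138374138542948777646925869549817986862977584843991946482844629145719439945534144854350514955372957921596660386133651839520836255903773428139000526759586282982038597774449020607088692154996688139884334549753491529025693363577528542209068465566250724082801851371925579996277720217802354605044972169586194454017797736010562002988642154954616589920029601017465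197902508039149326616500996880372047683624021986364415254610817420933052903768096898867664562026141114114010597848441254411640082704892825937005955230152894118642696652555291636659216880989587668800179913332885618622214143670394918872599333129229782085481706685445715280006461322534522055455724859654263106268392436986402860172126847917195751790536536004817164204592482865251903588252042283460345609467300688026210872280591893128311103491688005218787685470036395664159617198890006726743619681100870461811770570953475592799636300172686135857926380427791374643897604445443092557176663365064811591397709189136993285738093840895463339028799596310317255805401779491758710495885440400840443172816993612492875118167880595720233048470761174081788288284503715545292714920536316376119588825056701707827281513770531467771629231113368203254536509506190899956226564247018797351819736314778911471392950794757680399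640555110975289598700895555165101839356963551197356008315943886237847025378507106911489744728256874827632829482386767096443716131999344858264933723230619646421457953718025666162585510572805605376216367711963445445453309296259907406925151329520133473833827049633164371403921691782183479176468021833475304178623704503341336805576995591618713844974543706905562350204578851906013986815708613634945019984461465701677883848128130914433678110842949706702318768270574820591516860703649338199359200108719454271424675252644419259223088616620674463887795386382346353767482122165077845659584245066019519465251158659085293146732729597263481039434559138195082703735520445653557275413074245763546381634780107608279384614662434937343408415462243631419858545010742330795522931520782920741740026014485963772540898019885067356274445333027497397102215996097200138219341041225797600460694108615578984019550478961668135363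630338537466002352997254605323589903212927748393417965265586642073086513263764090312054258575114334960749169703768633289982636152659603071466991305233818757776722593391156721300663563501415560744953887358943427566771010418092491995495115562293301509464431928480338500035294387257053552120356483677377199598825396947749119249706218245093361841703237960683322782107873134411955627576711169718798311546642373020236379050638161768358619451427064486092253936170832513752652851530771264096116391548935551028162187781142832420497838662413126776051632947584337834090252875827171939823280639255820441413675536841377966965337043175812045371626570870268723360659238097344182669100241823074655503230144888251172256143934530547729072786313700666643875161250909950260185549105243599554705495211118780704064700017809101479232991294979905013389857062652748574609611033010485245665628045613167716389796736601480956974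989075662671270746090841414234739483347114788855225079439597149802953988853897808705674415278581198015198524067977167202929167560699853635526505117347888260774001417523156449541583964279382397978736086804951414589799799355605300171025504023468068270547220559690382774365470147055363829064320425895267683025913402095421592812039127695840215250037824829848896002399962552876340170291806471647955016648241511006492401972564389442905249854932085444892539563012762062257129668565834084191581140511318347255108488351973868730996484079262851830592768444569827011404562454705147357276392767378628815812658279665692650582997777344653180929409349740787697779474785457170901806621302140488143259026801680522642184420784648210282027230789877385308055169893111124878609248335484701155199419996822789547940780875361498649553303742372565241250564975054688341912559918324733343495927294091405166052427057009216143632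800374172503804154222155911997985205637223571749820704586776636760071744181186820476269110680415562816125942070949276039734299003042492177386142239312830240947873333317009512344163451869025597120606921681322776114812043607208820433025361787036064197746728847927418100626338084741674179444862632386824373905531369806443881359115070711709077218507477886019434326679487308629551657698971127354853094011462098408138745936879018579738699452647185878548441226278917744894611192688209428930117593416421437044759438445481295066405449957793155603621448436101603401175747258919794724686912581620661859124594606830585140645210480585851130094288341414821355397549778259397193390141030183914028649921758272200637975431229736546668912477180636567383830062528878448449709646251668939234512175438631331513653812925427761888254250013936338169108352913083931980469595403173494784)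

noncomputable def rc0 : Nat := (nat_lit 237897319169149153698131762060524552023344787032371840683145499860711518359150762742930332514665016306377573580464528956656795537859220376924431078532145476242673083747770266862128909337985065864044885182707457301215627151220978570369163410763459498154572897823599875421765968689172461148042455691335210180064217214991366390384097737971414102639905499921458179466827414108238507610822149573760346338748094142962059215006488777765471693012731857534237999699977283330384064306196643551507544817065109627873809032851619788468821483442228261312603874367383779319691687946794905512955961524007007537209058424521141188893236610520082454191807521883991657969013004656424220462153389507056510731712060103906117886606829081950938695029965352772328697700637677214272521374698433468002253811888892859787630874936301241716449940468703150440298247060507031385360704885561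527885434198951950675579891028804769107988630293759066589225328116993550188354811043089222106818641158603449055618581980387219772279115511972280083704964006297398596551929828034992750117855167954807480486607537494093661060520076417509293927080625651459513578473057420806694984606052864052446062942537012827830868546680655807417373423708378517486515684216297613084908754224855666085189555124792463944834259995966743278172661120732189280024841581021860530765688664138551897183757442788208402621848407310440703431187720909847079079318570665506270138374138542948777646925869549817986862977584843991946482844629145719439945534144854350514955372957921596660386133651839520836255903773428139000526759586282982038597774449020607088692154996688139884334549753491529025693363577528542209068465566250724082801851371925579996277720217802354605044972169586194454017797736010562002988642154954616589920029601017465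197902508039149326616500996880372047683624021986364415254610817420933052903768096898867664562026141114114010597848441254411640082704892825937005955230152894118642696652555291636659216880989587668800179913332885618622214143670394918872599333129229782085481706685445715280006461322534522055455724859654263106268392436986402860172126847917195751790536536004817164204592482865251903588252042283460345609467300688026210872280591893128311103491688005218787685470036395664159617198890006726743619681100870461811770570953475592799636300172686135857926380427791374643897604445443092557176663365064811591397709189136993285738093840895463339028799596310317255805401779491758710495885440400840443172816993612492875118167880595720233048470761174081788288284503715545292714920536316376119588825056701707827281513770531467771629231113368203254536509506190899956226564247018797351819736314778911471392950794757680399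640555110975289598700895555165101839356963551197356008315943886237847025378507106911489744728256874827632829482386767096443716131999344858264933723230619646421457953718025666162585510572805605376216367711963445445453309296259907406925151329520133473833827049633164371403921691782183479176468021833475304178623704503341336805576995591618713844974543706905562350204578851906013986815708613634945019984461465701677883848128130914433678110842949706702318768270574820591516860703649338199359200108719454271424675252644419259223088616620674463887795386382346353767482122165077845659584245066019519465251158659085293146732729597263481039434559138195082703735520445653557275413074245763546381634780107608279384614662434937343408415462243631419858545010742330795522931520782920741740026014485963772540898019885067356274445333027497397102215996097200138219341041225797600460694108615578984019550478961668135363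630338537466002352997254605323589903212927748393417965265586642073086513263764090312054258575114334960749169703768633289982636152659603071466991305233818757776722593391156721300663563501415560744953887358943427566771010418092491995495115562293301509464431928480338500035294387257053552120356483677377199598825396947749119249706218245093361841703237960683322782107873134411955627576711169718798311546642373020236379050638161768358619451427064486092253936170832513752652851530771264096116391548935551028162187781142832420497838662413126776051632947584337834090252875827171939823280639255820441413675536841377966965337043175812045371626570870268723360659238097344182669100241823074655503230144888251172256143934530547729072786313700666643875161250909950260185549105243599554705495211118780704064700017809101479232991294979905013389857062652748574609611033010485245665628045613167716389796736601480956974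989075662671270746090841414234739483347114788855225079439597149802953988853897808705674415278581198015198524067977167202929167560699853635526505117347888260774001417523156449541583964279382397978736086804951414589799799355605300171025504023468068270547220559690382774365470147055363829064320425895267683025913402095421592812039127695840215250037824829848896002399962552876340170291806471647955016648241511006492401972564389442905249854932085444892539563012762062257129668565834084191581140511318347255108488351973868730996484079262851830592768444569827011404562454705147357276392767378628815812658279665692650582997777344653180929409349740787697779474785457170901806621302140488143259026801680522642184420784648210282027230789877385308055169893111124878609248335484701155199419996822789547940780875361498649553303742372565241250564975054688341912559918324733343495927294091405166052427057009216143632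800374172503804154222155911997985205637223571749820704586776636760071744181186820476269110680415562816125942070949276039734299003042492177386142239312830240947873333317009512344163451869025597120606921681322776114812043607208820433025361787036064197746728847927418100626338084741674179444862632386824373905531369806443881359115070711709077218507477886019434326679487308629551657698971127354853094011462098408138745936879018579738699452647185878548441226278917744894611192688209428930117593416421437044759438445481295066405449957793155603621448436101603401175747258919794724686912581620661859124594606830585140645210480585851130094288341414821355397549778259397193390141030183914028649921758272200637975431229736546668912477180636567383830062528878448449709646251668939234512175438631331513653812925427761888254250013936338169108352913083931980469595403173494784)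

end Vale.Agent.Lib.P154.PChain.BT.S5
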